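import Mathlib

/-!
# rid 50 (S0069): module SORT

Stable sort by colour of the tuples of a TOWER (F_2-chain model of the antipodal spheres
`S^1 ⊂ S^2 ⊂ S^3`): the face identities survive when every tuple is replaced by its stable sort
with respect to an antipodally invariant colouring.
-/

namespace Crest.BRSort

set_option autoImplicit false

variable {E : Type*} {α : Type*} [LinearOrder α]

/-- The chain identities of a tower `L1, L2, L3` over `e0`. -/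
structure Tower [Neg E] (e0 : E) (L1 : List (E × E)) (L2 : List (E × E × E))
    (L3 : List (E × E × E × E)) : Prop where
  h1 : ∀ f : E → ZMod 2, (L1.map fun p => f p.1 + f p.2).sum = f e0 + f (-e0)
  h2 : ∀ f : E → E → ZMod 2,
    (L2.map fun t => f t.2.1 t.2.2 + f t.1 t.2.2 + f t.1 t.2.1).sum =
      (L1.map fun p => f p.1 p.2 + f (-p.1) (-p.2)).sum
  h3 : ∀ f : E → E → E → ZMod 2,
    (L3.map fun q => f q.2.1 q.2.2.1 q.2.2.2 + f q.1 q.2.2.1 q.2.2.2 + f q.1 q.2.1 q.2.2.2 +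
        f q.1 q.2.1 q.2.2.1).sum =
      (L2.map fun t => f t.1 t.2.1 t.2.2 + f (-t.1) (-t.2.1) (-t.2.2)).sum

/-- Stable sort of a pair. -/
def s2 (c : E → α) (p : E × E) : E × E := if c p.1 ≤ c p.2 then p else (p.2, p.1)

/-- Insertion into a sorted pair. -/
def i3 (c : E → α) (a : E) (p : E × E) : E × E × E :=
  if c a ≤ c p.1 then (a, p.1, p.2) else if c a ≤ c p.2 then (p.1, a, p.2) else (p.1, p.2, a)

/-- Stable sort of a triple. -/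
def s3 (c : E → α) (t : E × E × E) : E × E × E := i3 c t.1 (s2 c t.2)

/-- Insertion into a sorted triple. -/
def i4 (c : E → α) (a : E) (t : E × E × E) : E × E × E × E :=
  if c a ≤ c t.1 then (a, t.1, t.2.1, t.2.2) else
  if c a ≤ c t.2.1 then (t.1, a, t.2.1, t.2.2) else
  if c a ≤ c t.2.2 then (t.1, t.2.1, a, t.2.2) else (t.1, t.2.1, t.2.2, a)

/-- Stable sort of a 4-tuple. -/
def s4 (c : E → α) (q : E × E × E × E) : E × E × E × E := i4 c q.1 (s3 c q.2)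

/-! ### sortedness -/

theorem s2_sorted (c : E → α) (p : E × E) : c (s2 c p).1 ≤ c (s2 c p).2 := by
  unfold s2
  split_ifs with h
  · exact h
  · exact (not_le.1 h).le

theorem i3_sorted (c : E → α) (a : E) (p : E × E) (hp : c p.1 ≤ c p.2) :
    c (i3 c a p).1 ≤ c (i3 c a p).2.1 ∧ c (i3 c a p).2.1 ≤ c (i3 c a p).2.2 := by
  unfold i3
  split_ifs with h h'
  · exact ⟨h, hp⟩
  · exact ⟨(not_le.1 h).le, h'⟩
  · exact ⟨hp, (not_le.1 h').le⟩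

theorem s3_sorted (c : E → α) (t : E × E × E) :
    c (s3 c t).1 ≤ c (s3 c t).2.1 ∧ c (s3 c t).2.1 ≤ c (s3 c t).2.2 :=
  i3_sorted c t.1 _ (s2_sorted c t.2)

theorem i4_sorted (c : E → α) (a : E) (t : E × E × E) (h1 : c t.1 ≤ c t.2.1)
    (h2 : c t.2.1 ≤ c t.2.2) :
    c (i4 c a t).1 ≤ c (i4 c a t).2.1 ∧ c (i4 c a t).2.1 ≤ c (i4 c a t).2.2.1 ∧
      c (i4 c a t).2.2.1 ≤ c (i4 c a t).2.2.2 := by
  unfold i4
  split_ifs with h h' h''
  · exact ⟨h, h1, h2⟩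
  · exact ⟨(not_le.1 h).le, h', h2⟩
  · exact ⟨h1, (not_le.1 h').le, h''⟩
  · exact ⟨h1, h2, (not_le.1 h'').le⟩

theorem s4_sorted (c : E → α) (q : E × E × E × E) :
    c (s4 c q).1 ≤ c (s4 c q).2.1 ∧ c (s4 c q).2.1 ≤ c (s4 c q).2.2.1 ∧
      c (s4 c q).2.2.1 ≤ c (s4 c q).2.2.2 :=
  i4_sorted c q.1 _ (s3_sorted c q.2).1 (s3_sorted c q.2).2

/-! ### entries: properties of single entries and symmetric relations survive -/

theorem s2_all (c : E → α) (P : E → Prop) (p : E × E) :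
    (P (s2 c p).1 ∧ P (s2 c p).2) ↔ (P p.1 ∧ P p.2) := by
  unfold s2
  split_ifs <;> simp <;> tauto

theorem i3_all (c : E → α) (P : E → Prop) (a : E) (p : E × E) :
    (P (i3 c a p).1 ∧ P (i3 c a p).2.1 ∧ P (i3 c a p).2.2) ↔ (P a ∧ P p.1 ∧ P p.2) := by
  unfold i3
  split_ifs <;> simp <;> tauto

theorem s3_all (c : E → α) (P : E → Prop) (t : E × E × E) :
    (P (s3 c t).1 ∧ P (s3 c t).2.1 ∧ P (s3 c t).2.2) ↔ (P t.1 ∧ P t.2.1 ∧ P t.2.2) := by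
  unfold s3
  rw [i3_all, s2_all]

theorem i4_all (c : E → α) (P : E → Prop) (a : E) (t : E × E × E) :
    (P (i4 c a t).1 ∧ P (i4 c a t).2.1 ∧ P (i4 c a t).2.2.1 ∧ P (i4 c a t).2.2.2) ↔
      (P a ∧ P t.1 ∧ P t.2.1 ∧ P t.2.2) := by
  unfold i4
  split_ifs <;> simp <;> tauto

theorem s4_all (c : E → α) (P : E → Prop) (q : E × E × E × E) :
    (P (s4 c q).1 ∧ P (s4 c q).2.1 ∧ P (s4 c q).2.2.1 ∧ P (s4 c q).2.2.2) ↔
      (P q.1 ∧ P q.2.1 ∧ P q.2.2.1 ∧ P q.2.2.2) := by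
  unfold s4
  rw [i4_all, s3_all]

/-- pairwise symmetric relation on a pair -/
theorem s2_rel (c : E → α) (R : E → E → Prop) (hR : ∀ x y, R x y → R y x) (p : E × E)
    (h : R p.1 p.2) : R (s2 c p).1 (s2 c p).2 := by
  unfold s2
  split_ifs
  · exact h
  · exact hR _ _ h

theorem i3_rel (c : E → α) (R : E → E → Prop) (hR : ∀ x y, R x y → R y x) (a : E) (p : E × E)
    (h : R p.1 p.2) (ha : R a p.1 ∧ R a p.2) :
    R (i3 c a p).1 (i3 c a p).2.1 ∧ R (i3 c a p).1 (i3 c a p).2.2 ∧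
      R (i3 c a p).2.1 (i3 c a p).2.2 := by
  unfold i3
  split_ifs
  · exact ⟨ha.1, ha.2, h⟩
  · exact ⟨hR _ _ ha.1, h, ha.2⟩
  · exact ⟨h, hR _ _ ha.1, hR _ _ ha.2⟩

theorem s3_rel (c : E → α) (R : E → E → Prop) (hR : ∀ x y, R x y → R y x) (t : E × E × E)
    (h : R t.1 t.2.1 ∧ R t.1 t.2.2 ∧ R t.2.1 t.2.2) :
    R (s3 c t).1 (s3 c t).2.1 ∧ R (s3 c t).1 (s3 c t).2.2 ∧ R (s3 c t).2.1 (s3 c t).2.2 :=
  i3_rel c R hR _ _ (s2_rel c R hR _ h.2.2) ((s2_all c (R t.1) t.2).2 ⟨h.1, h.2.1⟩)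

theorem i4_rel (c : E → α) (R : E → E → Prop) (hR : ∀ x y, R x y → R y x) (a : E)
    (t : E × E × E) (h : R t.1 t.2.1 ∧ R t.1 t.2.2 ∧ R t.2.1 t.2.2)
    (ha : R a t.1 ∧ R a t.2.1 ∧ R a t.2.2) :
    R (i4 c a t).1 (i4 c a t).2.1 ∧ R (i4 c a t).1 (i4 c a t).2.2.1 ∧
      R (i4 c a t).1 (i4 c a t).2.2.2 ∧ R (i4 c a t).2.1 (i4 c a t).2.2.1 ∧
      R (i4 c a t).2.1 (i4 c a t).2.2.2 ∧ R (i4 c a t).2.2.1 (i4 c a t).2.2.2 := by
  unfold i4
  obtain ⟨h1, h2, h3⟩ := h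
  obtain ⟨a1, a2, a3⟩ := ha
  split_ifs
  · exact ⟨a1, a2, a3, h1, h2, h3⟩
  · exact ⟨hR _ _ a1, h1, h2, a2, a3, h3⟩
  · exact ⟨h1, hR _ _ a1, h2, hR _ _ a2, h3, a3⟩
  · exact ⟨h1, h2, hR _ _ a1, h3, hR _ _ a2, hR _ _ a3⟩

theorem s4_rel (c : E → α) (R : E → E → Prop) (hR : ∀ x y, R x y → R y x)
    (q : E × E × E × E)
    (h : R q.1 q.2.1 ∧ R q.1 q.2.2.1 ∧ R q.1 q.2.2.2 ∧ R q.2.1 q.2.2.1 ∧ R q.2.1 q.2.2.2 ∧
      R q.2.2.1 q.2.2.2) :
    R (s4 c q).1 (s4 c q).2.1 ∧ R (s4 c q).1 (s4 c q).2.2.1 ∧ R (s4 c q).1 (s4 c q).2.2.2 ∧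
      R (s4 c q).2.1 (s4 c q).2.2.1 ∧ R (s4 c q).2.1 (s4 c q).2.2.2 ∧
      R (s4 c q).2.2.1 (s4 c q).2.2.2 :=
  i4_rel c R hR _ _ (s3_rel c R hR _ ⟨h.2.2.2.1, h.2.2.2.2.1, h.2.2.2.2.2⟩)
    ((s3_all c (R q.1) q.2).2 ⟨h.1, h.2.1, h.2.2.1⟩)

/-! ### faces commute with the stable sort -/

section faces

variable {M : Type*} [AddCommMonoid M]

theorem d1_s2 (c : E → α) (f : E → M) (p : E × E) :
    f (s2 c p).1 + f (s2 c p).2 = f p.1 + f p.2 := by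
  unfold s2
  split_ifs
  · rfl
  · exact add_comm _ _

theorem d2_i3 (c : E → α) (f : E → E → M) (a : E) (p : E × E) (hp : c p.1 ≤ c p.2) :
    f (i3 c a p).2.1 (i3 c a p).2.2 + f (i3 c a p).1 (i3 c a p).2.2 +
        f (i3 c a p).1 (i3 c a p).2.1 =
      f p.1 p.2 + (f (s2 c (a, p.1)).1 (s2 c (a, p.1)).2 + f (s2 c (a, p.2)).1 (s2 c (a, p.2)).2) := by
  unfold i3 s2
  by_cases h : c a ≤ c p.1
  · have h' : c a ≤ c p.2 := h.trans hp
    simp only [h, h', if_true]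
    abel
  · by_cases h' : c a ≤ c p.2
    · simp only [h, h', if_true, if_false]
      abel
    · simp only [h, h', if_false]
      abel

theorem d2_s3 (c : E → α) (f : E → E → M) (t : E × E × E) :
    f (s3 c t).2.1 (s3 c t).2.2 + f (s3 c t).1 (s3 c t).2.2 + f (s3 c t).1 (s3 c t).2.1 =
      f (s2 c (t.2.1, t.2.2)).1 (s2 c (t.2.1, t.2.2)).2 +
        f (s2 c (t.1, t.2.2)).1 (s2 c (t.1, t.2.2)).2 +
        f (s2 c (t.1, t.2.1)).1 (s2 c (t.1, t.2.1)).2 := by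
  unfold s3
  rw [d2_i3 c f t.1 _ (s2_sorted c t.2)]
  have h := d1_s2 c (fun x => f (s2 c (t.1, x)).1 (s2 c (t.1, x)).2) t.2
  rw [h]
  have e : s2 c t.2 = s2 c (t.2.1, t.2.2) := rfl
  rw [e]
  abel

theorem d3_i4 (c : E → α) (f : E → E → E → M) (a : E) (t : E × E × E) (h1 : c t.1 ≤ c t.2.1)
    (h2 : c t.2.1 ≤ c t.2.2) :
    f (i4 c a t).2.1 (i4 c a t).2.2.1 (i4 c a t).2.2.2 +
        f (i4 c a t).1 (i4 c a t).2.2.1 (i4 c a t).2.2.2 +
        f (i4 c a t).1 (i4 c a t).2.1 (i4 c a t).2.2.2 +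
        f (i4 c a t).1 (i4 c a t).2.1 (i4 c a t).2.2.1 =
      f t.1 t.2.1 t.2.2 +
        (f (i3 c a (t.2.1, t.2.2)).1 (i3 c a (t.2.1, t.2.2)).2.1 (i3 c a (t.2.1, t.2.2)).2.2 +
         f (i3 c a (t.1, t.2.2)).1 (i3 c a (t.1, t.2.2)).2.1 (i3 c a (t.1, t.2.2)).2.2 +
         f (i3 c a (t.1, t.2.1)).1 (i3 c a (t.1, t.2.1)).2.1 (i3 c a (t.1, t.2.1)).2.2) := by
  unfold i4 i3
  by_cases h : c a ≤ c t.1
  · have h' : c a ≤ c t.2.1 := h.trans h1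
    simp only [h, h', if_true]
    abel
  · by_cases h' : c a ≤ c t.2.1
    · have h'' : c a ≤ c t.2.2 := h'.trans h2
      simp only [h, h', h'', if_true, if_false]
      abel
    · by_cases h'' : c a ≤ c t.2.2
      · simp only [h, h', h'', if_true, if_false]
        abel
      · simp only [h, h', h'', if_false]
        abel

theorem d3_s4 (c : E → α) (f : E → E → E → M) (q : E × E × E × E) :
    f (s4 c q).2.1 (s4 c q).2.2.1 (s4 c q).2.2.2 + f (s4 c q).1 (s4 c q).2.2.1 (s4 c q).2.2.2 +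
        f (s4 c q).1 (s4 c q).2.1 (s4 c q).2.2.2 + f (s4 c q).1 (s4 c q).2.1 (s4 c q).2.2.1 =
      f (s3 c (q.2.1, q.2.2.1, q.2.2.2)).1 (s3 c (q.2.1, q.2.2.1, q.2.2.2)).2.1
          (s3 c (q.2.1, q.2.2.1, q.2.2.2)).2.2 +
        f (s3 c (q.1, q.2.2.1, q.2.2.2)).1 (s3 c (q.1, q.2.2.1, q.2.2.2)).2.1
          (s3 c (q.1, q.2.2.1, q.2.2.2)).2.2 +
        f (s3 c (q.1, q.2.1, q.2.2.2)).1 (s3 c (q.1, q.2.1, q.2.2.2)).2.1
          (s3 c (q.1, q.2.1, q.2.2.2)).2.2 +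
        f (s3 c (q.1, q.2.1, q.2.2.1)).1 (s3 c (q.1, q.2.1, q.2.2.1)).2.1
          (s3 c (q.1, q.2.1, q.2.2.1)).2.2 := by
  unfold s4
  rw [d3_i4 c f q.1 _ (s3_sorted c q.2).1 (s3_sorted c q.2).2]
  have h := d2_s3 c (fun x y => f (i3 c q.1 (x, y)).1 (i3 c q.1 (x, y)).2.1
    (i3 c q.1 (x, y)).2.2) q.2
  rw [h]
  have e : s3 c q.2 = s3 c (q.2.1, q.2.2.1, q.2.2.2) := rfl
  rw [e]
  have e1 : ∀ a x y, s3 c (a, x, y) = i3 c a (s2 c (x, y)) := fun _ _ _ => rfl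
  simp only [e1, Prod.mk.eta]
  abel

end faces

/-! ### compatibility with the antipode -/

section neg

variable [Neg E]

theorem s2_neg (c : E → α) (hc : ∀ v, c (-v) = c v) (a b : E) :
    s2 c (-a, -b) = (-(s2 c (a, b)).1, -(s2 c (a, b)).2) := by
  unfold s2
  simp only [hc]
  split_ifs <;> rfl

theorem i3_neg (c : E → α) (hc : ∀ v, c (-v) = c v) (a : E) (p : E × E) :
    i3 c (-a) (-p.1, -p.2) = (-(i3 c a p).1, -(i3 c a p).2.1, -(i3 c a p).2.2) := by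
  unfold i3
  simp only [hc]
  split_ifs <;> rfl

theorem s3_neg (c : E → α) (hc : ∀ v, c (-v) = c v) (a b d : E) :
    s3 c (-a, -b, -d) =
      (-(s3 c (a, b, d)).1, -(s3 c (a, b, d)).2.1, -(s3 c (a, b, d)).2.2) := by
  unfold s3
  simp only
  rw [s2_neg c hc, i3_neg c hc]

end neg

/-- **SORT**: the stable sort of a tower by an antipodally invariant colouring is a tower. -/
theorem Tower.sort [Neg E] {e0 : E} {L1 : List (E × E)} {L2 : List (E × E × E)}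
    {L3 : List (E × E × E × E)} (T : Tower e0 L1 L2 L3) (c : E → α) (hc : ∀ v, c (-v) = c v) :
    Tower e0 (L1.map (s2 c)) (L2.map (s3 c)) (L3.map (s4 c)) where
  h1 f := by
    rw [List.map_map, ← T.h1 f]
    congr 1
    apply List.map_congr_left
    intro p _
    exact d1_s2 c f p
  h2 f := by
    rw [List.map_map, List.map_map]
    have h := T.h2 (fun x y => f (s2 c (x, y)).1 (s2 c (x, y)).2)
    have e1 : ((fun t : E × E × E => f t.2.1 t.2.2 + f t.1 t.2.2 + f t.1 t.2.1) ∘ s3 c) =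
        fun t : E × E × E => f (s2 c (t.2.1, t.2.2)).1 (s2 c (t.2.1, t.2.2)).2 +
        f (s2 c (t.1, t.2.2)).1 (s2 c (t.1, t.2.2)).2 +
        f (s2 c (t.1, t.2.1)).1 (s2 c (t.1, t.2.1)).2 := by
      funext t
      exact d2_s3 c f t
    rw [e1, h]
    congr 1
    apply List.map_congr_left
    intro p _
    simp only [Function.comp]
    rw [s2_neg c hc]
  h3 f := by
    rw [List.map_map, List.map_map]
    have h := T.h3 (fun x y z => f (s3 c (x, y, z)).1 (s3 c (x, y, z)).2.1 (s3 c (x, y, z)).2.2)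
    have e1 : ((fun q : E × E × E × E => f q.2.1 q.2.2.1 q.2.2.2 + f q.1 q.2.2.1 q.2.2.2 +
        f q.1 q.2.1 q.2.2.2 + f q.1 q.2.1 q.2.2.1) ∘ s4 c) = fun q : E × E × E × E =>
        f (s3 c (q.2.1, q.2.2.1, q.2.2.2)).1 (s3 c (q.2.1, q.2.2.1, q.2.2.2)).2.1
          (s3 c (q.2.1, q.2.2.1, q.2.2.2)).2.2 +
        f (s3 c (q.1, q.2.2.1, q.2.2.2)).1 (s3 c (q.1, q.2.2.1, q.2.2.2)).2.1
          (s3 c (q.1, q.2.2.1, q.2.2.2)).2.2 +
        f (s3 c (q.1, q.2.1, q.2.2.2)).1 (s3 c (q.1, q.2.1, q.2.2.2)).2.1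
          (s3 c (q.1, q.2.1, q.2.2.2)).2.2 +
        f (s3 c (q.1, q.2.1, q.2.2.1)).1 (s3 c (q.1, q.2.1, q.2.2.1)).2.1
          (s3 c (q.1, q.2.1, q.2.2.1)).2.2 := by
      funext q
      exact d3_s4 c f q
    rw [e1, h]
    congr 1
    apply List.map_congr_left
    intro t _
    simp only [Function.comp]
    rw [s3_neg c hc]

end Crest.BRSort
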