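import Mathlib

set_option autoImplicit false

/-!
# Rid 50 (S0069), geometry part

`K = {x xᵀ : x ∈ S³} ⊆ ℝ⁹`.  If ten closed sets cannot cover the unit sphere of `ℝ⁴` by symmetric
sets without orthogonal pairs, then `K` cannot be split into ten parts of smaller diameter.
-/

namespace Crest.BR

/-- No cover of the unit sphere of `ℝ⁴` by ten closed symmetric sets without orthogonal pairs. -/
def NoCover10 : Prop :=
  ¬ ∃ A : Fin 10 → Set (EuclideanSpace ℝ (Fin 4)),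
      (∀ c, IsClosed (A c)) ∧ (∀ x, ‖x‖ = 1 → ∃ c, x ∈ A c) ∧
      (∀ c x, x ∈ A c → -x ∈ A c) ∧
      (∀ c x y, x ∈ A c → y ∈ A c → ‖x‖ = 1 → ‖y‖ = 1 → inner ℝ x y ≠ 0)

end Crest.BR

namespace Crest.BRGeo

open Crest.BR

abbrev E4 := EuclideanSpace ℝ (Fin 4)
abbrev E9 := EuclideanSpace ℝ (Fin 9)

noncomputable def phi (x : E4) : E9 :=
  WithLp.toLp 2 ![√2 * (x 0 * x 1), √2 * (x 0 * x 2), √2 * (x 0 * x 3), √2 * (x 1 * x 2),
    √2 * (x 1 * x 3), √2 * (x 2 * x 3),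
    (x 0 ^ 2 + x 1 ^ 2 - x 2 ^ 2 - x 3 ^ 2) / 2,
    (x 0 ^ 2 - x 1 ^ 2 + x 2 ^ 2 - x 3 ^ 2) / 2,
    (x 0 ^ 2 - x 1 ^ 2 - x 2 ^ 2 + x 3 ^ 2) / 2]

theorem phi_neg (x : E4) : phi (-x) = phi x := by
  simp [phi]

theorem norm_sq4 (x : E4) : ‖x‖ ^ 2 = x 0 ^ 2 + x 1 ^ 2 + x 2 ^ 2 + x 3 ^ 2 := by
  rw [EuclideanSpace.norm_sq_eq]
  simp [Fin.sum_univ_four]

theorem inner4 (x y : E4) :
    inner ℝ x y = x 0 * y 0 + x 1 * y 1 + x 2 * y 2 + x 3 * y 3 := by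
  simp [PiLp.inner_apply, Fin.sum_univ_four]
  ring

theorem dist_phi_sq (x y : E4) (hx : ‖x‖ = 1) (hy : ‖y‖ = 1) :
    dist (phi x) (phi y) ^ 2 = 2 - 2 * (inner ℝ x y) ^ 2 := by
  have hx' := norm_sq4 x
  have hy' := norm_sq4 y
  rw [hx] at hx'
  rw [hy] at hy'
  have h2 : (√2 : ℝ) ^ 2 = 2 := Real.sq_sqrt (by norm_num)
  rw [dist_eq_norm, EuclideanSpace.norm_sq_eq, inner4]
  simp only [phi, Fin.sum_univ_succ, Real.norm_eq_abs, sq_abs]
  simp
  generalize x 0 = a at *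
  generalize x 1 = b at *
  generalize x 2 = c at *
  generalize x 3 = d at *
  generalize y 0 = a' at *
  generalize y 1 = b' at *
  generalize y 2 = c' at *
  generalize y 3 = d' at *
  have e : ∀ u v : ℝ, (√2 * u - √2 * v) ^ 2 = 2 * (u - v) ^ 2 := by
    intro u v
    have : (√2 * u - √2 * v) ^ 2 = (√2) ^ 2 * (u - v) ^ 2 := by ring
    rw [this, h2]
  simp only [e]
  have k1 : a ^ 2 = 1 - b ^ 2 - c ^ 2 - d ^ 2 := by linarith
  have k2 : a' ^ 2 = 1 - b' ^ 2 - c' ^ 2 - d' ^ 2 := by linarith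
  have s1 : (a ^ 2 + b ^ 2 + c ^ 2 + d ^ 2) = 1 := by linarith
  have s2 : (a' ^ 2 + b' ^ 2 + c' ^ 2 + d' ^ 2) = 1 := by linarith
  have key : 2 * (a * b - a' * b') ^ 2 + (2 * (a * c - a' * c') ^ 2 + (2 * (a * d - a' * d') ^ 2
      + (2 * (b * c - b' * c') ^ 2 + (2 * (b * d - b' * d') ^ 2 + (2 * (c * d - c' * d') ^ 2
      + (((a ^ 2 + b ^ 2 - c ^ 2 - d ^ 2) / 2 - (a' ^ 2 + b' ^ 2 - c' ^ 2 - d' ^ 2) / 2) ^ 2
      + (((a ^ 2 - b ^ 2 + c ^ 2 - d ^ 2) / 2 - (a' ^ 2 - b' ^ 2 + c' ^ 2 - d' ^ 2) / 2) ^ 2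
      + ((a ^ 2 - b ^ 2 - c ^ 2 + d ^ 2) / 2 - (a' ^ 2 - b' ^ 2 - c' ^ 2 + d' ^ 2) / 2) ^ 2)))))))
      = (a ^ 2 + b ^ 2 + c ^ 2 + d ^ 2) ^ 2 + (a' ^ 2 + b' ^ 2 + c' ^ 2 + d' ^ 2) ^ 2
        - 2 * (a * a' + b * b' + c * c' + d * d') ^ 2
        - ((a ^ 2 + b ^ 2 + c ^ 2 + d ^ 2) - (a' ^ 2 + b' ^ 2 + c' ^ 2 + d' ^ 2)) ^ 2 / 4 := by
    ring
  rw [s1, s2] at key
  linarith

theorem continuous_phi : Continuous phi := by
  unfold phi
  refine (PiLp.continuous_toLp 2 _).comp ?_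
  refine continuous_pi fun i => ?_
  fin_cases i <;> simp <;> fun_prop

theorem main (hNC : NoCover10) :
    ∃ S : Set (EuclideanSpace ℝ (Fin 9)), Bornology.IsBounded S ∧ S.Nontrivial ∧
      ∀ c : EuclideanSpace ℝ (Fin 9) → Fin 10, ∃ i : Fin 10,
        Metric.diam S ≤ Metric.diam (S ∩ c ⁻¹' {i}) := by
  have hle : ∀ x y : E4, ‖x‖ = 1 → ‖y‖ = 1 → dist (phi x) (phi y) ≤ √2 := by
    intro x y hx hy
    apply Real.le_sqrt_of_sq_le
    rw [dist_phi_sq x y hx hy]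
    nlinarith [sq_nonneg (inner ℝ x y : ℝ)]
  have hbd : Bornology.IsBounded (phi '' Metric.sphere (0 : E4) 1) :=
    ((isCompact_sphere (0 : E4) 1).image continuous_phi).isBounded
  refine ⟨phi '' Metric.sphere (0 : E4) 1, hbd, ?_, ?_⟩
  · refine ⟨phi (EuclideanSpace.single 0 1), ⟨_, by simp, rfl⟩,
      phi (EuclideanSpace.single 1 1), ⟨_, by simp, rfl⟩, ?_⟩
    intro h
    have h1 := dist_phi_sq (EuclideanSpace.single 0 1) (EuclideanSpace.single 1 1) (by simp)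
      (by simp)
    rw [h, dist_self, inner4] at h1
    simp at h1
  · intro c
    by_contra hcon
    push Not at hcon
    have hdS : Metric.diam (phi '' Metric.sphere (0 : E4) 1) ≤ √2 := by
      apply Metric.diam_le_of_forall_dist_le (Real.sqrt_nonneg 2)
      rintro _ ⟨x, hx, rfl⟩ _ ⟨y, hy, rfl⟩
      exact hle x y (by simpa using hx) (by simpa using hy)
    apply hNC
    refine ⟨fun i => closure {x : E4 | ‖x‖ = 1 ∧ c (phi x) = i}, fun _ => isClosed_closure,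
      fun x hx => ⟨c (phi x), subset_closure ⟨hx, rfl⟩⟩, ?_, ?_⟩
    · intro i x hx
      have h1 : Set.MapsTo (fun x : E4 => -x) {x : E4 | ‖x‖ = 1 ∧ c (phi x) = i}
          {x : E4 | ‖x‖ = 1 ∧ c (phi x) = i} := by
        intro z hz
        exact ⟨by simpa using hz.1, by rw [phi_neg]; exact hz.2⟩
      exact h1.closure continuous_neg hx
    · intro i x y hx hy hx1 hy1 h0
      set D := Metric.diam ((phi '' Metric.sphere (0 : E4) 1) ∩ c ⁻¹' {i}) with hD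
      have hDlt : D < √2 := lt_of_lt_of_le (hcon i) hdS
      have hin : {x : E4 | ‖x‖ = 1 ∧ c (phi x) = i} ×ˢ {x : E4 | ‖x‖ = 1 ∧ c (phi x) = i} ⊆
          {p : E4 × E4 | dist (phi p.1) (phi p.2) ≤ D} := by
        rintro ⟨u, v⟩ ⟨hu, hv⟩
        change dist (phi u) (phi v) ≤ D
        apply Metric.dist_le_diam_of_mem (hbd.subset Set.inter_subset_left)
        · exact ⟨⟨u, by simpa using hu.1, rfl⟩, hu.2⟩
        · exact ⟨⟨v, by simpa using hv.1, rfl⟩, hv.2⟩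
      have hcl : IsClosed {p : E4 × E4 | dist (phi p.1) (phi p.2) ≤ D} := by
        apply isClosed_le
        · exact (continuous_phi.comp continuous_fst).dist (continuous_phi.comp continuous_snd)
        · exact continuous_const
      have hcl2 : (x, y) ∈ closure ({x : E4 | ‖x‖ = 1 ∧ c (phi x) = i} ×ˢ
          {x : E4 | ‖x‖ = 1 ∧ c (phi x) = i}) := by
        rw [closure_prod_eq]
        exact ⟨hx, hy⟩
      have h3' : (x, y) ∈ {p : E4 × E4 | dist (phi p.1) (phi p.2) ≤ D} :=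
        closure_minimal hin hcl hcl2
      have h3 : dist (phi x) (phi y) ≤ D := h3'
      have h4 := dist_phi_sq x y hx1 hy1
      rw [h0] at h4
      have h5 : √2 ≤ dist (phi x) (phi y) :=
        Real.sqrt_le_iff.mpr ⟨dist_nonneg, by rw [h4]; norm_num⟩
      linarith

end Crest.BRGeo
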