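import Mathlib
import Crest.Agent.H20BRGeo

set_option autoImplicit false

/-!
# Rid 50 (S0069): from closed covers to a colouring

If the unit sphere of `ℝ⁴` had a cover by ten closed symmetric sets without orthogonal pairs, then
there would be an even colouring `c` of the vectors and `ε > 0` such that unit vectors of the same
colour satisfy `ε ≤ |⟪u, v⟫|`.
-/

namespace Crest.BR

open Set

theorem noCover10_of_noCol
    (H : ¬ ∃ (c : EuclideanSpace ℝ (Fin 4) → Fin 10) (ε : ℝ), 0 < ε ∧ (∀ v, c (-v) = c v) ∧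
      ∀ u v, ‖u‖ = 1 → ‖v‖ = 1 → c u = c v → ε ≤ |inner ℝ u v|) : NoCover10 := by
  rintro ⟨A, hcl, hcov, hsym, horth⟩
  apply H
  classical
  -- the colour: the least index of a set containing the vector
  have hex : ∀ v : EuclideanSpace ℝ (Fin 4), ∃ d : Fin 10, (‖v‖ = 1 → v ∈ A d) ∧
      (‖v‖ = 1 → ∀ d', v ∈ A d' → d ≤ d') ∧ (¬ ‖v‖ = 1 → d = 0) := by
    intro v
    by_cases hv : ‖v‖ = 1
    · have hne : (Finset.univ.filter (fun d : Fin 10 => v ∈ A d)).Nonempty := by
        obtain ⟨d, hd⟩ := hcov v hv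
        exact ⟨d, by simp [hd]⟩
      refine ⟨(Finset.univ.filter (fun d : Fin 10 => v ∈ A d)).min' hne, ?_, ?_, ?_⟩
      · intro _
        have := Finset.min'_mem _ hne
        simpa using this
      · intro _ d' hd'
        exact Finset.min'_le _ _ (by simp [hd'])
      · intro h; exact absurd hv h
    · exact ⟨0, fun h => absurd h hv, fun h => absurd h hv, fun _ => rfl⟩
  choose c hc1 hc2 hc3 using hex
  have hceven : ∀ v, c (-v) = c v := by
    intro v
    by_cases hv : ‖v‖ = 1
    · have hv' : ‖-v‖ = 1 := by rw [norm_neg]; exact hv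
      apply le_antisymm
      · exact hc2 (-v) hv' _ (hsym _ _ (hc1 v hv))
      · apply hc2 v hv
        have := hsym _ _ (hc1 (-v) hv')
        simpa using this
    · have hv' : ¬ ‖-v‖ = 1 := by rw [norm_neg]; exact hv
      rw [hc3 v hv, hc3 (-v) hv']
  -- compactness for each colour
  have hcomp : ∀ d : Fin 10, ∃ ε : ℝ, 0 < ε ∧ ∀ u v, ‖u‖ = 1 → ‖v‖ = 1 → u ∈ A d → v ∈ A d →
      ε ≤ |inner ℝ u v| := by
    intro d
    let K : Set (EuclideanSpace ℝ (Fin 4)) := A d ∩ Metric.sphere 0 1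
    have hK : IsCompact K := (isCompact_sphere _ _).inter_left (hcl d)
    by_cases hne : K.Nonempty
    · have hKK : IsCompact (K ×ˢ K) := hK.prod hK
      have hcont : ContinuousOn (fun p : EuclideanSpace ℝ (Fin 4) × EuclideanSpace ℝ (Fin 4) =>
          |(inner ℝ p.1 p.2 : ℝ)|) (K ×ˢ K) :=
        (continuous_fst.inner continuous_snd).abs.continuousOn
      obtain ⟨p, hp, hmin⟩ := hKK.exists_isMinOn (hne.prod hne) hcont
      refine ⟨|inner ℝ p.1 p.2|, ?_, ?_⟩
      · rw [abs_pos]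
        have h1 : ‖p.1‖ = 1 := by simpa using hp.1.2
        have h2 : ‖p.2‖ = 1 := by simpa using hp.2.2
        exact horth d p.1 p.2 hp.1.1 hp.2.1 h1 h2
      · intro u v hu hv hu' hv'
        have : (u, v) ∈ K ×ˢ K := ⟨⟨hu', by simpa using hu⟩, ⟨hv', by simpa using hv⟩⟩
        exact hmin this
    · refine ⟨1, one_pos, ?_⟩
      intro u v hu hv hu' hv'
      exact absurd ⟨u, hu', by simpa using hu⟩ hne
  choose ε hε hε' using hcomp
  obtain ⟨d0, -, hd0⟩ := Finset.exists_min_image (Finset.univ : Finset (Fin 10)) ε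
    ⟨0, Finset.mem_univ _⟩
  refine ⟨c, ε d0, hε d0, hceven, ?_⟩
  intro u v hu hv huv
  refine le_trans (hd0 (c u) (Finset.mem_univ _)) ?_
  refine hε' (c u) u v hu hv (hc1 u hu) ?_
  rw [huv]
  exact hc1 v hv

end Crest.BR
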