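import Mathlib
import Crest.Agent.H15BRSort
import Crest.Agent.H5BRCol

set_option autoImplicit false

/-!
# rid 50 (S0069): the interface between the modules

`V4 = ℝ⁴`, colourings `c : V4 → Fin 10` (even, unit vectors of the same colour have
`ε ≤ |⟪u, v⟫|`), faces, towers, and the statement of every module.
-/

namespace Crest.BR

open Crest.BRSort

abbrev V4 := EuclideanSpace ℝ (Fin 4)

/-- The colourings to be excluded. -/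
structure Col (c : V4 → Fin 10) (ε : ℝ) : Prop where
  pos : 0 < ε
  even : ∀ v, c (-v) = c v
  sep : ∀ u v, ‖u‖ = 1 → ‖v‖ = 1 → c u = c v → ε ≤ |inner ℝ u v|

/-- A set of colours which has points near a common unit vector. -/
def Face (c : V4 → Fin 10) (δ : ℝ) (S : Finset (Fin 10)) : Prop :=
  ∃ z : V4, ‖z‖ = 1 ∧ ∀ s ∈ S, ∃ v : V4, ‖v‖ = 1 ∧ c v = s ∧ ‖v - z‖ ≤ δ

/-- A tower along `S⁰ ⊂ S¹ ⊂ S² ⊂ S³` of the orthonormal frame `e`, tuples of diameter `≤ δ`. -/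
structure FTower (e : Fin 4 → V4) (δ : ℝ) (L1 : List (V4 × V4)) (L2 : List (V4 × V4 × V4))
    (L3 : List (V4 × V4 × V4 × V4)) : Prop where
  tower : Tower (e 0) L1 L2 L3
  all1 : ∀ p ∈ L1, (‖p.1‖ = 1 ∧ inner ℝ (e 2) p.1 = 0 ∧ inner ℝ (e 3) p.1 = 0) ∧
    (‖p.2‖ = 1 ∧ inner ℝ (e 2) p.2 = 0 ∧ inner ℝ (e 3) p.2 = 0)
  all2 : ∀ t ∈ L2, (‖t.1‖ = 1 ∧ inner ℝ (e 3) t.1 = 0) ∧
    (‖t.2.1‖ = 1 ∧ inner ℝ (e 3) t.2.1 = 0) ∧ (‖t.2.2‖ = 1 ∧ inner ℝ (e 3) t.2.2 = 0)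
  all3 : ∀ q ∈ L3, ‖q.1‖ = 1 ∧ ‖q.2.1‖ = 1 ∧ ‖q.2.2.1‖ = 1 ∧ ‖q.2.2.2‖ = 1
  near1 : ∀ p ∈ L1, ‖p.1 - p.2‖ ≤ δ
  near2 : ∀ t ∈ L2, ‖t.1 - t.2.1‖ ≤ δ ∧ ‖t.1 - t.2.2‖ ≤ δ ∧ ‖t.2.1 - t.2.2‖ ≤ δ
  near3 : ∀ q ∈ L3, ‖q.1 - q.2.1‖ ≤ δ ∧ ‖q.1 - q.2.2.1‖ ≤ δ ∧ ‖q.1 - q.2.2.2‖ ≤ δ ∧
    ‖q.2.1 - q.2.2.1‖ ≤ δ ∧ ‖q.2.1 - q.2.2.2‖ ≤ δ ∧ ‖q.2.2.1 - q.2.2.2‖ ≤ δ

/-- The number mod 2 of triples with colour set `R`. -/
def nR (c : V4 → Fin 10) (L2 : List (V4 × V4 × V4)) (R : Finset (Fin 10)) : ZMod 2 :=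
  (L2.map fun t => if ({c t.1, c t.2.1, c t.2.2} : Finset (Fin 10)) = R then (1 : ZMod 2)
    else 0).sum

/-- MODULE TOWEREX. -/
def TowerEx : Prop :=
  ∀ e : Fin 4 → V4, Orthonormal ℝ e → ∀ δ : ℝ, 0 < δ →
    ∃ (L1 : List (V4 × V4)) (L2 : List (V4 × V4 × V4)) (L3 : List (V4 × V4 × V4 × V4)),
      FTower e δ L1 L2 L3

/-- MODULE FACE0: there is a face with four colours. -/
def Face0 : Prop :=
  ∀ (c : V4 → Fin 10) (ε : ℝ), Col c ε → ∀ δ : ℝ, 0 < δ → ∃ S, S.card = 4 ∧ Face c δ S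

/-- MODULE THREE: three faces never cover all colours. -/
def NoThree : Prop :=
  ∀ (c : V4 → Fin 10) (ε : ℝ), Col c ε → ∀ δ : ℝ, δ < ε → ∀ S₁ S₂ S₃ : Finset (Fin 10),
    Face c δ S₁ → Face c δ S₂ → Face c δ S₃ → S₁ ∪ S₂ ∪ S₃ ≠ Finset.univ

/-- MODULE TWO: two disjoint four-colour faces do not exist. -/
def NoTwo : Prop :=
  ∀ (c : V4 → Fin 10) (ε : ℝ), Col c ε → ∀ δ : ℝ, δ < ε → ∀ S₁ S₂ : Finset (Fin 10),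
    S₁.card = 4 → S₂.card = 4 → Face c δ S₁ → Face c δ S₂ → ¬ Disjoint S₁ S₂

/-- MODULE FIVE: the triangle counts form a 2-cycle. -/
def Cyc : Prop :=
  ∀ (c : V4 → Fin 10) (ε : ℝ), Col c ε → ∀ (e : Fin 4 → V4) (δ : ℝ) (L1 : List (V4 × V4))
    (L2 : List (V4 × V4 × V4)) (L3 : List (V4 × V4 × V4 × V4)), FTower e δ L1 L2 L3 →
    ∀ P : Finset (Fin 10), P.card = 2 → ∑ d ∈ Pᶜ, nR c L2 (insert d P) = 0

/-- MODULE SIX: an odd triangle count extends to a four-colour face.  Here the colours near `x`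
do not matter; `z` near the triple is orthogonal to nothing. -/
def Arc : Prop :=
  ∀ (c : V4 → Fin 10) (ε : ℝ), Col c ε → ∃ δ₀ : ℝ, 0 < δ₀ ∧ ∀ (e : Fin 4 → V4) (δ : ℝ)
    (L1 : List (V4 × V4)) (L2 : List (V4 × V4 × V4)) (L3 : List (V4 × V4 × V4 × V4)),
    Orthonormal ℝ e → δ ≤ δ₀ → FTower e δ L1 L2 L3 →
    ∀ R : Finset (Fin 10), R.card = 3 → nR c L2 R = 1 → ∃ d, d ∉ R ∧ Face c δ (insert d R)

/-- MODULE PAR (helper22): the parity theorem on the equator `(e 3)ᗮ`, when four colours `S` do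
not occur there. -/
def Par : Prop :=
  ∀ (c : V4 → Fin 10) (ε : ℝ), Col c ε → ∃ δ₀ : ℝ, 0 < δ₀ ∧ ∀ (e : Fin 4 → V4) (δ : ℝ)
    (L1 : List (V4 × V4)) (L2 : List (V4 × V4 × V4)) (L3 : List (V4 × V4 × V4 × V4)),
    Orthonormal ℝ e → δ ≤ δ₀ → FTower e δ L1 L2 L3 →
    ∀ S : Finset (Fin 10), S.card = 4 → (∀ v, ‖v‖ = 1 → inner ℝ (e 3) v = 0 → c v ∉ S) →
    ∀ R R' : Finset (Fin 10), R.card = 3 → R'.card = 3 → Disjoint S R → Disjoint S R' →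
      Disjoint R R' → nR c L2 R + nR c L2 R' = 1

end Crest.BR
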