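import Mathlib
import Crest.Agent.BRSpec

set_option autoImplicit false

/-! # rid 50 (S0069): modules FIVE and SIX -/

namespace Crest.BR

open Crest.BRSort

section cyc

variable (P : Finset (Fin 10))

theorem pair_aux (hP : P.card = 2) (x y z : Fin 10) (hx : x ∉ P) :
    ((if ({y, z} : Finset (Fin 10)) = P then (1 : ZMod 2) else 0) +
      (if ({x, z} : Finset (Fin 10)) = P then (1 : ZMod 2) else 0) +
      (if ({x, y} : Finset (Fin 10)) = P then (1 : ZMod 2) else 0)) =
      ∑ d ∈ Pᶜ, if ({x, y, z} : Finset (Fin 10)) = insert d P then (1 : ZMod 2) else 0 := by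
  have h1 : ({x, z} : Finset (Fin 10)) ≠ P := by
    rintro rfl; simp at hx
  have h2 : ({x, y} : Finset (Fin 10)) ≠ P := by
    rintro rfl; simp at hx
  rw [if_neg h1, if_neg h2, add_zero, add_zero]
  rw [Finset.sum_eq_single x]
  · by_cases h : ({y, z} : Finset (Fin 10)) = P
    · rw [if_pos h, if_pos]
      rw [← h]
    · rw [if_neg h, if_neg]
      intro h'
      apply h
      have hc : ({x, y, z} : Finset (Fin 10)).card = 3 := by
        rw [h', Finset.card_insert_of_notMem hx, hP]
      have hxy : x ∉ ({y, z} : Finset (Fin 10)) := by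
        intro hm
        rw [Finset.insert_eq_of_mem hm] at hc
        have := Finset.card_le_two (a := y) (b := z)
        omega
      have h3 : Finset.erase ({x, y, z} : Finset (Fin 10)) x = Finset.erase (insert x P) x := by
        rw [h']
      rw [Finset.erase_insert hxy, Finset.erase_insert hx] at h3
      exact h3
  · intro d hd hdx
    rw [if_neg]
    intro h'
    have : x ∈ insert d P := by rw [← h']; simp
    rw [Finset.mem_insert] at this
    rcases this with h | h
    · exact hdx h.symm
    · exact hx h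
  · intro h
    exact absurd (Finset.mem_compl.2 hx) h

theorem pair_sum (hP : P.card = 2) (x y z : Fin 10) :
    ((if ({y, z} : Finset (Fin 10)) = P then (1 : ZMod 2) else 0) +
      (if ({x, z} : Finset (Fin 10)) = P then (1 : ZMod 2) else 0) +
      (if ({x, y} : Finset (Fin 10)) = P then (1 : ZMod 2) else 0)) =
      ∑ d ∈ Pᶜ, if ({x, y, z} : Finset (Fin 10)) = insert d P then (1 : ZMod 2) else 0 := by
  by_cases hx : x ∈ P
  · by_cases hy : y ∈ P
    · by_cases hz : z ∈ P
      · have hR : ∑ d ∈ Pᶜ, (if ({x, y, z} : Finset (Fin 10)) = insert d P then (1 : ZMod 2)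
            else 0) = 0 := by
          apply Finset.sum_eq_zero
          intro d hd
          rw [if_neg]
          intro h
          rw [Finset.mem_compl] at hd
          have : d ∈ ({x, y, z} : Finset (Fin 10)) := by rw [h]; simp
          simp only [Finset.mem_insert, Finset.mem_singleton] at this
          rcases this with rfl | rfl | rfl <;> contradiction
        rw [hR]
        obtain ⟨a, b, hab, rfl⟩ := Finset.card_eq_two.1 hP
        simp only [Finset.mem_insert, Finset.mem_singleton] at hx hy hz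
        have n1 : ¬ (({a, a} : Finset (Fin 10)) = {a, b}) := by
          intro h
          have : b ∈ ({a, a} : Finset (Fin 10)) := by rw [h]; simp
          simp at this
          exact hab this.symm
        have n2 : ¬ (({b, b} : Finset (Fin 10)) = {a, b}) := by
          intro h
          have : a ∈ ({b, b} : Finset (Fin 10)) := by rw [h]; simp
          simp at this
          exact hab this
        have n3 : (({b, a} : Finset (Fin 10)) = {a, b}) := Finset.pair_comm _ _
        have two : (1 : ZMod 2) + 1 = 0 := by decide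
        rcases hx with rfl | rfl <;> rcases hy with rfl | rfl <;> rcases hz with rfl | rfl <;>
          simp only [if_neg n1, if_neg n2, if_pos n3, if_true, add_zero, zero_add, two]
      · have h := pair_aux P hP z x y hz
        have e1 : ({z, x, y} : Finset (Fin 10)) = {x, y, z} := by
          ext t; simp only [Finset.mem_insert, Finset.mem_singleton]; tauto
        rw [e1, Finset.pair_comm z y, Finset.pair_comm z x] at h
        rw [← h]; ring
    · have h := pair_aux P hP y x z hy
      have e1 : ({y, x, z} : Finset (Fin 10)) = {x, y, z} := by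
        ext t; simp only [Finset.mem_insert, Finset.mem_singleton]; tauto
      rw [e1, Finset.pair_comm y x] at h
      rw [← h]; ring
  · exact pair_aux P hP x y z hx

end cyc

theorem sum_map_add' {α : Type*} (L : List α) (f g : α → ZMod 2) :
    (L.map fun x => f x + g x).sum = (L.map f).sum + (L.map g).sum := by
  induction L with
  | nil => simp
  | cons a l ih => simp only [List.map_cons, List.sum_cons, ih]; ring

theorem sum_list_comm {α β : Type*} (L : List α) (s : Finset β) (f : α → β → ZMod 2) :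
    (L.map fun x => ∑ b ∈ s, f x b).sum = ∑ b ∈ s, (L.map fun x => f x b).sum := by
  induction L with
  | nil => simp
  | cons a l ih =>
    simp only [List.map_cons, List.sum_cons, ih, Finset.sum_add_distrib]

theorem aa2 (x : ZMod 2) : x + x = 0 := CharTwo.add_self_eq_zero x

/-- MODULE FIVE. -/
theorem cyc : Cyc := by
  intro c ε hc e δ L1 L2 L3 T P hP
  have h := T.tower.h2 (fun u v => if ({c u, c v} : Finset (Fin 10)) = P then (1 : ZMod 2) else 0)
  simp only [hc.even, aa2] at h
  rw [List.map_const', List.sum_replicate, smul_zero] at h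
  unfold nR
  rw [← sum_list_comm]
  refine Eq.trans ?_ h
  congr 1
  apply List.map_congr_left
  intro t _
  exact (pair_sum P hP (c t.1) (c t.2.1) (c t.2.2)).symm

/-- four elements of a three-element set: an even number of faces is full -/
theorem face_even (R : Finset (Fin 10)) (hR : R.card = 3) (x y z w : Fin 10) (hx : x ∈ R)
    (hy : y ∈ R) (hz : z ∈ R) (hw : w ∈ R) :
    (if ({y, z, w} : Finset (Fin 10)) = R then (1 : ZMod 2) else 0) +
      (if ({x, z, w} : Finset (Fin 10)) = R then (1 : ZMod 2) else 0) +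
      (if ({x, y, w} : Finset (Fin 10)) = R then (1 : ZMod 2) else 0) +
      (if ({x, y, z} : Finset (Fin 10)) = R then (1 : ZMod 2) else 0) = 0 := by
  have small : ∀ u v : Fin 10, ({u, v} : Finset (Fin 10)) ≠ R := by
    intro u v h
    have h1 := Finset.card_le_two (a := u) (b := v)
    rw [h, hR] at h1
    omega
  have key : x = y ∨ x = z ∨ x = w ∨ y = z ∨ y = w ∨ z = w := by
    by_contra hne
    push Not at hne
    obtain ⟨h1, h2, h3, h4, h5, h6⟩ := hne
    have hsub : ({x, y, z, w} : Finset (Fin 10)) ⊆ R := by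
      intro t ht
      simp only [Finset.mem_insert, Finset.mem_singleton] at ht
      rcases ht with rfl | rfl | rfl | rfl <;> assumption
    have hc := Finset.card_le_card hsub
    rw [hR, Finset.card_insert_of_notMem (by simp [h1, h2, h3]),
      Finset.card_insert_of_notMem (by simp [h4, h5]),
      Finset.card_pair h6] at hc
    omega
  have s1 : ∀ u v : Fin 10, ({u, u, v} : Finset (Fin 10)) = {u, v} := by intro u v; simp
  have s2 : ∀ u v : Fin 10, ({u, v, u} : Finset (Fin 10)) = {u, v} := by
    intro u v; ext t; simp only [Finset.mem_insert, Finset.mem_singleton]; tauto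
  have s3 : ∀ u v : Fin 10, ({u, v, v} : Finset (Fin 10)) = {u, v} := by intro u v; simp
  rcases key with rfl | rfl | rfl | rfl | rfl | rfl
  · rw [s1, s1, if_neg (small _ _), if_neg (small _ _), add_zero, add_zero, aa2]
  · rw [s1, s2, if_neg (small x w), if_neg (small x y)]
    have : ({y, x, w} : Finset (Fin 10)) = {x, y, w} := Finset.insert_comm _ _ _
    rw [this, add_zero, add_zero, aa2]
  · rw [s2, s2, if_neg (small x z), if_neg (small x y)]
    have : ({y, z, x} : Finset (Fin 10)) = {x, y, z} := by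
      ext t; simp only [Finset.mem_insert, Finset.mem_singleton]; tauto
    rw [this, add_zero, add_zero, aa2]
  · rw [s1, s3, if_neg (small y w), if_neg (small x y), zero_add, add_zero, aa2]
  · rw [s2, s3, if_neg (small y z), if_neg (small x y)]
    have : ({x, z, y} : Finset (Fin 10)) = {x, y, z} := by
      ext t; simp only [Finset.mem_insert, Finset.mem_singleton]; tauto
    rw [this, zero_add, add_zero, aa2]
  · rw [s3, s3, if_neg (small y z), if_neg (small x z), zero_add, zero_add, aa2]

/-- MODULE SIX. -/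
theorem arc : Arc := by
  intro c ε hc
  have hε := hc.pos
  refine ⟨ε / 4, by positivity, ?_⟩
  intro e δ L1 L2 L3 he hδ T R hR hn
  -- an `R`-triple
  have hex : ∃ t ∈ L2, ({c t.1, c t.2.1, c t.2.2} : Finset (Fin 10)) = R := by
    by_contra hne
    push Not at hne
    have : nR c L2 R = 0 := by
      unfold nR
      apply List.sum_eq_zero
      intro x hx
      rw [List.mem_map] at hx
      obtain ⟨t, ht, rfl⟩ := hx
      rw [if_neg (hne t ht)]
    rw [this] at hn
    exact zero_ne_one hn
  obtain ⟨t0, ht0, hR0⟩ := hex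
  obtain ⟨⟨a1, -⟩, ⟨a2, -⟩, ⟨a3, -⟩⟩ := T.all2 t0 ht0
  obtain ⟨n1, n2, -⟩ := T.near2 t0 ht0
  have hδ0 : 0 ≤ δ := (norm_nonneg _).trans n1
  set z := t0.1 with hz
  have hzR : ∀ s ∈ R, ∃ v : V4, ‖v‖ = 1 ∧ c v = s ∧ ‖v - z‖ ≤ δ := by
    intro s hs
    rw [← hR0] at hs
    simp only [Finset.mem_insert, Finset.mem_singleton] at hs
    rcases hs with rfl | rfl | rfl
    · exact ⟨z, a1, rfl, by simpa using hδ0⟩
    · exact ⟨t0.2.1, a2, rfl, by rw [norm_sub_rev]; exact n1⟩
    · exact ⟨t0.2.2, a3, rfl, by rw [norm_sub_rev]; exact n2⟩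
  -- unit vectors with a colour of `R` are far from the equator of `z`
  have hfar : ∀ v : V4, ‖v‖ = 1 → c v ∈ R → ε - δ ≤ |inner ℝ z v| := by
    intro v hv hm
    obtain ⟨u, hu, hcu, hd⟩ := hzR _ hm
    have h1 := hc.sep u v hu hv hcu
    have h2 : inner ℝ u v = inner ℝ (u - z) v + inner ℝ z v := by
      rw [inner_sub_left]; ring
    have h3 : |inner ℝ (u - z) v| ≤ ‖u - z‖ * ‖v‖ := abs_real_inner_le_norm _ _
    rw [hv, mul_one] at h3
    rw [h2] at h1
    have h4 := abs_add_le (inner ℝ (u - z) v) (inner ℝ z v)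
    linarith
  have hdiff : ∀ u v : V4, ‖u - v‖ ≤ δ → |inner ℝ z u - inner ℝ z v| ≤ δ := by
    intro u v h
    rw [← inner_sub_right]
    have h3 : |inner ℝ z (u - v)| ≤ ‖z‖ * ‖u - v‖ := abs_real_inner_le_norm _ _
    rw [a1, one_mul] at h3
    linarith
  have hsame : ∀ u v : V4, ‖u‖ = 1 → ‖v‖ = 1 → c u ∈ R → c v ∈ R → ‖u - v‖ ≤ δ →
      (0 < inner ℝ z u ↔ 0 < inner ℝ z v) := by
    intro u v hu hv hcu hcv h
    have h1 := hfar u hu hcu
    have h2 := hfar v hv hcv
    have h3 := abs_le.1 (hdiff u v h)
    constructor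
    · intro h0
      rw [abs_of_pos h0] at h1
      linarith [h3.2]
    · intro h0
      rw [abs_of_pos h0] at h2
      linarith [h3.1]
  classical
  set f : V4 → V4 → V4 → ZMod 2 := fun u v w =>
    if ({c u, c v, c w} : Finset (Fin 10)) = R ∧ 0 < inner ℝ z u then 1 else 0 with hf
  have h := T.tower.h3 f
  have hrhs : (L2.map fun t => f t.1 t.2.1 t.2.2 + f (-t.1) (-t.2.1) (-t.2.2)).sum = 1 := by
    rw [← hn]
    unfold nR
    congr 1
    apply List.map_congr_left
    intro t ht
    obtain ⟨⟨u1, -⟩, ⟨u2, -⟩, ⟨u3, -⟩⟩ := T.all2 t ht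
    simp only [hf, hc.even, inner_neg_right]
    by_cases hs : ({c t.1, c t.2.1, c t.2.2} : Finset (Fin 10)) = R
    · have hm : c t.1 ∈ R := by rw [← hs]; simp
      have h1 := hfar t.1 u1 hm
      have hne : inner ℝ z t.1 ≠ 0 := by
        intro h0
        rw [h0, abs_zero] at h1
        linarith
      rcases lt_or_gt_of_ne hne with h0 | h0
      · rw [if_neg (fun hh => absurd hh.2 (not_lt.2 h0.le)), if_pos ⟨hs, by linarith⟩, if_pos hs,
          zero_add]
      · rw [if_pos ⟨hs, h0⟩, if_neg (fun hh => by linarith [hh.2]), if_pos hs, add_zero]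
    · rw [if_neg (fun hh => hs hh.1), if_neg (fun hh => hs hh.1), if_neg hs, add_zero]
  rw [hrhs] at h
  -- a 4-tuple with nonzero coboundary
  have hex : ∃ q ∈ L3, f q.2.1 q.2.2.1 q.2.2.2 + f q.1 q.2.2.1 q.2.2.2 + f q.1 q.2.1 q.2.2.2 +
        f q.1 q.2.1 q.2.2.1 ≠ 0 := by
    by_contra hne
    push Not at hne
    have : (L3.map fun q => f q.2.1 q.2.2.1 q.2.2.2 + f q.1 q.2.2.1 q.2.2.2 +
        f q.1 q.2.1 q.2.2.2 + f q.1 q.2.1 q.2.2.1).sum = 0 := by
      apply List.sum_eq_zero
      intro x hx
      rw [List.mem_map] at hx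
      obtain ⟨q, hq, rfl⟩ := hx
      exact hne q hq
    rw [this] at h
    exact zero_ne_one h
  obtain ⟨q, hq, hne⟩ := hex
  obtain ⟨u0, u1, u2, u3⟩ := T.all3 q hq
  obtain ⟨d01, d02, d03, d12, d13, d23⟩ := T.near3 q hq
  -- all of `R` occurs
  have hsub : R ⊆ ({c q.1, c q.2.1, c q.2.2.1, c q.2.2.2} : Finset (Fin 10)) := by
    by_contra hns
    apply hne
    have z1 : f q.2.1 q.2.2.1 q.2.2.2 = 0 := by
      simp only [hf]
      rw [if_neg]
      rintro ⟨h1, -⟩
      apply hns
      rw [← h1]
      intro t ht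
      simp only [Finset.mem_insert, Finset.mem_singleton] at ht ⊢
      tauto
    have z2 : f q.1 q.2.2.1 q.2.2.2 = 0 := by
      simp only [hf]
      rw [if_neg]
      rintro ⟨h1, -⟩
      apply hns
      rw [← h1]
      intro t ht
      simp only [Finset.mem_insert, Finset.mem_singleton] at ht ⊢
      tauto
    have z3 : f q.1 q.2.1 q.2.2.2 = 0 := by
      simp only [hf]
      rw [if_neg]
      rintro ⟨h1, -⟩
      apply hns
      rw [← h1]
      intro t ht
      simp only [Finset.mem_insert, Finset.mem_singleton] at ht ⊢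
      tauto
    have z4 : f q.1 q.2.1 q.2.2.1 = 0 := by
      simp only [hf]
      rw [if_neg]
      rintro ⟨h1, -⟩
      apply hns
      rw [← h1]
      intro t ht
      simp only [Finset.mem_insert, Finset.mem_singleton] at ht ⊢
      tauto
    rw [z1, z2, z3, z4]
    simp
  have hall : ∀ s ∈ ({c q.1, c q.2.1, c q.2.2.1, c q.2.2.2} : Finset (Fin 10)),
      ∃ v : V4, ‖v‖ = 1 ∧ c v = s ∧ ‖v - q.1‖ ≤ δ := by
    intro s hs
    simp only [Finset.mem_insert, Finset.mem_singleton] at hs
    rcases hs with rfl | rfl | rfl | rfl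
    · exact ⟨q.1, u0, rfl, by simpa using hδ0⟩
    · exact ⟨q.2.1, u1, rfl, by rw [norm_sub_rev]; exact d01⟩
    · exact ⟨q.2.2.1, u2, rfl, by rw [norm_sub_rev]; exact d02⟩
    · exact ⟨q.2.2.2, u3, rfl, by rw [norm_sub_rev]; exact d03⟩
  by_cases hin : c q.1 ∈ R ∧ c q.2.1 ∈ R ∧ c q.2.2.1 ∈ R ∧ c q.2.2.2 ∈ R
  · exfalso
    obtain ⟨i0, i1, i2, i3⟩ := hin
    apply hne
    have e1 := hsame q.1 q.2.1 u0 u1 i0 i1 d01
    have hval := face_even R hR (c q.1) (c q.2.1) (c q.2.2.1) (c q.2.2.2) i0 i1 i2 i3
    simp only [hf]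
    by_cases hp : 0 < inner ℝ z q.1
    · have hp1 := e1.1 hp
      simp only [hp, hp1, and_true]
      exact hval
    · have hp1 : ¬ 0 < inner ℝ z q.2.1 := fun hh => hp (e1.2 hh)
      simp only [hp, hp1, and_false, if_false, add_zero]
  · have : ∃ d ∈ ({c q.1, c q.2.1, c q.2.2.1, c q.2.2.2} : Finset (Fin 10)), d ∉ R := by
      by_contra hno
      push Not at hno
      apply hin
      exact ⟨hno _ (by simp), hno _ (by simp), hno _ (by simp), hno _ (by simp)⟩
    obtain ⟨d, hd, hdR⟩ := this
    refine ⟨d, hdR, q.1, u0, ?_⟩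
    intro s hs
    rw [Finset.mem_insert] at hs
    rcases hs with rfl | hs
    · exact hall _ hd
    · exact hall _ (hsub hs)

end Crest.BR
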