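import Mathlib
import Crest.Agent.BRSpec

set_option autoImplicit false

/-!
# rid 50 (S0069): assembly
-/

namespace Crest.BR

open Crest.BRSort

/-- The finite combinatorial contradiction. -/
def FinSys : Prop :=
  ∀ (N : Finset (Fin 10) → Prop), (∃ S, S.card = 4 ∧ N S) → (∀ S Q, N S → Q ⊆ S → N Q) →
    (∀ S R R', S.card = 4 → N S → R.card = 3 → R'.card = 3 → Disjoint S R → Disjoint S R' →
      Disjoint R R' → (N R ↔ ¬ N R')) →
    (∀ S P, S.card = 4 → N S → P.card = 2 → Disjoint S P →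
      ∀ (D : Finset (Fin 10)), (∀ d, d ∈ D ↔ d ∉ S ∧ d ∉ P ∧ N (insert d P)) → Even D.card) →
    (∀ S R, S.card = 4 → N S → R.card = 3 → N R → Disjoint S R → ∃ d ∈ S, N (insert d R)) →
    (∀ S S2, S.card = 4 → S2.card = 4 → N S → N S2 → ¬ Disjoint S S2) →
    False

theorem exists_frame (z : V4) (hz : ‖z‖ = 1) : ∃ e : Fin 4 → V4, Orthonormal ℝ e ∧ e 3 = z := by
  have hcard : Module.finrank ℝ V4 = Fintype.card (Fin 4) := by simp
  have hv : Orthonormal ℝ (({3} : Set (Fin 4)).domRestrict fun _ : Fin 4 => z) := by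
    constructor
    · intro i
      exact hz
    · intro i j hij
      exact absurd (Subtype.ext (by rw [i.2, j.2])) hij
  obtain ⟨b, hb⟩ := hv.exists_orthonormalBasis_extension_of_card_eq hcard
  exact ⟨b, b.orthonormal, hb 3 rfl⟩

theorem face_mono {c : V4 → Fin 10} {δ : ℝ} {S Q : Finset (Fin 10)} (h : Face c δ S)
    (hQ : Q ⊆ S) : Face c δ Q := by
  obtain ⟨z, hz, h⟩ := h
  exact ⟨z, hz, fun s hs => h s (hQ hs)⟩

/-- colours of a face do not occur on the equator of its centre -/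
theorem equator_avoid {c : V4 → Fin 10} {ε δ : ℝ} (hc : Col c ε) (hδ : δ < ε)
    {S : Finset (Fin 10)} {z : V4}
    (h : ∀ s ∈ S, ∃ v : V4, ‖v‖ = 1 ∧ c v = s ∧ ‖v - z‖ ≤ δ) (v : V4) (hv : ‖v‖ = 1)
    (hzv : inner ℝ z v = 0) : c v ∉ S := by
  intro hS
  obtain ⟨u, hu, hcu, hd⟩ := h _ hS
  have h1 := hc.sep u v hu hv hcu
  have h2 : inner ℝ u v = inner ℝ (u - z) v := by
    rw [inner_sub_left, hzv, sub_zero]
  have h3 : |inner ℝ (u - z) v| ≤ ‖u - z‖ * ‖v‖ := abs_real_inner_le_norm _ _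
  rw [hv, mul_one] at h3
  rw [h2] at h1
  linarith

theorem exists_of_nR {c : V4 → Fin 10} {L2 : List (V4 × V4 × V4)} {R : Finset (Fin 10)}
    (h : nR c L2 R ≠ 0) : ∃ t ∈ L2, ({c t.1, c t.2.1, c t.2.2} : Finset (Fin 10)) = R := by
  by_contra hne
  push Not at hne
  apply h
  unfold nR
  apply List.sum_eq_zero
  intro x hx
  rw [List.mem_map] at hx
  obtain ⟨t, ht, rfl⟩ := hx
  rw [if_neg (hne t ht)]

theorem face_of_nR {c : V4 → Fin 10} {e : Fin 4 → V4} {δ : ℝ} {L1 : List (V4 × V4)}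
    {L2 : List (V4 × V4 × V4)} {L3 : List (V4 × V4 × V4 × V4)} (hδ : 0 ≤ δ)
    (T : FTower e δ L1 L2 L3) {R : Finset (Fin 10)} (h : nR c L2 R ≠ 0) : Face c δ R := by
  obtain ⟨t, ht, hR⟩ := exists_of_nR h
  obtain ⟨⟨a1, -⟩, ⟨a2, -⟩, ⟨a3, -⟩⟩ := T.all2 t ht
  obtain ⟨n1, n2, -⟩ := T.near2 t ht
  refine ⟨t.1, a1, fun s hs => ?_⟩
  rw [← hR] at hs
  simp only [Finset.mem_insert, Finset.mem_singleton] at hs
  rcases hs with rfl | rfl | rfl
  · exact ⟨t.1, a1, rfl, by simpa using hδ⟩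
  · exact ⟨t.2.1, a2, rfl, by rw [norm_sub_rev]; exact n1⟩
  · exact ⟨t.2.2, a3, rfl, by rw [norm_sub_rev]; exact n2⟩

theorem zmod2 (x : ZMod 2) : x = 0 ∨ x = 1 := by
  revert x; decide

theorem noCol_of (hT : TowerEx) (hF0 : Face0) (hN3 : NoThree) (hN2 : NoTwo) (hC : Cyc)
    (hA : Arc) (hP : Par) (hF : FinSys) :
    ¬ ∃ (c : V4 → Fin 10) (ε : ℝ), 0 < ε ∧ (∀ v, c (-v) = c v) ∧
      ∀ u v, ‖u‖ = 1 → ‖v‖ = 1 → c u = c v → ε ≤ |inner ℝ u v| := by
  rintro ⟨c, ε, hε, hev, hsep⟩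
  have hc : Col c ε := ⟨hε, hev, hsep⟩
  obtain ⟨δ₁, hδ₁, hA⟩ := hA c ε hc
  obtain ⟨δ₂, hδ₂, hP⟩ := hP c ε hc
  obtain ⟨δ, hδ, hδ1, hδ2, hδε⟩ : ∃ δ : ℝ, 0 < δ ∧ δ ≤ δ₁ ∧ δ ≤ δ₂ ∧ δ < ε := by
    refine ⟨min (min δ₁ δ₂) (ε / 2), by positivity, ?_, ?_, ?_⟩
    · exact (min_le_left _ _).trans (min_le_left _ _)
    · exact (min_le_left _ _).trans (min_le_right _ _)
    · exact (min_le_right _ _).trans_lt (by linarith)
  -- the data at a four-colour face
  have key : ∀ S : Finset (Fin 10), S.card = 4 → Face c δ S →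
      ∃ n : Finset (Fin 10) → ZMod 2,
        (∀ R, n R ≠ 0 → Face c δ R) ∧
        (∀ R R' : Finset (Fin 10), R.card = 3 → R'.card = 3 → Disjoint S R → Disjoint S R' →
          Disjoint R R' → n R + n R' = 1) ∧
        (∀ P : Finset (Fin 10), P.card = 2 → ∑ d ∈ Pᶜ, n (insert d P) = 0) ∧
        (∀ P : Finset (Fin 10), ∀ d ∈ S, n (insert d P) = 0) ∧
        (∀ R : Finset (Fin 10), R.card = 3 → n R = 1 → ∃ d, d ∉ R ∧ Face c δ (insert d R)) := by
    intro S hS hface
    obtain ⟨z, hz, hzS⟩ := hface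
    obtain ⟨e, he, he3⟩ := exists_frame z hz
    obtain ⟨L1, L2, L3, T⟩ := hT e he δ hδ
    have hav : ∀ v, ‖v‖ = 1 → inner ℝ (e 3) v = 0 → c v ∉ S := by
      intro v hv h0
      rw [he3] at h0
      exact equator_avoid hc hδε hzS v hv h0
    refine ⟨nR c L2, fun R h => face_of_nR hδ.le T h, ?_, ?_, ?_, ?_⟩
    · intro R R' h1 h2 h3 h4 h5
      exact hP e δ L1 L2 L3 he hδ2 T S hS hav R R' h1 h2 h3 h4 h5
    · intro P hP2
      exact hC c ε hc e δ L1 L2 L3 T P hP2
    · intro P d hd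
      by_contra h
      obtain ⟨t, ht, hR⟩ := exists_of_nR h
      have hdm : d ∈ ({c t.1, c t.2.1, c t.2.2} : Finset (Fin 10)) := by
        rw [hR]; exact Finset.mem_insert_self _ _
      obtain ⟨⟨a1, b1⟩, ⟨a2, b2⟩, ⟨a3, b3⟩⟩ := T.all2 t ht
      simp only [Finset.mem_insert, Finset.mem_singleton] at hdm
      rcases hdm with rfl | rfl | rfl
      · exact hav _ a1 b1 hd
      · exact hav _ a2 b2 hd
      · exact hav _ a3 b3 hd
    · intro R h3 h1
      exact hA e δ L1 L2 L3 he hδ1 T R h3 h1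
  have excl : ∀ S R R' : Finset (Fin 10), S.card = 4 → R.card = 3 → R'.card = 3 →
      Disjoint S R → Disjoint S R' → Disjoint R R' → Face c δ S → Face c δ R →
      ¬ Face c δ R' := by
    intro S R R' hS hR hR' d1 d2 d3 f1 f2 f3
    apply hN3 c ε hc δ hδε S R R' f1 f2 f3
    apply Finset.eq_univ_of_card
    rw [Finset.card_union_of_disjoint (Finset.disjoint_union_left.2 ⟨d2, d3⟩),
      Finset.card_union_of_disjoint d1, hS, hR, hR']
    rfl
  -- for a three-element set avoiding S: face ↔ odd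
  have hiff : ∀ (S : Finset (Fin 10)) (n : Finset (Fin 10) → ZMod 2), S.card = 4 → Face c δ S →
      (∀ R, n R ≠ 0 → Face c δ R) →
      (∀ R R' : Finset (Fin 10), R.card = 3 → R'.card = 3 → Disjoint S R → Disjoint S R' →
          Disjoint R R' → n R + n R' = 1) →
      ∀ R : Finset (Fin 10), R.card = 3 → Disjoint S R → (Face c δ R ↔ n R = 1) := by
    intro S n hS hfS hn1 hn2 R hR hSR
    constructor
    · intro hf
      have hcard : ((S ∪ R)ᶜ).card = 3 := by
        rw [Finset.card_compl, Finset.card_union_of_disjoint hSR, hS, hR]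
        rfl
      have d1 : Disjoint S (S ∪ R)ᶜ :=
        Finset.disjoint_of_subset_left Finset.subset_union_left disjoint_compl_right
      have d2 : Disjoint R (S ∪ R)ᶜ :=
        Finset.disjoint_of_subset_left Finset.subset_union_right disjoint_compl_right
      have h := hn2 R _ hR hcard hSR d1 d2
      have h0 : n (S ∪ R)ᶜ = 0 := by
        by_contra hne
        exact excl S R _ hS hR hcard hSR d1 d2 hfS hf (hn1 _ hne)
      rw [h0, add_zero] at h
      exact h
    · intro h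
      exact hn1 R (by rw [h]; exact one_ne_zero)
  apply hF (Face c δ)
  · exact hF0 c ε hc δ hδ
  · intro S Q h hQ
    exact face_mono h hQ
  · intro S R R' hS hfS hR hR' d1 d2 d3
    obtain ⟨n, hn1, hn2, -⟩ := key S hS hfS
    constructor
    · intro hf
      exact excl S R R' hS hR hR' d1 d2 d3 hfS hf
    · intro hf
      have h0 : n R' = 0 := by
        by_contra hne
        exact hf (hn1 _ hne)
      have h := hn2 R R' hR hR' d1 d2 d3
      rw [h0, add_zero] at h
      exact hn1 R (by rw [h]; exact one_ne_zero)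
  · intro S P hS hfS hP2 hSP D hD
    obtain ⟨n, hn1, hn2, hn3, hn4, -⟩ := key S hS hfS
    have hsum := hn3 P hP2
    have hval : ∀ d ∈ Pᶜ, n (insert d P) = if d ∈ D then 1 else 0 := by
      intro d hd
      rw [Finset.mem_compl] at hd
      by_cases hdS : d ∈ S
      · rw [hn4 P d hdS, if_neg]
        intro h
        exact ((hD d).1 h).1 hdS
      · have hcard : (insert d P).card = 3 := by
          rw [Finset.card_insert_of_notMem hd, hP2]
        have hdis : Disjoint S (insert d P) := by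
          rw [Finset.disjoint_insert_right]
          exact ⟨hdS, hSP⟩
        have hi := hiff S n hS hfS hn1 hn2 _ hcard hdis
        by_cases hdD : d ∈ D
        · rw [if_pos hdD]
          exact hi.1 ((hD d).1 hdD).2.2
        · rw [if_neg hdD]
          by_contra hne
          apply hdD
          rw [hD]
          exact ⟨hdS, hd, hn1 _ hne⟩
    rw [Finset.sum_congr rfl hval] at hsum
    have hsub : D ⊆ Pᶜ := by
      intro d hd
      rw [Finset.mem_compl]
      exact ((hD d).1 hd).2.1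
    rw [Finset.sum_ite_mem, Finset.inter_eq_right.2 hsub] at hsum
    simp only [Finset.sum_const, nsmul_eq_mul, mul_one] at hsum
    exact (ZMod.natCast_eq_zero_iff_even).1 hsum
  · intro S R hS hfS hR hfR hSR
    obtain ⟨n, hn1, hn2, hn3, hn4, hn5⟩ := key S hS hfS
    have h1 : n R = 1 := (hiff S n hS hfS hn1 hn2 R hR hSR).1 hfR
    obtain ⟨d, hd, hf⟩ := hn5 R hR h1
    refine ⟨d, ?_, hf⟩
    by_contra hdS
    have hcard : (insert d R).card = 4 := by
      rw [Finset.card_insert_of_notMem hd, hR]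
    apply hN2 c ε hc δ hδε S (insert d R) hS hcard hfS hf
    rw [Finset.disjoint_insert_right]
    exact ⟨hdS, hSR⟩
  · intro S S2 h1 h2 h3 h4
    exact hN2 c ε hc δ hδε S S2 h1 h2 h3 h4

theorem noCover10_of (hT : TowerEx) (hF0 : Face0) (hN3 : NoThree) (hN2 : NoTwo) (hC : Cyc)
    (hA : Arc) (hP : Par) (hF : FinSys) : NoCover10 :=
  noCover10_of_noCol (noCol_of hT hF0 hN3 hN2 hC hA hP hF)

end Crest.BR
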