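import Mathlib

/-! rid 254 (S0392): Dvoretzky's theorem with constant 2, module statements. -/

set_option autoImplicit false

namespace Crest.DV

open MeasureTheory ProbabilityTheory

universe u

/-- Euclidean space -/
abbrev E (n : ℕ) := EuclideanSpace ℝ (Fin n)

/-- POIN: Gaussian variance bound -/
def POIN : Prop := ∀ (n : ℕ) (q : Seminorm ℝ (E n)), (∀ x, q x ≤ ‖x‖) →
  ∫ x, (q x - ∫ y, q y ∂(stdGaussian (E n))) ^ 2 ∂(stdGaussian (E n)) ≤ 2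

/-- DR: Dvoretzky-Rogers -/
def DR : Prop := ∀ (B : Type u) [NormedAddCommGroup B] [NormedSpace ℝ B], ¬ FiniteDimensional ℝ B →
  ∀ n : ℕ, ∃ T : E n →ₗ[ℝ] B, (∀ x, ‖T x‖ ≤ ‖x‖) ∧
    ∀ i : Fin n, 1 / 2 ≤ ‖T (EuclideanSpace.single i (1 : ℝ))‖

/-- MEAN: the mean tends to infinity -/
def MEAN : Prop := ∀ t : ℝ, ∃ n0 : ℕ, ∀ n : ℕ, n0 ≤ n → ∀ q : Seminorm ℝ (E n), (∀ x, q x ≤ ‖x‖) →
  (∀ i : Fin n, 1 / 2 ≤ q (EuclideanSpace.single i (1 : ℝ))) → t ≤ ∫ x, q x ∂(stdGaussian (E n))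

/-- DV: Dvoretzky's theorem with constant 2 -/
def DV : Prop := ∀ (B : Type u) [NormedAddCommGroup B] [NormedSpace ℝ B], ¬ FiniteDimensional ℝ B →
  ∀ m : ℕ, ∃ T : E m →ₗ[ℝ] B, ∀ x, ‖x‖ ≤ ‖T x‖ ∧ ‖T x‖ ≤ 2 * ‖x‖

/-- NETD -/
def NETD : Prop := DR.{u} → POIN → MEAN → DV.{u}

end Crest.DV
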