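import Crest.Agent.FPSpec

set_option autoImplicit false

namespace Crest.Agent.FPAMove

open Crest.Agent.FP

/-! ## finite sets -/

theorem two_card_image {α β : Type} [DecidableEq β] (S : Finset α) (f : α → β) (T : Finset α)
    (hT : T ⊆ S) (h : ∀ t ∈ T, ∃ s ∈ S, s ≠ t ∧ f s = f t) :
    2 * (S.image f).card + T.card ≤ 2 * S.card := by
  classical
  have h1 : S.card = ∑ b ∈ S.image f, (S.filter (fun a => f a = b)).card :=
    Finset.card_eq_sum_card_image f S
  have h2 : T.card = ∑ b ∈ S.image f, (T.filter (fun a => f a = b)).card :=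
    Finset.card_eq_sum_card_fiberwise (fun a ha => Finset.mem_image_of_mem f (hT ha))
  have h3 : 2 * (S.image f).card = ∑ b ∈ S.image f, 2 := by simp [mul_comm]
  rw [h3, h2, h1, Finset.mul_sum, ← Finset.sum_add_distrib]
  refine Finset.sum_le_sum (fun b hb => ?_)
  obtain ⟨a, ha, rfl⟩ := Finset.mem_image.mp hb
  by_cases hc : (T.filter (fun x => f x = f a)).Nonempty
  · obtain ⟨t, ht⟩ := hc
    rw [Finset.mem_filter] at ht
    obtain ⟨s, hs, hst, hfs⟩ := h t ht.1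
    have h4 : 1 < (S.filter (fun x => f x = f a)).card :=
      Finset.one_lt_card.mpr ⟨s, Finset.mem_filter.mpr ⟨hs, hfs.trans ht.2⟩, t,
        Finset.mem_filter.mpr ⟨hT ht.1, ht.2⟩, hst⟩
    have h5 : (T.filter (fun x => f x = f a)).card ≤ (S.filter (fun x => f x = f a)).card :=
      Finset.card_le_card (Finset.filter_subset_filter _ hT)
    omega
  · rw [Finset.not_nonempty_iff_eq_empty] at hc
    rw [hc]
    have h4 : 0 < (S.filter (fun x => f x = f a)).card :=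
      Finset.card_pos.mpr ⟨a, Finset.mem_filter.mpr ⟨ha, rfl⟩⟩
    simp only [Finset.card_empty]
    omega

theorem card_le_image_add {α β : Type} (S : Finset α) (f : α → β) (M : Finset α) (T : Finset β)
    (hT : ∀ s ∈ S, f s ∈ T)
    (h : ∀ s ∈ S, s ∉ M → ∀ s' ∈ S, f s' = f s → s' = s) :
    S.card ≤ T.card + M.card := by
  classical
  have h1 : S.card ≤ (S \ M).card + M.card := by
    have := Finset.card_le_card_sdiff_add_card (s := S) (t := M)
    omega
  have h2 : ((S \ M).image f).card = (S \ M).card := by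
    apply Finset.card_image_of_injOn
    intro a ha b hb hab
    simp only [Finset.coe_sdiff, Set.mem_sdiff, Finset.mem_coe] at ha hb
    exact h b hb.1 hb.2 a ha.1 hab
  have h3 : ((S \ M).image f).card ≤ T.card := by
    apply Finset.card_le_card
    intro b hb
    obtain ⟨a, ha, rfl⟩ := Finset.mem_image.mp hb
    exact hT a (Finset.mem_sdiff.mp ha).1
  omega

section basic

variable {K : ℕ} {V L Q Q' : Type}

theorem mem_mapE (π : Q → Q') (E : Finset (Q × L × Q)) (e' : Q' × L × Q') :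
    e' ∈ mapE π E ↔ ∃ e ∈ E, (π e.1, e.2.1, π e.2.2) = e' := by
  unfold mapE
  simp only [Finset.mem_image]

theorem mem_mapC (π : Q → Q') (C : Finset (V × (ZMod K → Q))) (p' : V × (ZMod K → Q')) :
    p' ∈ mapC π C ↔ ∃ p ∈ C, (p.1, fun j => π (p.2 j)) = p' := by
  unfold mapC
  simp only [Finset.mem_image]

theorem mem_covered [NeZero K] (ℓ : V → ZMod K → L) (C : Finset (V × (ZMod K → Q)))
    (e : Q × L × Q) : e ∈ covered ℓ C ↔ ∃ p ∈ C, ∃ j, cedge ℓ p j = e := by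
  unfold covered
  simp

/-- two closed readings of the same cell in a folded graph which agree at one position agree. -/
theorem cell_eq [NeZero K] (ℓ : V → ZMod K → L) (E : Finset (Q × L × Q)) (hF : Folded E)
    (v : V) (c c' : ZMod K → Q) (hc : ∀ j, cedge ℓ (v, c) j ∈ E)
    (hc' : ∀ j, cedge ℓ (v, c') j ∈ E) (j0 : ZMod K) (h : c j0 = c' j0) : c = c' := by
  have h1 : ∀ n : ℕ, c (j0 + (n : ZMod K)) = c' (j0 + (n : ZMod K)) := by
    intro n
    induction n with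
    | zero => simpa using h
    | succ n ih =>
      have h2 := hc (j0 + (n : ZMod K))
      have h3 := hc' (j0 + (n : ZMod K))
      simp only [cedge] at h2 h3
      rw [ih] at h2
      have := hF.1 _ _ _ _ h2 h3
      rw [Nat.cast_succ, ← add_assoc]
      exact this
  funext j
  have h2 := h1 (j - j0).val
  rw [ZMod.natCast_zmod_val] at h2
  simpa using h2

end basic

section construction

variable {K : ℕ} [NeZero K] {V L Q : Type}

/-- the new cell. -/
def nc (j0 : ZMod K) (x : ℕ → Q) (j : ZMod K) : Q ⊕ Fin 3 :=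
  if (j - j0).val ≤ K - 4 then Sum.inl (x (j - j0).val)
  else if (j - j0).val = K - 3 then Sum.inr 0
  else if (j - j0).val = K - 2 then Sum.inr 1 else Sum.inr 2

theorem val_sub (j0 : ZMod K) (i : ℕ) (hi : i < K) : (j0 + (i : ZMod K) - j0).val = i := by
  rw [add_sub_cancel_left]
  exact ZMod.val_cast_of_lt hi

theorem nc_old (hK : 8 ≤ K) (j0 : ZMod K) (x : ℕ → Q) (i : ℕ) (hi : i ≤ K - 4) :
    nc j0 x (j0 + (i : ZMod K)) = Sum.inl (x i) := by
  unfold nc
  rw [val_sub j0 i (by omega), if_pos hi]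

theorem nc_0 (hK : 8 ≤ K) (j0 : ZMod K) (x : ℕ → Q) :
    nc j0 x (j0 + ((K - 3 : ℕ) : ZMod K)) = Sum.inr 0 := by
  unfold nc
  rw [val_sub j0 _ (by omega), if_neg (by omega), if_pos rfl]

theorem nc_1 (hK : 8 ≤ K) (j0 : ZMod K) (x : ℕ → Q) :
    nc j0 x (j0 + ((K - 2 : ℕ) : ZMod K)) = Sum.inr 1 := by
  unfold nc
  rw [val_sub j0 _ (by omega), if_neg (by omega), if_neg (by omega), if_pos rfl]

theorem nc_2 (hK : 8 ≤ K) (j0 : ZMod K) (x : ℕ → Q) :
    nc j0 x (j0 + ((K - 1 : ℕ) : ZMod K)) = Sum.inr 2 := by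
  unfold nc
  rw [val_sub j0 _ (by omega), if_neg (by omega), if_neg (by omega), if_neg (by omega)]

theorem nc_K (hK : 8 ≤ K) (j0 : ZMod K) (x : ℕ → Q) :
    nc j0 x (j0 + ((K : ℕ) : ZMod K)) = Sum.inl (x 0) := by
  have := nc_old hK j0 x 0 (by omega)
  simpa using this

theorem cedge_old (hK : 8 ≤ K) (ℓ : V → ZMod K → L) (v : V) (j0 : ZMod K) (x : ℕ → Q) (i : ℕ)
    (hi : i < K - 4) :
    cedge ℓ (v, nc j0 x) (j0 + (i : ZMod K)) =
      (Sum.inl (x i), ℓ v (j0 + (i : ZMod K)), Sum.inl (x (i + 1))) := by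
  unfold cedge
  simp only
  rw [nc_old hK j0 x i (by omega), add_assoc, ← Nat.cast_succ, nc_old hK j0 x (i + 1) (by omega)]

theorem cedge_0 (hK : 8 ≤ K) (ℓ : V → ZMod K → L) (v : V) (j0 : ZMod K) (x : ℕ → Q) :
    cedge ℓ (v, nc j0 x) (j0 + ((K - 4 : ℕ) : ZMod K)) =
      (Sum.inl (x (K - 4)), ℓ v (j0 + ((K - 4 : ℕ) : ZMod K)), Sum.inr 0) := by
  unfold cedge
  simp only
  rw [nc_old hK j0 x (K - 4) le_rfl, add_assoc, ← Nat.cast_succ,
    show (K - 4).succ = K - 3 by omega, nc_0 hK]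

theorem cedge_1 (hK : 8 ≤ K) (ℓ : V → ZMod K → L) (v : V) (j0 : ZMod K) (x : ℕ → Q) :
    cedge ℓ (v, nc j0 x) (j0 + ((K - 3 : ℕ) : ZMod K)) =
      (Sum.inr 0, ℓ v (j0 + ((K - 3 : ℕ) : ZMod K)), Sum.inr 1) := by
  unfold cedge
  simp only
  rw [nc_0 hK, add_assoc, ← Nat.cast_succ, show (K - 3).succ = K - 2 by omega, nc_1 hK]

theorem cedge_2 (hK : 8 ≤ K) (ℓ : V → ZMod K → L) (v : V) (j0 : ZMod K) (x : ℕ → Q) :
    cedge ℓ (v, nc j0 x) (j0 + ((K - 2 : ℕ) : ZMod K)) =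
      (Sum.inr 1, ℓ v (j0 + ((K - 2 : ℕ) : ZMod K)), Sum.inr 2) := by
  unfold cedge
  simp only
  rw [nc_1 hK, add_assoc, ← Nat.cast_succ, show (K - 2).succ = K - 1 by omega, nc_2 hK]

theorem cedge_3 (hK : 8 ≤ K) (ℓ : V → ZMod K → L) (v : V) (j0 : ZMod K) (x : ℕ → Q) :
    cedge ℓ (v, nc j0 x) (j0 + ((K - 1 : ℕ) : ZMod K)) =
      (Sum.inr 2, ℓ v (j0 + ((K - 1 : ℕ) : ZMod K)), Sum.inl (x 0)) := by
  unfold cedge
  simp only
  rw [nc_2 hK, add_assoc, ← Nat.cast_succ, show (K - 1).succ = K by omega, nc_K hK]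

/-- every position. -/
theorem pos_cases (j0 : ZMod K) (j : ZMod K) : ∃ i : ℕ, i < K ∧ j = j0 + (i : ZMod K) :=
  ⟨(j - j0).val, ZMod.val_lt _, by rw [ZMod.natCast_zmod_val]; ring⟩

/-- the embedding of edges. -/
def ie (e : Q × L × Q) : (Q ⊕ Fin 3) × L × (Q ⊕ Fin 3) := (Sum.inl e.1, e.2.1, Sum.inl e.2.2)

/-- the embedding of cells. -/
def ic (p : V × (ZMod K → Q)) : V × (ZMod K → Q ⊕ Fin 3) := (p.1, fun j => Sum.inl (p.2 j))

theorem ie_inj : Function.Injective (ie : Q × L × Q → (Q ⊕ Fin 3) × L × (Q ⊕ Fin 3)) := by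
  rintro ⟨a, b, c⟩ ⟨a', b', c'⟩ h
  simp only [ie, Prod.mk.injEq, Sum.inl.injEq] at h
  obtain ⟨rfl, rfl, rfl⟩ := h
  rfl

theorem ic_inj : Function.Injective (ic : V × (ZMod K → Q) → V × (ZMod K → Q ⊕ Fin 3)) := by
  rintro ⟨a, b⟩ ⟨a', b'⟩ h
  simp only [ic, Prod.mk.injEq] at h
  obtain ⟨rfl, h⟩ := h
  congr 1
  funext j
  exact Sum.inl_injective (congrFun h j)

theorem cedge_ic (ℓ : V → ZMod K → L) (p : V × (ZMod K → Q)) (j : ZMod K) :
    cedge ℓ (ic p) j = ie (cedge ℓ p j) := rfl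

open Classical in
/-- the new edges. -/
noncomputable def Ep (ℓ : V → ZMod K → L) (E : Finset (Q × L × Q)) (v : V) (j0 : ZMod K)
    (x : ℕ → Q) : Finset ((Q ⊕ Fin 3) × L × (Q ⊕ Fin 3)) :=
  E.image ie ∪ (Finset.range 4).image
    (fun s => cedge ℓ (v, nc j0 x) (j0 + ((K - 4 + s : ℕ) : ZMod K)))

open Classical in
/-- the new cells. -/
noncomputable def Cp (C : Finset (V × (ZMod K → Q))) (v : V) (j0 : ZMod K)
    (x : ℕ → Q) : Finset (V × (ZMod K → Q ⊕ Fin 3)) :=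
  insert (v, nc j0 x) (C.image ic)

theorem mem_Cp (C : Finset (V × (ZMod K → Q))) (v : V) (j0 : ZMod K)
    (x : ℕ → Q) (p : V × (ZMod K → Q ⊕ Fin 3)) :
    p ∈ Cp C v j0 x ↔ p = (v, nc j0 x) ∨ ∃ q ∈ C, ic q = p := by
  unfold Cp
  simp only [Finset.mem_insert, Finset.mem_image]

theorem mem_Ep (ℓ : V → ZMod K → L) (E : Finset (Q × L × Q)) (v : V) (j0 : ZMod K)
    (x : ℕ → Q) (e : (Q ⊕ Fin 3) × L × (Q ⊕ Fin 3)) :
    e ∈ Ep ℓ E v j0 x ↔ (∃ e0 ∈ E, ie e0 = e) ∨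
      ∃ s < 4, cedge ℓ (v, nc j0 x) (j0 + ((K - 4 + s : ℕ) : ZMod K)) = e := by
  unfold Ep
  simp only [Finset.mem_union, Finset.mem_image, Finset.mem_range]

theorem new_ne (hK : 8 ≤ K) (ℓ : V → ZMod K → L) (v : V) (j0 : ZMod K)
    (x : ℕ → Q) (s : ℕ) (hs : s < 4) (e0 : Q × L × Q) :
    cedge ℓ (v, nc j0 x) (j0 + ((K - 4 + s : ℕ) : ZMod K)) ≠ ie e0 := by
  have h : s = 0 ∨ s = 1 ∨ s = 2 ∨ s = 3 := by omega
  rcases h with rfl | rfl | rfl | rfl
  · rw [Nat.add_zero, cedge_0 hK]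
    simp [ie]
  · rw [show K - 4 + 1 = K - 3 by omega, cedge_1 hK]
    simp [ie]
  · rw [show K - 4 + 2 = K - 2 by omega, cedge_2 hK]
    simp [ie]
  · rw [show K - 4 + 3 = K - 1 by omega, cedge_3 hK]
    simp [ie]

theorem ie_mem_Ep (hK : 8 ≤ K) (ℓ : V → ZMod K → L) (E : Finset (Q × L × Q)) (v : V)
    (j0 : ZMod K) (x : ℕ → Q) (e : Q × L × Q) : ie e ∈ Ep ℓ E v j0 x ↔ e ∈ E := by
  rw [mem_Ep]
  constructor
  · rintro (⟨e0, he0, h⟩ | ⟨s, hs, h⟩)
    · rw [← ie_inj h]; exact he0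
    · exact absurd h (new_ne hK ℓ v j0 x s hs e)
  · intro h
    exact Or.inl ⟨e, h, rfl⟩

theorem card_Ep (ℓ : V → ZMod K → L) (E : Finset (Q × L × Q)) (v : V) (j0 : ZMod K)
    (x : ℕ → Q) : (Ep ℓ E v j0 x).card ≤ E.card + 4 := by
  classical
  unfold Ep
  refine (Finset.card_union_le _ _).trans ?_
  refine Nat.add_le_add Finset.card_image_le ?_
  exact Finset.card_image_le.trans (by simp)

theorem card_Cp (hK : 8 ≤ K) (C : Finset (V × (ZMod K → Q))) (v : V) (j0 : ZMod K)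
    (x : ℕ → Q) : (Cp C v j0 x).card = C.card + 1 := by
  classical
  unfold Cp
  rw [Finset.card_insert_of_notMem, Finset.card_image_of_injective _ ic_inj]
  simp only [Finset.mem_image, not_exists, not_and]
  rintro q - h
  have h1 := congrArg Prod.snd h
  have h2 := congrFun h1 (j0 + ((K - 3 : ℕ) : ZMod K))
  simp only [ic] at h2
  rw [nc_0 hK] at h2
  exact absurd h2 (by simp)

theorem cellsIn_Cp (hK : 8 ≤ K) (ℓ : V → ZMod K → L) (E : Finset (Q × L × Q))
    (C : Finset (V × (ZMod K → Q))) (hC : CellsIn ℓ E C) (v : V) (j0 : ZMod K) (x : ℕ → Q)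
    (hx : IsPath ℓ (fun a l b => (a, l, b) ∈ E) v j0 (K - 4) x) :
    CellsIn ℓ (Ep ℓ E v j0 x) (Cp C v j0 x) := by
  intro p hp j
  rw [mem_Cp] at hp
  rcases hp with rfl | ⟨q, hq, rfl⟩
  · obtain ⟨i, hi, rfl⟩ := pos_cases j0 j
    by_cases h : i < K - 4
    · rw [cedge_old hK ℓ v j0 x i h]
      exact (ie_mem_Ep hK ℓ E v j0 x (x i, ℓ v (j0 + (i : ZMod K)), x (i + 1))).mpr (hx i h)
    · rw [mem_Ep]
      refine Or.inr ⟨i - (K - 4), by omega, ?_⟩
      rw [show K - 4 + (i - (K - 4)) = i by omega]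
  · rw [cedge_ic, ie_mem_Ep hK]
    exact hC q hq j

/-- distinct cells of the same type are disjoint. -/
theorem disj (hK : 8 ≤ K) (ℓ : V → ZMod K → L) (E : Finset (Q × L × Q))
    (C : Finset (V × (ZMod K → Q))) (hF : Folded E) (hC : CellsIn ℓ E C) (v : V) (j0 : ZMod K)
    (x : ℕ → Q)
    (hx : IsPath ℓ (fun a l b => (a, l, b) ∈ E) v j0 (K - 4) x)
    (hn : ¬ ∃ p ∈ C, p.1 = v ∧ p.2 j0 = x 0) :
    ∀ p ∈ Cp C v j0 x, ∀ p' ∈ Cp C v j0 x, p.1 = p'.1 → p ≠ p' → ∀ j, p.2 j ≠ p'.2 j := by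
  have key : ∀ q ∈ C, q.1 = v → ∀ j, (Sum.inl (q.2 j) : Q ⊕ Fin 3) ≠ nc j0 x j := by
    intro q hq hqv j h
    obtain ⟨i, hi, rfl⟩ := pos_cases j0 j
    have hi4 : i ≤ K - 4 := by
      by_contra hcon
      unfold nc at h
      rw [val_sub j0 i hi, if_neg hcon] at h
      split_ifs at h
    rw [nc_old hK j0 x i hi4] at h
    have h0 : q.2 (j0 + (i : ZMod K)) = x i := Sum.inl_injective h
    have h1 : ∀ s ≤ i, q.2 (j0 + ((i - s : ℕ) : ZMod K)) = x (i - s) := by
      intro s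
      induction s with
      | zero => intro _; simpa using h0
      | succ s ih =>
        intro hs
        have h2 := ih (by omega)
        have h3 := hC q hq (j0 + ((i - (s + 1) : ℕ) : ZMod K))
        have h4 := hx (i - (s + 1)) (by omega)
        simp only [cedge] at h3
        simp only at h4
        rw [add_assoc, ← Nat.cast_succ, show (i - (s + 1)).succ = i - s by omega, h2, hqv] at h3
        rw [show i - (s + 1) + 1 = i - s by omega] at h4
        exact hF.2 _ _ _ _ h3 h4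
    have h5 := h1 i le_rfl
    rw [Nat.sub_self, Nat.cast_zero, add_zero] at h5
    exact hn ⟨q, hq, hqv, h5⟩
  intro p hp p' hp' hpp hne j h
  rw [mem_Cp] at hp hp'
  rcases hp with rfl | ⟨q, hq, rfl⟩ <;> rcases hp' with rfl | ⟨q', hq', rfl⟩
  · exact hne rfl
  · exact key q' hq' hpp.symm j h.symm
  · exact key q hq hpp j h
  · apply hne
    have h1 : q.2 j = q'.2 j := Sum.inl_injective h
    have h2 : q.1 = q'.1 := hpp
    have h3 : q.2 = q'.2 := by
      refine cell_eq ℓ E hF q.1 q.2 q'.2 (fun j => hC q hq j) (fun j => ?_) j h1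
      rw [h2]; exact hC q' hq' j
    have h4 : q = q' := Prod.ext h2 h3
    rw [h4]

/-- the dimension count. -/
theorem z1_le [Fintype L] [Fintype Q] (hK : 8 ≤ K) (ℓ : V → ZMod K → L) (E : Finset (Q × L × Q))
    (C : Finset (V × (ZMod K → Q))) (v : V) (j0 : ZMod K)
    (x : ℕ → Q) (hx : IsPath ℓ (fun a l b => (a, l, b) ∈ E) v j0 (K - 4) x) :
    z1 ℓ (Ep ℓ E v j0 x) (Cp C v j0 x) ≤ z1 ℓ E C + 3 := by
  have hmem : ∀ f : (Q ⊕ Fin 3) × L × (Q ⊕ Fin 3) → ZMod 2,
      f ∈ Z1 ℓ (Ep ℓ E v j0 x) (Cp C v j0 x) → (fun e => f (ie e)) ∈ Z1 ℓ E C := by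
    rintro f ⟨h1, h2⟩
    refine ⟨fun e he => h1 _ (fun h => he ((ie_mem_Ep hK ℓ E v j0 x e).mp h)), fun p hp => ?_⟩
    exact h2 (ic p) ((mem_Cp C v j0 x _).mpr (Or.inr ⟨p, hp, rfl⟩))
  let Φ : Z1 ℓ (Ep ℓ E v j0 x) (Cp C v j0 x) →ₗ[ZMod 2] (Z1 ℓ E C) × (Fin 3 → ZMod 2) :=
    { toFun := fun f => (⟨fun e => f.1 (ie e), hmem f.1 f.2⟩,
        fun s => f.1 (cedge ℓ (v, nc j0 x) (j0 + ((K - 4 + (s : ℕ) : ℕ) : ZMod K))))
      map_add' := fun f g => rfl
      map_smul' := fun c f => rfl }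
  have hinj : Function.Injective Φ := by
    rw [← LinearMap.ker_eq_bot, LinearMap.ker_eq_bot']
    rintro ⟨f, hf⟩ h0
    have h1 : ∀ e, f (ie e) = 0 := fun e =>
      congrFun (congrArg Subtype.val (congrArg Prod.fst h0)) e
    have h2 : ∀ s : Fin 3, f (cedge ℓ (v, nc j0 x) (j0 + ((K - 4 + (s : ℕ) : ℕ) : ZMod K))) = 0 :=
      fun s => congrFun (congrArg Prod.snd h0) s
    have h3 : ∑ j : ZMod K, f (cedge ℓ (v, nc j0 x) j) = 0 :=
      hf.2 (v, nc j0 x) ((mem_Cp C v j0 x _).mpr (Or.inl rfl))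
    have h4 : ∀ i : ℕ, i < K - 1 → f (cedge ℓ (v, nc j0 x) (j0 + (i : ZMod K))) = 0 := by
      intro i hi
      by_cases h : i < K - 4
      · rw [cedge_old hK ℓ v j0 x i h]
        exact h1 (x i, ℓ v (j0 + (i : ZMod K)), x (i + 1))
      · have := h2 ⟨i - (K - 4), by omega⟩
        simp only at this
        rwa [show K - 4 + (i - (K - 4)) = i by omega] at this
    have h5 : f (cedge ℓ (v, nc j0 x) (j0 + ((K - 1 : ℕ) : ZMod K))) = 0 := by
      rw [Finset.sum_eq_single (j0 + ((K - 1 : ℕ) : ZMod K))] at h3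
      · exact h3
      · intro j _ hj
        obtain ⟨i, hi, rfl⟩ := pos_cases j0 j
        apply h4
        by_contra hcon
        apply hj
        rw [show i = K - 1 by omega]
      · intro h; exact absurd (Finset.mem_univ _) h
    apply Subtype.ext
    funext e
    change f e = 0
    by_cases he : e ∈ Ep ℓ E v j0 x
    · rw [mem_Ep] at he
      rcases he with ⟨e0, _, rfl⟩ | ⟨s, hs, rfl⟩
      · exact h1 e0
      · by_cases hs3 : s = 3
        · subst hs3
          rw [show K - 4 + 3 = K - 1 by omega]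
          exact h5
        · exact h4 _ (by omega)
    · exact hf.1 e he
  have h := LinearMap.finrank_le_finrank_of_injective hinj
  rw [Module.finrank_prod, Module.finrank_fin_fun] at h
  exact h

end construction

theorem main (hq : Spec.Quot) (hc : Spec.Cover) : Spec.AMove := by
  intro K _ hK V L Q _ _ ℓ m0 k hD1 hD2 hexp E C hG hCm v j0 x hx hn
  classical
  have hcells := cellsIn_Cp hK ℓ E C hG.cells v j0 x hx
  obtain ⟨Q', fQ', π, hπ, -, hfold, hdim⟩ := hq K inferInstance V L (Q ⊕ Fin 3)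
    inferInstance inferInstance ℓ (Ep ℓ E v j0 x)
    (Cp C v j0 x) ∅ hcells
  have hz := z1_le hK ℓ E C v j0 x hx
  have hcardQ : Fintype.card (Q ⊕ Fin 3) = Fintype.card Q + 3 := by
    simp
  rw [hcardQ, Finset.card_empty] at hdim
  have hdim0 := hG.dim
  set E' := mapE π (Ep ℓ E v j0 x) with hE'
  set C' := mapC π (Cp C v j0 x) with hC'
  have hdisj := disj hK ℓ E C hG.folded hG.cells v j0 x hx hn
  -- the merged cells
  set fC : V × (ZMod K → Q ⊕ Fin 3) → V × (ZMod K → Q') := fun p => (p.1, fun j => π (p.2 j))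
    with hfC
  set M : Finset (V × (ZMod K → Q ⊕ Fin 3)) :=
    (Cp C v j0 x).filter (fun p => ∃ p' ∈ Cp C v j0 x, p' ≠ p ∧ fC p' = fC p) with hM
  have hcC : (Cp C v j0 x).card = C.card + 1 := card_Cp hK C v j0 x
  have hMC : M.card ≤ (Cp C v j0 x).card := Finset.card_filter_le _ _
  have hcov : 40 * M.card ≤ (covered ℓ M).card := by
    refine hc K inferInstance V L (Q ⊕ Fin 3) ℓ m0 hexp M (by omega) ?_
    intro p hp p' hp'
    exact hdisj p (Finset.mem_filter.mp hp).1 p' (Finset.mem_filter.mp hp').1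
  have hcE : 2 * E'.card + (covered ℓ M).card ≤ 2 * (Ep ℓ E v j0 x).card := by
    rw [hE']
    unfold mapE
    apply two_card_image
    · intro e he
      rw [mem_covered] at he
      obtain ⟨p, hp, j, rfl⟩ := he
      exact hcells p (Finset.mem_filter.mp hp).1 j
    · intro e he
      rw [mem_covered] at he
      obtain ⟨p, hp, j, rfl⟩ := he
      obtain ⟨hp1, p', hp', hne, hf⟩ := Finset.mem_filter.mp hp
      have hf1 : p'.1 = p.1 := (Prod.ext_iff.mp hf).1
      have hf2 : ∀ j, π (p'.2 j) = π (p.2 j) := fun j => congrFun (Prod.ext_iff.mp hf).2 j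
      refine ⟨cedge ℓ p' j, hcells p' hp' j, ?_, ?_⟩
      · intro h
        exact hdisj p' hp' p hp1 hf1 hne j (congrArg Prod.fst h)
      · simp only [cedge]
        rw [hf2 j, hf2 (j + 1), hf1]
  have hcC' : (Cp C v j0 x).card ≤ C'.card + M.card := by
    refine card_le_image_add (Cp C v j0 x) fC M C'
      (fun s hs => (mem_mapC π _ _).mpr ⟨s, hs, rfl⟩) ?_
    intro s hs hsM s' hs' hss
    by_contra hne
    apply hsM
    rw [hM, Finset.mem_filter]
    exact ⟨hs, s', hs', hne, hss⟩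
  have hcC2 : C'.card ≤ (Cp C v j0 x).card := by
    rw [hC']
    unfold mapC
    exact @Finset.card_image_le _ _ _ _ (_)
  have hcE2 := card_Ep ℓ E v j0 x
  refine ⟨Q', fQ', E', C', ⟨hfold, ?_, ?_, ?_⟩, ?_, ?_⟩
  · -- cells
    intro p' hp' j
    rw [hC', mem_mapC] at hp'
    obtain ⟨p, hp, rfl⟩ := hp'
    rw [hE', mem_mapE]
    exact ⟨cedge ℓ p j, hcells p hp j, rfl⟩
  · -- onto
    intro Ω γ hγ j hj
    have hj' : ∀ e ∈ Ep ℓ E v j0 x, γ e.2.1 (j (π e.1)) = j (π e.2.2) := by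
      intro e he
      exact hj (π e.1, e.2.1, π e.2.2) ((mem_mapE π _ _).mpr ⟨e, he, rfl⟩)
    obtain ⟨ω, h1, h2⟩ := hG.onto Ω γ hγ (fun q => j (π (Sum.inl q))) (by
      intro e he
      exact hj' (ie e) ((ie_mem_Ep hK ℓ E v j0 x e).mpr he))
    have hcell : ∀ i : ℕ, j (π (nc j0 x (j0 + (i : ZMod K)))) = ω := by
      intro i
      induction i with
      | zero =>
        rw [nc_old hK j0 x 0 (by omega)]
        exact h1 _
      | succ i ih =>
        have h3 := hj' _ (hcells (v, nc j0 x) ((mem_Cp C v j0 x _).mpr (Or.inl rfl))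
          (j0 + (i : ZMod K)))
        simp only [cedge] at h3
        rw [ih, h2] at h3
        rw [Nat.cast_succ, ← add_assoc]
        exact h3.symm
    refine ⟨ω, ?_, h2⟩
    intro y
    obtain ⟨q, rfl⟩ := hπ y
    rcases q with q | s
    · exact h1 q
    · have hs : s = 0 ∨ s = 1 ∨ s = 2 := by
        fin_cases s <;> simp
      rcases hs with rfl | rfl | rfl
      · rw [← nc_0 hK j0 x]; exact hcell _
      · rw [← nc_1 hK j0 x]; exact hcell _
      · rw [← nc_2 hK j0 x]; exact hcell _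
  · omega
  · omega
  · omega

end Crest.Agent.FPAMove
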