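import Crest.Agent.FPSpec

/-!
# Rid 191 (S0291), module ABSORB
-/

set_option autoImplicit false

namespace Crest.Agent.FPAbsorb

open Finset Matrix

variable {P C : Type} [Fintype P] [Fintype C]

theorem spectral [DecidableEq P] (F : P → C → ℝ) :
    ∃ (u : P → P → ℝ) (lam : P → ℝ),
      (∀ i k, ∑ x, u i x * u k x = if i = k then 1 else 0) ∧
      (∀ i x, ∑ y, (∑ c, F x c * F y c) * u i y = lam i * u i x) ∧
      (∀ a : P → ℝ, ∀ x, a x = ∑ i, (∑ y, u i y * a y) * u i x) := by
  have hM : (Matrix.of (fun x y : P => ∑ c, F x c * F y c)).IsHermitian := by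
    ext x y
    simp [Matrix.conjTranspose_apply, mul_comm]
  refine ⟨fun i x => hM.eigenvectorBasis i x, hM.eigenvalues, ?_, ?_, ?_⟩
  · intro i k
    have := hM.eigenvectorBasis.inner_eq_ite i k
    rw [EuclideanSpace.inner_eq_star_dotProduct] at this
    simp only [dotProduct, star_trivial, Pi.star_apply] at this
    rw [← this]
    exact Finset.sum_congr rfl (fun x _ => mul_comm _ _)
  · intro i x
    have := congrFun (hM.mulVec_eigenvectorBasis i) x
    simpa [mulVec, dotProduct] using this
  · intro a x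
    have := congrArg (fun v : EuclideanSpace ℝ P => v x)
      (hM.eigenvectorBasis.sum_repr' (WithLp.toLp 2 a))
    simp only at this
    rw [← this]
    rw [WithLp.ofLp_sum, Finset.sum_apply]
    apply Finset.sum_congr rfl
    intro i _
    rw [EuclideanSpace.inner_eq_star_dotProduct]
    simp only [dotProduct, star_trivial, Pi.star_apply, WithLp.ofLp_smul, Pi.smul_apply,
      smul_eq_mul]
    congr 1
    exact Finset.sum_congr rfl (fun x _ => mul_comm _ _)

/-- a singular value decomposition -/
structure SVD (F : P → C → ℝ) (n : Type) [Fintype n] [DecidableEq n] (s : n → ℝ)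
    (u : n → P → ℝ) (v : n → C → ℝ) : Prop where
  pos : ∀ i, 0 < s i
  ou : ∀ i k, ∑ x, u i x * u k x = if i = k then 1 else 0
  ov : ∀ i k, ∑ c, v i c * v k c = if i = k then 1 else 0
  eq : ∀ x c, F x c = ∑ i, s i * u i x * v i c

theorem exists_svd (F : P → C → ℝ) :
    ∃ (n : Type) (_ : Fintype n) (_ : DecidableEq n) (s : n → ℝ) (u : n → P → ℝ) (v : n → C → ℝ),
      SVD F n s u v := by
  classical
  obtain ⟨u, lam, h1, h2, h3⟩ := spectral F
  have hf : ∀ i k, ∑ c, (∑ x, u i x * F x c) * (∑ y, u k y * F y c) =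
      if i = k then lam k else 0 := by
    intro i k
    have e : ∑ c, (∑ x, u i x * F x c) * (∑ y, u k y * F y c) =
        ∑ x, u i x * ∑ y, (∑ c, F x c * F y c) * u k y := by
      calc ∑ c, (∑ x, u i x * F x c) * (∑ y, u k y * F y c)
          = ∑ c, ∑ x, ∑ y, u i x * F x c * (u k y * F y c) := by
            apply Finset.sum_congr rfl; intro c _
            rw [Finset.sum_mul_sum]
        _ = ∑ x, ∑ c, ∑ y, u i x * F x c * (u k y * F y c) := Finset.sum_comm
        _ = ∑ x, ∑ y, ∑ c, u i x * F x c * (u k y * F y c) := by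
            apply Finset.sum_congr rfl; intro x _
            exact Finset.sum_comm
        _ = _ := by
            apply Finset.sum_congr rfl; intro x _
            rw [Finset.mul_sum]
            apply Finset.sum_congr rfl; intro y _
            rw [Finset.sum_mul, Finset.mul_sum]
            apply Finset.sum_congr rfl; intro c _
            ring
    rw [e]
    simp_rw [h2]
    have : ∑ x, u i x * (lam k * u k x) = lam k * ∑ x, u i x * u k x := by
      rw [Finset.mul_sum]; apply Finset.sum_congr rfl; intro x _; ring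
    rw [this, h1]
    split_ifs <;> simp
  have hlam : ∀ i, 0 ≤ lam i := by
    intro i
    have := hf i i
    rw [if_pos rfl] at this
    rw [← this]
    exact Finset.sum_nonneg (fun c _ => mul_self_nonneg _)
  have hz : ∀ i, ¬ 0 < lam i → ∀ c, ∑ x, u i x * F x c = 0 := by
    intro i hi c
    have h0 : lam i = 0 := le_antisymm (not_lt.1 hi) (hlam i)
    have := hf i i
    rw [if_pos rfl, h0] at this
    have h5 := (Finset.sum_eq_zero_iff_of_nonneg (fun c _ => mul_self_nonneg _)).1 this c
      (Finset.mem_univ c)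
    exact mul_self_eq_zero.1 h5
  refine ⟨{i : P // 0 < lam i}, inferInstance, inferInstance, fun i => Real.sqrt (lam i),
    fun i => u i, fun i c => (Real.sqrt (lam i))⁻¹ * ∑ x, u i x * F x c, ?_, ?_, ?_, ?_⟩
  · intro i; exact Real.sqrt_pos.2 i.2
  · intro i k
    rw [h1]
    simp only [Subtype.ext_iff]
  · intro i k
    have : ∑ c, (Real.sqrt (lam i))⁻¹ * (∑ x, u i x * F x c) *
        ((Real.sqrt (lam k))⁻¹ * ∑ x, u k x * F x c) =
        (Real.sqrt (lam i))⁻¹ * (Real.sqrt (lam k))⁻¹ *
          ∑ c, (∑ x, u i x * F x c) * ∑ x, u k x * F x c := by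
      rw [Finset.mul_sum]
      apply Finset.sum_congr rfl; intro c _; ring
    rw [this, hf]
    by_cases hik : i = k
    · subst hik
      rw [if_pos rfl, if_pos rfl]
      have hs : Real.sqrt (lam i) ≠ 0 := (Real.sqrt_pos.2 i.2).ne'
      have hs2 : Real.sqrt (lam i) * Real.sqrt (lam i) = lam i := Real.mul_self_sqrt (hlam i)
      have e0 : (Real.sqrt (lam i))⁻¹ * (Real.sqrt (lam i))⁻¹ * lam i =
          (Real.sqrt (lam i))⁻¹ * (Real.sqrt (lam i))⁻¹ *
            (Real.sqrt (lam i) * Real.sqrt (lam i)) := by rw [hs2]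
      rw [e0]
      field_simp
    · rw [if_neg hik, if_neg (fun h => hik (Subtype.ext h)), mul_zero]
  · intro x c
    rw [h3 (fun y => F y c) x]
    have e1 : ∑ i : {i : P // 0 < lam i}, Real.sqrt (lam i) * u i x *
        ((Real.sqrt (lam i))⁻¹ * ∑ y, u i y * F y c) =
        ∑ i : {i : P // 0 < lam i}, (∑ y, u i y * F y c) * u i x := by
      apply Finset.sum_congr rfl
      intro i _
      have hs : Real.sqrt (lam i) ≠ 0 := (Real.sqrt_pos.2 i.2).ne'
      field_simp
    rw [e1]
    rw [← Finset.sum_subtype (Finset.univ.filter (fun i => 0 < lam i))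
      (p := fun i => 0 < lam i) (fun i => by simp)
      (fun i => (∑ y, u i y * F y c) * u i x)]
    rw [Finset.sum_filter]
    apply Finset.sum_congr rfl
    intro i _
    split_ifs with h
    · rfl
    · rw [hz i h, zero_mul]

/-- Bessel's inequality -/
theorem bessel {n : Type} [Fintype n] [DecidableEq n] (v : n → C → ℝ)
    (ov : ∀ i k, ∑ c, v i c * v k c = if i = k then 1 else 0) (a : C → ℝ) :
    ∑ i, (∑ c, v i c * a c) ^ 2 ≤ ∑ c, a c ^ 2 := by
  have h0 : 0 ≤ ∑ c, (a c - ∑ i, (∑ c', v i c' * a c') * v i c) ^ 2 :=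
    Finset.sum_nonneg (fun c _ => sq_nonneg _)
  have e1 : ∑ c, (a c - ∑ i, (∑ c', v i c' * a c') * v i c) ^ 2 =
      ∑ c, a c ^ 2 - 2 * ∑ c, a c * (∑ i, (∑ c', v i c' * a c') * v i c) +
      ∑ c, (∑ i, (∑ c', v i c' * a c') * v i c) ^ 2 := by
    rw [Finset.mul_sum, ← Finset.sum_sub_distrib, ← Finset.sum_add_distrib]
    apply Finset.sum_congr rfl; intro c _; ring
  have e2 : ∑ c, a c * (∑ i, (∑ c', v i c' * a c') * v i c) =
      ∑ i, (∑ c, v i c * a c) ^ 2 := by
    simp_rw [Finset.mul_sum]
    rw [Finset.sum_comm]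
    apply Finset.sum_congr rfl; intro i _
    rw [sq, Finset.mul_sum]
    apply Finset.sum_congr rfl; intro c _
    ring
  have e3 : ∑ c, (∑ i, (∑ c', v i c' * a c') * v i c) ^ 2 =
      ∑ i, (∑ c, v i c * a c) ^ 2 := by
    calc ∑ c, (∑ i, (∑ c', v i c' * a c') * v i c) ^ 2
        = ∑ c, ∑ i, ∑ k, ((∑ c', v i c' * a c') * v i c) * ((∑ c', v k c' * a c') * v k c) := by
          apply Finset.sum_congr rfl; intro c _
          rw [sq, Finset.sum_mul_sum]
      _ = ∑ i, ∑ c, ∑ k, ((∑ c', v i c' * a c') * v i c) * ((∑ c', v k c' * a c') * v k c) :=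
          Finset.sum_comm
      _ = ∑ i, ∑ k, ∑ c, ((∑ c', v i c' * a c') * v i c) * ((∑ c', v k c' * a c') * v k c) := by
          apply Finset.sum_congr rfl; intro i _
          exact Finset.sum_comm
      _ = ∑ i, ∑ k, (∑ c', v i c' * a c') * (∑ c', v k c' * a c') *
            (if i = k then 1 else 0) := by
          apply Finset.sum_congr rfl; intro i _
          apply Finset.sum_congr rfl; intro k _
          rw [← ov i k, Finset.mul_sum]
          apply Finset.sum_congr rfl; intro c _
          ring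
      _ = _ := by
          apply Finset.sum_congr rfl; intro i _
          simp [sq]
  rw [e1, e2, e3] at h0
  linarith

theorem svd_sumsq {F : P → C → ℝ} {n : Type} [Fintype n] [DecidableEq n] {s : n → ℝ}
    {u : n → P → ℝ} {v : n → C → ℝ} (h : SVD F n s u v) :
    ∑ x, ∑ c, (F x c) ^ 2 = ∑ i, s i ^ 2 := by
  calc ∑ x, ∑ c, (F x c) ^ 2
      = ∑ x, ∑ c, ∑ i, ∑ k, (s i * u i x * v i c) * (s k * u k x * v k c) := by
        apply Finset.sum_congr rfl; intro x _
        apply Finset.sum_congr rfl; intro c _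
        rw [h.eq, sq, Finset.sum_mul_sum]
    _ = ∑ x, ∑ i, ∑ c, ∑ k, (s i * u i x * v i c) * (s k * u k x * v k c) := by
        apply Finset.sum_congr rfl; intro x _
        exact Finset.sum_comm
    _ = ∑ x, ∑ i, ∑ k, ∑ c, (s i * u i x * v i c) * (s k * u k x * v k c) := by
        apply Finset.sum_congr rfl; intro x _
        apply Finset.sum_congr rfl; intro i _
        exact Finset.sum_comm
    _ = ∑ x, ∑ i, ∑ k, (s i * s k) * (u i x * u k x) * (if i = k then 1 else 0) := by
        apply Finset.sum_congr rfl; intro x _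
        apply Finset.sum_congr rfl; intro i _
        apply Finset.sum_congr rfl; intro k _
        rw [← h.ov i k, Finset.mul_sum]
        apply Finset.sum_congr rfl; intro c _
        ring
    _ = ∑ x, ∑ i, s i ^ 2 * (u i x * u i x) := by
        apply Finset.sum_congr rfl; intro x _
        apply Finset.sum_congr rfl; intro i _
        simp [sq]
    _ = ∑ i, ∑ x, s i ^ 2 * (u i x * u i x) := Finset.sum_comm
    _ = ∑ i, s i ^ 2 := by
        apply Finset.sum_congr rfl; intro i _
        rw [← Finset.mul_sum, h.ou, if_pos rfl, mul_one]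

/-- the square root of `F Fᵀ` -/
def sqm {n : Type} [Fintype n] (s : n → ℝ) (u : n → P → ℝ) (x y : P) : ℝ :=
  ∑ i, s i * u i x * u i y

theorem svd_sqm {F : P → C → ℝ} {n : Type} [Fintype n] [DecidableEq n] {s : n → ℝ}
    {u : n → P → ℝ} {v : n → C → ℝ} (h : SVD F n s u v) :
    SVD (sqm s u) n s u u :=
  ⟨h.pos, h.ou, h.ou, fun _ _ => rfl⟩

theorem key {F G : P → C → ℝ} {n m : Type} [Fintype n] [DecidableEq n] [Fintype m] [DecidableEq m]
    {s : n → ℝ} {u : n → P → ℝ} {v : n → C → ℝ} {t : m → ℝ} {w : m → P → ℝ} {z : m → C → ℝ}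
    (hF : SVD F n s u v) (hG : SVD G m t w z) (σ : Equiv.Perm P) (τ : Equiv.Perm C) :
    (∑ x, ∑ c, G (σ x) (τ c) * F x c) ^ 2 ≤
      (∑ x, ∑ y, sqm t w (σ x) (σ y) * sqm s u x y) *
        (Real.sqrt (∑ x, ∑ c, (F x c) ^ 2) * Real.sqrt (∑ x, ∑ c, (G x c) ^ 2)) := by
  classical
  set A : n × m → ℝ := fun p => ∑ x, w p.2 (σ x) * u p.1 x with hA
  set B : n × m → ℝ := fun p => ∑ c, z p.2 (τ c) * v p.1 c with hB
  set W : n × m → ℝ := fun p => s p.1 * t p.2 with hW
  have hW0 : ∀ p, 0 < W p := fun p => mul_pos (hF.pos _) (hG.pos _)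
  have e1 : ∑ x, ∑ c, G (σ x) (τ c) * F x c = ∑ p, W p * A p * B p := by
    calc ∑ x, ∑ c, G (σ x) (τ c) * F x c
        = ∑ x, ∑ c, ∑ p : n × m, (s p.1 * u p.1 x * v p.1 c) *
            (t p.2 * w p.2 (σ x) * z p.2 (τ c)) := by
          apply Finset.sum_congr rfl; intro x _
          apply Finset.sum_congr rfl; intro c _
          rw [hF.eq, hG.eq, mul_comm, Finset.sum_mul_sum, Fintype.sum_prod_type]
      _ = ∑ x, ∑ p : n × m, ∑ c, (s p.1 * u p.1 x * v p.1 c) *
            (t p.2 * w p.2 (σ x) * z p.2 (τ c)) := by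
          apply Finset.sum_congr rfl; intro x _
          exact Finset.sum_comm
      _ = ∑ p : n × m, ∑ x, ∑ c, (s p.1 * u p.1 x * v p.1 c) *
            (t p.2 * w p.2 (σ x) * z p.2 (τ c)) := Finset.sum_comm
      _ = ∑ p, W p * A p * B p := by
          apply Finset.sum_congr rfl; intro p _
          simp only [hA, hB, hW]
          rw [mul_assoc, Finset.sum_mul_sum, Finset.mul_sum]
          apply Finset.sum_congr rfl; intro x _
          rw [Finset.mul_sum]
          apply Finset.sum_congr rfl; intro c _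
          ring
  have e2 : ∑ x, ∑ y, sqm t w (σ x) (σ y) * sqm s u x y = ∑ p, W p * A p ^ 2 := by
    calc ∑ x, ∑ y, sqm t w (σ x) (σ y) * sqm s u x y
        = ∑ x, ∑ y, ∑ p : n × m, (s p.1 * u p.1 x * u p.1 y) *
            (t p.2 * w p.2 (σ x) * w p.2 (σ y)) := by
          apply Finset.sum_congr rfl; intro x _
          apply Finset.sum_congr rfl; intro y _
          rw [sqm, sqm, mul_comm, Finset.sum_mul_sum, Fintype.sum_prod_type]
      _ = ∑ x, ∑ p : n × m, ∑ y, (s p.1 * u p.1 x * u p.1 y) *
            (t p.2 * w p.2 (σ x) * w p.2 (σ y)) := by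
          apply Finset.sum_congr rfl; intro x _
          exact Finset.sum_comm
      _ = ∑ p : n × m, ∑ x, ∑ y, (s p.1 * u p.1 x * u p.1 y) *
            (t p.2 * w p.2 (σ x) * w p.2 (σ y)) := Finset.sum_comm
      _ = ∑ p, W p * A p ^ 2 := by
          apply Finset.sum_congr rfl; intro p _
          simp only [hA, hW]
          rw [sq, Finset.sum_mul_sum, Finset.mul_sum]
          apply Finset.sum_congr rfl; intro x _
          rw [Finset.mul_sum]
          apply Finset.sum_congr rfl; intro c _
          ring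
  have cs1 : (∑ p, W p * A p * B p) ^ 2 ≤ (∑ p, W p * A p ^ 2) * (∑ p, W p * B p ^ 2) := by
    have := Finset.sum_mul_sq_le_sq_mul_sq Finset.univ (fun p => Real.sqrt (W p) * A p)
      (fun p => Real.sqrt (W p) * B p)
    have hs : ∀ p, Real.sqrt (W p) * Real.sqrt (W p) = W p :=
      fun p => Real.mul_self_sqrt (hW0 p).le
    have q1 : ∀ p, Real.sqrt (W p) * A p * (Real.sqrt (W p) * B p) = W p * A p * B p := by
      intro p
      calc Real.sqrt (W p) * A p * (Real.sqrt (W p) * B p) =
          (Real.sqrt (W p) * Real.sqrt (W p)) * A p * B p := by ring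
        _ = _ := by rw [hs]
    have q2 : ∀ p (a : ℝ), (Real.sqrt (W p) * a) ^ 2 = W p * a ^ 2 := by
      intro p a
      rw [mul_pow, Real.sq_sqrt (hW0 p).le]
    simp only [q1, q2] at this
    exact this
  have b1 : ∀ i, ∑ k, B (i, k) ^ 2 ≤ 1 := by
    intro i
    have := bessel (fun k c => z k (τ c)) (by
      intro k l
      rw [← hG.ov k l]
      exact Equiv.sum_comp τ (fun c => z k c * z l c)) (v i)
    refine this.trans (le_of_eq ?_)
    have h2 := hF.ov i i
    rw [if_pos rfl] at h2
    rw [← h2]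
    apply Finset.sum_congr rfl; intro c _; ring
  have b2 : ∀ k, ∑ i, B (i, k) ^ 2 ≤ 1 := by
    intro k
    have := bessel v hF.ov (fun c => z k (τ c))
    have h2 := hG.ov k k
    rw [if_pos rfl] at h2
    have h3 : ∑ c, z k (τ c) ^ 2 = 1 := by
      rw [← h2]
      rw [Equiv.sum_comp τ (fun c => z k c ^ 2)]
      apply Finset.sum_congr rfl; intro c _; ring
    rw [h3] at this
    refine le_trans (le_of_eq ?_) this
    apply Finset.sum_congr rfl; intro i _
    simp only [hB]
    congr 1
    apply Finset.sum_congr rfl; intro c _; ring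
  have cs2 : ∑ p, W p * B p ^ 2 ≤
      Real.sqrt (∑ x, ∑ c, (F x c) ^ 2) * Real.sqrt (∑ x, ∑ c, (G x c) ^ 2) := by
    rw [svd_sumsq hF, svd_sumsq hG]
    have c1 := Finset.sum_mul_sq_le_sq_mul_sq Finset.univ (fun p : n × m => s p.1 * B p)
      (fun p => t p.2 * B p)
    have q1 : ∑ p : n × m, s p.1 * B p * (t p.2 * B p) = ∑ p, W p * B p ^ 2 := by
      apply Finset.sum_congr rfl; intro p _; simp only [hW]; ring
    have q2 : ∑ p : n × m, (s p.1 * B p) ^ 2 ≤ ∑ i, s i ^ 2 := by
      rw [Fintype.sum_prod_type]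
      apply Finset.sum_le_sum; intro i _
      have : ∑ k, (s i * B (i, k)) ^ 2 = s i ^ 2 * ∑ k, B (i, k) ^ 2 := by
        rw [Finset.mul_sum]; apply Finset.sum_congr rfl; intro k _; ring
      simp only
      rw [this]
      nlinarith [b1 i, sq_nonneg (s i)]
    have q3 : ∑ p : n × m, (t p.2 * B p) ^ 2 ≤ ∑ k, t k ^ 2 := by
      rw [Fintype.sum_prod_type, Finset.sum_comm]
      apply Finset.sum_le_sum; intro k _
      have : ∑ i, (t k * B (i, k)) ^ 2 = t k ^ 2 * ∑ i, B (i, k) ^ 2 := by
        rw [Finset.mul_sum]; apply Finset.sum_congr rfl; intro i _; ring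
      simp only
      rw [this]
      nlinarith [b2 k, sq_nonneg (t k)]
    rw [q1] at c1
    rw [← Real.sqrt_mul (Finset.sum_nonneg (fun i _ => sq_nonneg _))]
    apply Real.le_sqrt_of_sq_le
    refine c1.trans ?_
    apply mul_le_mul q2 q3 (Finset.sum_nonneg (fun i _ => sq_nonneg _))
      (Finset.sum_nonneg (fun i _ => sq_nonneg _))
  rw [e1, e2]
  refine cs1.trans ?_
  apply mul_le_mul_of_nonneg_left cs2
  exact Finset.sum_nonneg (fun p _ => mul_nonneg (hW0 p).le (sq_nonneg _))

theorem main : Crest.Agent.FP.Spec.Absorb := by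
  intro P C _ _
  choose n fn dn s u v h using (fun F : P → C → ℝ => exists_svd F)
  refine ⟨fun F => sqm (s F) (u F), ?_, ?_, ?_, ?_, ?_, ?_⟩
  · intro F x y
    simp only [sqm]
    rw [← Finset.sum_add_distrib, Finset.sum_div]
    refine (Finset.abs_sum_le_sum_abs _ _).trans ?_
    apply Finset.sum_le_sum
    intro i _
    have hs := (h F).pos i
    rw [mul_assoc, abs_mul, abs_of_pos hs]
    have h1 : |u F i x * u F i y| ≤ (u F i x ^ 2 + u F i y ^ 2) / 2 := by
      rw [abs_le]
      constructor
      · nlinarith [sq_nonneg (u F i x + u F i y)]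
      · nlinarith [sq_nonneg (u F i x - u F i y)]
    calc s F i * |u F i x * u F i y| ≤ s F i * ((u F i x ^ 2 + u F i y ^ 2) / 2) :=
          mul_le_mul_of_nonneg_left h1 hs.le
      _ = _ := by ring
  · intro F
    rw [svd_sumsq (h F), svd_sumsq (svd_sqm (h F))]
  · intro F
    simp only [sqm]
    apply Finset.sum_nonneg; intro x _
    apply Finset.sum_nonneg; intro i _
    rw [mul_assoc]
    exact mul_nonneg ((h F).pos i).le (mul_self_nonneg _)
  · intro F
    have e1 : ∑ x, sqm (s F) (u F) x x = ∑ i, s F i := by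
      simp only [sqm]
      rw [Finset.sum_comm]
      apply Finset.sum_congr rfl; intro i _
      have := (h F).ou i i
      rw [if_pos rfl] at this
      calc ∑ x, s F i * u F i x * u F i x = s F i * ∑ x, u F i x * u F i x := by
            rw [Finset.mul_sum]; apply Finset.sum_congr rfl; intro x _; ring
        _ = s F i := by rw [this, mul_one]
    rw [e1, svd_sumsq (h F)]
    have c1 := Finset.sum_mul_sq_le_sq_mul_sq Finset.univ (fun _ : n F => (1 : ℝ))
      (fun i => s F i)
    simp only [one_mul, one_pow, Finset.sum_const, nsmul_eq_mul, mul_one] at c1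
    refine c1.trans ?_
    apply mul_le_mul_of_nonneg_right _ (Finset.sum_nonneg (fun i _ => sq_nonneg _))
    -- the number of singular values
    classical
    have c2 : ∑ c : C, ∑ i, (v F i c) ^ 2 ≤ ∑ c : C, (1 : ℝ) := by
      apply Finset.sum_le_sum; intro c _
      have := bessel (v F) (h F).ov (fun c' => if c' = c then 1 else 0)
      simpa using this
    rw [Finset.sum_comm] at c2
    have c3 : ∑ i, ∑ c, (v F i c) ^ 2 = ((Finset.univ : Finset (n F)).card : ℝ) := by
      have : ∀ i, ∑ c, (v F i c) ^ 2 = 1 := by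
        intro i
        have := (h F).ov i i
        rw [if_pos rfl] at this
        rw [← this]
        apply Finset.sum_congr rfl; intro c _; ring
      simp [this]
    rw [c3] at c2
    simpa using c2
  · intro F hF x
    simp only [sqm]
    rw [Finset.sum_comm]
    apply Finset.sum_eq_zero
    intro i _
    have e1 : ∑ c, v F i c * ∑ x, F x c = s F i * ∑ x, u F i x := by
      calc ∑ c, v F i c * ∑ x, F x c = ∑ c, ∑ x, v F i c * F x c := by
            apply Finset.sum_congr rfl; intro c _; rw [Finset.mul_sum]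
        _ = ∑ x, ∑ c, v F i c * F x c := Finset.sum_comm
        _ = ∑ x, ∑ c, ∑ k, (s F k * u F k x) * (v F i c * v F k c) := by
            apply Finset.sum_congr rfl; intro x _
            apply Finset.sum_congr rfl; intro c _
            rw [(h F).eq x c, Finset.mul_sum]
            apply Finset.sum_congr rfl; intro k _; ring
        _ = ∑ x, ∑ k, ∑ c, (s F k * u F k x) * (v F i c * v F k c) := by
            apply Finset.sum_congr rfl; intro x _; exact Finset.sum_comm
        _ = ∑ x, ∑ k, (s F k * u F k x) * (if i = k then 1 else 0) := by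
            apply Finset.sum_congr rfl; intro x _
            apply Finset.sum_congr rfl; intro k _
            rw [← (h F).ov i k, Finset.mul_sum]
        _ = ∑ x, s F i * u F i x := by
            apply Finset.sum_congr rfl; intro x _; simp
        _ = _ := by rw [Finset.mul_sum]
    have e2 : s F i * ∑ x, u F i x = 0 := by
      rw [← e1]
      apply Finset.sum_eq_zero; intro c _
      rw [hF c, mul_zero]
    have e3 : ∑ x, u F i x = 0 := by
      rcases mul_eq_zero.1 e2 with h1 | h1
      · exact absurd h1 ((h F).pos i).ne'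
      · exact h1
    calc ∑ y, s F i * u F i x * u F i y = s F i * u F i x * ∑ y, u F i y := by
          rw [Finset.mul_sum]
      _ = 0 := by rw [e3, mul_zero]
  · intro F G σ τ
    exact key (h F) (h G) σ τ

end Crest.Agent.FPAbsorb
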