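import Crest.Agent.FPSpec

set_option autoImplicit false

namespace Crest.Agent.FPBGen

open Crest.Agent.FP Matrix

variable {F : Type} [Field F]

/-- product of at most `n` elementary matrices. -/
def P (n : ℕ) (g : SpecialLinearGroup (Fin 3) F) : Prop :=
  ∃ l : List (SpecialLinearGroup (Fin 3) F), l.length ≤ n ∧
      (∀ e ∈ l, ∃ (i j : Fin 3) (hij : i ≠ j) (c : F), e = El i j hij c) ∧ l.prod = g

theorem P.mono {n m : ℕ} (h : n ≤ m) {g : SpecialLinearGroup (Fin 3) F} (hg : P n g) : P m g := by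
  obtain ⟨l, h1, h2, h3⟩ := hg
  exact ⟨l, h1.trans h, h2, h3⟩

theorem El_mul_neg (i j : Fin 3) (hij : i ≠ j) (c : F) : El i j hij (-c) * El i j hij c = 1 := by
  apply Subtype.ext
  change transvection i j (-c) * transvection i j c = 1
  rw [transvection_mul_transvection_same _ _ hij]
  simp

theorem El_mul_neg' (i j : Fin 3) (hij : i ≠ j) (c : F) : El i j hij c * El i j hij (-c) = 1 := by
  apply Subtype.ext
  change transvection i j c * transvection i j (-c) = 1
  rw [transvection_mul_transvection_same _ _ hij]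
  simp

theorem left {n : ℕ} {g : SpecialLinearGroup (Fin 3) F} (i j : Fin 3) (hij : i ≠ j) (c : F)
    (h : P n (El i j hij c * g)) : P (n + 1) g := by
  obtain ⟨l, h1, h2, h3⟩ := h
  refine ⟨El i j hij (-c) :: l, by simpa using h1, ?_, ?_⟩
  · intro e he
    rcases List.mem_cons.1 he with rfl | he
    · exact ⟨i, j, hij, -c, rfl⟩
    · exact h2 e he
  · rw [List.prod_cons, h3, ← mul_assoc, El_mul_neg, one_mul]

theorem right {n : ℕ} {g : SpecialLinearGroup (Fin 3) F} (i j : Fin 3) (hij : i ≠ j) (c : F)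
    (h : P n (g * El i j hij c)) : P (n + 1) g := by
  obtain ⟨l, h1, h2, h3⟩ := h
  refine ⟨l ++ [El i j hij (-c)], by simpa using h1, ?_, ?_⟩
  · intro e he
    rcases List.mem_append.1 he with he | he
    · exact h2 e he
    · rw [List.mem_singleton] at he
      exact ⟨i, j, hij, -c, he⟩
  · rw [List.prod_append, h3, List.prod_singleton, mul_assoc, El_mul_neg', mul_one]

theorem ls (i j : Fin 3) (hij : i ≠ j) (c : F) (g : SpecialLinearGroup (Fin 3) F) (b : Fin 3) :
    (El i j hij c * g).1 i b = g.1 i b + c * g.1 j b := by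
  change (transvection i j c * g.1) i b = _
  exact transvection_mul_apply_same i j b c g.1

theorem ln (i j : Fin 3) (hij : i ≠ j) (c : F) (g : SpecialLinearGroup (Fin 3) F) (a b : Fin 3)
    (ha : a ≠ i) : (El i j hij c * g).1 a b = g.1 a b := by
  change (transvection i j c * g.1) a b = _
  exact transvection_mul_apply_of_ne i j a b ha c g.1

theorem rs (i j : Fin 3) (hij : i ≠ j) (c : F) (g : SpecialLinearGroup (Fin 3) F) (a : Fin 3) :
    (g * El i j hij c).1 a j = g.1 a j + c * g.1 a i := by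
  change (g.1 * transvection i j c) a j = _
  exact mul_transvection_apply_same i j a c g.1

theorem rn (i j : Fin 3) (hij : i ≠ j) (c : F) (g : SpecialLinearGroup (Fin 3) F) (a b : Fin 3)
    (hb : b ≠ j) : (g * El i j hij c).1 a b = g.1 a b := by
  change (g.1 * transvection i j c) a b = _
  exact mul_transvection_apply_of_ne i j a b hb c g.1

theorem det3 (g : SpecialLinearGroup (Fin 3) F) :
    g.1 0 0 * g.1 1 1 * g.1 2 2 - g.1 0 0 * g.1 1 2 * g.1 2 1
      - g.1 0 1 * g.1 1 0 * g.1 2 2 + g.1 0 1 * g.1 1 2 * g.1 2 0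
      + g.1 0 2 * g.1 1 0 * g.1 2 1 - g.1 0 2 * g.1 1 1 * g.1 2 0 = 1 := by
  rw [← det_fin_three]; exact g.2

theorem L1 (g : SpecialLinearGroup (Fin 3) F) (h00 : g.1 0 0 = 1) (h01 : g.1 0 1 = 0)
    (h02 : g.1 0 2 = 0) (h10 : g.1 1 0 = 0) (h20 : g.1 2 0 = 0) (h11 : g.1 1 1 = 1)
    (h21 : g.1 2 1 = 0) (h12 : g.1 1 2 = 0) : P 0 g := by
  have h := det3 g
  rw [h00, h01, h02, h10, h20, h11, h21, h12] at h
  have h22 : g.1 2 2 = 1 := by linear_combination h
  refine ⟨[], le_rfl, by simp, ?_⟩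
  rw [List.prod_nil]
  apply Subtype.ext
  ext a b
  fin_cases a <;> fin_cases b <;> simp_all

theorem L2 (g : SpecialLinearGroup (Fin 3) F) (h00 : g.1 0 0 = 1) (h01 : g.1 0 1 = 0)
    (h02 : g.1 0 2 = 0) (h10 : g.1 1 0 = 0) (h20 : g.1 2 0 = 0) (h11 : g.1 1 1 = 1)
    (h21 : g.1 2 1 = 0) : P 1 g := by
  apply right 1 2 (by decide) (-(g.1 1 2))
  apply L1
  · rw [rn _ _ _ _ _ _ _ (by decide)]; exact h00
  · rw [rn _ _ _ _ _ _ _ (by decide)]; exact h01
  · rw [rs, h02, h01]; ring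
  · rw [rn _ _ _ _ _ _ _ (by decide)]; exact h10
  · rw [rn _ _ _ _ _ _ _ (by decide)]; exact h20
  · rw [rn _ _ _ _ _ _ _ (by decide)]; exact h11
  · rw [rn _ _ _ _ _ _ _ (by decide)]; exact h21
  · rw [rs, h11]; ring

theorem L3 (g : SpecialLinearGroup (Fin 3) F) (h00 : g.1 0 0 = 1) (h01 : g.1 0 1 = 0)
    (h02 : g.1 0 2 = 0) (h10 : g.1 1 0 = 0) (h20 : g.1 2 0 = 0) (h11 : g.1 1 1 = 1) : P 2 g := by
  apply left 2 1 (by decide) (-(g.1 2 1))
  apply L2
  · rw [ln _ _ _ _ _ _ _ (by decide)]; exact h00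
  · rw [ln _ _ _ _ _ _ _ (by decide)]; exact h01
  · rw [ln _ _ _ _ _ _ _ (by decide)]; exact h02
  · rw [ln _ _ _ _ _ _ _ (by decide)]; exact h10
  · rw [ls, h20, h10]; ring
  · rw [ln _ _ _ _ _ _ _ (by decide)]; exact h11
  · rw [ls, h11]; ring

theorem L4 (g : SpecialLinearGroup (Fin 3) F) (h00 : g.1 0 0 = 1) (h01 : g.1 0 1 = 0)
    (h02 : g.1 0 2 = 0) (h10 : g.1 1 0 = 0) (h20 : g.1 2 0 = 0) (h21 : g.1 2 1 ≠ 0) : P 3 g := by
  apply left 1 2 (by decide) ((1 - g.1 1 1) / g.1 2 1)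
  apply L3
  · rw [ln _ _ _ _ _ _ _ (by decide)]; exact h00
  · rw [ln _ _ _ _ _ _ _ (by decide)]; exact h01
  · rw [ln _ _ _ _ _ _ _ (by decide)]; exact h02
  · rw [ls, h20, h10]; ring
  · rw [ln _ _ _ _ _ _ _ (by decide)]; exact h20
  · rw [ls]; field_simp; ring

theorem L5 (g : SpecialLinearGroup (Fin 3) F) (h00 : g.1 0 0 = 1) (h01 : g.1 0 1 = 0)
    (h02 : g.1 0 2 = 0) (h10 : g.1 1 0 = 0) (h20 : g.1 2 0 = 0) : P 4 g := by
  by_cases h21 : g.1 2 1 = 0
  · apply left 2 1 (by decide) 1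
    have hd := det3 g
    rw [h00, h01, h02, h10, h20, h21] at hd
    have h11 : g.1 1 1 ≠ 0 := by
      intro h
      rw [h] at hd
      simp at hd
    apply L4
    · rw [ln _ _ _ _ _ _ _ (by decide)]; exact h00
    · rw [ln _ _ _ _ _ _ _ (by decide)]; exact h01
    · rw [ln _ _ _ _ _ _ _ (by decide)]; exact h02
    · rw [ln _ _ _ _ _ _ _ (by decide)]; exact h10
    · rw [ls, h20, h10]; ring
    · rw [ls, h21]; simpa using h11
  · exact (L4 g h00 h01 h02 h10 h20 h21).mono (by norm_num)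

theorem L6 (g : SpecialLinearGroup (Fin 3) F) (h00 : g.1 0 0 = 1) (h01 : g.1 0 1 = 0)
    (h10 : g.1 1 0 = 0) (h20 : g.1 2 0 = 0) : P 5 g := by
  apply right 0 2 (by decide) (-(g.1 0 2))
  apply L5
  · rw [rn _ _ _ _ _ _ _ (by decide)]; exact h00
  · rw [rn _ _ _ _ _ _ _ (by decide)]; exact h01
  · rw [rs, h00]; ring
  · rw [rn _ _ _ _ _ _ _ (by decide)]; exact h10
  · rw [rn _ _ _ _ _ _ _ (by decide)]; exact h20

theorem L7 (g : SpecialLinearGroup (Fin 3) F) (h00 : g.1 0 0 = 1)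
    (h10 : g.1 1 0 = 0) (h20 : g.1 2 0 = 0) : P 6 g := by
  apply right 0 1 (by decide) (-(g.1 0 1))
  apply L6
  · rw [rn _ _ _ _ _ _ _ (by decide)]; exact h00
  · rw [rs, h00]; ring
  · rw [rn _ _ _ _ _ _ _ (by decide)]; exact h10
  · rw [rn _ _ _ _ _ _ _ (by decide)]; exact h20

theorem L8 (g : SpecialLinearGroup (Fin 3) F) (h00 : g.1 0 0 = 1)
    (h10 : g.1 1 0 = 0) : P 7 g := by
  apply left 2 0 (by decide) (-(g.1 2 0))
  apply L7
  · rw [ln _ _ _ _ _ _ _ (by decide)]; exact h00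
  · rw [ln _ _ _ _ _ _ _ (by decide)]; exact h10
  · rw [ls, h00]; ring

theorem L9 (g : SpecialLinearGroup (Fin 3) F) (h00 : g.1 0 0 = 1) : P 8 g := by
  apply left 1 0 (by decide) (-(g.1 1 0))
  apply L8
  · rw [ln _ _ _ _ _ _ _ (by decide)]; exact h00
  · rw [ls, h00]; ring

theorem L10 (g : SpecialLinearGroup (Fin 3) F) (h10 : g.1 1 0 ≠ 0) : P 9 g := by
  apply left 0 1 (by decide) ((1 - g.1 0 0) / g.1 1 0)
  apply L9
  rw [ls]; field_simp; ring

theorem main : Spec.BGen := by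
  intro F _ g
  have key : P 10 g := by
    by_cases h10 : g.1 1 0 = 0
    · by_cases h20 : g.1 2 0 = 0
      · apply left 1 0 (by decide) 1
        apply L10
        rw [ls, h10]
        have hd := det3 g
        rw [h10, h20] at hd
        intro h
        have h00 : g.1 0 0 = 0 := by simpa using h
        rw [h00] at hd
        simp at hd
      · apply left 1 2 (by decide) 1
        apply L10
        rw [ls, h10]
        simpa using h20
    · exact (L10 g h10).mono (by norm_num)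
  obtain ⟨l, h1, h2, h3⟩ := key
  exact ⟨l, h1.trans (by norm_num), h2, h3⟩

end Crest.Agent.FPBGen
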