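import Crest.Agent.FPSpec

/-!
# rid 191, module BLOCK
-/

set_option autoImplicit false

namespace Crest.Agent.FPBlock

open Crest.Agent.FP
open scoped BigOperators

/-- the sum of a function of the label over the indices. -/
theorem sum_lab {ι U : Type} [Fintype ι] [Fintype U] (w : ι → U) (M : ℕ)
    (hw : ∀ u, Nat.card {j : ι // w j = u} = M) (h : U → ℝ) :
    ∑ j, h (w j) = (M : ℝ) * ∑ u, h u := by
  classical
  rw [← Finset.sum_fiberwise (s := (Finset.univ : Finset ι)) (g := w) (f := fun j => h (w j)),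
    Finset.mul_sum]
  refine Finset.sum_congr rfl (fun u _ => ?_)
  have h1 : ∑ j ∈ Finset.univ.filter (fun j => w j = u), h (w j)
      = ∑ j ∈ Finset.univ.filter (fun j => w j = u), h u := by
    refine Finset.sum_congr rfl (fun j hj => ?_)
    rw [(Finset.mem_filter.mp hj).2]
  rw [h1, Finset.sum_const, nsmul_eq_mul]
  have h2 : (Finset.univ.filter (fun j => w j = u)).card = M := by
    rw [← hw u, Nat.card_eq_fintype_card, Fintype.card_subtype]
  rw [h2]

theorem card_lab {ι U : Type} [Fintype ι] [Fintype U] (w : ι → U) (M : ℕ)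
    (hw : ∀ u, Nat.card {j : ι // w j = u} = M) :
    (Fintype.card ι : ℝ) = (M : ℝ) * (Fintype.card U : ℝ) := by
  have h := sum_lab w M hw (fun _ => (1 : ℝ))
  simpa using h

/-- the square norm of the average. -/
theorem avg_sq {ι X : Type} [Fintype ι] [Fintype X] (act : ι → Equiv.Perm X) (F : X → ℝ) :
    ∑ x, (avg Finset.univ act F x) ^ 2
      = (Fintype.card ι : ℝ)⁻¹ * ∑ j, ∑ x, avg Finset.univ act F (act j x) * F x := by
  have h1 : ∀ x, (avg Finset.univ act F x) ^ 2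
      = (Fintype.card ι : ℝ)⁻¹ * ∑ j, avg Finset.univ act F x * F ((act j).symm x) := by
    intro x
    rw [← Finset.mul_sum, pow_two]
    nth_rewrite 2 [avg]
    rw [Finset.card_univ]
    ring
  simp_rw [h1]
  rw [← Finset.mul_sum, Finset.sum_comm]
  congr 1
  refine Finset.sum_congr rfl (fun j _ => ?_)
  rw [← Equiv.sum_comp (act j)]
  simp

theorem final_alg {g2 f2 c0 s q : ℝ} (hf0 : 0 ≤ f2) (hg0 : 0 ≤ g2) (hc0n : 0 ≤ c0)
    (e3 : g2 ^ 2 ≤ s) (e4 : s ≤ q * (Real.sqrt f2 * Real.sqrt g2))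
    (e6 : q ≤ c0 * (Real.sqrt f2 * Real.sqrt g2)) : g2 ≤ c0 * f2 := by
  have hss : (Real.sqrt f2 * Real.sqrt g2) * (Real.sqrt f2 * Real.sqrt g2) = f2 * g2 := by
    have u1 := Real.mul_self_sqrt hf0
    have u2 := Real.mul_self_sqrt hg0
    calc _ = (Real.sqrt f2 * Real.sqrt f2) * (Real.sqrt g2 * Real.sqrt g2) := by ring
      _ = f2 * g2 := by rw [u1, u2]
  have e7 : g2 ^ 2 ≤ c0 * (f2 * g2) := by
    calc g2 ^ 2 ≤ q * (Real.sqrt f2 * Real.sqrt g2) := e3.trans e4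
      _ ≤ c0 * (Real.sqrt f2 * Real.sqrt g2) * (Real.sqrt f2 * Real.sqrt g2) :=
          mul_le_mul_of_nonneg_right e6 (by positivity)
      _ = c0 * (f2 * g2) := by rw [mul_assoc, hss]
  rcases hg0.eq_or_lt with h0 | h0
  · rw [← h0]; positivity
  · have : g2 * g2 ≤ (c0 * f2) * g2 := by nlinarith
    exact le_of_mul_le_mul_right this h0

set_option maxHeartbeats 1000000 in
theorem main (θ : ℝ) (hθ : 0 ≤ θ) (hm : Spec.Mix θ) (ha : Spec.Absorb) : Spec.Block θ := by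
  intro p hp hp100 m C ι _ _ M hM w hw τ F hF
  obtain ⟨sq, hs1, hs2, hs3, hs4, hs5, hs6⟩ := ha (PV p) C inferInstance inferInstance
  set act : ι → Equiv.Perm (PV p × C) := fun j => (wordP p (w j)).prodCongr (τ j) with hact
  set G : PV p × C → ℝ := avg Finset.univ act F with hG
  set f2 : ℝ := ∑ x, F x ^ 2 with hf2
  set g2 : ℝ := ∑ x, G x ^ 2 with hg2
  set F' : PV p → C → ℝ := fun x c => F (x, c) with hF'
  set G' : PV p → C → ℝ := fun x c => G (x, c) with hG'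
  have hf2' : ∑ x, ∑ c, (F' x c) ^ 2 = f2 := by
    rw [hf2, Fintype.sum_prod_type]
  have hg2' : ∑ x, ∑ c, (G' x c) ^ 2 = g2 := by
    rw [hg2, Fintype.sum_prod_type]
  have hf0 : 0 ≤ f2 := Finset.sum_nonneg (fun x _ => sq_nonneg _)
  have hg0 : 0 ≤ g2 := Finset.sum_nonneg (fun x _ => sq_nonneg _)
  have hN := card_lab w M hw
  have hU : (Fintype.card (Fin m → Fin 7) : ℝ) = (7 : ℝ) ^ m := by
    rw [Fintype.card_fun, Fintype.card_fin, Fintype.card_fin]; push_cast; rfl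
  rw [hU] at hN
  have hMpos : (0 : ℝ) < (M : ℝ) := by exact_mod_cast hM
  have h7 : (0 : ℝ) < (7 : ℝ) ^ m := by positivity
  have hNpos : (0 : ℝ) < (Fintype.card ι : ℝ) := by rw [hN]; positivity
  -- the quantities a_j and S_j
  set a : ι → ℝ := fun j => ∑ x, ∑ c, G' (wordP p (w j) x) (τ j c) * F' x c with haj
  set h : (Fin m → Fin 7) → ℝ :=
    fun u => ∑ x, ∑ y, sq G' (wordP p u x) (wordP p u y) * sq F' x y with hh
  have e1 : g2 = (Fintype.card ι : ℝ)⁻¹ * ∑ j, a j := by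
    rw [hg2, hG, avg_sq act F]
    congr 1
    refine Finset.sum_congr rfl (fun j _ => ?_)
    rw [haj, Fintype.sum_prod_type]
    rfl
  have e2 : ∀ j, a j ^ 2 ≤ h (w j) * (Real.sqrt f2 * Real.sqrt g2) := by
    intro j
    have := hs6 F' G' (wordP p (w j)) (τ j)
    rw [hf2', hg2'] at this
    exact this
  have e3 : g2 ^ 2 ≤ (Fintype.card ι : ℝ)⁻¹ * ∑ j, a j ^ 2 := by
    have hc := sq_sum_le_card_mul_sum_sq (s := (Finset.univ : Finset ι)) (f := a)
    rw [Finset.card_univ] at hc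
    rw [e1, mul_pow]
    calc ((Fintype.card ι : ℝ)⁻¹) ^ 2 * (∑ j, a j) ^ 2
        ≤ ((Fintype.card ι : ℝ)⁻¹) ^ 2 * ((Fintype.card ι : ℝ) * ∑ j, a j ^ 2) :=
          mul_le_mul_of_nonneg_left hc (by positivity)
      _ = (Fintype.card ι : ℝ)⁻¹ * ∑ j, a j ^ 2 := by
          field_simp
  have e4 : (Fintype.card ι : ℝ)⁻¹ * ∑ j, a j ^ 2
      ≤ ((7 : ℝ) ^ m)⁻¹ * (∑ u, h u) * (Real.sqrt f2 * Real.sqrt g2) := by
    calc (Fintype.card ι : ℝ)⁻¹ * ∑ j, a j ^ 2
        ≤ (Fintype.card ι : ℝ)⁻¹ * ∑ j, h (w j) * (Real.sqrt f2 * Real.sqrt g2) :=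
          mul_le_mul_of_nonneg_left (Finset.sum_le_sum (fun j _ => e2 j)) (by positivity)
      _ = ((7 : ℝ) ^ m)⁻¹ * (∑ u, h u) * (Real.sqrt f2 * Real.sqrt g2) := by
          rw [← Finset.sum_mul, sum_lab w M hw h, hN]
          field_simp
  have e5 : ((7 : ℝ) ^ m)⁻¹ * (∑ u, h u)
      ≤ θ ^ m * (Real.sqrt f2 * Real.sqrt g2)
        + 3 * (∑ x, sq F' x x) * (∑ x, sq G' x x) / (p : ℝ) ^ 2 := by
    have hmix := hm p hp hp100 m (sq F') (sq G') (hs1 F') (hs1 G') (hs5 F' (fun c => hF c))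
    rw [hs2 F', hs2 G', hf2', hg2'] at hmix
    exact hmix
  have t1 : ∑ x, sq F' x x ≤ Real.sqrt ((Fintype.card C : ℝ) * f2) := by
    have := hs4 F'
    rw [hf2'] at this
    exact Real.le_sqrt_of_sq_le this
  have t2 : ∑ x, sq G' x x ≤ Real.sqrt ((Fintype.card C : ℝ) * g2) := by
    have := hs4 G'
    rw [hg2'] at this
    exact Real.le_sqrt_of_sq_le this
  have t3 : (∑ x, sq F' x x) * (∑ x, sq G' x x)
      ≤ (Fintype.card C : ℝ) * (Real.sqrt f2 * Real.sqrt g2) := by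
    have hcc : (0 : ℝ) ≤ (Fintype.card C : ℝ) := Nat.cast_nonneg _
    calc (∑ x, sq F' x x) * (∑ x, sq G' x x)
        ≤ Real.sqrt ((Fintype.card C : ℝ) * f2) * Real.sqrt ((Fintype.card C : ℝ) * g2) :=
          mul_le_mul t1 t2 (hs3 G') (Real.sqrt_nonneg _)
      _ = (Fintype.card C : ℝ) * (Real.sqrt f2 * Real.sqrt g2) := by
          rw [Real.sqrt_mul hcc, Real.sqrt_mul hcc]
          have := Real.mul_self_sqrt hcc
          linear_combination (Real.sqrt f2 * Real.sqrt g2) * this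
  have hppos : (0 : ℝ) < (p : ℝ) ^ 2 := by
    have : (0 : ℝ) < (p : ℝ) := by exact_mod_cast (by omega : 0 < p)
    positivity
  have e6 : ((7 : ℝ) ^ m)⁻¹ * (∑ u, h u)
      ≤ (θ ^ m + 3 * (Fintype.card C : ℝ) / (p : ℝ) ^ 2) * (Real.sqrt f2 * Real.sqrt g2) := by
    refine e5.trans ?_
    have : 3 * (∑ x, sq F' x x) * (∑ x, sq G' x x) / (p : ℝ) ^ 2
        ≤ 3 * (Fintype.card C : ℝ) / (p : ℝ) ^ 2 * (Real.sqrt f2 * Real.sqrt g2) := by
      rw [div_mul_eq_mul_div]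
      apply div_le_div_of_nonneg_right _ hppos.le
      nlinarith [t3]
    linarith
  exact final_alg hf0 hg0 (by positivity) e3 e4 e6

end Crest.Agent.FPBlock
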