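import Crest.Agent.FPSpec

set_option autoImplicit false

namespace Crest.Agent.FPCount

open Crest.Agent.FP

variable {K : ℕ} {V L Q : Type}

theorem mem_covered [NeZero K] (ℓ : V → ZMod K → L) (C : Finset (V × (ZMod K → Q)))
    (e : Q × L × Q) : e ∈ covered ℓ C ↔ ∃ p ∈ C, ∃ j, cedge ℓ p j = e := by
  unfold covered
  simp

theorem sum_filter {α : Type} [Fintype Q] (E : Finset α) (f : α → Q)
    (inst : ∀ x : Q, DecidablePred (fun e => f e = x)) :
    ∑ x : Q, (@Finset.filter α (fun e => f e = x) (inst x) E).card = E.card := by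
  classical
  rw [Finset.card_eq_sum_card_fiberwise (f := f) (t := Finset.univ)
    (fun _ _ => Finset.mem_coe.mpr (Finset.mem_univ _))]
  refine Finset.sum_congr rfl (fun x _ => ?_)
  congr

theorem sum_deg [Fintype Q] (E : Finset (Q × L × Q)) : ∑ x, deg E x = 2 * E.card := by
  classical
  unfold deg
  rw [Finset.sum_add_distrib, sum_filter E (fun e => e.1), sum_filter E (fun e => e.2.2), two_mul]

/-- number of edges with branch target. -/
theorem card_branch [Fintype Q] (E : Finset (Q × L × Q)) (h2 : ∀ x : Q, 2 ≤ deg E x)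
    (B : Finset (Q × L × Q)) (hB : ∀ e ∈ B, e ∈ E ∧ 3 ≤ deg E e.2.2) :
    6 * Fintype.card Q + B.card ≤ 6 * E.card := by
  classical
  have h1 : B.card = ∑ x : Q, (B.filter (fun e => e.2.2 = x)).card :=
    (sum_filter B (fun e => e.2.2) _).symm
  have h3 : 6 * Fintype.card Q = ∑ x : Q, 6 := by simp [mul_comm]
  have h4 : 6 * E.card = ∑ x : Q, 3 * deg E x := by
    rw [← Finset.mul_sum, sum_deg]; ring
  rw [h1, h3, h4, ← Finset.sum_add_distrib]
  refine Finset.sum_le_sum (fun x _ => ?_)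
  by_cases hc : (B.filter (fun e => e.2.2 = x)).Nonempty
  · obtain ⟨e, he⟩ := hc
    rw [Finset.mem_filter] at he
    have h5 : 3 ≤ deg E x := by rw [← he.2]; exact (hB e he.1).2
    have h6 : (B.filter (fun e => e.2.2 = x)).card ≤ deg E x := by
      unfold deg
      refine le_trans ?_ (Nat.le_add_left _ _)
      apply Finset.card_le_card
      intro e' he'
      rw [Finset.mem_filter] at he' ⊢
      exact ⟨(hB e' he'.1).1, he'.2⟩
    omega
  · rw [Finset.not_nonempty_iff_eq_empty] at hc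
    rw [hc, Finset.card_empty]
    have := h2 x
    omega

/-- at a vertex of degree two with one outgoing edge the incoming edge is unique. -/
theorem unique_in (E : Finset (Q × L × Q)) (x : Q) (hx : deg E x = 2) (o : Q × L × Q)
    (ho : o ∈ E) (hox : o.1 = x) (e e' : Q × L × Q) (he : e ∈ E) (he' : e' ∈ E) (h : e.2.2 = x)
    (h' : e'.2.2 = x) : e = e' := by
  classical
  unfold deg at hx
  have h1 : 1 ≤ (E.filter (fun e => e.1 = x)).card :=
    Finset.card_pos.mpr ⟨o, Finset.mem_filter.mpr ⟨ho, hox⟩⟩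
  have h2 : (E.filter (fun e => e.2.2 = x)).card ≤ 1 := by
    have h3 : (E.filter (fun e => e.1 = x)).card + (E.filter (fun e => e.2.2 = x)).card = 2 := by
      convert hx
    omega
  rw [Finset.card_le_one] at h2
  exact h2 e (Finset.mem_filter.mpr ⟨he, h⟩) e' (Finset.mem_filter.mpr ⟨he', h'⟩)

theorem back (ℓ : V → ZMod K → L) (E : Finset (Q × L × Q)) (p p' : V × (ZMod K → Q))
    (hp : ∀ j, cedge ℓ p j ∈ E) (hp' : ∀ j, cedge ℓ p' j ∈ E) (j j' : ZMod K) (s : ℕ) :
    (∀ i : ℕ, 1 ≤ i → i ≤ s → deg E (p.2 (j + (i : ZMod K))) = 2) →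
    cedge ℓ p (j + (s : ZMod K)) = cedge ℓ p' (j' + (s : ZMod K)) → cedge ℓ p j = cedge ℓ p' j' := by
  induction s with
  | zero => intro _ h; simpa using h
  | succ s ih =>
    intro hd h
    apply ih (fun i h1 h2 => hd i h1 (by omega))
    have hsrc : p.2 (j + ((s + 1 : ℕ) : ZMod K)) = p'.2 (j' + ((s + 1 : ℕ) : ZMod K)) :=
      congrArg Prod.fst h
    refine unique_in E (p.2 (j + ((s + 1 : ℕ) : ZMod K))) (hd (s + 1) (by omega) le_rfl)
      (cedge ℓ p (j + ((s + 1 : ℕ) : ZMod K))) (hp _) rfl _ _ (hp _) (hp' _) ?_ ?_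
    · simp only [cedge]
      rw [Nat.cast_succ, ← add_assoc]
    · rw [hsrc]
      simp only [cedge]
      rw [Nat.cast_succ, ← add_assoc]

theorem main (hz : Spec.Z1Dim) : Spec.Count := by
  intro K _ hK V L Q _ _ ℓ k hD1 E C hG h2 h3 h40
  classical
  have hdim := hG.dim
  have hz1 := (hz K inferInstance V L Q inferInstance inferInstance ℓ E C).2
  have hcell : ∀ p ∈ C, ∀ j, cedge ℓ p j ∈ E := hG.cells
  -- minimal distance to a branch vertex
  have hmin : ∀ p ∈ C, ∀ j : ZMod K, ∃ s : ℕ, s < 5 ∧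
      3 ≤ deg E (cedge ℓ p (j + (s : ZMod K))).2.2 ∧
      ∀ i : ℕ, 1 ≤ i → i ≤ s → deg E (p.2 (j + (i : ZMod K))) = 2 := by
    intro p hp j
    have hex : ∃ s : ℕ, 1 ≤ s ∧ 3 ≤ deg E (p.2 (j + (s : ZMod K))) := by
      obtain ⟨s, h1, _, h⟩ := h3 p hp j
      exact ⟨s, h1, h⟩
    have hspec := Nat.find_spec hex
    have hle : Nat.find hex ≤ 5 := by
      obtain ⟨s, h1, h5, h⟩ := h3 p hp j
      exact (Nat.find_min' hex ⟨h1, h⟩).trans h5
    refine ⟨Nat.find hex - 1, by omega, ?_, ?_⟩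
    · have h6 : (cedge ℓ p (j + ((Nat.find hex - 1 : ℕ) : ZMod K))).2.2 =
          p.2 (j + ((Nat.find hex : ℕ) : ZMod K)) := by
        simp only [cedge]
        rw [add_assoc, ← Nat.cast_succ, show (Nat.find hex - 1).succ = Nat.find hex by omega]
      rw [h6]
      exact hspec.2
    · intro i h1 h4
      have h5 := Nat.find_min hex (m := i) (by omega)
      have h6 := h2 (p.2 (j + (i : ZMod K)))
      by_contra hne
      exact h5 ⟨h1, by omega⟩
  have hchoice : ∀ e : Q × L × Q, ∃ t : ℕ × (Q × L × Q), e ∈ covered ℓ C →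
      ∃ p ∈ C, ∃ j : ZMod K, cedge ℓ p j = e ∧ t.1 < 5 ∧
        t.2 = cedge ℓ p (j + (t.1 : ZMod K)) ∧
        3 ≤ deg E (cedge ℓ p (j + (t.1 : ZMod K))).2.2 ∧
        ∀ i : ℕ, 1 ≤ i → i ≤ t.1 → deg E (p.2 (j + (i : ZMod K))) = 2 := by
    intro e
    by_cases he : e ∈ covered ℓ C
    · obtain ⟨p, hp, j, hj⟩ := (mem_covered ℓ C e).mp he
      obtain ⟨s, hs1, hs2, hs3⟩ := hmin p hp j
      exact ⟨(s, cedge ℓ p (j + (s : ZMod K))), fun _ => ⟨p, hp, j, hj, hs1, rfl, hs2, hs3⟩⟩
    · exact ⟨(0, e), fun h => absurd h he⟩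
  choose φ hφ using hchoice
  set B : Finset (Q × L × Q) := E.filter (fun e => 3 ≤ deg E e.2.2) with hB
  have hcard : (covered ℓ C).card ≤ (Finset.range 5 ×ˢ B).card := by
    apply Finset.card_le_card_of_injOn φ
    · intro e he
      obtain ⟨p, hp, j, hj, h5, ht, hd, _⟩ := hφ e he
      rw [Finset.mem_coe, Finset.mem_product]
      refine ⟨Finset.mem_range.mpr h5, ?_⟩
      rw [hB, Finset.mem_filter, ht]
      exact ⟨hcell p hp _, hd⟩
    · intro e he e' he' hee
      obtain ⟨p, hp, j, hj, h5, ht, hd, hmn⟩ := hφ e he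
      obtain ⟨p', hp', j', hj', h5', ht', hd', hmn'⟩ := hφ e' he'
      rw [← hj, ← hj']
      apply back ℓ E p p' (hcell p hp) (hcell p' hp') j j' (φ e).1 hmn
      rw [← ht, hee, ht']
  rw [Finset.card_product, Finset.card_range] at hcard
  have hbr := card_branch E h2 B (fun e he => by rw [hB, Finset.mem_filter] at he; exact he)
  omega

end Crest.Agent.FPCount
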