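import Crest.Agent.FPSpec

/-!
# Module COVER of rid 191
-/

set_option autoImplicit false

namespace Crest.Agent.FPCover

open Crest.Agent.FP

theorem main : Spec.Cover := by
  classical
  intro K _ V L Q ℓ m0 hexp C hC hsep
  let n : V → ℕ := fun v => (C.filter (fun p => p.1 = v)).card
  let T : Finset V := C.image Prod.fst
  let S : ℕ → Finset V := fun s => T.filter (fun v => s < n v)
  let N : ℕ → Finset L := fun s => (S s).biUnion (fun v => Finset.univ.image (ℓ v))
  have hn : ∀ v, n v ≤ C.card := fun v => Finset.card_filter_le _ _
  have h1 : ∑ s ∈ Finset.range C.card, (S s).card = C.card := by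
    calc ∑ s ∈ Finset.range C.card, (S s).card
        = ∑ s ∈ Finset.range C.card, ∑ v ∈ T, (if s < n v then 1 else 0) := by
          refine Finset.sum_congr rfl (fun s _ => ?_)
          simp only [S, Finset.card_filter]
      _ = ∑ v ∈ T, ∑ s ∈ Finset.range C.card, (if s < n v then 1 else 0) := Finset.sum_comm
      _ = ∑ v ∈ T, n v := by
          refine Finset.sum_congr rfl (fun v _ => ?_)
          rw [← Finset.card_filter]
          have : (Finset.range C.card).filter (fun s => s < n v) = Finset.range (n v) := by
            ext s
            simp only [Finset.mem_filter, Finset.mem_range]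
            have := hn v
            omega
          rw [this, Finset.card_range]
      _ = C.card := (Finset.card_eq_sum_card_image Prod.fst C).symm
  have h2 : ∀ s, 40 * (S s).card ≤ (N s).card := by
    intro s
    have hle : (S s).card ≤ m0 :=
      ((Finset.card_filter_le _ _).trans Finset.card_image_le).trans hC
    have := hexp (S s) hle
    convert this
  have h3 : ∑ s ∈ Finset.range C.card, (N s).card ≤ (covered ℓ C).card := by
    let Lm : Finset L := T.biUnion (fun v => Finset.univ.image (ℓ v))
    have hN : ∀ s, N s ⊆ Lm := by
      intro s l hl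
      simp only [N, S, Finset.mem_biUnion, Finset.mem_filter] at hl
      obtain ⟨v, ⟨hv, _⟩, hl⟩ := hl
      exact Finset.mem_biUnion.2 ⟨v, hv, hl⟩
    have hcov : ∀ p ∈ C, ∀ j, cedge ℓ p j ∈ covered ℓ C := by
      intro p hp j
      unfold covered
      exact Finset.mem_biUnion.2 ⟨p, hp, Finset.mem_image_of_mem _ (Finset.mem_univ j)⟩
    have hfib : ∀ e ∈ covered ℓ C, e.2.1 ∈ Lm := by
      intro e he
      unfold covered at he
      obtain ⟨p, hp, he⟩ := Finset.mem_biUnion.1 he
      obtain ⟨j, _, rfl⟩ := Finset.mem_image.1 he
      exact Finset.mem_biUnion.2 ⟨p.1, Finset.mem_image_of_mem _ hp,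
        Finset.mem_image_of_mem _ (Finset.mem_univ j)⟩
    calc ∑ s ∈ Finset.range C.card, (N s).card
        = ∑ s ∈ Finset.range C.card, ∑ l ∈ Lm, (if l ∈ N s then 1 else 0) := by
          refine Finset.sum_congr rfl (fun s _ => ?_)
          rw [← Finset.card_filter]
          congr 1
          ext l
          simp only [Finset.mem_filter]
          exact ⟨fun h => ⟨hN s h, h⟩, fun h => h.2⟩
      _ = ∑ l ∈ Lm, ∑ s ∈ Finset.range C.card, (if l ∈ N s then 1 else 0) := Finset.sum_comm
      _ ≤ ∑ l ∈ Lm, ((covered ℓ C).filter (fun e => e.2.1 = l)).card := by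
          refine Finset.sum_le_sum (fun l hl => ?_)
          rw [← Finset.card_filter]
          -- a vertex with maximal multiplicity
          let Tl : Finset V := T.filter (fun v => l ∈ Finset.univ.image (ℓ v))
          have hTl : Tl.Nonempty := by
            obtain ⟨v, hv, hl⟩ := Finset.mem_biUnion.1 hl
            exact ⟨v, Finset.mem_filter.2 ⟨hv, hl⟩⟩
          obtain ⟨v, hv, hmax⟩ := Finset.exists_max_image Tl n hTl
          obtain ⟨hvT, hvl⟩ := Finset.mem_filter.1 hv
          obtain ⟨j, _, hj⟩ := Finset.mem_image.1 hvl
          have hA : ((Finset.range C.card).filter (fun s => l ∈ N s)).card ≤ n v := by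
            calc ((Finset.range C.card).filter (fun s => l ∈ N s)).card
                ≤ (Finset.range (n v)).card := by
                  apply Finset.card_le_card
                  intro s hs
                  obtain ⟨_, hs⟩ := Finset.mem_filter.1 hs
                  obtain ⟨w, hw, hwl⟩ := Finset.mem_biUnion.1 hs
                  obtain ⟨hwT, hsw⟩ := Finset.mem_filter.1 hw
                  have := hmax w (Finset.mem_filter.2 ⟨hwT, hwl⟩)
                  rw [Finset.mem_range]
                  exact lt_of_lt_of_le hsw this
              _ = n v := Finset.card_range _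
          refine hA.trans ?_
          apply Finset.card_le_card_of_injOn (fun p => cedge ℓ p j)
          · intro p hp
            obtain ⟨hpC, hpv⟩ := Finset.mem_filter.1 hp
            simp only [Finset.coe_filter, Set.mem_ofPred_eq]
            refine ⟨hcov p hpC j, ?_⟩
            simp only [cedge]
            rw [hpv, hj]
          · intro p hp p' hp' h
            obtain ⟨hpC, hpv⟩ := Finset.mem_filter.1 hp
            obtain ⟨hpC', hpv'⟩ := Finset.mem_filter.1 hp'
            by_contra hne
            exact hsep p hpC p' hpC' (by rw [hpv, hpv']) hne j (congrArg (fun e => e.1) h)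
      _ = (covered ℓ C).card := by
          symm
          exact Finset.card_eq_sum_card_fiberwise (fun e he => hfib e he)
  calc 40 * C.card = ∑ s ∈ Finset.range C.card, 40 * (S s).card := by
        rw [← Finset.mul_sum, h1]
    _ ≤ ∑ s ∈ Finset.range C.card, (N s).card := Finset.sum_le_sum (fun s _ => h2 s)
    _ ≤ (covered ℓ C).card := h3

end Crest.Agent.FPCover
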