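import Crest.Agent.FPSpec

/-!
# FT for rid 191: the finite theorem
-/

set_option autoImplicit false
set_option linter.unusedSectionVars false

namespace Crest.Agent.FPFT

open Crest.Agent.FP
open scoped BigOperators

theorem wd_one {K : ℕ} {V L Ω : Type} (ℓ : V → ZMod K → L) (v : V) (j0 : ZMod K) (n : ℕ) :
    wd ℓ (fun _ => (1 : Equiv.Perm Ω)) v j0 n = 1 := by
  induction n with
  | zero => rfl
  | succ n ih => simp [wd, ih]

theorem isLam_one {K : ℕ} {V L Ω : Type} (ℓ : V → ZMod K → L) :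
    IsLam ℓ (fun _ => (1 : Equiv.Perm Ω)) := fun v => wd_one ℓ v 0 K

/-- same-type cells of a folded graph meeting at an aligned position are equal. -/
theorem cells_eq {K : ℕ} [NeZero K] {V L Q : Type} (ℓ : V → ZMod K → L)
    (E : Finset (Q × L × Q)) (C : Finset (V × (ZMod K → Q))) (hF : Folded E)
    (hC : CellsIn ℓ E C) (p p' : V × (ZMod K → Q)) (hp : p ∈ C) (hp' : p' ∈ C)
    (h1 : p.1 = p'.1) (j : ZMod K) (hj : p.2 j = p'.2 j) : p = p' := by
  have h2 : ∀ n : ℕ, p.2 (j + n) = p'.2 (j + n) := by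
    intro n
    induction n with
    | zero => simpa using hj
    | succ n ih =>
      have e1 := hC p hp (j + n)
      have e2 := hC p' hp' (j + n)
      unfold cedge at e1 e2
      rw [← ih, ← h1] at e2
      have := hF.1 _ _ _ _ e1 e2
      rw [Nat.cast_succ, ← add_assoc]
      exact this
  refine Prod.ext h1 (funext (fun i => ?_))
  have h3 := h2 (i - j).val
  rw [ZMod.natCast_zmod_val] at h3
  simpa using h3

theorem nonempty_of_onto {K : ℕ} {V L Q : Type} (ℓ : V → ZMod K → L) (E : Finset (Q × L × Q))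
    (h : Onto ℓ E) : Nonempty Q := by
  by_contra hne
  rw [not_nonempty_iff] at hne
  obtain ⟨ω, -, -⟩ := h Empty (fun _ => 1) (isLam_one ℓ) (fun q => (hne.false q).elim)
    (fun e _ => (hne.false e.1).elim)
  exact ω.elim

theorem deg_ne_zero {K : ℕ} [NeZero K] {V L Q : Type} (ℓ : V → ZMod K → L)
    (E : Finset (Q × L × Q)) (h : Onto ℓ E) (hE : E.Nonempty) (x : Q) : deg E x ≠ 0 := by
  classical
  intro h0
  unfold deg at h0
  rw [Nat.add_eq_zero_iff, Finset.card_eq_zero, Finset.card_eq_zero] at h0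
  have h1 : ∀ e ∈ E, e.1 ≠ x := by
    intro e he hex
    have : e ∈ (∅ : Finset (Q × L × Q)) := by
      rw [← h0.1]
      exact Finset.mem_filter.mpr ⟨he, hex⟩
    simp at this
  have h2 : ∀ e ∈ E, e.2.2 ≠ x := by
    intro e he hex
    have : e ∈ (∅ : Finset (Q × L × Q)) := by
      rw [← h0.2]
      exact Finset.mem_filter.mpr ⟨he, hex⟩
    simp at this
  obtain ⟨ω, hω, -⟩ := h Bool (fun _ => 1) (isLam_one ℓ) (fun q => decide (q = x))
    (fun e he => by
      simp [h1 e he, h2 e he])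
  obtain ⟨e, he⟩ := hE
  have e1 := hω x
  have e2 := hω e.1
  rw [← e1] at e2
  simp [h1 e he] at e2

/-- the state predicate: there is a good state with the given potential. -/
def St {K : ℕ} [NeZero K] {V L : Type} (ℓ : V → ZMod K → L) (m0 k : ℕ) (Φ : ℕ) : Prop :=
  ∃ (Q : Type) (_ : Fintype Q) (E : Finset (Q × L × Q)) (C : Finset (V × (ZMod K → Q))),
    Good k ℓ E C ∧ C.card ≤ m0 ∧ E.card + 5 * (m0 - C.card) = Φ

theorem main (hz : Spec.Z1Dim) (hq : Spec.Quot) (hc : Spec.Cover) (ht : Spec.TC)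
    (ha : Spec.AMove) (hl : Spec.Leaf) (hr : Spec.Run) (hn : Spec.Count) : Spec.FT := by
  classical
  intro K hK0 hK V L hL ℓ m0 hD1 hD2 hExp Q hQ E I k hOnto hdim hkm
  by_cases hm0 : m0 = 0
  · subst hm0
    exact Nat.zero_le _
  -- the initial state
  have hinit : ∃ Φ, St ℓ m0 k Φ := by
    obtain ⟨Q', hQ', π, hπ, hI, hF, hz'⟩ := hq K hK0 V L Q hL hQ ℓ E ∅ I
      (fun p hp => absurd hp (Finset.notMem_empty p))
    have hC0 : mapC (V := V) (K := K) π ∅ = ∅ := by
      simp [mapC]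
    refine ⟨_, Q', hQ', mapE π E, ∅, ⟨hF, ?_, ?_, ?_⟩, ?_, rfl⟩
    · intro p hp
      exact absurd hp (Finset.notMem_empty p)
    · intro Ω γ hγ j hj
      obtain ⟨ω, hω, hfix⟩ := hOnto Ω γ hγ (fun q => j (π q))
        (fun e he => hj (π e.1, e.2.1, π e.2.2) (by
          unfold mapE
          exact Finset.mem_image.mpr ⟨e, he, rfl⟩))
        (fun p hp => by simp [hI p hp])
      refine ⟨ω, fun x => ?_, hfix⟩
      obtain ⟨q, rfl⟩ := hπ x
      exact hω q
    · rw [hC0] at hz'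
      have h1 := (hz K hK0 V L Q hL hQ ℓ E ∅).1
      rw [h1] at hz'
      omega
    · simp
  -- a minimal state
  obtain ⟨Q1, hQ1, E1, C1, hG, hCm, hΦ⟩ := Nat.find_spec hinit
  have hmin : ∀ Φ, Φ < Nat.find hinit → ¬ St ℓ m0 k Φ := fun Φ h => Nat.find_min hinit h
  by_cases hlt : C1.card < m0
  · -- contradiction
    exfalso
    have hcell : ∀ (v : V) (j0 : ZMod K) (x : ℕ → Q1),
        IsPath ℓ (fun a l b => (a, l, b) ∈ E1) v j0 (K - 4) x →
        ∃ p ∈ C1, p.1 = v ∧ p.2 j0 = x 0 := by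
      intro v j0 x hx
      by_contra hnot
      obtain ⟨Q', hQ', E', C', hG', hC', hE'⟩ := ha K hK0 hK V L Q1 hL hQ1 ℓ m0 k hD1 hD2 hExp
        E1 C1 hG (by omega) v j0 x hx hnot
      exact hmin (E'.card + 5 * (m0 - C'.card)) (by omega)
        ⟨Q', hQ', E', C', hG', by omega, rfl⟩
    have hInv : Inv (K - 2) ℓ (fun a l b => (a, l, b) ∈ E1) := by
      intro v j0 x hx
      obtain ⟨p, hp, hpv, hpx⟩ := hcell v j0 x (fun i hi => hx i (by omega))
      refine ⟨p.2, fun j => ?_, hpx⟩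
      have := hG.cells p hp j
      rw [← hpv]
      exact this
    have hDet : DetE (fun (a : Q1) (l : L) (b : Q1) => (a, l, b) ∈ E1) := hG.folded
    obtain ⟨Ω, γ, i, hLam, hi, hiff⟩ := ht K hK V L ℓ hD2 Q1 _ hDet hInv
    obtain ⟨ω, hω, hfix⟩ := hG.onto Ω γ hLam i (fun e he => (hiff e.1 e.2.1 e.2.2).mpr he)
    obtain ⟨x0⟩ := nonempty_of_onto ℓ E1 hG.onto
    have hsub : ∀ x : Q1, x = x0 := fun x => hi ((hω x).trans (hω x0).symm)
    have hcard : Fintype.card Q1 = 1 := Fintype.card_eq_one_iff.mpr ⟨x0, hsub⟩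
    have hloop : ∀ l : L, (x0, l, x0) ∈ E1 := by
      intro l
      rw [← hiff x0 l x0, hω x0]
      exact hfix l
    have hLE : Fintype.card L ≤ E1.card := by
      rw [← Finset.card_univ]
      refine Finset.card_le_card_of_injOn (fun l => (x0, l, x0)) (fun l _ => hloop l) ?_
      intro l _ l' _ h
      simpa using h
    have h1 := (hz K hK0 V L Q1 hL hQ1 ℓ E1 C1).2
    have h2 := hG.dim
    omega
  · have hCeq : C1.card = m0 := by omega
    have hCne : C1.Nonempty := by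
      rw [← Finset.card_pos]
      omega
    have hEne : E1.Nonempty := by
      obtain ⟨p, hp⟩ := hCne
      exact ⟨_, hG.cells p hp 0⟩
    have hdeg : ∀ x : Q1, 2 ≤ deg E1 x := by
      intro x
      by_contra hx
      have h0 := deg_ne_zero ℓ E1 hG.onto hEne x
      obtain ⟨Q', hQ', E', C', hG', hC', hE'⟩ := hl K hK0 hK V L Q1 hL hQ1 ℓ k hD1 E1 C1 hG x
        (by omega)
      exact hmin (E'.card + 5 * (m0 - C'.card)) (by omega)
        ⟨Q', hQ', E', C', hG', by omega, rfl⟩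
    have hrun : ∀ p ∈ C1, ∀ j : ZMod K, ∃ s : ℕ, 1 ≤ s ∧ s ≤ 5 ∧
        3 ≤ deg E1 (p.2 (j + (s : ZMod K))) := by
      intro p hp j
      by_contra hnot
      obtain ⟨Q', hQ', E', C', hG', hC', hE'⟩ := hr K hK0 hK V L Q1 hL hQ1 ℓ k hD1 hD2 E1 C1 hG
        p hp j (fun s hs1 hs5 => by
          have h2 := hdeg (p.2 (j + (s : ZMod K)))
          by_contra h3
          exact hnot ⟨s, hs1, hs5, by omega⟩)
      exact hmin (E'.card + 5 * (m0 - C'.card)) (by omega)
        ⟨Q', hQ', E', C', hG', by omega, rfl⟩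
    have hcov : 40 * C1.card ≤ (covered ℓ C1).card :=
      hc K hK0 V L Q1 ℓ m0 hExp C1 hCm (fun p hp p' hp' h1 hne j hj =>
        hne (cells_eq ℓ E1 C1 hG.folded hG.cells p p' hp hp' h1 j hj))
    have := hn K hK0 hK V L Q1 hL hQ1 ℓ k hD1 E1 C1 hG hdeg hrun hcov
    omega

end Crest.Agent.FPFT
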