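import Crest.Agent.FPSpec

set_option autoImplicit false

namespace Crest.Agent.FPFin

open Crest.Agent.FP

theorem main (hi : Spec.Init) (hf : Spec.FT) : Spec.Fin' := by
  intro K _ hK V _ _ _ m0 hm0 h80 hD1 hD2 hE htr E' hG
  obtain ⟨Q, _, E, I, hO, hc⟩ := hi K inferInstance (by omega) V inferInstance inferInstance
    inferInstance E' hG htr
  set k := E'.card + 1 - Fintype.card V with hk
  have h1 : E.card + I.card + 1 ≤ Fintype.card Q + k := by omega
  by_cases h2 : k + m0 ≤ Fintype.card V
  · have h3 := hf K inferInstance hK V V inferInstance _ m0 hD1 hD2 hE Q inferInstance E I k hO h1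
      h2
    omega
  · omega

end Crest.Agent.FPFin
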