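import Crest.Agent.FPSpec

/-!
# Rid 191 (S0291): module GAPSL, uniform spectral gap for finite `SL_3(F_p)`-sets
-/

set_option autoImplicit false
set_option linter.unusedSectionVars false

namespace Crest.Agent.FPGapSL

open Crest.Agent.FP

section elem

variable {F : Type} [Field F]

theorem El_mul_same (i k : Fin 3) (hik : i ≠ k) (s t : F) :
    El i k hik s * El i k hik t = El i k hik (s + t) := by
  apply Subtype.ext
  rw [Matrix.SpecialLinearGroup.coe_mul]
  exact Matrix.transvection_mul_transvection_same _ _ hik _ _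

theorem El_zero (i k : Fin 3) (hik : i ≠ k) : El i k hik (0 : F) = 1 := by
  apply Subtype.ext
  rw [Matrix.SpecialLinearGroup.coe_one]
  exact Matrix.transvection_zero _ _

/-- same column: commute -/
theorem El_comm_col (i j k : Fin 3) (hik : i ≠ k) (hjk : j ≠ k) (s t : F) :
    El i k hik s * El j k hjk t = El j k hjk t * El i k hik s := by
  apply Subtype.ext
  rw [Matrix.SpecialLinearGroup.coe_mul, Matrix.SpecialLinearGroup.coe_mul]
  change Matrix.transvection i k s * Matrix.transvection j k t =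
    Matrix.transvection j k t * Matrix.transvection i k s
  unfold Matrix.transvection
  simp only [mul_add, add_mul, mul_one, one_mul, Matrix.single_mul_single_of_ne _ _ _ _ hjk.symm,
    Matrix.single_mul_single_of_ne _ _ _ _ hik.symm]
  abel

/-- same row: commute -/
theorem El_comm_row (i j k : Fin 3) (hij : i ≠ j) (hik : i ≠ k) (s t : F) :
    El i j hij s * El i k hik t = El i k hik t * El i j hij s := by
  apply Subtype.ext
  rw [Matrix.SpecialLinearGroup.coe_mul, Matrix.SpecialLinearGroup.coe_mul]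
  change Matrix.transvection i j s * Matrix.transvection i k t =
    Matrix.transvection i k t * Matrix.transvection i j s
  unfold Matrix.transvection
  simp only [mul_add, add_mul, mul_one, one_mul, Matrix.single_mul_single_of_ne _ _ _ _ hij.symm,
    Matrix.single_mul_single_of_ne _ _ _ _ hik.symm]
  abel

/-- commutator relation -/
theorem El_conj (i j k : Fin 3) (hij : i ≠ j) (hik : i ≠ k) (hjk : j ≠ k) (t : F) :
    El i j hij 1 * El j k hjk t = El i k hik t * El j k hjk t * El i j hij 1 := by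
  apply Subtype.ext
  rw [Matrix.SpecialLinearGroup.coe_mul, Matrix.SpecialLinearGroup.coe_mul,
    Matrix.SpecialLinearGroup.coe_mul]
  change Matrix.transvection i j 1 * Matrix.transvection j k t =
    Matrix.transvection i k t * Matrix.transvection j k t * Matrix.transvection i j 1
  unfold Matrix.transvection
  simp only [mul_add, add_mul, mul_one, one_mul, Matrix.single_mul_single_same,
    Matrix.single_mul_single_of_ne _ _ _ _ hjk.symm,
    Matrix.single_mul_single_of_ne _ _ _ _ hik.symm, zero_mul]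
  abel

end elem

section rep

variable {p : ℕ} [Fact p.Prime] {X : Type} [Fintype X]

/-- consequences of relative property (T) -/
theorem elem_bound (h : Spec.RelT) (hp : 100 ≤ p)
    (ρ : Matrix.SpecialLinearGroup (Fin 3) (ZMod p) →* Equiv.Perm X) (f : X → ℝ) (ε : ℝ)
    (hε0 : 0 ≤ ε) (hε1 : ε ≤ 1) (hf : ∑ x, f x ^ 2 ≤ 1)
    (H : ∀ (i j : Fin 3) (hij : i ≠ j), ∑ x, (f (ρ (El i j hij 1) x) - f x) ^ 2 ≤ ε ^ 2)
    (i k : Fin 3) (hik : i ≠ k) (s : ZMod p) :
    ∑ x, (f (ρ (El i k hik s) x) - f x) ^ 2 ≤ 128 * ε := by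
  obtain ⟨j, hji, hjk⟩ : ∃ j : Fin 3, j ≠ i ∧ j ≠ k := by
    revert i k
    decide
  have hn : ∀ a b : ℝ, ‖((a : ℂ) - (b : ℂ))‖ ^ 2 = (a - b) ^ 2 := by
    intro a b
    rw [← Complex.ofReal_sub, Complex.norm_real, Real.norm_eq_abs, sq_abs]
  have key := h p ‹_› hp X ‹_› (fun s t => ρ (El i k hik s * El j k hjk t))
    (ρ (El i j hji.symm 1)) (ρ (El j i hji 1)) ?_ ?_ ?_ (fun x => (f x : ℂ)) ε hε0 hε1 ?_ ?_ ?_ ?_ ?_
    s 0
  · simp only [hn, El_zero, mul_one] at key
    exact key
  · intro s t s' t'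
    rw [← map_mul]
    congr 1
    rw [← El_mul_same, ← El_mul_same]
    calc El i k hik s * El i k hik s' * (El j k hjk t * El j k hjk t')
        = El i k hik s * (El i k hik s' * El j k hjk t) * El j k hjk t' := by group
      _ = El i k hik s * (El j k hjk t * El i k hik s') * El j k hjk t' := by
          rw [El_comm_col i j k hik hjk s' t]
      _ = El i k hik s * El j k hjk t * (El i k hik s' * El j k hjk t') := by group
  · intro s t
    rw [mul_inv_eq_iff_eq_mul, ← map_mul, ← map_mul]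
    congr 1
    calc El i j hji.symm 1 * (El i k hik s * El j k hjk t)
        = (El i j hji.symm 1 * El i k hik s) * El j k hjk t := by group
      _ = (El i k hik s * El i j hji.symm 1) * El j k hjk t := by
          rw [El_comm_row i j k hji.symm hik 1 s]
      _ = El i k hik s * (El i j hji.symm 1 * El j k hjk t) := by group
      _ = El i k hik s * (El i k hik t * El j k hjk t * El i j hji.symm 1) := by
          rw [El_conj i j k hji.symm hik hjk t]
      _ = El i k hik (s + t) * El j k hjk t * El i j hji.symm 1 := by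
          rw [← El_mul_same]; group
  · intro s t
    rw [mul_inv_eq_iff_eq_mul, ← map_mul, ← map_mul]
    congr 1
    calc El j i hji 1 * (El i k hik s * El j k hjk t)
        = (El j i hji 1 * El i k hik s) * El j k hjk t := by group
      _ = (El j k hjk s * El i k hik s * El j i hji 1) * El j k hjk t := by
          rw [El_conj j i k hji hjk hik s]
      _ = El j k hjk s * El i k hik s * (El j i hji 1 * El j k hjk t) := by group
      _ = El j k hjk s * El i k hik s * (El j k hjk t * El j i hji 1) := by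
          rw [El_comm_row j i k hji hjk 1 t]
      _ = (El j k hjk s * El i k hik s) * El j k hjk t * El j i hji 1 := by group
      _ = (El i k hik s * El j k hjk s) * El j k hjk t * El j i hji 1 := by
          rw [El_comm_col i j k hik hjk s s]
      _ = El i k hik s * (El j k hjk t * El j k hjk s) * El j i hji 1 := by
          rw [El_mul_same, add_comm t s, ← El_mul_same]; group
      _ = El i k hik s * El j k hjk (t + s) * El j i hji 1 := by
          rw [El_mul_same]
  · have : ∀ x, ‖((f x : ℝ) : ℂ)‖ ^ 2 = f x ^ 2 := fun x => by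
      rw [Complex.norm_real, Real.norm_eq_abs, sq_abs]
    simp only [this]
    exact hf
  · simp only [hn]
    exact H i j hji.symm
  · simp only [hn]
    exact H j i hji
  · simp only [hn, El_zero, mul_one]
    exact H i k hik
  · simp only [hn, El_zero, one_mul]
    exact H j k hjk

/-- the `ℓ²` norm -/
noncomputable def N (f : X → ℝ) : ℝ := ‖(WithLp.toLp 2 f : EuclideanSpace ℝ X)‖

theorem N_eq (f : X → ℝ) : N f = Real.sqrt (∑ x, f x ^ 2) := by
  unfold N
  rw [EuclideanSpace.norm_eq]
  simp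

theorem N_sq (f : X → ℝ) : N f ^ 2 = ∑ x, f x ^ 2 := by
  rw [N_eq, Real.sq_sqrt (Finset.sum_nonneg fun x _ => sq_nonneg _)]

theorem N_nonneg (f : X → ℝ) : 0 ≤ N f := norm_nonneg _

theorem N_add (f g : X → ℝ) : N (f + g) ≤ N f + N g := by
  unfold N
  rw [WithLp.toLp_add]
  exact norm_add_le _ _

theorem N_smul (c : ℝ) (f : X → ℝ) : N (fun x => c * f x) = |c| * N f := by
  have h : (fun x => c * f x) = c • f := rfl
  unfold N
  rw [h, WithLp.toLp_smul, norm_smul, Real.norm_eq_abs]

theorem N_sum {ι : Type*} (s : Finset ι) (f : ι → X → ℝ) :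
    N (fun x => ∑ i ∈ s, f i x) ≤ ∑ i ∈ s, N (f i) := by
  classical
  induction s using Finset.induction_on with
  | empty =>
      simp only [Finset.sum_empty]
      rw [N_eq]
      simp
  | insert a s ha ih =>
      rw [Finset.sum_insert ha]
      have : (fun x => ∑ i ∈ insert a s, f i x) = f a + fun x => ∑ i ∈ s, f i x := by
        funext x
        simp [Finset.sum_insert ha]
      rw [this]
      exact (N_add _ _).trans (by linarith)

theorem N_comp (f : X → ℝ) (σ : Equiv.Perm X) : N (fun x => f (σ x)) = N f := by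
  rw [N_eq, N_eq, Equiv.sum_comp σ fun x => f x ^ 2]

theorem prod_bound (ρ : Matrix.SpecialLinearGroup (Fin 3) (ZMod p) →* Equiv.Perm X) (f : X → ℝ)
    (δ : ℝ) (hδ : ∀ (i j : Fin 3) (hij : i ≠ j) (c : ZMod p),
      N (fun x => f (ρ (El i j hij c) x) - f x) ≤ δ) :
    ∀ l : List (Matrix.SpecialLinearGroup (Fin 3) (ZMod p)),
      (∀ e ∈ l, ∃ (i j : Fin 3) (hij : i ≠ j) (c : ZMod p), e = El i j hij c) →
      N (fun x => f (ρ l.prod x) - f x) ≤ l.length * δ := by
  intro l
  induction l with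
  | nil =>
      intro _
      rw [N_eq]
      simp
  | cons e l ih =>
      intro hl
      have h1 := ih fun e' he' => hl e' (List.mem_cons_of_mem _ he')
      obtain ⟨i, j, hij, c, rfl⟩ := hl e (List.mem_cons_self)
      have h2 := hδ i j hij c
      have h3 : (fun x => f (ρ (El i j hij c :: l).prod x) - f x) =
          (fun x => (fun y => f (ρ (El i j hij c) y) - f y) (ρ l.prod x)) +
            fun x => f (ρ l.prod x) - f x := by
        funext x
        simp [List.prod_cons]
      rw [h3]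
      refine (N_add _ _).trans ?_
      rw [N_comp (fun y => f (ρ (El i j hij c) y) - f y) (ρ l.prod)]
      rw [List.length_cons]
      push_cast
      linarith

theorem seven (a : Fin 7 → ℝ) (k : Fin 7) :
    (∑ i, a i) ^ 2 + (a k - a 0) ^ 2 ≤ 7 * ∑ i, a i ^ 2 := by
  simp only [Fin.sum_univ_seven]
  fin_cases k <;> simp only [Fin.mk_one, Fin.zero_eta, Fin.reduceFinMk] <;>
  linarith [sq_nonneg (a 0 - a 1), sq_nonneg (a 0 - a 2), sq_nonneg (a 0 - a 3),
    sq_nonneg (a 0 - a 4), sq_nonneg (a 0 - a 5), sq_nonneg (a 0 - a 6),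
    sq_nonneg (a 1 - a 2), sq_nonneg (a 1 - a 3), sq_nonneg (a 1 - a 4), sq_nonneg (a 1 - a 5),
    sq_nonneg (a 1 - a 6), sq_nonneg (a 2 - a 3), sq_nonneg (a 2 - a 4), sq_nonneg (a 2 - a 5),
    sq_nonneg (a 2 - a 6), sq_nonneg (a 3 - a 4), sq_nonneg (a 3 - a 5), sq_nonneg (a 3 - a 6),
    sq_nonneg (a 4 - a 5), sq_nonneg (a 4 - a 6), sq_nonneg (a 5 - a 6)]

theorem el7_all (i j : Fin 3) (hij : i ≠ j) : ∃ k : Fin 7, el7 (ZMod p) k = El i j hij 1 := by
  fin_cases i <;> fin_cases j
  · exact absurd rfl hij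
  · exact ⟨1, rfl⟩
  · exact ⟨2, rfl⟩
  · exact ⟨3, rfl⟩
  · exact absurd rfl hij
  · exact ⟨4, rfl⟩
  · exact ⟨5, rfl⟩
  · exact ⟨6, rfl⟩
  · exact absurd rfl hij

theorem el7_zero : el7 (ZMod p) 0 = 1 := rfl

end rep

theorem main (h : Spec.RelT) (hb : Spec.BGen) : Spec.GapSL := by
  -- `ε₀ = 1/120000`
  set ε : ℝ := 1 / 120000 with hε
  have hθ : (0 : ℝ) < 1 - ε ^ 2 / 49 := by rw [hε]; norm_num
  refine ⟨Real.sqrt (1 - ε ^ 2 / 49), Real.sqrt_pos.mpr hθ, ?_, ?_⟩
  · rw [Real.sqrt_lt' (by norm_num)]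
    rw [hε]; norm_num
  intro p hp hp100 X _ ρ f hsum
  rw [Real.sq_sqrt hθ.le]
  set S : ℝ := ∑ x, f x ^ 2 with hS
  have hS0 : 0 ≤ S := Finset.sum_nonneg fun x _ => sq_nonneg _
  by_cases hk : ∃ k : Fin 7, ε ^ 2 * S ≤ ∑ x, (f (ρ (el7 (ZMod p) k) x) - f x) ^ 2
  · obtain ⟨k, hk⟩ := hk
    have h1 : ∀ x, ((1 / 7 : ℝ) * ∑ i : Fin 7, f (ρ (el7 (ZMod p) i) x)) ^ 2 ≤
        (1 / 7) * ∑ i : Fin 7, f (ρ (el7 (ZMod p) i) x) ^ 2 -
          (1 / 49) * (f (ρ (el7 (ZMod p) k) x) - f x) ^ 2 := by
      intro x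
      have h2 := seven (fun i => f (ρ (el7 (ZMod p) i) x)) k
      simp only [el7_zero, map_one, Equiv.Perm.one_apply] at h2
      nlinarith
    calc ∑ x, ((1 / 7 : ℝ) * ∑ i : Fin 7, f (ρ (el7 (ZMod p) i) x)) ^ 2
        ≤ ∑ x, ((1 / 7) * ∑ i : Fin 7, f (ρ (el7 (ZMod p) i) x) ^ 2 -
          (1 / 49) * (f (ρ (el7 (ZMod p) k) x) - f x) ^ 2) := Finset.sum_le_sum fun x _ => h1 x
      _ = (1 / 7) * ∑ i : Fin 7, ∑ x, f (ρ (el7 (ZMod p) i) x) ^ 2 -
          (1 / 49) * ∑ x, (f (ρ (el7 (ZMod p) k) x) - f x) ^ 2 := by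
          rw [Finset.sum_sub_distrib, ← Finset.mul_sum, ← Finset.mul_sum, Finset.sum_comm]
      _ = (1 / 7) * ∑ _i : Fin 7, S - (1 / 49) * ∑ x, (f (ρ (el7 (ZMod p) k) x) - f x) ^ 2 := by
          congr 2
          refine Finset.sum_congr rfl fun i _ => ?_
          exact Equiv.sum_comp (ρ (el7 (ZMod p) i)) fun x => f x ^ 2
      _ ≤ (1 / 7) * ∑ _i : Fin 7, S - (1 / 49) * (ε ^ 2 * S) :=
          sub_le_sub_left (mul_le_mul_of_nonneg_left hk (by norm_num)) _
      _ = (1 - ε ^ 2 / 49) * S := by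
          rw [Finset.sum_const, Finset.card_univ, Fintype.card_fin, nsmul_eq_mul]
          push_cast
          ring
  · exfalso
    push Not at hk
    have hSpos : 0 < S := by
      rcases hS0.lt_or_eq with h1 | h1
      · exact h1
      · exfalso
        have := hk 0
        rw [← h1, mul_zero] at this
        exact absurd this (not_lt.mpr (Finset.sum_nonneg fun x _ => sq_nonneg _))
    -- normalise
    set r : ℝ := (Real.sqrt S)⁻¹ with hr
    have hr0 : 0 < r := inv_pos.mpr (Real.sqrt_pos.mpr hSpos)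
    have hrS : r ^ 2 * S = 1 := by
      rw [hr, inv_pow, Real.sq_sqrt hS0, inv_mul_cancel₀ hSpos.ne']
    set g : X → ℝ := fun x => r * f x with hg
    have hgS : ∑ x, g x ^ 2 = 1 := by
      rw [← hrS, hS, Finset.mul_sum]
      exact Finset.sum_congr rfl fun x _ => by rw [hg]; ring
    have hgd : ∀ σ : Equiv.Perm X, ∑ x, (g (σ x) - g x) ^ 2 =
        r ^ 2 * ∑ x, (f (σ x) - f x) ^ 2 := by
      intro σ
      rw [Finset.mul_sum]
      exact Finset.sum_congr rfl fun x _ => by rw [hg]; ring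
    have hH : ∀ (i j : Fin 3) (hij : i ≠ j), ∑ x, (g (ρ (El i j hij 1) x) - g x) ^ 2 ≤ ε ^ 2 := by
      intro i j hij
      obtain ⟨k, hk'⟩ := el7_all (p := p) i j hij
      rw [hgd, ← hk']
      calc r ^ 2 * ∑ x, (f (ρ (el7 (ZMod p) k) x) - f x) ^ 2 ≤ r ^ 2 * (ε ^ 2 * S) :=
            mul_le_mul_of_nonneg_left (hk k).le (by positivity)
        _ = ε ^ 2 * (r ^ 2 * S) := by ring
        _ = ε ^ 2 := by rw [hrS, mul_one]
    have hEl : ∀ (i j : Fin 3) (hij : i ≠ j) (c : ZMod p),
        N (fun x => g (ρ (El i j hij c) x) - g x) ≤ Real.sqrt (128 * ε) := by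
      intro i j hij c
      rw [N_eq]
      exact Real.sqrt_le_sqrt (elem_bound h hp100 ρ g ε (by rw [hε]; norm_num)
        (by rw [hε]; norm_num) hgS.le hH i j hij c)
    have hall : ∀ γ : Matrix.SpecialLinearGroup (Fin 3) (ZMod p),
        N (fun x => g (ρ γ x) - g x) ≤ 30 * Real.sqrt (128 * ε) := by
      intro γ
      obtain ⟨l, hl1, hl2, hl3⟩ := hb (ZMod p) _ γ
      rw [← hl3]
      refine (prod_bound ρ g _ hEl l hl2).trans ?_
      refine mul_le_mul_of_nonneg_right ?_ (Real.sqrt_nonneg _)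
      exact_mod_cast hl1
    have havg : (Fintype.card (Matrix.SpecialLinearGroup (Fin 3) (ZMod p)) : ℝ) * N g ≤
        Fintype.card (Matrix.SpecialLinearGroup (Fin 3) (ZMod p)) * (30 * Real.sqrt (128 * ε)) := by
      have h1 : (fun x => -(Fintype.card (Matrix.SpecialLinearGroup (Fin 3) (ZMod p)) : ℝ) * g x) =
          fun x => ∑ γ : Matrix.SpecialLinearGroup (Fin 3) (ZMod p), (g (ρ γ x) - g x) := by
        funext x
        rw [Finset.sum_sub_distrib, Finset.sum_const, Finset.card_univ, nsmul_eq_mul]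
        have h2 : ∑ γ : Matrix.SpecialLinearGroup (Fin 3) (ZMod p), g (ρ γ x) = 0 := by
          rw [hg]
          simp only
          rw [← Finset.mul_sum, hsum x, mul_zero]
        rw [h2]
        ring
      have h3 := N_sum Finset.univ
        (fun (γ : Matrix.SpecialLinearGroup (Fin 3) (ZMod p)) x => g (ρ γ x) - g x)
      rw [← h1, N_smul, abs_neg, abs_of_nonneg (Nat.cast_nonneg _)] at h3
      refine h3.trans ?_
      refine (Finset.sum_le_sum fun γ _ => hall γ).trans ?_
      rw [Finset.sum_const, Finset.card_univ, nsmul_eq_mul]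
    have hcard : (0 : ℝ) < Fintype.card (Matrix.SpecialLinearGroup (Fin 3) (ZMod p)) := by
      exact_mod_cast Fintype.card_pos
    have hNg := le_of_mul_le_mul_left havg hcard
    have hNg1 : N g = 1 := by rw [N_eq, hgS, Real.sqrt_one]
    rw [hNg1] at hNg
    have h2 : (1 : ℝ) ≤ (30 * Real.sqrt (128 * ε)) ^ 2 := one_le_pow₀ hNg
    rw [mul_pow, Real.sq_sqrt (by rw [hε]; norm_num), hε] at h2
    norm_num at h2

end Crest.Agent.FPGapSL
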