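import Crest.Agent.FPSpec

/-!
# rid 191, module HALL: M. Hall's theorem for the stabiliser of a coset
-/

set_option autoImplicit false

namespace Crest.Agent.FPHall

open Crest.Agent.FP

theorem exists_perm {G X : Type} [Group G] [MulAction G X] (S : Finset X) (a : G) :
    ∃ σ : Equiv.Perm S, ∀ (c : X) (hc : c ∈ S) (hc' : a • c ∈ S), σ ⟨c, hc⟩ = ⟨a • c, hc'⟩ := by
  classical
  let e : {c : S // a • (c : X) ∈ S} ≃ {c : S // a⁻¹ • (c : X) ∈ S} :=
    { toFun := fun c => ⟨⟨a • (c.1 : X), c.2⟩, by simp⟩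
      invFun := fun c => ⟨⟨a⁻¹ • (c.1 : X), c.2⟩, by simp⟩
      left_inv := by rintro ⟨⟨c, hc⟩, hc'⟩; simp
      right_inv := by rintro ⟨⟨c, hc⟩, hc'⟩; simp }
  refine ⟨e.extendSubtype, fun c hc hc' => ?_⟩
  rw [Equiv.extendSubtype_apply_of_mem e ⟨c, hc⟩ hc']
  rfl

theorem main : Spec.Hall := by
  classical
  intro α _ T Ts hTs hs hhs
  let x0 : FreeGroup α ⧸ T := ((1 : FreeGroup α) : FreeGroup α ⧸ T)
  let S : Finset (FreeGroup α ⧸ T) := insert x0
    ((Ts ∪ hs).biUnion (fun w => (w.toWord.tails.map (fun L => FreeGroup.mk L • x0)).toFinset))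
  have hx0 : x0 ∈ S := Finset.mem_insert_self _ _
  choose σ hσ using fun a : α => exists_perm S (FreeGroup.of a)
  let ρ : FreeGroup α →* Equiv.Perm S := FreeGroup.lift σ
  have hsm : ∀ w : FreeGroup α, w • x0 = (w : FreeGroup α ⧸ T) := by
    intro w
    have := MulAction.Quotient.smul_coe T w (1 : FreeGroup α)
    rw [smul_eq_mul, mul_one] at this
    exact this
  have key : ∀ L : List (α × Bool), (∀ L', L' <:+ L → FreeGroup.mk L' • x0 ∈ S) →
      ∃ h, ρ (FreeGroup.mk L) ⟨x0, hx0⟩ = ⟨FreeGroup.mk L • x0, h⟩ := by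
    intro L
    induction L with
    | nil =>
      intro h
      refine ⟨h [] (List.suffix_refl _), ?_⟩
      have h0 : (FreeGroup.mk [] : FreeGroup α) = 1 := FreeGroup.one_eq_mk.symm
      apply Subtype.ext
      change ((ρ (FreeGroup.mk []) ⟨x0, hx0⟩ : S) : FreeGroup α ⧸ T) = FreeGroup.mk [] • x0
      rw [h0, map_one, one_smul]
      rfl
    | cons s L ih =>
      intro h
      obtain ⟨h1, h2⟩ := ih (fun L' hL' => h L' (hL'.trans (List.suffix_cons s L)))
      have h3 := h (s :: L) (List.suffix_refl _)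
      refine ⟨h3, ?_⟩
      have h4 : FreeGroup.mk (s :: L) = FreeGroup.mk [s] * FreeGroup.mk L := by
        rw [FreeGroup.mul_mk]; rfl
      obtain ⟨a, b⟩ := s
      have h5 : ρ (FreeGroup.mk ((a, b) :: L)) ⟨x0, hx0⟩
          = ρ (FreeGroup.mk [(a, b)]) ⟨FreeGroup.mk L • x0, h1⟩ := by
        rw [h4, map_mul, Equiv.Perm.mul_apply, h2]
      rw [h5]
      cases b with
      | true =>
        have h6 : FreeGroup.mk [(a, true)] = FreeGroup.of a := rfl
        have h7 : FreeGroup.mk ((a, true) :: L) • x0 = FreeGroup.of a • (FreeGroup.mk L • x0) := by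
          rw [h4, mul_smul, h6]
        rw [h6]
        have h8 : FreeGroup.of a • (FreeGroup.mk L • x0) ∈ S := by rw [← h7]; exact h3
        have h9 := hσ a (FreeGroup.mk L • x0) h1 h8
        change (FreeGroup.lift σ) (FreeGroup.of a) _ = _
        rw [FreeGroup.lift_apply_of, h9]
        apply Subtype.ext
        exact h7.symm
      | false =>
        have h6 : FreeGroup.mk [(a, false)] = (FreeGroup.of a)⁻¹ := rfl
        have h7 : FreeGroup.of a • (FreeGroup.mk ((a, false) :: L) • x0) = FreeGroup.mk L • x0 := by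
          rw [h4, mul_smul, h6, smul_inv_smul]
        rw [h6]
        have h8 : FreeGroup.of a • (FreeGroup.mk ((a, false) :: L) • x0) ∈ S := by
          rw [h7]; exact h1
        have h9 := hσ a (FreeGroup.mk ((a, false) :: L) • x0) h3 h8
        change (FreeGroup.lift σ) (FreeGroup.of a)⁻¹ _ = _
        rw [map_inv, FreeGroup.lift_apply_of, Equiv.Perm.inv_eq_iff_eq, h9]
        apply Subtype.ext
        exact h7.symm
  have key2 : ∀ w ∈ Ts ∪ hs, ((ρ w ⟨x0, hx0⟩ : S) : FreeGroup α ⧸ T) = (w : FreeGroup α ⧸ T) := by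
    intro w hw
    obtain ⟨h, h1⟩ := key w.toWord (by
      intro L' hL'
      apply Finset.mem_insert_of_mem
      rw [Finset.mem_biUnion]
      refine ⟨w, hw, ?_⟩
      rw [List.mem_toFinset, List.mem_map]
      exact ⟨L', (List.mem_tails _ _).2 hL', rfl⟩)
    have h2 := congrArg (fun q : S => (q : FreeGroup α ⧸ T)) h1
    simp only [FreeGroup.mk_toWord] at h2
    rw [h2, hsm w]
  refine ⟨S, inferInstance, ρ, ⟨x0, hx0⟩, ?_, ?_⟩
  · intro t ht
    apply Subtype.ext
    rw [key2 t (Finset.mem_union_left _ ht)]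
    change _ = ((1 : FreeGroup α) : FreeGroup α ⧸ T)
    rw [eq_comm, QuotientGroup.eq]
    simpa using hTs t ht
  · intro w hw h
    have h1 := key2 w (Finset.mem_union_right _ hw)
    rw [h] at h1
    apply hhs w hw
    have h2 : ((1 : FreeGroup α) : FreeGroup α ⧸ T) = (w : FreeGroup α ⧸ T) := h1
    rw [QuotientGroup.eq] at h2
    simpa using h2

end Crest.Agent.FPHall
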