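import Crest.Agent.FPSpec

/-!
# INIT: from a generating set of the groupoid to a labelled graph.
-/

set_option autoImplicit false

namespace Crest.Agent.FPInit

open Crest.Agent.FP

open scoped BigOperators

section skew

variable {V Ω : Type}

/-- skew permutation of `V × Ω`. -/
def sk (π : Equiv.Perm V) (c : V → Equiv.Perm Ω) : Equiv.Perm (V × Ω) where
  toFun x := (π x.1, c x.1 x.2)
  invFun x := (π.symm x.1, (c (π.symm x.1)).symm x.2)
  left_inv := by intro x; simp
  right_inv := by intro x; simp

theorem sk_apply (π : Equiv.Perm V) (c : V → Equiv.Perm Ω) (v : V) (ω : Ω) :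
    sk π c (v, ω) = (π v, c v ω) := rfl

theorem sk_mul (π π' : Equiv.Perm V) (c c' : V → Equiv.Perm Ω) :
    sk π c * sk π' c' = sk (π * π') (fun v => c (π' v) * c' v) := by
  ext x <;> rfl

theorem sk_one : sk (1 : Equiv.Perm V) (fun _ => (1 : Equiv.Perm Ω)) = 1 := by
  ext x <;> rfl

end skew

section act

variable {K : ℕ} [NeZero K] {V Ω : Type} [MulAction (Gam K) V]

/-- the element `b_j`. -/
def bb (j : ZMod K) : Gam K := Gam.a (j + 1) * (Gam.a j)⁻¹

/-- the labelling of the cells. -/
abbrev ell (v : V) (j : ZMod K) : V := (Gam.a j : Gam K) • v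

theorem sk_a (γ : V → Equiv.Perm Ω) (hγ : IsLam (K := K) ell γ) (j : ZMod K) :
    sk (pm (bb j)) γ * sk (pm (Gam.a j : Gam K)) (fun v => wd (K := K) ell γ v 0 j.val) =
      sk (pm (Gam.a (j + 1) : Gam K)) (fun v => wd (K := K) ell γ v 0 (j + 1).val) := by
  have h1 : ∀ v : V, γ ((Gam.a j : Gam K) • v) * wd (K := K) ell γ v 0 j.val
      = wd (K := K) ell γ v 0 (j + 1).val := by
    intro v
    have h2 : γ ((Gam.a j : Gam K) • v) * wd (K := K) ell γ v 0 j.val = wd (K := K) ell γ v 0 (j.val + 1) := by
      show _ = γ (ell v (0 + ((j.val : ℕ) : ZMod K))) * wd (K := K) ell γ v 0 j.val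
      rw [zero_add, ZMod.natCast_zmod_val]
    rw [h2]
    by_cases hj : j.val + 1 = K
    · have h3 : (j + 1).val = 0 := by
        have : (j + 1 : ZMod K) = 0 := by
          have h4 : ((j.val + 1 : ℕ) : ZMod K) = ((K : ℕ) : ZMod K) := by rw [hj]
          rw [Nat.cast_add, ZMod.natCast_zmod_val, Nat.cast_one, ZMod.natCast_self] at h4
          exact h4
        rw [this, ZMod.val_zero]
      rw [hj, h3, hγ v]
      rfl
    · have h3 : (j + 1).val = j.val + 1 := by
        have hlt : j.val + 1 < K := lt_of_le_of_ne (ZMod.val_lt j) hj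
        have h4 : (j + 1 : ZMod K) = ((j.val + 1 : ℕ) : ZMod K) := by
          rw [Nat.cast_add, ZMod.natCast_zmod_val, Nat.cast_one]
        rw [h4, ZMod.val_natCast, Nat.mod_eq_of_lt hlt]
      rw [h3]
  rw [sk_mul]
  have e1 : (pm (bb j) * pm (Gam.a j : Gam K) : Equiv.Perm V) = pm (Gam.a (j + 1) : Gam K) := by
    ext v
    simp [pm, bb, mul_smul]
  rw [e1]
  congr 1
  funext v
  exact h1 v

/-- generators data on `V × Ω`. -/
noncomputable def gd (γ : V → Equiv.Perm Ω) (hγ : IsLam (K := K) ell γ) :
    GenData K (Equiv.Perm (V × Ω)) where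
  a j := sk (pm (Gam.a j : Gam K)) (fun v => wd (K := K) ell γ v 0 j.val)
  y j := sk (pm (Gam.y j : Gam K)) (fun _ => 1)
  g := sk (pm (Gam.g : Gam K)) γ
  z := sk (pm (Gam.z : Gam K)) (fun _ => 1)
  a0 := by
    ext x
    · simp [sk, pm, Gam.a0]
    · simp [sk, wd]
  zt := by
    intro j
    have h1 := sk_a γ hγ j
    have h2 : sk (pm (Gam.t j : Gam K)) (fun _ => (1 : Equiv.Perm Ω)) *
        sk (pm (Gam.g : Gam K)) γ = sk (pm (bb j)) γ := by
      rw [sk_mul]
      have e1 : (pm (Gam.t j) * pm (Gam.g : Gam K) : Equiv.Perm V) = pm (bb j) := by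
        ext v
        simp [pm, bb, Gam.t, mul_smul]
      rw [e1]
      congr 1
    have h3 : sk (pm (Gam.a (j + 1) : Gam K)) (fun v => wd (K := K) ell γ v 0 (j + 1).val) *
        (sk (pm (Gam.a j : Gam K)) (fun v => wd (K := K) ell γ v 0 j.val))⁻¹ *
        (sk (pm (Gam.g : Gam K)) γ)⁻¹ = sk (pm (Gam.t j : Gam K)) (fun _ => (1 : Equiv.Perm Ω)) := by
      rw [← h1, ← h2]
      group
    rw [h3]
    show sk _ _ * sk _ _ = sk _ _ * sk _ _
    rw [sk_mul, sk_mul]
    have e2 : (pm (Gam.z : Gam K) * pm (Gam.t j : Gam K) : Equiv.Perm V) =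
        pm (Gam.t j : Gam K) * pm (Gam.z : Gam K) := by
      ext v
      have := Gam.zt (K := K) j
      have h4 : (Gam.z : Gam K) * Gam.t j = Gam.t j * Gam.z := this
      simp only [pm, Equiv.Perm.mul_apply, MulAction.toPerm_apply, ← mul_smul, h4]
    rw [e2]
  zy := by
    intro j
    show sk _ _ * sk _ _ = sk _ _ * sk _ _
    rw [sk_mul, sk_mul]
    have e2 : (pm (Gam.z : Gam K) * pm (Gam.y j : Gam K) : Equiv.Perm V) =
        pm (Gam.y j : Gam K) * pm (Gam.z : Gam K) := by
      ext v
      have h4 : (Gam.z : Gam K) * Gam.y j = Gam.y j * Gam.z := Gam.zy (K := K) j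
      simp only [pm, Equiv.Perm.mul_apply, MulAction.toPerm_apply, ← mul_smul, h4]
    rw [e2]

end act

/-! ### letters -/

inductive Lt (K : ℕ) : Type
  | b (j : ZMod K)
  | g
  | y (j : ZMod K)
  | z

variable {K : ℕ}

/-- value of a letter. -/
def ev : Lt K → Gam K
  | Lt.b j => bb j
  | Lt.g => Gam.g
  | Lt.y j => Gam.y j
  | Lt.z => Gam.z

/-- is the letter an edge letter? -/
def isE : Lt K → Bool
  | Lt.b _ => true
  | Lt.g => true
  | Lt.y _ => false
  | Lt.z => false

def evs (l : Lt K × Bool) : Gam K := if l.2 then ev l.1 else (ev l.1)⁻¹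

/-- partial products. -/
def pp (w : ℕ → Lt K × Bool) : ℕ → Gam K
  | 0 => 1
  | (n + 1) => evs (w n) * pp w n

theorem pp_congr (w w' : ℕ → Lt K × Bool) (n : ℕ) (h : ∀ i < n, w i = w' i) :
    pp w n = pp w' n := by
  induction n with
  | zero => rfl
  | succ n ih =>
    show evs (w n) * pp w n = evs (w' n) * pp w' n
    rw [h n (Nat.lt_succ_self n), ih (fun i hi => h i (Nat.lt_succ_of_lt hi))]

/-- the elements which are values of nonempty words. -/
def IsWord (h : Gam K) : Prop := ∃ (N : ℕ) (w : ℕ → Lt K × Bool), 1 ≤ N ∧ pp w N = h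

theorem isWord_mul (l : Lt K × Bool) (h : Gam K) (hh : IsWord h) : IsWord (evs l * h) := by
  obtain ⟨N, w, hN, rfl⟩ := hh
  refine ⟨N + 1, fun i => if i = N then l else w i, by omega, ?_⟩
  show evs (if N = N then l else w N) * pp _ N = _
  rw [if_pos rfl, pp_congr _ w N (fun i hi => by simp [ne_of_lt hi])]

theorem isWord_one : IsWord (1 : Gam K) := by
  refine ⟨2, fun i => if i = 0 then (Lt.z, true) else (Lt.z, false), by omega, ?_⟩
  simp [pp, evs, ev]

/-- the subgroup of good elements. -/
def TT (K : ℕ) : Subgroup (Gam K) where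
  carrier := {γ | (∀ h, IsWord h → IsWord (γ * h)) ∧ (∀ h, IsWord h → IsWord (γ⁻¹ * h))}
  mul_mem' := by
    rintro a b ⟨ha, ha'⟩ ⟨hb, hb'⟩
    refine ⟨fun h hh => ?_, fun h hh => ?_⟩
    · rw [mul_assoc]; exact ha _ (hb _ hh)
    · rw [mul_inv_rev, mul_assoc]; exact hb' _ (ha' _ hh)
  one_mem' := by
    refine ⟨fun h hh => ?_, fun h hh => ?_⟩
    · rwa [one_mul]
    · rwa [inv_one, one_mul]
  inv_mem' := by
    rintro a ⟨ha, ha'⟩
    refine ⟨ha', fun h hh => ?_⟩
    rw [inv_inv]; exact ha _ hh

theorem ev_mem (l : Lt K) : ev l ∈ TT K := by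
  refine ⟨fun h hh => ?_, fun h hh => ?_⟩
  · exact isWord_mul (l, true) h hh
  · exact isWord_mul (l, false) h hh

theorem isWord_all [NeZero K] (γ : Gam K) : IsWord γ := by
  have hnat : ∀ n : ℕ, (Gam.a (n : ZMod K) : Gam K) ∈ TT K := by
    intro n
    induction n with
    | zero => rw [Nat.cast_zero, Gam.a0]; exact (TT K).one_mem
    | succ n ih =>
      have h1 : (Gam.a ((n + 1 : ℕ) : ZMod K) : Gam K) = bb (n : ZMod K) * Gam.a (n : ZMod K) := by
        rw [bb, inv_mul_cancel_right, Nat.cast_add, Nat.cast_one]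
      rw [h1]
      exact (TT K).mul_mem (ev_mem (Lt.b _)) ih
  have h := Gam.mem_of_gens (TT K) (fun j => by
    have := hnat j.val
    rwa [ZMod.natCast_zmod_val] at this) (fun j => ev_mem (Lt.y j)) (ev_mem Lt.g) (ev_mem Lt.z) γ
  have := h.1 1 isWord_one
  rwa [mul_one] at this

/-! ### the action of letters on `V × Ω` -/

section act2

variable [NeZero K] {V Ω : Type} [MulAction (Gam K) V]

noncomputable def rho (γ : V → Equiv.Perm Ω) (hγ : IsLam (K := K) ell γ) :
    Gam K →* Equiv.Perm (V × Ω) := Gam.lift (gd γ hγ)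

theorem rho_ev (γ : V → Equiv.Perm Ω) (hγ : IsLam (K := K) ell γ) (l : Lt K) (v : V) (ω : Ω) :
    rho γ hγ (ev l) (v, ω) = (ev l • v, if isE l then γ v ω else ω) := by
  cases l with
  | b j =>
    have h1 : rho γ hγ (bb j) = sk (pm (bb j)) γ := by
      unfold rho bb
      rw [map_mul, map_inv, Gam.lift_a, Gam.lift_a]
      show sk (pm (Gam.a (j + 1) : Gam K)) (fun v => wd (K := K) ell γ v 0 (j + 1).val) *
        (sk (pm (Gam.a j : Gam K)) (fun v => wd (K := K) ell γ v 0 j.val))⁻¹ = _
      rw [← sk_a γ hγ j, mul_inv_cancel_right]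
      rfl
    show rho γ hγ (bb j) (v, ω) = _
    rw [h1]
    simp [sk, pm, ev, isE]
  | g =>
    show Gam.lift (gd γ hγ) Gam.g (v, ω) = _
    rw [Gam.lift_g]
    simp [gd, sk, pm, ev, isE]
  | y j =>
    show Gam.lift (gd γ hγ) (Gam.y j) (v, ω) = _
    rw [Gam.lift_y]
    simp [gd, sk, pm, ev, isE]
  | z =>
    show Gam.lift (gd γ hγ) Gam.z (v, ω) = _
    rw [Gam.lift_z]
    simp [gd, sk, pm, ev, isE]

end act2

/-! ### one step of a path: edges and identifications -/

section graph

variable {V Q : Type} [MulAction (Gam K) V]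

/-- the edge of a step at `V`-position `u` from `x` to `x'`. -/
def stepEdge (l : Lt K × Bool) (u : V) (x x' : Q) : Q × V × Q :=
  if l.2 then (x, u, x') else (x', (evs l) • u, x)

theorem step_rho [NeZero K] {Ω : Type} (γ : V → Equiv.Perm Ω) (hγ : IsLam (K := K) ell γ)
    (l : Lt K × Bool)
    (u : V) (ω ω' : Ω)
    (hE : isE l.1 = true → if l.2 then γ u ω = ω' else γ (evs l • u) ω' = ω)
    (hI : isE l.1 = false → ω = ω') :
    rho γ hγ (evs l) (u, ω) = (evs l • u, ω') := by
  obtain ⟨l, s⟩ := l
  cases s with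
  | true =>
    show rho γ hγ (ev l) (u, ω) = (ev l • u, ω')
    rw [rho_ev]
    by_cases h : isE l = true
    · have := hE h
      simp only [if_true] at this
      rw [if_pos h, this]
    · have h' : isE l = false := by simpa using h
      rw [if_neg h, hI h']
  | false =>
    show rho γ hγ (ev l)⁻¹ (u, ω) = ((ev l)⁻¹ • u, ω')
    rw [map_inv, Equiv.Perm.inv_def, Equiv.symm_apply_eq, rho_ev]
    by_cases h : isE l = true
    · have := hE h
      simp only [Bool.false_eq_true, if_false] at this
      have h2 : γ ((ev l)⁻¹ • u) ω' = ω := this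
      rw [if_pos h, h2, smul_inv_smul]
    · have h' : isE l = false := by simpa using h
      rw [if_neg h, smul_inv_smul, hI h']

end graph

theorem main : Spec.Init := by
  classical
  intro K _ hK V _ _ _ E' hG htr
  -- words
  have hw : ∀ e : E', ∃ (N : ℕ) (w : ℕ → Lt K × Bool), 1 ≤ N ∧ pp w N = e.1.2 :=
    fun e => isWord_all e.1.2
  choose N w hN hpp using hw
  -- vertices
  let Q : Type := V ⊕ (Σ e : E', Fin (N e - 1))
  let pos : (e : E') → ℕ → Q := fun e i =>
    if h : 1 ≤ i ∧ i < N e then Sum.inr ⟨e, ⟨i - 1, by omega⟩⟩ else Sum.inl (pp (w e) i • e.1.1)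
  have hpos0 : ∀ e, pos e 0 = Sum.inl e.1.1 := by
    intro e
    simp only [pos]
    rw [dif_neg (by omega)]
    simp [pp]
  have hposN : ∀ e, pos e (N e) = Sum.inl (e.1.2 • e.1.1) := by
    intro e
    simp only [pos]
    rw [dif_neg (by omega), hpp]
  -- steps
  let S : Type := Σ e : E', Fin (N e)
  let cur : S → V := fun s => pp (w s.1) s.2.val • s.1.1.1
  let edge : S → Q × V × Q := fun s =>
    stepEdge (w s.1 s.2.val) (cur s) (pos s.1 s.2.val) (pos s.1 (s.2.val + 1))
  let ide : S → Q × Q := fun s => (pos s.1 s.2.val, pos s.1 (s.2.val + 1))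
  let SE : Finset S := Finset.univ.filter (fun s => isE (w s.1 s.2.val).1 = true)
  let SI : Finset S := Finset.univ.filter (fun s => ¬ isE (w s.1 s.2.val).1 = true)
  refine ⟨Q, inferInstance, SE.image edge, SI.image ide, ?_, ?_⟩
  · intro Ω γ hγ j hjE hjI
    -- the step property
    have hE1 : ∀ (e : E') (i : ℕ), i < N e → isE (w e i).1 = true →
        if (w e i).2 then γ (pp (w e) i • e.1.1) (j (pos e i)) = j (pos e (i + 1))
        else γ (evs (w e i) • (pp (w e) i • e.1.1)) (j (pos e (i + 1))) = j (pos e i) := by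
      intro e i hi hE
      have h1 := hjE (edge ⟨e, ⟨i, hi⟩⟩) (Finset.mem_image_of_mem _ (by
        simp only [SE, Finset.mem_filter, Finset.mem_univ, true_and]
        exact hE))
      simp only [edge, stepEdge, cur] at h1
      by_cases hs : (w e i).2 = true
      · simp only [hs, if_true] at h1 ⊢
        exact h1
      · have hs' : (w e i).2 = false := by simpa using hs
        simp only [hs', Bool.false_eq_true, if_false] at h1 ⊢
        exact h1
    have hI1 : ∀ (e : E') (i : ℕ), i < N e → isE (w e i).1 = false →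
        j (pos e i) = j (pos e (i + 1)) := by
      intro e i hi hE
      exact hjI (ide ⟨e, ⟨i, hi⟩⟩) (Finset.mem_image_of_mem _ (by
        simp only [SI, Finset.mem_filter, Finset.mem_univ, true_and]
        simp [hE]))
    -- along the paths
    have hpath : ∀ (e : E') (i : ℕ), i ≤ N e →
        rho γ hγ (pp (w e) i) (e.1.1, j (Sum.inl e.1.1)) = (pp (w e) i • e.1.1, j (pos e i)) := by
      intro e i
      induction i with
      | zero =>
        intro _
        rw [hpos0]
        simp [pp]
      | succ i ih =>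
        intro hi
        have h1 := ih (by omega)
        show rho γ hγ (evs (w e i) * pp (w e) i) _ = ((evs (w e i) * pp (w e) i) • _, _)
        rw [map_mul, Equiv.Perm.mul_apply, h1, mul_smul]
        exact step_rho γ hγ (w e i) _ _ _ (hE1 e i (by omega)) (hI1 e i (by omega))
    have harr : ∀ e ∈ E', rho γ hγ e.2 (e.1, j (Sum.inl e.1)) = (e.2 • e.1, j (Sum.inl (e.2 • e.1))) := by
      intro e he
      have h1 := hpath ⟨e, he⟩ (N ⟨e, he⟩) le_rfl
      rw [hposN, hpp] at h1
      exact h1
    have hall : ∀ (v : V) (h : Gam K), rho γ hγ h (v, j (Sum.inl v)) = (h • v, j (Sum.inl (h • v))) := by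
      intro v h
      have hp := hG v h
      induction hp with
      | one => simp
      | @step γ' h' hp hm ih =>
        have h1 := harr (γ' • v, h') (by simpa using hm)
        rw [map_mul, Equiv.Perm.mul_apply, ih, mul_smul]
        exact h1
      | @back γ' h' hp hm ih =>
        have h1 := harr (h'⁻¹ • γ' • v, h') (by simpa using hm)
        rw [map_mul, Equiv.Perm.mul_apply, ih, mul_smul, map_inv, Equiv.Perm.inv_def,
          Equiv.symm_apply_eq]
        simp only [smul_inv_smul] at h1
        exact h1.symm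
    -- constancy on V
    have hy : ∀ (i : ZMod K) (v : V), j (Sum.inl ((Gam.y i : Gam K) • v)) = j (Sum.inl v) := by
      intro i v
      have h1 := hall v (Gam.y i)
      have h2 := rho_ev γ hγ (Lt.y i) v (j (Sum.inl v))
      have h3 : rho γ hγ (Gam.y i) (v, j (Sum.inl v)) = ((Gam.y i : Gam K) • v, j (Sum.inl v)) := by
        simpa [ev, isE] using h2
      rw [h3] at h1
      exact (congrArg Prod.snd h1).symm
    have hcon := htr Ω (fun v => j (Sum.inl v)) hy
    obtain ⟨v0⟩ := ‹Nonempty V›
    have hω : ∀ v, j (Sum.inl v) = j (Sum.inl v0) := fun v => hcon v v0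
    have hfix : ∀ v, γ v (j (Sum.inl v0)) = j (Sum.inl v0) := by
      intro v
      have h1 := hall v Gam.g
      have h2 := rho_ev γ hγ Lt.g v (j (Sum.inl v))
      have h3 : rho γ hγ Gam.g (v, j (Sum.inl v)) = ((Gam.g : Gam K) • v, γ v (j (Sum.inl v))) := by
        simpa [ev, isE] using h2
      rw [h3] at h1
      have h4 := congrArg Prod.snd h1
      simp only at h4
      rw [hω v, hω ((Gam.g : Gam K) • v)] at h4
      exact h4
    have hposω : ∀ (e : E') (i : ℕ), i ≤ N e → j (pos e i) = j (Sum.inl v0) := by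
      intro e i
      induction i with
      | zero => intro _; rw [hpos0]; exact hω _
      | succ i ih =>
        intro hi
        have h1 := ih (by omega)
        by_cases hE : isE (w e i).1 = true
        · have h2 := hE1 e i (by omega) hE
          by_cases hs : (w e i).2 = true
          · rw [if_pos hs, h1, hfix] at h2
            exact h2.symm
          · rw [if_neg hs, h1] at h2
            have h3 := hfix (evs (w e i) • pp (w e) i • e.1.1)
            rw [← h3] at h2
            have h4 := (γ _).injective h2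
            rw [h4]
        · have h2 := hI1 e i (by omega) (by simpa using hE)
          rw [← h2, h1]
    refine ⟨j (Sum.inl v0), ?_, hfix⟩
    rintro (v | ⟨e, i⟩)
    · exact hω v
    · have h1 := hposω e (i.val + 1) (by omega)
      have h2 : pos e (i.val + 1) = Sum.inr ⟨e, i⟩ := by
        simp only [pos]
        rw [dif_pos ⟨by omega, by omega⟩]
        congr 1
      rw [h2] at h1
      exact h1
  · have h1 : (SE.image edge).card ≤ SE.card := Finset.card_image_le
    have h2 : (SI.image ide).card ≤ SI.card := Finset.card_image_le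
    have h3 : SE.card + SI.card = Fintype.card S := by
      simp only [SE, SI]
      rw [Finset.card_filter_add_card_filter_not]
      rfl
    have h4 : Fintype.card S = ∑ e : E', N e := by
      simp only [S]
      rw [Fintype.card_sigma]
      simp
    have h5 : Fintype.card Q = Fintype.card V + ∑ e : E', (N e - 1) := by
      simp only [Q]
      rw [Fintype.card_sum, Fintype.card_sigma]
      simp
    have h6 : ∑ e : E', N e = ∑ e : E', (N e - 1) + E'.card := by
      have : ∑ e : E', N e = ∑ e : E', ((N e - 1) + 1) :=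
        Finset.sum_congr rfl (fun e _ => by have := hN e; omega)
      rw [this, Finset.sum_add_distrib]
      simp
    omega

end Crest.Agent.FPInit
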