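import Crest.Agent.FPSpec

/-!
# LEAF: removing a vertex of degree one.
-/

set_option autoImplicit false

namespace Crest.Agent.FPLeaf

open Crest.Agent.FP

open scoped BigOperators

variable {K : ℕ} {V L Q : Type}

/-- inclusion of edges. -/
def ie (x : Q) (e : {y : Q // y ≠ x} × L × {y : Q // y ≠ x}) : Q × L × Q := (e.1.1, e.2.1, e.2.2.1)

theorem ie_inj (x : Q) : Function.Injective (ie (L := L) x) := by
  rintro ⟨⟨a, ha⟩, l, ⟨b, hb⟩⟩ ⟨⟨a', ha'⟩, l', ⟨b', hb'⟩⟩ h
  simp only [ie, Prod.mk.injEq] at h
  obtain ⟨h1, h2, h3⟩ := h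
  subst h1; subst h2; subst h3
  rfl

/-- inclusion of cells. -/
def ic (x : Q) (p : V × (ZMod K → {y : Q // y ≠ x})) : V × (ZMod K → Q) := (p.1, fun j => (p.2 j).1)

theorem ic_inj (x : Q) : Function.Injective (ic (K := K) (V := V) x) := by
  rintro ⟨v, c⟩ ⟨v', c'⟩ h
  simp only [ic, Prod.mk.injEq] at h
  obtain ⟨h1, h2⟩ := h
  subst h1
  have : c = c' := by
    funext j
    exact Subtype.ext (congrFun h2 j)
  rw [this]

theorem cedge_ic (ℓ : V → ZMod K → L) (x : Q) (p : V × (ZMod K → {y : Q // y ≠ x})) (j : ZMod K) :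
    cedge ℓ (ic x p) j = ie x (cedge ℓ p j) := rfl

theorem main : Spec.Leaf := by
  classical
  intro K _ hK V L Q _ _ ℓ k hD1 E C hG x hx
  -- the unique incident edge
  have hdeg : (E.filter (fun e => e.1 = x)).card + (E.filter (fun e => e.2.2 = x)).card = 1 := by
    rw [← hx]
    unfold deg
    congr!
  obtain ⟨e0, he0, he0x, hnl, huniq⟩ : ∃ e0 ∈ E, (e0.1 = x ∨ e0.2.2 = x) ∧
      ¬ (e0.1 = x ∧ e0.2.2 = x) ∧ ∀ e ∈ E, (e.1 = x ∨ e.2.2 = x) → e = e0 := by
    rcases Nat.eq_zero_or_pos (E.filter (fun e => e.1 = x)).card with h0 | h0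
    · have h1 : (E.filter (fun e => e.2.2 = x)).card = 1 := by omega
      rw [Finset.card_eq_zero] at h0
      obtain ⟨e0, h2⟩ := Finset.card_eq_one.mp h1
      have h3 : e0 ∈ E ∧ e0.2.2 = x := by
        have : e0 ∈ E.filter (fun e => e.2.2 = x) := by rw [h2]; exact Finset.mem_singleton_self _
        simpa using this
      have h4 : ∀ e ∈ E, e.1 ≠ x := by
        intro e he h
        have : e ∈ E.filter (fun e => e.1 = x) := by simp [he, h]
        rw [h0] at this
        simp at this
      refine ⟨e0, h3.1, Or.inr h3.2, fun h => h4 e0 h3.1 h.1, ?_⟩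
      intro e he h
      rcases h with h | h
      · exact absurd h (h4 e he)
      · have : e ∈ E.filter (fun e => e.2.2 = x) := by simp [he, h]
        rw [h2] at this
        simpa using this
    · have h1 : (E.filter (fun e => e.1 = x)).card = 1 := by omega
      have h0' : (E.filter (fun e => e.2.2 = x)).card = 0 := by omega
      rw [Finset.card_eq_zero] at h0'
      obtain ⟨e0, h2⟩ := Finset.card_eq_one.mp h1
      have h3 : e0 ∈ E ∧ e0.1 = x := by
        have : e0 ∈ E.filter (fun e => e.1 = x) := by rw [h2]; exact Finset.mem_singleton_self _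
        simpa using this
      have h4 : ∀ e ∈ E, e.2.2 ≠ x := by
        intro e he h
        have : e ∈ E.filter (fun e => e.2.2 = x) := by simp [he, h]
        rw [h0'] at this
        simp at this
      refine ⟨e0, h3.1, Or.inl h3.2, fun h => h4 e0 h3.1 h.2, ?_⟩
      intro e he h
      rcases h with h | h
      · have : e ∈ E.filter (fun e => e.1 = x) := by simp [he, h]
        rw [h2] at this
        simpa using this
      · exact absurd h (h4 e he)
  -- cells avoid x
  have hcell : ∀ p ∈ C, ∀ j, p.2 j ≠ x := by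
    intro p hp j h
    have h1 := hG.cells p hp j
    have h2 := hG.cells p hp (j - 1)
    have e1 : cedge ℓ p j = e0 := huniq _ h1 (Or.inl h)
    have e2 : cedge ℓ p (j - 1) = e0 := huniq _ h2 (Or.inr (by simp [cedge, h]))
    apply hnl
    refine ⟨?_, ?_⟩
    · rw [← e1]; exact h
    · rw [← e2]; simp [cedge, h]
  let Q' : Type := {y : Q // y ≠ x}
  let E' : Finset (Q' × L × Q') := E.preimage (ie x) ((ie_inj x).injOn)
  let C' : Finset (V × (ZMod K → Q')) := C.preimage (ic x) ((ic_inj x).injOn)
  have hE' : ∀ e, e ∈ E' ↔ ie x e ∈ E := fun e => Finset.mem_preimage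
  have hC' : ∀ p, p ∈ C' ↔ ic x p ∈ C := fun p => Finset.mem_preimage
  have hnx : ∀ e ∈ E, e ≠ e0 → e.1 ≠ x ∧ e.2.2 ≠ x := by
    intro e he hne
    exact ⟨fun h => hne (huniq e he (Or.inl h)), fun h => hne (huniq e he (Or.inr h))⟩
  have hiene : ∀ e : Q' × L × Q', ie x e ≠ e0 := by
    intro e h
    rcases he0x with h1 | h1
    · rw [← h] at h1; exact e.1.2 h1
    · rw [← h] at h1; exact e.2.2.2 h1
  have hEcard : E'.card + 1 = E.card := by
    have h1 : E'.image (ie x) = E.erase e0 := by
      ext e
      simp only [Finset.mem_image, Finset.mem_erase]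
      constructor
      · rintro ⟨e', h2, rfl⟩
        exact ⟨hiene e', (hE' e').1 h2⟩
      · rintro ⟨h2, h3⟩
        have h4 := hnx e h3 h2
        refine ⟨(⟨e.1, h4.1⟩, e.2.1, ⟨e.2.2, h4.2⟩), ?_, rfl⟩
        rw [hE']
        exact h3
    have h2 : E'.card = (E.erase e0).card := by
      rw [← h1, Finset.card_image_of_injective _ (ie_inj x)]
    rw [h2]
    exact Finset.card_erase_add_one he0
  have hCcard : C'.card = C.card := by
    have h1 : C'.image (ic x) = C := by
      ext p
      simp only [Finset.mem_image]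
      constructor
      · rintro ⟨p', h2, rfl⟩
        exact (hC' p').1 h2
      · intro h2
        refine ⟨(p.1, fun j => ⟨p.2 j, hcell p h2 j⟩), ?_, rfl⟩
        rw [hC']
        exact h2
    rw [← Finset.card_image_of_injective C' (ic_inj x), h1]
  refine ⟨Q', inferInstance, E', C', ⟨?_, ?_, ?_, ?_⟩, hCcard, hEcard⟩
  · -- folded
    refine ⟨?_, ?_⟩
    · intro a l b b' h1 h2
      exact Subtype.ext (hG.folded.1 _ _ _ _ ((hE' _).1 h1) ((hE' _).1 h2))
    · intro a a' l b h1 h2
      exact Subtype.ext (hG.folded.2 _ _ _ _ ((hE' _).1 h1) ((hE' _).1 h2))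
  · intro p hp j
    rw [hE', ← cedge_ic]
    exact hG.cells _ ((hC' p).1 hp) j
  · -- onto
    intro Ω γ hγ j' hj'
    -- extension
    obtain ⟨ω0, hω0⟩ : ∃ ω0 : Ω, ∀ j : Q → Ω, (∀ y : Q', j y.1 = j' y) → j x = ω0 →
        γ e0.2.1 (j e0.1) = j e0.2.2 := by
      rcases he0x with h1 | h1
      · have h2 : e0.2.2 ≠ x := fun h => hnl ⟨h1, h⟩
        refine ⟨(γ e0.2.1).symm (j' ⟨e0.2.2, h2⟩), ?_⟩
        intro j hj hjx
        rw [h1, hjx, Equiv.apply_symm_apply]
        exact (hj ⟨e0.2.2, h2⟩).symm
      · have h2 : e0.1 ≠ x := fun h => hnl ⟨h, h1⟩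
        refine ⟨γ e0.2.1 (j' ⟨e0.1, h2⟩), ?_⟩
        intro j hj hjx
        rw [h1, hjx]
        have := hj ⟨e0.1, h2⟩
        simp only at this
        rw [this]
    let j : Q → Ω := fun y => if h : y = x then ω0 else j' ⟨y, h⟩
    have hj1 : ∀ y : Q', j y.1 = j' y := by
      intro y
      simp only [j]
      rw [dif_neg y.2]
    have hj2 : j x = ω0 := by
      show (if h : x = x then ω0 else j' ⟨x, h⟩) = ω0
      rw [dif_pos rfl]
    obtain ⟨ω, hω, hfix⟩ := hG.onto Ω γ hγ j (by
      intro e he
      by_cases h : e = e0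
      · rw [h]; exact hω0 j hj1 hj2
      · have h1 := hnx e he h
        have h2 : γ e.2.1 (j' ⟨e.1, h1.1⟩) = j' ⟨e.2.2, h1.2⟩ :=
          hj' (⟨e.1, h1.1⟩, e.2.1, ⟨e.2.2, h1.2⟩) (by rw [hE']; exact he)
        rw [← hj1, ← hj1] at h2
        exact h2)
    refine ⟨ω, fun y => ?_, hfix⟩
    rw [← hj1]; exact hω _
  · -- dimension
    have hdim := hG.dim
    have hcardQ : Fintype.card Q' + 1 = Fintype.card Q := by
      have h1 : Fintype.card Q' = Fintype.card Q - 1 := by
        simp only [Q']
        rw [Fintype.card_subtype_compl, Fintype.card_subtype_eq]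
      have h2 : 0 < Fintype.card Q := Fintype.card_pos_iff.mpr ⟨x⟩
      omega
    have key : z1 ℓ E' C' + 1 ≤ z1 ℓ E C := by
      -- the extension map
      let ext : (Q' × L × Q' → ZMod 2) × ZMod 2 →ₗ[ZMod 2] (Q × L × Q → ZMod 2) :=
        { toFun := fun fs e => if e = e0 then fs.2 else
            if h : e.1 ≠ x ∧ e.2.2 ≠ x then fs.1 (⟨e.1, h.1⟩, e.2.1, ⟨e.2.2, h.2⟩) else 0
          map_add' := by
            intro a b
            funext e
            simp only [Pi.add_apply, Prod.fst_add, Prod.snd_add]
            split_ifs <;> simp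
          map_smul' := by
            intro c a
            funext e
            simp only [Pi.smul_apply, Prod.smul_fst, Prod.smul_snd, RingHom.id_apply]
            split_ifs <;> simp }
      have hext0 : ∀ fs, ext fs e0 = fs.2 := by
        intro fs
        show (if e0 = e0 then fs.2 else _) = _
        rw [if_pos rfl]
      have hexti : ∀ fs e, ext fs (ie x e) = fs.1 e := by
        intro fs e
        show (if ie x e = e0 then fs.2 else _) = _
        rw [if_neg (hiene e), dif_pos ⟨e.1.2, e.2.2.2⟩]
        rfl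
      have hmem : ∀ fs : Z1 ℓ E' C' × ZMod 2, ext (fs.1.1, fs.2) ∈ Z1 ℓ E C := by
        rintro ⟨⟨f, hf1, hf2⟩, s⟩
        refine ⟨?_, ?_⟩
        · intro e he
          show (if e = e0 then s else _) = _
          have hne : e ≠ e0 := by
            intro h
            rw [h] at he
            exact he he0
          rw [if_neg hne]
          split_ifs with h
          · refine hf1 _ (fun h2 => he ?_)
            rw [hE'] at h2
            exact h2
          · rfl
        · intro p hp
          let p' : V × (ZMod K → Q') := (p.1, fun j => ⟨p.2 j, hcell p hp j⟩)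
          have h1 : p' ∈ C' := by rw [hC']; exact hp
          have h2 := hf2 p' h1
          refine Eq.trans (Finset.sum_congr rfl (fun j _ => ?_)) h2
          exact hexti (f, s) (cedge ℓ p' j)
      let Φ : (Z1 ℓ E' C' × ZMod 2) →ₗ[ZMod 2] Z1 ℓ E C :=
        { toFun := fun fs => ⟨ext (fs.1.1, fs.2), hmem fs⟩
          map_add' := by
            intro a b
            apply Subtype.ext
            exact ext.map_add (a.1.1, a.2) (b.1.1, b.2)
          map_smul' := by
            intro c a
            apply Subtype.ext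
            exact ext.map_smul c (a.1.1, a.2) }
      have hinj : Function.Injective Φ := by
        intro a b hab
        have h1 : ext (a.1.1, a.2) = ext (b.1.1, b.2) := congrArg Subtype.val hab
        have h2 : a.2 = b.2 := by
          have := congrFun h1 e0
          rw [hext0, hext0] at this
          exact this
        have h3 : a.1 = b.1 := by
          apply Subtype.ext
          funext e
          have := congrFun h1 (ie x e)
          rw [hexti, hexti] at this
          exact this
        exact Prod.ext h3 h2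
      have h1 := LinearMap.finrank_le_finrank_of_injective hinj
      rw [Module.finrank_prod, Module.finrank_self] at h1
      exact h1
    omega

end Crest.Agent.FPLeaf
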