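import Crest.Agent.FPSpec

/-!
# Rid 191 (S0291), module MEAS
-/

set_option autoImplicit false

namespace Crest.Agent.FPMeas

open Finset

variable {p : ℕ} [Fact p.Prime]

theorem vma_add (a b : ZMod p) (ha : 6 * |a.valMinAbs| < p)
    (hb : 6 * |b.valMinAbs| < p) :
    (a + b).valMinAbs = a.valMinAbs + b.valMinAbs := by
  rw [ZMod.valMinAbs_spec]
  constructor
  · rw [Int.cast_add, ZMod.coe_valMinAbs, ZMod.coe_valMinAbs]
  · rw [Set.mem_Ioc]
    have h1 := abs_lt.1 (show |a.valMinAbs| < |a.valMinAbs| + 1 by omega)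
    have h2 := abs_lt.1 (show |b.valMinAbs| < |b.valMinAbs| + 1 by omega)
    constructor <;> omega

/-- the basic move -/
theorem move (ν : ZMod p × ZMod p → ℝ) (ε : ℝ) (h0 : ∀ x, 0 ≤ ν x)
    (h1 : ∀ S : Finset (ZMod p × ZMod p), ∑ x ∈ S, ν x ≤ ∑ x ∈ S, ν (x.1, x.2 + x.1) + 2 * ε)
    (ht1 : ∑ x ∈ Finset.univ.filter
      (fun x : ZMod p × ZMod p => (p : ℤ) ≤ 6 * |x.1.valMinAbs|), ν x ≤ ε ^ 2)
    (ht2 : ∑ x ∈ Finset.univ.filter
      (fun x : ZMod p × ZMod p => (p : ℤ) ≤ 6 * |x.2.valMinAbs|), ν x ≤ ε ^ 2)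
    (P Q : ℤ → ℤ → Prop) [DecidableRel P] [DecidableRel Q] (hPQ : ∀ a b, P a b → Q a (b + a)) :
    ∑ x ∈ Finset.univ.filter (fun x : ZMod p × ZMod p => P x.1.valMinAbs x.2.valMinAbs), ν x ≤
    ∑ x ∈ Finset.univ.filter (fun x : ZMod p × ZMod p => Q x.1.valMinAbs x.2.valMinAbs), ν x +
      2 * ε + 2 * ε ^ 2 := by
  set S : Finset (ZMod p × ZMod p) := Finset.univ.filter (fun x : ZMod p × ZMod p =>
    P x.1.valMinAbs x.2.valMinAbs ∧ 6 * |x.1.valMinAbs| < p ∧ 6 * |x.2.valMinAbs| < p) with hS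
  have e1 : ∑ x ∈ Finset.univ.filter
      (fun x : ZMod p × ZMod p => P x.1.valMinAbs x.2.valMinAbs), ν x ≤
      ∑ x ∈ S, ν x + ε ^ 2 + ε ^ 2 := by
    refine le_trans (b := ∑ x ∈ S ∪ Finset.univ.filter
      (fun x : ZMod p × ZMod p => (p : ℤ) ≤ 6 * |x.1.valMinAbs|) ∪ Finset.univ.filter
      (fun x : ZMod p × ZMod p => (p : ℤ) ≤ 6 * |x.2.valMinAbs|), ν x) ?_ ?_
    · apply Finset.sum_le_sum_of_subset_of_nonneg
      · intro x hx
        simp only [Finset.mem_filter, Finset.mem_univ, true_and] at hx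
        simp only [hS, Finset.mem_union, Finset.mem_filter, Finset.mem_univ, true_and]
        by_cases c1 : (p : ℤ) ≤ 6 * |x.1.valMinAbs|
        · exact Or.inl (Or.inr c1)
        · by_cases c2 : (p : ℤ) ≤ 6 * |x.2.valMinAbs|
          · exact Or.inr c2
          · exact Or.inl (Or.inl ⟨hx, not_le.1 c1, not_le.1 c2⟩)
      · intro x _ _; exact h0 x
    · have u1 := Finset.sum_union_inter (s₁ := S ∪ Finset.univ.filter
        (fun x : ZMod p × ZMod p => (p : ℤ) ≤ 6 * |x.1.valMinAbs|)) (s₂ := Finset.univ.filter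
        (fun x : ZMod p × ZMod p => (p : ℤ) ≤ 6 * |x.2.valMinAbs|)) (f := ν)
      have u2 := Finset.sum_union_inter (s₁ := S) (s₂ := Finset.univ.filter
        (fun x : ZMod p × ZMod p => (p : ℤ) ≤ 6 * |x.1.valMinAbs|)) (f := ν)
      have u3 := Finset.sum_nonneg (s := (S ∪ Finset.univ.filter
        (fun x : ZMod p × ZMod p => (p : ℤ) ≤ 6 * |x.1.valMinAbs|)) ∩ Finset.univ.filter
        (fun x : ZMod p × ZMod p => (p : ℤ) ≤ 6 * |x.2.valMinAbs|)) (f := ν) (fun x _ => h0 x)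
      have u4 := Finset.sum_nonneg (s := S ∩ Finset.univ.filter
        (fun x : ZMod p × ZMod p => (p : ℤ) ≤ 6 * |x.1.valMinAbs|)) (f := ν) (fun x _ => h0 x)
      linarith
  have e2 : ∑ x ∈ S, ν (x.1, x.2 + x.1) ≤ ∑ x ∈ Finset.univ.filter
      (fun x : ZMod p × ZMod p => Q x.1.valMinAbs x.2.valMinAbs), ν x := by
    rw [← Finset.sum_image (s := S) (g := fun x : ZMod p × ZMod p => (x.1, x.2 + x.1)) (f := ν)]
    · apply Finset.sum_le_sum_of_subset_of_nonneg
      · intro y hy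
        obtain ⟨x, hx, rfl⟩ := Finset.mem_image.1 hy
        simp only [hS, Finset.mem_filter, Finset.mem_univ, true_and] at hx ⊢
        rw [vma_add _ _ hx.2.2 hx.2.1]
        exact hPQ _ _ hx.1
      · intro x _ _; exact h0 x
    · intro x _ y _ hxy
      simp only [Prod.mk.injEq] at hxy
      obtain ⟨a1, a2⟩ := hxy
      rw [a1] at a2
      exact Prod.ext a1 (add_right_cancel a2)
  have e3 := h1 S
  linarith

theorem quarter (ν : ZMod p × ZMod p → ℝ) (ε : ℝ) (h0 : ∀ x, 0 ≤ ν x)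
    (h1 : ∀ S : Finset (ZMod p × ZMod p), ∑ x ∈ S, ν x ≤ ∑ x ∈ S, ν (x.1, x.2 + x.1) + 2 * ε)
    (ht1 : ∑ x ∈ Finset.univ.filter
      (fun x : ZMod p × ZMod p => (p : ℤ) ≤ 6 * |x.1.valMinAbs|), ν x ≤ ε ^ 2)
    (ht2 : ∑ x ∈ Finset.univ.filter
      (fun x : ZMod p × ZMod p => (p : ℤ) ≤ 6 * |x.2.valMinAbs|), ν x ≤ ε ^ 2) :
    ∑ x ∈ Finset.univ.filter (fun x : ZMod p × ZMod p =>
      0 ≤ x.1.valMinAbs * x.2.valMinAbs ∧ |x.2.valMinAbs| < |x.1.valMinAbs|), ν x ≤
      2 * ε + 2 * ε ^ 2 := by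
  have h := move ν ε h0 h1 ht1 ht2 (fun a b => a ≠ 0 ∧ 0 ≤ a * b)
    (fun a b => (a ≠ 0 ∧ 0 ≤ a * b) ∧ |a| ≤ |b|) (by
      rintro a b ⟨ha, hab⟩
      refine ⟨⟨ha, by nlinarith [mul_self_nonneg a]⟩, ?_⟩
      rw [← sq_le_sq]
      nlinarith [mul_self_nonneg a, mul_self_nonneg b])
  have hsplit : ∑ x ∈ Finset.univ.filter (fun x : ZMod p × ZMod p =>
      x.1.valMinAbs ≠ 0 ∧ 0 ≤ x.1.valMinAbs * x.2.valMinAbs), ν x =
      ∑ x ∈ Finset.univ.filter (fun x : ZMod p × ZMod p =>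
        (x.1.valMinAbs ≠ 0 ∧ 0 ≤ x.1.valMinAbs * x.2.valMinAbs) ∧
          |x.1.valMinAbs| ≤ |x.2.valMinAbs|), ν x +
      ∑ x ∈ Finset.univ.filter (fun x : ZMod p × ZMod p =>
        0 ≤ x.1.valMinAbs * x.2.valMinAbs ∧ |x.2.valMinAbs| < |x.1.valMinAbs|), ν x := by
    rw [← Finset.sum_filter_add_sum_filter_not (Finset.univ.filter (fun x : ZMod p × ZMod p =>
      x.1.valMinAbs ≠ 0 ∧ 0 ≤ x.1.valMinAbs * x.2.valMinAbs))
      (fun x => |x.1.valMinAbs| ≤ |x.2.valMinAbs|)]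
    rw [Finset.filter_filter, Finset.filter_filter]
    congr 1
    apply Finset.sum_congr _ (fun _ _ => rfl)
    apply Finset.filter_congr
    intro x _
    constructor
    · rintro ⟨⟨_, b⟩, c⟩
      exact ⟨b, not_le.1 c⟩
    · rintro ⟨b, c⟩
      refine ⟨⟨?_, b⟩, not_le.2 c⟩
      intro h
      rw [h, abs_zero] at c
      exact absurd c (not_lt.2 (abs_nonneg _))
  rw [hsplit] at h
  linarith

omit [Fact p.Prime] in
/-- reindexing by the swap -/
theorem sum_swap (ν : ZMod p × ZMod p → ℝ) (S : Finset (ZMod p × ZMod p)) :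
    ∑ x ∈ S, ν x.swap = ∑ x ∈ S.image Prod.swap, ν x := by
  rw [Finset.sum_image (fun x _ y _ h => Prod.swap_injective h)]

theorem half (ν : ZMod p × ZMod p → ℝ) (ε : ℝ) (h0 : ∀ x, 0 ≤ ν x)
    (h1 : ∀ S : Finset (ZMod p × ZMod p), ∑ x ∈ S, ν x ≤ ∑ x ∈ S, ν (x.1, x.2 + x.1) + 2 * ε)
    (h2 : ∀ S : Finset (ZMod p × ZMod p), ∑ x ∈ S, ν x ≤ ∑ x ∈ S, ν (x.1 + x.2, x.2) + 2 * ε)
    (ht1 : ∑ x ∈ Finset.univ.filter
      (fun x : ZMod p × ZMod p => (p : ℤ) ≤ 6 * |x.1.valMinAbs|), ν x ≤ ε ^ 2)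
    (ht2 : ∑ x ∈ Finset.univ.filter
      (fun x : ZMod p × ZMod p => (p : ℤ) ≤ 6 * |x.2.valMinAbs|), ν x ≤ ε ^ 2) :
    ∑ x ∈ Finset.univ.filter (fun x : ZMod p × ZMod p =>
      x ≠ 0 ∧ 0 ≤ x.1.valMinAbs * x.2.valMinAbs), ν x ≤ 8 * ε + 8 * ε ^ 2 := by
  have q1 := quarter ν ε h0 h1 ht1 ht2
  have q2 := quarter (fun x => ν x.swap) ε (fun x => h0 _) (by
    intro S
    have := h2 (S.image Prod.swap)
    rw [Finset.sum_image (fun x _ y _ h => Prod.swap_injective h),
      Finset.sum_image (fun x _ y _ h => Prod.swap_injective h)] at this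
    simpa using this) (by
    rw [sum_swap]
    refine le_trans (le_of_eq ?_) ht2
    apply Finset.sum_congr _ (fun _ _ => rfl)
    ext x
    simp only [Finset.mem_image, Finset.mem_filter, Finset.mem_univ, true_and]
    constructor
    · rintro ⟨y, hy, rfl⟩; simpa using hy
    · intro h; exact ⟨x.swap, by simpa using h, by simp⟩) (by
    rw [sum_swap]
    refine le_trans (le_of_eq ?_) ht1
    apply Finset.sum_congr _ (fun _ _ => rfl)
    ext x
    simp only [Finset.mem_image, Finset.mem_filter, Finset.mem_univ, true_and]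
    constructor
    · rintro ⟨y, hy, rfl⟩; simpa using hy
    · intro h; exact ⟨x.swap, by simpa using h, by simp⟩)
  have q2' : ∑ x ∈ Finset.univ.filter (fun x : ZMod p × ZMod p =>
      0 ≤ x.1.valMinAbs * x.2.valMinAbs ∧ |x.1.valMinAbs| < |x.2.valMinAbs|), ν x ≤
      2 * ε + 2 * ε ^ 2 := by
    rw [sum_swap] at q2
    refine le_trans (le_of_eq ?_) q2
    apply Finset.sum_congr _ (fun _ _ => rfl)
    ext x
    simp only [Finset.mem_image, Finset.mem_filter, Finset.mem_univ, true_and]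
    constructor
    · rintro ⟨a, b⟩
      exact ⟨x.swap, ⟨by simpa [mul_comm] using a, by simpa using b⟩, by simp⟩
    · rintro ⟨y, ⟨a, b⟩, rfl⟩
      exact ⟨by simpa [mul_comm] using a, by simpa using b⟩
  have q3 := move ν ε h0 h1 ht1 ht2 (fun a b => a ≠ 0 ∧ a = b)
    (fun a b => 0 ≤ a * b ∧ |a| < |b|) (by
      rintro a b ⟨ha, rfl⟩
      have hp : 0 < a ^ 2 := by positivity
      refine ⟨by nlinarith, ?_⟩
      rw [← sq_lt_sq]
      nlinarith)
  refine le_trans (b := ∑ x ∈ Finset.univ.filter (fun x : ZMod p × ZMod p =>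
      0 ≤ x.1.valMinAbs * x.2.valMinAbs ∧ |x.2.valMinAbs| < |x.1.valMinAbs|) ∪
      (Finset.univ.filter (fun x : ZMod p × ZMod p =>
      0 ≤ x.1.valMinAbs * x.2.valMinAbs ∧ |x.1.valMinAbs| < |x.2.valMinAbs|) ∪
      Finset.univ.filter (fun x : ZMod p × ZMod p =>
      x.1.valMinAbs ≠ 0 ∧ x.1.valMinAbs = x.2.valMinAbs)), ν x) ?_ ?_
  · apply Finset.sum_le_sum_of_subset_of_nonneg
    · intro x hx
      simp only [Finset.mem_union, Finset.mem_filter, Finset.mem_univ, true_and] at hx ⊢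
      rcases lt_trichotomy |x.2.valMinAbs| |x.1.valMinAbs| with h | h | h
      · exact Or.inl ⟨hx.2, h⟩
      · refine Or.inr (Or.inr ?_)
        have hx0 : x.1.valMinAbs ≠ 0 := by
          intro h3
          rw [h3, abs_zero, abs_eq_zero] at h
          apply hx.1
          ext
          · exact (ZMod.valMinAbs_eq_zero _).1 h3
          · exact (ZMod.valMinAbs_eq_zero _).1 h
        refine ⟨hx0, ?_⟩
        rcases abs_eq_abs.1 h with h3 | h3
        · exact h3.symm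
        · exfalso
          have h4 := hx.2
          rw [h3] at h4
          have : 0 < x.1.valMinAbs * x.1.valMinAbs := mul_self_pos.2 hx0
          nlinarith
      · exact Or.inr (Or.inl ⟨hx.2, h⟩)
    · intro x _ _; exact h0 x
  · have su : ∀ A B : Finset (ZMod p × ZMod p),
        ∑ x ∈ A ∪ B, ν x ≤ ∑ x ∈ A, ν x + ∑ x ∈ B, ν x := by
      intro A B
      have u1 := Finset.sum_union_inter (s₁ := A) (s₂ := B) (f := ν)
      have u3 := Finset.sum_nonneg (s := A ∩ B) (f := ν) (fun x _ => h0 x)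
      linarith
    refine (su _ _).trans ?_
    have := su (Finset.univ.filter (fun x : ZMod p × ZMod p =>
      0 ≤ x.1.valMinAbs * x.2.valMinAbs ∧ |x.1.valMinAbs| < |x.2.valMinAbs|))
      (Finset.univ.filter (fun x : ZMod p × ZMod p =>
      x.1.valMinAbs ≠ 0 ∧ x.1.valMinAbs = x.2.valMinAbs))
    linarith

theorem main : Crest.Agent.FP.Spec.Meas := by
  intro p _ hp ν ε hε0 hε1 h0 h1 h2 ht1 ht2
  have p1 := half ν ε h0 (fun S => by have := (abs_le.1 (h1 S)).1; linarith)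
    (fun S => by have := (abs_le.1 (h2 S)).1; linarith) ht1 ht2
  have ng : ∀ a : ZMod p, (-a).valMinAbs = -a.valMinAbs := by
    intro a
    apply ZMod.valMinAbs_neg_of_ne_half
    intro h
    have hpp := Fact.out (p := p.Prime)
    have := hpp.eq_one_or_self_of_dvd 2 ⟨_, h.symm⟩
    omega
  have inj : Function.Injective (fun x : ZMod p × ZMod p => (-x.1, x.2)) := by
    intro x y h
    simp only [Prod.mk.injEq, neg_inj] at h
    exact Prod.ext h.1 h.2
  have p2 := half (fun x => ν (-x.1, x.2)) ε (fun x => h0 _) (by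
    intro S
    have i1 : Function.Injective (fun x : ZMod p × ZMod p => (-x.1, x.2 + x.1)) := by
      intro x y h
      simp only [Prod.mk.injEq, neg_inj] at h
      obtain ⟨a, b⟩ := h
      rw [a] at b
      exact Prod.ext a (add_right_cancel b)
    have := (abs_le.1 (h1 (S.image (fun x : ZMod p × ZMod p => (-x.1, x.2 + x.1))))).2
    rw [Finset.sum_image (fun x _ y _ h => i1 h), Finset.sum_image (fun x _ y _ h => i1 h)] at this
    simp only [add_neg_cancel_right] at this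
    simp only
    linarith) (by
    intro S
    have i1 : Function.Injective (fun x : ZMod p × ZMod p => (-(x.1 + x.2), x.2)) := by
      intro x y h
      simp only [Prod.mk.injEq, neg_inj] at h
      obtain ⟨a, b⟩ := h
      rw [b] at a
      exact Prod.ext (add_right_cancel a) b
    have := (abs_le.1 (h2 (S.image (fun x : ZMod p × ZMod p => (-(x.1 + x.2), x.2))))).2
    rw [Finset.sum_image (fun x _ y _ h => i1 h), Finset.sum_image (fun x _ y _ h => i1 h)] at this
    have e : ∀ x : ZMod p × ZMod p, -(x.1 + x.2) + x.2 = -x.1 := by intro x; ring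
    simp only [e] at this
    simp only
    linarith) (by
    rw [← Finset.sum_image (g := fun x : ZMod p × ZMod p => (-x.1, x.2)) (f := ν)
      (fun x _ y _ h => inj h)]
    refine le_trans (le_of_eq ?_) ht1
    apply Finset.sum_congr _ (fun _ _ => rfl)
    ext x
    simp only [Finset.mem_image, Finset.mem_filter, Finset.mem_univ, true_and]
    constructor
    · rintro ⟨y, hy, rfl⟩
      simp only [ng, abs_neg]; exact hy
    · intro h; exact ⟨(-x.1, x.2), by simp only [ng, abs_neg]; exact h, by simp⟩) (by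
    rw [← Finset.sum_image (g := fun x : ZMod p × ZMod p => (-x.1, x.2)) (f := ν)
      (fun x _ y _ h => inj h)]
    refine le_trans (le_of_eq ?_) ht2
    apply Finset.sum_congr _ (fun _ _ => rfl)
    ext x
    simp only [Finset.mem_image, Finset.mem_filter, Finset.mem_univ, true_and]
    constructor
    · rintro ⟨y, hy, rfl⟩
      exact hy
    · intro h; exact ⟨(-x.1, x.2), h, by simp⟩)
  rw [← Finset.sum_image (g := fun x : ZMod p × ZMod p => (-x.1, x.2)) (f := ν)
      (fun x _ y _ h => inj h)] at p2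
  refine le_trans (b := ∑ x ∈ Finset.univ.filter (fun x : ZMod p × ZMod p =>
      x ≠ 0 ∧ 0 ≤ x.1.valMinAbs * x.2.valMinAbs) ∪ (Finset.univ.filter
      (fun x : ZMod p × ZMod p => x ≠ 0 ∧ 0 ≤ x.1.valMinAbs * x.2.valMinAbs)).image
      (fun x : ZMod p × ZMod p => (-x.1, x.2)), ν x) ?_ ?_
  · apply Finset.sum_le_sum_of_subset_of_nonneg
    · intro x hx
      simp only [Finset.mem_union, Finset.mem_filter, Finset.mem_univ, true_and,
        Finset.mem_image] at hx ⊢
      by_cases c : 0 ≤ x.1.valMinAbs * x.2.valMinAbs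
      · exact Or.inl ⟨hx, c⟩
      · refine Or.inr ⟨(-x.1, x.2), ⟨?_, ?_⟩, by simp⟩
        · intro h
          apply hx
          simp only [Prod.mk_eq_zero, neg_eq_zero] at h
          exact Prod.ext h.1 h.2
        · simp only [ng]
          nlinarith
    · intro x _ _; exact h0 x
  · have u1 := Finset.sum_union_inter (s₁ := Finset.univ.filter (fun x : ZMod p × ZMod p =>
      x ≠ 0 ∧ 0 ≤ x.1.valMinAbs * x.2.valMinAbs)) (s₂ := (Finset.univ.filter
      (fun x : ZMod p × ZMod p => x ≠ 0 ∧ 0 ≤ x.1.valMinAbs * x.2.valMinAbs)).image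
      (fun x : ZMod p × ZMod p => (-x.1, x.2))) (f := ν)
    have u3 := Finset.sum_nonneg (s := (Finset.univ.filter (fun x : ZMod p × ZMod p =>
      x ≠ 0 ∧ 0 ≤ x.1.valMinAbs * x.2.valMinAbs)) ∩ (Finset.univ.filter
      (fun x : ZMod p × ZMod p => x ≠ 0 ∧ 0 ≤ x.1.valMinAbs * x.2.valMinAbs)).image
      (fun x : ZMod p × ZMod p => (-x.1, x.2))) (f := ν) (fun x _ => h0 x)
    have : ε ^ 2 ≤ ε := by nlinarith
    linarith

end Crest.Agent.FPMeas
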