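import Crest.Agent.FPSpec

/-!
# Rid 191 (S0291): module MIX
-/

set_option autoImplicit false
set_option linter.unusedSectionVars false

namespace Crest.Agent.FPMix

open Crest.Agent.FP
open scoped BigOperators

/-! ## generalities: averaging over a finite group acting on a finite set -/

section general

variable {G X : Type} [Group G] [Fintype G] [Fintype X] (ρ : G →* Equiv.Perm X)

/-- the average over the group -/
noncomputable def ginv (f : X → ℝ) (x : X) : ℝ := (Fintype.card G : ℝ)⁻¹ * ∑ g : G, f (ρ g x)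

theorem card_pos' : (0 : ℝ) < Fintype.card G := by
  exact_mod_cast Fintype.card_pos

theorem ginv_act (f : X → ℝ) (h : G) (x : X) : ginv ρ f (ρ h x) = ginv ρ f x := by
  unfold ginv
  congr 1
  rw [← Equiv.sum_comp (Equiv.mulRight h) (fun g => f (ρ g x))]
  apply Finset.sum_congr rfl
  intro g _
  simp [map_mul]

theorem ginv_of_inv (f : X → ℝ) (hf : ∀ h x, f (ρ h x) = f x) (x : X) : ginv ρ f x = f x := by
  unfold ginv
  simp only [hf, Finset.sum_const, Finset.card_univ, nsmul_eq_mul]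
  rw [← mul_assoc, inv_mul_cancel₀ (card_pos' (G := G)).ne', one_mul]

theorem ginv_sum (f : X → ℝ) : ∑ x, ginv ρ f x = ∑ x, f x := by
  unfold ginv
  rw [← Finset.mul_sum, Finset.sum_comm]
  have : ∀ g : G, ∑ x, f (ρ g x) = ∑ x, f x := fun g => Equiv.sum_comp (ρ g) f
  simp only [this, Finset.sum_const, Finset.card_univ, nsmul_eq_mul]
  rw [← mul_assoc, inv_mul_cancel₀ (card_pos' (G := G)).ne', one_mul]

theorem ginv_inner (f k : X → ℝ) : ∑ x, ginv ρ f x * k x = ∑ x, f x * ginv ρ k x := by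
  unfold ginv
  have h1 : ∀ x, (Fintype.card G : ℝ)⁻¹ * (∑ g : G, f (ρ g x)) * k x =
      (Fintype.card G : ℝ)⁻¹ * ∑ g : G, f (ρ g x) * k x := by
    intro x; rw [mul_assoc, Finset.sum_mul]
  have h2 : ∀ x, f x * ((Fintype.card G : ℝ)⁻¹ * ∑ g : G, k (ρ g x)) =
      (Fintype.card G : ℝ)⁻¹ * ∑ g : G, f x * k (ρ g x) := by
    intro x; rw [Finset.mul_sum, Finset.mul_sum, Finset.mul_sum]
    apply Finset.sum_congr rfl; intro g _; ring
  simp only [h1, h2]
  rw [← Finset.mul_sum, ← Finset.mul_sum, Finset.sum_comm]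
  congr 1
  rw [Finset.sum_comm (s := Finset.univ (α := X))]
  rw [← Equiv.sum_comp (Equiv.inv G) (fun g => ∑ x, f x * k (ρ g x))]
  apply Finset.sum_congr rfl
  intro g _
  rw [← Equiv.sum_comp (ρ g) (fun x => f x * k (ρ ((Equiv.inv G) g) x))]
  apply Finset.sum_congr rfl
  intro x _
  simp [map_inv]

theorem ginv_sq (f : X → ℝ) : ∑ x, (f x - ginv ρ f x) ^ 2 ≤ ∑ x, f x ^ 2 := by
  have h1 : ∑ x, ginv ρ f x * ginv ρ f x = ∑ x, f x * ginv ρ f x := by
    rw [ginv_inner]
    apply Finset.sum_congr rfl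
    intro x _
    rw [ginv_of_inv ρ (ginv ρ f) (fun h x => ginv_act ρ f h x)]
  have h2 : ∑ x, (f x - ginv ρ f x) ^ 2 =
      ∑ x, f x ^ 2 - 2 * ∑ x, f x * ginv ρ f x + ∑ x, ginv ρ f x * ginv ρ f x := by
    rw [Finset.mul_sum, ← Finset.sum_sub_distrib, ← Finset.sum_add_distrib]
    apply Finset.sum_congr rfl
    intro x _
    ring
  have h3 : 0 ≤ ∑ x, ginv ρ f x * ginv ρ f x :=
    Finset.sum_nonneg (fun x _ => mul_self_nonneg _)
  rw [h2, ← h1]
  linarith

end general

/-! ## the averaging operator of the seven elements -/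

section seven

variable (p : ℕ) [Fact p.Prime] {X : Type} [Fintype X]
  (ρ : Matrix.SpecialLinearGroup (Fin 3) (ZMod p) →* Equiv.Perm X)

noncomputable def N7 (f : X → ℝ) (x : X) : ℝ :=
  (1 / 7 : ℝ) * ∑ i : Fin 7, f (ρ (el7 (ZMod p) i) x)

theorem N7_word (m : ℕ) : ∀ (f : X → ℝ) (x : X),
    ∑ w : Fin m → Fin 7, f (ρ (word7 (ZMod p) w) x) = (7 : ℝ) ^ m * ((N7 p ρ)^[m] f) x := by
  induction m with
  | zero =>
      intro f x
      simp [word7]
  | succ m ih =>
      intro f x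
      rw [← Equiv.sum_comp (Fin.consEquiv (fun _ : Fin (m + 1) => Fin 7))]
      rw [Fintype.sum_prod_type, Finset.sum_comm]
      have h1 : ∀ w : Fin m → Fin 7, ∑ i : Fin 7,
          f (ρ (word7 (ZMod p) ((Fin.consEquiv (fun _ : Fin (m + 1) => Fin 7)) (i, w))) x) =
          7 * N7 p ρ f (ρ (word7 (ZMod p) w) x) := by
        intro w
        unfold N7
        rw [← mul_assoc, mul_one_div_cancel (by norm_num), one_mul]
        apply Finset.sum_congr rfl
        intro i _
        have h2 : word7 (ZMod p) ((Fin.consEquiv (fun _ : Fin (m + 1) => Fin 7)) (i, w)) =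
            el7 (ZMod p) i * word7 (ZMod p) w := by
          simp [word7, Fin.consEquiv, List.ofFn_succ]
        rw [h2, map_mul, Equiv.Perm.mul_apply]
      simp only [h1]
      rw [← Finset.mul_sum, ih (N7 p ρ f) x, Function.iterate_succ_apply, pow_succ]
      ring

theorem N7_add_inv (m : ℕ) (f : X → ℝ) (hf : ∀ h x, f (ρ h x) = f x) : ∀ (k : X → ℝ) (x : X),
    ((N7 p ρ)^[m] (fun x => f x + k x)) x = f x + ((N7 p ρ)^[m] k) x := by
  induction m with
  | zero => intro k x; rfl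
  | succ m ih =>
      intro k x
      rw [Function.iterate_succ_apply, Function.iterate_succ_apply]
      have h1 : N7 p ρ (fun x => f x + k x) = fun x => f x + N7 p ρ k x := by
        funext x
        unfold N7
        simp only [hf, Finset.sum_add_distrib, Finset.sum_const, Finset.card_univ,
          Fintype.card_fin, nsmul_eq_mul]
        push_cast
        ring
      rw [h1, ih]

theorem N7_orbit (k : X → ℝ)
    (hk : ∀ x, ∑ g : Matrix.SpecialLinearGroup (Fin 3) (ZMod p), k (ρ g x) = 0) (x : X) :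
    ∑ g : Matrix.SpecialLinearGroup (Fin 3) (ZMod p), N7 p ρ k (ρ g x) = 0 := by
  unfold N7
  rw [← Finset.mul_sum, Finset.sum_comm]
  have : ∀ i : Fin 7, ∑ g : Matrix.SpecialLinearGroup (Fin 3) (ZMod p),
      k (ρ (el7 (ZMod p) i) (ρ g x)) = 0 := by
    intro i
    rw [← hk x, ← Equiv.sum_comp (Equiv.mulLeft (el7 (ZMod p) i)) (fun g => k (ρ g x))]
    apply Finset.sum_congr rfl
    intro g _
    simp [map_mul]
  simp [this]

theorem N7_norm (θ : ℝ) (hgap : ∀ f : X → ℝ,
      (∀ x, ∑ g : Matrix.SpecialLinearGroup (Fin 3) (ZMod p), f (ρ g x) = 0) →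
      ∑ x, ((1 / 7 : ℝ) * ∑ i : Fin 7, f (ρ (el7 (ZMod p) i) x)) ^ 2 ≤ θ ^ 2 * ∑ x, f x ^ 2)
    (m : ℕ) : ∀ k : X → ℝ,
    (∀ x, ∑ g : Matrix.SpecialLinearGroup (Fin 3) (ZMod p), k (ρ g x) = 0) →
    ∑ x, ((N7 p ρ)^[m] k) x ^ 2 ≤ (θ ^ 2) ^ m * ∑ x, k x ^ 2 := by
  induction m with
  | zero => intro k _; simp
  | succ m ih =>
      intro k hk
      rw [Function.iterate_succ_apply]
      refine (ih (N7 p ρ k) (N7_orbit p ρ k hk)).trans ?_
      calc (θ ^ 2) ^ m * ∑ x, N7 p ρ k x ^ 2 ≤ (θ ^ 2) ^ m * (θ ^ 2 * ∑ x, k x ^ 2) :=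
            mul_le_mul_of_nonneg_left (hgap k hk) (by positivity)
        _ = (θ ^ 2) ^ (m + 1) * ∑ x, k x ^ 2 := by ring

end seven

/-! ## the action on pairs of nonzero vectors -/

section pairs

variable (p : ℕ) [Fact p.Prime]

/-- the diagonal action -/
noncomputable def rho2 :
    Matrix.SpecialLinearGroup (Fin 3) (ZMod p) →* Equiv.Perm (PV p × PV p) where
  toFun g := (slPerm p g).prodCongr (slPerm p g)
  map_one' := by ext x : 1; simp
  map_mul' g h := by
    apply Equiv.ext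
    rintro ⟨x, y⟩
    simp only [map_mul]
    rfl

theorem rho2_apply (g : Matrix.SpecialLinearGroup (Fin 3) (ZMod p)) (x y : PV p) :
    rho2 p g (x, y) = (slPerm p g x, slPerm p g y) := rfl

/-- the coordinates of a vector -/
def cv {p : ℕ} (x : PV p) : Fin 3 → ZMod p := x.1

theorem cv_ext {p : ℕ} {x y : PV p} (h : cv x = cv y) : x = y := Subtype.ext h

theorem cv_ne {p : ℕ} (x : PV p) : cv x ≠ 0 := x.2

theorem cv_sl (g : Matrix.SpecialLinearGroup (Fin 3) (ZMod p)) (x : PV p) :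
    cv (slPerm p g x) = (g : Matrix (Fin 3) (Fin 3) (ZMod p)).mulVec (cv x) := slPerm_val p g x

/-- dependent pairs -/
def Dep (x y : PV p) : Prop := ∀ i j, cv x i * cv y j = cv x j * cv y i

theorem dep_symm {x y : PV p} (h : Dep p x y) : Dep p y x := by
  intro i j
  rw [mul_comm, ← h i j, mul_comm]

/-- the basis vectors -/
def bas (k : Fin 3) : PV p := ⟨Pi.single k 1, by
  intro h
  have := congrFun h k
  simp at this⟩

theorem cv_bas (k : Fin 3) : cv (bas p k) = Pi.single k 1 := rfl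

theorem exists_sl (x y : PV p) (h : ¬ Dep p x y) :
    ∃ g : Matrix.SpecialLinearGroup (Fin 3) (ZMod p),
      slPerm p g (bas p 0) = x ∧ slPerm p g (bas p 1) = y := by
  have key : ∀ z : Fin 3 → ZMod p,
      z 2 * (cv x 0 * cv y 1 - cv x 1 * cv y 0) + z 1 * (cv x 2 * cv y 0 - cv x 0 * cv y 2) +
        z 0 * (cv x 1 * cv y 2 - cv x 2 * cv y 1) = 1 →
      ∃ g : Matrix.SpecialLinearGroup (Fin 3) (ZMod p),
        slPerm p g (bas p 0) = x ∧ slPerm p g (bas p 1) = y := by
    intro z hz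
    obtain ⟨M, hM⟩ : ∃ M : Matrix (Fin 3) (Fin 3) (ZMod p),
        M = Matrix.of (fun i j => ![cv x i, cv y i, z i] j) := ⟨_, rfl⟩
    have hdet : M.det = 1 := by
      rw [hM, Matrix.det_fin_three]
      simp only [Matrix.of_apply, Matrix.cons_val_zero, Matrix.cons_val_one, Matrix.cons_val]
      rw [← hz]; ring
    refine ⟨⟨M, hdet⟩, ?_, ?_⟩
    · apply cv_ext
      have h1 := cv_sl p ⟨M, hdet⟩ (bas p 0)
      refine h1.trans ?_
      rw [cv_bas]
      funext i
      simp [hM]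
    · apply cv_ext
      have h1 := cv_sl p ⟨M, hdet⟩ (bas p 1)
      refine h1.trans ?_
      rw [cv_bas]
      funext i
      simp [hM]
  by_cases h1 : cv x 0 * cv y 1 - cv x 1 * cv y 0 = 0
  · by_cases h2 : cv x 2 * cv y 0 - cv x 0 * cv y 2 = 0
    · by_cases h3 : cv x 1 * cv y 2 - cv x 2 * cv y 1 = 0
      · exfalso
        apply h
        have e1 := sub_eq_zero.mp h1
        have e2 := sub_eq_zero.mp h2
        have e3 := sub_eq_zero.mp h3
        intro i j
        fin_cases i <;> fin_cases j <;> simp [e1, e2, e3]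
      · apply key ![(cv x 1 * cv y 2 - cv x 2 * cv y 1)⁻¹, 0, 0]
        simp [inv_mul_cancel₀ h3]
    · apply key ![0, (cv x 2 * cv y 0 - cv x 0 * cv y 2)⁻¹, 0]
      simp [inv_mul_cancel₀ h2]
  · apply key ![0, 0, (cv x 0 * cv y 1 - cv x 1 * cv y 0)⁻¹]
    simp [inv_mul_cancel₀ h1]

theorem exists_coord (x : PV p) : ∃ k, cv x k ≠ 0 := by
  by_contra hc
  push Not at hc
  exact cv_ne x (funext hc)

theorem exists_nondep (x : PV p) : ∃ y : PV p, ¬ Dep p x y := by
  obtain ⟨k, hk⟩ := exists_coord p x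
  obtain ⟨j, hj⟩ : ∃ j : Fin 3, j ≠ k := exists_ne k
  refine ⟨bas p j, ?_⟩
  intro h
  have := h k j
  rw [cv_bas] at this
  simp [hj.symm] at this
  exact hk this

theorem exists_sl1 (x : PV p) :
    ∃ g : Matrix.SpecialLinearGroup (Fin 3) (ZMod p), slPerm p g (bas p 0) = x := by
  obtain ⟨y, hy⟩ := exists_nondep p x
  obtain ⟨g, hg, _⟩ := exists_sl p x y hy
  exact ⟨g, hg⟩

open Classical in
theorem card_dep (x : PV p) : (Finset.univ.filter (fun y : PV p => Dep p x y)).card ≤ p - 1 := by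
  obtain ⟨k, hk⟩ := exists_coord p x
  have h1 : (Finset.univ.filter (fun y : PV p => Dep p x y)).card ≤
      ((Finset.univ : Finset (ZMod p)).erase 0).card := by
    apply Finset.card_le_card_of_injOn (fun y => cv y k)
    · intro y hy
      simp only [Finset.coe_filter, Finset.mem_univ, true_and, Set.mem_ofPred_eq] at hy
      simp only [Finset.coe_erase, Finset.coe_univ, Set.mem_sdiff, Set.mem_univ, true_and,
        Set.mem_singleton_iff]
      intro h0
      apply cv_ne y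
      funext j
      have := hy k j
      rw [h0, mul_zero] at this
      simpa [hk] using this
    · intro y hy y' hy' hyy
      simp only [Finset.coe_filter, Finset.mem_univ, true_and, Set.mem_ofPred_eq] at hy hy'
      apply cv_ext
      funext j
      have e1 := hy k j
      have e2 := hy' k j
      simp only at hyy
      rw [hyy, ← e2] at e1
      exact mul_left_cancel₀ hk e1
  rw [Finset.card_erase_of_mem (Finset.mem_univ _), Finset.card_univ, ZMod.card] at h1
  exact h1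

theorem card_PV : Fintype.card (PV p) = p ^ 3 - 1 := by
  classical
  have h1 : Fintype.card (PV p) = Fintype.card {x : Fin 3 → ZMod p // ¬ x = 0} :=
    Fintype.card_congr (Equiv.refl _)
  rw [h1, Fintype.card_subtype_compl, Fintype.card_pi]
  simp [ZMod.card]

/-- for an invariant function with zero row sums -/
theorem row_bound (α β : ℝ) (hα : 0 ≤ α) (F : PV p → PV p → ℝ) (hF : ∀ x y, |F x y| ≤ α)
    (hrow : ∀ x, ∑ y, F x y = 0) (hβ : ∀ x y, ¬ Dep p x y → F x y = β) :
    (∀ x, ∑ y, |F x y| ≤ 2 * ((p : ℝ) - 1) * α) ∧ (∀ y, ∑ x, |F x y| ≤ 2 * ((p : ℝ) - 1) * α) := by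
  classical
  have hp1 : 1 ≤ p := (Fact.out : p.Prime).one_lt.le
  have hpc : ((p - 1 : ℕ) : ℝ) = (p : ℝ) - 1 := by push_cast [Nat.cast_sub hp1]; ring
  have hdep : ∀ x, ∑ y ∈ Finset.univ.filter (fun y : PV p => Dep p x y), |F x y| ≤
      ((p : ℝ) - 1) * α := by
    intro x
    refine (Finset.sum_le_card_nsmul _ _ α (fun y _ => hF x y)).trans ?_
    rw [nsmul_eq_mul, ← hpc]
    exact mul_le_mul_of_nonneg_right (by exact_mod_cast card_dep p x) hα
  have hnd : ∀ x, ((Finset.univ.filter (fun y : PV p => ¬ Dep p x y)).card : ℝ) * |β| ≤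
      ((p : ℝ) - 1) * α := by
    intro x
    have h1 := hrow x
    rw [← Finset.sum_filter_add_sum_filter_not Finset.univ (fun y : PV p => Dep p x y)] at h1
    have h2 : ∑ y ∈ Finset.univ.filter (fun y : PV p => ¬ Dep p x y), F x y =
        ((Finset.univ.filter (fun y : PV p => ¬ Dep p x y)).card : ℝ) * β := by
      rw [Finset.sum_congr rfl (fun y hy => hβ x y (Finset.mem_filter.mp hy).2),
        Finset.sum_const, nsmul_eq_mul]
    rw [h2] at h1
    have h3 : ((Finset.univ.filter (fun y : PV p => ¬ Dep p x y)).card : ℝ) * |β| =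
        |∑ y ∈ Finset.univ.filter (fun y : PV p => Dep p x y), F x y| := by
      have h4 : ((Finset.univ.filter (fun y : PV p => ¬ Dep p x y)).card : ℝ) * β =
          - ∑ y ∈ Finset.univ.filter (fun y : PV p => Dep p x y), F x y := by linarith
      rw [← abs_neg (∑ y ∈ Finset.univ.filter (fun y : PV p => Dep p x y), F x y), ← h4,
        abs_mul, Nat.abs_cast]
    rw [h3]
    exact (Finset.abs_sum_le_sum_abs _ _).trans (hdep x)
  constructor
  · intro x
    rw [← Finset.sum_filter_add_sum_filter_not Finset.univ (fun y : PV p => Dep p x y)]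
    have h2 : ∑ y ∈ Finset.univ.filter (fun y : PV p => ¬ Dep p x y), |F x y| =
        ((Finset.univ.filter (fun y : PV p => ¬ Dep p x y)).card : ℝ) * |β| := by
      rw [Finset.sum_congr rfl (fun y hy => by rw [hβ x y (Finset.mem_filter.mp hy).2]),
        Finset.sum_const, nsmul_eq_mul]
    rw [h2]
    have := hdep x
    have := hnd x
    linarith
  · intro y
    rw [← Finset.sum_filter_add_sum_filter_not Finset.univ (fun x : PV p => Dep p y x)]
    have h1 : ∑ x ∈ Finset.univ.filter (fun x : PV p => Dep p y x), |F x y| ≤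
        ((p : ℝ) - 1) * α := by
      refine (Finset.sum_le_card_nsmul _ _ α (fun x _ => hF x y)).trans ?_
      rw [nsmul_eq_mul, ← hpc]
      exact mul_le_mul_of_nonneg_right (by exact_mod_cast card_dep p y) hα
    have h2 : ∑ x ∈ Finset.univ.filter (fun x : PV p => ¬ Dep p y x), |F x y| =
        ((Finset.univ.filter (fun x : PV p => ¬ Dep p y x)).card : ℝ) * |β| := by
      rw [Finset.sum_congr rfl (fun x hx => by
        rw [hβ x y (fun hd => (Finset.mem_filter.mp hx).2 (dep_symm p hd))]),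
        Finset.sum_const, nsmul_eq_mul]
    rw [h2]
    have := hnd y
    linarith

/-- the trace inequality for the invariant part -/
theorem inv_bound (hp : 100 ≤ p) (A B : PV p → PV p → ℝ)
    (hA : ∀ x y, |A x y| ≤ (A x x + A y y) / 2) (hB : ∀ x y, |B x y| ≤ (B x x + B y y) / 2)
    (hrow : ∀ x, ∑ y, A x y = 0) :
    ∑ q : PV p × PV p, B q.1 q.2 * ginv (rho2 p) (fun q => A q.1 q.2) q ≤
      3 * (∑ x, A x x) * (∑ x, B x x) / (p : ℝ) ^ 2 := by
  classical
  set Ai : PV p × PV p → ℝ := ginv (rho2 p) (fun q => A q.1 q.2) with hAi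
  have hinv : ∀ (g : Matrix.SpecialLinearGroup (Fin 3) (ZMod p)) x y,
      Ai (slPerm p g x, slPerm p g y) = Ai (x, y) := by
    intro g x y
    exact ginv_act (rho2 p) (fun q => A q.1 q.2) g (x, y)
  set α : ℝ := Ai (bas p 0, bas p 0) with hαd
  have hdiag : ∀ x, Ai (x, x) = α := by
    intro x
    obtain ⟨g, rfl⟩ := exists_sl1 p x
    exact hinv g _ _
  have hAd : ∀ x, 0 ≤ A x x := by
    intro x
    have := (abs_nonneg _).trans (hA x x)
    linarith
  have hBd : ∀ x, 0 ≤ B x x := by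
    intro x
    have := (abs_nonneg _).trans (hB x x)
    linarith
  have hcard : (Fintype.card (PV p) : ℝ) * α = ∑ x, A x x := by
    have h1 := ginv_sum (slPerm p) (fun x => A x x)
    have h2 : ∀ x, ginv (slPerm p) (fun x => A x x) x = Ai (x, x) := fun x => rfl
    simp only [h2, hdiag, Finset.sum_const, Finset.card_univ, nsmul_eq_mul] at h1
    exact h1
  have hG : (0 : ℝ) < Fintype.card (Matrix.SpecialLinearGroup (Fin 3) (ZMod p)) := card_pos'
  have habs : ∀ x y, |Ai (x, y)| ≤ α := by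
    intro x y
    have h1 : |Ai (x, y)| ≤ (Ai (x, x) + Ai (y, y)) / 2 := by
      rw [hAi]
      unfold ginv
      rw [abs_mul, abs_of_pos (inv_pos.mpr hG), ← mul_add, mul_div_assoc,
        ← Finset.sum_add_distrib, Finset.sum_div]
      refine mul_le_mul_of_nonneg_left ?_ (inv_pos.mpr hG).le
      refine (Finset.abs_sum_le_sum_abs _ _).trans ?_
      exact Finset.sum_le_sum (fun g _ => hA _ _)
    rw [hdiag, hdiag] at h1
    linarith
  have hα0 : 0 ≤ α := (abs_nonneg _).trans (habs (bas p 0) (bas p 0))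
  have hrow' : ∀ x, ∑ y, Ai (x, y) = 0 := by
    intro x
    rw [hAi]
    unfold ginv
    rw [← Finset.mul_sum, Finset.sum_comm]
    have h1 : ∀ g : Matrix.SpecialLinearGroup (Fin 3) (ZMod p),
        ∑ y, A (rho2 p g (x, y)).1 (rho2 p g (x, y)).2 = 0 := by
      intro g
      rw [← hrow (slPerm p g x)]
      exact Equiv.sum_comp (slPerm p g) (fun y => A (slPerm p g x) y)
    simp only [h1, Finset.sum_const_zero, mul_zero]
  have hβ : ∀ x y, ¬ Dep p x y → Ai (x, y) = Ai (bas p 0, bas p 1) := by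
    intro x y h
    obtain ⟨g, rfl, rfl⟩ := exists_sl p x y h
    exact hinv g _ _
  obtain ⟨hr, hc⟩ := row_bound p α _ hα0 (fun x y => Ai (x, y)) habs hrow' hβ
  set T : ℝ := 2 * ((p : ℝ) - 1) * α with hT
  have hmain : ∑ q : PV p × PV p, B q.1 q.2 * Ai q ≤ (∑ x, B x x) * T := by
    have h1 : ∑ q : PV p × PV p, B q.1 q.2 * Ai q ≤
        ∑ q : PV p × PV p, ((B q.1 q.1 + B q.2 q.2) / 2) * |Ai q| := by
      apply Finset.sum_le_sum
      intro q _
      calc B q.1 q.2 * Ai q ≤ |B q.1 q.2 * Ai q| := le_abs_self _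
        _ = |B q.1 q.2| * |Ai q| := abs_mul _ _
        _ ≤ _ := mul_le_mul_of_nonneg_right (hB _ _) (abs_nonneg _)
    refine h1.trans ?_
    have h2 : ∑ q : PV p × PV p, ((B q.1 q.1 + B q.2 q.2) / 2) * |Ai q| =
        (∑ x, B x x * ∑ y, |Ai (x, y)|) / 2 + (∑ y, B y y * ∑ x, |Ai (x, y)|) / 2 := by
      have e1 : ∑ x, B x x * ∑ y, |Ai (x, y)| = ∑ q : PV p × PV p, B q.1 q.1 * |Ai q| := by
        rw [Fintype.sum_prod_type]
        apply Finset.sum_congr rfl; intro x _; rw [Finset.mul_sum]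
      have e2 : ∑ y, B y y * ∑ x, |Ai (x, y)| = ∑ q : PV p × PV p, B q.2 q.2 * |Ai q| := by
        rw [Fintype.sum_prod_type_right]
        apply Finset.sum_congr rfl; intro x _; rw [Finset.mul_sum]
      rw [e1, e2, ← add_div, ← Finset.sum_add_distrib, Finset.sum_div]
      apply Finset.sum_congr rfl
      intro q _
      ring
    rw [h2]
    have h3 : ∑ x, B x x * ∑ y, |Ai (x, y)| ≤ (∑ x, B x x) * T := by
      rw [Finset.sum_mul]
      exact Finset.sum_le_sum (fun x _ => mul_le_mul_of_nonneg_left (hr x) (hBd x))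
    have h4 : ∑ y, B y y * ∑ x, |Ai (x, y)| ≤ (∑ x, B x x) * T := by
      rw [Finset.sum_mul]
      exact Finset.sum_le_sum (fun x _ => mul_le_mul_of_nonneg_left (hc x) (hBd x))
    linarith
  refine hmain.trans ?_
  have hp0 : (100 : ℝ) ≤ p := by exact_mod_cast hp
  have hn : (Fintype.card (PV p) : ℝ) = (p : ℝ) ^ 3 - 1 := by
    rw [card_PV, Nat.cast_sub (Nat.one_le_pow _ _ (by omega))]
    push_cast; ring
  have hTb : T * (p : ℝ) ^ 2 ≤ 3 * ∑ x, A x x := by
    rw [← hcard, hn, hT]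
    nlinarith [mul_nonneg hα0 (by nlinarith [sq_nonneg ((p : ℝ) - 1)] :
      (0 : ℝ) ≤ 3 * ((p : ℝ) ^ 3 - 1) - 2 * ((p : ℝ) - 1) * (p : ℝ) ^ 2)]
  have hp2 : (0 : ℝ) < (p : ℝ) ^ 2 := by positivity
  rw [le_div_iff₀ hp2]
  have hB0 : 0 ≤ ∑ x, B x x := Finset.sum_nonneg (fun x _ => hBd x)
  calc (∑ x, B x x) * T * (p : ℝ) ^ 2 = (∑ x, B x x) * (T * (p : ℝ) ^ 2) := by ring
    _ ≤ (∑ x, B x x) * (3 * ∑ x, A x x) := mul_le_mul_of_nonneg_left hTb hB0
    _ = _ := by ring

end pairs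

theorem main (h : Spec.GapSL) : Spec.MixE := by
  obtain ⟨θ, hθ0, hθ1, hgap⟩ := h
  refine ⟨θ, hθ0, hθ1, ?_⟩
  intro p hpp hp m A B hA hB hrow
  set fA : PV p × PV p → ℝ := fun q => A q.1 q.2 with hfA
  set fB : PV p × PV p → ℝ := fun q => B q.1 q.2 with hfB
  set Bi : PV p × PV p → ℝ := ginv (rho2 p) fB with hBi
  set B' : PV p × PV p → ℝ := fun q => fB q - Bi q with hB'
  have hBsum : fB = fun q => Bi q + B' q := by
    funext q; rw [hB']; ring
  have h7 : (0 : ℝ) < 7 ^ m := by positivity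
  have hlhs : ((7 : ℝ) ^ m)⁻¹ * ∑ w : Fin m → Fin 7, ∑ x, ∑ y,
      B (wordP p w x) (wordP p w y) * A x y = ∑ q, ((N7 p (rho2 p))^[m] fB) q * fA q := by
    have h1 : ∀ w : Fin m → Fin 7, ∑ x, ∑ y, B (wordP p w x) (wordP p w y) * A x y =
        ∑ q : PV p × PV p, fB (rho2 p (word7 (ZMod p) w) q) * fA q := by
      intro w
      rw [Fintype.sum_prod_type]
      rfl
    simp only [h1]
    rw [Finset.sum_comm, Finset.mul_sum]
    apply Finset.sum_congr rfl
    intro q _
    rw [← Finset.sum_mul, N7_word, ← mul_assoc, ← mul_assoc, inv_mul_cancel₀ h7.ne', one_mul]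
  rw [hlhs]
  have hinv : ∀ g x, Bi (rho2 p g x) = Bi x := fun g x => ginv_act (rho2 p) fB g x
  have hsplit : ∑ q, ((N7 p (rho2 p))^[m] fB) q * fA q =
      ∑ q, Bi q * fA q + ∑ q, ((N7 p (rho2 p))^[m] B') q * fA q := by
    rw [← Finset.sum_add_distrib]
    apply Finset.sum_congr rfl
    intro q _
    rw [hBsum, N7_add_inv p (rho2 p) m Bi hinv B' q]
    ring
  rw [hsplit]
  have hfirst : ∑ q, Bi q * fA q ≤ 3 * (∑ x, A x x) * (∑ x, B x x) / (p : ℝ) ^ 2 := by
    rw [hBi, ginv_inner]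
    exact inv_bound p hp A B hA hB hrow
  have horb : ∀ x, ∑ g : Matrix.SpecialLinearGroup (Fin 3) (ZMod p), B' (rho2 p g x) = 0 := by
    intro x
    rw [hB']
    simp only [hinv, Finset.sum_sub_distrib, Finset.sum_const, Finset.card_univ, nsmul_eq_mul]
    rw [hBi]
    unfold ginv
    rw [← mul_assoc, mul_inv_cancel₀
      (card_pos' (G := Matrix.SpecialLinearGroup (Fin 3) (ZMod p))).ne', one_mul, sub_self]
  have hnorm := N7_norm p (rho2 p) θ (hgap p hpp hp (PV p × PV p) _ (rho2 p)) m B' horb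
  have hB'sq : ∑ q, B' q ^ 2 ≤ ∑ q, fB q ^ 2 := ginv_sq (rho2 p) fB
  have hsecond : ∑ q, ((N7 p (rho2 p))^[m] B') q * fA q ≤
      θ ^ m * (Real.sqrt (∑ q, fA q ^ 2) * Real.sqrt (∑ q, fB q ^ 2)) := by
    refine (Real.sum_mul_le_sqrt_mul_sqrt _ _ _).trans ?_
    have h1 : Real.sqrt (∑ q, ((N7 p (rho2 p))^[m] B') q ^ 2) ≤
        θ ^ m * Real.sqrt (∑ q, fB q ^ 2) := by
      rw [← Real.sqrt_sq (pow_nonneg hθ0.le m), ← Real.sqrt_mul (sq_nonneg _)]
      apply Real.sqrt_le_sqrt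
      refine hnorm.trans ?_
      rw [← pow_mul, ← pow_mul, mul_comm 2 m]
      exact mul_le_mul_of_nonneg_left hB'sq (by positivity)
    calc _ ≤ (θ ^ m * Real.sqrt (∑ q, fB q ^ 2)) * Real.sqrt (∑ q, fA q ^ 2) :=
          mul_le_mul_of_nonneg_right h1 (Real.sqrt_nonneg _)
      _ = _ := by ring
  have eA : ∑ q, fA q ^ 2 = ∑ x, ∑ y, A x y ^ 2 := by rw [Fintype.sum_prod_type]
  have eB : ∑ q, fB q ^ 2 = ∑ x, ∑ y, B x y ^ 2 := by rw [Fintype.sum_prod_type]
  rw [eA, eB] at hsecond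
  linarith

end Crest.Agent.FPMix
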