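import Crest.Agent.FPSpec

set_option autoImplicit false

namespace Crest.Agent.FPProd

open Crest.Agent.FP Crest.Dynamics MeasureTheory Measure
open scoped ENNReal

section unif

variable (V : Type) [Fintype V] [MeasurableSpace V] [DiscreteMeasurableSpace V]

/-- the uniform measure. -/
noncomputable def unif : Measure V := ((Nat.card V : ENNReal)⁻¹) • Measure.count

theorem unif_apply (S : Set V) : unif V S = (Nat.card S : ENNReal) / (Nat.card V : ENNReal) := by
  classical
  have hS : MeasurableSet S := MeasurableSet.of_discrete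
  have hf : S.Finite := Set.toFinite S
  unfold unif
  rw [Measure.smul_apply, Measure.count_apply_finite' hf hS, smul_eq_mul, mul_comm,
    ENNReal.div_eq_inv_mul, mul_comm]
  congr 2
  rw [Nat.card_eq_card_finite_toFinset hf]

instance [Nonempty V] : IsProbabilityMeasure (unif V) := by
  constructor
  rw [unif_apply]
  have h : Nat.card (Set.univ : Set V) = Nat.card V := Nat.card_congr (Equiv.Set.univ V)
  rw [h]
  have h0 : Nat.card V ≠ 0 := Nat.card_pos.ne'
  exact ENNReal.div_self (by exact_mod_cast h0) (ENNReal.natCast_ne_top _)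

theorem unif_map (e : Equiv.Perm V) : (unif V).map e = unif V := by
  ext S hS
  rw [Measure.map_apply (measurable_of_countable _) hS, unif_apply, unif_apply]
  congr 2
  exact Nat.card_congr (e.subtypeEquiv (fun a => Iff.rfl))

end unif

section prod

variable {Γ : Type} [Group Γ] (V : ℕ → Type) [∀ n, Fintype (V n)] [∀ n, Nonempty (V n)]
  [∀ n, MulAction Γ (V n)] [∀ n, MeasurableSpace (V n)] [∀ n, DiscreteMeasurableSpace (V n)]

noncomputable def mu : Measure (∀ n, V n) := Measure.infinitePi (fun n => unif (V n))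

instance : IsProbabilityMeasure (mu V) := by unfold mu; infer_instance

theorem mp (γ : Γ) : MeasurePreserving (fun x : (∀ n, V n) => γ • x) (mu V) (mu V) := by
  refine ⟨?_, ?_⟩
  · refine measurable_pi_lambda _ (fun n => ?_)
    exact (measurable_of_countable (fun v : V n => γ • v)).comp (measurable_pi_apply n)
  · have h := Measure.infinitePi_map_pi (μ := fun n => unif (V n))
      (f := fun n (v : V n) => γ • v) (fun n => measurable_of_countable _)
    have h2 : ∀ n, (unif (V n)).map (fun v : V n => γ • v) = unif (V n) := by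
      intro n
      exact unif_map (V n) (MulAction.toPerm γ)
    simp only [h2] at h
    exact h

theorem fixnull (γ : Γ)
    (h : ∀ n0, ∃ n ≥ n0, 2 * Nat.card {v : V n // γ • v = v} ≤ Nat.card (V n)) :
    mu V {x : (∀ n, V n) | γ • x = x} = 0 := by
  classical
  set A : Set ℕ := {n | 2 * Nat.card {v : V n // γ • v = v} ≤ Nat.card (V n)} with hA
  have hinf : A.Infinite := by
    rw [← Nat.frequently_atTop_iff_infinite, Filter.frequently_atTop]
    intro a
    obtain ⟨n, hn, h2⟩ := h a
    exact ⟨n, hn, h2⟩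
  have key : ∀ N : ℕ, mu V {x : (∀ n, V n) | γ • x = x} ≤ (2⁻¹ : ENNReal) ^ N := by
    intro N
    obtain ⟨t, ht, hc⟩ := hinf.exists_subset_card_eq N
    have hsub : {x : (∀ n, V n) | γ • x = x} ⊆
        Set.pi (t : Set ℕ) (fun n => {v : V n | γ • v = v}) := by
      intro x hx n _
      have := congrFun hx n
      exact this
    refine (measure_mono hsub).trans ?_
    unfold mu
    rw [Measure.infinitePi_pi _ (fun i _ => MeasurableSet.of_discrete), ← hc,
      ← Finset.prod_const]
    refine Finset.prod_le_prod' (fun n hn => ?_)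
    have h2 : n ∈ A := ht hn
    rw [unif_apply]
    have h3 : 2 * Nat.card {v : V n | γ • v = v} ≤ Nat.card (V n) := h2
    have h0 : Nat.card (V n) ≠ 0 := Nat.card_pos.ne'
    rw [ENNReal.div_le_iff (by exact_mod_cast h0) (ENNReal.natCast_ne_top _)]
    have h4 : ((Nat.card {v : V n | γ • v = v} : ℕ) : ENNReal) =
        2⁻¹ * (2 * (Nat.card {v : V n | γ • v = v} : ℕ)) := by
      rw [← mul_assoc, ENNReal.inv_mul_cancel (by norm_num) (by norm_num), one_mul]
    rw [h4]
    gcongr
    exact_mod_cast h3
  have hlim := ENNReal.tendsto_pow_atTop_nhds_zero_of_lt_one (r := (2⁻¹ : ENNReal)) (by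
    simp)
  exact le_antisymm (ge_of_tendsto' hlim key) zero_le

theorem cyl (n : ℕ) (w : ∀ k : Fin n, V k) :
    MeasurableSet {x : ∀ n, V n | (fun k : Fin n => x k) = w} ∧
        mu V {x : ∀ n, V n | (fun k : Fin n => x k) = w}
          = (Fintype.card (∀ k : Fin n, V k) : ENNReal)⁻¹ := by
  classical
  have hset : {x : ∀ n, V n | (fun k : Fin n => x k) = w} =
      Set.pi ((Finset.range n : Finset ℕ) : Set ℕ)
        (fun k => {v : V k | ∀ h : k < n, v = w ⟨k, h⟩}) := by
    ext x
    simp only [Set.mem_ofPred_eq, Set.mem_pi, Finset.coe_range, Set.mem_Iio]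
    constructor
    · intro h k hk hk'
      exact congrFun h ⟨k, hk⟩
    · intro h
      funext k
      exact h k k.2 k.2
  constructor
  · rw [hset]
    exact MeasurableSet.pi (Finset.countable_toSet _) (fun _ _ => MeasurableSet.of_discrete)
  · rw [hset]
    unfold mu
    rw [Measure.infinitePi_pi _ (fun i _ => MeasurableSet.of_discrete), Finset.prod_range,
      Fintype.card_pi, Nat.cast_prod]
    have h1 : ∀ k : Fin n, unif (V k) {v : V k | ∀ h : (k : ℕ) < n, v = w ⟨k, h⟩} =
        ((Fintype.card (V k) : ENNReal))⁻¹ := by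
      intro k
      have h2 : {v : V k | ∀ h : (k : ℕ) < n, v = w ⟨k, h⟩} = {w k} := by
        ext v
        simp
      rw [h2, unif_apply]
      simp
    rw [Finset.prod_congr rfl (fun k _ => h1 k)]
    rw [ENNReal.prod_inv_distrib]
    intro i _ j _ _
    right
    exact ENNReal.natCast_ne_top _

theorem dens (D : Set (∀ n, V n)) (hD : MeasurableSet D) (ε : ENNReal) (hε : 0 < ε) :
    ∃ n0, ∀ n ≥ n0, ∃ S : Set (∀ k : Fin n, V k),
        mu V (symmDiff D {x | (fun k : Fin n => x k) ∈ S}) ≤ ε := by
  classical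
  have halg : IsSetAlgebra (measurableCylinders V) :=
    ⟨empty_mem_measurableCylinders V, fun s hs => compl_mem_measurableCylinders hs,
      fun s t hs ht => union_mem_measurableCylinders hs ht⟩
  have hdense : (mu V).MeasureDense (measurableCylinders V) :=
    Measure.MeasureDense.of_generateFrom_isSetAlgebra_finite (mu V) halg
      (generateFrom_measurableCylinders).symm
  obtain ⟨r, hr0, hr⟩ : ∃ r : ℝ, 0 < r ∧ ENNReal.ofReal r ≤ ε := by
    rcases eq_or_ne ε ⊤ with h | h
    · exact ⟨1, one_pos, by rw [h]; exact le_top⟩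
    · exact ⟨ε.toReal, ENNReal.toReal_pos hε.ne' h, by rw [ENNReal.ofReal_toReal h]⟩
  obtain ⟨t, ht, hlt⟩ := hdense.approx D hD (measure_ne_top _ _) r hr0
  obtain ⟨s, S0, hS0, rfl⟩ := (mem_measurableCylinders t).1 ht
  refine ⟨s.sup id + 1, fun n hn => ?_⟩
  have hs : ∀ i ∈ s, i < n := fun i hi => by
    have : i ≤ s.sup id := Finset.le_sup (f := id) hi
    omega
  refine ⟨{w | (fun i : s => w ⟨i.1, hs i.1 i.2⟩) ∈ S0}, ?_⟩
  have : {x : ∀ n, V n | (fun k : Fin n => x k) ∈
      {w : ∀ k : Fin n, V k | (fun i : s => w ⟨i.1, hs i.1 i.2⟩) ∈ S0}} = cylinder s S0 := by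
    ext x
    simp only [Set.mem_ofPred_eq, mem_cylinder]
    rfl
  rw [this]
  exact hlt.le.trans hr

theorem ev (n : ℕ) (S : Set (V n)) : MeasurableSet {x : ∀ n, V n | x n ∈ S} ∧
        mu V {x : ∀ n, V n | x n ∈ S} = (Nat.card S : ENNReal) / (Nat.card (V n) : ENNReal) := by
  have hm : MeasurableSet S := MeasurableSet.of_discrete
  refine ⟨measurable_pi_apply n hm, ?_⟩
  have h := (measurePreserving_eval_infinitePi (fun n => unif (V n)) n).measure_preimage
    hm.nullMeasurableSet
  rw [unif_apply] at h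
  exact h

end prod

theorem main : Spec.Prod := by
  intro Γ _ V _ _ _ hV
  let : ∀ n, MeasurableSpace (V n) := fun _ => ⊤
  have : ∀ n, DiscreteMeasurableSpace (V n) := fun _ => ⟨fun _ => trivial⟩
  refine ⟨MeasurableSpace.pi, inferInstance, mu V, inferInstance, ⟨fun γ => mp V γ, ?_⟩,
    fun n w => cyl V n w, fun D hD ε hε => dens V D hD ε hε, fun n S => ev V n S⟩
  intro γ hγ
  exact fixnull V γ (fun n0 => hV γ hγ n0)

end Crest.Agent.FPProd
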