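import Crest.Agent.FPSpec

/-!
# Rid 191 (S0291): module PRODGAP (ProdGap, Expn, Trans)
-/

set_option autoImplicit false

namespace Crest.Agent.FPProdGap

open Crest.Agent.FP
open scoped BigOperators

theorem avg_sum {ι X : Type} [Fintype X] (J : Finset ι) (hJ : J.Nonempty)
    (act : ι → Equiv.Perm X) (f : X → ℝ) : ∑ x, avg J act f x = ∑ x, f x := by
  unfold avg
  rw [← Finset.mul_sum, Finset.sum_comm]
  have h1 : ∀ j ∈ J, ∑ x, f ((act j).symm x) = ∑ x, f x := fun j _ => Equiv.sum_comp _ f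
  rw [Finset.sum_congr rfl h1, Finset.sum_const, nsmul_eq_mul, ← mul_assoc,
    inv_mul_cancel₀ (by exact_mod_cast hJ.card_pos.ne'), one_mul]

theorem avg_sub_const {ι X : Type} (J : Finset ι) (hJ : J.Nonempty)
    (act : ι → Equiv.Perm X) (f : X → ℝ) (c : ℝ) (x : X) :
    avg J act (fun x => f x - c) x = avg J act f x - c := by
  unfold avg
  rw [Finset.sum_sub_distrib, Finset.sum_const, nsmul_eq_mul, mul_sub, ← mul_assoc,
    inv_mul_cancel₀ (by exact_mod_cast hJ.card_pos.ne'), one_mul]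

theorem main : Spec.ProdGap := by
  intro ι W X _ _ J actW actX η hη hW hX f hf
  rcases isEmpty_or_nonempty X with hE | hE
  · simp
  have hn : (0 : ℝ) < Fintype.card X := by exact_mod_cast Fintype.card_pos
  set n : ℝ := (Fintype.card X : ℝ) with hnd
  set P : ι → Equiv.Perm (W × X) := fun j => (actW j).prodCongr (actX j) with hP
  set f1 : W → ℝ := fun w => n⁻¹ * ∑ x, f (w, x) with hf1
  set f2 : W × X → ℝ := fun q => f q - f1 q.1 with hf2
  have hf2s : ∀ w, ∑ x, f2 (w, x) = 0 := by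
    intro w
    simp only [hf2, hf1, Finset.sum_sub_distrib, Finset.sum_const, Finset.card_univ, nsmul_eq_mul]
    rw [← mul_assoc, mul_inv_cancel₀ hn.ne', one_mul, sub_self]
  have hf1s : ∑ w, f1 w = 0 := by
    simp only [hf1]
    rw [← Finset.mul_sum]
    have : ∑ w, ∑ x, f (w, x) = 0 := by rw [← hf, Fintype.sum_prod_type]
    rw [this, mul_zero]
  have hg1 : ∀ w x, avg J P f (w, x) = avg J actW f1 w + avg J P f2 (w, x) := by
    intro w x
    unfold avg
    rw [← mul_add, ← Finset.sum_add_distrib]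
    congr 1
    apply Finset.sum_congr rfl
    intro j _
    simp [hf2, hP]
  have hg2s : ∀ w, ∑ x, avg J P f2 (w, x) = 0 := by
    intro w
    unfold avg
    rw [← Finset.mul_sum, Finset.sum_comm]
    have : ∀ j ∈ J, ∑ x, f2 ((P j).symm (w, x)) = 0 := by
      intro j _
      rw [← hf2s ((actW j).symm w)]
      exact Equiv.sum_comp (actX j).symm (fun x => f2 ((actW j).symm w, x))
    rw [Finset.sum_congr rfl this]
    simp
  have expand : ∀ (u : W → ℝ) (v : W × X → ℝ), (∀ w, ∑ x, v (w, x) = 0) →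
      ∑ q : W × X, (u q.1 + v q) ^ 2 = n * ∑ w, u w ^ 2 + ∑ q, v q ^ 2 := by
    intro u v hv
    rw [Fintype.sum_prod_type, Fintype.sum_prod_type, Finset.mul_sum, ← Finset.sum_add_distrib]
    apply Finset.sum_congr rfl
    intro w _
    have h1 : ∀ x, (u w + v (w, x)) ^ 2 = u w ^ 2 + 2 * u w * v (w, x) + v (w, x) ^ 2 := by
      intro x; ring
    simp only [h1, Finset.sum_add_distrib, Finset.sum_const, Finset.card_univ, nsmul_eq_mul]
    rw [← Finset.mul_sum, hv w]
    ring
  have e1 : ∑ q : W × X, (avg J P f q) ^ 2 =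
      n * ∑ w, (avg J actW f1 w) ^ 2 + ∑ q, (avg J P f2 q) ^ 2 := by
    rw [← expand (avg J actW f1) (avg J P f2) hg2s]
    apply Finset.sum_congr rfl
    rintro ⟨w, x⟩ _
    rw [hg1]
  have e2 : ∑ q : W × X, f q ^ 2 = n * ∑ w, f1 w ^ 2 + ∑ q, f2 q ^ 2 := by
    rw [← expand f1 f2 hf2s]
    apply Finset.sum_congr rfl
    rintro ⟨w, x⟩ _
    simp [hf2]
  rw [e1, e2]
  have h1 := hW f1 hf1s
  have h2 := hX f2 hf2s
  have h3 := mul_le_mul_of_nonneg_left h1 hn.le
  calc n * ∑ w, avg J actW f1 w ^ 2 + ∑ q, avg J P f2 q ^ 2 ≤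
      n * (η * ∑ w, f1 w ^ 2) + η * ∑ q, f2 q ^ 2 := add_le_add h3 h2
    _ = _ := by ring

theorem main2 : Spec.Expn := by
  intro K _ V _ J hJ act hgap m0 hm0
  unfold Exp
  intro S hS
  classical
  rcases Nat.eq_zero_or_pos S.card with hs0 | hs0
  · rw [hs0]; simp
  have hNpos : 0 < Fintype.card V := by omega
  set s : ℝ := (S.card : ℝ) with hs
  set N : ℝ := (Fintype.card V : ℝ) with hN
  have hsp : 0 < s := by rw [hs]; exact_mod_cast hs0
  have hNp : 0 < N := by rw [hN]; exact_mod_cast hNpos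
  have hsN : 80 * s ≤ N := by
    rw [hs, hN]
    have : 80 * S.card ≤ Fintype.card V := by omega
    exact_mod_cast this
  set ind : V → ℝ := fun x => if x ∈ S then 1 else 0 with hind
  have hsum : ∑ x, ind x = s := by simp [hind, hs]
  have hsum2 : ∑ x, ind x ^ 2 = s := by
    rw [← hsum]
    apply Finset.sum_congr rfl
    intro x _
    by_cases hx : x ∈ S <;> simp [hind, hx]
  set a : V → ℝ := avg J act ind with ha
  have ha0 : ∑ x, a x = s := by rw [ha, avg_sum J hJ, hsum]
  have hz : ∑ x, (ind x - s / N) = 0 := by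
    rw [Finset.sum_sub_distrib, hsum, Finset.sum_const, Finset.card_univ, nsmul_eq_mul]
    field_simp
    ring
  have h1 := hgap (fun x => ind x - s / N) hz
  simp only [avg_sub_const J hJ act ind (s / N)] at h1
  have sq : ∀ u : V → ℝ, ∑ x, u x = s → ∑ x, (u x - s / N) ^ 2 = ∑ x, u x ^ 2 - s ^ 2 / N := by
    intro u hu
    have h2 : ∀ x, (u x - s / N) ^ 2 = u x ^ 2 - (2 * (s / N)) * u x + (s / N) ^ 2 := by
      intro x; ring
    simp only [h2, Finset.sum_add_distrib, Finset.sum_sub_distrib, Finset.sum_const,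
      Finset.card_univ, nsmul_eq_mul]
    rw [← Finset.mul_sum, hu]
    field_simp
    ring
  rw [sq a ha0, sq ind hsum, hsum2] at h1
  have hq : s ^ 2 / N ≤ s / 80 := by
    rw [div_le_div_iff₀ hNp (by norm_num)]
    nlinarith
  have hq0 : 0 ≤ s ^ 2 / N := by positivity
  have ha2 : ∑ x, a x ^ 2 ≤ s / 40 := by linarith
  set T : Finset V := S.biUnion (fun v => Finset.univ.image (fun j : ZMod K => act j v)) with hT
  have hsupp : ∀ x, x ∉ T → a x = 0 := by
    intro x hx
    rw [ha]
    unfold avg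
    have : ∀ j ∈ J, ind ((act j).symm x) = 0 := by
      intro j _
      simp only [hind]
      rw [if_neg]
      intro hmem
      apply hx
      rw [hT, Finset.mem_biUnion]
      exact ⟨_, hmem, Finset.mem_image.mpr ⟨j, Finset.mem_univ _, by simp⟩⟩
    rw [Finset.sum_congr rfl this]
    simp
  have hsT : ∑ x ∈ T, a x = s := by
    rw [← ha0]
    exact Finset.sum_subset (Finset.subset_univ _) (fun x _ hx => hsupp x hx)
  have hCS : s ^ 2 ≤ (T.card : ℝ) * ∑ x ∈ T, a x ^ 2 := by
    rw [← hsT]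
    exact sq_sum_le_card_mul_sum_sq
  have hT2 : ∑ x ∈ T, a x ^ 2 ≤ ∑ x, a x ^ 2 :=
    Finset.sum_le_sum_of_subset_of_nonneg (Finset.subset_univ _) (fun x _ _ => sq_nonneg _)
  have hfin : s ^ 2 ≤ (T.card : ℝ) * (s / 40) :=
    hCS.trans (mul_le_mul_of_nonneg_left (hT2.trans ha2) (Nat.cast_nonneg _))
  have hfin2 : 40 * s ≤ (T.card : ℝ) := by
    have h5 : s * (40 * s) ≤ s * (T.card : ℝ) := by nlinarith
    exact le_of_mul_le_mul_left h5 hsp
  have h6 : (40 * S.card : ℕ) ≤ T.card := by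
    rw [hs] at hfin2
    exact_mod_cast hfin2
  convert h6 using 2

theorem main3 : Spec.Trans := by
  intro ι V _ J hJ act hgap Ω f hf v w
  classical
  by_contra hne
  have hNpos : 0 < Fintype.card V := Fintype.card_pos_iff.mpr ⟨v⟩
  have hNp : (0 : ℝ) < Fintype.card V := by exact_mod_cast hNpos
  set ind : V → ℝ := fun x => if f x = f v then 1 else 0 with hind
  set c : ℝ := (∑ x, ind x) / Fintype.card V with hc
  have hz : ∑ x, (ind x - c) = 0 := by
    rw [Finset.sum_sub_distrib, Finset.sum_const, Finset.card_univ, nsmul_eq_mul, hc]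
    field_simp
    ring
  have h1 := hgap (fun x => ind x - c) hz
  simp only [avg_sub_const J hJ act ind c] at h1
  have h2 : ∀ x, avg J act ind x = ind x := by
    intro x
    unfold avg
    have : ∀ j ∈ J, ind ((act j).symm x) = ind x := by
      intro j _
      have h3 := hf j ((act j).symm x)
      rw [Equiv.apply_symm_apply] at h3
      simp only [hind, ← h3]
    rw [Finset.sum_congr rfl this, Finset.sum_const, nsmul_eq_mul, ← mul_assoc,
      inv_mul_cancel₀ (by exact_mod_cast hJ.card_pos.ne'), one_mul]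
  simp only [h2] at h1
  have h4 : ∑ x, (ind x - c) ^ 2 = 0 := by
    have : 0 ≤ ∑ x, (ind x - c) ^ 2 := Finset.sum_nonneg (fun x _ => sq_nonneg _)
    linarith
  have h5 := (Finset.sum_eq_zero_iff_of_nonneg (fun x _ => sq_nonneg (ind x - c))).mp h4
  have hv := h5 v (Finset.mem_univ v)
  have hw := h5 w (Finset.mem_univ w)
  have hv1 : ind v = 1 := by simp [hind]
  have hw1 : ind w = 0 := by
    simp only [hind]
    rw [if_neg (fun h => hne h.symm)]
  rw [hv1] at hv
  rw [hw1] at hw
  have hv2 := pow_eq_zero_iff (two_ne_zero) |>.mp hv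
  have hw2 := pow_eq_zero_iff (two_ne_zero) |>.mp hw
  linarith

end Crest.Agent.FPProdGap
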