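import Crest.Agent.FPSpec

/-!
# Rid 191, module QUOT: folding of labelled graphs
-/

set_option autoImplicit false

namespace Crest.Agent.FPQuot

open Crest.Agent.FP

open scoped BigOperators

section

variable {K : ℕ} {V L Q : Type}

/-- closed under folding -/
def FoldClosed (E : Finset (Q × L × Q)) (S : Setoid Q) : Prop :=
  ∀ x l y x' y', (x, l, y) ∈ E → (x', l, y') ∈ E → (S x x' → S y y') ∧ (S y y' → S x x')

/-- the folding relation -/
def foldRel (E : Finset (Q × L × Q)) (I : Finset (Q × Q)) : Setoid Q :=
  sInf {S : Setoid Q | (∀ p ∈ I, S p.1 p.2) ∧ FoldClosed E S}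

theorem foldRel_iff (E : Finset (Q × L × Q)) (I : Finset (Q × Q)) (x y : Q) :
    foldRel E I x y ↔ ∀ S : Setoid Q, (∀ p ∈ I, S p.1 p.2) → FoldClosed E S → S x y := by
  unfold foldRel
  rw [Setoid.sInf_iff]
  constructor
  · intro h S h1 h2
    exact h S ⟨h1, h2⟩
  · intro h S hS
    exact h S hS.1 hS.2

theorem foldRel_I (E : Finset (Q × L × Q)) (I : Finset (Q × Q)) (p : Q × Q) (hp : p ∈ I) :
    foldRel E I p.1 p.2 := by
  rw [foldRel_iff]
  intro S h1 _
  exact h1 p hp

theorem foldRel_fold (E : Finset (Q × L × Q)) (I : Finset (Q × Q)) :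
    FoldClosed E (foldRel E I) := by
  intro x l y x' y' h h'
  simp only [foldRel_iff]
  constructor
  · intro h1 S h2 h3
    exact (h3 x l y x' y' h h').1 (h1 S h2 h3)
  · intro h1 S h2 h3
    exact (h3 x l y x' y' h h').2 (h1 S h2 h3)

theorem mem_mapE {Q' : Type} (π : Q → Q') (E : Finset (Q × L × Q)) (e : Q' × L × Q') :
    e ∈ mapE π E ↔ ∃ x l y, (x, l, y) ∈ E ∧ e = (π x, l, π y) := by
  classical
  unfold mapE
  rw [Finset.mem_image]
  constructor
  · rintro ⟨⟨x, l, y⟩, h, rfl⟩
    exact ⟨x, l, y, h, rfl⟩
  · rintro ⟨x, l, y, h, rfl⟩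
    exact ⟨⟨x, l, y⟩, h, rfl⟩

theorem mem_mapC {Q' : Type} (π : Q → Q') (C : Finset (V × (ZMod K → Q)))
    (p : V × (ZMod K → Q)) (hp : p ∈ C) : (p.1, fun j => π (p.2 j)) ∈ mapC π C := by
  classical
  unfold mapC
  rw [Finset.mem_image]
  exact ⟨p, hp, rfl⟩

/-- pull-back of cochains -/
noncomputable def pull {Q' : Type} (π : Q → Q') (E : Finset (Q × L × Q))
    (f : Q' × L × Q' → ZMod 2) : Q × L × Q → ZMod 2 := by
  classical exact fun e => if e ∈ E then f (π e.1, e.2.1, π e.2.2) else 0

/-- coboundary -/
noncomputable def cob (E : Finset (Q × L × Q)) (h : Q → ZMod 2) : Q × L × Q → ZMod 2 := by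
  classical exact fun e => if e ∈ E then h e.2.2 - h e.1 else 0

theorem pull_mem {Q' : Type} [NeZero K] (ℓ : V → ZMod K → L) (π : Q → Q')
    (E : Finset (Q × L × Q)) (C : Finset (V × (ZMod K → Q))) (hC : CellsIn ℓ E C)
    (f : Q' × L × Q' → ZMod 2) (hf : f ∈ Z1 ℓ (mapE π E) (mapC π C)) :
    pull π E f ∈ Z1 ℓ E C := by
  classical
  constructor
  · intro e he
    simp only [pull, if_neg he]
  · intro p hp
    have h1 := hf.2 _ (mem_mapC π C p hp)
    rw [← h1]
    refine Finset.sum_congr rfl fun j _ => ?_
    have h2 := hC p hp j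
    simp only [pull, if_pos h2]
    rfl

theorem cob_mem [NeZero K] (ℓ : V → ZMod K → L)
    (E : Finset (Q × L × Q)) (C : Finset (V × (ZMod K → Q))) (hC : CellsIn ℓ E C)
    (h : Q → ZMod 2) : cob E h ∈ Z1 ℓ E C := by
  classical
  constructor
  · intro e he
    simp only [cob, if_neg he]
  · intro p hp
    have h1 : ∀ j, cob E h (cedge ℓ p j) = h (p.2 (j + 1)) - h (p.2 j) := by
      intro j
      have h2 := hC p hp j
      simp only [cob, if_pos h2]
      rfl
    rw [Finset.sum_congr rfl fun j _ => h1 j, Finset.sum_sub_distrib]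
    have h3 : ∑ j : ZMod K, h (p.2 (j + 1)) = ∑ j : ZMod K, h (p.2 j) :=
      Fintype.sum_equiv (Equiv.addRight (1 : ZMod K)) _ _ fun j => rfl
    rw [h3, sub_self]

/-- the linear map of the dimension count -/
noncomputable def psi {Q' : Type} [NeZero K] (ℓ : V → ZMod K → L) (π : Q → Q')
    (E : Finset (Q × L × Q)) (C : Finset (V × (ZMod K → Q))) (hC : CellsIn ℓ E C)
    (I : Finset (Q × Q)) :
    (Z1 ℓ (mapE π E) (mapC π C) × (Q → ZMod 2)) →ₗ[ZMod 2] (Z1 ℓ E C × (↥I → ZMod 2)) where
  toFun fh := (⟨pull π E fh.1.1 + cob E fh.2,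
    (Z1 ℓ E C).add_mem (pull_mem ℓ π E C hC _ fh.1.2) (cob_mem ℓ E C hC _)⟩,
    fun p => fh.2 p.1.1 - fh.2 p.1.2)
  map_add' := by
    classical
    intro a b
    refine Prod.ext (Subtype.ext ?_) ?_
    · funext e
      by_cases he : e ∈ E
      · simp only [pull, cob, Pi.add_apply, if_pos he, Prod.fst_add, Prod.snd_add,
          Submodule.coe_add]
        ring
      · simp only [pull, cob, Pi.add_apply, if_neg he, Prod.fst_add, Prod.snd_add,
          Submodule.coe_add]
        ring
    · funext p
      simp only [Prod.snd_add, Pi.add_apply]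
      ring
  map_smul' := by
    classical
    intro c a
    refine Prod.ext (Subtype.ext ?_) ?_
    · funext e
      by_cases he : e ∈ E
      · simp only [pull, cob, Pi.add_apply, Pi.smul_apply, if_pos he, Prod.smul_fst,
          Prod.smul_snd, Submodule.coe_smul, RingHom.id_apply, smul_eq_mul]
        ring
      · simp only [pull, cob, Pi.add_apply, Pi.smul_apply, if_neg he, Prod.smul_fst,
          Prod.smul_snd, Submodule.coe_smul, RingHom.id_apply, smul_eq_mul]
        ring
    · funext p
      simp only [Prod.smul_snd, Pi.smul_apply, RingHom.id_apply, smul_eq_mul]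
      ring

end

theorem main : Spec.Quot := by
  classical
  intro K _ V L Q _ _ ℓ E C I hC
  set R : Setoid Q := foldRel E I with hR
  let Q' : Type := Quotient R
  let _ : Fintype Q' := Fintype.ofSurjective (Quotient.mk R) Quotient.mk_surjective
  let π : Q → Q' := Quotient.mk R
  have hπR : ∀ x y, π x = π y ↔ R x y := fun x y => Quotient.eq
  refine ⟨Q', inferInstance, π, Quotient.mk_surjective, ?_, ?_, ?_⟩
  · intro p hp
    rw [hπR]
    exact foldRel_I E I p hp
  · constructor
    · intro X l Y Y' h h'
      rw [mem_mapE] at h h'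
      obtain ⟨x, l1, y, h1, h2⟩ := h
      obtain ⟨x', l2, y', h3, h4⟩ := h'
      simp only [Prod.mk.injEq] at h2 h4
      obtain ⟨rfl, rfl, rfl⟩ := h2
      obtain ⟨h5, rfl, rfl⟩ := h4
      rw [hπR] at h5 ⊢
      exact (foldRel_fold E I x l y x' y' h1 h3).1 h5
    · intro X X' l Y h h'
      rw [mem_mapE] at h h'
      obtain ⟨x, l1, y, h1, h2⟩ := h
      obtain ⟨x', l2, y', h3, h4⟩ := h'
      simp only [Prod.mk.injEq] at h2 h4
      obtain ⟨rfl, rfl, rfl⟩ := h2
      obtain ⟨rfl, rfl, h5⟩ := h4
      rw [hπR] at h5 ⊢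
      exact (foldRel_fold E I x l y x' y' h1 h3).2 h5
  · -- the dimension count
    set Ψ := psi ℓ π E C hC I with hΨ
    have hrn := LinearMap.finrank_range_add_finrank_ker Ψ
    have hdom : Module.finrank (ZMod 2) (Z1 ℓ (mapE π E) (mapC π C) × (Q → ZMod 2)) =
        z1 ℓ (mapE π E) (mapC π C) + Fintype.card Q := by
      rw [Module.finrank_prod, Module.finrank_pi]
      rfl
    have hcod : Module.finrank (ZMod 2) (Z1 ℓ E C × (↥I → ZMod 2)) = z1 ℓ E C + I.card := by
      rw [Module.finrank_prod, Module.finrank_pi, Fintype.card_coe]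
      rfl
    have hrange : Module.finrank (ZMod 2) (LinearMap.range Ψ) ≤ z1 ℓ E C + I.card := by
      rw [← hcod]
      exact Submodule.finrank_le _
    -- elements of the kernel
    have hker : ∀ fh : Z1 ℓ (mapE π E) (mapC π C) × (Q → ZMod 2), Ψ fh = 0 →
        (∀ x l y, (x, l, y) ∈ E → fh.1.1 (π x, l, π y) + (fh.2 y - fh.2 x) = 0) ∧
        ∀ p ∈ I, fh.2 p.1 = fh.2 p.2 := by
      intro fh h0
      constructor
      · intro x l y he
        have h1 := congrArg (fun w => (w.1 : Q × L × Q → ZMod 2) (x, l, y)) h0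
        simp only [hΨ, psi, LinearMap.coe_mk, AddHom.coe_mk, Pi.add_apply, pull, cob, if_pos he,
          Prod.fst_zero, Submodule.coe_zero, Pi.zero_apply] at h1
        exact h1
      · intro p hp
        have h1 := congrArg (fun w => (w.2 : ↥I → ZMod 2) ⟨p, hp⟩) h0
        simp only [hΨ, psi, LinearMap.coe_mk, AddHom.coe_mk, Prod.snd_zero, Pi.zero_apply] at h1
        exact sub_eq_zero.mp h1
    have hinv : ∀ fh : Z1 ℓ (mapE π E) (mapC π C) × (Q → ZMod 2), Ψ fh = 0 →
        ∀ x y, R x y → fh.2 x = fh.2 y := by
      intro fh h0 x y hxy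
      obtain ⟨h1, h2⟩ := hker fh h0
      let S : Setoid Q := R ⊓ Setoid.ker fh.2
      have hS : ∀ x y, S x y ↔ R x y ∧ fh.2 x = fh.2 y := by
        intro x y
        rfl
      have h3 : S x y := by
        rw [hR, foldRel_iff] at hxy
        refine hxy S ?_ ?_
        · intro p hp
          rw [hS]
          exact ⟨foldRel_I E I p hp, h2 p hp⟩
        · intro x l y x' y' he he'
          have hf := foldRel_fold E I x l y x' y' he he'
          have ha := h1 x l y he
          have hb := h1 x' l y' he'
          constructor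
          · intro hx
            rw [hS] at hx ⊢
            have hy : R y y' := hf.1 hx.1
            refine ⟨hy, ?_⟩
            have e1 : π x = π x' := (hπR _ _).mpr hx.1
            have e2 : π y = π y' := (hπR _ _).mpr hy
            rw [← e1, ← e2] at hb
            have e3 := hx.2
            have : fh.2 y - fh.2 x = fh.2 y' - fh.2 x' := by
              have := ha.trans hb.symm
              exact add_left_cancel this
            rw [e3] at this
            exact sub_left_injective this
          · intro hy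
            rw [hS] at hy ⊢
            have hx : R x x' := hf.2 hy.1
            refine ⟨hx, ?_⟩
            have e1 : π x = π x' := (hπR _ _).mpr hx
            have e2 : π y = π y' := (hπR _ _).mpr hy.1
            rw [← e1, ← e2] at hb
            have e3 := hy.2
            have : fh.2 y - fh.2 x = fh.2 y' - fh.2 x' := by
              have := ha.trans hb.symm
              exact add_left_cancel this
            rw [e3] at this
            exact sub_right_injective this
      exact ((hS x y).mp h3).2
    have hkerle : Module.finrank (ZMod 2) (LinearMap.ker Ψ) ≤ Fintype.card Q' := by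
      let Θ : LinearMap.ker Ψ →ₗ[ZMod 2] (Q' → ZMod 2) :=
        (LinearMap.funLeft (ZMod 2) (ZMod 2) (Quotient.out : Q' → Q)).comp
          ((LinearMap.snd (ZMod 2) _ _).comp (LinearMap.ker Ψ).subtype)
      have hΘ : Function.Injective Θ := by
        rw [injective_iff_map_eq_zero]
        rintro ⟨⟨f, h⟩, hfh⟩ h0
        have hfh' : Ψ (f, h) = 0 := hfh
        have hh : h = 0 := by
          funext x
          have h1 := congrFun h0 (π x)
          have h2 : h (Quotient.out (π x)) = 0 := h1
          have h3 : R (Quotient.out (π x)) x := by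
            rw [← hπR]
            exact Quotient.out_eq _
          have h4 := hinv (f, h) hfh' _ _ h3
          simp only at h4
          rw [Pi.zero_apply, ← h4, h2]
        subst hh
        have hf : f = 0 := by
          apply Subtype.ext
          funext e
          by_cases he : e ∈ mapE π E
          · obtain ⟨x, l, y, h1, rfl⟩ := (mem_mapE π E e).mp he
            have h2 := (hker (f, 0) hfh').1 x l y h1
            simpa using h2
          · exact f.2.1 e he
        subst hf
        rfl
      have := LinearMap.finrank_le_finrank_of_injective hΘ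
      rwa [Module.finrank_pi] at this
    rw [hdom] at hrn
    omega

end Crest.Agent.FPQuot
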