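import Crest.Agent.FPSpec

/-!
# RF1: the group `Γ` is residually finite (from `Spec.Hall`)
-/

set_option autoImplicit false

namespace Crest.Agent.FPRF1

open Crest.Agent.FP

/-! ### reduced words in a free group -/

section words

variable {A : Type}

theorem mk_replicate_true (c : A) (n : ℕ) :
    (FreeGroup.mk (List.replicate n (c, true)) : FreeGroup A) = FreeGroup.of c ^ n := by
  induction n with
  | zero => simp [FreeGroup.one_eq_mk]
  | succ n ih =>
    rw [pow_succ', ← ih, List.replicate_succ, FreeGroup.of, FreeGroup.mul_mk]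
    rfl

theorem mk_replicate_false (c : A) (n : ℕ) :
    (FreeGroup.mk (List.replicate n (c, false)) : FreeGroup A) = ((FreeGroup.of c)⁻¹) ^ n := by
  induction n with
  | zero => simp [FreeGroup.one_eq_mk]
  | succ n ih =>
    rw [pow_succ', ← ih, List.replicate_succ, FreeGroup.of, FreeGroup.inv_mk, FreeGroup.mul_mk]
    rfl

theorem mk_replicate (c : A) (n : ℤ) :
    (FreeGroup.mk (List.replicate n.natAbs (c, decide (0 < n))) : FreeGroup A)
      = FreeGroup.of c ^ n := by
  rcases lt_trichotomy 0 n with h | h | h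
  · obtain ⟨m, rfl⟩ := Int.eq_ofNat_of_zero_le h.le
    rw [decide_eq_true h, mk_replicate_true]
    simp
  · subst h
    simp [FreeGroup.one_eq_mk]
  · obtain ⟨m, hm⟩ := Int.eq_ofNat_of_zero_le (neg_nonneg.mpr h.le)
    have hn : n = -(m : ℤ) := by omega
    have h' : decide (0 < n) = false := decide_eq_false (by omega)
    rw [h', mk_replicate_false, hn]
    simp

/-- the list of letters of a product of powers. -/
def wl : List (A × ℤ) → List (A × Bool)
  | [] => []
  | (c, n) :: M => List.replicate n.natAbs (c, decide (0 < n)) ++ wl M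

/-- a product of powers. -/
def wp : List (A × ℤ) → FreeGroup A
  | [] => 1
  | (c, n) :: M => FreeGroup.of c ^ n * wp M

theorem mk_wl (L : List (A × ℤ)) : (FreeGroup.mk (wl L) : FreeGroup A) = wp L := by
  induction L with
  | nil => simp [wl, wp, FreeGroup.one_eq_mk]
  | cons x M ih =>
    obtain ⟨c, n⟩ := x
    rw [wl, wp, ← ih, ← mk_replicate, FreeGroup.mul_mk]

/-- all exponents are nonzero and consecutive letters differ. -/
def WRed : List (A × ℤ) → Prop
  | [] => True
  | (c, n) :: M => n ≠ 0 ∧ (∀ x ∈ M.head?, x.1 ≠ c) ∧ WRed M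

theorem wl_head (L : List (A × ℤ)) (h : WRed L) :
    ∀ y ∈ (wl L).head?, ∃ x ∈ L.head?, x.1 = y.1 := by
  cases L with
  | nil => simp [wl]
  | cons x M =>
    obtain ⟨c, n⟩ := x
    intro y hy
    refine ⟨(c, n), by simp, ?_⟩
    have hn : n.natAbs ≠ 0 := by
      intro h0
      exact h.1 (Int.natAbs_eq_zero.mp h0)
    obtain ⟨m, hm⟩ := Nat.exists_eq_succ_of_ne_zero hn
    rw [wl, hm, Nat.succ_eq_add_one, List.replicate_succ] at hy
    simp only [List.cons_append, List.head?_cons, Option.mem_def, Option.some.injEq] at hy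
    rw [← hy]

theorem wl_reduced (L : List (A × ℤ)) (h : WRed L) : FreeGroup.IsReduced (wl L) := by
  induction L with
  | nil => exact FreeGroup.IsReduced.nil
  | cons x M ih =>
    obtain ⟨c, n⟩ := x
    obtain ⟨hn, hM, hr⟩ := h
    unfold FreeGroup.IsReduced
    rw [wl, List.isChain_append]
    refine ⟨?_, ih hr, ?_⟩
    · exact List.isChain_replicate_of_rel _ (fun _ => rfl)
    · intro a ha b hb hab
      exfalso
      obtain ⟨x, hx, hxb⟩ := wl_head M hr b hb
      have ha2 : a = (c, decide (0 < n)) := by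
        have := List.mem_of_mem_getLast? ha
        exact List.eq_of_mem_replicate this
      apply hM x hx
      rw [hxb, ← hab, ha2]

theorem wp_ne_one (L : List (A × ℤ)) (h : WRed L) (hL : L ≠ []) : wp L ≠ 1 := by
  classical
  intro h1
  rw [← mk_wl] at h1
  have h2 := (wl_reduced L h).reduce_eq
  have h3 : FreeGroup.reduce (wl L) = [] := by
    have h4 := congrArg FreeGroup.toWord h1
    rwa [FreeGroup.toWord_mk, FreeGroup.toWord_one] at h4
  rw [h3] at h2
  cases L with
  | nil => exact hL rfl
  | cons x M =>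
    obtain ⟨c, n⟩ := x
    have hn : n.natAbs ≠ 0 := by
      intro h0
      exact h.1 (Int.natAbs_eq_zero.mp h0)
    obtain ⟨m, hm⟩ := Nat.exists_eq_succ_of_ne_zero hn
    rw [wl, hm, Nat.succ_eq_add_one, List.replicate_succ] at h2
    simp at h2

end words

/-! ### the free subgroup -/

section base

variable {K : ℕ}

/-- the generators of the base group. -/
abbrev Al (K : ℕ) : Type := {j : ZMod K // j ≠ 0} ⊕ (Unit ⊕ ZMod K)

noncomputable def la (j : ZMod K) : FreeGroup (Al K) := by
  classical exact if h : j = 0 then 1 else FreeGroup.of (Sum.inl ⟨j, h⟩)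

def lg : FreeGroup (Al K) := FreeGroup.of (Sum.inr (Sum.inl ()))

def ly (j : ZMod K) : FreeGroup (Al K) := FreeGroup.of (Sum.inr (Sum.inr j))

noncomputable def lt (j : ZMod K) : FreeGroup (Al K) := la (j + 1) * (la j)⁻¹ * lg⁻¹

theorem la_zero : (la 0 : FreeGroup (Al K)) = 1 := by
  simp [la]

theorem la_of (j : {j : ZMod K // j ≠ 0}) : la j.1 = FreeGroup.of (Sum.inl j : Al K) := by
  simp [la, j.2]

/-- the associated subgroup. -/
def T : Subgroup (FreeGroup (Al K)) := Subgroup.closure (Set.range lt ∪ Set.range ly)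

def incf : Al K → Gam K
  | Sum.inl j => Gam.a j.1
  | Sum.inr (Sum.inl _) => Gam.g
  | Sum.inr (Sum.inr j) => Gam.y j

/-- the natural map to `Γ`. -/
def inc : FreeGroup (Al K) →* Gam K := FreeGroup.lift incf

theorem inc_la (j : ZMod K) : inc (la j) = Gam.a j := by
  by_cases h : j = 0
  · subst h
    rw [la_zero, map_one, Gam.a0]
  · have := la_of ⟨j, h⟩
    simp only at this
    rw [this]
    simp [inc, incf]

theorem inc_lg : inc (lg : FreeGroup (Al K)) = Gam.g := by
  simp [inc, lg, incf]

theorem inc_ly (j : ZMod K) : inc (ly j) = Gam.y j := by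
  simp [inc, ly, incf]

theorem comm_T (t : FreeGroup (Al K)) (ht : t ∈ (T : Subgroup (FreeGroup (Al K)))) :
    Commute (Gam.z : Gam K) (inc t) := by
  unfold T at ht
  induction ht using Subgroup.closure_induction with
  | mem x hx =>
    rcases hx with ⟨j, rfl⟩ | ⟨j, rfl⟩
    · simp only [lt, map_mul, map_inv, inc_la, inc_lg]
      exact Gam.zt j
    · rw [inc_ly]
      exact Gam.zy j
  | one => rw [map_one]; exact Commute.one_right _
  | mul x y _ _ hx hy => rw [map_mul]; exact hx.mul_right hy
  | inv x _ hx => rw [map_inv]; exact hx.inv_right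

/-- the value of an alternating word. -/
def val : List (ℤ × FreeGroup (Al K)) → Gam K
  | [] => 1
  | (n, h) :: M => Gam.z ^ n * inc h * val M

theorem val_append (L M : List (ℤ × FreeGroup (Al K))) : val (L ++ M) = val L * val M := by
  induction L with
  | nil => simp [val]
  | cons x L ih =>
    obtain ⟨n, h⟩ := x
    rw [List.cons_append, val, val, ih]
    simp only [mul_assoc]

theorem exists_val (γ : Gam K) : ∃ L, γ = val L := by
  have key : ∀ L : List (ℤ × FreeGroup (Al K)), ∃ M, (val L)⁻¹ = val M := by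
    intro L
    induction L with
    | nil => exact ⟨[], by simp [val]⟩
    | cons x L ih =>
      obtain ⟨n, h⟩ := x
      obtain ⟨M, hM⟩ := ih
      refine ⟨M ++ [(0, h⁻¹), (-n, 1)], ?_⟩
      rw [val_append, ← hM]
      simp [val, mul_inv_rev, mul_assoc]
  let S : Subgroup (Gam K) :=
    { carrier := {γ | ∃ L, γ = val L}
      mul_mem' := by
        rintro _ _ ⟨L, rfl⟩ ⟨M, rfl⟩
        exact ⟨L ++ M, (val_append L M).symm⟩
      one_mem' := ⟨[], rfl⟩
      inv_mem' := by
        rintro _ ⟨L, rfl⟩
        obtain ⟨M, hM⟩ := key L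
        exact ⟨M, hM⟩ }
  have : γ ∈ S := by
    apply Gam.mem_of_gens S
    · intro j
      exact ⟨[(0, la j)], by simp [val, inc_la]⟩
    · intro j
      exact ⟨[(0, ly j)], by simp [val, inc_ly]⟩
    · exact ⟨[(0, lg)], by simp [val, inc_lg]⟩
    · exact ⟨[(1, 1)], by simp [val]⟩
  exact this

/-- reduced alternating words. -/
def GRed : List (ℤ × FreeGroup (Al K)) → Prop
  | [] => True
  | (n, h) :: M => n ≠ 0 ∧ (M ≠ [] → h ∉ (T : Subgroup (FreeGroup (Al K)))) ∧ GRed M

theorem exists_red (L : List (ℤ × FreeGroup (Al K))) :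
    ∀ h0 : FreeGroup (Al K), ∃ (h0' : FreeGroup (Al K)) (L' : List (ℤ × FreeGroup (Al K))),
      inc h0 * val L = inc h0' * val L' ∧ GRed L' := by
  induction L with
  | nil => exact fun h0 => ⟨h0, [], rfl, trivial⟩
  | cons x L ih =>
    intro h0
    obtain ⟨n, h⟩ := x
    obtain ⟨h', M, hM, hr⟩ := ih h
    have e1 : inc h0 * val ((n, h) :: L) = inc h0 * (Gam.z ^ n * (inc h' * val M)) := by
      rw [val, mul_assoc (Gam.z ^ n), hM]
    by_cases hn : n = 0
    · refine ⟨h0 * h', M, ?_, hr⟩
      rw [e1, hn, map_mul]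
      simp [mul_assoc]
    cases M with
    | nil =>
      refine ⟨h0, [(n, h')], ?_, hn, by simp, trivial⟩
      rw [e1]
      simp [val]
    | cons x2 M =>
      obtain ⟨n2, h2⟩ := x2
      obtain ⟨hn2, hM2, hr2⟩ := hr
      by_cases hT : h' ∈ (T : Subgroup (FreeGroup (Al K)))
      · have e2 : Gam.z ^ n * (inc h' * val ((n2, h2) :: M)) =
            Gam.z ^ (n + n2) * (inc (h' * h2) * val M) := by
          have hc : inc h' * (Gam.z : Gam K) ^ n2 = Gam.z ^ n2 * inc h' :=
            ((comm_T h' hT).zpow_left n2).eq.symm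
          rw [val, map_mul, zpow_add]
          calc Gam.z ^ n * (inc h' * (Gam.z ^ n2 * inc h2 * val M))
              = Gam.z ^ n * ((inc h' * Gam.z ^ n2) * inc h2 * val M) := by
                simp only [mul_assoc]
            _ = _ := by rw [hc]; simp only [mul_assoc]
        by_cases hn3 : n + n2 = 0
        · refine ⟨h0 * (h' * h2), M, ?_, hr2⟩
          rw [e1, e2, hn3, map_mul inc h0]
          simp [mul_assoc]
        · refine ⟨h0, (n + n2, h' * h2) :: M, ?_, hn3, ?_, hr2⟩
          · rw [e1, e2, val]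
            simp only [mul_assoc]
          · intro hne hmem
            apply hM2 hne
            have := T.mul_mem (T.inv_mem hT) hmem
            rwa [inv_mul_cancel_left] at this
      · refine ⟨h0, (n, h') :: (n2, h2) :: M, ?_, hn, fun _ => hT, hn2, hM2, hr2⟩
        rw [e1]
        simp only [val, mul_assoc]

end base

/-! ### the finite models -/

section model

variable {K : ℕ} {F F' : Type} (η : FreeGroup (Al K) →* Equiv.Perm F) (x0 : F)
  (ρ' : FreeGroup F →* Equiv.Perm F')

/-- the action of the base group. -/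
def actH : FreeGroup (Al K) →* Equiv.Perm (Equiv.Perm F × F') where
  toFun h := (Equiv.mulLeft (η h)).prodCongr (Equiv.refl _)
  map_one' := by ext p : 1; simp
  map_mul' h h' := by
    ext p : 1
    rw [map_mul, Equiv.Perm.mul_apply]
    obtain ⟨a, b⟩ := p
    simp [Prod.map, mul_assoc]

theorem actH_apply (h : FreeGroup (Al K)) (p : Equiv.Perm F × F') :
    actH η h p = (η h * p.1, p.2) := rfl

/-- the action of `z`. -/
def actz : Equiv.Perm (Equiv.Perm F × F') where
  toFun p := (p.1, ρ' (FreeGroup.of (p.1⁻¹ x0)) p.2)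
  invFun p := (p.1, (ρ' (FreeGroup.of (p.1⁻¹ x0)))⁻¹ p.2)
  left_inv p := by simp
  right_inv p := by simp

theorem actz_apply (p : Equiv.Perm F × F') :
    actz x0 ρ' p = (p.1, ρ' (FreeGroup.of (p.1⁻¹ x0)) p.2) := rfl

theorem actz_inv_apply (p : Equiv.Perm F × F') :
    (actz x0 ρ')⁻¹ p = (p.1, (ρ' (FreeGroup.of (p.1⁻¹ x0)))⁻¹ p.2) := rfl

theorem actz_zpow (n : ℤ) (p : Equiv.Perm F × F') :
    (actz x0 ρ' ^ n) p = (p.1, ρ' (FreeGroup.of (p.1⁻¹ x0) ^ n) p.2) := by
  induction n using Int.induction_on generalizing p with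
  | zero => simp
  | succ n ih =>
    rw [zpow_add_one, Equiv.Perm.mul_apply, actz_apply, ih]
    simp [zpow_add_one]
  | pred n ih =>
    rw [zpow_sub_one, Equiv.Perm.mul_apply, actz_inv_apply, ih]
    simp [zpow_sub_one]

theorem actz_comm (h : FreeGroup (Al K)) (hh : η h x0 = x0) :
    Commute (actz x0 ρ') (actH η h) := by
  ext p : 1
  rw [Equiv.Perm.mul_apply, Equiv.Perm.mul_apply, actH_apply, actz_apply, actz_apply, actH_apply]
  have : (η h * p.1)⁻¹ x0 = p.1⁻¹ x0 := by
    rw [mul_inv_rev, Equiv.Perm.mul_apply]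
    congr 1
    rw [Equiv.Perm.inv_eq_iff_eq]
    exact hh.symm
  simp only [this]

/-- the finite `Γ`-set. -/
noncomputable def dat (h1 : ∀ j, η (lt j) x0 = x0) (h2 : ∀ j, η (ly j) x0 = x0) :
    GenData K (Equiv.Perm (Equiv.Perm F × F')) where
  a j := actH η (la j)
  y j := actH η (ly j)
  g := actH η lg
  z := actz x0 ρ'
  a0 := by rw [la_zero, map_one]
  zt j := by
    rw [← map_inv, ← map_inv, ← map_mul, ← map_mul]
    exact actz_comm η x0 ρ' _ (h1 j)
  zy j := actz_comm η x0 ρ' _ (h2 j)

theorem lift_inc (h1 : ∀ j, η (lt j) x0 = x0) (h2 : ∀ j, η (ly j) x0 = x0)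
    (h : FreeGroup (Al K)) : Gam.lift (dat η x0 ρ' h1 h2) (inc h) = actH η h := by
  have : (Gam.lift (dat η x0 ρ' h1 h2)).comp inc = actH η := by
    apply FreeGroup.ext_hom
    intro s
    rcases s with j | _ | j
    · rw [MonoidHom.comp_apply, ← la_of, inc_la, Gam.lift_a]
      rfl
    · change (Gam.lift (dat η x0 ρ' h1 h2)) (inc lg) = actH η lg
      rw [inc_lg, Gam.lift_g]
      rfl
    · change (Gam.lift (dat η x0 ρ' h1 h2)) (inc (ly j)) = actH η (ly j)
      rw [inc_ly, Gam.lift_y]
      rfl
  exact DFunLike.congr_fun this h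

/-- product of the base group elements. -/
def P : List (ℤ × FreeGroup (Al K)) → FreeGroup (Al K)
  | [] => 1
  | (_, h) :: M => h * P M

/-- the sequence of letters. -/
def W : List (ℤ × FreeGroup (Al K)) → List (F × ℤ)
  | [] => []
  | (n, h) :: M => ((η (h * P M))⁻¹ x0, n) :: W M

theorem eval (h1 : ∀ j, η (lt j) x0 = x0) (h2 : ∀ j, η (ly j) x0 = x0)
    (L : List (ℤ × FreeGroup (Al K))) (m : F') :
    Gam.lift (dat η x0 ρ' h1 h2) (val L) (1, m) = (η (P L), ρ' (wp (W η x0 L)) m) := by
  induction L with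
  | nil => simp [val, P, W, wp]
  | cons x L ih =>
    obtain ⟨n, h⟩ := x
    rw [val, map_mul, map_mul, Equiv.Perm.mul_apply, Equiv.Perm.mul_apply, ih, lift_inc, map_zpow,
      Gam.lift_z, actH_apply]
    change (actz x0 ρ' ^ n) _ = _
    rw [actz_zpow]
    simp only [P, W, wp, map_mul, Equiv.Perm.mul_apply]

theorem W_red (L : List (ℤ × FreeGroup (Al K))) (hL : GRed L)
    (hη : ∀ x ∈ L, x.2 ∉ (T : Subgroup (FreeGroup (Al K))) → η x.2 x0 ≠ x0) :
    WRed (W η x0 L) := by
  induction L with
  | nil => trivial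
  | cons x L ih =>
    obtain ⟨n, h⟩ := x
    obtain ⟨hn, hM, hr⟩ := hL
    refine ⟨hn, ?_, ih hr (fun x hx => hη x (List.mem_cons_of_mem _ hx))⟩
    cases L with
    | nil => simp [W]
    | cons x2 M =>
      obtain ⟨n2, h2⟩ := x2
      intro y hy
      simp only [W, List.head?_cons, Option.mem_def, Option.some.injEq] at hy
      rw [← hy]
      simp only
      intro heq
      apply hη (n, h) (by simp) (hM (by simp))
      simp only [P] at heq
      rw [map_mul η h, mul_inv_rev, Equiv.Perm.mul_apply] at heq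
      have := (η (h2 * P M))⁻¹.injective heq
      rw [eq_comm, Equiv.Perm.inv_eq_iff_eq] at this
      exact this.symm

end model

theorem main (h : Spec.Hall) : Spec.RF1 := by
  intro K _ hK γ hγ
  classical
  obtain ⟨L0, rfl⟩ := exists_val γ
  obtain ⟨h0, L, e, hr⟩ := exists_red L0 1
  rw [map_one, one_mul] at e
  rw [e] at hγ ⊢
  by_cases hL : L = []
  · -- the element is in the base group
    subst hL
    have hh : h0 ≠ 1 := by
      rintro rfl
      exact hγ (by simp [val])
    obtain ⟨F, hF, η, x0, -, h2⟩ := h (Al K) inferInstance ⊥ ∅ (by simp) {h0}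
      (by simpa [Subgroup.mem_bot] using hh)
    refine ⟨F, hF, Gam.lift
      { a := fun j => η (la j), y := fun j => η (ly j), g := η lg, z := 1,
        a0 := by rw [la_zero, map_one], zt := fun j => Commute.one_left _,
        zy := fun j => Commute.one_left _ }, ?_⟩
    have key : ∀ x : FreeGroup (Al K), (Gam.lift
      { a := fun j => η (la j), y := fun j => η (ly j), g := η lg, z := 1,
        a0 := by rw [la_zero, map_one], zt := fun j => Commute.one_left _,
        zy := fun j => Commute.one_left _ } : Gam K →* Equiv.Perm F) (inc x) = η x := by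
      intro x
      refine DFunLike.congr_fun (f := (Gam.lift
        { a := fun j => η (la j), y := fun j => η (ly j), g := η lg, z := 1,
          a0 := by rw [la_zero, map_one], zt := fun j => Commute.one_left _,
          zy := fun j => Commute.one_left _ } : Gam K →* Equiv.Perm F).comp inc) ?_ x
      apply FreeGroup.ext_hom
      intro s
      rcases s with j | _ | j
      · rw [MonoidHom.comp_apply, ← la_of, inc_la, Gam.lift_a]
      · rw [MonoidHom.comp_apply]
        change _ = η lg
        change Gam.lift _ (inc lg) = _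
        rw [inc_lg, Gam.lift_g]
      · rw [MonoidHom.comp_apply]
        change _ = η (ly j)
        change Gam.lift _ (inc (ly j)) = _
        rw [inc_ly, Gam.lift_y]
    rw [val, mul_one, key]
    intro h3
    apply h2 h0 (by simp)
    rw [h3]
    rfl
  · -- a reduced word of positive length
    obtain ⟨F, hF, η, x0, h1, h2⟩ := h (Al K) inferInstance T
      ((Finset.univ.image lt) ∪ (Finset.univ.image ly))
      (by
        intro t ht
        rw [Finset.mem_union, Finset.mem_image, Finset.mem_image] at ht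
        apply Subgroup.subset_closure
        rcases ht with ⟨j, -, rfl⟩ | ⟨j, -, rfl⟩
        · exact Or.inl ⟨j, rfl⟩
        · exact Or.inr ⟨j, rfl⟩)
      ((L.map Prod.snd).toFinset.filter (fun x => x ∉ (T : Subgroup (FreeGroup (Al K)))))
      (by
        intro x hx
        exact (Finset.mem_filter.mp hx).2)
    have h1t : ∀ j, η (lt j) x0 = x0 := fun j => h1 _ (by simp)
    have h1y : ∀ j, η (ly j) x0 = x0 := fun j => h1 _ (by simp)
    have hW : WRed (W η x0 L) := by
      apply W_red η x0 L hr
      intro x hx hxT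
      apply h2
      rw [Finset.mem_filter, List.mem_toFinset, List.mem_map]
      exact ⟨⟨x, hx, rfl⟩, hxT⟩
    have hWne : W η x0 L ≠ [] := by
      cases L with
      | nil => exact absurd rfl hL
      | cons x L => obtain ⟨n, h⟩ := x; simp [W]
    have hw := wp_ne_one _ hW hWne
    obtain ⟨F', hF', ρ', x0', -, h4⟩ := h F hF ⊥ ∅ (by simp) {wp (W η x0 L)}
      (by simpa [Subgroup.mem_bot] using hw)
    refine ⟨Equiv.Perm F × F', inferInstance, Gam.lift (dat η x0 ρ' h1t h1y), ?_⟩
    intro h5
    have h6 := eval η x0 ρ' h1t h1y L x0'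
    have h7 : Gam.lift (dat η x0 ρ' h1t h1y) (inc h0 * val L) (1, x0') = (1, x0') := by
      rw [h5]; rfl
    rw [map_mul, Equiv.Perm.mul_apply, h6, lift_inc, actH_apply] at h7
    exact h4 _ (by simp) (congrArg Prod.snd h7)

end Crest.Agent.FPRF1
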