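import Crest.Agent.FPSpec

/-!
# rid 191, module RF2
-/

set_option autoImplicit false

namespace Crest.Agent.FPRF2

open Crest.Agent.FP

theorem noncentral {D : Type} [Fintype D] [DecidableEq D] (h3 : 3 ≤ Fintype.card D)
    (σ : Equiv.Perm D) (hσ : σ ≠ 1) : ∃ τ : Equiv.Perm D, τ * σ ≠ σ * τ := by
  obtain ⟨x, hx⟩ : ∃ x, σ x ≠ x := by
    by_contra h
    push Not at h
    exact hσ (Equiv.ext h)
  obtain ⟨y, hy⟩ : ∃ y, y ∉ ({x, σ x} : Finset D) := by
    by_contra h
    push Not at h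
    have h1 : (Finset.univ : Finset D) ⊆ {x, σ x} := fun y _ => h y
    have h2 := Finset.card_le_card h1
    have h4 : ({x, σ x} : Finset D).card ≤ 2 := Finset.card_le_two
    rw [Finset.card_univ] at h2
    omega
  rw [Finset.mem_insert, Finset.mem_singleton, not_or] at hy
  refine ⟨Equiv.swap (σ x) y, fun h => ?_⟩
  have h1 := congrArg (fun e : Equiv.Perm D => e x) h
  simp only [Equiv.Perm.mul_apply, Equiv.swap_apply_left] at h1
  rw [Equiv.swap_apply_of_ne_of_ne (Ne.symm hx) (Ne.symm hy.1)] at h1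
  exact hy.2 h1

def cyc (K n : ℕ) : GenData K (Equiv.Perm (ZMod n)) where
  a := fun _ => 1
  y := fun _ => 1
  g := 1
  z := Equiv.addRight 1
  a0 := rfl
  zt := fun j => by simp
  zy := fun j => Commute.one_right _

theorem cyc_pow (K n : ℕ) (i : ℕ) :
    (Gam.lift (cyc K n) ((Gam.z : Gam K) ^ i)) 0 = (i : ZMod n) := by
  rw [map_pow, Gam.lift_z]
  induction i with
  | zero => simp
  | succ i ih =>
    rw [pow_succ', Equiv.Perm.mul_apply, ih]
    simp [cyc]

theorem main (h : Spec.RF1) : Spec.RF2 := by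
  classical
  intro K iK hK F hF N
  have h1 : ∀ γ : F, ∃ (D : Type) (_ : Fintype D) (ρ : Gam K →* Equiv.Perm D), ρ γ.1 ≠ 1 :=
    fun γ => h K iK hK γ.1 (fun h => hF (h ▸ γ.2))
  choose D iD ρ hρ using h1
  let r1 : Gam K →* Equiv.Perm (Σ γ : F, D γ) :=
    (Equiv.Perm.sigmaCongrRightHom D).comp (MonoidHom.pi ρ)
  let r2 : Gam K →* Equiv.Perm (ZMod (N + 3)) := Gam.lift (cyc K (N + 3))
  let r : Gam K →* Equiv.Perm ((Σ γ : F, D γ) ⊕ ZMod (N + 3)) :=
    (Equiv.Perm.sumCongrHom _ _).comp (MonoidHom.prod r1 r2)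
  haveI : Fintype (ZMod (N + 3)) := ZMod.fintype (N + 3)
  refine ⟨(Σ γ : F, D γ) ⊕ ZMod (N + 3), inferInstance, inferInstance, r, ?_, ?_⟩
  · intro γ hγ
    apply noncentral
    · rw [Fintype.card_sum, ZMod.card]
      omega
    · intro hr
      apply hρ ⟨γ, hγ⟩
      apply Equiv.ext
      intro d
      have h2 := congrArg (fun e : Equiv.Perm ((Σ γ : F, D γ) ⊕ ZMod (N + 3)) =>
        e (Sum.inl ⟨⟨γ, hγ⟩, d⟩)) hr
      simp only [r, r1, MonoidHom.comp_apply, MonoidHom.prod_apply, Equiv.Perm.sumCongrHom_apply,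
        Equiv.Perm.coe_one, id] at h2
      simpa using h2
  · intro i hi hiN hr
    have h2 := congrArg (fun e : Equiv.Perm ((Σ γ : F, D γ) ⊕ ZMod (N + 3)) =>
        e (Sum.inr 0)) hr
    simp only [r, MonoidHom.comp_apply, MonoidHom.prod_apply, Equiv.Perm.sumCongrHom_apply] at h2
    have h3 : r2 ((Gam.z : Gam K) ^ i) 0 = 0 := by
      simpa using h2
    rw [cyc_pow] at h3
    have h4 : ((i : ℕ) : ZMod (N + 3)) = 0 := h3
    rw [ZMod.natCast_eq_zero_iff] at h4
    have := Nat.le_of_dvd hi h4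
    omega

end Crest.Agent.FPRF2
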