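import Crest.Agent.FPSpec

/-!
# Rid 191 (S0291): module RELT, relative property (T) for permutation representations
-/

set_option autoImplicit false
set_option linter.unusedSectionVars false

namespace Crest.Agent.FPRelT

open Crest.Agent.FP

section fourier

variable {p : ℕ} [Fact p.Prime]

/-- the standard character -/
noncomputable def ch (p : ℕ) [Fact p.Prime] : AddChar (ZMod p) ℂ := ZMod.stdAddChar

theorem ch_norm (x : ZMod p) : ‖ch p x‖ = 1 := AddChar.norm_apply _ _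

theorem ch_conj (x : ZMod p) : (starRingEnd ℂ) (ch p x) = ch p (-x) :=
  (AddChar.map_neg_eq_conj _ _).symm

theorem ch_sum (b : ZMod p) : ∑ a : ZMod p, ch p (a * b) = if b = 0 then (p : ℂ) else 0 := by
  have h := AddChar.sum_mulShift (ψ := ch p) b (ZMod.isPrimitive_stdAddChar p)
  rw [h, ZMod.card]
  push_cast
  rfl

theorem parseval1 (G : ZMod p → ℂ) :
    ∑ a : ZMod p, ‖∑ s : ZMod p, ch p (-(a * s)) * G s‖ ^ 2 = p * ∑ s, ‖G s‖ ^ 2 := by
  apply Complex.ofReal_injective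
  push_cast
  have h1 : ∀ a : ZMod p, ((‖∑ s : ZMod p, ch p (-(a * s)) * G s‖ : ℂ)) ^ 2 =
      ∑ s : ZMod p, ∑ s' : ZMod p, (G s * (starRingEnd ℂ) (G s')) * ch p (a * (s' - s)) := by
    intro a
    rw [← Complex.mul_conj', map_sum, Finset.sum_mul_sum]
    refine Finset.sum_congr rfl fun s _ => Finset.sum_congr rfl fun s' _ => ?_
    rw [map_mul, ch_conj, mul_sub, sub_eq_add_neg, AddChar.map_add_eq_mul, neg_neg]
    ring
  simp_rw [h1]
  rw [Finset.sum_comm, Finset.mul_sum]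
  refine Finset.sum_congr rfl fun s _ => ?_
  rw [Finset.sum_comm]
  simp_rw [← Finset.mul_sum, ch_sum]
  rw [Finset.sum_eq_single s]
  · rw [sub_self, if_pos rfl, Complex.mul_conj']
    ring
  · intro s' _ hs'
    rw [if_neg (sub_ne_zero.mpr hs'), mul_zero]
  · intro h
    exact absurd (Finset.mem_univ s) h

theorem parseval2 (F : ZMod p → ZMod p → ℂ) :
    ∑ ab : ZMod p × ZMod p, ‖∑ s : ZMod p, ∑ t : ZMod p,
      ch p (-(ab.1 * s + ab.2 * t)) * F s t‖ ^ 2 = (p : ℝ) ^ 2 * ∑ s, ∑ t, ‖F s t‖ ^ 2 := by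
  have h1 : ∀ a b : ZMod p, ∑ s : ZMod p, ∑ t : ZMod p, ch p (-(a * s + b * t)) * F s t =
      ∑ s : ZMod p, ch p (-(a * s)) * (∑ t : ZMod p, ch p (-(b * t)) * F s t) := by
    intro a b
    refine Finset.sum_congr rfl fun s _ => ?_
    rw [Finset.mul_sum]
    refine Finset.sum_congr rfl fun t _ => ?_
    rw [neg_add, AddChar.map_add_eq_mul]
    ring
  rw [Fintype.sum_prod_type_right]
  simp_rw [h1, parseval1]
  rw [← Finset.mul_sum, Finset.sum_comm]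
  simp_rw [parseval1]
  rw [← Finset.mul_sum]
  ring

end fourier

section proj

variable {p : ℕ} [Fact p.Prime] {X : Type} [Fintype X]

/-- unnormalised projection -/
noncomputable def PP (τ : ZMod p → ZMod p → Equiv.Perm X) (f : X → ℂ) (ab : ZMod p × ZMod p)
    (x : X) : ℂ :=
  ∑ s : ZMod p, ∑ t : ZMod p, ch p (-(ab.1 * s + ab.2 * t)) * f (τ s t x)

/-- spectral measure -/
noncomputable def NN (τ : ZMod p → ZMod p → Equiv.Perm X) (f : X → ℂ) (ab : ZMod p × ZMod p) : ℝ :=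
  ((p : ℝ) ^ 4)⁻¹ * ∑ x, ‖PP τ f ab x‖ ^ 2

theorem NN_nonneg (τ : ZMod p → ZMod p → Equiv.Perm X) (f : X → ℂ) (ab : ZMod p × ZMod p) :
    0 ≤ NN τ f ab := by
  unfold NN
  positivity

theorem p_pos : (0 : ℝ) < p := by exact_mod_cast (Fact.out : p.Prime).pos

theorem sum_PP (τ : ZMod p → ZMod p → Equiv.Perm X) (f : X → ℂ) :
    ∑ ab, ∑ x, ‖PP τ f ab x‖ ^ 2 = (p : ℝ) ^ 4 * ∑ x, ‖f x‖ ^ 2 := by
  rw [Finset.sum_comm]
  have h1 : ∀ x, ∑ ab, ‖PP τ f ab x‖ ^ 2 = (p : ℝ) ^ 2 * ∑ s, ∑ t, ‖f (τ s t x)‖ ^ 2 := fun x =>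
    parseval2 fun s t => f (τ s t x)
  simp_rw [h1]
  rw [← Finset.mul_sum, Finset.sum_comm]
  have h2 : ∀ s, ∑ x, ∑ t, ‖f (τ s t x)‖ ^ 2 = p * ∑ x, ‖f x‖ ^ 2 := by
    intro s
    rw [Finset.sum_comm]
    have h3 : ∀ t, ∑ x, ‖f (τ s t x)‖ ^ 2 = ∑ x, ‖f x‖ ^ 2 := fun t =>
      Equiv.sum_comp (τ s t) fun x => ‖f x‖ ^ 2
    simp_rw [h3]
    rw [Finset.sum_const, Finset.card_univ, ZMod.card, nsmul_eq_mul]
  simp_rw [h2]
  rw [Finset.sum_const, Finset.card_univ, ZMod.card, nsmul_eq_mul]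
  ring

theorem sum_NN (τ : ZMod p → ZMod p → Equiv.Perm X) (f : X → ℂ) :
    ∑ ab, NN τ f ab = ∑ x, ‖f x‖ ^ 2 := by
  unfold NN
  rw [← Finset.mul_sum, sum_PP]
  have := @p_pos p _
  field_simp

theorem PP_sub (τ : ZMod p → ZMod p → Equiv.Perm X) (f g : X → ℂ) (ab : ZMod p × ZMod p) (x : X) :
    PP τ (fun x => f x - g x) ab x = PP τ f ab x - PP τ g ab x := by
  unfold PP
  rw [← Finset.sum_sub_distrib]
  refine Finset.sum_congr rfl fun s _ => ?_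
  rw [← Finset.sum_sub_distrib]
  refine Finset.sum_congr rfl fun t _ => ?_
  ring

/-- translation -/
theorem PP_trans (τ : ZMod p → ZMod p → Equiv.Perm X)
    (hτ : ∀ s t s' t', τ (s + s') (t + t') = τ s t * τ s' t') (f : X → ℂ) (s₀ t₀ : ZMod p)
    (ab : ZMod p × ZMod p) (x : X) :
    PP τ (fun x => f (τ s₀ t₀ x)) ab x = ch p (ab.1 * s₀ + ab.2 * t₀) * PP τ f ab x := by
  unfold PP
  have h1 : ∀ s t, f (τ s₀ t₀ (τ s t x)) = f (τ (s₀ + s) (t₀ + t) x) := by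
    intro s t
    rw [hτ, Equiv.Perm.mul_apply]
  simp_rw [h1]
  rw [← Equiv.sum_comp (Equiv.addLeft s₀)
    (fun s => ∑ t : ZMod p, ch p (-(ab.1 * s + ab.2 * t)) * f (τ s t x))]
  rw [Finset.mul_sum]
  refine Finset.sum_congr rfl fun s _ => ?_
  rw [← Equiv.sum_comp (Equiv.addLeft t₀)
    (fun t => ch p (-(ab.1 * _ + ab.2 * t)) * f (τ _ t x))]
  rw [Finset.mul_sum]
  refine Finset.sum_congr rfl fun t _ => ?_
  simp only [Equiv.coe_addLeft]
  rw [← mul_assoc, ← AddChar.map_add_eq_mul]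
  congr 2
  ring

theorem NN_diff (τ : ZMod p → ZMod p → Equiv.Perm X)
    (hτ : ∀ s t s' t', τ (s + s') (t + t') = τ s t * τ s' t') (f : X → ℂ) (s₀ t₀ : ZMod p) :
    ∑ x, ‖f (τ s₀ t₀ x) - f x‖ ^ 2 =
      ∑ ab : ZMod p × ZMod p, ‖ch p (ab.1 * s₀ + ab.2 * t₀) - 1‖ ^ 2 * NN τ f ab := by
  rw [← sum_NN τ (fun x => f (τ s₀ t₀ x) - f x)]
  refine Finset.sum_congr rfl fun ab _ => ?_
  unfold NN
  rw [mul_left_comm]
  congr 1
  rw [Finset.mul_sum]
  refine Finset.sum_congr rfl fun x _ => ?_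
  rw [PP_sub τ (fun x => f (τ s₀ t₀ x)) f, PP_trans τ hτ, ← mul_pow, ← norm_mul]
  congr 2
  ring

/-- equivariance under a linear change of variables -/
theorem NN_comp (τ : ZMod p → ZMod p → Equiv.Perm X) (v : Equiv.Perm X) (φ : Equiv.Perm (ZMod p × ZMod p))
    (ψ : ZMod p × ZMod p → ZMod p × ZMod p)
    (hv : ∀ s t x, v (τ s t x) = τ (φ (s, t)).1 (φ (s, t)).2 (v x))
    (hφ : ∀ ab st : ZMod p × ZMod p, ab.1 * st.1 + ab.2 * st.2 =
      (ψ ab).1 * (φ st).1 + (ψ ab).2 * (φ st).2) (f : X → ℂ) (ab : ZMod p × ZMod p) :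
    NN τ (fun x => f (v x)) ab = NN τ f (ψ ab) := by
  have h1 : ∀ x, PP τ (fun x => f (v x)) ab x = PP τ f (ψ ab) (v x) := by
    intro x
    have e1 : ∀ F : ZMod p → ZMod p → ℂ, ∑ s, ∑ t, F s t =
        ∑ st : ZMod p × ZMod p, F st.1 st.2 := fun F => (Fintype.sum_prod_type' F).symm
    unfold PP
    rw [e1 (fun s t => ch p (-(ab.1 * s + ab.2 * t)) * f (v (τ s t x))),
      e1 (fun s t => ch p (-((ψ ab).1 * s + (ψ ab).2 * t)) * f (τ s t (v x)))]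
    rw [← Equiv.sum_comp φ
      (fun st => ch p (-((ψ ab).1 * st.1 + (ψ ab).2 * st.2)) * f (τ st.1 st.2 (v x)))]
    refine Finset.sum_congr rfl fun st _ => ?_
    rw [hv, ← hφ]
  unfold NN
  simp_rw [h1]
  rw [Equiv.sum_comp v (fun x => ‖PP τ f (ψ ab) x‖ ^ 2)]

theorem NN_close (τ : ZMod p → ZMod p → Equiv.Perm X) (f g : X → ℂ) (ε : ℝ) (hε : 0 ≤ ε)
    (hf : ∑ x, ‖f x‖ ^ 2 ≤ 1) (hg : ∑ x, ‖g x‖ ^ 2 ≤ 1) (hfg : ∑ x, ‖g x - f x‖ ^ 2 ≤ ε ^ 2)
    (S : Finset (ZMod p × ZMod p)) : |∑ ab ∈ S, NN τ g ab - ∑ ab ∈ S, NN τ f ab| ≤ 2 * ε := by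
  have hp := @p_pos p _
  -- everything over `S ×ˢ univ`
  set D : Finset ((ZMod p × ZMod p) × X) := S ×ˢ Finset.univ with hD
  have hN : ∀ h : X → ℂ, ∑ ab ∈ S, NN τ h ab =
      ((p : ℝ) ^ 4)⁻¹ * ∑ z ∈ D, ‖PP τ h z.1 z.2‖ ^ 2 := by
    intro h
    unfold NN
    rw [← Finset.mul_sum, hD, Finset.sum_product]
  have hB : ∀ h : X → ℂ, ∑ z ∈ D, ‖PP τ h z.1 z.2‖ ^ 2 ≤ (p : ℝ) ^ 4 * ∑ x, ‖h x‖ ^ 2 := by
    intro h
    rw [← sum_PP τ h, ← Fintype.sum_prod_type' (fun ab x => ‖PP τ h ab x‖ ^ 2)]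
    exact Finset.sum_le_univ_sum_of_nonneg fun z => by positivity
  have h1 : |∑ z ∈ D, ‖PP τ g z.1 z.2‖ ^ 2 - ∑ z ∈ D, ‖PP τ f z.1 z.2‖ ^ 2| ≤
      (p : ℝ) ^ 4 * (2 * ε) := by
    rw [← Finset.sum_sub_distrib]
    calc |∑ z ∈ D, (‖PP τ g z.1 z.2‖ ^ 2 - ‖PP τ f z.1 z.2‖ ^ 2)|
        ≤ ∑ z ∈ D, |‖PP τ g z.1 z.2‖ ^ 2 - ‖PP τ f z.1 z.2‖ ^ 2| := Finset.abs_sum_le_sum_abs _ _
      _ ≤ ∑ z ∈ D, ‖PP τ (fun x => g x - f x) z.1 z.2‖ *
            (‖PP τ g z.1 z.2‖ + ‖PP τ f z.1 z.2‖) := by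
          refine Finset.sum_le_sum fun z _ => ?_
          rw [PP_sub]
          have h2 : ‖PP τ g z.1 z.2‖ ^ 2 - ‖PP τ f z.1 z.2‖ ^ 2 =
              (‖PP τ g z.1 z.2‖ - ‖PP τ f z.1 z.2‖) *
                (‖PP τ g z.1 z.2‖ + ‖PP τ f z.1 z.2‖) := by ring
          rw [h2, abs_mul, abs_of_nonneg (add_nonneg (norm_nonneg _) (norm_nonneg _) :
            (0 : ℝ) ≤ ‖PP τ g z.1 z.2‖ + ‖PP τ f z.1 z.2‖)]
          exact mul_le_mul_of_nonneg_right (abs_norm_sub_norm_le _ _)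
            (add_nonneg (norm_nonneg _) (norm_nonneg _))
      _ ≤ Real.sqrt (∑ z ∈ D, ‖PP τ (fun x => g x - f x) z.1 z.2‖ ^ 2) *
            Real.sqrt (∑ z ∈ D, (‖PP τ g z.1 z.2‖ + ‖PP τ f z.1 z.2‖) ^ 2) :=
          Real.sum_mul_le_sqrt_mul_sqrt _ _ _
      _ ≤ ((p : ℝ) ^ 2 * ε) * ((p : ℝ) ^ 2 * 2) := by
          refine mul_le_mul ?_ ?_ (Real.sqrt_nonneg _) (by positivity)
          · refine Real.sqrt_le_iff.mpr ⟨by positivity, ?_⟩
            calc ∑ z ∈ D, ‖PP τ (fun x => g x - f x) z.1 z.2‖ ^ 2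
                ≤ (p : ℝ) ^ 4 * ∑ x, ‖g x - f x‖ ^ 2 := hB _
              _ ≤ (p : ℝ) ^ 4 * ε ^ 2 := mul_le_mul_of_nonneg_left hfg (by positivity)
              _ = ((p : ℝ) ^ 2 * ε) ^ 2 := by ring
          · refine Real.sqrt_le_iff.mpr ⟨by positivity, ?_⟩
            calc ∑ z ∈ D, (‖PP τ g z.1 z.2‖ + ‖PP τ f z.1 z.2‖) ^ 2
                ≤ ∑ z ∈ D, (2 * ‖PP τ g z.1 z.2‖ ^ 2 + 2 * ‖PP τ f z.1 z.2‖ ^ 2) := by
                  refine Finset.sum_le_sum fun z _ => ?_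
                  nlinarith [sq_nonneg (‖PP τ g z.1 z.2‖ - ‖PP τ f z.1 z.2‖)]
              _ = 2 * ∑ z ∈ D, ‖PP τ g z.1 z.2‖ ^ 2 + 2 * ∑ z ∈ D, ‖PP τ f z.1 z.2‖ ^ 2 := by
                  rw [Finset.sum_add_distrib, Finset.mul_sum, Finset.mul_sum]
              _ ≤ 2 * ((p : ℝ) ^ 4 * 1) + 2 * ((p : ℝ) ^ 4 * 1) := by
                  have e1 := (hB g).trans (mul_le_mul_of_nonneg_left hg (by positivity :
                    (0 : ℝ) ≤ (p : ℝ) ^ 4))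
                  have e2 := (hB f).trans (mul_le_mul_of_nonneg_left hf (by positivity :
                    (0 : ℝ) ≤ (p : ℝ) ^ 4))
                  linarith
              _ = ((p : ℝ) ^ 2 * 2) ^ 2 := by ring
      _ = (p : ℝ) ^ 4 * (2 * ε) := by ring
  rw [hN g, hN f, ← mul_sub, abs_mul, abs_of_pos (by positivity : (0 : ℝ) < ((p : ℝ) ^ 4)⁻¹)]
  rw [inv_mul_le_iff₀ (by positivity)]
  exact h1

end proj

theorem ch_big {p : ℕ} [Fact p.Prime] (a : ZMod p) (ha : (p : ℤ) ≤ 6 * |a.valMinAbs|) :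
    1 ≤ ‖ch p a - 1‖ ^ 2 := by
  have hp := @p_pos p _
  have h0 : ch p a = Complex.exp (((2 * Real.pi * a.valMinAbs / p : ℝ) : ℂ) * Complex.I) := by
    have h1 : ch p a = ch p ((a.valMinAbs : ℤ) : ZMod p) := by rw [ZMod.coe_valMinAbs]
    rw [h1, ch, ZMod.stdAddChar_coe]
    congr 1
    push_cast
    ring
  have h2 : ‖ch p a - 1‖ ^ 2 = 2 - 2 * Real.cos (2 * Real.pi * a.valMinAbs / p) := by
    rw [h0, ← Complex.normSq_eq_norm_sq, Complex.normSq_apply]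
    simp only [Complex.sub_re, Complex.exp_ofReal_mul_I_re, Complex.one_re, Complex.sub_im,
      Complex.exp_ofReal_mul_I_im, Complex.one_im, sub_zero]
    nlinarith [Real.sin_sq_add_cos_sq (2 * Real.pi * a.valMinAbs / p)]
  have h3 : Real.cos (2 * Real.pi * a.valMinAbs / p) ≤ 1 / 2 := by
    rw [← Real.cos_abs, ← Real.cos_pi_div_three]
    have h4 : |2 * Real.pi * (a.valMinAbs : ℝ) / p| = 2 * Real.pi * |(a.valMinAbs : ℝ)| / p := by
      rw [abs_div, abs_mul, abs_of_pos (by positivity : (0 : ℝ) < 2 * Real.pi), abs_of_pos hp]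
    rw [h4]
    have h5 : (p : ℝ) ≤ 6 * |(a.valMinAbs : ℝ)| := by exact_mod_cast ha
    have h6 : 2 * |(a.valMinAbs : ℝ)| ≤ p := by
      have h7 := ZMod.natAbs_valMinAbs_le a
      have h8 : 2 * |a.valMinAbs| ≤ (p : ℤ) := by
        rw [Int.abs_eq_natAbs]
        omega
      exact_mod_cast h8
    refine Real.cos_le_cos_of_nonneg_of_le_pi (by positivity) ?_ ?_
    · rw [div_le_iff₀ hp]
      nlinarith [Real.pi_pos]
    · rw [div_le_div_iff₀ (by norm_num) hp]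
      nlinarith [Real.pi_pos]
  rw [h2]
  linarith

theorem main (h : Spec.Meas) : Spec.RelT := by
  intro p hp hp100 X _ τ u l hτ hu hl f ε hε0 hε1 hf hfu hfl hf1 hf2 s t
  have hppos := @p_pos p _
  have hu' : ∀ s t x, u (τ s t x) = τ (s + t) t (u x) := by
    intro s t x
    have := hu s t
    rw [mul_inv_eq_iff_eq_mul] at this
    have h2 := congrArg (fun σ : Equiv.Perm X => σ x) this
    simpa using h2
  have hl' : ∀ s t x, l (τ s t x) = τ s (t + s) (l x) := by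
    intro s t x
    have := hl s t
    rw [mul_inv_eq_iff_eq_mul] at this
    have h2 := congrArg (fun σ : Equiv.Perm X => σ x) this
    simpa using h2
  -- `NN (f ∘ u⁻¹) (a, b) = NN f (a, b + a)`
  have hNu : ∀ ab : ZMod p × ZMod p, NN τ (fun x => f (u⁻¹ x)) ab = NN τ f (ab.1, ab.2 + ab.1) := by
    intro ab
    refine NN_comp τ u⁻¹ ⟨fun st => (st.1 - st.2, st.2), fun st => (st.1 + st.2, st.2), ?_, ?_⟩
      (fun ab => (ab.1, ab.2 + ab.1)) ?_ ?_ f ab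
    · rintro ⟨a, b⟩; simp
    · rintro ⟨a, b⟩; simp
    · intro s t x
      rw [Equiv.Perm.inv_eq_iff_eq]
      simp [hu']
    · rintro ⟨a, b⟩ ⟨s, t⟩
      simp only [Equiv.coe_fn_mk]
      ring
  have hNl : ∀ ab : ZMod p × ZMod p, NN τ (fun x => f (l⁻¹ x)) ab = NN τ f (ab.1 + ab.2, ab.2) := by
    intro ab
    refine NN_comp τ l⁻¹ ⟨fun st => (st.1, st.2 - st.1), fun st => (st.1, st.2 + st.1), ?_, ?_⟩
      (fun ab => (ab.1 + ab.2, ab.2)) ?_ ?_ f ab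
    · rintro ⟨a, b⟩; simp
    · rintro ⟨a, b⟩; simp
    · intro s t x
      rw [Equiv.Perm.inv_eq_iff_eq]
      simp [hl']
    · rintro ⟨a, b⟩ ⟨s, t⟩
      simp only [Equiv.coe_fn_mk]
      ring
  have hinv : ∀ v : Equiv.Perm X, ∑ x, ‖f (v x) - f x‖ ^ 2 ≤ ε ^ 2 →
      ∑ x, ‖f (v⁻¹ x) - f x‖ ^ 2 ≤ ε ^ 2 := by
    intro v hv
    rw [← Equiv.sum_comp v]
    refine le_trans (le_of_eq ?_) hv
    refine Finset.sum_congr rfl fun x _ => ?_
    rw [show v⁻¹ (v x) = x by simp, norm_sub_rev]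
  have hnorm : ∀ v : Equiv.Perm X, ∑ x, ‖f (v x)‖ ^ 2 ≤ 1 := by
    intro v
    rw [Equiv.sum_comp v fun x => ‖f x‖ ^ 2]
    exact hf
  have hM := h p hp hp100 (NN τ f) ε hε0 hε1 (NN_nonneg τ f) ?_ ?_ ?_ ?_
  · rw [NN_diff τ hτ]
    calc ∑ ab : ZMod p × ZMod p, ‖ch p (ab.1 * s + ab.2 * t) - 1‖ ^ 2 * NN τ f ab
        ≤ ∑ ab : ZMod p × ZMod p, if ab ≠ 0 then 4 * NN τ f ab else 0 := by
          refine Finset.sum_le_sum fun ab _ => ?_
          split_ifs with h0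
          · refine mul_le_mul_of_nonneg_right ?_ (NN_nonneg τ f ab)
            have h1 : ‖ch p (ab.1 * s + ab.2 * t) - 1‖ ≤ 2 := by
              calc ‖ch p (ab.1 * s + ab.2 * t) - 1‖ ≤ ‖ch p (ab.1 * s + ab.2 * t)‖ + ‖(1 : ℂ)‖ :=
                    norm_sub_le _ _
                _ = 2 := by rw [ch_norm, norm_one]; norm_num
            nlinarith [norm_nonneg (ch p (ab.1 * s + ab.2 * t) - 1)]
          · rw [not_not] at h0
            rw [h0]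
            simp [AddChar.map_zero_eq_one]
      _ = 4 * ∑ ab ∈ Finset.univ.filter (fun x : ZMod p × ZMod p => x ≠ 0), NN τ f ab := by
          rw [← Finset.sum_filter, Finset.mul_sum]
      _ ≤ 4 * (32 * ε) := mul_le_mul_of_nonneg_left hM (by norm_num)
      _ = 128 * ε := by ring
  · intro S
    have := NN_close τ f (fun x => f (u⁻¹ x)) ε hε0 hf (hnorm _) (hinv u hfu) S
    simp_rw [hNu] at this
    exact this
  · intro S
    have := NN_close τ f (fun x => f (l⁻¹ x)) ε hε0 hf (hnorm _) (hinv l hfl) S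
    simp_rw [hNl] at this
    exact this
  · refine le_trans ?_ hf1
    rw [NN_diff τ hτ, Finset.sum_filter]
    refine Finset.sum_le_sum fun ab _ => ?_
    split_ifs with h0
    · have h1 := ch_big ab.1 h0
      rw [mul_one, mul_zero, add_zero]
      nlinarith [NN_nonneg τ f ab]
    · exact mul_nonneg (by positivity) (NN_nonneg τ f ab)
  · refine le_trans ?_ hf2
    rw [NN_diff τ hτ, Finset.sum_filter]
    refine Finset.sum_le_sum fun ab _ => ?_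
    split_ifs with h0
    · have h1 := ch_big ab.2 h0
      rw [mul_one, mul_zero, zero_add]
      nlinarith [NN_nonneg τ f ab]
    · exact mul_nonneg (by positivity) (NN_nonneg τ f ab)

end Crest.Agent.FPRelT
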