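import Crest.Agent.FPSpec

/-!
# Module RUN of rid 191
-/

set_option autoImplicit false

namespace Crest.Agent.FPRun

open Crest.Agent.FP

section basics

variable {K : ℕ} {V L Q : Type}

theorem wd_add (ℓ : V → ZMod K → L) {Ω : Type} (γ : L → Equiv.Perm Ω) (v : V) (j0 : ZMod K)
    (m n : ℕ) :
    wd ℓ γ v j0 (m + n) = wd ℓ γ v (j0 + (m : ZMod K)) n * wd ℓ γ v j0 m := by
  induction n with
  | zero => simp [wd]
  | succ n ih =>
    rw [← add_assoc]
    simp only [wd]
    have h : (j0 + ((m + n : ℕ) : ZMod K)) = j0 + (m : ZMod K) + (n : ZMod K) := by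
      push_cast
      ring
    rw [ih, mul_assoc, h]

theorem wd_all [NeZero K] (ℓ : V → ZMod K → L) {Ω : Type} (γ : L → Equiv.Perm Ω)
    (h : IsLam ℓ γ) (v : V) (j0 : ZMod K) : wd ℓ γ v j0 K = 1 := by
  have h1 := wd_add ℓ γ v 0 K (j0.val)
  have h2 := wd_add ℓ γ v 0 (j0.val) K
  rw [add_comm, h2] at h1
  simp only [ZMod.natCast_self, add_zero, zero_add, ZMod.natCast_zmod_val] at h1
  rw [h v] at h1
  have h3 : wd ℓ γ v j0 K * wd ℓ γ v 0 j0.val = 1 * wd ℓ γ v 0 j0.val := by
    rw [h1, mul_one, one_mul]
  exact mul_right_cancel h3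

theorem wd_path (ℓ : V → ZMod K → L) {Ω : Type} (γ : L → Equiv.Perm Ω) (v : V) (j0 : ZMod K)
    (c : ZMod K → Ω) (n : ℕ)
    (h : ∀ i < n, γ (ℓ v (j0 + (i : ZMod K))) (c (j0 + (i : ZMod K)))
      = c (j0 + (i : ZMod K) + 1)) :
    wd ℓ γ v j0 n (c j0) = c (j0 + (n : ZMod K)) := by
  induction n with
  | zero => simp [wd]
  | succ n ih =>
    simp only [wd, Equiv.Perm.mul_apply]
    rw [ih (fun i hi => h i (by omega)), h n (by omega)]
    congr 1
    push_cast
    ring

theorem deg_two (E : Finset (Q × L × Q)) (x : Q) (h : deg E x = 2) (e e' : Q × L × Q)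
    (he : e ∈ E) (he1 : e.1 = x) (he' : e' ∈ E) (he2 : e'.2.2 = x) :
    (∀ a ∈ E, a.1 = x → a = e) ∧ (∀ a ∈ E, a.2.2 = x → a = e') := by
  classical
  unfold deg at h
  have hA : e ∈ E.filter (fun e => e.1 = x) := by simp [he, he1]
  have hB : e' ∈ E.filter (fun e => e.2.2 = x) := by simp [he', he2]
  have hA1 : 0 < (E.filter (fun e => e.1 = x)).card := Finset.card_pos.2 ⟨e, hA⟩
  have hB1 : 0 < (E.filter (fun e => e.2.2 = x)).card := Finset.card_pos.2 ⟨e', hB⟩
  have h' : (E.filter (fun e => e.1 = x)).card + (E.filter (fun e => e.2.2 = x)).card = 2 := by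
    convert h
  have hA2 : (E.filter (fun e => e.1 = x)).card ≤ 1 := by omega
  have hB2 : (E.filter (fun e => e.2.2 = x)).card ≤ 1 := by omega
  rw [Finset.card_le_one] at hA2 hB2
  refine ⟨fun a ha ha1 => hA2 a (by simp [ha, ha1]) e hA,
    fun a ha ha1 => hB2 a (by simp [ha, ha1]) e' hB⟩

theorem cast_inj {a b : ℕ} (ha : a < K) (hb : b < K) (h : (a : ZMod K) = (b : ZMod K)) : a = b := by
  have := (ZMod.natCast_eq_natCast_iff' a b K).1 h
  rwa [Nat.mod_eq_of_lt ha, Nat.mod_eq_of_lt hb] at this

theorem card_pre {α β : Type} (f : α → β) (hf : Function.Injective f) (s : Finset β)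
    (t : Finset β) (ht : ∀ b, b ∈ t ↔ b ∈ s ∧ b ∉ Set.range f) :
    (s.preimage f hf.injOn).card + t.card = s.card := by
  classical
  rw [← Finset.card_image_of_injective _ hf, Finset.image_preimage]
  have : t = s.filter (fun b => ¬ b ∈ Set.range f) := by
    ext b
    rw [ht, Finset.mem_filter]
  rw [this]
  exact Finset.card_filter_add_card_filter_not (fun b => b ∈ Set.range f)

end basics

theorem main : Spec.Run := by
  classical
  intro K _ hK V L Q _ _ ℓ k hD1 hD2 E C hg p hp j hdeg
  -- notation
  set c : ℕ → Q := fun s => p.2 (j + (s : ZMod K)) with hc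
  set ed : ℕ → Q × L × Q := fun s => cedge ℓ p (j + (s : ZMod K)) with hed
  have hed1 : ∀ s, (ed s).1 = c s := fun s => rfl
  have hed2 : ∀ s, (ed s).2.2 = c (s + 1) := by
    intro s
    have h : j + (s : ZMod K) + 1 = j + ((s + 1 : ℕ) : ZMod K) := by
      push_cast
      ring
    simp only [hed, hc, cedge]
    rw [h]
  have hedE : ∀ s, ed s ∈ E := fun s => hg.cells p hp _
  have hout : ∀ s < 5, ∀ e ∈ E, e.1 = c (s + 1) → e = ed (s + 1) := by
    intro s hs
    exact (deg_two E (c (s + 1)) (hdeg (s + 1) (by omega) (by omega)) (ed (s + 1)) (ed s)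
      (hedE _) rfl (hedE _) (hed2 s)).1
  have hin : ∀ s < 5, ∀ e ∈ E, e.2.2 = c (s + 1) → e = ed s := by
    intro s hs
    exact (deg_two E (c (s + 1)) (hdeg (s + 1) (by omega) (by omega)) (ed (s + 1)) (ed s)
      (hedE _) rfl (hedE _) (hed2 s)).2
  have hlab : ∀ i i' : ZMod K, cedge ℓ p i = cedge ℓ p i' → i = i' := by
    intro i i' h
    exact hD1 p.1 (congrArg (fun e => e.2.1) h)
  have hedinj : ∀ s t, s < K → t < K → ed s = ed t → s = t := by
    intro s t hs ht h
    have := hlab _ _ h
    exact cast_inj hs ht (add_left_cancel this)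
  -- the vertices of the run
  set D : Finset Q := (Finset.range 5).image (fun s => c (s + 1)) with hD
  have hDmem : ∀ x, x ∈ D ↔ ∃ s < 5, c (s + 1) = x := by
    intro x
    simp [hD]
  have hDcard : D.card = 5 := by
    rw [hD, Finset.card_image_of_injOn, Finset.card_range]
    intro s hs t ht h
    simp only [Finset.coe_range, Set.mem_Iio] at hs ht
    simp only at h
    have h2 := hout t ht (ed (s + 1)) (hedE _) (by rw [hed1]; exact h)
    have := hedinj (s + 1) (t + 1) (by omega) (by omega) h2
    omega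
  -- the edges of the run
  set F : Finset (Q × L × Q) := (Finset.range 6).image ed with hF
  have hFmem : ∀ e, e ∈ F ↔ ∃ s < 6, ed s = e := by
    intro e
    simp [hF]
  have hFcard : F.card = 6 := by
    rw [hF, Finset.card_image_of_injOn, Finset.card_range]
    intro s hs t ht h
    simp only [Finset.coe_range, Set.mem_Iio] at hs ht
    exact hedinj s t (by omega) (by omega) h
  -- a vertex of `p` in `D`
  have hpD : ∀ i, p.2 i ∈ D → ∃ s < 5, i = j + ((s + 1 : ℕ) : ZMod K) := by
    intro i hi
    obtain ⟨s, hs, hcs⟩ := (hDmem _).1 hi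
    refine ⟨s, hs, ?_⟩
    have h2 := hout s hs (cedge ℓ p i) (hg.cells p hp i) (by simpa [cedge] using hcs.symm)
    exact hlab _ _ h2
  -- edges with an endpoint in `D`
  have hEF : ∀ e ∈ E, (e.1 ∈ D ∨ e.2.2 ∈ D) ↔ e ∈ F := by
    intro e he
    constructor
    · rintro (h | h)
      · obtain ⟨s, hs, hcs⟩ := (hDmem _).1 h
        exact (hFmem _).2 ⟨s + 1, by omega, (hout s hs e he hcs.symm).symm⟩
      · obtain ⟨s, hs, hcs⟩ := (hDmem _).1 h
        exact (hFmem _).2 ⟨s, by omega, (hin s hs e he hcs.symm).symm⟩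
    · intro h
      obtain ⟨s, hs, rfl⟩ := (hFmem _).1 h
      by_cases h0 : s < 5
      · right
        rw [hed2]
        exact (hDmem _).2 ⟨s, h0, rfl⟩
      · left
        rw [hed1]
        exact (hDmem _).2 ⟨4, by omega, by rw [show s = 4 + 1 by omega]⟩
  -- a cell using an edge of the run is `p`
  have hdet : ∀ p' ∈ C, ∀ i, p'.1 = p.1 → p'.2 i = p.2 i → p' = p := by
    intro p' hp' i h1 h2
    have key : ∀ n : ℕ, p'.2 (i + (n : ZMod K)) = p.2 (i + (n : ZMod K)) := by
      intro n
      induction n with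
      | zero => simpa using h2
      | succ n ih =>
        have e1 := hg.cells p' hp' (i + (n : ZMod K))
        have e2 := hg.cells p hp (i + (n : ZMod K))
        simp only [cedge] at e1 e2
        rw [ih, h1] at e1
        have := hg.folded.1 _ _ _ _ e1 e2
        push_cast
        rw [← add_assoc]
        exact this
    apply Prod.ext h1
    funext i'
    have := key ((i' - i).val)
    rw [ZMod.natCast_zmod_val, add_sub_cancel] at this
    exact this
  have hpriv : ∀ p' ∈ C, ∀ i, cedge ℓ p' i ∈ F → p' = p := by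
    intro p' hp' i hi
    obtain ⟨s, hs, hse⟩ := (hFmem _).1 hi
    have hlab1 : ℓ p'.1 i = ℓ p.1 (j + (s : ZMod K)) := (congrArg (fun e => e.2.1) hse).symm
    have hsrc : p'.2 i = p.2 (j + (s : ZMod K)) := (congrArg (fun e => e.1) hse).symm
    have htgt : p'.2 (i + 1) = c (s + 1) := by
      rw [← hed2 s, hse]
      rfl
    by_cases h0 : s < 5
    · -- use the next edge
      have h2 := hout s h0 (cedge ℓ p' (i + 1)) (hg.cells p' hp' _) htgt
      have hlab2 : ℓ p'.1 (i + 1) = ℓ p.1 (j + (s : ZMod K) + 1) := by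
        have := congrArg (fun e => e.2.1) h2
        simp only [cedge, hed] at this
        rw [this]
        congr 1
        push_cast
        ring
      obtain ⟨h3, h4⟩ := hD2 _ _ _ _ hlab1 hlab2
      exact hdet p' hp' i h3 (by rw [hsrc, h4])
    · -- use the previous edge
      have hs5 : s = 4 + 1 := by omega
      have hsrc' : p'.2 i = c (4 + 1) := by rw [hsrc, hs5]
      have h2 := hin 4 (by omega) (cedge ℓ p' (i - 1)) (hg.cells p' hp' _)
        (by simp only [cedge, sub_add_cancel]; exact hsrc')
      have hlab2 : ℓ p'.1 (i - 1) = ℓ p.1 (j + ((4 : ℕ) : ZMod K)) :=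
        congrArg (fun e => e.2.1) h2
      have hlab3 : ℓ p'.1 (i - 1 + 1) = ℓ p.1 (j + ((4 : ℕ) : ZMod K) + 1) := by
        rw [sub_add_cancel, hlab1, hs5]
        congr 1
        push_cast
        ring
      obtain ⟨h3, h4⟩ := hD2 _ _ _ _ hlab2 hlab3
      have h5 : i = j + (s : ZMod K) := by
        rw [hs5]
        push_cast
        have : i = i - 1 + 1 := by ring
        rw [this, h4]
        push_cast
        ring
      exact hdet p' hp' i h3 (by rw [hsrc, h5])
  -- the new vertex set
  set Q' : Type := {x : Q // x ∉ D} with hQ'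
  have hcardQ : Fintype.card Q' + 5 = Fintype.card Q := by
    have h1 := Fintype.card_subtype_compl (fun x : Q => x ∈ D)
    have h2 : Fintype.card {x : Q // x ∈ D} = 5 := by rw [Fintype.card_coe]; exact hDcard
    have h3 : D.card ≤ Fintype.card Q := Finset.card_le_univ D
    have h4 : Fintype.card Q' = Fintype.card {x : Q // ¬ x ∈ D} := rfl
    rw [h4, h1, h2]
    omega
  set emb : Q' × L × Q' → Q × L × Q := fun e => (e.1.1, e.2.1, e.2.2.1) with hemb
  have hembinj : Function.Injective emb := by
    rintro ⟨⟨a, ha⟩, l, ⟨b, hb⟩⟩ ⟨⟨a', ha'⟩, l', ⟨b', hb'⟩⟩ h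
    simp only [hemb, Prod.mk.injEq] at h
    obtain ⟨rfl, rfl, rfl⟩ := h
    rfl
  have hembr : ∀ e : Q × L × Q, e ∈ Set.range emb ↔ ¬ (e.1 ∈ D ∨ e.2.2 ∈ D) := by
    rintro ⟨a, l, b⟩
    constructor
    · rintro ⟨⟨⟨a', ha'⟩, l', ⟨b', hb'⟩⟩, h⟩
      simp only [hemb, Prod.mk.injEq] at h
      obtain ⟨rfl, rfl, rfl⟩ := h
      simp [ha', hb']
    · intro h
      push Not at h
      exact ⟨(⟨a, h.1⟩, l, ⟨b, h.2⟩), rfl⟩
  set embC : V × (ZMod K → Q') → V × (ZMod K → Q) := fun q => (q.1, fun i => (q.2 i).1) with hembC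
  have hembCinj : Function.Injective embC := by
    rintro ⟨v, x⟩ ⟨v', x'⟩ h
    simp only [hembC, Prod.mk.injEq] at h
    obtain ⟨rfl, h2⟩ := h
    congr 1
    funext i
    exact Subtype.ext (congrFun h2 i)
  have hembCr : ∀ q ∈ C, q ≠ p → q ∈ Set.range embC := by
    rintro ⟨v, x⟩ hq hqp
    have : ∀ i, x i ∉ D := by
      intro i hi
      apply hqp
      apply hpriv _ hq i
      rw [← hEF _ (hg.cells _ hq i)]
      exact Or.inl hi
    exact ⟨(v, fun i => ⟨x i, this i⟩), rfl⟩
  have hembCp : p ∉ Set.range embC := by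
    rintro ⟨q, hq⟩
    have h1 : p.2 (j + ((1 : ℕ) : ZMod K)) ∈ D := (hDmem _).2 ⟨0, by omega, rfl⟩
    rw [← hq] at h1
    exact (q.2 _).2 h1
  set E' : Finset (Q' × L × Q') := E.preimage emb hembinj.injOn with hE'
  set C' : Finset (V × (ZMod K → Q')) := C.preimage embC hembCinj.injOn with hC'
  have hE'mem : ∀ e, e ∈ E' ↔ emb e ∈ E := fun e => by rw [hE', Finset.mem_preimage]
  have hC'mem : ∀ q, q ∈ C' ↔ embC q ∈ C := fun q => by rw [hC', Finset.mem_preimage]
  have hE'card : E'.card + 6 = E.card := by
    have h := card_pre emb hembinj E F (by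
      intro b
      constructor
      · intro hb
        have hbE : b ∈ E := by
          obtain ⟨s, hs, rfl⟩ := (hFmem _).1 hb
          exact hedE s
        exact ⟨hbE, by rw [hembr, not_not, hEF b hbE]; exact hb⟩
      · rintro ⟨h1, h2⟩
        rw [hembr, not_not, hEF b h1] at h2
        exact h2)
    rw [hFcard] at h
    exact h
  have hC'card : C'.card + 1 = C.card := by
    have h := card_pre embC hembCinj C {p} (by
      intro b
      rw [Finset.mem_singleton]
      constructor
      · rintro rfl
        exact ⟨hp, hembCp⟩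
      · rintro ⟨h1, h2⟩
        by_contra h3
        exact h2 (hembCr b h1 h3))
    rw [Finset.card_singleton] at h
    exact h
  have hce : ∀ (q : V × (ZMod K → Q')) (i : ZMod K), emb (cedge ℓ q i) = cedge ℓ (embC q) i :=
    fun q i => rfl
  -- the dimension
  have hdim : z1 ℓ E' C' + 5 ≤ z1 ℓ E C := by
    let ext0 : (Q' × L × Q' → ZMod 2) →ₗ[ZMod 2] (Q × L × Q → ZMod 2) :=
      Function.ExtendByZero.linearMap (ZMod 2) emb
    let sing : (Fin 5 → ZMod 2) →ₗ[ZMod 2] (Q × L × Q → ZMod 2) :=
      ∑ s : Fin 5, (LinearMap.single (ZMod 2) (fun _ : Q × L × Q => ZMod 2) (ed (s + 1))).comp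
        (LinearMap.proj s)
    let g0 : ((Q' × L × Q' → ZMod 2) × (Fin 5 → ZMod 2)) →ₗ[ZMod 2] (Q × L × Q → ZMod 2) :=
      ext0.coprod sing
    let sm : (Q × L × Q → ZMod 2) →ₗ[ZMod 2] ZMod 2 :=
      ∑ i : ZMod K, LinearMap.proj (cedge ℓ p i)
    let g1 : ((Q' × L × Q' → ZMod 2) × (Fin 5 → ZMod 2)) →ₗ[ZMod 2] (Q × L × Q → ZMod 2) :=
      g0 - (LinearMap.single (ZMod 2) (fun _ : Q × L × Q => ZMod 2) (ed 0)).comp (sm.comp g0)
    have hext0 : ∀ f e, ext0 f (emb e) = f e := by
      intro f e
      exact hembinj.extend_apply f 0 e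
    have hext1 : ∀ f e, e ∉ Set.range emb → ext0 f e = 0 := by
      intro f e he
      exact Function.extend_apply' f (0 : Q × L × Q → ZMod 2) e he
    have hsing0 : ∀ a (s : Fin 5), sing a (ed (s + 1)) = a s := by
      intro a s
      simp only [sing, LinearMap.sum_apply, LinearMap.comp_apply, LinearMap.proj_apply,
        Finset.sum_apply, LinearMap.single_apply]
      rw [Finset.sum_eq_single s]
      · simp
      · intro t _ hts
        rw [Pi.single_eq_of_ne]
        intro h
        have := hedinj _ _ (by omega) (by omega) h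
        exact hts (Fin.ext (by omega))
      · simp
    have hsing1 : ∀ a e, (∀ s : Fin 5, e ≠ ed (s + 1)) → sing a e = 0 := by
      intro a e he
      simp only [sing, LinearMap.sum_apply, LinearMap.comp_apply, LinearMap.proj_apply,
        Finset.sum_apply, LinearMap.single_apply]
      apply Finset.sum_eq_zero
      intro s _
      rw [Pi.single_eq_of_ne (he s)]
    have hg1 : ∀ x e, g1 x e = ext0 x.1 e + sing x.2 e
        - (Pi.single (ed 0) (∑ i : ZMod K, g0 x (cedge ℓ p i)) : Q × L × Q → ZMod 2) e := by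
      intro x e
      simp [g1, g0, sm]
    -- edges of the run are not in the range of `emb`
    have hedr : ∀ s < 6, ed s ∉ Set.range emb := by
      intro s hs
      rw [hembr, not_not, hEF _ (hedE s)]
      exact (hFmem _).2 ⟨s, hs, rfl⟩
    have hemb_ne : ∀ e, ∀ s < 6, emb e ≠ ed s := by
      intro e s hs h
      exact hedr s hs ⟨e, h⟩
    let G : (Z1 ℓ E' C' × (Fin 5 → ZMod 2)) →ₗ[ZMod 2] (Q × L × Q → ZMod 2) :=
      g1.comp ((Z1 ℓ E' C').subtype.prodMap LinearMap.id)
    have hG : ∀ x, G x = g1 (x.1.1, x.2) := fun x => rfl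
    have hGmem : ∀ x, G x ∈ Z1 ℓ E C := by
      rintro ⟨⟨f, hf1, hf2⟩, a⟩
      rw [hG]
      constructor
      · intro e he
        rw [hg1]
        have h1 : ext0 f e = 0 := by
          by_cases hr : e ∈ Set.range emb
          · obtain ⟨e', rfl⟩ := hr
            rw [hext0]
            exact hf1 e' (by rw [hE'mem]; exact he)
          · exact hext1 f e hr
        have h2 : sing a e = 0 := hsing1 a e (by rintro s rfl; exact he (hedE _))
        have h3 : e ≠ ed 0 := by rintro rfl; exact he (hedE _)
        simp only [h1, h2, Pi.single_eq_of_ne h3]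
        simp
      · intro q hq
        by_cases hqp : q = p
        · subst hqp
          simp only [hg1, Finset.sum_sub_distrib]
          have h1 : ∑ i : ZMod K, (ext0 f (cedge ℓ q i) + sing a (cedge ℓ q i))
              = ∑ i : ZMod K, g0 (f, a) (cedge ℓ q i) := by
            apply Finset.sum_congr rfl
            intro i _
            simp [g0]
          rw [h1, sub_eq_zero]
          symm
          rw [Finset.sum_eq_single j]
          · have h0 : cedge ℓ q j = ed 0 := by simp [hed]
            rw [h0, Pi.single_eq_same]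
          · intro i _ hij
            rw [Pi.single_eq_of_ne]
            intro h
            apply hij
            apply hlab
            rw [h]
            simp [hed]
          · simp
        · obtain ⟨q', rfl⟩ := hembCr q hq hqp
          have hq' : q' ∈ C' := (hC'mem _).2 hq
          have h1 : ∀ i, g1 (f, a) (cedge ℓ (embC q') i) = f (cedge ℓ q' i) := by
            intro i
            rw [hg1, ← hce]
            have h2 : sing a (emb (cedge ℓ q' i)) = 0 :=
              hsing1 _ _ (fun s => hemb_ne _ _ (by omega))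
            have h3 := hemb_ne (cedge ℓ q' i) 0 (by omega)
            simp only [hext0, h2, Pi.single_eq_of_ne h3]
            simp
          simp only [h1]
          exact hf2 q' hq'
    have hGinj : Function.Injective G := by
      rw [← LinearMap.ker_eq_bot, LinearMap.ker_eq_bot']
      rintro ⟨⟨f, hf1, hf2⟩, a⟩ h0
      rw [hG] at h0
      have hfz : f = 0 := by
        funext e
        have := congrFun h0 (emb e)
        rw [hg1] at this
        have h2 : sing a (emb e) = 0 :=
          hsing1 _ _ (fun s => hemb_ne _ _ (by omega))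
        have h3 := hemb_ne e 0 (by omega)
        simp only [hext0, h2, Pi.single_eq_of_ne h3] at this
        simpa using this
      have haz : a = 0 := by
        funext s
        have := congrFun h0 (ed (s + 1))
        rw [hg1] at this
        have h3 : ed (s + 1) ≠ ed 0 := by
          intro h
          have := hedinj _ _ (by omega) (by omega) h
          omega
        simp only [hext1 _ _ (hedr (s + 1) (by omega)), hsing0, Pi.single_eq_of_ne h3] at this
        simpa using this
      subst hfz haz
      rfl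
    have hfin := LinearMap.finrank_le_finrank_of_injective
      (f := LinearMap.codRestrict (Z1 ℓ E C) G hGmem) (by
        intro x y hxy
        apply hGinj
        exact congrArg Subtype.val hxy)
    rw [Module.finrank_prod] at hfin
    simpa [z1] using hfin
  -- onto
  have honto : Onto ℓ E' := by
    intro Ω γ hγ jj hjj
    -- the label of the `s`-th edge
    let lb : ℕ → L := fun s => ℓ p.1 (j + (s : ZMod K))
    have hc6 : c 6 ∉ D := by
      intro h
      obtain ⟨s, hs, h2⟩ := hpD _ h
      have := cast_inj (by omega) (by omega) (add_left_cancel h2)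
      omega
    -- values on the run : `val s` is the value at `c (5 - s + 1)`...
    let val : ℕ → Ω := fun n => Nat.rec (jj ⟨c 6, hc6⟩) (fun m w => (γ (lb (5 - m))).symm w) n
    -- `val n` is the value at `c (6 - n)`
    have hval : ∀ n, val (n + 1) = (γ (lb (5 - n))).symm (val n) := fun n => rfl
    -- the index of a vertex of `D`
    let J : Q → Ω := fun x => if h : x ∈ D then val (5 - Classical.choose ((hDmem x).1 h))
      else jj ⟨x, h⟩
    have hJ0 : ∀ x (h : x ∉ D), J x = jj ⟨x, h⟩ := by
      intro x h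
      simp only [J, dif_neg h]
    have hcinj : ∀ s t, s < 5 → t < 5 → c (s + 1) = c (t + 1) → s = t := by
      intro s t hs ht h
      have h2 := hout t ht (ed (s + 1)) (hedE _) (by rw [hed1]; exact h)
      have := hedinj (s + 1) (t + 1) (by omega) (by omega) h2
      omega
    have hJ1 : ∀ s < 5, J (c (s + 1)) = val (5 - s) := by
      intro s hs
      have hm : c (s + 1) ∈ D := (hDmem _).2 ⟨s, hs, rfl⟩
      simp only [J, dif_pos hm]
      have hch := Classical.choose_spec ((hDmem (c (s + 1))).1 hm)
      have := hcinj _ _ hch.1 hs hch.2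
      rw [this]
    have hJ6 : J (c 6) = val 0 := hJ0 _ hc6
    have hJ1' : ∀ s ≤ 5, J (c (s + 1)) = val (5 - s) := by
      intro s hs
      rcases Nat.lt_or_ge s 5 with h | h
      · exact hJ1 s h
      · have : s = 5 := by omega
        subst this
        exact hJ6
    -- the edges 1..5
    have hJe : ∀ s < 5, γ (ed (s + 1)).2.1 (J (ed (s + 1)).1) = J (ed (s + 1)).2.2 := by
      intro s hs
      rw [hed1, hed2, hJ1 s hs, hJ1' (s + 1) (by omega)]
      have h1 : 5 - s = (5 - (s + 1)) + 1 := by omega
      rw [h1, hval]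
      have h2 : lb (5 - (5 - (s + 1))) = (ed (s + 1)).2.1 := by
        have : 5 - (5 - (s + 1)) = s + 1 := by omega
        rw [this]
        rfl
      rw [h2, Equiv.apply_symm_apply]
    -- other edges
    have hJo : ∀ e ∈ E, e ∉ F → γ e.2.1 (J e.1) = J e.2.2 := by
      intro e he heF
      have hr : e ∈ Set.range emb := by
        rw [hembr, hEF e he]
        exact heF
      obtain ⟨e', rfl⟩ := hr
      have h1 := hjj e' ((hE'mem _).2 he)
      have h2 : J (emb e').1 = jj e'.1 := hJ0 _ e'.1.2
      have h3 : J (emb e').2.2 = jj e'.2.2 := hJ0 _ e'.2.2.2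
      rw [h2, h3]
      exact h1
    -- the edge 0
    have hJ00 : γ (ed 0).2.1 (J (ed 0).1) = J (ed 0).2.2 := by
      have hw := wd_all ℓ γ hγ p.1 (j + 1)
      have hpath := wd_path ℓ γ p.1 (j + 1) (fun i => J (p.2 i)) (K - 1) (by
        intro i hi
        by_cases h5 : i < 5
        · have h1 := hJe i h5
          have h2 : ed (i + 1) = cedge ℓ p (j + 1 + (i : ZMod K)) := by
            simp only [hed]
            congr 1
            push_cast
            ring
          rw [h2] at h1
          exact h1
        · have h2 : cedge ℓ p (j + 1 + (i : ZMod K)) ∉ F := by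
            intro h
            obtain ⟨s, hs, hse⟩ := (hFmem _).1 h
            have h3 := hlab _ _ hse
            have h4 : ((i + 1 : ℕ) : ZMod K) = (s : ZMod K) := by
              have : j + (s : ZMod K) = j + ((i + 1 : ℕ) : ZMod K) := by
                rw [h3]
                push_cast
                ring
              exact (add_left_cancel this).symm
            have h5 := cast_inj (by omega) (by omega) h4
            omega
          exact hJo _ (hg.cells p hp _) h2)
      have hK1 : ((K - 1 : ℕ) : ZMod K) = -1 := by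
        rw [Nat.cast_sub (by omega)]
        simp
      simp only [hK1] at hpath
      have hsucc : wd ℓ γ p.1 (j + 1) K
          = γ (ℓ p.1 (j + 1 + ((K - 1 : ℕ) : ZMod K))) * wd ℓ γ p.1 (j + 1) (K - 1) := by
        have : ∀ n, n = (K - 1) + 1 → wd ℓ γ p.1 (j + 1) n
          = γ (ℓ p.1 (j + 1 + ((K - 1 : ℕ) : ZMod K))) * wd ℓ γ p.1 (j + 1) (K - 1) := by
          intro n hn
          subst hn
          rfl
        exact this K (by omega)
      rw [hsucc, hK1] at hw
      have h3 := congrArg (fun f : Equiv.Perm Ω => f (J (p.2 (j + 1)))) hw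
      simp only [Equiv.Perm.mul_apply, Equiv.Perm.one_apply] at h3
      rw [hpath] at h3
      have e0 : ed 0 = cedge ℓ p j := by simp [hed]
      rw [e0]
      simp only [cedge]
      simpa using h3
    have hJall : ∀ e ∈ E, γ e.2.1 (J e.1) = J e.2.2 := by
      intro e he
      by_cases heF : e ∈ F
      · obtain ⟨s, hs, rfl⟩ := (hFmem _).1 heF
        rcases Nat.eq_zero_or_pos s with h | h
        · subst h
          exact hJ00
        · have : s = (s - 1) + 1 := by omega
          rw [this]
          exact hJe (s - 1) (by omega)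
      · exact hJo e he heF
    obtain ⟨ω, hω1, hω2⟩ := hg.onto Ω γ hγ J hJall
    exact ⟨ω, fun x => by rw [← hω1 x.1, hJ0 _ x.2], hω2⟩
  refine ⟨Q', inferInstance, E', C', ⟨?_, ?_, honto, ?_⟩, hC'card, hE'card⟩
  · constructor
    · intro x l y y' h1 h2
      rw [hE'mem] at h1 h2
      exact Subtype.ext (hg.folded.1 _ _ _ _ h1 h2)
    · intro x x' l y h1 h2
      rw [hE'mem] at h1 h2
      exact Subtype.ext (hg.folded.2 _ _ _ _ h1 h2)
  · intro q hq i
    rw [hE'mem, hce]
    exact hg.cells _ ((hC'mem _).1 hq) i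
  · have := hg.dim
    omega

end Crest.Agent.FPRun

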