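import Crest.Agent.FPSpec

set_option autoImplicit false

namespace Crest.Agent.FPSC

open Crest.Agent.FP Crest.Dynamics MeasureTheory

section words

variable {Γ X : Type} [Group Γ] [MulAction Γ X]

/-- total group element of a word -/
def val (g : ℕ → Γ) : List (ℕ × Bool) → Γ
  | [] => 1
  | (i, true) :: w => g i * val g w
  | (i, false) :: w => (g i)⁻¹ * val g w

/-- domain of a word -/
def dom (g : ℕ → Γ) (D : ℕ → Set X) : List (ℕ × Bool) → Set X
  | [] => Set.univ
  | (i, true) :: w => dom g D w ∩ {x | val g w • x ∈ D i}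
  | (i, false) :: w => dom g D w ∩ {x | ((g i)⁻¹ * val g w) • x ∈ D i}

theorem gpath_of_dom (g : ℕ → Γ) (D : ℕ → Set X) (m : ℕ) (E : Set (X × Γ))
    (hE : ∀ i < m, ∀ x ∈ D i, (x, g i) ∈ E) :
    ∀ w : List (ℕ × Bool), (∀ p ∈ w, p.1 < m) → ∀ x ∈ dom g D w, GPath E x (val g w) := by
  intro w
  induction w with
  | nil => intro _ x _; exact GPath.one
  | cons p w ih =>
    intro hw x hx
    have hw' : ∀ p ∈ w, p.1 < m := fun q hq => hw q (List.mem_cons_of_mem _ hq)
    have hp : p.1 < m := hw p List.mem_cons_self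
    obtain ⟨i, b⟩ := p
    cases b with
    | true =>
      obtain ⟨h1, h2⟩ := hx
      exact GPath.step (ih hw' x h1) (hE i hp _ h2)
    | false =>
      obtain ⟨h1, h2⟩ := hx
      refine GPath.back (ih hw' x h1) (hE i hp _ ?_)
      rw [← mul_smul]
      exact h2

theorem exists_word_of_eqvGen (Φ : ℕ → Γ × Set X) (u x y : X)
    (h : Relation.EqvGen (GraphingStep Φ) x y) :
    (∃ w, u ∈ dom (fun i => (Φ i).1) (fun i => (Φ i).2) w ∧
        val (fun i => (Φ i).1) w • u = x) ↔
      (∃ w, u ∈ dom (fun i => (Φ i).1) (fun i => (Φ i).2) w ∧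
        val (fun i => (Φ i).1) w • u = y) := by
  induction h with
  | rel x y h =>
    obtain ⟨i, hi, rfl⟩ := h
    constructor
    · rintro ⟨w, hw, hx⟩
      refine ⟨(i, true) :: w, ⟨hw, ?_⟩, ?_⟩
      · change val (fun i => (Φ i).1) w • u ∈ (Φ i).2
        rw [hx]; exact hi
      · change ((Φ i).1 * val (fun i => (Φ i).1) w) • u = _
        rw [mul_smul, hx]
    · rintro ⟨w, hw, hx⟩
      have hx' : (((Φ i).1)⁻¹ * val (fun i => (Φ i).1) w) • u = x := by
        rw [mul_smul, hx, inv_smul_smul]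
      refine ⟨(i, false) :: w, ⟨hw, ?_⟩, ?_⟩
      · change (((Φ i).1)⁻¹ * val (fun i => (Φ i).1) w) • u ∈ (Φ i).2
        rw [hx']; exact hi
      · exact hx'
  | refl x => rfl
  | symm x y _ ih => exact ih.symm
  | trans x y z _ _ ih1 ih2 => exact ih1.trans ih2

theorem exists_word (Φ : ℕ → Γ × Set X) (x y : X)
    (h : Relation.EqvGen (GraphingStep Φ) x y) :
    ∃ w, x ∈ dom (fun i => (Φ i).1) (fun i => (Φ i).2) w ∧
        val (fun i => (Φ i).1) w • x = y :=
  (exists_word_of_eqvGen Φ x x y h).1 ⟨[], trivial, one_smul _ _⟩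

theorem gpath_mul {E : Set (X × Γ)} {x : X} {γ δ : Γ} (h1 : GPath E x γ)
    (h2 : GPath E (γ • x) δ) : GPath E x (δ * γ) := by
  induction h2 with
  | one => rw [one_mul]; exact h1
  | step _ he ih =>
    rw [mul_assoc]
    refine GPath.step ih ?_
    rw [mul_smul]; exact he
  | back _ he ih =>
    rw [mul_assoc]
    refine GPath.back ih ?_
    rw [mul_smul]; exact he

theorem gpath_inv {E : Set (X × Γ)} {x : X} {γ : Γ} (h1 : GPath E x γ) :
    GPath E (γ • x) γ⁻¹ := by
  induction h1 with
  | one => rw [one_smul, inv_one]; exact GPath.one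
  | @step γ h _ he ih =>
    rw [mul_inv_rev]
    refine gpath_mul (γ := h⁻¹) ?_ ?_
    · have : GPath E ((h * γ) • x) (h⁻¹ * 1) := by
        refine GPath.back GPath.one ?_
        rw [one_smul, mul_smul, inv_smul_smul]
        exact he
      rwa [mul_one] at this
    · rw [mul_smul, inv_smul_smul]; exact ih
  | @back γ h _ he ih =>
    rw [mul_inv_rev, inv_inv]
    refine gpath_mul (γ := h) ?_ ?_
    · have : GPath E ((h⁻¹ * γ) • x) (h * 1) := by
        refine GPath.step GPath.one ?_
        rw [one_smul, mul_smul]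
        exact he
      rwa [mul_one] at this
    · rw [mul_smul, smul_inv_smul]; exact ih

theorem genGpd_of_gens {E : Set (X × Γ)} (S : Set Γ) (hS : Subgroup.closure S = ⊤)
    (h : ∀ s ∈ S, ∀ x : X, GPath E x s) : GenGpd E := by
  let H : Subgroup Γ :=
    { carrier := {γ | ∀ x : X, GPath E x γ}
      mul_mem' := by
        intro a b ha hb x
        exact gpath_mul (hb x) (ha _)
      one_mem' := fun x => GPath.one
      inv_mem' := by
        intro a ha x
        have := gpath_inv (ha (a⁻¹ • x))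
        rwa [smul_inv_smul] at this }
  have hH : Subgroup.closure S ≤ H := by
    rw [Subgroup.closure_le]
    intro s hs
    exact h s hs
  rw [hS] at hH
  intro v γ
  exact hH (Subgroup.mem_top γ) v

theorem measurable_dom [MeasurableSpace X] (hm : ∀ γ : Γ, Measurable (fun x : X => γ • x))
    (g : ℕ → Γ) (D : ℕ → Set X) (hD : ∀ i, MeasurableSet (D i)) (w : List (ℕ × Bool)) :
    MeasurableSet (dom g D w) := by
  induction w with
  | nil => exact MeasurableSet.univ
  | cons p w ih =>
    obtain ⟨i, b⟩ := p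
    cases b with
    | true => exact ih.inter (hm _ (hD i))
    | false => exact ih.inter (hm _ (hD i))

/-- change of the domain under a change of the sets. -/
theorem dom_diff_le [MeasurableSpace X] (μ : Measure X)
    (hm : ∀ γ : Γ, MeasurePreserving (fun x : X => γ • x) μ μ)
    (g : ℕ → Γ) (D D' : ℕ → Set X) (hD : ∀ i, MeasurableSet (D i))
    (hD' : ∀ i, MeasurableSet (D' i)) (m : ℕ) (ε : ENNReal)
    (hε : ∀ i < m, μ (D i \ D' i) ≤ ε)
    (w : List (ℕ × Bool)) (hw : ∀ p ∈ w, p.1 < m) :
    μ (dom g D w \ dom g D' w) ≤ (w.length : ENNReal) * ε := by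
  induction w with
  | nil => simp [dom]
  | cons p w ih =>
    have hw' : ∀ p ∈ w, p.1 < m := fun q hq => hw q (List.mem_cons_of_mem _ hq)
    have hp : p.1 < m := hw p List.mem_cons_self
    have ih := ih hw'
    obtain ⟨i, b⟩ := p
    have key : ∀ γ : Γ, μ ((dom g D w ∩ {x | γ • x ∈ D i}) \ (dom g D' w ∩ {x | γ • x ∈ D' i})) ≤
        ((w.length + 1 : ℕ) : ENNReal) * ε := by
      intro γ
      have hsub : (dom g D w ∩ {x | γ • x ∈ D i}) \ (dom g D' w ∩ {x | γ • x ∈ D' i}) ⊆
          (dom g D w \ dom g D' w) ∪ (fun x => γ • x) ⁻¹' (D i \ D' i) := by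
        rintro x ⟨⟨h1, h2⟩, h3⟩
        by_cases h4 : x ∈ dom g D' w
        · right
          refine ⟨h2, fun h5 => h3 ⟨h4, h5⟩⟩
        · left
          exact ⟨h1, h4⟩
      refine (measure_mono hsub).trans ((measure_union_le _ _).trans ?_)
      rw [(hm γ).measure_preimage ((hD i).diff (hD' i)).nullMeasurableSet]
      push_cast
      rw [add_mul, one_mul]
      exact add_le_add ih (hε i hp)
    cases b with
    | true => exact key _
    | false => exact key _

theorem dom_preimage {W : Type} [MulAction Γ W] (π : X → W) (hπ : ∀ (γ : Γ) x, π (γ • x) = γ • π x)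
    (g : ℕ → Γ) (S : ℕ → Set W) (w : List (ℕ × Bool)) :
    dom g (fun i => π ⁻¹' (S i)) w = π ⁻¹' (dom g S w) := by
  induction w with
  | nil => rfl
  | cons p w ih =>
    obtain ⟨i, b⟩ := p
    cases b with
    | true =>
      change dom g (fun i => π ⁻¹' (S i)) w ∩ {x | val g w • x ∈ π ⁻¹' (S i)} = _
      rw [ih]
      ext x
      simp only [Set.mem_inter_iff, Set.mem_preimage, Set.mem_ofPred_eq, hπ]
      rfl
    | false =>
      change dom g (fun i => π ⁻¹' (S i)) w ∩ {x | ((g i)⁻¹ * val g w) • x ∈ π ⁻¹' (S i)} = _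
      rw [ih]
      ext x
      simp only [Set.mem_inter_iff, Set.mem_preimage, Set.mem_ofPred_eq, hπ]
      rfl

end words

/-- finitely many words cover almost everything. -/
theorem exists_words {Γ X : Type} [Group Γ] [MeasurableSpace X] (μ : Measure X)
    [IsProbabilityMeasure μ] [MulAction Γ X] (hfree : IsFreePMPAction Γ X μ)
    (Φ : ℕ → Γ × Set X) (hgen : Generates (Γ := Γ) μ Φ) (s : Γ) (δ : ENNReal) (hδ : 0 < δ) :
    ∃ F : Finset (List (ℕ × Bool)), (∀ w ∈ F, val (fun i => (Φ i).1) w = s) ∧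
      μ (⋃ w ∈ F, dom (fun i => (Φ i).1) (fun i => (Φ i).2) w)ᶜ ≤ δ := by
  classical
  obtain ⟨hm, hfix⟩ := hfree
  obtain ⟨hD, N, hN, hgen⟩ := hgen
  set g : ℕ → Γ := fun i => (Φ i).1 with hg
  set D : ℕ → Set X := fun i => (Φ i).2 with hDD
  have hmeas : ∀ w, MeasurableSet (dom g D w) :=
    measurable_dom (fun γ => (hm γ).measurable) g D hD
  -- the union over all words with value `s` is conull
  let ι := {w : List (ℕ × Bool) // val g w = s}
  have hcountι : Countable ι := Subtype.countable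
  let U : Finset ι → Set X := fun t => ⋃ w ∈ t, dom g D w.1
  have hUm : ∀ t, MeasurableSet (U t) := fun t =>
    Finset.measurableSet_biUnion _ (fun w _ => hmeas w.1)
  have hUmono : Monotone U := by
    intro t t' h
    exact Set.biUnion_subset_biUnion_left h
  have hnull : μ (⋃ t, U t)ᶜ = 0 := by
    have hsub : (⋃ t, U t)ᶜ ⊆ N ∪ ⋃ w : {w : List (ℕ × Bool) // s⁻¹ * val g w ≠ 1},
        {x : X | (s⁻¹ * val g w.1) • x = x} := by
      intro x hx
      by_contra hcon
      rw [Set.mem_union, not_or] at hcon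
      obtain ⟨hxN, hx2⟩ := hcon
      obtain ⟨w, hw1, hw2⟩ := exists_word Φ x (s • x) (hgen x hxN s)
      apply hx
      by_cases hws : s⁻¹ * val g w = 1
      · have hws' : val g w = s := by
          have := inv_mul_eq_one.1 hws
          exact this.symm
        refine Set.mem_iUnion.2 ⟨{⟨w, hws'⟩}, ?_⟩
        simp only [U, Finset.mem_singleton, Set.iUnion_iUnion_eq_left]
        exact hw1
      · exfalso
        apply hx2
        refine Set.mem_iUnion.2 ⟨⟨w, hws⟩, ?_⟩
        change (s⁻¹ * val g w) • x = x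
        rw [mul_smul]
        have : val g w • x = s • x := hw2
        rw [this, inv_smul_smul]
    refine measure_mono_null hsub ?_
    rw [measure_union_null_iff]
    refine ⟨hN, ?_⟩
    rw [measure_iUnion_null_iff]
    intro w
    exact hfix _ w.2
  have hlim : μ (⋃ t, U t) = ⨆ t, μ (U t) := by
    apply Monotone.measure_iUnion
    exact hUmono
  have hone : μ (⋃ t, U t) = 1 := by
    have h1 : MeasurableSet (⋃ t, U t) := MeasurableSet.iUnion hUm
    have h2 := prob_add_prob_compl (μ := μ) h1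
    rw [hnull, add_zero] at h2
    exact h2
  rw [hone] at hlim
  by_cases hδ1 : 1 ≤ δ
  · refine ⟨∅, by simp, ?_⟩
    exact le_trans prob_le_one hδ1
  push Not at hδ1
  have hlt : 1 - δ < ⨆ t, μ (U t) := by
    rw [← hlim]
    exact ENNReal.sub_lt_self ENNReal.one_ne_top one_ne_zero hδ.ne'
  obtain ⟨t, ht⟩ := lt_iSup_iff.1 hlt
  refine ⟨t.image Subtype.val, ?_, ?_⟩
  · intro w hw
    obtain ⟨w', _, rfl⟩ := Finset.mem_image.1 hw
    exact w'.2
  · have heq : (⋃ w ∈ t.image Subtype.val, dom g D w) = U t := by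
      ext x
      simp only [U, Set.mem_iUnion, Finset.mem_image]
      constructor
      · rintro ⟨w, ⟨w', hw', rfl⟩, hx⟩
        exact ⟨w', hw', hx⟩
      · rintro ⟨w', hw', hx⟩
        exact ⟨w'.1, ⟨w', hw', rfl⟩, hx⟩
    rw [heq, prob_compl_eq_one_sub (hUm t)]
    rw [tsub_le_iff_right]
    have ht' := tsub_le_iff_right.1 ht.le
    rw [add_comm]
    exact ht'


theorem main : Crest.Agent.FP.Spec.SC := by
  classical
  intro Γ X _ hFG _ μ _ _ hfree W iF iN iA π hπ hπm hπμ happ c hc hcost
  obtain ⟨S, hS⟩ := (Group.fg_def.1 hFG)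
  obtain ⟨_, ⟨Φ, hΦ, rfl⟩, hΦc⟩ := sInf_lt_iff.1 hcost
  have hm := hfree.1
  set g : ℕ → Γ := fun i => (Φ i).1 with hg
  set D : ℕ → Set X := fun i => (Φ i).2 with hDD
  have hD : ∀ i, MeasurableSet (D i) := hΦ.1
  -- the slack
  set η : ENNReal := c - graphingCost μ Φ with hη
  have hη0 : 0 < η := tsub_pos_of_lt hΦc
  have hηle : graphingCost μ Φ + η ≤ c := by
    rw [hη, add_tsub_cancel_of_le hΦc.le]
  have hηtop : η ≠ ⊤ := ne_top_of_le_ne_top hc (tsub_le_self)
  set δ : ENNReal := η / 2 / ((S.card + 1 : ℕ) : ENNReal) with hδ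
  have hδ0 : 0 < δ := by
    rw [hδ]
    refine ENNReal.div_pos (ENNReal.div_pos hη0.ne' (by simp)).ne' (ENNReal.natCast_ne_top _)
  choose F hFval hFμ using fun s : Γ => exists_words μ hfree Φ hΦ s δ hδ0
  -- all letters are smaller than `m`
  obtain ⟨m, hmF⟩ : ∃ m : ℕ, ∀ s ∈ S, ∀ w ∈ F s, ∀ p ∈ w, p.1 < m := by
    refine ⟨(S.sup (fun s => (F s).sup (fun w => (w.map Prod.fst).foldr max 0))) + 1, ?_⟩
    intro s hs w hw p hp
    have h1 : p.1 ≤ (w.map Prod.fst).foldr max 0 := by
      have : ∀ (l : List (ℕ × Bool)), p ∈ l → p.1 ≤ (l.map Prod.fst).foldr max 0 := by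
        intro l
        induction l with
        | nil => intro h; exact absurd h List.not_mem_nil
        | cons q l ih =>
          intro h
          rw [List.map_cons, List.foldr_cons]
          rcases List.mem_cons.1 h with rfl | h
          · exact le_max_left _ _
          · exact le_trans (ih h) (le_max_right _ _)
      exact this w hp
    have h2 : (w.map Prod.fst).foldr max 0 ≤
        (F s).sup (fun w => (w.map Prod.fst).foldr max 0) :=
      Finset.le_sup (f := fun w : List (ℕ × Bool) => (w.map Prod.fst).foldr max 0) hw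
    have h3 : (F s).sup (fun w => (w.map Prod.fst).foldr max 0) ≤
        S.sup (fun s => (F s).sup (fun w => (w.map Prod.fst).foldr max 0)) :=
      Finset.le_sup (f := fun s => (F s).sup (fun w => (w.map Prod.fst).foldr max 0)) hs
    omega
  set T : ℕ := m + ∑ s ∈ S, ∑ w ∈ F s, w.length with hT
  set ε : ENNReal := η / 2 / ((T + 1 : ℕ) : ENNReal) with hε
  have hε0 : 0 < ε := by
    rw [hε]
    refine ENNReal.div_pos (ENNReal.div_pos hη0.ne' (by simp)).ne' (ENNReal.natCast_ne_top _)
  choose n0 hn0 using fun i => happ (D i) (hD i) ε hε0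
  refine ⟨(Finset.range m).sup n0, fun n hn => ?_⟩
  have hn' : ∀ i < m, n0 i ≤ n := fun i hi =>
    le_trans (Finset.le_sup (f := n0) (Finset.mem_range.2 hi)) hn
  have hex : ∀ i, ∃ A : Set (W n), i < m → μ (symmDiff (D i) (π n ⁻¹' A)) ≤ ε := by
    intro i
    by_cases hi : i < m
    · obtain ⟨A, hA⟩ := hn0 i n (hn' i hi)
      exact ⟨A, fun _ => hA⟩
    · exact ⟨∅, fun h => absurd h hi⟩
  choose A hA using hex
  -- measurability and measure of preimages
  let toF : Set (W n) → Finset (W n) := fun B => Finset.univ.filter (fun w => w ∈ B)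
  have mem_toF : ∀ (B : Set (W n)) w, w ∈ toF B ↔ w ∈ B := by
    intro B w
    simp [toF]
  have hpre : ∀ B : Set (W n), π n ⁻¹' B = ⋃ w ∈ toF B, π n ⁻¹' {w} := by
    intro B
    ext x
    simp only [Set.mem_iUnion, Set.mem_preimage, Set.mem_singleton_iff, mem_toF]
    constructor
    · intro h
      exact ⟨_, h, rfl⟩
    · rintro ⟨w, h, hw⟩
      rw [hw]; exact h
  have hpm : ∀ B : Set (W n), MeasurableSet (π n ⁻¹' B) := by
    intro B
    have : π n ⁻¹' B = ⋃ w ∈ toF B, π n ⁻¹' {w} := hpre B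
    rw [this]
    exact Finset.measurableSet_biUnion _ (fun w _ => hπm n w)
  have hWpos : (Fintype.card (W n) : ENNReal) ≠ 0 := by
    have : 0 < Fintype.card (W n) := Fintype.card_pos
    exact_mod_cast this.ne'
  have hWtop : (Fintype.card (W n) : ENNReal) ≠ ⊤ := ENNReal.natCast_ne_top _
  have hcard : ∀ B : Set (W n), ((toF B).card : ENNReal) =
      μ (π n ⁻¹' B) * (Fintype.card (W n) : ENNReal) := by
    intro B
    have h1 : π n ⁻¹' B = ⋃ w ∈ toF B, π n ⁻¹' {w} := hpre B
    have h2 : μ (π n ⁻¹' B) = ∑ w ∈ (toF B), μ (π n ⁻¹' {w}) := by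
      rw [h1]
      refine measure_biUnion_finset ?_ (fun w _ => hπm n w)
      intro a _ b _ hab
      refine Disjoint.preimage _ ?_
      simpa using hab
    rw [h2, Finset.sum_congr rfl (fun w _ => hπμ n w), Finset.sum_const, nsmul_eq_mul,
      mul_assoc, ENNReal.inv_mul_cancel hWpos hWtop, mul_one]
  -- the approximations
  let D' : ℕ → Set X := fun i => π n ⁻¹' (A i)
  have hD' : ∀ i, MeasurableSet (D' i) := fun i => hpm _
  have hdiff1 : ∀ i < m, μ (D i \ D' i) ≤ ε := fun i hi =>
    (measure_mono (by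
      intro x hx
      exact Or.inl hx)).trans (hA i hi)
  have hdiff2 : ∀ i < m, μ (D' i) ≤ μ (D i) + ε := by
    intro i hi
    have hsub : D' i ⊆ D i ∪ symmDiff (D i) (D' i) := by
      intro x hx
      by_cases h : x ∈ D i
      · exact Or.inl h
      · exact Or.inr (Or.inr ⟨hx, h⟩)
    refine (measure_mono hsub).trans ((measure_union_le _ _).trans ?_)
    exact add_le_add le_rfl (hA i hi)
  let bad : Γ → Set (W n) := fun s => (⋃ w ∈ F s, dom g A w)ᶜ
  have hbad : ∀ s ∈ S, μ (π n ⁻¹' (bad s)) ≤ δ + ((∑ w ∈ F s, w.length : ℕ) : ENNReal) * ε := by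
    intro s hs
    have hsub : π n ⁻¹' (bad s) ⊆ (⋃ w ∈ F s, dom g D w)ᶜ ∪
        ⋃ w ∈ F s, (dom g D w \ dom g D' w) := by
      intro x hx
      by_cases h : x ∈ (⋃ w ∈ F s, dom g D w)
      · right
        obtain ⟨w, hw, hxw⟩ := Set.mem_iUnion₂.1 h
        refine Set.mem_iUnion₂.2 ⟨w, hw, hxw, ?_⟩
        intro hx'
        apply hx
        refine Set.mem_iUnion₂.2 ⟨w, hw, ?_⟩
        have := dom_preimage (π n) (hπ n) g A w
        change x ∈ dom g (fun i => π n ⁻¹' (A i)) w at hx'
        rw [this] at hx'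
        exact hx'
      · exact Or.inl h
    refine (measure_mono hsub).trans ((measure_union_le _ _).trans ?_)
    refine add_le_add (hFμ s) ?_
    refine (measure_biUnion_finset_le _ _).trans ?_
    rw [Nat.cast_sum, Finset.sum_mul]
    refine Finset.sum_le_sum (fun w hw => ?_)
    exact dom_diff_le μ hm g D D' hD hD' m ε hdiff1 w (hmF s hs w hw)
  -- the set of arrows
  let E1 : Finset (W n × Γ) := (Finset.range m).biUnion
    (fun i => (toF (A i)).image (fun v => (v, g i)))
  let E2 : Finset (W n × Γ) := S.biUnion (fun s => (toF (bad s)).image (fun v => (v, s)))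
  refine ⟨E1 ∪ E2, ?_, ?_⟩
  · refine genGpd_of_gens (S : Set Γ) hS ?_
    intro s hs x
    by_cases hx : x ∈ bad s
    · have h := GPath.step (E := ((E1 ∪ E2 : Finset (W n × Γ)) : Set (W n × Γ))) (v := x)
        (γ := 1) (h := s) GPath.one (by
          rw [one_smul, Finset.mem_coe, Finset.mem_union]
          right
          refine Finset.mem_biUnion.2 ⟨s, hs, Finset.mem_image.2 ⟨x, ?_, rfl⟩⟩
          exact (mem_toF _ _).2 hx)
      rwa [mul_one] at h
    · have hx' : x ∈ ⋃ w ∈ F s, dom g A w := by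
        by_contra h
        exact hx h
      obtain ⟨w, hw, hxw⟩ := Set.mem_iUnion₂.1 hx'
      have hval : val g w = s := hFval s w hw
      rw [← hval]
      refine gpath_of_dom g A m _ ?_ w (hmF s hs w hw) x hxw
      intro i hi v hv
      rw [Finset.mem_coe, Finset.mem_union]
      left
      refine Finset.mem_biUnion.2 ⟨i, Finset.mem_range.2 hi, Finset.mem_image.2 ⟨v, ?_, rfl⟩⟩
      exact (mem_toF _ _).2 hv
  · have h1 : ((E1 ∪ E2).card : ENNReal) ≤
        ∑ i ∈ Finset.range m, ((toF (A i)).card : ENNReal) +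
          ∑ s ∈ S, ((toF (bad s)).card : ENNReal) := by
      have h : (E1 ∪ E2).card ≤ ∑ i ∈ Finset.range m, (toF (A i)).card +
          ∑ s ∈ S, (toF (bad s)).card := by
        refine (Finset.card_union_le _ _).trans (add_le_add ?_ ?_)
        · refine Finset.card_biUnion_le.trans (Finset.sum_le_sum (fun i _ => ?_))
          exact Finset.card_image_le
        · refine Finset.card_biUnion_le.trans (Finset.sum_le_sum (fun i _ => ?_))
          exact Finset.card_image_le
      exact_mod_cast h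
    refine h1.trans ?_
    rw [Finset.sum_congr rfl (fun i _ => hcard (A i)),
      Finset.sum_congr rfl (fun s _ => hcard (bad s)), ← Finset.sum_mul, ← Finset.sum_mul,
      ← add_mul]
    refine mul_le_mul' ?_ le_rfl
    refine le_trans ?_ hηle
    have h2 : ∑ i ∈ Finset.range m, μ (π n ⁻¹' (A i)) ≤ graphingCost μ Φ + (m : ENNReal) * ε := by
      refine (Finset.sum_le_sum (fun i hi => hdiff2 i (Finset.mem_range.1 hi))).trans ?_
      rw [Finset.sum_add_distrib, Finset.sum_const, Finset.card_range, nsmul_eq_mul]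
      refine add_le_add ?_ le_rfl
      exact ENNReal.sum_le_tsum _
    have h3 : ∑ s ∈ S, μ (π n ⁻¹' (bad s)) ≤ (S.card : ENNReal) * δ +
        ((∑ s ∈ S, ∑ w ∈ F s, w.length : ℕ) : ENNReal) * ε := by
      refine (Finset.sum_le_sum (fun s hs => hbad s hs)).trans ?_
      rw [Finset.sum_add_distrib, Finset.sum_const, nsmul_eq_mul, Nat.cast_sum, Finset.sum_mul]
    refine (add_le_add h2 h3).trans ?_
    have h4 : (S.card : ENNReal) * δ ≤ η / 2 := by
      refine le_trans (mul_le_mul'
        (show (S.card : ENNReal) ≤ ((S.card + 1 : ℕ) : ENNReal) from ?_) le_rfl) ?_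
      · exact_mod_cast Nat.le_succ _
      · exact ENNReal.mul_div_le
    have h5 : (T : ENNReal) * ε ≤ η / 2 := by
      refine le_trans (mul_le_mul'
        (show (T : ENNReal) ≤ ((T + 1 : ℕ) : ENNReal) from ?_) le_rfl) ?_
      · exact_mod_cast Nat.le_succ _
      · exact ENNReal.mul_div_le
    calc graphingCost μ Φ + (m : ENNReal) * ε + ((S.card : ENNReal) * δ +
        ((∑ s ∈ S, ∑ w ∈ F s, w.length : ℕ) : ENNReal) * ε)
        = graphingCost μ Φ + ((S.card : ENNReal) * δ + (T : ENNReal) * ε) := by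
          rw [hT]; push_cast; ring
      _ ≤ graphingCost μ Φ + (η / 2 + η / 2) := by gcongr
      _ = graphingCost μ Φ + η := by rw [ENNReal.add_halves]

end Crest.Agent.FPSC
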