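import Crest.Agent.FPSpec

/-!
# SPW for rid 191: norm bound for the twisted action on `W × (PV p × D)`
-/

set_option autoImplicit false
set_option linter.unusedSectionVars false

namespace Crest.Agent.FPSPW

open Crest.Agent.FP
open scoped BigOperators

/-- averages of permutations are contractions. -/
theorem avg_contract {ι X : Type} [Fintype X] (J : Finset ι) (act : ι → Equiv.Perm X)
    (f : X → ℝ) : ∑ x, (avg J act f x) ^ 2 ≤ ∑ x, f x ^ 2 := by
  have hS : (0 : ℝ) ≤ ∑ x, f x ^ 2 := Finset.sum_nonneg (fun x _ => sq_nonneg _)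
  by_cases hJ : J.card = 0
  · have : ∀ x, avg J act f x = 0 := by
      intro x
      simp [avg, Finset.card_eq_zero.mp hJ]
    simp only [this]
    simpa using hS
  have hc : (0 : ℝ) < (J.card : ℝ) := by exact_mod_cast Nat.pos_of_ne_zero hJ
  have h1 : ∀ x, (avg J act f x) ^ 2 ≤
      (J.card : ℝ)⁻¹ * ∑ j ∈ J, f ((act j).symm x) ^ 2 := by
    intro x
    unfold avg
    rw [mul_pow]
    have := sq_sum_le_card_mul_sum_sq (s := J) (f := fun j => f ((act j).symm x))
    calc ((J.card : ℝ)⁻¹) ^ 2 * (∑ j ∈ J, f ((act j).symm x)) ^ 2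
        ≤ ((J.card : ℝ)⁻¹) ^ 2 * ((J.card : ℝ) * ∑ j ∈ J, f ((act j).symm x) ^ 2) := by
          gcongr
      _ = (J.card : ℝ)⁻¹ * ∑ j ∈ J, f ((act j).symm x) ^ 2 := by
          field_simp
  calc ∑ x, (avg J act f x) ^ 2
      ≤ ∑ x, (J.card : ℝ)⁻¹ * ∑ j ∈ J, f ((act j).symm x) ^ 2 :=
        Finset.sum_le_sum (fun x _ => h1 x)
    _ = (J.card : ℝ)⁻¹ * ∑ j ∈ J, ∑ x, f ((act j).symm x) ^ 2 := by
        rw [← Finset.mul_sum, Finset.sum_comm]
    _ = (J.card : ℝ)⁻¹ * ∑ j ∈ J, ∑ x, f x ^ 2 := by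
        congr 1
        refine Finset.sum_congr rfl (fun j _ => ?_)
        exact Equiv.sum_comp (act j).symm (fun x => f x ^ 2)
    _ = ∑ x, f x ^ 2 := by
        rw [Finset.sum_const, nsmul_eq_mul]
        field_simp

/-- triangle inequality in `ℓ²`, in squared form. -/
theorem combine {X : Type} [Fintype X] (a b : X → ℝ) (s t F : ℝ) (hs : 0 ≤ s) (ht : 0 ≤ t)
    (hF : 0 ≤ F) (ha : ∑ x, a x ^ 2 ≤ s ^ 2 * F) (hb : ∑ x, b x ^ 2 ≤ t ^ 2 * F) :
    ∑ x, (a x + b x) ^ 2 ≤ (s + t) ^ 2 * F := by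
  have h1 : (∑ x, a x * b x) ^ 2 ≤ (∑ x, a x ^ 2) * (∑ x, b x ^ 2) :=
    Finset.sum_mul_sq_le_sq_mul_sq _ _ _
  have hb0 : (0 : ℝ) ≤ ∑ x, b x ^ 2 := Finset.sum_nonneg (fun x _ => sq_nonneg _)
  have h2 : (∑ x, a x * b x) ^ 2 ≤ (s * t * F) ^ 2 := by
    calc _ ≤ (∑ x, a x ^ 2) * (∑ x, b x ^ 2) := h1
      _ ≤ (s ^ 2 * F) * (t ^ 2 * F) := by
          apply mul_le_mul ha hb hb0
          positivity
      _ = _ := by ring
  have h3 : ∑ x, a x * b x ≤ s * t * F := by
    have := abs_le_of_sq_le_sq' h2 (by positivity)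
    exact this.2
  have h4 : ∑ x, (a x + b x) ^ 2 = ∑ x, a x ^ 2 + 2 * ∑ x, a x * b x + ∑ x, b x ^ 2 := by
    rw [Finset.mul_sum, ← Finset.sum_add_distrib, ← Finset.sum_add_distrib]
    refine Finset.sum_congr rfl (fun x _ => by ring)
  rw [h4]
  nlinarith

/-- mean of `R` vectors. -/
theorem mean_sq {X : Type} [Fintype X] (R : ℕ) (hR : 0 < R) (a : Fin R → X → ℝ) :
    ∑ x, ((R : ℝ)⁻¹ * ∑ i, a i x) ^ 2 ≤ (R : ℝ)⁻¹ * ∑ i, ∑ x, a i x ^ 2 := by
  have hc : (0 : ℝ) < (R : ℝ) := by exact_mod_cast hR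
  calc ∑ x, ((R : ℝ)⁻¹ * ∑ i, a i x) ^ 2
      ≤ ∑ x, (R : ℝ)⁻¹ * ∑ i, a i x ^ 2 := by
        refine Finset.sum_le_sum (fun x _ => ?_)
        rw [mul_pow]
        have := sq_sum_le_card_mul_sum_sq (s := (Finset.univ : Finset (Fin R)))
          (f := fun i => a i x)
        rw [Finset.card_univ, Fintype.card_fin] at this
        calc ((R : ℝ)⁻¹) ^ 2 * (∑ i, a i x) ^ 2
            ≤ ((R : ℝ)⁻¹) ^ 2 * ((R : ℝ) * ∑ i, a i x ^ 2) := by gcongr
          _ = _ := by field_simp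
    _ = (R : ℝ)⁻¹ * ∑ i, ∑ x, a i x ^ 2 := by
        rw [← Finset.mul_sum, Finset.sum_comm]

/-- Bessel's inequality for an orthogonal family with `⟨f, g_i⟩ = ‖g_i‖²`. -/
theorem bessel {X I : Type} [Fintype X] [Fintype I] (f : X → ℝ) (g : I → X → ℝ)
    (h1 : ∀ i, ∑ x, f x * g i x = ∑ x, g i x ^ 2)
    (h2 : ∀ i k, i ≠ k → ∑ x, g i x * g k x = 0) :
    ∑ i, ∑ x, g i x ^ 2 ≤ ∑ x, f x ^ 2 := by
  classical
  have h3 : ∑ x, (∑ i, g i x) ^ 2 = ∑ i, ∑ x, g i x ^ 2 := by
    calc ∑ x, (∑ i, g i x) ^ 2 = ∑ x, ∑ i, ∑ k, g i x * g k x := by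
          refine Finset.sum_congr rfl (fun x _ => ?_)
          rw [sq, Finset.sum_mul_sum]
      _ = ∑ i, ∑ k, ∑ x, g i x * g k x := by
          rw [Finset.sum_comm]
          refine Finset.sum_congr rfl (fun i _ => ?_)
          rw [Finset.sum_comm]
      _ = ∑ i, ∑ x, g i x ^ 2 := by
          refine Finset.sum_congr rfl (fun i _ => ?_)
          rw [Finset.sum_eq_single i]
          · refine Finset.sum_congr rfl (fun x _ => by ring)
          · intro k _ hk
            exact h2 i k (Ne.symm hk)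
          · intro h
            exact absurd (Finset.mem_univ i) h
  have h4 : ∑ x, f x * (∑ i, g i x) = ∑ i, ∑ x, g i x ^ 2 := by
    calc ∑ x, f x * (∑ i, g i x) = ∑ i, ∑ x, f x * g i x := by
          rw [Finset.sum_comm]
          refine Finset.sum_congr rfl (fun x _ => ?_)
          rw [Finset.mul_sum]
      _ = _ := Finset.sum_congr rfl (fun i _ => h1 i)
  have h5 : (0 : ℝ) ≤ ∑ x, (f x - ∑ i, g i x) ^ 2 := Finset.sum_nonneg (fun x _ => sq_nonneg _)
  have h6 : ∑ x, (f x - ∑ i, g i x) ^ 2 = ∑ x, f x ^ 2 - 2 * ∑ x, f x * (∑ i, g i x) +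
      ∑ x, (∑ i, g i x) ^ 2 := by
    rw [Finset.mul_sum, ← Finset.sum_sub_distrib, ← Finset.sum_add_distrib]
    refine Finset.sum_congr rfl (fun x _ => by ring)
  rw [h6, h3, h4] at h5
  linarith

section twist

variable {P W D : Type} [Fintype P] [Fintype W] [Fintype D] [Group D]

/-- the change of variables `(x, (w, d)) ↦ (w, (x, d ε(x)⁻¹))`. -/
def tw (P W : Type) {D : Type} [Group D] (ε : P → D) : P × (W × D) ≃ W × (P × D) where
  toFun z := (z.2.1, (z.1, z.2.2 * (ε z.1)⁻¹))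
  invFun y := (y.2.1, (y.1, y.2.2 * ε y.2.1))
  left_inv := by
    rintro ⟨x, w, d⟩
    simp
  right_inv := by
    rintro ⟨w, x, d⟩
    simp

/-- the mean over `P`. -/
noncomputable def hh (f : W × (P × D) → ℝ) (ε : P → D) (c : W × D) : ℝ :=
  (Fintype.card P : ℝ)⁻¹ * ∑ x, f (tw P W ε (x, c))

theorem card_mul_hh [Nonempty P] (f : W × (P × D) → ℝ) (ε : P → D) (c : W × D) :
    (Fintype.card P : ℝ) * hh f ε c = ∑ x, f (tw P W ε (x, c)) := by
  have : (Fintype.card P : ℝ) ≠ 0 := by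
    exact_mod_cast Fintype.card_ne_zero
  unfold hh
  field_simp

theorem sum_rest [Nonempty P] (f : W × (P × D) → ℝ) (ε : P → D) (c : W × D) :
    ∑ x, (f (tw P W ε (x, c)) - hh f ε c) = 0 := by
  rw [Finset.sum_sub_distrib, ← card_mul_hh f ε c, Finset.sum_const, nsmul_eq_mul,
    Finset.card_univ, sub_self]

theorem sum_rest_sq [Nonempty P] (f : W × (P × D) → ℝ) (ε : P → D) :
    ∑ z : P × (W × D), (f (tw P W ε z) - hh f ε z.2) ^ 2 ≤ ∑ y, f y ^ 2 := by
  rw [← Equiv.sum_comp (tw P W ε) (fun y => f y ^ 2)]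
  rw [Fintype.sum_prod_type_right (fun z : P × (W × D) => (f (tw P W ε z) - hh f ε z.2) ^ 2),
    Fintype.sum_prod_type_right (fun z : P × (W × D) => f (tw P W ε z) ^ 2)]
  refine Finset.sum_le_sum (fun c _ => ?_)
  have h1 : ∑ x, (f (tw P W ε (x, c)) - hh f ε c) ^ 2 =
      ∑ x, f (tw P W ε (x, c)) ^ 2 - (Fintype.card P : ℝ) * hh f ε c ^ 2 := by
    have h2 : ∀ x : P, (f (tw P W ε (x, c)) - hh f ε c) ^ 2 = f (tw P W ε (x, c)) ^ 2 -
        2 * hh f ε c * f (tw P W ε (x, c)) + hh f ε c ^ 2 := fun x => by ring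
    simp only [h2]
    rw [Finset.sum_add_distrib, Finset.sum_sub_distrib, ← Finset.mul_sum,
      ← card_mul_hh f ε c, Finset.sum_const, nsmul_eq_mul, Finset.card_univ]
    ring
  rw [h1]
  have : (0 : ℝ) ≤ (Fintype.card P : ℝ) * hh f ε c ^ 2 := by positivity
  linarith

/-- the zero-sum condition passes to the means. -/
theorem sum_hh (f : W × (P × D) → ℝ) (hf : ∀ w, ∑ x, f (w, x) = 0) (ε : P → D) (w : W) :
    ∑ d, hh f ε (w, d) = 0 := by
  unfold hh
  rw [← Finset.mul_sum]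
  have : ∑ d : D, ∑ x : P, f (tw P W ε (x, (w, d))) = 0 := by
    rw [Finset.sum_comm]
    rw [← hf w, Fintype.sum_prod_type]
    refine Finset.sum_congr rfl (fun x _ => ?_)
    exact Equiv.sum_comp (Equiv.mulRight (ε x)⁻¹) (fun d => f (w, (x, d)))
  rw [this, mul_zero]

/-- the lifted means. -/
noncomputable def gg (f : W × (P × D) → ℝ) (ε : P → D) (y : W × (P × D)) : ℝ :=
  hh f ε (y.1, y.2.2 * ε y.2.1)

theorem gg_tw (f : W × (P × D) → ℝ) (ε : P → D) (z : P × (W × D)) :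
    gg f ε (tw P W ε z) = hh f ε z.2 := by
  obtain ⟨x, w, d⟩ := z
  simp [gg, tw]

theorem gg_sq (f : W × (P × D) → ℝ) (ε : P → D) :
    ∑ y, gg f ε y ^ 2 = (Fintype.card P : ℝ) * ∑ c, hh f ε c ^ 2 := by
  rw [← Equiv.sum_comp (tw P W ε) (fun y => gg f ε y ^ 2)]
  simp only [gg_tw]
  rw [Fintype.sum_prod_type]
  simp [Finset.card_univ]

theorem f_gg [Nonempty P] (f : W × (P × D) → ℝ) (ε : P → D) :
    ∑ y, f y * gg f ε y = ∑ y, gg f ε y ^ 2 := by
  rw [gg_sq, ← Equiv.sum_comp (tw P W ε) (fun y => f y * gg f ε y)]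
  simp only [gg_tw]
  rw [Fintype.sum_prod_type_right, Finset.mul_sum]
  refine Finset.sum_congr rfl (fun c _ => ?_)
  simp only
  rw [← Finset.sum_mul, ← card_mul_hh f ε c]
  ring

theorem gg_orth [Nonempty P] (f : W × (P × D) → ℝ) (hf : ∀ w, ∑ x, f (w, x) = 0)
    (ε ε' : P → D)
    (he : ∀ e : D, Nat.card {x : P // (ε x)⁻¹ * ε' x = e} * Nat.card D = Nat.card P) :
    ∑ y, gg f ε y * gg f ε' y = 0 := by
  classical
  have hD : (Fintype.card D : ℝ) ≠ 0 := by exact_mod_cast Fintype.card_ne_zero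
  -- the inner sum
  have key : ∀ (w : W) (d : D), ∑ x : P, hh f ε' (w, d * ((ε x)⁻¹ * ε' x)) = 0 := by
    intro w d
    have h1 : ∑ x : P, hh f ε' (w, d * ((ε x)⁻¹ * ε' x)) =
        ∑ e : D, (Nat.card {x : P // (ε x)⁻¹ * ε' x = e} : ℝ) * hh f ε' (w, d * e) := by
      rw [← Finset.sum_fiberwise Finset.univ (fun x => (ε x)⁻¹ * ε' x)]
      refine Finset.sum_congr rfl (fun e _ => ?_)
      rw [Finset.sum_congr rfl (g := fun _ => hh f ε' (w, d * e))]
      · rw [Finset.sum_const, nsmul_eq_mul, Nat.card_eq_fintype_card, Fintype.card_subtype]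
      · intro x hx
        rw [Finset.mem_filter] at hx
        rw [hx.2]
    have h2 : (Fintype.card D : ℝ) * ∑ x : P, hh f ε' (w, d * ((ε x)⁻¹ * ε' x)) = 0 := by
      rw [h1, Finset.mul_sum]
      have h3 : ∀ e : D, (Fintype.card D : ℝ) *
          ((Nat.card {x : P // (ε x)⁻¹ * ε' x = e} : ℝ) * hh f ε' (w, d * e)) =
          (Fintype.card P : ℝ) * hh f ε' (w, d * e) := by
        intro e
        have := he e
        rw [Nat.card_eq_fintype_card (α := D), Nat.card_eq_fintype_card (α := P)] at this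
        have h4 : (Nat.card {x : P // (ε x)⁻¹ * ε' x = e} : ℝ) * (Fintype.card D : ℝ) =
            (Fintype.card P : ℝ) := by exact_mod_cast this
        rw [← h4]
        ring
      simp only [h3]
      rw [← Finset.mul_sum]
      have h5 : ∑ e : D, hh f ε' (w, d * e) = ∑ e : D, hh f ε' (w, e) :=
        Equiv.sum_comp (Equiv.mulLeft d) (fun e => hh f ε' (w, e))
      rw [h5, sum_hh f hf ε' w, mul_zero]
    exact (mul_eq_zero.mp h2).resolve_left hD
  rw [← Equiv.sum_comp (tw P W ε) (fun y => gg f ε y * gg f ε' y)]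
  simp only [gg_tw]
  rw [Fintype.sum_prod_type_right]
  refine Finset.sum_eq_zero (fun c _ => ?_)
  obtain ⟨w, d⟩ := c
  simp only
  rw [← Finset.mul_sum]
  have h6 : ∑ x : P, gg f ε' (tw P W ε (x, (w, d))) =
      ∑ x : P, hh f ε' (w, d * ((ε x)⁻¹ * ε' x)) := by
    refine Finset.sum_congr rfl (fun x _ => ?_)
    simp [gg, tw, mul_assoc]
  rw [h6, key w d, mul_zero]

/-- the plain change of order. -/
def sw (P W D : Type) : P × (W × D) ≃ W × (P × D) where
  toFun z := (z.2.1, (z.1, z.2.2))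
  invFun y := (y.2.1, (y.1, y.2.2))
  left_inv := by
    rintro ⟨x, w, d⟩
    rfl
  right_inv := by
    rintro ⟨w, x, d⟩
    rfl

end twist

theorem avg_add {ι X : Type} (J : Finset ι) (act : ι → Equiv.Perm X) (f g : X → ℝ) (x : X) :
    avg J act (fun y => f y + g y) x = avg J act f x + avg J act g x := by
  unfold avg
  rw [Finset.sum_add_distrib, mul_add]

theorem nonempty_PV (p : ℕ) [Fact p.Prime] : Nonempty (PV p) :=
  ⟨⟨fun _ => 1, fun h => one_ne_zero (congrFun h 0)⟩⟩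

section blocks

variable {ι A B : Type} [Fintype ι] [Fintype A] [DecidableEq A] [Fintype B] [DecidableEq B]

theorem card_fib (lab : ι → A × B) (M : ℕ) (hM : ∀ u, Nat.card {j : ι // lab j = u} = M)
    (i : A) (u : B) :
    Nat.card {j : {j : ι // (lab j).1 = i} // (lab j.1).2 = u} = M := by
  rw [← hM (i, u)]
  refine Nat.card_congr ((Equiv.subtypeSubtypeEquivSubtypeInter (fun j => (lab j).1 = i)
    (fun j => (lab j).2 = u)).trans (Equiv.subtypeEquivRight (fun j => ?_)))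
  rw [Prod.ext_iff]

theorem card_block (lab : ι → A × B) (M : ℕ) (hM : ∀ u, Nat.card {j : ι // lab j = u} = M)
    (i : A) : Fintype.card {j : ι // (lab j).1 = i} = Fintype.card B * M := by
  rw [Fintype.card_congr (Equiv.sigmaFiberEquiv
    (fun j : {j : ι // (lab j).1 = i} => (lab j.1).2)).symm, Fintype.card_sigma]
  have : ∀ u : B, Fintype.card {j : {j : ι // (lab j).1 = i} // (lab j.1).2 = u} = M := by
    intro u
    rw [← card_fib lab M hM i u, Nat.card_eq_fintype_card]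
  simp only [this]
  simp [Finset.card_univ]

theorem card_total (lab : ι → A × B) (M : ℕ) (hM : ∀ u, Nat.card {j : ι // lab j = u} = M) :
    Fintype.card ι = Fintype.card A * (Fintype.card B * M) := by
  rw [Fintype.card_congr (Equiv.sigmaFiberEquiv (fun j : ι => (lab j).1)).symm,
    Fintype.card_sigma]
  simp only [card_block lab M hM]
  simp [Finset.card_univ]

end blocks

theorem main (θ : ℝ) (hθ : 0 ≤ θ) (hb : Spec.Block θ) : Spec.SPW θ := by
  classical
  intro p hp hp100 R m hR W D ι _ _ _ _ M hM lab hlab α r ε hε act hact f hf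
  have hne : Nonempty (PV p) := nonempty_PV p
  set κ : ℝ := θ ^ m + 3 * ((Fintype.card W : ℝ) * Fintype.card D) / (p : ℝ) ^ 2 with hκ
  have hκ0 : 0 ≤ κ := by positivity
  set F : ℝ := ∑ x, f x ^ 2 with hF
  have hF0 : 0 ≤ F := Finset.sum_nonneg (fun x _ => sq_nonneg _)
  have hR0 : (0 : ℝ) < (R : ℝ) := by exact_mod_cast hR
  -- the permutations of the blocks
  let σ : ι → Equiv.Perm (PV p × (W × D)) := fun j =>
    (wordP p (lab j).2).prodCongr ((α j).prodCongr (Equiv.mulLeft (r j)))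
  have hterm : ∀ (j : ι) (z : PV p × (W × D)),
      f (((α j).prodCongr (act j)).symm (sw (PV p) W D z)) =
        f (tw (PV p) W (ε (lab j).1) ((σ j).symm z)) := by
    rintro j ⟨x, w, d⟩
    have h1 : (act j).symm (x, d) = ((wordP p (lab j).2).symm x,
        (r j)⁻¹ * d * (ε (lab j).1 ((wordP p (lab j).2).symm x))⁻¹) := by
      rw [Equiv.symm_apply_eq, hact]
      rw [Equiv.apply_symm_apply]
      group
    have h2 : ((α j).prodCongr (act j)).symm (sw (PV p) W D (x, (w, d))) =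
        ((α j).symm w, (act j).symm (x, d)) := rfl
    have h3 : (σ j).symm (x, (w, d)) =
        ((wordP p (lab j).2).symm x, ((α j).symm w, (r j)⁻¹ * d)) := rfl
    rw [h2, h1, h3]
    rfl
  -- block averages
  let A : Fin R → (PV p × (W × D) → ℝ) → (PV p × (W × D) → ℝ) := fun i =>
    avg (Finset.univ : Finset {j : ι // (lab j).1 = i}) (fun j => σ j.1)
  have hcardi : ∀ i : Fin R, (Fintype.card {j : ι // (lab j).1 = i} : ℝ) =
      (Fintype.card ι : ℝ) / (R : ℝ) := by
    intro i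
    rw [card_block lab M hlab i, card_total lab M hlab]
    rw [Fintype.card_fin]
    push_cast
    field_simp
  have havg : ∀ z, avg Finset.univ (fun j => (α j).prodCongr (act j)) f (sw (PV p) W D z) =
      (R : ℝ)⁻¹ * ∑ i, A i (fun z' => f (tw (PV p) W (ε i) z')) z := by
    intro z
    have e1 : avg Finset.univ (fun j => (α j).prodCongr (act j)) f (sw (PV p) W D z) =
        (Fintype.card ι : ℝ)⁻¹ * ∑ j, f (tw (PV p) W (ε (lab j).1) ((σ j).symm z)) := by
      unfold avg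
      rw [Finset.card_univ]
      congr 1
      exact Finset.sum_congr rfl (fun j _ => hterm j z)
    rw [e1, ← Fintype.sum_fiberwise (fun j => (lab j).1)
      (fun j => f (tw (PV p) W (ε (lab j).1) ((σ j).symm z)))]
    rw [Finset.mul_sum, Finset.mul_sum]
    refine Finset.sum_congr rfl (fun i _ => ?_)
    have e2 : A i (fun z' => f (tw (PV p) W (ε i) z')) z =
        (Fintype.card {j : ι // (lab j).1 = i} : ℝ)⁻¹ *
          ∑ j : {j : ι // (lab j).1 = i}, f (tw (PV p) W (ε i) ((σ j.1).symm z)) := by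
      change avg _ _ _ _ = _
      unfold avg
      rw [Finset.card_univ]
    rw [e2, hcardi i]
    have e3 : ∑ j : {j : ι // (lab j).1 = i}, f (tw (PV p) W (ε (lab j.1).1) ((σ j.1).symm z)) =
        ∑ j : {j : ι // (lab j).1 = i}, f (tw (PV p) W (ε i) ((σ j.1).symm z)) := by
      refine Finset.sum_congr rfl (fun j _ => ?_)
      rw [j.2]
    rw [e3]
    rw [inv_div, ← mul_assoc]
    congr 1
    field_simp
  -- splitting
  let H : Fin R → (PV p × (W × D) → ℝ) := fun i z => hh f (ε i) z.2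
  let G : Fin R → (PV p × (W × D) → ℝ) := fun i z => f (tw (PV p) W (ε i) z) - hh f (ε i) z.2
  have hsplit : ∀ z, avg Finset.univ (fun j => (α j).prodCongr (act j)) f (sw (PV p) W D z) =
      (R : ℝ)⁻¹ * ∑ i, A i (H i) z + (R : ℝ)⁻¹ * ∑ i, A i (G i) z := by
    intro z
    rw [havg, ← mul_add, ← Finset.sum_add_distrib]
    congr 1
    refine Finset.sum_congr rfl (fun i _ => ?_)
    have : (fun z' => f (tw (PV p) W (ε i) z')) = fun z' => H i z' + G i z' := by
      funext z'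
      simp [H, G]
    rw [this]
    exact avg_add _ _ _ _ _
  rw [← Equiv.sum_comp (sw (PV p) W D)]
  simp only [hsplit]
  refine combine _ _ _ _ F (by positivity) (Real.sqrt_nonneg _) hF0 ?_ ?_
  · -- the means
    refine (mean_sq R hR (fun i z => A i (H i) z)).trans ?_
    have h1 : ∑ i, ∑ z, (A i (H i) z) ^ 2 ≤ F := by
      calc ∑ i, ∑ z, (A i (H i) z) ^ 2 ≤ ∑ i, ∑ z, (H i z) ^ 2 :=
            Finset.sum_le_sum (fun i _ => avg_contract _ _ _)
        _ = ∑ i, ∑ y, gg f (ε i) y ^ 2 := by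
            refine Finset.sum_congr rfl (fun i _ => ?_)
            rw [← Equiv.sum_comp (tw (PV p) W (ε i)) (fun y => gg f (ε i) y ^ 2)]
            simp only [gg_tw]
            rfl
        _ ≤ F := bessel f (fun i => gg f (ε i)) (fun i => f_gg f (ε i))
            (fun i k hik => gg_orth f hf (ε i) (ε k) (hε i k hik))
    have h2 : ((Real.sqrt (R : ℝ))⁻¹) ^ 2 = (R : ℝ)⁻¹ := by
      rw [inv_pow, Real.sq_sqrt hR0.le]
    rw [h2]
    gcongr
  · -- the rest
    refine (mean_sq R hR (fun i z => A i (G i) z)).trans ?_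
    rw [Real.sq_sqrt hκ0]
    have h1 : ∀ i, ∑ z, (A i (G i) z) ^ 2 ≤ κ * F := by
      intro i
      have h3 := hb p hp hp100 m (W × D) {j : ι // (lab j).1 = i} inferInstance inferInstance M hM
        (fun j => (lab j.1).2) (fun u => card_fib lab M hlab i u)
        (fun j => (α j.1).prodCongr (Equiv.mulLeft (r j.1))) (G i)
        (fun c => sum_rest f (ε i) c)
      rw [Fintype.card_prod, Nat.cast_mul] at h3
      refine h3.trans ?_
      refine mul_le_mul_of_nonneg_left ?_ hκ0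
      exact sum_rest_sq f (ε i)
    calc (R : ℝ)⁻¹ * ∑ i, ∑ z, (A i (G i) z) ^ 2 ≤ (R : ℝ)⁻¹ * ∑ i : Fin R, κ * F := by
          gcongr with i hi
          exact h1 i
      _ = κ * F := by
          rw [Finset.sum_const, nsmul_eq_mul, Finset.card_univ, Fintype.card_fin]
          field_simp

end Crest.Agent.FPSPW
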