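import Crest.Agent.FPSpec

set_option autoImplicit false

namespace Crest.Agent.FPSeq

open Crest.Agent.FP

/-- bundled finite nonempty `G`-sets -/
structure FGS (G : Type) [Group G] where
  X : Type
  ft : Fintype X
  ne : Nonempty X
  act : MulAction G X

attribute [instance] FGS.ft FGS.ne FGS.act

/-- dependent choice -/
theorem exists_seq {A : Type 1} (P : ∀ n : ℕ, (Fin n → A) → A → Prop)
    (h : ∀ n s, ∃ v, P n s v) : ∃ V : ℕ → A, ∀ n, P n (fun k : Fin n => V k) (V n) := by
  classical
  choose f hf using h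
  let pre : ∀ n : ℕ, (Fin n → A) := fun n =>
    Nat.rec (motive := fun n => (Fin n → A)) Fin.elim0
      (fun n s => Fin.snoc (α := fun _ => A) s (f n s)) n
  have pre_succ : ∀ n, pre (n + 1) = Fin.snoc (α := fun _ => A) (pre n) (f n (pre n)) :=
    fun n => rfl
  refine ⟨fun n => f n (pre n), ?_⟩
  have hpre : ∀ n, pre n = fun k : Fin n => f k (pre k) := by
    intro n
    induction n with
    | zero => funext k; exact k.elim0
    | succ n ih =>
      funext k
      rw [pre_succ]
      refine Fin.lastCases ?_ (fun k => ?_) k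
      · simp
      · rw [Fin.snoc_castSucc, ih]
        rfl
  intro n
  have := hf n (pre n)
  rw [← hpre n]
  exact this

instance instCountGen (K : ℕ) [NeZero K] : Countable (Gen K) := by
  have : Function.Surjective (fun s : ZMod K ⊕ ZMod K ⊕ Unit ⊕ Unit => (match s with
        | Sum.inl j => Gen.a j
        | Sum.inr (Sum.inl j) => Gen.y j
        | Sum.inr (Sum.inr (Sum.inl _)) => Gen.g
        | Sum.inr (Sum.inr (Sum.inr _)) => Gen.z : Gen K)) := by
    rintro (j | j | _ | _)
    · exact ⟨Sum.inl j, rfl⟩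
    · exact ⟨Sum.inr (Sum.inl j), rfl⟩
    · exact ⟨Sum.inr (Sum.inr (Sum.inl ())), rfl⟩
    · exact ⟨Sum.inr (Sum.inr (Sum.inr ())), rfl⟩
  exact this.countable

theorem countable_gam (K : ℕ) [NeZero K] : Countable (Gam K) := by
  have h1 : Countable (List (Gen K × Bool)) := inferInstance
  have h2 : Countable (FreeGroup (Gen K)) := by
    have : Function.Surjective (FreeGroup.mk (α := Gen K)) := Quot.mk_surjective
    exact this.countable
  have h3 : Function.Surjective (PresentedGroup.mk (rels K)) := PresentedGroup.mk_surjective _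
  exact h3.countable

theorem exists_F (K : ℕ) [NeZero K] : ∃ F : ℕ → Finset (Gam K), (∀ n, (1 : Gam K) ∉ F n) ∧
    ∀ γ : Gam K, γ ≠ 1 → ∃ n1, ∀ n ≥ n1, γ ∈ F n := by
  classical
  have := countable_gam K
  obtain ⟨e, he⟩ := exists_surjective_nat (Gam K)
  refine ⟨fun n => ((Finset.range n).image e).erase 1, fun n => by simp, fun γ hγ => ?_⟩
  obtain ⟨i, rfl⟩ := he γ
  refine ⟨i + 1, fun n hn => ?_⟩
  rw [Finset.mem_erase]
  exact ⟨hγ, Finset.mem_image_of_mem _ (Finset.mem_range.2 (by omega))⟩

/-- the labelling -/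
theorem exists_lab (T : Type) [Fintype T] [Nonempty T] :
    ∃ (K : ℕ) (_ : NeZero K), (K + 1).Prime ∧ 8 ≤ K ∧ ∃ (M : ℕ), 0 < M ∧
      ∃ lab : ZMod K → Option T, lab 0 = none ∧
        (∀ u, Nat.card {j : ZMod K // lab j = some u} = M) ∧
        100 * (1 + Nat.card {j : ZMod K // lab j = none}) ≤ (JL lab).card := by
  classical
  set B := Fintype.card T with hB
  have hBpos : 0 < B := Fintype.card_pos
  obtain ⟨q, hq, hqp⟩ := Nat.exists_infinite_primes (300 * (B + 1) + 10)
  have hq10 : 310 ≤ q := by nlinarith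
  set K := q - 1 with hKdef
  have hKq : K + 1 = q := by omega
  have : NeZero K := ⟨by omega⟩
  have hKB : 300 * (B + 1) + 9 ≤ K := by omega
  set M := (K - 1) / B with hM
  have hMB : M * B ≤ K - 1 := Nat.div_mul_le_self _ _
  have hMB2 : K - 1 < (M + 1) * B := by
    have := Nat.lt_mul_div_succ (K - 1) hBpos
    rw [mul_comm]; exact this
  have hMpos : 0 < M := Nat.div_pos (by omega) hBpos
  let e : Fin M × T ≃ Fin (M * B) :=
    ((Equiv.refl (Fin M)).prodCongr (Fintype.equivFin T)).trans finProdFinEquiv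
  let lab : ZMod K → Option T := fun j =>
    if h : 1 ≤ j.val ∧ j.val - 1 < M * B then some (e.symm ⟨j.val - 1, h.2⟩).2 else none
  have hfib : ∀ u, Nat.card {j : ZMod K // lab j = some u} = M := by
    intro u
    have hval : ∀ i : Fin (M * B), ((i.1 + 1 : ℕ) : ZMod K).val = i.1 + 1 := by
      intro i
      apply ZMod.val_natCast_of_lt
      have := i.2
      omega
    let f : Fin M → {j : ZMod K // lab j = some u} := fun i =>
      ⟨(((e (i, u)).1 + 1 : ℕ) : ZMod K), by
        have h1 := hval (e (i, u))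
        have h2 := (e (i, u)).2
        simp only [lab]
        rw [dif_pos ⟨by omega, by omega⟩]
        congr 1
        have : (⟨(((e (i, u)).1 + 1 : ℕ) : ZMod K).val - 1, by omega⟩ : Fin (M * B)) = e (i, u) := by
          apply Fin.ext
          simp only []
          omega
        rw [this, Equiv.symm_apply_apply]⟩
    have hf : Function.Bijective f := by
      constructor
      · intro i i' h
        have h1 := congrArg (fun x => x.1.val) h
        simp only [f] at h1
        rw [hval, hval] at h1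
        have h2 : e (i, u) = e (i', u) := Fin.ext (by omega)
        have h3 := e.injective h2
        exact (Prod.mk.inj h3).1
      · rintro ⟨j, hj⟩
        by_cases h : 1 ≤ j.val ∧ j.val - 1 < M * B
        · simp only [lab] at hj
          rw [dif_pos h] at hj
          refine ⟨(e.symm ⟨j.val - 1, h.2⟩).1, ?_⟩
          apply Subtype.ext
          simp only [f]
          have h4 : ((e.symm ⟨j.val - 1, h.2⟩).1, u) = e.symm ⟨j.val - 1, h.2⟩ := by
            have := Option.some.inj hj
            rw [← this]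
          rw [h4, Equiv.apply_symm_apply]
          have h5 : j.val - 1 + 1 = j.val := by omega
          simp only [h5]
          exact ZMod.natCast_zmod_val j
        · simp only [lab] at hj
          rw [dif_neg h] at hj
          exact absurd hj (by simp)
    rw [← Nat.card_congr (Equiv.ofBijective f hf), Nat.card_eq_fintype_card, Fintype.card_fin]
  have hJL : (JL lab).card = B * M := by
    have h1 : (JL lab).card = ∑ u : T, ((Finset.univ : Finset (ZMod K)).filter
        (fun j => lab j = some u)).card := by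
      have h2 : JL lab = (Finset.univ : Finset T).biUnion
          (fun u => (Finset.univ : Finset (ZMod K)).filter (fun j => lab j = some u)) := by
        ext j
        simp only [JL, Finset.mem_filter, Finset.mem_univ, true_and, Finset.mem_biUnion]
        exact Option.ne_none_iff_exists'
      rw [h2, Finset.card_biUnion]
      intro u _ u' _ huu
      rw [Function.onFun, Finset.disjoint_left]
      intro j hj hj'
      simp only [Finset.mem_filter, Finset.mem_univ, true_and] at hj hj'
      exact huu (Option.some.inj (hj.symm.trans hj'))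
    rw [h1]
    have h3 : ∀ u : T, ((Finset.univ : Finset (ZMod K)).filter (fun j => lab j = some u)).card
        = M := by
      intro u
      rw [← hfib u, Nat.card_eq_fintype_card, Fintype.card_subtype]
    simp [h3, hB]
  have hnone : Nat.card {j : ZMod K // lab j = none} + (JL lab).card = K := by
    rw [Nat.card_eq_fintype_card, Fintype.card_subtype]
    have h1 : JL lab = (Finset.univ : Finset (ZMod K)).filter (fun j => ¬ lab j = none) := by
      ext j
      simp [JL]
    rw [h1, Finset.card_filter_add_card_filter_not]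
    simp [ZMod.card]
  refine ⟨K, inferInstance, by rw [hKq]; exact hqp, by omega, M, hMpos, lab, ?_, hfib, ?_⟩
  · simp [lab]
  · rw [hJL] at hnone ⊢
    have h6 : M * B = B * M := mul_comm _ _
    have h7 : (M + 1) * B = M * B + B := by ring
    omega

/-- transport of `GapZero` along an equivariant equivalence -/
theorem gapZero_congr {ι X Y : Type} [Fintype X] [Fintype Y] {J : Finset ι}
    {act : ι → Equiv.Perm X} {act' : ι → Equiv.Perm Y} {η : ℝ} (e : X ≃ Y)
    (he : ∀ j x, e (act j x) = act' j (e x)) (h : GapZero J act' η) : GapZero J act η := by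
  intro f hf
  have he2 : ∀ j y, e.symm ((act' j).symm y) = (act j).symm (e.symm y) := by
    intro j y
    rw [Equiv.eq_symm_apply]
    apply e.injective
    rw [he]
    simp
  have h1 := h (fun y => f (e.symm y)) (by
    rw [← hf]
    exact Equiv.sum_comp e.symm f)
  have h2 : ∑ x, f (e.symm x) ^ 2 = ∑ x, f x ^ 2 := Equiv.sum_comp e.symm (fun x => f x ^ 2)
  have h3 : ∑ x, (avg J act' (fun y => f (e.symm y)) x) ^ 2 = ∑ x, (avg J act f x) ^ 2 := by
    rw [← Equiv.sum_comp e.symm (fun x => (avg J act f x) ^ 2)]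
    refine Finset.sum_congr rfl (fun y _ => ?_)
    simp only [avg, he2]
  rw [h2, h3] at h1
  exact h1

theorem gap_step {G : Type} [Group G] {ι : Type} (J : Finset ι) (s : ι → G) {η : ℝ} (hη : 0 ≤ η)
    (V : ℕ → Type) [∀ n, Fintype (V n)] [∀ n, MulAction G (V n)] (hp : Spec.ProdGap)
    (h0 : GapZero J (fun j => (pm (s j) : Equiv.Perm (V 0))) η)
    (hs : ∀ n, 1 ≤ n → GapFib J (fun j => (pm (s j) : Equiv.Perm (∀ k : Fin n, V k)))
      (fun j => (pm (s j) : Equiv.Perm (V n))) η) :
    ∀ n, 1 ≤ n → GapZero J (fun j => (pm (s j) : Equiv.Perm (∀ k : Fin n, V k))) η := by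
  intro n hn
  induction n, hn using Nat.le_induction with
  | base =>
    refine gapZero_congr (Equiv.piUnique (fun k : Fin 1 => V k)) (act' :=
      (fun j => (pm (s j) : Equiv.Perm (V 0)))) ?_ h0
    intro j x
    rfl
  | succ n hn ih =>
    have h1 := hp ι (∀ k : Fin n, V k) (V n) inferInstance inferInstance J _ _ η hη ih (hs n hn)
    let e : (∀ k : Fin (n + 1), V k) ≃ (∀ k : Fin n, V k) × V n :=
      { toFun := fun w => (fun k => w k.castSucc, w (Fin.last n))
        invFun := fun p => Fin.snoc (α := fun k : Fin (n + 1) => V k) p.1 p.2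
        left_inv := by
          intro w
          funext k
          refine Fin.lastCases ?_ (fun k => ?_) k
          · simp
          · simp
        right_inv := by
          rintro ⟨a, b⟩
          refine Prod.ext ?_ ?_
          · funext k
            simp
          · simp }
    refine gapZero_congr e ?_ h1
    intro j x
    rfl

theorem main (hs : Spec.StepE) (hv : Spec.VZero) (hp : Spec.ProdGap) (he : Spec.Expn)
    (ht : Spec.Trans) : Spec.Seq := by
  classical
  obtain ⟨R, m, hR, hstep⟩ := hs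
  have : Nonempty (Fin R × (Fin m → Fin 7)) := ⟨(⟨0, hR⟩, fun _ => 0)⟩
  obtain ⟨K, iK, hKp, hK8, M, hM, lab, hlab0, hfib, h100⟩ :=
    exists_lab (Fin R × (Fin m → Fin 7))
  obtain ⟨F, hF1, hF⟩ := exists_F K
  have hJne : (JL lab).Nonempty := by
    rw [← Finset.card_pos]
    omega
  let P : ∀ n : ℕ, (Fin n → FGS (Gam K)) → FGS (Gam K) → Prop := fun n s v =>
    2 ≤ Nat.card v.X ∧
    (n = 0 → D1 (fun (x : v.X) (j : ZMod K) => ((Gam.a j : Gam K) • x : v.X)) ∧
      D2 (fun (x : v.X) (j : ZMod K) => ((Gam.a j : Gam K) • x : v.X)) ∧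
      GapZero (JL lab) (fun j => (pm (Gam.a j : Gam K) : Equiv.Perm v.X)) (1 / 80) ∧
      GapZero (JL lab) (fun j => (pm (Gam.y j : Gam K) : Equiv.Perm v.X)) (1 / 80)) ∧
    (1 ≤ n → (∀ γ ∈ F n, 2 * Nat.card {x : v.X // γ • x = x} ≤ Nat.card v.X) ∧
      GapFib (JL lab) (fun j => (pm (Gam.a j : Gam K) : Equiv.Perm (∀ k : Fin n, (s k).X)))
        (fun j => (pm (Gam.a j : Gam K) : Equiv.Perm v.X)) (1 / 80) ∧
      GapFib (JL lab) (fun j => (pm (Gam.y j : Gam K) : Equiv.Perm (∀ k : Fin n, (s k).X)))
        (fun j => (pm (Gam.y j : Gam K) : Equiv.Perm v.X)) (1 / 80) ∧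
      (∃ S : Set v.X, (n + 1) * Nat.card S ≤ Nat.card v.X ∧
        ∀ x : v.X, ∃ i : ℤ, ((Gam.z : Gam K) ^ i) • x ∈ S))
  have hP : ∀ n s, ∃ v, P n s v := by
    intro n s
    rcases Nat.eq_zero_or_pos n with rfl | hn
    · obtain ⟨V, h1, h2, h3, h4, h5, h6, h7, h8⟩ := hv K iK hKp hK8 _ lab h100
      exact ⟨⟨V, h1, h2, h3⟩, h4, fun _ => ⟨h5, h6, h7, h8⟩, fun h => absurd h (by omega)⟩
    · obtain ⟨V, h1, h2, h3, h4, h5, h6, h7, h8⟩ := hstep K iK (by omega) M hM lab hlab0 hfib
        (∀ k : Fin n, (s k).X) inferInstance inferInstance (F n) (hF1 n) (n + 1) (by omega)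
      exact ⟨⟨V, h1, h2, h3⟩, h4, fun h => absurd h (by omega), fun _ => ⟨h5, h6, h7, h8⟩⟩
  obtain ⟨V, hV⟩ := exists_seq P hP
  refine ⟨K, iK, hK8, fun n => (V n).X, fun n => inferInstance, fun n => inferInstance,
    fun n => inferInstance, ?_, ?_, ?_⟩
  · intro γ hγ n0
    obtain ⟨n1, hn1⟩ := hF γ hγ
    refine ⟨max (max n0 n1) 1, by omega, ?_⟩
    exact ((hV _).2.2 (by omega)).1 γ (hn1 _ (by omega))
  · intro N hN
    obtain ⟨S, hS, hS2⟩ := ((hV N).2.2 hN).2.2.2
    exact ⟨N, S, le_trans (Nat.mul_le_mul_right _ (by omega)) hS, hS2⟩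
  · intro n hn
    have g1 := gap_step (JL lab) (fun j => (Gam.a j : Gam K)) (by norm_num : (0 : ℝ) ≤ 1 / 80)
      (fun n => (V n).X) hp ((hV 0).2.1 rfl).2.2.1 (fun n hn => ((hV n).2.2 hn).2.1) n hn
    have g2 := gap_step (JL lab) (fun j => (Gam.y j : Gam K)) (by norm_num : (0 : ℝ) ≤ 1 / 80)
      (fun n => (V n).X) hp ((hV 0).2.1 rfl).2.2.2 (fun n hn => ((hV n).2.2 hn).2.2.1) n hn
    have d1 := ((hV 0).2.1 rfl).1
    have d2 := ((hV 0).2.1 rfl).2.1
    refine ⟨?_, ?_, ?_, ?_, ?_⟩
    · rw [Nat.card_eq_fintype_card, Fintype.card_pi]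
      have h2 : ∀ k : Fin n, 2 ≤ Fintype.card (V k).X := by
        intro k
        rw [← Nat.card_eq_fintype_card]
        exact (hV k).1
      calc n ≤ 2 ^ n := Nat.lt_two_pow_self.le
        _ = ∏ _k : Fin n, 2 := by simp
        _ ≤ _ := Finset.prod_le_prod' (fun k _ => h2 k)
    · intro v j j' h
      exact d1 (v ⟨0, by omega⟩) (congrFun h ⟨0, by omega⟩)
    · intro v j v' j' h h'
      obtain ⟨h3, h4⟩ := d2 (v ⟨0, by omega⟩) j (v' ⟨0, by omega⟩) j'
        (congrFun h ⟨0, by omega⟩) (congrFun h' ⟨0, by omega⟩)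
      subst h4
      exact ⟨smul_left_cancel _ h, rfl⟩
    · intro m0 hm0
      rw [Nat.card_eq_fintype_card] at hm0
      exact he K iK _ inferInstance (JL lab) hJne _ g1 m0 hm0
    · intro Ω f hf
      exact ht (ZMod K) _ inferInstance (JL lab) hJne _ g2 Ω f hf

end Crest.Agent.FPSeq
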