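import Mathlib
import Crest.Prelude.Def_Cost

/-!
# Specification file for rid 191 (S0291, a finitely generated group without fixed price)

Every module is a `Prop` `Spec.X`.  A module `X` is proved in its own file
`Crest/Agent/FP<X>.lean` as `theorem Crest.Agent.FP<X>.main : Crest.Agent.FP.Spec.X`
(possibly with other `Spec.Y` as hypotheses, as written in the table `fp_modules`).
-/

set_option autoImplicit false

namespace Crest.Agent.FP

open scoped BigOperators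

/-! ## Part 1: labelled graphs, cells, Λ-sets -/

section graphs

variable {K : ℕ} {V L Q : Type}

/-- composite of the letters number `j0, …, j0+n-1` of the cell `v`. -/
def wd (ℓ : V → ZMod K → L) {Ω : Type} (γ : L → Equiv.Perm Ω) (v : V) (j0 : ZMod K) :
    ℕ → Equiv.Perm Ω
  | 0 => 1
  | (n + 1) => γ (ℓ v (j0 + (n : ZMod K))) * wd ℓ γ v j0 n

/-- `γ` is a `Λ`-set: for every cell `v` the product of the `K` letters of the cell is `1`. -/
def IsLam (ℓ : V → ZMod K → L) {Ω : Type} (γ : L → Equiv.Perm Ω) : Prop :=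
  ∀ v : V, wd ℓ γ v 0 K = 1

/-- every morphism of the labelled graph `E` into a `Λ`-set is constant, with value a fixed point. -/
def Onto (ℓ : V → ZMod K → L) (E : Finset (Q × L × Q)) : Prop :=
  ∀ (Ω : Type) (γ : L → Equiv.Perm Ω), IsLam ℓ γ → ∀ j : Q → Ω,
    (∀ e ∈ E, γ e.2.1 (j e.1) = j e.2.2) → ∃ ω, (∀ x, j x = ω) ∧ ∀ l, γ l ω = ω

/-- the same for morphisms which identify the pairs of `I`. -/
def OntoI (ℓ : V → ZMod K → L) (E : Finset (Q × L × Q)) (I : Finset (Q × Q)) : Prop :=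
  ∀ (Ω : Type) (γ : L → Equiv.Perm Ω), IsLam ℓ γ → ∀ j : Q → Ω,
    (∀ e ∈ E, γ e.2.1 (j e.1) = j e.2.2) → (∀ p ∈ I, j p.1 = j p.2) →
      ∃ ω, (∀ x, j x = ω) ∧ ∀ l, γ l ω = ω

/-- no two edges with the same label have the same source or the same target. -/
def Folded (E : Finset (Q × L × Q)) : Prop :=
  (∀ x l y y', (x, l, y) ∈ E → (x, l, y') ∈ E → y = y') ∧
  (∀ x x' l y, (x, l, y) ∈ E → (x', l, y) ∈ E → x = x')

/-- the `j`-th edge of the cell `p = (v, c)`. -/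
def cedge (ℓ : V → ZMod K → L) (p : V × (ZMod K → Q)) (j : ZMod K) : Q × L × Q :=
  (p.2 j, ℓ p.1 j, p.2 (j + 1))

def CellsIn (ℓ : V → ZMod K → L) (E : Finset (Q × L × Q)) (C : Finset (V × (ZMod K → Q))) : Prop :=
  ∀ p ∈ C, ∀ j, cedge ℓ p j ∈ E

/-- the edges covered by the cells of `C`. -/
noncomputable def covered [NeZero K] (ℓ : V → ZMod K → L) (C : Finset (V × (ZMod K → Q))) :
    Finset (Q × L × Q) := by
  classical exact C.biUnion (fun p => Finset.univ.image (cedge ℓ p))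

/-- `F_2`-cocycles: functions on the edges with zero sum along every cell of `C`. -/
def Z1 [NeZero K] (ℓ : V → ZMod K → L) (E : Finset (Q × L × Q)) (C : Finset (V × (ZMod K → Q))) :
    Submodule (ZMod 2) (Q × L × Q → ZMod 2) where
  carrier := {f | (∀ e, e ∉ E → f e = 0) ∧ ∀ p ∈ C, ∑ j : ZMod K, f (cedge ℓ p j) = 0}
  add_mem' := by
    rintro a b ⟨ha, ha'⟩ ⟨hb, hb'⟩
    refine ⟨fun e he => by simp [ha e he, hb e he], fun p hp => ?_⟩
    simp [Finset.sum_add_distrib, ha' p hp, hb' p hp]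
  zero_mem' := by simp
  smul_mem' := by
    rintro c a ⟨ha, ha'⟩
    refine ⟨fun e he => by simp [ha e he], fun p hp => ?_⟩
    simp [← Finset.mul_sum, ha' p hp]

noncomputable def z1 [NeZero K] (ℓ : V → ZMod K → L) (E : Finset (Q × L × Q))
    (C : Finset (V × (ZMod K → Q))) : ℕ := Module.finrank (ZMod 2) (Z1 ℓ E C)

noncomputable def mapE {Q' : Type} (π : Q → Q') (E : Finset (Q × L × Q)) : Finset (Q' × L × Q') := by
  classical exact E.image (fun e => (π e.1, e.2.1, π e.2.2))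

noncomputable def mapC {Q' : Type} (π : Q → Q') (C : Finset (V × (ZMod K → Q))) :
    Finset (V × (ZMod K → Q')) := by
  classical exact C.image (fun p => (p.1, fun j => π (p.2 j)))

/-- the degree of a vertex; loops count twice. -/
noncomputable def deg (E : Finset (Q × L × Q)) (x : Q) : ℕ := by
  classical exact (E.filter (fun e => e.1 = x)).card + (E.filter (fun e => e.2.2 = x)).card

/-- the letters of a cell are distinct. -/
def D1 (ℓ : V → ZMod K → L) : Prop := ∀ v, Function.Injective (ℓ v)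

/-- two consecutive letters determine the cell and the position. -/
def D2 (ℓ : V → ZMod K → L) : Prop :=
  ∀ v j v' j', ℓ v j = ℓ v' j' → ℓ v (j + 1) = ℓ v' (j' + 1) → v = v' ∧ j = j'

/-- expansion (factor 40) of sets of at most `m0` cells. -/
def Exp [NeZero K] (ℓ : V → ZMod K → L) (m0 : ℕ) : Prop := by
  classical exact ∀ S : Finset V, S.card ≤ m0 →
    40 * S.card ≤ (S.biUnion (fun v => Finset.univ.image (ℓ v))).card

/-- the states of the procedure. -/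
structure Good [NeZero K] [Fintype Q] (k : ℕ) (ℓ : V → ZMod K → L)
    (E : Finset (Q × L × Q)) (C : Finset (V × (ZMod K → Q))) : Prop where
  folded : Folded E
  cells : CellsIn ℓ E C
  onto : Onto ℓ E
  dim : z1 ℓ E C + 1 ≤ k + Fintype.card Q

/-! infinite labelled graphs as relations -/

def DetE (E : Q → L → Q → Prop) : Prop :=
  (∀ x l y y', E x l y → E x l y' → y = y') ∧ (∀ x x' l y, E x l y → E x' l y → x = x')

/-- `x 0, …, x n` is a path reading the letters number `j0, …, j0+n-1` of the cell `v`. -/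
def IsPath (ℓ : V → ZMod K → L) (E : Q → L → Q → Prop) (v : V) (j0 : ZMod K) (n : ℕ) (x : ℕ → Q) :
    Prop := ∀ i < n, E (x i) (ℓ v (j0 + (i : ZMod K))) (x (i + 1))

/-- there is a closed reading of the cell `v` which is at `x0` at position `j0`. -/
def OnCell (ℓ : V → ZMod K → L) (E : Q → L → Q → Prop) (v : V) (j0 : ZMod K) (x0 : Q) : Prop :=
  ∃ c : ZMod K → Q, (∀ j, E (c j) (ℓ v j) (c (j + 1))) ∧ c j0 = x0

/-- all `n`-paths are closed. -/
def Inv (n : ℕ) (ℓ : V → ZMod K → L) (E : Q → L → Q → Prop) : Prop :=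
  ∀ v j0 x, IsPath ℓ E v j0 n x → OnCell ℓ E v j0 (x 0)

end graphs

namespace Spec

/-! ### modules of part 1 -/

/-- Z1DIM: dimension counts for `Z1`. -/
def Z1Dim : Prop :=
  ∀ (K : ℕ) (_ : NeZero K) (V L Q : Type) (_ : Fintype L) (_ : Fintype Q) (ℓ : V → ZMod K → L)
    (E : Finset (Q × L × Q)) (C : Finset (V × (ZMod K → Q))),
    z1 ℓ E (∅ : Finset (V × (ZMod K → Q))) = E.card ∧ E.card ≤ z1 ℓ E C + C.card

/-- QUOT: folding. -/
def Quot : Prop :=
  ∀ (K : ℕ) (_ : NeZero K) (V L Q : Type) (_ : Fintype L) (_ : Fintype Q) (ℓ : V → ZMod K → L)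
    (E : Finset (Q × L × Q)) (C : Finset (V × (ZMod K → Q))) (I : Finset (Q × Q)), CellsIn ℓ E C →
    ∃ (Q' : Type) (_ : Fintype Q') (π : Q → Q'), Function.Surjective π ∧
      (∀ p ∈ I, π p.1 = π p.2) ∧ Folded (mapE π E) ∧
      z1 ℓ (mapE π E) (mapC π C) + Fintype.card Q ≤ z1 ℓ E C + Fintype.card Q' + I.card

/-- COVER: the cover lemma (layer cake). -/
def Cover : Prop :=
  ∀ (K : ℕ) (_ : NeZero K) (V L Q : Type) (ℓ : V → ZMod K → L) (m0 : ℕ), Exp ℓ m0 →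
    ∀ C : Finset (V × (ZMod K → Q)), C.card ≤ m0 →
      (∀ p ∈ C, ∀ p' ∈ C, p.1 = p'.1 → p ≠ p' → ∀ j, p.2 j ≠ p'.2 j) →
      40 * C.card ≤ (covered ℓ C).card

/-- TCA: one step of the Todd–Coxeter completion. -/
def TCA : Prop :=
  ∀ (K : ℕ) (_ : 8 ≤ K) (V L : Type) (ℓ : V → ZMod K → L), D2 ℓ →
    ∀ (Q : Type) (E : Q → L → Q → Prop), DetE E → Inv (K - 2) ℓ E →
      ∃ (Q' : Type) (E' : Q' → L → Q' → Prop) (i : Q → Q'), DetE E' ∧ Inv (K - 2) ℓ E' ∧
        Function.Injective i ∧ (∀ x l y, E' (i x) l (i y) ↔ E x l y) ∧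
        (∀ x l, ∃ y, E' (i x) l y) ∧ (∀ x l, ∃ y, E' y l (i x))

/-- TC: the completion. -/
def TC : Prop :=
  ∀ (K : ℕ) (_ : 8 ≤ K) (V L : Type) (ℓ : V → ZMod K → L), D2 ℓ →
    ∀ (Q : Type) (E : Q → L → Q → Prop), DetE E → Inv (K - 2) ℓ E →
      ∃ (Ω : Type) (γ : L → Equiv.Perm Ω) (i : Q → Ω), IsLam ℓ γ ∧ Function.Injective i ∧
        ∀ x l y, γ l (i x) = i y ↔ E x l y

/-- AMOVE: adding a cell along an unclosed `(K-4)`-path, and folding. -/
def AMove : Prop :=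
  ∀ (K : ℕ) (_ : NeZero K) (_ : 8 ≤ K) (V L Q : Type) (_ : Fintype L) (_ : Fintype Q)
    (ℓ : V → ZMod K → L) (m0 k : ℕ), D1 ℓ → D2 ℓ → Exp ℓ m0 →
    ∀ (E : Finset (Q × L × Q)) (C : Finset (V × (ZMod K → Q))), Good k ℓ E C → C.card + 1 ≤ m0 →
    ∀ (v : V) (j0 : ZMod K) (x : ℕ → Q),
      IsPath ℓ (fun a l b => (a, l, b) ∈ E) v j0 (K - 4) x →
      (¬ ∃ p ∈ C, p.1 = v ∧ p.2 j0 = x 0) →
      ∃ (Q' : Type) (_ : Fintype Q') (E' : Finset (Q' × L × Q')) (C' : Finset (V × (ZMod K → Q'))),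
        Good k ℓ E' C' ∧ C'.card ≤ C.card + 1 ∧ E'.card + 5 * C.card + 1 ≤ E.card + 5 * C'.card

/-- LEAF: removing a vertex of degree one. -/
def Leaf : Prop :=
  ∀ (K : ℕ) (_ : NeZero K) (_ : 8 ≤ K) (V L Q : Type) (_ : Fintype L) (_ : Fintype Q)
    (ℓ : V → ZMod K → L) (k : ℕ), D1 ℓ →
    ∀ (E : Finset (Q × L × Q)) (C : Finset (V × (ZMod K → Q))), Good k ℓ E C →
    ∀ x : Q, deg E x = 1 →
      ∃ (Q' : Type) (_ : Fintype Q') (E' : Finset (Q' × L × Q')) (C' : Finset (V × (ZMod K → Q'))),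
        Good k ℓ E' C' ∧ C'.card = C.card ∧ E'.card + 1 = E.card

/-- RUN: removing a run of six consecutive edges of a cell whose five interior vertices have
degree two, and the cell. -/
def Run : Prop :=
  ∀ (K : ℕ) (_ : NeZero K) (_ : 8 ≤ K) (V L Q : Type) (_ : Fintype L) (_ : Fintype Q)
    (ℓ : V → ZMod K → L) (k : ℕ), D1 ℓ → D2 ℓ →
    ∀ (E : Finset (Q × L × Q)) (C : Finset (V × (ZMod K → Q))), Good k ℓ E C →
    ∀ p ∈ C, ∀ j : ZMod K, (∀ s : ℕ, 1 ≤ s → s ≤ 5 → deg E (p.2 (j + (s : ZMod K))) = 2) →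
      ∃ (Q' : Type) (_ : Fintype Q') (E' : Finset (Q' × L × Q')) (C' : Finset (V × (ZMod K → Q'))),
        Good k ℓ E' C' ∧ C'.card + 1 = C.card ∧ E'.card + 6 = E.card

/-- COUNT: the counting of branch vertices. -/
def Count : Prop :=
  ∀ (K : ℕ) (_ : NeZero K) (_ : 8 ≤ K) (V L Q : Type) (_ : Fintype L) (_ : Fintype Q)
    (ℓ : V → ZMod K → L) (k : ℕ), D1 ℓ →
    ∀ (E : Finset (Q × L × Q)) (C : Finset (V × (ZMod K → Q))), Good k ℓ E C →
    (∀ x : Q, 2 ≤ deg E x) →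
    (∀ p ∈ C, ∀ j : ZMod K, ∃ s : ℕ, 1 ≤ s ∧ s ≤ 5 ∧ 3 ≤ deg E (p.2 (j + (s : ZMod K)))) →
    40 * C.card ≤ (covered ℓ C).card → C.card ≤ 3 * k

/-- FT: the finite theorem. -/
def FT : Prop :=
  ∀ (K : ℕ) (_ : NeZero K) (_ : 8 ≤ K) (V L : Type) (_ : Fintype L) (ℓ : V → ZMod K → L)
    (m0 : ℕ), D1 ℓ → D2 ℓ → Exp ℓ m0 →
    ∀ (Q : Type) (_ : Fintype Q) (E : Finset (Q × L × Q)) (I : Finset (Q × Q)) (k : ℕ),
      OntoI ℓ E I → E.card + I.card + 1 ≤ Fintype.card Q + k → k + m0 ≤ Fintype.card L →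
      m0 ≤ 3 * k

end Spec

/-! ## Part 2: the group -/

/-- data of generators satisfying the defining relations, in a group `G`. -/
structure GenData (K : ℕ) (G : Type) [Group G] where
  a : ZMod K → G
  y : ZMod K → G
  g : G
  z : G
  a0 : a 0 = 1
  zt : ∀ j, Commute z (a (j + 1) * (a j)⁻¹ * g⁻¹)
  zy : ∀ j, Commute z (y j)

inductive Gen (K : ℕ) : Type
  | a (j : ZMod K)
  | y (j : ZMod K)
  | g
  | z

/-- the commutator. -/
def comm {G : Type} [Group G] (x y : G) : G := x * y * x⁻¹ * y⁻¹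

theorem comm_eq_one {G : Type} [Group G] (x y : G) : comm x y = 1 ↔ Commute x y := by
  unfold comm
  rw [mul_inv_eq_one, mul_inv_eq_iff_eq_mul]
  rfl

theorem map_comm {G H : Type} [Group G] [Group H] (f : G →* H) (x y : G) :
    f (comm x y) = comm (f x) (f y) := by
  simp [comm]

/-- the defining relators. -/
def rels (K : ℕ) : Set (FreeGroup (Gen K)) :=
  {w | w = FreeGroup.of (Gen.a 0) ∨
    (∃ j : ZMod K, w = comm (FreeGroup.of Gen.z)
      (FreeGroup.of (Gen.a (j + 1)) * (FreeGroup.of (Gen.a j))⁻¹ * (FreeGroup.of Gen.g)⁻¹)) ∨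
    (∃ j : ZMod K, w = comm (FreeGroup.of Gen.z) (FreeGroup.of (Gen.y j)))}

/-- the group `Γ`. -/
abbrev Gam (K : ℕ) : Type := PresentedGroup (rels K)

namespace Gam

variable {K : ℕ}

def a (j : ZMod K) : Gam K := PresentedGroup.of (rels := rels K) (Gen.a j)
def y (j : ZMod K) : Gam K := PresentedGroup.of (rels := rels K) (Gen.y j)
def g : Gam K := PresentedGroup.of (rels := rels K) Gen.g
def z : Gam K := PresentedGroup.of (rels := rels K) Gen.z

/-- the elements `t_j`. -/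
def t (j : ZMod K) : Gam K := a (j + 1) * (a j)⁻¹ * g⁻¹

theorem a0 : (a 0 : Gam K) = 1 := by
  have : (PresentedGroup.mk (rels K)) (FreeGroup.of (Gen.a 0)) = 1 :=
    PresentedGroup.one_of_mem (show _ ∈ rels K from Or.inl rfl)
  exact this

theorem zt (j : ZMod K) : Commute (z : Gam K) (a (j + 1) * (a j)⁻¹ * g⁻¹) := by
  have h : (PresentedGroup.mk (rels K)) (comm (FreeGroup.of Gen.z)
      (FreeGroup.of (Gen.a (j + 1)) * (FreeGroup.of (Gen.a j))⁻¹ * (FreeGroup.of Gen.g)⁻¹)) = 1 :=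
    PresentedGroup.one_of_mem (show _ ∈ rels K from Or.inr (Or.inl ⟨j, rfl⟩))
  rw [map_comm, comm_eq_one] at h
  simp only [map_mul, map_inv] at h
  exact h

theorem zy (j : ZMod K) : Commute (z : Gam K) (y j) := by
  have h : (PresentedGroup.mk (rels K)) (comm (FreeGroup.of Gen.z)
      (FreeGroup.of (Gen.y j))) = 1 :=
    PresentedGroup.one_of_mem (show _ ∈ rels K from Or.inr (Or.inr ⟨j, rfl⟩))
  rw [map_comm, comm_eq_one] at h
  exact h

/-- the images of the generators. -/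
def GenData.fn {G : Type} [Group G] (D : GenData K G) : Gen K → G
  | Gen.a j => D.a j
  | Gen.y j => D.y j
  | Gen.g => D.g
  | Gen.z => D.z

/-- the universal property. -/
def lift {G : Type} [Group G] (D : GenData K G) : Gam K →* G :=
  PresentedGroup.toGroup (rels := rels K) (f := GenData.fn D)
    (by
      rintro r (rfl | ⟨j, rfl⟩ | ⟨j, rfl⟩)
      · simpa [GenData.fn] using D.a0
      · rw [map_comm, comm_eq_one]
        simpa [GenData.fn] using D.zt j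
      · rw [map_comm, comm_eq_one]
        simpa [GenData.fn] using D.zy j)

@[simp] theorem lift_a {G : Type} [Group G] (D : GenData K G) (j : ZMod K) :
    lift D (a j) = D.a j := PresentedGroup.toGroup.of _
@[simp] theorem lift_y {G : Type} [Group G] (D : GenData K G) (j : ZMod K) :
    lift D (y j) = D.y j := PresentedGroup.toGroup.of _
@[simp] theorem lift_g {G : Type} [Group G] (D : GenData K G) :
    lift D g = D.g := PresentedGroup.toGroup.of _
@[simp] theorem lift_z {G : Type} [Group G] (D : GenData K G) :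
    lift D z = D.z := PresentedGroup.toGroup.of _

/-- induction principle: a subgroup containing the generators is everything. -/
theorem mem_of_gens (S : Subgroup (Gam K)) (ha : ∀ j, a j ∈ S) (hy : ∀ j, y j ∈ S)
    (hg : g ∈ S) (hz : z ∈ S) (γ : Gam K) : γ ∈ S := by
  have h := PresentedGroup.closure_range_of (rels K)
  have h2 : Subgroup.closure (Set.range (PresentedGroup.of (rels := rels K))) ≤ S := by
    rw [Subgroup.closure_le]
    rintro _ ⟨s, rfl⟩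
    cases s with
    | a j => exact ha j
    | y j => exact hy j
    | g => exact hg
    | z => exact hz
  have h3 : (⊤ : Subgroup (Gam K)) ≤ S := by
    rw [← h]; exact h2
  exact h3 (Subgroup.mem_top γ)

/-- two homomorphisms agreeing on generators are equal. -/
theorem hom_ext {G : Type} [Group G] (f f' : Gam K →* G) (ha : ∀ j, f (a j) = f' (a j))
    (hy : ∀ j, f (y j) = f' (y j)) (hg : f g = f' g) (hz : f z = f' z) : f = f' := by
  refine MonoidHom.ext (fun γ => ?_)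
  exact mem_of_gens (f.eqLocus f') ha hy hg hz γ

theorem fg [NeZero K] : Group.FG (Gam K) := by
  classical
  have : Fintype (Gen K) := Fintype.ofEquiv (ZMod K ⊕ ZMod K ⊕ Unit ⊕ Unit)
    { toFun := fun s => match s with
        | Sum.inl j => Gen.a j
        | Sum.inr (Sum.inl j) => Gen.y j
        | Sum.inr (Sum.inr (Sum.inl _)) => Gen.g
        | Sum.inr (Sum.inr (Sum.inr _)) => Gen.z
      invFun := fun s => match s with
        | Gen.a j => Sum.inl j
        | Gen.y j => Sum.inr (Sum.inl j)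
        | Gen.g => Sum.inr (Sum.inr (Sum.inl ()))
        | Gen.z => Sum.inr (Sum.inr (Sum.inr ()))
      left_inv := by rintro (j | j | _ | _) <;> rfl
      right_inv := by rintro (j | j | _ | _) <;> rfl }
  refine ⟨⟨(Set.range (PresentedGroup.of (rels := rels K))).toFinset, ?_⟩⟩
  rw [Set.coe_toFinset]
  exact PresentedGroup.closure_range_of (rels K)

end Gam

/-! ## Part 3: paths in the action groupoid -/

/-- `GPath E v γ`: there is a chain of arrows of `E` (or inverses) starting at `v` with total group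
element `γ`; the arrow `(w, h) ∈ E` goes from `w` to `h • w`. -/
inductive GPath {G V : Type} [Group G] [MulAction G V] (E : Set (V × G)) (v : V) : G → Prop
  | one : GPath E v 1
  | step {γ h : G} : GPath E v γ → (γ • v, h) ∈ E → GPath E v (h * γ)
  | back {γ h : G} : GPath E v γ → (h⁻¹ • (γ • v), h) ∈ E → GPath E v (h⁻¹ * γ)

/-- `E` generates the action groupoid. -/
def GenGpd {G V : Type} [Group G] [MulAction G V] (E : Set (V × G)) : Prop :=
  ∀ (v : V) (γ : G), GPath E v γ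

open Crest.Dynamics MeasureTheory

namespace Spec

/-- INIT: from a generating set of the groupoid to a labelled graph. -/
def Init : Prop :=
  ∀ (K : ℕ) (_ : NeZero K) (_ : 2 ≤ K) (V : Type) (_ : Fintype V) (_ : Nonempty V)
    (_ : MulAction (Gam K) V) (E' : Finset (V × Gam K)), GenGpd (E' : Set (V × Gam K)) →
    (∀ (Ω : Type) (j : V → Ω), (∀ (i : ZMod K) (v : V), j ((Gam.y i : Gam K) • v) = j v) → ∀ v w, j v = j w) →
    ∃ (Q : Type) (_ : Fintype Q) (E : Finset (Q × V × Q)) (I : Finset (Q × Q)),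
      OntoI (fun (v : V) (j : ZMod K) => ((Gam.a j : Gam K) • v : V)) E I ∧
      E.card + I.card + Fintype.card V ≤ Fintype.card Q + E'.card

/-- SC: semicontinuity of the cost. -/
def SC : Prop :=
  ∀ (Γ X : Type) (_ : Group Γ) (_ : Group.FG Γ) (_ : MeasurableSpace X) (μ : Measure X)
    (_ : IsProbabilityMeasure μ) (_ : MulAction Γ X), IsFreePMPAction Γ X μ →
    ∀ (W : ℕ → Type) (_ : ∀ n, Fintype (W n)) (_ : ∀ n, Nonempty (W n))
      (_ : ∀ n, MulAction Γ (W n)) (π : ∀ n, X → W n),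
      (∀ n (γ : Γ) x, π n (γ • x) = γ • π n x) →
      (∀ n w, MeasurableSet (π n ⁻¹' {w})) →
      (∀ n w, μ (π n ⁻¹' {w}) = (Fintype.card (W n) : ENNReal)⁻¹) →
      (∀ D, MeasurableSet D → ∀ ε : ENNReal, 0 < ε → ∃ n0, ∀ n ≥ n0, ∃ S : Set (W n),
        μ (symmDiff D (π n ⁻¹' S)) ≤ ε) →
      ∀ c : ENNReal, c ≠ ⊤ → actionCost Γ X μ < c →
        ∃ n0, ∀ n ≥ n0, ∃ E' : Finset (W n × Γ), GenGpd (E' : Set (W n × Γ)) ∧
          (E'.card : ENNReal) ≤ c * (Fintype.card (W n) : ENNReal)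

/-- PROD: the product action. -/
def Prod : Prop :=
  ∀ (Γ : Type) (_ : Group Γ) (V : ℕ → Type) (_ : ∀ n, Fintype (V n)) (_ : ∀ n, Nonempty (V n))
    (_ : ∀ n, MulAction Γ (V n)),
    (∀ γ : Γ, γ ≠ 1 → ∀ n0, ∃ n ≥ n0, 2 * Nat.card {v : V n // γ • v = v} ≤ Nat.card (V n)) →
    ∃ (_ : MeasurableSpace (∀ n, V n)) (_ : StandardBorelSpace (∀ n, V n))
      (μ : Measure (∀ n, V n)) (_ : IsProbabilityMeasure μ),
      IsFreePMPAction Γ (∀ n, V n) μ ∧
      (∀ (n : ℕ) (w : ∀ k : Fin n, V k),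
        MeasurableSet {x : ∀ n, V n | (fun k : Fin n => x k) = w} ∧
        μ {x : ∀ n, V n | (fun k : Fin n => x k) = w}
          = (Fintype.card (∀ k : Fin n, V k) : ENNReal)⁻¹) ∧
      (∀ D, MeasurableSet D → ∀ ε : ENNReal, 0 < ε → ∃ n0, ∀ n ≥ n0, ∃ S : Set (∀ k : Fin n, V k),
        μ (symmDiff D {x | (fun k : Fin n => x k) ∈ S}) ≤ ε) ∧
      (∀ (n : ℕ) (S : Set (V n)), MeasurableSet {x : ∀ n, V n | x n ∈ S} ∧
        μ {x : ∀ n, V n | x n ∈ S} = (Nat.card S : ENNReal) / (Nat.card (V n) : ENNReal))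

/-- UB: actions of small cost. -/
def UB : Prop :=
  ∀ (K : ℕ) (_ : NeZero K) (_ : 3 ≤ K) (X : Type) (_ : MeasurableSpace X)
    (_ : StandardBorelSpace X) (μ : Measure X) (_ : IsProbabilityMeasure μ)
    (_ : MulAction (Gam K) X), IsFreePMPAction (Gam K) X μ →
    (∀ N : ℕ, 0 < N → ∃ S : Set X, MeasurableSet S ∧ μ S ≤ (N : ENNReal)⁻¹ ∧
      ∀ x : X, ∃ n : ℤ, ((Gam.z : Gam K) ^ n) • x ∈ S) →
    ∀ M : ℕ, 0 < M →
      ∃ (Y : Type) (_ : MeasurableSpace Y) (_ : StandardBorelSpace Y) (ν : Measure Y)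
        (_ : IsProbabilityMeasure ν) (_ : MulAction (Gam K) Y),
        IsFreePMPAction (Gam K) Y ν ∧ actionCost (Gam K) Y ν ≤ 1 + 99 / (M : ENNReal)

/-! ### residual finiteness -/

/-- HALL: M. Hall's theorem, for the stabiliser of a coset. -/
def Hall : Prop :=
  ∀ (α : Type) (_ : Fintype α) (T : Subgroup (FreeGroup α)) (Ts : Finset (FreeGroup α)),
    (∀ t ∈ Ts, t ∈ T) → ∀ hs : Finset (FreeGroup α), (∀ h ∈ hs, h ∉ T) →
    ∃ (F : Type) (_ : Fintype F) (ρ : FreeGroup α →* Equiv.Perm F) (x0 : F),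
      (∀ t ∈ Ts, ρ t x0 = x0) ∧ ∀ h ∈ hs, ρ h x0 ≠ x0

/-- RF1: `Γ` is residually finite. -/
def RF1 : Prop :=
  ∀ (K : ℕ) (_ : NeZero K) (_ : 2 ≤ K) (γ : Gam K), γ ≠ 1 →
    ∃ (D : Type) (_ : Fintype D) (ρ : Gam K →* Equiv.Perm D), ρ γ ≠ 1

/-- RF2: `Γ → Perm D` with finitely many prescribed elements noncentral, and `z` of large order. -/
def RF2 : Prop :=
  ∀ (K : ℕ) (_ : NeZero K) (_ : 2 ≤ K) (F : Finset (Gam K)) (_ : (1 : Gam K) ∉ F) (N : ℕ),
    ∃ (D : Type) (_ : Fintype D) (_ : DecidableEq D) (ρ : Gam K →* Equiv.Perm D),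
      (∀ γ ∈ F, ∃ τ : Equiv.Perm D, τ * ρ γ ≠ ρ γ * τ) ∧
      ∀ i : ℕ, 0 < i → i < N → ρ ((Gam.z : Gam K) ^ i) ≠ 1

end Spec

/-! ## Part 4: averaging operators and gaps -/

section gaps

/-- average of `f` over the family of permutations `act j`, `j ∈ J`. -/
noncomputable def avg {ι X : Type} (J : Finset ι) (act : ι → Equiv.Perm X) (f : X → ℝ) : X → ℝ :=
  fun x => (J.card : ℝ)⁻¹ * ∑ j ∈ J, f ((act j).symm x)

/-- spectral gap on functions with zero sum. -/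
def GapZero {ι X : Type} [Fintype X] (J : Finset ι) (act : ι → Equiv.Perm X) (η : ℝ) : Prop :=
  ∀ f : X → ℝ, ∑ x, f x = 0 → ∑ x, (avg J act f x) ^ 2 ≤ η * ∑ x, f x ^ 2

/-- spectral gap on functions on `W × X` with zero sums over the fibres of `W × X → W`. -/
def GapFib {ι W X : Type} [Fintype W] [Fintype X] (J : Finset ι) (actW : ι → Equiv.Perm W)
    (actX : ι → Equiv.Perm X) (η : ℝ) : Prop :=
  ∀ f : W × X → ℝ, (∀ w, ∑ x, f (w, x) = 0) →
    ∑ x, (avg J (fun j => (actW j).prodCongr (actX j)) f x) ^ 2 ≤ η * ∑ x, f x ^ 2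

/-- the permutation of a `Γ`-set given by an element. -/
abbrev pm {G X : Type} [Group G] [MulAction G X] (γ : G) : Equiv.Perm X := MulAction.toPerm γ

/-- the indices with a label. -/
noncomputable def JL {K : ℕ} [NeZero K] {B : Type} (lab : ZMod K → Option B) : Finset (ZMod K) := by
  classical exact Finset.univ.filter (fun j => lab j ≠ none)

/-- nonzero vectors of `F_p^3`. -/
def PV (p : ℕ) : Type := {x : Fin 3 → ZMod p // x ≠ 0}

noncomputable instance (p : ℕ) [NeZero p] : Fintype (PV p) := by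
  classical exact Subtype.fintype _

/-- the elementary matrix `1 + c E_{ij}`, in `SL_3`. -/
def El {F : Type} [Field F] (i j : Fin 3) (hij : i ≠ j) (c : F) :
    Matrix.SpecialLinearGroup (Fin 3) F :=
  ⟨Matrix.transvection i j c, Matrix.det_transvection_of_ne i j hij c⟩

/-- the natural action of `SL_3(F_p)` on the nonzero vectors. -/
noncomputable def slPerm (p : ℕ) [Fact p.Prime] :
    Matrix.SpecialLinearGroup (Fin 3) (ZMod p) →* Equiv.Perm (PV p) where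
  toFun g :=
    { toFun := fun x => ⟨(g : Matrix (Fin 3) (Fin 3) (ZMod p)).mulVec x.1, by
        intro h
        apply x.2
        have h2 := congrArg (fun v => ((g⁻¹ : Matrix.SpecialLinearGroup (Fin 3) (ZMod p)) :
          Matrix (Fin 3) (Fin 3) (ZMod p)).mulVec v) h
        simp only [Matrix.mulVec_mulVec, Matrix.mulVec_zero] at h2
        rw [← Matrix.SpecialLinearGroup.coe_mul, inv_mul_cancel,
          Matrix.SpecialLinearGroup.coe_one, Matrix.one_mulVec] at h2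
        exact h2⟩
      invFun := fun x => ⟨((g⁻¹ : Matrix.SpecialLinearGroup (Fin 3) (ZMod p)) :
          Matrix (Fin 3) (Fin 3) (ZMod p)).mulVec x.1, by
        intro h
        apply x.2
        have h2 := congrArg (fun v => (g : Matrix (Fin 3) (Fin 3) (ZMod p)).mulVec v) h
        simp only [Matrix.mulVec_mulVec, Matrix.mulVec_zero] at h2
        rw [← Matrix.SpecialLinearGroup.coe_mul, mul_inv_cancel,
          Matrix.SpecialLinearGroup.coe_one, Matrix.one_mulVec] at h2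
        exact h2⟩
      left_inv := by
        intro x
        apply Subtype.ext
        simp only [Matrix.mulVec_mulVec]
        rw [← Matrix.SpecialLinearGroup.coe_mul, inv_mul_cancel,
          Matrix.SpecialLinearGroup.coe_one, Matrix.one_mulVec]
      right_inv := by
        intro x
        apply Subtype.ext
        simp only [Matrix.mulVec_mulVec]
        rw [← Matrix.SpecialLinearGroup.coe_mul, mul_inv_cancel,
          Matrix.SpecialLinearGroup.coe_one, Matrix.one_mulVec] }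
  map_one' := by
    ext x : 1
    apply Subtype.ext
    change ((1 : Matrix.SpecialLinearGroup (Fin 3) (ZMod p)) :
      Matrix (Fin 3) (Fin 3) (ZMod p)).mulVec x.1 = x.1
    rw [Matrix.SpecialLinearGroup.coe_one, Matrix.one_mulVec]
  map_mul' g h := by
    ext x : 1
    apply Subtype.ext
    change ((g * h : Matrix.SpecialLinearGroup (Fin 3) (ZMod p)) :
      Matrix (Fin 3) (Fin 3) (ZMod p)).mulVec x.1 =
      (g : Matrix (Fin 3) (Fin 3) (ZMod p)).mulVec
        ((h : Matrix (Fin 3) (Fin 3) (ZMod p)).mulVec x.1)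
    rw [Matrix.SpecialLinearGroup.coe_mul, Matrix.mulVec_mulVec]

theorem slPerm_val (p : ℕ) [Fact p.Prime] (g : Matrix.SpecialLinearGroup (Fin 3) (ZMod p))
    (x : PV p) : (slPerm p g x).1 = (g : Matrix (Fin 3) (Fin 3) (ZMod p)).mulVec x.1 := rfl

/-- the seven elements: the identity and the six elementary matrices with coefficient `1`. -/
def el7 (F : Type) [Field F] : Fin 7 → Matrix.SpecialLinearGroup (Fin 3) F :=
  ![1, El 0 1 (by decide) 1, El 0 2 (by decide) 1, El 1 0 (by decide) 1,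
    El 1 2 (by decide) 1, El 2 0 (by decide) 1, El 2 1 (by decide) 1]

/-- product of a word in the seven elements. -/
def word7 (F : Type) [Field F] {m : ℕ} (w : Fin m → Fin 7) :
    Matrix.SpecialLinearGroup (Fin 3) F := (List.ofFn (fun i => el7 F (w i))).prod

/-- its action on nonzero vectors. -/
noncomputable def wordP (p : ℕ) [Fact p.Prime] {m : ℕ} (w : Fin m → Fin 7) : Equiv.Perm (PV p) :=
  slPerm p (word7 (ZMod p) w)

end gaps

namespace Spec

/-- MEAS: a probability measure on `F_p^2` almost invariant under the two shears. -/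
def Meas : Prop :=
  ∀ (p : ℕ) (_ : Fact p.Prime) (_ : 100 ≤ p) (ν : ZMod p × ZMod p → ℝ) (ε : ℝ), 0 ≤ ε → ε ≤ 1 →
    (∀ x, 0 ≤ ν x) →
    (∀ S : Finset (ZMod p × ZMod p), |∑ x ∈ S, ν (x.1, x.2 + x.1) - ∑ x ∈ S, ν x| ≤ 2 * ε) →
    (∀ S : Finset (ZMod p × ZMod p), |∑ x ∈ S, ν (x.1 + x.2, x.2) - ∑ x ∈ S, ν x| ≤ 2 * ε) →
    (∑ x ∈ Finset.univ.filter (fun x : ZMod p × ZMod p => (p : ℤ) ≤ 6 * |x.1.valMinAbs|), ν x
      ≤ ε ^ 2) →
    (∑ x ∈ Finset.univ.filter (fun x : ZMod p × ZMod p => (p : ℤ) ≤ 6 * |x.2.valMinAbs|), ν x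
      ≤ ε ^ 2) →
    ∑ x ∈ Finset.univ.filter (fun x : ZMod p × ZMod p => x ≠ 0), ν x ≤ 32 * ε

/-- RELT: relative property (T) for `F_p^2` inside `SL_2 ⋉ F_p^2`, for permutation
representations. -/
def RelT : Prop :=
  ∀ (p : ℕ) (_ : Fact p.Prime) (_ : 100 ≤ p) (X : Type) (_ : Fintype X)
    (τ : ZMod p → ZMod p → Equiv.Perm X) (u l : Equiv.Perm X),
    (∀ s t s' t', τ (s + s') (t + t') = τ s t * τ s' t') →
    (∀ s t, u * τ s t * u⁻¹ = τ (s + t) t) →
    (∀ s t, l * τ s t * l⁻¹ = τ s (t + s)) →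
    ∀ (f : X → ℂ) (ε : ℝ), 0 ≤ ε → ε ≤ 1 → ∑ x, ‖f x‖ ^ 2 ≤ 1 →
    (∑ x, ‖f (u x) - f x‖ ^ 2 ≤ ε ^ 2) → (∑ x, ‖f (l x) - f x‖ ^ 2 ≤ ε ^ 2) →
    (∑ x, ‖f (τ 1 0 x) - f x‖ ^ 2 ≤ ε ^ 2) → (∑ x, ‖f (τ 0 1 x) - f x‖ ^ 2 ≤ ε ^ 2) →
    ∀ s t, ∑ x, ‖f (τ s t x) - f x‖ ^ 2 ≤ 128 * ε

/-- BGEN: bounded generation of `SL_3` of a field by elementary matrices. -/
def BGen : Prop :=
  ∀ (F : Type) (_ : Field F) (g : Matrix.SpecialLinearGroup (Fin 3) F),
    ∃ l : List (Matrix.SpecialLinearGroup (Fin 3) F), l.length ≤ 30 ∧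
      (∀ e ∈ l, ∃ (i j : Fin 3) (hij : i ≠ j) (c : F), e = El i j hij c) ∧ l.prod = g

/-- GAPSL: uniform spectral gap for finite `SL_3(F_p)`-sets. -/
def GapSL : Prop :=
  ∃ θ : ℝ, 0 < θ ∧ θ < 1 ∧ ∀ (p : ℕ) (_ : Fact p.Prime) (_ : 100 ≤ p) (X : Type) (_ : Fintype X)
    (ρ : Matrix.SpecialLinearGroup (Fin 3) (ZMod p) →* Equiv.Perm X) (f : X → ℝ),
    (∀ x, ∑ g : Matrix.SpecialLinearGroup (Fin 3) (ZMod p), f (ρ g x) = 0) →
    ∑ x, ((1 / 7 : ℝ) * ∑ i : Fin 7, f (ρ (el7 (ZMod p) i) x)) ^ 2 ≤ θ ^ 2 * ∑ x, f x ^ 2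

/-- MIX: the mixing inequality on `PV p × PV p`, with an explicit `θ`. -/
def Mix (θ : ℝ) : Prop :=
  ∀ (p : ℕ) (_ : Fact p.Prime) (_ : 100 ≤ p) (m : ℕ) (A B : PV p → PV p → ℝ),
    (∀ x y, |A x y| ≤ (A x x + A y y) / 2) → (∀ x y, |B x y| ≤ (B x x + B y y) / 2) →
    (∀ x, ∑ y, A x y = 0) →
    ((7 : ℝ) ^ m)⁻¹ * ∑ w : Fin m → Fin 7, ∑ x, ∑ y, B (wordP p w x) (wordP p w y) * A x y
      ≤ θ ^ m * (Real.sqrt (∑ x, ∑ y, A x y ^ 2) * Real.sqrt (∑ x, ∑ y, B x y ^ 2))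
        + 3 * (∑ x, A x x) * (∑ x, B x x) / (p : ℝ) ^ 2

def MixE : Prop := ∃ θ : ℝ, 0 < θ ∧ θ < 1 ∧ Mix θ

/-- ABSORB: matrix square roots and the weighted Cauchy–Schwarz inequality. -/
def Absorb : Prop :=
  ∀ (P C : Type) (_ : Fintype P) (_ : Fintype C),
    ∃ sq : (P → C → ℝ) → (P → P → ℝ),
      (∀ F x y, |sq F x y| ≤ (sq F x x + sq F y y) / 2) ∧
      (∀ F, ∑ x, ∑ y, (sq F x y) ^ 2 = ∑ x, ∑ c, (F x c) ^ 2) ∧
      (∀ F, 0 ≤ ∑ x, sq F x x) ∧
      (∀ F, (∑ x, sq F x x) ^ 2 ≤ (Fintype.card C : ℝ) * ∑ x, ∑ c, (F x c) ^ 2) ∧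
      (∀ F : P → C → ℝ, (∀ c, ∑ x, F x c = 0) → ∀ x, ∑ y, sq F x y = 0) ∧
      (∀ (F G : P → C → ℝ) (σ : Equiv.Perm P) (τ : Equiv.Perm C),
        (∑ x, ∑ c, G (σ x) (τ c) * F x c) ^ 2 ≤
          (∑ x, ∑ y, sq G (σ x) (σ y) * sq F x y) *
            (Real.sqrt (∑ x, ∑ c, (F x c) ^ 2) * Real.sqrt (∑ x, ∑ c, (G x c) ^ 2)))

/-- BLOCK: norm of an average of permutations `word × τ` on functions with zero column sums. -/
def Block (θ : ℝ) : Prop :=
  ∀ (p : ℕ) (_ : Fact p.Prime) (_ : 100 ≤ p) (m : ℕ) (C ι : Type) (_ : Fintype C) (_ : Fintype ι)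
    (M : ℕ) (_ : 0 < M) (w : ι → (Fin m → Fin 7)),
    (∀ u, Nat.card {j : ι // w j = u} = M) → ∀ (τ : ι → Equiv.Perm C) (F : PV p × C → ℝ),
    (∀ c, ∑ x, F (x, c) = 0) →
    ∑ x, (avg Finset.univ (fun j => (wordP p (w j)).prodCongr (τ j)) F x) ^ 2 ≤
      (θ ^ m + 3 * (Fintype.card C : ℝ) / (p : ℝ) ^ 2) * ∑ x, F x ^ 2

/-- SPW: norm bound for the twisted action on `W × (PV p × D)`. -/
def SPW (θ : ℝ) : Prop :=
  ∀ (p : ℕ) (_ : Fact p.Prime) (_ : 100 ≤ p) (R m : ℕ) (_ : 0 < R) (W D ι : Type) (_ : Fintype W)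
    (_ : Fintype D) (_ : Group D) (_ : Fintype ι) (M : ℕ) (_ : 0 < M)
    (lab : ι → Fin R × (Fin m → Fin 7)),
    (∀ u, Nat.card {j : ι // lab j = u} = M) →
    ∀ (α : ι → Equiv.Perm W) (r : ι → D) (ε : Fin R → PV p → D),
    (∀ i k, i ≠ k → ∀ e : D,
      Nat.card {x : PV p // (ε i x)⁻¹ * ε k x = e} * Nat.card D = Nat.card (PV p)) →
    ∀ act : ι → Equiv.Perm (PV p × D),
    (∀ j x d, act j (x, d) = (wordP p (lab j).2 x, r j * d * ε (lab j).1 x)) →
    GapFib Finset.univ α act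
      (((Real.sqrt (R : ℝ))⁻¹ + Real.sqrt (θ ^ m + 3 * ((Fintype.card W : ℝ) * Fintype.card D)
        / (p : ℝ) ^ 2)) ^ 2)

/-- TW1: the twisted action on `P × D`. -/
def TW1 : Prop :=
  ∀ (K : ℕ) (_ : NeZero K) (D P : Type) (_ : Fintype D) (_ : Group D) (_ : Fintype P)
    (ρ : Gam K →* D) (σ : ZMod K → Equiv.Perm P) (ε : ZMod K → P → D),
    σ 0 = 1 → (∀ x, ε 0 x = 1) →
    ∃ act : Gam K →* Equiv.Perm (P × D),
      (∀ j x d, act (Gam.a j) (x, d) = (σ j x, ρ (Gam.a j) * d * ε j x)) ∧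
      (∀ j x d, act (Gam.y j) (x, d) = (σ j x, ρ (Gam.y j) * d * ε j x)) ∧
      (∀ γ : Gam K, (∃ e : D, e * ρ γ ≠ ρ γ * e) →
        2 * Nat.card {v : P × D // act γ v = v} ≤ Nat.card (P × D)) ∧
      (∀ N : ℕ, 0 < N → (∀ i : ℕ, 0 < i → i < N → ρ ((Gam.z : Gam K) ^ i) ≠ 1) →
        ∃ S : Set (P × D), N * Nat.card S ≤ Nat.card (P × D) ∧
          ∀ v, ∃ n : ℤ, act ((Gam.z : Gam K) ^ n) v ∈ S)

/-- STEP: the inductive step of the construction, for given `R`, `m`. -/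
def Step (R m : ℕ) : Prop :=
  ∀ (K : ℕ) (_ : NeZero K) (_ : 3 ≤ K) (M : ℕ) (_ : 0 < M)
    (lab : ZMod K → Option (Fin R × (Fin m → Fin 7))),
    lab 0 = none → (∀ u, Nat.card {j : ZMod K // lab j = some u} = M) →
    ∀ (W : Type) (_ : Fintype W) (_ : MulAction (Gam K) W) (F : Finset (Gam K))
      (_ : (1 : Gam K) ∉ F) (N : ℕ) (_ : 0 < N),
    ∃ (V : Type) (_ : Fintype V) (_ : Nonempty V) (_ : MulAction (Gam K) V),
      2 ≤ Nat.card V ∧
      (∀ γ ∈ F, 2 * Nat.card {v : V // γ • v = v} ≤ Nat.card V) ∧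
      GapFib (JL lab) (fun j => (pm (Gam.a j : Gam K) : Equiv.Perm W))
        (fun j => (pm (Gam.a j : Gam K) : Equiv.Perm V)) (1 / 80) ∧
      GapFib (JL lab) (fun j => (pm (Gam.y j : Gam K) : Equiv.Perm W))
        (fun j => (pm (Gam.y j : Gam K) : Equiv.Perm V)) (1 / 80) ∧
      (∃ S : Set V, N * Nat.card S ≤ Nat.card V ∧
        ∀ v : V, ∃ n : ℤ, ((Gam.z : Gam K) ^ n) • v ∈ S)

def StepE : Prop := ∃ R m : ℕ, 0 < R ∧ Step R m

/-- VZERO: the initial finite `Γ`-set `ZMod (K+1)`. -/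
def VZero : Prop :=
  ∀ (K : ℕ) (_ : NeZero K) (_ : (K + 1).Prime) (_ : 8 ≤ K) (B : Type) (lab : ZMod K → Option B),
    100 * (1 + Nat.card {j : ZMod K // lab j = none}) ≤ (JL lab).card →
    ∃ (V : Type) (_ : Fintype V) (_ : Nonempty V) (_ : MulAction (Gam K) V),
      2 ≤ Nat.card V ∧
      D1 (fun (v : V) (j : ZMod K) => ((Gam.a j : Gam K) • v : V)) ∧
      D2 (fun (v : V) (j : ZMod K) => ((Gam.a j : Gam K) • v : V)) ∧
      GapZero (JL lab) (fun j => (pm (Gam.a j : Gam K) : Equiv.Perm V)) (1 / 80) ∧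
      GapZero (JL lab) (fun j => (pm (Gam.y j : Gam K) : Equiv.Perm V)) (1 / 80)

/-- PRODGAP: gap for a product. -/
def ProdGap : Prop :=
  ∀ (ι W X : Type) (_ : Fintype W) (_ : Fintype X) (J : Finset ι) (actW : ι → Equiv.Perm W)
    (actX : ι → Equiv.Perm X) (η : ℝ), 0 ≤ η → GapZero J actW η → GapFib J actW actX η →
    GapZero J (fun j => (actW j).prodCongr (actX j)) η

/-- EXPN: a gap gives expansion of small sets. -/
def Expn : Prop :=
  ∀ (K : ℕ) (_ : NeZero K) (V : Type) (_ : Fintype V) (J : Finset (ZMod K)) (_ : J.Nonempty)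
    (act : ZMod K → Equiv.Perm V), GapZero J act (1 / 80) → ∀ m0 : ℕ,
    80 * m0 ≤ Fintype.card V → Exp (fun (v : V) (j : ZMod K) => act j v) m0

/-- TRANS: a gap gives transitivity. -/
def Trans : Prop :=
  ∀ (ι V : Type) (_ : Fintype V) (J : Finset ι) (_ : J.Nonempty)
    (act : ι → Equiv.Perm V), GapZero J act (1 / 80) →
    ∀ (Ω : Type) (f : V → Ω), (∀ i v, f (act i v) = f v) → ∀ v w, f v = f w

/-- SEQ: the sequence of finite `Γ`-sets. -/
def Seq : Prop :=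
  ∃ (K : ℕ) (_ : NeZero K) (_ : 8 ≤ K) (V : ℕ → Type) (_ : ∀ n, Fintype (V n))
    (_ : ∀ n, Nonempty (V n)) (_ : ∀ n, MulAction (Gam K) (V n)),
    (∀ γ : Gam K, γ ≠ 1 → ∀ n0, ∃ n ≥ n0, 2 * Nat.card {v : V n // γ • v = v} ≤ Nat.card (V n)) ∧
    (∀ N : ℕ, 0 < N → ∃ n, ∃ S : Set (V n), N * Nat.card S ≤ Nat.card (V n) ∧
      ∀ v : V n, ∃ i : ℤ, ((Gam.z : Gam K) ^ i) • v ∈ S) ∧
    ∀ n : ℕ, 1 ≤ n →
      n ≤ Nat.card (∀ k : Fin n, V k) ∧
      D1 (fun (v : ∀ k : Fin n, V k) (j : ZMod K) =>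
        ((Gam.a j : Gam K) • v : ∀ k : Fin n, V k)) ∧
      D2 (fun (v : ∀ k : Fin n, V k) (j : ZMod K) =>
        ((Gam.a j : Gam K) • v : ∀ k : Fin n, V k)) ∧
      (∀ m0 : ℕ, 80 * m0 ≤ Nat.card (∀ k : Fin n, V k) →
        Exp (fun (v : ∀ k : Fin n, V k) (j : ZMod K) =>
          ((Gam.a j : Gam K) • v : ∀ k : Fin n, V k)) m0) ∧
      (∀ (Ω : Type) (f : (∀ k : Fin n, V k) → Ω),
        (∀ (i : ZMod K) (v : ∀ k : Fin n, V k), f ((Gam.y i : Gam K) • v) = f v) →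
        ∀ v w, f v = f w)

/-- FIN: the finite theorem for generating sets of the groupoid. -/
def Fin' : Prop :=
  ∀ (K : ℕ) (_ : NeZero K) (_ : 8 ≤ K) (V : Type) (_ : Fintype V) (_ : Nonempty V)
    (_ : MulAction (Gam K) V) (m0 : ℕ), 1 ≤ m0 → 80 * m0 ≤ Fintype.card V →
    D1 (fun (v : V) (j : ZMod K) => ((Gam.a j : Gam K) • v : V)) →
    D2 (fun (v : V) (j : ZMod K) => ((Gam.a j : Gam K) • v : V)) →
    Exp (fun (v : V) (j : ZMod K) => ((Gam.a j : Gam K) • v : V)) m0 →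
    (∀ (Ω : Type) (j : V → Ω), (∀ (i : ZMod K) (v : V), j ((Gam.y i : Gam K) • v) = j v) →
      ∀ v w, j v = j w) →
    ∀ E' : Finset (V × Gam K), GenGpd (E' : Set (V × Gam K)) →
      3 * Fintype.card V + m0 ≤ 3 * E'.card + 3

end Spec

end Crest.Agent.FP
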