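import Crest.Agent.FPSpec

set_option autoImplicit false

namespace Crest.Agent.FPStep

open Crest.Agent.FP

theorem card_PV (p : ℕ) [Fact p.Prime] : Fintype.card (PV p) = p ^ 3 - 1 := by
  classical
  have h : Fintype.card (PV p) = Fintype.card {x : Fin 3 → ZMod p // x ≠ 0} :=
    Fintype.card_congr (Equiv.refl _)
  rw [h, Fintype.card_subtype_compl]
  simp [ZMod.card]

/-- perfectly independent maps -/
theorem exists_eps (p R : ℕ) [Fact p.Prime] (D : Type) [Fintype D] [Group D]
    (h : (Nat.card D) ^ R ∣ p - 1) :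
    ∃ ε : Fin R → PV p → D, ∀ i k, i ≠ k → ∀ c : D,
      Nat.card {x : PV p // (ε i x)⁻¹ * ε k x = c} * Nat.card D = Nat.card (PV p) := by
  classical
  have hp : 2 ≤ p := (Fact.out : p.Prime).two_le
  have h1 : p - 1 ∣ p ^ 3 - 1 := by
    have := Nat.sub_one_dvd_pow_sub_one p 3
    exact this
  obtain ⟨n', hn'⟩ := h.trans h1
  have hcard : Fintype.card (PV p) = Fintype.card ((Fin R → D) × Fin n') := by
    rw [card_PV, hn']
    simp [Nat.card_eq_fintype_card]
  let e : PV p ≃ (Fin R → D) × Fin n' := Fintype.equivOfCardEq hcard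
  refine ⟨fun i x => (e x).1 i, fun i k hik c => ?_⟩
  have e1 : {x : PV p // ((e x).1 i)⁻¹ * (e x).1 k = c} ≃
      {x : (Fin R → D) × Fin n' // (x.1 i)⁻¹ * x.1 k = c} :=
    e.subtypeEquiv (fun x => Iff.rfl)
  have e2 : {x : (Fin R → D) × Fin n' // (x.1 i)⁻¹ * x.1 k = c} × D ≃ (Fin R → D) × Fin n' :=
    { toFun := fun q => (Function.update q.1.1.1 k (q.1.1.1 k * q.2), q.1.1.2)
      invFun := fun x => (⟨(Function.update x.1 k (x.1 i * c), x.2), by simp [hik]⟩,
        (x.1 i * c)⁻¹ * x.1 k)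
      left_inv := by
        rintro ⟨⟨⟨x, t⟩, hx⟩, d⟩
        have hx' : (x i)⁻¹ * x k = c := hx
        have hx2 : x i * c = x k := by rw [← hx']; group
        simp [hik, hx2]
      right_inv := by
        rintro ⟨x, t⟩
        have : x i * c * ((x i * c)⁻¹ * x k) = x k := by group
        simp only [Function.update_self, Function.update_idem, this, Function.update_eq_self] }
  rw [← Nat.card_prod, Nat.card_congr (Equiv.prodCongr e1 (Equiv.refl D)), Nat.card_congr e2,
    Nat.card_congr e]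

theorem gap_subtype {K : ℕ} [NeZero K] {B W X : Type} [Fintype W] [Fintype X]
    (lab : ZMod K → Option B) (actW : ZMod K → Equiv.Perm W) (actX : ZMod K → Equiv.Perm X)
    (η η' : ℝ) (hηη : η ≤ η') [Fintype {j : ZMod K // lab j ≠ none}]
    (h : GapFib (Finset.univ : Finset {j : ZMod K // lab j ≠ none}) (fun j => actW j.1)
      (fun j => actX j.1) η) : GapFib (JL lab) actW actX η' := by
  classical
  intro f hf
  have h1 := h f hf
  have h2 : ∀ x, avg (JL lab) (fun j => (actW j).prodCongr (actX j)) f x =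
      avg (Finset.univ : Finset {j : ZMod K // lab j ≠ none})
        (fun j => (actW j.1).prodCongr (actX j.1)) f x := by
    intro x
    unfold avg
    have hc : (JL lab).card = (Finset.univ : Finset {j : ZMod K // lab j ≠ none}).card := by
      rw [Finset.card_univ, Fintype.card_subtype]
      congr 1
    have hs : ∑ j ∈ JL lab, f (((actW j).prodCongr (actX j)).symm x) =
        ∑ j : {j : ZMod K // lab j ≠ none}, f (((actW j.1).prodCongr (actX j.1)).symm x) := by
      refine Finset.sum_subtype (JL lab) (p := fun j => lab j ≠ none) ?_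
        (fun j => f (((actW j).prodCongr (actX j)).symm x))
      intro j; simp [JL]
    rw [hc, hs]
  simp only [h2]
  refine h1.trans (mul_le_mul_of_nonneg_right hηη ?_)
  exact Finset.sum_nonneg (fun x _ => sq_nonneg _)

theorem main (θ : ℝ) (h0 : 0 < θ) (h1 : θ < 1) (hs : Spec.SPW θ) (ht : Spec.TW1)
    (hr : Spec.RF2) : Spec.StepE := by
  classical
  obtain ⟨m, hm⟩ := exists_pow_lt_of_lt_one (show (0 : ℝ) < 1 / 800 by norm_num) h1
  refine ⟨400, m, by norm_num, ?_⟩
  intro K iK hK M hM lab hlab0 hfib W iW aW F hF1 N hN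
  obtain ⟨D', iD', dD', ρ, hρ, hρz⟩ := hr K iK (by omega) F hF1 N
  set D := Equiv.Perm D' with hD
  set A := Fintype.card W * Fintype.card D with hA
  have hDpos : Nat.card D ^ 400 ≠ 0 := by
    have : 0 < Nat.card D := Nat.card_pos
    positivity
  obtain ⟨p, hp, hpl, hpm⟩ := Nat.exists_prime_gt_modEq_one (k := Nat.card D ^ 400)
    (2400 * A + 100) hDpos
  have : Fact p.Prime := ⟨hp⟩
  have hdvd : Nat.card D ^ 400 ∣ p - 1 := (Nat.modEq_iff_dvd' hp.one_lt.le).1 hpm.symm
  obtain ⟨ε, hε⟩ := exists_eps p 400 D hdvd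
  let σ : ZMod K → Equiv.Perm (PV p) := fun j => match lab j with
    | none => 1
    | some u => wordP p u.2
  let ε' : ZMod K → PV p → D := fun j x => match lab j with
    | none => 1
    | some u => ε u.1 x
  obtain ⟨act, hacta, hacty, hfix, hmark⟩ := ht K iK D (PV p) inferInstance inferInstance
    inferInstance ρ σ ε' (by simp only [σ, hlab0]) (fun x => by simp only [ε', hlab0])
  let iV : MulAction (Gam K) (PV p × D) := MulAction.compHom (PV p × D) act
  have hpmact : ∀ γ : Gam K, (pm γ : Equiv.Perm (PV p × D)) = act γ := by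
    intro γ
    ext v : 1
    rfl
  have hsm : ∀ (γ : Gam K) (v : PV p × D), γ • v = act γ v := fun γ v => rfl
  have hPVcard : 2 ≤ Fintype.card (PV p) := by
    rw [card_PV]
    have : 100 ≤ p := by omega
    have h3 : 100 ^ 3 ≤ p ^ 3 := Nat.pow_le_pow_left this 3
    omega
  have hη : ((Real.sqrt ((400 : ℕ) : ℝ))⁻¹ + Real.sqrt (θ ^ m + 3 * ((Fintype.card W : ℝ) *
      Fintype.card D) / (p : ℝ) ^ 2)) ^ 2 ≤ 1 / 80 := by
    have e1 : Real.sqrt ((400 : ℕ) : ℝ) = 20 := by
      rw [show ((400 : ℕ) : ℝ) = 20 ^ 2 by norm_num]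
      exact Real.sqrt_sq (by norm_num)
    have hpr : (2400 * A + 100 : ℝ) ≤ p := by exact_mod_cast hpl.le
    have hAr : (A : ℝ) = (Fintype.card W : ℝ) * Fintype.card D := by rw [hA]; push_cast; ring
    have hA0 : (0 : ℝ) ≤ A := Nat.cast_nonneg _
    have hp100 : (100 : ℝ) ≤ p := by linarith
    have e2 : 3 * ((Fintype.card W : ℝ) * Fintype.card D) / (p : ℝ) ^ 2 ≤ 1 / 800 := by
      rw [← hAr, div_le_iff₀ (by positivity)]
      nlinarith
    have e3 : Real.sqrt (θ ^ m + 3 * ((Fintype.card W : ℝ) * Fintype.card D) / (p : ℝ) ^ 2)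
        ≤ 1 / 20 := by
      rw [show (1 / 20 : ℝ) = Real.sqrt ((1 / 20) ^ 2) by
        rw [Real.sqrt_sq (by norm_num)]]
      apply Real.sqrt_le_sqrt
      norm_num
      linarith
    have e4 := Real.sqrt_nonneg (θ ^ m + 3 * ((Fintype.card W : ℝ) * Fintype.card D) /
      (p : ℝ) ^ 2)
    rw [e1]
    have e5 : (20 : ℝ)⁻¹ + Real.sqrt (θ ^ m + 3 * ((Fintype.card W : ℝ) * Fintype.card D) /
      (p : ℝ) ^ 2) ≤ 1 / 10 := by norm_num at e3 ⊢; linarith
    have e6 : (0 : ℝ) ≤ (20 : ℝ)⁻¹ + Real.sqrt (θ ^ m + 3 * ((Fintype.card W : ℝ) *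
      Fintype.card D) / (p : ℝ) ^ 2) := by positivity
    nlinarith
  have hsome : ∀ j : {j : ZMod K // lab j ≠ none}, ∃ u, lab j.1 = some u := fun j =>
    Option.ne_none_iff_exists'.1 j.2
  choose lab' hlab' using hsome
  have hfib' : ∀ u, Nat.card {j : {j : ZMod K // lab j ≠ none} // lab' j = u} = M := by
    intro u
    rw [← hfib u]
    refine Nat.card_congr
      { toFun := fun j => ⟨j.1.1, by rw [hlab', j.2]⟩
        invFun := fun j => ⟨⟨j.1, by rw [j.2]; simp⟩, by
          have h5 := hlab' ⟨j.1, by rw [j.2]; simp⟩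
          have h6 : some u = some (lab' ⟨j.1, by rw [j.2]; simp⟩) := j.2.symm.trans h5
          exact (Option.some.inj h6).symm⟩
        left_inv := fun j => by simp
        right_inv := fun j => by simp }
  refine ⟨PV p × D, inferInstance, ?_, iV, ?_, ?_, ?_, ?_, ?_⟩
  · have : Nonempty (PV p) := Fintype.card_pos_iff.1 (by omega)
    infer_instance
  · rw [Nat.card_prod, Nat.card_eq_fintype_card]
    have : 0 < Nat.card D := Nat.card_pos
    nlinarith
  · intro γ hγ
    obtain ⟨τ, hτ⟩ := hρ γ hγ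
    exact hfix γ ⟨τ, hτ⟩
  · refine gap_subtype lab _ _ _ _ hη ?_
    refine hs p inferInstance (by omega) 400 m (by norm_num) W D {j : ZMod K // lab j ≠ none}
      inferInstance inferInstance inferInstance inferInstance M hM lab' hfib' _
      (fun j => ρ (Gam.a j.1)) ε hε _ ?_
    intro j x d
    change act (Gam.a j.1) (x, d) = _
    rw [hacta]
    simp only [σ, ε', hlab' j]
  · refine gap_subtype lab _ _ _ _ hη ?_
    refine hs p inferInstance (by omega) 400 m (by norm_num) W D {j : ZMod K // lab j ≠ none}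
      inferInstance inferInstance inferInstance inferInstance M hM lab' hfib' _
      (fun j => ρ (Gam.y j.1)) ε hε _ ?_
    intro j x d
    change act (Gam.y j.1) (x, d) = _
    rw [hacty]
    simp only [σ, ε', hlab' j]
  · obtain ⟨S, hS1, hS2⟩ := hmark N hN hρz
    exact ⟨S, hS1, hS2⟩

end Crest.Agent.FPStep
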