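import Crest.Agent.FPSpec

set_option autoImplicit false

namespace Crest.Agent.FPTC

open Crest.Agent.FP

section limit

variable {F : ℕ → Type} (e : ∀ n, F n → F (n + 1))

/-- transition maps. -/
def up {n m : ℕ} (h : n ≤ m) : F n → F m := Nat.leRecOn h (fun {k} => e k)

theorem up_self {n : ℕ} (x : F n) : up e (le_refl n) x = x := Nat.leRecOn_self x

theorem up_trans {n m k : ℕ} (hnm : n ≤ m) (hmk : m ≤ k) (x : F n) :
    up e hmk (up e hnm x) = up e (hnm.trans hmk) x := (Nat.leRecOn_trans hnm hmk x).symm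

theorem up_succ {n m : ℕ} (h : n ≤ m) (x : F n) :
    up e (Nat.le_succ_of_le h) x = e m (up e h x) := Nat.leRecOn_succ h x

theorem up_injective (he : ∀ n, Function.Injective (e n)) {n m : ℕ} (h : n ≤ m) :
    Function.Injective (up e h) :=
  Nat.leRecOn_injective h _ (fun k => he k)

/-- the equivalence relation. -/
def sd : Setoid (Σ n, F n) where
  r x y := ∃ (m : ℕ) (hx : x.1 ≤ m) (hy : y.1 ≤ m), up e hx x.2 = up e hy y.2
  iseqv := ⟨fun x => ⟨x.1, le_rfl, le_rfl, rfl⟩, fun ⟨m, hx, hy, h⟩ => ⟨m, hy, hx, h.symm⟩, by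
    rintro x y z ⟨m, hx, hy, h⟩ ⟨m', hy', hz, h'⟩
    refine ⟨max m m', hx.trans (le_max_left _ _), hz.trans (le_max_right _ _), ?_⟩
    rw [← up_trans e hx (le_max_left m m'), h, up_trans, ← up_trans e hz (le_max_right m m'), ← h',
      up_trans]⟩

/-- the limit. -/
def Lim : Type := Quotient (sd e)

/-- the maps to the limit. -/
def mk (n : ℕ) (x : F n) : Lim e := Quotient.mk (sd e) ⟨n, x⟩

theorem mk_up {n m : ℕ} (h : n ≤ m) (x : F n) : mk e m (up e h x) = mk e n x := by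
  apply Quotient.sound
  exact ⟨m, le_rfl, h, up_self e _⟩

theorem mk_e {n : ℕ} (x : F n) : mk e (n + 1) (e n x) = mk e n x := by
  rw [← mk_up e (Nat.le_succ n) x, up_succ e le_rfl x, up_self]

theorem mk_inj (he : ∀ n, Function.Injective (e n)) {n : ℕ} {x y : F n}
    (h : mk e n x = mk e n y) : x = y := by
  obtain ⟨m, hx, hy, h⟩ := Quotient.exact h
  exact up_injective e he hx h

theorem exists_mk (ω : Lim e) : ∃ n x, ω = mk e n x := by
  obtain ⟨⟨n, x⟩, rfl⟩ := Quotient.exists_rep ω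
  exact ⟨n, x, rfl⟩

theorem exists_ge (ω : Lim e) : ∃ n, ∀ m, n ≤ m → ∃ x, ω = mk e m x := by
  obtain ⟨n, x, rfl⟩ := exists_mk e ω
  exact ⟨n, fun m hm => ⟨up e hm x, (mk_up e hm x).symm⟩⟩

theorem exists_common (ω : ℕ → Lim e) (m : ℕ) :
    ∃ n, ∀ k, n ≤ k → ∀ i ≤ m, ∃ x, ω i = mk e k x := by
  induction m with
  | zero =>
    obtain ⟨n, hn⟩ := exists_ge e (ω 0)
    refine ⟨n, fun k hk i hi => ?_⟩
    rw [Nat.le_zero.mp hi]
    exact hn k hk
  | succ m ih =>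
    obtain ⟨n, hn⟩ := ih
    obtain ⟨n', hn'⟩ := exists_ge e (ω (m + 1))
    refine ⟨max n n', fun k hk i hi => ?_⟩
    rcases Nat.le_or_eq_of_le_succ hi with h | h
    · exact hn k ((le_max_left _ _).trans hk) i h
    · rw [h]; exact hn' k ((le_max_right _ _).trans hk)

variable {L : Type} (E : ∀ n, F n → L → F n → Prop)

/-- the relation on the limit. -/
def R (l : L) (ω ω' : Lim e) : Prop := ∃ n x y, ω = mk e n x ∧ ω' = mk e n y ∧ E n x l y

variable {e E} (he : ∀ n, Function.Injective (e n))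
  (hiff : ∀ n x l y, E (n + 1) (e n x) l (e n y) ↔ E n x l y)

include hiff in
theorem E_up {n m : ℕ} (h : n ≤ m) (x : F n) (l : L) (y : F n) :
    E m (up e h x) l (up e h y) ↔ E n x l y := by
  induction m, h using Nat.le_induction with
  | base => rw [up_self, up_self]
  | succ m h ih => rw [up_succ e h x, up_succ e h y, hiff, ih]

include he hiff in
theorem R_mk {n : ℕ} (x : F n) (l : L) (y : F n) :
    R e E l (mk e n x) (mk e n y) ↔ E n x l y := by
  constructor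
  · rintro ⟨m, x', y', hx, hy, h⟩
    rw [← mk_up e (le_max_left n m) x, ← mk_up e (le_max_right n m) x'] at hx
    rw [← mk_up e (le_max_left n m) y, ← mk_up e (le_max_right n m) y'] at hy
    have hx' := mk_inj e he hx
    have hy' := mk_inj e he hy
    rw [← E_up hiff (le_max_left n m), hx', hy', E_up hiff (le_max_right n m)]
    exact h
  · intro h
    exact ⟨n, x, y, rfl, rfl, h⟩

end limit

theorem limit (K : ℕ) (hK : 8 ≤ K) (V L : Type) (ℓ : V → ZMod K → L) (F : ℕ → Type)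
    (E : ∀ n, F n → L → F n → Prop) (e : ∀ n, F n → F (n + 1)) (hdet : ∀ n, DetE (E n))
    (hinv : ∀ n, Inv (K - 2) ℓ (E n)) (he : ∀ n, Function.Injective (e n))
    (hiff : ∀ n x l y, E (n + 1) (e n x) l (e n y) ↔ E n x l y)
    (hout : ∀ n x l, ∃ y, E (n + 1) (e n x) l y) (hin : ∀ n x l, ∃ y, E (n + 1) y l (e n x)) :
    ∃ (Ω : Type) (γ : L → Equiv.Perm Ω) (i : F 0 → Ω), IsLam ℓ γ ∧ Function.Injective i ∧
        ∀ x l y, γ l (i x) = i y ↔ E 0 x l y := by
  have hR := fun n x l y => R_mk (e := e) (E := E) he hiff (n := n) x l y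
  have ex1 : ∀ l (ω : Lim e), ∃ ω', R e E l ω ω' := by
    intro l ω
    obtain ⟨n, x, rfl⟩ := exists_mk e ω
    obtain ⟨y, hy⟩ := hout n x l
    refine ⟨mk e (n + 1) y, ?_⟩
    rw [← mk_e e x, hR]
    exact hy
  have ex2 : ∀ l (ω : Lim e), ∃ ω', R e E l ω' ω := by
    intro l ω
    obtain ⟨n, x, rfl⟩ := exists_mk e ω
    obtain ⟨y, hy⟩ := hin n x l
    refine ⟨mk e (n + 1) y, ?_⟩
    rw [← mk_e e x, hR]
    exact hy
  have un1 : ∀ l (ω ω' ω'' : Lim e), R e E l ω ω' → R e E l ω ω'' → ω' = ω'' := by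
    intro l ω ω' ω'' h1 h2
    obtain ⟨n, hn⟩ := exists_ge e ω
    obtain ⟨n', hn'⟩ := exists_ge e ω'
    obtain ⟨n'', hn''⟩ := exists_ge e ω''
    obtain ⟨x, rfl⟩ := hn (n + n' + n'') (by omega)
    obtain ⟨y, rfl⟩ := hn' (n + n' + n'') (by omega)
    obtain ⟨z, rfl⟩ := hn'' (n + n' + n'') (by omega)
    rw [hR] at h1 h2
    rw [(hdet _).1 _ _ _ _ h1 h2]
  have un2 : ∀ l (ω ω' ω'' : Lim e), R e E l ω' ω → R e E l ω'' ω → ω' = ω'' := by
    intro l ω ω' ω'' h1 h2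
    obtain ⟨n, hn⟩ := exists_ge e ω
    obtain ⟨n', hn'⟩ := exists_ge e ω'
    obtain ⟨n'', hn''⟩ := exists_ge e ω''
    obtain ⟨x, rfl⟩ := hn (n + n' + n'') (by omega)
    obtain ⟨y, rfl⟩ := hn' (n + n' + n'') (by omega)
    obtain ⟨z, rfl⟩ := hn'' (n + n' + n'') (by omega)
    rw [hR] at h1 h2
    rw [(hdet _).2 _ _ _ _ h1 h2]
  choose f hf using ex1
  choose g hg using ex2
  let γ : L → Equiv.Perm (Lim e) := fun l =>
    { toFun := f l
      invFun := g l
      left_inv := fun ω => un2 l (f l ω) _ _ (hg l (f l ω)) (hf l ω)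
      right_inv := fun ω => un1 l (g l ω) _ _ (hf l (g l ω)) (hg l ω) }
  have hγ : ∀ l ω ω', γ l ω = ω' ↔ R e E l ω ω' := by
    intro l ω ω'
    constructor
    · rintro rfl
      exact hf l ω
    · intro h
      exact un1 l ω _ _ (hf l ω) h
  refine ⟨Lim e, γ, mk e 0, ?_, fun x y h => mk_inj e he h, fun x l y => by rw [hγ, hR]⟩
  intro v
  ext ω
  rw [Equiv.Perm.one_apply]
  obtain ⟨n, hn⟩ := exists_common e (fun i => wd ℓ γ v 0 i ω) (K - 2)
  have hn1 : ∀ i : ℕ, ∃ x : F n, i ≤ K - 2 → wd ℓ γ v 0 i ω = mk e n x := by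
    intro i
    by_cases hi : i ≤ K - 2
    · obtain ⟨x, hx⟩ := hn n le_rfl i hi
      exact ⟨x, fun _ => hx⟩
    · obtain ⟨x, hx⟩ := hn n le_rfl 0 (by omega)
      exact ⟨x, fun h => absurd h hi⟩
  choose x hx using hn1
  have hwd : ∀ i, wd ℓ γ v 0 (i + 1) ω = γ (ℓ v (0 + (i : ZMod K))) (wd ℓ γ v 0 i ω) := by
    intro i
    rfl
  have hpath : IsPath ℓ (E n) v 0 (K - 2) x := by
    intro i hi
    rw [← hR n, ← hx i (by omega), ← hx (i + 1) (by omega), ← hγ, hwd]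
  obtain ⟨c, hc, hc0⟩ := hinv n v 0 x hpath
  have hall : ∀ i : ℕ, wd ℓ γ v 0 i ω = mk e n (c ((i : ℕ) : ZMod K)) := by
    intro i
    induction i with
    | zero =>
      rw [hx 0 (by omega), ← hc0, Nat.cast_zero]
    | succ i ih =>
      rw [hwd, ih, hγ, hR, Nat.cast_succ, zero_add]
      exact hc _
  rw [hall K, ZMod.natCast_self, hc0, ← hx 0 (by omega)]
  rfl

/-- the stages. -/
structure St (K : ℕ) (V L : Type) (ℓ : V → ZMod K → L) where
  Q : Type
  E : Q → L → Q → Prop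
  det : DetE E
  inv : Inv (K - 2) ℓ E

theorem main (h : Spec.TCA) : Spec.TC := by
  intro K hK V L ℓ hD Q E hdet hinv
  have hnext : ∀ s : St K V L ℓ, ∃ (t : St K V L ℓ) (i : s.Q → t.Q), Function.Injective i ∧
      (∀ x l y, t.E (i x) l (i y) ↔ s.E x l y) ∧ (∀ x l, ∃ y, t.E (i x) l y) ∧
      (∀ x l, ∃ y, t.E y l (i x)) := by
    intro s
    obtain ⟨Q', E', i, h1, h2, h3, h4, h5, h6⟩ := h K hK V L ℓ hD s.Q s.E s.det s.inv
    exact ⟨⟨Q', E', h1, h2⟩, i, h3, h4, h5, h6⟩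
  choose nx em h1 h2 h3 h4 using hnext
  let sq : ℕ → St K V L ℓ := fun n => Nat.rec ⟨Q, E, hdet, hinv⟩ (fun _ s => nx s) n
  exact limit K hK V L ℓ (fun n => (sq n).Q) (fun n => (sq n).E) (fun n => em (sq n))
    (fun n => (sq n).det) (fun n => (sq n).inv) (fun n => h1 (sq n)) (fun n => h2 (sq n))
    (fun n => h3 (sq n)) (fun n => h4 (sq n))

end Crest.Agent.FPTC
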