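import Crest.Agent.FPSpec

/-!
# Rid 191, module TCA: one step of the Todd–Coxeter completion
-/

set_option autoImplicit false

namespace Crest.Agent.FPTCA

open Crest.Agent.FP

section

variable {H : ℕ} {V L Q : Type}

/-- the new vertices -/
inductive Ext (H : ℕ) (V L Q : Type) : Type
  | old (x : Q)
  | out (x : Q) (l : L)
  | inn (x : Q) (l : L)
  | mid (v : V) (j : ZMod (H + 4)) (x : Q)

open Ext

/-- maximal paths -/
def Mx (ℓ : V → ZMod (H + 4) → L) (E : Q → L → Q → Prop) (v : V) (j : ZMod (H + 4)) (n : ℕ)
    (x0 xn : Q) : Prop :=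
  (∃ x : ℕ → Q, IsPath ℓ E v j n x ∧ x 0 = x0 ∧ x n = xn) ∧
    (∀ y, ¬ E xn (ℓ v (j + (n : ZMod (H + 4)))) y) ∧
    (∀ y, ¬ E y (ℓ v (j + ((H + 3 : ℕ) : ZMod (H + 4)))) x0)

/-- the new edges -/
def EE (ℓ : V → ZMod (H + 4) → L) (E : Q → L → Q → Prop) :
    Ext H V L Q → L → Ext H V L Q → Prop
  | old x, l, old y => E x l y
  | old x, l, out x' l' => x' = x ∧ l' = l ∧ ∀ y, ¬ E x l y
  | inn x' l', l, old x => x' = x ∧ l' = l ∧ ∀ y, ¬ E y l x
  | out xn l1, l, inn x0 l2 => ∃ v j, Mx ℓ E v j (H + 1) x0 xn ∧
      l1 = ℓ v (j + ((H + 1 : ℕ) : ZMod (H + 4))) ∧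
      l = ℓ v (j + ((H + 2 : ℕ) : ZMod (H + 4))) ∧
      l2 = ℓ v (j + ((H + 3 : ℕ) : ZMod (H + 4)))
  | out xn l1, l, mid v j x0 => Mx ℓ E v j H x0 xn ∧
      l1 = ℓ v (j + ((H : ℕ) : ZMod (H + 4))) ∧
      l = ℓ v (j + ((H + 1 : ℕ) : ZMod (H + 4)))
  | mid v j x0, l, inn x0' l2 => x0' = x0 ∧ (∃ xn, Mx ℓ E v j H x0 xn) ∧
      l = ℓ v (j + ((H + 2 : ℕ) : ZMod (H + 4))) ∧
      l2 = ℓ v (j + ((H + 3 : ℕ) : ZMod (H + 4)))
  | _, _, _ => False

theorem cast_last : (((H + 3 : ℕ) : ZMod (H + 4)) + 1) = 0 := by
  have h : (((H + 4 : ℕ)) : ZMod (H + 4)) = 0 := ZMod.natCast_self _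
  push_cast at h ⊢
  linear_combination h

theorem path_fwd {K : ℕ} {ℓ : V → ZMod K → L} {E : Q → L → Q → Prop} (hE : DetE E) {v : V}
    {j : ZMod K} {n m : ℕ} {x x' : ℕ → Q} (h : IsPath ℓ E v j n x) (h' : IsPath ℓ E v j m x')
    (h0 : x 0 = x' 0) (hnm : n ≤ m) : ∀ i ≤ n, x i = x' i := by
  intro i
  induction i with
  | zero => intro _; exact h0
  | succ i ih =>
      intro hi
      have h1 := h i (by omega)
      have h2 := h' i (by omega)
      rw [ih (by omega)] at h1
      exact hE.1 _ _ _ _ h1 h2

theorem path_bwd {K : ℕ} {ℓ : V → ZMod K → L} {E : Q → L → Q → Prop} (hE : DetE E) {v : V}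
    {j j' : ZMod K} {n m : ℕ} {x x' : ℕ → Q} (h : IsPath ℓ E v j n x)
    (h' : IsPath ℓ E v j' m x') (hj : j + (n : ZMod K) = j' + (m : ZMod K))
    (h0 : x n = x' m) (hnm : n ≤ m) : ∀ i ≤ n, x (n - i) = x' (m - i) := by
  intro i
  induction i with
  | zero => intro _; simpa using h0
  | succ i ih =>
      intro hi
      have h1 := h (n - (i + 1)) (by omega)
      have h2 := h' (m - (i + 1)) (by omega)
      have e1 : n - (i + 1) + 1 = n - i := by omega
      have e2 : m - (i + 1) + 1 = m - i := by omega
      rw [e1, ih (by omega)] at h1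
      rw [e2] at h2
      have e3 : j + ((n - (i + 1) : ℕ) : ZMod K) = j' + ((m - (i + 1) : ℕ) : ZMod K) := by
        rw [Nat.cast_sub hi, Nat.cast_sub (by omega)]
        linear_combination hj
      rw [e3] at h1
      exact hE.2 _ _ _ _ h1 h2

theorem Mx.fwd_aux {ℓ : V → ZMod (H + 4) → L} {E : Q → L → Q → Prop} (hE : DetE E) {v : V}
    {j : ZMod (H + 4)} {n m : ℕ} {x0 xn xm : Q} (h : Mx ℓ E v j n x0 xn)
    (h' : Mx ℓ E v j m x0 xm) (hnm : n ≤ m) : n = m ∧ xn = xm := by
  obtain ⟨⟨x, hx, hx0, hxn⟩, hout, hin⟩ := h
  obtain ⟨⟨x', hx', hx0', hxm⟩, hout', hin'⟩ := h'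
  have h1 := path_fwd hE hx hx' (hx0.trans hx0'.symm) hnm
  have h2 : n = m := by
    by_contra hne
    have h3 := hx' n (by omega)
    rw [← h1 n le_rfl, hxn] at h3
    exact hout _ h3
  subst h2
  refine ⟨rfl, ?_⟩
  rw [← hxn, ← hxm]
  exact h1 n le_rfl

theorem Mx.fwd {ℓ : V → ZMod (H + 4) → L} {E : Q → L → Q → Prop} (hE : DetE E) {v : V}
    {j : ZMod (H + 4)} {n m : ℕ} {x0 xn xm : Q} (h : Mx ℓ E v j n x0 xn)
    (h' : Mx ℓ E v j m x0 xm) : n = m ∧ xn = xm := by
  rcases le_total n m with hnm | hnm
  · exact h.fwd_aux hE h' hnm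
  · have := h'.fwd_aux hE h hnm
    exact ⟨this.1.symm, this.2.symm⟩

theorem Mx.bwd_aux {ℓ : V → ZMod (H + 4) → L} {E : Q → L → Q → Prop} (hE : DetE E) {v : V}
    {j j' : ZMod (H + 4)} {n m : ℕ} {x0 x0' xn : Q} (h : Mx ℓ E v j n x0 xn)
    (h' : Mx ℓ E v j' m x0' xn) (hj : j + (n : ZMod (H + 4)) = j' + (m : ZMod (H + 4)))
    (hnm : n ≤ m) : n = m ∧ x0 = x0' := by
  obtain ⟨⟨x, hx, hx0, hxn⟩, hout, hin⟩ := h
  obtain ⟨⟨x', hx', hx0', hxm⟩, hout', hin'⟩ := h'
  have h1 := path_bwd hE hx hx' hj (hxn.trans hxm.symm) hnm
  have h2 : n = m := by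
    by_contra hne
    have h3 := hx' (m - n - 1) (by omega)
    have e1 : m - n - 1 + 1 = m - n := by omega
    have h4 := h1 n le_rfl
    rw [e1, ← h4, Nat.sub_self, hx0] at h3
    have e2 : j' + ((m - n - 1 : ℕ) : ZMod (H + 4)) =
        j + ((H + 3 : ℕ) : ZMod (H + 4)) := by
      have e3 : m - n - 1 = m - (n + 1) := by omega
      rw [e3, Nat.cast_sub (by omega)]
      have h5 := cast_last (H := H)
      push_cast at h5 ⊢
      linear_combination (-1 : ZMod (H + 4)) * hj - h5
    rw [e2] at h3
    exact hin _ h3
  subst h2
  refine ⟨rfl, ?_⟩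
  have h4 := h1 n le_rfl
  rw [Nat.sub_self, hx0, hx0'] at h4
  exact h4

theorem Mx.bwd {ℓ : V → ZMod (H + 4) → L} {E : Q → L → Q → Prop} (hE : DetE E) {v : V}
    {j j' : ZMod (H + 4)} {n m : ℕ} {x0 x0' xn : Q} (h : Mx ℓ E v j n x0 xn)
    (h' : Mx ℓ E v j' m x0' xn) (hj : j + (n : ZMod (H + 4)) = j' + (m : ZMod (H + 4))) :
    n = m ∧ x0 = x0' := by
  rcases le_total n m with hnm | hnm
  · exact h.bwd_aux hE h' hj hnm
  · have := h'.bwd_aux hE h hj.symm hnm
    exact ⟨this.1.symm, this.2.symm⟩

/-- the new graph is deterministic -/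
theorem detEE {ℓ : V → ZMod (H + 4) → L} (hD : D2 ℓ) {E : Q → L → Q → Prop} (hE : DetE E) :
    DetE (EE ℓ E) := by
  constructor
  · intro a l b b' h h'
    cases a with
    | old x =>
        cases b with
        | old y =>
            cases b' with
            | old y' => rw [hE.1 _ _ _ _ h h']
            | out y' l' => exact absurd h (h'.2.2 y)
            | inn y' l' => exact h'.elim
            | mid w k y' => exact h'.elim
        | out y l1 =>
            cases b' with
            | old y' => exact absurd h' (h.2.2 y')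
            | out y' l' => rw [h.1, h.2.1, h'.1, h'.2.1]
            | inn y' l' => exact h'.elim
            | mid w k y' => exact h'.elim
        | inn y l1 => exact h.elim
        | mid w k y => exact h.elim
    | out x l0 =>
        cases b with
        | old y => exact h.elim
        | out y l1 => exact h.elim
        | inn y l1 =>
            obtain ⟨v, j, hM, h1, h2, h3⟩ := h
            cases b' with
            | old y' => exact h'.elim
            | out y' l' => exact h'.elim
            | inn y' l' =>
                obtain ⟨v', j', hM', h1', h2', h3'⟩ := h'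
                have h4 := hD v (j + ((H + 1 : ℕ) : ZMod (H + 4))) v'
                  (j' + ((H + 1 : ℕ) : ZMod (H + 4))) (h1.symm.trans h1') (by
                    have e1 : ∀ k : ZMod (H + 4), k + ((H + 1 : ℕ) : ZMod (H + 4)) + 1 =
                        k + ((H + 2 : ℕ) : ZMod (H + 4)) := by
                      intro k; push_cast; ring
                    rw [e1, e1, ← h2, ← h2'])
                obtain ⟨rfl, h5⟩ := h4
                have h6 := hM.bwd hE hM' h5
                have h7 : j = j' := add_right_cancel h5
                rw [h3, h3', h6.2, h7]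
            | mid w k y' =>
                obtain ⟨hM', h1', h2'⟩ := h'
                have h4 := hD v (j + ((H + 1 : ℕ) : ZMod (H + 4))) w
                  (k + ((H : ℕ) : ZMod (H + 4))) (h1.symm.trans h1') (by
                    have e1 : j + ((H + 1 : ℕ) : ZMod (H + 4)) + 1 =
                        j + ((H + 2 : ℕ) : ZMod (H + 4)) := by
                      push_cast; ring
                    have e2 : k + ((H : ℕ) : ZMod (H + 4)) + 1 =
                        k + ((H + 1 : ℕ) : ZMod (H + 4)) := by
                      push_cast; ring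
                    rw [e1, e2, ← h2, ← h2'])
                obtain ⟨rfl, h5⟩ := h4
                have h6 := hM.bwd hE hM' h5
                exact absurd h6.1 (by omega)
        | mid w k y =>
            obtain ⟨hM, h1, h2⟩ := h
            cases b' with
            | old y' => exact h'.elim
            | out y' l' => exact h'.elim
            | inn y' l' =>
                obtain ⟨v', j', hM', h1', h2', h3'⟩ := h'
                have h4 := hD w (k + ((H : ℕ) : ZMod (H + 4))) v'
                  (j' + ((H + 1 : ℕ) : ZMod (H + 4))) (h1.symm.trans h1') (by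
                    have e1 : j' + ((H + 1 : ℕ) : ZMod (H + 4)) + 1 =
                        j' + ((H + 2 : ℕ) : ZMod (H + 4)) := by
                      push_cast; ring
                    have e2 : k + ((H : ℕ) : ZMod (H + 4)) + 1 =
                        k + ((H + 1 : ℕ) : ZMod (H + 4)) := by
                      push_cast; ring
                    rw [e1, e2, ← h2, ← h2'])
                obtain ⟨rfl, h5⟩ := h4
                have h6 := hM.bwd hE hM' h5
                exact absurd h6.1 (by omega)
            | mid w' k' y' =>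
                obtain ⟨hM', h1', h2'⟩ := h'
                have h4 := hD w (k + ((H : ℕ) : ZMod (H + 4))) w'
                  (k' + ((H : ℕ) : ZMod (H + 4))) (h1.symm.trans h1') (by
                    have e2 : ∀ k : ZMod (H + 4), k + ((H : ℕ) : ZMod (H + 4)) + 1 =
                        k + ((H + 1 : ℕ) : ZMod (H + 4)) := by
                      intro k; push_cast; ring
                    rw [e2, e2, ← h2, ← h2'])
                obtain ⟨rfl, h5⟩ := h4
                have h6 := hM.bwd hE hM' h5
                have h7 : k = k' := add_right_cancel h5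
                rw [h6.2, h7]
    | inn x l0 =>
        cases b with
        | old y =>
            cases b' with
            | old y' => rw [← h.1, ← h'.1]
            | out y' l' => exact h'.elim
            | inn y' l' => exact h'.elim
            | mid w k y' => exact h'.elim
        | out y l1 => exact h.elim
        | inn y l1 => exact h.elim
        | mid w k y => exact h.elim
    | mid w k x =>
        cases b with
        | old y => exact h.elim
        | out y l1 => exact h.elim
        | inn y l1 =>
            cases b' with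
            | old y' => exact h'.elim
            | out y' l' => exact h'.elim
            | inn y' l' => rw [h.1, h.2.2.2, h'.1, h'.2.2.2]
            | mid w k y' => exact h'.elim
        | mid w k y => exact h.elim
  · intro a a' l b h h'
    cases b with
    | old y =>
        cases a with
        | old x =>
            cases a' with
            | old x' => rw [hE.2 _ _ _ _ h h']
            | out x' l' => exact h'.elim
            | inn x' l' => exact absurd h (h'.2.2 x)
            | mid w k x' => exact h'.elim
        | out x l1 => exact h.elim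
        | inn x l1 =>
            cases a' with
            | old x' => exact absurd h' (h.2.2 x')
            | out x' l' => exact h'.elim
            | inn x' l' => rw [h.1, h.2.1, h'.1, h'.2.1]
            | mid w k x' => exact h'.elim
        | mid w k x => exact h.elim
    | out y l0 =>
        cases a with
        | old x =>
            cases a' with
            | old x' => rw [← h.1, ← h'.1]
            | out x' l' => exact h'.elim
            | inn x' l' => exact h'.elim
            | mid w k x' => exact h'.elim
        | out x l1 => exact h.elim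
        | inn x l1 => exact h.elim
        | mid w k x => exact h.elim
    | inn y l0 =>
        cases a with
        | old x => exact h.elim
        | out x l1 =>
            obtain ⟨v, j, hM, h1, h2, h3⟩ := h
            cases a' with
            | old x' => exact h'.elim
            | out x' l' =>
                obtain ⟨v', j', hM', h1', h2', h3'⟩ := h'
                have h4 := hD v (j + ((H + 2 : ℕ) : ZMod (H + 4))) v'
                  (j' + ((H + 2 : ℕ) : ZMod (H + 4))) (h2.symm.trans h2') (by
                    have e1 : ∀ k : ZMod (H + 4), k + ((H + 2 : ℕ) : ZMod (H + 4)) + 1 =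
                        k + ((H + 3 : ℕ) : ZMod (H + 4)) := by
                      intro k; push_cast; ring
                    rw [e1, e1, ← h3, ← h3'])
                obtain ⟨rfl, h5⟩ := h4
                have h7 : j = j' := add_right_cancel h5
                subst h7
                have h6 := hM.fwd hE hM'
                rw [h1, h1', h6.2]
            | inn x' l' => exact h'.elim
            | mid w k x' =>
                obtain ⟨h0', ⟨xn', hM'⟩, h2', h3'⟩ := h'
                have h4 := hD v (j + ((H + 2 : ℕ) : ZMod (H + 4))) w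
                  (k + ((H + 2 : ℕ) : ZMod (H + 4))) (h2.symm.trans h2') (by
                    have e1 : ∀ k : ZMod (H + 4), k + ((H + 2 : ℕ) : ZMod (H + 4)) + 1 =
                        k + ((H + 3 : ℕ) : ZMod (H + 4)) := by
                      intro k; push_cast; ring
                    rw [e1, e1, ← h3, ← h3'])
                obtain ⟨rfl, h5⟩ := h4
                have h7 : j = k := add_right_cancel h5
                subst h7
                rw [← h0'] at hM'
                have h6 := hM.fwd hE hM'
                exact absurd h6.1 (by omega)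
        | inn x l1 => exact h.elim
        | mid w k x =>
            obtain ⟨h0, ⟨xn, hM⟩, h2, h3⟩ := h
            cases a' with
            | old x' => exact h'.elim
            | out x' l' =>
                obtain ⟨v', j', hM', h1', h2', h3'⟩ := h'
                have h4 := hD w (k + ((H + 2 : ℕ) : ZMod (H + 4))) v'
                  (j' + ((H + 2 : ℕ) : ZMod (H + 4))) (h2.symm.trans h2') (by
                    have e1 : ∀ k : ZMod (H + 4), k + ((H + 2 : ℕ) : ZMod (H + 4)) + 1 =
                        k + ((H + 3 : ℕ) : ZMod (H + 4)) := by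
                      intro k; push_cast; ring
                    rw [e1, e1, ← h3, ← h3'])
                obtain ⟨rfl, h5⟩ := h4
                have h7 : k = j' := add_right_cancel h5
                subst h7
                rw [← h0] at hM
                have h6 := hM.fwd hE hM'
                exact absurd h6.1 (by omega)
            | inn x' l' => exact h'.elim
            | mid w' k' x' =>
                obtain ⟨h0', ⟨xn', hM'⟩, h2', h3'⟩ := h'
                have h4 := hD w (k + ((H + 2 : ℕ) : ZMod (H + 4))) w'
                  (k' + ((H + 2 : ℕ) : ZMod (H + 4))) (h2.symm.trans h2') (by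
                    have e1 : ∀ k : ZMod (H + 4), k + ((H + 2 : ℕ) : ZMod (H + 4)) + 1 =
                        k + ((H + 3 : ℕ) : ZMod (H + 4)) := by
                      intro k; push_cast; ring
                    rw [e1, e1, ← h3, ← h3'])
                obtain ⟨rfl, h5⟩ := h4
                have h7 : k = k' := add_right_cancel h5
                rw [h7, ← h0, ← h0']
    | mid w k y =>
        cases a with
        | old x => exact h.elim
        | out x l1 =>
            cases a' with
            | old x' => exact h'.elim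
            | out x' l' =>
                obtain ⟨hM, h1, h2⟩ := h
                obtain ⟨hM', h1', h2'⟩ := h'
                rw [h1, h1', (hM.fwd hE hM').2]
            | inn x' l' => exact h'.elim
            | mid w k x' => exact h'.elim
        | inn x l1 => exact h.elim
        | mid w' k' x => exact h.elim

/-- a closed reading given by a sequence -/
theorem onCell_of_seq {ℓ : V → ZMod (H + 4) → L} {E : Q → L → Q → Prop} {v : V}
    {j : ZMod (H + 4)} (C : ℕ → Q)
    (h1 : ∀ i < H + 3, E (C i) (ℓ v (j + (i : ZMod (H + 4)))) (C (i + 1)))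
    (h2 : E (C (H + 3)) (ℓ v (j + ((H + 3 : ℕ) : ZMod (H + 4)))) (C 0)) :
    ∀ i < H + 4, OnCell ℓ E v (j + (i : ZMod (H + 4))) (C i) := by
  intro i hi
  refine ⟨fun a => C (a - j).val, ?_, ?_⟩
  · intro a
    have ha : (((a - j).val : ℕ) : ZMod (H + 4)) = a - j := ZMod.natCast_zmod_val _
    have hlt : (a - j).val < H + 4 := ZMod.val_lt _
    by_cases hlast : (a - j).val = H + 3
    · have e1 : a + 1 - j = 0 := by
        have : a - j = ((H + 3 : ℕ) : ZMod (H + 4)) := by rw [← ha, hlast]
        have h5 := cast_last (H := H)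
        rw [← this] at h5
        linear_combination h5
      have e2 : a = j + ((H + 3 : ℕ) : ZMod (H + 4)) := by
        rw [← hlast, ha]; ring
      change E (C (a - j).val) (ℓ v a) (C (a + 1 - j).val)
      rw [hlast, e1, ZMod.val_zero]
      rw [← e2] at h2
      exact h2
    · have h3 := h1 (a - j).val (by omega)
      have e1 : (a + 1 - j).val = (a - j).val + 1 := by
        have e3 : a + 1 - j = (((a - j).val + 1 : ℕ) : ZMod (H + 4)) := by
          push_cast
          rw [ZMod.natCast_zmod_val]
          ring
        rw [e3, ZMod.val_natCast, Nat.mod_eq_of_lt (by omega)]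
      change E (C (a - j).val) (ℓ v a) (C (a + 1 - j).val)
      rw [e1]
      rw [ha, add_sub_cancel] at h3
      exact h3
  · have : (j + (i : ZMod (H + 4)) - j).val = i := by
      rw [add_sub_cancel_left, ZMod.val_natCast, Nat.mod_eq_of_lt hi]
    change C (j + (i : ZMod (H + 4)) - j).val = C i
    rw [this]

/-- cells added by maximal paths with `H + 1` letters -/
theorem Mx.cell1 {ℓ : V → ZMod (H + 4) → L} {E : Q → L → Q → Prop} {v : V}
    {j : ZMod (H + 4)} {x0 xn : Q} (h : Mx ℓ E v j (H + 1) x0 xn) :
    OnCell ℓ (EE ℓ E) v j (old x0) ∧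
    OnCell ℓ (EE ℓ E) v (j + ((H + 2 : ℕ) : ZMod (H + 4)))
      (out xn (ℓ v (j + ((H + 1 : ℕ) : ZMod (H + 4))))) := by
  have hM := h
  obtain ⟨⟨x, hx, hx0, hxn⟩, hout, hin⟩ := h
  let C : ℕ → Ext H V L Q := fun i =>
    if i ≤ H + 1 then old (x i) else
      if i = H + 2 then out xn (ℓ v (j + ((H + 1 : ℕ) : ZMod (H + 4)))) else
        inn x0 (ℓ v (j + ((H + 3 : ℕ) : ZMod (H + 4))))
  have c1 : ∀ i ≤ H + 1, C i = old (x i) := fun i hi => if_pos hi
  have c2 : C (H + 2) = out xn (ℓ v (j + ((H + 1 : ℕ) : ZMod (H + 4)))) := by
    change ite _ _ _ = _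
    rw [if_neg (by omega), if_pos rfl]
  have c3 : C (H + 3) = inn x0 (ℓ v (j + ((H + 3 : ℕ) : ZMod (H + 4)))) := by
    change ite _ _ _ = _
    rw [if_neg (by omega), if_neg (by omega)]
  have h1 : ∀ i < H + 3, EE ℓ E (C i) (ℓ v (j + (i : ZMod (H + 4)))) (C (i + 1)) := by
    intro i hi
    rcases Nat.lt_or_ge i (H + 1) with h1 | h1
    · rw [c1 i (by omega), c1 (i + 1) (by omega)]
      exact hx i h1
    · rcases Nat.eq_or_lt_of_le h1 with h2 | h2
      · subst h2
        rw [c1 _ le_rfl, c2, hxn]
        exact ⟨rfl, rfl, hout⟩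
      · have h3 : i = H + 2 := by omega
        subst h3
        rw [c2, c3]
        exact ⟨v, j, hM, rfl, rfl, rfl⟩
  have h2 : EE ℓ E (C (H + 3)) (ℓ v (j + ((H + 3 : ℕ) : ZMod (H + 4)))) (C 0) := by
    rw [c3, c1 0 (by omega), hx0]
    exact ⟨rfl, rfl, hin⟩
  have h3 := onCell_of_seq C h1 h2
  constructor
  · have h4 := h3 0 (by omega)
    rw [c1 0 (by omega), hx0, Nat.cast_zero, add_zero] at h4
    exact h4
  · have h4 := h3 (H + 2) (by omega)
    rw [c2] at h4
    exact h4

/-- cells added by maximal paths with `H` letters -/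
theorem Mx.cell2 {ℓ : V → ZMod (H + 4) → L} {E : Q → L → Q → Prop} {v : V}
    {j : ZMod (H + 4)} {x0 xn : Q} (h : Mx ℓ E v j H x0 xn) :
    OnCell ℓ (EE ℓ E) v j (old x0) ∧
    OnCell ℓ (EE ℓ E) v (j + ((H + 1 : ℕ) : ZMod (H + 4)))
      (out xn (ℓ v (j + ((H : ℕ) : ZMod (H + 4))))) ∧
    OnCell ℓ (EE ℓ E) v (j + ((H + 2 : ℕ) : ZMod (H + 4))) (mid v j x0) := by
  have hM := h
  obtain ⟨⟨x, hx, hx0, hxn⟩, hout, hin⟩ := h
  let C : ℕ → Ext H V L Q := fun i =>
    if i ≤ H then old (x i) else
      if i = H + 1 then out xn (ℓ v (j + ((H : ℕ) : ZMod (H + 4)))) else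
        if i = H + 2 then mid v j x0 else
        inn x0 (ℓ v (j + ((H + 3 : ℕ) : ZMod (H + 4))))
  have c1 : ∀ i ≤ H, C i = old (x i) := fun i hi => if_pos hi
  have c2 : C (H + 1) = out xn (ℓ v (j + ((H : ℕ) : ZMod (H + 4)))) := by
    change ite _ _ _ = _
    rw [if_neg (by omega), if_pos rfl]
  have c3 : C (H + 2) = mid v j x0 := by
    change ite _ _ _ = _
    rw [if_neg (by omega), if_neg (by omega), if_pos rfl]
  have c4 : C (H + 3) = inn x0 (ℓ v (j + ((H + 3 : ℕ) : ZMod (H + 4)))) := by
    change ite _ _ _ = _
    rw [if_neg (by omega), if_neg (by omega), if_neg (by omega)]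
  have h1 : ∀ i < H + 3, EE ℓ E (C i) (ℓ v (j + (i : ZMod (H + 4)))) (C (i + 1)) := by
    intro i hi
    rcases Nat.lt_or_ge i H with h1 | h1
    · rw [c1 i (by omega), c1 (i + 1) (by omega)]
      exact hx i h1
    · rcases Nat.eq_or_lt_of_le h1 with h2 | h2
      · subst h2
        rw [c1 _ le_rfl, c2, hxn]
        exact ⟨rfl, rfl, hout⟩
      · rcases Nat.eq_or_lt_of_le h2 with h3 | h3
        · have h3' : i = H + 1 := h3.symm
          subst h3'
          rw [c2, c3]
          exact ⟨hM, rfl, rfl⟩
        · have h3' : i = H + 2 := by omega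
          subst h3'
          rw [c3, c4]
          exact ⟨rfl, ⟨xn, hM⟩, rfl, rfl⟩
  have h2 : EE ℓ E (C (H + 3)) (ℓ v (j + ((H + 3 : ℕ) : ZMod (H + 4)))) (C 0) := by
    rw [c4, c1 0 (by omega), hx0]
    exact ⟨rfl, rfl, hin⟩
  have h3 := onCell_of_seq C h1 h2
  refine ⟨?_, ?_, ?_⟩
  · have h4 := h3 0 (by omega)
    rw [c1 0 (by omega), hx0, Nat.cast_zero, add_zero] at h4
    exact h4
  · have h4 := h3 (H + 1) (by omega)
    rw [c2] at h4
    exact h4
  · have h4 := h3 (H + 2) (by omega)
    rw [c3] at h4
    exact h4

/-- connecting edges -/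
theorem conn {ℓ : V → ZMod (H + 4) → L} {E : Q → L → Q → Prop} {a b : Ext H V L Q} {l : L}
    (h : EE ℓ E a l b) (ha : ∀ x, a ≠ old x) (hb : ∀ x, b ≠ old x) :
    ∃ v1 j1, l = ℓ v1 j1 ∧ OnCell ℓ (EE ℓ E) v1 j1 a ∧
      (∀ a' l', EE ℓ E a' l' a → l' = ℓ v1 (j1 - 1)) ∧
      (∀ b' l', EE ℓ E b l' b' → l' = ℓ v1 (j1 + 1)) := by
  cases a with
  | old x => exact absurd rfl (ha x)
  | out x l0 =>
      cases b with
      | old y => exact absurd rfl (hb y)
      | out y l1 => exact h.elim
      | inn y l1 =>
          obtain ⟨v, j, hM, h1, h2, h3⟩ := h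
          refine ⟨v, j + ((H + 2 : ℕ) : ZMod (H + 4)), h2, ?_, ?_, ?_⟩
          · rw [h1]
            exact hM.cell1.2
          · intro a' l' h'
            have e1 : j + ((H + 2 : ℕ) : ZMod (H + 4)) - 1 =
                j + ((H + 1 : ℕ) : ZMod (H + 4)) := by push_cast; ring
            rw [e1, ← h1]
            cases a' with
            | old x' => exact h'.2.1.symm
            | out x' l' => exact h'.elim
            | inn x' l' => exact h'.elim
            | mid w k x' => exact h'.elim
          · intro b' l' h'
            have e1 : j + ((H + 2 : ℕ) : ZMod (H + 4)) + 1 =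
                j + ((H + 3 : ℕ) : ZMod (H + 4)) := by push_cast; ring
            rw [e1, ← h3]
            cases b' with
            | old x' => exact h'.2.1.symm
            | out x' l' => exact h'.elim
            | inn x' l' => exact h'.elim
            | mid w k x' => exact h'.elim
      | mid w k y =>
          obtain ⟨hM, h1, h2⟩ := h
          refine ⟨w, k + ((H + 1 : ℕ) : ZMod (H + 4)), h2, ?_, ?_, ?_⟩
          · rw [h1]
            exact hM.cell2.2.1
          · intro a' l' h'
            have e1 : k + ((H + 1 : ℕ) : ZMod (H + 4)) - 1 =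
                k + ((H : ℕ) : ZMod (H + 4)) := by push_cast; ring
            rw [e1, ← h1]
            cases a' with
            | old x' => exact h'.2.1.symm
            | out x' l' => exact h'.elim
            | inn x' l' => exact h'.elim
            | mid w k x' => exact h'.elim
          · intro b' l' h'
            have e1 : k + ((H + 1 : ℕ) : ZMod (H + 4)) + 1 =
                k + ((H + 2 : ℕ) : ZMod (H + 4)) := by push_cast; ring
            rw [e1]
            cases b' with
            | old x' => exact h'.elim
            | out x' l' => exact h'.elim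
            | inn x' l' => exact h'.2.2.1
            | mid w k x' => exact h'.elim
  | inn x l0 =>
      cases b with
      | old y => exact absurd rfl (hb y)
      | out y l1 => exact h.elim
      | inn y l1 => exact h.elim
      | mid w k y => exact h.elim
  | mid w k x =>
      cases b with
      | old y => exact absurd rfl (hb y)
      | out y l1 => exact h.elim
      | inn y l1 =>
          obtain ⟨h0, ⟨xn, hM⟩, h2, h3⟩ := h
          refine ⟨w, k + ((H + 2 : ℕ) : ZMod (H + 4)), h2, hM.cell2.2.2, ?_, ?_⟩
          · intro a' l' h'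
            have e1 : k + ((H + 2 : ℕ) : ZMod (H + 4)) - 1 =
                k + ((H + 1 : ℕ) : ZMod (H + 4)) := by push_cast; ring
            rw [e1]
            cases a' with
            | old x' => exact h'.elim
            | out x' l' => exact h'.2.2
            | inn x' l' => exact h'.elim
            | mid w k x' => exact h'.elim
          · intro b' l' h'
            have e1 : k + ((H + 2 : ℕ) : ZMod (H + 4)) + 1 =
                k + ((H + 3 : ℕ) : ZMod (H + 4)) := by push_cast; ring
            rw [e1, ← h3]
            cases b' with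
            | old x' => exact h'.2.1.symm
            | out x' l' => exact h'.elim
            | inn x' l' => exact h'.elim
            | mid w k x' => exact h'.elim
      | mid w k y => exact h.elim

/-- moving forward along a closed reading -/
theorem OnCell.fwd {K : ℕ} {ℓ : V → ZMod K → L} {E : Q → L → Q → Prop} (hE : DetE E) {v : V}
    {j : ZMod K} {a b : Q} (h : OnCell ℓ E v j a) (hab : E a (ℓ v j) b) :
    OnCell ℓ E v (j + 1) b := by
  obtain ⟨c, hc, hca⟩ := h
  refine ⟨c, hc, ?_⟩
  have h1 := hc j
  rw [hca] at h1
  exact hE.1 _ _ _ _ h1 hab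

/-- moving backward along a closed reading -/
theorem OnCell.bwd {K : ℕ} {ℓ : V → ZMod K → L} {E : Q → L → Q → Prop} (hE : DetE E) {v : V}
    {j : ZMod K} {a b : Q} (h : OnCell ℓ E v (j + 1) b) (hab : E a (ℓ v j) b) :
    OnCell ℓ E v j a := by
  obtain ⟨c, hc, hcb⟩ := h
  refine ⟨c, hc, ?_⟩
  have h1 := hc j
  rw [hcb] at h1
  exact hE.2 _ _ _ _ h1 hab

theorem onCell_start {K : ℕ} {ℓ : V → ZMod K → L} {E : Q → L → Q → Prop} (hE : DetE E) {v : V}
    {j0 : ZMod K} {n : ℕ} {p : ℕ → Q} (hp : IsPath ℓ E v j0 n p) :
    ∀ i ≤ n, OnCell ℓ E v (j0 + (i : ZMod K)) (p i) → OnCell ℓ E v j0 (p 0) := by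
  intro i
  induction i with
  | zero =>
      intro _ h
      simpa using h
  | succ i ih =>
      intro hi h
      refine ih (by omega) ?_
      have h1 := hp i (by omega)
      refine OnCell.bwd hE ?_ h1
      have e1 : j0 + (i : ZMod K) + 1 = j0 + ((i + 1 : ℕ) : ZMod K) := by push_cast; ring
      rw [e1]
      exact h

theorem onCell_end {K : ℕ} {ℓ : V → ZMod K → L} {E : Q → L → Q → Prop} (hE : DetE E) {v : V}
    {j0 : ZMod K} {n : ℕ} {p : ℕ → Q} (hp : IsPath ℓ E v j0 n p) (h0 : OnCell ℓ E v j0 (p 0)) :
    ∀ i ≤ n, OnCell ℓ E v (j0 + (i : ZMod K)) (p i) := by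
  intro i
  induction i with
  | zero =>
      intro _
      simpa using h0
  | succ i ih =>
      intro hi
      have h1 := hp i (by omega)
      have h2 := OnCell.fwd hE (ih (by omega)) h1
      have e1 : j0 + (i : ZMod K) + 1 = j0 + ((i + 1 : ℕ) : ZMod K) := by push_cast; ring
      rw [e1] at h2
      exact h2

theorem OnCell.old {ℓ : V → ZMod (H + 4) → L} {E : Q → L → Q → Prop} {v : V}
    {j : ZMod (H + 4)} {a : Q} (h : OnCell ℓ E v j a) :
    OnCell ℓ (EE ℓ E) v j (Ext.old a) := by
  obtain ⟨c, hc, hca⟩ := h
  exact ⟨fun a => Ext.old (c a), hc, congrArg Ext.old hca⟩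

/-- underlying old vertex -/
def un : Ext H V L Q → Q
  | old x => x
  | out x _ => x
  | inn x _ => x
  | mid _ _ x => x

theorem invEE (hH : 1 ≤ H) {ℓ : V → ZMod (H + 4) → L} (hD : D2 ℓ) {E : Q → L → Q → Prop}
    (hE : DetE E) (hI : Inv (H + 2) ℓ E) : Inv (H + 2) ℓ (EE ℓ E) := by
  classical
  intro v j0 p hp
  have hEE := detEE hD hE
  by_cases hcon : ∃ i < H + 2, (∀ x, p i ≠ old x) ∧ (∀ x, p (i + 1) ≠ old x)
  · -- a connecting edge
    obtain ⟨i, hi, ha, hb⟩ := hcon
    obtain ⟨v1, j1, h1, h2, h3, h4⟩ := conn (hp i hi) ha hb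
    have hkey : v = v1 ∧ j0 + (i : ZMod (H + 4)) = j1 := by
      by_cases hi2 : i + 1 < H + 2
      · have h5 := h4 _ _ (hp (i + 1) hi2)
        have e1 : j0 + ((i + 1 : ℕ) : ZMod (H + 4)) = j0 + (i : ZMod (H + 4)) + 1 := by
          push_cast; ring
        rw [e1] at h5
        exact hD _ _ _ _ h1 h5
      · have h5 := h3 _ _ (by
          have h6 := hp (i - 1) (by omega)
          have e2 : i - 1 + 1 = i := by omega
          rw [e2] at h6
          exact h6)
        have e1 : j0 + ((i - 1 : ℕ) : ZMod (H + 4)) = j0 + (i : ZMod (H + 4)) - 1 := by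
          rw [Nat.cast_sub (by omega)]; push_cast; ring
        rw [e1] at h5
        have h6 := hD _ _ _ _ h5 (by rw [sub_add_cancel, sub_add_cancel]; exact h1)
        exact ⟨h6.1, sub_left_injective h6.2⟩
    obtain ⟨rfl, rfl⟩ := hkey
    exact onCell_start hEE hp i (by omega) h2
  · push Not at hcon
    -- interior vertices are old
    have hold : ∀ i, 1 ≤ i → i ≤ H + 1 → p i = old (un (p i)) := by
      intro i h1 h2
      by_contra hne
      have ha : ∀ x, p i ≠ old x := by
        intro x hx
        apply hne
        rw [hx]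
        rfl
      obtain ⟨y, hy⟩ := hcon i (by omega) ha
      have h3 := hp i (by omega)
      rw [hy] at h3
      have h4 := hp (i - 1) (by omega)
      have e2 : i - 1 + 1 = i := by omega
      rw [e2] at h4
      have hb : ∃ x, p (i - 1) = old x := by
        by_contra hc
        push Not at hc
        obtain ⟨x, hx⟩ := hcon (i - 1) (by omega) hc
        rw [e2] at hx
        exact ha x hx
      obtain ⟨x, hx⟩ := hb
      rw [hx] at h4
      revert h3 h4
      cases hpi : p i with
      | old z => exact absurd hpi (ha z)
      | out z l => intro h3 _; exact h3.elim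
      | inn z l => intro _ h4; exact h4.elim
      | mid w k z => intro _ h4; exact h4.elim
    set q : ℕ → Q := fun i => un (p i) with hq
    have hmid : ∀ i, 1 ≤ i → i < H + 1 → E (q i) (ℓ v (j0 + (i : ZMod (H + 4)))) (q (i + 1)) := by
      intro i h1 h2
      have h3 := hp i (by omega)
      rw [hold i h1 (by omega), hold (i + 1) (by omega) (by omega)] at h3
      exact h3
    -- the first vertex
    have hfirst : (p 0 = old (q 0) ∧ E (q 0) (ℓ v (j0 + ((0 : ℕ) : ZMod (H + 4)))) (q 1)) ∨
        (∀ y, ¬ E y (ℓ v (j0 + ((0 : ℕ) : ZMod (H + 4)))) (q 1)) := by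
      have h3 := hp 0 (by omega)
      rw [zero_add, hold 1 le_rfl (by omega)] at h3
      cases hp0 : p 0 with
      | old z =>
          left
          rw [hp0] at h3
          have : q 0 = z := by rw [hq]; simp only [hp0]; rfl
          rw [this]
          exact ⟨rfl, h3⟩
      | out z l => rw [hp0] at h3; exact h3.elim
      | inn z l =>
          right
          rw [hp0] at h3
          exact h3.2.2
      | mid w k z => rw [hp0] at h3; exact h3.elim
    have hlast : (E (q (H + 1)) (ℓ v (j0 + ((H + 1 : ℕ) : ZMod (H + 4)))) (q (H + 2))) ∨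
        (∀ y, ¬ E (q (H + 1)) (ℓ v (j0 + ((H + 1 : ℕ) : ZMod (H + 4)))) y) := by
      have h3 := hp (H + 1) (by omega)
      rw [hold (H + 1) (by omega) le_rfl] at h3
      have e1 : H + 1 + 1 = H + 2 := rfl
      rw [e1] at h3
      cases hp2 : p (H + 2) with
      | old z =>
          left
          rw [hp2] at h3
          have : q (H + 2) = z := by rw [hq]; simp only [hp2]; rfl
          rw [this]
          exact h3
      | out z l =>
          right
          rw [hp2] at h3
          exact h3.2.2
      | inn z l => rw [hp2] at h3; exact h3.elim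
      | mid w k z => rw [hp2] at h3; exact h3.elim
    -- shifted cast identities
    have es : ∀ i : ℕ, j0 + 1 + (i : ZMod (H + 4)) = j0 + ((i + 1 : ℕ) : ZMod (H + 4)) := by
      intro i; push_cast; ring
    have e3 : j0 + 1 + ((H + 3 : ℕ) : ZMod (H + 4)) = j0 + ((0 : ℕ) : ZMod (H + 4)) := by
      have h5 := cast_last (H := H)
      rw [Nat.cast_zero]
      linear_combination h5
    rcases hfirst with ⟨hp0, hf⟩ | hf
    · rcases hlast with hl | hl
      · -- an old path
        have hpath : IsPath ℓ E v j0 (H + 2) q := by
          intro i hi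
          rcases Nat.eq_zero_or_pos i with h1 | h1
          · subst h1; exact hf
          · rcases Nat.lt_or_ge i (H + 1) with h2 | h2
            · exact hmid i h1 h2
            · have : i = H + 1 := by omega
              subst this
              exact hl
        have h1 := hI v j0 q hpath
        rw [hp0]
        exact OnCell.old h1
      · -- the last vertex is new
        have hpath : IsPath ℓ E v j0 (H + 1) q := by
          intro i hi
          rcases Nat.eq_zero_or_pos i with h1 | h1
          · subst h1; exact hf
          · exact hmid i h1 hi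
        have hin : ∀ y, ¬ E y (ℓ v (j0 + ((H + 3 : ℕ) : ZMod (H + 4)))) (q 0) := by
          intro y hy
          have ej : j0 + ((H + 3 : ℕ) : ZMod (H + 4)) + 1 = j0 := by
            have h5 := cast_last (H := H)
            linear_combination h5
          have hpath2 : IsPath ℓ E v (j0 + ((H + 3 : ℕ) : ZMod (H + 4))) (H + 2)
              (fun i => if i = 0 then y else q (i - 1)) := by
            intro i hi
            rcases Nat.eq_zero_or_pos i with h1 | h1
            · subst h1
              simpa using hy
            · have h2 := hpath (i - 1) (by omega)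
              have e1 : i - 1 + 1 = i := by omega
              have e2 : j0 + ((H + 3 : ℕ) : ZMod (H + 4)) + (i : ZMod (H + 4)) =
                  j0 + ((i - 1 : ℕ) : ZMod (H + 4)) := by
                rw [Nat.cast_sub (by omega), Nat.cast_one]
                linear_combination ej
              rw [e2]
              simp only [if_neg (Nat.pos_iff_ne_zero.mp h1), Nat.add_sub_cancel,
                Nat.add_eq_zero_iff, Nat.one_ne_zero, and_false, if_false]
              rw [e1] at h2
              exact h2
          have h1 := hI v _ _ hpath2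
          have h2 := onCell_end hE hpath2 h1 (H + 2) le_rfl
          obtain ⟨c, hc, hc2⟩ := h2
          have h3 := hc (j0 + ((H + 3 : ℕ) : ZMod (H + 4)) + ((H + 2 : ℕ) : ZMod (H + 4)))
          rw [hc2] at h3
          have e4 : j0 + ((H + 3 : ℕ) : ZMod (H + 4)) + ((H + 2 : ℕ) : ZMod (H + 4)) =
              j0 + ((H + 1 : ℕ) : ZMod (H + 4)) := by
            have h5 := cast_last (H := H)
            push_cast at h5 ⊢
            linear_combination h5
          rw [e4] at h3
          simp only [Nat.add_eq_zero_iff, OfNat.ofNat_ne_zero, and_false, if_false] at h3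
          exact hl _ h3
        have hM : Mx ℓ E v j0 (H + 1) (q 0) (q (H + 1)) := ⟨⟨q, hpath, rfl, rfl⟩, hl, hin⟩
        rw [hp0]
        exact hM.cell1.1
    · rcases hlast with hl | hl
      · -- the first vertex is new, the last is old
        have hpath : IsPath ℓ E v (j0 + 1) (H + 1) (fun i => q (i + 1)) := by
          intro i hi
          rw [es]
          rcases Nat.lt_or_ge (i + 1) (H + 1) with h2 | h2
          · exact hmid (i + 1) (by omega) h2
          · have : i + 1 = H + 1 := by omega
            simp only [this]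
            exact hl
        have hout : ∀ y, ¬ E (q (H + 2)) (ℓ v (j0 + 1 + ((H + 1 : ℕ) : ZMod (H + 4)))) y := by
          intro y hy
          have hpath2 : IsPath ℓ E v (j0 + 1) (H + 2)
              (fun i => if i = H + 2 then y else q (i + 1)) := by
            intro i hi
            by_cases h1 : i = H + 1
            · subst h1
              simp only [if_true]
              rw [if_neg (by omega)]
              exact hy
            · have h2 := hpath i (by omega)
              simp only
              rw [if_neg (by omega), if_neg (by omega)]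
              exact h2
          have h1 : OnCell ℓ E v (j0 + 1) (if (0 : ℕ) = H + 2 then y else q (0 + 1)) :=
            hI v _ _ hpath2
          rw [if_neg (by omega)] at h1
          obtain ⟨c, hc, hc2⟩ := h1
          have h3 := hc j0
          rw [hc2] at h3
          rw [Nat.cast_zero, add_zero] at hf
          exact hf _ h3
        have hM : Mx ℓ E v (j0 + 1) (H + 1) (q 1) (q (H + 2)) :=
          ⟨⟨_, hpath, rfl, rfl⟩, hout, by rw [e3]; exact hf⟩
        refine onCell_start hEE hp 1 (by omega) ?_
        rw [hold 1 le_rfl (by omega), Nat.cast_one]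
        exact hM.cell1.1
      · -- both new
        have hpath : IsPath ℓ E v (j0 + 1) H (fun i => q (i + 1)) := by
          intro i hi
          rw [es]
          exact hmid (i + 1) (by omega) (by omega)
        have hM : Mx ℓ E v (j0 + 1) H (q 1) (q (H + 1)) :=
          ⟨⟨_, hpath, rfl, rfl⟩, by rw [es]; exact hl, by rw [e3]; exact hf⟩
        refine onCell_start hEE hp 1 (by omega) ?_
        rw [hold 1 le_rfl (by omega), Nat.cast_one]
        exact hM.cell2.1

end

theorem main : Spec.TCA := by
  classical
  intro K hK V L ℓ hD Q E hE hI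
  obtain ⟨H, rfl⟩ : ∃ H, K = H + 4 := ⟨K - 4, by omega⟩
  have e1 : H + 4 - 2 = H + 2 := by omega
  rw [e1] at hI ⊢
  refine ⟨Ext H V L Q, EE ℓ E, Ext.old, detEE hD hE, invEE (by omega) hD hE hI, ?_, ?_, ?_, ?_⟩
  · intro x y h
    injection h
  · intro x l y
    exact Iff.rfl
  · intro x l
    by_cases h : ∃ y, E x l y
    · obtain ⟨y, hy⟩ := h
      exact ⟨Ext.old y, hy⟩
    · push Not at h
      exact ⟨Ext.out x l, rfl, rfl, h⟩
  · intro x l
    by_cases h : ∃ y, E y l x
    · obtain ⟨y, hy⟩ := h
      exact ⟨Ext.old y, hy⟩
    · push Not at h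
      exact ⟨Ext.inn x l, rfl, rfl, h⟩

end Crest.Agent.FPTCA
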