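import Crest.Agent.FPSpec

set_option autoImplicit false

namespace Crest.Agent.FPTW1

open Crest.Agent.FP

variable {P D : Type} [Group D]

/-- twisted permutation -/
def tw (τ : Equiv.Perm P) (r : D) (h : P → D) : Equiv.Perm (P × D) where
  toFun v := (τ v.1, r * v.2 * h v.1)
  invFun v := (τ.symm v.1, r⁻¹ * v.2 * (h (τ.symm v.1))⁻¹)
  left_inv := by
    rintro ⟨x, d⟩
    simp [mul_assoc]
  right_inv := by
    rintro ⟨x, d⟩
    simp [mul_assoc]

theorem tw_apply (τ : Equiv.Perm P) (r : D) (h : P → D) (x : P) (d : D) :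
    tw τ r h (x, d) = (τ x, r * d * h x) := rfl

theorem tw_mul (τ τ' : Equiv.Perm P) (r r' : D) (h h' : P → D) :
    tw τ r h * tw τ' r' h' = tw (τ * τ') (r * r') (fun x => h' x * h (τ' x)) := by
  ext v : 1
  obtain ⟨x, d⟩ := v
  simp [Equiv.Perm.mul_apply, tw_apply, mul_assoc]

theorem tw_one : tw (1 : Equiv.Perm P) (1 : D) (fun _ => 1) = 1 := by
  ext v : 1
  obtain ⟨x, d⟩ := v
  simp [tw_apply]

theorem tw_inv (τ : Equiv.Perm P) (r : D) (h : P → D) :
    (tw τ r h)⁻¹ = tw τ⁻¹ r⁻¹ (fun x => (h (τ⁻¹ x))⁻¹) := by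
  rw [inv_eq_iff_mul_eq_one, tw_mul]
  ext v : 1
  obtain ⟨x, d⟩ := v
  simp [tw_apply]

theorem tw_commute (τ : Equiv.Perm P) (r s : D) (h : P → D) (hrs : Commute r s) :
    Commute (tw (1 : Equiv.Perm P) r (fun _ => 1)) (tw τ s h) := by
  unfold Commute SemiconjBy
  rw [tw_mul, tw_mul]
  simp only [one_mul, mul_one, hrs.eq]
  congr 1

/-- left multiplication as a homomorphism -/
def Lh (P D : Type) [Group D] : D →* Equiv.Perm (P × D) where
  toFun r := tw 1 r (fun _ => 1)
  map_one' := tw_one
  map_mul' r s := by rw [tw_mul]; simp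

theorem main : Spec.TW1 := by
  classical
  intro K iK D P iD gD iP ρ σ ε hσ hε
  let Dt : GenData K (Equiv.Perm (P × D)) :=
    { a := fun j => tw (σ j) (ρ (Gam.a j)) (ε j)
      y := fun j => tw (σ j) (ρ (Gam.y j)) (ε j)
      g := tw 1 (ρ Gam.g) (fun _ => 1)
      z := tw 1 (ρ Gam.z) (fun _ => 1)
      a0 := by
        rw [hσ, Gam.a0, map_one]
        have : ε 0 = fun _ => 1 := funext hε
        rw [this, tw_one]
      zt := by
        intro j
        rw [tw_inv, tw_inv, tw_mul, tw_mul]
        apply tw_commute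
        have := (Gam.zt j).map ρ
        simpa using this
      zy := by
        intro j
        apply tw_commute
        exact (Gam.zy j).map ρ }
  let act := Gam.lift Dt
  have htw : ∀ γ : Gam K, ∃ τ h, act γ = tw τ (ρ γ) h := by
    let S : Subgroup (Gam K) :=
      { carrier := {γ | ∃ τ h, act γ = tw τ (ρ γ) h}
        mul_mem' := by
          rintro γ γ' ⟨τ, h, e⟩ ⟨τ', h', e'⟩
          exact ⟨_, _, by rw [map_mul, map_mul, e, e', tw_mul]⟩
        one_mem' := ⟨1, fun _ => 1, by rw [map_one, map_one, tw_one]⟩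
        inv_mem' := by
          rintro γ ⟨τ, h, e⟩
          exact ⟨_, _, by rw [map_inv, map_inv, e, tw_inv]⟩ }
    intro γ
    exact Gam.mem_of_gens S (fun j => ⟨_, _, Gam.lift_a Dt j⟩) (fun j => ⟨_, _, Gam.lift_y Dt j⟩)
      ⟨1, fun _ => 1, Gam.lift_g Dt⟩ ⟨1, fun _ => 1, Gam.lift_z Dt⟩ γ
  have hz : ∀ n : ℤ, ∀ x d, act ((Gam.z : Gam K) ^ n) (x, d) = (x, (ρ Gam.z) ^ n * d) := by
    intro n x d
    have h1 : act (Gam.z : Gam K) = Lh P D (ρ Gam.z) := Gam.lift_z Dt
    rw [map_zpow, h1, ← map_zpow]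
    change (x, (ρ Gam.z) ^ n * d * 1) = _
    rw [mul_one]
  refine ⟨act, ?_, ?_, ?_, ?_⟩
  · intro j x d
    have := Gam.lift_a Dt j
    change (Gam.lift Dt (Gam.a j)) (x, d) = _
    rw [this]
    rfl
  · intro j x d
    have := Gam.lift_y Dt j
    change (Gam.lift Dt (Gam.y j)) (x, d) = _
    rw [this]
    rfl
  · rintro γ ⟨e, he⟩
    obtain ⟨τ, h, hγ⟩ := htw γ
    have hnot : ∀ v : P × D, act γ v = v → act γ (v.1, e * v.2) ≠ (v.1, e * v.2) := by
      rintro ⟨x, d⟩ h1 h2
      rw [hγ, tw_apply] at h1 h2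
      have h3 := (Prod.mk.inj h1).2
      have h4 := (Prod.mk.inj h2).2
      apply he
      have h5 : e * (ρ γ * d * h x) = ρ γ * (e * d) * h x := by rw [h3, h4]
      have h6 : (e * ρ γ) * (d * h x) = (ρ γ * e) * (d * h x) := by
        simpa [mul_assoc] using h5
      exact mul_right_cancel h6
    let F : {v : P × D // act γ v = v} ⊕ {v : P × D // act γ v = v} → P × D :=
      Sum.elim (fun v => v.1) (fun v => (v.1.1, e * v.1.2))
    have hF : Function.Injective F := by
      rintro (v | v) (w | w) hvw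
      · exact congrArg Sum.inl (Subtype.ext hvw)
      · exfalso
        have h1 := hnot w.1 w.2
        have h2 : v.1 = (w.1.1, e * w.1.2) := hvw
        rw [← h2] at h1
        exact h1 v.2
      · exfalso
        have h1 := hnot v.1 v.2
        have h2 : w.1 = (v.1.1, e * v.1.2) := hvw.symm
        rw [← h2] at h1
        exact h1 w.2
      · have h2 : (v.1.1, e * v.1.2) = (w.1.1, e * w.1.2) := hvw
        have h3 := Prod.mk.inj h2
        refine congrArg Sum.inr (Subtype.ext (Prod.ext h3.1 (mul_left_cancel h3.2)))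
    have := Nat.card_le_card_of_injective F hF
    rw [Nat.card_sum] at this
    omega
  · intro N hN hρ
    set r := ρ (Gam.z : Gam K) with hr
    let st : Setoid D := QuotientGroup.rightRel (Subgroup.zpowers r)
    have hst : ∀ d d' : D, st d d' ↔ ∃ n : ℤ, r ^ n * d = d' := by
      intro d d'
      change QuotientGroup.rightRel (Subgroup.zpowers r) d d' ↔ _
      rw [QuotientGroup.rightRel_apply, Subgroup.mem_zpowers_iff]
      constructor
      · rintro ⟨n, hn⟩
        exact ⟨n, by rw [hn]; simp⟩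
      · rintro ⟨n, hn⟩
        exact ⟨n, by rw [← hn]; simp⟩
    let rep : D → D := fun d => (Quotient.mk st d).out
    have hrep : ∀ d, ∃ n : ℤ, r ^ n * d = rep d := by
      intro d
      rw [← hst]
      exact st.symm (Quotient.mk_out (s := st) d)
    have hrep2 : ∀ d d', st d d' → rep d = rep d' := by
      intro d d' h
      simp only [rep]
      rw [Quotient.sound (s := st) h]
    let S : Set (P × D) := {v | rep v.2 = v.2}
    refine ⟨S, ?_, ?_⟩
    · let f : Fin N × S → P × D := fun q => (q.2.1.1, r ^ (q.1 : ℕ) * q.2.1.2)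
      have hf : Function.Injective f := by
        rintro ⟨i, ⟨⟨x, d⟩, hd⟩⟩ ⟨i', ⟨⟨x', d'⟩, hd'⟩⟩ h
        have h1 := Prod.mk.inj h
        obtain ⟨h2, h3⟩ := h1
        simp only at h2 h3
        have hdr : rep d = d := hd
        have hdr' : rep d' = d' := hd'
        have h4 : st d d' := by
          rw [hst]
          refine ⟨-(i' : ℕ) + (i : ℕ), ?_⟩
          rw [zpow_add, mul_assoc, zpow_natCast, h3, zpow_neg, zpow_natCast]
          simp
        have h5 : d = d' := by rw [← hdr, ← hdr', hrep2 _ _ h4]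
        subst h5
        subst h2
        have h6 : r ^ (i : ℕ) = r ^ (i' : ℕ) := mul_right_cancel h3
        have h7 : (i : ℕ) = (i' : ℕ) := by
          by_contra hne
          rcases Nat.lt_or_gt_of_ne hne with hlt | hlt
          · apply hρ ((i' : ℕ) - i) (by omega) (by have := i'.2; omega)
            rw [map_pow, ← hr, pow_sub _ hlt.le, h6]
            simp
          · apply hρ ((i : ℕ) - i') (by omega) (by have := i.2; omega)
            rw [map_pow, ← hr, pow_sub _ hlt.le, h6]
            simp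
        have h8 : i = i' := Fin.ext h7
        subst h8
        rfl
      have := Nat.card_le_card_of_injective f hf
      rw [Nat.card_prod, Nat.card_fin] at this
      exact this
    · rintro ⟨x, d⟩
      obtain ⟨n, hn⟩ := hrep d
      refine ⟨n, ?_⟩
      rw [hz, hn]
      change rep (rep d) = rep d
      apply hrep2
      rw [hst]
      refine ⟨-n, ?_⟩
      rw [← hn]
      simp

end Crest.Agent.FPTW1
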