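import Crest.Agent.FPSpec

/-!
# UB: actions of small cost.
-/

set_option autoImplicit false

namespace Crest.Agent.FPUB

open Crest.Agent.FP MeasureTheory Crest.Dynamics

open scoped BigOperators ENNReal

/-! ### finite families -/

theorem cost_le_of_fintype {Γ Y ι : Type} [Group Γ] [MulAction Γ Y] [MeasurableSpace Y]
    (ν : Measure Y) [Fintype ι] (F : ι → Γ × Set Y) (hF : ∀ i, MeasurableSet (F i).2)
    (hgen : ∀ (y : Y) (γ : Γ), Relation.EqvGen (fun x y => ∃ i, x ∈ (F i).2 ∧ y = (F i).1 • x)
      y (γ • y)) :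
    actionCost Γ Y ν ≤ ∑ i, ν (F i).2 := by
  classical
  let n := Fintype.card ι
  let e := Fintype.equivFin ι
  let Φ : ℕ → Γ × Set Y := fun k => if h : k < n then F (e.symm ⟨k, h⟩) else (1, ∅)
  have hΦ : ∀ i, Φ (e i).val = F i := by
    intro i
    simp only [Φ]
    rw [dif_pos (e i).2]
    simp
  refine sInf_le_of_le ⟨Φ, ⟨?_, ∅, by simp, ?_⟩, rfl⟩ ?_
  · intro k
    simp only [Φ]
    split_ifs
    · exact hF _
    · exact MeasurableSet.empty
  · intro y _ γ
    have hmono : ∀ a b : Y, Relation.EqvGen (fun x y => ∃ i, x ∈ (F i).2 ∧ y = (F i).1 • x) a b →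
        Relation.EqvGen (GraphingStep Φ) a b := by
      intro a b h
      induction h with
      | rel a b h =>
        obtain ⟨i, hi, hb⟩ := h
        exact Relation.EqvGen.rel _ _ ⟨(e i).val, by rw [hΦ]; exact hi, by rw [hΦ]; exact hb⟩
      | refl a => exact Relation.EqvGen.refl _
      | symm a b _ ih => exact Relation.EqvGen.symm _ _ ih
      | trans a b c _ _ ih1 ih2 => exact Relation.EqvGen.trans _ _ _ ih1 ih2
    exact hmono _ _ (hgen y γ)
  · unfold graphingCost
    have h1 : ∑' k, ν (Φ k).2 = ∑ k ∈ Finset.range n, ν (Φ k).2 := by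
      refine tsum_eq_sum ?_
      intro k hk
      have : ¬ k < n := by simpa using hk
      simp only [Φ]
      rw [dif_neg this]
      simp
    rw [h1, Finset.sum_range]
    refine le_of_eq ?_
    rw [← Equiv.sum_comp e (fun k : Fin n => ν (Φ k.val).2)]
    refine Finset.sum_congr rfl (fun i _ => ?_)
    rw [hΦ]

/-! ### the level homomorphism -/

section lev

variable {K : ℕ} [NeZero K] (M : ℕ)

/-- generator data for the level homomorphism. -/
noncomputable def levD (hK : 3 ≤ K) : GenData K (Multiplicative (ZMod M)) where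
  a j := if j = -1 then Multiplicative.ofAdd 1 else 1
  y _ := 1
  g := 1
  z := 1
  a0 := by
    have : (0 : ZMod K) ≠ -1 := by
      intro h
      have h1 : ((1 : ℕ) : ZMod K) = 0 := by
        have h2 : (1 : ZMod K) = 0 := by
          have := congrArg (fun x => x + 1) h
          simpa using this
        simpa using h2
      rw [ZMod.natCast_eq_zero_iff] at h1
      have := Nat.le_of_dvd one_pos h1
      omega
    rw [if_neg this]
  zt _ := Commute.all _ _
  zy _ := Commute.all _ _

noncomputable def lev (hK : 3 ≤ K) : Gam K →* Multiplicative (ZMod M) := Gam.lift (levD M hK)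

/-- the action on `X × ZMod M`. -/
noncomputable def actY (hK : 3 ≤ K) {X : Type} [MulAction (Gam K) X] :
    MulAction (Gam K) (X × ZMod M) where
  smul γ p := (γ • p.1, Multiplicative.toAdd (lev M hK γ) + p.2)
  one_smul p := by
    show ((1 : Gam K) • p.1, Multiplicative.toAdd (lev M hK 1) + p.2) = p
    simp
  mul_smul γ γ' p := by
    show ((γ * γ') • p.1, Multiplicative.toAdd (lev M hK (γ * γ')) + p.2) =
      (γ • (γ' • p.1), Multiplicative.toAdd (lev M hK γ) + (Multiplicative.toAdd (lev M hK γ') + p.2))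
    rw [mul_smul, map_mul, toAdd_mul, add_assoc]

end lev

/-! ### generation, abstractly -/

section gen

variable {K : ℕ} [NeZero K] {M : ℕ} [NeZero M] {Y : Type} [MulAction (Gam K) Y]

/-- the subgroup of elements moving inside the classes. -/
def HH (R : Y → Y → Prop) (hR : Equivalence R) : Subgroup (Gam K) where
  carrier := {γ | ∀ y, R y (γ • y)}
  mul_mem' := by
    intro a b ha hb y
    rw [mul_smul]
    exact hR.trans (hb y) (ha _)
  one_mem' := by
    intro y
    rw [one_smul]
    exact hR.refl y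
  inv_mem' := by
    intro a ha y
    have := ha (a⁻¹ • y)
    rw [smul_inv_smul] at this
    exact hR.symm this

theorem gen_all (lv : Y → ZMod M) (hlv_a : ∀ (j : ZMod K) y, j ≠ -1 → lv (Gam.a j • y) = lv y)
    (hlv_a' : ∀ y : Y, lv ((Gam.a (-1) : Gam K) • y) = 1 + lv y)
    (R : Y → Y → Prop) (hR : Equivalence R)
    (hz : ∀ y, R y ((Gam.z : Gam K) • y)) (S : Set Y)
    (hS : ∀ y : Y, ∃ n : ℤ, ((Gam.z : Gam K) ^ n) • y ∈ S)
    (ht : ∀ j, ∀ y ∈ S, R y ((Gam.t j : Gam K) • y))
    (hy : ∀ j, ∀ y ∈ S, R y ((Gam.y j : Gam K) • y))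
    (hg : ∀ y, lv y = 0 → R y ((Gam.g : Gam K) • y)) :
    ∀ (y : Y) (γ : Gam K), R y (γ • y) := by
  have hzH : (Gam.z : Gam K) ∈ HH R hR := hz
  have hcomm : ∀ t : Gam K, Commute (Gam.z : Gam K) t → (∀ y ∈ S, R y (t • y)) → t ∈ HH R hR := by
    intro t hct htS y
    obtain ⟨n, hn⟩ := hS y
    have h1 : R y (((Gam.z : Gam K) ^ n) • y) := (HH R hR).zpow_mem hzH n y
    have h2 := htS _ hn
    have h3 : t • ((Gam.z : Gam K) ^ n) • y = ((Gam.z : Gam K) ^ n) • t • y := by
      rw [← mul_smul, ← mul_smul, (hct.zpow_left n).eq]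
    rw [h3] at h2
    have h4 : R (t • y) (((Gam.z : Gam K) ^ n) • t • y) := (HH R hR).zpow_mem hzH n (t • y)
    exact hR.trans h1 (hR.trans h2 (hR.symm h4))
  have htH : ∀ j, (Gam.t j : Gam K) ∈ HH R hR := fun j => hcomm _ (Gam.zt j) (ht j)
  have hyH : ∀ j, (Gam.y j : Gam K) ∈ HH R hR := fun j => hcomm _ (Gam.zy j) (hy j)
  have hta : ∀ (j : ZMod K) (u : Y), (Gam.t j : Gam K) • (Gam.g : Gam K) • (Gam.a j : Gam K) • u
      = (Gam.a (j + 1) : Gam K) • u := by
    intro j u
    rw [← mul_smul, ← mul_smul]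
    congr 1
    simp [Gam.t]
  have hK1 : (((K - 1 : ℕ) : ℕ) : ZMod K) = -1 := by
    have : 1 ≤ K := Nat.one_le_iff_ne_zero.mpr (NeZero.ne K)
    rw [Nat.cast_sub this]
    simp
  -- the claim
  have hC : ∀ (n : ℕ) (y : Y), lv y = (n : ZMod M) → R y ((Gam.g : Gam K) • y) := by
    intro n
    induction n with
    | zero =>
      intro y h
      exact hg y (by simpa using h)
    | succ n ih =>
      intro y h
      set u : Y := (Gam.a (-1) : Gam K)⁻¹ • y with hu
      have huy : (Gam.a (-1) : Gam K) • u = y := by rw [hu, smul_inv_smul]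
      have hlu : lv u = (n : ZMod M) := by
        have h1 := hlv_a' u
        rw [huy, h] at h1
        have h2 : (1 : ZMod M) + (n : ZMod M) = 1 + lv u := by
          rw [← h1]; push_cast; ring
        exact (add_left_cancel h2).symm
      have hj : ∀ j : ℕ, j ≤ K - 1 → R u ((Gam.a (j : ZMod K) : Gam K) • u) := by
        intro j
        induction j with
        | zero =>
          intro _
          rw [Nat.cast_zero, Gam.a0, one_smul]
          exact hR.refl u
        | succ j ihj =>
          intro hjK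
          have h1 := ihj (by omega)
          have hne : (j : ZMod K) ≠ -1 := by
            intro h2
            rw [← hK1] at h2
            have h3 := congrArg ZMod.val h2
            rw [ZMod.val_natCast, ZMod.val_natCast, Nat.mod_eq_of_lt (by omega),
              Nat.mod_eq_of_lt (by omega)] at h3
            omega
          have h2 : lv ((Gam.a (j : ZMod K) : Gam K) • u) = (n : ZMod M) := by
            rw [hlv_a _ _ hne, hlu]
          have h3 := ih _ h2
          have h4 := htH (j : ZMod K) ((Gam.g : Gam K) • (Gam.a (j : ZMod K) : Gam K) • u)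
          rw [hta] at h4
          push_cast
          exact hR.trans h1 (hR.trans h3 h4)
      have h5 := hj (K - 1) le_rfl
      rw [hK1, huy] at h5
      have h6 : (Gam.t (-1) : Gam K) • (Gam.g : Gam K) • y = u := by
        have := hta (-1) u
        rw [huy] at this
        rw [this]
        simp [Gam.a0]
      have h7 := htH (-1) ((Gam.g : Gam K) • y)
      rw [h6] at h7
      exact hR.trans (hR.symm h5) (hR.symm h7)
  have hgH : (Gam.g : Gam K) ∈ HH R hR := by
    intro y
    exact hC (lv y).val y (by rw [ZMod.natCast_zmod_val])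
  have haH : ∀ n : ℕ, (Gam.a (n : ZMod K) : Gam K) ∈ HH R hR := by
    intro n
    induction n with
    | zero => rw [Nat.cast_zero, Gam.a0]; exact (HH R hR).one_mem
    | succ n ih =>
      have h1 : (Gam.a ((n + 1 : ℕ) : ZMod K) : Gam K) =
          Gam.t (n : ZMod K) * Gam.g * Gam.a (n : ZMod K) := by
        rw [Gam.t, inv_mul_cancel_right, inv_mul_cancel_right, Nat.cast_add, Nat.cast_one]
      rw [h1]
      exact (HH R hR).mul_mem ((HH R hR).mul_mem (htH _) hgH) ih
  intro y γ
  have h := Gam.mem_of_gens (HH (Y := Y) R hR) (fun j => by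
    have := haH j.val
    rwa [ZMod.natCast_zmod_val] at this) hyH hgH hzH γ
  exact h y

end gen

/-! ### the uniform measure -/

section unif

variable (M : ℕ) [NeZero M]

local instance msZ : MeasurableSpace (ZMod M) := ⊤

local instance dmZ : DiscreteMeasurableSpace (ZMod M) := ⟨fun _ => trivial⟩

noncomputable def um : Measure (ZMod M) := (M : ℝ≥0∞)⁻¹ • Measure.count

theorem um_apply (s : Set (ZMod M)) : um M s = (M : ℝ≥0∞)⁻¹ * Measure.count s := rfl

theorem um_univ : um M Set.univ = 1 := by
  rw [um_apply, Measure.count_apply MeasurableSet.univ, Set.encard_univ, ENat.card_eq_coe_fintype_card,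
    ZMod.card]
  have : ((M : ℕ) : ℝ≥0∞) ≠ 0 := by exact_mod_cast NeZero.ne M
  simpa using ENNReal.inv_mul_cancel this (ENNReal.natCast_ne_top M)

instance umP : IsProbabilityMeasure (um M) := ⟨um_univ M⟩

theorem um_single (m : ZMod M) : um M {m} = (M : ℝ≥0∞)⁻¹ := by
  rw [um_apply, Measure.count_singleton, mul_one]

theorem um_pres (c : ZMod M) : MeasurePreserving (fun m : ZMod M => c + m) (um M) (um M) := by
  refine ⟨measurable_of_countable _, ?_⟩
  ext s hs
  rw [Measure.map_apply (measurable_of_countable _) hs, um_apply, um_apply]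
  congr 1
  have hpre : MeasurableSet ((fun m : ZMod M => c + m) ⁻¹' s) := trivial
  rw [Measure.count_apply hs, Measure.count_apply hpre]
  congr 1
  have h1 : (fun m : ZMod M => c + m) ⁻¹' s = (Equiv.addLeft c).symm '' s := by
    rw [Equiv.image_symm_eq_preimage]
    rfl
  rw [h1, (Equiv.addLeft c).symm.injective.encard_image]

end unif

theorem main : Spec.UB := by
  classical
  intro K _ hK X _ _ μ _ _ hfree hS M hM
  haveI : NeZero M := ⟨hM.ne'⟩
  letI : MulAction (Gam K) (X × ZMod M) := actY M hK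
  have hsm : ∀ (γ : Gam K) (p : X × ZMod M),
      γ • p = (γ • p.1, Multiplicative.toAdd (lev M hK γ) + p.2) := fun _ _ => rfl
  obtain ⟨S, hSm, hSμ, hSz⟩ := hS (K * M) (Nat.mul_pos (by omega) hM)
  refine ⟨X × ZMod M, inferInstance, inferInstance, μ.prod (um M), inferInstance, inferInstance,
    ⟨?_, ?_⟩, ?_⟩
  · intro γ
    exact (hfree.1 γ).prod (um_pres M (Multiplicative.toAdd (lev M hK γ)))
  · intro γ hγ
    have h1 := hfree.2 γ hγ
    refine measure_mono_null (t := {x : X | γ • x = x} ×ˢ (Set.univ : Set (ZMod M))) ?_ ?_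
    · rintro p hp
      have hp' : γ • p = p := hp
      rw [hsm] at hp'
      exact ⟨congrArg Prod.fst hp', trivial⟩
    · rw [Measure.prod_prod, h1, zero_mul]
  · -- levels
    have hlz : lev M hK (Gam.z : Gam K) = 1 := Gam.lift_z _
    have hlg : lev M hK (Gam.g : Gam K) = 1 := Gam.lift_g _
    have hly : ∀ j, lev M hK (Gam.y j : Gam K) = 1 := fun j => Gam.lift_y _ _
    have hla : ∀ j, lev M hK (Gam.a j : Gam K) = if j = -1 then Multiplicative.ofAdd 1 else 1 :=
      fun j => Gam.lift_a _ _
    let S' : Set (X × ZMod M) := S ×ˢ Set.univ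
    let F : (Unit ⊕ Unit) ⊕ (ZMod K ⊕ ZMod K) → Gam K × Set (X × ZMod M) := fun i =>
      match i with
      | Sum.inl (Sum.inl _) => (Gam.z, Set.univ)
      | Sum.inl (Sum.inr _) => (Gam.g, Set.univ ×ˢ {0})
      | Sum.inr (Sum.inl j) => (Gam.t j, S')
      | Sum.inr (Sum.inr j) => (Gam.y j, S')
    have hcost := cost_le_of_fintype (μ.prod (um M)) F ?_ ?_
    · refine hcost.trans ?_
      rw [Fintype.sum_sum_type, Fintype.sum_sum_type, Fintype.sum_sum_type]
      have e1 : (μ.prod (um M)) Set.univ = 1 := measure_univ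
      have e2 : (μ.prod (um M)) ((Set.univ : Set X) ×ˢ ({0} : Set (ZMod M))) = (M : ℝ≥0∞)⁻¹ := by
        rw [Measure.prod_prod, measure_univ, one_mul, um_single]
      have e3 : (μ.prod (um M)) S' ≤ ((K * M : ℕ) : ℝ≥0∞)⁻¹ := by
        show (μ.prod (um M)) (S ×ˢ Set.univ) ≤ _
        rw [Measure.prod_prod, measure_univ, mul_one]
        exact hSμ
      have e4 : ∑ _j : ZMod K, (μ.prod (um M)) S' ≤ (M : ℝ≥0∞)⁻¹ := by
        rw [Finset.sum_const, Finset.card_univ, ZMod.card, nsmul_eq_mul]
        refine (mul_le_mul_right e3 _).trans ?_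
        rw [Nat.cast_mul, ENNReal.mul_inv (Or.inr (ENNReal.natCast_ne_top M))
          (Or.inl (ENNReal.natCast_ne_top K)), ← mul_assoc, ENNReal.mul_inv_cancel
          (by exact_mod_cast NeZero.ne K) (ENNReal.natCast_ne_top K), one_mul]
      have e5 : ∑ _x : Unit, (μ.prod (um M)) (F (Sum.inl (Sum.inl _x))).2 = 1 := by
        simp only [F, Finset.univ_unique, Finset.sum_const, Finset.card_singleton, one_smul, e1]
      have e6 : ∑ _x : Unit, (μ.prod (um M)) (F (Sum.inl (Sum.inr _x))).2 = (M : ℝ≥0∞)⁻¹ := by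
        simp only [F, Finset.univ_unique, Finset.sum_const, Finset.card_singleton, one_smul, e2]
      rw [e5, e6]
      calc (1 + (M : ℝ≥0∞)⁻¹) + (∑ _j : ZMod K, (μ.prod (um M)) S' +
            ∑ _j : ZMod K, (μ.prod (um M)) S')
          ≤ (1 + (M : ℝ≥0∞)⁻¹) + ((M : ℝ≥0∞)⁻¹ + (M : ℝ≥0∞)⁻¹) := by gcongr
        _ = 1 + 3 / (M : ℝ≥0∞) := by
            rw [ENNReal.div_eq_inv_mul]; ring
        _ ≤ 1 + 99 / (M : ℝ≥0∞) := by
            gcongr
            norm_num
    · rintro ((_ | _) | (j | j))
      · exact MeasurableSet.univ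
      · exact MeasurableSet.univ.prod (measurableSet_singleton _)
      · exact hSm.prod MeasurableSet.univ
      · exact hSm.prod MeasurableSet.univ
    · have hstep : ∀ i (x : X × ZMod M), x ∈ (F i).2 →
          Relation.EqvGen (fun x y => ∃ i, x ∈ (F i).2 ∧ y = (F i).1 • x) x ((F i).1 • x) :=
        fun i x hx => Relation.EqvGen.rel _ _ ⟨i, hx, rfl⟩
      refine gen_all (M := M) (fun p => p.2) ?_ ?_ _ (Relation.EqvGen.is_equivalence _) ?_ S' ?_ ?_ ?_ ?_
      · intro j p hj
        show (Gam.a j • p).2 = p.2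
        rw [hsm, hla, if_neg hj]
        simp
      · intro p
        show (Gam.a (-1) • p).2 = 1 + p.2
        rw [hsm, hla, if_pos rfl]
        simp
      · intro p
        exact hstep (Sum.inl (Sum.inl ())) p trivial
      · intro p
        obtain ⟨n, hn⟩ := hSz p.1
        refine ⟨n, ?_⟩
        rw [hsm]
        exact ⟨hn, trivial⟩
      · intro j p hp
        exact hstep (Sum.inr (Sum.inl j)) p hp
      · intro j p hp
        exact hstep (Sum.inr (Sum.inr j)) p hp
      · intro p hp
        exact hstep (Sum.inl (Sum.inr ())) p ⟨trivial, hp⟩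

end Crest.Agent.FPUB
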