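import Crest.Agent.FPSpec

set_option autoImplicit false

namespace Crest.Agent.FPVZero

open Crest.Agent.FP

theorem gap {K : ℕ} [NeZero K] [Fact (K + 1).Prime] {B : Type} (lab : ZMod K → Option B)
    (h100 : 100 * (1 + Nat.card {j : ZMod K // lab j = none}) ≤ (JL lab).card)
    (c : ZMod K → ZMod (K + 1)) (e : ZMod K ≃ (ZMod (K + 1))ˣ)
    (hc : ∀ j, c j = ((e j : (ZMod (K + 1))ˣ) : ZMod (K + 1)) - 1)
    (act : ZMod K → Equiv.Perm (ZMod (K + 1))) (hact : ∀ j x, (act j).symm x = x - c j) :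
    GapZero (JL lab) act (1 / 80) := by
  classical
  intro f hf
  set n1 := 1 + Nat.card {j : ZMod K // lab j = none} with hn1
  have hsumall : ∀ x, ∑ j : ZMod K, f (x - c j) = - f (x + 1) := by
    intro x
    have h1 : ∑ j : ZMod K, f (x - c j) = ∑ u : (ZMod (K + 1))ˣ, f (x + 1 - (u : ZMod (K + 1))) := by
      rw [← Equiv.sum_comp e]
      refine Finset.sum_congr rfl (fun j _ => ?_)
      rw [hc]
      congr 1
      ring
    have h2 : ∑ u : (ZMod (K + 1))ˣ, f (x + 1 - (u : ZMod (K + 1))) =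
        ∑ t ∈ (Finset.univ : Finset (ZMod (K + 1))).filter (fun t => t ≠ 0), f (x + 1 - t) := by
      refine Finset.sum_bij (fun u _ => (u : ZMod (K + 1))) ?_ ?_ ?_ ?_
      · intro u _
        simp
      · intro u _ v _ h
        exact Units.ext h
      · intro t ht
        have ht' : t ≠ 0 := by simpa using ht
        exact ⟨Units.mk0 t ht', Finset.mem_univ _, rfl⟩
      · intro u _
        rfl
    have h3 : ∑ t : ZMod (K + 1), f (x + 1 - t) = 0 := by
      rw [← hf]
      exact Equiv.sum_comp (Equiv.subLeft (x + 1)) f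
    have h4 : ∑ t : ZMod (K + 1), f (x + 1 - t) =
        ∑ t ∈ (Finset.univ : Finset (ZMod (K + 1))).filter (fun t => t ≠ 0), f (x + 1 - t)
          + f (x + 1) := by
      rw [← Finset.sum_filter_add_sum_filter_not Finset.univ (fun t : ZMod (K + 1) => t ≠ 0)]
      congr 1
      have : (Finset.univ : Finset (ZMod (K + 1))).filter (fun t => ¬ t ≠ 0) = {0} := by
        ext t; simp
      rw [this]
      simp
    rw [h1, h2]
    linarith
  let N : Finset (ZMod K) := Finset.univ.filter (fun j => lab j = none)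
  have hNc : n1 = 1 + N.card := by
    rw [hn1, Nat.card_eq_fintype_card, Fintype.card_subtype]
  have havg : ∀ x, avg (JL lab) act f x =
      ((JL lab).card : ℝ)⁻¹ * (- f (x + 1) - ∑ j ∈ N, f (x - c j)) := by
    intro x
    unfold avg
    congr 1
    have h1 : ∑ j ∈ JL lab, f ((act j).symm x) = ∑ j ∈ JL lab, f (x - c j) :=
      Finset.sum_congr rfl (fun j _ => by rw [hact])
    rw [h1, ← hsumall x]
    have h2 := Finset.sum_filter_add_sum_filter_not Finset.univ (fun j : ZMod K => lab j = none)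
      (fun j => f (x - c j))
    have h3 : (Finset.univ : Finset (ZMod K)).filter (fun j => ¬ lab j = none) = JL lab := by
      ext j; simp [JL]
    rw [h3] at h2
    rw [← h2]
    simp [N]
  have hshift : ∀ b : ZMod (K + 1), ∑ x, f (x + b) ^ 2 = ∑ x, f x ^ 2 := fun b =>
    Equiv.sum_comp (Equiv.addRight b) (fun x => f x ^ 2)
  have hshift' : ∀ b : ZMod (K + 1), ∑ x, f (x - b) ^ 2 = ∑ x, f x ^ 2 := fun b =>
    Equiv.sum_comp (Equiv.subRight b) (fun x => f x ^ 2)
  have hpt : ∀ x, (- f (x + 1) - ∑ j ∈ N, f (x - c j)) ^ 2 ≤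
      (n1 : ℝ) * (f (x + 1) ^ 2 + ∑ j ∈ N, f (x - c j) ^ 2) := by
    intro x
    have h1 : (∑ o ∈ Finset.insertNone N, (Option.elim o (f (x + 1)) (fun j => f (x - c j)))) ^ 2 ≤
        (Finset.insertNone N).card * ∑ o ∈ Finset.insertNone N,
          (Option.elim o (f (x + 1)) (fun j => f (x - c j))) ^ 2 :=
      sq_sum_le_card_mul_sum_sq
    rw [Finset.sum_insertNone, Finset.sum_insertNone, Finset.card_insertNone] at h1
    simp only [Option.elim] at h1
    rw [hNc]
    push_cast
    push_cast at h1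
    have h2 : (- f (x + 1) - ∑ j ∈ N, f (x - c j)) ^ 2 =
      (f (x + 1) + ∑ j ∈ N, f (x - c j)) ^ 2 := by ring
    rw [h2, add_comm (1 : ℝ)]
    exact h1
  have hS0 : 0 ≤ ∑ x, f x ^ 2 := Finset.sum_nonneg (fun x _ => sq_nonneg _)
  have htot : ∑ x, (- f (x + 1) - ∑ j ∈ N, f (x - c j)) ^ 2 ≤ (n1 : ℝ) ^ 2 * ∑ x, f x ^ 2 := by
    calc _ ≤ ∑ x, (n1 : ℝ) * (f (x + 1) ^ 2 + ∑ j ∈ N, f (x - c j) ^ 2) :=
          Finset.sum_le_sum (fun x _ => hpt x)
      _ = (n1 : ℝ) * (∑ x, f (x + 1) ^ 2 + ∑ j ∈ N, ∑ x, f (x - c j) ^ 2) := by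
          rw [← Finset.mul_sum, Finset.sum_add_distrib, Finset.sum_comm]
      _ = (n1 : ℝ) ^ 2 * ∑ x, f x ^ 2 := by
          rw [hshift]
          simp only [hshift']
          rw [Finset.sum_const, hNc]
          push_cast
          rw [nsmul_eq_mul]
          ring
  have hJ : (100 : ℝ) * n1 ≤ (JL lab).card := by exact_mod_cast h100
  have hn1pos : (1 : ℝ) ≤ n1 := by
    rw [hNc]; push_cast
    have : (0 : ℝ) ≤ N.card := Nat.cast_nonneg _
    linarith
  have hJpos : (0 : ℝ) < (JL lab).card := by linarith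
  calc ∑ x, (avg (JL lab) act f x) ^ 2
      = (((JL lab).card : ℝ)⁻¹) ^ 2 * ∑ x, (- f (x + 1) - ∑ j ∈ N, f (x - c j)) ^ 2 := by
        rw [Finset.mul_sum]
        refine Finset.sum_congr rfl (fun x _ => ?_)
        rw [havg, mul_pow]
    _ ≤ (((JL lab).card : ℝ)⁻¹) ^ 2 * ((n1 : ℝ) ^ 2 * ∑ x, f x ^ 2) :=
        mul_le_mul_of_nonneg_left htot (sq_nonneg _)
    _ = (((JL lab).card : ℝ)⁻¹ * n1) ^ 2 * ∑ x, f x ^ 2 := by ring
    _ ≤ (1 / 80) * ∑ x, f x ^ 2 := by
        refine mul_le_mul_of_nonneg_right ?_ hS0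
        have h5 : ((JL lab).card : ℝ)⁻¹ * n1 ≤ 1 / 100 := by
          rw [inv_mul_le_iff₀ hJpos]
          linarith
        have h6 : 0 ≤ ((JL lab).card : ℝ)⁻¹ * n1 := by positivity
        nlinarith

theorem main : Spec.VZero := by
  classical
  intro K iK hKp hK8 B lab h100
  have : Fact (K + 1).Prime := ⟨hKp⟩
  obtain ⟨g, hg⟩ := IsCyclic.exists_generator (α := (ZMod (K + 1))ˣ)
  have hord : orderOf g = K := by
    rw [orderOf_eq_card_of_forall_mem_zpowers hg, Nat.card_eq_fintype_card,
      ZMod.card_units]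
    simp
  have hinj : Function.Injective (fun j : ZMod K => g ^ j.val) := by
    intro j j' h
    have h1 := pow_injOn_Iio_orderOf (x := g) (by rw [hord]; exact ZMod.val_lt j)
      (by rw [hord]; exact ZMod.val_lt j') h
    exact ZMod.val_injective K h1
  have hcard : Fintype.card (ZMod K) = Fintype.card (ZMod (K + 1))ˣ := by
    rw [ZMod.card_units, ZMod.card]
    simp
  let e : ZMod K ≃ (ZMod (K + 1))ˣ := Equiv.ofBijective _
    ((Fintype.bijective_iff_injective_and_card _).2 ⟨hinj, hcard⟩)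
  have he : ∀ j, e j = g ^ j.val := fun j => rfl
  have hsucc : ∀ j, e (j + 1) = g * e j := by
    intro j
    rw [he, he, ← pow_succ', ZMod.val_add]
    have h1 : (1 : ZMod K).val = 1 := by
      have : Fact (1 < K) := ⟨by omega⟩
      exact ZMod.val_one K
    rw [h1]
    have h2 : (j.val + 1) % K = (j.val + 1) % orderOf g := by rw [hord]
    rw [h2]
    exact pow_mod_orderOf g _
  let c : ZMod K → ZMod (K + 1) := fun j => ((e j : (ZMod (K + 1))ˣ) : ZMod (K + 1)) - 1
  have hc0 : c 0 = 0 := by simp [c, he]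
  have hcinj : Function.Injective c := by
    intro j j' h
    apply e.injective
    apply Units.ext
    exact sub_left_injective h
  have hg1 : (g : ZMod (K + 1)) - 1 ≠ 0 := by
    intro h
    have h1 : (g : ZMod (K + 1)) = 1 := sub_eq_zero.1 h
    have h2 : g = 1 := Units.ext h1
    rw [h2, orderOf_one] at hord
    omega
  have hdiff : ∀ j, c (j + 1) - c j = ((e j : (ZMod (K + 1))ˣ) : ZMod (K + 1)) * (g - 1) := by
    intro j
    simp only [c, hsucc]
    push_cast
    ring
  let D : GenData K (Equiv.Perm (ZMod (K + 1))) :=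
    { a := fun j => Equiv.addRight (c j)
      y := fun j => Equiv.addRight (c j)
      g := 1
      z := 1
      a0 := by
        ext x : 1
        simp [hc0]
      zt := fun j => Commute.one_left _
      zy := fun j => Commute.one_left _ }
  let act := Gam.lift D
  let iV : MulAction (Gam K) (ZMod (K + 1)) := MulAction.compHom (ZMod (K + 1)) act
  have ha : ∀ j (x : ZMod (K + 1)), (Gam.a j : Gam K) • x = x + c j := by
    intro j x
    change act (Gam.a j) x = _
    have h1 : act (Gam.a j) = Equiv.addRight (c j) := Gam.lift_a D j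
    rw [h1]
    rfl
  have hy : ∀ j (x : ZMod (K + 1)), (Gam.y j : Gam K) • x = x + c j := by
    intro j x
    change act (Gam.y j) x = _
    have h1 : act (Gam.y j) = Equiv.addRight (c j) := Gam.lift_y D j
    rw [h1]
    rfl
  refine ⟨ZMod (K + 1), inferInstance, inferInstance, iV, ?_, ?_, ?_, ?_, ?_⟩
  · rw [Nat.card_eq_fintype_card, ZMod.card]
    omega
  · intro v j j' h
    simp only [ha] at h
    exact hcinj (add_left_cancel h)
  · intro v j v' j' h h'
    simp only [ha] at h h'
    have h1 : c (j + 1) - c j = c (j' + 1) - c j' := by linear_combination h' - h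
    rw [hdiff, hdiff] at h1
    have h2 := mul_right_cancel₀ hg1 h1
    have h3 : j = j' := e.injective (Units.ext h2)
    subst h3
    exact ⟨add_right_cancel h, rfl⟩
  · refine gap lab h100 c e (fun j => rfl) _ ?_
    intro j x
    rw [Equiv.symm_apply_eq]
    change x = (Gam.a j : Gam K) • (x - c j)
    rw [ha]
    ring
  · refine gap lab h100 c e (fun j => rfl) _ ?_
    intro j x
    rw [Equiv.symm_apply_eq]
    change x = (Gam.y j : Gam K) • (x - c j)
    rw [hy]
    ring

end Crest.Agent.FPVZero
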