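import Crest.Agent.FPSpec

set_option autoImplicit false

namespace Crest.Agent.FPZ1Dim

open Crest.Agent.FP

theorem main : Spec.Z1Dim := by
  classical
  intro K _ V L Q _ _ ℓ E C
  have e1 : (Z1 ℓ E (∅ : Finset (V × (ZMod K → Q)))) ≃ₗ[ZMod 2] (↥E → ZMod 2) :=
    { toFun := fun f e => f.1 e.1
      map_add' := fun f g => rfl
      map_smul' := fun c f => rfl
      invFun := fun g => ⟨fun e => if h : e ∈ E then g ⟨e, h⟩ else 0,
        fun e he => dif_neg he, fun p hp => absurd hp (Finset.notMem_empty p)⟩
      left_inv := by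
        intro f
        apply Subtype.ext
        funext e
        by_cases h : e ∈ E
        · simp [h]
        · simp [h, f.2.1 e h]
      right_inv := by
        intro g
        funext e
        simp }
  have h1 : z1 ℓ E (∅ : Finset (V × (ZMod K → Q))) = E.card := by
    unfold z1
    rw [e1.finrank_eq, Module.finrank_fintype_fun_eq_card, Fintype.card_coe]
  refine ⟨h1, ?_⟩
  let φ : (Z1 ℓ E (∅ : Finset (V × (ZMod K → Q)))) →ₗ[ZMod 2] (↥C → ZMod 2) :=
    { toFun := fun f p => ∑ j : ZMod K, f.1 (cedge ℓ p.1 j)
      map_add' := by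
        intro f g
        funext p
        simp [Finset.sum_add_distrib]
      map_smul' := by
        intro c f
        funext p
        simp [Finset.mul_sum] }
  have h2 := LinearMap.finrank_range_add_finrank_ker φ
  have h3 : Module.finrank (ZMod 2) (LinearMap.range φ) ≤ C.card := by
    refine (Submodule.finrank_le _).trans ?_
    rw [Module.finrank_fintype_fun_eq_card, Fintype.card_coe]
  have e2 : (LinearMap.ker φ) ≃ₗ[ZMod 2] (Z1 ℓ E C) :=
    { toFun := fun f => ⟨f.1.1, f.1.2.1, fun p hp => by
        have h := LinearMap.mem_ker.1 f.2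
        exact congrFun h ⟨p, hp⟩⟩
      map_add' := fun f g => rfl
      map_smul' := fun c f => rfl
      invFun := fun f => ⟨⟨f.1, f.2.1, fun p hp => absurd hp (Finset.notMem_empty p)⟩, by
        rw [LinearMap.mem_ker]
        funext p
        exact f.2.2 p.1 p.2⟩
      left_inv := fun f => rfl
      right_inv := fun f => rfl }
  have h4 : Module.finrank (ZMod 2) (LinearMap.ker φ) = z1 ℓ E C := by
    unfold z1
    exact e2.finrank_eq
  have h5 : Module.finrank (ZMod 2) (Z1 ℓ E (∅ : Finset (V × (ZMod K → Q)))) = E.card := h1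
  omega

end Crest.Agent.FPZ1Dim
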