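import Crest.Agent.GSDefs

set_option autoImplicit false

/-! Module BASE of row 63. -/

namespace Crest.Agent.GSBase

open Finset Crest.GS

theorem Ex_sum {ι : Type} [Fintype ι] [DecidableEq ι] {α : Type} (s : Finset α)
    (f : α → (ι → Bool) → ℝ) :
    Ex (fun x => ∑ a ∈ s, f a x) = ∑ a ∈ s, Ex (f a) := by
  unfold Ex
  rw [Finset.sum_comm, Finset.sum_div]

theorem Ex_one {ι : Type} [Fintype ι] [DecidableEq ι] :
    Ex (fun _ : ι → Bool => (1 : ℝ)) = 1 := by
  unfold Ex
  rw [Finset.sum_const, Finset.card_univ]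
  simp

theorem sg_not (b : Bool) : sg (!b) = - sg b := by
  cases b <;> simp [sg]

theorem Ex_SS {ι : Type} [Fintype ι] [DecidableEq ι] :
    Ex (fun x : ι → Bool => SS x) = 0 := by
  unfold Ex
  have hinv : Function.Involutive (fun (x : ι → Bool) => fun j => !x j) := by
    intro x; funext j; simp
  have h1 : ∑ x : ι → Bool, SS x = ∑ x : ι → Bool, SS (fun j => !x j) :=
    (Equiv.sum_comp (hinv.toPerm _) (fun x : ι → Bool => SS x)).symm
  have h2 : ∀ x : ι → Bool, SS (fun j => !x j) = - SS x := by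
    intro x
    unfold SS
    rw [← Finset.sum_neg_distrib]
    exact Finset.sum_congr rfl (fun i _ => sg_not (x i))
  simp only [h2, Finset.sum_neg_distrib] at h1
  have h3 : ∑ x : ι → Bool, SS x = 0 := by linarith
  rw [h3, zero_div]

theorem rlz_nonneg {T : Type} [Fintype T] [DecidableEq T] (p y : T → ℝ) (d : T → ℕ)
    (h : Rlz p y d) (τ : T) : 0 ≤ p τ := by
  obtain ⟨ι, i1, i2, c, hp, hy, hd⟩ := h
  rw [← hp τ]
  unfold Ex
  exact div_nonneg (Finset.sum_nonneg fun x _ => by split_ifs <;> norm_num) (by positivity)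

theorem rlz_sum_one {T : Type} [Fintype T] [DecidableEq T] (p y : T → ℝ) (d : T → ℕ)
    (h : Rlz p y d) : ∑ τ, p τ = 1 := by
  obtain ⟨ι, i1, i2, c, hp, hy, hd⟩ := h
  rw [← Finset.sum_congr rfl (fun τ _ => hp τ), ← Ex_sum]
  refine Eq.trans ?_ (Ex_one (ι := ι))
  congr 1
  funext x
  rw [Finset.sum_ite_eq]
  simp

theorem rlz_mean_zero {T : Type} [Fintype T] [DecidableEq T] (p y : T → ℝ) (d : T → ℕ)
    (h : Rlz p y d) : ∑ τ, p τ * y τ = 0 := by
  obtain ⟨ι, i1, i2, c, hp, hy, hd⟩ := h
  rw [← Finset.sum_congr rfl (fun τ _ => hy τ), ← Ex_sum]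
  refine Eq.trans ?_ (Ex_SS (ι := ι))
  congr 1
  funext x
  rw [Finset.sum_ite_eq]
  simp

theorem unit_sum (F : Bool → ℝ) :
    ∑ x : Unit → Bool, F (x ()) = F true + F false := by
  rw [Fintype.sum_equiv (Equiv.funUnique Unit Bool) (fun x => F (x ())) F (fun x => rfl)]
  simp

theorem ach_one : Ach 1 := by
  refine ⟨Bool, inferInstance, inferInstance, fun _ => 1 / 2, sg, fun _ => 1, ?_, ?_, ?_, ?_⟩
  · refine ⟨Unit, inferInstance, inferInstance, fun x => x (), ?_, ?_, ?_⟩
    · intro τ
      unfold Ex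
      rw [unit_sum (fun b => if b = τ then (1:ℝ) else 0)]
      cases τ <;> simp
    · intro τ
      unfold Ex SS
      have : ∀ x : Unit → Bool, (if x () = τ then ∑ i, sg (x i) else 0) =
          (fun b => if b = τ then sg b else 0) (x ()) := by
        intro x; simp
      rw [Finset.sum_congr rfl (fun x _ => this x),
        unit_sum (fun b => if b = τ then sg b else 0)]
      cases τ <;> simp [sg] <;> norm_num
    · intro τ
      have h1 : (fun x : Unit → Bool => if x () = τ then (1:ℝ) else 0) =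
          (1 / 2 : ℝ) • (1 : (Unit → Bool) → ℝ) +
            (sg τ / 2) • (fun x : Unit → Bool => sg (x ())) := by
        funext x
        simp only [Pi.add_apply, Pi.smul_apply, Pi.one_apply, smul_eq_mul]
        cases τ <;> cases h : x () <;> simp [sg] <;> norm_num
      rw [h1]
      unfold Deg
      rw [pow_one]
      unfold V1
      apply Submodule.add_mem
      · apply Submodule.smul_mem
        exact Submodule.subset_span (Set.mem_insert _ _)
      · apply Submodule.smul_mem
        exact Submodule.subset_span (Set.mem_insert_of_mem _ ⟨(), rfl⟩)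
  · intro τ; exact le_refl 1
  · simp [sg]
  · simp [sg]

theorem main : Spec.BASE :=
  ⟨ach_one, fun p y d h => rlz_nonneg p y d h, fun p y d h => rlz_sum_one p y d h,
    fun p y d h => rlz_mean_zero p y d h⟩

end Crest.Agent.GSBase
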