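import Crest.Agent.GSDefs

/-! Row 63, module CLTF: finite form of the central limit theorem. -/

set_option autoImplicit false

namespace Crest.Agent.GSCLTF

open Finset MeasureTheory ProbabilityTheory Filter Topology

variable {α : Type} [Fintype α]

/-- finite discrete measure on `ℝ` -/
noncomputable def fm (q x : α → ℝ) : Measure ℝ := ∑ a, ENNReal.ofReal (q a) • Measure.dirac (x a)

theorem fm_univ (q x : α → ℝ) (hq : ∀ a, 0 ≤ q a) (h1 : ∑ a, q a = 1) : fm q x Set.univ = 1 := by
  unfold fm
  rw [Measure.finsetSum_apply]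
  simp only [Measure.smul_apply, measure_univ, smul_eq_mul, mul_one]
  rw [← ENNReal.ofReal_sum_of_nonneg (fun a _ => hq a), h1]
  simp

theorem integral_fm {E : Type*} [NormedAddCommGroup E] [NormedSpace ℝ E] [CompleteSpace E]
    (q x : α → ℝ) (hq : ∀ a, 0 ≤ q a) (f : ℝ → E) :
    ∫ t, f t ∂(fm q x) = ∑ a, q a • f (x a) := by
  unfold fm
  rw [integral_finsetSum_measure]
  · refine Finset.sum_congr rfl fun a _ => ?_
    rw [integral_smul_measure, integral_dirac, ENNReal.toReal_ofReal (hq a)]
  · intro a _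
    refine Integrable.smul_measure ?_ (by simp)
    exact integrable_dirac (by simp)

theorem real_fm (q x : α → ℝ) (hq : ∀ a, 0 ≤ q a) (s : Set ℝ) (hs : MeasurableSet s) [DecidablePred (· ∈ s)] :
    (fm q x).real s = ∑ a, q a * (if x a ∈ s then (1:ℝ) else 0) := by
  have : (fm q x).real s = ∫ t, s.indicator (fun _ => (1:ℝ)) t ∂(fm q x) := by
    rw [integral_indicator hs]; simp
  rw [this, integral_fm q x hq]
  refine Finset.sum_congr rfl fun a _ => ?_
  simp [Set.indicator_apply]


theorem charFun_fm (q x : α → ℝ) (hq : ∀ a, 0 ≤ q a) (t : ℝ) :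
    charFun (fm q x) t = ∑ a, (q a : ℂ) * Complex.exp (t * x a * Complex.I) := by
  rw [charFun_apply_real, integral_fm q x hq]
  refine Finset.sum_congr rfl fun a _ => ?_
  simp

theorem sum_prod {T : Type} [Fintype T] [DecidableEq T] {R : ℕ} (p : T → ℝ) (h1 : ∑ t, p t = 1) :
    ∑ τ : Fin R → T, ∏ r, p (τ r) = 1 := by
  have := Finset.prod_univ_sum (fun _ : Fin R => (univ : Finset T)) (fun _ t => p t)
  simp only [Fintype.piFinset_univ, h1, Finset.prod_const_one] at this
  exact this.symm

theorem charFun_prod {T : Type} [Fintype T] [DecidableEq T] (p y : T → ℝ) (hp : ∀ t, 0 ≤ p t) (R : ℕ)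
    (t : ℝ) :
    charFun (fm (fun τ : Fin R → T => ∏ r, p (τ r)) (fun τ => (∑ r, y (τ r)) / √R)) t
      = (charFun (fm p y) ((√R)⁻¹ * t)) ^ R := by
  rw [charFun_fm _ _ (fun τ => Finset.prod_nonneg fun r _ => hp _), charFun_fm p y hp]
  have := Finset.prod_univ_sum (fun _ : Fin R => (univ : Finset T))
    (fun _ τ => (p τ : ℂ) * Complex.exp (((√R)⁻¹ * t : ℝ) * y τ * Complex.I))
  simp only [Fintype.piFinset_univ, Finset.prod_const, Finset.card_univ, Fintype.card_fin] at this
  rw [this]
  refine Finset.sum_congr rfl fun τ _ => ?_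
  rw [Finset.prod_mul_distrib, ← Complex.exp_sum]
  push_cast
  congr 2
  rw [Finset.sum_div, Finset.mul_sum, Finset.sum_mul]
  refine Finset.sum_congr rfl fun r _ => ?_
  rw [div_eq_mul_inv]
  ring

theorem main : Crest.GS.Spec.CLTF := by
  intro T _ _ p y hp h1 hm hv
  have hpr : ∀ (R : ℕ) (τ : Fin R → T), 0 ≤ ∏ r, p (τ r) := fun R τ => Finset.prod_nonneg fun r _ => hp _
  have hprob : ∀ R : ℕ, IsProbabilityMeasure (fm (fun τ : Fin R → T => ∏ r, p (τ r))
      (fun τ => (∑ r, y (τ r)) / √R)) := fun R =>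
    ⟨fm_univ _ _ (hpr R) (sum_prod p h1)⟩
  have hP : IsProbabilityMeasure (fm p y) := ⟨fm_univ _ _ hp h1⟩
  let ν : ℕ → ProbabilityMeasure ℝ := fun R => ⟨fm (fun τ : Fin R → T => ∏ r, p (τ r))
      (fun τ => (∑ r, y (τ r)) / √R), hprob R⟩
  let ν0 : ProbabilityMeasure ℝ := ⟨Crest.GS.μG, by unfold Crest.GS.μG; infer_instance⟩
  have hlim : Tendsto ν atTop (𝓝 ν0) := by
    refine ProbabilityMeasure.tendsto_iff_tendsto_charFun.2 fun t => ?_
    have h := tendsto_charFun_inv_sqrt_mul_pow (P := fm p y) (X := id) aemeasurable_id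
      (by rw [integral_fm p y hp]; simpa using hm) (by rw [integral_fm p y hp]; simpa using hv) t
    rw [Measure.map_id] at h
    have e : charFun (ν0 : Measure ℝ) t = Complex.exp (-t ^ 2 / 2) := by
      show charFun (gaussianReal 0 1) t = _
      rw [charFun_gaussianReal]
      congr 1
      push_cast
      ring
    rw [e]
    refine h.congr fun R => ?_
    exact (charFun_prod p y hp R t).symm
  refine ⟨fun a b => ?_, fun ψ hc hb => ?_⟩
  · have h := ProbabilityMeasure.tendsto_measure_of_null_frontier_of_tendsto' hlim (E := Set.Ico a b) (by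
      show gaussianReal 0 1 (frontier (Set.Ico a b)) = 0
      have : NullSingletonClass (gaussianReal 0 1) := nullSingletonClass_gaussianReal (by simp)
      refine measure_mono_null (t := {a, b}) ?_ (by
        refine (Set.toFinite _).measure_zero _)
      rcases lt_or_ge a b with hab | hab
      · rw [frontier_Ico hab]
      · rw [Set.Ico_eq_empty (not_lt.2 hab)]; simp)
    have h' := (ENNReal.tendsto_toReal (measure_ne_top _ _)).comp h
    refine Tendsto.congr (fun R => ?_) h'
    show (fm (fun τ : Fin R → T => ∏ r, p (τ r)) (fun τ => (∑ r, y (τ r)) / √R)).real (Set.Ico a b) = _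
    classical
    rw [real_fm _ _ (hpr R) _ measurableSet_Ico]
    rfl
  · obtain ⟨K, hK⟩ := hb
    have h := ProbabilityMeasure.tendsto_iff_forall_integral_tendsto.1 hlim
      (BoundedContinuousFunction.ofNormedAddCommGroup ψ hc K (fun t => by simpa using hK t))
    refine Tendsto.congr (fun R => ?_) h
    show ∫ t, ψ t ∂(fm (fun τ : Fin R → T => ∏ r, p (τ r)) (fun τ => (∑ r, y (τ r)) / √R)) = _
    rw [integral_fm _ _ (hpr R)]
    rfl

end Crest.Agent.GSCLTF
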