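import Mathlib

/-!
Row 63 (S0085, Gopalan-Servedio): definitions and module statements.
`Spec.X : Prop` is the exact statement of module X.  Every module file proves `theorem main : Crest.GS.Spec.X`
(or the same with the modules it depends on as hypotheses).
-/

set_option autoImplicit false

namespace Crest.GS

open Finset MeasureTheory ProbabilityTheory Filter Topology

/-- sign value of a bit -/
noncomputable def sg (b : Bool) : ℝ := if b then 1 else -1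

/-- expectation over the uniform cube -/
noncomputable def Ex {ι : Type} [Fintype ι] [DecidableEq ι] (f : (ι → Bool) → ℝ) : ℝ :=
  (∑ x, f x) / 2 ^ Fintype.card ι

/-- sum of all the bits -/
noncomputable def SS {ι : Type} [Fintype ι] (x : ι → Bool) : ℝ := ∑ i, sg (x i)

/-- span of 1 and the coordinates -/
def V1 (ι : Type) : Submodule ℝ ((ι → Bool) → ℝ) :=
  Submodule.span ℝ (insert 1 (Set.range fun i : ι => fun x : ι → Bool => sg (x i)))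

/-- polynomials of degree at most `d` on the cube -/
noncomputable def Deg (ι : Type) (d : ℕ) : Submodule ℝ ((ι → Bool) → ℝ) := V1 ι ^ d

/-- the finite law `p`, labels `y`, costs `d` on the cell type `T` are realised by a partition
`c` of a cube: `P(c = τ) = p τ`, `E[S; c = τ] = p τ * y τ`, `deg 1_{c = τ} ≤ d τ`. -/
def Rlz {T : Type} [Fintype T] [DecidableEq T] (p y : T → ℝ) (d : T → ℕ) : Prop :=
  ∃ (ι : Type) (_ : Fintype ι) (_ : DecidableEq ι) (c : (ι → Bool) → T),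
    (∀ τ, Ex (fun x => if c x = τ then (1:ℝ) else 0) = p τ) ∧
    (∀ τ, Ex (fun x => if c x = τ then SS x else 0) = p τ * y τ) ∧
    ∀ τ, (fun x => if c x = τ then (1:ℝ) else 0) ∈ Deg ι (d τ)

/-- the ratio variance / cost `ρ` is achieved -/
def Ach (ρ : ℝ) : Prop :=
  ∃ (T : Type) (_ : Fintype T) (_ : DecidableEq T) (p y : T → ℝ) (d : T → ℕ),
    Rlz p y d ∧ (∀ τ, 1 ≤ d τ) ∧ 0 < ∑ τ, p τ * y τ ^ 2 ∧
      ρ * ∑ τ, p τ * (d τ : ℝ) ≤ ∑ τ, p τ * y τ ^ 2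

/-- The gadget event: slots `none` (selector, outcome `a`) and `some l` (outcomes `x_l`).
`E = ⋃_l {sel a = l, x_l ∉ I l, x_k ∈ I k for all k ≠ l}`. -/
def EE {T L : Type} [Fintype T] [DecidableEq T] [Fintype L] [DecidableEq L]
    (sel : T → L) (I : L → Finset T) : Finset (Option L → T) :=
  univ.filter fun τ => τ (some (sel (τ none))) ∉ I (sel (τ none)) ∧
    ∀ k, k ≠ sel (τ none) → τ (some k) ∈ I k

/-- probability of the gadget event -/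
noncomputable def PE {T L : Type} [Fintype T] [DecidableEq T] [Fintype L] [DecidableEq L]
    (p : T → ℝ) (sel : T → L) (I : L → Finset T) : ℝ :=
  ∑ τ ∈ EE sel I, ∏ j, p (τ j)

/-- law of the gadget partition: cell `none` = the event `EE`, cells `some τ` = single outcomes -/
noncomputable def gp {T L : Type} [Fintype T] [DecidableEq T] [Fintype L] [DecidableEq L]
    (p : T → ℝ) (sel : T → L) (I : L → Finset T) : Option (Option L → T) → ℝ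
  | none => PE p sel I
  | some τ => if τ ∈ EE sel I then 0 else ∏ j, p (τ j)

/-- labels of the gadget partition -/
noncomputable def gy {T L : Type} [Fintype T] [DecidableEq T] [Fintype L] [DecidableEq L]
    (p y : T → ℝ) (sel : T → L) (I : L → Finset T) : Option (Option L → T) → ℝ
  | none => (∑ τ ∈ EE sel I, (∏ j, p (τ j)) * ∑ j, y (τ j)) / PE p sel I
  | some τ => ∑ j, y (τ j)

/-- costs of the gadget partition -/
def gd {T L : Type} [Fintype L] (d : T → ℕ) (D : ℕ) : Option (Option L → T) → ℕ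
  | none => Fintype.card L * D
  | some τ => ∑ j, d (τ j)

/-- cut-off square -/
noncomputable def psi (B x : ℝ) : ℝ := x ^ 2 * max 0 (min 1 (B - |x|))

/-- standard Gaussian measure -/
noncomputable def μG : Measure ℝ := gaussianReal 0 1

/-- conclusion of S0085 for the constant `C` -/
def Concl (C : ℝ) : Prop :=
    ∃ n : ℕ, ∃ f : (Fin n → Bool) → Bool, ∃ d : ℕ,
      (∃ x y, f x ≠ f y) ∧
      (∀ S : Finset (Fin n), d < S.card →
        ∑ x : Fin n → Bool, ((if f x then (1 : ℝ) else -1) * ∏ i ∈ S, (if x i then (1 : ℝ) else -1)) = 0) ∧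
      C * Real.sqrt d <
        ∑ i : Fin n, (∑ x : Fin n → Bool, ((if f x then (1 : ℝ) else -1) * (if x i then (1 : ℝ) else -1))) / 2 ^ n

namespace Spec

/-- DEG: algebra of degrees. -/
structure DEG : Prop where
  one_mem : ∀ (ι : Type) (d : ℕ), (1 : (ι → Bool) → ℝ) ∈ Deg ι d
  mono : ∀ (ι : Type) (a b : ℕ), a ≤ b → Deg ι a ≤ Deg ι b
  mul_mem : ∀ (ι : Type) (a b : ℕ) (f g : (ι → Bool) → ℝ), f ∈ Deg ι a → g ∈ Deg ι b → f * g ∈ Deg ι (a + b)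
  prod_mem : ∀ (ι J : Type) (s : Finset J) (a : J → ℕ) (f : J → (ι → Bool) → ℝ),
    (∀ j ∈ s, f j ∈ Deg ι (a j)) → ∏ j ∈ s, f j ∈ Deg ι (∑ j ∈ s, a j)
  coord_mem : ∀ (ι : Type) (i : ι), (fun x : ι → Bool => sg (x i)) ∈ Deg ι 1
  pull : ∀ (ι κ : Type) (e : ι → κ) (d : ℕ) (f : (ι → Bool) → ℝ), f ∈ Deg ι d →
    (fun x : κ → Bool => f (fun i => x (e i))) ∈ Deg κ d

/-- FOUR: Fourier coefficients above the degree vanish. -/
def FOUR : Prop := ∀ (ι : Type) [Fintype ι] [DecidableEq ι] (d : ℕ) (f : (ι → Bool) → ℝ), f ∈ Deg ι d →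
  ∀ S : Finset ι, d < S.card → ∑ x : ι → Bool, f x * ∏ i ∈ S, sg (x i) = 0

/-- EXPR: expectation of a product over blocks of bits. -/
def EXPR : Prop := ∀ (J ι : Type) [Fintype J] [DecidableEq J] [Fintype ι] [DecidableEq ι]
  (f : J → (ι → Bool) → ℝ),
  Ex (fun x : J × ι → Bool => ∏ j, f j (fun i => x (j, i))) = ∏ j, Ex (f j)

/-- PROD: independent copies. -/
def PROD : Prop := ∀ {T : Type} [Fintype T] [DecidableEq T] (p y : T → ℝ) (d : T → ℕ)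
  (J : Type) [Fintype J] [DecidableEq J], Rlz p y d →
  Rlz (fun τ : J → T => ∏ j, p (τ j)) (fun τ => ∑ j, y (τ j)) (fun τ => ∑ j, d (τ j))

/-- GADG: the gadget partition is realised. -/
def GADG : Prop := ∀ {T L : Type} [Fintype T] [DecidableEq T] [Fintype L] [DecidableEq L]
  (p y : T → ℝ) (d : T → ℕ) (sel : T → L) (star : L) (I : L → Finset T) (D : ℕ), Rlz p y d →
  (∀ τ, sel τ ≠ star → d τ ≤ D) → (∀ l, ∀ τ ∈ I l, d τ ≤ D) →
  Rlz (gp p sel I) (gy p y sel I) (gd (L := L) d D)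

/-- BASE: ratio 1 is achieved (one bit); facts about realised laws. -/
structure BASE : Prop where
  ach_one : Ach 1
  nonneg : ∀ {T : Type} [Fintype T] [DecidableEq T] (p y : T → ℝ) (d : T → ℕ), Rlz p y d → ∀ τ, 0 ≤ p τ
  sum_one : ∀ {T : Type} [Fintype T] [DecidableEq T] (p y : T → ℝ) (d : T → ℕ), Rlz p y d → ∑ τ, p τ = 1
  mean_zero : ∀ {T : Type} [Fintype T] [DecidableEq T] (p y : T → ℝ) (d : T → ℕ), Rlz p y d →
    ∑ τ, p τ * y τ = 0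

/-- VARC: variance and cost of the gadget partition. -/
def VARC : Prop := ∀ {T L : Type} [Fintype T] [DecidableEq T] [Fintype L] [DecidableEq L]
  (p y : T → ℝ) (d : T → ℕ) (sel : T → L) (I : L → Finset T) (D : ℕ),
  (∀ τ, 0 ≤ p τ) → ∑ τ, p τ = 1 → ∑ τ, p τ * y τ = 0 →
  (∀ s : ℝ, ((Fintype.card L : ℝ) + 1) * (∑ τ, p τ * y τ ^ 2)
      - ∑ τ ∈ EE sel I, (∏ j, p (τ j)) * (∑ j, y (τ j) - s) ^ 2
      ≤ ∑ o, gp p sel I o * gy p y sel I o ^ 2) ∧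
  ∑ o, gp p sel I o * (gd (L := L) d D o : ℝ) =
    ((Fintype.card L : ℝ) + 1) * (∑ τ, p τ * (d τ : ℝ))
      - ∑ τ ∈ EE sel I, (∏ j, p (τ j)) * (∑ j, (d (τ j) : ℝ))
      + PE p sel I * ((Fintype.card L : ℝ) * D)

/-- SECM: second moment of the label sum on the gadget event. -/
def SECM : Prop := ∀ {T L : Type} [Fintype T] [DecidableEq T] [Fintype L] [DecidableEq L]
  (p x : T → ℝ) (sel : T → L) (star : L) (I : L → Finset T) (α : L → ℝ) (γ h d0 TT : ℝ),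
  (∀ τ, 0 ≤ p τ) → ∑ τ, p τ = 1 → ∑ τ, p τ * x τ = 0 → ∑ τ, p τ * x τ ^ 2 = 1 →
  0 ≤ d0 → d0 ≤ h →
  (∀ l, 0 < ∑ τ ∈ I l, p τ) →
  (∀ l, ∀ τ ∈ I l, α l ≤ x τ ∧ x τ ≤ α l + d0) →
  (∀ τ, sel τ ≠ star → α (sel τ) ≤ x τ + γ ∧ x τ + γ ≤ α (sel τ) + h) →
  (∀ g, α star ≤ g → g ≤ α star + d0 →
    ∑ τ ∈ univ.filter (fun τ => sel τ = star), p τ * (x τ + γ - g) ^ 2 ≤ TT) →
  ∃ s : ℝ, ∑ τ ∈ EE sel I, (∏ j, p (τ j)) * (∑ j, x (τ j) - s) ^ 2 ≤
    PE p sel I + (∏ l, ∑ τ ∈ I l, p τ) *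
      ((∑ l ∈ univ.filter (fun l => l ≠ star),
          (∑ τ ∈ univ.filter (fun τ => sel τ = l), p τ) / (∑ τ ∈ I l, p τ)) *
            (h ^ 2 + (Fintype.card L : ℝ) * d0 ^ 2)
        + (TT + (Fintype.card L : ℝ) * d0 ^ 2) / (∑ τ ∈ I star, p τ) - γ ^ 2)

/-- LLN: the total cost of `R` copies is concentrated (in L¹). -/
def LLN : Prop := ∀ {T : Type} [Fintype T] [DecidableEq T] (p d : T → ℝ),
  (∀ τ, 0 ≤ p τ) → ∑ τ, p τ = 1 →
  Tendsto (fun R : ℕ => (∑ τ : Fin R → T, (∏ r, p (τ r)) * |∑ r, d (τ r) - R * ∑ t, p t * d t|) / R)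
    atTop (𝓝 0)

/-- CLTF: finite form of the central limit theorem. -/
def CLTF : Prop := ∀ {T : Type} [Fintype T] [DecidableEq T] (p y : T → ℝ),
  (∀ τ, 0 ≤ p τ) → ∑ τ, p τ = 1 → ∑ τ, p τ * y τ = 0 → ∑ τ, p τ * y τ ^ 2 = 1 →
  (∀ a b : ℝ, Tendsto (fun R : ℕ => ∑ τ : Fin R → T, (∏ r, p (τ r)) *
      (if a ≤ (∑ r, y (τ r)) / √R ∧ (∑ r, y (τ r)) / √R < b then (1:ℝ) else 0)) atTop
      (𝓝 (μG.real (Set.Ico a b)))) ∧
  (∀ ψ : ℝ → ℝ, Continuous ψ → (∃ K, ∀ t, |ψ t| ≤ K) →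
    Tendsto (fun R : ℕ => ∑ τ : Fin R → T, (∏ r, p (τ r)) * ψ ((∑ r, y (τ r)) / √R)) atTop
      (𝓝 (∫ t, ψ t ∂μG)))

/-- GAUSS: parameters of the gadget for Gaussian slots. -/
def GAUSS : Prop := ∃ (m : ℕ) (Λ γ h d0 B : ℝ), 0 < m ∧ 0 < γ ∧ γ ≤ 1 ∧ 0 < d0 ∧ d0 ≤ h ∧ d0 ≤ 1 ∧
  1 ≤ B ∧ B + γ ≤ Λ ∧ (m : ℝ) * h = 2 * Λ ∧
  (∑ l : Fin m, μG.real (Set.Ico (-Λ + l * h - γ) (-Λ + l * h - γ + h)) /
      μG.real (Set.Ico (-Λ + l * h) (-Λ + l * h + d0))) * (h ^ 2 + ((m : ℝ) + 1) * d0 ^ 2)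
    + (4 * (1 - ∫ t, psi B t ∂μG) + ((m : ℝ) + 1) * d0 ^ 2) / μG.real (Set.Ico 0 d0) < γ ^ 2

/-- STEP: universal relative gain. -/
def STEP : Prop := ∃ η : ℝ, 0 < η ∧ ∀ ρ : ℝ, 0 < ρ → Ach ρ → Ach ((1 + η) * ρ)

/-- SIGNP: sign of the sum of many copies (finite probability part). -/
def SIGNP : Prop := ∀ {T : Type} [Fintype T] [DecidableEq T] (p y : T → ℝ) (d : T → ℕ) (C : ℝ),
  0 < C → (∀ τ, 0 ≤ p τ) → ∑ τ, p τ = 1 → ∑ τ, p τ * y τ = 0 → 0 < ∑ τ, p τ * y τ ^ 2 →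
  (∀ τ, 1 ≤ d τ) → 16 * C ^ 2 * ∑ τ, p τ * (d τ : ℝ) ≤ ∑ τ, p τ * y τ ^ 2 →
  ∃ (R B : ℕ) (A : Finset (Fin R → T)), (∀ τ ∈ A, ∑ r, d (τ r) ≤ B) ∧
    C * √B < 2 * ∑ τ ∈ A, (∏ r, p (τ r)) * ∑ r, y (τ r)

/-- SIGNC: the Boolean function from a realised partition and a set of cheap cells. -/
def SIGNC : Prop := ∀ {T : Type} [Fintype T] [DecidableEq T] (p y : T → ℝ) (d : T → ℕ) (C : ℝ) (B : ℕ)
  (A : Finset T), 0 < C → Rlz p y d → (∀ τ ∈ A, d τ ≤ B) → C * √B < 2 * ∑ τ ∈ A, p τ * y τ → Concl C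

end Spec

end Crest.GS
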