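import Crest.Agent.GSDefs

set_option autoImplicit false

/-! Module DEG of row 63: algebra of degrees. -/

namespace Crest.Agent.GSDEG

open Finset Crest.GS

variable {ι κ : Type}

theorem one_le_V1 : (1 : Submodule ℝ ((ι → Bool) → ℝ)) ≤ V1 ι := by
  rw [Submodule.one_le]
  exact Submodule.subset_span (Set.mem_insert _ _)

theorem deg_mono {a b : ℕ} (h : a ≤ b) : Deg ι a ≤ Deg ι b :=
  pow_le_pow_right' one_le_V1 h

theorem one_mem (d : ℕ) : (1 : (ι → Bool) → ℝ) ∈ Deg ι d := by
  have h : (1 : (ι → Bool) → ℝ) ∈ Deg ι 0 := by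
    unfold Deg
    rw [pow_zero]
    exact Submodule.one_le.mp le_rfl
  exact deg_mono (Nat.zero_le d) h

theorem mul_mem {a b : ℕ} {f g : (ι → Bool) → ℝ} (hf : f ∈ Deg ι a) (hg : g ∈ Deg ι b) :
    f * g ∈ Deg ι (a + b) := by
  unfold Deg at *
  rw [pow_add]
  exact Submodule.mul_mem_mul hf hg

theorem prod_mem {J : Type} (s : Finset J) (a : J → ℕ) (f : J → (ι → Bool) → ℝ)
    (h : ∀ j ∈ s, f j ∈ Deg ι (a j)) : ∏ j ∈ s, f j ∈ Deg ι (∑ j ∈ s, a j) := by
  classical
  induction s using Finset.induction_on with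
  | empty => simpa using one_mem 0
  | insert j s hj ih =>
    rw [Finset.prod_insert hj, Finset.sum_insert hj]
    exact mul_mem (h j (Finset.mem_insert_self j s))
      (ih fun k hk => h k (Finset.mem_insert_of_mem hk))

theorem coord_mem (i : ι) : (fun x : ι → Bool => sg (x i)) ∈ Deg ι 1 := by
  unfold Deg
  rw [pow_one]
  exact Submodule.subset_span (Set.mem_insert_of_mem _ ⟨i, rfl⟩)

/-- pull-back along a map of coordinates -/
def pb (e : ι → κ) : ((ι → Bool) → ℝ) →ₐ[ℝ] ((κ → Bool) → ℝ) where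
  toFun f := fun x => f (fun i => x (e i))
  map_one' := rfl
  map_mul' _ _ := rfl
  map_zero' := rfl
  map_add' _ _ := rfl
  commutes' _ := rfl

theorem pull (e : ι → κ) (d : ℕ) (f : (ι → Bool) → ℝ) (hf : f ∈ Deg ι d) :
    (fun x : κ → Bool => f (fun i => x (e i))) ∈ Deg κ d := by
  have h1 : pb e f ∈ (Deg ι d).map (pb e).toLinearMap := ⟨f, hf, rfl⟩
  have h2 : (Deg ι d).map (pb e).toLinearMap ≤ Deg κ d := by
    unfold Deg
    rw [Submodule.map_pow]
    apply pow_le_pow_left'
    unfold V1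
    rw [Submodule.map_span, Submodule.span_le]
    rintro g ⟨f, hf, rfl⟩
    rcases hf with rfl | ⟨i, rfl⟩
    · exact Submodule.subset_span (Set.mem_insert _ _)
    · exact Submodule.subset_span (Set.mem_insert_of_mem _ ⟨e i, rfl⟩)
  exact h2 h1

theorem main : Crest.GS.Spec.DEG where
  one_mem := fun _ d => one_mem d
  mono := fun _ _ _ h => deg_mono h
  mul_mem := fun _ _ _ _ _ hf hg => mul_mem hf hg
  prod_mem := fun _ _ s a f h => prod_mem s a f h
  coord_mem := fun _ i => coord_mem i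
  pull := fun _ _ e d f hf => pull e d f hf

end Crest.Agent.GSDEG
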