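import Crest.Agent.GSDefs

/-!
Row 63 (S0085): END.  From BASE, STEP, PROD, SIGNP, SIGNC to the conclusion.
-/

set_option autoImplicit false

namespace Crest.Agent.GSEND

open Finset Crest.GS Filter Topology

theorem main (hB : Spec.BASE) (hS : Spec.STEP) (hP : Spec.PROD) (hSP : Spec.SIGNP)
    (hSC : Spec.SIGNC) : ∀ C : ℝ, 0 < C → Concl C := by
  intro C hC
  obtain ⟨η, hη, hstep⟩ := hS
  have hach : ∀ k : ℕ, Ach ((1 + η) ^ k) := by
    intro k
    induction k with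
    | zero => simpa using hB.ach_one
    | succ k ih =>
      have h := hstep ((1 + η) ^ k) (by positivity) ih
      rw [pow_succ']
      exact h
  obtain ⟨k, hk⟩ := pow_unbounded_of_one_lt (16 * C ^ 2) (show (1 : ℝ) < 1 + η by linarith)
  obtain ⟨T, _, _, p, y, d, hR, hd, hv, hle⟩ := hach k
  have hp : ∀ τ, 0 ≤ p τ := hB.nonneg p y d hR
  have hc : 0 ≤ ∑ τ, p τ * (d τ : ℝ) :=
    Finset.sum_nonneg fun τ _ => mul_nonneg (hp τ) (Nat.cast_nonneg _)
  have h16 : 16 * C ^ 2 * ∑ τ, p τ * (d τ : ℝ) ≤ ∑ τ, p τ * y τ ^ 2 :=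
    le_trans (mul_le_mul_of_nonneg_right hk.le hc) hle
  obtain ⟨R, B, A, hA, hlt⟩ := hSP p y d C hC hp (hB.sum_one p y d hR) (hB.mean_zero p y d hR) hv hd h16
  exact hSC (fun τ : Fin R → T => ∏ j, p (τ j)) (fun τ => ∑ j, y (τ j)) (fun τ => ∑ j, d (τ j))
    C B A hC (hP p y d (Fin R) hR) hA hlt

end Crest.Agent.GSEND
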