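import Crest.Agent.GSDefs

set_option autoImplicit false

/-! Module EXPR of row 63: expectation of a product over blocks. -/

namespace Crest.Agent.GSExpr

open Finset Crest.GS

theorem main : Spec.EXPR := by
  intro J ι _ _ _ _ f
  unfold Ex
  rw [Finset.prod_div_distrib]
  congr 1
  · rw [Finset.prod_univ_sum, Fintype.piFinset_univ]
    apply Fintype.sum_equiv (Equiv.curry J ι Bool)
    intro x
    rfl
  · rw [Finset.prod_const, Finset.card_univ, Fintype.card_prod, ← pow_mul, mul_comm]

end Crest.Agent.GSExpr
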