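import Crest.Agent.GSDefs

set_option autoImplicit false

/-! Module FOUR of row 63: Fourier coefficients above the degree vanish. -/

namespace Crest.Agent.GSFOUR

open Finset Crest.GS

variable {ι : Type} [Fintype ι] [DecidableEq ι]

theorem sg_mul_self (b : Bool) : sg b * sg b = 1 := by
  cases b <;> simp [sg]

/-- sum of a character over the cube -/
theorem sum_char (S : Finset ι) (hS : S.Nonempty) :
    ∑ x : ι → Bool, ∏ i ∈ S, sg (x i) = 0 := by
  obtain ⟨i₀, hi₀⟩ := hS
  have h1 : ∀ x : ι → Bool, ∏ i ∈ S, sg (x i) = ∏ i, (if i ∈ S then sg (x i) else 1) := by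
    intro x
    rw [Finset.prod_ite_mem, Finset.univ_inter]
  rw [Finset.sum_congr rfl fun x _ => h1 x]
  have h2 := Finset.prod_univ_sum (fun _ : ι => (Finset.univ : Finset Bool))
    (fun i b => if i ∈ S then sg b else 1)
  rw [Fintype.piFinset_univ] at h2
  rw [← h2]
  apply Finset.prod_eq_zero (Finset.mem_univ i₀)
  simp [hi₀, sg]

theorem coord_mul_char (i : ι) (S : Finset ι) : ∃ S' : Finset ι, S.card ≤ S'.card + 1 ∧
    ∀ x : ι → Bool, sg (x i) * ∏ j ∈ S, sg (x j) = ∏ j ∈ S', sg (x j) := by
  by_cases hi : i ∈ S
  · refine ⟨S.erase i, ?_, ?_⟩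
    · rw [Finset.card_erase_of_mem hi]; omega
    · intro x
      rw [← Finset.mul_prod_erase S _ hi, ← mul_assoc, sg_mul_self, one_mul]
  · refine ⟨insert i S, ?_, ?_⟩
    · rw [Finset.card_insert_of_notMem hi]; omega
    · intro x
      rw [Finset.prod_insert hi]

/-- functions orthogonal to the characters above level `d` -/
def W (ι : Type) [Fintype ι] [DecidableEq ι] (d : ℕ) : Submodule ℝ ((ι → Bool) → ℝ) where
  carrier := {f | ∀ S : Finset ι, d < S.card → ∑ x : ι → Bool, f x * ∏ i ∈ S, sg (x i) = 0}
  add_mem' := by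
    intro f g hf hg S hS
    have := hf S hS
    have := hg S hS
    simp only [Pi.add_apply, add_mul, Finset.sum_add_distrib]
    linarith
  zero_mem' := by
    intro S _
    simp
  smul_mem' := by
    intro c f hf S hS
    have h := hf S hS
    simp only [Pi.smul_apply, smul_eq_mul, mul_assoc, ← Finset.mul_sum]
    rw [h, mul_zero]

theorem deg_le (d : ℕ) : Deg ι d ≤ W ι d := by
  induction d with
  | zero =>
    unfold Deg
    rw [pow_zero, Submodule.one_le]
    intro S hS
    simp only [Pi.one_apply, one_mul]
    exact sum_char S (Finset.card_pos.mp hS)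
  | succ d ih =>
    unfold Deg at *
    rw [pow_succ, Submodule.mul_le]
    intro f hf g hg
    have hf' := ih hf
    unfold V1 at hg
    induction hg using Submodule.span_induction with
    | mem g hg =>
      rcases hg with rfl | ⟨i, rfl⟩
      · rw [mul_one]
        intro S hS
        exact hf' S (by omega)
      · intro S hS
        obtain ⟨S', hS', h⟩ := coord_mul_char i S
        have h1 : ∀ x : ι → Bool, (f * fun x : ι → Bool => sg (x i)) x * ∏ j ∈ S, sg (x j) =
            f x * ∏ j ∈ S', sg (x j) := by
          intro x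
          rw [Pi.mul_apply, mul_assoc, h x]
        rw [Finset.sum_congr rfl fun x _ => h1 x]
        exact hf' S' (by omega)
    | zero => rw [mul_zero]; exact Submodule.zero_mem _
    | add a b _ _ ha hb => rw [mul_add]; exact Submodule.add_mem _ ha hb
    | smul c a _ ha => rw [mul_smul_comm]; exact Submodule.smul_mem _ _ ha

theorem main : Crest.GS.Spec.FOUR := by
  intro ι _ _ d f hf S hS
  exact deg_le d hf S hS

end Crest.Agent.GSFOUR
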