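import Crest.Agent.GSProd

set_option autoImplicit false

/-! Module GADG of row 63: the gadget partition is realised. -/

namespace Crest.Agent.GSGadg

open Finset Crest.GS Crest.Agent.GSProd

variable {T L : Type} [Fintype T] [DecidableEq T] [Fintype L] [DecidableEq L]

/-- the new cell map -/
def nc {ι : Type} (sel : T → L) (I : L → Finset T) (c : (ι → Bool) → T) :
    (Option L × ι → Bool) → Option (Option L → T) :=
  fun x => if pc (Option L) c x ∈ EE sel I then none else some (pc (Option L) c x)

/-- functional form of the indicator of `E` -/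
theorem ind_EE (sel : T → L) (I : L → Finset T) (τ : Option L → T) :
    (if τ ∈ EE sel I then (1 : ℝ) else 0) =
      ∑ l, (if sel (τ none) = l then (1:ℝ) else 0) *
        ∏ k ∈ univ.erase l, (if τ (some k) ∈ I k then (1:ℝ) else 0)
      - ∏ k, (if τ (some k) ∈ I k then (1:ℝ) else 0) := by
  set l0 := sel (τ none) with hl0
  have h1 : ∑ l, (if l0 = l then (1:ℝ) else 0) *
        ∏ k ∈ univ.erase l, (if τ (some k) ∈ I k then (1:ℝ) else 0) =
        ∏ k ∈ univ.erase l0, (if τ (some k) ∈ I k then (1:ℝ) else 0) := by
    simp only [ite_mul, one_mul, zero_mul]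
    rw [Finset.sum_ite_eq]
    simp
  rw [h1, ← Finset.mul_prod_erase univ _ (mem_univ l0)]
  have hmem : τ ∈ EE sel I ↔ τ (some l0) ∉ I l0 ∧ ∀ k, k ≠ l0 → τ (some k) ∈ I k := by
    unfold EE
    rw [mem_filter]
    simp [← hl0]
  by_cases hA : τ (some l0) ∈ I l0
  · rw [if_neg (by rw [hmem]; tauto), if_pos hA]
    ring
  · rw [if_neg hA, zero_mul, sub_zero]
    by_cases hB : ∀ k, k ≠ l0 → τ (some k) ∈ I k
    · rw [if_pos (by rw [hmem]; exact ⟨hA, hB⟩)]
      symm
      apply Finset.prod_eq_one
      intro k hk
      rw [if_pos (hB k (Finset.ne_of_mem_erase hk))]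
    · rw [if_neg (by rw [hmem]; tauto)]
      symm
      push Not at hB
      obtain ⟨k, hk, hk2⟩ := hB
      apply Finset.prod_eq_zero (mem_erase.mpr ⟨hk, mem_univ k⟩)
      rw [if_neg hk2]

theorem deg_EE {ι : Type} (hD : Spec.DEG) (sel : T → L) (star : L) (I : L → Finset T) (D : ℕ)
    (c : (ι → Bool) → T) (d : T → ℕ)
    (hd : ∀ τ, (fun x => if c x = τ then (1:ℝ) else 0) ∈ Deg ι (d τ))
    (hsel : ∀ τ, sel τ ≠ star → d τ ≤ D) (hI : ∀ l, ∀ τ ∈ I l, d τ ≤ D) :
    (fun x : Option L × ι → Bool => if pc (Option L) c x ∈ EE sel I then (1:ℝ) else 0) ∈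
      Deg (Option L × ι) (Fintype.card L * D) := by
  -- indicators of sets of cheap cells in one slot
  have hset : ∀ (j : Option L) (s : Finset T), (∀ τ ∈ s, d τ ≤ D) →
      (fun x : Option L × ι → Bool => if pc (Option L) c x j ∈ s then (1:ℝ) else 0) ∈
        Deg (Option L × ι) D := by
    intro j s hs
    have h1 : (fun x : Option L × ι → Bool => if pc (Option L) c x j ∈ s then (1:ℝ) else 0) =
        ∑ τ ∈ s, (fun x : Option L × ι → Bool =>
          if c (fun i => x (j, i)) = τ then (1:ℝ) else 0) := by
      funext x
      rw [Finset.sum_apply]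
      rw [Finset.sum_ite_eq]
      rfl
    rw [h1]
    apply Submodule.sum_mem
    intro τ hτ
    exact hD.mono _ _ _ (hs τ hτ)
      (hD.pull ι (Option L × ι) (fun i => (j, i)) (d τ) _ (hd τ))
  have hselI : ∀ l, (fun x : Option L × ι → Bool =>
      if sel (pc (Option L) c x none) = l then (1:ℝ) else 0) ∈ Deg (Option L × ι) D := by
    have hne : ∀ l, l ≠ star → (fun x : Option L × ι → Bool =>
        if sel (pc (Option L) c x none) = l then (1:ℝ) else 0) ∈ Deg (Option L × ι) D := by
      intro l hl
      have h1 := hset none (univ.filter fun τ => sel τ = l) (by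
        intro τ hτ
        rw [mem_filter] at hτ
        exact hsel τ (by rw [hτ.2]; exact hl))
      have h2 : (fun x : Option L × ι → Bool =>
          if pc (Option L) c x none ∈ univ.filter (fun τ => sel τ = l) then (1:ℝ) else 0) =
          (fun x : Option L × ι → Bool =>
            if sel (pc (Option L) c x none) = l then (1:ℝ) else 0) := by
        funext x
        simp [mem_filter]
      rw [h2] at h1
      exact h1
    intro l
    by_cases hl : l = star
    · subst hl
      have h1 : (fun x : Option L × ι → Bool =>
          if sel (pc (Option L) c x none) = l then (1:ℝ) else 0) =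
          1 - ∑ l' ∈ univ.erase l, (fun x : Option L × ι → Bool =>
            if sel (pc (Option L) c x none) = l' then (1:ℝ) else 0) := by
        funext x
        rw [Pi.sub_apply, Finset.sum_apply, Pi.one_apply]
        have h2 : ∑ l', (if sel (pc (Option L) c x none) = l' then (1:ℝ) else 0) = 1 := by
          rw [Finset.sum_ite_eq]; simp
        rw [← Finset.add_sum_erase univ _ (mem_univ l)] at h2
        linarith
      rw [h1]
      apply Submodule.sub_mem _ (hD.one_mem _ _)
      apply Submodule.sum_mem
      intro l' hl'
      exact hne l' (Finset.ne_of_mem_erase hl')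
    · exact hne l hl
  have hfun : (fun x : Option L × ι → Bool => if pc (Option L) c x ∈ EE sel I then (1:ℝ) else 0) =
      ∑ l, (fun x : Option L × ι → Bool =>
          if sel (pc (Option L) c x none) = l then (1:ℝ) else 0) *
        ∏ k ∈ univ.erase l, (fun x : Option L × ι → Bool =>
          if pc (Option L) c x (some k) ∈ I k then (1:ℝ) else 0)
      - ∏ k, (fun x : Option L × ι → Bool =>
          if pc (Option L) c x (some k) ∈ I k then (1:ℝ) else 0) := by
    funext x
    rw [ind_EE]
    simp only [Pi.sub_apply, Finset.sum_apply, Pi.mul_apply, Finset.prod_apply]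
  rw [hfun]
  apply Submodule.sub_mem
  · apply Submodule.sum_mem
    intro l _
    have h1 := hD.prod_mem (Option L × ι) L (univ.erase l) (fun _ => D)
      (fun k => fun x : Option L × ι → Bool =>
          if pc (Option L) c x (some k) ∈ I k then (1:ℝ) else 0)
      (fun k _ => hset (some k) (I k) (hI k))
    have h2 := hD.mul_mem _ _ _ _ _ (hselI l) h1
    have h3 : D + ∑ _k ∈ univ.erase l, D = Fintype.card L * D := by
      rw [Finset.sum_const, Finset.card_erase_of_mem (mem_univ l), Finset.card_univ, smul_eq_mul]
      have : 1 ≤ Fintype.card L := Fintype.card_pos_iff.mpr ⟨l⟩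
      obtain ⟨m, hm⟩ := Nat.exists_eq_add_of_le this
      rw [hm]
      simp
      ring
    rw [h3] at h2
    exact h2
  · have h1 := hD.prod_mem (Option L × ι) L univ (fun _ => D)
      (fun k => fun x : Option L × ι → Bool =>
          if pc (Option L) c x (some k) ∈ I k then (1:ℝ) else 0)
      (fun k _ => hset (some k) (I k) (hI k))
    rw [Finset.sum_const, Finset.card_univ, smul_eq_mul] at h1
    exact h1

theorem main (hD : Spec.DEG) (hX : Spec.EXPR) : Spec.GADG := by
  intro T L _ _ _ _ p y d sel star I D h hsel hI
  obtain ⟨ι, i1, i2, c, hp, hy, hd⟩ := h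
  have hp0 : ∀ τ, 0 ≤ p τ := fun τ => by
    rw [← hp τ]
    exact Ex_nonneg _ (fun x => by split_ifs <;> norm_num)
  refine ⟨Option L × ι, inferInstance, inferInstance, nc sel I c, ?_, ?_, ?_⟩
  · intro o
    cases o with
    | none =>
      have h1 : (fun x => if nc sel I c x = none then (1:ℝ) else 0) =
          fun x => ∑ τ ∈ EE sel I, if pc (Option L) c x = τ then (1:ℝ) else 0 := by
        funext x
        rw [Finset.sum_ite_eq]
        unfold nc
        by_cases hx : pc (Option L) c x ∈ EE sel I <;> simp [hx]
      rw [h1, Ex_sum]
      show _ = PE p sel I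
      unfold PE
      apply Finset.sum_congr rfl
      intro τ _
      exact ex_ind hX c p hp τ
    | some τ =>
      show _ = if τ ∈ EE sel I then 0 else ∏ j, p (τ j)
      by_cases hτ : τ ∈ EE sel I
      · rw [if_pos hτ]
        have h1 : (fun x => if nc sel I c x = some τ then (1:ℝ) else 0) = fun _ => 0 := by
          funext x
          unfold nc
          by_cases hx : pc (Option L) c x ∈ EE sel I
          · simp [hx]
          · rw [if_neg hx, if_neg]
            intro h2
            rw [Option.some.injEq] at h2
            rw [h2] at hx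
            exact hx hτ
        rw [h1, Ex_zero]
      · rw [if_neg hτ, ← ex_ind hX c p hp τ]
        congr 1
        funext x
        unfold nc
        by_cases hx : pc (Option L) c x ∈ EE sel I
        · have : pc (Option L) c x ≠ τ := by
            intro h2; rw [h2] at hx; exact hτ hx
          simp [hx, this]
        · simp [hx]
  · intro o
    cases o with
    | none =>
      have h1 : (fun x => if nc sel I c x = none then SS x else 0) =
          fun x => ∑ τ ∈ EE sel I, if pc (Option L) c x = τ then SS x else 0 := by
        funext x
        rw [Finset.sum_ite_eq]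
        unfold nc
        by_cases hx : pc (Option L) c x ∈ EE sel I <;> simp [hx]
      rw [h1, Ex_sum]
      have h2 : ∑ τ ∈ EE sel I, Ex (fun x => if pc (Option L) c x = τ then SS x else 0) =
          ∑ τ ∈ EE sel I, (∏ j, p (τ j)) * ∑ j, y (τ j) := by
        apply Finset.sum_congr rfl
        intro τ _
        exact ex_ss hX c p y hp hy τ
      rw [h2]
      show _ = PE p sel I * ((∑ τ ∈ EE sel I, (∏ j, p (τ j)) * ∑ j, y (τ j)) / PE p sel I)
      by_cases hPE : PE p sel I = 0
      · rw [hPE, zero_mul]
        unfold PE at hPE
        rw [Finset.sum_eq_zero_iff_of_nonneg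
          (fun τ _ => Finset.prod_nonneg fun j _ => hp0 (τ j))] at hPE
        apply Finset.sum_eq_zero
        intro τ hτ
        rw [hPE τ hτ, zero_mul]
      · rw [mul_div_cancel₀ _ hPE]
    | some τ =>
      show _ = (if τ ∈ EE sel I then 0 else ∏ j, p (τ j)) * ∑ j, y (τ j)
      by_cases hτ : τ ∈ EE sel I
      · rw [if_pos hτ, zero_mul]
        have h1 : (fun x : Option L × ι → Bool => if nc sel I c x = some τ then SS x else 0) =
            fun _ => 0 := by
          funext x
          unfold nc
          by_cases hx : pc (Option L) c x ∈ EE sel I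
          · simp [hx]
          · rw [if_neg hx, if_neg]
            intro h2
            rw [Option.some.injEq] at h2
            rw [h2] at hx
            exact hx hτ
        rw [h1, Ex_zero]
      · rw [if_neg hτ, ← ex_ss hX c p y hp hy τ]
        congr 1
        funext x
        unfold nc
        by_cases hx : pc (Option L) c x ∈ EE sel I
        · have : pc (Option L) c x ≠ τ := by
            intro h2; rw [h2] at hx; exact hτ hx
          simp [hx, this]
        · simp [hx]
  · intro o
    cases o with
    | none =>
      show _ ∈ Deg (Option L × ι) (Fintype.card L * D)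
      have h1 : (fun x => if nc sel I c x = none then (1:ℝ) else 0) =
          fun x => if pc (Option L) c x ∈ EE sel I then (1:ℝ) else 0 := by
        funext x
        unfold nc
        by_cases hx : pc (Option L) c x ∈ EE sel I <;> simp [hx]
      rw [h1]
      exact deg_EE hD sel star I D c d hd hsel hI
    | some τ =>
      show _ ∈ Deg (Option L × ι) (∑ j, d (τ j))
      by_cases hτ : τ ∈ EE sel I
      · have h1 : (fun x => if nc sel I c x = some τ then (1:ℝ) else 0) = 0 := by
          funext x
          rw [Pi.zero_apply]
          unfold nc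
          by_cases hx : pc (Option L) c x ∈ EE sel I
          · simp [hx]
          · rw [if_neg hx, if_neg]
            intro h2
            rw [Option.some.injEq] at h2
            rw [h2] at hx
            exact hx hτ
        rw [h1]
        exact Submodule.zero_mem _
      · have h1 : (fun x => if nc sel I c x = some τ then (1:ℝ) else 0) =
            fun x => if pc (Option L) c x = τ then (1:ℝ) else 0 := by
          funext x
          unfold nc
          by_cases hx : pc (Option L) c x ∈ EE sel I
          · have : pc (Option L) c x ≠ τ := by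
              intro h2; rw [h2] at hx; exact hτ hx
            simp [hx, this]
          · simp [hx]
        rw [h1]
        exact deg_ind hD c d hd τ

end Crest.Agent.GSGadg
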