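import Mathlib
import Crest.Agent.GSDefs

set_option autoImplicit false

namespace Crest.Agent.GSGauss

open Finset MeasureTheory ProbabilityTheory Filter Topology Crest.GS

instance : IsProbabilityMeasure μG := by unfold μG; infer_instance

/-- the Gaussian density -/
noncomputable def gd0 (x : ℝ) : ℝ := gaussianPDFReal 0 1 x

lemma gd0_eq (x : ℝ) : gd0 x = (√(2 * Real.pi))⁻¹ * Real.exp (-x ^ 2 / 2) := by
  unfold gd0
  rw [gaussianPDFReal_def]
  simp

lemma real_Ico (a b : ℝ) : μG.real (Set.Ico a b) = ∫ x in Set.Ico a b, gd0 x := by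
  have h : μG (Set.Ico a b) = ENNReal.ofReal (∫ x in Set.Ico a b, gaussianPDFReal 0 1 x) := by
    unfold μG
    exact gaussianReal_apply_eq_integral 0 one_ne_zero _
  rw [measureReal_def, h, ENNReal.toReal_ofReal]
  · rfl
  · exact integral_nonneg fun x => gaussianPDFReal_nonneg _ _ _

lemma integrable_gd0 : Integrable gd0 := integrable_gaussianPDFReal 0 1

lemma le_real_Ico {a b L : ℝ} (hab : a ≤ b) (h : ∀ x ∈ Set.Ico a b, L ≤ gd0 x) :
    (b - a) * L ≤ μG.real (Set.Ico a b) := by
  rw [real_Ico]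
  have h1 : ∫ x in Set.Ico a b, L = (b - a) * L := by
    rw [setIntegral_const, measureReal_def, Real.volume_Ico, ENNReal.toReal_ofReal (by linarith)]
    simp
  rw [← h1]
  apply setIntegral_mono_on
  · exact integrableOn_const (by simp [Real.volume_Ico])
  · exact integrable_gd0.integrableOn
  · exact measurableSet_Ico
  · exact h

lemma real_Ico_le {a b U : ℝ} (hab : a ≤ b) (h : ∀ x ∈ Set.Ico a b, gd0 x ≤ U) :
    μG.real (Set.Ico a b) ≤ (b - a) * U := by
  rw [real_Ico]
  have h1 : ∫ x in Set.Ico a b, U = (b - a) * U := by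
    rw [setIntegral_const, measureReal_def, Real.volume_Ico, ENNReal.toReal_ofReal (by linarith)]
    simp
  rw [← h1]
  apply setIntegral_mono_on
  · exact integrable_gd0.integrableOn
  · exact integrableOn_const (by simp [Real.volume_Ico])
  · exact measurableSet_Ico
  · exact h

/-- ratio of two nearby intervals -/
lemma ratio_le {N γ h d0 x0 : ℝ} (hN : 1 ≤ N) (hγ : γ = 1 / N) (hh : 0 < h) (hhγ : h ≤ γ)
    (hd : 0 < d0) (hdN : N * d0 + d0 ^ 2 ≤ 1) (hx : |x0| ≤ N) :
    μG.real (Set.Ico (x0 - γ) (x0 - γ + h)) / μG.real (Set.Ico x0 (x0 + d0)) ≤ 8 * (h / d0) := by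
  have hN0 : 0 < N := by linarith
  have hγ0 : 0 < γ := by rw [hγ]; positivity
  have hNγ : N * γ = 1 := by rw [hγ]; field_simp
  set c : ℝ := (√(2 * Real.pi))⁻¹ * Real.exp (-x0 ^ 2 / 2) with hc
  have hc0 : 0 < c := by positivity
  have hx1 := (abs_le.1 hx).1
  have hx2 := (abs_le.1 hx).2
  have hu : μG.real (Set.Ico (x0 - γ) (x0 - γ + h)) ≤ h * (c * Real.exp 1) := by
    have := real_Ico_le (a := x0 - γ) (b := x0 - γ + h) (U := c * Real.exp 1) (by linarith) (by
      intro x hx'
      obtain ⟨e1, e2⟩ := hx'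
      rw [gd0_eq, hc, mul_assoc, ← Real.exp_add]
      apply mul_le_mul_of_nonneg_left _ (by positivity)
      apply Real.exp_le_exp.2
      have he : |x - x0| ≤ γ := abs_le.2 ⟨by linarith, by linarith⟩
      have h3 : |x0 * (x - x0)| ≤ N * γ := by
        rw [abs_mul]; exact mul_le_mul hx he (abs_nonneg _) (by linarith)
      have h4 := (abs_le.1 h3).1
      nlinarith [sq_nonneg (x - x0)])
    calc _ ≤ _ := this
      _ = _ := by ring
  have hl : d0 * (c * Real.exp (-1)) ≤ μG.real (Set.Ico x0 (x0 + d0)) := by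
    have := le_real_Ico (a := x0) (b := x0 + d0) (L := c * Real.exp (-1)) (by linarith) (by
      intro x hx'
      obtain ⟨e1, e2⟩ := hx'
      rw [gd0_eq, hc, mul_assoc, ← Real.exp_add]
      apply mul_le_mul_of_nonneg_left _ (by positivity)
      apply Real.exp_le_exp.2
      have he0 : 0 ≤ x - x0 := by linarith
      have he : x - x0 ≤ d0 := by linarith
      have h3 : x0 * (x - x0) ≤ N * d0 := by
        calc x0 * (x - x0) ≤ N * (x - x0) := by nlinarith
          _ ≤ N * d0 := by nlinarith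
      have h5 : (x - x0) ^ 2 ≤ d0 ^ 2 := by nlinarith
      nlinarith)
    calc _ = (x0 + d0 - x0) * (c * Real.exp (-1)) := by ring
      _ ≤ _ := this
  have hpos : 0 < μG.real (Set.Ico x0 (x0 + d0)) := lt_of_lt_of_le (by positivity) hl
  rw [div_le_iff₀ hpos]
  have he : Real.exp 1 ≤ 8 * Real.exp (-1) := by
    have h1 := Real.exp_one_lt_d9
    have h2 : Real.exp 1 * Real.exp (-1) = 1 := by rw [← Real.exp_add]; simp
    have h3 : 0 < Real.exp (-1) := Real.exp_pos _
    have h4 : 0 < Real.exp 1 := Real.exp_pos _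
    nlinarith [mul_pos h4 h3]
  calc μG.real (Set.Ico (x0 - γ) (x0 - γ + h)) ≤ h * (c * Real.exp 1) := hu
    _ ≤ h * (c * (8 * Real.exp (-1))) := by gcongr
    _ = 8 * (h / d0) * (d0 * (c * Real.exp (-1))) := by field_simp
    _ ≤ _ := by gcongr

lemma star_ge {d0 : ℝ} (hd : 0 < d0) (hd1 : d0 ≤ 1) :
    d0 / 16 ≤ μG.real (Set.Ico 0 d0) := by
  have := le_real_Ico (a := 0) (b := d0) (L := 1 / 16) hd.le (by
    intro x hx'
    obtain ⟨e1, e2⟩ := hx'
    rw [gd0_eq]
    have h1 : √(2 * Real.pi) ≤ 3 := by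
      rw [Real.sqrt_le_left (by norm_num)]
      nlinarith [Real.pi_le_four]
    have h2 : (1 : ℝ) / 3 ≤ (√(2 * Real.pi))⁻¹ := by
      rw [one_div]
      exact inv_anti₀ (by positivity) h1
    have h3 : Real.exp (-1) ≤ Real.exp (-x ^ 2 / 2) := Real.exp_le_exp.2 (by nlinarith)
    have h4 : (1 : ℝ) / 3 ≤ Real.exp (-1) := by
      have h5 := Real.exp_one_lt_d9
      have h6 : Real.exp 1 * Real.exp (-1) = 1 := by rw [← Real.exp_add]; simp
      have h7 : 0 < Real.exp (-1) := Real.exp_pos _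
      nlinarith
    calc (1 : ℝ) / 16 ≤ 1 / 3 * (1 / 3) := by norm_num
      _ ≤ _ := mul_le_mul h2 (h4.trans h3) (by norm_num) (by positivity))
  calc d0 / 16 = (d0 - 0) * (1 / 16) := by ring
    _ ≤ _ := this

/-- cut-off second moment -/
lemma psi_bound : ∃ K : ℝ, 0 ≤ K ∧ ∀ B : ℝ, 1 < B →
    1 - ∫ t, psi B t ∂μG ≤ K / (B - 1) ^ 18 := by
  have hI (k : ℕ) : Integrable (fun x : ℝ => ‖x‖ ^ k) μG := by
    have h := (memLp_id_gaussianReal (μ := 0) (v := 1) (k : NNReal))
    have := MemLp.integrable_norm_pow' (p := k) (f := id) (μ := μG) (by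
      unfold μG
      exact_mod_cast h)
    simpa using this
  have hI2 : Integrable (fun x : ℝ => x ^ 2) μG := by
    have := hI 2
    simpa using this
  have hI20 : Integrable (fun x : ℝ => x ^ 20) μG := by
    have := hI 20
    refine this.congr (ae_of_all _ fun x => ?_)
    simp only [Real.norm_eq_abs]
    exact Even.pow_abs (by decide) x
  have h1 : ∫ x, x ^ 2 ∂μG = 1 := by
    have h2 : Var[fun x : ℝ => x; gaussianReal 0 1] = ((1 : NNReal) : ℝ) := variance_fun_id_gaussianReal
    have h3 : ∫ x : ℝ, x ∂(gaussianReal 0 1) = 0 := integral_id_gaussianReal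
    rw [variance_eq_integral (by fun_prop)] at h2
    rw [h3] at h2
    simpa [μG] using h2
  refine ⟨∫ x, x ^ 20 ∂μG, integral_nonneg fun x => by positivity, ?_⟩
  intro B hB
  have hB0 : 0 < B - 1 := by linarith
  have hcont : Continuous (psi B) := by unfold psi; fun_prop
  have hpI : Integrable (psi B) μG := by
    refine Integrable.mono' hI2 hcont.aestronglyMeasurable (ae_of_all _ fun x => ?_)
    unfold psi
    rw [Real.norm_eq_abs, abs_mul, abs_of_nonneg (sq_nonneg x)]
    have h4 : |max 0 (min 1 (B - |x|))| ≤ 1 := by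
      rw [abs_of_nonneg (le_max_left _ _)]
      exact max_le (by norm_num) (min_le_left _ _)
    calc x ^ 2 * |max 0 (min 1 (B - |x|))| ≤ x ^ 2 * 1 := by gcongr
      _ = x ^ 2 := mul_one _
  have h8 : 1 - ∫ t, psi B t ∂μG = ∫ x, (x ^ 2 - psi B x) ∂μG := by
    rw [integral_sub hI2 hpI, h1]
  rw [h8, ← integral_div]
  apply integral_mono (hI2.sub hpI) (hI20.div_const _)
  intro x
  show x ^ 2 - psi B x ≤ x ^ 20 / (B - 1) ^ 18
  by_cases hx : |x| ≤ B - 1
  · have : psi B x = x ^ 2 := by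
      unfold psi
      rw [min_eq_left (by linarith), max_eq_right (by norm_num)]
      ring
    rw [this, sub_self]
    positivity
  · push Not at hx
    have h5 : 0 ≤ psi B x := by
      unfold psi
      have := le_max_left 0 (min 1 (B - |x|))
      positivity
    rw [le_div_iff₀ (by positivity)]
    have h6 : (B - 1) ^ 18 ≤ |x| ^ 18 := by gcongr
    have h7 : |x| ^ 18 = x ^ 18 := Even.pow_abs (by decide) x
    calc (x ^ 2 - psi B x) * (B - 1) ^ 18 ≤ x ^ 2 * (B - 1) ^ 18 := by
          gcongr; linarith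
      _ ≤ x ^ 2 * x ^ 18 := by rw [← h7]; gcongr
      _ = x ^ 20 := by ring

theorem main : Crest.GS.Spec.GAUSS := by
  obtain ⟨K, hK0, hK⟩ := psi_bound
  obtain ⟨n, hn⟩ := exists_nat_gt (200 + 2 * (64 * K * 2 ^ 18 + 48))
  set N : ℝ := (n : ℝ) with hN
  have hN200 : 200 < N := by
    have : 0 ≤ 64 * K * 2 ^ 18 := by positivity
    linarith
  have hN0 : 0 < N := by linarith
  have hn0 : 0 < n := by
    have : (0 : ℝ) < n := hN0
    exact_mod_cast this
  refine ⟨2 * n ^ 10, N, 1 / N, 1 / N ^ 9, 1 / N ^ 14, N - 1, by positivity, by positivity, ?_,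
    by positivity, ?_, ?_, by linarith, ?_, ?_, ?_⟩
  · rw [div_le_one hN0]; linarith
  · apply one_div_le_one_div_of_le (by positivity)
    exact pow_le_pow_right₀ (by linarith) (by norm_num)
  · rw [div_le_one (by positivity)]
    exact one_le_pow₀ (by linarith)
  · have : 1 / N ≤ 1 := by rw [div_le_one hN0]; linarith
    linarith
  · push_cast
    rw [← hN]
    field_simp
  · have hN1 : 1 ≤ N := by linarith
    have hpow (k : ℕ) : 1 ≤ N ^ k := one_le_pow₀ hN1
    set h : ℝ := 1 / N ^ 9 with hh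
    set d0 : ℝ := 1 / N ^ 14 with hd0
    have hh0 : 0 < h := by positivity
    have hd00 : 0 < d0 := by positivity
    have hd01 : d0 ≤ 1 := by rw [hd0, div_le_one (by positivity)]; exact hpow 14
    have hm : ((2 * n ^ 10 : ℕ) : ℝ) = 2 * N ^ 10 := by push_cast; rw [← hN]
    have hhd : h / d0 = N ^ 5 := by rw [hh, hd0]; field_simp
    have hmh : (2 * N ^ 10) * h = 2 * N := by rw [hh]; field_simp
    -- the sum
    have hsum : (∑ l : Fin (2 * n ^ 10), μG.real (Set.Ico (-N + l * h - 1 / N) (-N + l * h - 1 / N + h)) /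
      μG.real (Set.Ico (-N + l * h) (-N + l * h + d0))) ≤ 16 * N ^ 15 := by
      calc _ ≤ ∑ l : Fin (2 * n ^ 10), 8 * (h / d0) := by
            apply Finset.sum_le_sum
            intro l _
            apply ratio_le hN1 rfl hh0 _ hd00 _ _
            · rw [hh]
              apply one_div_le_one_div_of_le (by positivity)
              calc N = N ^ 1 := (pow_one N).symm
                _ ≤ N ^ 9 := pow_le_pow_right₀ hN1 (by norm_num)
            · have h1 : N * d0 ≤ 1 / 2 := by
                have : N * d0 = 1 / N ^ 13 := by rw [hd0]; field_simp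
                rw [this, div_le_div_iff₀ (by positivity) (by norm_num)]
                have : N ^ 1 ≤ N ^ 13 := pow_le_pow_right₀ hN1 (by norm_num)
                linarith
              have h2 : d0 ≤ N * d0 := by nlinarith
              nlinarith
            · have hl0 : (0 : ℝ) ≤ (l : ℝ) := by positivity
              have hl1 : (l : ℝ) ≤ 2 * N ^ 10 := by
                rw [← hm]
                exact_mod_cast l.2.le
              have h3 : 0 ≤ (l : ℝ) * h := by positivity
              have h4 : (l : ℝ) * h ≤ 2 * N := by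
                rw [← hmh]; gcongr
              exact abs_le.2 ⟨by linarith, by linarith⟩
        _ = 16 * N ^ 15 := by
            rw [Finset.sum_const, Finset.card_univ, Fintype.card_fin, nsmul_eq_mul, hm, hhd]
            ring
    have hfac : h ^ 2 + (((2 * n ^ 10 : ℕ) : ℝ) + 1) * d0 ^ 2 ≤ 4 / N ^ 18 := by
      rw [hm, hh, hd0]
      have h1 : (1 / N ^ 9) ^ 2 + (2 * N ^ 10 + 1) * (1 / N ^ 14) ^ 2 = (N ^ 10 + 2 * N ^ 10 + 1) / N ^ 28 := by
        field_simp
        try ring
      rw [h1, div_le_div_iff₀ (by positivity) (by positivity)]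
      have h2 := hpow 10
      have h3 : 0 < N ^ 18 := by positivity
      nlinarith
    have hfac0 : 0 ≤ h ^ 2 + (((2 * n ^ 10 : ℕ) : ℝ) + 1) * d0 ^ 2 := by positivity
    have hfirst : (∑ l : Fin (2 * n ^ 10), μG.real (Set.Ico (-N + l * h - 1 / N) (-N + l * h - 1 / N + h)) /
      μG.real (Set.Ico (-N + l * h) (-N + l * h + d0))) * (h ^ 2 + (((2 * n ^ 10 : ℕ) : ℝ) + 1) * d0 ^ 2)
        ≤ 64 / N ^ 3 := by
      calc _ ≤ 16 * N ^ 15 * (4 / N ^ 18) := mul_le_mul hsum hfac hfac0 (by positivity)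
        _ = 64 / N ^ 3 := by field_simp; norm_num
    have hd2 : (((2 * n ^ 10 : ℕ) : ℝ) + 1) * d0 ^ 2 ≤ 3 / N ^ 18 := by
      rw [hm, hd0]
      have h1 : (2 * N ^ 10 + 1) * (1 / N ^ 14) ^ 2 = (2 * N ^ 10 + 1) / N ^ 28 := by
        field_simp
      rw [h1, div_le_div_iff₀ (by positivity) (by positivity)]
      have h2 := hpow 10
      have h3 : 0 < N ^ 18 := by positivity
      nlinarith
    have hps : 1 - ∫ t, psi (N - 1) t ∂μG ≤ K * 2 ^ 18 / N ^ 18 := by
      refine (hK (N - 1) (by linarith)).trans ?_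
      rw [div_le_div_iff₀ (by apply pow_pos; linarith) (by positivity)]
      have h1 : N ^ 18 ≤ 2 ^ 18 * (N - 1 - 1) ^ 18 := by
        rw [← mul_pow]
        apply pow_le_pow_left₀ hN0.le
        linarith
      calc K * N ^ 18 ≤ K * (2 ^ 18 * (N - 1 - 1) ^ 18) := by gcongr
        _ = K * 2 ^ 18 * (N - 1 - 1) ^ 18 := by ring
    have hnum : 4 * (1 - ∫ t, psi (N - 1) t ∂μG) + (((2 * n ^ 10 : ℕ) : ℝ) + 1) * d0 ^ 2
        ≤ (4 * K * 2 ^ 18 + 3) / N ^ 18 := by
      calc _ ≤ 4 * (K * 2 ^ 18 / N ^ 18) + 3 / N ^ 18 := by linarith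
        _ = _ := by ring
    have hst := star_ge hd00 hd01
    have hst0 : 0 < μG.real (Set.Ico 0 d0) := lt_of_lt_of_le (by positivity) hst
    have hsecond : (4 * (1 - ∫ t, psi (N - 1) t ∂μG) + (((2 * n ^ 10 : ℕ) : ℝ) + 1) * d0 ^ 2) /
        μG.real (Set.Ico 0 d0) ≤ (64 * K * 2 ^ 18 + 48) / N ^ 4 := by
      rw [div_le_iff₀ hst0]
      calc _ ≤ (4 * K * 2 ^ 18 + 3) / N ^ 18 := hnum
        _ = (64 * K * 2 ^ 18 + 48) / N ^ 4 * (d0 / 16) := by
            rw [hd0]; field_simp; ring
        _ ≤ _ := by gcongr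
    set K' : ℝ := 64 * K * 2 ^ 18 + 48 with hK'
    have hK'0 : 0 ≤ K' := by positivity
    have hfin : 64 / N ^ 3 + K' / N ^ 4 < (1 / N) ^ 2 := by
      have h1 : 64 / N ^ 3 + K' / N ^ 4 = (64 * N + K') / N ^ 4 := by field_simp
      have h2 : (1 / N) ^ 2 = N ^ 2 / N ^ 4 := by field_simp
      rw [h1, h2]
      apply div_lt_div_of_pos_right _ (by positivity)
      nlinarith
    calc _ ≤ 64 / N ^ 3 + K' / N ^ 4 := add_le_add hfirst hsecond
      _ < _ := hfin

end Crest.Agent.GSGauss
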