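import Crest.Agent.GSDefs

set_option autoImplicit false

/-! Module LLN of row 63. -/

namespace Crest.Agent.GSLln

open Finset Crest.GS Filter Topology

variable {T : Type} [Fintype T] [DecidableEq T]

theorem prodsum {R : ℕ} (F : Fin R → T → ℝ) :
    ∑ τ : Fin R → T, ∏ k, F k (τ k) = ∏ k, ∑ t, F k t := by
  rw [Finset.prod_univ_sum, Fintype.piFinset_univ]

theorem cross {R : ℕ} (p g : T → ℝ) (hg : ∑ t, p t * g t = 0) (r s : Fin R) (hrs : r ≠ s) :
    ∑ τ : Fin R → T, (∏ k, p (τ k)) * (g (τ r) * g (τ s)) = 0 := by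
  have h1 : ∀ τ : Fin R → T, (∏ k, p (τ k)) * (g (τ r) * g (τ s)) =
      ∏ k, (fun (k : Fin R) (t : T) => p t * ((if k = r then g t else 1) *
        (if k = s then g t else 1))) k (τ k) := by
    intro τ
    rw [Finset.prod_mul_distrib, Finset.prod_mul_distrib]
    simp
  rw [Finset.sum_congr rfl (fun τ _ => h1 τ),
    prodsum (fun (k : Fin R) (t : T) => p t * ((if k = r then g t else 1) *
        (if k = s then g t else 1)))]
  apply Finset.prod_eq_zero (mem_univ r)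
  rw [← hg]
  apply Finset.sum_congr rfl
  intro t _
  simp [hrs]

theorem diag {R : ℕ} (p g : T → ℝ) (hp : ∑ t, p t = 1) (r : Fin R) :
    ∑ τ : Fin R → T, (∏ k, p (τ k)) * (g (τ r) * g (τ r)) = ∑ t, p t * g t ^ 2 := by
  have h1 : ∀ τ : Fin R → T, (∏ k, p (τ k)) * (g (τ r) * g (τ r)) =
      ∏ k, (fun (k : Fin R) (t : T) => p t * (if k = r then g t ^ 2 else 1)) k (τ k) := by
    intro τ
    rw [Finset.prod_mul_distrib]
    have h0 : ∏ k, (if k = r then g (τ k) ^ 2 else 1) = g (τ r) ^ 2 := by simp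
    rw [h0]
    ring
  rw [Finset.sum_congr rfl (fun τ _ => h1 τ),
    prodsum (fun (k : Fin R) (t : T) => p t * (if k = r then g t ^ 2 else 1))]
  have h2 : ∀ k : Fin R, ∑ t, p t * (if k = r then g t ^ 2 else 1) =
      if k = r then ∑ t, p t * g t ^ 2 else 1 := by
    intro k
    by_cases h : k = r
    · simp [h]
    · simp [h, hp]
  rw [Finset.prod_congr rfl (fun k _ => h2 k)]
  simp

theorem secmom {R : ℕ} (p g : T → ℝ) (hp : ∑ t, p t = 1) (hg : ∑ t, p t * g t = 0) :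
    ∑ τ : Fin R → T, (∏ k, p (τ k)) * (∑ r, g (τ r)) ^ 2 = R * ∑ t, p t * g t ^ 2 := by
  have h1 : ∀ τ : Fin R → T, (∏ k, p (τ k)) * (∑ r, g (τ r)) ^ 2 =
      ∑ r, ∑ s, (∏ k, p (τ k)) * (g (τ r) * g (τ s)) := by
    intro τ
    rw [sq, Finset.sum_mul_sum, Finset.mul_sum]
    apply Finset.sum_congr rfl
    intro r _
    rw [Finset.mul_sum]
  rw [Finset.sum_congr rfl (fun τ _ => h1 τ), Finset.sum_comm]
  have h2 : ∀ r : Fin R, ∑ τ : Fin R → T, ∑ s, (∏ k, p (τ k)) * (g (τ r) * g (τ s)) =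
      ∑ t, p t * g t ^ 2 := by
    intro r
    rw [Finset.sum_comm, Finset.sum_eq_single r]
    · exact diag p g hp r
    · intro s _ hs
      exact cross p g hg r s (Ne.symm hs)
    · intro h; exact absurd (mem_univ r) h
  rw [Finset.sum_congr rfl (fun r _ => h2 r)]
  simp

theorem total {R : ℕ} (p : T → ℝ) (hp : ∑ t, p t = 1) :
    ∑ τ : Fin R → T, ∏ k, p (τ k) = 1 := by
  rw [prodsum (fun _ t => p t)]
  simp [hp]

theorem cs {α : Type} (s : Finset α) (w a : α → ℝ) (hw : ∀ x ∈ s, 0 ≤ w x) :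
    (∑ x ∈ s, w x * |a x|) ^ 2 ≤ (∑ x ∈ s, w x) * ∑ x ∈ s, w x * a x ^ 2 := by
  have h := Finset.sum_mul_sq_le_sq_mul_sq s (fun x => √(w x)) (fun x => √(w x) * |a x|)
  have h1 : ∑ x ∈ s, √(w x) * (√(w x) * |a x|) = ∑ x ∈ s, w x * |a x| := by
    apply Finset.sum_congr rfl
    intro x hx
    rw [← mul_assoc, Real.mul_self_sqrt (hw x hx)]
  have h2 : ∑ x ∈ s, √(w x) ^ 2 = ∑ x ∈ s, w x := by
    apply Finset.sum_congr rfl
    intro x hx
    rw [Real.sq_sqrt (hw x hx)]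
  have h3 : ∑ x ∈ s, (√(w x) * |a x|) ^ 2 = ∑ x ∈ s, w x * a x ^ 2 := by
    apply Finset.sum_congr rfl
    intro x hx
    rw [mul_pow, Real.sq_sqrt (hw x hx), sq_abs]
  rw [h1, h2, h3] at h
  exact h

theorem main : Spec.LLN := by
  intro T _ _ p d hp0 hp
  set m := ∑ t, p t * d t with hm
  set v := ∑ t, p t * (d t - m) ^ 2 with hv
  have hv0 : 0 ≤ v := Finset.sum_nonneg fun t _ => mul_nonneg (hp0 t) (sq_nonneg _)
  have hbound : ∀ R : ℕ, (∑ τ : Fin R → T, (∏ r, p (τ r)) * |∑ r, d (τ r) - R * m|) / R ≤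
      √v / √R := by
    intro R
    rcases Nat.eq_zero_or_pos R with h0 | hR
    · subst h0
      simp
    have hRr : (0 : ℝ) < R := by exact_mod_cast hR
    have hw : ∀ τ ∈ (univ : Finset (Fin R → T)), 0 ≤ ∏ r, p (τ r) :=
      fun τ _ => Finset.prod_nonneg fun r _ => hp0 _
    have h1 := cs univ (fun τ : Fin R → T => ∏ r, p (τ r))
      (fun τ => ∑ r, d (τ r) - R * m) hw
    have h2 : ∀ τ : Fin R → T, (∑ r, d (τ r) - R * m) = ∑ r, (d (τ r) - m) := by
      intro τ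
      rw [Finset.sum_sub_distrib]
      simp
    have h3 : ∑ τ : Fin R → T, (∏ r, p (τ r)) * (∑ r, d (τ r) - R * m) ^ 2 = R * v := by
      simp only [h2]
      apply secmom p (fun t => d t - m) hp
      have : ∀ t, p t * (d t - m) = p t * d t - m * p t := by intro t; ring
      simp only [this]
      rw [Finset.sum_sub_distrib, ← Finset.mul_sum, hp, mul_one, ← hm, sub_self]
    rw [total p hp, one_mul, h3] at h1
    have h4 : ∑ τ : Fin R → T, (∏ r, p (τ r)) * |∑ r, d (τ r) - R * m| ≤ √(R * v) :=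
      Real.le_sqrt_of_sq_le h1
    have h5 : √(R * v) = √v / √R * R := by
      rw [Real.sqrt_mul hRr.le]
      have hs : √(R : ℝ) * √(R : ℝ) = R := Real.mul_self_sqrt hRr.le
      have hs0 : √(R : ℝ) ≠ 0 := (Real.sqrt_pos.mpr hRr).ne'
      field_simp
      rw [sq, hs]
      ring
    rw [div_le_iff₀ hRr, ← h5]
    exact h4
  have hlim : Tendsto (fun R : ℕ => √v / √(R : ℝ)) atTop (𝓝 0) :=
    tendsto_const_nhds.div_atTop (Real.tendsto_sqrt_atTop.comp tendsto_natCast_atTop_atTop)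
  refine squeeze_zero ?_ hbound hlim
  intro R
  apply div_nonneg _ (by positivity)
  exact Finset.sum_nonneg fun τ _ =>
    mul_nonneg (Finset.prod_nonneg fun r _ => hp0 _) (abs_nonneg _)

end Crest.Agent.GSLln
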