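import Crest.Agent.GSDefs

set_option autoImplicit false

/-! Module PROD of row 63: independent copies of a realised partition. -/

namespace Crest.Agent.GSProd

open Finset Crest.GS

theorem Ex_sum {ι : Type} [Fintype ι] [DecidableEq ι] {α : Type} (s : Finset α)
    (f : α → (ι → Bool) → ℝ) :
    Ex (fun x => ∑ a ∈ s, f a x) = ∑ a ∈ s, Ex (f a) := by
  unfold Ex
  rw [Finset.sum_comm, Finset.sum_div]

theorem Ex_nonneg {ι : Type} [Fintype ι] [DecidableEq ι] (f : (ι → Bool) → ℝ)
    (hf : ∀ x, 0 ≤ f x) : 0 ≤ Ex f := by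
  unfold Ex
  exact div_nonneg (Finset.sum_nonneg fun x _ => hf x) (by positivity)

theorem Ex_zero {ι : Type} [Fintype ι] [DecidableEq ι] :
    Ex (fun _ : ι → Bool => (0 : ℝ)) = 0 := by
  unfold Ex; simp

/-- the product cell map -/
def pc {T ι : Type} (J : Type) (c : (ι → Bool) → T) : (J × ι → Bool) → J → T :=
  fun x j => c (fun i => x (j, i))

theorem ind_prod {T ι J : Type} [Fintype J] [DecidableEq T] [DecidableEq (J → T)]
    (c : (ι → Bool) → T) (x : J × ι → Bool) (τ : J → T) :
    (if pc J c x = τ then (1 : ℝ) else 0) =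
      ∏ j, if c (fun i => x (j, i)) = τ j then (1 : ℝ) else 0 := by
  by_cases h : pc J c x = τ
  · rw [if_pos h]
    symm
    apply Finset.prod_eq_one
    intro j _
    rw [if_pos]
    rw [← h]; rfl
  · rw [if_neg h]
    symm
    have : ∃ j, c (fun i => x (j, i)) ≠ τ j := by
      by_contra hcon
      push Not at hcon
      exact h (funext hcon)
    obtain ⟨j, hj⟩ := this
    apply Finset.prod_eq_zero (mem_univ j)
    rw [if_neg hj]

theorem ex_ind {T ι J : Type} [Fintype J] [DecidableEq J] [Fintype ι] [DecidableEq ι]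
    [DecidableEq T] [DecidableEq (J → T)] (hX : Spec.EXPR)
    (c : (ι → Bool) → T) (p : T → ℝ)
    (hp : ∀ τ, Ex (fun x => if c x = τ then (1:ℝ) else 0) = p τ) (τ : J → T) :
    Ex (fun x => if pc J c x = τ then (1:ℝ) else 0) = ∏ j, p (τ j) := by
  have h := hX J ι (fun j z => if c z = τ j then (1:ℝ) else 0)
  have h2 : (fun x : J × ι → Bool => if pc J c x = τ then (1:ℝ) else 0) =
      fun x => ∏ j, (fun (j : J) (z : ι → Bool) => if c z = τ j then (1:ℝ) else 0) j
        (fun i => x (j, i)) := by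
    funext x
    exact ind_prod c x τ
  rw [h2, h]
  apply Finset.prod_congr rfl
  intro j _
  exact hp (τ j)

theorem ex_ss {T ι J : Type} [Fintype J] [DecidableEq J] [Fintype ι] [DecidableEq ι]
    [DecidableEq T] [DecidableEq (J → T)] (hX : Spec.EXPR)
    (c : (ι → Bool) → T) (p y : T → ℝ)
    (hp : ∀ τ, Ex (fun x => if c x = τ then (1:ℝ) else 0) = p τ)
    (hy : ∀ τ, Ex (fun x => if c x = τ then SS x else 0) = p τ * y τ) (τ : J → T) :
    Ex (fun x => if pc J c x = τ then SS x else 0) = (∏ j, p (τ j)) * ∑ j, y (τ j) := by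
  have h2 : (fun x : J × ι → Bool => if pc J c x = τ then SS x else 0) =
      fun x => ∑ j, ∏ k, ((if c (fun i => x (k, i)) = τ k then (1:ℝ) else 0) *
        (if k = j then SS (fun i => x (k, i)) else 1)) := by
    funext x
    have h3 : ∀ j, ∏ k, ((if c (fun i => x (k, i)) = τ k then (1:ℝ) else 0) *
        (if k = j then SS (fun i => x (k, i)) else 1)) =
        (if pc J c x = τ then (1:ℝ) else 0) * SS (fun i => x (j, i)) := by
      intro j
      rw [Finset.prod_mul_distrib, ← ind_prod c x τ]
      congr 1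
      simp
    rw [Finset.sum_congr rfl (fun j _ => h3 j), ← Finset.mul_sum]
    have h4 : SS x = ∑ j, SS (fun i => x (j, i)) := by
      unfold SS
      rw [Fintype.sum_prod_type]
    rw [h4]
    by_cases h : pc J c x = τ
    · rw [if_pos h, if_pos h, one_mul]
    · rw [if_neg h, if_neg h, zero_mul]
  rw [h2, Ex_sum, Finset.mul_sum]
  apply Finset.sum_congr rfl
  intro j _
  have h := hX J ι (fun k z => (if c z = τ k then (1:ℝ) else 0) * (if k = j then SS z else 1))
  have h5 : (fun x : J × ι → Bool => ∏ k, ((if c (fun i => x (k, i)) = τ k then (1:ℝ) else 0) *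
        (if k = j then SS (fun i => x (k, i)) else 1))) =
      fun x : J × ι → Bool => ∏ k, (fun (k : J) (z : ι → Bool) =>
        (if c z = τ k then (1:ℝ) else 0) * (if k = j then SS z else 1)) k (fun i => x (k, i)) := by
    rfl
  rw [h5, h]
  have h6 : ∀ k, Ex (fun z => (if c z = τ k then (1:ℝ) else 0) * (if k = j then SS z else 1)) =
      p (τ k) * (if k = j then y (τ k) else 1) := by
    intro k
    by_cases hk : k = j
    · simp only [hk, if_true]
      rw [← hy (τ j)]
      congr 1
      funext z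
      by_cases hz : c z = τ j <;> simp [hz]
    · simp only [hk, if_false, mul_one]
      exact hp (τ k)
  rw [Finset.prod_congr rfl (fun k _ => h6 k), Finset.prod_mul_distrib]
  congr 1
  simp

theorem deg_ind {T ι J : Type} [Fintype J] [DecidableEq J]
    [DecidableEq T] [DecidableEq (J → T)] (hD : Spec.DEG)
    (c : (ι → Bool) → T) (d : T → ℕ)
    (hd : ∀ τ, (fun x => if c x = τ then (1:ℝ) else 0) ∈ Deg ι (d τ)) (τ : J → T) :
    (fun x => if pc J c x = τ then (1:ℝ) else 0) ∈ Deg (J × ι) (∑ j, d (τ j)) := by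
  have h2 : (fun x : J × ι → Bool => if pc J c x = τ then (1:ℝ) else 0) =
      ∏ j, (fun x : J × ι → Bool => if c (fun i => x (j, i)) = τ j then (1:ℝ) else 0) := by
    funext x
    rw [Finset.prod_apply]
    exact ind_prod c x τ
  rw [h2]
  apply hD.prod_mem
  intro j _
  exact hD.pull ι (J × ι) (fun i => (j, i)) (d (τ j)) _ (hd (τ j))

theorem main (hD : Spec.DEG) (hX : Spec.EXPR) : Spec.PROD := by
  intro T _ _ p y d J _ _ h
  obtain ⟨ι, i1, i2, c, hp, hy, hd⟩ := h
  refine ⟨J × ι, inferInstance, inferInstance, pc J c, ?_, ?_, ?_⟩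
  · intro τ
    exact ex_ind hX c p hp τ
  · intro τ
    exact ex_ss hX c p y hp hy τ
  · intro τ
    exact deg_ind hD c d hd τ

end Crest.Agent.GSProd
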