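import Crest.Agent.GSDefs

set_option autoImplicit false
set_option maxHeartbeats 1000000
set_option linter.unusedSectionVars false

namespace Crest.Agent.GSSecm

open Finset Crest.GS

variable {T L : Type} [Fintype T] [DecidableEq T] [Fintype L] [DecidableEq L]

lemma sum_pi_prod (G : L → T → ℝ) :
    ∑ τ : L → T, ∏ k, G k (τ k) = ∏ k, ∑ t, G k t := by
  rw [Finset.prod_univ_sum, Fintype.piFinset_univ]

lemma sum_one_fun (F : L → T → ℝ) (u : T → ℝ) (j : L) :
    ∑ τ : L → T, (∏ k, F k (τ k)) * u (τ j) = (∑ t, F j t * u t) * ∏ k ∈ univ.erase j, ∑ t, F k t := by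
  have h : ∀ τ : L → T, (∏ k, F k (τ k)) * u (τ j) =
      ∏ k, (F k (τ k) * if k = j then u (τ k) else 1) := by
    intro τ
    rw [Finset.prod_mul_distrib, Finset.prod_ite_eq']
    simp
  simp_rw [h]
  rw [sum_pi_prod (fun k t => F k t * if k = j then u t else 1),
    ← Finset.mul_prod_erase univ _ (mem_univ j)]
  congr 1
  · simp
  · apply Finset.prod_congr rfl
    intro k hk
    have : k ≠ j := (mem_erase.mp hk).1
    simp [this]

lemma sum_two_fun (F : L → T → ℝ) (u v : T → ℝ) (j k : L) (hjk : j ≠ k)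
    (hu : ∑ t, F j t * u t = 0) :
    ∑ τ : L → T, (∏ i, F i (τ i)) * (u (τ j) * v (τ k)) = 0 := by
  have h : ∀ τ : L → T, (∏ i, F i (τ i)) * (u (τ j) * v (τ k)) =
      ∏ i, (F i (τ i) * (if i = j then u (τ i) else 1) * (if i = k then v (τ i) else 1)) := by
    intro τ
    rw [Finset.prod_mul_distrib, Finset.prod_mul_distrib, Finset.prod_ite_eq', Finset.prod_ite_eq']
    simp [mul_assoc]
  simp_rw [h]
  rw [sum_pi_prod (fun i t => F i t * (if i = j then u t else 1) * (if i = k then v t else 1))]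
  apply Finset.prod_eq_zero (mem_univ j)
  simp [hjk, hu]

/-- second moment of a sum of independent (weighted) variables -/
lemma core (F : L → T → ℝ) (x : T → ℝ) (c : ℝ) (m g q : L → ℝ)
    (hm : ∀ k, ∑ t, F k t = m k) (hm0 : ∀ k, m k ≠ 0)
    (hg : ∀ k, ∑ t, F k t * x t = m k * g k)
    (hq : ∀ k, ∑ t, F k t * x t ^ 2 = m k * q k) :
    ∑ τ : L → T, (∏ k, F k (τ k)) * (c + ∑ k, x (τ k)) ^ 2 =
      (∏ k, m k) * ((c + ∑ k, g k) ^ 2 + ∑ k, (q k - g k ^ 2)) := by
  set u : L → T → ℝ := fun k t => x t - g k with hu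
  have hu0 : ∀ k, ∑ t, F k t * u k t = 0 := by
    intro k
    simp only [hu, mul_sub, Finset.sum_sub_distrib, ← Finset.sum_mul, hg, hm]
    ring
  have hu2 : ∀ k, ∑ t, F k t * (u k t) ^ 2 = m k * (q k - g k ^ 2) := by
    intro k
    have : ∀ t, F k t * (u k t) ^ 2 = F k t * x t ^ 2 - 2 * g k * (F k t * x t) + g k ^ 2 * F k t := by
      intro t; simp only [hu]; ring
    simp_rw [this]
    rw [Finset.sum_add_distrib, Finset.sum_sub_distrib, ← Finset.mul_sum, ← Finset.mul_sum, hg, hm, hq]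
    ring
  set C := c + ∑ k, g k with hC
  have hexp : ∀ τ : L → T, (∏ k, F k (τ k)) * (c + ∑ k, x (τ k)) ^ 2 =
      (∏ k, F k (τ k)) * C ^ 2 + 2 * C * ∑ j, (∏ k, F k (τ k)) * u j (τ j) +
      ∑ j, ∑ k, (∏ i, F i (τ i)) * (u j (τ j) * u k (τ k)) := by
    intro τ
    have h1 : c + ∑ k, x (τ k) = C + ∑ k, u k (τ k) := by
      simp only [hu, hC, Finset.sum_sub_distrib]; ring
    rw [h1]
    simp_rw [← Finset.mul_sum]
    have h2 : ∑ j, ∑ k, u j (τ j) * u k (τ k) = (∑ k, u k (τ k)) ^ 2 := by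
      rw [sq, Finset.sum_mul_sum]
    have h3 : ∑ j, u j (τ j) * ∑ k, u k (τ k) = (∑ k, u k (τ k)) ^ 2 := by
      rw [← Finset.sum_mul, sq]
    rw [h3]
    ring
  simp_rw [hexp]
  rw [Finset.sum_add_distrib, Finset.sum_add_distrib, ← Finset.sum_mul, ← Finset.mul_sum]
  rw [Finset.sum_comm (s := univ) (t := univ) (f := fun (τ : L → T) j => (∏ k, F k (τ k)) * u j (τ j))]
  have hz : ∑ j, ∑ τ : L → T, (∏ k, F k (τ k)) * u j (τ j) = 0 := by
    apply Finset.sum_eq_zero
    intro j _
    rw [sum_one_fun, hu0, zero_mul]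
  rw [hz]
  have hd : ∑ τ : L → T, ∑ j, ∑ k, (∏ i, F i (τ i)) * (u j (τ j) * u k (τ k)) =
      ∑ j, (∏ k, m k) * (q j - g j ^ 2) := by
    rw [Finset.sum_comm]
    apply Finset.sum_congr rfl
    intro j _
    rw [Finset.sum_comm]
    rw [Finset.sum_eq_single j]
    · have hs := sum_one_fun F (fun t => (u j t) ^ 2) j
      rw [hu2] at hs
      have : ∀ τ : L → T, (∏ i, F i (τ i)) * (u j (τ j) * u j (τ j)) =
          (∏ i, F i (τ i)) * (fun t => (u j t) ^ 2) (τ j) := by
        intro τ; simp only; ring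
      rw [Finset.sum_congr rfl fun τ _ => this τ, hs]
      have h5 : ∏ k ∈ univ.erase j, ∑ t, F k t = ∏ k ∈ univ.erase j, m k :=
        Finset.prod_congr rfl fun k _ => hm k
      rw [h5, ← Finset.mul_prod_erase univ m (mem_univ j)]
      ring
    · intro k _ hk
      exact sum_two_fun F (u j) (u k) j k (Ne.symm hk) (hu0 j)
    · intro h; exact absurd (mem_univ j) h
  rw [hd, sum_pi_prod, ← Finset.mul_sum]
  have h6 : ∏ k, ∑ t, F k t = ∏ k, m k := Finset.prod_congr rfl fun k _ => hm k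
  rw [h6]
  ring

/-- sum over the gadget event, for a fixed selector outcome -/
lemma sum_EE (p : T → ℝ) (sel : T → L) (I : L → Finset T) (f : T → (L → T) → ℝ) :
    ∑ τ ∈ EE sel I, (∏ j, p (τ j)) * f (τ none) (fun l => τ (some l)) =
      ∑ a, p a * ((∑ z : L → T, (∏ k, (if k = sel a then p (z k) else if z k ∈ I k then p (z k) else 0)) * f a z)
        - ∑ z : L → T, (∏ k, (if z k ∈ I k then p (z k) else 0)) * f a z) := by
  unfold EE
  rw [Finset.sum_filter]
  have hequiv := Fintype.sum_equiv (Equiv.piOptionEquivProd (α := L) (β := fun _ => T))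
    (fun τ : Option L → T => if τ (some (sel (τ none))) ∉ I (sel (τ none)) ∧
      ∀ k, k ≠ sel (τ none) → τ (some k) ∈ I k then (∏ j, p (τ j)) * f (τ none) (fun l => τ (some l)) else 0)
    (fun az : T × (L → T) => if az.2 (sel az.1) ∉ I (sel az.1) ∧
      ∀ k, k ≠ sel az.1 → az.2 k ∈ I k then (p az.1 * ∏ k, p (az.2 k)) * f az.1 az.2 else 0)
    (by
      intro τ
      simp only [Equiv.piOptionEquivProd, Equiv.coe_fn_mk, Fintype.prod_option]
      all_goals congr)
  rw [hequiv, Fintype.sum_prod_type]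
  apply Finset.sum_congr rfl
  intro a _
  rw [mul_sub, Finset.mul_sum, Finset.mul_sum, ← Finset.sum_sub_distrib]
  apply Finset.sum_congr rfl
  intro z _
  by_cases hA : ∀ k, k ≠ sel a → z k ∈ I k
  · by_cases hB : z (sel a) ∈ I (sel a)
    · have hall : ∀ k, z k ∈ I k := fun k => by
        by_cases hk : k = sel a
        · rw [hk]; exact hB
        · exact hA k hk
      simp [hB, hall]
    · have h1 : ∏ k, (if k = sel a then p (z k) else if z k ∈ I k then p (z k) else 0) = ∏ k, p (z k) := by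
        apply Finset.prod_congr rfl
        intro k _
        by_cases hk : k = sel a
        · simp [hk]
        · simp [hk, hA k hk]
      have h2 : ∏ k, (if z k ∈ I k then p (z k) else 0) = 0 :=
        Finset.prod_eq_zero (mem_univ (sel a)) (by simp [hB])
      rw [h1, h2, if_pos ⟨hB, hA⟩]
      ring
  · have hn : ¬ (z (sel a) ∉ I (sel a) ∧ ∀ k, k ≠ sel a → z k ∈ I k) := fun h => hA h.2
    push Not at hA
    obtain ⟨k, hk, hkI⟩ := hA
    have h1 : ∏ k, (if k = sel a then p (z k) else if z k ∈ I k then p (z k) else 0) = 0 :=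
      Finset.prod_eq_zero (mem_univ k) (by simp [hk, hkI])
    have h2 : ∏ k, (if z k ∈ I k then p (z k) else 0) = 0 :=
      Finset.prod_eq_zero (mem_univ k) (by simp [hkI])
    rw [h1, h2, if_neg hn]
    ring


/-- elementary facts on a conditional law in an interval -/
lemma cond_facts (p x : T → ℝ) (I : Finset T) (α d0 P g q : ℝ) (hp : ∀ τ, 0 ≤ p τ)
    (hP : ∑ τ ∈ I, p τ = P) (hP0 : 0 < P) (hg : ∑ τ ∈ I, p τ * x τ = P * g)
    (hq : ∑ τ ∈ I, p τ * x τ ^ 2 = P * q) (hd : 0 ≤ d0)
    (hI : ∀ τ ∈ I, α ≤ x τ ∧ x τ ≤ α + d0) :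
    α ≤ g ∧ g ≤ α + d0 ∧ 0 ≤ q - g ^ 2 ∧ q - g ^ 2 ≤ d0 ^ 2 := by
  have h1 : P * α ≤ P * g := by
    rw [← hg, ← hP, Finset.sum_mul]
    exact Finset.sum_le_sum fun τ hτ => mul_le_mul_of_nonneg_left (hI τ hτ).1 (hp τ)
  have h2 : P * g ≤ P * (α + d0) := by
    rw [← hg, ← hP, Finset.sum_mul]
    exact Finset.sum_le_sum fun τ hτ => mul_le_mul_of_nonneg_left (hI τ hτ).2 (hp τ)
  have h1' := le_of_mul_le_mul_left h1 hP0
  have h2' := le_of_mul_le_mul_left h2 hP0
  have h3 : ∑ τ ∈ I, p τ * (x τ - g) ^ 2 = P * (q - g ^ 2) := by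
    have : ∀ τ ∈ I, p τ * (x τ - g) ^ 2 = p τ * x τ ^ 2 - 2 * g * (p τ * x τ) + g ^ 2 * p τ := by
      intro τ _; ring
    rw [Finset.sum_congr rfl this, Finset.sum_add_distrib, Finset.sum_sub_distrib,
      ← Finset.mul_sum, ← Finset.mul_sum, hg, hP, hq]
    ring
  refine ⟨h1', h2', ?_, ?_⟩
  · have : 0 ≤ P * (q - g ^ 2) := by
      rw [← h3]
      exact Finset.sum_nonneg fun τ _ => mul_nonneg (hp τ) (sq_nonneg _)
    exact nonneg_of_mul_nonneg_right this hP0
  · have : P * (q - g ^ 2) ≤ P * d0 ^ 2 := by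
      rw [← h3, ← hP, Finset.sum_mul]
      refine Finset.sum_le_sum fun τ hτ => mul_le_mul_of_nonneg_left ?_ (hp τ)
      have ha := (hI τ hτ).1
      have hb := (hI τ hτ).2
      rw [← sq_abs (x τ - g)]
      have : |x τ - g| ≤ d0 := by rw [abs_le]; constructor <;> linarith
      exact pow_le_pow_left₀ (abs_nonneg _) this 2
    exact le_of_mul_le_mul_left this hP0

theorem main : Spec.SECM := by
  intro T L _ _ _ _ p x sel star I α γ h d0 TT hp hp1 hx0 hx1 hd0 hd0h hPpos hI hsel hstar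
  classical
  set P : L → ℝ := fun l => ∑ τ ∈ I l, p τ with hPdef
  set g : L → ℝ := fun l => (∑ τ ∈ I l, p τ * x τ) / P l with hgdef
  set q : L → ℝ := fun l => (∑ τ ∈ I l, p τ * x τ ^ 2) / P l with hqdef
  have hP0 : ∀ l, 0 < P l := hPpos
  have hPg : ∀ l, ∑ τ ∈ I l, p τ * x τ = P l * g l := by
    intro l; simp only [hgdef]; field_simp [(hP0 l).ne']
  have hPq : ∀ l, ∑ τ ∈ I l, p τ * x τ ^ 2 = P l * q l := by
    intro l; simp only [hqdef]; field_simp [(hP0 l).ne']
  have hfacts : ∀ l, α l ≤ g l ∧ g l ≤ α l + d0 ∧ 0 ≤ q l - g l ^ 2 ∧ q l - g l ^ 2 ≤ d0 ^ 2 := fun l =>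
    cond_facts p x (I l) (α l) d0 (P l) (g l) (q l) hp rfl (hP0 l) (hPg l) (hPq l) hd0 (hI l)
  set Pr : ℝ := ∏ l, P l with hPrdef
  have hPr0 : 0 < Pr := Finset.prod_pos fun l _ => hP0 l
  set G : ℝ := ∑ l, g l with hGdef
  set V : ℝ := ∑ l, (q l - g l ^ 2) with hVdef
  have hV0 : 0 ≤ V := Finset.sum_nonneg fun l _ => (hfacts l).2.2.1
  have hVle : V ≤ (Fintype.card L : ℝ) * d0 ^ 2 := by
    have : V ≤ ∑ _l : L, d0 ^ 2 := Finset.sum_le_sum fun l _ => (hfacts l).2.2.2
    simpa using this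
  refine ⟨G - γ, ?_⟩
  -- first inner sum
  have inner1 : ∀ a : T, ∑ z : L → T,
      (∏ k, (if k = sel a then p (z k) else if z k ∈ I k then p (z k) else 0)) *
        (x a - (G - γ) + ∑ k, x (z k)) ^ 2 =
      Pr / P (sel a) * ((x a + γ - g (sel a)) ^ 2 + (V - (q (sel a) - g (sel a) ^ 2)) + 1) := by
    intro a
    set l := sel a with hl
    have hc := core (fun k t => if k = l then p t else if t ∈ I k then p t else 0) x (x a - (G - γ))
      (fun k => if k = l then 1 else P k) (fun k => if k = l then 0 else g k)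
      (fun k => if k = l then 1 else q k)
      (by intro k; by_cases hk : k = l
          · simp [hk, hp1]
          · simp [hk, hPdef, Finset.sum_ite_mem])
      (by intro k; by_cases hk : k = l
          · simp [hk]
          · simp [hk, (hP0 k).ne'])
      (by intro k; by_cases hk : k = l
          · simp [hk, hx0]
          · simp only [hk, if_false, ite_mul, zero_mul]
            rw [Finset.sum_ite_mem, Finset.univ_inter]; exact hPg k)
      (by intro k; by_cases hk : k = l
          · simp [hk, hx1]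
          · simp only [hk, if_false, ite_mul, zero_mul]
            rw [Finset.sum_ite_mem, Finset.univ_inter]; exact hPq k)
    rw [hc]
    have e1 : ∏ k, (if k = l then (1:ℝ) else P k) = Pr / P l := by
      rw [eq_div_iff (hP0 l).ne', hPrdef, ← Finset.mul_prod_erase univ (fun k => if k = l then (1:ℝ) else P k) (mem_univ l),
        ← Finset.mul_prod_erase univ P (mem_univ l)]
      have : ∏ k ∈ univ.erase l, (if k = l then (1:ℝ) else P k) = ∏ k ∈ univ.erase l, P k :=
        Finset.prod_congr rfl fun k hk => by simp [(mem_erase.mp hk).1]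
      rw [this]; simp [mul_comm]
    have e2 : ∑ k, (if k = l then (0:ℝ) else g k) = G - g l := by
      rw [hGdef, ← Finset.add_sum_erase univ (fun k => if k = l then (0:ℝ) else g k) (mem_univ l),
        ← Finset.add_sum_erase univ g (mem_univ l)]
      have : ∑ k ∈ univ.erase l, (if k = l then (0:ℝ) else g k) = ∑ k ∈ univ.erase l, g k :=
        Finset.sum_congr rfl fun k hk => by simp [(mem_erase.mp hk).1]
      rw [this]; simp
    have e3 : ∑ k, ((if k = l then (1:ℝ) else q k) - (if k = l then (0:ℝ) else g k) ^ 2) =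
        V - (q l - g l ^ 2) + 1 := by
      rw [hVdef, ← Finset.add_sum_erase univ (fun k => (if k = l then (1:ℝ) else q k) - (if k = l then (0:ℝ) else g k) ^ 2) (mem_univ l),
        ← Finset.add_sum_erase univ (fun k => q k - g k ^ 2) (mem_univ l)]
      have : ∑ k ∈ univ.erase l, ((if k = l then (1:ℝ) else q k) - (if k = l then (0:ℝ) else g k) ^ 2)
          = ∑ k ∈ univ.erase l, (q k - g k ^ 2) :=
        Finset.sum_congr rfl fun k hk => by simp [(mem_erase.mp hk).1]
      rw [this]; simp; ring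
    rw [e1, e2, e3]
    congr 1
    ring
  have inner2 : ∀ a : T, ∑ z : L → T,
      (∏ k, (if z k ∈ I k then p (z k) else 0)) * (x a - (G - γ) + ∑ k, x (z k)) ^ 2 =
      Pr * ((x a + γ) ^ 2 + V) := by
    intro a
    have hc := core (fun k t => if t ∈ I k then p t else 0) x (x a - (G - γ)) P g q
      (by intro k; simp [hPdef, Finset.sum_ite_mem])
      (fun k => (hP0 k).ne')
      (by intro k
          simp only [ite_mul, zero_mul]
          rw [Finset.sum_ite_mem, Finset.univ_inter]; exact hPg k)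
      (by intro k
          simp only [ite_mul, zero_mul]
          rw [Finset.sum_ite_mem, Finset.univ_inter]; exact hPq k)
    rw [hc]
    congr 1
    ring
  have inner3 : ∀ a : T, ∑ z : L → T,
      (∏ k, (if k = sel a then p (z k) else if z k ∈ I k then p (z k) else 0)) * (1:ℝ) = Pr / P (sel a) := by
    intro a
    simp only [mul_one]
    rw [sum_pi_prod (fun k t => if k = sel a then p t else if t ∈ I k then p t else 0)]
    rw [eq_div_iff (hP0 _).ne', hPrdef, ← Finset.mul_prod_erase univ _ (mem_univ (sel a)),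
        ← Finset.mul_prod_erase univ P (mem_univ (sel a))]
    have : ∏ k ∈ univ.erase (sel a), (∑ t, (if k = sel a then p t else if t ∈ I k then p t else 0)) =
        ∏ k ∈ univ.erase (sel a), P k :=
      Finset.prod_congr rfl fun k hk => by
        simp [(mem_erase.mp hk).1, hPdef, Finset.sum_ite_mem]
    rw [this]; simp [hp1, mul_comm]
  have inner4 : ∑ z : L → T, (∏ k, (if z k ∈ I k then p (z k) else 0)) * (1:ℝ) = Pr := by
    simp only [mul_one]
    rw [sum_pi_prod (fun k t => if t ∈ I k then p t else 0)]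
    exact Finset.prod_congr rfl fun k _ => by simp [hPdef, Finset.sum_ite_mem]
  have hLHS : ∑ τ ∈ EE sel I, (∏ j, p (τ j)) * (∑ j, x (τ j) - (G - γ)) ^ 2 =
      ∑ a, p a * (Pr / P (sel a) * ((x a + γ - g (sel a)) ^ 2 + (V - (q (sel a) - g (sel a) ^ 2)) + 1)
        - Pr * ((x a + γ) ^ 2 + V)) := by
    have := sum_EE p sel I (fun a z => (x a - (G - γ) + ∑ k, x (z k)) ^ 2)
    simp_rw [inner1, inner2] at this
    rw [← this]
    apply Finset.sum_congr rfl
    intro τ _
    rw [Fintype.sum_option]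
    congr 1
    ring
  have hPE : PE p sel I = ∑ a, p a * (Pr / P (sel a) - Pr) := by
    have := sum_EE p sel I (fun _ _ => (1:ℝ))
    simp_rw [inner3, inner4] at this
    rw [← this, PE]
    simp
  have hdiff : ∑ τ ∈ EE sel I, (∏ j, p (τ j)) * (∑ j, x (τ j) - (G - γ)) ^ 2 - PE p sel I =
      Pr * (∑ a, p a / P (sel a) * ((x a + γ - g (sel a)) ^ 2 + (V - (q (sel a) - g (sel a) ^ 2)))
        - (γ ^ 2 + V)) := by
    rw [hLHS, hPE, ← Finset.sum_sub_distrib]
    have : ∀ a, p a * (Pr / P (sel a) * ((x a + γ - g (sel a)) ^ 2 + (V - (q (sel a) - g (sel a) ^ 2)) + 1)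
        - Pr * ((x a + γ) ^ 2 + V)) - p a * (Pr / P (sel a) - Pr) =
        Pr * (p a / P (sel a) * ((x a + γ - g (sel a)) ^ 2 + (V - (q (sel a) - g (sel a) ^ 2))))
        - Pr * (p a * x a ^ 2 + 2 * γ * (p a * x a) + (γ ^ 2 + V - 1) * p a) := by
      intro a; ring
    rw [Finset.sum_congr rfl fun a _ => this a, Finset.sum_sub_distrib, ← Finset.mul_sum, ← Finset.mul_sum,
      Finset.sum_add_distrib, Finset.sum_add_distrib, ← Finset.mul_sum, ← Finset.mul_sum, hx0, hx1, hp1]
    ring
  have hK : 0 ≤ (Fintype.card L : ℝ) * d0 ^ 2 := by positivity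
  have hbound : ∑ a, p a / P (sel a) * ((x a + γ - g (sel a)) ^ 2 + (V - (q (sel a) - g (sel a) ^ 2))) ≤
      (∑ l ∈ univ.filter (fun l => l ≠ star),
          (∑ τ ∈ univ.filter (fun τ => sel τ = l), p τ) / P l) * (h ^ 2 + (Fintype.card L : ℝ) * d0 ^ 2)
        + (TT + (Fintype.card L : ℝ) * d0 ^ 2) / P star := by
    rw [← Finset.sum_fiberwise_of_maps_to (s := univ) (t := univ) (g := sel) (fun _ _ => mem_univ _)]
    rw [← Finset.sum_filter_add_sum_filter_not univ (fun l => l ≠ star)]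
    have hnot : univ.filter (fun l => ¬ l ≠ star) = {star} := by
      ext l; simp
    rw [hnot, Finset.sum_singleton]
    apply add_le_add
    · rw [Finset.sum_mul]
      apply Finset.sum_le_sum
      intro l hl
      have hls : l ≠ star := (mem_filter.mp hl).2
      rw [Finset.sum_div, Finset.sum_mul]
      apply Finset.sum_le_sum
      intro a ha
      have hal : sel a = l := (mem_filter.mp ha).2
      subst hal
      apply mul_le_mul_of_nonneg_left _ (div_nonneg (hp a) (hP0 _).le)
      have h1 := hsel a hls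
      have h2 := hfacts (sel a)
      have h3 : (x a + γ - g (sel a)) ^ 2 ≤ h ^ 2 := by
        rw [← sq_abs (x a + γ - g (sel a))]
        have : |x a + γ - g (sel a)| ≤ h := by rw [abs_le]; constructor <;> linarith
        exact pow_le_pow_left₀ (abs_nonneg _) this 2
      linarith [h2.2.2.1]
    · have h2 := hfacts star
      have h3 : ∑ a ∈ univ.filter (fun τ => sel τ = star),
          p a / P (sel a) * ((x a + γ - g (sel a)) ^ 2 + (V - (q (sel a) - g (sel a) ^ 2))) ≤
          ∑ a ∈ univ.filter (fun τ => sel τ = star),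
            (p a * (x a + γ - g star) ^ 2 + p a * ((Fintype.card L : ℝ) * d0 ^ 2)) / P star := by
        apply Finset.sum_le_sum
        intro a ha
        have hal : sel a = star := (mem_filter.mp ha).2
        rw [hal, ← mul_add, mul_div_right_comm]
        apply mul_le_mul_of_nonneg_left _ (div_nonneg (hp a) (hP0 _).le)
        linarith [h2.2.2.1]
      refine h3.trans ?_
      rw [← Finset.sum_div]
      apply div_le_div_of_nonneg_right _ (hP0 star).le
      rw [Finset.sum_add_distrib, ← Finset.sum_mul]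
      have h4 := hstar (g star) h2.1 h2.2.1
      have h5 : ∑ a ∈ univ.filter (fun τ => sel τ = star), p a ≤ 1 := by
        rw [← hp1]
        exact Finset.sum_le_sum_of_subset_of_nonneg (Finset.filter_subset _ _) fun i _ _ => hp i
      have h6 : (∑ a ∈ univ.filter (fun τ => sel τ = star), p a) * ((Fintype.card L : ℝ) * d0 ^ 2) ≤
          1 * ((Fintype.card L : ℝ) * d0 ^ 2) := mul_le_mul_of_nonneg_right h5 hK
      linarith
  have hfin : ∑ τ ∈ EE sel I, (∏ j, p (τ j)) * (∑ j, x (τ j) - (G - γ)) ^ 2 - PE p sel I ≤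
      Pr * ((∑ l ∈ univ.filter (fun l => l ≠ star),
          (∑ τ ∈ univ.filter (fun τ => sel τ = l), p τ) / P l) * (h ^ 2 + (Fintype.card L : ℝ) * d0 ^ 2)
        + (TT + (Fintype.card L : ℝ) * d0 ^ 2) / P star - γ ^ 2) := by
    rw [hdiff]
    apply mul_le_mul_of_nonneg_left _ hPr0.le
    linarith
  linarith

end Crest.Agent.GSSecm
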