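import Crest.Agent.GSDefs

/-!
Row 63 (S0085): module SIGNC, the Boolean function from a realised partition and a set of cheap cells.
-/

set_option autoImplicit false

namespace Crest.Agent.GSSIGNC

open Finset Crest.GS

theorem sum_sg (hF : Spec.FOUR) (hD : Spec.DEG) (ι : Type) [Fintype ι] [DecidableEq ι] (i : ι) :
    ∑ x : ι → Bool, sg (x i) = 0 := by
  have h := hF ι 0 1 (hD.one_mem ι 0) {i} (by simp)
  simpa using h

theorem sum_SS (hF : Spec.FOUR) (hD : Spec.DEG) (ι : Type) [Fintype ι] [DecidableEq ι] :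
    ∑ x : ι → Bool, SS x = 0 := by
  unfold SS
  rw [Finset.sum_comm]
  exact Finset.sum_eq_zero fun i _ => sum_sg hF hD ι i

theorem main (hD : Spec.DEG) (hF : Spec.FOUR) : Spec.SIGNC := by
  intro T _ _ p y d C B A hC hR hdB hlt
  obtain ⟨ι, _, _, c, hp, hy, hd⟩ := hR
  -- the function on the original cube
  let F : (ι → Bool) → ℝ := fun x => if c x ∈ A then (1 : ℝ) else -1
  have hFeq : F = (2 : ℝ) • (∑ τ ∈ A, fun x : ι → Bool => if c x = τ then (1:ℝ) else 0) - 1 := by
    funext x
    simp only [F, Pi.sub_apply, Pi.smul_apply, Finset.sum_apply, Pi.one_apply, smul_eq_mul]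
    rw [Finset.sum_ite_eq]
    split_ifs <;> norm_num
  have hFdeg : F ∈ Deg ι B := by
    rw [hFeq]
    refine Submodule.sub_mem _ (Submodule.smul_mem _ _ (Submodule.sum_mem _ ?_)) (hD.one_mem ι B)
    intro τ hτ
    exact hD.mono ι _ _ (hdB τ hτ) (hd τ)
  let e : ι ≃ Fin (Fintype.card ι) := Fintype.equivFin ι
  have hbij : ∀ G : (ι → Bool) → ℝ,
      ∑ z : Fin (Fintype.card ι) → Bool, G (fun i => z (e i)) = ∑ x : ι → Bool, G x := by
    intro G
    exact (Equiv.sum_comp (Equiv.arrowCongr e.symm (Equiv.refl Bool)) G)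
  have hL : ∑ x : ι → Bool, F x * SS x = 2 ^ Fintype.card ι * (2 * ∑ τ ∈ A, p τ * y τ) := by
    have h1 : ∀ τ, ∑ x : ι → Bool, (if c x = τ then SS x else 0) =
        2 ^ Fintype.card ι * (p τ * y τ) := by
      intro τ
      have h2 := hy τ
      unfold Ex at h2
      rw [div_eq_iff (by positivity)] at h2
      rw [h2]; ring
    have h3 : ∀ x, F x * SS x = 2 * (∑ τ ∈ A, if c x = τ then SS x else 0) - SS x := by
      intro x
      rw [Finset.sum_ite_eq]
      simp only [F]
      split_ifs <;> ring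
    rw [Finset.sum_congr rfl fun x _ => h3 x, Finset.sum_sub_distrib, sum_SS hF hD, ← Finset.mul_sum,
      Finset.sum_comm, Finset.sum_congr rfl fun τ _ => h1 τ, ← Finset.mul_sum]
    ring
  have hsum : ∑ i : Fin (Fintype.card ι), (∑ z : Fin (Fintype.card ι) → Bool,
      ((if decide (c (fun j => z (e j)) ∈ A) = true then (1 : ℝ) else -1) *
        (if z i then (1 : ℝ) else -1))) / 2 ^ Fintype.card ι = 2 * ∑ τ ∈ A, p τ * y τ := by
    rw [← Finset.sum_div, Finset.sum_comm, div_eq_iff (by positivity), mul_comm _ ((2:ℝ) ^ _), ← hL,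
      ← hbij]
    refine Finset.sum_congr rfl fun z _ => ?_
    rw [← Finset.mul_sum]
    congr 1
    · simp only [F, decide_eq_true_eq]
    · unfold SS sg
      exact (Equiv.sum_comp e (fun i => if z i = true then (1:ℝ) else -1)).symm
  refine ⟨Fintype.card ι, fun z => decide (c (fun j => z (e j)) ∈ A), B, ?_, ?_, ?_⟩
  · by_contra hcon
    push Not at hcon
    have h0 : 2 * ∑ τ ∈ A, p τ * y τ = 0 := by
      rw [← hsum]
      have h1 : ∀ z : Fin (Fintype.card ι) → Bool, decide (c (fun j => z (e j)) ∈ A) =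
          decide (c (fun j => (fun _ => true : Fin (Fintype.card ι) → Bool) (e j)) ∈ A) :=
        fun z => hcon z (fun _ => true)
      rw [← Finset.sum_div, Finset.sum_comm]
      have h2 : ∀ z : Fin (Fintype.card ι) → Bool, ∑ i, ((if decide (c (fun j => z (e j)) ∈ A) = true
          then (1 : ℝ) else -1) * (if z i then (1 : ℝ) else -1)) =
          (if decide (c (fun j => (fun _ => true : Fin (Fintype.card ι) → Bool) (e j)) ∈ A) = true
          then (1 : ℝ) else -1) * SS z := by
        intro z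
        rw [← Finset.mul_sum, h1 z]
        rfl
      rw [Finset.sum_congr rfl fun z _ => h2 z, ← Finset.mul_sum, sum_SS hF hD]
      simp
    rw [h0] at hlt
    have : 0 ≤ C * √(B:ℝ) := by positivity
    linarith
  · intro S hS
    have hpull := hD.pull ι (Fin (Fintype.card ι)) e B F hFdeg
    have h := hF (Fin (Fintype.card ι)) B _ hpull S hS
    rw [← h]
    refine Finset.sum_congr rfl fun z _ => ?_
    simp only [F, decide_eq_true_eq, sg]
  · rw [hsum]
    exact hlt

end Crest.Agent.GSSIGNC
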