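import Crest.Agent.GSDefs

/-!
Module SIGNP of row 63 (S0085).
-/

set_option autoImplicit false

namespace Crest.Agent.GSSignp

open Finset

variable {T : Type} [Fintype T]

lemma cub (u : ℝ) (hu : 0 ≤ u) : (5 / 2) * (u ^ 2 - u ^ 4) ≤ u := by
  have h := mul_nonneg (add_nonneg hu (by norm_num : (0:ℝ) ≤ 2 * (29 / 50)))
    (sq_nonneg (u - 29 / 50))
  have h2 : 0 ≤ u ^ 3 - u + 2 / 5 := by nlinarith
  nlinarith [mul_nonneg hu h2]

/-- expectation over `R` independent copies -/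
noncomputable def EX (p : T → ℝ) (R : ℕ) (G : (Fin R → T) → ℝ) : ℝ :=
  ∑ τ : Fin R → T, (∏ r, p (τ r)) * G τ

lemma EX_succ (p : T → ℝ) (R : ℕ) (G : (Fin (R+1) → T) → ℝ) :
    EX p (R+1) G = ∑ t : T, p t * EX p R (fun τ => G (Fin.cons t τ)) := by
  unfold EX
  rw [← (Fin.consEquiv (fun _ => T)).sum_comp, Fintype.sum_prod_type]
  refine Finset.sum_congr rfl fun t _ => ?_
  rw [Finset.mul_sum]
  refine Finset.sum_congr rfl fun τ _ => ?_
  have : (Fin.consEquiv (fun _ => T)) (t, τ) = (Fin.cons t τ : Fin (R+1) → T) := rfl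
  rw [this, Fin.prod_univ_succ]
  simp only [Fin.cons_zero, Fin.cons_succ]
  ring

lemma EX_add (p : T → ℝ) (R : ℕ) (G H : (Fin R → T) → ℝ) :
    EX p R (fun τ => G τ + H τ) = EX p R G + EX p R H := by
  unfold EX
  rw [← Finset.sum_add_distrib]
  exact Finset.sum_congr rfl fun τ _ => by ring

lemma EX_smul (p : T → ℝ) (R : ℕ) (c : ℝ) (G : (Fin R → T) → ℝ) :
    EX p R (fun τ => c * G τ) = c * EX p R G := by
  unfold EX
  rw [Finset.mul_sum]
  exact Finset.sum_congr rfl fun τ _ => by ring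

lemma EX_mono (p : T → ℝ) (hp : ∀ t, 0 ≤ p t) (R : ℕ) (G H : (Fin R → T) → ℝ)
    (h : ∀ τ, G τ ≤ H τ) : EX p R G ≤ EX p R H := by
  unfold EX
  refine Finset.sum_le_sum fun τ _ => ?_
  exact mul_le_mul_of_nonneg_left (h τ) (Finset.prod_nonneg fun r _ => hp _)

lemma EX_one (p : T → ℝ) (hs : ∑ t, p t = 1) (R : ℕ) : EX p R (fun _ => 1) = 1 := by
  induction R with
  | zero => simp [EX]
  | succ R ih => rw [EX_succ]; simp [ih, hs]

lemma EX_fst (p f : T → ℝ) (hs : ∑ t, p t = 1) (hf : ∑ t, p t * f t = 0) (R : ℕ) :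
    EX p R (fun τ => ∑ r, f (τ r)) = 0 := by
  induction R with
  | zero => simp [EX]
  | succ R ih =>
    rw [EX_succ]
    have h : ∀ t : T, EX p R (fun τ => ∑ r, f ((Fin.cons t τ : Fin (R+1) → T) r)) = f t := by
      intro t
      have : (fun τ : Fin R → T => ∑ r, f ((Fin.cons t τ : Fin (R+1) → T) r)) =
          fun τ => f t * 1 + ∑ r, f (τ r) := by
        funext τ
        rw [Fin.sum_univ_succ]; simp
      rw [this, EX_add, EX_smul, EX_one p hs, ih]; ring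
    simp only [h, hf]

lemma EX_snd (p f : T → ℝ) (hs : ∑ t, p t = 1) (hf : ∑ t, p t * f t = 0) (R : ℕ) :
    EX p R (fun τ => (∑ r, f (τ r)) ^ 2) = R * ∑ t, p t * f t ^ 2 := by
  induction R with
  | zero => simp [EX]
  | succ R ih =>
    rw [EX_succ]
    have h : ∀ t : T, EX p R (fun τ => (∑ r, f ((Fin.cons t τ : Fin (R+1) → T) r)) ^ 2) =
        f t ^ 2 + R * ∑ t, p t * f t ^ 2 := by
      intro t
      have : (fun τ : Fin R → T => (∑ r, f ((Fin.cons t τ : Fin (R+1) → T) r)) ^ 2) =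
          fun τ => (f t ^ 2 * 1 + (2 * f t) * ∑ r, f (τ r)) + (∑ r, f (τ r)) ^ 2 := by
        funext τ
        rw [Fin.sum_univ_succ]; simp; ring
      rw [this, EX_add, EX_add, EX_smul, EX_smul, EX_one p hs, EX_fst p f hs hf, ih]; ring
    simp only [h, mul_add, Finset.sum_add_distrib, ← Finset.sum_mul, hs]
    push_cast; ring

lemma EX_fth (p f : T → ℝ) (hs : ∑ t, p t = 1) (hf : ∑ t, p t * f t = 0) (R : ℕ) :
    EX p R (fun τ => (∑ r, f (τ r)) ^ 4) ≤
      R * (∑ t, p t * f t ^ 4) + 3 * (R * ∑ t, p t * f t ^ 2) ^ 2 - 3 * R * (∑ t, p t * f t ^ 2) ^ 2 := by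
  induction R with
  | zero => simp [EX]
  | succ R ih =>
    rw [EX_succ]
    set m3 : ℝ := EX p R (fun τ => (∑ r, f (τ r)) ^ 3) with hm3
    set m4 : ℝ := EX p R (fun τ => (∑ r, f (τ r)) ^ 4) with hm4
    set v : ℝ := ∑ t, p t * f t ^ 2 with hv
    have h : ∀ t : T, EX p R (fun τ => (∑ r, f ((Fin.cons t τ : Fin (R+1) → T) r)) ^ 4) =
        f t ^ 4 + 6 * f t ^ 2 * (R * v) + 4 * f t * m3 + m4 := by
      intro t
      have : (fun τ : Fin R → T => (∑ r, f ((Fin.cons t τ : Fin (R+1) → T) r)) ^ 4) =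
          fun τ => (((f t ^ 4 * 1 + (4 * f t ^ 3) * ∑ r, f (τ r)) + (6 * f t ^ 2) * (∑ r, f (τ r)) ^ 2)
            + (4 * f t) * (∑ r, f (τ r)) ^ 3) + (∑ r, f (τ r)) ^ 4 := by
        funext τ
        rw [Fin.sum_univ_succ]; simp; ring
      rw [this, EX_add, EX_add, EX_add, EX_add, EX_smul, EX_smul, EX_smul, EX_smul, EX_one p hs,
        EX_fst p f hs hf, EX_snd p f hs hf]; ring
    have h2 : ∑ t, p t * EX p R (fun τ => (∑ r, f ((Fin.cons t τ : Fin (R+1) → T) r)) ^ 4) =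
        ∑ t, p t * f t ^ 4 + 6 * (R * v) * v + m4 := by
      simp only [h]
      have : ∀ t, p t * (f t ^ 4 + 6 * f t ^ 2 * (R * v) + 4 * f t * m3 + m4) =
          p t * f t ^ 4 + (6 * (R * v)) * (p t * f t ^ 2) + (4 * m3) * (p t * f t) + m4 * p t := by
        intro t; ring
      simp only [this, Finset.sum_add_distrib, ← Finset.mul_sum, hs, hf, ← hv]
      ring
    rw [h2]
    push_cast
    nlinarith [ih]

theorem main : Crest.GS.Spec.SIGNP := by
  intro T _ _ p y d C hC hp hs hy hv hd hCv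
  set v : ℝ := ∑ τ, p τ * y τ ^ 2 with hvdef
  set c : ℝ := ∑ τ, p τ * (d τ : ℝ) with hcdef
  have hc1 : 1 ≤ c := by
    rw [← hs, hcdef]
    refine Finset.sum_le_sum fun τ _ => ?_
    have : (1:ℝ) ≤ d τ := by exact_mod_cast hd τ
    nlinarith [hp τ]
  set M4 : ℝ := ∑ τ, p τ * y τ ^ 4 with hM4
  set vd : ℝ := ∑ τ, p τ * ((d τ : ℝ) - c) ^ 2 with hvd
  have hM40 : 0 ≤ M4 := Finset.sum_nonneg fun τ _ => mul_nonneg (hp τ) (by positivity)
  have hvd0 : 0 ≤ vd := Finset.sum_nonneg fun τ _ => mul_nonneg (hp τ) (by positivity)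
  have hfd : ∑ τ, p τ * ((d τ : ℝ) - c) = 0 := by
    simp only [mul_sub, Finset.sum_sub_distrib, ← Finset.sum_mul, hs]
    rw [← hcdef]; ring
  obtain ⟨R, hR⟩ := exists_nat_gt (25 * (M4 / v ^ 2 + 100 * (vd / c ^ 2)) + 1)
  have hR1 : (1:ℝ) < R := by
    have : 0 ≤ M4 / v ^ 2 + 100 * (vd / c ^ 2) := by positivity
    linarith
  have hR0 : (0:ℝ) < R := by linarith
  set w : ℝ := √(R * v) with hw
  have hw0 : 0 < w := Real.sqrt_pos.mpr (by positivity)
  have hw2 : w ^ 2 = R * v := Real.sq_sqrt (by positivity)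
  set B : ℕ := ⌊2 * R * c⌋₊ with hB
  have hBle : (B : ℝ) ≤ 2 * R * c := Nat.floor_le (by positivity)
  refine ⟨R, B, univ.filter fun τ => ∑ r, d (τ r) ≤ B ∧ 0 < ∑ r, y (τ r), ?_, ?_⟩
  · intro τ hτ
    exact (Finset.mem_filter.mp hτ).2.1
  -- upper bound for the left side
  have hleft : C * √B ≤ 2 / 5 * w := by
    have h1 : (C * √B) ^ 2 ≤ (2 / 5 * w) ^ 2 := by
      rw [mul_pow, Real.sq_sqrt (Nat.cast_nonneg _), mul_pow, hw2]
      have h3 : C ^ 2 * (B:ℝ) ≤ C ^ 2 * (2 * R * c) := mul_le_mul_of_nonneg_left hBle (by positivity)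
      have h4 : (R:ℝ) * (16 * C ^ 2 * c) ≤ R * v := mul_le_mul_of_nonneg_left hCv hR0.le
      have h5 : 0 < (R:ℝ) * v := by positivity
      nlinarith
    exact le_of_sq_le_sq h1 (by positivity)
  -- the pointwise inequality
  set Z : (Fin R → T) → ℝ := fun τ => ∑ r, y (τ r) with hZ
  set Dd : (Fin R → T) → ℝ := fun τ => ∑ r, ((d (τ r) : ℝ) - c) with hDd
  have hpt : ∀ τ : Fin R → T,
      (((Z τ + (5 / (6 * w)) * Z τ ^ 2) + (-(5 / (54 * w ^ 3))) * Z τ ^ 4)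
        + (-(1 / (100 * w))) * Z τ ^ 2) + (-(100 * w / (R * c) ^ 2)) * Dd τ ^ 2 ≤
      2 * (if ∑ r, d (τ r) ≤ B ∧ 0 < ∑ r, y (τ r) then Z τ else 0) := by
    intro τ
    have hA : (5 / (6 * w)) * Z τ ^ 2 + (-(5 / (54 * w ^ 3))) * Z τ ^ 4 ≤ |Z τ| := by
      set u : ℝ := |Z τ| / (3 * w) with hu
      have hu0 : 0 ≤ u := by positivity
      have hZu : |Z τ| = 3 * w * u := by rw [hu]; field_simp
      have hZ2 : Z τ ^ 2 = (3 * w * u) ^ 2 := by rw [← hZu, sq_abs]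
      have hZ4 : Z τ ^ 4 = (3 * w * u) ^ 4 := by
        have : Z τ ^ 4 = (Z τ ^ 2) ^ 2 := by ring
        rw [this, hZ2]; ring
      rw [hZu, hZ2, hZ4]
      have e1 : 5 / (6 * w) * (3 * w * u) ^ 2 + -(5 / (54 * w ^ 3)) * (3 * w * u) ^ 4 =
          (3 * w) * ((5 / 2) * (u ^ 2 - u ^ 4)) := by
        field_simp; ring
      rw [e1]
      exact mul_le_mul_of_nonneg_left (cub u hu0) (by positivity)
    have hB1 : 0 ≤ 1 / (100 * w) * Z τ ^ 2 := by positivity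
    have hB2 : 0 ≤ 100 * w / (R * c) ^ 2 * Dd τ ^ 2 := by positivity
    have hle : Z τ ≤ |Z τ| := le_abs_self _
    by_cases hDB : ∑ r, d (τ r) ≤ B
    · by_cases hpos : 0 < ∑ r, y (τ r)
      · rw [if_pos ⟨hDB, hpos⟩]
        have : |Z τ| = Z τ := abs_of_pos hpos
        rw [this] at hA
        linarith
      · rw [if_neg (fun h => hpos h.2)]
        have : |Z τ| = - Z τ := abs_of_nonpos (not_lt.mp hpos)
        rw [this] at hA
        linarith
    · rw [if_neg (fun h => hDB h.1)]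
      have hD1 : 2 * R * c < ((∑ r, d (τ r) : ℕ) : ℝ) := (Nat.floor_lt (by positivity)).mp (not_le.mp hDB)
      have hD2 : Dd τ = ((∑ r, d (τ r) : ℕ) : ℝ) - R * c := by
        rw [hDd]; push_cast; simp [Finset.sum_sub_distrib]
      have hRc : 0 < R * c := by positivity
      have hD3 : R * c ≤ Dd τ := by rw [hD2]; linarith
      have hD4 : (R * c) ^ 2 ≤ Dd τ ^ 2 := pow_le_pow_left₀ hRc.le hD3 2
      have hD5 : 100 * w ≤ 100 * w / (R * c) ^ 2 * Dd τ ^ 2 := by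
        rw [div_mul_eq_mul_div, le_div_iff₀ (by positivity)]
        exact mul_le_mul_of_nonneg_left hD4 (by positivity)
      have hD6 : 2 * |Z τ| ≤ 1 / (100 * w) * Z τ ^ 2 + 100 * w := by
        have h0 : 0 ≤ 1 / (100 * w) * (|Z τ| - 100 * w) ^ 2 := by positivity
        have h1 : 1 / (100 * w) * (|Z τ| - 100 * w) ^ 2 =
            1 / (100 * w) * |Z τ| ^ 2 + 100 * w - 2 * |Z τ| := by
          field_simp; ring
        rw [h1, sq_abs] at h0
        linarith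
      linarith
  have hmono := EX_mono p hp R _ _ hpt
  have hright : 2 * ∑ τ ∈ univ.filter (fun τ : Fin R → T => ∑ r, d (τ r) ≤ B ∧ 0 < ∑ r, y (τ r)),
      (∏ r, p (τ r)) * ∑ r, y (τ r) =
      EX p R (fun τ => 2 * (if ∑ r, d (τ r) ≤ B ∧ 0 < ∑ r, y (τ r) then Z τ else 0)) := by
    rw [EX_smul]
    unfold EX
    rw [Finset.sum_filter]
    congr 1
    refine Finset.sum_congr rfl fun τ _ => ?_
    show (if _ then _ else _) = (∏ r, p (τ r)) * (if _ then Z τ else 0)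
    split_ifs with h1
    · rfl
    · rw [mul_zero]
  rw [hright]
  refine lt_of_le_of_lt hleft (lt_of_lt_of_le ?_ hmono)
  rw [EX_add, EX_add, EX_add, EX_add, EX_smul, EX_smul, EX_smul, EX_smul, hZ, hDd,
    EX_fst p y hs hy, EX_snd p y hs hy, EX_snd p (fun t => (d t : ℝ) - c) hs hfd, ← hvdef, ← hvd, ← hw2]
  have h4 := EX_fth p y hs hy R
  rw [← hvdef, ← hw2, ← hM4] at h4
  set E4 : ℝ := EX p R (fun τ => (∑ r, y (τ r)) ^ 4) with hE4
  have h4' : E4 ≤ R * M4 + 3 * (w ^ 2) ^ 2 := by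
    have : 0 ≤ 3 * (R:ℝ) * v ^ 2 := by positivity
    linarith
  have h5 : (5 / (54 * w ^ 3)) * E4 ≤ (5 / (54 * w ^ 3)) * (R * M4 + 3 * (w ^ 2) ^ 2) :=
    mul_le_mul_of_nonneg_left h4' (by positivity)
  have h6 : (5 / (54 * w ^ 3)) * (R * M4 + 3 * (w ^ 2) ^ 2) = w * ((5 / 54) * (M4 / v ^ 2 / R)) + 5 / 18 * w := by
    have e : w ^ 4 = R ^ 2 * v ^ 2 := by
      have : w ^ 4 = (w ^ 2) ^ 2 := by ring
      rw [this, hw2]; ring
    have e2 : M4 / v ^ 2 / R = R * M4 / w ^ 4 := by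
      rw [e]; field_simp
    rw [e2]; field_simp; ring
  have h7 : (100 * w / (R * c) ^ 2) * (R * vd) = w * (100 * (vd / c ^ 2 / R)) := by
    field_simp
  have h8 : (5 / 54) * (M4 / v ^ 2 / R) + 100 * (vd / c ^ 2 / R) < 1 / 25 := by
    have h9 : (M4 / v ^ 2 + 100 * (vd / c ^ 2)) / R < 1 / 25 := by
      rw [div_lt_iff₀ hR0]; linarith
    have h10 : (M4 / v ^ 2 + 100 * (vd / c ^ 2)) / R = M4 / v ^ 2 / R + 100 * (vd / c ^ 2 / R) := by
      ring
    have h11 : 0 ≤ M4 / v ^ 2 / R := by positivity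
    linarith
  have h12 : 5 / (6 * w) * w ^ 2 = 5 / 6 * w := by field_simp
  have h13 : 1 / (100 * w) * w ^ 2 = 1 / 100 * w := by field_simp
  have h14 := mul_lt_mul_of_pos_left h8 hw0
  rw [mul_add] at h14
  linarith

end Crest.Agent.GSSignp
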