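import Crest.Agent.GSDefs

/-!
Row 63, module STEP, deterministic part: finite inequality of the gadget from VARC and SECM.
-/

set_option autoImplicit false

namespace Crest.GS.Step

open Finset MeasureTheory ProbabilityTheory Filter Topology

/-- left ends of the cells -/
noncomputable def al (m : ℕ) (Λ h : ℝ) : Option (Fin m) → ℝ
  | none => 0
  | some l => -Λ + (l : ℝ) * h

open Classical in
/-- the cells -/
noncomputable def II {Q : Type} [Fintype Q] (m : ℕ) (Λ h d0 : ℝ) (x : Q → ℝ) (dq : Q → ℕ) (D : ℕ)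
    (l : Option (Fin m)) : Finset Q :=
  univ.filter fun τ => al m Λ h l ≤ x τ ∧ x τ < al m Λ h l + d0 ∧ dq τ ≤ D

open Classical in
/-- the shifted cells -/
noncomputable def JJ {Q : Type} [Fintype Q] (m : ℕ) (Λ γ h : ℝ) (x : Q → ℝ) (l : Fin m) : Finset Q :=
  univ.filter fun τ => -Λ + (l : ℝ) * h - γ ≤ x τ ∧ x τ < -Λ + (l : ℝ) * h - γ + h

open Classical in
/-- the selector -/
noncomputable def selF {Q : Type} (m : ℕ) (Λ γ h : ℝ) (x : Q → ℝ) (dq : Q → ℕ) (D : ℕ) (τ : Q) :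
    Option (Fin m) :=
  if hh : dq τ ≤ D ∧ ∃ l : Fin m, -Λ + (l : ℝ) * h ≤ x τ + γ ∧ x τ + γ < -Λ + (l : ℝ) * h + h then
    some hh.2.choose else none

open Classical in
/-- the atypical set -/
noncomputable def AT {Q : Type} [Fintype Q] (dq : Q → ℕ) (D : ℕ) : Finset Q :=
  univ.filter fun τ => D < dq τ

theorem selF_some {Q : Type} {m : ℕ} {Λ γ h : ℝ} {x : Q → ℝ} {dq : Q → ℕ} {D : ℕ} {τ : Q} {l : Fin m}
    (hs : selF m Λ γ h x dq D τ = some l) :
    dq τ ≤ D ∧ -Λ + (l : ℝ) * h ≤ x τ + γ ∧ x τ + γ < -Λ + (l : ℝ) * h + h := by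
  unfold selF at hs
  split_ifs at hs with hh
  have h1 := hh.2.choose_spec
  have h2 : hh.2.choose = l := by simpa using hs
  rw [h2] at h1
  exact ⟨hh.1, h1⟩

theorem selF_none {Q : Type} {m : ℕ} {Λ γ h : ℝ} {x : Q → ℝ} {dq : Q → ℕ} {D : ℕ} {τ : Q}
    (hs : selF m Λ γ h x dq D τ = none) :
    ¬ (dq τ ≤ D ∧ ∃ l : Fin m, -Λ + (l : ℝ) * h ≤ x τ + γ ∧ x τ + γ < -Λ + (l : ℝ) * h + h) := by
  unfold selF at hs
  split_ifs at hs with hh
  exact hh

theorem cover {m : ℕ} {Λ h z : ℝ} (hh : 0 < h) (hm : (m : ℝ) * h = 2 * Λ) (h1 : -Λ ≤ z) (h2 : z < Λ) :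
    ∃ l : Fin m, -Λ + (l : ℝ) * h ≤ z ∧ z < -Λ + (l : ℝ) * h + h := by
  have h3 : 0 ≤ (z + Λ) / h := div_nonneg (by linarith) hh.le
  have h4 : ⌊(z + Λ) / h⌋₊ < m := by
    rw [Nat.floor_lt h3, div_lt_iff₀ hh]
    linarith
  refine ⟨⟨⌊(z + Λ) / h⌋₊, h4⟩, ?_, ?_⟩
  · have := Nat.floor_le h3
    rw [le_div_iff₀ hh] at this
    simp only
    linarith
  · have := Nat.lt_floor_add_one ((z + Λ) / h)
    rw [div_lt_iff₀ hh] at this
    simp only
    linarith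

theorem psi_nonneg (B x : ℝ) : 0 ≤ psi B x := by
  unfold psi
  positivity

theorem psi_le (B x : ℝ) : psi B x ≤ x ^ 2 := by
  unfold psi
  have h1 : max 0 (min 1 (B - |x|)) ≤ 1 := max_le zero_le_one (min_le_left _ _)
  nlinarith [sq_nonneg x]

theorem psi_zero {B x : ℝ} (h : B ≤ |x|) : psi B x = 0 := by
  unfold psi
  have h1 : max 0 (min 1 (B - |x|)) = 0 := by
    apply max_eq_left
    exact (min_le_right _ _).trans (by linarith)
  rw [h1, mul_zero]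

theorem pw {B x γ g : ℝ} (hB : 1 ≤ B) (hg : |γ - g| ≤ 1) (hx : B ≤ |x|) :
    (x + γ - g) ^ 2 ≤ 4 * (x ^ 2 - psi B x) := by
  rw [psi_zero hx, sub_zero]
  have h1 : |x + γ - g| ≤ 2 * |x| := by
    calc |x + γ - g| = |x + (γ - g)| := by ring_nf
      _ ≤ |x| + |γ - g| := abs_add_le _ _
      _ ≤ 2 * |x| := by linarith
  calc (x + γ - g) ^ 2 = |x + γ - g| ^ 2 := (sq_abs _).symm
    _ ≤ (2 * |x|) ^ 2 := by gcongr
    _ = 4 * x ^ 2 := by rw [mul_pow, sq_abs]; ring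

theorem pw2 {B x γ g : ℝ} (hB : 1 ≤ B) (hg : |γ - g| ≤ 1) :
    (x + γ - g) ^ 2 ≤ 4 * (x ^ 2 - psi B x) + (2 * B ^ 2 + 2) := by
  by_cases hx : B ≤ |x|
  · have := pw hB hg hx
    nlinarith
  · push Not at hx
    have h1 := psi_le B x
    have h2 : |x + γ - g| ≤ B + 1 := by
      calc |x + γ - g| = |x + (γ - g)| := by ring_nf
        _ ≤ |x| + |γ - g| := abs_add_le _ _
        _ ≤ B + 1 := by linarith
    have h3 : (x + γ - g) ^ 2 ≤ (B + 1) ^ 2 := by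
      calc (x + γ - g) ^ 2 = |x + γ - g| ^ 2 := (sq_abs _).symm
        _ ≤ (B + 1) ^ 2 := by gcongr
    nlinarith [sq_nonneg (B - 1)]

section det

set_option linter.unusedSectionVars false

variable {Q : Type} [Fintype Q] [DecidableEq Q]

theorem TTbound {m : ℕ} {Λ γ h d0 B : ℝ} (hγ0 : 0 < γ) (hγ1 : γ ≤ 1) (hd0 : 0 < d0) (hdh : d0 ≤ h)
    (hd1 : d0 ≤ 1) (hB : 1 ≤ B) (hBΛ : B + γ ≤ Λ) (hm : (m : ℝ) * h = 2 * Λ)
    (p x : Q → ℝ) (dq : Q → ℕ) (D : ℕ) (hp : ∀ τ, 0 ≤ p τ) (hx1 : ∑ τ, p τ * x τ ^ 2 = 1)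
    (g : ℝ) (hg0 : 0 ≤ g) (hg1 : g ≤ d0) :
    ∑ τ ∈ univ.filter (fun τ => selF m Λ γ h x dq D τ = none), p τ * (x τ + γ - g) ^ 2 ≤
      4 * (1 - ∑ τ, p τ * psi B (x τ)) + (2 * B ^ 2 + 2) * ∑ τ ∈ AT dq D, p τ := by
  classical
  have hh : 0 < h := lt_of_lt_of_le hd0 hdh
  have hgg : |γ - g| ≤ 1 := by rw [abs_le]; constructor <;> linarith
  have key : ∀ τ, selF m Λ γ h x dq D τ = none →
      p τ * (x τ + γ - g) ^ 2 ≤ p τ * (4 * (x τ ^ 2 - psi B (x τ)) +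
        (2 * B ^ 2 + 2) * (if D < dq τ then 1 else 0)) := by
    intro τ hτ
    apply mul_le_mul_of_nonneg_left _ (hp τ)
    by_cases hD : D < dq τ
    · rw [if_pos hD, mul_one]
      exact pw2 hB hgg
    · rw [if_neg hD, mul_zero, add_zero]
      apply pw hB hgg
      have h1 := selF_none hτ
      by_contra hx
      push Not at hx
      apply h1
      refine ⟨not_lt.mp hD, cover hh hm ?_ ?_⟩
      · have := (abs_lt.mp hx).1
        linarith
      · have := (abs_lt.mp hx).2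
        linarith
  have nn : ∀ τ, 0 ≤ p τ * (4 * (x τ ^ 2 - psi B (x τ)) +
        (2 * B ^ 2 + 2) * (if D < dq τ then 1 else 0)) := by
    intro τ
    apply mul_nonneg (hp τ)
    have := psi_le B (x τ)
    split_ifs <;> nlinarith [sq_nonneg B]
  calc ∑ τ ∈ univ.filter (fun τ => selF m Λ γ h x dq D τ = none), p τ * (x τ + γ - g) ^ 2
      ≤ ∑ τ ∈ univ.filter (fun τ => selF m Λ γ h x dq D τ = none), p τ * (4 * (x τ ^ 2 - psi B (x τ)) +
        (2 * B ^ 2 + 2) * (if D < dq τ then 1 else 0)) := by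
        apply Finset.sum_le_sum
        intro τ hτ
        exact key τ (by simpa using hτ)
    _ ≤ ∑ τ, p τ * (4 * (x τ ^ 2 - psi B (x τ)) +
        (2 * B ^ 2 + 2) * (if D < dq τ then 1 else 0)) := by
        apply Finset.sum_le_sum_of_subset_of_nonneg (Finset.filter_subset _ _)
        intro τ _ _
        exact nn τ
    _ = 4 * (1 - ∑ τ, p τ * psi B (x τ)) + (2 * B ^ 2 + 2) * ∑ τ ∈ AT dq D, p τ := by
        unfold AT
        rw [show (4 * (1 - ∑ τ, p τ * psi B (x τ)) : ℝ) =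
          4 * (∑ τ, p τ * x τ ^ 2 - ∑ τ, p τ * psi B (x τ)) by rw [hx1]]
        rw [Finset.sum_filter, ← Finset.sum_sub_distrib, Finset.mul_sum, Finset.mul_sum,
          ← Finset.sum_add_distrib]
        apply Finset.sum_congr rfl
        intro τ _
        split_ifs <;> ring

theorem sum_ne_none {m : ℕ} (f : Option (Fin m) → ℝ) :
    ∑ l ∈ univ.filter (fun l : Option (Fin m) => l ≠ none), f l = ∑ l : Fin m, f (some l) := by
  rw [Finset.sum_filter, Fintype.sum_option]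
  simp

theorem sum_prod_eq_one {J : Type} [Fintype J] [DecidableEq J] (p : Q → ℝ) (hp1 : ∑ τ, p τ = 1) :
    ∑ τ : J → Q, ∏ j, p (τ j) = 1 := by
  have := Finset.prod_univ_sum (fun _ : J => (univ : Finset Q)) (fun _ t => p t)
  rw [Fintype.piFinset_univ] at this
  rw [← this]
  simp [hp1]

theorem sum_prod_mul {J : Type} [Fintype J] [DecidableEq J] (p : Q → ℝ) (hp1 : ∑ τ, p τ = 1)
    (f : Q → ℝ) (j : J) :
    ∑ τ : J → Q, (∏ i, p (τ i)) * f (τ j) = ∑ t, p t * f t := by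
  have := Finset.prod_univ_sum (fun _ : J => (univ : Finset Q))
    (fun i t => p t * (if i = j then f t else 1))
  rw [Fintype.piFinset_univ] at this
  have h1 : ∀ τ : J → Q, (∏ i, p (τ i)) * f (τ j) =
      ∏ i, (p (τ i) * (if i = j then f (τ i) else 1)) := by
    intro τ
    rw [Finset.prod_mul_distrib]
    congr 1
    rw [Finset.prod_ite_eq' univ j (fun i => f (τ i))]
    simp
  rw [Finset.sum_congr rfl (fun τ _ => h1 τ), ← this]
  rw [Finset.prod_eq_single j]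
  · simp
  · intro i _ hi
    simp [hi, hp1]
  · simp

theorem PE_nonneg {L : Type} [Fintype L] [DecidableEq L] (p : Q → ℝ) (hp : ∀ τ, 0 ≤ p τ)
    (sel : Q → L) (I : L → Finset Q) : 0 ≤ PE p sel I := by
  unfold PE
  exact Finset.sum_nonneg fun τ _ => Finset.prod_nonneg fun j _ => hp _

theorem PE_le_one {L : Type} [Fintype L] [DecidableEq L] (p : Q → ℝ) (hp : ∀ τ, 0 ≤ p τ)
    (hp1 : ∑ τ, p τ = 1) (sel : Q → L) (I : L → Finset Q) : PE p sel I ≤ 1 := by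
  unfold PE
  calc ∑ τ ∈ EE sel I, ∏ j, p (τ j) ≤ ∑ τ : Option L → Q, ∏ j, p (τ j) :=
        Finset.sum_le_sum_of_subset_of_nonneg (Finset.subset_univ _)
          (fun τ _ _ => Finset.prod_nonneg fun j _ => hp _)
    _ = 1 := sum_prod_eq_one p hp1

/-- expected cost on the event -/
theorem cost_event {L : Type} [Fintype L] [DecidableEq L] (p : Q → ℝ) (hp : ∀ τ, 0 ≤ p τ)
    (hp1 : ∑ τ, p τ = 1) (sel : Q → L) (I : L → Finset Q) (dq : Q → ℕ) (C ε : ℝ)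
    (hdev : ∑ τ, p τ * |(dq τ : ℝ) - C| ≤ ε * C) :
    ((Fintype.card L : ℝ) + 1) * (C * PE p sel I - ε * C) ≤
      ∑ τ ∈ EE sel I, (∏ j, p (τ j)) * (∑ j, (dq (τ j) : ℝ)) := by
  have h1 : ∀ j : Option L, C * PE p sel I - ε * C ≤
      ∑ τ ∈ EE sel I, (∏ i, p (τ i)) * (dq (τ j) : ℝ) := by
    intro j
    have h2 : ∑ τ ∈ EE sel I, (∏ i, p (τ i)) * |(dq (τ j) : ℝ) - C| ≤ ε * C := by
      calc ∑ τ ∈ EE sel I, (∏ i, p (τ i)) * |(dq (τ j) : ℝ) - C|
          ≤ ∑ τ : Option L → Q, (∏ i, p (τ i)) * |(dq (τ j) : ℝ) - C| :=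
            Finset.sum_le_sum_of_subset_of_nonneg (Finset.subset_univ _)
              (fun τ _ _ => mul_nonneg (Finset.prod_nonneg fun j _ => hp _) (abs_nonneg _))
        _ = ∑ τ, p τ * |(dq τ : ℝ) - C| :=
            sum_prod_mul p hp1 (fun t => |(dq t : ℝ) - C|) j
        _ ≤ ε * C := hdev
    have h3 : C * PE p sel I - ∑ τ ∈ EE sel I, (∏ i, p (τ i)) * |(dq (τ j) : ℝ) - C| ≤
        ∑ τ ∈ EE sel I, (∏ i, p (τ i)) * (dq (τ j) : ℝ) := by
      unfold PE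
      rw [Finset.mul_sum, ← Finset.sum_sub_distrib]
      apply Finset.sum_le_sum
      intro τ _
      have h4 : 0 ≤ ∏ i, p (τ i) := Finset.prod_nonneg fun j _ => hp _
      have h5 := neg_abs_le ((dq (τ j) : ℝ) - C)
      nlinarith
    linarith
  have h6 : ∑ τ ∈ EE sel I, (∏ j, p (τ j)) * (∑ j, (dq (τ j) : ℝ)) =
      ∑ j : Option L, ∑ τ ∈ EE sel I, (∏ i, p (τ i)) * (dq (τ j) : ℝ) := by
    rw [Finset.sum_comm]
    apply Finset.sum_congr rfl
    intro τ _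
    rw [Finset.mul_sum]
  rw [h6]
  calc ((Fintype.card L : ℝ) + 1) * (C * PE p sel I - ε * C)
      = ∑ j : Option L, (C * PE p sel I - ε * C) := by
        rw [Finset.sum_const, Finset.card_univ, Fintype.card_option, nsmul_eq_mul]
        push_cast
        ring
    _ ≤ _ := Finset.sum_le_sum fun j _ => h1 j

theorem det (hVARC : Spec.VARC) (hSECM : Spec.SECM)
    (m : ℕ) (Λ γ h d0 B : ℝ) (hγ0 : 0 < γ) (hγ1 : γ ≤ 1) (hd0 : 0 < d0) (hdh : d0 ≤ h)
    (hd1 : d0 ≤ 1) (hB : 1 ≤ B) (hBΛ : B + γ ≤ Λ) (hm : (m : ℝ) * h = 2 * Λ)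
    (p x : Q → ℝ) (dq : Q → ℕ) (D : ℕ) (V C ε δ P0 : ℝ)
    (hp : ∀ τ, 0 ≤ p τ) (hp1 : ∑ τ, p τ = 1) (hx0 : ∑ τ, p τ * x τ = 0)
    (hx1 : ∑ τ, p τ * x τ ^ 2 = 1)
    (hV : 0 < V) (hC : 0 < C) (hCm : ∑ τ, p τ * (dq τ : ℝ) = C) (hε : 0 < ε)
    (hD : (D : ℝ) ≤ (1 + ε) * C)
    (hdev : ∑ τ, p τ * |(dq τ : ℝ) - C| ≤ ε * C)
    (hpl : ∀ l, 0 < ∑ τ ∈ II m Λ h d0 x dq D l, p τ)
    (hP0 : 0 ≤ P0) (hPi : P0 ≤ ∏ l, ∑ τ ∈ II m Λ h d0 x dq D l, p τ) (hδ : 0 < δ)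
    (hbr : (∑ l : Fin m, (∑ τ ∈ JJ m Λ γ h x l, p τ) / ∑ τ ∈ II m Λ h d0 x dq D (some l), p τ) *
          (h ^ 2 + ((m : ℝ) + 1) * d0 ^ 2)
        + (4 * (1 - ∑ τ, p τ * psi B (x τ)) + (2 * B ^ 2 + 2) * ∑ τ ∈ AT dq D, p τ
            + ((m : ℝ) + 1) * d0 ^ 2) / (∑ τ ∈ II m Λ h d0 x dq D none, p τ) - γ ^ 2 ≤ -δ) :
    V * ((m : ℝ) + 2 - PE p (selF m Λ γ h x dq D) (II m Λ h d0 x dq D) + P0 * δ) ≤
      ∑ o, gp p (selF m Λ γ h x dq D) (II m Λ h d0 x dq D) o *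
        gy p (fun τ => √V * x τ) (selF m Λ γ h x dq D) (II m Λ h d0 x dq D) o ^ 2 ∧
    ∑ o, gp p (selF m Λ γ h x dq D) (II m Λ h d0 x dq D) o *
        (gd (L := Option (Fin m)) dq D o : ℝ) ≤
      C * ((m : ℝ) + 2 - PE p (selF m Λ γ h x dq D) (II m Λ h d0 x dq D) + 2 * ((m : ℝ) + 2) * ε) := by
  classical
  set sel := selF m Λ γ h x dq D with hsel
  set I := II m Λ h d0 x dq D with hI
  have hh : 0 < h := lt_of_lt_of_le hd0 hdh
  have hcard : (Fintype.card (Option (Fin m)) : ℝ) = (m : ℝ) + 1 := by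
    rw [Fintype.card_option, Fintype.card_fin]; push_cast; ring
  have hPE0 := PE_nonneg p hp sel I
  have hPE1 := PE_le_one p hp hp1 sel I
  constructor
  · -- variance
    obtain ⟨s, hs⟩ := hSECM p x sel none I (al m Λ h) γ h d0
      (4 * (1 - ∑ τ, p τ * psi B (x τ)) + (2 * B ^ 2 + 2) * ∑ τ ∈ AT dq D, p τ)
      hp hp1 hx0 hx1 hd0.le hdh hpl
      (by
        intro l τ hτ
        rw [hI] at hτ
        unfold II at hτ
        rw [Finset.mem_filter] at hτ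
        exact ⟨hτ.2.1, hτ.2.2.1.le⟩)
      (by
        intro τ hτ
        obtain ⟨l, hl⟩ := Option.ne_none_iff_exists'.mp hτ
        have := selF_some (hsel ▸ hl)
        rw [hl]
        exact ⟨this.2.1, this.2.2.le⟩)
      (by
        intro g hg0 hg1
        have hg0' : 0 ≤ g := hg0
        have hg1' : g ≤ d0 := by
          have : al m Λ h none = 0 := rfl
          rw [this, zero_add] at hg1
          exact hg1
        exact TTbound hγ0 hγ1 hd0 hdh hd1 hB hBΛ hm p x dq D hp hx1 g hg0' hg1')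
    have hbr2 : ((∑ l ∈ univ.filter (fun l : Option (Fin m) => l ≠ none),
          (∑ τ ∈ univ.filter (fun τ => sel τ = l), p τ) / (∑ τ ∈ I l, p τ)) *
            (h ^ 2 + (Fintype.card (Option (Fin m)) : ℝ) * d0 ^ 2)
        + (4 * (1 - ∑ τ, p τ * psi B (x τ)) + (2 * B ^ 2 + 2) * ∑ τ ∈ AT dq D, p τ
          + (Fintype.card (Option (Fin m)) : ℝ) * d0 ^ 2) / (∑ τ ∈ I none, p τ) - γ ^ 2) ≤ -δ := by
      refine le_trans ?_ hbr
      rw [hcard, sum_ne_none (fun l => (∑ τ ∈ univ.filter (fun τ => sel τ = l), p τ) / (∑ τ ∈ I l, p τ))]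
      have h2 : ∑ l : Fin m, (∑ τ ∈ univ.filter (fun τ => sel τ = some l), p τ) / (∑ τ ∈ I (some l), p τ)
          ≤ ∑ l : Fin m, (∑ τ ∈ JJ m Λ γ h x l, p τ) / ∑ τ ∈ I (some l), p τ := by
        apply Finset.sum_le_sum
        intro l _
        apply div_le_div_of_nonneg_right _ (hpl (some l)).le
        apply Finset.sum_le_sum_of_subset_of_nonneg
        · intro τ hτ
          rw [Finset.mem_filter] at hτ
          have := selF_some (hsel ▸ hτ.2)
          unfold JJ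
          rw [Finset.mem_filter]
          refine ⟨Finset.mem_univ _, by linarith [this.2.1], by linarith [this.2.2]⟩
        · intro τ _ _
          exact hp τ
      have h3 : 0 ≤ h ^ 2 + ((m : ℝ) + 1) * d0 ^ 2 := by positivity
      have := mul_le_mul_of_nonneg_right h2 h3
      linarith
    have hsec : ∑ τ ∈ EE sel I, (∏ j, p (τ j)) * (∑ j, x (τ j) - s) ^ 2 ≤ PE p sel I - P0 * δ := by
      refine hs.trans ?_
      have hPpos : 0 ≤ ∏ l, ∑ τ ∈ I l, p τ := hP0.trans hPi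
      have h4 := mul_le_mul_of_nonneg_left hbr2 hPpos
      have h5 : P0 * δ ≤ (∏ l, ∑ τ ∈ I l, p τ) * δ := mul_le_mul_of_nonneg_right hPi hδ.le
      linarith
    have hv := (hVARC p (fun τ => √V * x τ) dq sel I D hp hp1
      (by
        have : ∀ τ, p τ * (√V * x τ) = √V * (p τ * x τ) := fun τ => by ring
        simp only [this]
        rw [← Finset.mul_sum, hx0, mul_zero])).1 (√V * s)
    have h6 : ∑ τ, p τ * (√V * x τ) ^ 2 = V := by
      have : ∀ τ, p τ * (√V * x τ) ^ 2 = V * (p τ * x τ ^ 2) := fun τ => by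
        rw [mul_pow, Real.sq_sqrt hV.le]; ring
      simp only [this]
      rw [← Finset.mul_sum, hx1, mul_one]
    have h7 : ∑ τ ∈ EE sel I, (∏ j, p (τ j)) * (∑ j, √V * x (τ j) - √V * s) ^ 2 =
        V * ∑ τ ∈ EE sel I, (∏ j, p (τ j)) * (∑ j, x (τ j) - s) ^ 2 := by
      rw [Finset.mul_sum]
      apply Finset.sum_congr rfl
      intro τ _
      rw [← Finset.mul_sum, ← mul_sub, mul_pow, Real.sq_sqrt hV.le]
      ring
    rw [h6, h7, hcard] at hv
    have h8 := mul_le_mul_of_nonneg_left hsec hV.le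
    nlinarith
  · -- cost
    have hc := (hVARC p x dq sel I D hp hp1 hx0).2
    rw [hc, hCm, hcard]
    have h1 := cost_event p hp hp1 sel I dq C ε hdev
    rw [hcard] at h1
    have h2 : PE p sel I * (((m : ℝ) + 1) * D) ≤ PE p sel I * (((m : ℝ) + 1) * ((1 + ε) * C)) := by
      gcongr
    have hm0 : (0 : ℝ) ≤ m := Nat.cast_nonneg m
    have h3 : PE p sel I * (((m : ℝ) + 1) * (ε * C)) ≤ 1 * (((m : ℝ) + 1) * (ε * C)) := by
      apply mul_le_mul_of_nonneg_right hPE1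
      positivity
    have h4 : 0 ≤ ε * C := by positivity
    nlinarith

end det

end Crest.GS.Step
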