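import Crest.Agent.GSStepDet

/-!
Row 63, module STEP, limit part.
-/

set_option autoImplicit false

namespace Crest.GS.Step

open Finset MeasureTheory ProbabilityTheory Filter Topology

section basics

variable {T : Type} [Fintype T] [DecidableEq T]

theorem sum_prod_mul2 {J : Type} [Fintype J] [DecidableEq J] (p : T → ℝ) (hp1 : ∑ τ, p τ = 1)
    (f g : T → ℝ) (j k : J) (hjk : j ≠ k) :
    ∑ τ : J → T, (∏ i, p (τ i)) * (f (τ j) * g (τ k)) = (∑ t, p t * f t) * ∑ t, p t * g t := by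
  have := Finset.prod_univ_sum (fun _ : J => (univ : Finset T))
    (fun i t => p t * ((if i = j then f t else 1) * (if i = k then g t else 1)))
  rw [Fintype.piFinset_univ] at this
  have h1 : ∀ τ : J → T, (∏ i, p (τ i)) * (f (τ j) * g (τ k)) =
      ∏ i, (p (τ i) * ((if i = j then f (τ i) else 1) * (if i = k then g (τ i) else 1))) := by
    intro τ
    rw [Finset.prod_mul_distrib, Finset.prod_mul_distrib]
    congr 1
    rw [Finset.prod_ite_eq' univ j (fun i => f (τ i)), Finset.prod_ite_eq' univ k (fun i => g (τ i))]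
    simp
  rw [Finset.sum_congr rfl (fun τ _ => h1 τ), ← this]
  rw [← Finset.mul_prod_erase univ _ (Finset.mem_univ j)]
  rw [← Finset.mul_prod_erase (univ.erase j) _ (Finset.mem_erase.mpr ⟨hjk.symm, Finset.mem_univ k⟩)]
  have h2 : ∏ x ∈ (univ.erase j).erase k, ∑ t, p t * ((if x = j then f t else 1) * (if x = k then g t else 1)) = 1 := by
    apply Finset.prod_eq_one
    intro i hi
    rw [Finset.mem_erase, Finset.mem_erase] at hi
    simp [hi.1, hi.2.1, hp1]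
  rw [h2, mul_one]
  simp [hjk, hjk.symm]

theorem second_moment {J : Type} [Fintype J] [DecidableEq J] (p : T → ℝ) (hp1 : ∑ τ, p τ = 1)
    (z : T → ℝ) (hz : ∑ t, p t * z t = 0) :
    ∑ τ : J → T, (∏ i, p (τ i)) * (∑ j, z (τ j)) ^ 2 = (Fintype.card J : ℝ) * ∑ t, p t * z t ^ 2 := by
  have h1 : ∀ τ : J → T, (∏ i, p (τ i)) * (∑ j, z (τ j)) ^ 2 =
      ∑ j, ∑ k, (∏ i, p (τ i)) * (z (τ j) * z (τ k)) := by
    intro τ
    rw [sq, Finset.sum_mul_sum, Finset.mul_sum]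
    apply Finset.sum_congr rfl
    intro j _
    rw [Finset.mul_sum]
  rw [Finset.sum_congr rfl (fun τ _ => h1 τ), Finset.sum_comm]
  have h2 : ∀ j : J, ∑ τ : J → T, ∑ k, (∏ i, p (τ i)) * (z (τ j) * z (τ k)) = ∑ t, p t * z t ^ 2 := by
    intro j
    rw [Finset.sum_comm, Finset.sum_eq_single j]
    · rw [sum_prod_mul p hp1 (fun t => z t * z t) j]
      apply Finset.sum_congr rfl
      intro t _
      ring
    · intro k _ hk
      rw [sum_prod_mul2 p hp1 z z j k hk.symm, hz, zero_mul]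
    · simp
  rw [Finset.sum_congr rfl (fun j _ => h2 j), Finset.sum_const, Finset.card_univ, nsmul_eq_mul]

theorem first_moment {J : Type} [Fintype J] [DecidableEq J] (p : T → ℝ) (hp1 : ∑ τ, p τ = 1)
    (z : T → ℝ) :
    ∑ τ : J → T, (∏ i, p (τ i)) * (∑ j, z (τ j)) = (Fintype.card J : ℝ) * ∑ t, p t * z t := by
  have h1 : ∀ τ : J → T, (∏ i, p (τ i)) * (∑ j, z (τ j)) =
      ∑ j, (∏ i, p (τ i)) * z (τ j) := by
    intro τ
    rw [Finset.mul_sum]
  rw [Finset.sum_congr rfl (fun τ _ => h1 τ), Finset.sum_comm]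
  rw [Finset.sum_congr rfl (fun j _ => sum_prod_mul p hp1 z j), Finset.sum_const, Finset.card_univ,
    nsmul_eq_mul]

end basics

/-- weight of the tuple -/
noncomputable def pR {T : Type} (p : T → ℝ) (R : ℕ) (τ : Fin R → T) : ℝ := ∏ r, p (τ r)

/-- normalised label -/
noncomputable def XR {T : Type} (z : T → ℝ) (R : ℕ) (τ : Fin R → T) : ℝ := (∑ r, z (τ r)) / √R

/-- cost -/
def dR {T : Type} (d : T → ℕ) (R : ℕ) (τ : Fin R → T) : ℕ := ∑ r, d (τ r)

section lim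

variable {T : Type} [Fintype T] [DecidableEq T]

theorem pos_Ico (a b : ℝ) (hab : a < b) : 0 < μG.real (Set.Ico a b) := by
  rw [measureReal_def, ENNReal.toReal_pos_iff]
  haveI : IsProbabilityMeasure μG := by unfold μG; infer_instance
  refine ⟨?_, measure_lt_top _ _⟩
  rw [pos_iff_ne_zero]
  intro h0
  have hv : (1 : NNReal) ≠ 0 := one_ne_zero
  have := gaussianReal_absolutelyContinuous' (0 : ℝ) hv h0
  rw [Real.volume_Ico] at this
  have h2 : b - a ≤ 0 := by simpa using this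
  linarith

theorem psi_cont (B : ℝ) : Continuous (psi B) := by
  unfold psi
  fun_prop

theorem psi_bdd (B : ℝ) (hB : 1 ≤ B) : ∃ K, ∀ t, |psi B t| ≤ K := by
  refine ⟨B ^ 2, fun t => ?_⟩
  rw [abs_of_nonneg (psi_nonneg B t)]
  by_cases h : B ≤ |t|
  · rw [psi_zero h]; positivity
  · push Not at h
    refine (psi_le B t).trans ?_
    rw [← sq_abs]
    have := abs_nonneg t
    gcongr

/-- atypical probability tends to zero -/
theorem lim_at (hLLN : Spec.LLN) (p : T → ℝ) (d : T → ℕ) (hp : ∀ τ, 0 ≤ p τ) (hp1 : ∑ τ, p τ = 1)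
    (c ε : ℝ) (hc : ∑ t, p t * (d t : ℝ) = c) (hc0 : 0 < c) (hε : 0 < ε) :
    Tendsto (fun R : ℕ => ∑ τ ∈ AT (dR d R) ⌊(1 + ε) * (R * c)⌋₊, pR p R τ) atTop (𝓝 0) := by
  classical
  have h1 := hLLN p (fun t => (d t : ℝ)) hp hp1
  rw [hc] at h1
  have h2 : Tendsto (fun R : ℕ => (1 / (ε * c)) *
      ((∑ τ : Fin R → T, (∏ r, p (τ r)) * |∑ r, (d (τ r) : ℝ) - R * c|) / R)) atTop (𝓝 0) := by
    have := h1.const_mul (1 / (ε * c))
    rwa [mul_zero] at this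
  refine squeeze_zero' ?_ ?_ h2
  · filter_upwards with R
    exact Finset.sum_nonneg fun τ _ => Finset.prod_nonneg fun r _ => hp _
  · filter_upwards [eventually_ge_atTop 1] with R hR
    have hR0 : (0 : ℝ) < R := by exact_mod_cast hR
    rw [div_mul_div_comm, one_mul, le_div_iff₀ (by positivity)]
    rw [Finset.sum_mul]
    calc ∑ τ ∈ AT (dR d R) ⌊(1 + ε) * (R * c)⌋₊, pR p R τ * (ε * c * R)
        ≤ ∑ τ ∈ AT (dR d R) ⌊(1 + ε) * (R * c)⌋₊, (∏ r, p (τ r)) * |∑ r, (d (τ r) : ℝ) - R * c| := by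
          apply Finset.sum_le_sum
          intro τ hτ
          unfold AT at hτ
          rw [Finset.mem_filter] at hτ
          unfold pR
          apply mul_le_mul_of_nonneg_left _ (Finset.prod_nonneg fun r _ => hp _)
          have h3 : (1 + ε) * (R * c) < (dR d R τ : ℝ) := (Nat.floor_lt (by positivity)).mp hτ.2
          unfold dR at h3
          push_cast at h3
          refine le_trans ?_ (le_abs_self _)
          linarith
      _ ≤ _ := Finset.sum_le_sum_of_subset_of_nonneg (Finset.subset_univ _)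
          (fun τ _ _ => mul_nonneg (Finset.prod_nonneg fun r _ => hp _) (abs_nonneg _))

theorem lim_JJ (hCLT : Spec.CLTF) (p z : T → ℝ) (hp : ∀ τ, 0 ≤ p τ) (hp1 : ∑ τ, p τ = 1)
    (hz0 : ∑ t, p t * z t = 0) (hz1 : ∑ t, p t * z t ^ 2 = 1) (m : ℕ) (Λ γ h : ℝ) (l : Fin m) :
    Tendsto (fun R : ℕ => ∑ τ ∈ JJ m Λ γ h (XR z R) l, pR p R τ) atTop
      (𝓝 (μG.real (Set.Ico (-Λ + l * h - γ) (-Λ + l * h - γ + h)))) := by
  classical
  have := (hCLT p z hp hp1 hz0 hz1).1 (-Λ + l * h - γ) (-Λ + l * h - γ + h)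
  refine this.congr ?_
  intro R
  unfold JJ
  rw [Finset.sum_filter]
  apply Finset.sum_congr rfl
  intro τ _
  unfold XR pR
  by_cases hc : -Λ + (l : ℝ) * h - γ ≤ (∑ r, z (τ r)) / √R ∧ (∑ r, z (τ r)) / √R < -Λ + (l : ℝ) * h - γ + h
  · rw [if_pos hc, if_pos hc, mul_one]
  · rw [if_neg hc, if_neg hc, mul_zero]

theorem lim_II (hLLN : Spec.LLN) (hCLT : Spec.CLTF) (p z : T → ℝ) (d : T → ℕ) (hp : ∀ τ, 0 ≤ p τ)
    (hp1 : ∑ τ, p τ = 1)
    (hz0 : ∑ t, p t * z t = 0) (hz1 : ∑ t, p t * z t ^ 2 = 1)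
    (c ε : ℝ) (hc : ∑ t, p t * (d t : ℝ) = c) (hc0 : 0 < c) (hε : 0 < ε)
    (m : ℕ) (Λ h d0 : ℝ) (l : Option (Fin m)) :
    Tendsto (fun R : ℕ => ∑ τ ∈ II m Λ h d0 (XR z R) (dR d R) ⌊(1 + ε) * (R * c)⌋₊ l, pR p R τ) atTop
      (𝓝 (μG.real (Set.Ico (al m Λ h l) (al m Λ h l + d0)))) := by
  classical
  have h1 := (hCLT p z hp hp1 hz0 hz1).1 (al m Λ h l) (al m Λ h l + d0)
  have h2 := lim_at hLLN p d hp hp1 c ε hc hc0 hε
  have h3 := h1.sub h2
  rw [sub_zero] at h3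
  refine tendsto_of_tendsto_of_tendsto_of_le_of_le h3 h1 ?_ ?_
  · intro R
    simp only
    unfold II AT
    rw [Finset.sum_filter, Finset.sum_filter, ← Finset.sum_sub_distrib]
    apply Finset.sum_le_sum
    intro τ _
    have h4 : 0 ≤ ∏ r, p (τ r) := Finset.prod_nonneg fun r _ => hp _
    unfold XR pR
    by_cases hD : ⌊(1 + ε) * (R * c)⌋₊ < dR d R τ
    · rw [if_pos hD]
      have : ¬ dR d R τ ≤ ⌊(1 + ε) * (R * c)⌋₊ := not_le.mpr hD
      simp only [this, and_false, if_false]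
      split_ifs <;> linarith
    · rw [if_neg hD]
      have h5 : dR d R τ ≤ ⌊(1 + ε) * (R * c)⌋₊ := not_lt.mp hD
      simp only [h5, and_true, sub_zero]
      by_cases h6 : al m Λ h l ≤ (∑ r, z (τ r)) / √R ∧ (∑ r, z (τ r)) / √R < al m Λ h l + d0
      · rw [if_pos h6, if_pos h6, mul_one]
      · rw [if_neg h6, if_neg h6, mul_zero]
  · intro R
    simp only
    unfold II
    rw [Finset.sum_filter]
    apply Finset.sum_le_sum
    intro τ _
    have h4 : 0 ≤ ∏ r, p (τ r) := Finset.prod_nonneg fun r _ => hp _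
    unfold XR pR
    by_cases h6 : al m Λ h l ≤ (∑ r, z (τ r)) / √R ∧ (∑ r, z (τ r)) / √R < al m Λ h l + d0
    · rw [if_pos h6, mul_one]
      split_ifs <;> linarith
    · rw [if_neg h6, mul_zero, if_neg]
      intro h7
      exact h6 ⟨h7.1, h7.2.1⟩

theorem lim_dev (hLLN : Spec.LLN) (p : T → ℝ) (d : T → ℕ) (hp : ∀ τ, 0 ≤ p τ) (hp1 : ∑ τ, p τ = 1)
    (c ε : ℝ) (hc : ∑ t, p t * (d t : ℝ) = c) (hc0 : 0 < c) (hε : 0 < ε) :
    ∀ᶠ R : ℕ in atTop, ∑ τ, pR p R τ * |(dR d R τ : ℝ) - R * c| ≤ ε * (R * c) := by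
  have h1 := hLLN p (fun t => (d t : ℝ)) hp hp1
  rw [hc] at h1
  have h2 := h1.eventually (eventually_le_nhds (show (0 : ℝ) < ε * c by positivity))
  filter_upwards [h2, eventually_ge_atTop 1] with R h3 hR
  have hR0 : (0 : ℝ) < R := by exact_mod_cast hR
  rw [div_le_iff₀ hR0] at h3
  unfold pR dR
  push_cast
  linarith

end lim

/-- the limit statement for one source -/
theorem step_one (hPROD : Spec.PROD) (hGADG : Spec.GADG) (hVARC : Spec.VARC) (hSECM : Spec.SECM)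
    (hLLN : Spec.LLN) (hCLT : Spec.CLTF)
    (m : ℕ) (Λ γ h d0 B : ℝ) (hγ0 : 0 < γ) (hγ1 : γ ≤ 1) (hd0 : 0 < d0) (hdh : d0 ≤ h)
    (hd1 : d0 ≤ 1) (hB : 1 ≤ B) (hBΛ : B + γ ≤ Λ) (hm : (m : ℝ) * h = 2 * Λ)
    (G δ PG ε : ℝ)
    (hG : G = (∑ l : Fin m, μG.real (Set.Ico (-Λ + l * h - γ) (-Λ + l * h - γ + h)) /
      μG.real (Set.Ico (-Λ + l * h) (-Λ + l * h + d0))) * (h ^ 2 + ((m : ℝ) + 1) * d0 ^ 2)
    + (4 * (1 - ∫ t, psi B t ∂μG) + ((m : ℝ) + 1) * d0 ^ 2) / μG.real (Set.Ico 0 d0))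
    (hδ : 0 < δ) (hGδ : G + 2 * δ = γ ^ 2)
    (hPG : PG = ∏ l, μG.real (Set.Ico (al m Λ h l) (al m Λ h l + d0)))
    (hε0 : 0 < ε) (hε1 : ε ≤ 1 / 2) (hε2 : 8 * ((m : ℝ) + 2) * ε ≤ PG * δ)
    (ρ : ℝ) (hρ : 0 < ρ) (hA : Ach ρ)
    (hnonneg : ∀ {T : Type} [Fintype T] [DecidableEq T] (p y : T → ℝ) (d : T → ℕ), Rlz p y d → ∀ τ, 0 ≤ p τ)
    (hsum : ∀ {T : Type} [Fintype T] [DecidableEq T] (p y : T → ℝ) (d : T → ℕ), Rlz p y d → ∑ τ, p τ = 1)
    (hmean : ∀ {T : Type} [Fintype T] [DecidableEq T] (p y : T → ℝ) (d : T → ℕ), Rlz p y d →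
      ∑ τ, p τ * y τ = 0) :
    Ach ((1 + ε) * ρ) := by
  classical
  obtain ⟨T, iF, iD, p, y, d, hR, hd, hv, hρv⟩ := hA
  set v := ∑ τ, p τ * y τ ^ 2 with hvdef
  set c := ∑ τ, p τ * (d τ : ℝ) with hcdef
  have hp := hnonneg p y d hR
  have hp1 := hsum p y d hR
  have hy0 := hmean p y d hR
  have hc1 : 1 ≤ c := by
    rw [hcdef, ← hp1]
    apply Finset.sum_le_sum
    intro τ _
    have : (1 : ℝ) ≤ (d τ : ℝ) := by exact_mod_cast hd τ
    nlinarith [hp τ]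
  have hc0 : 0 < c := by linarith
  set z : T → ℝ := fun t => y t / √v with hzdef
  have hsv : 0 < √v := Real.sqrt_pos.mpr hv
  have hz0 : ∑ t, p t * z t = 0 := by
    have : ∀ t, p t * z t = (p t * y t) / √v := fun t => by rw [hzdef]; ring
    rw [Finset.sum_congr rfl (fun t _ => this t), ← Finset.sum_div, hy0, zero_div]
  have hz1 : ∑ t, p t * z t ^ 2 = 1 := by
    have : ∀ t, p t * z t ^ 2 = (p t * y t ^ 2) / v := fun t => by
      rw [hzdef]
      simp only [div_pow, Real.sq_sqrt hv.le]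
      ring
    rw [Finset.sum_congr rfl (fun t _ => this t), ← Finset.sum_div, ← hvdef, div_self hv.ne']
  -- the limits
  have hKpos : ∀ l, 0 < μG.real (Set.Ico (al m Λ h l) (al m Λ h l + d0)) := fun l =>
    pos_Ico _ _ (by linarith)
  have hPGpos : 0 < PG := by
    rw [hPG]
    exact Finset.prod_pos fun l _ => hKpos l
  have L1 := lim_at hLLN p d hp hp1 c ε hcdef.symm hc0 hε0
  have L2 := fun l => lim_II hLLN hCLT p z d hp hp1 hz0 hz1 c ε hcdef.symm hc0 hε0 m Λ h d0 l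
  have L3 := fun l => lim_JJ hCLT p z hp hp1 hz0 hz1 m Λ γ h l
  have L4 := lim_dev hLLN p d hp hp1 c ε hcdef.symm hc0 hε0
  have L5 : Tendsto (fun R : ℕ => ∑ τ, pR p R τ * psi B (XR z R τ)) atTop (𝓝 (∫ t, psi B t ∂μG)) :=
    (hCLT p z hp hp1 hz0 hz1).2 (psi B) (psi_cont B) (psi_bdd B hB)
  have E1 : ∀ᶠ R : ℕ in atTop, ∀ l, 0 < ∑ τ ∈ II m Λ h d0 (XR z R) (dR d R) ⌊(1 + ε) * (R * c)⌋₊ l, pR p R τ := by
    rw [Filter.eventually_all]
    intro l
    exact (L2 l).eventually (eventually_gt_nhds (hKpos l))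
  have E2 : ∀ᶠ R : ℕ in atTop, PG / 2 ≤
      ∏ l, ∑ τ ∈ II m Λ h d0 (XR z R) (dR d R) ⌊(1 + ε) * (R * c)⌋₊ l, pR p R τ := by
    have : Tendsto (fun R : ℕ => ∏ l, ∑ τ ∈ II m Λ h d0 (XR z R) (dR d R) ⌊(1 + ε) * (R * c)⌋₊ l, pR p R τ)
        atTop (𝓝 PG) := by
      rw [hPG]
      exact tendsto_finset_prod _ fun l _ => L2 l
    exact this.eventually (eventually_ge_nhds (by linarith))
  have E3 : ∀ᶠ R : ℕ in atTop,
      (∑ l : Fin m, (∑ τ ∈ JJ m Λ γ h (XR z R) l, pR p R τ) /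
          ∑ τ ∈ II m Λ h d0 (XR z R) (dR d R) ⌊(1 + ε) * (R * c)⌋₊ (some l), pR p R τ) *
          (h ^ 2 + ((m : ℝ) + 1) * d0 ^ 2)
        + (4 * (1 - ∑ τ, pR p R τ * psi B (XR z R τ)) +
            (2 * B ^ 2 + 2) * ∑ τ ∈ AT (dR d R) ⌊(1 + ε) * (R * c)⌋₊, pR p R τ
            + ((m : ℝ) + 1) * d0 ^ 2) /
          (∑ τ ∈ II m Λ h d0 (XR z R) (dR d R) ⌊(1 + ε) * (R * c)⌋₊ none, pR p R τ) - γ ^ 2 ≤ -δ := by
    have h1 : Tendsto (fun R : ℕ => (∑ l : Fin m, (∑ τ ∈ JJ m Λ γ h (XR z R) l, pR p R τ) /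
          ∑ τ ∈ II m Λ h d0 (XR z R) (dR d R) ⌊(1 + ε) * (R * c)⌋₊ (some l), pR p R τ) *
          (h ^ 2 + ((m : ℝ) + 1) * d0 ^ 2)
        + (4 * (1 - ∑ τ, pR p R τ * psi B (XR z R τ)) +
            (2 * B ^ 2 + 2) * ∑ τ ∈ AT (dR d R) ⌊(1 + ε) * (R * c)⌋₊, pR p R τ
            + ((m : ℝ) + 1) * d0 ^ 2) /
          (∑ τ ∈ II m Λ h d0 (XR z R) (dR d R) ⌊(1 + ε) * (R * c)⌋₊ none, pR p R τ) - γ ^ 2) atTop
        (𝓝 ((∑ l : Fin m, μG.real (Set.Ico (-Λ + l * h - γ) (-Λ + l * h - γ + h)) /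
            μG.real (Set.Ico (al m Λ h (some l)) (al m Λ h (some l) + d0))) *
              (h ^ 2 + ((m : ℝ) + 1) * d0 ^ 2)
          + (4 * (1 - ∫ t, psi B t ∂μG) + (2 * B ^ 2 + 2) * 0 + ((m : ℝ) + 1) * d0 ^ 2) /
            μG.real (Set.Ico (al m Λ h none) (al m Λ h none + d0)) - γ ^ 2)) := by
      refine Tendsto.sub (Tendsto.add (Tendsto.mul_const _ ?_) (Tendsto.div ?_ (L2 none) (hKpos none).ne'))
        tendsto_const_nhds
      · exact tendsto_finset_sum _ fun l _ => Tendsto.div (L3 l) (L2 (some l)) (hKpos (some l)).ne'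
      · exact ((((tendsto_const_nhds.sub L5).const_mul 4).add (L1.const_mul _)).add tendsto_const_nhds)
    have h2 : (∑ l : Fin m, μG.real (Set.Ico (-Λ + l * h - γ) (-Λ + l * h - γ + h)) /
            μG.real (Set.Ico (al m Λ h (some l)) (al m Λ h (some l) + d0))) *
              (h ^ 2 + ((m : ℝ) + 1) * d0 ^ 2)
          + (4 * (1 - ∫ t, psi B t ∂μG) + (2 * B ^ 2 + 2) * 0 + ((m : ℝ) + 1) * d0 ^ 2) /
            μG.real (Set.Ico (al m Λ h none) (al m Λ h none + d0)) - γ ^ 2 = -(2 * δ) := by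
      have h3 : -(2 * δ) = G - γ ^ 2 := by linarith
      rw [h3, hG, mul_zero, add_zero]
      simp only [al, zero_add]
    rw [h2] at h1
    exact h1.eventually (eventually_le_nhds (by linarith))
  obtain ⟨R, hE1, hE2, hE3, hE4, hR1⟩ :=
    (E1.and (E2.and (E3.and (L4.and (eventually_ge_atTop 1))))).exists
  have hR0 : (0 : ℝ) < R := by exact_mod_cast hR1
  set D := ⌊(1 + ε) * (R * c)⌋₊ with hD
  have hRc1 : 1 ≤ R * c := by
    have : (1 : ℝ) ≤ R := by exact_mod_cast hR1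
    nlinarith
  have hD1 : 1 ≤ D := by
    rw [hD, Nat.one_le_floor_iff]
    nlinarith
  have hDle : (D : ℝ) ≤ (1 + ε) * (R * c) := Nat.floor_le (by positivity)
  have hq0 : ∀ τ, 0 ≤ pR p R τ := fun τ => Finset.prod_nonneg fun r _ => hp _
  have hq1 : ∑ τ, pR p R τ = 1 := sum_prod_eq_one p hp1
  have hX0 : ∑ τ, pR p R τ * XR z R τ = 0 := by
    have h1 := first_moment (J := Fin R) p hp1 z
    rw [hz0, mul_zero] at h1
    have h2 : ∀ τ : Fin R → T, pR p R τ * XR z R τ = ((∏ i, p (τ i)) * (∑ j, z (τ j))) / √R := by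
      intro τ
      unfold pR XR
      ring
    rw [Finset.sum_congr rfl (fun τ _ => h2 τ), ← Finset.sum_div, h1, zero_div]
  have hX1 : ∑ τ, pR p R τ * XR z R τ ^ 2 = 1 := by
    have h1 := second_moment (J := Fin R) p hp1 z hz0
    rw [hz1, mul_one, Fintype.card_fin] at h1
    have h2 : ∀ τ : Fin R → T, pR p R τ * XR z R τ ^ 2 = ((∏ i, p (τ i)) * (∑ j, z (τ j)) ^ 2) / R := by
      intro τ
      unfold pR XR
      rw [div_pow, Real.sq_sqrt hR0.le]
      ring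
    rw [Finset.sum_congr rfl (fun τ _ => h2 τ), ← Finset.sum_div, h1, div_self hR0.ne']
  have hC1 : ∑ τ, pR p R τ * (dR d R τ : ℝ) = R * c := by
    have h1 := first_moment (J := Fin R) p hp1 (fun t => (d t : ℝ))
    rw [Fintype.card_fin] at h1
    rw [← hcdef] at h1
    rw [← h1]
    unfold pR dR
    push_cast
    rfl
  have hVpos : 0 < R * v := by positivity
  have hCpos : 0 < R * c := by positivity
  obtain ⟨hV', hC'⟩ := det hVARC hSECM m Λ γ h d0 B hγ0 hγ1 hd0 hdh hd1 hB hBΛ hm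
    (pR p R) (XR z R) (dR d R) D (R * v) (R * c) ε δ (PG / 2) hq0 hq1 hX0 hX1 hVpos hCpos hC1 hε0 hDle
    hE4 hE1 (by positivity) hE2 hδ hE3
  set sel := selF m Λ γ h (XR z R) (dR d R) D with hsel
  set I := II m Λ h d0 (XR z R) (dR d R) D with hI
  have hlab : (fun τ : Fin R → T => √(R * v) * XR z R τ) = fun τ => ∑ r, y (τ r) := by
    funext τ
    unfold XR
    rw [hzdef]
    simp only
    rw [← Finset.sum_div, Real.sqrt_mul hR0.le]
    have : √(R : ℝ) ≠ 0 := (Real.sqrt_pos.mpr hR0).ne'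
    field_simp
  rw [hlab] at hV'
  have hRlz : Rlz (pR p R) (fun τ => ∑ r, y (τ r)) (dR d R) := hPROD p y d (Fin R) hR
  have hRlz2 := hGADG (pR p R) (fun τ => ∑ r, y (τ r)) (dR d R) sel none I D hRlz
    (by
      intro τ hτ
      obtain ⟨l, hl⟩ := Option.ne_none_iff_exists'.mp hτ
      exact (selF_some (hsel ▸ hl)).1)
    (by
      intro l τ hτ
      rw [hI] at hτ
      unfold II at hτ
      rw [Finset.mem_filter] at hτ
      exact hτ.2.2.2)
  have hPE0 := PE_nonneg (pR p R) hq0 sel I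
  have hPE1 := PE_le_one (pR p R) hq0 hq1 sel I
  have hm0 : (0 : ℝ) ≤ m := Nat.cast_nonneg m
  refine ⟨Option (Option (Option (Fin m)) → (Fin R → T)), inferInstance, inferInstance,
    gp (pR p R) sel I, gy (pR p R) (fun τ => ∑ r, y (τ r)) sel I, gd (L := Option (Fin m)) (dR d R) D,
    hRlz2, ?_, ?_, ?_⟩
  · intro o
    cases o with
    | none =>
      unfold gd
      have : 0 < Fintype.card (Option (Fin m)) := Fintype.card_pos
      exact Nat.mul_pos this hD1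
    | some τ =>
      unfold gd
      have h1 : 1 ≤ dR d R (τ none) := by
        unfold dR
        have : 1 ≤ d (τ none ⟨0, hR1⟩) := hd _
        exact this.trans (Finset.single_le_sum (f := fun r => d (τ none r)) (fun _ _ => Nat.zero_le _)
          (Finset.mem_univ (⟨0, hR1⟩ : Fin R)))
      exact h1.trans (Finset.single_le_sum (f := fun j => dR d R (τ j)) (fun _ _ => Nat.zero_le _)
          (Finset.mem_univ (none : Option (Option (Fin m)))))
  · refine lt_of_lt_of_le ?_ hV'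
    apply mul_pos hVpos
    have : 0 ≤ PG / 2 * δ := by positivity
    linarith
  · set P := PE (pR p R) sel I with hP
    have h1 : ρ * (R * c) ≤ R * v := by
      have := mul_le_mul_of_nonneg_left hρv hR0.le
      linarith
    have h2 : 0 ≤ (m : ℝ) + 2 - P + 2 * ((m : ℝ) + 2) * ε := by
      have : 0 ≤ 2 * ((m : ℝ) + 2) * ε := by positivity
      linarith
    have h3 : (1 + ε) * ((m : ℝ) + 2 - P + 2 * ((m : ℝ) + 2) * ε) ≤ (m : ℝ) + 2 - P + PG / 2 * δ := by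
      have h4 : ε * ((m : ℝ) + 2 - P + 2 * ((m : ℝ) + 2) * ε) ≤ ε * (2 * ((m : ℝ) + 2)) := by
        apply mul_le_mul_of_nonneg_left _ hε0.le
        have : 2 * ((m : ℝ) + 2) * ε ≤ 2 * ((m : ℝ) + 2) * (1 / 2) := by gcongr
        linarith
      linarith
    calc (1 + ε) * ρ * ∑ o, gp (pR p R) sel I o * (gd (L := Option (Fin m)) (dR d R) D o : ℝ)
        ≤ (1 + ε) * ρ * (R * c * ((m : ℝ) + 2 - P + 2 * ((m : ℝ) + 2) * ε)) := by
          apply mul_le_mul_of_nonneg_left hC'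
          positivity
      _ = (ρ * (R * c)) * ((1 + ε) * ((m : ℝ) + 2 - P + 2 * ((m : ℝ) + 2) * ε)) := by ring
      _ ≤ (R * v) * ((1 + ε) * ((m : ℝ) + 2 - P + 2 * ((m : ℝ) + 2) * ε)) := by
          apply mul_le_mul_of_nonneg_right h1
          positivity
      _ ≤ (R * v) * ((m : ℝ) + 2 - P + PG / 2 * δ) := by
          apply mul_le_mul_of_nonneg_left h3 hVpos.le
      _ ≤ _ := hV'

end Crest.GS.Step

namespace Crest.GS.StepMain

open Finset MeasureTheory ProbabilityTheory Filter Topology Crest.GS.Step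

theorem main (hPROD : Spec.PROD) (hGADG : Spec.GADG) (hBASE : Spec.BASE) (hVARC : Spec.VARC)
    (hSECM : Spec.SECM) (hLLN : Spec.LLN) (hCLT : Spec.CLTF) (hGAUSS : Spec.GAUSS) : Spec.STEP := by
  obtain ⟨m, Λ, γ, h, d0, B, hm0, hγ0, hγ1, hd0, hdh, hd1, hB, hBΛ, hm, hG⟩ := hGAUSS
  set G := (∑ l : Fin m, μG.real (Set.Ico (-Λ + l * h - γ) (-Λ + l * h - γ + h)) /
      μG.real (Set.Ico (-Λ + l * h) (-Λ + l * h + d0))) * (h ^ 2 + ((m : ℝ) + 1) * d0 ^ 2)
    + (4 * (1 - ∫ t, psi B t ∂μG) + ((m : ℝ) + 1) * d0 ^ 2) / μG.real (Set.Ico 0 d0) with hGdef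
  set PG := ∏ l, μG.real (Set.Ico (al m Λ h l) (al m Λ h l + d0)) with hPGdef
  have hPGpos : 0 < PG := Finset.prod_pos fun l _ => pos_Ico _ _ (by linarith)
  have hδ : 0 < (γ ^ 2 - G) / 2 := by linarith
  have hm2 : (0 : ℝ) < (m : ℝ) + 2 := by positivity
  refine ⟨min (1 / 2) (PG * ((γ ^ 2 - G) / 2) / (8 * ((m : ℝ) + 2))), ?_, ?_⟩
  · apply lt_min (by norm_num)
    positivity
  · intro ρ hρ hA
    refine step_one hPROD hGADG hVARC hSECM hLLN hCLT m Λ γ h d0 B hγ0 hγ1 hd0 hdh hd1 hB hBΛ hm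
      G ((γ ^ 2 - G) / 2) PG _ hGdef hδ (by ring) hPGdef ?_ (min_le_left _ _) ?_ ρ hρ hA
      hBASE.nonneg hBASE.sum_one hBASE.mean_zero
    · apply lt_min (by norm_num)
      positivity
    · have h1 := min_le_right (1 / 2 : ℝ) (PG * ((γ ^ 2 - G) / 2) / (8 * ((m : ℝ) + 2)))
      rw [le_div_iff₀ (by positivity)] at h1
      linarith

end Crest.GS.StepMain
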