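import Crest.Agent.GSDefs

/-! Row 63, module VARC: variance and cost of the gadget partition. -/

set_option autoImplicit false
set_option linter.unusedSectionVars false

namespace Crest.Agent.GSVARC

open Finset Crest.GS

variable {T J : Type} [Fintype T] [DecidableEq T] [Fintype J] [DecidableEq J]

theorem sum_prod_fun (g : J → T → ℝ) : ∑ τ : J → T, ∏ j, g j (τ j) = ∏ j, ∑ t, g j t := by
  have := Finset.prod_univ_sum (fun _ : J => (univ : Finset T)) g
  rw [this, Fintype.piFinset_univ]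

/-- first marginal -/
theorem marg1 (p : T → ℝ) (h1 : ∑ t, p t = 1) (f : T → ℝ) (i : J) :
    ∑ τ : J → T, (∏ j, p (τ j)) * f (τ i) = ∑ t, p t * f t := by
  have h := sum_prod_fun (J := J) (fun j t => p t * (if j = i then f t else 1))
  rw [Finset.prod_eq_single i] at h
  · simp only [if_true] at h
    rw [← h]
    refine Finset.sum_congr rfl fun τ _ => ?_
    rw [Finset.prod_mul_distrib]
    congr 1
    rw [Finset.prod_ite_eq' univ i (fun j => f (τ j))]
    simp
  · intro j _ hj
    simp only [if_neg hj, mul_one]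
    exact h1
  · intro hi; exact absurd (Finset.mem_univ _) hi

/-- second marginal, distinct coordinates, mean zero -/
theorem marg2 (p : T → ℝ) (f : T → ℝ) (hm : ∑ t, p t * f t = 0) (i k : J) (hik : i ≠ k) :
    ∑ τ : J → T, (∏ j, p (τ j)) * (f (τ i) * f (τ k)) = 0 := by
  have h := sum_prod_fun (J := J) (fun j t => p t * ((if j = i then f t else 1) * (if j = k then f t else 1)))
  rw [Finset.prod_eq_zero (Finset.mem_univ i)] at h
  · rw [← h]
    refine Finset.sum_congr rfl fun τ _ => ?_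
    rw [Finset.prod_mul_distrib, Finset.prod_mul_distrib]
    rw [Finset.prod_ite_eq' univ i (fun j => f (τ j)), Finset.prod_ite_eq' univ k (fun j => f (τ j))]
    simp
  · simp only [if_true, if_neg hik, mul_one]
    exact hm

theorem sum_lin (p : T → ℝ) (h1 : ∑ t, p t = 1) (f : T → ℝ) :
    ∑ τ : J → T, (∏ j, p (τ j)) * ∑ j, f (τ j) = (Fintype.card J : ℝ) * ∑ t, p t * f t := by
  have e : ∀ τ : J → T, (∏ j, p (τ j)) * ∑ j, f (τ j) = ∑ i, (∏ j, p (τ j)) * f (τ i) := fun τ =>
    Finset.mul_sum _ _ _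
  simp only [e]
  rw [Finset.sum_comm]
  simp only [marg1 p h1 f]
  simp

theorem sum_sq (p : T → ℝ) (h1 : ∑ t, p t = 1) (f : T → ℝ) (hm : ∑ t, p t * f t = 0) :
    ∑ τ : J → T, (∏ j, p (τ j)) * (∑ j, f (τ j)) ^ 2 = (Fintype.card J : ℝ) * ∑ t, p t * f t ^ 2 := by
  have e : ∀ τ : J → T, (∏ j, p (τ j)) * (∑ j, f (τ j)) ^ 2
      = ∑ i, ∑ k, (∏ j, p (τ j)) * (f (τ i) * f (τ k)) := by
    intro τ
    rw [sq, Finset.sum_mul_sum]
    simp only [Finset.mul_sum]
  simp only [e]
  rw [Finset.sum_comm]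
  have : ∀ i : J, ∑ τ : J → T, ∑ k, (∏ j, p (τ j)) * (f (τ i) * f (τ k)) = ∑ t, p t * f t ^ 2 := by
    intro i
    rw [Finset.sum_comm, Finset.sum_eq_single i]
    · have := marg1 (J := J) p h1 (fun t => f t ^ 2) i
      rw [← this]
      refine Finset.sum_congr rfl fun τ _ => ?_
      ring
    · intro k _ hk
      exact marg2 p f hm i k (Ne.symm hk)
    · intro hi; exact absurd (Finset.mem_univ _) hi
  simp only [this]
  simp

theorem sum_split (E : Finset (J → T)) (g : (J → T) → ℝ) :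
    ∑ τ, (if τ ∈ E then (0:ℝ) else g τ) = ∑ τ, g τ - ∑ τ ∈ E, g τ := by
  have : ∑ τ, (if τ ∈ E then (0:ℝ) else g τ) = ∑ τ, (g τ - if τ ∈ E then g τ else 0) := by
    refine Finset.sum_congr rfl fun τ _ => ?_
    split_ifs <;> simp
  rw [this, Finset.sum_sub_distrib]
  simp

theorem main : Crest.GS.Spec.VARC := by
  intro T L _ _ _ _ p y d sel I D hp h1 hm
  have hw : ∀ τ : Option L → T, 0 ≤ ∏ j, p (τ j) := fun τ => Finset.prod_nonneg fun j _ => hp _
  have hcard : (Fintype.card (Option L) : ℝ) = (Fintype.card L : ℝ) + 1 := by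
    rw [Fintype.card_option]; push_cast; ring
  constructor
  · intro s
    rw [Fintype.sum_option]
    have e2 : ∑ τ : Option L → T, gp p sel I (some τ) * gy p y sel I (some τ) ^ 2
        = ((Fintype.card L : ℝ) + 1) * (∑ τ, p τ * y τ ^ 2)
          - ∑ τ ∈ EE sel I, (∏ j, p (τ j)) * (∑ j, y (τ j)) ^ 2 := by
      rw [← hcard, ← sum_sq (J := Option L) p h1 y hm, ← sum_split]
      refine Finset.sum_congr rfl fun τ _ => ?_
      simp only [gp, gy]
      split_ifs <;> simp
    rw [e2]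
    have e1 : gp p sel I none * gy p y sel I none ^ 2
        = PE p sel I * ((∑ τ ∈ EE sel I, (∏ j, p (τ j)) * ∑ j, y (τ j)) / PE p sel I) ^ 2 := rfl
    rw [e1]
    set A := ∑ τ ∈ EE sel I, (∏ j, p (τ j)) * ∑ j, y (τ j) with hA
    have hW0 : 0 ≤ PE p sel I := Finset.sum_nonneg fun τ _ => hw τ
    have e3 : ∑ τ ∈ EE sel I, (∏ j, p (τ j)) * (∑ j, y (τ j) - s) ^ 2
        = ∑ τ ∈ EE sel I, (∏ j, p (τ j)) * (∑ j, y (τ j)) ^ 2 - 2 * s * A + s ^ 2 * PE p sel I := by
      rw [hA, PE, Finset.mul_sum, Finset.mul_sum, ← Finset.sum_sub_distrib, ← Finset.sum_add_distrib]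
      refine Finset.sum_congr rfl fun τ _ => ?_
      ring
    rw [e3]
    have key : 2 * s * A - s ^ 2 * PE p sel I ≤ PE p sel I * (A / PE p sel I) ^ 2 := by
      rcases hW0.eq_or_lt with h0 | hpos
      · have hz : ∀ τ ∈ EE sel I, ∏ j, p (τ j) = 0 := by
          intro τ hτ
          exact (Finset.sum_eq_zero_iff_of_nonneg (fun τ _ => hw τ)).1 h0.symm τ hτ
        have hA0 : A = 0 := by
          rw [hA]
          refine Finset.sum_eq_zero fun τ hτ => ?_
          rw [hz τ hτ, zero_mul]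
        rw [← h0, hA0]; simp
      · have : PE p sel I * (A / PE p sel I) ^ 2 = A ^ 2 / PE p sel I := by
          field_simp
        rw [this, le_div_iff₀ hpos]
        nlinarith [sq_nonneg (A - s * PE p sel I)]
    linarith
  · rw [Fintype.sum_option]
    have e1 : gp p sel I none * (gd (L := L) d D none : ℝ) = PE p sel I * ((Fintype.card L : ℝ) * D) := by
      simp only [gp, gd]
      push_cast
      ring
    have e2 : ∑ τ : Option L → T, gp p sel I (some τ) * (gd (L := L) d D (some τ) : ℝ)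
        = ((Fintype.card L : ℝ) + 1) * (∑ τ, p τ * (d τ : ℝ))
          - ∑ τ ∈ EE sel I, (∏ j, p (τ j)) * (∑ j, (d (τ j) : ℝ)) := by
      rw [← hcard, ← sum_lin (J := Option L) p h1 (fun t => (d t : ℝ)), ← sum_split]
      refine Finset.sum_congr rfl fun τ _ => ?_
      simp only [gp, gd]
      push_cast
      split_ifs <;> simp
    rw [e1, e2]
    ring

end Crest.Agent.GSVARC
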