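import Mathlib
import Crest.Prelude.Def_AsymptoticConvexity

set_option autoImplicit false

namespace Crest.Agent.H11AUC

open Crest Crest.AnalysisR

/-- Core growth argument: a bounded, asymptotically weakly null, `δ`-separated tree of arbitrary
height excludes an equivalent asymptotically uniformly convex norm. -/
theorem core {X : Type*} [NormedAddCommGroup X] [NormedSpace ℝ X]
    (N : X → ℝ) (hadd : ∀ x y : X, N (x + y) ≤ N x + N y)
    (hsmul : ∀ (r : ℝ) (x : X), N (r • x) = abs r * N x)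
    (a b : ℝ) (ha : 0 < a) (hab : ∀ x : X, a * ‖x‖ ≤ N x ∧ N x ≤ b * ‖x‖)
    (cof : Set X → Prop) (hcof : ∀ F, cof F → ∀ (r : ℝ) (y : X), y ∈ F → r • y ∈ F)
    (M δ : ℝ) (hδ : 0 < δ)
    (S : ℕ → ℕ → Set X)
    (hS0 : ∀ K, ∃ x ∈ S K 0, δ ≤ ‖x‖)
    (hbd : ∀ K j x, j ≤ K → x ∈ S K j → ‖x‖ ≤ M)
    (hstep : ∀ K j x, j < K → x ∈ S K j → ∀ F, cof F → ∀ ε : ℝ, 0 < ε →
      ∃ u, x + u ∈ S K (j + 1) ∧ δ ≤ ‖u‖ ∧ ∃ y ∈ F, ‖u - y‖ ≤ ε) :
    ¬ (∀ t : ℝ, 0 < t → ∃ c : ℝ, 0 < c ∧ ∀ x : X, N x = 1 → ∃ F : Set X, cof F ∧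
        ∀ y ∈ F, N y = 1 → c ≤ N (x + t • y) - 1) := by
  intro hauc
  set C : ℝ := |b| * |M| + 1 with hC
  have hCpos : 0 < C := by positivity
  have hNle : ∀ x, ‖x‖ ≤ M → N x ≤ |b| * |M| := by
    intro x hx
    calc N x ≤ b * ‖x‖ := (hab x).2
      _ ≤ |b| * ‖x‖ := mul_le_mul_of_nonneg_right (le_abs_self b) (norm_nonneg _)
      _ ≤ |b| * |M| := mul_le_mul_of_nonneg_left (hx.trans (le_abs_self M)) (abs_nonneg _)
  set t : ℝ := a * δ / (2 * C) with ht
  have htpos : 0 < t := by positivity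
  obtain ⟨c, hc, hcF⟩ := hauc t htpos
  -- one step
  have step : ∀ K j x, j < K → x ∈ S K j → a * δ ≤ N x →
      ∃ x', x' ∈ S K (j + 1) ∧ N x * (1 + c / 2) ≤ N x' := by
    intro K j x hj hx hNx
    have hρ : 0 < N x := lt_of_lt_of_le (by positivity) hNx
    have hρC : N x ≤ C := by
      have := hNle x (hbd K j x hj.le hx)
      linarith
    set ρ := N x with hρdef
    have hx1 : N (ρ⁻¹ • x) = 1 := by
      rw [hsmul, abs_of_pos (inv_pos.mpr hρ), ← hρdef]
      field_simp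
    obtain ⟨F, hF, hFy⟩ := hcF (ρ⁻¹ • x) hx1
    set ε : ℝ := min (δ / 2) (a * δ * c / (2 * (|b| + 1))) with hε
    have hb1 : 0 < |b| + 1 := by positivity
    have hεpos : 0 < ε := by
      apply lt_min
      · positivity
      · positivity
    obtain ⟨u, hu, hδu, y, hyF, huy⟩ := hstep K j x hj hx F hF ε hεpos
    refine ⟨x + u, hu, ?_⟩
    have hynorm : δ / 2 ≤ ‖y‖ := by
      have h1 : ‖u‖ ≤ ‖u - y‖ + ‖y‖ := by
        have := norm_add_le (u - y) y
        simpa using this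
      have h2 : ε ≤ δ / 2 := min_le_left _ _
      linarith
    have hNy : a * (δ / 2) ≤ N y := le_trans (mul_le_mul_of_nonneg_left hynorm ha.le) (hab y).1
    have hNypos : 0 < N y := lt_of_lt_of_le (by positivity) hNy
    set q := N y with hq
    have hy1 : N (q⁻¹ • y) = 1 := by
      rw [hsmul, abs_of_pos (inv_pos.mpr hNypos), ← hq]
      field_simp
    have key := hFy (q⁻¹ • y) (hcof F hF _ _ hyF) hy1
    -- s = q / ρ ≥ t
    set s := q / ρ with hs
    have hspos : 0 < s := by positivity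
    have hts : t ≤ s := by
      rw [ht, hs, div_le_div_iff₀ (by positivity) hρ]
      nlinarith [mul_le_mul hNy hρC hρ.le hNypos.le]
    have hconv : ρ⁻¹ • x + t • (q⁻¹ • y) =
        (1 - t / s) • (ρ⁻¹ • x) + (t / s) • (ρ⁻¹ • (x + y)) := by
      have h1 : t / s * ρ⁻¹ = t * q⁻¹ := by
        rw [hs]; field_simp
      rw [smul_add ρ⁻¹ x y, smul_add, smul_smul (t / s) ρ⁻¹ y, h1, smul_smul t q⁻¹ y, sub_smul,
        one_smul]
      abel
    have hts1 : t / s ≤ 1 := (div_le_one hspos).mpr hts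
    have hts0 : 0 < t / s := by positivity
    have hN1 : N (ρ⁻¹ • x + t • (q⁻¹ • y)) ≤ (1 - t / s) + (t / s) * (ρ⁻¹ * N (x + y)) := by
      rw [hconv]
      refine (hadd _ _).trans ?_
      rw [hsmul, hx1, hsmul (t / s), hsmul ρ⁻¹, abs_of_nonneg (by linarith : 0 ≤ 1 - t / s),
        abs_of_pos hts0, abs_of_pos (inv_pos.mpr hρ), mul_one]
    have h2 : c ≤ (t / s) * (ρ⁻¹ * N (x + y) - 1) := by nlinarith
    have h3 : c ≤ ρ⁻¹ * N (x + y) - 1 := by
      by_contra hcon
      push Not at hcon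
      rcases le_or_gt (ρ⁻¹ * N (x + y) - 1) 0 with h | h
      · have : (t / s) * (ρ⁻¹ * N (x + y) - 1) ≤ 0 := mul_nonpos_of_nonneg_of_nonpos hts0.le h
        linarith
      · have : (t / s) * (ρ⁻¹ * N (x + y) - 1) ≤ 1 * (ρ⁻¹ * N (x + y) - 1) :=
          mul_le_mul_of_nonneg_right hts1 h.le
        linarith
    have h4 : ρ * (1 + c) ≤ N (x + y) := by
      have : ρ * (ρ⁻¹ * N (x + y)) = N (x + y) := by field_simp
      nlinarith
    have h5 : N (x + y) ≤ N (x + u) + |b| * ε := by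
      have h6 : x + y = (x + u) + (-(1:ℝ)) • (u - y) := by
        rw [neg_smul, one_smul]; abel
      rw [h6]
      refine (hadd _ _).trans ?_
      rw [hsmul]
      simp only [abs_neg, abs_one, one_mul]
      have : N (u - y) ≤ |b| * ε := by
        calc N (u - y) ≤ b * ‖u - y‖ := (hab _).2
          _ ≤ |b| * ‖u - y‖ := mul_le_mul_of_nonneg_right (le_abs_self b) (norm_nonneg _)
          _ ≤ |b| * ε := mul_le_mul_of_nonneg_left huy (abs_nonneg _)
      linarith
    have h7 : |b| * ε ≤ a * δ * c / 2 := by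
      have h8 : ε ≤ a * δ * c / (2 * (|b| + 1)) := min_le_right _ _
      have h9 : |b| * ε ≤ (|b| + 1) * (a * δ * c / (2 * (|b| + 1))) :=
        mul_le_mul (by linarith) h8 hεpos.le hb1.le
      have h10 : (|b| + 1) * (a * δ * c / (2 * (|b| + 1))) = a * δ * c / 2 := by
        field_simp
      linarith
    nlinarith
  -- iterate
  have iter : ∀ K j, j ≤ K → ∃ x ∈ S K j, a * δ * (1 + c / 2) ^ j ≤ N x := by
    intro K j
    induction j with
    | zero =>
      intro _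
      obtain ⟨x, hx, hx'⟩ := hS0 K
      refine ⟨x, hx, ?_⟩
      rw [pow_zero, mul_one]
      exact le_trans (mul_le_mul_of_nonneg_left hx' ha.le) (hab x).1
    | succ j ih =>
      intro hj
      obtain ⟨x, hx, hx'⟩ := ih (by omega)
      have h1 : (1:ℝ) ≤ (1 + c / 2) ^ j := one_le_pow₀ (by linarith)
      have h2 : a * δ ≤ N x := by
        have : 0 < a * δ := by positivity
        nlinarith
      obtain ⟨x', hx'', hle⟩ := step K j x (by omega) hx h2
      refine ⟨x', hx'', le_trans ?_ hle⟩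
      rw [pow_succ, ← mul_assoc]
      exact mul_le_mul_of_nonneg_right hx' (by linarith)
  have hlim : Filter.Tendsto (fun j : ℕ => (1 + c / 2) ^ j) Filter.atTop Filter.atTop :=
    tendsto_pow_atTop_atTop_of_one_lt (by linarith)
  obtain ⟨K, hK⟩ := (hlim.eventually_ge_atTop (C / (a * δ))).exists
  obtain ⟨x, hx, hx'⟩ := iter K K le_rfl
  have h1 := hNle x (hbd K K x le_rfl hx)
  have h2 : C ≤ a * δ * (1 + c / 2) ^ K := by
    rw [div_le_iff₀ (by positivity)] at hK
    linarith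
  linarith

/-- The bundled version for `RealBanach`. -/
theorem not_isAUC (X : Type) [i1 : NormedAddCommGroup X] [i2 : NormedSpace ℝ X]
    [i3 : CompleteSpace X] (N : X → ℝ)
    (hN : (⟨X, i1, i2, i3⟩ : RealBanach).IsEquivNorm N)
    (M δ : ℝ) (hδ : 0 < δ)
    (S : ℕ → ℕ → Set X)
    (hS0 : ∀ K, ∃ x ∈ S K 0, δ ≤ ‖x‖)
    (hbd : ∀ K j x, j ≤ K → x ∈ S K j → ‖x‖ ≤ M)
    (hstep : ∀ K j x, j < K → x ∈ S K j → ∀ V : Submodule ℝ X, IsClosed (V : Set X) →
      FiniteDimensional ℝ (X ⧸ V) → ∀ ε : ℝ, 0 < ε →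
      ∃ u, x + u ∈ S K (j + 1) ∧ δ ≤ ‖u‖ ∧ ∃ y ∈ V, ‖u - y‖ ≤ ε) :
    ¬ (⟨X, i1, i2, i3⟩ : RealBanach).IsAUC N := by
  obtain ⟨hadd, hsmul, a, b, ha, hab⟩ := hN
  refine core N hadd hsmul a b ha hab (fun F => (⟨X, i1, i2, i3⟩ : RealBanach).IsCof F) ?_ M δ hδ S
    hS0 hbd ?_
  · rintro F ⟨V, rfl, _, _⟩ r y hy
    exact V.smul_mem r hy
  · rintro K j x hj hx F ⟨V, rfl, hcl, hfd⟩ ε hε
    exact hstep K j x hj hx V hcl hfd ε hε

/-- Quotient norm small means close to the subspace. -/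
theorem near_of_quot {X : Type*} [NormedAddCommGroup X] [NormedSpace ℝ X]
    (V : Submodule ℝ X) (x : X) (ε : ℝ)
    (h : ‖(Submodule.Quotient.mk x : X ⧸ V)‖ < ε) : ∃ y ∈ V, ‖x - y‖ ≤ ε := by
  obtain ⟨m, hm, hm'⟩ := Submodule.Quotient.norm_mk_lt (Submodule.Quotient.mk x : X ⧸ V)
    (sub_pos.mpr h)
  refine ⟨x - m, ?_, ?_⟩
  · rw [Submodule.Quotient.eq] at hm
    have := V.neg_mem hm
    simpa using this
  · have : x - (x - m) = m := by abel
    rw [this]; linarith

/-- A bounded-by-`ℓ²` sequence is asymptotically inside every closed finite-codimensional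
subspace. -/
theorem near_of_l2_bound {X : Type*} [NormedAddCommGroup X] [NormedSpace ℝ X]
    (e : ℕ → X) (B : ℝ)
    (hB : ∀ (s : Finset ℕ) (c : ℕ → ℝ), ‖∑ n ∈ s, c n • e n‖ ≤ B * Real.sqrt (∑ n ∈ s, c n ^ 2))
    (V : Submodule ℝ X) (hcl : IsClosed (V : Set X)) (hfd : FiniteDimensional ℝ (X ⧸ V))
    (ε : ℝ) (hε : 0 < ε) :
    ∀ᶠ n in Filter.atTop, ∃ y ∈ V, ‖e n - y‖ ≤ ε := by
  have := hcl
  -- every continuous functional on the quotient tends to zero along the images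
  have hφ : ∀ φ : (X ⧸ V) →L[ℝ] ℝ,
      Filter.Tendsto (fun n => φ (Submodule.Quotient.mk (e n))) Filter.atTop (nhds 0) := by
    intro φ
    set v : ℕ → ℝ := fun n => φ (Submodule.Quotient.mk (e n)) with hv
    have hB0 : 0 ≤ |B| := abs_nonneg B
    have hsum : ∀ s : Finset ℕ, ∑ n ∈ s, v n ^ 2 ≤ (‖φ‖ * |B|) ^ 2 := by
      intro s
      have h1 : φ (Submodule.Quotient.mk (∑ n ∈ s, v n • e n)) = ∑ n ∈ s, v n ^ 2 := by
        have : (Submodule.Quotient.mk (∑ n ∈ s, v n • e n) : X ⧸ V) =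
            ∑ n ∈ s, v n • (Submodule.Quotient.mk (e n) : X ⧸ V) := by
          change V.mkQ _ = _
          rw [map_sum]
          simp only [map_smul]
          rfl
        rw [this, map_sum]
        refine Finset.sum_congr rfl fun n _ => ?_
        rw [map_smul, smul_eq_mul, sq]
      have h2 : ∑ n ∈ s, v n ^ 2 ≤ ‖φ‖ * (|B| * Real.sqrt (∑ n ∈ s, v n ^ 2)) := by
        calc ∑ n ∈ s, v n ^ 2 = φ (Submodule.Quotient.mk (∑ n ∈ s, v n • e n)) := h1.symm
          _ ≤ ‖φ (Submodule.Quotient.mk (∑ n ∈ s, v n • e n))‖ := Real.le_norm_self _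
          _ ≤ ‖φ‖ * ‖(Submodule.Quotient.mk (∑ n ∈ s, v n • e n) : X ⧸ V)‖ := φ.le_opNorm _
          _ ≤ ‖φ‖ * ‖∑ n ∈ s, v n • e n‖ :=
            mul_le_mul_of_nonneg_left (Submodule.Quotient.norm_mk_le _ _) φ.opNorm_nonneg
          _ ≤ ‖φ‖ * (|B| * Real.sqrt (∑ n ∈ s, v n ^ 2)) := by
            refine mul_le_mul_of_nonneg_left ((hB s v).trans ?_) φ.opNorm_nonneg
            exact mul_le_mul_of_nonneg_right (le_abs_self B) (Real.sqrt_nonneg _)
      set T := ∑ n ∈ s, v n ^ 2 with hT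
      have hT0 : 0 ≤ T := Finset.sum_nonneg fun _ _ => sq_nonneg _
      have h3 : Real.sqrt T * Real.sqrt T = T := Real.mul_self_sqrt hT0
      have h4 : Real.sqrt T ≤ ‖φ‖ * |B| := by
        rcases (Real.sqrt_nonneg T).eq_or_lt with h | h
        · rw [← h]; positivity
        · by_contra hcon
          push Not at hcon
          nlinarith
      calc T = Real.sqrt T ^ 2 := by rw [sq, h3]
        _ ≤ (‖φ‖ * |B|) ^ 2 := by
          exact pow_le_pow_left₀ (Real.sqrt_nonneg _) h4 2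
    have hsummable : Summable fun n => v n ^ 2 :=
      summable_of_sum_le (fun _ => sq_nonneg _) hsum
    have h0 := hsummable.tendsto_atTop_zero
    have h1 : Filter.Tendsto (fun n => Real.sqrt (v n ^ 2)) Filter.atTop (nhds 0) := by
      have := (Real.continuous_sqrt.tendsto 0).comp h0
      rw [Real.sqrt_zero] at this
      exact this
    have h2 : (fun n => Real.sqrt (v n ^ 2)) = fun n => |v n| := by
      funext n; exact Real.sqrt_sq_eq_abs _
    rw [h2] at h1
    exact (tendsto_zero_iff_abs_tendsto_zero _).mpr h1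
  -- norms in the finite-dimensional quotient tend to zero
  have hnorm : Filter.Tendsto (fun n => ‖(Submodule.Quotient.mk (e n) : X ⧸ V)‖)
      Filter.atTop (nhds 0) := by
    let b := Module.finBasis ℝ (X ⧸ V)
    have hbound : ∀ z : X ⧸ V, ‖z‖ ≤ ∑ i, |b.coord i z| * ‖b i‖ := by
      intro z
      have hz := b.sum_repr z
      calc ‖z‖ = ‖∑ i, b.repr z i • b i‖ := by rw [hz]
        _ ≤ ∑ i, ‖b.repr z i • b i‖ := norm_sum_le _ _
        _ = ∑ i, |b.coord i z| * ‖b i‖ := by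
          refine Finset.sum_congr rfl fun i _ => ?_
          rw [norm_smul, Real.norm_eq_abs, Module.Basis.coord_apply]
    have hlim : Filter.Tendsto
        (fun n => ∑ i, |b.coord i (Submodule.Quotient.mk (e n) : X ⧸ V)| * ‖b i‖)
        Filter.atTop (nhds 0) := by
      have h1 : ∀ i, Filter.Tendsto
          (fun n => |b.coord i (Submodule.Quotient.mk (e n) : X ⧸ V)| * ‖b i‖)
          Filter.atTop (nhds 0) := by
        intro i
        have := hφ (LinearMap.toContinuousLinearMap (b.coord i))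
        have h2 := this.abs.mul_const ‖b i‖
        simpa using h2
      have := tendsto_finsetSum Finset.univ (fun i _ => h1 i)
      simpa using this
    exact squeeze_zero (fun _ => norm_nonneg _) (fun n => hbound _) hlim
  filter_upwards [hnorm.eventually_lt_const hε] with n hn
  exact near_of_quot V (e n) ε hn

/-- Common kernel of finitely many functionals. -/
noncomputable def cker {X : Type*} [NormedAddCommGroup X] [NormedSpace ℝ X] {ι : Type*}
    [Fintype ι] (φ : ι → X →L[ℝ] ℝ) : Submodule ℝ X :=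
  LinearMap.ker (ContinuousLinearMap.pi φ : X →L[ℝ] (ι → ℝ)).toLinearMap

theorem mem_cker {X : Type*} [NormedAddCommGroup X] [NormedSpace ℝ X] {ι : Type*}
    [Fintype ι] (φ : ι → X →L[ℝ] ℝ) (x : X) : x ∈ cker φ ↔ ∀ i, φ i x = 0 := by
  unfold cker
  rw [LinearMap.mem_ker]
  constructor
  · intro h i
    exact congrFun h i
  · intro h
    funext i
    exact h i

theorem isClosed_cker {X : Type*} [NormedAddCommGroup X] [NormedSpace ℝ X] {ι : Type*}
    [Fintype ι] (φ : ι → X →L[ℝ] ℝ) : IsClosed (cker φ : Set X) :=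
  (ContinuousLinearMap.pi φ : X →L[ℝ] (ι → ℝ)).isClosed_ker

theorem finite_quot_cker {X : Type*} [NormedAddCommGroup X] [NormedSpace ℝ X] {ι : Type*}
    [Fintype ι] (φ : ι → X →L[ℝ] ℝ) : FiniteDimensional ℝ (X ⧸ cker φ) := by
  unfold cker
  exact (LinearMap.quotKerEquivRange _).symm.finiteDimensional

theorem isCof_cker {X : Type} [i1 : NormedAddCommGroup X] [i2 : NormedSpace ℝ X]
    [i3 : CompleteSpace X] {ι : Type*} [Fintype ι] (φ : ι → X →L[ℝ] ℝ) :
    (⟨X, i1, i2, i3⟩ : RealBanach).IsCof (cker φ : Set X) :=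
  ⟨cker φ, rfl, isClosed_cker φ, finite_quot_cker φ⟩

/-- Separated `ℓ²`-bounded sequences exclude finite dimension. -/
theorem not_finiteDimensional {X : Type*} [NormedAddCommGroup X] [NormedSpace ℝ X]
    (e : ℕ → X) (B δ : ℝ) (hδ : 0 < δ)
    (hB : ∀ (s : Finset ℕ) (c : ℕ → ℝ), ‖∑ n ∈ s, c n • e n‖ ≤ B * Real.sqrt (∑ n ∈ s, c n ^ 2))
    (he : ∀ n, δ ≤ ‖e n‖) : ¬ FiniteDimensional ℝ X := by
  intro hfd
  have h1 : IsClosed ((⊥ : Submodule ℝ X) : Set X) := by
    simp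
  have h2 : FiniteDimensional ℝ (X ⧸ (⊥ : Submodule ℝ X)) := inferInstance
  obtain ⟨n, y, hy, hn⟩ := (near_of_l2_bound e B hB ⊥ h1 h2 (δ / 2) (by positivity)).exists
  rw [Submodule.mem_bot] at hy
  subst hy
  rw [sub_zero] at hn
  have := he n
  linarith

end Crest.Agent.H11AUC
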