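import Crest.Agent.DVDefs

/-! rid 254 (S0392): the Gaussian variance bound POIN (helper16; idea of the subgradient form: helper6). -/

set_option autoImplicit false

namespace Crest.DV

open MeasureTheory ProbabilityTheory

section
variable {n : ℕ} (q : Seminorm ℝ (E n)) (hq : ∀ x, q x ≤ ‖x‖)
include hq

theorem q_lip (x y : E n) : |q x - q y| ≤ ‖x - y‖ :=
  (abs_sub_map_le_sub q x y).trans (hq _)

theorem q_cont : Continuous q := by
  refine LipschitzWith.continuous (K := 1) (LipschitzWith.of_dist_le_mul fun x y => ?_)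
  rw [Real.dist_eq, dist_eq_norm]
  simpa using q_lip q hq x y

theorem norming (x : E n) : ∃ φ : StrongDual ℝ (E n), ‖φ‖ ≤ 1 ∧ φ x = q x ∧ ∀ y, φ y ≤ q y := by
  obtain ⟨g, hg1, hg2⟩ : ∃ g : E n →ₗ[ℝ] ℝ, g x = q x ∧ ∀ y, g y ≤ q y := by
    by_cases hx : x = 0
    · exact ⟨0, by simp [hx], fun y => by simpa using apply_nonneg q y⟩
    · obtain ⟨g, h1, h2⟩ := exists_extension_of_le_sublinear
        (LinearPMap.mkSpanSingleton x (q x) hx) q
        (fun c hc y => by rw [map_smul_eq_mul, Real.norm_of_nonneg hc.le])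
        (fun a b => map_add_le_add q a b)
        (by
          rintro ⟨y, hy⟩
          obtain ⟨c, rfl⟩ := Submodule.mem_span_singleton.1 hy
          have e1 : (LinearPMap.mkSpanSingleton x (q x) hx) ⟨c • x, hy⟩ = c • q x :=
            LinearPMap.mkSpanSingleton'_apply x (q x) _ c hy
          rw [e1]
          change c • q x ≤ q (c • x)
          rw [map_smul_eq_mul, smul_eq_mul, Real.norm_eq_abs]
          exact mul_le_mul_of_nonneg_right (le_abs_self c) (apply_nonneg q x))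
      refine ⟨g, ?_, h2⟩
      have := h1 ⟨x, Submodule.mem_span_singleton_self x⟩
      rw [this]
      exact LinearPMap.mkSpanSingleton'_apply_self x (q x) _ _
  have hb : ∀ y, ‖g y‖ ≤ 1 * ‖y‖ := by
    intro y
    rw [one_mul, Real.norm_eq_abs, abs_le]
    constructor
    · have := hg2 (-y)
      rw [map_neg, map_neg_eq_map] at this
      linarith [hq y]
    · exact (hg2 y).trans (hq y)
  refine ⟨g.mkContinuous 1 hb, LinearMap.mkContinuous_norm_le g zero_le_one hb, ?_, ?_⟩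
  · simpa using hg1
  · intro y; simpa using hg2 y

end

section
variable (n : ℕ)

/-- abbreviation for the Gaussian -/
noncomputable abbrev ga : Measure (E n) := stdGaussian (E n)

theorem int_norm_sq : Integrable (fun x : E n => ‖x‖ ^ 2) (ga n) := by
  have h : MemLp id 2 (ga n) := IsGaussian.memLp_two_id
  exact h.integrable_norm_pow (by norm_num)

variable {n}

theorem int_phi_sq (φ : StrongDual ℝ (E n)) : ∫ y, φ y ^ 2 ∂(ga n) = ‖φ‖ ^ 2 := by
  have h := variance_dual_stdGaussian φ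
  rw [variance_of_integral_eq_zero φ.continuous.aemeasurable (integral_strongDual_stdGaussian φ)] at h
  exact h

theorem integrable_of_bound {α : Type*} [MeasurableSpace α] {μ : Measure α} {f g : α → ℝ}
    (hg : Integrable g μ) (hf : AEStronglyMeasurable f μ) (h : ∀ x, |f x| ≤ g x) : Integrable f μ :=
  hg.mono' hf (Filter.Eventually.of_forall fun x => by simpa using h x)

theorem half (φ : StrongDual ℝ (E n)) (hφ : ‖φ‖ ≤ 1) :
    ∫ y, (max (-φ y) 0) ^ 2 ∂(ga n) ≤ 1 / 2 := by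
  have hc : Continuous φ := φ.continuous
  have hi : ∀ f : E n → ℝ, Continuous f → (∀ x, |f x| ≤ ‖x‖ ^ 2) → Integrable f (ga n) :=
    fun f hf hb => integrable_of_bound (int_norm_sq n) hf.aestronglyMeasurable hb
  have hφb : ∀ y, |φ y| ≤ ‖y‖ := fun y =>
    (φ.le_opNorm y).trans (by nlinarith [norm_nonneg y])
  have hsym : ∫ y, (max (-φ y) 0) ^ 2 ∂(ga n) = ∫ y, (max (φ y) 0) ^ 2 ∂(ga n) := by
    have h := stdGaussian_map (LinearIsometryEquiv.neg ℝ (E := E n))
    have h2 : ∫ y, (max (φ y) 0) ^ 2 ∂((ga n).map (LinearIsometryEquiv.neg ℝ (E := E n))) =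
        ∫ y, (max (φ (LinearIsometryEquiv.neg ℝ (E := E n) y)) 0) ^ 2 ∂(ga n) :=
      integral_map (by fun_prop) (by fun_prop)
    rw [h] at h2
    rw [h2]
    simp
  have hadd : ∫ y, (max (-φ y) 0) ^ 2 ∂(ga n) + ∫ y, (max (φ y) 0) ^ 2 ∂(ga n) ≤ 1 := by
    rw [← integral_add]
    · have : (fun y => (max (-φ y) 0) ^ 2 + (max (φ y) 0) ^ 2) = fun y => φ y ^ 2 := by
        funext y
        rcases le_total 0 (φ y) with h | h
        · rw [max_eq_right (by linarith), max_eq_left h]; ring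
        · rw [max_eq_left (by linarith), max_eq_right h]; ring
      rw [this, int_phi_sq]
      nlinarith [norm_nonneg φ]
    · refine hi _ (by fun_prop) fun x => ?_
      rw [abs_of_nonneg (sq_nonneg _)]
      refine pow_le_pow_left₀ (le_max_right _ _) (max_le ((neg_le_abs _).trans (hφb x)) (norm_nonneg _)) 2
    · refine hi _ (by fun_prop) fun x => ?_
      rw [abs_of_nonneg (sq_nonneg _)]
      refine pow_le_pow_left₀ (le_max_right _ _) (max_le ((le_abs_self _).trans (hφb x)) (norm_nonneg _)) 2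
  linarith

end

section
variable {n : ℕ} (q : Seminorm ℝ (E n)) (hq : ∀ x, q x ≤ ‖x‖)
include hq

/-- one-sided bound for a fixed `x` -/
theorem inner_bound (x : E n) (c s : ℝ) (hc : c ≤ 1) (hs : 0 ≤ s) :
    ∫ y, (max (q x - q (c • x + s • y)) 0) ^ 2 ∂(ga n) ≤
      3 / 2 * (s ^ 2 / 2) + 3 * ((1 - c) ^ 2 * ‖x‖ ^ 2) := by
  obtain ⟨φ, h1, h2, h3⟩ := norming q hq x
  have hφb : ∀ y, |φ y| ≤ ‖y‖ := fun y =>
    (φ.le_opNorm y).trans (by nlinarith [norm_nonneg y])
  have hpt : ∀ y, (max (q x - q (c • x + s • y)) 0) ^ 2 ≤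
      3 * ((1 - c) ^ 2 * ‖x‖ ^ 2) + 3 / 2 * s ^ 2 * (max (-φ y) 0) ^ 2 := by
    intro y
    have ha : q x - q (c • x + s • y) ≤ (1 - c) * ‖x‖ + s * max (-φ y) 0 := by
      have e1 := h3 (c • x + s • y)
      rw [map_add, map_smul, map_smul, smul_eq_mul, smul_eq_mul, h2] at e1
      have e2 : s * (-φ y) ≤ s * max (-φ y) 0 := mul_le_mul_of_nonneg_left (le_max_left _ _) hs
      have e3 : (1 - c) * q x ≤ (1 - c) * ‖x‖ := mul_le_mul_of_nonneg_left (hq x) (by linarith)
      nlinarith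
    have hb : 0 ≤ (1 - c) * ‖x‖ + s * max (-φ y) 0 :=
      add_nonneg (mul_nonneg (by linarith) (norm_nonneg _)) (mul_nonneg hs (le_max_right _ _))
    have hd : (max (q x - q (c • x + s • y)) 0) ^ 2 ≤ ((1 - c) * ‖x‖ + s * max (-φ y) 0) ^ 2 :=
      pow_le_pow_left₀ (le_max_right _ _) (max_le ha hb) 2
    refine hd.trans ?_
    nlinarith [sq_nonneg (2 * ((1 - c) * ‖x‖) - s * max (-φ y) 0)]
  have hint : Integrable (fun y => (max (-φ y) 0) ^ 2) (ga n) := by
    refine integrable_of_bound (int_norm_sq n) (by fun_prop) fun x => ?_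
    rw [abs_of_nonneg (sq_nonneg _)]
    exact pow_le_pow_left₀ (le_max_right _ _) (max_le ((neg_le_abs _).trans (hφb x)) (norm_nonneg _)) 2
  calc ∫ y, (max (q x - q (c • x + s • y)) 0) ^ 2 ∂(ga n)
      ≤ ∫ y, (3 * ((1 - c) ^ 2 * ‖x‖ ^ 2) + 3 / 2 * s ^ 2 * (max (-φ y) 0) ^ 2) ∂(ga n) := by
        refine integral_mono_of_nonneg (Filter.Eventually.of_forall fun y => sq_nonneg _)
          ((integrable_const _).add (hint.const_mul _)) (Filter.Eventually.of_forall hpt)
    _ = 3 * ((1 - c) ^ 2 * ‖x‖ ^ 2) + 3 / 2 * s ^ 2 * ∫ y, (max (-φ y) 0) ^ 2 ∂(ga n) := by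
        rw [integral_add (integrable_const _) (hint.const_mul _), integral_const, integral_const_mul]
        simp
    _ ≤ _ := by
        have := half φ h1
        nlinarith [sq_nonneg s]

end

section
variable {n : ℕ}

/-- integrability of anything quadratically bounded on the product -/
theorem int_prod_bound {f : E n × E n → ℝ} (hf : Continuous f) (C : ℝ)
    (h : ∀ z, |f z| ≤ C * (‖z.1‖ ^ 2 + ‖z.2‖ ^ 2)) : Integrable f ((ga n).prod (ga n)) := by
  have h1 : Integrable (fun z : E n × E n => ‖z.1‖ ^ 2) ((ga n).prod (ga n)) :=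
    (int_norm_sq n).comp_fst _
  have h2 : Integrable (fun z : E n × E n => ‖z.2‖ ^ 2) ((ga n).prod (ga n)) :=
    (int_norm_sq n).comp_snd _
  exact integrable_of_bound ((h1.add h2).const_mul C) hf.aestronglyMeasurable h

theorem mp_rot (θ : ℝ) : MeasurePreserving (ContinuousLinearMap.rotation (E := E n) θ)
    ((ga n).prod (ga n)) ((ga n).prod (ga n)) :=
  ⟨by fun_prop, IsGaussian.map_rotation_eq_self (by simp) θ⟩

theorem mp_neg : MeasurePreserving (fun x : E n => -x) (ga n) (ga n) := by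
  refine ⟨by fun_prop, ?_⟩
  have h := stdGaussian_map (LinearIsometryEquiv.neg ℝ (E := E n))
  exact h

theorem mp_int {T : E n × E n → E n × E n}
    (hT : MeasurePreserving T ((ga n).prod (ga n)) ((ga n).prod (ga n)))
    {f : E n × E n → ℝ} (hf : Continuous f) :
    ∫ z, f (T z) ∂((ga n).prod (ga n)) = ∫ z, f z ∂((ga n).prod (ga n)) := by
  have := integral_map (μ := (ga n).prod (ga n)) hT.measurable.aemeasurable
    (f := f) hf.aestronglyMeasurable
  rw [hT.map_eq] at this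
  exact this.symm

end

section
variable {n : ℕ} (q : Seminorm ℝ (E n)) (hq : ∀ x, q x ≤ ‖x‖)
include hq

theorem diff_bound (z : E n × E n) (c s : ℝ) (hc : |c| ≤ 1) (hs : |s| ≤ 1) :
    (q z.1 - q (c • z.1 + s • z.2)) ^ 2 ≤ 8 * (‖z.1‖ ^ 2 + ‖z.2‖ ^ 2) := by
  have h1 : |q z.1 - q (c • z.1 + s • z.2)| ≤ 2 * ‖z.1‖ + ‖z.2‖ := by
    refine (q_lip q hq _ _).trans ?_
    have h2 : ‖z.1 - (c • z.1 + s • z.2)‖ ≤ ‖z.1‖ + (‖c • z.1‖ + ‖s • z.2‖) :=
      (norm_sub_le _ _).trans (by gcongr; exact norm_add_le _ _)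
    have h3 : ‖c • z.1‖ ≤ ‖z.1‖ := by
      rw [norm_smul, Real.norm_eq_abs]
      nlinarith [norm_nonneg z.1]
    have h4 : ‖s • z.2‖ ≤ ‖z.2‖ := by
      rw [norm_smul, Real.norm_eq_abs]
      nlinarith [norm_nonneg z.2]
    linarith
  have h5 : (q z.1 - q (c • z.1 + s • z.2)) ^ 2 ≤ (2 * ‖z.1‖ + ‖z.2‖) ^ 2 := by
    rw [← sq_abs (q z.1 - q (c • z.1 + s • z.2))]
    exact pow_le_pow_left₀ (abs_nonneg _) h1 2
  nlinarith [sq_nonneg (‖z.1‖ - 2 * ‖z.2‖), sq_nonneg ‖z.1‖, sq_nonneg ‖z.2‖]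

theorem max_sq_le (t : ℝ) : (max t 0) ^ 2 ≤ t ^ 2 := by
  rcases le_total 0 t with h | h
  · rw [max_eq_left h]
  · rw [max_eq_right h]; nlinarith [sq_nonneg t]

theorem cont_q : Continuous q := q_cont q hq

theorem part_bound (θ : ℝ) (hs : 0 ≤ Real.sin θ) :
    ∫ z, (max (q z.1 - q (Real.cos θ • z.1 + Real.sin θ • z.2)) 0) ^ 2 ∂((ga n).prod (ga n)) ≤
      3 / 4 * Real.sin θ ^ 2 + 3 * (1 - Real.cos θ) ^ 2 * ∫ x, ‖x‖ ^ 2 ∂(ga n) := by
  have hqc := q_cont q hq
  have hc1 := Real.abs_cos_le_one θ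
  have hs1 := Real.abs_sin_le_one θ
  have hint : Integrable (fun z : E n × E n =>
      (max (q z.1 - q (Real.cos θ • z.1 + Real.sin θ • z.2)) 0) ^ 2) ((ga n).prod (ga n)) := by
    refine int_prod_bound (by fun_prop) 8 fun z => ?_
    rw [abs_of_nonneg (sq_nonneg _)]
    exact (max_sq_le q hq _).trans (diff_bound q hq z _ _ hc1 hs1)
  rw [integral_prod _ hint]
  calc ∫ x, ∫ y, (max (q x - q (Real.cos θ • x + Real.sin θ • y)) 0) ^ 2 ∂(ga n) ∂(ga n)
      ≤ ∫ x, (3 / 4 * Real.sin θ ^ 2 + 3 * (1 - Real.cos θ) ^ 2 * ‖x‖ ^ 2) ∂(ga n) := by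
        refine integral_mono_of_nonneg
          (Filter.Eventually.of_forall fun x => integral_nonneg fun y => sq_nonneg _)
          ((integrable_const _).add ((int_norm_sq n).const_mul _))
          (Filter.Eventually.of_forall fun x => ?_)
        have := inner_bound q hq x (Real.cos θ) (Real.sin θ) (Real.cos_le_one θ) hs
        simp only
        linarith
    _ = _ := by
        rw [integral_add (integrable_const _) ((int_norm_sq n).const_mul _), integral_const,
          integral_const_mul]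
        simp

theorem step_bound (θ : ℝ) (hs : 0 ≤ Real.sin θ) :
    ∫ z, (q z.1 - q (Real.cos θ • z.1 + Real.sin θ • z.2)) ^ 2 ∂((ga n).prod (ga n)) ≤
      3 / 2 * Real.sin θ ^ 2 + 6 * (1 - Real.cos θ) ^ 2 * ∫ x, ‖x‖ ^ 2 ∂(ga n) := by
  have hqc := q_cont q hq
  have hc1 := Real.abs_cos_le_one θ
  have hs1 := Real.abs_sin_le_one θ
  set c := Real.cos θ with hc
  set s := Real.sin θ with hsd
  have hcs : c ^ 2 + s ^ 2 = 1 := by rw [hc, hsd]; exact Real.cos_sq_add_sin_sq θ
  have h1 := part_bound q hq θ hs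
  -- the exchanged part
  let T : E n × E n → E n × E n := fun z => (c • z.1 + s • z.2, s • z.1 - c • z.2)
  have hT : MeasurePreserving T ((ga n).prod (ga n)) ((ga n).prod (ga n)) := by
    have h2 := ((MeasurePreserving.id (ga n)).prod (mp_neg (n := n))).comp (mp_rot (n := n) θ)
    have h3 : (Prod.map id (fun x : E n => -x)) ∘ (ContinuousLinearMap.rotation (E := E n) θ) = T := by
      funext z
      simp only [Function.comp_apply, ContinuousLinearMap.rotation_apply, Prod.map_apply, id, T]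
      ext1
      · rfl
      · simp only [← hc, ← hsd]
        module
    rw [← h3]
    exact h2
  have h4 : ∫ z, (max (q (c • z.1 + s • z.2) - q z.1) 0) ^ 2 ∂((ga n).prod (ga n)) =
      ∫ z, (max (q z.1 - q (c • z.1 + s • z.2)) 0) ^ 2 ∂((ga n).prod (ga n)) := by
    rw [← mp_int hT (f := fun z => (max (q z.1 - q (c • z.1 + s • z.2)) 0) ^ 2) (by fun_prop)]
    congr 1
    funext z
    have : c • (T z).1 + s • (T z).2 = z.1 := by
      simp only [T]
      have : c • (c • z.1 + s • z.2) + s • (s • z.1 - c • z.2) = (c ^ 2 + s ^ 2) • z.1 := by module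
      rw [this, hcs, one_smul]
    rw [this]
  have h5 : ∫ z, (q z.1 - q (c • z.1 + s • z.2)) ^ 2 ∂((ga n).prod (ga n)) =
      ∫ z, (max (q z.1 - q (c • z.1 + s • z.2)) 0) ^ 2 ∂((ga n).prod (ga n)) +
      ∫ z, (max (q (c • z.1 + s • z.2) - q z.1) 0) ^ 2 ∂((ga n).prod (ga n)) := by
    rw [← integral_add]
    · congr 1
      funext z
      rcases le_total (q z.1) (q (c • z.1 + s • z.2)) with h | h
      · rw [max_eq_right (by linarith), max_eq_left (by linarith)]; ring
      · rw [max_eq_left (by linarith), max_eq_right (by linarith)]; ring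
    · refine int_prod_bound (by fun_prop) 8 fun z => ?_
      rw [abs_of_nonneg (sq_nonneg _)]
      exact (max_sq_le q hq _).trans (diff_bound q hq z _ _ hc1 hs1)
    · refine int_prod_bound (by fun_prop) 8 fun z => ?_
      rw [abs_of_nonneg (sq_nonneg _)]
      refine (max_sq_le q hq _).trans ?_
      have := diff_bound q hq z _ _ hc1 hs1
      nlinarith
  rw [h5, h4]
  linarith

/-- telescoping -/
theorem tele (K : ℕ) (θ : ℝ) (hK : K * θ = Real.pi / 2) :
    ∫ z, (q z.1 - q z.2) ^ 2 ∂((ga n).prod (ga n)) ≤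
      K ^ 2 * ∫ z, (q z.1 - q (Real.cos θ • z.1 + Real.sin θ • z.2)) ^ 2 ∂((ga n).prod (ga n)) := by
  have hqc := q_cont q hq
  let X : ℕ → E n × E n → E n := fun k z => Real.cos (k * θ) • z.1 + Real.sin (k * θ) • z.2
  have hX0 : ∀ z, X 0 z = z.1 := fun z => by simp [X]
  have hXK : ∀ z, X K z = z.2 := fun z => by simp [X, hK]
  have hpt : ∀ z, (q z.1 - q z.2) ^ 2 ≤ K * ∑ k ∈ Finset.range K, (q (X k z) - q (X (k + 1) z)) ^ 2 := by
    intro z
    have h1 : q z.1 - q z.2 = ∑ k ∈ Finset.range K, (q (X k z) - q (X (k + 1) z)) := by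
      rw [Finset.sum_range_sub' (fun k => q (X k z)), hX0, hXK]
    rw [h1]
    have := sq_sum_le_card_mul_sum_sq (s := Finset.range K) (f := fun k => q (X k z) - q (X (k + 1) z))
    simpa using this
  have hstep : ∀ k, ∫ z, (q (X k z) - q (X (k + 1) z)) ^ 2 ∂((ga n).prod (ga n)) =
      ∫ z, (q z.1 - q (Real.cos θ • z.1 + Real.sin θ • z.2)) ^ 2 ∂((ga n).prod (ga n)) := by
    intro k
    rw [← mp_int (mp_rot (n := n) (k * θ))
      (f := fun z => (q z.1 - q (Real.cos θ • z.1 + Real.sin θ • z.2)) ^ 2) (by fun_prop)]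
    congr 1
    funext z
    simp only [ContinuousLinearMap.rotation_apply]
    have : Real.cos θ • (Real.cos (k * θ) • z.1 + Real.sin (k * θ) • z.2) +
        Real.sin θ • (-Real.sin (k * θ) • z.1 + Real.cos (k * θ) • z.2) = X (k + 1) z := by
      simp only [X]
      rw [show ((k + 1 : ℕ) : ℝ) * θ = k * θ + θ by push_cast; ring, Real.cos_add, Real.sin_add]
      module
    rw [this]
  have hint : ∀ k, Integrable (fun z => (q (X k z) - q (X (k + 1) z)) ^ 2) ((ga n).prod (ga n)) := by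
    intro k
    refine int_prod_bound (by fun_prop) 8 fun z => ?_
    rw [abs_of_nonneg (sq_nonneg _)]
    have hb : ∀ k, q (X k z) ≤ ‖z.1‖ + ‖z.2‖ := by
      intro k
      refine (hq _).trans ((norm_add_le _ _).trans ?_)
      rw [norm_smul, norm_smul, Real.norm_eq_abs, Real.norm_eq_abs]
      have h1 := Real.abs_cos_le_one (k * θ)
      have h2 := Real.abs_sin_le_one (k * θ)
      nlinarith [norm_nonneg z.1, norm_nonneg z.2]
    have h0 := apply_nonneg q (X k z)
    have h1 := apply_nonneg q (X (k + 1) z)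
    have h2 := hb k
    have h3 := hb (k + 1)
    have h4 : |q (X k z) - q (X (k + 1) z)| ≤ ‖z.1‖ + ‖z.2‖ := by
      rw [abs_le]; constructor <;> linarith
    have h5 : (q (X k z) - q (X (k + 1) z)) ^ 2 ≤ (‖z.1‖ + ‖z.2‖) ^ 2 := by
      rw [← sq_abs (q (X k z) - q (X (k + 1) z))]
      exact pow_le_pow_left₀ (abs_nonneg _) h4 2
    nlinarith [sq_nonneg (‖z.1‖ - ‖z.2‖), sq_nonneg ‖z.1‖, sq_nonneg ‖z.2‖]
  calc ∫ z, (q z.1 - q z.2) ^ 2 ∂((ga n).prod (ga n))
      ≤ ∫ z, K * ∑ k ∈ Finset.range K, (q (X k z) - q (X (k + 1) z)) ^ 2 ∂((ga n).prod (ga n)) := by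
        refine integral_mono_of_nonneg (Filter.Eventually.of_forall fun y => sq_nonneg _)
          ((integrable_finset_sum _ fun k _ => hint k).const_mul _) (Filter.Eventually.of_forall hpt)
    _ = _ := by
        rw [integral_const_mul, integral_finset_sum _ fun k _ => hint k]
        simp only [hstep, Finset.sum_const, Finset.card_range, nsmul_eq_mul]
        ring

theorem dbl_bound : ∫ z, (q z.1 - q z.2) ^ 2 ∂((ga n).prod (ga n)) ≤ 4 := by
  set A := ∫ x, ‖x‖ ^ 2 ∂(ga n) with hA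
  have hA0 : 0 ≤ A := integral_nonneg fun x => sq_nonneg _
  obtain ⟨K, hK⟩ := exists_nat_gt (40 * (A + 1))
  have hKpos : (0 : ℝ) < K := by nlinarith
  set θ := Real.pi / (2 * K) with hθ
  have hpi := Real.pi_pos
  have hθ0 : 0 < θ := by positivity
  have hKθ : (K : ℝ) * θ = Real.pi / 2 := by rw [hθ]; field_simp
  have hK1 : (1 : ℝ) ≤ K := by nlinarith
  have hθpi : θ ≤ Real.pi := by
    rw [hθ, div_le_iff₀ (by positivity)]
    nlinarith
  have hs : 0 ≤ Real.sin θ := Real.sin_nonneg_of_nonneg_of_le_pi hθ0.le hθpi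
  have h1 := tele q hq K θ hKθ
  have h2 := step_bound q hq θ hs
  have h3 : Real.sin θ ^ 2 ≤ θ ^ 2 := pow_le_pow_left₀ hs (Real.sin_le hθ0.le) 2
  have h4 : (1 - Real.cos θ) ^ 2 ≤ (θ ^ 2 / 2) ^ 2 :=
    pow_le_pow_left₀ (by linarith [Real.cos_le_one θ])
      (by linarith [Real.one_sub_sq_div_two_le_cos (x := θ)]) 2
  have h5 : ∫ z, (q z.1 - q z.2) ^ 2 ∂((ga n).prod (ga n)) ≤
      K ^ 2 * (3 / 2 * θ ^ 2 + 6 * (θ ^ 2 / 2) ^ 2 * A) := by
    refine h1.trans (mul_le_mul_of_nonneg_left (h2.trans ?_) (sq_nonneg _))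
    have : 6 * (1 - Real.cos θ) ^ 2 * A ≤ 6 * (θ ^ 2 / 2) ^ 2 * A := by
      have := mul_le_mul_of_nonneg_right h4 hA0
      nlinarith
    linarith
  have h6 : (K : ℝ) ^ 2 * (3 / 2 * θ ^ 2 + 6 * (θ ^ 2 / 2) ^ 2 * A) =
      3 / 2 * (K * θ) ^ 2 * (1 + θ ^ 2 * A) := by ring
  rw [h6, hKθ] at h5
  have hp1 : Real.pi < 3.15 := Real.pi_lt_d2
  have hp2 : Real.pi ^ 2 < 9.93 := by nlinarith
  have h7 : θ ^ 2 * A ≤ 1 / 100 := by
    have : θ ^ 2 * A = Real.pi ^ 2 * A / (4 * (K : ℝ) ^ 2) := by rw [hθ]; field_simp; ring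
    rw [this, div_le_iff₀ (by positivity)]
    have hk2 : (40 * (A + 1)) ^ 2 ≤ (K : ℝ) ^ 2 := pow_le_pow_left₀ (by positivity) hK.le 2
    nlinarith
  have h8 : 0 ≤ θ ^ 2 * A := by positivity
  refine h5.trans ?_
  have h9 : (Real.pi / 2) ^ 2 ≤ 2.4825 := by nlinarith
  have h10 : 3 / 2 * (Real.pi / 2) ^ 2 * (1 + θ ^ 2 * A) ≤ 3 / 2 * 2.4825 * (1 + 1 / 100) := by
    apply mul_le_mul _ (by linarith) (by linarith) (by norm_num)
    linarith
  refine h10.trans (by norm_num)

end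

theorem poin : POIN := by
  intro n q hq
  have hqc := q_cont q hq
  have hdb := dbl_bound q hq
  change ∫ x, (q x - ∫ y, q y ∂(ga n)) ^ 2 ∂(ga n) ≤ 2
  have hqi : Integrable (fun x => q x) (ga n) := by
    have h1 : Integrable (fun x : E n => 1 + ‖x‖ ^ 2) (ga n) := (integrable_const _).add (int_norm_sq n)
    refine integrable_of_bound h1 hqc.aestronglyMeasurable fun x => ?_
    rw [abs_of_nonneg (apply_nonneg q x)]
    have := hq x
    nlinarith [norm_nonneg x, sq_nonneg (‖x‖ - 1)]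
  set m := ∫ y, q y ∂(ga n) with hm
  let p : E n → ℝ := fun x => q x - m
  have hpc : Continuous p := by fun_prop
  have hp0 : ∫ x, p x ∂(ga n) = 0 := by
    simp only [p]
    rw [integral_sub hqi (integrable_const _), integral_const]
    simp [hm]
  have hp2 : Integrable (fun x => p x ^ 2) (ga n) := by
    have h1 : Integrable (fun x : E n => 2 * m ^ 2 + 2 * ‖x‖ ^ 2) (ga n) :=
      (integrable_const _).add ((int_norm_sq n).const_mul _)
    refine integrable_of_bound h1 (by fun_prop) fun x => ?_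
    rw [abs_of_nonneg (sq_nonneg _)]
    have h2 := hq x
    have h3 := apply_nonneg q x
    simp only [p]
    have h4 : q x ^ 2 ≤ ‖x‖ ^ 2 := pow_le_pow_left₀ h3 h2 2
    nlinarith [sq_nonneg (q x + m)]
  have hpi : Integrable p (ga n) := hqi.sub (integrable_const _)
  have h1 : ∫ z, (q z.1 - q z.2) ^ 2 ∂((ga n).prod (ga n)) =
      ∫ x, p x ^ 2 ∂(ga n) + ∫ x, p x ^ 2 ∂(ga n) := by
    have e1 : (fun z : E n × E n => (q z.1 - q z.2) ^ 2) =
        fun z => (p z.1 ^ 2 + p z.2 ^ 2) - 2 * (p z.1 * p z.2) := by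
      funext z; simp only [p]; ring
    have i1 : Integrable (fun z : E n × E n => p z.1 ^ 2) ((ga n).prod (ga n)) := hp2.comp_fst _
    have i2 : Integrable (fun z : E n × E n => p z.2 ^ 2) ((ga n).prod (ga n)) := hp2.comp_snd _
    have i3 : Integrable (fun z : E n × E n => p z.1 * p z.2) ((ga n).prod (ga n)) :=
      hpi.mul_prod hpi
    have i12 : Integrable (fun z : E n × E n => p z.1 ^ 2 + p z.2 ^ 2) ((ga n).prod (ga n)) := i1.add i2
    have i4 : Integrable (fun z : E n × E n => 2 * (p z.1 * p z.2)) ((ga n).prod (ga n)) := i3.const_mul _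
    rw [e1, integral_sub i12 i4, integral_add i1 i2, integral_const_mul,
      integral_prod_mul, hp0]
    have e2 : ∫ z : E n × E n, p z.1 ^ 2 ∂((ga n).prod (ga n)) = ∫ x, p x ^ 2 ∂(ga n) := by
      have := integral_prod_mul (μ := ga n) (ν := ga n) (fun x => p x ^ 2) (fun _ => (1 : ℝ))
      simpa using this
    have e3 : ∫ z : E n × E n, p z.2 ^ 2 ∂((ga n).prod (ga n)) = ∫ x, p x ^ 2 ∂(ga n) := by
      have := integral_prod_mul (μ := ga n) (ν := ga n) (fun _ => (1 : ℝ)) (fun x => p x ^ 2)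
      simpa using this
    rw [e2, e3]
    ring
  rw [h1] at hdb
  have : ∫ x, p x ^ 2 ∂(ga n) ≤ 2 := by linarith
  exact this

end Crest.DV
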