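import Crest.Agent.H17DVMean
import Crest.Agent.DVDefs

/-! packaging: MEAN in the form of DVDefs. -/

set_option autoImplicit false

theorem Crest.DV.meanProof : Crest.DV.MEAN := by
  intro t
  obtain ⟨N0, h⟩ := Crest.H17DV.mean t
  exact ⟨N0, fun N hN q _ hq => h N hN q hq⟩
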