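import Mathlib

set_option autoImplicit false
set_option linter.all false

/-! Dvoretzky-Rogers lemma by maximal determinant (helper22, rid 254, DV1). -/

namespace Crest.DV

open Finset

section
variable {E : Type*} [NormedAddCommGroup E] [NormedSpace ℝ E]

/-- A contraction of maximal determinant. -/
lemma exists_maxdet (N : ℕ) (L : E ≃ₗ[ℝ] EuclideanSpace ℝ (Fin N)) :
    ∃ S : EuclideanSpace ℝ (Fin N) →L[ℝ] E, ‖S‖ ≤ 1 ∧
      LinearMap.det ((L : E →ₗ[ℝ] EuclideanSpace ℝ (Fin N)) ∘ₗ (S : EuclideanSpace ℝ (Fin N) →ₗ[ℝ] E)) ≠ 0 ∧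
      ∀ T : EuclideanSpace ℝ (Fin N) →L[ℝ] E, ‖T‖ ≤ 1 →
        |LinearMap.det ((L : E →ₗ[ℝ] EuclideanSpace ℝ (Fin N)) ∘ₗ (T : EuclideanSpace ℝ (Fin N) →ₗ[ℝ] E))| ≤
        |LinearMap.det ((L : E →ₗ[ℝ] EuclideanSpace ℝ (Fin N)) ∘ₗ (S : EuclideanSpace ℝ (Fin N) →ₗ[ℝ] E))| := by
  classical
  haveI : FiniteDimensional ℝ E := LinearEquiv.finiteDimensional L.symm
  haveI : FiniteDimensional ℝ (EuclideanSpace ℝ (Fin N) →L[ℝ] E) :=
    LinearEquiv.finiteDimensional (LinearMap.toContinuousLinearMap (𝕜 := ℝ) (E := EuclideanSpace ℝ (Fin N)) (F' := E))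
  haveI : ProperSpace (EuclideanSpace ℝ (Fin N) →L[ℝ] E) := FiniteDimensional.proper ℝ _
  let f : (EuclideanSpace ℝ (Fin N) →L[ℝ] E) → ℝ := fun T =>
    |LinearMap.det ((L : E →ₗ[ℝ] EuclideanSpace ℝ (Fin N)) ∘ₗ (T : EuclideanSpace ℝ (Fin N) →ₗ[ℝ] E))|
  have hf : Continuous f := by
    let b := (EuclideanSpace.basisFun (Fin N) ℝ).toBasis
    have e : f = fun T => |Matrix.det (fun i j => (L (T (b j))) i)| := by
      funext T
      change |_| = _
      rw [← LinearMap.det_toMatrix b]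
      congr 2
      ext i j
      rw [LinearMap.toMatrix_apply]
      rfl
    rw [e]
    refine Continuous.abs (Continuous.matrix_det ?_)
    refine continuous_matrix (fun i j => ?_)
    have h1 : Continuous (fun T : EuclideanSpace ℝ (Fin N) →L[ℝ] E => T (b j)) :=
      (ContinuousLinearMap.apply ℝ E (b j)).continuous
    have h2 : Continuous L := (L : E →ₗ[ℝ] EuclideanSpace ℝ (Fin N)).continuous_of_finiteDimensional
    have h3 : Continuous (fun x : EuclideanSpace ℝ (Fin N) => x i) := by fun_prop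
    exact h3.comp (h2.comp h1)
  obtain ⟨S, hS1, hS2⟩ := (isCompact_closedBall (0 : EuclideanSpace ℝ (Fin N) →L[ℝ] E) 1).exists_isMaxOn
    ⟨0, by simp⟩ hf.continuousOn
  have hmax : ∀ T : EuclideanSpace ℝ (Fin N) →L[ℝ] E, ‖T‖ ≤ 1 → f T ≤ f S := by
    intro T hT
    exact hS2 (by simpa using hT)
  refine ⟨S, by simpa using hS1, ?_, hmax⟩
  -- a nonzero determinant is attained
  let T0 : EuclideanSpace ℝ (Fin N) →L[ℝ] E := LinearMap.toContinuousLinearMap (L.symm : EuclideanSpace ℝ (Fin N) →ₗ[ℝ] E)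
  let r : ℝ := (1 + ‖T0‖)⁻¹
  have hr : 0 < r := by positivity
  have hT1 : ‖r • T0‖ ≤ 1 := by
    rw [norm_smul, Real.norm_of_nonneg hr.le]
    change (1 + ‖T0‖)⁻¹ * ‖T0‖ ≤ 1
    rw [inv_mul_le_iff₀ (by positivity)]
    linarith [norm_nonneg T0]
  have h1 := hmax _ hT1
  have h2 : 0 < f (r • T0) := by
    change 0 < |LinearMap.det ((L : E →ₗ[ℝ] EuclideanSpace ℝ (Fin N)) ∘ₗ ((r • T0 : EuclideanSpace ℝ (Fin N) →L[ℝ] E) : EuclideanSpace ℝ (Fin N) →ₗ[ℝ] E))|
    have e : (L : E →ₗ[ℝ] EuclideanSpace ℝ (Fin N)) ∘ₗ ((r • T0 : EuclideanSpace ℝ (Fin N) →L[ℝ] E) : EuclideanSpace ℝ (Fin N) →ₗ[ℝ] E)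
        = r • (LinearMap.id : EuclideanSpace ℝ (Fin N) →ₗ[ℝ] EuclideanSpace ℝ (Fin N)) := by
      ext x i
      simp [T0]
    rw [e, LinearMap.det_smul, LinearMap.det_id, mul_one]
    positivity
  intro h0
  have : f S = 0 := by
    change |_| = _
    rw [h0, abs_zero]
  linarith

/-- Bernoulli type contradiction. -/
lemma bern (r N : ℕ) (c : ℝ) (hc : 0 ≤ c) (h : ∀ ε : ℝ, 0 < ε → (1 + ε) ^ r ≤ (1 + ε * c) ^ N) :
    (r : ℝ) ≤ N * c := by
  by_contra hlt
  push Not at hlt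
  -- choose ε small
  set M : ℝ := N * c with hM
  have hM0 : 0 ≤ M := by positivity
  have key : ∀ ε : ℝ, 0 < ε → ε * M ≤ 1 → (r : ℝ) - M ≤ M ^ 2 * ε := by
    intro ε hε h1
    have a1 : 1 + (r : ℝ) * ε ≤ (1 + ε) ^ r := one_add_mul_le_pow (by linarith) r
    have a2 : (1 + ε * c) ^ N ≤ Real.exp (ε * M) := by
      have : 1 + ε * c ≤ Real.exp (ε * c) := by
        have := Real.add_one_le_exp (ε * c); linarith
      calc (1 + ε * c) ^ N ≤ (Real.exp (ε * c)) ^ N := pow_le_pow_left₀ (by positivity) this N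
        _ = Real.exp (ε * M) := by rw [← Real.exp_nat_mul, hM]; ring_nf
    have a3 : Real.exp (ε * M) ≤ 1 + ε * M + (ε * M) ^ 2 := by
      have h5 : |ε * M| ≤ 1 := by rw [abs_of_nonneg (by positivity)]; exact h1
      have := Real.abs_exp_sub_one_sub_id_le h5
      have := (abs_le.1 this).2
      linarith
    have a4 := h ε hε
    have : (r : ℝ) * ε - ε * M ≤ (ε * M) ^ 2 := by linarith
    have h6 : ((r : ℝ) - M) * ε ≤ (M ^ 2 * ε) * ε := by nlinarith
    exact le_of_mul_le_mul_right h6 hε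
  have hpos : 0 < (r : ℝ) - M := by linarith
  set ε : ℝ := min (1 / (M + 1)) (((r : ℝ) - M) / (2 * (M ^ 2 + 1))) with hεd
  have hε : 0 < ε := by positivity
  have h1 : ε * M ≤ 1 := by
    have : ε ≤ 1 / (M + 1) := min_le_left _ _
    calc ε * M ≤ (1 / (M + 1)) * M := mul_le_mul_of_nonneg_right this hM0
      _ ≤ 1 := by rw [div_mul_eq_mul_div, one_mul, div_le_one (by positivity)]; linarith
  have h2 := key ε hε h1
  have h3 : ε ≤ ((r : ℝ) - M) / (2 * (M ^ 2 + 1)) := min_le_right _ _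
  have h4 : M ^ 2 * ε ≤ (M ^ 2 + 1) * (((r : ℝ) - M) / (2 * (M ^ 2 + 1))) := by
    apply mul_le_mul _ h3 hε.le (by positivity)
    linarith
  have h5 : (M ^ 2 + 1) * (((r : ℝ) - M) / (2 * (M ^ 2 + 1))) = ((r : ℝ) - M) / 2 := by
    field_simp
  linarith

/-- diagonal map in an orthonormal basis -/
noncomputable def Dg {N : ℕ} (b : OrthonormalBasis (Fin N) ℝ (EuclideanSpace ℝ (Fin N))) (d : Fin N → ℝ) :
    EuclideanSpace ℝ (Fin N) →ₗ[ℝ] EuclideanSpace ℝ (Fin N) :=
  Matrix.toLin b.toBasis b.toBasis (Matrix.diagonal d)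

lemma Dg_repr {N : ℕ} (b : OrthonormalBasis (Fin N) ℝ (EuclideanSpace ℝ (Fin N))) (d : Fin N → ℝ)
    (x : EuclideanSpace ℝ (Fin N)) (j : Fin N) : b.repr (Dg b d x) j = d j * b.repr x j := by
  have h := LinearMap.toMatrix_mulVec_repr b.toBasis b.toBasis (Dg b d) x
  unfold Dg at h
  rw [LinearMap.toMatrix_toLin] at h
  have h2 := congrFun h j
  rw [Matrix.mulVec_diagonal] at h2
  rw [b.coe_toBasis_repr_apply, b.coe_toBasis_repr_apply] at h2
  unfold Dg
  exact h2.symm

lemma Dg_det {N : ℕ} (b : OrthonormalBasis (Fin N) ℝ (EuclideanSpace ℝ (Fin N))) (d : Fin N → ℝ) :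
    LinearMap.det (Dg b d) = ∏ j, d j := by
  unfold Dg
  rw [LinearMap.det_toLin, Matrix.det_diagonal]

lemma norm_repr {N : ℕ} (b : OrthonormalBasis (Fin N) ℝ (EuclideanSpace ℝ (Fin N)))
    (x : EuclideanSpace ℝ (Fin N)) : ‖x‖ ^ 2 = ∑ j, (b.repr x j) ^ 2 := by
  rw [← b.repr.norm_map x, EuclideanSpace.norm_sq_eq]
  simp

/-- one greedy step -/
lemma step (N : ℕ) (L : E ≃ₗ[ℝ] EuclideanSpace ℝ (Fin N)) (S : EuclideanSpace ℝ (Fin N) →L[ℝ] E)
    (hS : ‖S‖ ≤ 1)
    (hdet : LinearMap.det ((L : E →ₗ[ℝ] EuclideanSpace ℝ (Fin N)) ∘ₗ (S : EuclideanSpace ℝ (Fin N) →ₗ[ℝ] E)) ≠ 0)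
    (hmax : ∀ T : EuclideanSpace ℝ (Fin N) →L[ℝ] E, ‖T‖ ≤ 1 →
        |LinearMap.det ((L : E →ₗ[ℝ] EuclideanSpace ℝ (Fin N)) ∘ₗ (T : EuclideanSpace ℝ (Fin N) →ₗ[ℝ] E))| ≤
        |LinearMap.det ((L : E →ₗ[ℝ] EuclideanSpace ℝ (Fin N)) ∘ₗ (S : EuclideanSpace ℝ (Fin N) →ₗ[ℝ] E))|)
    (b : OrthonormalBasis (Fin N) ℝ (EuclideanSpace ℝ (Fin N))) (k : ℕ) (hk : k < N) :
    ∃ u : EuclideanSpace ℝ (Fin N), ‖u‖ = 1 ∧ (∀ j : Fin N, j.val < k → b.repr u j = 0) ∧
      ((N : ℝ) - k) / N ≤ ‖S u‖ := by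
  classical
  have hN : 0 < N := lt_of_le_of_lt (Nat.zero_le _) hk
  -- the compact set
  let U : Set (EuclideanSpace ℝ (Fin N)) := {u | ‖u‖ = 1 ∧ ∀ j : Fin N, j.val < k → b.repr u j = 0}
  have hUc : IsCompact U := by
    have h1 : U = Metric.sphere (0 : EuclideanSpace ℝ (Fin N)) 1 ∩
        ⋂ j : Fin N, {u | j.val < k → b.repr u j = 0} := by
      ext u
      simp [U]
    rw [h1]
    refine (isCompact_sphere _ _).inter_right (isClosed_iInter fun j => ?_)
    by_cases hj : j.val < k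
    · have : {u : EuclideanSpace ℝ (Fin N) | j.val < k → b.repr u j = 0} = {u | b.repr u j = 0} := by
        ext u; simp [hj]
      rw [this]
      have hc : Continuous (fun u : EuclideanSpace ℝ (Fin N) => b.repr u j) := by
        have h2 : Continuous (fun x : EuclideanSpace ℝ (Fin N) => x j) := by fun_prop
        exact h2.comp b.repr.continuous
      exact isClosed_eq hc continuous_const
    · have : {u : EuclideanSpace ℝ (Fin N) | j.val < k → b.repr u j = 0} = Set.univ := by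
        ext u; simp [hj]
      rw [this]; exact isClosed_univ
  have hUn : U.Nonempty := by
    refine ⟨b ⟨k, hk⟩, by simp [b.orthonormal.1], ?_⟩
    intro j hj
    rw [b.repr_self]
    have : j ≠ ⟨k, hk⟩ := by
      intro h; rw [h] at hj; exact lt_irrefl _ hj
    simp [this]
  obtain ⟨u, huU, humax⟩ := hUc.exists_isMaxOn hUn (f := fun x => ‖S x‖) (by fun_prop)
  refine ⟨u, huU.1, huU.2, ?_⟩
  set c := ‖S u‖ with hc
  have hc0 : 0 ≤ c := norm_nonneg _
  have hle : ∀ x : EuclideanSpace ℝ (Fin N), (∀ j : Fin N, j.val < k → b.repr x j = 0) → ‖S x‖ ≤ c * ‖x‖ := by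
    intro x hx
    by_cases h0 : x = 0
    · rw [h0]; simp
    have hn : 0 < ‖x‖ := norm_pos_iff.2 h0
    have hmem : ‖x‖⁻¹ • x ∈ U := by
      refine ⟨by rw [norm_smul, norm_inv, norm_norm]; field_simp, ?_⟩
      intro j hj
      rw [map_smul]
      change ‖x‖⁻¹ * b.repr x j = 0
      rw [hx j hj, mul_zero]
    have h1 : ‖S (‖x‖⁻¹ • x)‖ ≤ c := humax hmem
    rw [map_smul, norm_smul, norm_inv, norm_norm, inv_mul_le_iff₀ hn] at h1
    linarith
  have hfin := bern (N - k) N c hc0 (by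
    intro ε hε
    let d : Fin N → ℝ := fun j => if j.val < k then 1 else 1 + ε
    let p : Fin N → ℝ := fun j => if j.val < k then 0 else 1
    have hsplit : ∀ x, Dg b d x = x + ε • Dg b p x := by
      intro x
      apply b.repr.injective
      ext j
      rw [map_add, map_smul]
      change b.repr (Dg b d x) j = b.repr x j + ε * b.repr (Dg b p x) j
      rw [Dg_repr, Dg_repr]
      change (if j.val < k then (1:ℝ) else 1 + ε) * _ = _ + ε * ((if j.val < k then (0:ℝ) else 1) * _)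
      split_ifs <;> ring
    have hP : ∀ x, ‖Dg b p x‖ ≤ ‖x‖ := by
      intro x
      apply le_of_sq_le_sq _ (norm_nonneg _)
      rw [norm_repr b, norm_repr b x]
      apply Finset.sum_le_sum
      intro j _
      rw [Dg_repr]
      change ((if j.val < k then (0:ℝ) else 1) * _) ^ 2 ≤ _
      split_ifs
      · rw [zero_mul]
        have := sq_nonneg (b.repr x j)
        simpa using this
      · rw [one_mul]
    have hSD : ∀ x, ‖S (Dg b d x)‖ ≤ (1 + ε * c) * ‖x‖ := by
      intro x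
      rw [hsplit, map_add, map_smul]
      have h1 : ‖S x‖ ≤ ‖x‖ := by
        have := S.le_opNorm x
        nlinarith [norm_nonneg x]
      have h2 : ‖S (Dg b p x)‖ ≤ c * ‖x‖ := by
        have h3 := hle (Dg b p x) (by
          intro j hj
          rw [Dg_repr]
          change (if j.val < k then (0:ℝ) else 1) * _ = 0
          rw [if_pos hj, zero_mul])
        exact le_trans h3 (mul_le_mul_of_nonneg_left (hP x) hc0)
      calc ‖S x + ε • S (Dg b p x)‖ ≤ ‖S x‖ + ‖ε • S (Dg b p x)‖ := norm_add_le _ _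
        _ = ‖S x‖ + ε * ‖S (Dg b p x)‖ := by rw [norm_smul, Real.norm_of_nonneg hε.le]
        _ ≤ ‖x‖ + ε * (c * ‖x‖) := by gcongr
        _ = _ := by ring
    have hq : 0 < 1 + ε * c := by positivity
    let T : EuclideanSpace ℝ (Fin N) →L[ℝ] E :=
      (1 + ε * c)⁻¹ • (S.comp (LinearMap.toContinuousLinearMap (Dg b d)))
    have hT : ‖T‖ ≤ 1 := by
      apply ContinuousLinearMap.opNorm_le_bound _ zero_le_one
      intro x
      change ‖(1 + ε * c)⁻¹ • S (Dg b d x)‖ ≤ _
      rw [norm_smul, norm_inv, Real.norm_of_nonneg hq.le, inv_mul_le_iff₀ hq, one_mul]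
      exact hSD x
    have h1 := hmax T hT
    have e : (L : E →ₗ[ℝ] EuclideanSpace ℝ (Fin N)) ∘ₗ (T : EuclideanSpace ℝ (Fin N) →ₗ[ℝ] E)
        = (1 + ε * c)⁻¹ • (((L : E →ₗ[ℝ] EuclideanSpace ℝ (Fin N)) ∘ₗ (S : EuclideanSpace ℝ (Fin N) →ₗ[ℝ] E)) ∘ₗ Dg b d) := by
      ext x i
      simp [T]
    rw [e, LinearMap.det_smul, LinearMap.det_comp, Dg_det, finrank_euclideanSpace, Fintype.card_fin] at h1
    have hprod : ∏ j, d j = (1 + ε) ^ (N - k) := by
      have : ∀ j : Fin N, d j = if j.val < k then 1 else 1 + ε := fun j => rfl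
      simp only [this]
      rw [Finset.prod_ite, Finset.prod_const_one, one_mul, Finset.prod_const]
      congr 1
      have h5 : (Finset.univ.filter (fun j : Fin N => ¬ j.val < k)).card = N - k := by
        have h6 : (Finset.univ.filter (fun j : Fin N => j.val < k)).card = k := by
          rw [Fin.card_filter_val_lt]
          omega
        have h7 := Finset.card_filter_add_card_filter_not (s := (Finset.univ : Finset (Fin N))) (fun j : Fin N => j.val < k)
        rw [h6, Finset.card_univ, Fintype.card_fin] at h7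
        omega
      exact h5
    rw [hprod, abs_mul, abs_mul, abs_of_pos (by positivity : (0:ℝ) < (1 + ε * c)⁻¹ ^ N),
      abs_of_pos (by positivity : (0:ℝ) < (1 + ε) ^ (N - k))] at h1
    have h2 : 0 < |LinearMap.det ((L : E →ₗ[ℝ] EuclideanSpace ℝ (Fin N)) ∘ₗ (S : EuclideanSpace ℝ (Fin N) →ₗ[ℝ] E))| :=
      abs_pos.2 hdet
    set A := |LinearMap.det ((L : E →ₗ[ℝ] EuclideanSpace ℝ (Fin N)) ∘ₗ (S : EuclideanSpace ℝ (Fin N) →ₗ[ℝ] E))|
    rw [inv_pow] at h1
    have h3 : A * (1 + ε) ^ (N - k) ≤ (1 + ε * c) ^ N * A := by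
      rwa [inv_mul_le_iff₀ (by positivity)] at h1
    have h4 : (1 + ε) ^ (N - k) * A ≤ (1 + ε * c) ^ N * A := by linarith
    exact le_of_mul_le_mul_right h4 h2)
  rw [Nat.cast_sub hk.le] at hfin
  rw [div_le_iff₀ (by exact_mod_cast hN)]
  linarith

/-- **Dvoretzky-Rogers**. -/
theorem dr (N : ℕ) (L : E ≃ₗ[ℝ] EuclideanSpace ℝ (Fin N)) :
    ∃ (S : EuclideanSpace ℝ (Fin N) →L[ℝ] E) (b : OrthonormalBasis (Fin N) ℝ (EuclideanSpace ℝ (Fin N))),
      ‖S‖ ≤ 1 ∧ ∀ i : Fin N, ((N : ℝ) - i.val) / N ≤ ‖S (b i)‖ := by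
  classical
  obtain ⟨S, hS, hdet, hmax⟩ := exists_maxdet N L
  have key : ∀ k : ℕ, k ≤ N → ∃ b : OrthonormalBasis (Fin N) ℝ (EuclideanSpace ℝ (Fin N)),
      ∀ i : Fin N, i.val < k → ((N : ℝ) - i.val) / N ≤ ‖S (b i)‖ := by
    intro k
    induction k with
    | zero => intro _; exact ⟨EuclideanSpace.basisFun (Fin N) ℝ, fun i hi => absurd hi (Nat.not_lt_zero _)⟩
    | succ k ih =>
      intro hk
      obtain ⟨b, hb⟩ := ih (by omega)
      obtain ⟨u, hu1, hu2, hu3⟩ := step N L S hS hdet hmax b k (by omega)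
      let v : Fin N → EuclideanSpace ℝ (Fin N) := fun i => if i.val < k then b i else u
      let s : Set (Fin N) := {i | i.val ≤ k}
      have hinner : ∀ i : Fin N, i.val < k → inner ℝ (b i) u = 0 := by
        intro i hi
        rw [← b.repr_apply_apply]
        exact hu2 i hi
      have hon : Orthonormal ℝ (s.domRestrict v) := by
        constructor
        · rintro ⟨i, hi⟩
          change ‖(if i.val < k then b i else u)‖ = 1
          split_ifs
          · exact b.orthonormal.1 i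
          · exact hu1
        · rintro ⟨i, hi⟩ ⟨j, hj⟩ hij
          change inner ℝ (if i.val < k then b i else u) (if j.val < k then b j else u) = 0
          have hij' : i ≠ j := fun h => hij (by subst h; rfl)
          split_ifs with h1 h2 h2
          · exact b.orthonormal.2 hij'
          · exact hinner i h1
          · rw [real_inner_comm]; exact hinner j h2
          · exfalso
            apply hij'
            have hi' : i.val ≤ k := hi
            have hj' : j.val ≤ k := hj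
            apply Fin.ext
            omega
      obtain ⟨b', hb'⟩ := hon.exists_orthonormalBasis_extension_of_card_eq (by simp)
      refine ⟨b', ?_⟩
      intro i hi
      have hi' : i ∈ s := by change i.val ≤ k; omega
      rw [hb' i hi']
      change _ ≤ ‖S (if i.val < k then b i else u)‖
      by_cases h : i.val < k
      · rw [if_pos h]; exact hb i h
      · rw [if_neg h]
        have : i.val = k := by omega
        rw [this]; exact hu3
  obtain ⟨b, hb⟩ := key N le_rfl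
  exact ⟨S, b, hS, fun i => hb i i.2⟩

end

/-- helper16's form. -/
theorem DR' (B : Type*) [NormedAddCommGroup B] [NormedSpace ℝ B] (hB : ¬ FiniteDimensional ℝ B) (N : ℕ) :
    ∃ u : EuclideanSpace ℝ (Fin N) →ₗ[ℝ] B, (∀ x, ‖u x‖ ≤ ‖x‖) ∧
      ∀ i, 1 / 2 ≤ ‖u (EuclideanSpace.single i 1)‖ := by
  classical
  by_cases hN : N = 0
  · subst hN
    exact ⟨0, fun x => by simp, fun i => i.elim0⟩
  have hN' : 0 < N := Nat.pos_of_ne_zero hN
  obtain ⟨F, hF⟩ : ∃ F : Submodule ℝ B, Module.finrank ℝ F = 2 * N := by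
    have hrank : ((2 * N : ℕ) : Cardinal) ≤ Module.rank ℝ B := by
      by_contra h
      push Not at h
      apply hB
      apply Module.rank_lt_aleph0_iff.1
      exact lt_trans h (Cardinal.natCast_lt_aleph0)
    obtain ⟨s, hs1, hs2⟩ := exists_finset_linearIndependent_of_le_rank hrank
    refine ⟨Submodule.span ℝ (s : Set B), ?_⟩
    have := finrank_span_finset_eq_card hs2
    rw [this, hs1]
  haveI : FiniteDimensional ℝ F := FiniteDimensional.of_finrank_pos (by rw [hF]; omega)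
  let L : F ≃ₗ[ℝ] EuclideanSpace ℝ (Fin (2 * N)) :=
    (Module.finBasisOfFinrankEq ℝ F hF).equivFun.trans
      (WithLp.linearEquiv 2 ℝ (Fin (2 * N) → ℝ)).symm
  obtain ⟨S, b, hS, hb⟩ := dr (2 * N) L
  let ι : Fin N → Fin (2 * N) := fun i => ⟨i.val, by omega⟩
  have hι : Function.Injective ι := by
    intro i j h
    have h2 : (ι i).val = (ι j).val := by rw [h]
    exact Fin.ext h2
  have hv : Orthonormal ℝ (fun i => b (ι i)) := b.orthonormal.comp ι hι
  let J : EuclideanSpace ℝ (Fin N) →ₗ[ℝ] EuclideanSpace ℝ (Fin (2 * N)) :=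
    { toFun := fun x => ∑ i, x i • b (ι i)
      map_add' := by
        intro x y
        simp only [PiLp.add_apply, add_smul, Finset.sum_add_distrib]
      map_smul' := by
        intro r x
        simp only [PiLp.smul_apply, smul_eq_mul, mul_smul, Finset.smul_sum, RingHom.id_apply] }
  have hJ : ∀ x, ‖J x‖ = ‖x‖ := by
    intro x
    have h1 : ‖J x‖ ^ 2 = ‖x‖ ^ 2 := by
      change ‖∑ i, x i • b (ι i)‖ ^ 2 = _
      rw [← real_inner_self_eq_norm_sq, hv.inner_sum, EuclideanSpace.norm_sq_eq]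
      apply Finset.sum_congr rfl
      intro i _
      simp [sq]
    exact (sq_eq_sq₀ (norm_nonneg _) (norm_nonneg _)).1 h1
  refine ⟨F.subtype ∘ₗ (S : EuclideanSpace ℝ (Fin (2 * N)) →ₗ[ℝ] F) ∘ₗ J, ?_, ?_⟩
  · intro x
    change ‖((S (J x) : F) : B)‖ ≤ _
    have h1 := S.le_opNorm (J x)
    have h2 : ‖S (J x)‖ ≤ ‖x‖ := by
      rw [hJ] at h1
      nlinarith [norm_nonneg x]
    exact h2
  · intro i
    change _ ≤ ‖((S (J (EuclideanSpace.single i 1)) : F) : B)‖
    have e : J (EuclideanSpace.single i (1:ℝ)) = b (ι i) := by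
      change ∑ j, (EuclideanSpace.single i (1:ℝ)) j • b (ι j) = _
      rw [Finset.sum_eq_single i]
      · simp
      · intro j _ hj
        simp [hj]
      · intro h; exact absurd (Finset.mem_univ _) h
    rw [e]
    have h1 := hb (ι i)
    have h2 : (1:ℝ) / 2 ≤ (((2 * N : ℕ) : ℝ) - (ι i).val) / ((2 * N : ℕ) : ℝ) := by
      have hi : ((ι i).val : ℝ) ≤ N := by
        have : (ι i).val < N := i.2
        exact_mod_cast this.le
      have hNp : (0:ℝ) < N := by exact_mod_cast hN'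
      push_cast
      rw [div_le_div_iff₀ (by norm_num) (by positivity)]
      nlinarith
    exact le_trans h2 h1

end Crest.DV
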