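import Crest.Agent.DVDefs
import Crest.Agent.H22DV1

set_option autoImplicit false

namespace Crest.DV

theorem drProof : DR := by
  intro B _ _ hB N
  exact DR' B hB N

end Crest.DV
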