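import Crest.Agent.LPDefs

set_option autoImplicit false

/-! Assembly for rid 254 (S0392): `FIN` and Dvoretzky give the compact doubling set. -/

namespace Crest.Agent.LP

open Crest.GeometryTopology Metric

universe u v

lemma doubling_image {m : ℕ} {B : Type u} [NormedAddCommGroup B] (X : Finset (EuclideanSpace ℝ (Fin m)))
    (Λ : ℕ) (hX : DoublingConstLE (X : Set (EuclideanSpace ℝ (Fin m))) Λ)
    (φ : EuclideanSpace ℝ (Fin m) → B) (s : ℝ) (hs : 0 < s)
    (h1 : ∀ x y, s * ‖x - y‖ ≤ ‖φ x - φ y‖) (h2 : ∀ x y, ‖φ x - φ y‖ ≤ 2 * s * ‖x - y‖) :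
    DoublingConstLE (φ '' (X : Set (EuclideanSpace ℝ (Fin m)))) (Λ * Λ) := by
  classical
  rintro _ ⟨x, hx, rfl⟩ r hr
  have hrs : 0 < r / s := div_pos hr hs
  obtain ⟨C, hCX, hCc, hC⟩ := hX x hx (r / s) hrs
  have hch : ∀ c : EuclideanSpace ℝ (Fin m), ∃ D : Finset (EuclideanSpace ℝ (Fin m)),
      (D : Set (EuclideanSpace ℝ (Fin m))) ⊆ X ∧ D.card ≤ Λ ∧
      (c ∈ C → (X : Set (EuclideanSpace ℝ (Fin m))) ∩ closedBall c (r / s) ⊆
        ⋃ d ∈ D, closedBall d (r / s / 2)) := by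
    intro c
    by_cases hc : c ∈ C
    · obtain ⟨D, a1, a2, a3⟩ := hX c (hCX hc) (r / s / 2) (by positivity)
      refine ⟨D, a1, a2, fun _ => ?_⟩
      have : 2 * (r / s / 2) = r / s := by ring
      rw [this] at a3
      exact a3
    · exact ⟨∅, by simp, by simp, fun h => absurd h hc⟩
  choose D hDX hDc hD using hch
  refine ⟨(C.biUnion D).image φ, ?_, ?_, ?_⟩
  · intro b hb
    simp only [Finset.coe_image, Set.mem_image, Finset.mem_coe, Finset.mem_biUnion] at hb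
    obtain ⟨d, ⟨c, hc, hd⟩, rfl⟩ := hb
    exact ⟨d, hDX c hd, rfl⟩
  · calc ((C.biUnion D).image φ).card ≤ (C.biUnion D).card := Finset.card_image_le
      _ ≤ C.card * Λ := Finset.card_biUnion_le_card_mul _ _ _ (fun c _ => hDc c)
      _ ≤ Λ * Λ := Nat.mul_le_mul_right _ hCc
  · rintro _ ⟨⟨y, hy, rfl⟩, hy2⟩
    have hyx : dist y x ≤ 2 * (r / s) := by
      have := h1 y x
      rw [mem_closedBall, dist_eq_norm] at hy2
      rw [dist_eq_norm]
      rw [← mul_div_assoc, le_div_iff₀ hs]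
      linarith
    have hm := hC ⟨hy, hyx⟩
    simp only [Set.mem_iUnion] at hm
    obtain ⟨c, hc, hyc⟩ := hm
    have hm2 := hD c hc ⟨hy, hyc⟩
    simp only [Set.mem_iUnion] at hm2
    obtain ⟨d, hd, hyd⟩ := hm2
    simp only [Set.mem_iUnion]
    refine ⟨φ d, ?_, ?_⟩
    · simp only [Finset.mem_image, Finset.mem_biUnion]
      exact ⟨d, ⟨c, hc, hd⟩, rfl⟩
    · rw [mem_closedBall, dist_eq_norm] at hyd ⊢
      have := h2 y d
      have h3 : 2 * s * ‖y - d‖ ≤ 2 * s * (r / s / 2) := by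
        apply mul_le_mul_of_nonneg_left hyd; positivity
      have h4 : 2 * s * (r / s / 2) = r := by field_simp
      linarith

lemma pow_quarter_lt {i j : ℕ} (h : i < j) : ((1:ℝ)/4)^j ≤ (1/4)^i / 4 := by
  have : ((1:ℝ)/4)^j ≤ (1/4)^(i+1) := pow_le_pow_of_le_one (by norm_num) (by norm_num) h
  rw [pow_succ] at this
  linarith

lemma sep {B : Type u} [NormedAddCommGroup B] [NormedSpace ℝ B] (e : B) (he : ‖e‖ = 1)
    {i j : ℕ} (hij : i < j) {x y : B} (hx : x ∈ closedBall (((1:ℝ)/4)^i • e) ((1/4)^i/8))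
    (hy : y ∈ closedBall (((1:ℝ)/4)^j • e) ((1/4)^j/8)) :
    ((1:ℝ)/4)^i / 2 ≤ dist x y := by
  have h1 := pow_quarter_lt hij
  have hp : (0:ℝ) < (1/4)^i := by positivity
  have hd : dist (((1:ℝ)/4)^i • e) (((1:ℝ)/4)^j • e) = (1/4)^i - (1/4)^j := by
    rw [dist_eq_norm, ← sub_smul, norm_smul, he, mul_one, Real.norm_eq_abs, abs_of_nonneg]
    linarith
  rw [mem_closedBall] at hx hy
  have t1 := dist_triangle4 (((1:ℝ)/4)^i • e) x y (((1:ℝ)/4)^j • e)
  rw [dist_comm (((1:ℝ)/4)^i • e) x] at t1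
  linarith

theorem asm_main {B : Type u} [NormedAddCommGroup B] [NormedSpace ℝ B] (e : B) (he : ‖e‖ = 1)
    (P : ℕ → Set B) (hPf : ∀ j, (P j).Finite)
    (hPb : ∀ j, P j ⊆ closedBall (((1:ℝ)/4)^j • e) ((1/4)^j/8)) (Λ : ℕ)
    (hPd : ∀ j, DoublingConstLE (P j) Λ) :
    IsCompact ({0} ∪ ⋃ j, P j) ∧ DoublingConstLE ({0} ∪ ⋃ j, P j) (Λ + 3) := by
  classical
  have hup : ∀ j, ∀ y ∈ P j, ‖y‖ ≤ 9/8 * (1/4)^j := by
    intro j y hy
    have h := hPb j hy
    rw [mem_closedBall, dist_eq_norm] at h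
    have h2 : ‖((1:ℝ)/4)^j • e‖ = (1/4)^j := by
      rw [norm_smul, he, mul_one, Real.norm_eq_abs, abs_of_pos (by positivity)]
    have h3 : ‖y‖ ≤ ‖y - ((1:ℝ)/4)^j • e‖ + ‖((1:ℝ)/4)^j • e‖ := by
      have := norm_add_le (y - ((1:ℝ)/4)^j • e) (((1:ℝ)/4)^j • e)
      simpa using this
    linarith
  have hlo : ∀ j, ∀ y ∈ P j, 7/8 * (1/4)^j ≤ ‖y‖ := by
    intro j y hy
    have h := hPb j hy
    rw [mem_closedBall, dist_eq_norm] at h
    have h2 : ‖((1:ℝ)/4)^j • e‖ = (1/4)^j := by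
      rw [norm_smul, he, mul_one, Real.norm_eq_abs, abs_of_pos (by positivity)]
    have h3 : ‖((1:ℝ)/4)^j • e‖ ≤ ‖y - ((1:ℝ)/4)^j • e‖ + ‖y‖ := by
      have := norm_sub_le y (y - ((1:ℝ)/4)^j • e)
      have h4 : y - (y - ((1:ℝ)/4)^j • e) = ((1:ℝ)/4)^j • e := by abel
      rw [h4] at this
      linarith
    linarith
  constructor
  · apply isCompact_of_finite_subcover
    intro ι U hU hK
    have h0 : (0:B) ∈ ⋃ i, U i := hK (Or.inl rfl)
    obtain ⟨i0, hi0⟩ := Set.mem_iUnion.1 h0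
    obtain ⟨ε, hε, hball⟩ := Metric.isOpen_iff.1 (hU i0) 0 hi0
    obtain ⟨J, hJ⟩ := exists_pow_lt_of_lt_one (show (0:ℝ) < ε / 2 by positivity) (show (1:ℝ)/4 < 1 by norm_num)
    have hfin : (⋃ j ∈ Finset.range J, P j).Finite :=
      Set.Finite.biUnion (Finset.finite_toSet _) (fun j _ => hPf j)
    have hsub : (⋃ j ∈ Finset.range J, P j) ⊆ ⋃ i, U i := by
      intro y hy
      apply hK
      right
      simp only [Set.mem_iUnion] at hy ⊢
      obtain ⟨j, _, hy⟩ := hy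
      exact ⟨j, hy⟩
    obtain ⟨t, ht⟩ := hfin.isCompact.elim_finite_subcover U hU hsub
    refine ⟨insert i0 t, ?_⟩
    intro y hy
    have key : y ∈ U i0 → y ∈ ⋃ i ∈ insert i0 t, U i := by
      intro h
      simp only [Set.mem_iUnion]
      exact ⟨i0, Finset.mem_insert_self _ _, h⟩
    rcases hy with hy | hy
    · apply key
      have : y = 0 := hy
      rw [this]; exact hi0
    · obtain ⟨j, hj⟩ := Set.mem_iUnion.1 hy
      by_cases hjJ : j < J
      · have : y ∈ ⋃ i ∈ t, U i := by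
          apply ht
          simp only [Set.mem_iUnion]
          exact ⟨j, Finset.mem_range.2 hjJ, hj⟩
        simp only [Set.mem_iUnion] at this ⊢
        obtain ⟨i, hi, hyi⟩ := this
        exact ⟨i, Finset.mem_insert_of_mem hi, hyi⟩
      · apply key
        apply hball
        rw [mem_ball, dist_zero_right]
        have h1 := hup j y hj
        have h2 : ((1:ℝ)/4)^j ≤ (1/4)^J := pow_le_pow_of_le_one (by norm_num) (by norm_num) (not_lt.1 hjJ)
        linarith
  · intro x hx r hr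
    -- the point sets
    have hpt : ∀ i, ∃ Q : Finset B, (Q : Set B) ⊆ P i ∧ Q.card ≤ 1 ∧ ((P i).Nonempty → Q.Nonempty) := by
      intro i
      by_cases h : (P i).Nonempty
      · obtain ⟨p, hp⟩ := h
        exact ⟨{p}, by simpa using hp, by simp, fun _ => by simp⟩
      · exact ⟨∅, by simp, by simp, fun h' => absurd h' h⟩
    choose Q hQP hQc hQn using hpt
    have hex : ∃ i, ((1:ℝ)/4)^i ≤ 4 * r := by
      obtain ⟨J, hJ⟩ := exists_pow_lt_of_lt_one (show (0:ℝ) < 4 * r by positivity) (show (1:ℝ)/4 < 1 by norm_num)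
      exact ⟨J, hJ.le⟩
    set i0 := Nat.find hex with hi0
    have hi0s : ((1:ℝ)/4)^i0 ≤ 4 * r := Nat.find_spec hex
    have hi0m : ∀ i, ((1:ℝ)/4)^i ≤ 4 * r → i0 ≤ i := fun i hi => Nat.find_min' hex hi
    -- the covering of a piece different from the one containing x
    have hcov : ∀ i, ∀ y ∈ P i, ((1:ℝ)/4)^i ≤ 4 * r →
        y ∈ ⋃ c ∈ ({0} ∪ Q i0 ∪ Q (i0+1) : Finset B), closedBall c r := by
      intro i y hy hi
      have h1 := hi0m i hi
      have hdiam : ∀ q ∈ P i, dist y q ≤ r := by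
        intro q hq
        have a := hPb i hy
        have b := hPb i hq
        rw [mem_closedBall] at a b
        have := dist_triangle_right y q (((1:ℝ)/4)^i • e)
        linarith
      simp only [Set.mem_iUnion]
      by_cases h2 : i = i0
      · obtain ⟨q, hq⟩ := hQn i ⟨y, hy⟩
        refine ⟨q, ?_, hdiam q (hQP i hq)⟩
        rw [← h2]; simp [hq]
      · by_cases h3 : i = i0 + 1
        · obtain ⟨q, hq⟩ := hQn i ⟨y, hy⟩
          refine ⟨q, ?_, hdiam q (hQP i hq)⟩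
          rw [← h3]; simp [hq]
        · refine ⟨0, by simp, ?_⟩
          rw [mem_closedBall, dist_zero_right]
          have h4 : i0 + 2 ≤ i := by omega
          have h5 : ((1:ℝ)/4)^i ≤ (1/4)^(i0+2) := pow_le_pow_of_le_one (by norm_num) (by norm_num) h4
          have h6 : ((1:ℝ)/4)^(i0+2) = (1/4)^i0 / 16 := by rw [pow_add]; ring
          have h7 := hup i y hy
          linarith
    have hQcard : ({0} ∪ Q i0 ∪ Q (i0+1) : Finset B).card ≤ 3 := by
      have a1 := Finset.card_union_le ({0} ∪ Q i0) (Q (i0+1))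
      have a2 := Finset.card_union_le ({0} : Finset B) (Q i0)
      have a3 := hQc i0
      have a4 := hQc (i0+1)
      have a5 : ({0} : Finset B).card = 1 := Finset.card_singleton 0
      omega
    have hQsub : ((({0} ∪ Q i0 ∪ Q (i0+1) : Finset B)) : Set B) ⊆ {0} ∪ ⋃ j, P j := by
      intro b hb
      simp only [Finset.coe_union, Finset.coe_singleton, Set.mem_union, Set.mem_singleton_iff,
        Finset.mem_coe] at hb
      rcases hb with (hb | hb) | hb
      · exact Or.inl hb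
      · exact Or.inr (Set.mem_iUnion.2 ⟨_, hQP _ hb⟩)
      · exact Or.inr (Set.mem_iUnion.2 ⟨_, hQP _ hb⟩)
    have hzero : (0:B) ∈ ⋃ c ∈ ({0} ∪ Q i0 ∪ Q (i0+1) : Finset B), closedBall c r := by
      simp only [Set.mem_iUnion]
      exact ⟨0, by simp, by simp [hr.le]⟩
    rcases hx with hx | hx
    · have hx0 : x = 0 := hx
      subst hx0
      refine ⟨_, hQsub, by omega, ?_⟩
      rintro y ⟨hy, hyr⟩
      rcases hy with hy | hy
      · have : y = 0 := hy
        rw [this]; exact hzero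
      · obtain ⟨i, hi⟩ := Set.mem_iUnion.1 hy
        apply hcov i y hi
        have := hlo i y hi
        rw [mem_closedBall, dist_zero_right] at hyr
        linarith
    · obtain ⟨j, hj⟩ := Set.mem_iUnion.1 hx
      obtain ⟨C, hCP, hCc, hC⟩ := hPd j x hj r hr
      refine ⟨C ∪ ({0} ∪ Q i0 ∪ Q (i0+1)), ?_, ?_, ?_⟩
      · rw [Finset.coe_union]
        apply Set.union_subset
        · intro b hb
          exact Or.inr (Set.mem_iUnion.2 ⟨j, hCP hb⟩)
        · exact hQsub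
      · have := Finset.card_union_le C ({0} ∪ Q i0 ∪ Q (i0+1))
        omega
      · rintro y ⟨hy, hyr⟩
        have hincl : ∀ z, z ∈ ⋃ c ∈ ({0} ∪ Q i0 ∪ Q (i0+1) : Finset B), closedBall c r →
            z ∈ ⋃ c ∈ (C ∪ ({0} ∪ Q i0 ∪ Q (i0+1)) : Finset B), closedBall c r := by
          intro z hz
          simp only [Set.mem_iUnion] at hz ⊢
          obtain ⟨c, hc, hz⟩ := hz
          exact ⟨c, Finset.mem_union_right _ hc, hz⟩
        rcases hy with hy | hy
        · have : y = 0 := hy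
          rw [this]; exact hincl _ hzero
        · obtain ⟨i, hi⟩ := Set.mem_iUnion.1 hy
          rcases lt_trichotomy i j with hij | hij | hij
          · apply hincl
            apply hcov i y hi
            have := sep e he hij (hPb i hi) (hPb j hj)
            rw [mem_closedBall] at hyr
            linarith
          · subst hij
            have := hC ⟨hi, hyr⟩
            simp only [Set.mem_iUnion] at this ⊢
            obtain ⟨c, hc, hz⟩ := this
            exact ⟨c, Finset.mem_union_left _ hc, hz⟩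
          · apply hincl
            apply hcov i y hi
            have h1 := sep e he hij (hPb j hj) (hPb i hi)
            have h2 := pow_quarter_lt hij
            rw [mem_closedBall, dist_comm] at hyr
            have h3 : (0:ℝ) < (1/4)^j := by positivity
            linarith

theorem asm (hF : FIN) (hD : ∀ (B : Type u) [NormedAddCommGroup B] [NormedSpace ℝ B],
      ¬ FiniteDimensional ℝ B → DV B) :
    ∃ Λ : ℕ, ∀ (B : Type u) [NormedAddCommGroup B] [NormedSpace ℝ B] [CompleteSpace B],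
      ¬ FiniteDimensional ℝ B →
      ∃ K : Set B, IsCompact K ∧ DoublingConstLE K Λ ∧
        ∀ (Y : Type v) [NormedAddCommGroup Y] [NormedSpace ℝ Y] [FiniteDimensional ℝ Y]
          (f : K → Y) (c C : NNReal), ¬ (LipschitzWith C f ∧ AntilipschitzWith c f) := by
  classical
  obtain ⟨Λ, hΛ⟩ := hF
  refine ⟨Λ * Λ + 3, ?_⟩
  intro B _ _ _ hB
  have hBne : Nontrivial B := by
    by_contra h
    rw [not_nontrivial_iff_subsingleton] at h
    exact hB inferInstance
  obtain ⟨e, he⟩ : ∃ e : B, ‖e‖ = 1 := exists_norm_eq B zero_le_one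
  have hT := hD B hB
  have hX : ∀ j : ℕ, ∃ (m : ℕ) (X : Finset (EuclideanSpace ℝ (Fin m)))
      (φ : EuclideanSpace ℝ (Fin m) → B) (s : ℝ), 0 < s ∧
      (∀ x y, s * ‖x - y‖ ≤ ‖φ x - φ y‖) ∧ (∀ x y, ‖φ x - φ y‖ ≤ 2 * s * ‖x - y‖) ∧
      (φ '' (X : Set (EuclideanSpace ℝ (Fin m))) ⊆ closedBall (((1:ℝ)/4)^j • e) ((1/4)^j/8)) ∧
      DoublingConstLE (X : Set (EuclideanSpace ℝ (Fin m))) Λ ∧
      ∀ f : EuclideanSpace ℝ (Fin m) → EuclideanSpace ℝ (Fin j.unpair.1),
        ¬ ∀ x ∈ X, ∀ y ∈ X, ‖x - y‖ ≤ ‖f x - f y‖ ∧ ‖f x - f y‖ ≤ (j.unpair.2 : ℝ) * ‖x - y‖ := by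
    intro j
    obtain ⟨m, X, h1, h2⟩ := hΛ j.unpair.1 j.unpair.2
    obtain ⟨T, hT⟩ := hT m
    have hbd : ∃ M : ℝ, 0 < M ∧ ∀ x ∈ X, ‖T x‖ ≤ M := by
      refine ⟨∑ x ∈ X, ‖T x‖ + 1, by positivity, ?_⟩
      intro x hx
      have := Finset.single_le_sum (f := fun x => ‖T x‖) (fun i _ => norm_nonneg _) hx
      linarith
    obtain ⟨M, hM, hMb⟩ := hbd
    have hq : (0:ℝ) < (1/4)^j := by positivity
    refine ⟨m, X, fun x => ((1:ℝ)/4)^j • e + ((1/4)^j/8/M) • T x, (1/4)^j/8/M, by positivity, ?_, ?_, ?_, h1, h2⟩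
    · intro x y
      have : (((1:ℝ)/4)^j • e + ((1/4)^j/8/M) • T x) - (((1:ℝ)/4)^j • e + ((1/4)^j/8/M) • T y)
          = (((1:ℝ)/4)^j/8/M) • T (x - y) := by
        rw [map_sub, smul_sub]; abel
      rw [this, norm_smul, Real.norm_eq_abs, abs_of_pos (by positivity)]
      exact mul_le_mul_of_nonneg_left (hT (x - y)).1 (by positivity)
    · intro x y
      have : (((1:ℝ)/4)^j • e + ((1/4)^j/8/M) • T x) - (((1:ℝ)/4)^j • e + ((1/4)^j/8/M) • T y)
          = (((1:ℝ)/4)^j/8/M) • T (x - y) := by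
        rw [map_sub, smul_sub]; abel
      rw [this, norm_smul, Real.norm_eq_abs, abs_of_pos (by positivity)]
      have := mul_le_mul_of_nonneg_left (hT (x - y)).2 (show (0:ℝ) ≤ (1/4)^j/8/M by positivity)
      linarith
    · rintro _ ⟨x, hx, rfl⟩
      rw [mem_closedBall, dist_eq_norm]
      have : ((1:ℝ)/4)^j • e + ((1/4)^j/8/M) • T x - ((1:ℝ)/4)^j • e = (((1:ℝ)/4)^j/8/M) • T x := by abel
      simp only [this, norm_smul, Real.norm_eq_abs]
      rw [abs_of_pos (by positivity)]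
      have := mul_le_mul_of_nonneg_left (hMb x hx) (show (0:ℝ) ≤ (1/4)^j/8/M by positivity)
      have h3 : ((1:ℝ)/4)^j/8/M * M = (1/4)^j/8 := by field_simp
      linarith
  choose m X φ s hs h1 h2 hsub hdoub hno using hX
  obtain ⟨hcomp, hdd⟩ := asm_main e he (fun j => φ j '' (X j : Set (EuclideanSpace ℝ (Fin (m j)))))
    (fun j => ((X j).finite_toSet).image _) hsub (Λ * Λ)
    (fun j => doubling_image (X j) Λ (hdoub j) (φ j) (s j) (hs j) (h1 j) (h2 j))
  refine ⟨_, hcomp, hdd, ?_⟩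
  intro Y _ _ _ f c C
  rintro ⟨hf1, hf2⟩
  set n := Module.finrank ℝ Y with hn
  let L : Y ≃L[ℝ] EuclideanSpace ℝ (Fin n) := toEuclidean
  have hL1 : ∀ y, ‖L y‖ ≤ ‖(L : Y →L[ℝ] EuclideanSpace ℝ (Fin n))‖ * ‖y‖ := fun y =>
    (L : Y →L[ℝ] EuclideanSpace ℝ (Fin n)).le_opNorm y
  have hL2 : ∀ y, ‖y‖ ≤ ‖(L.symm : EuclideanSpace ℝ (Fin n) →L[ℝ] Y)‖ * ‖L y‖ := fun y => by
    have := (L.symm : EuclideanSpace ℝ (Fin n) →L[ℝ] Y).le_opNorm (L y)
    simpa using this
  set a := ‖(L : Y →L[ℝ] EuclideanSpace ℝ (Fin n))‖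
  set b := ‖(L.symm : EuclideanSpace ℝ (Fin n) →L[ℝ] Y)‖
  have ha : 0 ≤ a := norm_nonneg _
  have hb : 0 ≤ b := norm_nonneg _
  set A : ℝ := c * b + 1 with hA
  have hApos : 0 < A := by positivity
  set D : ℕ := ⌈2 * A * (C * a)⌉₊ with hDdef
  set j := Nat.pair n D with hj
  have hj1 : j.unpair.1 = n := by rw [hj, Nat.unpair_pair]
  have hj2 : j.unpair.2 = D := by rw [hj, Nat.unpair_pair]
  let K : Set B := {0} ∪ ⋃ j, φ j '' (X j : Set (EuclideanSpace ℝ (Fin (m j))))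
  have hmem : ∀ x ∈ X j, φ j x ∈ K := fun x hx => Or.inr (Set.mem_iUnion.2 ⟨j, x, hx, rfl⟩)
  let g : EuclideanSpace ℝ (Fin (m j)) → EuclideanSpace ℝ (Fin n) := fun x =>
    if hx : x ∈ X j then (A / s j) • L (f ⟨φ j x, hmem x hx⟩) else 0
  have hgoal : ∀ x ∈ X j, ∀ y ∈ X j, ‖x - y‖ ≤ ‖g x - g y‖ ∧ ‖g x - g y‖ ≤ (D : ℝ) * ‖x - y‖ := by
    intro x hx y hy
    have hg : g x - g y = (A / s j) • L (f ⟨φ j x, hmem x hx⟩ - f ⟨φ j y, hmem y hy⟩) := by
      simp only [g, hx, hy, dif_pos, map_sub, smul_sub]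
    set u := f ⟨φ j x, hmem x hx⟩ - f ⟨φ j y, hmem y hy⟩ with hu
    have hAs : 0 < A / s j := div_pos hApos (hs j)
    rw [hg, norm_smul, Real.norm_eq_abs, abs_of_pos hAs]
    have e1 : ‖φ j x - φ j y‖ ≤ c * ‖u‖ := by
      have := hf2.le_mul_dist ⟨φ j x, hmem x hx⟩ ⟨φ j y, hmem y hy⟩
      rw [Subtype.dist_eq, dist_eq_norm, dist_eq_norm] at this
      exact this
    have e2 : ‖u‖ ≤ C * ‖φ j x - φ j y‖ := by
      have := hf1.dist_le_mul ⟨φ j x, hmem x hx⟩ ⟨φ j y, hmem y hy⟩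
      rw [Subtype.dist_eq, dist_eq_norm, dist_eq_norm] at this
      exact this
    have e3 := hL1 u
    have e4 := hL2 u
    have e5 := h1 j x y
    have e6 := h2 j x y
    have hsj := hs j
    constructor
    · have f1 : s j * ‖x - y‖ ≤ A * ‖L u‖ := by
        calc s j * ‖x - y‖ ≤ ‖φ j x - φ j y‖ := e5
          _ ≤ c * ‖u‖ := e1
          _ ≤ c * (b * ‖L u‖) := mul_le_mul_of_nonneg_left e4 c.2
          _ ≤ A * ‖L u‖ := by
            rw [hA]
            have := norm_nonneg (L u)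
            nlinarith
      rw [div_mul_eq_mul_div, le_div_iff₀ hsj]
      linarith
    · have f1 : A * ‖L u‖ ≤ (2 * A * (C * a)) * (s j * ‖x - y‖) := by
        calc A * ‖L u‖ ≤ A * (a * ‖u‖) := mul_le_mul_of_nonneg_left e3 hApos.le
          _ ≤ A * (a * (C * ‖φ j x - φ j y‖)) :=
            mul_le_mul_of_nonneg_left (mul_le_mul_of_nonneg_left e2 ha) hApos.le
          _ ≤ A * (a * (C * (2 * s j * ‖x - y‖))) := by
            apply mul_le_mul_of_nonneg_left _ hApos.le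
            apply mul_le_mul_of_nonneg_left _ ha
            exact mul_le_mul_of_nonneg_left e6 C.2
          _ = (2 * A * (C * a)) * (s j * ‖x - y‖) := by ring
      have f2 : (2 * A * (C * a)) ≤ (D : ℝ) := Nat.le_ceil _
      rw [div_mul_eq_mul_div, div_le_iff₀ hsj]
      have f3 : (2 * A * (C * a)) * (s j * ‖x - y‖) ≤ D * (s j * ‖x - y‖) :=
        mul_le_mul_of_nonneg_right f2 (by positivity)
      linarith
  have hnoj := hno j
  rw [hj2] at hnoj
  have : ∀ (k : ℕ) (hk : k = n), (∀ f : EuclideanSpace ℝ (Fin (m j)) → EuclideanSpace ℝ (Fin k),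
        ¬ ∀ x ∈ X j, ∀ y ∈ X j, ‖x - y‖ ≤ ‖f x - f y‖ ∧ ‖f x - f y‖ ≤ (D : ℝ) * ‖x - y‖) → False := by
    rintro k rfl h
    exact h g hgoal
  exact this _ hj1 hnoj

end Crest.Agent.LP
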