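import Crest.Agent.H11DVNet
import Crest.Agent.H22DR
import Crest.Agent.H16DVPoin
import Crest.Agent.H17DVMean2
import Crest.Agent.LPAsm

/-! Dvoretzky's theorem with constant 2, assembled (rid 254). -/

namespace Crest.DV

universe u v

theorem dvProof : DV.{u} := netd drProof poin meanProof

/-- the form needed by `asm` -/
theorem lpDV (B : Type u) [NormedAddCommGroup B] [NormedSpace ℝ B] (hB : ¬ FiniteDimensional ℝ B) :
    Crest.Agent.LP.DV B := dvProof B hB

end Crest.DV

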