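import Mathlib
import Crest.Agent.DVDefs

/-!
Dvoretzky's theorem with constant 2 (rid 254): the net argument.
-/

set_option autoImplicit false

namespace Crest.DV.Net

open MeasureTheory ProbabilityTheory Complex
open scoped RealInnerProductSpace

abbrev EE (N : ℕ) := EuclideanSpace ℝ (Fin N)

/-- law of `∑ x_j g_j` for a unit vector `x` -/
theorem law (m N : ℕ) (x : EE m) (hx : ‖x‖ = 1) :
    (Measure.pi (fun _ : Fin m => stdGaussian (EE N))).map
      (fun ω : Fin m → EE N => ∑ j, x j • ω j) = stdGaussian (EE N) := by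
  have hmeas : Measurable (fun ω : Fin m → EE N => ∑ j, x j • ω j) := by fun_prop
  have : IsProbabilityMeasure ((Measure.pi (fun _ : Fin m => stdGaussian (EE N))).map
      (fun ω : Fin m → EE N => ∑ j, x j • ω j)) := Measure.isProbabilityMeasure_map hmeas.aemeasurable
  apply Measure.ext_of_charFun (E := EE N)
  ext t
  rw [charFun_stdGaussian, charFun_apply, integral_map hmeas.aemeasurable
    (Measurable.aestronglyMeasurable (by fun_prop))]
  simp_rw [sum_inner, ofReal_sum, Finset.sum_mul, exp_sum]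
  rw [integral_fintype_prod_eq_prod (f := fun (i : Fin m) (y : EE N) ↦ cexp (((⟪x i • y, t⟫ : ℝ) : ℂ) * I))]
  have h1 : ∀ i : Fin m, ∫ y, cexp (((⟪x i • y, t⟫ : ℝ) : ℂ) * I) ∂(stdGaussian (EE N)) =
      cexp (-((x i ^ 2 * ‖t‖ ^ 2 : ℝ) : ℂ) / 2) := by
    intro i
    have h2 := charFun_stdGaussian (E := EE N) (x i • t)
    rw [charFun_apply] at h2
    have h3 : ∀ y : EE N, (⟪x i • y, t⟫ : ℝ) = ⟪y, x i • t⟫ := by
      intro y; rw [real_inner_smul_left, real_inner_smul_right]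
    simp_rw [h3]
    rw [h2, norm_smul]
    congr 1
    push_cast
    rw [mul_pow, ← ofReal_pow ‖x i‖, Real.norm_eq_abs, sq_abs]
    push_cast
    ring
  simp_rw [h1]
  rw [← exp_sum]
  congr 1
  rw [← Finset.sum_div]
  have h4 : ∑ i : Fin m, x i ^ 2 = 1 := by
    have := EuclideanSpace.real_norm_sq_eq x
    rw [hx] at this
    simpa using this.symm
  have h5 : ∑ i : Fin m, -((x i ^ 2 * ‖t‖ ^ 2 : ℝ) : ℂ) = -((‖t‖ ^ 2 : ℝ) : ℂ) := by
    rw [Finset.sum_neg_distrib, ← ofReal_sum, ← Finset.sum_mul, h4, one_mul]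
  rw [h5]
  push_cast
  rfl


/-- integrability of a 1-Lipschitz seminorm and of its square deviation -/
theorem memLp_q (N : ℕ) (q : EE N → ℝ) (hq : Continuous q) (hb : ∀ x, |q x| ≤ ‖x‖) :
    MemLp q 2 (stdGaussian (EE N)) := by
  have h1 : MemLp (fun x : EE N => x) 2 (stdGaussian (EE N)) := IsGaussian.memLp_two_id
  refine h1.mono hq.aestronglyMeasurable (Filter.Eventually.of_forall fun x => ?_)
  simpa using hb x

/-- Chebyshev -/
theorem cheb (N : ℕ) (q : EE N → ℝ) (hq : Continuous q) (hb : ∀ x, |q x| ≤ ‖x‖)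
    (hV : ∫ x, (q x - ∫ y, q y ∂(stdGaussian (EE N))) ^ 2 ∂(stdGaussian (EE N)) ≤ 2)
    (t : ℝ) (ht : 0 < t) :
    (stdGaussian (EE N)) {x | t ≤ |q x - ∫ y, q y ∂(stdGaussian (EE N))|} ≤
      ENNReal.ofReal (2 / t ^ 2) := by
  have h1 := meas_ge_le_variance_div_sq (memLp_q N q hq hb) ht
  refine h1.trans (ENNReal.ofReal_le_ofReal ?_)
  have h2 : Var[q; stdGaussian (EE N)] ≤ 2 := by
    rw [variance_eq_integral hq.aemeasurable]
    exact hV
  gcongr

/-- existence of good `ω` for a finite set of unit vectors -/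
theorem exists_good (m N : ℕ) (q : EE N → ℝ) (hq : Continuous q) (hb : ∀ x, |q x| ≤ ‖x‖)
    (hV : ∫ x, (q x - ∫ y, q y ∂(stdGaussian (EE N))) ^ 2 ∂(stdGaussian (EE N)) ≤ 2)
    (s : Finset (EE m)) (hs : ∀ x ∈ s, ‖x‖ = 1) (t : ℝ) (ht : 0 < t)
    (hcard : (s.card : ℝ) * (2 / t ^ 2) < 1) :
    ∃ ω : Fin m → EE N, ∀ x ∈ s,
      |q (∑ j, x j • ω j) - ∫ y, q y ∂(stdGaussian (EE N))| < t := by
  classical
  set P := Measure.pi (fun _ : Fin m => stdGaussian (EE N)) with hP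
  set M := ∫ y, q y ∂(stdGaussian (EE N)) with hM
  by_contra hcon
  push Not at hcon
  have hsub : (Set.univ : Set (Fin m → EE N)) ⊆
      ⋃ x ∈ s, {ω : Fin m → EE N | t ≤ |q (∑ j, x j • ω j) - M|} := by
    intro ω _
    obtain ⟨x, hx, h⟩ := hcon ω
    simp only [Set.mem_iUnion]
    exact ⟨x, hx, h⟩
  have h1 : P Set.univ ≤ ∑ x ∈ s, P {ω : Fin m → EE N | t ≤ |q (∑ j, x j • ω j) - M|} :=
    (measure_mono hsub).trans (measure_biUnion_finset_le _ _)
  have h2 : ∀ x ∈ s, P {ω : Fin m → EE N | t ≤ |q (∑ j, x j • ω j) - M|} ≤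
      ENNReal.ofReal (2 / t ^ 2) := by
    intro x hx
    have hmeas : Measurable (fun ω : Fin m → EE N => ∑ j, x j • ω j) := by fun_prop
    have hset : MeasurableSet {y : EE N | t ≤ |q y - M|} := by
      apply measurableSet_le measurable_const
      exact ((hq.measurable.sub_const M).abs)
    have h3 := cheb N q hq hb hV t ht
    rw [← law m N x (hs x hx), Measure.map_apply hmeas (by rw [law m N x (hs x hx)]; exact hset)] at h3
    rw [law m N x (hs x hx)] at h3
    exact h3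
  have h3 : P Set.univ ≤ ∑ x ∈ s, ENNReal.ofReal (2 / t ^ 2) := h1.trans (Finset.sum_le_sum h2)
  rw [Finset.sum_const, nsmul_eq_mul] at h3
  have h4 : (s.card : ENNReal) * ENNReal.ofReal (2 / t ^ 2) < 1 := by
    rw [show (s.card : ENNReal) = ENNReal.ofReal (s.card : ℝ) by simp, ← ENNReal.ofReal_mul (by positivity),
      ← ENNReal.ofReal_one]
    exact (ENNReal.ofReal_lt_ofReal_iff (by norm_num)).2 hcard
  have h5 : P Set.univ = 1 := measure_univ
  rw [h5] at h3
  exact absurd (h3.trans_lt h4) (lt_irrefl _)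

/-- net argument: a linear map which is almost isometric (up to `M`) on a 1/10-net of the sphere -/
theorem net_arg {B : Type*} [NormedAddCommGroup B] [NormedSpace ℝ B] (m : ℕ) (T : EE m →ₗ[ℝ] B)
    (s : Finset (EE m)) (hcov : ∀ x : EE m, ‖x‖ = 1 → ∃ y ∈ s, ‖x - y‖ < 1 / 10)
    (M : ℝ) (hM : 0 < M) (hT : ∀ x ∈ s, |‖T x‖ - M| < M / 10) :
    ∀ x : EE m, 7 / 9 * M * ‖x‖ ≤ ‖T x‖ ∧ ‖T x‖ ≤ 11 / 9 * M * ‖x‖ := by
  have hcont : Continuous T := LinearMap.continuous_of_finiteDimensional T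
  -- reduction to unit vectors
  have hom : ∀ x : EE m, x ≠ 0 → ‖T x‖ = ‖x‖ * ‖T (‖x‖⁻¹ • x)‖ ∧ ‖(‖x‖⁻¹ • x)‖ = 1 := by
    intro x hx
    have hx' : ‖x‖ ≠ 0 := norm_ne_zero_iff.2 hx
    constructor
    · rw [map_smul, norm_smul, norm_inv, norm_norm, ← mul_assoc, mul_inv_cancel₀ hx', one_mul]
    · rw [norm_smul, norm_inv, norm_norm, inv_mul_cancel₀ hx']
  rcases Set.eq_empty_or_nonempty (Metric.sphere (0 : EE m) 1) with hemp | hne
  · intro x
    have hx : x = 0 := by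
      by_contra hx
      have h1 := (hom x hx).2
      have : (‖x‖⁻¹ • x) ∈ Metric.sphere (0 : EE m) 1 := by simpa using h1
      rw [hemp] at this
      exact this
    subst hx
    simp
  · obtain ⟨x0, hx0, hmax⟩ := (isCompact_sphere (0 : EE m) 1).exists_isMaxOn hne
      (hcont.norm.continuousOn)
    set K := ‖T x0‖ with hK
    have hKmax : ∀ x : EE m, ‖T x‖ ≤ K * ‖x‖ := by
      intro x
      by_cases hx : x = 0
      · subst hx; simp
      · obtain ⟨h1, h2⟩ := hom x hx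
        have h3 : ‖T (‖x‖⁻¹ • x)‖ ≤ K := hmax (by simpa using h2)
        rw [h1, mul_comm K]
        exact mul_le_mul_of_nonneg_left h3 (norm_nonneg _)
    have hnet : ∀ x : EE m, ‖x‖ = 1 → ‖T x‖ ≤ 11 / 10 * M + K / 10 ∧ 9 / 10 * M - K / 10 ≤ ‖T x‖ := by
      intro x hx
      obtain ⟨y, hy, hxy⟩ := hcov x hx
      have h1 := abs_lt.1 (hT y hy)
      have h2 : ‖T (x - y)‖ ≤ K * ‖x - y‖ := hKmax _
      have hK0 : 0 ≤ K := norm_nonneg _
      have h3 : K * ‖x - y‖ ≤ K / 10 := by nlinarith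
      have h4 : T x = T y + T (x - y) := by rw [map_sub]; abel
      have h5 : ‖T x‖ ≤ ‖T y‖ + ‖T (x - y)‖ := by rw [h4]; exact norm_add_le _ _
      have h6 : ‖T y‖ ≤ ‖T x‖ + ‖T (x - y)‖ := by
        have : T y = T x - T (x - y) := by rw [map_sub]; abel
        rw [this]; exact norm_sub_le _ _
      constructor <;> linarith
    have hx0' : ‖x0‖ = 1 := by simpa using hx0
    have hKle : K ≤ 11 / 9 * M := by
      have := (hnet x0 hx0').1
      linarith
    intro x
    by_cases hx : x = 0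
    · subst hx; simp
    · obtain ⟨h1, h2⟩ := hom x hx
      obtain ⟨h3, h4⟩ := hnet _ h2
      have hxn : 0 ≤ ‖x‖ := norm_nonneg _
      rw [h1]
      constructor
      · have : 7 / 9 * M ≤ ‖T (‖x‖⁻¹ • x)‖ := by linarith
        calc 7 / 9 * M * ‖x‖ = ‖x‖ * (7 / 9 * M) := by ring
          _ ≤ ‖x‖ * ‖T (‖x‖⁻¹ • x)‖ := mul_le_mul_of_nonneg_left this hxn
      · have : ‖T (‖x‖⁻¹ • x)‖ ≤ 11 / 9 * M := by linarith
        calc ‖x‖ * ‖T (‖x‖⁻¹ • x)‖ ≤ ‖x‖ * (11 / 9 * M) := mul_le_mul_of_nonneg_left this hxn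
          _ = 11 / 9 * M * ‖x‖ := by ring

/-- the linear map `x ↦ ∑ x_j • ω_j` -/
noncomputable def comb (m N : ℕ) (ω : Fin m → EE N) : EE m →ₗ[ℝ] EE N where
  toFun x := ∑ j, x j • ω j
  map_add' x y := by simp [add_smul, Finset.sum_add_distrib]
  map_smul' c x := by simp [Finset.smul_sum, smul_smul]

theorem comb_apply (m N : ℕ) (ω : Fin m → EE N) (x : EE m) : comb m N ω x = ∑ j, x j • ω j := rfl

end Crest.DV.Net

namespace Crest.DV

open MeasureTheory ProbabilityTheory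

universe u

/-- Dvoretzky's theorem with constant 2 from the three ingredients. -/
theorem netd : NETD.{u} := by
  intro hDR hPOIN hMEAN B _ _ hB m
  classical
  -- the net
  obtain ⟨s, hs, hcov⟩ : ∃ s : Finset (E m), (∀ x ∈ s, ‖x‖ = 1) ∧
      ∀ x : E m, ‖x‖ = 1 → ∃ y ∈ s, ‖x - y‖ < 1 / 10 := by
    obtain ⟨t, ht, htf, hc⟩ := (isCompact_sphere (0 : E m) 1).finite_cover_balls
      (show (0 : ℝ) < 1 / 10 by norm_num)
    refine ⟨htf.toFinset, fun x hx => ?_, fun x hx => ?_⟩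
    · have := ht (htf.mem_toFinset.1 hx)
      simpa using this
    · have hx' : x ∈ Metric.sphere (0 : E m) 1 := by simpa using hx
      have := hc hx'
      simp only [Set.mem_iUnion, Metric.mem_ball, exists_prop] at this
      obtain ⟨y, hy, hxy⟩ := this
      exact ⟨y, htf.mem_toFinset.2 hy, by rwa [← dist_eq_norm]⟩
  obtain ⟨n0, hn0⟩ := hMEAN (20 * (s.card + 1 : ℝ))
  obtain ⟨T, hT1, hT2⟩ := hDR B hB n0
  -- the seminorm
  let q : Seminorm ℝ (E n0) := (normSeminorm ℝ B).comp T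
  have hq : ∀ x, q x = ‖T x‖ := fun x => rfl
  have hcT : Continuous T := LinearMap.continuous_of_finiteDimensional T
  have hqc : Continuous (fun x => q x) := by
    simp_rw [hq]; exact hcT.norm
  have hM := hn0 n0 le_rfl q (fun x => by rw [hq]; exact hT1 x) (fun i => by rw [hq]; exact hT2 i)
  set M := ∫ x, q x ∂(stdGaussian (E n0)) with hMdef
  have hMpos : 0 < M := lt_of_lt_of_le (by positivity) hM
  have hV := hPOIN n0 q (fun x => by rw [hq]; exact hT1 x)
  have hcard : (s.card : ℝ) * (2 / (M / 10) ^ 2) < 1 := by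
    have h0 : (0 : ℝ) ≤ s.card := by positivity
    rw [← mul_div_assoc, div_lt_one (by positivity)]
    nlinarith
  obtain ⟨ω, hω⟩ := Net.exists_good m n0 (fun x => q x) hqc
    (fun x => by rw [hq, abs_of_nonneg (norm_nonneg _)]; exact hT1 x) hV s hs (M / 10) (by positivity) hcard
  have hnet := Net.net_arg m (T ∘ₗ Net.comb m n0 ω) s hcov M hMpos (by
    intro x hx
    exact hω x hx)
  refine ⟨(9 / (7 * M)) • (T ∘ₗ Net.comb m n0 ω), fun x => ?_⟩
  obtain ⟨h1, h2⟩ := hnet x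
  have h3 : ‖((9 / (7 * M)) • (T ∘ₗ Net.comb m n0 ω)) x‖ =
      9 / (7 * M) * ‖(T ∘ₗ Net.comb m n0 ω) x‖ := by
    rw [LinearMap.smul_apply, norm_smul, Real.norm_eq_abs, abs_of_pos (by positivity)]
  rw [h3]
  have hxn := norm_nonneg x
  constructor
  · calc ‖x‖ = 9 / (7 * M) * (7 / 9 * M * ‖x‖) := by field_simp
      _ ≤ _ := mul_le_mul_of_nonneg_left h1 (by positivity)
  · calc 9 / (7 * M) * ‖(T ∘ₗ Net.comb m n0 ω) x‖ ≤ 9 / (7 * M) * (11 / 9 * M * ‖x‖) :=
        mul_le_mul_of_nonneg_left h2 (by positivity)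
      _ = 11 / 7 * ‖x‖ := by field_simp
      _ ≤ 2 * ‖x‖ := by nlinarith

end Crest.DV
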