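import Mathlib
import Crest.Prelude.Def_Diamond

set_option autoImplicit false

namespace Crest.Agent.H11Diamond

open Crest Crest.AnalysisR

theorem src_ne_tgt (k : ℕ) (e : DiamondEdge k) : diamondSrc k e ≠ diamondTgt k e := by
  cases k with
  | zero =>
    intro h
    exact Bool.false_ne_true h
  | succ k =>
    obtain ⟨e, i, b⟩ := e
    cases b with
    | false =>
      intro h
      have h1 : (Sum.inl (diamondSrc k e) : DiamondVertex k ⊕ (DiamondEdge k × ℕ)) =
        Sum.inr (e, i) := h
      exact absurd h1 (by simp)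
    | true =>
      intro h
      have h1 : (Sum.inr (e, i) : DiamondVertex k ⊕ (DiamondEdge k × ℕ)) =
        Sum.inl (diamondTgt k e) := h
      exact absurd h1 (by simp)

theorem adj_edge (k : ℕ) (e : DiamondEdge k) :
    (diamondGraph k).Adj (diamondSrc k e) (diamondTgt k e) := by
  rw [diamondGraph, SimpleGraph.fromRel_adj]
  exact ⟨src_ne_tgt k e, Or.inl ⟨e, rfl, rfl⟩⟩

theorem adj_iff (k : ℕ) (u v : DiamondVertex k) : (diamondGraph k).Adj u v ↔
    ∃ e : DiamondEdge k, (diamondSrc k e = u ∧ diamondTgt k e = v) ∨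
      (diamondSrc k e = v ∧ diamondTgt k e = u) := by
  rw [diamondGraph, SimpleGraph.fromRel_adj]
  constructor
  · rintro ⟨_, ⟨e, h⟩ | ⟨e, h⟩⟩
    · exact ⟨e, Or.inl h⟩
    · exact ⟨e, Or.inr h⟩
  · rintro ⟨e, h | h⟩
    · refine ⟨?_, Or.inl ⟨e, h⟩⟩
      rw [← h.1, ← h.2]; exact src_ne_tgt k e
    · refine ⟨?_, Or.inr ⟨e, h⟩⟩
      rw [← h.1, ← h.2]; exact (src_ne_tgt k e).symm

/-- left embedding -/
def L (k : ℕ) (u : DiamondVertex k) : DiamondVertex (k + 1) := Sum.inl u
/-- midpoints -/
def M (k : ℕ) (e : DiamondEdge k) (i : ℕ) : DiamondVertex (k + 1) := Sum.inr (e, i)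

/-- half edges -/
def hf (k : ℕ) (e : DiamondEdge k) (i : ℕ) (b : Bool) : DiamondEdge (k + 1) := (e, i, b)

theorem src_hf_false (k : ℕ) (e : DiamondEdge k) (i : ℕ) :
    diamondSrc (k + 1) (hf k e i false) = L k (diamondSrc k e) := rfl
theorem tgt_hf_false (k : ℕ) (e : DiamondEdge k) (i : ℕ) :
    diamondTgt (k + 1) (hf k e i false) = M k e i := rfl
theorem src_hf_true (k : ℕ) (e : DiamondEdge k) (i : ℕ) :
    diamondSrc (k + 1) (hf k e i true) = M k e i := rfl
theorem tgt_hf_true (k : ℕ) (e : DiamondEdge k) (i : ℕ) :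
    diamondTgt (k + 1) (hf k e i true) = L k (diamondTgt k e) := rfl

theorem edge_cases (k : ℕ) (e' : DiamondEdge (k + 1)) : ∃ e i, e' = hf k e i false ∨
    e' = hf k e i true := by
  obtain ⟨e, i, b⟩ := e'
  cases b
  · exact ⟨e, i, Or.inl rfl⟩
  · exact ⟨e, i, Or.inr rfl⟩

theorem L_ne_M (k : ℕ) (u : DiamondVertex k) (e : DiamondEdge k) (i : ℕ) : L k u ≠ M k e i := by
  intro h
  have h1 : (Sum.inl u : DiamondVertex k ⊕ (DiamondEdge k × ℕ)) = Sum.inr (e, i) := h
  exact absurd h1 (by simp)

theorem L_inj (k : ℕ) (u v : DiamondVertex k) (h : L k u = L k v) : u = v := by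
  have h1 : (Sum.inl u : DiamondVertex k ⊕ (DiamondEdge k × ℕ)) = Sum.inl v := h
  simpa using h1

theorem M_inj (k : ℕ) (e e' : DiamondEdge k) (i i' : ℕ) (h : M k e i = M k e' i') :
    e = e' ∧ i = i' := by
  have h1 : (Sum.inr (e, i) : DiamondVertex k ⊕ (DiamondEdge k × ℕ)) = Sum.inr (e', i') := h
  simpa using h1

/-- neighbours of an old vertex are midpoints of incident edges -/
theorem adj_L (k : ℕ) (u : DiamondVertex k) (x : DiamondVertex (k + 1))
    (h : (diamondGraph (k + 1)).Adj (L k u) x) :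
    ∃ e i, x = M k e i ∧ (u = diamondSrc k e ∨ u = diamondTgt k e) := by
  rw [adj_iff] at h
  obtain ⟨e', h⟩ := h
  obtain ⟨e, i, rfl | rfl⟩ := edge_cases k e'
  · rw [src_hf_false, tgt_hf_false] at h
    rcases h with ⟨h1, h2⟩ | ⟨h1, h2⟩
    · exact ⟨e, i, h2.symm, Or.inl (L_inj _ _ _ h1).symm⟩
    · exact absurd h2.symm (L_ne_M _ _ _ _)
  · rw [src_hf_true, tgt_hf_true] at h
    rcases h with ⟨h1, h2⟩ | ⟨h1, h2⟩
    · exact absurd h1.symm (L_ne_M _ _ _ _)
    · exact ⟨e, i, h1.symm, Or.inr (L_inj _ _ _ h2).symm⟩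

theorem adj_M (k : ℕ) (e : DiamondEdge k) (i : ℕ) (x : DiamondVertex (k + 1))
    (h : (diamondGraph (k + 1)).Adj (M k e i) x) :
    ∃ u, x = L k u ∧ (u = diamondSrc k e ∨ u = diamondTgt k e) := by
  rw [adj_iff] at h
  obtain ⟨e', h⟩ := h
  obtain ⟨e1, i1, rfl | rfl⟩ := edge_cases k e'
  · rw [src_hf_false, tgt_hf_false] at h
    rcases h with ⟨h1, h2⟩ | ⟨h1, h2⟩
    · exact absurd h1 (L_ne_M _ _ _ _)
    · obtain ⟨rfl, rfl⟩ := M_inj _ _ _ _ _ h2
      exact ⟨_, h1.symm, Or.inl rfl⟩
  · rw [src_hf_true, tgt_hf_true] at h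
    rcases h with ⟨h1, h2⟩ | ⟨h1, h2⟩
    · obtain ⟨rfl, rfl⟩ := M_inj _ _ _ _ _ h1
      exact ⟨_, h2.symm, Or.inr rfl⟩
    · exact absurd h2 (L_ne_M _ _ _ _)

/-- walk compression -/
theorem compress (k : ℕ) : ∀ (n : ℕ) (u v : DiamondVertex k)
    (p : (diamondGraph (k + 1)).Walk (L k u) (L k v)), p.length ≤ n →
    ∃ q : (diamondGraph k).Walk u v, 2 * q.length ≤ p.length := by
  intro n
  induction n using Nat.strong_induction_on with
  | _ n ih =>
    intro u v p hp
    generalize hx : L k u = x at p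
    generalize hy : L k v = y at p
    cases p with
    | nil =>
      have : u = v := L_inj _ _ _ (hx.trans hy.symm)
      subst this
      exact ⟨SimpleGraph.Walk.nil, by simp⟩
    | cons h p' =>
      subst hx
      rename_i z
      obtain ⟨e, i, rfl, hu⟩ := adj_L k u z h
      cases p' with
      | nil => exact absurd hy (L_ne_M _ _ _ _)
      | cons h' p'' =>
        rename_i z'
        obtain ⟨u', rfl, hu'⟩ := adj_M k e i z' h'
        subst hy
        have hlen : p''.length + 2 ≤ n := by
          simp only [SimpleGraph.Walk.length_cons] at hp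
          omega
        obtain ⟨q, hq⟩ := ih (p''.length) (by omega) u' v p'' le_rfl
        by_cases huu : u = u'
        · subst huu
          refine ⟨q, ?_⟩
          simp only [SimpleGraph.Walk.length_cons]
          omega
        · have hadj : (diamondGraph k).Adj u u' := by
            rcases hu with rfl | rfl
            · rcases hu' with rfl | rfl
              · exact absurd rfl huu
              · exact adj_edge k e
            · rcases hu' with rfl | rfl
              · exact (adj_edge k e).symm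
              · exact absurd rfl huu
          refine ⟨SimpleGraph.Walk.cons hadj q, ?_⟩
          simp only [SimpleGraph.Walk.length_cons]
          omega

theorem preconnected (k : ℕ) : (diamondGraph k).Preconnected := by
  induction k with
  | zero =>
    intro u v
    have hft : (diamondGraph 0).Adj (diamondSrc 0 ()) (diamondTgt 0 ()) := adj_edge 0 ()
    have h1 : diamondSrc 0 () = (false : Bool) := rfl
    have h2 : diamondTgt 0 () = (true : Bool) := rfl
    rw [h1, h2] at hft
    have key : ∀ u v : Bool, (diamondGraph 0).Reachable u v := by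
      intro u v
      cases u <;> cases v
      · exact SimpleGraph.Reachable.refl _
      · exact hft.reachable
      · exact hft.symm.reachable
      · exact SimpleGraph.Reachable.refl _
    exact key u v
  | succ k ih =>
    have hhalf1 : ∀ e i, (diamondGraph (k + 1)).Reachable (L k (diamondSrc k e)) (M k e i) := by
      intro e i
      have := adj_edge (k + 1) (hf k e i false)
      rw [src_hf_false, tgt_hf_false] at this
      exact this.reachable
    have hhalf2 : ∀ e i, (diamondGraph (k + 1)).Reachable (M k e i) (L k (diamondTgt k e)) := by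
      intro e i
      have := adj_edge (k + 1) (hf k e i true)
      rw [src_hf_true, tgt_hf_true] at this
      exact this.reachable
    have hL : ∀ u v, (diamondGraph k).Reachable u v →
        (diamondGraph (k + 1)).Reachable (L k u) (L k v) := by
      intro u v ⟨p⟩
      induction p with
      | nil => exact SimpleGraph.Reachable.refl _
      | cons h p ihp =>
        refine SimpleGraph.Reachable.trans ?_ ihp
        rw [adj_iff] at h
        obtain ⟨e, ⟨rfl, rfl⟩ | ⟨rfl, rfl⟩⟩ := h
        · exact (hhalf1 e 0).trans (hhalf2 e 0)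
        · exact ((hhalf1 e 0).trans (hhalf2 e 0)).symm
    have hM : ∀ x : DiamondVertex (k + 1), ∃ u, (diamondGraph (k + 1)).Reachable x (L k u) := by
      intro x
      rcases x with u | ⟨e, i⟩
      · exact ⟨u, SimpleGraph.Reachable.refl _⟩
      · exact ⟨_, hhalf2 e i⟩
    intro x y
    obtain ⟨u, hu⟩ := hM x
    obtain ⟨v, hv⟩ := hM y
    exact (hu.trans (hL u v (ih u v))).trans hv.symm

theorem dist_L (k : ℕ) (u v : DiamondVertex k) :
    2 * diamondDist k u v ≤ diamondDist (k + 1) (L k u) (L k v) := by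
  obtain ⟨p, hp⟩ := (preconnected (k + 1) (L k u) (L k v)).exists_walk_length_eq_dist
  obtain ⟨q, hq⟩ := compress k p.length u v p le_rfl
  have h1 : diamondDist k u v ≤ q.length := SimpleGraph.dist_le q
  unfold diamondDist at *
  omega

theorem dist_M (k : ℕ) (e : DiamondEdge k) (i j : ℕ) (hij : i ≠ j) :
    2 ≤ diamondDist (k + 1) (M k e i) (M k e j) := by
  have hne : M k e i ≠ M k e j := fun h => hij (M_inj _ _ _ _ _ h).2
  have h0 : diamondDist (k + 1) (M k e i) (M k e j) ≠ 0 := by
    unfold diamondDist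
    intro h
    rw [(preconnected (k + 1) _ _).dist_eq_zero_iff] at h
    exact hne h
  have h1 : diamondDist (k + 1) (M k e i) (M k e j) ≠ 1 := by
    unfold diamondDist
    intro h
    rw [SimpleGraph.dist_eq_one_iff_adj] at h
    obtain ⟨u, hu, _⟩ := adj_M k e i _ h
    exact L_ne_M _ _ _ _ hu.symm
  omega

theorem dist_edge (k : ℕ) (e : DiamondEdge k) :
    diamondDist k (diamondSrc k e) (diamondTgt k e) = 1 := by
  unfold diamondDist
  rw [SimpleGraph.dist_eq_one_iff_adj]
  exact adj_edge k e

/-- The diamond growth argument. -/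
theorem growth {X : Type*} [NormedAddCommGroup X] [NormedSpace ℝ X]
    (mid : ∀ (h : X) (w : ℕ → X) (C σ : ℝ), 0 ≤ σ → (∀ i, ‖w i‖ ≤ C) →
      (∀ i j, i ≠ j → σ ≤ ‖w i - w j‖) → ∀ η : ℝ, 0 < η →
      ∃ i, 2 * Real.sqrt (‖h‖ ^ 2 + σ ^ 2 / 16) ≤ ‖h + w i‖ + ‖h - w i‖ + η)
    (k : ℕ) : ∀ (f : DiamondVertex k → X) (s C : ℝ), 0 < s →
      (∀ u v, s * (diamondDist k u v : ℝ) ≤ ‖f u - f v‖) →
      (∀ e, ‖f (diamondSrc k e) - f (diamondTgt k e)‖ ≤ C) →
      ∀ ε : ℝ, 0 < ε → ∃ e : DiamondEdge k,
        s * Real.sqrt (1 + (k : ℝ) / 4) - ε ≤ ‖f (diamondSrc k e) - f (diamondTgt k e)‖ := by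
  induction k with
  | zero =>
    intro f s C hs hlow _ ε hε
    obtain ⟨e0⟩ : Nonempty (DiamondEdge 0) := ⟨()⟩
    refine ⟨e0, ?_⟩
    have h1 := hlow (diamondSrc 0 e0) (diamondTgt 0 e0)
    rw [dist_edge] at h1
    simp only [Nat.cast_zero, zero_div, add_zero, Real.sqrt_one, mul_one]
    simp only [Nat.cast_one, mul_one] at h1
    linarith
  | succ k ih =>
    intro f s C hs hlow hC ε hε
    have hC0 : 0 ≤ C := by
      by_contra hcon
      push Not at hcon
      -- there is at least one edge
      have : ∃ e : DiamondEdge (k + 1), True := by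
        have key : ∀ n, Nonempty (DiamondEdge n) := by
          intro n
          induction n with
          | zero => exact ⟨()⟩
          | succ n ihn => exact ⟨hf n ihn.some 0 false⟩
        exact ⟨(key (k + 1)).some, trivial⟩
      obtain ⟨e, _⟩ := this
      have := hC e
      have h2 := norm_nonneg (f (diamondSrc (k + 1) e) - f (diamondTgt (k + 1) e))
      linarith
    have hmidC : ∀ e i, ‖f (L k (diamondSrc k e)) - f (M k e i)‖ ≤ C := by
      intro e i
      have := hC (hf k e i false)
      rwa [src_hf_false, tgt_hf_false] at this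
    have hmidC2 : ∀ e i, ‖f (M k e i) - f (L k (diamondTgt k e))‖ ≤ C := by
      intro e i
      have := hC (hf k e i true)
      rwa [src_hf_true, tgt_hf_true] at this
    obtain ⟨e, he⟩ := ih (fun u => f (L k u)) (2 * s) (C + C) (by positivity)
      (by
        intro u v
        have h1 := hlow (L k u) (L k v)
        have h2 : (2 * (diamondDist k u v : ℝ)) ≤ (diamondDist (k + 1) (L k u) (L k v) : ℝ) := by
          exact_mod_cast dist_L k u v
        calc 2 * s * (diamondDist k u v : ℝ) = s * (2 * (diamondDist k u v : ℝ)) := by ring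
          _ ≤ s * (diamondDist (k + 1) (L k u) (L k v) : ℝ) := mul_le_mul_of_nonneg_left h2 hs.le
          _ ≤ _ := h1)
      (by
        intro e
        have : f (L k (diamondSrc k e)) - f (L k (diamondTgt k e)) =
          (f (L k (diamondSrc k e)) - f (M k e 0)) + (f (M k e 0) - f (L k (diamondTgt k e))) := by
          abel
        rw [this]
        exact (norm_add_le _ _).trans (add_le_add (hmidC e 0) (hmidC2 e 0)))
      ε hε
    set a := f (L k (diamondSrc k e)) with ha
    set b := f (L k (diamondTgt k e)) with hb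
    set h : X := (1 / 2 : ℝ) • (b - a) with hh
    set c : X := (1 / 2 : ℝ) • (a + b) with hc
    set w : ℕ → X := fun i => f (M k e i) - c with hw
    have hhw : ∀ i, h + w i = f (M k e i) - a := by
      intro i
      simp only [hh, hw, hc]
      module
    have hhw2 : ∀ i, h - w i = b - f (M k e i) := by
      intro i
      simp only [hh, hw, hc]
      module
    have hsep : ∀ i j, i ≠ j → 2 * s ≤ ‖w i - w j‖ := by
      intro i j hij
      have h1 := hlow (M k e i) (M k e j)
      have h2 : (2 : ℝ) ≤ (diamondDist (k + 1) (M k e i) (M k e j) : ℝ) := by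
        exact_mod_cast dist_M k e i j hij
      have h3 : w i - w j = f (M k e i) - f (M k e j) := by
        simp only [hw]; abel
      rw [h3]
      nlinarith
    have hwC : ∀ i, ‖w i‖ ≤ C + ‖h‖ := by
      intro i
      have h1 : w i = (f (M k e i) - a) - h := by rw [← hhw i]; abel
      rw [h1]
      refine (norm_sub_le _ _).trans ?_
      have := hmidC e i
      rw [norm_sub_rev] at this
      linarith
    obtain ⟨i, hi⟩ := mid h w (C + ‖h‖) (2 * s) (by positivity) hwC hsep ε hε
    rw [hhw, hhw2] at hi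
    have hnorm : ‖h‖ = ‖a - b‖ / 2 := by
      rw [hh, norm_smul, norm_sub_rev]
      norm_num
      ring
    -- numeric estimate
    have hnum : s * Real.sqrt (1 + ((k + 1 : ℕ) : ℝ) / 4) - ε / 2 ≤
        Real.sqrt (‖h‖ ^ 2 + (2 * s) ^ 2 / 16) := by
      set R := Real.sqrt (1 + (k : ℝ) / 4) with hR
      have hR2 : R ^ 2 = 1 + (k : ℝ) / 4 := Real.sq_sqrt (by positivity)
      have hR0 : 0 ≤ R := Real.sqrt_nonneg _
      set Q := Real.sqrt (1 + ((k + 1 : ℕ) : ℝ) / 4) with hQ
      have hQ2 : Q ^ 2 = 1 + (k : ℝ) / 4 + 1 / 4 := by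
        rw [hQ, Real.sq_sqrt (by positivity)]; push_cast; ring
      have hQ0 : 0 ≤ Q := Real.sqrt_nonneg _
      have hRQ : R ≤ Q := Real.sqrt_le_sqrt (by push_cast; linarith)
      have h1 : s * R - ε / 2 ≤ ‖h‖ := by rw [hnorm]; linarith
      rcases le_or_gt (s * Q - ε / 2) 0 with h0 | h0
      · exact h0.trans (Real.sqrt_nonneg _)
      · refine Real.le_sqrt_of_sq_le ?_
        have hh0 := norm_nonneg h
        have key : (s * Q - ε / 2) ^ 2 ≤ (max (s * R - ε / 2) 0) ^ 2 + s ^ 2 / 4 := by
          rcases le_total (s * R - ε / 2) 0 with h2 | h2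
          · rw [max_eq_right h2]
            have e1 : (s * Q) ^ 2 = (s * R) ^ 2 + s ^ 2 / 4 := by
              rw [mul_pow, mul_pow, hQ2, hR2]; ring
            have e2 : 0 ≤ s * R := by positivity
            have e3 : s * R ≤ s * Q := mul_le_mul_of_nonneg_left hRQ hs.le
            nlinarith
          · rw [max_eq_left h2]
            have e1 : (s * Q) ^ 2 = (s * R) ^ 2 + s ^ 2 / 4 := by
              rw [mul_pow, mul_pow, hQ2, hR2]; ring
            have e3 : s * R ≤ s * Q := mul_le_mul_of_nonneg_left hRQ hs.le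
            nlinarith
        have key2 : (max (s * R - ε / 2) 0) ^ 2 ≤ ‖h‖ ^ 2 :=
          pow_le_pow_left₀ (le_max_right _ _) (max_le h1 hh0) 2
        nlinarith
    rcases le_total (s * Real.sqrt (1 + ((k + 1 : ℕ) : ℝ) / 4) - ε) ‖f (M k e i) - a‖ with hc1 | hc1
    · refine ⟨hf k e i false, ?_⟩
      rw [src_hf_false, tgt_hf_false, norm_sub_rev]
      exact hc1
    · refine ⟨hf k e i true, ?_⟩
      rw [src_hf_true, tgt_hf_true, norm_sub_rev]
      change _ ≤ ‖b - f (M k e i)‖
      linarith

end Crest.Agent.H11Diamond
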