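import Mathlib
import Crest.Prelude.Def_TreePotentials

set_option autoImplicit false

namespace Crest.Agent.H11Mix

open Crest Crest.AnalysisR Crest.AnalysisR.TreePotential

/-- Last vertex of `T` on the root path of a vertex. -/
noncomputable def stop (T : Set (List ℕ)) : List ℕ → List ℕ
  | [] => []
  | a :: l => by
      classical
      exact if (a :: l) ∈ T then a :: l else stop T l

/-- Piecewise linear function with slopes `r` (right) and `d` (left) at `0`. -/
noncomputable def pl (r d z : ℝ) : ℝ := r * max z 0 + d * min z 0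

theorem pl_zero (r d : ℝ) : pl r d 0 = 0 := by simp [pl]

theorem pl_diff (r d z z' m : ℝ) (hr : 0 ≤ r) (hd : 0 ≤ d) (hrm : r ≤ m) (hdm : d ≤ m) :
    |pl r d z - pl r d z'| ≤ m * |z - z'| := by
  unfold pl
  have key : ∀ u v : ℝ, u ≤ v →
      (r * max v 0 + d * min v 0) - (r * max u 0 + d * min u 0) ≤ m * (v - u) ∧
      0 ≤ (r * max v 0 + d * min v 0) - (r * max u 0 + d * min u 0) := by
    intro u v huv
    rcases le_total 0 u with hu | hu
    · have hv : 0 ≤ v := hu.trans huv
      rw [max_eq_left hu, max_eq_left hv, min_eq_right hu, min_eq_right hv]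
      constructor <;> nlinarith
    · rcases le_total 0 v with hv | hv
      · rw [max_eq_right hu, max_eq_left hv, min_eq_left hu, min_eq_right hv]
        constructor <;> nlinarith [mul_nonneg (sub_nonneg.mpr hrm) hv,
          mul_nonneg (sub_nonneg.mpr hdm) (neg_nonneg.mpr hu), mul_nonneg hr hv,
          mul_nonneg hd (neg_nonneg.mpr hu)]
      · rw [max_eq_right hu, max_eq_right hv, min_eq_left hu, min_eq_left hv]
        constructor <;> nlinarith
  rcases le_total z z' with h | h
  · obtain ⟨h1, h2⟩ := key z z' h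
    rw [abs_of_nonpos (by linarith), abs_of_nonpos (by linarith : z - z' ≤ 0)]
    linarith
  · obtain ⟨h1, h2⟩ := key z' z h
    rw [abs_of_nonneg (by linarith), abs_of_nonneg (by linarith : 0 ≤ z - z')]
    linarith

theorem pl_sub (r d z : ℝ) : pl r d z - (-pl d r z) = (r + d) * z := by
  unfold pl
  have : max z 0 + min z 0 = z := by
    rcases le_total 0 z with h | h
    · simp [h]
    · simp [h]
  linear_combination (r + d) * this

theorem pl_bounds (r d z : ℝ) (hr : 0 ≤ r) (hd : 0 ≤ d) (hz : |z| ≤ 2) :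
    -(2 * d) ≤ pl r d z ∧ pl r d z ≤ 2 * r := by
  unfold pl
  rw [abs_le] at hz
  rcases le_total 0 z with h | h
  · rw [max_eq_left h, min_eq_right h]
    constructor <;> nlinarith [mul_nonneg hr h]
  · rw [max_eq_right h, min_eq_left h]
    constructor <;> nlinarith [mul_nonneg hd (neg_nonneg.mpr h)]

/-- The mixing lemma. -/
theorem mix (T : Set (List ℕ)) (hT0 : [] ∈ T) (hT : ∀ (a : ℕ) (l : List ℕ), a :: l ∈ T → l ∈ T)
    (f g : List ℕ → ℝ) (hf : ∀ s ∈ T, |pathPotential f s| ≤ 1)
    (hg : ∀ s, |pathPotential g s| ≤ 1)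
    (α β : ℝ) (hα0 : 0 ≤ α) (hα1 : α ≤ 1) (hβ0 : 0 ≤ β) (hβ1 : β ≤ 1) :
    ∃ hp hm : List ℕ → ℝ,
      (∀ s ∈ T, hp s = α * f s ∧ hm s = α * f s) ∧
      (∀ s, s ∉ T → hp s - hm s = β * g s) ∧
      (∀ s, s ∉ T → |hp s| ≤ β * |g s| ∧ |hm s| ≤ β * |g s|) ∧
      (∀ s, |pathPotential hp s| ≤ 1 ∧ |pathPotential hm s| ≤ 1) := by
  classical
  set F : List ℕ → ℝ := pathPotential f with hF
  set G : List ℕ → ℝ := pathPotential g with hG
  -- slopes
  set dd : List ℕ → ℝ := fun v => min β ((1 + α * |F v|) / 2) with hdd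
  set rr : List ℕ → ℝ := fun v => β - dd v with hrr
  set r1 : List ℕ → ℝ := fun v => if 0 ≤ F v then rr v else dd v with hr1
  set d1 : List ℕ → ℝ := fun v => if 0 ≤ F v then dd v else rr v with hd1
  have hdd0 : ∀ v, 0 ≤ dd v := fun v => le_min hβ0 (by positivity)
  have hddβ : ∀ v, dd v ≤ β := fun v => min_le_left _ _
  have hrr0 : ∀ v, 0 ≤ rr v := fun v => sub_nonneg.mpr (hddβ v)
  have hrrβ : ∀ v, rr v ≤ β := fun v => by have := hdd0 v; simp only [hrr]; linarith
  have hdd2 : ∀ v, 2 * dd v ≤ 1 + α * |F v| := fun v => by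
    have : dd v ≤ (1 + α * |F v|) / 2 := min_le_right _ _
    linarith
  have hrr2 : ∀ v ∈ T, 2 * rr v ≤ 1 - α * |F v| := fun v hv => by
    have h1 : |F v| ≤ 1 := hf v hv
    have h2 : α * |F v| ≤ 1 := by nlinarith [abs_nonneg (F v)]
    simp only [hrr, hdd]
    rcases min_choice β ((1 + α * |F v|) / 2) with h | h
    · rw [h]; linarith
    · rw [h]; linarith
  have hr10 : ∀ v, 0 ≤ r1 v := fun v => by
    simp only [hr1]; split_ifs <;> simp [hrr0, hdd0]
  have hd10 : ∀ v, 0 ≤ d1 v := fun v => by
    simp only [hd1]; split_ifs <;> simp [hrr0, hdd0]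
  have hr1β : ∀ v, r1 v ≤ β := fun v => by
    simp only [hr1]; split_ifs <;> simp [hrrβ, hddβ]
  have hd1β : ∀ v, d1 v ≤ β := fun v => by
    simp only [hd1]; split_ifs <;> simp [hrrβ, hddβ]
  have hrd : ∀ v, r1 v + d1 v = β := fun v => by
    simp only [hr1, hd1, hrr]; split_ifs <;> ring
  have hr1b : ∀ v ∈ T, 2 * r1 v ≤ 1 - α * F v := fun v hv => by
    simp only [hr1]
    split_ifs with h
    · have := hrr2 v hv; rwa [abs_of_nonneg h] at this
    · have := hdd2 v; rw [abs_of_neg (not_le.mp h)] at this; linarith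
  have hd1b : ∀ v ∈ T, 2 * d1 v ≤ 1 + α * F v := fun v hv => by
    simp only [hd1]
    split_ifs with h
    · have := hdd2 v; rwa [abs_of_nonneg h] at this
    · have := hrr2 v hv; rw [abs_of_neg (not_le.mp h)] at this; linarith
  -- stopping
  have hstopT : ∀ s, stop T s ∈ T := by
    intro s
    induction s with
    | nil => simpa [stop] using hT0
    | cons a l ih =>
      simp only [stop]
      split_ifs with h
      · exact h
      · exact ih
  have hstop_mem : ∀ s ∈ T, stop T s = s := by
    intro s hs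
    cases s with
    | nil => simp [stop]
    | cons a l => simp [stop, hs]
  have hstop_not : ∀ a l, a :: l ∉ T → stop T (a :: l) = stop T l := by
    intro a l h
    simp [stop, h]
  -- potentials
  set P : List ℕ → ℝ := fun s => α * F (stop T s) +
    pl (r1 (stop T s)) (d1 (stop T s)) (G s - G (stop T s)) with hP
  set Q : List ℕ → ℝ := fun s => α * F (stop T s) -
    pl (d1 (stop T s)) (r1 (stop T s)) (G s - G (stop T s)) with hQ
  have hPT : ∀ s ∈ T, P s = α * F s := by
    intro s hs
    simp only [hP, hstop_mem s hs, sub_self, pl_zero, add_zero]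
  have hQT : ∀ s ∈ T, Q s = α * F s := by
    intro s hs
    simp only [hQ, hstop_mem s hs, sub_self, pl_zero, sub_zero]
  have hG2 : ∀ s t, |G s - G t| ≤ 2 := by
    intro s t
    have h1 := hg s
    have h2 := hg t
    rw [abs_le] at h1 h2 ⊢
    constructor <;> linarith [h1.1, h1.2, h2.1, h2.2]
  have hPb : ∀ s, |P s| ≤ 1 := by
    intro s
    have hv := hstopT s
    obtain ⟨h1, h2⟩ := pl_bounds (r1 (stop T s)) (d1 (stop T s)) (G s - G (stop T s))
      (hr10 _) (hd10 _) (hG2 _ _)
    have h3 := hr1b _ hv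
    have h4 := hd1b _ hv
    simp only [hP]
    rw [abs_le]
    constructor <;> linarith
  have hQb : ∀ s, |Q s| ≤ 1 := by
    intro s
    have hv := hstopT s
    obtain ⟨h1, h2⟩ := pl_bounds (d1 (stop T s)) (r1 (stop T s)) (G s - G (stop T s))
      (hd10 _) (hr10 _) (hG2 _ _)
    have h3 := hr1b _ hv
    have h4 := hd1b _ hv
    simp only [hQ]
    rw [abs_le]
    constructor <;> linarith
  -- increments
  set inc : (List ℕ → ℝ) → List ℕ → ℝ := fun R s => match s with
    | [] => R []
    | a :: l => R (a :: l) - R l with hinc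
  have hpot : ∀ R : List ℕ → ℝ, ∀ s, pathPotential (inc R) s = R s := by
    intro R s
    induction s with
    | nil => simp [pathPotential, hinc]
    | cons a l ih =>
      have h1 : pathPotential (inc R) (a :: l) = pathPotential (inc R) l + inc R (a :: l) := rfl
      have h2 : inc R (a :: l) = R (a :: l) - R l := rfl
      rw [h1, ih, h2]; ring
  have hfa : ∀ a l, f (a :: l) = F (a :: l) - F l := by
    intro a l; simp only [hF, pathPotential]; ring
  have hga : ∀ a l, g (a :: l) = G (a :: l) - G l := by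
    intro a l; simp only [hG, pathPotential]; ring
  refine ⟨inc P, inc Q, ?_, ?_, ?_, ?_⟩
  · intro s hs
    cases s with
    | nil =>
      simp only [hinc]
      rw [hPT _ hs, hQT _ hs]
      simp [hF, pathPotential]
    | cons a l =>
      simp only [hinc]
      rw [hPT _ hs, hQT _ hs, hPT _ (hT _ _ hs), hQT _ (hT _ _ hs), hfa]
      constructor <;> ring
  · intro s hs
    cases s with
    | nil => exact absurd hT0 hs
    | cons a l =>
      simp only [hinc, hP, hQ]
      rw [hstop_not a l hs, hga]
      have h1 := pl_sub (r1 (stop T l)) (d1 (stop T l)) (G (a :: l) - G (stop T l))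
      have h2 := pl_sub (r1 (stop T l)) (d1 (stop T l)) (G l - G (stop T l))
      have h3 := hrd (stop T l)
      rw [h3] at h1 h2
      linear_combination h1 - h2
  · intro s hs
    cases s with
    | nil => exact absurd hT0 hs
    | cons a l =>
      simp only [hinc, hP, hQ]
      rw [hstop_not a l hs, hga]
      have h1 := pl_diff (r1 (stop T l)) (d1 (stop T l)) (G (a :: l) - G (stop T l))
        (G l - G (stop T l)) β (hr10 _) (hd10 _) (hr1β _) (hd1β _)
      have h2 := pl_diff (d1 (stop T l)) (r1 (stop T l)) (G (a :: l) - G (stop T l))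
        (G l - G (stop T l)) β (hd10 _) (hr10 _) (hd1β _) (hr1β _)
      have h3 : (G (a :: l) - G (stop T l)) - (G l - G (stop T l)) = G (a :: l) - G l := by ring
      rw [h3] at h1 h2
      constructor
      · have : α * F (stop T l) + pl (r1 (stop T l)) (d1 (stop T l)) (G (a :: l) - G (stop T l)) -
          (α * F (stop T l) + pl (r1 (stop T l)) (d1 (stop T l)) (G l - G (stop T l))) =
          pl (r1 (stop T l)) (d1 (stop T l)) (G (a :: l) - G (stop T l)) -
          pl (r1 (stop T l)) (d1 (stop T l)) (G l - G (stop T l)) := by ring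
        rw [this]; exact h1
      · have : α * F (stop T l) - pl (d1 (stop T l)) (r1 (stop T l)) (G (a :: l) - G (stop T l)) -
          (α * F (stop T l) - pl (d1 (stop T l)) (r1 (stop T l)) (G l - G (stop T l))) =
          -(pl (d1 (stop T l)) (r1 (stop T l)) (G (a :: l) - G (stop T l)) -
          pl (d1 (stop T l)) (r1 (stop T l)) (G l - G (stop T l))) := by ring
        rw [this, abs_neg]; exact h2
  · intro s
    rw [hpot, hpot]
    exact ⟨hPb s, hQb s⟩

end Crest.Agent.H11Mix
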