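import Mathlib

set_option autoImplicit false
set_option linter.unusedSectionVars false

namespace Crest.Agent.H11Reflexive

open scoped ENNReal
open Filter

section basic

variable {E : ℕ → Type} [∀ k, NormedAddCommGroup (E k)] [∀ k, NormedSpace ℝ (E k)]

theorem two_pos' : 0 < (2 : ℝ≥0∞).toReal := by norm_num

theorem hasSum_sq (z : lp E 2) : HasSum (fun k => ‖z k‖ ^ 2) (‖z‖ ^ 2) := by
  have h := lp.hasSum_norm two_pos' z
  simpa using h

theorem sum_sq_le (z : lp E 2) (s : Finset ℕ) : ∑ k ∈ s, ‖z k‖ ^ 2 ≤ ‖z‖ ^ 2 :=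
  sum_le_hasSum s (fun _ _ => sq_nonneg _) (hasSum_sq z)

theorem norm_le_of_sum_sq (z : lp E 2) (C : ℝ) (hC : 0 ≤ C)
    (h : ∀ s : Finset ℕ, ∑ k ∈ s, ‖z k‖ ^ 2 ≤ C ^ 2) : ‖z‖ ≤ C := by
  refine lp.norm_le_of_forall_sum_le two_pos' hC ?_
  intro s
  simpa using h s

theorem memlp_of_sum_sq (z : ∀ k, E k) (C : ℝ)
    (h : ∀ s : Finset ℕ, ∑ k ∈ s, ‖z k‖ ^ 2 ≤ C) : Memℓp z 2 := by
  refine memℓp_gen' (C := C) ?_
  intro s
  simpa using h s

end basic

/-- Hilbert spaces are reflexive. -/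
theorem reflexive_hilbert (H : Type*) [NormedAddCommGroup H] [InnerProductSpace ℝ H]
    [CompleteSpace H] : Function.Surjective (NormedSpace.inclusionInDoubleDual ℝ H) := by
  intro ξ
  -- the functional x ↦ ξ ⟨x, ·⟩
  let ψ : H →L[ℝ] ℝ := ξ.comp (innerSL ℝ)
  refine ⟨(InnerProductSpace.toDual ℝ H).symm ψ, ?_⟩
  ext φ
  rw [NormedSpace.dual_def]
  set y := (InnerProductSpace.toDual ℝ H).symm φ with hy
  have h1 : φ = innerSL ℝ y := by
    ext z
    have : (InnerProductSpace.toDual ℝ H) y = φ := by simp [hy]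
    rw [← this]; rfl
  set x := (InnerProductSpace.toDual ℝ H).symm ψ with hx
  have h2 : ∀ z, ψ z = inner ℝ x z := by
    intro z
    have : (InnerProductSpace.toDual ℝ H) x = ψ := by simp [hx]
    rw [← this]; rfl
  have h3 : ξ φ = ψ y := by
    rw [h1]; rfl
  rw [h3, h2, h1]
  simp only [innerSL_apply_apply]
  exact real_inner_comm _ _

/-- Reflexivity passes through continuous linear equivalences. -/
theorem reflexive_equiv {X Y : Type*} [NormedAddCommGroup X] [NormedSpace ℝ X]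
    [NormedAddCommGroup Y] [NormedSpace ℝ Y] (T : X ≃L[ℝ] Y)
    (hY : Function.Surjective (NormedSpace.inclusionInDoubleDual ℝ Y)) :
    Function.Surjective (NormedSpace.inclusionInDoubleDual ℝ X) := by
  intro ξ
  let R : (Y →L[ℝ] ℝ) →L[ℝ] (X →L[ℝ] ℝ) := ContinuousLinearMap.precomp ℝ (T : X →L[ℝ] Y)
  obtain ⟨y, hy⟩ := hY (ξ.comp R)
  refine ⟨T.symm y, ?_⟩
  ext φ
  rw [NormedSpace.dual_def]
  have h1 := congrArg (fun L => L (φ.comp (T.symm : Y →L[ℝ] X))) hy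
  simp only [NormedSpace.dual_def] at h1
  have h2 : (ξ.comp R) (φ.comp (T.symm : Y →L[ℝ] X)) = ξ φ := by
    have : R (φ.comp (T.symm : Y →L[ℝ] X)) = φ := by
      ext x
      simp [R]
    rw [ContinuousLinearMap.comp_apply, this]
  rw [← h2, ← h1]
  rfl

section lpsum

variable {E : ℕ → Type} [∀ k, NormedAddCommGroup (E k)] [∀ k, NormedSpace ℝ (E k)]

/-- restriction of a functional to a coordinate space -/
noncomputable def res (φ : lp E 2 →L[ℝ] ℝ) (k : ℕ) : E k →L[ℝ] ℝ :=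
  φ.comp (lp.singleContinuousLinearMap ℝ E 2 k)

theorem sum_single_norm (s : Finset ℕ) (z : ∀ k, E k) :
    ‖∑ k ∈ s, lp.single (E := E) 2 k (z k)‖ ^ 2 = ∑ k ∈ s, ‖z k‖ ^ 2 := by
  have := lp.norm_sum_single (E := E) two_pos' z s
  simpa using this

theorem apply_sum_single (φ : lp E 2 →L[ℝ] ℝ) (s : Finset ℕ) (z : ∀ k, E k) :
    φ (∑ k ∈ s, lp.single (E := E) 2 k (z k)) = ∑ k ∈ s, res φ k (z k) := by
  rw [map_sum]; rfl

/-- `ℓ²`-summability of the norms of the restrictions. -/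
theorem sum_res_sq_le (φ : lp E 2 →L[ℝ] ℝ) (s : Finset ℕ) :
    ∑ k ∈ s, ‖res φ k‖ ^ 2 ≤ ‖φ‖ ^ 2 := by
  -- approximate norming vectors
  have key : ∀ ε : ℝ, 0 < ε → ∑ k ∈ s, ‖res φ k‖ * (‖res φ k‖ - ε) ≤
      ‖φ‖ * Real.sqrt (∑ k ∈ s, ‖res φ k‖ ^ 2) := by
    intro ε hε
    have h1 : ∀ k, ∃ x : E k, ‖x‖ ≤ 1 ∧ ‖res φ k‖ - ε ≤ res φ k x := by
      intro k
      rcases lt_or_ge (‖res φ k‖ - ε) 0 with h | h
      · exact ⟨0, by simp, by simpa using h.le⟩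
      · obtain ⟨x, hx, hx'⟩ := (res φ k).exists_lt_apply_of_lt_opNorm
          (r := ‖res φ k‖ - ε) (by linarith)
        rcases le_total 0 (res φ k x) with h0 | h0
        · refine ⟨x, hx.le, ?_⟩
          rw [Real.norm_of_nonneg h0] at hx'
          exact hx'.le
        · refine ⟨-x, by simpa using hx.le, ?_⟩
          rw [Real.norm_of_nonpos h0] at hx'
          rw [map_neg]; exact hx'.le
    choose x hx1 hx2 using h1
    have h2 : ∑ k ∈ s, ‖res φ k‖ * (‖res φ k‖ - ε) ≤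
        φ (∑ k ∈ s, lp.single (E := E) 2 k (‖res φ k‖ • x k)) := by
      rw [apply_sum_single]
      refine Finset.sum_le_sum fun k _ => ?_
      rw [map_smul, smul_eq_mul]
      exact mul_le_mul_of_nonneg_left (hx2 k) (ContinuousLinearMap.opNorm_nonneg _)
    have h3 : ‖∑ k ∈ s, lp.single (E := E) 2 k (‖res φ k‖ • x k)‖ ≤
        Real.sqrt (∑ k ∈ s, ‖res φ k‖ ^ 2) := by
      refine Real.le_sqrt_of_sq_le ?_
      rw [sum_single_norm]
      refine Finset.sum_le_sum fun k _ => ?_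
      rw [norm_smul, norm_norm, mul_pow]
      have : ‖x k‖ ^ 2 ≤ 1 := by
        have := hx1 k
        have h0 := norm_nonneg (x k)
        nlinarith
      nlinarith [sq_nonneg ‖res φ k‖]
    calc _ ≤ _ := h2
      _ ≤ ‖φ (∑ k ∈ s, lp.single (E := E) 2 k (‖res φ k‖ • x k))‖ := Real.le_norm_self _
      _ ≤ ‖φ‖ * ‖∑ k ∈ s, lp.single (E := E) 2 k (‖res φ k‖ • x k)‖ := φ.le_opNorm _
      _ ≤ _ := mul_le_mul_of_nonneg_left h3 φ.opNorm_nonneg
  set T := ∑ k ∈ s, ‖res φ k‖ ^ 2 with hT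
  have hT0 : 0 ≤ T := Finset.sum_nonneg fun _ _ => sq_nonneg _
  have key2 : T ≤ ‖φ‖ * Real.sqrt T := by
    refine le_of_forall_pos_le_add fun ε hε => ?_
    set A := ∑ k ∈ s, ‖res φ k‖ with hA
    have hA0 : 0 ≤ A := Finset.sum_nonneg fun _ _ => ContinuousLinearMap.opNorm_nonneg _
    have h1 := key (ε / (A + 1)) (by positivity)
    have h2 : ∑ k ∈ s, ‖res φ k‖ * (‖res φ k‖ - ε / (A + 1)) = T - A * (ε / (A + 1)) := by
      rw [hT, hA, Finset.sum_mul, ← Finset.sum_sub_distrib]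
      refine Finset.sum_congr rfl fun k _ => ?_
      ring
    rw [h2] at h1
    have h3 : A * (ε / (A + 1)) ≤ ε := by
      rw [mul_div_assoc', div_le_iff₀ (by positivity)]
      nlinarith
    linarith
  have hs : Real.sqrt T * Real.sqrt T = T := Real.mul_self_sqrt hT0
  have h4 : Real.sqrt T ≤ ‖φ‖ := by
    rcases (Real.sqrt_nonneg T).eq_or_lt with h | h
    · rw [← h]; exact φ.opNorm_nonneg
    · by_contra hcon
      push Not at hcon
      nlinarith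
  calc T = Real.sqrt T ^ 2 := by rw [sq, hs]
    _ ≤ ‖φ‖ ^ 2 := pow_le_pow_left₀ (Real.sqrt_nonneg _) h4 2

/-- a functional is the norm sum of its coordinate parts -/
theorem hasSum_functional (φ : lp E 2 →L[ℝ] ℝ) :
    HasSum (fun k => (res φ k).comp (lp.evalCLM ℝ E 2 k)) φ := by
  have hsq : Summable fun k => ‖res φ k‖ ^ 2 :=
    summable_of_sum_le (fun _ => sq_nonneg _) (sum_res_sq_le φ)
  have hb : ∀ s : Finset ℕ, ‖∑ k ∈ s, (res φ k).comp (lp.evalCLM ℝ E 2 k)‖ ≤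
      Real.sqrt (∑ k ∈ s, ‖res φ k‖ ^ 2) := by
    intro s
    refine ContinuousLinearMap.opNorm_le_bound _ (Real.sqrt_nonneg _) ?_
    intro z
    have h1 : (∑ k ∈ s, (res φ k).comp (lp.evalCLM ℝ E 2 k)) z = ∑ k ∈ s, res φ k (z k) := by
      rw [sum_apply]; rfl
    rw [h1]
    calc ‖∑ k ∈ s, res φ k (z k)‖ ≤ ∑ k ∈ s, ‖res φ k (z k)‖ := norm_sum_le _ _
      _ ≤ ∑ k ∈ s, ‖res φ k‖ * ‖z k‖ :=
        Finset.sum_le_sum fun k _ => (res φ k).le_opNorm _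
      _ ≤ Real.sqrt (∑ k ∈ s, ‖res φ k‖ ^ 2) * Real.sqrt (∑ k ∈ s, ‖z k‖ ^ 2) :=
        Real.sum_mul_le_sqrt_mul_sqrt _ _ _
      _ ≤ Real.sqrt (∑ k ∈ s, ‖res φ k‖ ^ 2) * ‖z‖ := by
        refine mul_le_mul_of_nonneg_left ?_ (Real.sqrt_nonneg _)
        refine Real.sqrt_le_iff.mpr ⟨norm_nonneg _, sum_sq_le z s⟩
  have hsum : Summable fun k => (res φ k).comp (lp.evalCLM ℝ E 2 k) := by
    rw [summable_iff_vanishing_norm]
    intro ε hε
    obtain ⟨s, hs⟩ := summable_iff_vanishing_norm.mp hsq (ε ^ 2) (by positivity)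
    refine ⟨s, fun t ht => ?_⟩
    have h1 := hs t ht
    rw [Real.norm_of_nonneg (Finset.sum_nonneg fun _ _ => sq_nonneg _)] at h1
    calc _ ≤ _ := hb t
      _ < ε := by
        rw [Real.sqrt_lt' hε]; exact h1
  obtain ⟨ψ, hψ⟩ := hsum
  have : ψ = φ := by
    ext z
    have h1 : HasSum (fun k => res φ k (z k)) (ψ z) := by
      have := hψ.mapL (ContinuousLinearMap.apply ℝ ℝ z)
      exact this
    have h2 : HasSum (fun k => res φ k (z k)) (φ z) := by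
      have := (lp.hasSum_single (by norm_num) z).mapL φ
      exact this
    exact h1.unique h2
  rw [this] at hψ; exact hψ

theorem reflexive_lp (h : ∀ k, Function.Surjective (NormedSpace.inclusionInDoubleDual ℝ (E k))) :
    Function.Surjective (NormedSpace.inclusionInDoubleDual ℝ (lp E 2)) := by
  intro ξ
  have h1 : ∀ k, ∃ x : E k, ∀ φ : E k →L[ℝ] ℝ, ξ (φ.comp (lp.evalCLM ℝ E 2 k)) = φ x := by
    intro k
    obtain ⟨x, hx⟩ := h k (ξ.comp (ContinuousLinearMap.precomp ℝ (lp.evalCLM ℝ E 2 k)))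
    refine ⟨x, fun φ => ?_⟩
    have := congrArg (fun L => L φ) hx
    simp only [NormedSpace.dual_def] at this
    rw [this]; rfl
  choose x hx using h1
  have hbound : ∀ s : Finset ℕ, ∑ k ∈ s, ‖x k‖ ^ 2 ≤ ‖ξ‖ ^ 2 := by
    intro s
    have h2 : ∀ k, ∃ g : E k →L[ℝ] ℝ, ‖g‖ ≤ 1 ∧ g (x k) = ‖x k‖ :=
      fun k => exists_dual_vector'' ℝ (x k)
    choose g hg1 hg2 using h2
    set T := ∑ k ∈ s, ‖x k‖ ^ 2 with hT
    have hT0 : 0 ≤ T := Finset.sum_nonneg fun _ _ => sq_nonneg _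
    set φ : lp E 2 →L[ℝ] ℝ := ∑ k ∈ s, ‖x k‖ • ((g k).comp (lp.evalCLM ℝ E 2 k)) with hφ
    have h3 : ξ φ = T := by
      rw [hφ, map_sum, hT]
      refine Finset.sum_congr rfl fun k _ => ?_
      rw [map_smul, hx, hg2, smul_eq_mul, sq]
    have h4 : ‖φ‖ ≤ Real.sqrt T := by
      refine ContinuousLinearMap.opNorm_le_bound _ (Real.sqrt_nonneg _) ?_
      intro z
      have h5 : φ z = ∑ k ∈ s, ‖x k‖ * g k (z k) := by
        rw [hφ, sum_apply]; rfl
      rw [h5]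
      calc ‖∑ k ∈ s, ‖x k‖ * g k (z k)‖ ≤ ∑ k ∈ s, ‖‖x k‖ * g k (z k)‖ := norm_sum_le _ _
        _ ≤ ∑ k ∈ s, ‖x k‖ * ‖z k‖ := by
          refine Finset.sum_le_sum fun k _ => ?_
          rw [norm_mul, norm_norm]
          refine mul_le_mul_of_nonneg_left ?_ (norm_nonneg _)
          calc ‖g k (z k)‖ ≤ ‖g k‖ * ‖z k‖ := (g k).le_opNorm _
            _ ≤ 1 * ‖z k‖ := mul_le_mul_of_nonneg_right (hg1 k) (norm_nonneg _)
            _ = _ := one_mul _
        _ ≤ Real.sqrt (∑ k ∈ s, ‖x k‖ ^ 2) * Real.sqrt (∑ k ∈ s, ‖z k‖ ^ 2) :=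
          Real.sum_mul_le_sqrt_mul_sqrt _ _ _
        _ ≤ Real.sqrt (∑ k ∈ s, ‖x k‖ ^ 2) * ‖z‖ := by
          refine mul_le_mul_of_nonneg_left ?_ (Real.sqrt_nonneg _)
          refine Real.sqrt_le_iff.mpr ⟨norm_nonneg _, sum_sq_le z s⟩
    have h6 : T ≤ ‖ξ‖ * Real.sqrt T := by
      calc T = ξ φ := h3.symm
        _ ≤ ‖ξ φ‖ := Real.le_norm_self _
        _ ≤ ‖ξ‖ * ‖φ‖ := ξ.le_opNorm _
        _ ≤ _ := mul_le_mul_of_nonneg_left h4 ξ.opNorm_nonneg
    have hs : Real.sqrt T * Real.sqrt T = T := Real.mul_self_sqrt hT0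
    have h7 : Real.sqrt T ≤ ‖ξ‖ := by
      rcases (Real.sqrt_nonneg T).eq_or_lt with h | h
      · rw [← h]; exact ξ.opNorm_nonneg
      · by_contra hcon
        push Not at hcon
        nlinarith
    calc T = Real.sqrt T ^ 2 := by rw [sq, hs]
      _ ≤ ‖ξ‖ ^ 2 := pow_le_pow_left₀ (Real.sqrt_nonneg _) h7 2
  refine ⟨⟨x, memlp_of_sum_sq x _ hbound⟩, ?_⟩
  ext φ
  rw [NormedSpace.dual_def]
  have h2 : HasSum (fun k => res φ k (x k)) (ξ φ) := by
    have h3 := (hasSum_functional φ).mapL ξ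
    have h4 : (fun k => ξ ((res φ k).comp (lp.evalCLM ℝ E 2 k))) = fun k => res φ k (x k) := by
      funext k; rw [hx]
    rw [h4] at h3
    exact h3
  have h3 : HasSum (fun k => res φ k (x k)) (φ ⟨x, memlp_of_sum_sq x _ hbound⟩) := by
    have := (lp.hasSum_single (by norm_num) (⟨x, memlp_of_sum_sq x _ hbound⟩ : lp E 2)).mapL φ
    exact this
  exact h3.unique h2

end lpsum

/-- Weak limits along ultrafilters in reflexive spaces. -/
theorem weak_limit {X : Type*} [NormedAddCommGroup X] [NormedSpace ℝ X]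
    (hX : Function.Surjective (NormedSpace.inclusionInDoubleDual ℝ X))
    (U : Ultrafilter ℕ) (w : ℕ → X) (C : ℝ) (hw : ∀ i, ‖w i‖ ≤ C) :
    ∃ x : X, ∀ φ : X →L[ℝ] ℝ, Tendsto (fun i => φ (w i)) U (nhds (φ x)) := by
  have hC : 0 ≤ C := (norm_nonneg _).trans (hw 0)
  have hb : ∀ (φ : X →L[ℝ] ℝ) i, φ (w i) ∈ Set.Icc (-(C * ‖φ‖)) (C * ‖φ‖) := by
    intro φ i
    have h1 : ‖φ (w i)‖ ≤ C * ‖φ‖ := by
      calc ‖φ (w i)‖ ≤ ‖φ‖ * ‖w i‖ := φ.le_opNorm _
        _ ≤ ‖φ‖ * C := mul_le_mul_of_nonneg_left (hw i) φ.opNorm_nonneg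
        _ = _ := mul_comm _ _
    rw [Real.norm_eq_abs, abs_le] at h1
    exact h1
  have h1 : ∀ φ : X →L[ℝ] ℝ, ∃ r ∈ Set.Icc (-(C * ‖φ‖)) (C * ‖φ‖),
      Tendsto (fun i => φ (w i)) U (nhds r) := by
    intro φ
    have hc : IsCompact (Set.Icc (-(C * ‖φ‖)) (C * ‖φ‖)) := isCompact_Icc
    have := hc.ultrafilter_le_nhds (U.map fun i => φ (w i)) (by
      rw [Filter.le_principal_iff]
      exact Filter.mem_map.mpr (Filter.univ_mem' (hb φ)))
    obtain ⟨r, hr, hr'⟩ := this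
    exact ⟨r, hr, hr'⟩
  choose L hL1 hL2 using h1
  let ξ : (X →L[ℝ] ℝ) →ₗ[ℝ] ℝ :=
    { toFun := L
      map_add' := by
        intro φ ψ
        exact tendsto_nhds_unique (hL2 (φ + ψ)) (by simpa using (hL2 φ).add (hL2 ψ))
      map_smul' := by
        intro c φ
        exact tendsto_nhds_unique (hL2 (c • φ)) (by simpa using (hL2 φ).const_mul c) }
  obtain ⟨x, hx⟩ := hX (ξ.mkContinuous C (by
    intro φ
    have := hL1 φ
    rw [Set.mem_Icc, ← abs_le] at this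
    exact this))
  refine ⟨x, fun φ => ?_⟩
  have h2 := congrArg (fun L => L φ) hx
  simp only [NormedSpace.dual_def] at h2
  rw [h2]
  exact hL2 φ

end Crest.Agent.H11Reflexive
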