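import Mathlib
import Crest.Prelude.Def_TreePotentials
import Crest.Agent.H11AUC
import Crest.Agent.H11Mix

set_option autoImplicit false

namespace Crest.Agent.H11Tree

open Crest Crest.AnalysisR Crest.AnalysisR.TreePotential

/-- evaluation of elements of the model space at tests -/
noncomputable def ev (m : PotentialModel) (f : PotentialTest m) : modelSpace m →L[ℝ] ℝ :=
  (lp.evalCLM ℝ (fun _ : PotentialTest m => ℝ) ⊤ f).comp (modelSpace m).subtypeL

theorem ev_apply (m : PotentialModel) (f : PotentialTest m) (x : modelSpace m) :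
    ev m f x = (x : lp (fun _ : PotentialTest m => ℝ) ⊤) f := rfl

theorem abs_ev_le (m : PotentialModel) (f : PotentialTest m) (x : modelSpace m) :
    |ev m f x| ≤ ‖x‖ := by
  have := lp.norm_apply_le_norm (p := ⊤) (by simp) (x : lp (fun _ : PotentialTest m => ℝ) ⊤) f
  simpa [ev_apply] using this

theorem norm_le_of_ev (m : PotentialModel) (x : modelSpace m) (C : ℝ) (hC : 0 ≤ C)
    (h : ∀ f, |ev m f x| ≤ C) : ‖x‖ ≤ C := by
  have := lp.norm_le_of_forall_le (f := (x : lp (fun _ : PotentialTest m => ℝ) ⊤)) hC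
    (fun f => by simpa [ev_apply] using h f)
  simpa using this

/-- coordinate vectors as elements of the model space -/
noncomputable def e (m : PotentialModel) (s : List ℕ) : modelSpace m :=
  ⟨coordVector m s, Submodule.le_topologicalClosure _ (Submodule.subset_span ⟨s, rfl⟩)⟩

theorem ev_e (m : PotentialModel) (s : List ℕ) (f : PotentialTest m) : ev m f (e m s) = f.1 s := rfl

/-- density of the span -/
theorem span_dense (m : PotentialModel) (x : modelSpace m) (ε : ℝ) (hε : 0 < ε) :
    ∃ c : List ℕ →₀ ℝ, ‖x - c.sum (fun s a => a • e m s)‖ < ε := by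
  have hx := x.2
  have hx' : (x : lp (fun _ : PotentialTest m => ℝ) ⊤) ∈
      closure ((Submodule.span ℝ (Set.range (coordVector m)) :
        Submodule ℝ (lp (fun _ : PotentialTest m => ℝ) ⊤)) :
          Set (lp (fun _ : PotentialTest m => ℝ) ⊤)) := hx
  rw [Metric.mem_closure_iff] at hx'
  obtain ⟨z, hz, hd⟩ := hx' ε hε
  obtain ⟨c, hc⟩ := (Finsupp.mem_span_range_iff_exists_finsupp).1 hz
  refine ⟨c, ?_⟩
  have h1 : ((c.sum (fun s a => a • e m s) : modelSpace m) :
      lp (fun _ : PotentialTest m => ℝ) ⊤) = z := by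
    rw [← hc]
    simp only [Finsupp.sum]
    rw [Submodule.coe_sum]
    rfl
  rw [dist_eq_norm] at hd
  rw [← h1] at hd
  exact hd

theorem clm_zero (m : PotentialModel) (L : modelSpace m →L[ℝ] ℝ) (hLe : ∀ v, L (e m v) = 0)
    (x : modelSpace m) : L x = 0 := by
  by_contra hne
  have hpos : 0 < |L x| := abs_pos.mpr hne
  obtain ⟨d, hd⟩ := span_dense m x (|L x| / (2 * (‖L‖ + 1))) (by positivity)
  have h0 : L (d.sum (fun s a => a • e m s)) = 0 := by
    simp only [Finsupp.sum, map_sum, map_smul, hLe, smul_zero, Finset.sum_const_zero]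
  have h1 : L x = L (x - d.sum (fun s a => a • e m s)) := by
    rw [map_sub, h0, sub_zero]
  have h2 : |L x| ≤ ‖L‖ * ‖x - d.sum (fun s a => a • e m s)‖ := by
    calc |L x| = ‖L (x - d.sum (fun s a => a • e m s))‖ := by rw [← h1, Real.norm_eq_abs]
      _ ≤ _ := L.le_opNorm _
  have h3 : ‖L‖ * ‖x - d.sum (fun s a => a • e m s)‖ ≤
      (‖L‖ + 1) * (|L x| / (2 * (‖L‖ + 1))) := by
    have : 0 ≤ ‖L‖ := L.opNorm_nonneg
    exact mul_le_mul (by linarith) hd.le (norm_nonneg _) (by linarith)
  have h4 : (‖L‖ + 1) * (|L x| / (2 * (‖L‖ + 1))) = |L x| / 2 := by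
    have : 0 ≤ ‖L‖ := L.opNorm_nonneg
    field_simp
  linarith

/-- Linear relations between tests persist on the model space. -/
theorem rel (m : PotentialModel) {ι : Type*} (s : Finset ι) (c : ι → ℝ) (F : ι → PotentialTest m)
    (h : ∀ v : List ℕ, ∑ i ∈ s, c i * (F i).1 v = 0) (x : modelSpace m) :
    ∑ i ∈ s, c i * ev m (F i) x = 0 := by
  set L : modelSpace m →L[ℝ] ℝ := ∑ i ∈ s, c i • ev m (F i) with hL
  have hLe : ∀ v, L (e m v) = 0 := by
    intro v
    simp only [hL, sum_apply, smul_apply, ev_e,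
      smul_eq_mul]
    exact h v
  have hLx : L x = 0 := by
    by_contra hne
    have hpos : 0 < |L x| := abs_pos.mpr hne
    obtain ⟨d, hd⟩ := span_dense m x (|L x| / (2 * (‖L‖ + 1))) (by positivity)
    have h0 : L (d.sum (fun s a => a • e m s)) = 0 := by
      simp only [Finsupp.sum, map_sum, map_smul, hLe, smul_zero, Finset.sum_const_zero]
    have h1 : L x = L (x - d.sum (fun s a => a • e m s)) := by
      rw [map_sub, h0, sub_zero]
    have h2 : |L x| ≤ ‖L‖ * ‖x - d.sum (fun s a => a • e m s)‖ := by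
      calc |L x| = ‖L (x - d.sum (fun s a => a • e m s))‖ := by rw [← h1, Real.norm_eq_abs]
        _ ≤ _ := L.le_opNorm _
    have h3 : ‖L‖ * ‖x - d.sum (fun s a => a • e m s)‖ ≤
        (‖L‖ + 1) * (|L x| / (2 * (‖L‖ + 1))) := by
      have : 0 ≤ ‖L‖ := L.opNorm_nonneg
      exact mul_le_mul (by linarith) hd.le (norm_nonneg _) (by linarith)
    have h4 : (‖L‖ + 1) * (|L x| / (2 * (‖L‖ + 1))) = |L x| / 2 := by
      have : 0 ≤ ‖L‖ := L.opNorm_nonneg
      field_simp
    linarith
  have : L x = ∑ i ∈ s, c i * ev m (F i) x := by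
    simp only [hL, sum_apply, smul_apply, smul_eq_mul]
  rw [← this, hLx]

theorem rel2 (m : PotentialModel) (f g : PotentialTest m) (c d : ℝ)
    (h : ∀ v : List ℕ, c * f.1 v + d * g.1 v = 0) (x : modelSpace m) :
    c * ev m f x + d * ev m g x = 0 := by
  have := rel m (Finset.univ : Finset (Fin 2)) ![c, d] ![f, g] (by
    intro v; simpa [Fin.sum_univ_two] using h v) x
  simpa [Fin.sum_univ_two] using this

theorem pot_neg (f : List ℕ → ℝ) (s : List ℕ) : pathPotential (-f) s = - pathPotential f s := by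
  induction s with
  | nil => simp [pathPotential]
  | cons a l ih => simp only [pathPotential, ih, Pi.neg_apply]; ring

theorem isTest_neg (m : PotentialModel) (f : List ℕ → ℝ) (hf : IsTest m f) : IsTest m (-f) := by
  refine ⟨fun s => by rw [pot_neg, abs_neg]; exact hf.1 s, ?_⟩
  have h2 := hf.2
  cases m with
  | rootlessSibling =>
    exact ⟨by simpa using h2.1, fun r A => by simpa using h2.2 r A⟩
  | rootedSibling => exact fun r A => by simpa using h2 r A
  | antichain => exact ⟨by simpa using h2.1, fun A hA => by simpa using h2.2 A hA⟩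
  | «global» => exact fun A => by simpa using h2 A

def negTest (m : PotentialModel) (f : PotentialTest m) : PotentialTest m := ⟨-f.1, isTest_neg m f.1 f.2⟩

theorem ev_neg (m : PotentialModel) (f : PotentialTest m) (x : modelSpace m) :
    ev m (negTest m f) x = - ev m f x := by
  have := rel2 m f (negTest m f) 1 1 (by intro v; simp [negTest]) x
  linarith

/-- norming tests -/
theorem exists_norming (m : PotentialModel) (x : modelSpace m) (ε : ℝ) (hε : 0 < ε)
    (hx : 0 < ‖x‖) : ∃ f : PotentialTest m, ‖x‖ - ε < ev m f x := by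
  by_contra hcon
  push Not at hcon
  have h1 : ∀ f, |ev m f x| ≤ max (‖x‖ - ε) 0 := by
    intro f
    rw [abs_le]
    have h2 := hcon f
    have h3 := hcon (negTest m f)
    rw [ev_neg] at h3
    have h4 := le_max_left (‖x‖ - ε) 0
    constructor <;> linarith
  have h2 := norm_le_of_ev m x _ (le_max_right _ _) h1
  rcases max_choice (‖x‖ - ε) 0 with h | h
  · rw [h] at h2; linarith
  · rw [h] at h2; linarith

/-- Single-vertex potentials. -/
theorem pot_single (s : List ℕ) (u : List ℕ) :
    (s <:+ u → pathPotential (fun v => if v = s then 1 else 0) u = 1) ∧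
    (¬ s <:+ u → pathPotential (fun v => if v = s then 1 else 0) u = 0) := by
  induction u with
  | nil =>
    constructor
    · intro h
      have : s = [] := List.suffix_nil.mp h
      simp [pathPotential, this]
    · intro h
      have : ¬ ([] : List ℕ) = s := by
        rintro rfl; exact h (List.suffix_refl _)
      simp [pathPotential, this]
  | cons a l ih =>
    constructor
    · intro h
      rw [List.suffix_cons_iff] at h
      rcases h with h | h
      · have hn : ¬ s <:+ l := by
          rintro ⟨t, ht⟩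
          have h1 := congrArg List.length ht
          have h2 := congrArg List.length h
          simp at h1 h2
          omega
        simp only [pathPotential, ih.2 hn]
        simp [h]
      · have hn : ¬ (a :: l = s) := by
          rintro rfl
          obtain ⟨t, ht⟩ := h
          have h1 := congrArg List.length ht
          simp at h1
          omega
        simp only [pathPotential, ih.1 h]
        simp [hn]
    · intro h
      rw [List.suffix_cons_iff, not_or] at h
      have hn : ¬ (a :: l = s) := fun h' => h.1 h'.symm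
      simp only [pathPotential, ih.2 h.2]
      simp [hn]

/-- children embedding -/
def childEmb (r : List ℕ) : ℕ ↪ List ℕ := ⟨fun n => n :: r, fun a b h => by simpa using h⟩

theorem childEmb_apply (r : List ℕ) (n : ℕ) : childEmb r n = n :: r := rfl

theorem isTest_of_global (m : PotentialModel) (f : List ℕ → ℝ)
    (hpot : ∀ s, |pathPotential f s| ≤ 1) (hfin : (Function.support f).Finite)
    (hsq : ∀ A : Finset (List ℕ), ∑ u ∈ A, f u ^ 2 ≤ 1)
    (h0 : m = .rootlessSibling → f [] = 0) : IsTest m f := by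
  have hsib : ∀ (r : List ℕ) (A : Finset ℕ), ∑ n ∈ A, f (n :: r) ^ 2 ≤ 1 := by
    intro r A
    have := hsq (A.map (childEmb r))
    rw [Finset.sum_map] at this
    exact this
  refine ⟨hpot, ?_⟩
  cases m with
  | rootlessSibling => exact ⟨h0 rfl, hsib⟩
  | rootedSibling => exact hsib
  | antichain => exact ⟨hfin, fun A _ => hsq A⟩
  | «global» => exact hsq

theorem isTest_single (m : PotentialModel) (s : List ℕ) (hs : m = .rootlessSibling → s ≠ []) :
    IsTest m (fun v => if v = s then (1 : ℝ) else 0) := by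
  refine isTest_of_global m _ ?_ ?_ ?_ ?_
  · intro u
    rcases Classical.em (s <:+ u) with h | h
    · rw [(pot_single s u).1 h]; simp
    · rw [(pot_single s u).2 h]; simp
  · refine (Set.finite_singleton s).subset ?_
    intro v hv
    by_contra hne
    apply hv
    simp only [Set.mem_singleton_iff] at hne
    simp [hne]
  · intro A
    simp only [ite_pow, one_pow, ne_eq, OfNat.ofNat_ne_zero, not_false_eq_true, zero_pow,
      Finset.sum_ite_eq']
    split_ifs <;> norm_num
  · intro h
    have := hs h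
    simp [this.symm]

/-- The child vectors are dominated by `ℓ²`. -/
theorem child_bound (m : PotentialModel) (r : List ℕ) (s : Finset ℕ) (c : ℕ → ℝ) :
    ‖∑ n ∈ s, c n • e m (n :: r)‖ ≤ 1 * Real.sqrt (∑ n ∈ s, c n ^ 2) := by
  rw [one_mul]
  refine norm_le_of_ev m _ _ (Real.sqrt_nonneg _) ?_
  intro f
  rw [map_sum]
  simp only [map_smul, ev_e, smul_eq_mul]
  have hsib : ∑ n ∈ s, f.1 (n :: r) ^ 2 ≤ 1 := by
    have h2 := f.2.2
    cases m with
    | rootlessSibling => exact h2.2 r s
    | rootedSibling => exact h2 r s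
    | antichain =>
      have := h2.2 (s.map (childEmb r)) (by
        intro u hu v hv huv hsuf
        simp only [Finset.mem_map] at hu hv
        obtain ⟨a, _, rfl⟩ := hu
        obtain ⟨b, _, rfl⟩ := hv
        rw [childEmb_apply, childEmb_apply, List.suffix_cons_iff] at hsuf
        rcases hsuf with h | h
        · exact huv h
        · obtain ⟨t, ht⟩ := h
          have h1 := congrArg List.length ht
          simp at h1
          omega)
      rw [Finset.sum_map] at this
      exact this
    | «global» =>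
      have := h2 (s.map (childEmb r))
      rw [Finset.sum_map] at this
      exact this
  have hcs := Finset.sum_mul_sq_le_sq_mul_sq s c (fun n => f.1 (n :: r))
  have h3 : (∑ n ∈ s, c n * f.1 (n :: r)) ^ 2 ≤ ∑ n ∈ s, c n ^ 2 := by
    have h4 : 0 ≤ ∑ n ∈ s, c n ^ 2 := Finset.sum_nonneg fun _ _ => sq_nonneg _
    calc _ ≤ _ := hcs
      _ ≤ (∑ n ∈ s, c n ^ 2) * 1 := mul_le_mul_of_nonneg_left hsib h4
      _ = _ := mul_one _
  exact Real.abs_le_sqrt h3

theorem norm_e (m : PotentialModel) (s : List ℕ) (hs : m = .rootlessSibling → s ≠ []) :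
    1 ≤ ‖e m s‖ := by
  have h := abs_ev_le m (⟨_, isTest_single m s hs⟩ : PotentialTest m) (e m s)
  have h2 : ev m (⟨_, isTest_single m s hs⟩ : PotentialTest m) (e m s) = 1 := by
    have := ev_e m s (⟨_, isTest_single m s hs⟩ : PotentialTest m)
    rw [this]; simp
  rw [h2] at h
  simpa using h

/-- Coordinate functionals (zero when the coordinate is not available). -/
noncomputable def D (m : PotentialModel) (s : List ℕ) : modelSpace m →L[ℝ] ℝ := by
  classical
  exact if h : IsTest m (fun v => if v = s then (1 : ℝ) else 0) then ev m ⟨_, h⟩ else 0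

theorem mul_D_e (m : PotentialModel) (s v : List ℕ) (g : PotentialTest m) :
    g.1 s * D m s (e m v) = g.1 s * (if v = s then 1 else 0) := by
  classical
  unfold D
  split_ifs with h hv hv
  · have := ev_e m v ⟨_, h⟩
    rw [this]; simp [hv]
  · have := ev_e m v ⟨_, h⟩
    rw [this]; simp [hv]
  · -- not a test: rootless and s = []
    have h1 : m = .rootlessSibling ∧ s = [] := by
      by_contra hcon
      apply h
      exact isTest_single m s (fun hm hs => hcon ⟨hm, hs⟩)
    obtain ⟨rfl, rfl⟩ := h1
    have := g.2.2.1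
    rw [this]; simp
  · simp

theorem extra_mix (m : PotentialModel) (T : Finset (List ℕ)) (hT0 : [] ∈ T)
    (f g : PotentialTest m) (α β : ℝ) (hαβ : α ^ 2 + β ^ 2 ≤ 1) (h : List ℕ → ℝ)
    (hT : ∀ s ∈ T, h s = α * f.1 s) (hn : ∀ s, s ∉ T → |h s| ≤ β * |g.1 s|) :
    ExtraCondition m h := by
  classical
  have hn2 : ∀ s, s ∉ T → h s ^ 2 ≤ β ^ 2 * g.1 s ^ 2 := by
    intro s hs
    have h1 := hn s hs
    have h2 : |h s| ^ 2 ≤ (β * |g.1 s|) ^ 2 := pow_le_pow_left₀ (abs_nonneg _) h1 2
    rw [mul_pow, sq_abs, sq_abs] at h2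
    exact h2
  -- general bound over a finset of indices
  have key : ∀ {ι : Type} (A : Finset ι) (j : ι → List ℕ),
      (∀ B ⊆ A, ∑ i ∈ B, f.1 (j i) ^ 2 ≤ 1) → (∀ B ⊆ A, ∑ i ∈ B, g.1 (j i) ^ 2 ≤ 1) →
      ∑ i ∈ A, h (j i) ^ 2 ≤ 1 := by
    intro ι A j hf hg
    rw [← Finset.sum_filter_add_sum_filter_not A (fun i => j i ∈ T)]
    have h1 : ∑ i ∈ A with j i ∈ T, h (j i) ^ 2 ≤ α ^ 2 * 1 := by
      calc ∑ i ∈ A with j i ∈ T, h (j i) ^ 2 = ∑ i ∈ A with j i ∈ T, α ^ 2 * f.1 (j i) ^ 2 := by
            refine Finset.sum_congr rfl fun i hi => ?_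
            rw [hT _ (Finset.mem_filter.mp hi).2, mul_pow]
        _ = α ^ 2 * ∑ i ∈ A with j i ∈ T, f.1 (j i) ^ 2 := by rw [Finset.mul_sum]
        _ ≤ α ^ 2 * 1 := mul_le_mul_of_nonneg_left (hf _ (Finset.filter_subset _ _)) (sq_nonneg _)
    have h2 : ∑ i ∈ A with ¬ j i ∈ T, h (j i) ^ 2 ≤ β ^ 2 * 1 := by
      calc ∑ i ∈ A with ¬ j i ∈ T, h (j i) ^ 2 ≤
            ∑ i ∈ A with ¬ j i ∈ T, β ^ 2 * g.1 (j i) ^ 2 := by
            refine Finset.sum_le_sum fun i hi => ?_
            exact hn2 _ (Finset.mem_filter.mp hi).2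
        _ = β ^ 2 * ∑ i ∈ A with ¬ j i ∈ T, g.1 (j i) ^ 2 := by rw [Finset.mul_sum]
        _ ≤ β ^ 2 * 1 := mul_le_mul_of_nonneg_left (hg _ (Finset.filter_subset _ _)) (sq_nonneg _)
    linarith
  have hf2 := f.2.2
  have hg2 := g.2.2
  cases m with
  | rootlessSibling =>
    refine ⟨?_, fun r A => key A (fun n => n :: r) (fun B _ => hf2.2 r B) (fun B _ => hg2.2 r B)⟩
    rw [hT _ hT0, hf2.1, mul_zero]
  | rootedSibling =>
    exact fun r A => key A (fun n => n :: r) (fun B _ => hf2 r B) (fun B _ => hg2 r B)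
  | antichain =>
    refine ⟨?_, fun A hA => key A id (fun B hB => hf2.2 B ?_) (fun B hB => hg2.2 B ?_)⟩
    · refine (T.finite_toSet.union hg2.1).subset ?_
      intro s hs
      by_cases hsT : s ∈ T
      · exact Or.inl hsT
      · right
        intro h0
        apply hs
        have := hn s hsT
        rw [h0, abs_zero, mul_zero] at this
        exact abs_eq_zero.mp (le_antisymm this (abs_nonneg _))
    · intro u hu v hv huv
      exact hA u (hB hu) v (hB hv) huv
    · intro u hu v hv huv
      exact hA u (hB hu) v (hB hv) huv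
  | «global» =>
    exact fun A => key A id (fun B _ => hf2 B) (fun B _ => hg2 B)

/-- The suffix closure of the support of a finitely supported family, with the root. -/
noncomputable def sc (c : List ℕ →₀ ℝ) : Finset (List ℕ) := by
  classical
  exact insert [] (c.support.biUnion fun s => s.tails.toFinset)

theorem sc_nil (c : List ℕ →₀ ℝ) : [] ∈ sc c := by
  classical
  exact Finset.mem_insert_self _ _

theorem sc_supp (c : List ℕ →₀ ℝ) (s : List ℕ) (hs : s ∈ c.support) : s ∈ sc c := by
  classical
  refine Finset.mem_insert_of_mem (Finset.mem_biUnion.mpr ⟨s, hs, ?_⟩)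
  rw [List.mem_toFinset, List.mem_tails]

theorem sc_cons (c : List ℕ →₀ ℝ) (a : ℕ) (l : List ℕ) (h : a :: l ∈ sc c) : l ∈ sc c := by
  classical
  unfold sc at h ⊢
  rw [Finset.mem_insert] at h
  rcases h with h | h
  · exact absurd h (List.cons_ne_nil _ _)
  · rw [Finset.mem_biUnion] at h
    obtain ⟨s, hs, h⟩ := h
    refine Finset.mem_insert_of_mem (Finset.mem_biUnion.mpr ⟨s, hs, ?_⟩)
    rw [List.mem_toFinset, List.mem_tails] at h ⊢
    exact (List.suffix_cons a l).trans h

/-- The key inequality. -/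
theorem key_ineq (m : PotentialModel) (c : List ℕ →₀ ℝ) (y : modelSpace m)
    (hy : ∀ s ∈ sc c, D m s y = 0) (f g : PotentialTest m) (α β t : ℝ)
    (hα0 : 0 ≤ α) (hβ0 : 0 ≤ β) (hαβ : α ^ 2 + β ^ 2 ≤ 1) :
    2 * α * ev m f (c.sum fun s a => a • e m s) + t * β * ev m g y ≤
      ‖(c.sum fun s a => a • e m s) + t • y‖ + ‖(c.sum fun s a => a • e m s) - t • y‖ := by
  classical
  have hα1 : α ≤ 1 := by nlinarith [sq_nonneg β]
  have hβ1 : β ≤ 1 := by nlinarith [sq_nonneg α]
  obtain ⟨hp, hm, h1, h2, h3, h4⟩ := H11Mix.mix (sc c : Set (List ℕ)) (sc_nil c)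
    (fun a l h => sc_cons c a l h) f.1 g.1 (fun s _ => f.2.1 s) g.2.1 α β hα0 hα1 hβ0 hβ1
  have tp : IsTest m hp := ⟨fun s => (h4 s).1, extra_mix m (sc c) (sc_nil c) f g α β hαβ hp
    (fun s hs => (h1 s hs).1) (fun s hs => (h3 s hs).1)⟩
  have tm : IsTest m hm := ⟨fun s => (h4 s).2, extra_mix m (sc c) (sc_nil c) f g α β hαβ hm
    (fun s hs => (h1 s hs).2) (fun s hs => (h3 s hs).2)⟩
  set P : PotentialTest m := ⟨hp, tp⟩ with hP
  set Q : PotentialTest m := ⟨hm, tm⟩ with hQ
  set x := c.sum fun s a => a • e m s with hx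
  have evx : ∀ φ : PotentialTest m, ev m φ x = ∑ s ∈ c.support, c s * φ.1 s := by
    intro φ
    rw [hx, Finsupp.sum, map_sum]
    refine Finset.sum_congr rfl fun s _ => ?_
    rw [map_smul, ev_e, smul_eq_mul]
  have hPx : ev m P x = α * ev m f x := by
    rw [evx, evx, Finset.mul_sum]
    refine Finset.sum_congr rfl fun s hs => ?_
    have : hp s = α * f.1 s := (h1 s (sc_supp c s hs)).1
    change c s * hp s = _
    rw [this]; ring
  have hQx : ev m Q x = α * ev m f x := by
    rw [evx, evx, Finset.mul_sum]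
    refine Finset.sum_congr rfl fun s hs => ?_
    have : hm s = α * f.1 s := (h1 s (sc_supp c s hs)).2
    change c s * hm s = _
    rw [this]; ring
  have hrel : ev m P y - ev m Q y = β * ev m g y := by
    have := clm_zero m (ev m P - ev m Q - β • ev m g + β • ∑ s ∈ sc c, g.1 s • D m s) (by
      intro v
      simp only [ContinuousLinearMap.add_apply, ContinuousLinearMap.sub_apply, smul_apply,
        sum_apply, smul_eq_mul, ev_e, mul_D_e]
      simp only [mul_ite, mul_one, mul_zero, Finset.sum_ite_eq]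
      by_cases hv : v ∈ sc c
      · rw [if_pos hv]
        have := h1 v hv
        change hp v - hm v - _ + _ = 0
        rw [this.1, this.2]; ring
      · rw [if_neg hv]
        have := h2 v hv
        change hp v - hm v - _ + _ = 0
        rw [this]; ring) y
    simp only [ContinuousLinearMap.add_apply, ContinuousLinearMap.sub_apply, smul_apply,
        sum_apply, smul_eq_mul] at this
    have h0 : ∑ s ∈ sc c, g.1 s * D m s y = 0 :=
      Finset.sum_eq_zero fun s hs => by rw [hy s hs, mul_zero]
    rw [h0] at this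
    linarith
  have hn1 : ev m P (x + t • y) ≤ ‖x + t • y‖ := (le_abs_self _).trans (abs_ev_le m P _)
  have hn2 : ev m Q (x - t • y) ≤ ‖x - t • y‖ := (le_abs_self _).trans (abs_ev_le m Q _)
  rw [map_add, map_smul, smul_eq_mul] at hn1
  rw [map_sub, map_smul, smul_eq_mul] at hn2
  rw [hPx] at hn1
  rw [hQx] at hn2
  have : t * β * ev m g y = t * ev m P y - t * ev m Q y := by rw [← mul_sub, hrel]; ring
  linarith

/-- Path sums of coordinate vectors, without the root. -/
noncomputable def pathVec (m : PotentialModel) : List ℕ → modelSpace m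
  | [] => 0
  | a :: l => pathVec m l + e m (a :: l)

theorem norm_pathVec (m : PotentialModel) (s : List ℕ) : ‖pathVec m s‖ ≤ 2 := by
  refine norm_le_of_ev m _ _ (by norm_num) ?_
  intro f
  have h : ev m f (pathVec m s) = pathPotential f.1 s - pathPotential f.1 [] := by
    induction s with
    | nil => simp [pathVec]
    | cons a l ih =>
      rw [pathVec, map_add, ih, ev_e]
      simp only [pathPotential]; ring
  rw [h]
  have h1 := f.2.1 s
  have h2 := f.2.1 []
  rw [abs_le] at h1 h2 ⊢
  constructor <;> linarith [h1.1, h1.2, h2.1, h2.2]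

end Crest.Agent.H11Tree
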