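import Mathlib
import Crest.Prelude.Def_TreePotentials
import Crest.Agent.H11AUC
import Crest.Agent.H11Mix
import Crest.Agent.H11Tree
import Crest.Agent.H11Reflexive

set_option autoImplicit false

namespace Crest.Agent.H11Ek

open Crest Crest.AnalysisR Crest.AnalysisR.TreePotential
open scoped ENNReal

/-- vertices of depth at most `k` -/
abbrev V (k : ℕ) : Type := {s : List ℕ // s.length ≤ k}

/-- depth-`k` tests -/
def IsT (k : ℕ) (f : List ℕ → ℝ) : Prop :=
  (∀ s, |pathPotential f s| ≤ 1) ∧ (∀ A : Finset (List ℕ), ∑ u ∈ A, f u ^ 2 ≤ 1) ∧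
    (Function.support f).Finite ∧ ∀ s : List ℕ, k < s.length → f s = 0

def Tk (k : ℕ) : Type := {f : List ℕ → ℝ // IsT k f}

abbrev H (k : ℕ) : Type := lp (fun _ : V k => ℝ) 2

theorem sq_mem (k : ℕ) (f : Tk k) : Memℓp (fun s : V k => f.1 s.1) 2 := by
  refine memℓp_gen' (C := 1) ?_
  intro s
  have := f.2.2.1 (s.map (Function.Embedding.subtype _))
  rw [Finset.sum_map] at this
  simpa using this

/-- a test as an element of the Hilbert space -/
noncomputable def hat (k : ℕ) (f : Tk k) : H k := ⟨fun s => f.1 s.1, sq_mem k f⟩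

theorem norm_hat (k : ℕ) (f : Tk k) : ‖hat k f‖ ≤ 1 := by
  refine lp.norm_le_of_forall_sum_le (by norm_num) zero_le_one ?_
  intro s
  have := f.2.2.1 (s.map (Function.Embedding.subtype _))
  rw [Finset.sum_map] at this
  simpa [hat] using this

theorem J_mem (k : ℕ) (a : H k) : Memℓp (fun f : Tk k => inner ℝ (hat k f) a) ⊤ := by
  refine memℓp_infty ⟨‖a‖, ?_⟩
  rintro _ ⟨f, rfl⟩
  calc ‖inner ℝ (hat k f) a‖ ≤ ‖hat k f‖ * ‖a‖ := norm_inner_le_norm _ _
    _ ≤ 1 * ‖a‖ := mul_le_mul_of_nonneg_right (norm_hat k f) (norm_nonneg _)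
    _ = ‖a‖ := one_mul _

/-- the embedding into bounded functions on tests -/
noncomputable def Jl (k : ℕ) : H k →ₗ[ℝ] lp (fun _ : Tk k => ℝ) ⊤ where
  toFun a := ⟨fun f => inner ℝ (hat k f) a, J_mem k a⟩
  map_add' a b := by
    apply lp.ext
    funext f
    exact inner_add_right _ _ _
  map_smul' c a := by
    apply lp.ext
    funext f
    exact inner_smul_right _ _ _

noncomputable def J (k : ℕ) : H k →L[ℝ] lp (fun _ : Tk k => ℝ) ⊤ :=
  (Jl k).mkContinuous 1 (by
    intro a
    refine lp.norm_le_of_forall_le (by positivity) ?_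
    intro f
    calc ‖inner ℝ (hat k f) a‖ ≤ ‖hat k f‖ * ‖a‖ := norm_inner_le_norm _ _
      _ ≤ 1 * ‖a‖ := mul_le_mul_of_nonneg_right (norm_hat k f) (norm_nonneg _))

theorem J_apply (k : ℕ) (a : H k) (f : Tk k) :
    (J k a : Tk k → ℝ) f = inner ℝ (hat k f) a := rfl

theorem abs_J_le (k : ℕ) (a : H k) (f : Tk k) : |inner ℝ (hat k f) a| ≤ ‖J k a‖ := by
  have := lp.norm_apply_le_norm (p := ⊤) (by simp) (J k a) f
  rw [J_apply] at this
  simpa using this

theorem pot_eq_sum (f : List ℕ → ℝ) (s : List ℕ) :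
    pathPotential f s = ∑ u ∈ s.tails.toFinset, f u := by
  induction s with
  | nil => simp [pathPotential]
  | cons a l ih =>
    rw [List.tails_cons, List.toFinset_cons, Finset.sum_insert, ← ih]
    · simp only [pathPotential]; ring
    · rw [List.mem_toFinset, List.mem_tails]
      rintro ⟨t, ht⟩
      have := congrArg List.length ht
      simp at this
      omega

/-- Square-small families of depth `k` are tests. -/
theorem isT_of_small (k : ℕ) (f : List ℕ → ℝ) (hfin : (Function.support f).Finite)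
    (hk : ∀ s : List ℕ, k < s.length → f s = 0)
    (h : ∀ A : Finset (List ℕ), ∑ u ∈ A, f u ^ 2 ≤ 1 / (k + 1)) : IsT k f := by
  have hk1 : (0:ℝ) < k + 1 := by positivity
  refine ⟨?_, ?_, hfin, hk⟩
  · intro s
    rw [pot_eq_sum]
    set P := s.tails.toFinset.filter (fun u => u.length ≤ k) with hP
    have h1 : ∑ u ∈ s.tails.toFinset, f u = ∑ u ∈ P, f u := by
      rw [hP, Finset.sum_filter_of_ne]
      intro u _ hu
      by_contra hcon
      exact hu (hk u (by omega))
    rw [h1]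
    have hcard : (P.card : ℝ) ≤ k + 1 := by
      have : P.card ≤ (Finset.range (k + 1)).card := by
        refine Finset.card_le_card_of_injOn List.length ?_ ?_
        · intro u hu
          have hu' := Finset.mem_coe.mp hu
          rw [hP, Finset.mem_filter] at hu'
          rw [Finset.coe_range, Set.mem_Iio]
          omega
        · intro u hu v hv huv
          have hu' := Finset.mem_coe.mp hu
          have hv' := Finset.mem_coe.mp hv
          rw [hP, Finset.mem_filter, List.mem_toFinset, List.mem_tails] at hu' hv'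
          exact List.IsSuffix.eq_of_length
            (List.suffix_of_suffix_length_le hu'.1 hv'.1 huv.le) huv
      rw [Finset.card_range] at this
      exact_mod_cast this
    have h2 := Finset.sum_mul_sq_le_sq_mul_sq P (fun _ => (1:ℝ)) f
    simp only [one_mul, one_pow, Finset.sum_const, nsmul_eq_mul, mul_one] at h2
    have h3 : (∑ u ∈ P, f u) ^ 2 ≤ 1 := by
      calc _ ≤ _ := h2
        _ ≤ (k + 1) * (1 / (k + 1)) := by
          refine mul_le_mul hcard (h P) (Finset.sum_nonneg fun _ _ => sq_nonneg _) hk1.le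
        _ = 1 := by field_simp
    exact (sq_le_one_iff_abs_le_one _).mp h3
  · intro A
    refine (h A).trans ?_
    rw [div_le_one hk1]
    have : (0:ℝ) ≤ k := Nat.cast_nonneg k
    linarith

/-- Lower bound of the embedding. -/
theorem J_lower (k : ℕ) (a : H k) : ‖a‖ ≤ Real.sqrt (k + 1) * ‖J k a‖ := by
  classical
  have hk1 : (0:ℝ) < k + 1 := by positivity
  refine lp.norm_le_of_forall_sum_le (by norm_num) (by positivity) ?_
  intro A
  have e0 : ∀ x : ℝ, x ^ (2 : ℝ≥0∞).toReal = x ^ 2 := by intro x; norm_num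
  simp only [e0]
  set S := ∑ i ∈ A, ‖a i‖ ^ 2 with hS
  have hS0 : 0 ≤ S := Finset.sum_nonneg fun _ _ => sq_nonneg _
  rcases hS0.eq_or_lt with h0 | hpos
  · rw [← h0]; positivity
  -- the test
  set c : ℝ := (Real.sqrt (k + 1) * Real.sqrt S)⁻¹ with hc
  have hsqrtk : 0 < Real.sqrt (k + 1) := Real.sqrt_pos.mpr hk1
  have hsqrtS : 0 < Real.sqrt S := Real.sqrt_pos.mpr hpos
  have hcpos : 0 < c := by positivity
  have hc2 : c ^ 2 * S = 1 / (k + 1) := by
    rw [hc, inv_pow, mul_pow, Real.sq_sqrt hk1.le, Real.sq_sqrt hS0]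
    field_simp
  let f : List ℕ → ℝ := fun s => if h : s.length ≤ k then (if (⟨s, h⟩ : V k) ∈ A then c * a ⟨s, h⟩ else 0) else 0
  have hfV : ∀ s : V k, f s.1 = if s ∈ A then c * a s else 0 := by
    intro s
    simp only [f, s.2, dif_pos]
  have hfsum : ∀ B : Finset (List ℕ), ∑ u ∈ B, f u ^ 2 ≤ 1 / (k + 1) := by
    intro B
    have h1 : ∑ u ∈ B, f u ^ 2 ≤ ∑ u ∈ A.map (Function.Embedding.subtype _), f u ^ 2 := by
      rw [← Finset.sum_filter_add_sum_filter_not B
        (fun u => u ∈ A.map (Function.Embedding.subtype _))]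
      have h2 : ∑ u ∈ B with ¬ u ∈ A.map (Function.Embedding.subtype _), f u ^ 2 = 0 := by
        refine Finset.sum_eq_zero fun u hu => ?_
        have hu2 := (Finset.mem_filter.mp hu).2
        have : f u = 0 := by
          by_cases hl : u.length ≤ k
          · have := hfV ⟨u, hl⟩
            simp only at this
            rw [this, if_neg]
            intro hA
            apply hu2
            rw [Finset.mem_map]
            exact ⟨⟨u, hl⟩, hA, rfl⟩
          · simp only [f, hl, dif_neg, not_false_eq_true]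
        rw [this]; norm_num
      rw [h2, add_zero]
      exact Finset.sum_le_sum_of_subset_of_nonneg
        (fun u hu => (Finset.mem_filter.mp hu).2) (fun _ _ _ => sq_nonneg _)
    refine h1.trans ?_
    rw [Finset.sum_map, ← hc2, hS, Finset.mul_sum]
    refine Finset.sum_le_sum fun i hi => ?_
    have : f ((Function.Embedding.subtype _) i) = c * a i := by
      have := hfV i
      rw [if_pos hi] at this
      exact this
    rw [this, mul_pow, Real.norm_eq_abs, sq_abs]
  have hfin : (Function.support f).Finite := by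
    refine (A.map (Function.Embedding.subtype _)).finite_toSet.subset ?_
    intro u hu
    by_contra hcon
    apply hu
    by_cases hl : u.length ≤ k
    · have := hfV ⟨u, hl⟩
      simp only at this
      rw [this, if_neg]
      intro hA
      apply hcon
      rw [Finset.mem_coe, Finset.mem_map]
      exact ⟨⟨u, hl⟩, hA, rfl⟩
    · simp only [f, hl, dif_neg, not_false_eq_true]
  have hfT : IsT k f := isT_of_small k f hfin (fun s hs => by
    simp only [f, not_le.mpr hs, dif_neg, not_false_eq_true]) hfsum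
  have h1 := abs_J_le k a ⟨f, hfT⟩
  have h2 : inner ℝ (hat k ⟨f, hfT⟩) a = c * S := by
    rw [lp.inner_eq_tsum, tsum_eq_sum (s := A)]
    · rw [hS, Finset.mul_sum]
      refine Finset.sum_congr rfl fun i hi => ?_
      have h3 : (hat k ⟨f, hfT⟩ : V k → ℝ) i = f i.1 := rfl
      rw [h3, hfV i, if_pos hi]
      simp only [RCLike.inner_apply, conj_trivial, Real.norm_eq_abs, sq_abs]
      ring
    · intro i hi
      have h3 : (hat k ⟨f, hfT⟩ : V k → ℝ) i = f i.1 := rfl
      rw [h3, hfV i, if_neg hi]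
      simp
  rw [h2, abs_of_pos (by positivity)] at h1
  have h3 : c * S = Real.sqrt S / Real.sqrt (k + 1) := by
    rw [hc]
    have : S = Real.sqrt S * Real.sqrt S := (Real.mul_self_sqrt hS0).symm
    field_simp
    nlinarith
  rw [h3, div_le_iff₀ hsqrtk] at h1
  calc S = Real.sqrt S ^ 2 := (Real.sq_sqrt hS0).symm
    _ ≤ (Real.sqrt (k + 1) * ‖J k a‖) ^ 2 := by
      refine pow_le_pow_left₀ (Real.sqrt_nonneg _) ?_ 2
      rw [mul_comm]; exact h1

theorem J_antilip (k : ℕ) : AntilipschitzWith (Real.toNNReal (Real.sqrt (k + 1))) (J k) := by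
  refine ContinuousLinearMap.antilipschitz_of_bound _ ?_
  intro a
  have := J_lower k a
  rw [Real.coe_toNNReal _ (Real.sqrt_nonneg _)]
  exact this

theorem J_inj (k : ℕ) : Function.Injective (J k) := (J_antilip k).injective

theorem J_closed (k : ℕ) : IsClosed (Set.range (J k)) :=
  (J_antilip k).isClosed_range (J k).uniformContinuous

/-- The space `E_k`. -/
noncomputable def E (k : ℕ) : Submodule ℝ (lp (fun _ : Tk k => ℝ) ⊤) := LinearMap.range (J k).toLinearMap

theorem E_closed (k : ℕ) : IsClosed (E k : Set (lp (fun _ : Tk k => ℝ) ⊤)) := J_closed k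

instance (k : ℕ) : CompleteSpace (E k) := (E_closed k).completeSpace_coe

/-- elements of `E_k` from the Hilbert space -/
noncomputable def Je (k : ℕ) : H k ≃L[ℝ] E k := (J k).equivRange (J_inj k) (J_closed k)

theorem E_reflexive (k : ℕ) :
    Function.Surjective (NormedSpace.inclusionInDoubleDual ℝ (E k)) :=
  H11Reflexive.reflexive_equiv (Je k).symm (H11Reflexive.reflexive_hilbert (H k))

/-- evaluation at tests -/
noncomputable def ev (k : ℕ) (f : Tk k) : E k →L[ℝ] ℝ :=
  (lp.evalCLM ℝ (fun _ : Tk k => ℝ) ⊤ f).comp (E k).subtypeL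

theorem ev_Je (k : ℕ) (f : Tk k) (a : H k) : ev k f (Je k a) = inner ℝ (hat k f) a := rfl

theorem abs_ev_le (k : ℕ) (f : Tk k) (x : E k) : |ev k f x| ≤ ‖x‖ := by
  have := lp.norm_apply_le_norm (p := ⊤) (by simp) (x : lp (fun _ : Tk k => ℝ) ⊤) f
  rw [Real.norm_eq_abs] at this
  exact this

theorem norm_le_of_ev (k : ℕ) (x : E k) (C : ℝ) (hC : 0 ≤ C)
    (h : ∀ f, |ev k f x| ≤ C) : ‖x‖ ≤ C := by
  have := lp.norm_le_of_forall_le (f := (x : lp (fun _ : Tk k => ℝ) ⊤)) hC
    (fun f => by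
      have := h f
      rw [Real.norm_eq_abs]
      exact this)
  simpa using this

/-- coordinate vectors -/
noncomputable def e (k : ℕ) (s : V k) : E k := by
  classical
  exact Je k (lp.single 2 s (1 : ℝ))

theorem ev_e (k : ℕ) (s : V k) (f : Tk k) : ev k f (e k s) = f.1 s.1 := by
  classical
  unfold e
  rw [ev_Je, lp.inner_single_right]
  simp only [RCLike.inner_apply, conj_trivial]
  rw [one_mul]
  rfl

/-- density of the span -/
theorem span_dense (k : ℕ) (x : E k) (ε : ℝ) (hε : 0 < ε) :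
    ∃ (A : Finset (V k)) (c : V k → ℝ), ‖x - ∑ s ∈ A, c s • e k s‖ < ε := by
  classical
  set a := (Je k).symm x with ha
  have h1 : HasSum (fun s : V k => lp.single 2 s (a s)) a := lp.hasSum_single (by norm_num) a
  have h2 : HasSum (fun s : V k => Je k (lp.single 2 s (a s))) (Je k a) :=
    h1.mapL (Je k : H k →L[ℝ] E k)
  have h3 : Je k a = x := by simp [ha]
  rw [h3] at h2
  have h4 := (Metric.tendsto_nhds.mp h2 ε hε).exists
  obtain ⟨A, hA⟩ := h4
  refine ⟨A, fun s => a s, ?_⟩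
  rw [dist_comm, dist_eq_norm] at hA
  have h5 : ∀ s, Je k (lp.single 2 s (a s)) = a s • e k s := by
    intro s
    unfold e
    rw [← map_smul]
    congr 1
    have := lp.single_smul (E := fun _ : V k => ℝ) 2 s (a s) (1 : ℝ)
    rw [← this]; simp
  simp only [h5] at hA
  exact hA

theorem clm_zero (k : ℕ) (L : E k →L[ℝ] ℝ) (hLe : ∀ v, L (e k v) = 0) (x : E k) : L x = 0 := by
  by_contra hne
  have hpos : 0 < |L x| := abs_pos.mpr hne
  obtain ⟨A, c, hd⟩ := span_dense k x (|L x| / (2 * (‖L‖ + 1)))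
    (by have : 0 ≤ ‖L‖ := L.opNorm_nonneg
        positivity)
  have h0 : L (∑ s ∈ A, c s • e k s) = 0 := by
    simp only [map_sum, map_smul, hLe, smul_zero, Finset.sum_const_zero]
  have h1 : L x = L (x - ∑ s ∈ A, c s • e k s) := by
    rw [map_sub, h0, sub_zero]
  have h2 : |L x| ≤ ‖L‖ * ‖x - ∑ s ∈ A, c s • e k s‖ := by
    calc |L x| = ‖L (x - ∑ s ∈ A, c s • e k s)‖ := by rw [← h1, Real.norm_eq_abs]
      _ ≤ _ := L.le_opNorm _
  have hL : 0 ≤ ‖L‖ := L.opNorm_nonneg
  have h3 : ‖L‖ * ‖x - ∑ s ∈ A, c s • e k s‖ ≤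
      (‖L‖ + 1) * (|L x| / (2 * (‖L‖ + 1))) := by
    exact mul_le_mul (by linarith) hd.le (norm_nonneg _) (by linarith)
  have h4 : (‖L‖ + 1) * (|L x| / (2 * (‖L‖ + 1))) = |L x| / 2 := by
    field_simp
  linarith

theorem isT_neg (k : ℕ) (f : List ℕ → ℝ) (hf : IsT k f) : IsT k (-f) := by
  refine ⟨fun s => by rw [H11Tree.pot_neg, abs_neg]; exact hf.1 s, fun A => ?_, ?_, ?_⟩
  · simpa using hf.2.1 A
  · rw [Function.support_neg]; exact hf.2.2.1
  · intro s hs
    simp [hf.2.2.2 s hs]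

def negT (k : ℕ) (f : Tk k) : Tk k := ⟨-f.1, isT_neg k f.1 f.2⟩

theorem ev_neg (k : ℕ) (f : Tk k) (x : E k) : ev k (negT k f) x = - ev k f x := by
  have := clm_zero k (ev k (negT k f) + ev k f) (by
    intro v
    simp only [add_apply, ev_e]
    simp [negT]) x
  simp only [add_apply] at this
  linarith

theorem isT_zero (k : ℕ) : IsT k 0 := by
  refine ⟨?_, ?_, ?_, ?_⟩
  · intro s
    have : pathPotential 0 s = 0 := by
      induction s with
      | nil => simp [pathPotential]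
      | cons a l ih => simp [pathPotential, ih]
    simp [this]
  · intro A; simp
  · simp
  · intro s _; rfl

def zeroT (k : ℕ) : Tk k := ⟨0, isT_zero k⟩

theorem exists_norming (k : ℕ) (x : E k) (ε : ℝ) (hε : 0 < ε) :
    ∃ f : Tk k, ‖x‖ - ε ≤ ev k f x := by
  rcases (norm_nonneg x).eq_or_lt with h0 | hx
  · refine ⟨zeroT k, ?_⟩
    have h1 := abs_ev_le k (zeroT k) x
    rw [abs_le] at h1
    linarith [h1.1]
  · by_contra hcon
    push Not at hcon
    have h1 : ∀ f, |ev k f x| ≤ max (‖x‖ - ε) 0 := by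
      intro f
      rw [abs_le]
      have h2 := hcon f
      have h3 := hcon (negT k f)
      rw [ev_neg] at h3
      have h4 := le_max_left (‖x‖ - ε) 0
      constructor <;> linarith
    have h2 := norm_le_of_ev k x _ (le_max_right _ _) h1
    rcases max_choice (‖x‖ - ε) 0 with h | h
    · rw [h] at h2; linarith
    · rw [h] at h2; linarith

theorem isT_single (k : ℕ) (s : V k) : IsT k (fun v => if v = s.1 then (1 : ℝ) else 0) := by
  refine ⟨?_, ?_, ?_, ?_⟩
  · intro u
    rcases Classical.em (s.1 <:+ u) with h | h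
    · rw [(H11Tree.pot_single s.1 u).1 h]; simp
    · rw [(H11Tree.pot_single s.1 u).2 h]; simp
  · intro A
    simp only [ite_pow, one_pow, ne_eq, OfNat.ofNat_ne_zero, not_false_eq_true, zero_pow,
      Finset.sum_ite_eq']
    split_ifs <;> norm_num
  · refine (Set.finite_singleton s.1).subset ?_
    intro v hv
    by_contra hne
    apply hv
    simp only [Set.mem_singleton_iff] at hne
    simp [hne]
  · intro v hv
    have : v ≠ s.1 := by
      rintro rfl
      have := s.2
      omega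
    simp [this]

/-- single vertex tests -/
noncomputable def dl (k : ℕ) (s : V k) : Tk k := ⟨_, isT_single k s⟩

theorem dl_apply (k : ℕ) (s : V k) (v : List ℕ) : (dl k s).1 v = if v = s.1 then 1 else 0 := rfl

/-- coordinate functionals, zero beyond depth `k` -/
noncomputable def co (k : ℕ) (s : List ℕ) : E k →L[ℝ] ℝ := by
  classical
  exact if h : s.length ≤ k then ev k (dl k ⟨s, h⟩) else 0

theorem co_e (k : ℕ) (s : List ℕ) (v : V k) : co k s (e k v) = if v.1 = s then 1 else 0 := by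
  classical
  unfold co
  by_cases h : s.length ≤ k
  · rw [dif_pos h, ev_e, dl_apply]
  · rw [dif_neg h, if_neg]
    · rfl
    · rintro rfl
      exact h v.2

/-- supported on `T`: tests agreeing on `T` up to a factor act proportionally -/
def SuppOn (k : ℕ) (T : Finset (List ℕ)) (x : E k) : Prop :=
  ∀ (f g : Tk k) (α : ℝ), (∀ s ∈ T, f.1 s = α * g.1 s) → ev k f x = α * ev k g x

theorem SuppOn.mono {k : ℕ} {T T' : Finset (List ℕ)} (h : T ⊆ T') {x : E k}
    (hx : SuppOn k T x) : SuppOn k T' x := fun f g α hfg => hx f g α fun s hs => hfg s (h hs)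

theorem SuppOn.sum {k : ℕ} {T : Finset (List ℕ)} (A : Finset (V k)) (c : V k → ℝ)
    (hA : ∀ s ∈ A, s.1 ∈ T) : SuppOn k T (∑ s ∈ A, c s • e k s) := by
  intro f g α hfg
  simp only [map_sum, map_smul, ev_e, smul_eq_mul, Finset.mul_sum]
  refine Finset.sum_congr rfl fun s hs => ?_
  rw [hfg _ (hA s hs)]; ring

theorem isT_mix (k : ℕ) (T : Finset (List ℕ))
    (f g : Tk k) (α β : ℝ) (hαβ : α ^ 2 + β ^ 2 ≤ 1) (h : List ℕ → ℝ)
    (hpot : ∀ s, |pathPotential h s| ≤ 1)
    (hT : ∀ s ∈ T, h s = α * f.1 s) (hn : ∀ s, s ∉ T → |h s| ≤ β * |g.1 s|) :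
    IsT k h := by
  classical
  have hn2 : ∀ s, s ∉ T → h s ^ 2 ≤ β ^ 2 * g.1 s ^ 2 := by
    intro s hs
    have h1 := hn s hs
    have h2 : |h s| ^ 2 ≤ (β * |g.1 s|) ^ 2 := pow_le_pow_left₀ (abs_nonneg _) h1 2
    rw [mul_pow, sq_abs, sq_abs] at h2
    exact h2
  have hn0 : ∀ s, s ∉ T → g.1 s = 0 → h s = 0 := by
    intro s hs h0
    have := hn s hs
    rw [h0, abs_zero, mul_zero] at this
    exact abs_eq_zero.mp (le_antisymm this (abs_nonneg _))
  refine ⟨hpot, ?_, ?_, ?_⟩
  · intro A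
    rw [← Finset.sum_filter_add_sum_filter_not A (fun i => i ∈ T)]
    have h1 : ∑ i ∈ A with i ∈ T, h i ^ 2 ≤ α ^ 2 * 1 := by
      calc ∑ i ∈ A with i ∈ T, h i ^ 2 = ∑ i ∈ A with i ∈ T, α ^ 2 * f.1 i ^ 2 := by
            refine Finset.sum_congr rfl fun i hi => ?_
            rw [hT _ (Finset.mem_filter.mp hi).2, mul_pow]
        _ = α ^ 2 * ∑ i ∈ A with i ∈ T, f.1 i ^ 2 := by rw [Finset.mul_sum]
        _ ≤ α ^ 2 * 1 := mul_le_mul_of_nonneg_left (f.2.2.1 _) (sq_nonneg _)
    have h2 : ∑ i ∈ A with ¬ i ∈ T, h i ^ 2 ≤ β ^ 2 * 1 := by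
      calc ∑ i ∈ A with ¬ i ∈ T, h i ^ 2 ≤ ∑ i ∈ A with ¬ i ∈ T, β ^ 2 * g.1 i ^ 2 := by
            refine Finset.sum_le_sum fun i hi => ?_
            exact hn2 _ (Finset.mem_filter.mp hi).2
        _ = β ^ 2 * ∑ i ∈ A with ¬ i ∈ T, g.1 i ^ 2 := by rw [Finset.mul_sum]
        _ ≤ β ^ 2 * 1 := mul_le_mul_of_nonneg_left (g.2.2.1 _) (sq_nonneg _)
    linarith
  · refine (T.finite_toSet.union g.2.2.2.1).subset ?_
    intro s hs
    by_cases hsT : s ∈ T
    · exact Or.inl hsT
    · right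
      intro h0
      exact hs (hn0 s hsT h0)
  · intro s hs
    by_cases hsT : s ∈ T
    · rw [hT s hsT, f.2.2.2.2 s hs, mul_zero]
    · exact hn0 s hsT (g.2.2.2.2 s hs)

/-- Suffix-closed finite sets. -/
def Cl (T : Finset (List ℕ)) : Prop := [] ∈ T ∧ ∀ (a : ℕ) (l : List ℕ), a :: l ∈ T → l ∈ T

/-- The key inequality, test form. -/
theorem key_test (k : ℕ) (T : Finset (List ℕ)) (hT : Cl T) (h w y : E k)
    (hh : SuppOn k T h) (hw : SuppOn k T w) (hy : ∀ s ∈ T, co k s y = 0) (f g : Tk k) (α β : ℝ)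
    (hα0 : 0 ≤ α) (hβ0 : 0 ≤ β) (hαβ : α ^ 2 + β ^ 2 ≤ 1) :
    2 * α * ev k f h + β * ev k g y ≤ ‖(h + w) + y‖ + ‖(h - w) - y‖ := by
  classical
  have hα1 : α ≤ 1 := by nlinarith [sq_nonneg β]
  have hβ1 : β ≤ 1 := by nlinarith [sq_nonneg α]
  obtain ⟨hp, hm, h1, h2, h3, h4⟩ := H11Mix.mix (T : Set (List ℕ)) hT.1
    (fun a l h => hT.2 a l h) f.1 g.1 (fun s _ => f.2.1 s) g.2.1 α β hα0 hα1 hβ0 hβ1
  have tp : IsT k hp := isT_mix k T f g α β hαβ hp (fun s => (h4 s).1)
    (fun s hs => (h1 s hs).1) (fun s hs => (h3 s hs).1)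
  have tm : IsT k hm := isT_mix k T f g α β hαβ hm (fun s => (h4 s).2)
    (fun s hs => (h1 s hs).2) (fun s hs => (h3 s hs).2)
  set P : Tk k := ⟨hp, tp⟩ with hP
  set Q : Tk k := ⟨hm, tm⟩ with hQ
  have hPh : ev k P h = α * ev k f h := hh P f α fun s hs => (h1 s hs).1
  have hQh : ev k Q h = α * ev k f h := hh Q f α fun s hs => (h1 s hs).2
  have hPw : ev k P w = α * ev k f w := hw P f α fun s hs => (h1 s hs).1
  have hQw : ev k Q w = α * ev k f w := hw Q f α fun s hs => (h1 s hs).2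
  have hrel : ev k P y - ev k Q y = β * ev k g y := by
    have := clm_zero k (ev k P - ev k Q - β • ev k g + β • ∑ s ∈ T, g.1 s • co k s) (by
      intro v
      simp only [add_apply, sub_apply, smul_apply, sum_apply, smul_eq_mul, ev_e, co_e]
      simp only [mul_ite, mul_one, mul_zero, Finset.sum_ite_eq]
      by_cases hv : v.1 ∈ T
      · rw [if_pos hv]
        have := h1 v.1 hv
        change hp v.1 - hm v.1 - _ + _ = 0
        rw [this.1, this.2]; ring
      · rw [if_neg hv]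
        have := h2 v.1 hv
        change hp v.1 - hm v.1 - _ + _ = 0
        rw [this]; ring) y
    simp only [add_apply, sub_apply, smul_apply, sum_apply, smul_eq_mul] at this
    have h0 : ∑ s ∈ T, g.1 s * co k s y = 0 :=
      Finset.sum_eq_zero fun s hs => by rw [hy s hs, mul_zero]
    rw [h0] at this
    linarith
  have hn1 : ev k P ((h + w) + y) ≤ ‖(h + w) + y‖ := (le_abs_self _).trans (abs_ev_le k P _)
  have hn2 : ev k Q ((h - w) - y) ≤ ‖(h - w) - y‖ := (le_abs_self _).trans (abs_ev_le k Q _)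
  rw [map_add, map_add, hPh, hPw] at hn1
  rw [map_sub, map_sub, hQh, hQw] at hn2
  linarith

/-- The key inequality in `E_k`. -/
theorem key (k : ℕ) (T : Finset (List ℕ)) (hT : Cl T) (h w y : E k)
    (hh : SuppOn k T h) (hw : SuppOn k T w) (hy : ∀ s ∈ T, co k s y = 0) :
    2 * Real.sqrt (‖h‖ ^ 2 + ‖y‖ ^ 2 / 4) ≤ ‖(h + w) + y‖ + ‖(h - w) - y‖ := by
  set R := Real.sqrt (‖h‖ ^ 2 + ‖y‖ ^ 2 / 4) with hR
  have hR0 : 0 ≤ R := Real.sqrt_nonneg _
  rcases hR0.eq_or_lt with h0 | hRpos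
  · rw [← h0, mul_zero]; positivity
  have hR2 : R ^ 2 = ‖h‖ ^ 2 + ‖y‖ ^ 2 / 4 := Real.sq_sqrt (by positivity)
  refine le_of_forall_pos_le_add fun ε hε => ?_
  obtain ⟨f, hf⟩ := exists_norming k h (ε / 4) (by positivity)
  obtain ⟨g, hg⟩ := exists_norming k y (ε / 4) (by positivity)
  have key := key_test k T hT h w y hh hw hy f g (‖h‖ / R) (‖y‖ / 2 / R) (by positivity)
    (by positivity) (by
      rw [div_pow, div_pow, ← add_div, hR2, div_pow]
      rw [div_le_one (by rw [← hR2]; positivity)]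
      linarith)
  have hα1 : ‖h‖ / R ≤ 1 := by
    rw [div_le_one hRpos]
    nlinarith [sq_nonneg ‖y‖, norm_nonneg h]
  have hβ1 : ‖y‖ / 2 / R ≤ 1 := by
    rw [div_le_one hRpos]
    nlinarith [sq_nonneg ‖h‖, norm_nonneg y]
  have hα0 : 0 ≤ ‖h‖ / R := by positivity
  have hβ0 : 0 ≤ ‖y‖ / 2 / R := by positivity
  have e1 : (‖h‖ / R) * (‖h‖ - ε / 4) ≤ (‖h‖ / R) * ev k f h := mul_le_mul_of_nonneg_left hf hα0
  have e2 : (‖y‖ / 2 / R) * (‖y‖ - ε / 4) ≤ (‖y‖ / 2 / R) * ev k g y :=
    mul_le_mul_of_nonneg_left hg hβ0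
  have e3 : 2 * ((‖h‖ / R) * ‖h‖) + (‖y‖ / 2 / R) * ‖y‖ = 2 * R := by
    field_simp
    nlinarith
  have e4 : (‖h‖ / R) * (ε / 4) ≤ 1 * (ε / 4) := mul_le_mul_of_nonneg_right hα1 (by positivity)
  have e5 : (‖y‖ / 2 / R) * (ε / 4) ≤ 1 * (ε / 4) :=
    mul_le_mul_of_nonneg_right hβ1 (by positivity)
  nlinarith

end Crest.Agent.H11Ek
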