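import Crest.Agent.H11DV

/-! rid 254 (S0392): reduction to the finite-set statement FIN. -/

namespace Crest.Agent.LP

open Crest.GeometryTopology

universe u v

/-- S0392 from FIN (Dvoretzky and the assembly are proved). -/
theorem final (hF : FIN) :
    ∃ Λ : ℕ, ∀ (B : Type u) [NormedAddCommGroup B] [NormedSpace ℝ B] [CompleteSpace B],
      ¬ FiniteDimensional ℝ B →
      ∃ K : Set B, IsCompact K ∧ DoublingConstLE K Λ ∧
        ∀ (Y : Type v) [NormedAddCommGroup Y] [NormedSpace ℝ Y] [FiniteDimensional ℝ Y]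
          (f : K → Y) (c C : NNReal), ¬ (LipschitzWith C f ∧ AntilipschitzWith c f) :=
  asm hF (fun B _ _ hB => Crest.DV.lpDV B hB)

end Crest.Agent.LP
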