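import Crest.Agent.H11QPrep

/-!
# rid 350 (S0554), module AMP: exact amplitude amplification
-/

set_option autoImplicit false

open Crest.MathPhysics.Query

namespace Crest.Agent.H11QAmp

open Crest.Agent.QG Crest.Agent.H11QGram Crest.Agent.H11QPrep

section
variable {I : Type} [Fintype I] [DecidableEq I] {w : ℕ}

/-- operators implementable with exactly `k` oracle calls -/
inductive Op : ℕ → ((I → Bool) → (I × Bool × Fin w → ℂ) → (I × Bool × Fin w → ℂ)) → Prop
  | base (U : Matrix (I × Bool × Fin w) (I × Bool × Fin w) ℂ)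
      (hU : U ∈ Matrix.unitaryGroup (I × Bool × Fin w) ℂ) : Op 0 (fun _ ψ => U.mulVec ψ)
  | step (k : ℕ) (M : (I → Bool) → (I × Bool × Fin w → ℂ) → (I × Bool × Fin w → ℂ))
      (U : Matrix (I × Bool × Fin w) (I × Bool × Fin w) ℂ)
      (hU : U ∈ Matrix.unitaryGroup (I × Bool × Fin w) ℂ) (hM : Op k M) :
      Op (k + 1) (fun x ψ => U.mulVec (orc x (M x ψ)))

omit [Fintype I] [DecidableEq I] in
theorem orc_orc {W : Type} (x : I → Bool) (ψ : I × Bool × W → ℂ) : orc x (orc x ψ) = ψ := by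
  funext ⟨i, b, a⟩
  show ψ (i, xor (xor b (x i)) (x i), a) = ψ (i, b, a)
  cases b <;> cases x i <;> rfl

/-- the permutation of the basis made by the oracle -/
def orcE (x : I → Bool) {W : Type} : (I × Bool × W) ≃ (I × Bool × W) where
  toFun p := (p.1, xor p.2.1 (x p.1), p.2.2)
  invFun p := (p.1, xor p.2.1 (x p.1), p.2.2)
  left_inv := by rintro ⟨i, b, a⟩; cases b <;> cases h : x i <;> simp [h]
  right_inv := by rintro ⟨i, b, a⟩; cases b <;> cases h : x i <;> simp [h]

omit [DecidableEq I] in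
theorem dot_orc (x : I → Bool) (a b : I × Bool × Fin w → ℂ) : dot (orc x a) (orc x b) = dot a b :=
  Equiv.sum_comp (orcE x) (fun p => star (a p) * b p)

theorem op_base_comp {k : ℕ}
    {M : (I → Bool) → (I × Bool × Fin w → ℂ) → (I × Bool × Fin w → ℂ)} (hM : Op k M)
    (U : Matrix (I × Bool × Fin w) (I × Bool × Fin w) ℂ)
    (hU : U ∈ Matrix.unitaryGroup (I × Bool × Fin w) ℂ) :
    Op k (fun x ψ => U.mulVec (M x ψ)) := by
  cases hM with
  | base V hV =>
    have h := Op.base (I := I) (w := w) (U * V) (mul_mem hU hV)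
    have e : (fun (_ : I → Bool) (ψ : I × Bool × Fin w → ℂ) => U.mulVec (V.mulVec ψ)) =
        fun _ ψ => (U * V).mulVec ψ := by
      funext x ψ; rw [Matrix.mulVec_mulVec]
    rw [e]; exact h
  | step k M V hV hM =>
    have h := Op.step (I := I) (w := w) k M (U * V) (mul_mem hU hV) hM
    have e : (fun (x : I → Bool) (ψ : I × Bool × Fin w → ℂ) =>
        U.mulVec (V.mulVec (orc x (M x ψ)))) = fun x ψ => (U * V).mulVec (orc x (M x ψ)) := by
      funext x ψ; rw [Matrix.mulVec_mulVec]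
    rw [e]; exact h

theorem op_comp {k l : ℕ}
    {M N : (I → Bool) → (I × Bool × Fin w → ℂ) → (I × Bool × Fin w → ℂ)} (hM : Op k M)
    (hN : Op l N) : Op (k + l) (fun x ψ => N x (M x ψ)) := by
  induction hN with
  | base U hU => exact op_base_comp hM U hU
  | step l N U hU _ ih => exact Op.step _ _ U hU ih

theorem op_inv {k : ℕ}
    {M : (I → Bool) → (I × Bool × Fin w → ℂ) → (I × Bool × Fin w → ℂ)} (hM : Op k M) :
    ∃ M' : (I → Bool) → (I × Bool × Fin w → ℂ) → (I × Bool × Fin w → ℂ),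
      Op k M' ∧ ∀ x ψ, M x (M' x ψ) = ψ := by
  induction hM with
  | base U hU =>
    refine ⟨fun _ ψ => (star U).mulVec ψ, Op.base _ (Unitary.star_mem hU), fun x ψ => ?_⟩
    show U.mulVec ((star U).mulVec ψ) = ψ
    rw [Matrix.mulVec_mulVec, (Matrix.mem_unitaryGroup_iff).1 hU, Matrix.one_mulVec]
  | step k M U hU _ ih =>
    obtain ⟨M', hM', h⟩ := ih
    have h1 : Op (I := I) (w := w) 1 (fun x ψ => (1 : Matrix _ _ ℂ).mulVec
        (orc x ((star U).mulVec ψ))) :=
      Op.step 0 _ 1 (one_mem _) (Op.base (star U) (Unitary.star_mem hU))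
    refine ⟨_, by rw [Nat.add_comm]; exact op_comp h1 hM', fun x ψ => ?_⟩
    show U.mulVec (orc x (M x (M' x ((1 : Matrix _ _ ℂ).mulVec
      (orc x ((star U).mulVec ψ)))))) = ψ
    rw [h, Matrix.one_mulVec, orc_orc, Matrix.mulVec_mulVec, (Matrix.mem_unitaryGroup_iff).1 hU,
      Matrix.one_mulVec]

theorem op_dot {k : ℕ}
    {M : (I → Bool) → (I × Bool × Fin w → ℂ) → (I × Bool × Fin w → ℂ)} (hM : Op k M)
    (x : I → Bool) (a b : I × Bool × Fin w → ℂ) : dot (M x a) (M x b) = dot a b := by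
  induction hM with
  | base U hU => exact dot_unitary hU a b
  | step k M U hU _ ih => exact (dot_unitary hU _ _).trans ((dot_orc x _ _).trans ih)

theorem op_lin {k : ℕ}
    {M : (I → Bool) → (I × Bool × Fin w → ℂ) → (I × Bool × Fin w → ℂ)} (hM : Op k M)
    (x : I → Bool) (c : ℂ) (a b : I × Bool × Fin w → ℂ) :
    M x (c • a - b) = c • M x a - M x b := by
  induction hM with
  | base U hU => simp only [Matrix.mulVec_sub, Matrix.mulVec_smul]
  | step k M U hU _ ih =>
    have h : orc x (M x (c • a - b)) = c • orc x (M x a) - orc x (M x b) := by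
      rw [ih]; rfl
    simp only [h, Matrix.mulVec_sub, Matrix.mulVec_smul]

theorem run_congr {U V : ℕ → Matrix (I × Bool × Fin w) (I × Bool × Fin w) ℂ} (x : I → Bool)
    (ψ : I × Bool × Fin w → ℂ) (k : ℕ) (h : ∀ t, t ≤ k → U t = V t) :
    run U x ψ k = run V x ψ k := by
  induction k with
  | zero => show (U 0).mulVec ψ = (V 0).mulVec ψ; rw [h 0 le_rfl]
  | succ k ih =>
    show (U (k + 1)).mulVec (orc x (run U x ψ k)) = (V (k + 1)).mulVec (orc x (run V x ψ k))
    rw [h (k + 1) le_rfl, ih (fun t ht => h t (by omega))]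

theorem op_run {k : ℕ}
    {M : (I → Bool) → (I × Bool × Fin w → ℂ) → (I × Bool × Fin w → ℂ)} (hM : Op k M) :
    ∃ U : ℕ → Matrix (I × Bool × Fin w) (I × Bool × Fin w) ℂ,
      (∀ t, U t ∈ Matrix.unitaryGroup (I × Bool × Fin w) ℂ) ∧ ∀ x ψ, run U x ψ k = M x ψ := by
  induction hM with
  | base U hU => exact ⟨fun _ => U, fun _ => hU, fun _ _ => rfl⟩
  | step k M V hV _ ih =>
    obtain ⟨U, hU, h⟩ := ih
    refine ⟨fun t => if t ≤ k then U t else V, fun t => ?_, fun x ψ => ?_⟩
    · by_cases ht : t ≤ k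
      · simp only [if_pos ht]; exact hU t
      · simp only [if_neg ht]; exact hV
    · show (if k + 1 ≤ k then U (k + 1) else V).mulVec (orc x (run _ x ψ k)) = _
      rw [if_neg (by omega), run_congr (V := U) x ψ k (fun t ht => if_pos ht), h]

theorem run_op (U : ℕ → Matrix (I × Bool × Fin w) (I × Bool × Fin w) ℂ)
    (hU : ∀ t, U t ∈ Matrix.unitaryGroup (I × Bool × Fin w) ℂ) (k : ℕ) :
    Op k (fun x ψ => run U x ψ k) := by
  induction k with
  | zero => exact Op.base (U 0) (hU 0)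
  | succ k ih => exact Op.step k _ (U (k + 1)) (hU (k + 1)) ih

/-- the reflection `2|ψ₀><ψ₀| - 1` -/
noncomputable def refl (ψ₀ : I × Bool × Fin w → ℂ) :
    Matrix (I × Bool × Fin w) (I × Bool × Fin w) ℂ :=
  Matrix.of fun p r => 2 * (ψ₀ p * star (ψ₀ r)) - if p = r then 1 else 0

theorem refl_mulVec (ψ₀ χ : I × Bool × Fin w → ℂ) :
    (refl ψ₀).mulVec χ = (2 * dot ψ₀ χ) • ψ₀ - χ := by
  funext p
  simp only [Matrix.mulVec, dotProduct, refl, Matrix.of_apply, Pi.sub_apply, Pi.smul_apply,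
    smul_eq_mul, dot, sub_mul, Finset.sum_sub_distrib, ite_mul, one_mul, zero_mul,
    Finset.sum_ite_eq, Finset.mem_univ, if_true, Finset.mul_sum, Finset.sum_mul]
  congr 1
  refine Finset.sum_congr rfl fun r _ => ?_
  ring

theorem dot_lin {D : Type} [Fintype D] (a b d : D → ℂ) (c : ℂ) :
    dot a (c • b - d) = c * dot a b - dot a d := by
  unfold dot
  rw [Finset.mul_sum, ← Finset.sum_sub_distrib]
  refine Finset.sum_congr rfl fun e _ => ?_
  simp only [Pi.sub_apply, Pi.smul_apply, smul_eq_mul]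
  ring

theorem refl_mem (ψ₀ : I × Bool × Fin w → ℂ) (h : ∑ e, ‖ψ₀ e‖ ^ 2 = 1) :
    refl ψ₀ ∈ Matrix.unitaryGroup (I × Bool × Fin w) ℂ := by
  rw [Matrix.mem_unitaryGroup_iff']
  have hs : star (refl ψ₀) = refl ψ₀ := by
    ext p r
    simp only [Matrix.star_apply, refl, Matrix.of_apply, star_sub, star_mul', star_star]
    have : star (2 : ℂ) = 2 := Complex.conj_ofNat 2
    rw [this]
    by_cases hpr : r = p
    · subst hpr; simp [mul_comm]
    · have hrp : p ≠ r := fun h => hpr h.symm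
      simp [hpr, hrp, mul_comm]
  rw [hs]
  have h1 : dot ψ₀ ψ₀ = 1 := by rw [dot_self_norm, h]; norm_num
  apply Matrix.toLin'.injective
  apply LinearMap.ext
  intro χ
  rw [Matrix.toLin'_mul, LinearMap.comp_apply, Matrix.toLin'_apply, Matrix.toLin'_apply,
    Matrix.toLin'_one, LinearMap.id_apply, refl_mulVec ψ₀ ((refl ψ₀).mulVec χ), refl_mulVec,
    dot_lin, h1]
  funext p
  simp only [Pi.sub_apply, Pi.smul_apply, smul_eq_mul]
  ring

open Classical in
/-- the state with coefficient `a` on the good part and `b` on the bad part -/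
noncomputable def mix (g : I × Bool × Fin w → Prop) (a b : ℂ) (S : I × Bool × Fin w → ℂ) :
    I × Bool × Fin w → ℂ := fun p => (if g p then a else b) * S p

open Classical in
/-- the phase flip of the good part -/
noncomputable def flip (g : I × Bool × Fin w → Prop) :
    Matrix (I × Bool × Fin w) (I × Bool × Fin w) ℂ :=
  Matrix.diagonal fun p => if g p then -1 else 1

theorem flip_mulVec (g : I × Bool × Fin w → Prop) (a b : ℂ) (S : I × Bool × Fin w → ℂ) :
    (flip g).mulVec (mix g a b S) = mix g (-a) b S := by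
  classical
  funext p
  rw [flip, Matrix.mulVec_diagonal]
  unfold mix
  by_cases h : g p <;> simp [h]

theorem flip_mem (g : I × Bool × Fin w → Prop) :
    flip g ∈ Matrix.unitaryGroup (I × Bool × Fin w) ℂ := by
  classical
  rw [Matrix.mem_unitaryGroup_iff']
  have : star (flip g) = flip g := by
    unfold flip
    rw [Matrix.star_eq_conjTranspose, Matrix.diagonal_conjTranspose]
    congr 1
    funext p
    by_cases h : g p <;> simp [h]
  rw [this, flip, Matrix.diagonal_mul_diagonal]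
  rw [← Matrix.diagonal_one]
  congr 1
  funext p
  by_cases h : g p <;> simp [h]

omit [Fintype I] [DecidableEq I] in
theorem mix_pos {g : I × Bool × Fin w → Prop} (a b : ℂ) (S : I × Bool × Fin w → ℂ)
    {p : I × Bool × Fin w} (h : g p) : mix g a b S p = a * S p := by
  unfold mix; rw [if_pos h]

omit [Fintype I] [DecidableEq I] in
theorem mix_neg {g : I × Bool × Fin w → Prop} (a b : ℂ) (S : I × Bool × Fin w → ℂ)
    {p : I × Bool × Fin w} (h : ¬ g p) : mix g a b S p = b * S p := by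
  unfold mix; rw [if_neg h]

/-- the amplification step on a mixed state -/
theorem step_mix {q : ℕ}
    {A A' : (I → Bool) → (I × Bool × Fin w → ℂ) → (I × Bool × Fin w → ℂ)} (hA : Op q A)
    (hinv : ∀ x ψ, A x (A' x ψ) = ψ) {ψ₀ : I × Bool × Fin w → ℂ} (hψ : ∑ e, ‖ψ₀ e‖ ^ 2 = 1)
    (g : I × Bool × Fin w → Prop) (x : I → Bool) (p : ℝ) (a b : ℂ)
    (hp : dot (A x ψ₀) (mix g 1 0 (A x ψ₀)) = (p : ℂ)) :
    A x ((refl ψ₀).mulVec (A' x ((flip g).mulVec (mix g a b (A x ψ₀))))) =
      mix g ((1 - 2 * p) * a + 2 * (1 - p) * b) (-(2 * p) * a + (1 - 2 * p) * b) (A x ψ₀) := by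
  classical
  rw [flip_mulVec, refl_mulVec, op_lin hA, hinv]
  have h1 : dot ψ₀ (A' x (mix g (-a) b (A x ψ₀))) =
      dot (A x ψ₀) (mix g (-a) b (A x ψ₀)) := by
    rw [← op_dot hA x, hinv]
  have h2 : dot (A x ψ₀) (A x ψ₀) = 1 := by
    rw [op_dot hA, dot_self_norm, hψ]; norm_num
  have h3 : dot (A x ψ₀) (mix g (-a) b (A x ψ₀)) =
      (-a - b) * dot (A x ψ₀) (mix g 1 0 (A x ψ₀)) + b * dot (A x ψ₀) (A x ψ₀) := by
    unfold dot
    rw [Finset.mul_sum, Finset.mul_sum, ← Finset.sum_add_distrib]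
    refine Finset.sum_congr rfl fun e _ => ?_
    unfold mix
    by_cases h : g e <;> simp [h] <;> ring
  rw [h1, h3, h2, hp]
  funext r
  simp only [Pi.sub_apply, Pi.smul_apply, smul_eq_mul, mix]
  by_cases h : g r <;> simp [h] <;> ring

end

theorem prepAmp : Spec.PrepAmp := by
  intro I _ _ E _ q ψ G j h
  classical
  obtain ⟨w, U, ψ₀, emb, hU, hψ, hemb, hfin⟩ := h
  let A : (I → Bool) → (I × Bool × Fin w → ℂ) → (I × Bool × Fin w → ℂ) :=
    fun x ψ => run U x ψ q
  have hA : Op q A := run_op U hU q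
  obtain ⟨A', hA', hinv⟩ := op_inv hA
  let g : I × Bool × Fin w → Prop := fun p => ∃ e, G e = true ∧ emb e = p
  have hg : ∀ e, g (emb e) ↔ G e = true := by
    intro e
    constructor
    · rintro ⟨e', h1, h2⟩
      rwa [← hemb h2]
    · exact fun h1 => ⟨e, h1, rfl⟩
  let pp : (I → Bool) → ℝ := fun x => ∑ e', if G e' then ‖ψ x e'‖ ^ 2 else 0
  have hp : ∀ x, dot (A x ψ₀) (mix g 1 0 (A x ψ₀)) = (pp x : ℂ) := by
    intro x
    rw [dot_emb (E := E) (f := A x ψ₀) (g := mix g 1 0 (A x ψ₀)) hemb (hfin x).1 (hfin x).2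
      (g' := fun e => (if G e then 1 else 0) * ψ x e) ?_]
    · unfold dot
      show _ = ((∑ e', if G e' then ‖ψ x e'‖ ^ 2 else 0 : ℝ) : ℂ)
      push_cast
      refine Finset.sum_congr rfl fun e _ => ?_
      by_cases h : G e = true
      · simp only [h, if_true, one_mul]
        have := Complex.conj_mul' (ψ x e)
        rw [Complex.ofReal_pow]
        exact this
      · simp [h]
    · intro e
      by_cases h : G e = true
      · rw [mix_pos _ _ _ ((hg e).2 h), if_pos h, show A x ψ₀ (emb e) = ψ x e from (hfin x).1 e]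
      · rw [mix_neg _ _ _ (fun h' => h ((hg e).1 h')), if_neg h,
          show A x ψ₀ (emb e) = ψ x e from (hfin x).1 e]
  have main : ∃ M : (I → Bool) → (I × Bool × Fin w → ℂ) → (I × Bool × Fin w → ℂ),
      Op ((2 * j + 1) * q) M ∧ ∀ x, M x ψ₀ = mix g ((aaC (pp x) j).1 : ℂ)
        ((aaC (pp x) j).2 : ℂ) (A x ψ₀) := by
    induction j with
    | zero =>
      refine ⟨A, by simpa using hA, fun x => ?_⟩
      funext p
      simp [mix, aaC]
    | succ j ih =>
      obtain ⟨M, hM, hMx⟩ := ih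
      have h1 := op_comp (op_comp (op_comp (op_comp hM (Op.base _ (flip_mem g))) hA')
        (Op.base _ (refl_mem ψ₀ hψ))) hA
      refine ⟨fun x ψ => A x ((refl ψ₀).mulVec (A' x ((flip g).mulVec (M x ψ)))), ?_,
        fun x => ?_⟩
      · have h2 : (2 * (j + 1) + 1) * q = (2 * j + 1) * q + 0 + q + 0 + q := by ring
        rw [h2]
        exact h1
      · show A x ((refl ψ₀).mulVec (A' x ((flip g).mulVec (M x ψ₀)))) = _
        rw [hMx x, step_mix hA hinv hψ g x (pp x) _ _ (hp x)]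
        simp only [aaC]
        push_cast
        rfl
  obtain ⟨M, hM, hMx⟩ := main
  obtain ⟨V, hV, hrun⟩ := op_run hM
  refine ⟨w, V, ψ₀, emb, hV, hψ, hemb, fun x => ⟨fun e => ?_, fun y hy => ?_⟩⟩
  · rw [hrun, hMx]
    by_cases h : G e = true
    · rw [mix_pos _ _ _ ((hg e).2 h), show A x ψ₀ (emb e) = ψ x e from (hfin x).1 e]
      simp only [h, if_true]
      rfl
    · rw [mix_neg _ _ _ (fun h' => h ((hg e).1 h')),
        show A x ψ₀ (emb e) = ψ x e from (hfin x).1 e]
      simp only [h]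
      rfl
  · rw [hrun, hMx]
    unfold mix
    rw [show A x ψ₀ y = 0 from (hfin x).2 y hy, mul_zero]

end Crest.Agent.H11QAmp
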