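import Crest.Agent.H27QSpec

/-!
# rid 350 (S0554), module GRAM: `Spec.Gram` and `Spec.PrepOfStates`.
-/

set_option autoImplicit false

open Crest.MathPhysics.Query

namespace Crest.Agent.H11QGram

open Crest.Agent.QG

theorem gram : Spec.Gram := by
  intro D Y _ _ _ u v hG
  classical
  -- the two synthesis maps
  let A : (Y → ℂ) →ₗ[ℂ] EuclideanSpace ℂ D :=
    ∑ x, (LinearMap.proj x : (Y → ℂ) →ₗ[ℂ] ℂ).smulRight (WithLp.toLp 2 (u x))
  let B : (Y → ℂ) →ₗ[ℂ] EuclideanSpace ℂ D :=
    ∑ x, (LinearMap.proj x : (Y → ℂ) →ₗ[ℂ] ℂ).smulRight (WithLp.toLp 2 (v x))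
  have hA : ∀ c, A c = ∑ x, c x • (WithLp.toLp 2 (u x) : EuclideanSpace ℂ D) := by
    intro c; simp [A, LinearMap.sum_apply]
  have hB : ∀ c, B c = ∑ x, c x • (WithLp.toLp 2 (v x) : EuclideanSpace ℂ D) := by
    intro c; simp [B, LinearMap.sum_apply]
  have hin : ∀ x y, inner ℂ (WithLp.toLp 2 (u x) : EuclideanSpace ℂ D) (WithLp.toLp 2 (u y)) =
      inner ℂ (WithLp.toLp 2 (v x) : EuclideanSpace ℂ D) (WithLp.toLp 2 (v y)) := by
    intro x y
    have h := hG x y
    simp only [PiLp.inner_apply, RCLike.inner_apply]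
    calc _ = ∑ e, star (u x e) * u y e := by
            refine Finset.sum_congr rfl fun e _ => ?_
            simp [mul_comm]
      _ = _ := by
            rw [h]
            refine Finset.sum_congr rfl fun e _ => ?_
            simp [mul_comm]
  have hnorm : ∀ c, ‖A c‖ = ‖B c‖ := by
    intro c
    have h1 : inner ℂ (A c) (A c) = inner ℂ (B c) (B c) := by
      rw [hA, hB]
      simp only [sum_inner, inner_sum, inner_smul_left, inner_smul_right, hin]
    have h2 : ‖A c‖ ^ 2 = ‖B c‖ ^ 2 := by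
      have := congrArg RCLike.re h1
      rw [← norm_sq_eq_re_inner, ← norm_sq_eq_re_inner] at this
      exact this
    exact (sq_eq_sq₀ (norm_nonneg _) (norm_nonneg _)).1 h2
  have hker : LinearMap.ker A ≤ LinearMap.ker B := by
    intro c hc
    rw [LinearMap.mem_ker] at hc ⊢
    have := hnorm c
    rw [hc, norm_zero] at this
    exact norm_eq_zero.1 this.symm
  let L : LinearMap.range A →ₗ[ℂ] EuclideanSpace ℂ D :=
    ((LinearMap.ker A).liftQ B hker).comp (A.quotKerEquivRange.symm : _ →ₗ[ℂ] _)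
  have hL : ∀ c, L ⟨A c, LinearMap.mem_range_self A c⟩ = B c := by
    intro c
    have h3 : A.quotKerEquivRange.symm ⟨A c, LinearMap.mem_range_self A c⟩ =
        (LinearMap.ker A).mkQ c := by
      rw [LinearEquiv.symm_apply_eq]
      apply Subtype.ext
      simp
    show ((LinearMap.ker A).liftQ B hker)
      (A.quotKerEquivRange.symm ⟨A c, LinearMap.mem_range_self A c⟩) = B c
    rw [h3]
    simp
  let T0 : LinearMap.range A →ₗᵢ[ℂ] EuclideanSpace ℂ D :=
    { toLinearMap := L
      norm_map' := by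
        rintro ⟨y, c, rfl⟩
        rw [hL c, ← hnorm c]
        rfl }
  let T : EuclideanSpace ℂ D →ₗᵢ[ℂ] EuclideanSpace ℂ D := T0.extend
  have hT : ∀ c, T (A c) = B c := by
    intro c
    have := LinearIsometry.extend_apply T0 ⟨A c, LinearMap.mem_range_self A c⟩
    exact this.trans (hL c)
  have hTu : ∀ x, T (WithLp.toLp 2 (u x)) = WithLp.toLp 2 (v x) := by
    intro x
    have h := hT (Pi.single x 1)
    rw [hA, hB] at h
    simpa [Pi.single_apply, Finset.sum_ite_eq] using h
  -- the matrix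
  let U : Matrix D D ℂ := Matrix.of fun i j => (T (EuclideanSpace.single j (1 : ℂ))) i
  have hmul : ∀ w : D → ℂ, U.mulVec w = (T (WithLp.toLp 2 w)).ofLp := by
    intro w
    have hw : (WithLp.toLp 2 w : EuclideanSpace ℂ D) =
        ∑ j, w j • EuclideanSpace.single j (1 : ℂ) := by
      ext i
      simp [Finset.sum_apply, Pi.single_apply]
    rw [hw, map_sum]
    ext i
    simp [Matrix.mulVec, dotProduct, U, mul_comm]
  refine ⟨U, ?_, fun x => ?_⟩
  · rw [Matrix.mem_unitaryGroup_iff']
    ext i j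
    rw [Matrix.mul_apply]
    have h4 : inner ℂ (T (EuclideanSpace.single i (1 : ℂ))) (T (EuclideanSpace.single j (1 : ℂ)))
        = inner ℂ (EuclideanSpace.single i (1 : ℂ)) (EuclideanSpace.single j (1 : ℂ)) :=
      T.inner_map_map _ _
    rw [PiLp.inner_apply] at h4
    have h5 : (∑ k, (star U) i k * U k j) = inner ℂ (EuclideanSpace.single i (1 : ℂ))
        (EuclideanSpace.single j (1 : ℂ)) := by
      rw [← h4]
      refine Finset.sum_congr rfl fun k _ => ?_
      simp [U, Matrix.star_apply, mul_comm]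
    rw [h5, EuclideanSpace.inner_single_left]
    simp [Matrix.one_apply]
  · rw [hmul, hTu]

/-- transport of the workspace along an equivalence -/
theorem prepOfStates : Spec.PrepOfStates := by
  intro I _ _ W _ _ q E ψ s emb hs0 hstep hemb hout
  classical
  let e₀ : Fin (Fintype.card W) ≃ W := (Fintype.equivFin W).symm
  let e : (I × Bool × Fin (Fintype.card W)) ≃ (I × Bool × W) :=
    Equiv.prodCongr (Equiv.refl I) (Equiv.prodCongr (Equiv.refl Bool) e₀)
  let s' : ℕ → (I → Bool) → (I × Bool × Fin (Fintype.card W) → ℂ) := fun t x p => s t x (e p)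
  have horc : ∀ t x p, orc x (s' t x) p = orc x (s t x) (e p) := fun _ _ _ => rfl
  have hs0' : ∀ x y, ∑ p, star (s' 0 x p) * s' 0 y p = 1 := by
    intro x y
    rw [← hs0 x y]
    exact Equiv.sum_comp e (fun p => star (s 0 x p) * s 0 y p)
  have hstep' : ∀ t, t < q → ∀ x y, ∑ p, star (orc x (s' t x) p) * orc y (s' t y) p =
      ∑ p, star (s' (t + 1) x p) * s' (t + 1) y p := by
    intro t ht x y
    have h1 : ∑ p, star (s' (t + 1) x p) * s' (t + 1) y p =
        ∑ p, star (s (t + 1) x p) * s (t + 1) y p :=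
      Equiv.sum_comp e (fun p => star (s (t + 1) x p) * s (t + 1) y p)
    have h2 : ∑ p, star (orc x (s' t x) p) * orc y (s' t y) p =
        ∑ p, star (orc x (s t x) p) * orc y (s t y) p :=
      Equiv.sum_comp e (fun p => star (orc x (s t x) p) * orc y (s t y) p)
    rw [h1, h2]
    exact (hstep t ht x y).symm
  have hG : ∀ t, ∃ U ∈ Matrix.unitaryGroup (I × Bool × Fin (Fintype.card W)) ℂ,
      t < q → ∀ x, U.mulVec (orc x (s' t x)) = s' (t + 1) x := by
    intro t
    by_cases ht : t < q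
    · obtain ⟨U, hU, h⟩ := gram (I × Bool × Fin (Fintype.card W)) (I → Bool)
        (fun x => orc x (s' t x)) (fun x => s' (t + 1) x) (hstep' t ht)
      exact ⟨U, hU, fun _ => h⟩
    · exact ⟨1, one_mem _, fun h => absurd h ht⟩
  choose V hV hVs using hG
  let x₀ : I → Bool := fun _ => false
  have hsame : ∀ x, s' 0 x = s' 0 x₀ := by
    intro x
    have h1 : ∑ p, star (s' 0 x p - s' 0 x₀ p) * (s' 0 x p - s' 0 x₀ p) = 0 := by
      have : ∀ p, star (s' 0 x p - s' 0 x₀ p) * (s' 0 x p - s' 0 x₀ p) =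
          star (s' 0 x p) * s' 0 x p - star (s' 0 x p) * s' 0 x₀ p -
            star (s' 0 x₀ p) * s' 0 x p + star (s' 0 x₀ p) * s' 0 x₀ p := by
        intro p; rw [star_sub]; ring
      simp only [this, Finset.sum_add_distrib, Finset.sum_sub_distrib, hs0']
      ring
    have h2 : ∑ p, ‖s' 0 x p - s' 0 x₀ p‖ ^ 2 = 0 := by
      have h3 : ((∑ p, ‖s' 0 x p - s' 0 x₀ p‖ ^ 2 : ℝ) : ℂ) = 0 := by
        rw [← h1]
        push_cast
        refine Finset.sum_congr rfl fun p _ => ?_
        have := Complex.conj_mul' (s' 0 x p - s' 0 x₀ p)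
        rw [← this]; rfl
      exact_mod_cast h3
    funext p
    have h4 := (Finset.sum_eq_zero_iff_of_nonneg (fun p _ => by positivity)).1 h2 p
      (Finset.mem_univ p)
    have h5 : ‖s' 0 x p - s' 0 x₀ p‖ = 0 := by
      simpa using h4
    exact sub_eq_zero.1 (norm_eq_zero.1 h5)
  let U : ℕ → Matrix (I × Bool × Fin (Fintype.card W)) (I × Bool × Fin (Fintype.card W)) ℂ :=
    fun t => match t with
      | 0 => 1
      | t + 1 => V t
  have hrun : ∀ t, t ≤ q → ∀ x, run U x (s' 0 x₀) t = s' t x := by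
    intro t
    induction t with
    | zero =>
      intro _ x
      show (U 0).mulVec (s' 0 x₀) = s' 0 x
      show (1 : Matrix _ _ ℂ).mulVec (s' 0 x₀) = s' 0 x
      rw [Matrix.one_mulVec, hsame x]
    | succ t ih =>
      intro ht x
      show (V t).mulVec (orc x (run U x (s' 0 x₀) t)) = s' (t + 1) x
      rw [ih (by omega) x]
      exact hVs t (by omega) x
  refine ⟨Fintype.card W, U, s' 0 x₀, fun a => e.symm (emb a), ?_, ?_, ?_, ?_⟩
  · intro t
    cases t with
    | zero => exact one_mem _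
    | succ t => exact hV t
  · have h := hs0' x₀ x₀
    have h3 : ((∑ p, ‖s' 0 x₀ p‖ ^ 2 : ℝ) : ℂ) = 1 := by
      rw [← h]
      push_cast
      refine Finset.sum_congr rfl fun p _ => ?_
      have := Complex.conj_mul' (s' 0 x₀ p)
      rw [← this]; rfl
    exact_mod_cast h3
  · exact e.symm.injective.comp hemb
  · intro x
    obtain ⟨h1, h2⟩ := hout x
    refine ⟨fun a => ?_, fun y hy => ?_⟩
    · rw [hrun q le_rfl x]
      show s q x (e (e.symm (emb a))) = ψ x a
      rw [Equiv.apply_symm_apply]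
      exact h1 a
    · rw [hrun q le_rfl x]
      show s q x (e y) = 0
      apply h2
      rintro ⟨a, ha⟩
      exact hy ⟨a, by show e.symm (emb a) = y; rw [ha, Equiv.symm_apply_apply]⟩

end Crest.Agent.H11QGram
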