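import Crest.Agent.H11QGram

/-!
# rid 350 (S0554), modules PREP and BIND
-/

set_option autoImplicit false

open Crest.MathPhysics.Query

namespace Crest.Agent.H11QPrep

open Crest.Agent.QG Crest.Agent.H11QGram

/-- inner product sum -/
noncomputable def dot {D : Type} [Fintype D] (a b : D → ℂ) : ℂ := ∑ e, star (a e) * b e

theorem dot_unitary {D : Type} [Fintype D] [DecidableEq D] {U : Matrix D D ℂ}
    (hU : U ∈ Matrix.unitaryGroup D ℂ) (a b : D → ℂ) :
    dot (U.mulVec a) (U.mulVec b) = dot a b := by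
  have h1 : dot (U.mulVec a) (U.mulVec b) = dotProduct (star (U.mulVec a)) (U.mulVec b) := rfl
  have h2 : dot a b = dotProduct (star a) b := rfl
  rw [h1, h2, Matrix.star_mulVec, ← Matrix.dotProduct_mulVec, Matrix.mulVec_mulVec]
  have h3 : U.conjTranspose * U = 1 := by
    rw [Matrix.mem_unitaryGroup_iff'] at hU
    exact hU
  rw [h3, Matrix.one_mulVec]

theorem dot_self_norm {D : Type} [Fintype D] (a : D → ℂ) :
    dot a a = ((∑ e, ‖a e‖ ^ 2 : ℝ) : ℂ) := by
  unfold dot
  push_cast
  refine Finset.sum_congr rfl fun p _ => ?_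
  exact Complex.conj_mul' (a p)

section
variable {I : Type} [Fintype I] [DecidableEq I]

theorem run_zero_dot {w : ℕ} {U : ℕ → Matrix (I × Bool × Fin w) (I × Bool × Fin w) ℂ}
    {ψ₀ : I × Bool × Fin w → ℂ} (hU : ∀ t, U t ∈ Matrix.unitaryGroup (I × Bool × Fin w) ℂ)
    (hψ : ∑ e, ‖ψ₀ e‖ ^ 2 = 1) (x y : I → Bool) :
    dot (run U x ψ₀ 0) (run U y ψ₀ 0) = 1 := by
  show dot ((U 0).mulVec ψ₀) ((U 0).mulVec ψ₀) = 1
  rw [dot_unitary (hU 0), dot_self_norm, hψ]
  norm_num

theorem run_succ_dot {w : ℕ} {U : ℕ → Matrix (I × Bool × Fin w) (I × Bool × Fin w) ℂ}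
    {ψ₀ : I × Bool × Fin w → ℂ} (hU : ∀ t, U t ∈ Matrix.unitaryGroup (I × Bool × Fin w) ℂ)
    (t : ℕ) (x y : I → Bool) :
    dot (run U x ψ₀ (t + 1)) (run U y ψ₀ (t + 1)) =
      dot (orc x (run U x ψ₀ t)) (orc y (run U y ψ₀ t)) :=
  dot_unitary (hU (t + 1)) _ _

/-- a sum over the basis reduces to the embedded set -/
theorem dot_emb {D E : Type} [Fintype D] [DecidableEq D] [Fintype E] {emb : E → D}
    (hemb : Function.Injective emb) {f g : D → ℂ} {f' g' : E → ℂ}
    (hf : ∀ e, f (emb e) = f' e) (hf0 : ∀ y, y ∉ Set.range emb → f y = 0)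
    (hg : ∀ e, g (emb e) = g' e) : dot f g = dot f' g' := by
  classical
  unfold dot
  have h1 : ∑ e, star (f e) * g e =
      ∑ e ∈ Finset.univ.image emb, star (f e) * g e := by
    symm
    apply Finset.sum_subset (Finset.subset_univ _)
    intro y _ hy
    have : f y = 0 := hf0 y (by
      rintro ⟨a, rfl⟩
      exact hy (Finset.mem_image_of_mem _ (Finset.mem_univ a)))
    rw [this]; simp
  rw [h1, Finset.sum_image (fun a _ b _ h => hemb h)]
  refine Finset.sum_congr rfl fun e _ => ?_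
  rw [hf, hg]

/-- left injection of the workspace -/
def inL {W W' : Type} (f : I × Bool × W → ℂ) : I × Bool × (W ⊕ W') → ℂ
  | (i, b, Sum.inl a) => f (i, b, a)
  | (_, _, Sum.inr _) => 0

/-- right injection of the workspace -/
def inR {W W' : Type} (f : I × Bool × W' → ℂ) : I × Bool × (W ⊕ W') → ℂ
  | (_, _, Sum.inl _) => 0
  | (i, b, Sum.inr a) => f (i, b, a)

omit [Fintype I] [DecidableEq I] in
theorem orc_inL {W W' : Type} (x : I → Bool) (f : I × Bool × W → ℂ) :
    orc x (inL (W' := W') f) = inL (orc x f) := by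
  funext ⟨i, b, a⟩
  cases a <;> rfl

omit [Fintype I] [DecidableEq I] in
theorem orc_inR {W W' : Type} (x : I → Bool) (f : I × Bool × W' → ℂ) :
    orc x (inR (W := W) f) = inR (orc x f) := by
  funext ⟨i, b, a⟩
  cases a <;> rfl

omit [DecidableEq I] in
theorem dot_inL {W W' : Type} [Fintype W] [Fintype W'] (f g : I × Bool × W → ℂ) :
    dot (inL (W' := W') f) (inL g) = dot f g := by
  unfold dot
  simp only [Fintype.sum_prod_type, Fintype.sum_sum_type, inL]
  simp

omit [DecidableEq I] in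
theorem dot_inR {W W' : Type} [Fintype W] [Fintype W'] (f g : I × Bool × W' → ℂ) :
    dot (inR (W := W) f) (inR g) = dot f g := by
  unfold dot
  simp only [Fintype.sum_prod_type, Fintype.sum_sum_type, inR]
  simp

theorem nonempty_of_prep {q : ℕ} {E : Type} {ψ : (I → Bool) → E → ℂ} (h : Prep I q E ψ) :
    Nonempty I := by
  obtain ⟨w, U, ψ₀, emb, hU, hψ, -⟩ := h
  by_contra hI
  rw [not_nonempty_iff] at hI
  simp at hψ

/-- continuation: after a preparation one may continue with any consistent family of states -/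
theorem prepCont {q₁ : ℕ} {E : Type} [Fintype E] {ψ : (I → Bool) → E → ℂ} (h : Prep I q₁ E ψ)
    {W' : Type} [Fintype W'] [DecidableEq W'] (q₂ : ℕ) {E' : Type} {ψ' : (I → Bool) → E' → ℂ}
    (c : ℕ → (I → Bool) → (I × Bool × W' → ℂ)) (emb' : E' → I × Bool × W')
    (hc0 : ∀ x y, dot (c 0 x) (c 0 y) = dot (ψ x) (ψ y))
    (hc : ∀ t, t < q₂ → ∀ x y, dot (c (t + 1) x) (c (t + 1) y) =
      dot (orc x (c t x)) (orc y (c t y)))
    (hemb' : Function.Injective emb')
    (hout : ∀ x, (∀ e, c q₂ x (emb' e) = ψ' x e) ∧ (∀ y, y ∉ Set.range emb' → c q₂ x y = 0)) :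
    Prep I (q₁ + q₂) E' ψ' := by
  classical
  obtain ⟨w, U, ψ₀, emb, hU, hψ, hemb, hfin⟩ := h
  have hfd : ∀ x y, dot (run U x ψ₀ q₁) (run U y ψ₀ q₁) = dot (ψ x) (ψ y) := fun x y =>
    dot_emb hemb (hfin x).1 (hfin x).2 (hfin y).1
  let s : ℕ → (I → Bool) → (I × Bool × (Fin w ⊕ W') → ℂ) := fun t x =>
    if t < q₁ then inL (run U x ψ₀ t) else inR (c (t - q₁) x)
  refine prepOfStates I (Fin w ⊕ W') (q₁ + q₂) E' ψ' s
    (fun e => ((emb' e).1, (emb' e).2.1, Sum.inr (emb' e).2.2)) ?_ ?_ ?_ ?_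
  · intro x y
    show dot (s 0 x) (s 0 y) = 1
    by_cases h0 : 0 < q₁
    · simp only [s, if_pos h0]
      rw [dot_inL, run_zero_dot hU hψ]
    · have hq : q₁ = 0 := by omega
      simp only [s, if_neg h0, Nat.zero_sub]
      rw [dot_inR, hc0, ← hfd, hq, run_zero_dot hU hψ]
  · intro t ht x y
    show dot (s (t + 1) x) (s (t + 1) y) = dot (orc x (s t x)) (orc y (s t y))
    by_cases h1 : t + 1 < q₁
    · have h2 : t < q₁ := by omega
      simp only [s, if_pos h1, if_pos h2]
      rw [dot_inL, orc_inL, orc_inL, dot_inL, run_succ_dot hU]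
    · by_cases h2 : t < q₁
      · have h3 : t + 1 - q₁ = 0 := by omega
        have h4 : q₁ = t + 1 := by omega
        simp only [s, if_neg h1, if_pos h2, h3]
        rw [dot_inR, hc0, ← hfd, orc_inL, orc_inL, dot_inL, h4, run_succ_dot hU]
      · have h3 : t + 1 - q₁ = (t - q₁) + 1 := by omega
        simp only [s, if_neg h1, if_neg h2, h3]
        rw [dot_inR, orc_inR, orc_inR, dot_inR]
        exact hc (t - q₁) (by omega) x y
  · intro a b hab
    simp only [Prod.mk.injEq, Sum.inr.injEq] at hab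
    apply hemb'
    exact Prod.ext hab.1 (Prod.ext hab.2.1 hab.2.2)
  · intro x
    have h5 : ¬ (q₁ + q₂ < q₁) := by omega
    have h6 : q₁ + q₂ - q₁ = q₂ := by omega
    refine ⟨fun e => ?_, ?_⟩
    · simp only [s, if_neg h5, h6]
      exact (hout x).1 e
    · rintro ⟨i, b, a⟩ hy
      simp only [s, if_neg h5, h6]
      cases a with
      | inl a => rfl
      | inr a =>
        show c q₂ x (i, b, a) = 0
        apply (hout x).2
        rintro ⟨e, he⟩
        exact hy ⟨e, by simp only [he]⟩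

end

theorem prepConst : Spec.PrepConst := by
  intro I _ _ _ E _ φ hφ
  classical
  obtain ⟨i₀⟩ := ‹Nonempty I›
  refine prepOfStates I E 0 E (fun _ => φ)
    (fun _ _ p => if p.1 = i₀ ∧ p.2.1 = false then φ p.2.2 else 0)
    (fun e => (i₀, false, e)) ?_ ?_ ?_ ?_
  · intro x y
    have : ∑ p : I × Bool × E, star (if p.1 = i₀ ∧ p.2.1 = false then φ p.2.2 else 0) *
        (if p.1 = i₀ ∧ p.2.1 = false then φ p.2.2 else 0) = ((∑ e, ‖φ e‖ ^ 2 : ℝ) : ℂ) := by
      rw [← dot_self_norm]
      refine dot_emb (D := I × Bool × E) (emb := fun e => (i₀, false, e)) ?_ ?_ ?_ ?_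
      · intro a b h; simpa using h
      · intro e; simp
      · rintro ⟨i, b, a⟩ hy
        simp only
        rw [if_neg]
        rintro ⟨rfl, rfl⟩
        exact hy ⟨a, rfl⟩
      · intro e; simp
    rw [this, hφ]; norm_num
  · intro t ht; omega
  · intro a b h; simpa using h
  · intro x
    refine ⟨fun e => by simp, ?_⟩
    rintro ⟨i, b, a⟩ hy
    simp only
    rw [if_neg]
    rintro ⟨rfl, rfl⟩
    exact hy ⟨a, rfl⟩

theorem prepIso : Spec.PrepIso := by
  intro I _ _ E E' _ _ _ q ψ V hV h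
  classical
  obtain ⟨i₀⟩ := nonempty_of_prep h
  have h0 : q = q + 0 := rfl
  rw [h0]
  have key : ∀ x y, dot (V.mulVec (ψ x)) (V.mulVec (ψ y)) = dot (ψ x) (ψ y) := by
    intro x y
    show dotProduct (star (V.mulVec (ψ x))) (V.mulVec (ψ y)) = dotProduct (star (ψ x)) (ψ y)
    rw [Matrix.star_mulVec, ← Matrix.dotProduct_mulVec, Matrix.mulVec_mulVec, hV,
      Matrix.one_mulVec]
  refine prepCont h (W' := E') 0
    (fun _ x p => if p.1 = i₀ ∧ p.2.1 = false then V.mulVec (ψ x) p.2.2 else 0)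
    (fun e => (i₀, false, e)) ?_ ?_ ?_ ?_
  · intro x y
    rw [← key]
    refine dot_emb (D := I × Bool × E') (emb := fun e => (i₀, false, e)) ?_ ?_ ?_ ?_
    · intro a b h; simpa using h
    · intro e; simp
    · rintro ⟨i, b, a⟩ hy
      simp only
      rw [if_neg]
      rintro ⟨rfl, rfl⟩
      exact hy ⟨a, rfl⟩
    · intro e; simp
  · intro t ht; omega
  · intro a b h; simpa using h
  · intro x
    refine ⟨fun e => by simp, ?_⟩
    rintro ⟨i, b, a⟩ hy
    simp only
    rw [if_neg]
    rintro ⟨rfl, rfl⟩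
    exact hy ⟨a, rfl⟩

theorem half_mul_half : ((1 / Real.sqrt 2 : ℝ) : ℂ) * ((1 / Real.sqrt 2 : ℝ) : ℂ) = 1 / 2 := by
  have h : (1 / Real.sqrt 2) * (1 / Real.sqrt 2) = (1 / 2 : ℝ) := by
    rw [div_mul_div_comm, Real.mul_self_sqrt (by norm_num)]; norm_num
  have := congrArg (fun r : ℝ => (r : ℂ)) h
  simpa using this

theorem star_r : star ((1 / Real.sqrt 2 : ℝ) : ℂ) = ((1 / Real.sqrt 2 : ℝ) : ℂ) :=
  Complex.conj_ofReal _

/-- states supported on the positions `pos e` -/
theorem dot_pos {I E : Type} [Fintype I] [DecidableEq I] [Fintype E] (pos : E → I)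
    (F G : E → Bool → ℂ) :
    dot (fun p : I × Bool × E => if p.1 = pos p.2.2 then F p.2.2 p.2.1 else 0)
      (fun p : I × Bool × E => if p.1 = pos p.2.2 then G p.2.2 p.2.1 else 0) =
    ∑ e, ∑ b, star (F e b) * G e b := by
  classical
  have h := dot_emb (D := I × Bool × E) (E := E × Bool) (emb := fun q => (pos q.1, q.2, q.1))
    (f := fun p : I × Bool × E => if p.1 = pos p.2.2 then F p.2.2 p.2.1 else 0)
    (g := fun p : I × Bool × E => if p.1 = pos p.2.2 then G p.2.2 p.2.1 else 0)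
    (f' := fun q => F q.1 q.2) (g' := fun q => G q.1 q.2) ?_ ?_ ?_ ?_
  · rw [h]
    unfold dot
    rw [Fintype.sum_prod_type]
  · rintro ⟨a, b⟩ ⟨a', b'⟩ h
    simp only [Prod.mk.injEq] at h
    exact Prod.ext h.2.2 h.2.1
  · intro e; simp
  · rintro ⟨i, b, a⟩ hy
    simp only
    rw [if_neg]
    rintro rfl
    exact hy ⟨(a, b), rfl⟩
  · intro e; simp

theorem prepPhase : Spec.PrepPhase := by
  intro I _ _ E _ q ψ pos h
  classical
  let r : ℂ := ((1 / Real.sqrt 2 : ℝ) : ℂ)
  let ψ' : (I → Bool) → E → ℂ := fun x e => (if x (pos e) then -1 else 1) * ψ x e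
  let c : ℕ → (I → Bool) → (I × Bool × E → ℂ) := fun t x => match t with
    | 0 => fun p => if p.1 = pos p.2.2 then ψ x p.2.2 * ((if p.2.1 then -1 else 1) * r) else 0
    | _ + 1 => fun p => if p.1 = pos p.2.2 then (if p.2.1 then 0 else ψ' x p.2.2) else 0
  have horc : ∀ x, orc x (c 0 x) = fun p : I × Bool × E =>
      if p.1 = pos p.2.2 then ψ' x p.2.2 * ((if p.2.1 then -1 else 1) * r) else 0 := by
    intro x
    funext ⟨i, b, e⟩
    show (if i = pos e then ψ x e * ((if xor b (x i) then -1 else 1) * r) else 0) =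
      (if i = pos e then (if x (pos e) then -1 else 1) * ψ x e * ((if b then -1 else 1) * r) else 0)
    by_cases hi : i = pos e
    · subst hi
      rw [if_pos rfl, if_pos rfl]
      cases b <;> cases x (pos e) <;> simp
    · rw [if_neg hi, if_neg hi]
  have hrr : star r * r = 1 / 2 := by
    show star ((1 / Real.sqrt 2 : ℝ) : ℂ) * _ = _
    rw [star_r, half_mul_half]
  have hgr : ∀ (a b : E → ℂ), (∑ e, ∑ β : Bool,
      star (a e * ((if β then -1 else 1) * r)) * (b e * ((if β then -1 else 1) * r))) = dot a b := by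
    intro a b
    unfold dot
    refine Finset.sum_congr rfl fun e _ => ?_
    have h1 : star (a e * (1 * r)) * (b e * (1 * r)) = star (a e) * b e * (star r * r) := by
      simp only [star_mul', one_mul]; ring
    have h2 : star (a e * (-1 * r)) * (b e * (-1 * r)) = star (a e) * b e * (star r * r) := by
      simp only [star_mul', star_neg, star_one]; ring
    simp only [Fintype.sum_bool, if_true, Bool.false_eq_true, if_false]
    rw [h1, h2, hrr]; ring
  refine prepCont h (W' := E) 1 c (fun e => (pos e, false, e)) ?_ ?_ ?_ ?_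
  · intro x y
    rw [← hgr]
    exact dot_pos pos (fun e β => ψ x e * ((if β then -1 else 1) * r))
      (fun e β => ψ y e * ((if β then -1 else 1) * r))
  · intro t ht x y
    have ht0 : t = 0 := by omega
    subst ht0
    rw [horc, horc]
    have h1 := dot_pos pos (fun e β => ψ' x e * ((if β then -1 else 1) * r))
      (fun e β => ψ' y e * ((if β then -1 else 1) * r))
    rw [hgr] at h1
    rw [h1]
    have h2 := dot_pos pos (fun e β => if β then 0 else ψ' x e)
      (fun e β => if β then 0 else ψ' y e)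
    refine Eq.trans h2 ?_
    unfold dot
    refine Finset.sum_congr rfl fun e _ => ?_
    simp
  · intro a b h; exact (Prod.mk.inj (Prod.mk.inj h).2).2
  · intro x
    refine ⟨fun e => ?_, ?_⟩
    · show (if pos e = pos e then (if false = true then 0 else ψ' x e) else 0) = _
      rw [if_pos rfl]; rfl
    · rintro ⟨i, b, a⟩ hy
      show (if i = pos a then (if b = true then 0 else ψ' x a) else 0) = 0
      by_cases hi : i = pos a
      · rw [if_pos hi]
        cases b with
        | true => rfl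
        | false => exact absurd ⟨a, by rw [hi]⟩ hy
      · rw [if_neg hi]

theorem prepRead : Spec.PrepRead := by
  intro I _ _ i₀
  classical
  let s : ℕ → (I → Bool) → (I × Bool × Unit → ℂ) := fun t x => match t with
    | 0 => fun p => if p.1 = i₀ ∧ p.2.1 = false then 1 else 0
    | _ + 1 => fun p => if p.1 = i₀ ∧ p.2.1 = x i₀ then 1 else 0
  have horc : ∀ x, orc x (s 0 x) = s 1 x := by
    intro x
    funext ⟨i, b, e⟩
    show (if i = i₀ ∧ xor b (x i) = false then (1 : ℂ) else 0) = if i = i₀ ∧ b = x i₀ then 1 else 0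
    by_cases hi : i = i₀
    · subst hi
      cases b <;> cases x i <;> simp
    · simp [hi]
  refine prepOfStates I Unit 1 Bool _ s (fun b => (i₀, b, ())) ?_ ?_ ?_ ?_
  · intro x y
    have : ∀ p : I × Bool × Unit, star (s 0 x p) * s 0 y p =
        if p = (i₀, false, ()) then 1 else 0 := by
      rintro ⟨i, b, u⟩
      show star (if i = i₀ ∧ b = false then (1 : ℂ) else 0) *
        (if i = i₀ ∧ b = false then (1 : ℂ) else 0) = _
      by_cases h1 : i = i₀ ∧ b = false
      · rw [if_pos h1, if_pos (by rw [h1.1, h1.2])]; simp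
      · rw [if_neg h1, if_neg (by
          intro h; simp only [Prod.mk.injEq] at h; exact h1 ⟨h.1, h.2.1⟩)]; simp
    rw [Finset.sum_congr rfl (fun p _ => this p)]
    simp
  · intro t ht x y
    have ht0 : t = 0 := by omega
    subst ht0
    rw [horc, horc]
  · intro a b h; simpa using h
  · intro x
    refine ⟨fun b => ?_, ?_⟩
    · show (if i₀ = i₀ ∧ b = x i₀ then (1 : ℂ) else 0) = if x i₀ = b then 1 else 0
      simp [eq_comm]
    · rintro ⟨i, b, a⟩ hy
      show (if i = i₀ ∧ b = x i₀ then (1 : ℂ) else 0) = 0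
      rw [if_neg]
      rintro ⟨rfl, rfl⟩
      exact hy ⟨x i, rfl⟩

theorem prepPad : Spec.PrepPad := by
  intro I _ _ _ E _ q ψ h
  classical
  obtain ⟨i₀⟩ := ‹Nonempty I›
  let r : ℂ := ((1 / Real.sqrt 2 : ℝ) : ℂ)
  let c : ℕ → (I → Bool) → (I × Bool × E → ℂ) := fun t x => match t with
    | 0 => fun p => if p.1 = i₀ then ψ x p.2.2 * r else 0
    | _ + 1 => fun p => if p.1 = i₀ then (if p.2.1 then 0 else ψ x p.2.2) else 0
  have horc : ∀ x, orc x (c 0 x) = c 0 x := fun x => rfl
  have hrr : star r * r = 1 / 2 := by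
    show star ((1 / Real.sqrt 2 : ℝ) : ℂ) * _ = _
    rw [star_r, half_mul_half]
  have hgr : ∀ (a b : E → ℂ), (∑ e, ∑ _β : Bool, star (a e * r) * (b e * r)) = dot a b := by
    intro a b
    unfold dot
    refine Finset.sum_congr rfl fun e _ => ?_
    have h1 : star (a e * r) * (b e * r) = star (a e) * b e * (star r * r) := by
      simp only [star_mul']; ring
    simp only [Fintype.sum_bool]
    rw [h1, hrr]; ring
  refine prepCont h (W' := E) 1 c (fun e => (i₀, false, e)) ?_ ?_ ?_ ?_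
  · intro x y
    rw [← hgr]
    exact dot_pos (fun _ => i₀) (fun e _ => ψ x e * r) (fun e _ => ψ y e * r)
  · intro t ht x y
    have ht0 : t = 0 := by omega
    subst ht0
    rw [horc, horc]
    have h1 := dot_pos (I := I) (fun _ : E => i₀) (fun e _ => ψ x e * r) (fun e _ => ψ y e * r)
    rw [hgr] at h1
    refine Eq.trans ?_ h1.symm
    have h2 := dot_pos (I := I) (fun _ : E => i₀) (fun e β => if β then 0 else ψ x e)
      (fun e β => if β then 0 else ψ y e)
    refine Eq.trans h2 ?_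
    unfold dot
    refine Finset.sum_congr rfl fun e _ => ?_
    simp
  · intro a b h; simpa using h
  · intro x
    refine ⟨fun e => ?_, ?_⟩
    · show (if i₀ = i₀ then (if false = true then 0 else ψ x e) else 0) = _
      rw [if_pos rfl]; rfl
    · rintro ⟨i, b, a⟩ hy
      show (if i = i₀ then (if b = true then 0 else ψ x a) else 0) = 0
      by_cases hi : i = i₀
      · rw [if_pos hi]
        cases b with
        | true => rfl
        | false => exact absurd ⟨a, by rw [hi]⟩ hy
      · rw [if_neg hi]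

theorem prepBind : Spec.PrepBind := by
  intro I _ _ E E₂ _ _ q₁ q₂ ψ φ h h₂
  classical
  choose w U φ₀ emb hU hφ hemb hfin using h₂
  let W' : Type := Σ e : E, Fin (w e)
  let c : ℕ → (I → Bool) → (I × Bool × (Σ e : E, Fin (w e)) → ℂ) := fun t x p =>
    ψ x p.2.2.1 * run (U p.2.2.1) x (φ₀ p.2.2.1) t (p.1, p.2.1, p.2.2.2)
  have hdot : ∀ (a b : E → ℂ) (f g : ∀ e : E, I × Bool × Fin (w e) → ℂ),
      dot (fun p : I × Bool × (Σ e : E, Fin (w e)) => a p.2.2.1 * f p.2.2.1 (p.1, p.2.1, p.2.2.2))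
        (fun p => b p.2.2.1 * g p.2.2.1 (p.1, p.2.1, p.2.2.2)) =
      ∑ e, star (a e) * b e * dot (f e) (g e) := by
    intro a b f g
    unfold dot
    simp only [Fintype.sum_prod_type, Fintype.sum_sigma, Finset.mul_sum]
    rw [Finset.sum_comm]
    have : ∀ (b' : Bool), ∑ i : I, ∑ e : E, ∑ k : Fin (w e),
        star (a e * f e (i, b', k)) * (b e * g e (i, b', k)) =
        ∑ e : E, ∑ i : I, ∑ k : Fin (w e),
        star (a e * f e (i, b', k)) * (b e * g e (i, b', k)) := fun b' => Finset.sum_comm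
    simp only [this]
    rw [Finset.sum_comm]
    refine Finset.sum_congr rfl fun e _ => ?_
    rw [Finset.sum_comm]
    refine Finset.sum_congr rfl fun i _ => ?_
    refine Finset.sum_congr rfl fun b' _ => ?_
    refine Finset.sum_congr rfl fun k _ => ?_
    simp only [star_mul']; ring
  have horc : ∀ t x, orc x (c t x) = fun p : I × Bool × (Σ e : E, Fin (w e)) =>
      ψ x p.2.2.1 * orc x (run (U p.2.2.1) x (φ₀ p.2.2.1) t) (p.1, p.2.1, p.2.2.2) :=
    fun t x => rfl
  refine prepCont h (W' := Σ e : E, Fin (w e)) q₂ c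
    (fun p => ((emb p.1 p.2).1, (emb p.1 p.2).2.1, ⟨p.1, (emb p.1 p.2).2.2⟩)) ?_ ?_ ?_ ?_
  · intro x y
    have := hdot (ψ x) (ψ y) (fun e => run (U e) x (φ₀ e) 0) (fun e => run (U e) y (φ₀ e) 0)
    refine this.trans ?_
    unfold dot
    refine Finset.sum_congr rfl fun e _ => ?_
    have h3 := run_zero_dot (hU e) (hφ e) x y
    unfold dot at h3
    rw [h3, mul_one]
  · intro t ht x y
    rw [horc, horc]
    refine (hdot (ψ x) (ψ y) (fun e => run (U e) x (φ₀ e) (t + 1))
      (fun e => run (U e) y (φ₀ e) (t + 1))).trans ?_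
    refine Eq.trans ?_ (hdot (ψ x) (ψ y) (fun e => orc x (run (U e) x (φ₀ e) t))
      (fun e => orc y (run (U e) y (φ₀ e) t))).symm
    refine Finset.sum_congr rfl fun e _ => ?_
    rw [run_succ_dot (hU e)]
  · rintro ⟨e, a⟩ ⟨e', a'⟩ h
    simp only [Prod.mk.injEq, Sigma.mk.injEq] at h
    obtain ⟨h1, h2, h3, h4⟩ := h
    subst h3
    have h5 := eq_of_heq h4
    have h6 : emb e a = emb e a' := Prod.ext h1 (Prod.ext h2 h5)
    rw [hemb e h6]
  · intro x
    refine ⟨?_, ?_⟩
    · rintro ⟨e, a⟩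
      show ψ x e * run (U e) x (φ₀ e) q₂ (emb e a) = _
      rw [(hfin e x).1 a]
    · rintro ⟨i, b, ⟨e, k⟩⟩ hy
      show ψ x e * run (U e) x (φ₀ e) q₂ (i, b, k) = 0
      rw [(hfin e x).2 (i, b, k), mul_zero]
      rintro ⟨a, ha⟩
      exact hy ⟨(e, a), by simp only [ha]⟩

end Crest.Agent.H11QPrep
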