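import Mathlib
import Crest.Agent.H11Ek

set_option autoImplicit false

namespace Crest.Agent.H11Sum

open Crest Crest.AnalysisR Crest.AnalysisR.TreePotential Crest.Agent.H11Ek
open scoped ENNReal
open Filter

/-- The `ℓ²`-sum. -/
abbrev X : Type := lp (fun k => E k) 2

theorem X_reflexive : Function.Surjective (NormedSpace.inclusionInDoubleDual ℝ X) :=
  H11Reflexive.reflexive_lp (fun k => E_reflexive k)

def SuppX (K : Finset ℕ) (T : Finset (List ℕ)) (x : X) : Prop :=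
  (∀ k, k ∉ K → x k = 0) ∧ ∀ k ∈ K, SuppOn k T (x k)

theorem SuppX.mono {K K' : Finset ℕ} {T T' : Finset (List ℕ)} (hK : K ⊆ K') (hT : T ⊆ T') {x : X}
    (hx : SuppX K T x) : SuppX K' T' x := by
  refine ⟨fun k hk => hx.1 k fun h => hk (hK h), fun k _ => ?_⟩
  by_cases h : k ∈ K
  · exact (hx.2 k h).mono hT
  · rw [hx.1 k h]
    intro f g α _
    simp

theorem two_real : (2 : ℝ≥0∞).toReal = 2 := by norm_num

theorem keyX (K : Finset ℕ) (T : Finset (List ℕ)) (hT : Cl T) (h w y : X)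
    (hh : SuppX K T h) (hw : SuppX K T w) (hy : ∀ k ∈ K, ∀ s ∈ T, co k s (y k) = 0) :
    2 * Real.sqrt (‖h‖ ^ 2 + ‖y‖ ^ 2 / 4) ≤ ‖(h + w) + y‖ + ‖(h - w) - y‖ := by
  set u : X := (h + w) + y with hu
  set v : X := (h - w) - y with hv
  have hk : ∀ k, 4 * (‖h k‖ ^ 2 + ‖y k‖ ^ 2 / 4) ≤ (‖u k‖ + ‖v k‖) ^ 2 := by
    intro k
    have huk : u k = (h k + w k) + y k := rfl
    have hvk : v k = (h k - w k) - y k := rfl
    have h1 : 2 * Real.sqrt (‖h k‖ ^ 2 + ‖y k‖ ^ 2 / 4) ≤ ‖u k‖ + ‖v k‖ := by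
      by_cases hkK : k ∈ K
      · rw [huk, hvk]
        exact key k T hT (h k) (w k) (y k) (hh.2 k hkK) (hw.2 k hkK) (hy k hkK)
      · rw [huk, hvk, hh.1 k hkK, hw.1 k hkK]
        simp only [add_zero, zero_add, sub_zero, zero_sub, norm_neg, norm_zero]
        have h2 : Real.sqrt ((0:ℝ) ^ 2 + ‖y k‖ ^ 2 / 4) = ‖y k‖ / 2 := by
          rw [show (0:ℝ) ^ 2 + ‖y k‖ ^ 2 / 4 = (‖y k‖ / 2) ^ 2 by ring]
          exact Real.sqrt_sq (by positivity)
        rw [h2]
        have := norm_nonneg (y k)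
        linarith
    have h3 : (2 * Real.sqrt (‖h k‖ ^ 2 + ‖y k‖ ^ 2 / 4)) ^ 2 ≤ (‖u k‖ + ‖v k‖) ^ 2 :=
      pow_le_pow_left₀ (by positivity) h1 2
    rw [mul_pow, Real.sq_sqrt (by positivity)] at h3
    linarith
  have s1 : HasSum (fun k => 4 * (‖h k‖ ^ 2 + ‖y k‖ ^ 2 / 4)) (4 * (‖h‖ ^ 2 + ‖y‖ ^ 2 / 4)) :=
    ((H11Reflexive.hasSum_sq h).add ((H11Reflexive.hasSum_sq y).div_const 4)).mul_left 4
  have s2 : HasSum (fun k => ‖(lp.toNorm u + lp.toNorm v : lp (fun _ : ℕ => ℝ) 2) k‖ ^ 2)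
      (‖(lp.toNorm u + lp.toNorm v : lp (fun _ : ℕ => ℝ) 2)‖ ^ 2) := by
    have := lp.hasSum_norm (p := 2) (by norm_num) (lp.toNorm u + lp.toNorm v : lp (fun _ : ℕ => ℝ) 2)
    simpa using this
  have s3 : 4 * (‖h‖ ^ 2 + ‖y‖ ^ 2 / 4) ≤
      ‖(lp.toNorm u + lp.toNorm v : lp (fun _ : ℕ => ℝ) 2)‖ ^ 2 := by
    refine hasSum_le ?_ s1 s2
    intro k
    have h4 : (lp.toNorm u + lp.toNorm v : lp (fun _ : ℕ => ℝ) 2) k = ‖u k‖ + ‖v k‖ := rfl
    rw [h4, Real.norm_eq_abs, sq_abs]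
    exact hk k
  have s4 : ‖(lp.toNorm u + lp.toNorm v : lp (fun _ : ℕ => ℝ) 2)‖ ≤ ‖u‖ + ‖v‖ := by
    refine (norm_add_le _ _).trans ?_
    rw [lp.norm_toNorm, lp.norm_toNorm]
  have s5 : (2 * Real.sqrt (‖h‖ ^ 2 + ‖y‖ ^ 2 / 4)) ^ 2 ≤ (‖u‖ + ‖v‖) ^ 2 := by
    rw [mul_pow, Real.sq_sqrt (by positivity)]
    calc (2:ℝ) ^ 2 * (‖h‖ ^ 2 + ‖y‖ ^ 2 / 4) = 4 * (‖h‖ ^ 2 + ‖y‖ ^ 2 / 4) := by ring
      _ ≤ _ := s3
      _ ≤ _ := pow_le_pow_left₀ (norm_nonneg _) s4 2
  exact (abs_le_of_sq_le_sq' s5 (by positivity)).2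

/-- suffix closure -/
noncomputable def clo (A : Finset (List ℕ)) : Finset (List ℕ) := by
  classical
  exact insert [] (A.biUnion fun s => s.tails.toFinset)

theorem subset_clo (A : Finset (List ℕ)) : A ⊆ clo A := by
  classical
  intro s hs
  refine Finset.mem_insert_of_mem (Finset.mem_biUnion.mpr ⟨s, hs, ?_⟩)
  rw [List.mem_toFinset, List.mem_tails]

theorem cl_clo (A : Finset (List ℕ)) : Cl (clo A) := by
  classical
  refine ⟨Finset.mem_insert_self _ _, ?_⟩
  intro a l h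
  unfold clo at h ⊢
  rw [Finset.mem_insert] at h
  rcases h with h | h
  · exact absurd h (List.cons_ne_nil _ _)
  · rw [Finset.mem_biUnion] at h
    obtain ⟨s, hs, h⟩ := h
    refine Finset.mem_insert_of_mem (Finset.mem_biUnion.mpr ⟨s, hs, ?_⟩)
    rw [List.mem_toFinset, List.mem_tails] at h ⊢
    exact (List.suffix_cons a l).trans h

theorem sum_single_apply (K : Finset ℕ) (z : ∀ k, E k) (j : ℕ) :
    (∑ k ∈ K, lp.single (E := fun k => E k) 2 k (z k) : X) j = if j ∈ K then z j else 0 := by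
  classical
  rw [lp.coeFn_sum, Finset.sum_apply]
  by_cases hj : j ∈ K
  · rw [if_pos hj, Finset.sum_eq_single j]
    · exact lp.single_apply_self (E := fun k => E k) 2 j (z j)
    · intro b _ hb
      exact lp.single_apply_ne (E := fun k => E k) 2 b (z b) hb.symm
    · intro h; exact absurd hj h
  · rw [if_neg hj]
    refine Finset.sum_eq_zero fun b hb => ?_
    exact lp.single_apply_ne (E := fun k => E k) 2 b (z b) (fun h : j = b => hj (h ▸ hb))

/-- coordinate vectors -/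
noncomputable def eX (k : ℕ) (s : List ℕ) : X := by
  classical
  exact if h : s.length ≤ k then lp.single 2 k (e k ⟨s, h⟩) else 0

theorem eX_eq (k : ℕ) (s : V k) : eX k s.1 = lp.single (E := fun k => E k) 2 k (e k s) := by
  classical
  unfold eX
  rw [dif_pos s.2]

theorem single_sum (k : ℕ) (A : Finset (V k)) (c : V k → ℝ) :
    lp.single (E := fun k => E k) 2 k (∑ s ∈ A, c s • e k s) = ∑ s ∈ A, c s • eX k s.1 := by
  have h6 := map_sum (lp.singleContinuousLinearMap ℝ (fun k => E k) 2 k)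
    (fun s => c s • e k s) A
  simp only [map_smul] at h6
  simp only [lp.singleContinuousLinearMap_apply] at h6
  rw [h6]
  refine Finset.sum_congr rfl fun s _ => ?_
  rw [eX_eq]

theorem dense (x : X) (ε : ℝ) (hε : 0 < ε) :
    ∃ (K : Finset ℕ) (T : Finset (List ℕ)) (x' : X), Cl T ∧ SuppX K T x' ∧ ‖x - x'‖ < ε ∧
      x' ∈ Submodule.span ℝ (Set.range fun p : ℕ × List ℕ => eX p.1 p.2) := by
  classical
  have h1 : HasSum (fun k => lp.single 2 k (x k)) x := lp.hasSum_single (by norm_num) x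
  obtain ⟨K, hK⟩ := (Metric.tendsto_nhds.mp h1 (ε / 2) (by positivity)).exists
  rw [dist_comm, dist_eq_norm] at hK
  have h2 : ∀ k, ∃ (A : Finset (V k)) (c : V k → ℝ),
      ‖x k - ∑ s ∈ A, c s • e k s‖ < ε / (2 * (K.card + 1)) :=
    fun k => span_dense k (x k) _ (by positivity)
  choose A c hAc using h2
  set z : ∀ k, E k := fun k => ∑ s ∈ A k, c k s • e k s with hz
  set x' : X := ∑ k ∈ K, lp.single (E := fun k => E k) 2 k (z k) with hx'
  refine ⟨K, clo (K.biUnion fun k => (A k).map (Function.Embedding.subtype _)), x', cl_clo _,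
    ⟨?_, ?_⟩, ?_, ?_⟩
  · intro k hk
    rw [hx', sum_single_apply, if_neg hk]
  · intro k hk
    rw [hx', sum_single_apply, if_pos hk]
    refine SuppOn.sum _ _ ?_
    intro s hs
    refine subset_clo _ (Finset.mem_biUnion.mpr ⟨k, hk, ?_⟩)
    rw [Finset.mem_map]
    exact ⟨s, hs, rfl⟩
  · have h3 : x - x' = (x - ∑ k ∈ K, lp.single (E := fun k => E k) 2 k (x k)) +
        ∑ k ∈ K, lp.single (E := fun k => E k) 2 k (x k - z k) := by
      have : ∑ k ∈ K, lp.single (E := fun k => E k) 2 k (x k - z k) =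
          ∑ k ∈ K, lp.single (E := fun k => E k) 2 k (x k) - x' := by
        rw [hx', ← Finset.sum_sub_distrib]
        refine Finset.sum_congr rfl fun k _ => ?_
        exact lp.single_sub 2 k _ _
      rw [this]; abel
    rw [h3]
    refine (norm_add_le _ _).trans_lt ?_
    have h4 : ‖∑ k ∈ K, lp.single (E := fun k => E k) 2 k (x k - z k)‖ ≤ ε / 2 := by
      refine (norm_sum_le _ _).trans ?_
      calc ∑ k ∈ K, ‖lp.single (E := fun k => E k) 2 k (x k - z k)‖
          ≤ ∑ k ∈ K, ε / (2 * (K.card + 1)) := by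
            refine Finset.sum_le_sum fun k _ => ?_
            rw [lp.norm_single (by norm_num)]
            exact (hAc k).le
        _ = K.card * (ε / (2 * (K.card + 1))) := by rw [Finset.sum_const, nsmul_eq_mul]
        _ ≤ ε / 2 := by
          rw [mul_div_assoc', div_le_div_iff₀ (by positivity) (by positivity)]
          nlinarith
    linarith
  · rw [hx']
    refine Submodule.sum_mem _ fun k _ => ?_
    have h5 : lp.single (E := fun k => E k) 2 k (z k) = ∑ s ∈ A k, c k s • eX k s.1 :=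
      single_sum k (A k) (c k)
    rw [h5]
    exact Submodule.sum_mem _ fun s _ => Submodule.smul_mem _ _ (Submodule.subset_span ⟨(k, s.1), rfl⟩)

/-- coordinate functionals -/
noncomputable def coX (k : ℕ) (s : List ℕ) : X →L[ℝ] ℝ :=
  (co k s).comp (lp.evalCLM ℝ (fun k => E k) 2 k)

theorem coX_apply (k : ℕ) (s : List ℕ) (x : X) : coX k s x = co k s (x k) := rfl


theorem coX_eX (k k' : ℕ) (s s' : List ℕ) :
    coX k s (eX k' s') = if k = k' ∧ s = s' ∧ s.length ≤ k then 1 else 0 := by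
  classical
  unfold eX
  rw [coX_apply]
  by_cases h : s'.length ≤ k'
  · rw [dif_pos h]
    by_cases hk : k = k'
    · subst hk
      rw [lp.single_apply_self (E := fun k => E k)]
      rw [co_e]
      by_cases hs : s = s'
      · subst hs
        simp [h]
      · have hs' : ¬ s' = s := fun h => hs h.symm
        simp [hs, hs']
    · rw [lp.single_apply_ne (E := fun k => E k) 2 k' _ hk, map_zero, if_neg]
      exact fun h => hk h.1
  · rw [dif_neg h, if_neg]
    · have : ((0 : X) k) = 0 := rfl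
      rw [this, map_zero]
    · rintro ⟨rfl, rfl, h'⟩
      exact h h'

theorem coX_zero (k : ℕ) (s : List ℕ) (h : ¬ s.length ≤ k) (x : X) : coX k s x = 0 := by
  classical
  rw [coX_apply]
  unfold co
  rw [dif_neg h]
  rfl

/-- Projection onto finitely many coordinates. -/
noncomputable def Pr (K : Finset ℕ) (T : Finset (List ℕ)) (z : X) : X :=
  ∑ p ∈ K ×ˢ T, coX p.1 p.2 z • eX p.1 p.2

theorem coX_Pr (K : Finset ℕ) (T : Finset (List ℕ)) (z : X) (k : ℕ) (hk : k ∈ K) (s : List ℕ)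
    (hs : s ∈ T) : coX k s (Pr K T z) = coX k s z := by
  classical
  unfold Pr
  rw [map_sum]
  simp only [map_smul, coX_eX, smul_eq_mul]
  by_cases hl : s.length ≤ k
  · rw [Finset.sum_eq_single (k, s)]
    · simp [hl]
    · intro p _ hp
      rw [if_neg, mul_zero]
      rintro ⟨h1, h2, _⟩
      exact hp (Prod.ext h1.symm h2.symm)
    · intro h
      exact absurd (Finset.mem_product.mpr ⟨hk, hs⟩) h
  · rw [coX_zero k s hl]
    refine Finset.sum_eq_zero fun p _ => ?_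
    rw [if_neg, mul_zero]
    exact fun h => hl h.2.2

theorem sqrt_cmp (H H' Y σ ε A : ℝ) (hε : 0 < ε) (hH : 0 ≤ H) (hH' : 0 ≤ H') (hY : 0 ≤ Y)
    (hσ : 0 ≤ σ) (hA0 : 0 ≤ A) (hA2 : A ^ 2 = H' ^ 2 + Y ^ 2 / 4) (n3 : H ≤ H' + ε)
    (hy : σ / 2 - ε ≤ Y) : Real.sqrt (H ^ 2 + σ ^ 2 / 16) ≤ A + 2 * ε := by
  have hAh : H' ≤ A := by
    refine (abs_le_of_sq_le_sq' ?_ hA0).2
    nlinarith [sq_nonneg Y]
  have hAy : Y / 2 ≤ A := by
    refine (abs_le_of_sq_le_sq' ?_ hA0).2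
    nlinarith [sq_nonneg H']
  rw [Real.sqrt_le_left (by positivity)]
  have b1 : H ^ 2 ≤ (H' + ε) ^ 2 := pow_le_pow_left₀ hH n3 2
  have b2 : σ ^ 2 / 16 ≤ (Y / 2 + ε / 2) ^ 2 := by
    have h1 : σ / 4 ≤ Y / 2 + ε / 2 := by linarith
    have h2 := pow_le_pow_left₀ (by positivity) h1 2
    calc σ ^ 2 / 16 = (σ / 4) ^ 2 := by ring
      _ ≤ _ := h2
  have c1 : H' * ε ≤ A * ε := mul_le_mul_of_nonneg_right hAh hε.le
  have c2 : Y / 2 * ε ≤ A * ε := mul_le_mul_of_nonneg_right hAy hε.le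
  have c3 : 0 ≤ A * ε := by positivity
  nlinarith [sq_nonneg ε]

/-- The midpoint lemma used for diamonds. -/
theorem mid (h : X) (w : ℕ → X) (C σ : ℝ) (hσ : 0 ≤ σ) (hw : ∀ i, ‖w i‖ ≤ C)
    (hsep : ∀ i j, i ≠ j → σ ≤ ‖w i - w j‖) (η : ℝ) (hη : 0 < η) :
    ∃ i, 2 * Real.sqrt (‖h‖ ^ 2 + σ ^ 2 / 16) ≤ ‖h + w i‖ + ‖h - w i‖ + η := by
  classical
  set U : Ultrafilter ℕ := hyperfilter ℕ with hU
  obtain ⟨w0, hw0⟩ := H11Reflexive.weak_limit X_reflexive U w C hw
  set ε : ℝ := η / 10 with hε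
  have hεpos : 0 < ε := by positivity
  obtain ⟨K1, T1, h', hT1, hh', hhn, _⟩ := dense h ε hεpos
  obtain ⟨K2, T2, w', hT2, hw', hwn, _⟩ := dense w0 ε hεpos
  set K := K1 ∪ K2 with hK
  set T := T1 ∪ T2 with hT
  have hTc : Cl T := by
    refine ⟨Finset.mem_union_left _ hT1.1, ?_⟩
    intro a l hal
    rw [hT, Finset.mem_union] at hal ⊢
    rcases hal with h | h
    · exact Or.inl (hT1.2 a l h)
    · exact Or.inr (hT2.2 a l h)
  have hh2 : SuppX K T h' := hh'.mono Finset.subset_union_left Finset.subset_union_left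
  have hw2 : SuppX K T w' := hw'.mono Finset.subset_union_right Finset.subset_union_right
  -- projections go to zero
  have hPr : Tendsto (fun i => ‖Pr K T (w i - w0)‖) U (nhds 0) := by
    have h1 : Tendsto (fun i => ∑ p ∈ K ×ˢ T, |coX p.1 p.2 (w i - w0)| * ‖eX p.1 p.2‖) U
        (nhds 0) := by
      have h2 : ∀ p ∈ K ×ˢ T, Tendsto (fun i => |coX p.1 p.2 (w i - w0)| * ‖eX p.1 p.2‖) U
          (nhds 0) := by
        intro p _
        have h3 := (hw0 (coX p.1 p.2)).sub_const (coX p.1 p.2 w0)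
        rw [sub_self] at h3
        have h4 := (h3.abs.mul_const ‖eX p.1 p.2‖)
        rw [abs_zero, zero_mul] at h4
        simpa only [map_sub] using h4
      have := tendsto_finsetSum (K ×ˢ T) h2
      simpa using this
    refine squeeze_zero (fun _ => norm_nonneg _) (fun i => ?_) h1
    unfold Pr
    refine (norm_sum_le _ _).trans (Finset.sum_le_sum fun p _ => ?_)
    rw [norm_smul, Real.norm_eq_abs]
  have hev : ∀ᶠ i in (U : Filter ℕ), ‖Pr K T (w i - w0)‖ < ε := hPr.eventually_lt_const hεpos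
  -- two distinct good indices
  set G : Set ℕ := {i | ‖Pr K T (w i - w0)‖ < ε} with hG
  have hGinf : G.Infinite := by
    intro hfin
    have h1 : Gᶜ ∈ (hyperfilter ℕ : Filter ℕ) := by
      have := Set.Finite.compl_mem_hyperfilter hfin
      exact this
    have h2 : G ∈ (hyperfilter ℕ : Filter ℕ) := hev
    have h3 := Filter.inter_mem h1 h2
    rw [Set.compl_inter_self] at h3
    exact Filter.empty_notMem _ h3
  obtain ⟨i, hi⟩ := hGinf.nonempty
  obtain ⟨j, hj, hij⟩ := (hGinf.sdiff (Set.finite_singleton i)).nonempty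
  have hij' : i ≠ j := fun h => hij (by simp [h])
  set y : ℕ → X := fun n => (w n - w0) - Pr K T (w n - w0) with hy
  have hyco : ∀ n, ∀ k ∈ K, ∀ s ∈ T, co k s (y n k) = 0 := by
    intro n k hk s hs
    rw [← coX_apply, hy]
    simp only
    rw [map_sub, coX_Pr K T _ k hk s hs, sub_self]
  have hsum : σ - 2 * ε ≤ ‖y i‖ + ‖y j‖ := by
    have h1 : w i - w j = (y i - y j) + (Pr K T (w i - w0) - Pr K T (w j - w0)) := by
      simp only [hy]; abel
    have h2 := hsep i j hij'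
    rw [h1] at h2
    have h3 := norm_add_le (y i - y j) (Pr K T (w i - w0) - Pr K T (w j - w0))
    have h4 := norm_sub_le (y i) (y j)
    have h5 := norm_sub_le (Pr K T (w i - w0)) (Pr K T (w j - w0))
    have h6 : ‖Pr K T (w i - w0)‖ < ε := hi
    have h7 : ‖Pr K T (w j - w0)‖ < ε := hj
    linarith
  -- one of them has large `y`
  have main : ∀ n ∈ G, σ / 2 - ε ≤ ‖y n‖ →
      2 * Real.sqrt (‖h‖ ^ 2 + σ ^ 2 / 16) ≤ ‖h + w n‖ + ‖h - w n‖ + η := by
    intro n hn hyn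
    have hn' : ‖Pr K T (w n - w0)‖ < ε := hn
    have key := keyX K T hTc h' w' (y n) hh2 hw2 (hyco n)
    have e1 : h' + w' + y n = (h + w n) - (h - h') - (w0 - w') - Pr K T (w n - w0) := by
      simp only [hy]; abel
    have e2 : h' - w' - y n = (h - w n) - (h - h') + (w0 - w') + Pr K T (w n - w0) := by
      simp only [hy]; abel
    have n1 : ‖h' + w' + y n‖ ≤ ‖h + w n‖ + 3 * ε := by
      rw [e1]
      have a1 := norm_sub_le ((h + w n) - (h - h') - (w0 - w')) (Pr K T (w n - w0))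
      have a2 := norm_sub_le ((h + w n) - (h - h')) (w0 - w')
      have a3 := norm_sub_le (h + w n) (h - h')
      linarith
    have n2 : ‖h' - w' - y n‖ ≤ ‖h - w n‖ + 3 * ε := by
      rw [e2]
      have a1 := norm_add_le ((h - w n) - (h - h') + (w0 - w')) (Pr K T (w n - w0))
      have a2 := norm_add_le ((h - w n) - (h - h')) (w0 - w')
      have a3 := norm_sub_le (h - w n) (h - h')
      linarith
    have n3 : ‖h‖ ≤ ‖h'‖ + ε := by
      have := norm_add_le (h - h') h'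
      rw [sub_add_cancel] at this
      linarith
    -- compare square roots
    have n4 : Real.sqrt (‖h‖ ^ 2 + σ ^ 2 / 16) ≤ Real.sqrt (‖h'‖ ^ 2 + ‖y n‖ ^ 2 / 4) + 2 * ε := by
      exact sqrt_cmp ‖h‖ ‖h'‖ ‖y n‖ σ ε _ hεpos (norm_nonneg _) (norm_nonneg _) (norm_nonneg _)
        hσ (Real.sqrt_nonneg _) (Real.sq_sqrt (by positivity)) n3 hyn
    clear_value y
    have hε' : η = 10 * ε := by rw [hε]; ring
    linarith
  rcases le_total (σ / 2 - ε) ‖y i‖ with hc | hc
  · exact ⟨i, main i hi hc⟩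
  · refine ⟨j, main j hj ?_⟩
    linarith

end Crest.Agent.H11Sum
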