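import Mathlib
import Crest.Prelude.Def_FinProb

/-!
Shared definitions for rid 56 (S0077, S0078): p-biased Fourier analysis on the cube `E → Bool`.
-/

set_option autoImplicit false

namespace Crest.Agent.H6Defs

open Finset Crest.FinProb

/-- Expectation under independent coins of bias `p`. -/
noncomputable def EE {E : Type*} [Fintype E] [DecidableEq E] (p : ℝ) (F : (E → Bool) → ℝ) : ℝ :=
  ∑ x, bernoulliWeight p x * F x

/-- The normalised coin `(x - p) / √(p (1 - p))`. -/
noncomputable def phi (p : ℝ) (b : Bool) : ℝ := if b then √((1 - p) / p) else -√(p / (1 - p))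

/-- The character of the set `S`. -/
noncomputable def chi {E : Type*} (p : ℝ) (S : Finset E) (x : E → Bool) : ℝ :=
  ∏ e ∈ S, phi p (x e)

/-- The Fourier coefficient at `S`. -/
noncomputable def coef {E : Type*} [Fintype E] [DecidableEq E] (p : ℝ) (F : (E → Bool) → ℝ)
    (S : Finset E) : ℝ :=
  EE p (fun x => F x * chi p S x)

/-- A polynomial with prescribed coefficients. -/
noncomputable def poly {E : Type*} (p : ℝ) (𝒮 : Finset (Finset E)) (c : Finset E → ℝ)
    (x : E → Bool) : ℝ :=
  ∑ S ∈ 𝒮, c S * chi p S x

/-- The probability that the Boolean function `f` is true. -/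
noncomputable def PT {E : Type*} [Fintype E] [DecidableEq E] (p : ℝ) (f : (E → Bool) → Bool) : ℝ :=
  bernoulliProb p {x | f x = true}

/-- The pivotal probability of coordinate `e`. -/
noncomputable def piv {E : Type*} [Fintype E] [DecidableEq E] (p : ℝ) (f : (E → Bool) → Bool)
    (e : E) : ℝ :=
  bernoulliProb p {x | f (Function.update x e true) ≠ f (Function.update x e false)}

/-- The total pivotal influence. -/
noncomputable def PI {E : Type*} [Fintype E] [DecidableEq E] (p : ℝ) (f : (E → Bool) → Bool) : ℝ :=
  ∑ e, piv p f e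

/-- The set of vertices touched by a set of slots. -/
def vset {n : ℕ} {E : Type*} (vert : E → Finset (Fin n)) (T : Finset E) : Finset (Fin n) :=
  T.biUnion vert

/-- The set `A` is caught by `J`: the trace `A ∩ J` is nonempty, of size at most `k0`, at least
`|A| / c`, and touches at least as many vertices as its size. -/
def caught {n : ℕ} {E : Type*} [DecidableEq E] (vert : E → Finset (Fin n)) (c k0 : ℕ)
    (J A : Finset E) : Prop :=
  1 ≤ (A ∩ J).card ∧ (A ∩ J).card ≤ k0 ∧ A.card ≤ c * (A ∩ J).card ∧
    (A ∩ J).card ≤ (vset vert (A ∩ J)).card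

end Crest.Agent.H6Defs
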