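import Mathlib
import Crest.Agent.H6Defs

/-!
Module X3 of rid 56 (S0077, S0078): the catch probability of a random restriction set.
-/

set_option autoImplicit false
set_option linter.unusedSectionVars false
set_option linter.unusedVariables false

namespace Crest.Agent.H12Catch

open Finset Crest.Agent.H6Defs

section Family

variable {n r : ℕ} {E : Type*} [DecidableEq E]

/-- The subsets of `A` of size `j` spanning at least `j` vertices. -/
def fam (vert : E → Finset (Fin n)) (A : Finset E) (j : ℕ) : Finset (Finset E) :=
  (A.powersetCard j).filter (fun T => j ≤ (vset vert T).card)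

lemma mem_fam {vert : E → Finset (Fin n)} {A : Finset E} {j : ℕ} {T : Finset E} :
    T ∈ fam vert A j ↔ (T ⊆ A ∧ T.card = j) ∧ j ≤ (vset vert T).card := by
  simp [fam, Finset.mem_powersetCard]

lemma vset_card_le (vert : E → Finset (Fin n)) (hcard : ∀ e, (vert e).card = r) (T : Finset E) :
    (vset vert T).card ≤ r * T.card := by
  unfold vset
  refine (Finset.card_biUnion_le).trans ?_
  simp [hcard, mul_comm]

lemma inside_card_le (vert : E → Finset (Fin n)) (hcard : ∀ e, (vert e).card = r)
    (hinj : Function.Injective vert) (A : Finset E) (V : Finset (Fin n)) :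
    (A.filter (fun e => vert e ⊆ V)).card ≤ V.card.choose r := by
  rw [← Finset.card_powersetCard]
  refine Finset.card_le_card_of_injOn vert ?_ (fun a _ b _ h => hinj h)
  intro e he
  have he' : e ∈ A.filter (fun e => vert e ⊆ V) := he
  simp only [Finset.mem_filter] at he'
  simp [Finset.mem_powersetCard, he'.2, hcard]

lemma fam_one (vert : E → Finset (Fin n)) (hcard : ∀ e, (vert e).card = r) (hr : 1 ≤ r)
    (A : Finset E) : (fam vert A 1).card = A.card := by
  have : fam vert A 1 = A.powersetCard 1 := by
    unfold fam
    rw [Finset.filter_eq_self]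
    intro T hT
    rw [Finset.mem_powersetCard] at hT
    obtain ⟨e, rfl⟩ := Finset.card_eq_one.mp hT.2
    simp [vset, hcard, hr]
  rw [this, Finset.card_powersetCard, Nat.choose_one_right]

/-- The double counting step. -/
lemma fam_step (vert : E → Finset (Fin n)) (hcard : ∀ e, (vert e).card = r)
    (hinj : Function.Injective vert) (A : Finset E) (j : ℕ) (hj : 1 ≤ j)
    (h2 : 2 * Nat.choose (r * j) r ≤ A.card) :
    (fam vert A j).card * A.card ≤ 2 * ((j + 1) * (fam vert A (j + 1)).card) := by
  classical
  -- pairs
  set P : Finset (Finset E × E) :=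
    (fam vert A j ×ˢ A).filter (fun q => ¬ (vert q.2 ⊆ vset vert q.1)) with hP
  have hP1 : (fam vert A j).card * A.card ≤ 2 * P.card := by
    have : P.card = ∑ T ∈ fam vert A j, (A.filter (fun e => ¬ (vert e ⊆ vset vert T))).card := by
      rw [hP, Finset.card_filter, Finset.sum_product]
      simp [Finset.card_filter]
    rw [this, Finset.mul_sum, ← smul_eq_mul, ← Finset.sum_const]
    refine Finset.sum_le_sum ?_
    intro T hT
    rw [mem_fam] at hT
    have h3 := Finset.card_filter_add_card_filter_not (s := A) (fun e => vert e ⊆ vset vert T)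
    have h4 := inside_card_le vert hcard hinj A (vset vert T)
    have h5 : (vset vert T).card.choose r ≤ (r * j).choose r := by
      apply Nat.choose_le_choose
      have := vset_card_le vert hcard T
      rwa [hT.1.2] at this
    omega
  have hP2 : P.card ≤ (j + 1) * (fam vert A (j + 1)).card := by
    -- map (T, e) to (insert e T, e)
    have : P.card ≤ ((fam vert A (j + 1)).sigma (fun T' => T')).card := by
      refine Finset.card_le_card_of_injOn
        (fun q => (⟨insert q.2 q.1, q.2⟩ : Σ _ : Finset E, E)) ?_ ?_
      · intro q hq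
        have hq' : q ∈ P := hq
        rw [hP, Finset.mem_filter, Finset.mem_product, mem_fam] at hq'
        obtain ⟨⟨⟨⟨hTA, hTj⟩, hTv⟩, hqA⟩, hns⟩ := hq'
        have hnot : q.2 ∉ q.1 := by
          intro hmem
          exact hns (Finset.subset_biUnion_of_mem vert hmem)
        have h6 : insert q.2 q.1 ∈ fam vert A (j + 1) := by
          rw [mem_fam]
          refine ⟨⟨Finset.insert_subset hqA hTA, ?_⟩, ?_⟩
          · rw [Finset.card_insert_of_notMem hnot, hTj]
          · have h7 : vset vert q.1 ⊂ vset vert (insert q.2 q.1) := by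
              rw [Finset.ssubset_iff_subset_ne]
              constructor
              · exact Finset.biUnion_subset_biUnion_of_subset_left _ (Finset.subset_insert _ _)
              · intro heq
                apply hns
                rw [heq]
                exact Finset.subset_biUnion_of_mem vert (Finset.mem_insert_self _ _)
            have := Finset.card_lt_card h7
            omega
        simp [h6]
      · intro q hq q' hq' heq
        have hq1 : q ∈ P := hq
        have hq2 : q' ∈ P := hq'
        rw [hP, Finset.mem_filter, Finset.mem_product] at hq1 hq2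
        have hnot : q.2 ∉ q.1 := by
          intro hmem
          exact hq1.2 (Finset.subset_biUnion_of_mem vert hmem)
        have hnot' : q'.2 ∉ q'.1 := by
          intro hmem
          exact hq2.2 (Finset.subset_biUnion_of_mem vert hmem)
        simp only [Sigma.mk.injEq, heq_eq_eq] at heq
        obtain ⟨h8, h9⟩ := heq
        refine Prod.ext ?_ h9
        rw [← Finset.erase_insert hnot, h8, h9, Finset.erase_insert hnot']
    refine this.trans ?_
    rw [Finset.card_sigma]
    refine (Finset.sum_le_card_nsmul _ _ (j + 1) ?_).trans ?_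
    · intro T' hT'
      rw [mem_fam] at hT'
      exact hT'.1.2.le
    · rw [smul_eq_mul, mul_comm]
  omega

end Family

section Prob

variable {E : Type*} [Fintype E] [DecidableEq E]

/-- The probability that a random set meets `A` exactly in `T`. -/
lemma trace_prob (δ : ℝ) (A T : Finset E) (hT : T ⊆ A) :
    ∑ J ∈ Finset.univ.filter (fun J : Finset E => A ∩ J = T),
      δ ^ J.card * (1 - δ) ^ (Fintype.card E - J.card) =
      δ ^ T.card * (1 - δ) ^ (A.card - T.card) := by
  have key : ∑ J ∈ Finset.univ.filter (fun J : Finset E => A ∩ J = T),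
      δ ^ J.card * (1 - δ) ^ (Fintype.card E - J.card) =
      ∑ K ∈ (Aᶜ).powerset, δ ^ (T.card + K.card) *
        (1 - δ) ^ (Fintype.card E - (T.card + K.card)) := by
    symm
    refine Finset.sum_bij' (fun K _ => T ∪ K) (fun J _ => J \ A) ?_ ?_ ?_ ?_ ?_
    · intro K hK
      rw [Finset.mem_powerset] at hK
      simp only [Finset.mem_filter, Finset.mem_univ, true_and]
      ext x
      have := @hK x
      have := @hT x
      simp only [Finset.mem_inter, Finset.mem_union, Finset.mem_compl] at *
      tauto
    · intro J hJ
      rw [Finset.mem_powerset]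
      intro x hx
      simp only [Finset.mem_sdiff] at hx
      simp [hx.2]
    · intro K hK
      rw [Finset.mem_powerset] at hK
      ext x
      have := @hK x
      have := @hT x
      simp only [Finset.mem_sdiff, Finset.mem_union, Finset.mem_compl] at *
      tauto
    · intro J hJ
      simp only [Finset.mem_filter, Finset.mem_univ, true_and] at hJ
      rw [← hJ]
      ext x
      simp only [Finset.mem_sdiff, Finset.mem_union, Finset.mem_inter]
      tauto
    · intro K hK
      rw [Finset.mem_powerset] at hK
      have hdisj : Disjoint T K := by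
        rw [Finset.disjoint_left]
        intro x hx hxK
        have := hK hxK
        simp only [Finset.mem_compl] at this
        exact this (hT hx)
      rw [Finset.card_union_of_disjoint hdisj]
  rw [key]
  have hcA : (Aᶜ).card + A.card = Fintype.card E := by
    rw [Finset.card_compl]
    have := Finset.card_le_univ A
    omega
  have hTA := Finset.card_le_card hT
  have : ∀ K ∈ (Aᶜ).powerset, δ ^ (T.card + K.card) *
        (1 - δ) ^ (Fintype.card E - (T.card + K.card)) =
      (δ ^ T.card * (1 - δ) ^ (A.card - T.card)) *
        (δ ^ K.card * (1 - δ) ^ ((Aᶜ).card - K.card)) := by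
    intro K hK
    rw [Finset.mem_powerset] at hK
    have hKc := Finset.card_le_card hK
    have : Fintype.card E - (T.card + K.card) = (A.card - T.card) + ((Aᶜ).card - K.card) := by
      omega
    rw [this, pow_add, pow_add]
    ring
  rw [Finset.sum_congr rfl this, ← Finset.mul_sum, Finset.sum_pow_mul_eq_add_pow]
  simp

end Prob

/-- The catch probability: every set `A` with `1 ≤ |A| ≤ D` is caught by a `4/c`-random set with
probability at least `(4/c)(1 - 4/c)^D`. -/
theorem catch_prob {n r : ℕ} {E : Type*} [Fintype E] [DecidableEq E] (vert : E → Finset (Fin n))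
    (hcard : ∀ e, (vert e).card = r) (hinj : Function.Injective vert) (hr : 1 ≤ r) (c D k0 : ℕ)
    (hc : 8 ≤ c) (hk0 : D ≤ c * k0)
    (hD : ∀ j : ℕ, 1 ≤ j → c * j < D → 2 * Nat.choose (r * j) r ≤ c * j)
    (A : Finset E) (hA : A.Nonempty) (hAD : A.card ≤ D)
    [DecidablePred (fun J : Finset E => caught vert c k0 J A)] :
    (4 / c : ℝ) * (1 - 4 / c) ^ D ≤
      ∑ J ∈ Finset.univ.filter (fun J : Finset E => caught vert c k0 J A),
        (4 / c : ℝ) ^ J.card * (1 - 4 / c : ℝ) ^ (Fintype.card E - J.card) := by
  classical
  set δ : ℝ := 4 / c with hδ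
  have hcR : (8 : ℝ) ≤ c := by exact_mod_cast hc
  have hcpos : (0 : ℝ) < c := by linarith
  have hδpos : 0 < δ := by positivity
  have hδ1 : δ ≤ 1 / 2 := by
    rw [hδ, div_le_div_iff₀ hcpos (by norm_num)]
    linarith
  have hδ0 : 0 ≤ 1 - δ := by linarith
  have hδ01 : 1 - δ ≤ 1 := by linarith
  have hcδ : (c : ℝ) * δ = 4 := by rw [hδ]; field_simp
  set d := A.card with hd
  have hdpos : 1 ≤ d := hA.card_pos
  have hc0 : 0 < c := by omega
  -- the size k
  obtain ⟨k, hk1, hkd, hkmin⟩ : ∃ k : ℕ, 1 ≤ k ∧ d ≤ c * k ∧ ∀ j, j < k → c * j < d := by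
    have hex : ∃ k : ℕ, d ≤ c * k := ⟨d, Nat.le_mul_of_pos_left d hc0⟩
    refine ⟨Nat.find hex, ?_, Nat.find_spec hex, ?_⟩
    · by_contra h
      have h0 : Nat.find hex = 0 := by omega
      have := Nat.find_spec hex
      rw [h0] at this
      omega
    · intro j hj
      have := Nat.find_min hex hj
      omega
  have hkk0 : k ≤ k0 := by
    by_contra h
    have := hkmin k0 (by omega)
    omega
  -- lower bound for the families
  have hfam : ∀ j : ℕ, 1 ≤ j → j ≤ k → 1 ≤ ((fam vert A j).card : ℝ) * δ ^ (j - 1) := by
    intro j hj1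
    induction j, hj1 using Nat.le_induction with
    | base =>
      intro _
      rw [fam_one vert hcard hr]
      simp only [le_refl, Nat.sub_self, pow_zero, mul_one]
      exact_mod_cast hdpos
    | succ j hj ih =>
      intro hjk
      have ih' := ih (by omega)
      have hcj : c * j < d := hkmin j (by omega)
      have h2 : 2 * Nat.choose (r * j) r ≤ A.card := by
        have := hD j hj (by omega)
        omega
      have hstep := fam_step vert hcard hinj A j hj h2
      have hstepR : ((fam vert A j).card : ℝ) * d ≤
          2 * (((j : ℝ) + 1) * (fam vert A (j + 1)).card) := by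
        exact_mod_cast hstep
      have hcjR : (c : ℝ) * j ≤ d := by exact_mod_cast hcj.le
      have hdδ : 4 * (j : ℝ) ≤ d * δ := by
        have := mul_le_mul_of_nonneg_right hcjR hδpos.le
        nlinarith
      have hjR : (1 : ℝ) ≤ j := by exact_mod_cast hj
      have hpow : δ ^ (j + 1 - 1) = δ ^ (j - 1) * δ := by
        rw [← pow_succ]
        congr 1
        omega
      rw [hpow]
      set a : ℝ := ((fam vert A j).card : ℝ) with ha
      set b : ℝ := ((fam vert A (j + 1)).card : ℝ) with hb
      set w : ℝ := δ ^ (j - 1) with hw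
      have hwpos : 0 < w := by positivity
      have ha0 : 0 ≤ a := by positivity
      have hb0 : 0 ≤ b := by positivity
      -- 2 (j+1) b δ w ≥ a d δ w ≥ 4 j
      have e1 : a * d * (δ * w) ≤ 2 * ((j + 1) * b) * (δ * w) :=
        mul_le_mul_of_nonneg_right hstepR (by positivity)
      have e2 : 1 * (4 * (j : ℝ)) ≤ (a * w) * (d * δ) :=
        mul_le_mul ih' hdδ (by positivity) (by positivity)
      have e3 : 4 * (j : ℝ) ≤ 2 * (j + 1) * (b * (w * δ)) := by nlinarith
      by_contra hcon
      rw [not_le] at hcon
      have e4 : 2 * ((j : ℝ) + 1) * (b * (w * δ)) < 2 * (j + 1) * 1 :=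
        mul_lt_mul_of_pos_left hcon (by positivity)
      nlinarith
  have hfk := hfam k hk1 le_rfl
  -- the sum
  have hsub : (fam vert A k).biUnion
      (fun T => Finset.univ.filter (fun J : Finset E => A ∩ J = T)) ⊆
      Finset.univ.filter (fun J : Finset E => caught vert c k0 J A) := by
    intro J hJ
    simp only [Finset.mem_biUnion, Finset.mem_filter, Finset.mem_univ, true_and] at hJ
    obtain ⟨T, hT, hJT⟩ := hJ
    rw [mem_fam] at hT
    simp only [Finset.mem_filter, Finset.mem_univ, true_and]
    unfold caught
    rw [hJT, hT.1.2]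
    exact ⟨hk1, hkk0, hkd, hT.2⟩
  have hnn : ∀ J : Finset E, 0 ≤ δ ^ J.card * (1 - δ) ^ (Fintype.card E - J.card) := by
    intro J
    positivity
  refine le_trans ?_ (Finset.sum_le_sum_of_subset_of_nonneg hsub (fun J _ _ => hnn J))
  rw [Finset.sum_biUnion]
  · have hsum : ∀ T ∈ fam vert A k,
        ∑ J ∈ Finset.univ.filter (fun J : Finset E => A ∩ J = T),
          δ ^ J.card * (1 - δ) ^ (Fintype.card E - J.card) = δ ^ k * (1 - δ) ^ (d - k) := by
      intro T hT
      rw [mem_fam] at hT
      rw [trace_prob δ A T hT.1.1, hT.1.2]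
    rw [Finset.sum_congr rfl hsum, Finset.sum_const, nsmul_eq_mul]
    have hpow : δ ^ k = δ ^ (k - 1) * δ := by
      rw [← pow_succ]
      congr 1
      omega
    have h1 : (1 - δ) ^ D ≤ (1 - δ) ^ (d - k) :=
      pow_le_pow_of_le_one hδ0 hδ01 (by omega)
    calc δ * (1 - δ) ^ D ≤ δ * (1 - δ) ^ (d - k) := mul_le_mul_of_nonneg_left h1 hδpos.le
      _ = 1 * (δ * (1 - δ) ^ (d - k)) := by ring
      _ ≤ (((fam vert A k).card : ℝ) * δ ^ (k - 1)) * (δ * (1 - δ) ^ (d - k)) :=
          mul_le_mul_of_nonneg_right hfk (by positivity)
      _ = ((fam vert A k).card : ℝ) * (δ ^ k * (1 - δ) ^ (d - k)) := by rw [hpow]; ring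
  · intro T _ T' _ hne
    rw [Function.onFun, Finset.disjoint_left]
    intro J hJ hJ'
    simp only [Finset.mem_filter, Finset.mem_univ, true_and] at hJ hJ'
    exact hne (hJ.symm.trans hJ')

end Crest.Agent.H12Catch
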