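import Mathlib
import Crest.Prelude.Def_FinProb

/-!
The fractional Kahn–Kalai theorem (spread families are hit by random sets), with explicit
constant `12`, through inclusion-minimal fragments.
-/

set_option autoImplicit false
set_option linter.unusedSectionVars false

namespace Crest.Agent.H12Fknp

open Finset Crest.FinProb

variable {X : Type*} [Fintype X] [DecidableEq X]

/-- The set of heads. -/
def supp (ω : X → Bool) : Finset X := univ.filter (fun x => ω x = true)

lemma mem_supp (ω : X → Bool) (x : X) : x ∈ supp ω ↔ ω x = true := by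
  unfold supp
  rw [Finset.mem_filter]
  simp

lemma sdiff_sub (S W T : Finset X) : S \ W ⊆ T ↔ S ⊆ W ∪ T := by
  constructor
  · intro h x hx
    by_cases hxW : x ∈ W
    · exact Finset.mem_union_left _ hxW
    · exact Finset.mem_union_right _ (h (Finset.mem_sdiff.mpr ⟨hx, hxW⟩))
  · intro h x hx
    rw [Finset.mem_sdiff] at hx
    rcases Finset.mem_union.mp (h hx.1) with h1 | h1
    · exact absurd h1 hx.2
    · exact h1

/-- Expectation over a `q`-random subset. -/
noncomputable def EF (q : ℝ) (g : Finset X → ℝ) : ℝ :=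
  ∑ ω : X → Bool, bernoulliWeight q ω * g (supp ω)

/-- Outcomes and sets of heads. -/
def boolEquiv : (X → Bool) ≃ Finset X where
  toFun := supp
  invFun W := fun x => decide (x ∈ W)
  left_inv ω := by funext x; simp [supp]
  right_inv W := by ext x; simp [supp]

lemma weight_eq (q : ℝ) (ω : X → Bool) :
    bernoulliWeight q ω = q ^ (supp ω).card * (1 - q) ^ ((supp ω)ᶜ).card := by
  unfold bernoulliWeight
  rw [Finset.prod_ite]
  simp only [Finset.prod_const]
  congr 2
  congr 1
  ext x
  simp [supp]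

lemma EF_eq (q : ℝ) (g : Finset X → ℝ) :
    EF q g = ∑ W : Finset X, q ^ W.card * (1 - q) ^ (Wᶜ).card * g W := by
  unfold EF
  refine Fintype.sum_equiv boolEquiv _ _ ?_
  intro ω
  rw [weight_eq]
  rfl

lemma EF_const (q : ℝ) (c : ℝ) : EF q (fun _ : Finset X => c) = c := by
  rw [EF_eq, ← Finset.sum_mul]
  have h := Finset.sum_pow_mul_eq_add_pow q (1 - q) (univ : Finset X)
  rw [Finset.powerset_univ] at h
  have : ∑ W : Finset X, q ^ W.card * (1 - q) ^ (Wᶜ).card = 1 := by
    calc ∑ W : Finset X, q ^ W.card * (1 - q) ^ (Wᶜ).card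
        = ∑ W : Finset X, q ^ W.card * (1 - q) ^ ((univ : Finset X).card - W.card) := by
          refine Finset.sum_congr rfl ?_
          intro W _
          rw [Finset.card_compl, Finset.card_univ]
      _ = (q + (1 - q)) ^ (univ : Finset X).card := h
      _ = 1 := by simp
  rw [this, one_mul]

lemma EF_mono {q : ℝ} (h0 : 0 ≤ q) (h1 : q ≤ 1) {g g' : Finset X → ℝ} (h : ∀ W, g W ≤ g' W) :
    EF q g ≤ EF q g' := by
  rw [EF_eq, EF_eq]
  refine Finset.sum_le_sum ?_
  intro W _
  have : 0 ≤ 1 - q := by linarith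
  exact mul_le_mul_of_nonneg_left (h W) (by positivity)

lemma EF_add (q : ℝ) (g g' : Finset X → ℝ) :
    EF q (fun W => g W + g' W) = EF q g + EF q g' := by
  unfold EF
  rw [← Finset.sum_add_distrib]
  refine Finset.sum_congr rfl ?_
  intro W _
  ring

lemma EF_mul_left (q c : ℝ) (g : Finset X → ℝ) :
    EF q (fun W => c * g W) = c * EF q g := by
  unfold EF
  rw [Finset.mul_sum]
  refine Finset.sum_congr rfl ?_
  intro W _
  ring

/-- Union of two independent random sets. -/
lemma EF_union (q1 q2 : ℝ) (g : Finset X → ℝ) :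
    EF q1 (fun W1 => EF q2 (fun W2 => g (W1 ∪ W2))) = EF (q1 + q2 - q1 * q2) g := by
  classical
  unfold EF
  have key : ∀ ω : X → Bool, bernoulliWeight (q1 + q2 - q1 * q2) ω =
      ∑ f : X → Bool × Bool, if (fun x => ((f x).1 || (f x).2)) = ω then
        ∏ x, ((if (f x).1 then q1 else 1 - q1) * (if (f x).2 then q2 else 1 - q2)) else 0 := by
    intro ω
    have h1 : bernoulliWeight (q1 + q2 - q1 * q2) ω =
        ∏ x, ∑ ab ∈ (univ : Finset (Bool × Bool)).filter (fun ab => (ab.1 || ab.2) = ω x),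
          ((if ab.1 then q1 else 1 - q1) * (if ab.2 then q2 else 1 - q2)) := by
      unfold bernoulliWeight
      refine Finset.prod_congr rfl ?_
      intro x _
      rw [Finset.sum_filter, Fintype.sum_prod_type]
      cases ω x <;> simp <;> ring
    rw [h1, Finset.prod_univ_sum, ← Finset.sum_filter]
    refine Finset.sum_congr ?_ (fun _ _ => rfl)
    ext f
    simp [Fintype.mem_piFinset, funext_iff]
  calc ∑ ω1 : X → Bool, bernoulliWeight q1 ω1 *
        ∑ ω2 : X → Bool, bernoulliWeight q2 ω2 * g (supp ω1 ∪ supp ω2)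
      = ∑ f : (X → Bool) × (X → Bool), bernoulliWeight q1 f.1 * bernoulliWeight q2 f.2 *
          g (supp f.1 ∪ supp f.2) := by
        rw [Fintype.sum_prod_type]
        refine Finset.sum_congr rfl ?_
        intro ω1 _
        rw [Finset.mul_sum]
        refine Finset.sum_congr rfl ?_
        intro ω2 _
        ring
    _ = ∑ f : X → Bool × Bool,
          (∏ x, ((if (f x).1 then q1 else 1 - q1) * (if (f x).2 then q2 else 1 - q2))) *
          g (supp (fun x => ((f x).1 || (f x).2))) := by
        symm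
        refine Fintype.sum_equiv (Equiv.arrowProdEquivProdArrow X (fun _ => Bool) (fun _ => Bool)) _ _ ?_
        intro f
        rw [Finset.prod_mul_distrib]
        congr 2
        ext x
        rw [mem_supp, Finset.mem_union, mem_supp, mem_supp]
        simp [Equiv.arrowProdEquivProdArrow]
    _ = ∑ f : X → Bool × Bool, ∑ ω : X → Bool,
          (if (fun x => ((f x).1 || (f x).2)) = ω then
          (∏ x, ((if (f x).1 then q1 else 1 - q1) * (if (f x).2 then q2 else 1 - q2))) else 0) *
          g (supp ω) := by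
        refine Finset.sum_congr rfl ?_
        intro f _
        simp [ite_mul]
    _ = ∑ ω : X → Bool, bernoulliWeight (q1 + q2 - q1 * q2) ω * g (supp ω) := by
        rw [Finset.sum_comm]
        refine Finset.sum_congr rfl ?_
        intro ω _
        rw [key ω, Finset.sum_mul]

/-- Indicator that no member of the family is contained in `W`. -/
noncomputable def miss (H : Finset (Finset X)) (W : Finset X) : ℝ :=
  if ∃ S ∈ H, S ⊆ W then 0 else 1

lemma miss_nonneg (H : Finset (Finset X)) (W : Finset X) : 0 ≤ miss H W := by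
  unfold miss; split_ifs <;> norm_num

lemma miss_le_one (H : Finset (Finset X)) (W : Finset X) : miss H W ≤ 1 := by
  unfold miss; split_ifs <;> norm_num

lemma miss_anti {H H' : Finset (Finset X)} (h : H ⊆ H') (W : Finset X) :
    miss H' W ≤ miss H W := by
  unfold miss
  split_ifs with h1 h2 h2
  · exact le_rfl
  · norm_num
  · obtain ⟨S, hS, hSW⟩ := h2
    exact absurd ⟨S, h hS, hSW⟩ h1
  · exact le_rfl

lemma miss_union (H : Finset (Finset X)) (W1 W2 : Finset X) :
    miss H (W1 ∪ W2) = miss (H.image (fun S => S \ W1)) W2 := by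
  unfold miss
  have : (∃ S ∈ H, S ⊆ W1 ∪ W2) ↔ ∃ S ∈ H.image (fun S => S \ W1), S ⊆ W2 := by
    constructor
    · rintro ⟨S, hS, hSW⟩
      exact ⟨S \ W1, Finset.mem_image_of_mem _ hS, (sdiff_sub _ _ _).mpr hSW⟩
    · rintro ⟨T, hT, hTW⟩
      obtain ⟨S, hS, rfl⟩ := Finset.mem_image.mp hT
      exact ⟨S, hS, (sdiff_sub _ _ _).mp hTW⟩
  simp only [this]

lemma miss_mono_set (H : Finset (Finset X)) {W W' : Finset X} (h : W ⊆ W') :
    miss H W' ≤ miss H W := by
  unfold miss
  split_ifs with h1 h2 h2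
  · exact le_rfl
  · norm_num
  · obtain ⟨S, hS, hSW⟩ := h2
    exact absurd ⟨S, hS, hSW.trans h⟩ h1
  · exact le_rfl

/-- Monotonicity in the density. -/
lemma EF_miss_anti (H : Finset (Finset X)) {q q' : ℝ} (h0 : 0 ≤ q) (h : q ≤ q') (h1 : q' ≤ 1) :
    EF q' (miss H) ≤ EF q (miss H) := by
  rcases eq_or_lt_of_le h with rfl | hlt
  · exact le_rfl
  have hq1 : q < 1 := lt_of_lt_of_le hlt h1
  have hpos : 0 < 1 - q := by linarith
  set r : ℝ := (q' - q) / (1 - q) with hr
  have hr0 : 0 ≤ r := div_nonneg (by linarith) hpos.le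
  have hr1 : r ≤ 1 := by
    rw [hr, div_le_one hpos]; linarith
  have hq' : q + r - q * r = q' := by
    rw [hr]; field_simp; ring
  rw [← hq', ← EF_union]
  refine EF_mono h0 (by linarith) ?_
  intro W
  calc EF r (fun W2 => miss H (W ∪ W2)) ≤ EF r (fun _ => miss H W) :=
        EF_mono hr0 hr1 (fun W2 => miss_mono_set H Finset.subset_union_left)
    _ = miss H W := EF_const _ _

/-- The inclusion-minimal traces of the family outside `W`. -/
def frag (H : Finset (Finset X)) (W : Finset X) : Finset (Finset X) :=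
  (H.image (fun S => S \ W)).filter (fun T => ∀ T' ∈ H.image (fun S => S \ W), T' ⊆ T → T' = T)

lemma exists_frag (H : Finset (Finset X)) (W S : Finset X) (hS : S ∈ H) :
    ∃ T ∈ frag H W, T ⊆ S := by
  classical
  set R := (H.image (fun S => S \ W)).filter (fun T => T ⊆ S) with hR
  have hne : R.Nonempty := by
    refine ⟨S \ W, ?_⟩
    rw [hR, Finset.mem_filter]
    exact ⟨Finset.mem_image_of_mem _ hS, Finset.sdiff_subset⟩
  obtain ⟨T, hT, hmin⟩ := Finset.exists_min_image R Finset.card hne
  rw [hR, Finset.mem_filter] at hT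
  refine ⟨T, ?_, hT.2⟩
  unfold frag
  rw [Finset.mem_filter]
  refine ⟨hT.1, ?_⟩
  intro T' hT' hsub
  have : T' ∈ R := by
    rw [hR, Finset.mem_filter]
    exact ⟨hT', hsub.trans hT.2⟩
  exact Finset.eq_of_subset_of_card_le hsub (hmin T' this)

/-- The cost of the large fragments. -/
lemma cost_bound (H : Finset (Finset X)) (m : ℕ) (hH : ∀ S ∈ H, S.card < 2 ^ (m + 1))
    (L s : ℝ) (hL : 1 ≤ L) (hs : 0 ≤ s) (hq1 : L * s ≤ 1) :
    EF (L * s) (fun W => ∑ U ∈ (frag H W).filter (fun U => 2 ^ m ≤ U.card), s ^ U.card) ≤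
      (4 / L) ^ (2 ^ m) := by
  classical
  have hL0 : 0 < L := by linarith
  set q := L * s with hq
  have hq0 : 0 ≤ q := by positivity
  have h1q : 0 ≤ 1 - q := by linarith
  -- a chosen edge inside Z
  have hch : ∀ Z : Finset X, ∃ S : Finset X, (∃ S' ∈ H, S' ⊆ Z) → (S ∈ H ∧ S ⊆ Z) := by
    intro Z
    by_cases h : ∃ S' ∈ H, S' ⊆ Z
    · obtain ⟨S', h1, h2⟩ := h
      exact ⟨S', fun _ => ⟨h1, h2⟩⟩
    · exact ⟨∅, fun h' => absurd h' h⟩
  choose cs hcs using hch
  -- the pairs
  set P : Finset (Finset X × Finset X) := (univ : Finset (Finset X × Finset X)).filter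
    (fun WU => WU.2 ∈ (frag H WU.1).filter (fun U => 2 ^ m ≤ U.card)) with hP
  have hfact : ∀ WU ∈ P, Disjoint WU.1 WU.2 ∧ 2 ^ m ≤ WU.2.card ∧
      (∃ S' ∈ H, S' ⊆ WU.1 ∪ WU.2) ∧ WU.2 ⊆ cs (WU.1 ∪ WU.2) := by
    intro WU hWU
    rw [hP, Finset.mem_filter, Finset.mem_filter] at hWU
    obtain ⟨-, hfr, hcard⟩ := hWU
    unfold frag at hfr
    rw [Finset.mem_filter] at hfr
    obtain ⟨him, hmin⟩ := hfr
    obtain ⟨S', hS', hSU⟩ := Finset.mem_image.mp him
    have hdisj : Disjoint WU.1 WU.2 := by
      rw [← hSU]; exact Finset.disjoint_sdiff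
    have hex : ∃ S' ∈ H, S' ⊆ WU.1 ∪ WU.2 := by
      refine ⟨S', hS', ?_⟩
      rw [← hSU]
      intro x hx
      simp only [Finset.mem_union, Finset.mem_sdiff]
      tauto
    refine ⟨hdisj, hcard, hex, ?_⟩
    obtain ⟨hcH, hcZ⟩ := hcs _ hex
    have h1 : cs (WU.1 ∪ WU.2) \ WU.1 ⊆ WU.2 := (sdiff_sub _ _ _).mpr hcZ
    have h2 := hmin _ (Finset.mem_image_of_mem _ hcH) h1
    calc WU.2 = cs (WU.1 ∪ WU.2) \ WU.1 := h2.symm
      _ ⊆ cs (WU.1 ∪ WU.2) := Finset.sdiff_subset
  -- expand
  have hexp : EF q (fun W => ∑ U ∈ (frag H W).filter (fun U => 2 ^ m ≤ U.card), s ^ U.card) =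
      ∑ WU ∈ P, q ^ WU.1.card * (1 - q) ^ (WU.1ᶜ).card * s ^ WU.2.card := by
    rw [EF_eq, hP, Finset.sum_filter, ← Finset.univ_product_univ, Finset.sum_product]
    refine Finset.sum_congr rfl ?_
    intro W _
    rw [Finset.mul_sum, ← Finset.sum_filter]
    refine Finset.sum_congr ?_ (fun _ _ => rfl)
    ext U
    simp
  rw [hexp]
  -- termwise bound
  have hterm : ∀ WU ∈ P, q ^ WU.1.card * (1 - q) ^ (WU.1ᶜ).card * s ^ WU.2.card ≤
      (1 / L) ^ (2 ^ m) *
        (q ^ (WU.1 ∪ WU.2).card * (1 - q) ^ ((WU.1 ∪ WU.2)ᶜ).card) := by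
    intro WU hWU
    obtain ⟨hdisj, hcard, -, -⟩ := hfact WU hWU
    have hs' : s = (1 / L) * q := by rw [hq]; field_simp
    have hc1 : (WU.1 ∪ WU.2).card = WU.1.card + WU.2.card := Finset.card_union_of_disjoint hdisj
    have hc2 : (WU.1ᶜ).card = ((WU.1 ∪ WU.2)ᶜ).card + WU.2.card := by
      rw [Finset.card_compl, Finset.card_compl, hc1]
      have := Finset.card_le_univ (WU.1 ∪ WU.2)
      omega
    have hs2 : s ^ WU.2.card = (1 / L) ^ WU.2.card * q ^ WU.2.card := by
      rw [← mul_pow, ← hs']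
    rw [hs2, hc1, hc2, pow_add, pow_add]
    have hle1 : (1 - q) ^ WU.2.card ≤ 1 := pow_le_one₀ h1q (by linarith)
    have hle2 : (1 / L) ^ WU.2.card ≤ (1 / L) ^ (2 ^ m) :=
      pow_le_pow_of_le_one (by positivity) (by rw [div_le_one hL0]; exact hL) hcard
    set a := q ^ WU.1.card
    set b := (1 - q) ^ ((WU.1 ∪ WU.2)ᶜ).card
    set c := (1 - q) ^ WU.2.card
    set e := q ^ WU.2.card
    have ha : 0 ≤ a := by positivity
    have hb : 0 ≤ b := by positivity
    have hc : 0 ≤ c := by positivity
    have he : 0 ≤ e := by positivity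
    calc a * (b * c) * ((1 / L) ^ WU.2.card * e)
        = ((1 / L) ^ WU.2.card) * (a * b * e) * c := by ring
      _ ≤ ((1 / L) ^ WU.2.card) * (a * b * e) * 1 :=
          mul_le_mul_of_nonneg_left hle1 (by positivity)
      _ ≤ (1 / L) ^ (2 ^ m) * (a * b * e) * 1 := by
          refine mul_le_mul_of_nonneg_right ?_ (by norm_num)
          exact mul_le_mul_of_nonneg_right hle2 (by positivity)
      _ = (1 / L) ^ (2 ^ m) * (a * e * b) := by ring
  refine (Finset.sum_le_sum hterm).trans ?_
  -- group by the union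
  rw [← Finset.mul_sum]
  have hgroup : ∑ WU ∈ P, (q ^ (WU.1 ∪ WU.2).card * (1 - q) ^ ((WU.1 ∪ WU.2)ᶜ).card) ≤
      ∑ Z : Finset X, (2 : ℝ) ^ (2 ^ (m + 1)) * (q ^ Z.card * (1 - q) ^ (Zᶜ).card) := by
    rw [← Finset.sum_fiberwise_of_maps_to (s := P) (t := (univ : Finset (Finset X)))
      (g := fun WU => WU.1 ∪ WU.2) (fun _ _ => Finset.mem_univ _)]
    refine Finset.sum_le_sum ?_
    intro Z _
    have h1 : ∀ WU ∈ P.filter (fun WU => WU.1 ∪ WU.2 = Z),
        (q ^ (WU.1 ∪ WU.2).card * (1 - q) ^ ((WU.1 ∪ WU.2)ᶜ).card) =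
        (q ^ Z.card * (1 - q) ^ (Zᶜ).card) := by
      intro WU hWU
      rw [Finset.mem_filter] at hWU
      rw [hWU.2]
    rw [Finset.sum_congr rfl h1, Finset.sum_const, nsmul_eq_mul]
    refine mul_le_mul_of_nonneg_right ?_ (by positivity)
    -- counting
    have h2 : (P.filter (fun WU => WU.1 ∪ WU.2 = Z)).card ≤ 2 ^ (2 ^ (m + 1)) := by
      by_cases hex : ∃ S' ∈ H, S' ⊆ Z
      · have h3 : (P.filter (fun WU => WU.1 ∪ WU.2 = Z)).card ≤ ((cs Z).powerset).card := by
          refine Finset.card_le_card_of_injOn (fun WU => WU.2) ?_ ?_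
          · intro WU hWU
            have hWU' : WU ∈ P.filter (fun WU => WU.1 ∪ WU.2 = Z) := hWU
            rw [Finset.mem_filter] at hWU'
            have := (hfact WU hWU'.1).2.2.2
            rw [hWU'.2] at this
            simpa using this
          · intro WU hWU WU' hWU' heq
            have h4 : WU ∈ P.filter (fun WU => WU.1 ∪ WU.2 = Z) := hWU
            have h5 : WU' ∈ P.filter (fun WU => WU.1 ∪ WU.2 = Z) := hWU'
            rw [Finset.mem_filter] at h4 h5
            have h6 := (hfact WU h4.1).1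
            have h7 := (hfact WU' h5.1).1
            have h8 : WU.1 = Z \ WU.2 := by
              rw [← h4.2, Finset.union_sdiff_right]
              exact (Finset.sdiff_eq_self_of_disjoint h6).symm
            have h9 : WU'.1 = Z \ WU'.2 := by
              rw [← h5.2, Finset.union_sdiff_right]
              exact (Finset.sdiff_eq_self_of_disjoint h7).symm
            have heq' : WU.2 = WU'.2 := heq
            refine Prod.ext ?_ heq'
            rw [h8, h9, heq']
        refine h3.trans ?_
        rw [Finset.card_powerset]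
        exact Nat.pow_le_pow_right (by norm_num) (hH _ (hcs Z hex).1).le
      · have : P.filter (fun WU => WU.1 ∪ WU.2 = Z) = ∅ := by
          rw [Finset.filter_eq_empty_iff]
          intro WU hWU heq
          apply hex
          have := (hfact WU hWU).2.2.1
          rwa [heq] at this
        rw [this]
        simp
    exact_mod_cast h2
  have htot : ∑ Z : Finset X, (2 : ℝ) ^ (2 ^ (m + 1)) * (q ^ Z.card * (1 - q) ^ (Zᶜ).card) =
      (2 : ℝ) ^ (2 ^ (m + 1)) := by
    have := EF_const (X := X) q ((2 : ℝ) ^ (2 ^ (m + 1)))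
    rw [EF_eq] at this
    rw [← this]
    refine Finset.sum_congr rfl ?_
    intro Z _
    rw [this]
    ring
  rw [htot] at hgroup
  calc (1 / L) ^ (2 ^ m) * ∑ WU ∈ P, (q ^ (WU.1 ∪ WU.2).card *
        (1 - q) ^ ((WU.1 ∪ WU.2)ᶜ).card)
      ≤ (1 / L) ^ (2 ^ m) * (2 : ℝ) ^ (2 ^ (m + 1)) :=
        mul_le_mul_of_nonneg_left hgroup (by positivity)
    _ = (4 / L) ^ (2 ^ m) := by
        rw [pow_succ 2 m, mul_comm (2 ^ m) 2, pow_mul, ← mul_pow]
        congr 1
        ring

/-- Number of indices whose set contains a member of the family. -/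
def cov {ι : Type*} [Fintype ι] (A : ι → Finset X) (H : Finset (Finset X)) : ℕ :=
  ((univ : Finset ι).filter (fun i => ∃ S ∈ H, S ⊆ A i)).card

/-- The density after `m` rounds. -/
noncomputable def qm (q : ℝ) : ℕ → ℝ
  | 0 => 0
  | m + 1 => q + qm q m - q * qm q m

lemma qm_nonneg {q : ℝ} (h0 : 0 ≤ q) (h1 : q ≤ 1) (m : ℕ) : 0 ≤ qm q m ∧ qm q m ≤ 1 := by
  induction m with
  | zero => simp [qm]
  | succ m ih =>
    obtain ⟨ih0, ih1⟩ := ih
    simp only [qm]
    constructor
    · nlinarith
    · nlinarith [mul_nonneg (sub_nonneg.mpr h1) (sub_nonneg.mpr ih1)]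

lemma qm_le {q : ℝ} (h0 : 0 ≤ q) (h1 : q ≤ 1) (m : ℕ) : qm q m ≤ m * q := by
  induction m with
  | zero => simp [qm]
  | succ m ih =>
    have := (qm_nonneg h0 h1 m).1
    simp only [qm]
    push_cast
    nlinarith [mul_nonneg h0 this]

/-- The main induction on the number of rounds. -/
theorem main_ind {ι : Type*} [Fintype ι] (A : ι → Finset X) (L s : ℝ) (hL : 1 ≤ L) (hs : 0 ≤ s)
    (hq1 : L * s ≤ 1)
    (hspread : ∀ S : Finset X, (((univ : Finset ι).filter (fun i => S ⊆ A i)).card : ℝ) ≤
      Fintype.card ι * s ^ S.card) (m : ℕ) :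
    ∀ H : Finset (Finset X), (∀ S ∈ H, S.card < 2 ^ m) →
      (cov A H : ℝ) * EF (qm (L * s) m) (miss H) ≤
        Fintype.card ι * ∑ j ∈ range m, (4 / L) ^ (2 ^ j) := by
  classical
  have hL0 : 0 < L := by linarith
  have hq0 : 0 ≤ L * s := by positivity
  induction m with
  | zero =>
    intro H hH
    rw [Finset.range_zero, Finset.sum_empty, mul_zero]
    rcases H.eq_empty_or_nonempty with rfl | ⟨S, hS⟩
    · have : cov A (∅ : Finset (Finset X)) = 0 := by
        unfold cov
        rw [Finset.card_eq_zero, Finset.filter_eq_empty_iff]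
        rintro i - ⟨S, hS, -⟩
        exact absurd hS (Finset.notMem_empty S)
      rw [this]; simp
    · have hS0 : S = ∅ := by
        have := hH S hS
        rw [pow_zero] at this
        exact Finset.card_eq_zero.mp (by omega)
      have : ∀ W, miss H W = 0 := by
        intro W
        unfold miss
        rw [if_pos]
        exact ⟨S, hS, by rw [hS0]; exact Finset.empty_subset _⟩
      have h2 : EF (qm (L * s) 0) (miss H) = 0 := by
        have h3 : miss H = fun _ => (0 : ℝ) := funext this
        rw [h3, EF_const]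
      rw [h2, mul_zero]
  | succ m ih =>
    intro H hH
    set q := L * s with hq
    obtain ⟨hqm0, hqm1⟩ := qm_nonneg hq0 hq1 m
    set N : ℝ := (Fintype.card ι : ℝ) with hN
    have hN0 : 0 ≤ N := by positivity
    -- the small and large fragments
    set sm : Finset X → Finset (Finset X) :=
      fun W => (frag H W).filter (fun U => ¬ 2 ^ m ≤ U.card) with hsm
    set lg : Finset X → Finset (Finset X) :=
      fun W => (frag H W).filter (fun U => 2 ^ m ≤ U.card) with hlg
    have h1 : EF (qm q (m + 1)) (miss H) ≤ EF q (fun W => EF (qm q m) (miss (sm W))) := by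
      simp only [qm]
      rw [← EF_union]
      refine EF_mono hq0 hq1 ?_
      intro W
      refine EF_mono hqm0 hqm1 ?_
      intro W2
      rw [miss_union]
      refine miss_anti ?_ W2
      intro T hT
      rw [hsm] at hT
      have h2 := (Finset.mem_filter.mp hT).1
      unfold frag at h2
      exact (Finset.mem_filter.mp h2).1
    have hcov : ∀ W : Finset X, (cov A H : ℝ) ≤ cov A (sm W) +
        N * ∑ U ∈ lg W, s ^ U.card := by
      intro W
      have h2 : cov A H ≤ cov A (sm W) +
          ∑ U ∈ lg W, ((univ : Finset ι).filter (fun i => U ⊆ A i)).card := by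
        have h3 : (univ : Finset ι).filter (fun i => ∃ S ∈ H, S ⊆ A i) ⊆
            (univ : Finset ι).filter (fun i => ∃ S ∈ sm W, S ⊆ A i) ∪
            (lg W).biUnion (fun U => (univ : Finset ι).filter (fun i => U ⊆ A i)) := by
          intro i hi
          rw [Finset.mem_filter] at hi
          obtain ⟨-, S, hS, hSA⟩ := hi
          obtain ⟨T, hT, hTS⟩ := exists_frag H W S hS
          rw [Finset.mem_union, Finset.mem_filter, Finset.mem_biUnion]
          by_cases hc : 2 ^ m ≤ T.card
          · right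
            exact ⟨T, Finset.mem_filter.mpr ⟨hT, hc⟩,
              Finset.mem_filter.mpr ⟨Finset.mem_univ _, hTS.trans hSA⟩⟩
          · left
            exact ⟨Finset.mem_univ _, T, Finset.mem_filter.mpr ⟨hT, hc⟩, hTS.trans hSA⟩
        calc cov A H ≤ _ := Finset.card_le_card h3
          _ ≤ _ := Finset.card_union_le _ _
          _ ≤ _ := Nat.add_le_add_left Finset.card_biUnion_le _
      have h4 : (cov A H : ℝ) ≤ cov A (sm W) +
          ∑ U ∈ lg W, (((univ : Finset ι).filter (fun i => U ⊆ A i)).card : ℝ) := by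
        exact_mod_cast h2
      refine h4.trans ?_
      rw [Finset.mul_sum]
      have := Finset.sum_le_sum (s := lg W) (fun U _ => hspread U)
      linarith
    have hsmall : ∀ W : Finset X, ∀ S ∈ sm W, S.card < 2 ^ m := by
      intro W S hS
      have := (Finset.mem_filter.mp hS).2
      omega
    calc (cov A H : ℝ) * EF (qm q (m + 1)) (miss H)
        ≤ cov A H * EF q (fun W => EF (qm q m) (miss (sm W))) :=
          mul_le_mul_of_nonneg_left h1 (by positivity)
      _ = EF q (fun W => cov A H * EF (qm q m) (miss (sm W))) := (EF_mul_left _ _ _).symm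
      _ ≤ EF q (fun W => N * ∑ j ∈ range m, (4 / L) ^ (2 ^ j) +
            N * ∑ U ∈ lg W, s ^ U.card) := by
          refine EF_mono hq0 hq1 ?_
          intro W
          have hE0 : 0 ≤ EF (qm q m) (miss (sm W)) := by
            calc (0 : ℝ) = EF (qm q m) (fun _ => (0 : ℝ)) := (EF_const _ _).symm
              _ ≤ _ := EF_mono hqm0 hqm1 (fun W2 => miss_nonneg _ _)
          have hE1 : EF (qm q m) (miss (sm W)) ≤ 1 := by
            calc EF (qm q m) (miss (sm W)) ≤ EF (qm q m) (fun _ => (1 : ℝ)) :=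
                  EF_mono hqm0 hqm1 (fun W2 => miss_le_one _ _)
              _ = 1 := EF_const _ _
          have h5 := ih (sm W) (hsmall W)
          have h6 : 0 ≤ N * ∑ U ∈ lg W, s ^ U.card := by positivity
          calc (cov A H : ℝ) * EF (qm q m) (miss (sm W))
              ≤ (cov A (sm W) + N * ∑ U ∈ lg W, s ^ U.card) * EF (qm q m) (miss (sm W)) :=
                mul_le_mul_of_nonneg_right (hcov W) hE0
            _ = cov A (sm W) * EF (qm q m) (miss (sm W)) +
                (N * ∑ U ∈ lg W, s ^ U.card) * EF (qm q m) (miss (sm W)) := by ring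
            _ ≤ N * ∑ j ∈ range m, (4 / L) ^ (2 ^ j) +
                (N * ∑ U ∈ lg W, s ^ U.card) * 1 :=
                add_le_add h5 (mul_le_mul_of_nonneg_left hE1 h6)
            _ = _ := by ring
      _ = N * ∑ j ∈ range m, (4 / L) ^ (2 ^ j) + N * EF q (fun W => ∑ U ∈ lg W, s ^ U.card) := by
          rw [EF_add, EF_const, EF_mul_left]
      _ ≤ N * ∑ j ∈ range m, (4 / L) ^ (2 ^ j) + N * (4 / L) ^ (2 ^ m) := by
          have := cost_bound H m hH L s hL hs hq1
          have := mul_le_mul_of_nonneg_left this hN0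
          linarith
      _ = N * ∑ j ∈ range (m + 1), (4 / L) ^ (2 ^ j) := by
          rw [Finset.sum_range_succ]; ring

lemma geom_bound (m : ℕ) : ∑ j ∈ range m, ((4 : ℝ) / 12) ^ (2 ^ j) ≤ 1 / 2 := by
  have h1 : ∀ j ∈ range m, ((4 : ℝ) / 12) ^ (2 ^ j) ≤ (1 / 3) ^ (j + 1) := by
    intro j _
    have : ((4 : ℝ) / 12) = 1 / 3 := by norm_num
    rw [this]
    exact pow_le_pow_of_le_one (by norm_num) (by norm_num) Nat.lt_two_pow_self
  refine (Finset.sum_le_sum h1).trans ?_
  have h2 : ∑ j ∈ range m, ((1 : ℝ) / 3) ^ (j + 1) = 1 / 2 - 1 / 2 * (1 / 3) ^ m := by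
    induction m with
    | zero => simp
    | succ m ih =>
      rw [Finset.sum_range_succ, ih (fun j hj => h1 j (Finset.mem_range.mpr
        (by have := Finset.mem_range.mp hj; omega)))]
      ring
  rw [h2]
  have : (0 : ℝ) ≤ 1 / 2 * (1 / 3) ^ m := by positivity
  linarith

/-- Probability of hitting in terms of `miss`. -/
lemma prob_eq {ι : Type*} [Fintype ι] (A : ι → Finset X) (q : ℝ) :
    bernoulliProb q {ω : X → Bool | ∃ i, ∀ e ∈ A i, ω e = true} =
      1 - EF q (miss ((univ : Finset ι).image A)) := by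
  classical
  have h1 : (1 : ℝ) = EF q (fun _ : Finset X => (1 : ℝ)) := (EF_const _ _).symm
  have h2 : bernoulliProb q {ω : X → Bool | ∃ i, ∀ e ∈ A i, ω e = true} =
      EF q (fun W => 1 - miss ((univ : Finset ι).image A) W) := by
    unfold bernoulliProb EF
    rw [Finset.sum_filter]
    refine Finset.sum_congr rfl ?_
    intro ω _
    have h3 : ω ∈ {ω : X → Bool | ∃ i, ∀ e ∈ A i, ω e = true} ↔
        ∃ S ∈ (univ : Finset ι).image A, S ⊆ supp ω := by
      rw [Set.mem_ofPred_eq]
      simp only [Finset.mem_image, Finset.mem_univ, true_and, exists_exists_eq_and]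
      refine exists_congr ?_
      intro i
      constructor
      · intro h e he
        exact (mem_supp ω e).mpr (h e he)
      · intro h e he
        exact (mem_supp ω e).mp (h he)
    unfold miss
    beta_reduce
    by_cases h4 : ∃ S ∈ (univ : Finset ι).image A, S ⊆ supp ω
    · rw [if_pos (h3.mpr h4), if_pos h4]; ring
    · rw [if_neg (fun h => h4 (h3.mp h)), if_neg h4]; ring
  rw [h2]
  have h5 : (fun W => 1 - miss ((univ : Finset ι).image A) W) =
      fun W => (fun _ : Finset X => (1 : ℝ)) W +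
        (-1) * miss ((univ : Finset ι).image A) W := by
    funext W; ring
  rw [h5, EF_add, EF_mul_left, ← h1]
  ring

/-- The fractional Kahn–Kalai theorem with constant `12`. -/
theorem fknp {ι : Type*} [Fintype ι] [Nonempty ι] (A : ι → Finset X) (h : ℕ) (hh : 1 ≤ h)
    (hA : ∀ i, (A i).card ≤ h) (s : ℝ) (hs : 0 ≤ s)
    (hspread : ∀ S : Finset X, (((univ : Finset ι).filter (fun i => S ⊆ A i)).card : ℝ) ≤
      Fintype.card ι * s ^ S.card)
    (Q : ℝ) (hQ1 : Q ≤ 1) (hQ : min 1 (12 * s * (1 + Real.logb 2 (h : ℝ))) ≤ Q) :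
    1 / 2 ≤ bernoulliProb Q {ω : X → Bool | ∃ i, ∀ e ∈ A i, ω e = true} := by
  classical
  rw [prob_eq]
  set H := (univ : Finset ι).image A with hH
  have hlog0 : 0 ≤ Real.logb 2 (h : ℝ) :=
    Real.logb_nonneg (by norm_num) (by exact_mod_cast hh)
  set m := Nat.log 2 h + 1 with hm
  have hNpos : (0 : ℝ) < Fintype.card ι := by exact_mod_cast Fintype.card_pos
  have hcov : cov A H = Fintype.card ι := by
    unfold cov
    rw [Finset.filter_true_of_mem, Finset.card_univ]
    intro i _
    exact ⟨A i, Finset.mem_image_of_mem _ (Finset.mem_univ i), Finset.Subset.refl _⟩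
  rcases le_or_gt 1 (12 * s * (1 + Real.logb 2 (h : ℝ))) with hbig | hsmall
  · -- density one
    rw [min_eq_left hbig] at hQ
    have hQ' : Q = 1 := le_antisymm hQ1 hQ
    have h0 : EF (1 : ℝ) (miss H) = 0 := by
      rw [EF_eq]
      refine Finset.sum_eq_zero ?_
      intro W _
      by_cases hW : W = univ
      · have : miss H W = 0 := by
          unfold miss
          rw [if_pos]
          obtain ⟨i⟩ := (inferInstance : Nonempty ι)
          exact ⟨A i, Finset.mem_image_of_mem _ (Finset.mem_univ i), by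
            rw [hW]; exact Finset.subset_univ _⟩
        rw [this, mul_zero]
      · have : (Wᶜ).card ≠ 0 := by
          rw [Ne, Finset.card_eq_zero, Finset.compl_eq_empty_iff]
          exact hW
        rw [sub_self, zero_pow this]
        ring
    rw [hQ', h0]
    norm_num
  · rw [min_eq_right hsmall.le] at hQ
    have hq0 : 0 ≤ 12 * s := by positivity
    have hq1 : 12 * s ≤ 1 := by nlinarith
    have hcard : ∀ S ∈ H, S.card < 2 ^ m := by
      intro S hS
      obtain ⟨i, -, rfl⟩ := Finset.mem_image.mp hS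
      exact lt_of_le_of_lt (hA i) (Nat.lt_pow_succ_log_self (by norm_num) h)
    have hmain := main_ind A 12 s (by norm_num) hs hq1 hspread m H hcard
    rw [hcov] at hmain
    have h1 : EF (qm (12 * s) m) (miss H) ≤ 1 / 2 := by
      have h2 := le_of_mul_le_mul_left hmain hNpos
      exact h2.trans (geom_bound m)
    obtain ⟨hqm0, -⟩ := qm_nonneg hq0 hq1 m
    have hqmQ : qm (12 * s) m ≤ Q := by
      refine (qm_le hq0 hq1 m).trans (le_trans ?_ hQ)
      have h3 : (Nat.log 2 h : ℝ) ≤ Real.logb 2 (h : ℝ) := by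
        exact_mod_cast Real.natLog_le_logb h 2
      rw [hm]
      push_cast
      nlinarith
    have h4 := EF_miss_anti H hqm0 hqmQ hQ1
    linarith

end Crest.Agent.H12Fknp
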