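import Mathlib

/-!
Conditionally independent copies, used for the triple law of S0241.
-/

set_option autoImplicit false

open MeasureTheory ProbabilityTheory Filter Topology

namespace Crest.Agent.H12IsgCopy

variable {E B : Type*} [MeasurableSpace E] [MeasurableSpace B] [StandardBorelSpace B] [Nonempty B]

/-- Law of `(e, b, b')` with `b`, `b'` conditionally independent given `e`. -/
noncomputable def dbl (m : Measure (E × B)) [IsFiniteMeasure m] : Measure (E × (B × B)) :=
  m.fst ⊗ₘ (m.condKernel ×ₖ m.condKernel)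

variable (m : Measure (E × B)) [IsFiniteMeasure m]

lemma lintegral_dbl {F : E × (B × B) → ENNReal} (hF : Measurable F) :
    ∫⁻ q, F q ∂(dbl m) = ∫⁻ e, ∫⁻ y, ∫⁻ y', F (e, (y, y')) ∂(m.condKernel e)
      ∂(m.condKernel e) ∂m.fst := by
  unfold dbl
  rw [Measure.lintegral_compProd hF]
  refine lintegral_congr (fun e => ?_)
  rw [Kernel.prod_apply, lintegral_prod]
  exact (hF.comp (measurable_const.prodMk measurable_id)).aemeasurable

lemma lintegral_m {F : E × B → ENNReal} (hF : Measurable F) :
    ∫⁻ q, F q ∂m = ∫⁻ e, ∫⁻ y, F (e, y) ∂(m.condKernel e) ∂m.fst := by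
  conv_lhs => rw [← m.disintegrate m.condKernel]
  rw [Measure.lintegral_compProd hF]

instance [IsProbabilityMeasure m] : IsProbabilityMeasure (dbl m) := by
  unfold dbl
  infer_instance

lemma dbl_fst : (dbl m).map (fun q => (q.1, q.2.1)) = m := by
  refine Measure.ext_of_lintegral _ (fun f hf => ?_)
  rw [lintegral_map hf (by fun_prop), lintegral_dbl m (F := fun q => f (q.1, q.2.1))
    (by fun_prop), lintegral_m m hf]
  simp

lemma dbl_snd : (dbl m).map (fun q => (q.1, q.2.2)) = m := by
  refine Measure.ext_of_lintegral _ (fun f hf => ?_)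
  rw [lintegral_map hf (by fun_prop), lintegral_dbl m (F := fun q => f (q.1, q.2.2))
    (by fun_prop), lintegral_m m hf]
  simp

lemma dbl_swap : (dbl m).map (fun q => (q.1, (q.2.2, q.2.1))) = dbl m := by
  refine Measure.ext_of_lintegral _ (fun f hf => ?_)
  rw [lintegral_map hf (by fun_prop), lintegral_dbl m (F := fun q => f (q.1, (q.2.2, q.2.1)))
    (by fun_prop), lintegral_dbl m hf]
  refine lintegral_congr (fun e => ?_)
  rw [lintegral_lintegral_swap]
  exact Measurable.aemeasurable (by fun_prop)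

/-- Equivariance of the conditional kernel. -/
lemma condKernel_equiv (s : E ≃ᵐ E) (t : B ≃ᵐ B) (hm : m.map (fun q => (s q.1, t q.2)) = m) :
    ∀ᵐ e ∂m.fst, (m.condKernel e).map t = m.condKernel (s e) := by
  have hfst : m.fst.map s = m.fst := by
    conv_rhs => rw [← hm]
    unfold Measure.fst
    rw [Measure.map_map s.measurable measurable_fst, Measure.map_map measurable_fst (by fun_prop)]
    rfl
  have hk : ∀ᵐ e ∂m.fst, ((m.condKernel.comap s s.measurable).map t.symm) e = m.condKernel e := by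
    refine eq_condKernel_of_measure_eq_compProd _ ?_
    refine Measure.ext_of_lintegral _ (fun f hf => ?_)
    rw [Measure.lintegral_compProd hf]
    have h1 : ∀ e, ∫⁻ y, f (e, y) ∂(((m.condKernel.comap s s.measurable).map t.symm) e) =
        ∫⁻ y, f (s.symm (s e), t.symm y) ∂(m.condKernel (s e)) := by
      intro e
      rw [Kernel.map_apply _ t.symm.measurable, Kernel.comap_apply,
        lintegral_map (f := fun y => f (e, y)) (by fun_prop) t.symm.measurable]
      simp
    have h2 : Measurable (fun q : E × B => f (s.symm q.1, t.symm q.2)) := by fun_prop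
    have h3 : Measurable (fun e => ∫⁻ y, f (s.symm e, t.symm y) ∂(m.condKernel e)) :=
      h2.lintegral_kernel_prod_right'
    simp_rw [h1]
    rw [← lintegral_map (f := fun e => ∫⁻ y, f (s.symm e, t.symm y) ∂(m.condKernel e)) h3
      s.measurable, hfst, ← lintegral_m m (F := fun q => f (s.symm q.1, t.symm q.2)) h2]
    conv_rhs => rw [← hm]
    rw [lintegral_map h2 (by fun_prop)]
    simp
  filter_upwards [hk] with e he
  rw [← he, Kernel.map_apply _ t.symm.measurable, Kernel.comap_apply,
    Measure.map_map t.measurable t.symm.measurable]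
  simp

/-- Invariance. -/
lemma dbl_map (s : E ≃ᵐ E) (t : B ≃ᵐ B) (hm : m.map (fun q => (s q.1, t q.2)) = m) :
    (dbl m).map (fun q => (s q.1, (t q.2.1, t q.2.2))) = dbl m := by
  have hfst : m.fst.map s = m.fst := by
    conv_rhs => rw [← hm]
    unfold Measure.fst
    rw [Measure.map_map s.measurable measurable_fst, Measure.map_map measurable_fst (by fun_prop)]
    rfl
  refine Measure.ext_of_lintegral _ (fun f hf => ?_)
  rw [lintegral_map hf (by fun_prop),
    lintegral_dbl m (F := fun q => f (s q.1, (t q.2.1, t q.2.2))) (by fun_prop),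
    lintegral_dbl m hf]
  have h3 : Measurable (fun e => ∫⁻ y, ∫⁻ y', f (e, (y, y')) ∂(m.condKernel e)
      ∂(m.condKernel e)) := by
    have h4 : Measurable (fun q : E × B => ∫⁻ y', f (q.1, (q.2, y')) ∂(m.condKernel q.1)) := by
      have h5 : Measurable (fun q : (E × B) × B => f (q.1.1, (q.1.2, q.2))) := by fun_prop
      exact (h5.lintegral_kernel_prod_right' (κ := m.condKernel.comap Prod.fst measurable_fst))
    exact h4.lintegral_kernel_prod_right' (κ := m.condKernel)
  conv_rhs => rw [← hfst]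
  rw [lintegral_map h3 s.measurable]
  refine lintegral_congr_ae ?_
  filter_upwards [condKernel_equiv m s t hm] with e he
  rw [← he]
  rw [lintegral_map (by
    exact Measurable.lintegral_prod_right' (f := fun q : B × B => f (s e, (q.1, q.2)))
      (by fun_prop)) t.measurable]
  refine lintegral_congr (fun y => ?_)
  rw [lintegral_map (by fun_prop) t.measurable]

/-- Products factorise. -/
lemma lintegral_dbl_mul {h : E → ENNReal} {f1 f2 : E × B → ENNReal} (hh : Measurable h)
    (h1 : Measurable f1) (h2 : Measurable f2) :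
    ∫⁻ q, h q.1 * f1 (q.1, q.2.1) * f2 (q.1, q.2.2) ∂(dbl m) =
      ∫⁻ e, h e * (∫⁻ y, f1 (e, y) ∂(m.condKernel e)) * (∫⁻ y, f2 (e, y) ∂(m.condKernel e))
        ∂m.fst := by
  rw [lintegral_dbl m (F := fun q => h q.1 * f1 (q.1, q.2.1) * f2 (q.1, q.2.2)) (by fun_prop)]
  refine lintegral_congr (fun e => ?_)
  have e1 : ∀ y, ∫⁻ y', h e * f1 (e, y) * f2 (e, y') ∂(m.condKernel e) =
      (h e * f1 (e, y)) * ∫⁻ y', f2 (e, y') ∂(m.condKernel e) := by
    intro y
    rw [lintegral_const_mul _ (by fun_prop)]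
  simp_rw [e1]
  rw [lintegral_mul_const _ (by fun_prop), lintegral_const_mul _ (by fun_prop)]

/-- If the two copies agree then the second variable is a function of the first. -/
lemma exists_of_diag {O : Type*} [Countable O] (m : Measure (E × (O → unitInterval)))
    [IsFiniteMeasure m] (h : ∀ᵐ q ∂(dbl m), q.2.1 = q.2.2) :
    ∃ Φ : E → (O → unitInterval), Measurable Φ ∧ ∀ᵐ q ∂m, q.2 = Φ q.1 := by
  let Φ : E → (O → unitInterval) := fun e β =>
    Set.projIcc 0 1 zero_le_one (∫ y, (y β : ℝ) ∂(m.condKernel e))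
  have hΦ : Measurable Φ := by
    refine measurable_pi_lambda _ (fun β => ?_)
    have h1 : Measurable (fun e => ∫ y, (y β : ℝ) ∂(m.condKernel e)) := by
      have h2 : StronglyMeasurable (fun q : E × (O → unitInterval) => ((q.2 β : ℝ))) :=
        Measurable.stronglyMeasurable (by fun_prop)
      exact (h2.integral_kernel_prod_right').measurable
    exact continuous_projIcc.measurable.comp h1
  refine ⟨Φ, hΦ, ?_⟩
  have h1 : ∀ᵐ e ∂m.fst, ∀ᵐ q ∂((m.condKernel ×ₖ m.condKernel) e), q.1 = q.2 := by
    unfold dbl at h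
    exact Measure.ae_ae_of_ae_compProd h
  have h2 : ∀ᵐ e ∂m.fst, ∀ᵐ y ∂(m.condKernel e), y = Φ e := by
    filter_upwards [h1] with e he
    rw [Kernel.prod_apply] at he
    filter_upwards [Measure.ae_ae_of_ae_prod he] with y hy
    funext β
    have h3 : ∫ y' : O → unitInterval, (y' β : ℝ) ∂(m.condKernel e) = (y β : ℝ) := by
      have h4 : ∫ y' : O → unitInterval, (y' β : ℝ) ∂(m.condKernel e) =
          ∫ _y' : O → unitInterval, (y β : ℝ) ∂(m.condKernel e) := by
        refine integral_congr_ae ?_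
        filter_upwards [hy] with y' hy'
        rw [← hy']
      rw [h4]
      simp
    change y β = Set.projIcc 0 1 zero_le_one (∫ y, (y β : ℝ) ∂(m.condKernel e))
    rw [h3]
    exact (Set.projIcc_val zero_le_one (y β)).symm
  have hset : MeasurableSet {q : E × (O → unitInterval) | q.2 = Φ q.1} :=
    measurableSet_eq_fun (by fun_prop) (by fun_prop)
  have h3 : ∀ᵐ q ∂(m.fst ⊗ₘ m.condKernel), q.2 = Φ q.1 :=
    (Measure.ae_compProd_iff hset).mpr h2
  rwa [m.disintegrate m.condKernel] at h3

/-- Test criterion for a function to factor through a map. -/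
lemma exists_factor {E E' : Type*} [mE : MeasurableSpace E] [mE' : MeasurableSpace E']
    (ν : Measure E) [IsProbabilityMeasure ν] (π : E → E') (hπ : Measurable π) (g : E → ℝ)
    (hg : Measurable g) (hg0 : ∀ e, 0 ≤ g e) (hg1 : ∀ e, g e ≤ 1) (𝓑 : Set (Set E))
    (hgen : mE = MeasurableSpace.generateFrom 𝓑) (hpi : IsPiSystem 𝓑) (huniv : Set.univ ∈ 𝓑)
    (h : ∀ A ∈ 𝓑, ∃ k : E' → ℝ, Measurable k ∧ (∃ C, ∀ x, |k x| ≤ C) ∧
      ∫ e in A, g e ∂ν = ∫ e, g e * k (π e) ∂ν ∧
      ∀ H : E' → ℝ, Measurable H → (∀ x, 0 ≤ H x) → (∀ x, H x ≤ 1) →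
        ∫ e in A, H (π e) ∂ν = ∫ e, H (π e) * k (π e) ∂ν) :
    ∃ H : E' → ℝ, Measurable H ∧ (∀ x, 0 ≤ H x) ∧ (∀ x, H x ≤ 1) ∧
      g =ᵐ[ν] fun e => H (π e) := by
  have hle : mE'.comap π ≤ mE := hπ.comap_le
  have hgi : Integrable g ν := by
    refine Integrable.of_bound hg.aestronglyMeasurable 1 (ae_of_all _ (fun e => ?_))
    rw [Real.norm_eq_abs, abs_of_nonneg (hg0 e)]
    exact hg1 e
  set c : E → ℝ := ν[g | mE'.comap π] with hc
  have hcm : StronglyMeasurable[mE'.comap π] c := stronglyMeasurable_condExp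
  obtain ⟨H0, hH0, hcH⟩ := hcm.exists_eq_measurable_comp
  have hc0 : 0 ≤ᵐ[ν] c := condExp_nonneg (ae_of_all _ hg0)
  have hc1 : c ≤ᵐ[ν] fun _ => (1 : ℝ) := by
    have h1 : ν[g | mE'.comap π] ≤ᵐ[ν] ν[fun _ => (1 : ℝ) | mE'.comap π] :=
      condExp_mono hgi (integrable_const _) (ae_of_all _ hg1)
    rwa [condExp_const hle] at h1
  let H : E' → ℝ := fun x => max 0 (min 1 (H0 x))
  have hHm : Measurable H := measurable_const.max (measurable_const.min hH0.measurable)
  have hH0' : ∀ x, 0 ≤ H x := fun x => le_max_left _ _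
  have hH1' : ∀ x, H x ≤ 1 := fun x => max_le zero_le_one (min_le_left _ _)
  have hHc : (fun e => H (π e)) =ᵐ[ν] c := by
    filter_upwards [hc0, hc1] with e h0 h1
    have h2 : c e = H0 (π e) := congrFun hcH e
    have h0' : 0 ≤ c e := h0
    change max 0 (min 1 (H0 (π e))) = c e
    rw [← h2, min_eq_right h1, max_eq_right h0']
  refine ⟨H, hHm, hH0', hH1', ?_⟩
  have hHi : Integrable (fun e => H (π e)) ν := by
    refine Integrable.of_bound (hHm.comp hπ).aestronglyMeasurable 1 (ae_of_all _ (fun e => ?_))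
    rw [Real.norm_eq_abs, abs_of_nonneg (hH0' _)]
    exact hH1' _
  have key : ∀ A ∈ 𝓑, ∫ e in A, g e ∂ν = ∫ e in A, H (π e) ∂ν := by
    intro A hA
    obtain ⟨k, hk, ⟨C, hC⟩, hk1, hk2⟩ := h A hA
    rw [hk1, hk2 H hHm hH0' hH1']
    have hkm : StronglyMeasurable[mE'.comap π] (fun e => k (π e)) :=
      (hk.stronglyMeasurable).comp_measurable (comap_measurable π)
    have hgk : Integrable (fun e => g e * k (π e)) ν := by
      refine Integrable.of_bound (hg.mul (hk.comp hπ)).aestronglyMeasurable C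
        (ae_of_all _ (fun e => ?_))
      rw [Real.norm_eq_abs, abs_mul, abs_of_nonneg (hg0 e)]
      have := hC (π e)
      have h3 := abs_nonneg (k (π e))
      nlinarith [hg0 e, hg1 e]
    have h4 : ν[fun e => g e * k (π e) | mE'.comap π] =ᵐ[ν] fun e => c e * k (π e) :=
      condExp_mul_of_stronglyMeasurable_right hkm hgk hgi
    calc ∫ e, g e * k (π e) ∂ν = ∫ e, (ν[fun e => g e * k (π e) | mE'.comap π]) e ∂ν :=
          (integral_condExp hle).symm
      _ = ∫ e, c e * k (π e) ∂ν := integral_congr_ae h4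
      _ = ∫ e, H (π e) * k (π e) ∂ν := by
          refine integral_congr_ae ?_
          filter_upwards [hHc] with e he
          rw [he]
  have hmeas : ν.withDensity (fun e => ENNReal.ofReal (g e)) =
      ν.withDensity (fun e => ENNReal.ofReal (H (π e))) := by
    have hlt : ∀ f : E → ℝ, Integrable f ν → (∀ e, 0 ≤ f e) → ∀ A : Set E,
        MeasurableSet A → (ν.withDensity (fun e => ENNReal.ofReal (f e))) A =
          ENNReal.ofReal (∫ e in A, f e ∂ν) := by
      intro f hf hf0 A hA
      rw [withDensity_apply _ hA, ofReal_integral_eq_lintegral_ofReal hf.integrableOn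
        (ae_of_all _ hf0)]
    have hmA : ∀ A ∈ 𝓑, MeasurableSet A := by
      intro A hA
      rw [hgen]
      exact MeasurableSpace.measurableSet_generateFrom hA
    have hf1 : IsFiniteMeasure (ν.withDensity (fun e => ENNReal.ofReal (g e))) :=
      isFiniteMeasure_withDensity_ofReal hgi.2
    refine ext_of_generate_finite 𝓑 hgen hpi ?_ ?_
    · intro A hA
      rw [hlt g hgi hg0 A (hmA A hA), hlt _ hHi (fun e => hH0' _) A (hmA A hA), key A hA]
    · rw [hlt g hgi hg0 _ MeasurableSet.univ, hlt _ hHi (fun e => hH0' _) _ MeasurableSet.univ,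
        key _ huniv]
  have hae := (withDensity_eq_iff (hg.ennreal_ofReal.aemeasurable)
    ((hHm.comp hπ).ennreal_ofReal.aemeasurable) (by
      rw [← ofReal_integral_eq_lintegral_ofReal hgi (ae_of_all _ hg0)]
      exact ENNReal.ofReal_ne_top)).mp hmeas
  filter_upwards [hae] with e he
  exact (ENNReal.ofReal_eq_ofReal_iff (hg0 e) (hH0' _)).mp he

end Crest.Agent.H12IsgCopy
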