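import Mathlib
import Crest.Prelude.Def_FinProb
import Crest.Prelude.Def_RandomGraph

/-!
Interface for S0076 (second Kahn-Kalai).  Three modules:
* Core   (helper19, H19KKCore.lean)   : group-action counting theorem.
* Spread (H??KKSpread.lean)           : fractional Kahn-Kalai (Frankston-Kahn-Narayanan-Park) with a very generous constant.
* Trans  (H??KKTrans.lean)            : graphs <-> group action.
-/

set_option autoImplicit false
open Finset
open scoped Pointwise

namespace Crest.Agent.H19KK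

/-- Core counting theorem (any finite group acting on a finite set). -/
def Core : Prop :=
  ∀ (G E : Type) [Group G] [Fintype G] [Fintype E] [DecidableEq E] [MulAction G E]
    (H : Finset E) (q : ℝ), 0 < q →
    (∀ F : Finset E, F ⊆ H → F.Nonempty →
      Real.exp (48 * (F.card : ℝ)) * ((univ.filter (fun g : G => g • F = F)).card : ℝ)
        < q ^ F.card * (Fintype.card G : ℝ)) →
    ∀ S : Finset E, ((univ.filter (fun g : G => g • S ⊆ H)).card : ℝ)
      ≤ q ^ S.card * (Fintype.card G : ℝ)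

/-- Fractional Kahn-Kalai / spread lemma, for an indexed family of `h`-element sets. -/
def Spread : Prop :=
  ∀ (E ι : Type) [Fintype E] [DecidableEq E] [Fintype ι] [Nonempty ι]
    (A : ι → Finset E) (h : ℕ), 1 ≤ h → (∀ i, (A i).card = h) →
    ∀ (q : ℝ), 0 < q →
    (∀ S : Finset E, ((univ.filter (fun i : ι => S ⊆ A i)).card : ℝ)
      ≤ q ^ S.card * (Fintype.card ι : ℝ)) →
    ∀ (p : ℝ), 0 ≤ p → p ≤ 1 →
    2048 * Real.exp 1 * q * (1 + Real.logb 2 (h : ℝ)) ≤ p →
    (1 : ℝ) / 2 ≤ Crest.FinProb.bernoulliProb p {ω : E → Bool | ∃ i, ∀ e ∈ A i, ω e = true}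

/-- Translation to the frozen statement. -/
def Trans : Prop :=
  Core → Spread →
  ∀ (n : ℕ) (hn : 2 ≤ n) (W : Type) [Fintype W] [DecidableEq W] (H : SimpleGraph W)
    [DecidableRel H.Adj] (hW : Fintype.card W ≤ n) (hH : 1 ≤ H.edgeFinset.card)
    (p : ℝ) (hp0 : 0 ≤ p) (hp1 : p ≤ 1)
    (hE : ∀ F : H.Subgraph, (1 : ℝ) / 2 ≤
      Crest.CombinatoricsR.RandomGraph.gnpExpect n p (fun G => (G.copyCount F.coe : ℝ))),
    (1 : ℝ) / 2 ≤ Crest.CombinatoricsR.RandomGraph.gnpProb n
      (min 1 (2048 * Real.exp 50 * p * (1 + Real.logb 2 (H.edgeFinset.card : ℝ))))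
      {G | H.IsContained G}

end Crest.Agent.H19KK
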