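import Mathlib
import Crest.Agent.H19KKSpec

set_option autoImplicit false
open Finset
open scoped Pointwise

namespace Crest.Agent.H19KK

/-- Relative contradiction (proved by helper19 in H19KKRel.lean). -/
def Rel : Prop :=
  ∀ (G E : Type) [Group G] [Fintype G] [Fintype E] [DecidableEq E] [MulAction G E]
    (H : Finset E) (q R : ℝ), 0 < q → 0 < R →
    (∀ V : Finset E, ((univ.filter (fun g : G => g • V ⊆ H)).card : ℝ) ≤ R * q ^ V.card) →
    ∀ W : Finset E, W.Nonempty →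
    ((univ.filter (fun g : G => g • W ⊆ H)).card : ℝ) = R * q ^ W.card →
    (∀ T V T0 : Finset E, T ⊆ V → T.Nonempty →
      Real.exp (48 * (T.card : ℝ)) * ((univ.filter (fun g : G => g • V ⊆ H ∧ g • T = T0)).card : ℝ)
        ≤ R * q ^ V.card) → False

/-- numeric end game. -/
def Num : Prop :=
  ∀ f : ℝ, 0 < f → ∃ t : ℕ, 1 ≤ t ∧
    (2:ℝ) ^ (t - 1) * Real.exp (-(3 / 8) * f)
      < 1 - (4 / 3) * (Real.exp f - 1) * Real.exp (20 / 9 * f - 32 / 3 * (t : ℝ))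

/-- weak-type to strong-type lemma, `A = 1/4`. -/
def WeakL : Prop :=
  ∀ (α : Type) [DecidableEq α] (S : Finset α) (g : α → ℝ) (B : ℝ), (∀ a ∈ S, 0 ≤ g a) → 0 ≤ B →
    (∀ S0 : Finset α, S0 ⊆ S → ∑ a ∈ S0, g a ≤ B * (S0.card : ℝ) ^ (7 / 8 : ℝ)) →
    ∑ a ∈ S, (g a) ^ 2 ≤ (4 / 3) * B ^ 2 * (S.card : ℝ) ^ (3 / 4 : ℝ)

end Crest.Agent.H19KK
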