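import Mathlib
import Crest.Agent.H19KKSpec2

/-!
The module Num of S0076: the numeric end game.
-/

set_option autoImplicit false

namespace Crest.Agent.H12KKNum

open Finset

lemma conv (c x : ℝ) (h0 : 0 ≤ x) (h3 : x ≤ 3) :
    Real.exp (c * x) ≤ 1 - x / 3 + x / 3 * Real.exp (3 * c) := by
  have h := convexOn_exp.2 (Set.mem_univ (0 : ℝ)) (Set.mem_univ (3 * c))
    (show 0 ≤ 1 - x / 3 by linarith) (show 0 ≤ x / 3 by linarith) (by ring)
  simp only [smul_eq_mul, mul_zero, zero_add, Real.exp_zero, mul_one] at h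
  have e : x / 3 * (3 * c) = c * x := by ring
  rw [e] at h
  exact h

theorem num : Crest.Agent.H19KK.Num := by
  intro f hf
  have he1 : Real.exp (-1) < 0.3679 := lt_trans Real.exp_neg_one_lt_d9 (by norm_num)
  have he1p : 0 < Real.exp (-1) := Real.exp_pos _
  have he98 : Real.exp (-(9 / 8) : ℝ) < 0.3679 :=
    lt_of_le_of_lt (Real.exp_le_exp.mpr (by norm_num)) he1
  rcases le_or_gt f 3 with h3 | h3
  · refine ⟨1, le_rfl, ?_⟩
    have h1 := conv (-(3 / 8)) f hf.le h3
    have h2 := conv 1 f hf.le h3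
    rw [one_mul, mul_one] at h2
    have e1 : (3 * -(3 / 8) : ℝ) = -(9 / 8) := by norm_num
    rw [e1] at h1
    have h4 : Real.exp (20 / 9 * f - 32 / 3 * ((1 : ℕ) : ℝ)) ≤ Real.exp (-4) := by
      apply Real.exp_le_exp.mpr
      push_cast
      linarith
    have h5 : Real.exp 3 * Real.exp (-4) = Real.exp (-1) := by
      rw [← Real.exp_add]; norm_num
    have h6 : 0 < Real.exp (-4 : ℝ) := Real.exp_pos _
    have h7 : 0 < Real.exp 3 := Real.exp_pos _
    have h8 : Real.exp f - 1 ≤ f / 3 * Real.exp 3 := by linarith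
    have h9 : 0 ≤ Real.exp f - 1 := by
      have := Real.one_le_exp hf.le
      linarith
    have h10 : (Real.exp f - 1) * Real.exp (20 / 9 * f - 32 / 3 * ((1 : ℕ) : ℝ)) ≤
        f / 3 * Real.exp (-1) := by
      calc (Real.exp f - 1) * Real.exp (20 / 9 * f - 32 / 3 * ((1 : ℕ) : ℝ))
          ≤ (Real.exp f - 1) * Real.exp (-4) := mul_le_mul_of_nonneg_left h4 h9
        _ ≤ (f / 3 * Real.exp 3) * Real.exp (-4) := mul_le_mul_of_nonneg_right h8 h6.le
        _ = f / 3 * (Real.exp 3 * Real.exp (-4)) := by ring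
        _ = f / 3 * Real.exp (-1) := by rw [h5]
    simp only [le_refl, Nat.sub_self, pow_zero, one_mul]
    have h11 : f / 3 * Real.exp (-(9 / 8) : ℝ) ≤ f / 3 * 0.3679 :=
      mul_le_mul_of_nonneg_left he98.le (by positivity)
    have h12 : f / 3 * Real.exp (-1 : ℝ) ≤ f / 3 * 0.3679 :=
      mul_le_mul_of_nonneg_left he1.le (by positivity)
    nlinarith
  · set t := ⌈f / 3⌉₊ with ht
    have ht1 : f / 3 ≤ t := Nat.le_ceil _
    have ht2 : (t : ℝ) < f / 3 + 1 := Nat.ceil_lt_add_one (by positivity)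
    have ht3 : 2 ≤ t := by
      have : 1 < t := by
        rw [ht, Nat.lt_ceil]
        push_cast
        linarith
      omega
    refine ⟨t, by omega, ?_⟩
    obtain ⟨s, hs⟩ : ∃ s : ℕ, t = s + 2 := ⟨t - 2, by omega⟩
    have hsR : (t : ℝ) = s + 2 := by rw [hs]; push_cast; ring
    have hs1 : t - 1 = s + 1 := by omega
    rw [hs1]
    -- first term
    have h4 : Real.exp (-(3 / 8) * f) ≤ Real.exp (-(9 / 8)) ^ (s + 1) := by
      rw [← Real.exp_nat_mul]
      apply Real.exp_le_exp.mpr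
      push_cast
      linarith
    have h5 : (2 : ℝ) ^ (s + 1) * Real.exp (-(3 / 8) * f) ≤ 2 * 0.3679 := by
      calc (2 : ℝ) ^ (s + 1) * Real.exp (-(3 / 8) * f)
          ≤ (2 : ℝ) ^ (s + 1) * Real.exp (-(9 / 8)) ^ (s + 1) :=
            mul_le_mul_of_nonneg_left h4 (by positivity)
        _ = (2 * Real.exp (-(9 / 8))) ^ (s + 1) := by rw [mul_pow]
        _ ≤ (2 * 0.3679) ^ (s + 1) :=
            pow_le_pow_left₀ (by positivity) (by linarith) _
        _ ≤ (2 * 0.3679) ^ 1 :=
            pow_le_pow_of_le_one (by norm_num) (by norm_num) (by omega)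
        _ = 2 * 0.3679 := pow_one _
    -- second term
    have h6 : (Real.exp f - 1) * Real.exp (20 / 9 * f - 32 / 3 * (t : ℝ)) ≤
        Real.exp (-1) * Real.exp (-1) := by
      calc (Real.exp f - 1) * Real.exp (20 / 9 * f - 32 / 3 * (t : ℝ))
          ≤ Real.exp f * Real.exp (20 / 9 * f - 32 / 3 * (t : ℝ)) :=
            mul_le_mul_of_nonneg_right (by linarith) (Real.exp_pos _).le
        _ = Real.exp (f + (20 / 9 * f - 32 / 3 * (t : ℝ))) := by rw [Real.exp_add]
        _ ≤ Real.exp (-1 + -1) := by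
            apply Real.exp_le_exp.mpr
            have : (0 : ℝ) ≤ s := Nat.cast_nonneg s
            linarith
        _ = Real.exp (-1) * Real.exp (-1) := by rw [Real.exp_add]
    have h7 : Real.exp (-1) * Real.exp (-1) ≤ 0.3679 * 0.3679 :=
      mul_le_mul he1.le he1.le he1p.le (by norm_num)
    have h8 : 4 / 3 * (Real.exp f - 1) * Real.exp (20 / 9 * f - 32 / 3 * (t : ℝ)) ≤
        4 / 3 * (0.3679 * 0.3679) := by
      rw [mul_assoc]
      exact mul_le_mul_of_nonneg_left (h6.trans h7) (by norm_num)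
    have h9 : (2 * 0.3679 : ℝ) < 1 - 4 / 3 * (0.3679 * 0.3679) := by norm_num
    linarith

end Crest.Agent.H12KKNum
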