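import Mathlib
import Crest.Agent.H19KKSpec
import Crest.Agent.H12Fknp

/-!
The module Spread of S0076, from `H12Fknp.fknp`.
-/

set_option autoImplicit false

namespace Crest.Agent.H12KKSpread

open Finset

theorem main : Crest.Agent.H19KK.Spread := by
  intro E ι _ _ _ _ A h hh hA q hq hsp p hp0 hp1 hp
  refine Crest.Agent.H12Fknp.fknp A h hh (fun i => (hA i).le) q hq.le ?_ p hp1 ?_
  · intro S
    rw [mul_comm]
    exact hsp S
  · refine le_trans (min_le_right _ _) (le_trans ?_ hp)
    have hlog0 : 0 ≤ Real.logb 2 (h : ℝ) :=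
      Real.logb_nonneg (by norm_num) (by exact_mod_cast hh)
    have he : (1 : ℝ) ≤ Real.exp 1 := Real.one_le_exp (by norm_num)
    have h1 : 0 ≤ q * (1 + Real.logb 2 (h : ℝ)) := by positivity
    calc 12 * q * (1 + Real.logb 2 (h : ℝ)) = 12 * (q * (1 + Real.logb 2 (h : ℝ))) := by ring
      _ ≤ (2048 * Real.exp 1) * (q * (1 + Real.logb 2 (h : ℝ))) :=
          mul_le_mul_of_nonneg_right (by linarith) h1
      _ = 2048 * Real.exp 1 * q * (1 + Real.logb 2 (h : ℝ)) := by ring

end Crest.Agent.H12KKSpread
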