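import Mathlib
import Crest.Agent.H19KKSpec2

/-!
The module WeakL of S0076: a weak-type bound gives a bound on the sum of squares.
-/

set_option autoImplicit false

namespace Crest.Agent.H12KKWeak

open Finset

/-- `∑_{k=1}^n k^{-1/4} ≤ (4/3) n^{3/4}` in step form. -/
lemma step (n : ℕ) : (4 / 3 : ℝ) * (n : ℝ) ^ (3 / 4 : ℝ) + ((n : ℝ) + 1) ^ (-(1 / 4) : ℝ) ≤
    (4 / 3 : ℝ) * ((n : ℝ) + 1) ^ (3 / 4 : ℝ) := by
  have hn : (0 : ℝ) ≤ n := Nat.cast_nonneg n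
  have h1 : (0 : ℝ) < (n : ℝ) + 1 := by positivity
  -- Bernoulli: (n/(n+1))^(3/4) ≤ 1 - (3/4)/(n+1)
  have hb : ((n : ℝ) / (n + 1)) ^ (3 / 4 : ℝ) ≤ 1 + (3 / 4 : ℝ) * ((n : ℝ) / (n + 1) - 1) := by
    have h2 : (n : ℝ) / (n + 1) = 1 + ((n : ℝ) / (n + 1) - 1) := by ring
    have h3 : -1 ≤ (n : ℝ) / (n + 1) - 1 := by
      have : 0 ≤ (n : ℝ) / (n + 1) := by positivity
      linarith
    have := rpow_one_add_le_one_add_mul_self h3 (p := 3 / 4) (by norm_num) (by norm_num)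
    calc ((n : ℝ) / (n + 1)) ^ (3 / 4 : ℝ) = (1 + ((n : ℝ) / (n + 1) - 1)) ^ (3 / 4 : ℝ) := by
          rw [← h2]
      _ ≤ _ := this
  have hdiv : ((n : ℝ) / (n + 1)) ^ (3 / 4 : ℝ) = (n : ℝ) ^ (3 / 4 : ℝ) / ((n : ℝ) + 1) ^ (3 / 4 : ℝ) :=
    Real.div_rpow hn h1.le _
  have hpos : (0 : ℝ) < ((n : ℝ) + 1) ^ (3 / 4 : ℝ) := Real.rpow_pos_of_pos h1 _
  rw [hdiv, div_le_iff₀ hpos] at hb
  have hneg : ((n : ℝ) + 1) ^ (-(1 / 4) : ℝ) = ((n : ℝ) + 1) ^ (3 / 4 : ℝ) / ((n : ℝ) + 1) := by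
    have : (-(1 / 4) : ℝ) = 3 / 4 - 1 := by norm_num
    rw [this, Real.rpow_sub_one h1.ne']
  rw [hneg]
  have h4 : (n : ℝ) / (n + 1) - 1 = - (1 / ((n : ℝ) + 1)) := by
    field_simp
    ring
  rw [h4] at hb
  have h5 : (1 + (3 / 4 : ℝ) * (-(1 / ((n : ℝ) + 1)))) * ((n : ℝ) + 1) ^ (3 / 4 : ℝ) =
      ((n : ℝ) + 1) ^ (3 / 4 : ℝ) - (3 / 4) * (((n : ℝ) + 1) ^ (3 / 4 : ℝ) / ((n : ℝ) + 1)) := by
    ring
  rw [h5] at hb
  linarith

theorem weak : Crest.Agent.H19KK.WeakL := by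
  intro α _ S g B hg hB h
  -- induction on the cardinality: remove a minimal element
  have main : ∀ n : ℕ, ∀ S : Finset α, S.card = n → (∀ a ∈ S, 0 ≤ g a) →
      (∀ S0 : Finset α, S0 ⊆ S → ∑ a ∈ S0, g a ≤ B * (S0.card : ℝ) ^ (7 / 8 : ℝ)) →
      ∑ a ∈ S, (g a) ^ 2 ≤ (4 / 3) * B ^ 2 * (n : ℝ) ^ (3 / 4 : ℝ) := by
    intro n
    induction n with
    | zero =>
      intro S hS _ _
      rw [Finset.card_eq_zero] at hS
      subst hS
      simp
    | succ n ih =>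
      intro S hS hg h
      have hne : S.Nonempty := by
        rw [← Finset.card_pos, hS]; omega
      obtain ⟨a, ha, hmin⟩ := Finset.exists_min_image S g hne
      have hcard : (S.erase a).card = n := by
        rw [Finset.card_erase_of_mem ha, hS]; omega
      have h1 := ih (S.erase a) hcard (fun b hb => hg b (Finset.mem_of_mem_erase hb))
        (fun S0 hS0 => h S0 (hS0.trans (Finset.erase_subset _ _)))
      have h2 := h S (Finset.Subset.refl _)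
      have h3 : ((n : ℝ) + 1) * g a ≤ ∑ b ∈ S, g b := by
        have := Finset.card_nsmul_le_sum S g (g a) hmin
        rw [hS, nsmul_eq_mul] at this
        exact_mod_cast this
      have h4 : (0 : ℝ) < (n : ℝ) + 1 := by positivity
      have hcS : (S.card : ℝ) = (n : ℝ) + 1 := by rw [hS]; push_cast; ring
      rw [hcS] at h2
      have h5 : g a ≤ B * ((n : ℝ) + 1) ^ (-(1 / 8) : ℝ) := by
        have h6 : ((n : ℝ) + 1) ^ (-(1 / 8) : ℝ) = ((n : ℝ) + 1) ^ (7 / 8 : ℝ) / ((n : ℝ) + 1) := by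
          have : (-(1 / 8) : ℝ) = 7 / 8 - 1 := by norm_num
          rw [this, Real.rpow_sub_one h4.ne']
        rw [h6, ← mul_div_assoc, le_div_iff₀ h4]
        linarith
      have h7 : (g a) ^ 2 ≤ B ^ 2 * ((n : ℝ) + 1) ^ (-(1 / 4) : ℝ) := by
        have h8 : (g a) ^ 2 ≤ (B * ((n : ℝ) + 1) ^ (-(1 / 8) : ℝ)) ^ 2 :=
          pow_le_pow_left₀ (hg a ha) h5 2
        have h9 : (((n : ℝ) + 1) ^ (-(1 / 8) : ℝ)) ^ 2 = ((n : ℝ) + 1) ^ (-(1 / 4) : ℝ) := by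
          rw [← Real.rpow_natCast, ← Real.rpow_mul h4.le]
          norm_num
        rw [mul_pow, h9] at h8
        exact h8
      rw [← Finset.add_sum_erase S _ ha]
      have h10 := step n
      push_cast
      have hB2 : 0 ≤ B ^ 2 := by positivity
      nlinarith [mul_le_mul_of_nonneg_left h10 hB2]
  exact main S.card S rfl hg h

end Crest.Agent.H12KKWeak
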