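import Mathlib
import Crest.Prelude.Def_QuadraticTransport

set_option autoImplicit false

open MeasureTheory MeasureTheory.Measure Set
open scoped ENNReal NNReal
open Crest.AnalysisR.OT

namespace Crest.Agent.H12OT

/-- Euclidean space -/
abbrev E (d : ℕ) := EuclideanSpace ℝ (Fin d)

/-- the cube -/
abbrev Q (d : ℕ) : Set (E d) := {x : EuclideanSpace ℝ (Fin d) | ∀ i, |x i| ≤ 1}

/-- the source -/
noncomputable abbrev rho (d : ℕ) : Measure (E d) := uniformProbOn (Q d)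

lemma volume_box {d : ℕ} (l u : Fin d → ℝ) :
    volume {x : E d | ∀ i, x i ∈ Icc (l i) (u i)} = ∏ i, ENNReal.ofReal (u i - l i) := by
  have h := (PiLp.volume_preserving_ofLp (Fin d)).measure_preimage
    (s := Set.Icc l u) measurableSet_Icc.nullMeasurableSet
  rw [Real.volume_Icc_pi] at h
  rw [← h]
  congr 1
  ext x
  simp only [mem_ofPred_eq, mem_preimage, mem_Icc, Pi.le_def]
  constructor
  · intro h; exact ⟨fun i => (h i).1, fun i => (h i).2⟩
  · intro h i; exact ⟨h.1 i, h.2 i⟩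

lemma volume_Q (d : ℕ) : volume (Q d) = ∏ _i : Fin d, ENNReal.ofReal 2 := by
  have h := volume_box (d := d) (fun _ => -1) (fun _ => 1)
  have e : Q d = {x : E d | ∀ i, x i ∈ Icc (-1 : ℝ) 1} := by
    ext x; simp only [mem_ofPred_eq, abs_le, mem_Icc]
  rw [e, h]
  congr 1
  funext i
  norm_num

lemma volume_Q_ne_zero (d : ℕ) : volume (Q d) ≠ 0 := by
  rw [volume_Q, Finset.prod_ne_zero_iff]
  intro i _
  norm_num

lemma volume_Q_ne_top (d : ℕ) : volume (Q d) ≠ ⊤ := by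
  rw [volume_Q]
  exact ENNReal.prod_ne_top (fun i _ => ENNReal.ofReal_ne_top)

lemma measurableSet_Q (d : ℕ) : MeasurableSet (Q d) := by
  have : Q d = ⋂ i, {x : E d | |x i| ≤ 1} := by ext x; simp
  rw [this]
  apply MeasurableSet.iInter
  intro i
  exact (isClosed_le (by fun_prop) continuous_const).measurableSet

instance (d : ℕ) : IsProbabilityMeasure (rho d) := by
  constructor
  rw [rho, uniformProbOn, Measure.smul_apply, Measure.restrict_apply_univ, smul_eq_mul,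
    ENNReal.inv_mul_cancel (volume_Q_ne_zero d) (volume_Q_ne_top d)]

lemma rho_apply {d : ℕ} (s : Set (E d)) (hs : MeasurableSet s) :
    rho d s = (volume (Q d))⁻¹ * volume (s ∩ Q d) := by
  rw [rho, uniformProbOn, Measure.smul_apply, smul_eq_mul, Measure.restrict_apply hs]

lemma rho_ac (d : ℕ) : rho d ≪ volume := by
  rw [rho, uniformProbOn]
  exact (Measure.smul_absolutelyContinuous).trans (Measure.absolutelyContinuous_of_le Measure.restrict_le_self)

lemma rho_box2 {d : ℕ} (i0 i1 : Fin d) (hne : i0 ≠ i1) (s0 t0 s1 t1 : ℝ)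
    (h0 : -1 ≤ s0) (h0' : t0 ≤ 1) (h1 : -1 ≤ s1) (h1' : t1 ≤ 1) :
    rho d {x | x i0 ∈ Icc s0 t0 ∧ x i1 ∈ Icc s1 t1} = ENNReal.ofReal ((t0 - s0) / 2) * ENNReal.ofReal ((t1 - s1) / 2) := by
  have hmeas : MeasurableSet {x : E d | x i0 ∈ Icc s0 t0 ∧ x i1 ∈ Icc s1 t1} := by
    have e : {x : E d | x i0 ∈ Icc s0 t0 ∧ x i1 ∈ Icc s1 t1} =
        (fun x : E d => x i0) ⁻¹' Icc s0 t0 ∩ (fun x : E d => x i1) ⁻¹' Icc s1 t1 := rfl
    rw [e]
    exact ((isClosed_Icc.preimage (by fun_prop)).inter (isClosed_Icc.preimage (by fun_prop))).measurableSet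
  rw [rho_apply _ hmeas]
  set l : Fin d → ℝ := fun i => if i = i0 then s0 else if i = i1 then s1 else -1 with hl
  set u : Fin d → ℝ := fun i => if i = i0 then t0 else if i = i1 then t1 else 1 with hu
  have e : {x : E d | x i0 ∈ Icc s0 t0 ∧ x i1 ∈ Icc s1 t1} ∩ Q d = {x : E d | ∀ i, x i ∈ Icc (l i) (u i)} := by
    ext x
    simp only [mem_inter_iff, mem_ofPred_eq, mem_Icc]
    constructor
    · rintro ⟨⟨h2, h3⟩, h4⟩ i
      simp only [hl, hu]
      split_ifs with hi hi'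
      · subst hi; exact h2
      · subst hi'; exact h3
      · exact abs_le.mp (h4 i)
    · intro h
      have h2 := h i0
      have h3 := h i1
      simp only [hl, hu, if_true, if_neg hne.symm] at h2 h3
      refine ⟨⟨h2, h3⟩, fun i => ?_⟩
      have h4 := h i
      simp only [hl, hu] at h4
      rw [abs_le]
      split_ifs at h4 with hi hi'
      · exact ⟨h0.trans h4.1, h4.2.trans h0'⟩
      · exact ⟨h1.trans h4.1, h4.2.trans h1'⟩
      · exact h4
  rw [e, volume_box, volume_Q]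
  have e2 : (∏ i, ENNReal.ofReal (u i - l i)) =
      (∏ _i : Fin d, ENNReal.ofReal 2) * ∏ i, ENNReal.ofReal ((u i - l i) / 2) := by
    rw [← Finset.prod_mul_distrib]
    apply Finset.prod_congr rfl
    intro i _
    rw [← ENNReal.ofReal_mul (by norm_num)]
    congr 1
    ring
  rw [e2, ← mul_assoc, ← volume_Q, ENNReal.inv_mul_cancel (volume_Q_ne_zero d) (volume_Q_ne_top d), one_mul]
  rw [Finset.prod_eq_mul i0 i1 hne]
  · simp [hl, hu, hne.symm]
  · intro i _ hi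
    simp only [hl, hu, if_neg hi.1, if_neg hi.2]
    norm_num
  · simp
  · simp

/-- hyperplanes are null -/
lemma hyper_null {d : ℕ} (i0 i1 : Fin d) (hne : i0 ≠ i1) (k : ℝ) :
    rho d {x : E d | x i0 = k * x i1} = 0 := by
  apply rho_ac d
  let f : E d →ₗ[ℝ] ℝ := (EuclideanSpace.proj i0 : E d →L[ℝ] ℝ).toLinearMap -
    k • (EuclideanSpace.proj i1 : E d →L[ℝ] ℝ).toLinearMap
  have hf : ∀ x, f x = x i0 - k * x i1 := fun x => by simp [f]
  have e : {x : E d | x i0 = k * x i1} = (LinearMap.ker f : Set (E d)) := by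
    ext x
    simp only [mem_ofPred_eq, SetLike.mem_coe, LinearMap.mem_ker, hf, sub_eq_zero]
  rw [e]
  apply Measure.addHaar_submodule
  intro htop
  have : EuclideanSpace.single i0 (1 : ℝ) ∈ LinearMap.ker f := by rw [htop]; trivial
  rw [LinearMap.mem_ker, hf] at this
  simp [hne.symm] at this

/-! ### the transport map -/

section Map

variable {d : ℕ} (i0 i1 : Fin d) (δ : ℝ)

/-- the coordinate vectors -/
noncomputable abbrev ev (i : Fin d) : E d := EuclideanSpace.single i (1 : ℝ)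

open Classical in
/-- the transport map -/
noncomputable def T (x : E d) : E d :=
  if |x i0| < δ * x i1 then δ • ev i1 else if 0 < x i0 then ev i0 else -ev i0

/-- the cell of the small atom -/
def V : Set (E d) := {x | |x i0| < δ * x i1}

/-- the half space -/
def P : Set (E d) := {x | 0 < x i0}

lemma measurableSet_V : MeasurableSet (V i0 i1 δ) := (isOpen_lt (by fun_prop) (by fun_prop)).measurableSet

lemma measurableSet_P : MeasurableSet (P i0) := (isOpen_lt (by fun_prop) (by fun_prop)).measurableSet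

lemma measurable_T : Measurable (T i0 i1 δ) := by
  unfold T
  apply Measurable.ite (measurableSet_V i0 i1 δ) measurable_const
  exact Measurable.ite (measurableSet_P i0) measurable_const measurable_const

lemma inner_ev (x : E d) (i : Fin d) : inner ℝ x (ev i) = x i := by
  rw [ev, EuclideanSpace.inner_single_right]; simp

lemma T_mem (x : E d) : T i0 i1 δ x = δ • ev i1 ∨ T i0 i1 δ x = ev i0 ∨ T i0 i1 δ x = -ev i0 := by
  unfold T
  split_ifs
  · left; rfl
  · right; left; rfl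
  · right; right; rfl

lemma inner_T (x : E d) : inner ℝ x (T i0 i1 δ x) = max |x i0| (δ * x i1) := by
  unfold T
  split_ifs with h1 h2
  · rw [inner_smul_right, inner_ev, max_eq_right h1.le]
  · rw [inner_ev, max_eq_left (not_lt.mp h1), abs_of_pos h2]
  · rw [inner_neg_right, inner_ev, max_eq_left (not_lt.mp h1), abs_of_nonpos (not_lt.mp h2)]

lemma inner_atom_le (x y : E d) (hy : y = δ • ev i1 ∨ y = ev i0 ∨ y = -ev i0) :
    inner ℝ x y ≤ max |x i0| (δ * x i1) := by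
  rcases hy with rfl | rfl | rfl
  · rw [inner_smul_right, inner_ev]; exact le_max_right _ _
  · rw [inner_ev]; exact (le_abs_self _).trans (le_max_left _ _)
  · rw [inner_neg_right, inner_ev]; exact (neg_le_abs _).trans (le_max_left _ _)

lemma norm_sub_sq' (x y : E d) : ‖x - y‖ ^ 2 = ‖x‖ ^ 2 - 2 * inner ℝ x y + ‖y‖ ^ 2 := @norm_sub_sq ℝ _ _ _ _ x y

/-- the pointwise inequality -/
lemma pointwise (x y : E d) (hy : y = δ • ev i1 ∨ y = ev i0 ∨ y = -ev i0) :
    ‖x - T i0 i1 δ x‖ₑ ^ 2 + ‖y‖ₑ ^ 2 ≤ ‖x - y‖ₑ ^ 2 + ‖T i0 i1 δ x‖ₑ ^ 2 := by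
  have h : ‖x - T i0 i1 δ x‖ ^ 2 + ‖y‖ ^ 2 ≤ ‖x - y‖ ^ 2 + ‖T i0 i1 δ x‖ ^ 2 := by
    rw [norm_sub_sq', norm_sub_sq', inner_T]
    have := inner_atom_le i0 i1 δ x y hy
    linarith
  simp only [← ofReal_norm, ← ENNReal.ofReal_pow (norm_nonneg _)]
  rw [← ENNReal.ofReal_add (by positivity) (by positivity), ← ENNReal.ofReal_add (by positivity) (by positivity)]
  exact ENNReal.ofReal_le_ofReal h

lemma pointwise_eq (x y : E d) (h : ‖x - T i0 i1 δ x‖ₑ ^ 2 + ‖y‖ₑ ^ 2 = ‖x - y‖ₑ ^ 2 + ‖T i0 i1 δ x‖ₑ ^ 2) :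
    inner ℝ x y = max |x i0| (δ * x i1) := by
  simp only [← ofReal_norm, ← ENNReal.ofReal_pow (norm_nonneg _)] at h
  rw [← ENNReal.ofReal_add (by positivity) (by positivity), ← ENNReal.ofReal_add (by positivity) (by positivity)] at h
  have h2 := (ENNReal.ofReal_eq_ofReal_iff (by positivity) (by positivity)).mp h
  rw [norm_sub_sq', norm_sub_sq', inner_T] at h2
  linarith

lemma eq_of_inner (x y : E d) (hy : y = δ • ev i1 ∨ y = ev i0 ∨ y = -ev i0)
    (h : inner ℝ x y = max |x i0| (δ * x i1)) (h1 : x i0 ≠ δ * x i1) (h2 : x i0 ≠ -δ * x i1) (h3 : x i0 ≠ 0) :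
    y = T i0 i1 δ x := by
  unfold T
  rcases hy with rfl | rfl | rfl
  · rw [inner_smul_right, inner_ev] at h
    have h4 : |x i0| ≤ δ * x i1 := (le_max_left |x i0| (δ * x i1)).trans h.ge
    have h5 : |x i0| < δ * x i1 := by
      refine lt_of_le_of_ne h4 fun h6 => ?_
      rcases abs_choice (x i0) with h7 | h7
      · exact h1 (h7.symm.trans h6)
      · exact h2 (by linarith)
    rw [if_pos h5]
  · rw [inner_ev] at h
    have h4 : δ * x i1 ≤ x i0 := (le_max_right |x i0| (δ * x i1)).trans h.ge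
    have h5 : |x i0| ≤ x i0 := (le_max_left |x i0| (δ * x i1)).trans h.ge
    have h6 : 0 < x i0 := lt_of_le_of_ne ((abs_nonneg _).trans h5) (Ne.symm h3)
    have h7 : ¬ |x i0| < δ * x i1 := by rw [abs_of_pos h6]; exact not_lt.mpr h4
    rw [if_neg h7, if_pos h6]
  · rw [inner_neg_right, inner_ev] at h
    have h4 : δ * x i1 ≤ -x i0 := (le_max_right |x i0| (δ * x i1)).trans h.ge
    have h5 : |x i0| ≤ -x i0 := (le_max_left |x i0| (δ * x i1)).trans h.ge
    have h6 : x i0 < 0 := lt_of_le_of_ne (by linarith [(abs_nonneg _).trans h5]) h3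
    have h7 : ¬ |x i0| < δ * x i1 := by rw [abs_of_neg h6]; exact not_lt.mpr h4
    rw [if_neg h7, if_neg (not_lt.mpr h6.le)]

/-- the target -/
noncomputable def mu : Measure (E d) := (rho d).map (T i0 i1 δ)

instance : IsProbabilityMeasure (mu i0 i1 δ) := by
  unfold mu
  exact Measure.isProbabilityMeasure_map (measurable_T i0 i1 δ).aemeasurable

lemma ae_atom (S : E d → E d) (hS : Measurable S) (hmap : (rho d).map S = mu i0 i1 δ) :
    ∀ᵐ x ∂(rho d), (S x = δ • ev i1 ∨ S x = ev i0 ∨ S x = -ev i0) := by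
  set A : Set (E d) := {δ • ev i1, ev i0, -ev i0} with hA
  have hAm : MeasurableSet A := (Set.toFinite A).measurableSet
  have h1 : mu i0 i1 δ Aᶜ = 0 := by
    rw [mu, Measure.map_apply (measurable_T i0 i1 δ) hAm.compl]
    have : T i0 i1 δ ⁻¹' Aᶜ = ∅ := by
      ext x
      simp only [mem_preimage, mem_compl_iff, mem_empty_iff_false, iff_false, not_not, hA, mem_insert_iff,
        mem_singleton_iff]
      exact T_mem i0 i1 δ x
    rw [this, measure_empty]
  rw [← hmap, Measure.map_apply hS hAm.compl] at h1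
  rw [ae_iff]
  refine measure_mono_null ?_ h1
  intro x hx
  simpa [hA] using hx

lemma lint_sq (S : E d → E d) (hS : Measurable S) (hmap : (rho d).map S = mu i0 i1 δ) :
    ∫⁻ x, ‖S x‖ₑ ^ 2 ∂(rho d) = ∫⁻ x, ‖T i0 i1 δ x‖ₑ ^ 2 ∂(rho d) := by
  have h1 : ∫⁻ x, ‖S x‖ₑ ^ 2 ∂(rho d) = ∫⁻ y, ‖y‖ₑ ^ 2 ∂((rho d).map S) := by
    rw [lintegral_map (by fun_prop) hS]
  have h2 : ∫⁻ x, ‖T i0 i1 δ x‖ₑ ^ 2 ∂(rho d) = ∫⁻ y, ‖y‖ₑ ^ 2 ∂((rho d).map (T i0 i1 δ)) := by
    rw [lintegral_map (by fun_prop) (measurable_T i0 i1 δ)]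
  rw [h1, h2, hmap]
  rfl

lemma norm_T_le (hδ0 : 0 ≤ δ) (hδ : δ ≤ 1) (x : E d) : ‖T i0 i1 δ x‖ ≤ 1 := by
  rcases T_mem i0 i1 δ x with h | h | h
  · rw [h, norm_smul]; simp [abs_of_nonneg hδ0, hδ]
  · rw [h]; simp
  · rw [h]; simp

lemma lint_T_ne_top (hδ0 : 0 ≤ δ) (hδ : δ ≤ 1) : ∫⁻ x, ‖T i0 i1 δ x‖ₑ ^ 2 ∂(rho d) ≠ ⊤ := by
  have : ∫⁻ x, ‖T i0 i1 δ x‖ₑ ^ 2 ∂(rho d) ≤ ∫⁻ _, 1 ∂(rho d) := by
    apply lintegral_mono
    intro x
    have h := norm_T_le i0 i1 δ hδ0 hδ x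
    show ‖T i0 i1 δ x‖ₑ ^ 2 ≤ 1
    rw [← ofReal_norm, ← ENNReal.ofReal_pow (norm_nonneg _)]
    rw [← ENNReal.ofReal_one]
    apply ENNReal.ofReal_le_ofReal
    nlinarith [norm_nonneg (T i0 i1 δ x)]
  refine ne_top_of_le_ne_top ?_ this
  simp

theorem T_optimal (hδ0 : 0 ≤ δ) (hδ : δ ≤ 1) : IsOptimalMap (rho d) (mu i0 i1 δ) (T i0 i1 δ) := by
  refine ⟨measurable_T i0 i1 δ, rfl, fun S hS hmap => ?_⟩
  have hae : ∀ᵐ x ∂(rho d), ‖x - T i0 i1 δ x‖ₑ ^ 2 + ‖S x‖ₑ ^ 2 ≤ ‖x - S x‖ₑ ^ 2 + ‖T i0 i1 δ x‖ₑ ^ 2 := by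
    filter_upwards [ae_atom i0 i1 δ S hS hmap] with x hx
    exact pointwise i0 i1 δ x (S x) hx
  have h1 := lintegral_mono_ae hae
  have hmT := measurable_T i0 i1 δ
  rw [lintegral_add_right _ (by fun_prop), lintegral_add_right _ (by fun_prop), lint_sq i0 i1 δ S hS hmap] at h1
  exact (ENNReal.add_le_add_iff_right (lint_T_ne_top i0 i1 δ hδ0 hδ)).mp h1

/-- the domain is bounded -/
lemma ae_Q : ∀ᵐ x ∂(rho d), x ∈ Q d := by
  rw [ae_iff]
  have : {x | ¬ x ∈ Q d} = (Q d)ᶜ := rfl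
  rw [this, rho_apply _ (measurableSet_Q d).compl]
  simp

lemma cost_ne_top (hδ0 : 0 ≤ δ) (hδ : δ ≤ 1) : ∫⁻ x, ‖x - T i0 i1 δ x‖ₑ ^ 2 ∂(rho d) ≠ ⊤ := by
  have hb : ∀ x ∈ Q d, ‖x‖ ^ 2 ≤ d := by
    intro x hx
    rw [EuclideanSpace.norm_sq_eq]
    calc ∑ i, ‖x i‖ ^ 2 ≤ ∑ _i : Fin d, (1:ℝ) := by
          apply Finset.sum_le_sum
          intro i _
          rw [Real.norm_eq_abs]
          have h1 := hx i
          have h2 := abs_nonneg (x i)
          nlinarith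
      _ = d := by simp
  have : ∫⁻ x, ‖x - T i0 i1 δ x‖ₑ ^ 2 ∂(rho d) ≤ ∫⁻ _, ENNReal.ofReal (2 * d + 2) ∂(rho d) := by
    apply lintegral_mono_ae
    filter_upwards [ae_Q] with x hx
    have h := norm_T_le i0 i1 δ hδ0 hδ x
    rw [← ofReal_norm, ← ENNReal.ofReal_pow (norm_nonneg _)]
    apply ENNReal.ofReal_le_ofReal
    have h2 := hb x hx
    have h3 : ‖x - T i0 i1 δ x‖ ≤ ‖x‖ + ‖T i0 i1 δ x‖ := norm_sub_le _ _
    nlinarith [norm_nonneg x, norm_nonneg (T i0 i1 δ x), norm_nonneg (x - T i0 i1 δ x),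
      sq_nonneg (‖x‖ - ‖T i0 i1 δ x‖)]
  refine ne_top_of_le_ne_top ?_ this
  simp

theorem T_unique (hne : i0 ≠ i1) (hδ0 : 0 ≤ δ) (hδ : δ ≤ 1) (S : E d → E d)
    (hS : IsOptimalMap (rho d) (mu i0 i1 δ) S) : S =ᵐ[rho d] T i0 i1 δ := by
  obtain ⟨hSm, hmap, hopt⟩ := hS
  have hmT := measurable_T i0 i1 δ
  have hae : (fun x => ‖x - T i0 i1 δ x‖ₑ ^ 2 + ‖S x‖ₑ ^ 2) ≤ᵐ[rho d]
      (fun x => ‖x - S x‖ₑ ^ 2 + ‖T i0 i1 δ x‖ₑ ^ 2) := by
    filter_upwards [ae_atom i0 i1 δ S hSm hmap] with x hx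
    exact pointwise i0 i1 δ x (S x) hx
  have h1 := hopt (T i0 i1 δ) hmT rfl
  have h2 : ∫⁻ x, (‖x - S x‖ₑ ^ 2 + ‖T i0 i1 δ x‖ₑ ^ 2) ∂(rho d) ≤
      ∫⁻ x, (‖x - T i0 i1 δ x‖ₑ ^ 2 + ‖S x‖ₑ ^ 2) ∂(rho d) := by
    rw [lintegral_add_right _ (by fun_prop), lintegral_add_right _ (by fun_prop), lint_sq i0 i1 δ S hSm hmap]
    gcongr
  have h3 : ∫⁻ x, (‖x - T i0 i1 δ x‖ₑ ^ 2 + ‖S x‖ₑ ^ 2) ∂(rho d) ≠ ⊤ := by
    rw [lintegral_add_right _ (by fun_prop), lint_sq i0 i1 δ S hSm hmap]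
    exact ENNReal.add_ne_top.mpr ⟨cost_ne_top i0 i1 δ hδ0 hδ, lint_T_ne_top i0 i1 δ hδ0 hδ⟩
  have h4 := ae_eq_of_ae_le_of_lintegral_le hae h3 (by fun_prop) h2
  have n1 : ∀ᵐ x ∂(rho d), x i0 ≠ δ * x i1 := by
    rw [ae_iff]; simpa using hyper_null i0 i1 hne δ
  have n2 : ∀ᵐ x ∂(rho d), x i0 ≠ -δ * x i1 := by
    rw [ae_iff]; simpa using hyper_null i0 i1 hne (-δ)
  have n3 : ∀ᵐ x ∂(rho d), x i0 ≠ 0 := by
    rw [ae_iff]; simpa using hyper_null i0 i1 hne 0
  filter_upwards [h4, ae_atom i0 i1 δ S hSm hmap, n1, n2, n3] with x hx hat m1 m2 m3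
  exact eq_of_inner i0 i1 δ x (S x) hat (pointwise_eq i0 i1 δ x (S x) hx) m1 m2 m3

/-! ### the reflection -/

/-- reflection in the coordinate `i1` -/
noncomputable def R : E d ≃ₗᵢ[ℝ] E d :=
  LinearIsometryEquiv.piLpCongrRight 2 (fun i => if i = i1 then LinearIsometryEquiv.neg ℝ else LinearIsometryEquiv.refl ℝ ℝ)

lemma R_apply (x : E d) (i : Fin d) : R i1 x i = if i = i1 then - x i else x i := by
  unfold R
  rw [LinearIsometryEquiv.piLpCongrRight_apply]
  simp only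
  split_ifs <;> simp

lemma R_apply_self (x : E d) : R i1 x i1 = - x i1 := by rw [R_apply, if_pos rfl]

lemma R_apply_ne (x : E d) (i : Fin d) (h : i ≠ i1) : R i1 x i = x i := by rw [R_apply, if_neg h]

lemma R_R (x : E d) : R i1 (R i1 x) = x := by
  ext i
  rw [R_apply, R_apply]
  split_ifs <;> simp

lemma R_ev_self : R i1 (ev i1) = - ev i1 := by
  ext i
  rw [R_apply]
  by_cases h : i = i1
  · subst h; simp
  · simp [h]

lemma R_ev_ne (h : i0 ≠ i1) : R i1 (ev i0) = ev i0 := by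
  ext i
  rw [R_apply]
  by_cases h1 : i = i1
  · subst h1; simp [h.symm]
  · simp [h1]

lemma mp_R : MeasurePreserving (R i1) (rho d) (rho d) := by
  have h1 := (R i1).measurePreserving
  have h2 := h1.restrict_preimage (measurableSet_Q d)
  have h3 : (R i1) ⁻¹' (Q d) = Q d := by
    ext x
    simp only [mem_preimage, mem_ofPred_eq]
    apply forall_congr'
    intro i
    rw [R_apply]
    split_ifs <;> simp
  rw [h3] at h2
  exact h2.smul_measure _

lemma measurable_R : Measurable (R i1) := (R i1).continuous.measurable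

lemma cost_conj (S : E d → E d) :
    ∫⁻ x, ‖x - R i1 (S (R i1 x))‖ₑ ^ 2 ∂(rho d) = ∫⁻ x, ‖x - S x‖ₑ ^ 2 ∂(rho d) := by
  have h1 : ∀ x, ‖x - R i1 (S (R i1 x))‖ₑ = ‖R i1 x - S (R i1 x)‖ₑ := by
    intro x
    have : x - R i1 (S (R i1 x)) = R i1 (R i1 x - S (R i1 x)) := by
      rw [map_sub, R_R]
    rw [this, ← ofReal_norm, LinearIsometryEquiv.norm_map, ofReal_norm]
  simp_rw [h1]
  have hemb : MeasurableEmbedding (R i1 : E d → E d) := (R i1).toHomeomorph.measurableEmbedding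
  exact (mp_R i1).lintegral_comp_emb hemb (fun y => ‖y - S y‖ₑ ^ 2)

lemma opt_conj (m : Measure (E d)) (S : E d → E d) (h : IsOptimalMap (rho d) m S) :
    IsOptimalMap (rho d) (m.map (R i1)) (fun x => R i1 (S (R i1 x))) := by
  obtain ⟨hS, hmap, hopt⟩ := h
  have hR := measurable_R (d := d) i1
  refine ⟨hR.comp (hS.comp hR), ?_, ?_⟩
  · have : (fun x => R i1 (S (R i1 x))) = (R i1) ∘ S ∘ (R i1) := rfl
    rw [this, ← Measure.map_map hR (hS.comp hR), ← Measure.map_map hS hR, (mp_R i1).map_eq, hmap]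
  · intro S' hS' hmap'
    rw [cost_conj, ← cost_conj i1 S']
    apply hopt _ (hR.comp (hS'.comp hR))
    rw [← Measure.map_map hR (hS'.comp hR), ← Measure.map_map hS' hR, (mp_R i1).map_eq, hmap',
      Measure.map_map hR hR]
    have h2 : (R i1 : E d → E d) ∘ (R i1) = id := by
      funext x; exact R_R i1 x
    rw [h2, Measure.map_id]

/-- the other target -/
noncomputable def nu : Measure (E d) := (mu i0 i1 δ).map (R i1)

lemma nu_map : (nu i0 i1 δ).map (R i1) = mu i0 i1 δ := by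
  have hR := measurable_R (d := d) i1
  rw [nu, Measure.map_map hR hR]
  have h2 : (R i1 : E d → E d) ∘ (R i1) = id := by
    funext x; exact R_R i1 x
  rw [h2, Measure.map_id]

theorem T'_optimal (hδ0 : 0 ≤ δ) (hδ : δ ≤ 1) :
    IsOptimalMap (rho d) (nu i0 i1 δ) (fun x => R i1 (T i0 i1 δ (R i1 x))) :=
  opt_conj i1 _ _ (T_optimal i0 i1 δ hδ0 hδ)

theorem T'_unique (hne : i0 ≠ i1) (hδ0 : 0 ≤ δ) (hδ : δ ≤ 1) (S : E d → E d)
    (hS : IsOptimalMap (rho d) (nu i0 i1 δ) S) : S =ᵐ[rho d] fun x => R i1 (T i0 i1 δ (R i1 x)) := by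
  have h1 := opt_conj i1 _ _ hS
  rw [nu_map] at h1
  have h2 := T_unique i0 i1 δ hne hδ0 hδ _ h1
  have h3 := (mp_R (d := d) i1).quasiMeasurePreserving.ae_eq_comp h2
  filter_upwards [h3] with x hx
  simp only [Function.comp] at hx
  rw [R_R] at hx
  rw [← hx, R_R]

/-! ### masses -/

lemma V_le (hne : i0 ≠ i1) (hδ0 : 0 < δ) (hδ : δ ≤ 1) : rho d (V i0 i1 δ) ≤ ENNReal.ofReal δ := by
  have h := rho_box2 i0 i1 hne (-δ) δ (-1) 1 (by linarith) hδ le_rfl le_rfl
  have e : ENNReal.ofReal ((δ - -δ) / 2) * ENNReal.ofReal ((1 - -1) / 2) = ENNReal.ofReal δ := by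
    rw [← ENNReal.ofReal_mul (by linarith)]
    congr 1; ring
  rw [e] at h
  rw [← h]
  apply measure_mono_ae
  filter_upwards [ae_Q] with x hx hxV
  have hx0 := hx i0
  have hx1 := abs_le.mp (hx i1)
  have hV : |x i0| < δ * x i1 := hxV
  have h2 : |x i0| ≤ δ := by nlinarith
  exact ⟨abs_le.mp h2, hx1⟩

lemma le_V (hne : i0 ≠ i1) (hδ0 : 0 < δ) (hδ : δ ≤ 1) : ENNReal.ofReal (δ / 16) ≤ rho d (V i0 i1 δ) := by
  have h := rho_box2 i0 i1 hne (-(δ / 4)) (δ / 4) (1 / 2) 1 (by linarith) (by linarith) (by norm_num) le_rfl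
  have e : ENNReal.ofReal ((δ / 4 - -(δ / 4)) / 2) * ENNReal.ofReal ((1 - 1 / 2) / 2) = ENNReal.ofReal (δ / 16) := by
    rw [← ENNReal.ofReal_mul (by linarith)]
    congr 1; ring
  rw [e] at h
  rw [← h]
  apply measure_mono
  rintro x ⟨h1, h2⟩
  show |x i0| < δ * x i1
  have h3 : |x i0| ≤ δ / 4 := abs_le.mpr h1
  have h4 := h2.1
  nlinarith

lemma pos_P (hne : i0 ≠ i1) (hδ0 : 0 < δ) : 0 < rho d ((V i0 i1 δ)ᶜ ∩ P i0) := by
  have h := rho_box2 i0 i1 hne (1 / 2) 1 (-1) 0 (by norm_num) le_rfl le_rfl (by norm_num)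
  have h2 : 0 < rho d {x : E d | x i0 ∈ Icc (1 / 2 : ℝ) 1 ∧ x i1 ∈ Icc (-1 : ℝ) 0} := by
    rw [h]; norm_num
  refine h2.trans_le (measure_mono ?_)
  rintro x ⟨h1, h3⟩
  refine ⟨?_, ?_⟩
  · show ¬ |x i0| < δ * x i1
    have := abs_nonneg (x i0)
    have := h3.2
    nlinarith
  · show 0 < x i0
    linarith [h1.1]

lemma pos_N (hne : i0 ≠ i1) (hδ0 : 0 < δ) : 0 < rho d ((V i0 i1 δ)ᶜ ∩ (P i0)ᶜ) := by
  have h := rho_box2 i0 i1 hne (-1) (-(1 / 2)) (-1) 0 le_rfl (by norm_num) le_rfl (by norm_num)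
  have h2 : 0 < rho d {x : E d | x i0 ∈ Icc (-1 : ℝ) (-(1 / 2)) ∧ x i1 ∈ Icc (-1 : ℝ) 0} := by
    rw [h]; norm_num
  refine h2.trans_le (measure_mono ?_)
  rintro x ⟨h1, h3⟩
  refine ⟨?_, ?_⟩
  · show ¬ |x i0| < δ * x i1
    have := abs_nonneg (x i0)
    have := h3.2
    nlinarith
  · show ¬ 0 < x i0
    linarith [h1.2]

lemma map_restrict_const {α : Type*} [MeasurableSpace α] (μ : Measure α) (f : α → E d) (hf : Measurable f)
    (A : Set α) (hA : MeasurableSet A) (c : E d) (h : ∀ x ∈ A, f x = c) :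
    (μ.restrict A).map f = μ A • Measure.dirac c := by
  ext s hs
  rw [Measure.map_apply hf hs, Measure.restrict_apply (hf hs), Measure.smul_apply, Measure.dirac_apply' _ hs,
    smul_eq_mul]
  by_cases hc : c ∈ s
  · rw [indicator_of_mem hc]
    have : f ⁻¹' s ∩ A = A := by
      ext x; simp only [mem_inter_iff, mem_preimage, and_iff_right_iff_imp]
      intro hx; rw [h x hx]; exact hc
    rw [this]; simp
  · rw [indicator_of_notMem hc]
    have : f ⁻¹' s ∩ A = ∅ := by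
      ext x; simp only [mem_inter_iff, mem_preimage, mem_empty_iff_false, iff_false, not_and]
      intro hx hxA; rw [h x hxA] at hx; exact hc hx
    rw [this]; simp

lemma mu_threeAtomic (hne : i0 ≠ i1) (hδ0 : 0 < δ) (hδ : δ ≤ 1) : IsThreeAtomic (mu i0 i1 δ) := by
  have hV := measurableSet_V i0 i1 δ
  have hP := measurableSet_P i0
  have hT := measurable_T i0 i1 δ
  refine ⟨![δ • ev i1, ev i0, -ev i0], ?_,
    ![(rho d (V i0 i1 δ)).toReal, (rho d ((V i0 i1 δ)ᶜ ∩ P i0)).toReal, (rho d ((V i0 i1 δ)ᶜ ∩ (P i0)ᶜ)).toReal],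
    ?_, ?_⟩
  · have c0 : (δ • ev i1 : E d) i1 = δ := by simp
    have c1 : (ev i0 : E d) i1 = 0 := by simp [hne.symm]
    have c2 : (-ev i0 : E d) i1 = 0 := by simp [hne.symm]
    have n01 : (δ • ev i1 : E d) ≠ ev i0 := fun h => by
      have := congrArg (fun z : E d => z i1) h
      simp only [c0, c1] at this
      exact hδ0.ne' this
    have n02 : (δ • ev i1 : E d) ≠ -ev i0 := fun h => by
      have := congrArg (fun z : E d => z i1) h
      simp only [c0, c2] at this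
      exact hδ0.ne' this
    have n12 : (ev i0 : E d) ≠ -ev i0 := fun h => by
      have := congrArg (fun z : E d => z i0) h
      simp at this
      norm_num at this
    intro i j hij
    fin_cases i <;> fin_cases j <;> first | rfl | exfalso
    · exact n01 hij
    · exact n02 hij
    · exact n01 hij.symm
    · exact n12 hij
    · exact n02 hij.symm
    · exact n12 hij.symm
  · intro i
    fin_cases i
    · apply ENNReal.toReal_pos
      · have := le_V i0 i1 δ hne hδ0 hδ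
        have h2 : 0 < ENNReal.ofReal (δ / 16) := ENNReal.ofReal_pos.mpr (by linarith)
        exact (h2.trans_le this).ne'
      · exact measure_ne_top _ _
    · exact ENNReal.toReal_pos (pos_P i0 i1 δ hne hδ0).ne' (measure_ne_top _ _)
    · exact ENNReal.toReal_pos (pos_N i0 i1 δ hne hδ0).ne' (measure_ne_top _ _)
  · rw [Fin.sum_univ_three]
    simp only [Matrix.cons_val_zero, Matrix.cons_val_one, Matrix.cons_val]
    rw [ENNReal.ofReal_toReal (measure_ne_top _ _), ENNReal.ofReal_toReal (measure_ne_top _ _),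
      ENNReal.ofReal_toReal (measure_ne_top _ _)]
    rw [← map_restrict_const (rho d) (T i0 i1 δ) hT (V i0 i1 δ) hV (δ • ev i1) (fun x hx => by
        have hx' : |x i0| < δ * x i1 := hx
        unfold T; rw [if_pos hx']),
      ← map_restrict_const (rho d) (T i0 i1 δ) hT ((V i0 i1 δ)ᶜ ∩ P i0) (hV.compl.inter hP) (ev i0) (fun x hx => by
        have hx' : ¬ |x i0| < δ * x i1 := hx.1
        have hx2 : 0 < x i0 := hx.2
        unfold T; rw [if_neg hx', if_pos hx2]),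
      ← map_restrict_const (rho d) (T i0 i1 δ) hT ((V i0 i1 δ)ᶜ ∩ (P i0)ᶜ) (hV.compl.inter hP.compl) (-ev i0) (fun x hx => by
        have hx' : ¬ |x i0| < δ * x i1 := hx.1
        have hx2 : ¬ 0 < x i0 := hx.2
        unfold T; rw [if_neg hx', if_neg hx2])]
    rw [← Measure.map_add _ _ hT, ← Measure.map_add _ _ hT, mu]
    congr 1
    have e1 := Measure.restrict_add_restrict_compl (μ := rho d) hV
    have e2 : (rho d).restrict ((V i0 i1 δ)ᶜ ∩ P i0) + (rho d).restrict ((V i0 i1 δ)ᶜ ∩ (P i0)ᶜ) =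
        (rho d).restrict (V i0 i1 δ)ᶜ := by
      have := Measure.restrict_inter_add_sdiff (μ := rho d) (V i0 i1 δ)ᶜ hP
      rwa [sdiff_eq] at this
    rw [add_assoc, e2, e1]

lemma nu_threeAtomic (hne : i0 ≠ i1) (hδ0 : 0 < δ) (hδ : δ ≤ 1) : IsThreeAtomic (nu i0 i1 δ) := by
  obtain ⟨y, hy, m, hm, h⟩ := mu_threeAtomic i0 i1 δ hne hδ0 hδ
  have hR := measurable_R (d := d) i1
  refine ⟨fun i => R i1 (y i), (R i1).injective.comp hy, m, hm, ?_⟩
  rw [nu, h, ← Measure.mapₗ_apply_of_measurable hR, _root_.map_sum]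
  apply Finset.sum_congr rfl
  intro i _
  rw [Measure.mapₗ_apply_of_measurable hR, Measure.map_smul, Measure.map_dirac' hR]

lemma mu_on (hδ0 : 0 ≤ δ) (hδ : δ ≤ 1) : IsProbabilityOn (Q d) (mu i0 i1 δ) := by
  refine ⟨inferInstance, ?_⟩
  rw [mu, Measure.map_apply (measurable_T i0 i1 δ) (measurableSet_Q d).compl]
  have : T i0 i1 δ ⁻¹' (Q d)ᶜ = ∅ := by
    ext x
    simp only [mem_preimage, mem_compl_iff, mem_empty_iff_false, iff_false, not_not]
    have h := norm_T_le i0 i1 δ hδ0 hδ x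
    intro i
    rw [← Real.norm_eq_abs]
    exact (PiLp.norm_apply_le _ i).trans h
  rw [this, measure_empty]

lemma nu_on (hδ0 : 0 ≤ δ) (hδ : δ ≤ 1) : IsProbabilityOn (Q d) (nu i0 i1 δ) := by
  have hR := measurable_R (d := d) i1
  refine ⟨?_, ?_⟩
  · unfold nu
    exact Measure.isProbabilityMeasure_map hR.aemeasurable
  · rw [nu, Measure.map_apply hR (measurableSet_Q d).compl]
    have h3 : (R i1) ⁻¹' (Q d)ᶜ = (Q d)ᶜ := by
      ext x
      simp only [mem_preimage, mem_compl_iff, mem_ofPred_eq]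
      apply not_congr
      apply forall_congr'
      intro i
      rw [R_apply]
      split_ifs <;> simp
    rw [h3]
    exact (mu_on i0 i1 δ hδ0 hδ).2

/-! ### the coupling -/

/-- the coupling -/
noncomputable def cpl : Measure (E d × E d) := (rho d).map (fun x => (T i0 i1 δ x, R i1 (T i0 i1 δ x)))

lemma cpl_coupling : IsPairCoupling (mu i0 i1 δ) (nu i0 i1 δ) (cpl i0 i1 δ) := by
  have hR := measurable_R (d := d) i1
  have hT := measurable_T i0 i1 δ
  have hm : Measurable (fun x => (T i0 i1 δ x, R i1 (T i0 i1 δ x))) := hT.prodMk (hR.comp hT)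
  constructor
  · rw [cpl, Measure.map_map measurable_fst hm]; rfl
  · rw [cpl, Measure.map_map measurable_snd hm, nu, mu, Measure.map_map hR hT]; rfl

lemma cpl_cost (hne : i0 ≠ i1) (hδ0 : 0 ≤ δ) :
    quadCost (cpl i0 i1 δ) = ENNReal.ofReal (4 * δ ^ 2) * rho d (V i0 i1 δ) := by
  have hR := measurable_R (d := d) i1
  have hT := measurable_T i0 i1 δ
  have hm : Measurable (fun x => (T i0 i1 δ x, R i1 (T i0 i1 δ x))) := hT.prodMk (hR.comp hT)
  rw [quadCost, cpl, lintegral_map (by fun_prop) hm]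
  have e : ∀ x, ‖(T i0 i1 δ x, R i1 (T i0 i1 δ x)).1 - (T i0 i1 δ x, R i1 (T i0 i1 δ x)).2‖ₑ ^ 2 =
      (V i0 i1 δ).indicator (fun _ => ENNReal.ofReal (4 * δ ^ 2)) x := by
    intro x
    simp only
    by_cases hx : x ∈ V i0 i1 δ
    · rw [indicator_of_mem hx]
      have hx' : |x i0| < δ * x i1 := hx
      have hTx : T i0 i1 δ x = δ • ev i1 := by unfold T; rw [if_pos hx']
      rw [hTx, map_smul, R_ev_self, ← ofReal_norm, ← ENNReal.ofReal_pow (norm_nonneg _)]
      congr 1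
      have : δ • ev i1 - δ • -(ev i1 : E d) = (2 * δ) • ev i1 := by module
      rw [this, norm_smul]
      simp [abs_of_nonneg hδ0]; ring
    · rw [indicator_of_notMem hx]
      have hx' : ¬ |x i0| < δ * x i1 := hx
      have hTx : T i0 i1 δ x = ev i0 ∨ T i0 i1 δ x = - ev i0 := by
        unfold T; rw [if_neg hx']; split_ifs
        · left; rfl
        · right; rfl
      rcases hTx with h | h
      · rw [h, R_ev_ne i0 i1 hne]; simp
      · rw [h, map_neg, R_ev_ne i0 i1 hne]; simp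
  simp_rw [e]
  rw [lintegral_indicator (measurableSet_V i0 i1 δ), lintegral_const, Measure.restrict_apply_univ]

lemma map_dist (hne : i0 ≠ i1) (hδ0 : 0 < δ) (hδ : δ ≤ 1) (Tμ Tν : E d → E d)
    (hμ : IsOptimalMap (rho d) (mu i0 i1 δ) Tμ) (hν : IsOptimalMap (rho d) (nu i0 i1 δ) Tν) :
    rho d (V i0 i1 δ) ≤ ∫⁻ x, ‖Tμ x - Tν x‖ₑ ^ 2 ∂(rho d) := by
  have h1 := T_unique i0 i1 δ hne hδ0.le hδ Tμ hμ
  have h2 := T'_unique i0 i1 δ hne hδ0.le hδ Tν hν
  calc rho d (V i0 i1 δ) = ∫⁻ x, (V i0 i1 δ).indicator (fun _ => 1) x ∂(rho d) := by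
        rw [lintegral_indicator (measurableSet_V i0 i1 δ)]; simp
    _ ≤ ∫⁻ x, ‖Tμ x - Tν x‖ₑ ^ 2 ∂(rho d) := by
        apply lintegral_mono_ae
        filter_upwards [h1, h2] with x hx1 hx2
        by_cases hx : x ∈ V i0 i1 δ
        · rw [indicator_of_mem hx, hx1, hx2]
          have hx' : |x i0| < δ * x i1 := hx
          have hx3 : ¬ |R i1 x i0| < δ * R i1 x i1 := by
            rw [R_apply_self, R_apply_ne i1 x i0 hne]
            have := abs_nonneg (x i0)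
            linarith
          have hTx : T i0 i1 δ x = δ • ev i1 := by unfold T; rw [if_pos hx']
          have hTx2 : T i0 i1 δ (R i1 x) = ev i0 ∨ T i0 i1 δ (R i1 x) = - ev i0 := by
            unfold T; rw [if_neg hx3]; split_ifs
            · left; rfl
            · right; rfl
          have hn : ∀ z : E d, z = ev i0 ∨ z = - ev i0 → (1 : ℝ≥0∞) ≤ ‖δ • ev i1 - z‖ₑ ^ 2 := by
            intro z hz
            rw [← ofReal_norm, ← ENNReal.ofReal_pow (norm_nonneg _), ← ENNReal.ofReal_one]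
            apply ENNReal.ofReal_le_ofReal
            have hc : |(δ • ev i1 - z) i0| = 1 := by
              rcases hz with rfl | rfl
              · simp [hne]
              · simp [hne]
            have h4 := PiLp.norm_apply_le (δ • ev i1 - z) i0
            rw [Real.norm_eq_abs, hc] at h4
            nlinarith
          rw [hTx]
          apply hn
          rcases hTx2 with h | h
          · left; rw [h, R_ev_ne i0 i1 hne]
          · right; rw [h, map_neg, R_ev_ne i0 i1 hne]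
        · rw [indicator_of_notMem hx]; exact zero_le

lemma exists_delta (α C : ℝ) (hα : 1 / 3 < α) (_hC : 0 ≤ C) : ∃ δ : ℝ, 0 < δ ∧ δ ≤ 1 ∧ C * (4 * δ ^ 3) ^ α < δ / 16 := by
  have hp : 0 < 3 * α - 1 := by linarith
  have h1 : Filter.Tendsto (fun x : ℝ => x ^ (3 * α - 1)) (nhds 0) (nhds 0) := by
    have := (Real.continuousAt_rpow_const 0 (3 * α - 1) (Or.inr hp.le)).tendsto
    rwa [Real.zero_rpow hp.ne'] at this
  have h2 : Filter.Tendsto (fun x : ℝ => C * 4 ^ α * x ^ (3 * α - 1)) (nhds 0) (nhds 0) := by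
    have := h1.const_mul (C * 4 ^ α)
    rwa [mul_zero] at this
  have h3 := h2.eventually (gt_mem_nhds (show (0:ℝ) < 1 / 16 by norm_num))
  have h4 := h3.filter_mono (nhdsWithin_le_nhds (s := Ioi 0))
  have h5 : ∀ᶠ x : ℝ in nhdsWithin 0 (Ioi 0), x ∈ Ioc (0:ℝ) 1 := Ioc_mem_nhdsGT (by norm_num)
  obtain ⟨δ, h6, h7⟩ := (h4.and h5).exists
  refine ⟨δ, h7.1, h7.2, ?_⟩
  have hδ := h7.1
  have e : C * (4 * δ ^ 3) ^ α = (C * 4 ^ α * δ ^ (3 * α - 1)) * δ := by
    rw [Real.mul_rpow (by norm_num) (by positivity), ← Real.rpow_natCast δ 3, ← Real.rpow_mul hδ.le]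
    have : δ ^ (((3:ℕ):ℝ) * α) = δ ^ (3 * α - 1) * δ := by
      rw [← Real.rpow_add_one hδ.ne']; congr 1; push_cast; ring
    rw [this]; ring
  rw [e]
  calc (C * 4 ^ α * δ ^ (3 * α - 1)) * δ < 1 / 16 * δ := mul_lt_mul_of_pos_right h6 hδ
    _ = δ / 16 := by ring

end Map

end Crest.Agent.H12OT
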