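import Mathlib

set_option autoImplicit false

open MeasureTheory MeasureTheory.Measure Module
open scoped ENNReal RealInnerProductSpace

namespace Crest.Agent.H17Area

/-- Euclidean three-space. -/
abbrev E3 := EuclideanSpace ℝ (Fin 3)
/-- Euclidean plane. -/
abbrev E2 := EuclideanSpace ℝ (Fin 2)

/-- the Gram determinant (area of the parallelogram spanned by `a`, `b`) -/
noncomputable def parea (a b : E3) : ℝ := Real.sqrt (‖a‖ ^ 2 * ‖b‖ ^ 2 - inner ℝ a b ^ 2)

lemma parea_nonneg (a b : E3) : 0 ≤ parea a b := Real.sqrt_nonneg _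

lemma gram_nonneg (a b : E3) : 0 ≤ ‖a‖ ^ 2 * ‖b‖ ^ 2 - inner ℝ a b ^ 2 := by
  have h := abs_real_inner_le_norm a b
  have h2 : (inner ℝ a b) ^ 2 ≤ (‖a‖ * ‖b‖) ^ 2 := by
    rw [← sq_abs]
    exact pow_le_pow_left₀ (abs_nonneg _) h 2
  nlinarith [h2]

lemma exists_frame (a b : E3) : ∃ (e₀ e₁ : E3) (x y z : ℝ), ‖e₀‖ = 1 ∧ ‖e₁‖ = 1 ∧ inner ℝ e₀ e₁ = 0 ∧
    a = x • e₀ ∧ b = y • e₀ + z • e₁ := by
  have hfin : finrank ℝ E3 = Fintype.card (Fin 3) := by simp
  let f : Fin 3 → E3 := ![a, b, 0]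
  let B := InnerProductSpace.gramSchmidtOrthonormalBasis hfin f
  have h10 : inner ℝ (B 1) a = 0 := by
    have := InnerProductSpace.gramSchmidtOrthonormalBasis_inv_triangular hfin f (i := 0) (j := 1) (by decide)
    simpa [f] using this
  have h20 : inner ℝ (B 2) a = 0 := by
    have := InnerProductSpace.gramSchmidtOrthonormalBasis_inv_triangular hfin f (i := 0) (j := 2) (by decide)
    simpa [f] using this
  have h21 : inner ℝ (B 2) b = 0 := by
    have := InnerProductSpace.gramSchmidtOrthonormalBasis_inv_triangular hfin f (i := 1) (j := 2) (by decide)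
    simpa [f] using this
  refine ⟨B 0, B 1, inner ℝ (B 0) a, inner ℝ (B 0) b, inner ℝ (B 1) b, ?_, ?_, ?_, ?_, ?_⟩
  · exact B.orthonormal.1 0
  · exact B.orthonormal.1 1
  · exact B.orthonormal.2 (by decide)
  · have := B.sum_repr' a
    rw [Fin.sum_univ_three, h10, h20] at this
    simpa using this.symm
  · have := B.sum_repr' b
    rw [Fin.sum_univ_three, h21] at this
    simpa using this.symm

/-- The isometric embedding of the plane given by two orthonormal vectors. -/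
noncomputable def planeIso (e₀ e₁ : E3) (h0 : ‖e₀‖ = 1) (h1 : ‖e₁‖ = 1) (h01 : inner ℝ e₀ e₁ = 0) :
    E2 →ₗᵢ[ℝ] E3 where
  toFun p := p 0 • e₀ + p 1 • e₁
  map_add' p q := by simp [add_smul]; abel
  map_smul' r p := by simp [mul_smul, smul_add]
  norm_map' p := by
    have h : ‖p 0 • e₀ + p 1 • e₁‖ ^ 2 = ‖p‖ ^ 2 := by
      rw [@norm_add_sq ℝ, inner_smul_left, inner_smul_right, h01, norm_smul, norm_smul, h0, h1,
        EuclideanSpace.norm_sq_eq, Fin.sum_univ_two]
      simp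
    have h3 : ‖p 0 • e₀ + p 1 • e₁‖ = ‖p‖ := by
      have := congrArg Real.sqrt h
      rwa [Real.sqrt_sq (norm_nonneg _), Real.sqrt_sq (norm_nonneg _)] at this
    exact h3

theorem euclideanHausdorff_image_linear (a b : E3) (S : Set E2) :
    μHE[2] ((fun p : E2 => p 0 • a + p 1 • b) '' S) = ENNReal.ofReal (parea a b) * volume S := by
  obtain ⟨e₀, e₁, x, y, z, h0, h1, h01, ha, hb⟩ := exists_frame a b
  let ι := planeIso e₀ e₁ h0 h1 h01
  let M : Matrix (Fin 2) (Fin 2) ℝ := !![x, y; 0, z]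
  let A : E2 →ₗ[ℝ] E2 := Matrix.toLpLin 2 2 M
  have hA : ∀ p : E2, A p = !₂[x * p 0 + y * p 1, z * p 1] := by
    intro p
    ext i
    fin_cases i <;> simp [A, M, Matrix.toLpLin_apply, dotProduct, Fin.sum_univ_two]
  have himg : (fun p : E2 => p 0 • a + p 1 • b) '' S = ι '' (A '' S) := by
    rw [Set.image_image]
    apply Set.image_congr
    intro p _
    show p 0 • a + p 1 • b = (A p) 0 • e₀ + (A p) 1 • e₁
    rw [hA, ha, hb]
    simp only [smul_add, smul_smul]
    simp [mul_comm]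
    module
  rw [himg, ι.isometry.euclideanHausdorffMeasure_image, EuclideanSpace.euclideanHausdorffMeasure_eq_volume,
    addHaar_image_linearMap]
  congr 2
  have hdet : LinearMap.det A = x * z := by
    simp only [A, LinearMap.det_toLpLin, M, Matrix.det_fin_two_of]
    ring
  rw [hdet]
  unfold parea
  rw [← Real.sqrt_sq_eq_abs]
  congr 1
  have e1 : ‖a‖ ^ 2 = x ^ 2 := by
    rw [ha, norm_smul, h0]; simp
  have e2 : ‖b‖ ^ 2 = y ^ 2 + z ^ 2 := by
    rw [hb, @norm_add_sq ℝ, inner_smul_left, inner_smul_right, h01, norm_smul, norm_smul, h0, h1]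
    simp
  have e3 : inner ℝ a b = x * y := by
    rw [ha, hb, inner_add_right, inner_smul_left, inner_smul_left, inner_smul_right, inner_smul_right, h01,
      real_inner_self_eq_norm_sq, h0]
    simp
  rw [e1, e2, e3]; ring

theorem euclideanHausdorff_image_affine (c a b : E3) (S : Set E2) :
    μHE[2] ((fun p : E2 => c + p 0 • a + p 1 • b) '' S) = ENNReal.ofReal (parea a b) * volume S := by
  rw [← euclideanHausdorff_image_linear]
  have : (fun p : E2 => c + p 0 • a + p 1 • b) '' S =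
      (fun x => c + x) '' ((fun p : E2 => p 0 • a + p 1 • b) '' S) := by
    rw [Set.image_image]
    apply Set.image_congr
    intro p _
    simp [add_assoc]
  rw [this]
  exact (IsometryEquiv.addLeft c).isometry.euclideanHausdorffMeasure_image _

/-- the standard triangle -/
def T0 : Set E2 := {p | 0 ≤ p 0 ∧ 0 ≤ p 1 ∧ p 0 + p 1 ≤ 1}

/-- the unit square -/
def Q0 : Set E2 := {p | p 0 ∈ Set.Icc (0 : ℝ) 1 ∧ p 1 ∈ Set.Icc (0 : ℝ) 1}

/-- general box -/
lemma volume_box (a b c d : ℝ) :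
    volume {p : E2 | p 0 ∈ Set.Icc a b ∧ p 1 ∈ Set.Icc c d} = ENNReal.ofReal (b - a) * ENNReal.ofReal (d - c) := by
  have h := (PiLp.volume_preserving_ofLp (Fin 2)).measure_preimage
    (s := Set.pi Set.univ ![Set.Icc a b, Set.Icc c d]) (by
      apply MeasurableSet.nullMeasurableSet
      apply MeasurableSet.univ_pi
      intro i
      fin_cases i <;> simp)
  rw [volume_pi_pi, Fin.prod_univ_two] at h
  simp only [Matrix.cons_val_zero, Matrix.cons_val_one, Real.volume_Icc] at h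
  rw [← h]
  congr 1
  ext p
  simp [Set.mem_pi, Fin.forall_fin_two]

lemma volume_Q0 : volume Q0 = 1 := by
  have := volume_box 0 1 0 1
  simpa [Q0] using this

lemma measurableSet_T0' : MeasurableSet {q : ℝ × ℝ | 0 ≤ q.1 ∧ 0 ≤ q.2 ∧ q.1 + q.2 ≤ 1} := by
  have h1 : IsClosed {q : ℝ × ℝ | 0 ≤ q.1} := isClosed_le (by fun_prop) (by fun_prop)
  have h2 : IsClosed {q : ℝ × ℝ | 0 ≤ q.2} := isClosed_le (by fun_prop) (by fun_prop)
  have h3 : IsClosed {q : ℝ × ℝ | q.1 + q.2 ≤ 1} := isClosed_le (by fun_prop) (by fun_prop)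
  exact (h1.inter (h2.inter h3)).measurableSet

lemma volume_T0' : volume {q : ℝ × ℝ | 0 ≤ q.1 ∧ 0 ≤ q.2 ∧ q.1 + q.2 ≤ 1} = ENNReal.ofReal (1 / 2) := by
  have hm : MeasurableSet {q : ℝ × ℝ | 0 ≤ q.1 ∧ 0 ≤ q.2 ∧ q.1 + q.2 ≤ 1} := measurableSet_T0'
  rw [Measure.volume_eq_prod, Measure.prod_apply hm]
  have h1 : ∀ x : ℝ, volume (Prod.mk x ⁻¹' {q : ℝ × ℝ | 0 ≤ q.1 ∧ 0 ≤ q.2 ∧ q.1 + q.2 ≤ 1}) =
      (Set.Icc (0:ℝ) 1).indicator (fun x => ENNReal.ofReal (1 - x)) x := by
    intro x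
    by_cases hx : x ∈ Set.Icc (0:ℝ) 1
    · rw [Set.indicator_of_mem hx]
      have : Prod.mk x ⁻¹' {q : ℝ × ℝ | 0 ≤ q.1 ∧ 0 ≤ q.2 ∧ q.1 + q.2 ≤ 1} = Set.Icc 0 (1 - x) := by
        ext y
        simp only [Set.mem_preimage, Set.mem_ofPred_eq, Set.mem_Icc]
        constructor
        · rintro ⟨_, h2, h3⟩; exact ⟨h2, by linarith⟩
        · rintro ⟨h2, h3⟩; exact ⟨hx.1, h2, by linarith⟩
      rw [this, Real.volume_Icc]; simp
    · rw [Set.indicator_of_notMem hx]
      have : Prod.mk x ⁻¹' {q : ℝ × ℝ | 0 ≤ q.1 ∧ 0 ≤ q.2 ∧ q.1 + q.2 ≤ 1} = ∅ := by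
        ext y
        simp only [Set.mem_preimage, Set.mem_ofPred_eq, Set.mem_empty_iff_false, iff_false]
        rintro ⟨h1, h2, h3⟩
        exact hx ⟨h1, by linarith⟩
      rw [this]; simp
  simp_rw [h1]
  rw [lintegral_indicator measurableSet_Icc]
  rw [← ofReal_integral_eq_lintegral_ofReal]
  · congr 1
    rw [integral_Icc_eq_integral_Ioc, ← intervalIntegral.integral_of_le zero_le_one]
    rw [intervalIntegral.integral_sub (by simp) (by simp)]
    simp
    norm_num
  · exact (Continuous.integrableOn_Icc (by fun_prop))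
  · filter_upwards [ae_restrict_mem measurableSet_Icc] with x hx
    simp only [Pi.zero_apply]
    linarith [hx.2]

lemma volume_T0 : volume T0 = ENNReal.ofReal (1 / 2) := by
  have hm : MeasurableSet {q : ℝ × ℝ | 0 ≤ q.1 ∧ 0 ≤ q.2 ∧ q.1 + q.2 ≤ 1} := measurableSet_T0'
  rw [← volume_T0', ← ((volume_preserving_finTwoArrow ℝ).comp
    (PiLp.volume_preserving_ofLp (Fin 2))).measure_preimage hm.nullMeasurableSet]
  rfl

lemma convexHull_triple_eq_image (p q r : E3) :
    convexHull ℝ ({p, q, r} : Set E3) = (fun x : E2 => p + x 0 • (q - p) + x 1 • (r - p)) '' T0 := by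
  rw [convexHull_insert (by simp), convexHull_pair]
  ext z
  simp only [mem_convexJoin, Set.mem_singleton_iff, exists_eq_left, Set.mem_image]
  constructor
  · rintro ⟨w, hw, hz⟩
    rw [segment_eq_image] at hw hz
    obtain ⟨s, hs, rfl⟩ := hw
    obtain ⟨t, ht, rfl⟩ := hz
    refine ⟨!₂[t * (1 - s), t * s], ⟨?_, ?_, ?_⟩, ?_⟩
    · simp; exact mul_nonneg ht.1 (by linarith [hs.2])
    · simp; exact mul_nonneg ht.1 hs.1
    · simp; nlinarith [ht.2]
    · simp only [Matrix.cons_val_zero, Matrix.cons_val_one]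
      module
  · rintro ⟨x, ⟨hx0, hx1, hx2⟩, rfl⟩
    by_cases h : x 0 + x 1 = 0
    · have h0 : x 0 = 0 := by linarith
      have h1 : x 1 = 0 := by linarith
      refine ⟨q, left_mem_segment ℝ q r, ?_⟩
      rw [h0, h1]; simp [left_mem_segment]
    · have hpos : 0 < x 0 + x 1 := lt_of_le_of_ne (by linarith) (Ne.symm h)
      refine ⟨(1 - x 1 / (x 0 + x 1)) • q + (x 1 / (x 0 + x 1)) • r, ?_, ?_⟩
      · rw [segment_eq_image]
        refine ⟨x 1 / (x 0 + x 1), ⟨by positivity, ?_⟩, rfl⟩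
        rw [div_le_one hpos]; linarith
      · rw [segment_eq_image]
        refine ⟨x 0 + x 1, ⟨hpos.le, hx2⟩, ?_⟩
        simp only [smul_add, smul_smul]
        have e1 : (x 0 + x 1) * (1 - x 1 / (x 0 + x 1)) = x 0 := by field_simp; ring
        have e2 : (x 0 + x 1) * (x 1 / (x 0 + x 1)) = x 1 := by field_simp
        rw [e1, e2]
        module

theorem euclideanHausdorff_triangle (p q r : E3) :
    μHE[2] (convexHull ℝ ({p, q, r} : Set E3)) = ENNReal.ofReal (parea (q - p) (r - p) / 2) := by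
  rw [convexHull_triple_eq_image, euclideanHausdorff_image_affine, volume_T0,
    ← ENNReal.ofReal_mul (parea_nonneg _ _)]
  congr 1
  ring

theorem euclideanHausdorff_triangle_toReal (p q r : E3) :
    (μHE[2] (convexHull ℝ ({p, q, r} : Set E3))).toReal = parea (q - p) (r - p) / 2 := by
  rw [euclideanHausdorff_triangle, ENNReal.toReal_ofReal]
  have := parea_nonneg (q - p) (r - p)
  linarith

lemma parallelogram_eq_image (c a b : E3) :
    {x : E3 | ∃ s ∈ Set.Icc (0 : ℝ) 1, ∃ t ∈ Set.Icc (0 : ℝ) 1, x = c + s • a + t • b} =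
      (fun x : E2 => c + x 0 • a + x 1 • b) '' Q0 := by
  ext z
  simp only [Set.mem_ofPred_eq, Set.mem_image]
  constructor
  · rintro ⟨s, hs, t, ht, rfl⟩
    exact ⟨!₂[s, t], ⟨by simpa using hs, by simpa using ht⟩, by simp⟩
  · rintro ⟨x, ⟨h0, h1⟩, rfl⟩
    exact ⟨x 0, h0, x 1, h1, rfl⟩

theorem euclideanHausdorff_parallelogram (c a b : E3) :
    μHE[2] {x : E3 | ∃ s ∈ Set.Icc (0 : ℝ) 1, ∃ t ∈ Set.Icc (0 : ℝ) 1, x = c + s • a + t • b} =
      ENNReal.ofReal (parea a b) := by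
  rw [parallelogram_eq_image, euclideanHausdorff_image_affine, volume_Q0, mul_one]

/-- relation between the two normalisations -/
lemma exists_scale : ∃ k : ℝ, 0 < k ∧ ∀ S : Set E3, (μH[(2 : ℝ)] S).toReal = k * (μHE[2] S).toReal := by
  set c : NNReal := addHaarScalarFactor (volume : Measure (EuclideanSpace ℝ (Fin 2))) μH[(2 : ℕ)] with hc
  have hc0 : c ≠ 0 := MeasureTheory.Measure.addHaarScalarFactor_volume_hausdorffMeasure_ne_zero 2
  refine ⟨(c : ℝ)⁻¹, by positivity, fun S => ?_⟩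
  have h2 : (μHE[2] S) = (c : ℝ≥0∞) * μH[(2 : ℝ)] S := by
    rw [euclideanHausdorffMeasure_def, Measure.smul_apply, ENNReal.smul_def, smul_eq_mul, ← hc]
    norm_num
  rw [h2, ENNReal.toReal_mul]
  simp only [ENNReal.coe_toReal]
  field_simp

end Crest.Agent.H17Area
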