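import Mathlib
import Crest.Agent.H17Area

set_option autoImplicit false

open MeasureTheory MeasureTheory.Measure Module
open scoped ENNReal RealInnerProductSpace

namespace Crest.Agent.H17Cyl

open Crest.Agent.H17Area

/-- triple product -/
def det3 (a b w : E3) : ℝ :=
  a 0 * (b 1 * w 2 - b 2 * w 1) - a 1 * (b 0 * w 2 - b 2 * w 0) + a 2 * (b 0 * w 1 - b 1 * w 0)

lemma inner3 (a b : E3) : inner ℝ a b = a 0 * b 0 + a 1 * b 1 + a 2 * b 2 := by
  rw [PiLp.inner_apply, Fin.sum_univ_three]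
  simp [mul_comm]

lemma normsq3 (a : E3) : ‖a‖ ^ 2 = a 0 ^ 2 + a 1 ^ 2 + a 2 ^ 2 := by
  rw [EuclideanSpace.norm_sq_eq, Fin.sum_univ_three]
  simp

/-- orthogonal projection along a (nonzero, not necessarily unit) vector `w` -/
noncomputable def projAlong (w y : E3) : E3 := y - (inner ℝ y w / ‖w‖ ^ 2) • w

lemma projAlong_add (w y z : E3) : projAlong w (y + z) = projAlong w y + projAlong w z := by
  simp only [projAlong, inner_add_left, add_div, add_smul]; abel

lemma projAlong_sub (w y z : E3) : projAlong w (y - z) = projAlong w y - projAlong w z := by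
  simp only [projAlong, inner_sub_left, sub_div, sub_smul]; abel

lemma projAlong_smul (w y : E3) (r : ℝ) : projAlong w (r • y) = r • projAlong w y := by
  simp only [projAlong, inner_smul_left, smul_sub, smul_smul]
  simp [mul_div_assoc]

lemma projAlong_self (w : E3) (hw : w ≠ 0) : projAlong w w = 0 := by
  have : ‖w‖ ^ 2 ≠ 0 := by positivity
  simp [projAlong, div_self this]

lemma inner_projAlong (w y : E3) (hw : w ≠ 0) : inner ℝ (projAlong w y) w = 0 := by
  have : ‖w‖ ^ 2 ≠ 0 := by positivity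
  rw [projAlong, inner_sub_left, inner_smul_left, real_inner_self_eq_norm_sq]
  simp only [conj_trivial]
  field_simp
  simp

/-- `projAlong` as a linear map -/
noncomputable def projAlongL (w : E3) : E3 →ₗ[ℝ] E3 where
  toFun := projAlong w
  map_add' := projAlong_add w
  map_smul' r y := projAlong_smul w y r

lemma parea_projAlong (a b w : E3) (hw : w ≠ 0) :
    parea (projAlong w a) (projAlong w b) = |det3 a b w| / ‖w‖ := by
  have hn : 0 < ‖w‖ := norm_pos_iff.mpr hw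
  have hn2 : ‖w‖ ^ 2 ≠ 0 := by positivity
  unfold parea
  rw [← Real.sqrt_sq_eq_abs, eq_div_iff hn.ne', ← Real.sqrt_sq hn.le, ← Real.sqrt_mul (by
    exact gram_nonneg _ _)]
  congr 1
  have e1 : ‖projAlong w a‖ ^ 2 = ‖a‖ ^ 2 - inner ℝ a w ^ 2 / ‖w‖ ^ 2 := by
    rw [projAlong, @norm_sub_sq ℝ, inner_smul_right, norm_smul, mul_pow]
    simp only [RCLike.re_to_real, Real.norm_eq_abs, sq_abs]
    field_simp
    ring
  have e2 : ‖projAlong w b‖ ^ 2 = ‖b‖ ^ 2 - inner ℝ b w ^ 2 / ‖w‖ ^ 2 := by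
    rw [projAlong, @norm_sub_sq ℝ, inner_smul_right, norm_smul, mul_pow]
    simp only [RCLike.re_to_real, Real.norm_eq_abs, sq_abs]
    field_simp
    ring
  have e3 : inner ℝ (projAlong w a) (projAlong w b) =
      inner ℝ a b - inner ℝ a w * inner ℝ b w / ‖w‖ ^ 2 := by
    rw [projAlong, projAlong, inner_sub_left, inner_sub_right, inner_sub_right, inner_smul_left,
      inner_smul_right, inner_smul_right, inner_smul_left, real_inner_self_eq_norm_sq,
      real_inner_comm b w]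
    simp only [conj_trivial]
    field_simp
    ring
  rw [e1, e2, e3]
  have e4 : (‖a‖ ^ 2 - inner ℝ a w ^ 2 / ‖w‖ ^ 2) * (‖b‖ ^ 2 - inner ℝ b w ^ 2 / ‖w‖ ^ 2) -
      (inner ℝ a b - inner ℝ a w * inner ℝ b w / ‖w‖ ^ 2) ^ 2 =
      (‖a‖ ^ 2 * ‖b‖ ^ 2 * ‖w‖ ^ 2 - ‖a‖ ^ 2 * inner ℝ b w ^ 2 - ‖b‖ ^ 2 * inner ℝ a w ^ 2
        - inner ℝ a b ^ 2 * ‖w‖ ^ 2 + 2 * inner ℝ a b * inner ℝ a w * inner ℝ b w) / ‖w‖ ^ 2 := by
    field_simp
    ring
  rw [e4, div_mul_cancel₀ _ hn2, normsq3 a, normsq3 b, normsq3 w, inner3 a b, inner3 a w, inner3 b w,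
    det3]
  ring

/-- the (possibly skew) cylinder over a triangle -/
def Cyl (P Q R w : E3) : Set E3 := {x | ∃ b ∈ convexHull ℝ ({P, Q, R} : Set E3), ∃ t : ℝ, x = b + t • w}

lemma cyl_subset (P Q R w : E3) (hw : w ≠ 0) :
    Cyl P Q R w ⊆ {x : E3 | ∃ b ∈ convexHull ℝ ({projAlong w P, projAlong w Q, projAlong w R} : Set E3),
      ∃ t : ℝ, x = b + t • (‖w‖⁻¹ • w)} := by
  rintro x ⟨b, hb, t, rfl⟩
  have hn : ‖w‖ ≠ 0 := norm_ne_zero_iff.mpr hw
  refine ⟨projAlong w b, ?_, (inner ℝ b w / ‖w‖ ^ 2 + t) * ‖w‖, ?_⟩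
  · have h1 : projAlongL w b ∈ projAlongL w '' (convexHull ℝ ({P, Q, R} : Set E3)) := ⟨b, hb, rfl⟩
    rw [(projAlongL w).image_convexHull] at h1
    have h2 : projAlongL w '' ({P, Q, R} : Set E3) = {projAlong w P, projAlong w Q, projAlong w R} := by
      rw [Set.image_insert_eq, Set.image_pair]; rfl
    rw [h2] at h1
    exact h1
  · rw [smul_smul, mul_assoc, mul_inv_cancel₀ hn, mul_one, add_smul, projAlong]
    abel

lemma tri_area (P Q R w : E3) (hw : w ≠ 0) :
    (μHE[2] (convexHull ℝ ({projAlong w P, projAlong w Q, projAlong w R} : Set E3))).toReal =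
      |det3 (Q - P) (R - P) w| / (2 * ‖w‖) := by
  rw [euclideanHausdorff_triangle_toReal, ← projAlong_sub, ← projAlong_sub, parea_projAlong _ _ _ hw]
  ring

lemma unit_dir (w : E3) (hw : w ≠ 0) : ‖‖w‖⁻¹ • w‖ = 1 := by
  rw [norm_smul, norm_inv, norm_norm, inv_mul_cancel₀ (norm_ne_zero_iff.mpr hw)]

lemma inner_unit_dir (w y : E3) (hw : w ≠ 0) : inner ℝ (projAlong w y) (‖w‖⁻¹ • w) = 0 := by
  rw [inner_smul_right, inner_projAlong _ _ hw, mul_zero]

end Crest.Agent.H17Cyl
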