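import Mathlib
import Crest.Agent.H17Area
import Crest.Agent.H17Cyl

set_option autoImplicit false

open MeasureTheory MeasureTheory.Measure Module
open scoped ENNReal RealInnerProductSpace

namespace Crest.Agent.H17Proj

open Crest.Agent.H17Area Crest.Agent.H17Cyl

/-- vertices of the tetrahedron -/
noncomputable abbrev KK : Set E3 :=
  convexHull ℝ {!₂[1, 0, 0], !₂[-1, 0, 0], !₂[0, 1, Real.sqrt 2], !₂[0, -1, Real.sqrt 2]}

lemma projUnit_eq (v : E3) (hv : ‖v‖ = 1) : (fun y : E3 => y - inner ℝ y v • v) = projAlong v := by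
  funext y
  simp [projAlong, hv]

lemma image_projAlong_hull (w : E3) (s : Set E3) :
    projAlong w '' (convexHull ℝ s) = convexHull ℝ (projAlong w '' s) := by
  have := (projAlongL w).image_convexHull s
  exact this

lemma line_null (A a : E3) : μHE[2] {x : E3 | ∃ t : ℝ, x = A + t • a} = 0 := by
  have h : {x : E3 | ∃ t : ℝ, x = A + t • a} ⊆ (fun p : E2 => A + p 0 • a + p 1 • (0 : E3)) '' Set.univ := by
    rintro x ⟨t, rfl⟩
    exact ⟨!₂[t, 0], trivial, by simp⟩
  refine measure_mono_null h ?_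
  rw [euclideanHausdorff_image_affine]
  simp [parea]

lemma hull3_sub (A B C D : E3) : convexHull ℝ ({A, B, C} : Set E3) ⊆ convexHull ℝ ({A, B, C, D} : Set E3) := by
  apply convexHull_mono
  intro x hx
  simp only [Set.mem_insert_iff, Set.mem_singleton_iff] at hx ⊢
  tauto

lemma hull3_sub' (A B C D : E3) : convexHull ℝ ({A, C, D} : Set E3) ⊆ convexHull ℝ ({A, B, C, D} : Set E3) := by
  apply convexHull_mono
  intro x hx
  simp only [Set.mem_insert_iff, Set.mem_singleton_iff] at hx ⊢
  tauto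

lemma tri_measure (P Q R w : E3) (hw : w ≠ 0) :
    μHE[2] (projAlong w '' (convexHull ℝ ({P, Q, R} : Set E3))) =
      ENNReal.ofReal (|det3 (Q - P) (R - P) w| / (2 * ‖w‖)) := by
  rw [image_projAlong_hull, Set.image_insert_eq, Set.image_pair, euclideanHausdorff_triangle,
    ← projAlong_sub, ← projAlong_sub, parea_projAlong _ _ _ hw]
  congr 1
  ring

lemma det3_add_right (a b c w : E3) : det3 a (b + c) w = det3 a b w + det3 a c w := by
  simp only [det3, PiLp.add_apply]; ring

lemma det3_sub_right (a b c w : E3) : det3 a (b - c) w = det3 a b w - det3 a c w := by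
  simp only [det3, PiLp.sub_apply]; ring

lemma det3_smul_right (a b w : E3) (r : ℝ) : det3 a (r • b) w = r * det3 a b w := by
  simp only [det3, PiLp.smul_apply, smul_eq_mul]; ring

lemma det3_self (a w : E3) : det3 a a w = 0 := by
  simp only [det3]; ring

lemma det3_comm (a b w : E3) : det3 a b w = - det3 b a w := by
  simp only [det3]; ring

lemma det3_proj (a b w : E3) : det3 a (projAlong w b) w = det3 a b w := by
  simp only [det3, projAlong, PiLp.sub_apply, PiLp.smul_apply, smul_eq_mul]; ring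

lemma quad_area (A B C D v : E3) (hv : ‖v‖ = 1) :
    ENNReal.ofReal (|det3 (C - A) (D - B) v| / 2) ≤
      μHE[2] (projAlong v '' (convexHull ℝ ({A, B, C, D} : Set E3))) := by
  have hv0 : v ≠ 0 := by rintro rfl; simp at hv
  set sB := det3 (C - A) (B - A) v with hsB
  set sD := det3 (C - A) (D - A) v with hsD
  have hdiff : det3 (C - A) (D - B) v = sD - sB := by
    rw [hsB, hsD, ← det3_sub_right]; congr 1; abel
  have hT1 : μHE[2] (projAlong v '' (convexHull ℝ ({A, B, C} : Set E3))) = ENNReal.ofReal (|sB| / 2) := by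
    rw [tri_measure _ _ _ _ hv0, hv, det3_comm, abs_neg, mul_one]
  have hT2 : μHE[2] (projAlong v '' (convexHull ℝ ({A, C, D} : Set E3))) = ENNReal.ofReal (|sD| / 2) := by
    rw [tri_measure _ _ _ _ hv0, hv, mul_one]
  have hsub1 := Set.image_mono (f := projAlong v) (hull3_sub A B C D)
  have hsub2 := Set.image_mono (f := projAlong v) (hull3_sub' A B C D)
  rw [hdiff]
  by_cases hs : 0 ≤ sB * sD
  · have hmax : |sD - sB| ≤ max |sB| |sD| := by
      rcases le_total 0 sB with h1 | h1 <;> rcases le_total 0 sD with h2 | h2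
      · rw [abs_of_nonneg h1, abs_of_nonneg h2, abs_le]
        constructor
        · linarith [le_max_left sB sD]
        · linarith [le_max_right sB sD]
      · have : sB * sD = 0 := le_antisymm (mul_nonpos_of_nonneg_of_nonpos h1 h2) hs
        rcases mul_eq_zero.mp this with h | h
        · rw [h]; simp
        · rw [h]; simp
      · have : sB * sD = 0 := le_antisymm (mul_nonpos_of_nonpos_of_nonneg h1 h2) hs
        rcases mul_eq_zero.mp this with h | h
        · rw [h]; simp
        · rw [h]; simp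
      · rw [abs_of_nonpos h1, abs_of_nonpos h2, abs_le]
        constructor
        · linarith [le_max_right (-sB) (-sD)]
        · linarith [le_max_left (-sB) (-sD)]
    rcases le_max_iff.mp hmax with h | h
    · calc ENNReal.ofReal (|sD - sB| / 2) ≤ ENNReal.ofReal (|sB| / 2) := ENNReal.ofReal_le_ofReal (by linarith)
        _ ≤ _ := by rw [← hT1]; exact measure_mono hsub1
    · calc ENNReal.ofReal (|sD - sB| / 2) ≤ ENNReal.ofReal (|sD| / 2) := ENNReal.ofReal_le_ofReal (by linarith)
        _ ≤ _ := by rw [← hT2]; exact measure_mono hsub2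
  · push Not at hs
    have habs : |sD - sB| = |sB| + |sD| := by
      rcases mul_neg_iff.mp hs with ⟨h1, h2⟩ | ⟨h1, h2⟩
      · rw [abs_of_pos h1, abs_of_neg h2, abs_of_neg (by linarith)]; ring
      · rw [abs_of_neg h1, abs_of_pos h2, abs_of_pos (by linarith)]; ring
    have hinter : μHE[2] ((projAlong v '' (convexHull ℝ ({A, B, C} : Set E3))) ∩
        (projAlong v '' (convexHull ℝ ({A, C, D} : Set E3)))) = 0 := by
      refine measure_mono_null ?_ (line_null (projAlong v A) (projAlong v (C - A)))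
      rintro x ⟨⟨x1, hx1, rfl⟩, ⟨x2, hx2, h12⟩⟩
      rw [convexHull_triple_eq_image] at hx1 hx2
      obtain ⟨p, ⟨hp0, hp1, hp2⟩, rfl⟩ := hx1
      obtain ⟨q, ⟨hq0, hq1, hq2⟩, rfl⟩ := hx2
      have e1 : det3 (C - A) (projAlong v (A + p 0 • (B - A) + p 1 • (C - A)) - projAlong v A) v = p 0 * sB := by
        rw [← projAlong_sub, det3_proj]
        have : A + p 0 • (B - A) + p 1 • (C - A) - A = p 0 • (B - A) + p 1 • (C - A) := by abel
        rw [this, det3_add_right, det3_smul_right, det3_smul_right, det3_self, ← hsB]; ring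
      have e2 : det3 (C - A) (projAlong v (A + q 0 • (C - A) + q 1 • (D - A)) - projAlong v A) v = q 1 * sD := by
        rw [← projAlong_sub, det3_proj]
        have : A + q 0 • (C - A) + q 1 • (D - A) - A = q 0 • (C - A) + q 1 • (D - A) := by abel
        rw [this, det3_add_right, det3_smul_right, det3_smul_right, det3_self, ← hsD]; ring
      simp only at h12
      rw [h12, e1] at e2
      have hp00 : p 0 = 0 := by
        rcases mul_neg_iff.mp hs with ⟨h1, h2⟩ | ⟨h1, h2⟩
        · have h3 : p 0 * sB ≤ 0 := by rw [e2]; exact mul_nonpos_of_nonneg_of_nonpos hq1 h2.le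
          have h4 : 0 ≤ p 0 * sB := mul_nonneg hp0 h1.le
          have h5 : p 0 * sB = 0 := le_antisymm h3 h4
          exact (mul_eq_zero.mp h5).resolve_right h1.ne'
        · have h3 : 0 ≤ p 0 * sB := by rw [e2]; exact mul_nonneg hq1 h2.le
          have h4 : p 0 * sB ≤ 0 := mul_nonpos_of_nonneg_of_nonpos hp0 h1.le
          have h5 : p 0 * sB = 0 := le_antisymm h4 h3
          exact (mul_eq_zero.mp h5).resolve_right h1.ne
      refine ⟨p 1, ?_⟩
      simp only [hp00, zero_smul, add_zero]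
      rw [projAlong_add, projAlong_smul]
    have hmeas : MeasurableSet (projAlong v '' (convexHull ℝ ({A, C, D} : Set E3))) := by
      rw [image_projAlong_hull, Set.image_insert_eq, Set.image_pair]
      exact ((Set.toFinite _).isCompact_convexHull ℝ).isClosed.measurableSet
    have hunion := measure_union_add_inter (μ := (μHE[2] : Measure E3))
      (projAlong v '' (convexHull ℝ ({A, B, C} : Set E3))) hmeas
    rw [hinter, add_zero, hT1, hT2] at hunion
    rw [habs, add_div, ENNReal.ofReal_add (by positivity) (by positivity), ← hunion]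
    exact measure_mono (Set.union_subset hsub1 hsub2)

lemma numeric (a b c : ℝ) (ha : 0 ≤ a) (hb : 0 ≤ b) (hc : 0 ≤ c) (h : a ^ 2 + b ^ 2 + c ^ 2 = 1) :
    Real.sqrt 2 ≤ c + Real.sqrt 2 * a ∨ Real.sqrt 2 ≤ c + Real.sqrt 2 * b ∨ Real.sqrt 2 ≤ 2 * c ∨
      Real.sqrt 2 ≤ Real.sqrt 2 * (a + b) := by
  by_contra hcon
  push Not at hcon
  obtain ⟨h1, h2, h3, h4⟩ := hcon
  have hs : Real.sqrt 2 ^ 2 = 2 := Real.sq_sqrt (by norm_num)
  have hs0 : 0 < Real.sqrt 2 := by positivity
  have hab : a + b < 1 := by nlinarith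
  have hc2 : c ^ 2 < 1 / 2 := by nlinarith
  rcases le_total a b with hle | hle
  · have h5 : c < Real.sqrt 2 * (1 - b) := by linarith
    have h6 : c ^ 2 < 2 * (1 - b) ^ 2 := by
      have : c ^ 2 < (Real.sqrt 2 * (1 - b)) ^ 2 := pow_lt_pow_left₀ h5 hc two_ne_zero
      rw [mul_pow, hs] at this; exact this
    have h7 : a ^ 2 < (1 - b) ^ 2 := pow_lt_pow_left₀ (by linarith) ha two_ne_zero
    have h8 : 1 / 2 < b := by nlinarith
    nlinarith
  · have h5 : c < Real.sqrt 2 * (1 - a) := by linarith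
    have h6 : c ^ 2 < 2 * (1 - a) ^ 2 := by
      have : c ^ 2 < (Real.sqrt 2 * (1 - a)) ^ 2 := pow_lt_pow_left₀ h5 hc two_ne_zero
      rw [mul_pow, hs] at this; exact this
    have h7 : b ^ 2 < (1 - a) ^ 2 := pow_lt_pow_left₀ (by linarith) hb two_ne_zero
    have h8 : 1 / 2 < a := by nlinarith
    nlinarith


lemma perm_hull1 (A B C D : E3) : ({A, C, B, D} : Set E3) = {A, B, C, D} := by
  ext x; simp only [Set.mem_insert_iff, Set.mem_singleton_iff]; tauto
lemma perm_hull2 (A B C D : E3) : ({A, D, B, C} : Set E3) = {A, B, C, D} := by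
  ext x; simp only [Set.mem_insert_iff, Set.mem_singleton_iff]; tauto
lemma perm_hull3 (A B C D : E3) : ({B, C, D} : Set E3) ⊆ {A, B, C, D} := by
  intro x; simp only [Set.mem_insert_iff, Set.mem_singleton_iff]; tauto
lemma perm_hull4 (A B C D : E3) : ({A, B, D} : Set E3) ⊆ {A, B, C, D} := by
  intro x; simp only [Set.mem_insert_iff, Set.mem_singleton_iff]; tauto

lemma tri_area_le (P Q R v : E3) (hv : ‖v‖ = 1) (s : Set E3) (h : ({P, Q, R} : Set E3) ⊆ s) :
    ENNReal.ofReal (|det3 (Q - P) (R - P) v| / 2) ≤ μHE[2] (projAlong v '' (convexHull ℝ s)) := by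
  have hv0 : v ≠ 0 := by rintro rfl; simp at hv
  have := tri_measure P Q R v hv0
  rw [hv, mul_one] at this
  rw [← this]
  exact measure_mono (Set.image_mono (convexHull_mono h))

lemma proj_ge (v : E3) (hv : ‖v‖ = 1) :
    ENNReal.ofReal (Real.sqrt 2) ≤ μHE[2] (projAlong v '' KK) := by
  have hnorm : v 0 ^ 2 + v 1 ^ 2 + v 2 ^ 2 = 1 := by rw [← normsq3, hv]; norm_num
  have hs : Real.sqrt 2 * Real.sqrt 2 = 2 := Real.mul_self_sqrt (by norm_num)
  have hs0 : 0 < Real.sqrt 2 := by positivity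
  set A : E3 := !₂[1, 0, 0] with hA
  set B : E3 := !₂[-1, 0, 0] with hB
  set C : E3 := !₂[0, 1, Real.sqrt 2] with hC
  set D : E3 := !₂[0, -1, Real.sqrt 2] with hD
  have hsum : ∀ p q r : ℝ, |p| ≤ r → |q| ≤ r → |p + q| ≤ 2 * r := fun p q r h1 h2 =>
    (abs_add_le p q).trans (by linarith)
  have finish : ∀ r : ℝ, Real.sqrt 2 ≤ r → ENNReal.ofReal r ≤ μHE[2] (projAlong v '' KK) →
      ENNReal.ofReal (Real.sqrt 2) ≤ μHE[2] (projAlong v '' KK) := fun r h1 h2 =>
    (ENNReal.ofReal_le_ofReal h1).trans h2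
  -- face areas
  have f1 := tri_area_le A B C v hv {A, B, C, D} (by
    intro x; simp only [Set.mem_insert_iff, Set.mem_singleton_iff]; tauto)
  have f2 := tri_area_le A B D v hv {A, B, C, D} (perm_hull4 A B C D)
  have f3 := tri_area_le A C D v hv {A, B, C, D} (by
    intro x; simp only [Set.mem_insert_iff, Set.mem_singleton_iff]; tauto)
  have f4 := tri_area_le B C D v hv {A, B, C, D} (perm_hull3 A B C D)
  have d1 : det3 (B - A) (C - A) v = -2 * (v 2 - Real.sqrt 2 * v 1) := by
    simp [det3, hA, hB, hC]; ring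
  have d2 : det3 (B - A) (D - A) v = 2 * (v 2 + Real.sqrt 2 * v 1) := by
    simp [det3, hA, hB, hD]; ring
  have d3 : det3 (C - A) (D - A) v = 2 * (v 2 + Real.sqrt 2 * v 0) := by
    simp [det3, hA, hC, hD]; ring
  have d4 : det3 (C - B) (D - B) v = -2 * (v 2 - Real.sqrt 2 * v 0) := by
    simp [det3, hB, hC, hD]; ring
  rw [d1, abs_mul] at f1
  rw [d2, abs_mul] at f2
  rw [d3, abs_mul] at f3
  rw [d4, abs_mul] at f4
  norm_num at f1 f2 f3 f4
  -- quadrilaterals
  have g1 := quad_area A C B D v hv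
  rw [perm_hull1] at g1
  have g2 := quad_area A B C D v hv
  have g3 := quad_area A B D C v hv
  have e1 : det3 (B - A) (D - C) v = 4 * v 2 := by
    simp [det3, hA, hB, hC, hD]; ring
  have e2 : det3 (C - A) (D - B) v = 2 * Real.sqrt 2 * (v 0 + v 1) := by
    simp [det3, hA, hB, hC, hD]; ring
  have e3 : det3 (D - A) (C - B) v = 2 * Real.sqrt 2 * (v 1 - v 0) := by
    simp [det3, hA, hB, hC, hD]; ring
  have hperm : ({A, B, D, C} : Set E3) = {A, B, C, D} := by
    ext x; simp only [Set.mem_insert_iff, Set.mem_singleton_iff]; tauto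
  rw [hperm] at g3
  rw [e1] at g1
  rw [e2] at g2
  rw [e3] at g3
  rcases numeric |v 0| |v 1| |v 2| (abs_nonneg _) (abs_nonneg _) (abs_nonneg _) (by simpa using hnorm)
    with h | h | h | h
  · -- |v2| + √2 |v0|
    rcases abs_cases (v 0) with ⟨h0, _⟩ | ⟨h0, _⟩ <;> rcases abs_cases (v 2) with ⟨h2, _⟩ | ⟨h2, _⟩ <;>
      rw [h0, h2] at h
    · exact finish _ (h.trans (le_abs_self _)) f3
    · exact finish _ (h.trans ((by linarith : _ = -(v 2 - Real.sqrt 2 * v 0)).le.trans (neg_le_abs _))) f4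
    · exact finish _ (h.trans ((by ring : _ = (v 2 - Real.sqrt 2 * v 0)).le.trans (le_abs_self _))) f4
    · exact finish _ (h.trans ((by ring : _ = -(v 2 + Real.sqrt 2 * v 0)).le.trans (neg_le_abs _))) f3
  · rcases abs_cases (v 1) with ⟨h0, _⟩ | ⟨h0, _⟩ <;> rcases abs_cases (v 2) with ⟨h2, _⟩ | ⟨h2, _⟩ <;>
      rw [h0, h2] at h
    · exact finish _ (h.trans (le_abs_self _)) f2
    · exact finish _ (h.trans ((by linarith : _ = -(v 2 - Real.sqrt 2 * v 1)).le.trans (neg_le_abs _))) f1
    · exact finish _ (h.trans ((by ring : _ = (v 2 - Real.sqrt 2 * v 1)).le.trans (le_abs_self _))) f1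
    · exact finish _ (h.trans ((by ring : _ = -(v 2 + Real.sqrt 2 * v 1)).le.trans (neg_le_abs _))) f2
  · refine finish _ ?_ g1
    rw [abs_mul]; norm_num
    linarith
  · have h5 : |v 0| + |v 1| ≤ max |v 0 + v 1| |v 1 - v 0| := by
      rcases abs_cases (v 0) with ⟨h0, _⟩ | ⟨h0, _⟩ <;> rcases abs_cases (v 1) with ⟨h1, _⟩ | ⟨h1, _⟩ <;>
        rw [h0, h1]
      · exact (le_abs_self _).trans (le_max_left _ _)
      · exact ((by ring : v 0 + -v 1 = -(v 1 - v 0)).le.trans (neg_le_abs _)).trans (le_max_right _ _)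
      · exact ((by ring : -v 0 + v 1 = v 1 - v 0).le.trans (le_abs_self _)).trans (le_max_right _ _)
      · exact ((by ring : -v 0 + -v 1 = -(v 0 + v 1)).le.trans (neg_le_abs _)).trans (le_max_left _ _)
    rcases le_max_iff.mp h5 with h6 | h6
    · refine finish _ ?_ g2
      rw [abs_mul, abs_of_pos (by positivity)]
      nlinarith
    · refine finish _ ?_ g3
      rw [abs_mul, abs_of_pos (by positivity)]
      nlinarith

lemma exists_frame_orth (v : E3) (hv : ‖v‖ = 1) : ∃ e₁ e₂ : E3,
    ∀ y : E3, projAlong v y = inner ℝ e₁ y • e₁ + inner ℝ e₂ y • e₂ := by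
  have hfin : finrank ℝ E3 = Fintype.card (Fin 3) := by simp
  let f : Fin 3 → E3 := ![v, 0, 0]
  let B := InnerProductSpace.gramSchmidtOrthonormalBasis hfin f
  have h10 : inner ℝ (B 1) v = 0 := by
    have := InnerProductSpace.gramSchmidtOrthonormalBasis_inv_triangular hfin f (i := 0) (j := 1) (by decide)
    simpa [f] using this
  have h20 : inner ℝ (B 2) v = 0 := by
    have := InnerProductSpace.gramSchmidtOrthonormalBasis_inv_triangular hfin f (i := 0) (j := 2) (by decide)
    simpa [f] using this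
  refine ⟨B 1, B 2, fun y => ?_⟩
  have h1 := B.sum_repr' y
  have h2 := B.sum_repr' v
  rw [Fin.sum_univ_three] at h1 h2
  rw [h10, h20, zero_smul, zero_smul, add_zero, add_zero] at h2
  have h3 : inner ℝ (B 0) v ^ 2 = 1 := by
    have h4 : ‖v‖ ^ 2 = 1 := by rw [hv]; norm_num
    rw [← h2, norm_smul, mul_pow, B.orthonormal.1 0] at h4
    simpa using h4
  have h5 : projAlong v y = y - inner ℝ (B 0) y • B 0 := by
    have h6 : inner ℝ y v = inner ℝ (B 0) v * inner ℝ (B 0) y := by
      conv_lhs => rw [← h2]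
      rw [inner_smul_right, real_inner_comm (B 0) y]
    rw [projAlong, hv, h6]
    conv_lhs => rw [← h2]
    rw [smul_smul]
    congr 2
    have : inner ℝ (B 0) (inner ℝ (B 0) v • B 0) = inner ℝ (B 0) v := by rw [h2]
    rw [this]
    calc inner ℝ (B 0) v * inner ℝ (B 0) y / 1 ^ 2 * inner ℝ (B 0) v
        = inner ℝ (B 0) v ^ 2 * inner ℝ (B 0) y := by ring
      _ = inner ℝ (B 0) y := by rw [h3, one_mul]
  rw [h5]
  nth_rewrite 1 [← h1]
  abel

lemma proj_bdd_lt_top (v : E3) (hv : ‖v‖ = 1) (T : Set E3) (hT : Bornology.IsBounded T) :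
    μHE[2] (projAlong v '' T) < ⊤ := by
  obtain ⟨e₁, e₂, h⟩ := exists_frame_orth v hv
  let g : E3 → E2 := fun y => !₂[inner ℝ e₁ y, inner ℝ e₂ y]
  have himg : projAlong v '' T = (fun p : E2 => p 0 • e₁ + p 1 • e₂) '' (g '' T) := by
    rw [Set.image_image]
    apply Set.image_congr
    intro y _
    rw [h y]; simp [g]
  rw [himg, euclideanHausdorff_image_linear]
  have hgc : Continuous g := by
    have : g = fun y => !₂[inner ℝ e₁ y, inner ℝ e₂ y] := rfl
    rw [this]
    apply (PiLp.continuous_toLp 2 _).comp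
    apply continuous_pi
    intro i
    fin_cases i
    · simp; fun_prop
    · simp; fun_prop
  have hb : Bornology.IsBounded (g '' T) := by
    have hc : IsCompact (g '' closure T) := hT.isCompact_closure.image hgc
    exact hc.isBounded.subset (Set.image_mono subset_closure)
  exact ENNReal.mul_lt_top ENNReal.ofReal_lt_top hb.measure_lt_top

lemma proj_lt_top (v : E3) (hv : ‖v‖ = 1) : μHE[2] (projAlong v '' KK) < ⊤ :=
  proj_bdd_lt_top v hv _ ((Set.toFinite _).isCompact_convexHull ℝ).isBounded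

lemma proj_eq : μHE[2] (projAlong (!₂[1, 0, 0] : E3) '' KK) = ENNReal.ofReal (Real.sqrt 2) := by
  have hv : ‖(!₂[1, 0, 0] : E3)‖ = 1 := by
    have : ‖(!₂[1, 0, 0] : E3)‖ ^ 2 = 1 := by rw [normsq3]; simp
    have h0 := norm_nonneg (!₂[1, 0, 0] : E3)
    nlinarith
  have h1 : projAlong (!₂[1, 0, 0] : E3) (!₂[1, 0, 0]) = 0 := projAlong_self _ (by
    intro h; rw [h] at hv; simp at hv)
  have h2 : projAlong (!₂[1, 0, 0] : E3) (!₂[-1, 0, 0]) = 0 := by
    ext i; fin_cases i <;> simp [projAlong, inner3, hv]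
  have h3 : projAlong (!₂[1, 0, 0] : E3) (!₂[0, 1, Real.sqrt 2]) = !₂[0, 1, Real.sqrt 2] := by
    ext i; fin_cases i <;> simp [projAlong, inner3, hv]
  have h4 : projAlong (!₂[1, 0, 0] : E3) (!₂[0, -1, Real.sqrt 2]) = !₂[0, -1, Real.sqrt 2] := by
    ext i; fin_cases i <;> simp [projAlong, inner3, hv]
  rw [image_projAlong_hull, Set.image_insert_eq, Set.image_insert_eq, Set.image_insert_eq,
    Set.image_singleton, h1, h2, h3, h4]
  have h5 : ({0, 0, !₂[0, 1, Real.sqrt 2], !₂[0, -1, Real.sqrt 2]} : Set E3) =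
      {0, !₂[0, 1, Real.sqrt 2], !₂[0, -1, Real.sqrt 2]} := by simp
  rw [h5, euclideanHausdorff_triangle]
  congr 1
  unfold parea
  rw [normsq3, normsq3, inner3]
  simp
  have : (1 + (2:ℝ)) * (1 + 2) - (-1 + 2) ^ 2 = 2 * 2 ^ 2 := by norm_num
  rw [this, Real.sqrt_mul (by norm_num), Real.sqrt_sq (by norm_num)]
  ring

end Crest.Agent.H17Proj
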