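import Mathlib
import Crest.Agent.H17Area
import Crest.Agent.H17Cyl
import Crest.Agent.H17Proj

set_option autoImplicit false

open MeasureTheory MeasureTheory.Measure Module Set
open scoped ENNReal RealInnerProductSpace

namespace Crest.Agent.H12Radial

open Crest.Agent.H17Area Crest.Agent.H17Cyl Crest.Agent.H17Proj

/-! ### Riemann sums -/

lemma sum_integral_fin (f : ℝ → ℝ) : ∀ (N : ℕ) (t : Fin (N + 1) → ℝ),
    (∀ i : Fin N, IntervalIntegrable f volume (t i.castSucc) (t i.succ)) →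
    (∑ i : Fin N, ∫ x in (t i.castSucc)..(t i.succ), f x) = ∫ x in (t 0)..(t (Fin.last N)), f x ∧
      IntervalIntegrable f volume (t 0) (t (Fin.last N)) := by
  intro N
  induction N with
  | zero =>
    intro t _
    simp
  | succ N ih =>
    intro t ht
    rw [Fin.sum_univ_castSucc]
    have h1 := ih (fun i => t i.castSucc) (fun i => by
      have := ht i.castSucc
      simpa using this)
    have h2 := ht (Fin.last N)
    have e1 : (∑ i : Fin N, ∫ x in (t i.castSucc.castSucc)..(t i.castSucc.succ), f x) =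
        ∫ x in (t 0)..(t (Fin.last N).castSucc), f x := by
      have := h1.1
      simpa using this
    rw [e1]
    have h3 : IntervalIntegrable f volume (t 0) (t (Fin.last N).castSucc) := by simpa using h1.2
    refine ⟨?_, ?_⟩
    · rw [intervalIntegral.integral_add_adjacent_intervals h3 h2]
      rfl
    · exact h3.trans h2

lemma sum_sub_fin (N : ℕ) (t : Fin (N + 1) → ℝ) :
    (∑ i : Fin N, (t i.succ - t i.castSucc)) = t (Fin.last N) - t 0 := by
  have := (sum_integral_fin (fun _ => (1:ℝ)) N t (fun i => by simp)).1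
  simpa using this

lemma riemann (F : ℝ → ℝ) (α β ε δ : ℝ) (hF : ContinuousOn F (Icc α β))
    (hδ : ∀ x ∈ Icc α β, ∀ y ∈ Icc α β, |x - y| ≤ δ → |F x - F y| ≤ ε)
    (N : ℕ) (t : Fin (N + 1) → ℝ) (c : Fin N → ℝ) (ht : StrictMono t) (h0 : t 0 = α)
    (h1 : t (Fin.last N) = β) (hm : ∀ i : Fin N, t i.succ - t i.castSucc ≤ δ)
    (hc : ∀ i : Fin N, t i.castSucc ≤ c i ∧ c i ≤ t i.succ) :
    |(∑ i : Fin N, (t i.succ - t i.castSucc) * F (c i)) - ∫ x in α..β, F x| ≤ ε * (β - α) := by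
  have hmem : ∀ i, t i ∈ Icc α β := fun i => by
    constructor
    · rw [← h0]; exact ht.monotone (Fin.zero_le i)
    · rw [← h1]; exact ht.monotone (Fin.le_last i)
  have hle : ∀ i : Fin N, t i.castSucc ≤ t i.succ := fun i => ht.monotone (Fin.castSucc_lt_succ).le
  have hint : ∀ i : Fin N, IntervalIntegrable F volume (t i.castSucc) (t i.succ) := fun i => by
    apply ContinuousOn.intervalIntegrable
    rw [uIcc_of_le (hle i)]
    exact hF.mono (Icc_subset_Icc (hmem _).1 (hmem _).2)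
  have hs := (sum_integral_fin F N t hint).1
  rw [h0, h1] at hs
  rw [← hs, ← Finset.sum_sub_distrib, ← h1, ← h0, ← sum_sub_fin, Finset.mul_sum]
  refine (Finset.abs_sum_le_sum_abs _ _).trans (Finset.sum_le_sum fun i _ => ?_)
  have e1 : (t i.succ - t i.castSucc) * F (c i) = ∫ x in (t i.castSucc)..(t i.succ), F (c i) := by
    rw [intervalIntegral.integral_const, smul_eq_mul]
  rw [e1, ← intervalIntegral.integral_sub (by simp) (hint i)]
  have h2 := intervalIntegral.norm_integral_le_of_norm_le_const (a := t i.castSucc) (b := t i.succ)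
    (C := ε) (f := fun x => F (c i) - F x) (fun x hx => by
      rw [uIoc_of_le (hle i)] at hx
      rw [Real.norm_eq_abs]
      apply hδ
      · exact ⟨(hmem _).1.trans (hc i).1, (hc i).2.trans (hmem _).2⟩
      · exact ⟨(hmem _).1.trans hx.1.le, hx.2.trans (hmem _).2⟩
      · rw [abs_le]
        constructor
        · linarith [(hc i).1, (hc i).2, hx.1, hx.2, hm i]
        · linarith [(hc i).1, (hc i).2, hx.1, hx.2, hm i])
  rw [Real.norm_eq_abs, abs_of_nonneg (sub_nonneg.mpr (hle i))] at h2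
  exact h2

/-- uniform continuity on a compact interval -/
lemma unif (F : ℝ → ℝ) (α β : ℝ) (hF : ContinuousOn F (Icc α β)) (ε : ℝ) (hε : 0 < ε) :
    ∃ δ, 0 < δ ∧ ∀ x ∈ Icc α β, ∀ y ∈ Icc α β, |x - y| ≤ δ → |F x - F y| ≤ ε := by
  have h := isCompact_Icc.uniformContinuousOn_of_continuous hF
  rw [Metric.uniformContinuousOn_iff] at h
  obtain ⟨δ, hδ, h⟩ := h ε hε
  refine ⟨δ / 2, by positivity, fun x hx y hy hxy => ?_⟩
  have := h x hx y hy (by rw [Real.dist_eq]; linarith)
  rw [Real.dist_eq] at this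
  exact this.le

/-! ### the velocity -/

/-- increments of `w` -/
lemma w_incr (a b : E3) (α β : ℝ) (w : ℝ → E3) (lam : ℝ → ℝ) (hlam : ContinuousOn lam (Icc α β))
    (hw' : ∀ t ∈ Icc α β, HasDerivWithinAt w (lam t • (a + t • b)) (Icc α β) t)
    (B : ℝ) (hB : ∀ t ∈ Icc α β, |lam t| ≤ B)
    (T0 T1 m c τ : ℝ) (h0 : α ≤ T0) (h1 : T1 ≤ β) (hc : c ∈ Icc T0 T1) (hτ : τ ∈ Icc T0 T1)
    (hm : m ∈ Icc T0 T1) :
    ∃ X Y : ℝ, w τ - w c = X • a + Y • b ∧ |X| ≤ B * (T1 - T0) ∧ |Y - m * X| ≤ B * (T1 - T0) ^ 2 := by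
  have hT : T0 ≤ T1 := hc.1.trans hc.2
  have hB0 : 0 ≤ B := (abs_nonneg _).trans (hB T0 ⟨h0, hT.trans h1⟩)
  -- first the case `c ≤ τ`
  have key : ∀ c τ : ℝ, c ∈ Icc T0 T1 → τ ∈ Icc T0 T1 → c ≤ τ →
      ∃ X Y : ℝ, w τ - w c = X • a + Y • b ∧ |X| ≤ B * (T1 - T0) ∧ |Y - m * X| ≤ B * (T1 - T0) ^ 2 := by
    intro c τ hc hτ hle
    have hsub : Icc c τ ⊆ Icc α β := Icc_subset_Icc (h0.trans hc.1) (hτ.2.trans h1)
    have hlc : ContinuousOn lam (uIcc c τ) := by rw [uIcc_of_le hle]; exact hlam.mono hsub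
    have hi1 : IntervalIntegrable lam volume c τ := hlc.intervalIntegrable
    have hi2 : IntervalIntegrable (fun x => x * lam x) volume c τ :=
      (continuousOn_id.mul hlc).intervalIntegrable
    refine ⟨∫ x in c..τ, lam x, ∫ x in c..τ, x * lam x, ?_, ?_, ?_⟩
    · have h := intervalIntegral.integral_eq_sub_of_hasDeriv_right_of_le (a := c) (b := τ) (f := w)
        (f' := fun t => lam t • (a + t • b)) hle
        (fun x hx => ((hw' x (hsub hx)).mono hsub).continuousWithinAt)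
        (fun x hx => by
          have hx1 : x ∈ Icc α β := hsub ⟨hx.1.le, hx.2.le⟩
          have hn : Icc α β ∈ nhds x := Icc_mem_nhds ((hsub ⟨le_refl c, hle⟩).1.trans_lt hx.1)
            (hx.2.trans_le (hsub ⟨hle, le_refl τ⟩).2)
          exact ((hw' x hx1).hasDerivAt hn).hasDerivWithinAt)
        (by
          apply ContinuousOn.intervalIntegrable
          exact hlc.smul (by fun_prop))
      rw [← h]
      have e1 : (fun t => lam t • (a + t • b)) = fun t => lam t • a + (t * lam t) • b := by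
        funext t; rw [smul_add, smul_smul, mul_comm]
      rw [e1, intervalIntegral.integral_add, intervalIntegral.integral_smul_const,
        intervalIntegral.integral_smul_const]
      · exact (hlc.smul continuousOn_const).intervalIntegrable
      · exact ((continuousOn_id.mul hlc).smul continuousOn_const).intervalIntegrable
    · have h := intervalIntegral.norm_integral_le_of_norm_le_const (a := c) (b := τ) (C := B) (f := lam)
        (fun x hx => by
          rw [uIoc_of_le hle] at hx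
          exact hB x (hsub ⟨hx.1.le, hx.2⟩))
      rw [abs_of_nonneg (sub_nonneg.mpr hle)] at h
      refine h.trans (mul_le_mul_of_nonneg_left ?_ hB0)
      linarith [hc.1, hτ.2]
    · have e2 : (∫ x in c..τ, x * lam x) - m * ∫ x in c..τ, lam x = ∫ x in c..τ, (x - m) * lam x := by
        rw [← intervalIntegral.integral_const_mul, ← intervalIntegral.integral_sub hi2
          (hi1.const_mul m)]
        congr 1
        funext x; ring
      rw [e2]
      have h := intervalIntegral.norm_integral_le_of_norm_le_const (a := c) (b := τ) (C := (T1 - T0) * B)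
        (f := fun x => (x - m) * lam x)
        (fun x hx => by
          rw [uIoc_of_le hle] at hx
          rw [Real.norm_eq_abs, abs_mul]
          apply mul_le_mul _ (hB x (hsub ⟨hx.1.le, hx.2⟩)) (abs_nonneg _) (by linarith)
          rw [abs_le]
          constructor
          · linarith [hm.1, hm.2, hx.1, hx.2, hc.1, hτ.2]
          · linarith [hm.1, hm.2, hx.1, hx.2, hc.1, hτ.2])
      rw [abs_of_nonneg (sub_nonneg.mpr hle), Real.norm_eq_abs] at h
      refine h.trans ?_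
      have : (T1 - T0) * B * (τ - c) ≤ (T1 - T0) * B * (T1 - T0) := by
        apply mul_le_mul_of_nonneg_left _ (mul_nonneg (by linarith) hB0)
        linarith [hc.1, hτ.2]
      linarith [this, (by ring : (T1 - T0) * B * (T1 - T0) = B * (T1 - T0) ^ 2)]
  rcases le_total c τ with h | h
  · exact key c τ hc hτ h
  · obtain ⟨X, Y, e, hX, hY⟩ := key τ c hτ hc h
    refine ⟨-X, -Y, ?_, by rwa [abs_neg], ?_⟩
    · rw [neg_smul, neg_smul, ← neg_add, ← e, neg_sub]
    · have : -Y - m * -X = -(Y - m * X) := by ring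
      rw [this, abs_neg]; exact hY

/-! ### planar triangle -/

/-- barycentric membership -/
lemma mem_tri (P Q R : E3) (l1 l2 : ℝ) (h1 : 0 ≤ l1) (h2 : 0 ≤ l2) (h3 : l1 + l2 ≤ 1) (x : E3)
    (hx : x = P + l1 • (Q - P) + l2 • (R - P)) : x ∈ convexHull ℝ ({P, Q, R} : Set E3) := by
  rw [convexHull_triple_eq_image]
  refine ⟨!₂[l1, l2], ⟨by simpa using h1, by simpa using h2, by simpa using h3⟩, ?_⟩
  rw [hx]; simp

/-- vertices of the outer triangle -/
lemma outer_mem (P A Bv : E3) (T0 T1 m x0 D X Y : ℝ) (hm : m = (T0 + T1) / 2) (hT : T0 < T1) (hD : 0 < D)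
    (hX : X + x0 ≤ D) (hY : |Y - m * X| ≤ (T1 - T0) / 2 * (X + x0)) :
    P + X • A + Y • Bv ∈ convexHull ℝ ({P + (-x0) • A + (-x0 * m) • Bv,
      P + (-x0) • A + (-x0 * m) • Bv + D • (A + T0 • Bv),
      P + (-x0) • A + (-x0 * m) • Bv + D • (A + T1 • Bv)} : Set E3) := by
  have hh : 0 < (T1 - T0) / 2 := by linarith
  set h := (T1 - T0) / 2 with hhdef
  have hX0 : 0 ≤ X + x0 := by
    have : 0 ≤ h * (X + x0) := (abs_nonneg _).trans hY
    exact nonneg_of_mul_nonneg_right this hh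
  rw [abs_le] at hY
  have hD0 : D ≠ 0 := hD.ne'
  have hh0 : h ≠ 0 := hh.ne'
  apply mem_tri _ _ _ (((X + x0) / D - (Y - m * X) / (h * D)) / 2) (((X + x0) / D + (Y - m * X) / (h * D)) / 2)
  · have : (Y - m * X) / (h * D) ≤ (X + x0) / D := by
      rw [div_le_div_iff₀ (by positivity) hD]
      nlinarith [hY.2]
    linarith
  · have : -((Y - m * X) / (h * D)) ≤ (X + x0) / D := by
      rw [← neg_div, div_le_div_iff₀ (by positivity) hD]
      nlinarith [hY.1]
    linarith
  · have : (X + x0) / D ≤ 1 := by rw [div_le_one hD]; exact hX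
    linarith
  · have e0 : T0 = m - h := by rw [hm, hhdef]; ring
    have e1 : T1 = m + h := by rw [hm, hhdef]; ring
    have e2 : P + X • A + Y • Bv = P + (-x0) • A + (-x0 * m) • Bv + (X + x0) • (A + m • Bv) + (Y - m * X) • Bv := by
      module
    have e3 : (((X + x0) / D - (Y - m * X) / (h * D)) / 2) • D • (A + T0 • Bv) +
        (((X + x0) / D + (Y - m * X) / (h * D)) / 2) • D • (A + T1 • Bv) =
        (X + x0) • (A + m • Bv) + (Y - m * X) • Bv := by
      rw [e0, e1]
      simp only [smul_smul, smul_add]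
      have c1 : (((X + x0) / D - (Y - m * X) / (h * D)) / 2) * D + (((X + x0) / D + (Y - m * X) / (h * D)) / 2) * D =
          X + x0 := by field_simp; ring
      have c2 : (((X + x0) / D - (Y - m * X) / (h * D)) / 2) * D * (m - h) +
          (((X + x0) / D + (Y - m * X) / (h * D)) / 2) * D * (m + h) = (X + x0) * m + (Y - m * X) := by
        field_simp; ring
      calc _ = ((((X + x0) / D - (Y - m * X) / (h * D)) / 2) * D + (((X + x0) / D + (Y - m * X) / (h * D)) / 2) * D) • A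
            + ((((X + x0) / D - (Y - m * X) / (h * D)) / 2) * D * (m - h) +
          (((X + x0) / D + (Y - m * X) / (h * D)) / 2) * D * (m + h)) • Bv := by module
        _ = _ := by rw [c1, c2]; module
    rw [e2, add_assoc (P + (-x0) • A + (-x0 * m) • Bv), ← e3]
    simp only [add_sub_cancel_left]
    simp only [add_assoc]

/-! ### one piece -/

lemma det3_orth (a b w e : E3) (he : ‖e‖ = 1) (ha : inner ℝ a e = 0) (hb : inner ℝ b e = 0)
    (hw : inner ℝ w e = 0) : det3 a b w = 0 := by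
  rw [inner3] at ha hb hw
  have h0 : e 0 * det3 a b w = 0 := by
    have : e 0 * det3 a b w = (a 0 * e 0 + a 1 * e 1 + a 2 * e 2) * (b 1 * w 2 - b 2 * w 1)
      - (b 0 * e 0 + b 1 * e 1 + b 2 * e 2) * (a 1 * w 2 - a 2 * w 1)
      + (w 0 * e 0 + w 1 * e 1 + w 2 * e 2) * (a 1 * b 2 - a 2 * b 1) := by
      rw [det3]; ring
    rw [this, ha, hb, hw]; ring
  have h1 : e 1 * det3 a b w = 0 := by
    have : e 1 * det3 a b w = -(a 0 * e 0 + a 1 * e 1 + a 2 * e 2) * (b 0 * w 2 - b 2 * w 0)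
      + (b 0 * e 0 + b 1 * e 1 + b 2 * e 2) * (a 0 * w 2 - a 2 * w 0)
      - (w 0 * e 0 + w 1 * e 1 + w 2 * e 2) * (a 0 * b 2 - a 2 * b 0) := by
      rw [det3]; ring
    rw [this, ha, hb, hw]; ring
  have h2 : e 2 * det3 a b w = 0 := by
    have : e 2 * det3 a b w = (a 0 * e 0 + a 1 * e 1 + a 2 * e 2) * (b 0 * w 1 - b 1 * w 0)
      - (b 0 * e 0 + b 1 * e 1 + b 2 * e 2) * (a 0 * w 1 - a 1 * w 0)
      + (w 0 * e 0 + w 1 * e 1 + w 2 * e 2) * (a 0 * b 1 - a 1 * b 0) := by
      rw [det3]; ring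
    rw [this, ha, hb, hw]; ring
  have hn : e 0 ^ 2 + e 1 ^ 2 + e 2 ^ 2 = 1 := by rw [← normsq3, he]; norm_num
  calc det3 a b w = (e 0 ^ 2 + e 1 ^ 2 + e 2 ^ 2) * det3 a b w := by rw [hn, one_mul]
    _ = e 0 * (e 0 * det3 a b w) + e 1 * (e 1 * det3 a b w) + e 2 * (e 2 * det3 a b w) := by ring
    _ = 0 := by rw [h0, h1, h2]; ring

lemma det3_abs (a b w e : E3) (he : ‖e‖ = 1) (ha : inner ℝ a e = 0) (hb : inner ℝ b e = 0)
    (hw : inner ℝ w e = 0) : |det3 a b (e + w)| = parea a b := by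
  have h1 : det3 a b (e + w) = det3 a b e := by
    have : det3 a b (e + w) = det3 a b e + det3 a b w := by
      simp only [det3, PiLp.add_apply]; ring
    rw [this, det3_orth a b w e he ha hb hw, add_zero]
  have he0 : e ≠ 0 := by rintro rfl; simp at he
  have h2 := parea_projAlong a b e he0
  rw [he, div_one] at h2
  rw [h1, ← h2, projAlong, projAlong, ha, hb]
  simp

lemma norm_axis (w e : E3) (he : ‖e‖ = 1) (hw : inner ℝ w e = 0) : ‖e + w‖ = Real.sqrt (1 + ‖w‖ ^ 2) := by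
  rw [← Real.sqrt_sq (norm_nonneg (e + w)), @norm_add_sq ℝ, he, real_inner_comm, hw]
  norm_num

lemma tri_form_area (P a b w e : E3) (he : ‖e‖ = 1) (ha : inner ℝ a e = 0) (hb : inner ℝ b e = 0)
    (hw : inner ℝ w e = 0) (D T0 T1 : ℝ) (hT : T0 ≤ T1) :
    (μHE[2] (convexHull ℝ ({P, P + D • (projAlong (e + w) a + T0 • projAlong (e + w) b),
      P + D • (projAlong (e + w) a + T1 • projAlong (e + w) b)} : Set E3))).toReal =
      D ^ 2 * (T1 - T0) / 2 * (parea a b / Real.sqrt (1 + ‖w‖ ^ 2)) := by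
  have hn := norm_axis w e he hw
  have hpos : 0 < Real.sqrt (1 + ‖w‖ ^ 2) := Real.sqrt_pos.mpr (by positivity)
  have h0 : e + w ≠ 0 := by
    intro h
    rw [h, norm_zero] at hn
    exact hpos.ne hn
  rw [euclideanHausdorff_triangle_toReal]
  simp only [add_sub_cancel_left]
  rw [← projAlong_smul, ← projAlong_smul, ← projAlong_add, ← projAlong_add, ← projAlong_smul, ← projAlong_smul,
    parea_projAlong _ _ _ h0]
  have e1 : det3 (D • (a + T0 • b)) (D • (a + T1 • b)) (e + w) = D ^ 2 * (T1 - T0) * det3 a b (e + w) := by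
    simp only [det3, PiLp.add_apply, PiLp.smul_apply, smul_eq_mul]; ring
  rw [e1, abs_mul, det3_abs a b w e he ha hb hw, hn, abs_of_nonneg (by
    have : 0 ≤ T1 - T0 := by linarith
    positivity)]
  ring

lemma proj_li (a b w e : E3) (he : ‖e‖ = 1) (ha : inner ℝ a e = 0) (hb : inner ℝ b e = 0)
    (hw : inner ℝ w e = 0) (hab : LinearIndependent ℝ ![a, b]) (x y : ℝ)
    (h : x • projAlong (e + w) a + y • projAlong (e + w) b = 0) : x = 0 ∧ y = 0 := by
  rw [← projAlong_smul, ← projAlong_smul, ← projAlong_add, projAlong, sub_eq_zero] at h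
  have h1 := congrArg (fun z => inner ℝ z e) h
  simp only [inner_add_left, inner_smul_left, ha, hb, hw, real_inner_self_eq_norm_sq, he] at h1
  simp only [conj_trivial, mul_zero, add_zero, one_pow, mul_one] at h1
  have h2 : x • a + y • b = 0 := by
    rw [h]
    have h3 : inner ℝ (x • a + y • b) (e + w) / ‖e + w‖ ^ 2 = 0 := by
      simp only [inner_add_left, inner_smul_left, conj_trivial]
      exact h1.symm
    rw [h3, zero_smul]
  rw [LinearIndependent.pair_iff] at hab
  exact hab x y h2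

lemma tri_affInd (P a b w e : E3) (he : ‖e‖ = 1) (ha : inner ℝ a e = 0) (hb : inner ℝ b e = 0)
    (hw : inner ℝ w e = 0) (hab : LinearIndependent ℝ ![a, b]) (D T0 T1 : ℝ) (hT : T0 < T1) (hD : 0 < D) :
    AffineIndependent ℝ ![P, P + D • (projAlong (e + w) a + T0 • projAlong (e + w) b),
      P + D • (projAlong (e + w) a + T1 • projAlong (e + w) b)] := by
  rw [affineIndependent_iff_of_fintype]
  intro v hv hs
  rw [Finset.weightedVSub_eq_linear_combination _ hv, Fin.sum_univ_three] at hs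
  rw [Fin.sum_univ_three] at hv
  simp only [Matrix.cons_val_zero, Matrix.cons_val_one, Matrix.cons_val] at hs
  set A := projAlong (e + w) a
  set Bv := projAlong (e + w) b
  have h1 : (v 0 + v 1 + v 2) • P + (D * (v 1 + v 2)) • A + (D * (v 1 * T0 + v 2 * T1)) • Bv = 0 := by
    rw [← hs]; module
  rw [hv, zero_smul, zero_add] at h1
  obtain ⟨h2, h3⟩ := proj_li a b w e he ha hb hw hab _ _ h1
  have h4 : v 1 + v 2 = 0 := (mul_eq_zero.mp h2).resolve_left hD.ne'
  have h5 : v 1 * T0 + v 2 * T1 = 0 := (mul_eq_zero.mp h3).resolve_left hD.ne'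
  have h6 : v 2 * (T1 - T0) = 0 := by linear_combination h5 - T0 * h4
  have h7 : v 2 = 0 := (mul_eq_zero.mp h6).resolve_right (by linarith)
  have h8 : v 1 = 0 := by linarith
  have h9 : v 0 = 0 := by linarith
  intro i
  fin_cases i
  · exact h9
  · exact h8
  · exact h7

/-- one piece of the sweep -/
def piece (e a b p₀ : E3) (L : ℝ) (R : ℝ → ℝ) (w : ℝ → E3) (T0 T1 : ℝ) : Set E3 :=
  {x | ∃ τ ∈ Icc T0 T1, ∃ ρ ∈ Icc 0 (R τ), ∃ s : ℝ, |s| ≤ L ∧ x = p₀ + ρ • (a + τ • b) + s • (e + w τ)}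

lemma piece_outer (e a b p₀ : E3) (L : ℝ) (hL : 0 < L) (R : ℝ → ℝ) (w : ℝ → E3) (he : ‖e‖ = 1)
    (α β : ℝ) (lam : ℝ → ℝ) (hlam : ContinuousOn lam (Icc α β))
    (hw : ∀ t ∈ Icc α β, inner ℝ (w t) e = 0)
    (hw' : ∀ t ∈ Icc α β, HasDerivWithinAt w (lam t • (a + t • b)) (Icc α β) t)
    (B : ℝ) (hB : ∀ t ∈ Icc α β, |lam t| ≤ B)
    (T0 T1 c Rb : ℝ) (h0 : α ≤ T0) (h1 : T1 ≤ β) (hT : T0 < T1) (hc : c ∈ Icc T0 T1)
    (hRb : ∀ τ ∈ Icc T0 T1, R τ ≤ Rb) (hRb0 : 0 ≤ Rb) (x0 D : ℝ) (hx0 : x0 = (3 * L * B + 1) * (T1 - T0))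
    (hD : D = Rb + L * B * (T1 - T0) + x0) (x : E3) (hx : x ∈ piece e a b p₀ L R w T0 T1) :
    ∃ s : ℝ, x - s • (e + w c) ∈ {z : E3 | ∃ X Y : ℝ, z = p₀ + X • a + Y • b} ∧
      projAlong (e + w c) x ∈ convexHull ℝ ({projAlong (e + w c) p₀ + (-x0) • projAlong (e + w c) a
          + (-x0 * ((T0 + T1) / 2)) • projAlong (e + w c) b,
        projAlong (e + w c) p₀ + (-x0) • projAlong (e + w c) a + (-x0 * ((T0 + T1) / 2)) • projAlong (e + w c) b
          + D • (projAlong (e + w c) a + T0 • projAlong (e + w c) b),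
        projAlong (e + w c) p₀ + (-x0) • projAlong (e + w c) a + (-x0 * ((T0 + T1) / 2)) • projAlong (e + w c) b
          + D • (projAlong (e + w c) a + T1 • projAlong (e + w c) b)} : Set E3) := by
  obtain ⟨τ, hτ, ρ, hρ, s, hs, rfl⟩ := hx
  set m := (T0 + T1) / 2 with hm
  have hmm : m ∈ Icc T0 T1 := ⟨by rw [hm]; linarith, by rw [hm]; linarith⟩
  have hB0 : 0 ≤ B := (abs_nonneg _).trans (hB T0 ⟨h0, hT.le.trans h1⟩)
  obtain ⟨X, Y, hXY, hX, hY⟩ := w_incr a b α β w lam hlam hw' B hB T0 T1 m c τ h0 h1 hc hτ hmm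
  have hwτ : w τ = w c + (X • a + Y • b) := by rw [← hXY]; abel
  set Δ := T1 - T0 with hΔ
  have hΔ0 : 0 < Δ := by rw [hΔ]; linarith
  have hsX : |s * X| ≤ L * B * Δ := by
    rw [abs_mul, mul_assoc]
    exact mul_le_mul hs hX (abs_nonneg _) hL.le
  have hsY : |s * (Y - m * X)| ≤ L * (B * Δ ^ 2) := by
    rw [abs_mul]
    exact mul_le_mul hs hY (abs_nonneg _) hL.le
  have hpt : p₀ + ρ • (a + τ • b) + s • (e + w τ) =
      p₀ + (ρ + s * X) • a + (ρ * τ + s * Y) • b + s • (e + w c) := by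
    rw [hwτ]; module
  refine ⟨s, ⟨ρ + s * X, ρ * τ + s * Y, ?_⟩, ?_⟩
  · rw [hpt]; abel
  · have hwc := hw c ⟨h0.trans hc.1, hc.2.trans h1⟩
    have hn := norm_axis (w c) e he hwc
    have hpos : 0 < Real.sqrt (1 + ‖w c‖ ^ 2) := Real.sqrt_pos.mpr (by positivity)
    have hne : e + w c ≠ 0 := by
      intro h
      rw [h, norm_zero] at hn
      exact hpos.ne hn
    rw [hpt, projAlong_add, projAlong_add, projAlong_add, projAlong_smul, projAlong_smul, projAlong_smul,
      projAlong_self _ hne, smul_zero, add_zero]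
    have hLB : 0 ≤ L * B := mul_nonneg hL.le hB0
    rw [abs_le] at hsX hsY
    have hx0' : x0 = 3 * (L * B * Δ) + Δ := by rw [hx0]; ring
    have hLBΔ : 0 ≤ L * B * Δ := by positivity
    apply outer_mem _ _ _ T0 T1 m x0 D _ _ hm hT
    · rw [hD, hx0']; linarith
    · rw [hD]
      have := hRb τ hτ
      linarith [hρ.2]
    · have e1 : ρ * τ + s * Y - m * (ρ + s * X) = ρ * (τ - m) + s * (Y - m * X) := by ring
      rw [e1]
      have h3 : |ρ * (τ - m)| ≤ ρ * (Δ / 2) := by
        rw [abs_mul, abs_of_nonneg hρ.1]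
        apply mul_le_mul_of_nonneg_left _ hρ.1
        rw [abs_le, hm, hΔ]
        constructor
        · linarith [hτ.1, hτ.2]
        · linarith [hτ.1, hτ.2]
      have h4 : |s * (Y - m * X)| ≤ L * (B * Δ ^ 2) := abs_le.mpr hsY
      refine (abs_add_le _ _).trans ?_
      have h5 : L * (B * Δ ^ 2) ≤ Δ / 2 * (s * X + x0) := by
        have : 2 * (L * B * Δ) ≤ s * X + x0 := by rw [hx0']; linarith
        nlinarith
      nlinarith [h3, h4, h5]

lemma piece_inner (e a b p₀ : E3) (L : ℝ) (hL : 0 < L) (R : ℝ → ℝ) (w : ℝ → E3)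
    (T0 T1 c r : ℝ) (hT : T0 < T1) (hr0 : 0 ≤ r) (hr : ∀ τ ∈ Icc T0 T1, r ≤ R τ) :
    convexHull ℝ ({projAlong (e + w c) p₀,
        projAlong (e + w c) p₀ + r • (projAlong (e + w c) a + T0 • projAlong (e + w c) b),
        projAlong (e + w c) p₀ + r • (projAlong (e + w c) a + T1 • projAlong (e + w c) b)} : Set E3) ⊆
      projAlong (e + w c) '' piece e a b p₀ L R w T0 T1 := by
  rw [convexHull_triple_eq_image]
  rintro _ ⟨l, ⟨hl0, hl1, hl2⟩, rfl⟩
  simp only [add_sub_cancel_left]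
  by_cases h : l 0 + l 1 = 0
  · have h0 : l 0 = 0 := by linarith
    have h1 : l 1 = 0 := by linarith
    refine ⟨p₀, ⟨T0, ⟨le_refl _, hT.le⟩, 0, ⟨le_refl _, hr0.trans (hr _ ⟨le_refl _, hT.le⟩)⟩, 0, by simpa using hL.le,
      by simp⟩, ?_⟩
    rw [h0, h1]; simp
  · have hpos : 0 < l 0 + l 1 := lt_of_le_of_ne (by linarith) (Ne.symm h)
    set τ := (l 0 * T0 + l 1 * T1) / (l 0 + l 1) with hτ
    have hτm : τ ∈ Icc T0 T1 := by
      constructor
      · rw [hτ, le_div_iff₀ hpos]; nlinarith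
      · rw [hτ, div_le_iff₀ hpos]; nlinarith
    refine ⟨p₀ + (r * (l 0 + l 1)) • (a + τ • b), ⟨τ, hτm, r * (l 0 + l 1), ⟨by positivity, ?_⟩, 0,
      by simpa using hL.le, by simp⟩, ?_⟩
    · refine le_trans ?_ (hr τ hτm)
      nlinarith
    · rw [projAlong_add, projAlong_smul, projAlong_add, projAlong_smul]
      have e1 : (l 0 + l 1) * τ = l 0 * T0 + l 1 * T1 := by rw [hτ]; field_simp
      have e2 : (r * (l 0 + l 1)) • (projAlong (e + w c) a + τ • projAlong (e + w c) b) =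
          (r * (l 0 + l 1)) • projAlong (e + w c) a + (r * ((l 0 + l 1) * τ)) • projAlong (e + w c) b := by
        module
      rw [e2, e1]; module

end Crest.Agent.H12Radial
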