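import Mathlib
import Crest.Prelude.Def_BernoulliConv

/-!
Interface for S0137 (quartic Salem Bernoulli convolution is singular).

* `FB b ξ` is the modulus of the Fourier transform of the Bernoulli convolution with parameter `b⁻¹`.
* `Datum b m T τ s σ` is the arithmetic datum used in the proof.
-/

set_option autoImplicit false

open MeasureTheory

namespace Crest.Agent.H12Salem

/-- modulus of the Fourier transform `∫ cos (2 π ξ x) dν(x)` of `ν = bernoulliConvolution b⁻¹` -/
noncomputable def FB (b ξ : ℝ) : ℝ :=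
  |∫ x, Real.cos (2 * Real.pi * ξ * x) ∂(Crest.AnalysisR.bernoulliConvolution b⁻¹)|

/-- the arithmetic datum -/
structure Datum (b m T τ : ℝ) (s : ℕ) (σ : ℝ) : Prop where
  one_le_T : 1 ≤ T
  T_le : T ≤ b ^ s
  sigma : σ = 1 ∨ σ = -1
  /-- (D2) `T b^i + σ T b^{-i}` is within `2 τ` of an integer -/
  near : ∀ i : ℤ, ∃ k : ℤ, |T * b ^ i + σ * (T * b ^ (-i)) - k| ≤ 2 * τ
  /-- (D3) -/
  cos_ge : ∀ i : ℤ, m ≤ |Real.cos (2 * Real.pi * (T * b ^ i))|

end Crest.Agent.H12Salem
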