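import Mathlib
import Crest.Prelude.Def_BernoulliConv
import Crest.Agent.H12SalemDefs

set_option autoImplicit false

open MeasureTheory Crest.AnalysisR
open scoped ENNReal

namespace Crest.Agent.H12Salem

instance : IsProbabilityMeasure fairCoin := by
  constructor
  rw [fairCoin]
  simp [ENNReal.inv_two_add_inv_two]

/-- coin sequences -/
noncomputable abbrev Pm : Measure (ℕ → Bool) := Measure.infinitePi (fun _ : ℕ => fairCoin)

/-- prepend a sign -/
def cons (a : Bool) (ε : ℕ → Bool) : ℕ → Bool := fun n => Nat.casesOn n a (fun k => ε k)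

@[simp] lemma cons_zero (a : Bool) (ε : ℕ → Bool) : cons a ε 0 = a := rfl
@[simp] lemma cons_succ (a : Bool) (ε : ℕ → Bool) (n : ℕ) : cons a ε (n + 1) = ε n := rfl

lemma measurable_cons (a : Bool) : Measurable (cons a) := by
  rw [measurable_pi_iff]
  intro n
  cases n with
  | zero => exact measurable_const
  | succ n => exact measurable_pi_apply n

/-- shifted index set -/
def sh (s : Finset ℕ) : Finset ℕ := (s.erase 0).image (fun x => x - 1)

lemma mem_sh (s : Finset ℕ) (i : ℕ) : i ∈ sh s ↔ i + 1 ∈ s := by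
  simp only [sh, Finset.mem_image, Finset.mem_erase]
  constructor
  · rintro ⟨x, ⟨h1, h2⟩, rfl⟩
    have : x - 1 + 1 = x := by omega
    rwa [this]
  · intro h
    exact ⟨i + 1, ⟨by omega, h⟩, by omega⟩

lemma prod_shift (s : Finset ℕ) (g : ℕ → ℝ≥0∞) :
    ∏ i ∈ s, g i = (if 0 ∈ s then g 0 else 1) * ∏ i ∈ sh s, g (i + 1) := by
  classical
  have h1 : ∏ i ∈ sh s, g (i + 1) = ∏ i ∈ s.erase 0, g i := by
    apply Finset.prod_bij (fun i _ => i + 1)
    · intro i hi
      rw [mem_sh] at hi
      rw [Finset.mem_erase]; exact ⟨by omega, hi⟩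
    · intro a _ c _ h; omega
    · intro x hx
      rw [Finset.mem_erase] at hx
      refine ⟨x - 1, ?_, by omega⟩
      rw [mem_sh]
      have : x - 1 + 1 = x := by omega
      rw [this]; exact hx.2
    · intro i _; rfl
  rw [h1]
  by_cases h0 : 0 ∈ s
  · rw [if_pos h0, ← Finset.mul_prod_erase s g h0]
  · rw [if_neg h0, one_mul, Finset.erase_eq_of_notMem h0]


theorem Pm_eq : Pm = (2⁻¹ : ℝ≥0∞) • Pm.map (cons true) + (2⁻¹ : ℝ≥0∞) • Pm.map (cons false) := by
  symm
  apply Measure.eq_infinitePi
  intro s t ht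
  classical
  have hpi : MeasurableSet (Set.pi (s : Set ℕ) t) := MeasurableSet.pi s.countable_toSet fun i _ => ht i
  rw [Measure.add_apply, Measure.smul_apply, Measure.smul_apply, Measure.map_apply (measurable_cons _) hpi,
    Measure.map_apply (measurable_cons _) hpi, prod_shift]
  set s' := sh s with hs'
  have key : ∀ a : Bool, Pm (cons a ⁻¹' (Set.pi (s : Set ℕ) t)) =
      (if 0 ∈ s then (if a ∈ t 0 then 1 else 0) else 1) * ∏ i ∈ s', fairCoin (t (i + 1)) := by
    intro a
    have hP := Measure.infinitePi_pi (fun _ : ℕ => fairCoin) (s := s') (t := fun i => t (i + 1))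
      (fun i _ => ht (i + 1))
    by_cases h0 : 0 ∈ s
    · rw [if_pos h0]
      by_cases ha : a ∈ t 0
      · rw [if_pos ha, one_mul, ← hP]
        congr 1
        ext ε
        simp only [Set.mem_preimage, Set.mem_pi, Finset.mem_coe, hs', mem_sh]
        constructor
        · intro h i hi; exact h (i + 1) hi
        · intro h i hi
          cases i with
          | zero => exact ha
          | succ n => exact h n hi
      · rw [if_neg ha, zero_mul]
        have : cons a ⁻¹' (Set.pi (s : Set ℕ) t) = ∅ := by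
          ext ε
          simp only [Set.mem_preimage, Set.mem_pi, Set.mem_empty_iff_false, iff_false]
          intro h
          exact ha (h 0 h0)
        rw [this, measure_empty]
    · rw [if_neg h0, one_mul, ← hP]
      congr 1
      ext ε
      simp only [Set.mem_preimage, Set.mem_pi, Finset.mem_coe, hs', mem_sh]
      constructor
      · intro h i hi; exact h (i + 1) hi
      · intro h i hi
        cases i with
        | zero => exact absurd hi h0
        | succ n => exact h n hi
  rw [key, key]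
  simp only [smul_eq_mul]
  by_cases h0 : 0 ∈ s
  · simp only [if_pos h0]
    have hf : fairCoin (t 0) = 2⁻¹ * (if true ∈ t 0 then 1 else 0) + 2⁻¹ * (if false ∈ t 0 then 1 else 0) := by
      rw [fairCoin, Measure.add_apply, Measure.smul_apply, Measure.smul_apply,
        Measure.dirac_apply' _ (ht 0), Measure.dirac_apply' _ (ht 0)]
      simp [Set.indicator_apply]
    rw [hf, add_mul, mul_assoc, mul_assoc]
  · simp only [if_neg h0, one_mul]
    rw [← add_mul, ENNReal.inv_two_add_inv_two, one_mul]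

section

variable {c : ℝ}

lemma norm_term_le (hc : 0 ≤ c) (n : ℕ) (ε : ℕ → Bool) : ‖(if ε n then c ^ n else -(c ^ n))‖ ≤ c ^ n := by
  split_ifs
  · rw [Real.norm_eq_abs, abs_of_nonneg (by positivity)]
  · rw [norm_neg, Real.norm_eq_abs, abs_of_nonneg (by positivity)]

lemma summable_term (hc : 0 ≤ c) (hc1 : c < 1) (ε : ℕ → Bool) :
    Summable (fun n => if ε n then c ^ n else -(c ^ n)) :=
  Summable.of_norm_bounded (summable_geometric_of_lt_one hc hc1) (fun n => norm_term_le hc n ε)

lemma continuous_sps (hc : 0 ≤ c) (hc1 : c < 1) : Continuous (signedPowerSum c) := by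
  unfold signedPowerSum
  apply continuous_tsum _ (summable_geometric_of_lt_one hc hc1) (fun n ε => norm_term_le hc n ε)
  intro n
  have : Continuous (fun a : Bool => if a then c ^ n else -(c ^ n)) := continuous_of_discreteTopology
  exact this.comp (continuous_apply n)

lemma measurable_sps (hc : 0 ≤ c) (hc1 : c < 1) : Measurable (signedPowerSum c) :=
  (continuous_sps hc hc1).measurable

lemma sps_cons (hc : 0 ≤ c) (hc1 : c < 1) (a : Bool) (ε : ℕ → Bool) :
    signedPowerSum c (cons a ε) = (if a then 1 else -1) + c * signedPowerSum c ε := by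
  unfold signedPowerSum
  rw [(summable_term hc hc1 (cons a ε)).tsum_eq_zero_add]
  simp only [cons_zero, pow_zero, cons_succ]
  congr 1
  rw [← tsum_mul_left]
  congr 1
  funext n
  by_cases h : ε n = true
  · simp only [h, if_true]; ring
  · simp only [h]; ring_nf; simp

lemma abs_sps_le (hc : 0 ≤ c) (hc1 : c < 1) (ε : ℕ → Bool) : |signedPowerSum c ε| ≤ (1 - c)⁻¹ := by
  unfold signedPowerSum
  rw [← Real.norm_eq_abs, ← tsum_geometric_of_lt_one hc hc1]
  exact tsum_of_norm_bounded (summable_geometric_of_lt_one hc hc1).hasSum (fun n => norm_term_le hc n ε)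

instance (c : ℝ) : IsFiniteMeasure (bernoulliConvolution c) := by
  unfold bernoulliConvolution; infer_instance

lemma prob (hc : 0 ≤ c) (hc1 : c < 1) : IsProbabilityMeasure (bernoulliConvolution c) := by
  unfold bernoulliConvolution
  exact Measure.isProbabilityMeasure_map (measurable_sps hc hc1).aemeasurable

lemma ae_le (hc : 0 ≤ c) (hc1 : c < 1) : ∀ᵐ x ∂(bernoulliConvolution c), |x| ≤ (1 - c)⁻¹ := by
  rw [bernoulliConvolution, ae_map_iff (measurable_sps hc hc1).aemeasurable
    (measurableSet_le (by fun_prop) measurable_const)]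
  exact Filter.Eventually.of_forall (abs_sps_le hc hc1)

/-- self-similarity -/
lemma integral_self (hc : 0 ≤ c) (hc1 : c < 1) (f : ℝ → ℝ) (hf : Continuous f) (C : ℝ) (hC : ∀ x, |f x| ≤ C) :
    ∫ x, f x ∂(bernoulliConvolution c) =
      2⁻¹ * ∫ x, f (1 + c * x) ∂(bernoulliConvolution c) + 2⁻¹ * ∫ x, f (-1 + c * x) ∂(bernoulliConvolution c) := by
  have hm := measurable_sps hc hc1
  have hi : ∀ (μ : Measure (ℕ → Bool)) [IsFiniteMeasure μ], Integrable (fun ε => f (signedPowerSum c ε)) μ := by
    intro μ _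
    apply Integrable.of_bound (hf.measurable.comp hm).aestronglyMeasurable C
    exact Filter.Eventually.of_forall fun ε => hC _
  rw [bernoulliConvolution, integral_map hm.aemeasurable hf.aestronglyMeasurable]
  rw [integral_map hm.aemeasurable (by fun_prop), integral_map hm.aemeasurable (by fun_prop)]
  conv_lhs => rw [show Measure.infinitePi (fun _ : ℕ => fairCoin) = _ from Pm_eq]
  have hfin : ∀ a, IsFiniteMeasure (Pm.map (cons a)) := fun a => inferInstance
  have h1 : ((2⁻¹ : ℝ≥0∞)).toReal = (2⁻¹ : ℝ) := by simp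
  have h2 : ∀ a, ∫ ε, f (signedPowerSum c ε) ∂(Pm.map (cons a)) = ∫ ε, f (signedPowerSum c (cons a ε)) ∂Pm := by
    intro a
    exact integral_map (measurable_cons a).aemeasurable (hf.measurable.comp hm).aestronglyMeasurable
  rw [integral_add_measure, integral_smul_measure, integral_smul_measure, h1, h2, h2]
  · simp only [sps_cons hc hc1, smul_eq_mul]
    simp
  · exact (hi _).smul_measure (by simp)
  · exact (hi _).smul_measure (by simp)

/-- the (real) Fourier transform -/
noncomputable def ft (c ξ : ℝ) : ℝ := ∫ x, Real.cos (2 * Real.pi * ξ * x) ∂(bernoulliConvolution c)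

lemma ft_self (hc : 0 ≤ c) (hc1 : c < 1) (ξ : ℝ) : ft c ξ = Real.cos (2 * Real.pi * ξ) * ft c (c * ξ) := by
  unfold ft
  have hprob := prob hc hc1
  rw [integral_self hc hc1 (fun x => Real.cos (2 * Real.pi * ξ * x)) (by fun_prop) 1
    (fun x => Real.abs_cos_le_one _)]
  have hI : ∀ a : ℝ, Integrable (fun x => Real.cos (2 * Real.pi * ξ * (a + c * x))) (bernoulliConvolution c) := by
    intro a
    apply Integrable.of_bound (by fun_prop) 1
    exact Filter.Eventually.of_forall fun ε => Real.abs_cos_le_one _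
  rw [← mul_add, ← integral_add (hI 1) (hI (-1)), ← integral_const_mul, ← integral_const_mul]
  congr 1
  funext x
  have e1 : 2 * Real.pi * ξ * (1 + c * x) = 2 * Real.pi * (c * ξ) * x + 2 * Real.pi * ξ := by ring
  have e2 : 2 * Real.pi * ξ * (-1 + c * x) = 2 * Real.pi * (c * ξ) * x - 2 * Real.pi * ξ := by ring
  rw [e1, e2, Real.cos_add, Real.cos_sub]
  ring

end

/-! ### the interface facts -/

variable {b : ℝ}

lemma inv_nonneg' (hb : 1 < b) : 0 ≤ b⁻¹ := by positivity
lemma inv_lt_one' (hb : 1 < b) : b⁻¹ < 1 := inv_lt_one_of_one_lt₀ hb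

lemma FB_eq (b ξ : ℝ) : FB b ξ = |ft b⁻¹ ξ| := rfl

lemma FB_nonneg (b ξ : ℝ) : 0 ≤ FB b ξ := abs_nonneg _

lemma FB_le_one (hb : 1 < b) (ξ : ℝ) : FB b ξ ≤ 1 := by
  have := prob (inv_nonneg' hb) (inv_lt_one' hb)
  rw [FB, ← Real.norm_eq_abs]
  refine (norm_integral_le_of_norm_le_const (C := 1) (Filter.Eventually.of_forall fun x => ?_)).trans ?_
  · exact Real.abs_cos_le_one _
  · simp

lemma FB_mul (hb : 1 < b) (ξ : ℝ) :
    FB b (b * ξ) = |Real.cos (2 * Real.pi * (b * ξ))| * FB b ξ := by
  have hb0 : b ≠ 0 := by positivity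
  have h : b⁻¹ * (b * ξ) = ξ := by rw [← mul_assoc, inv_mul_cancel₀ hb0, one_mul]
  rw [FB_eq, FB_eq, ft_self (inv_nonneg' hb) (inv_lt_one' hb), abs_mul, h]

lemma one_sub_abs_le_cos (y : ℝ) : 1 - |y| ≤ Real.cos y := by
  by_cases h : |y| ≤ 2
  · have h1 := Real.one_sub_sq_div_two_le_cos (x := y)
    have h2 : y ^ 2 = |y| ^ 2 := (sq_abs y).symm
    nlinarith [abs_nonneg y]
  · have := Real.neg_one_le_cos y
    linarith

lemma FB_ge (hb : 1 < b) (ξ : ℝ) : 1 - 2 * Real.pi * (b / (b - 1)) * |ξ| ≤ FB b ξ := by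
  have hp := prob (inv_nonneg' hb) (inv_lt_one' hb)
  have hR : (1 - b⁻¹)⁻¹ = b / (b - 1) := by
    have : b ≠ 0 := by positivity
    have : b - 1 ≠ 0 := by linarith
    field_simp
  have hae := ae_le (inv_nonneg' hb) (inv_lt_one' hb)
  rw [hR] at hae
  refine le_trans ?_ (le_abs_self _)
  have h1 : ∫ _x, (1 - 2 * Real.pi * (b / (b - 1)) * |ξ|) ∂(bernoulliConvolution b⁻¹) =
      1 - 2 * Real.pi * (b / (b - 1)) * |ξ| := by simp
  rw [← h1]
  apply integral_mono_ae (integrable_const _)
  · apply Integrable.of_bound (by fun_prop) 1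
    exact Filter.Eventually.of_forall fun ε => Real.abs_cos_le_one _
  · filter_upwards [hae] with x hx
    refine le_trans ?_ (one_sub_abs_le_cos _)
    have h2 : |2 * Real.pi * ξ * x| = 2 * Real.pi * |ξ| * |x| := by
      rw [abs_mul, abs_mul, abs_of_pos (by positivity : (0:ℝ) < 2 * Real.pi)]
    rw [h2]
    have h3 : 2 * Real.pi * |ξ| * |x| ≤ 2 * Real.pi * |ξ| * (b / (b - 1)) :=
      mul_le_mul_of_nonneg_left hx (by positivity)
    linarith

/-- iterated self-similarity -/
lemma FB_iter (hb : 1 < b) (T : ℝ) (n : ℤ) (k : ℕ) :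
    FB b (T * b ^ n) = (∏ i ∈ Finset.range k, |Real.cos (2 * Real.pi * (T * b ^ (n - (i : ℤ))))|) *
      FB b (T * b ^ (n - (k : ℤ))) := by
  have hb0 : b ≠ 0 := by positivity
  induction k with
  | zero => simp
  | succ k ih =>
    rw [ih, Finset.prod_range_succ, mul_assoc]
    congr 1
    have h : T * b ^ (n - (k : ℤ)) = b * (T * b ^ (n - ((k + 1 : ℕ) : ℤ))) := by
      have : (n - (k : ℤ)) = (n - ((k + 1 : ℕ) : ℤ)) + 1 := by push_cast; ring
      rw [this, zpow_add_one₀ hb0]; ring
    rw [h, FB_mul hb]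

end Crest.Agent.H12Salem
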