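import Mathlib
import Crest.Prelude.Def_BernoulliConv

/-!
# S0137: interface between part A (Salem data) and part B (end game)

`phi x = |cos (2πx)|`, `nuHat b ξ = ∫ cos (2πξx) dν_b(x)` with `ν_b = bernoulliConvolution b⁻¹`,
`F b ξ = |nuHat b ξ|`.

* Facts on `F` (file `H9SalemF`): `F_nonneg`, `F_le_one`, `F b (b ξ) = phi (b ξ) * F b ξ`,
  `1 - 2πR|ξ| ≤ F b ξ`, `R = b/(b-1)`, `ν_b` is a probability measure carried by `[-R,R]`.
* Part A (this seat): existence of the sequence of data.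
* Part B (`H9SalemB`): `SalemSeq b` implies `ν_b ⟂ volume`.
-/

set_option autoImplicit false

open MeasureTheory Filter Topology Crest.AnalysisR

namespace Crest.Agent.H9Salem

/-- `phi x = |cos (2πx)|`. -/
noncomputable def phi (x : ℝ) : ℝ := |Real.cos (2 * Real.pi * x)|

/-- The (real) Fourier transform of the Bernoulli convolution of parameter `b⁻¹`. -/
noncomputable def nuHat (b ξ : ℝ) : ℝ :=
  ∫ x, Real.cos (2 * Real.pi * ξ * x) ∂(bernoulliConvolution b⁻¹)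

/-- Its absolute value. -/
noncomputable def F (b ξ : ℝ) : ℝ := |nuHat b ξ|

/-- A datum: a number `T` such that `T b^i ≡ -σ T b^{-i}` mod 1 up to `2τ` for all integers `i`. -/
structure Datum (b m T τ : ℝ) (s : ℕ) (σ : ℝ) : Prop where
  one_le : 1 ≤ T
  le_pow : T ≤ b ^ s
  sign : σ = 1 ∨ σ = -1
  near : ∀ i : ℤ, ∃ k : ℤ, |T * b ^ i + σ * (T * b ^ (-i)) - k| ≤ 2 * τ
  lower : ∀ i : ℤ, m ≤ phi (T * b ^ i)

/-- The hypotheses of part B. -/
def SalemSeq (b : ℝ) : Prop :=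
  ∃ (m : ℝ) (T τ σ : ℕ → ℝ) (s N : ℕ → ℕ), 0 < m ∧
    (∀ j, Datum b m (T j) (τ j) (s j) (σ j)) ∧
    Tendsto s atTop atTop ∧
    Tendsto (fun j => (N j : ℝ) * τ j ^ 2) atTop (𝓝 0) ∧
    Tendsto (fun j => (s j : ℝ) * τ j) atTop (𝓝 0) ∧
    Tendsto (fun j => (N j : ℝ) * F b (T j * b ^ (2 * s j)) ^ 2 / (s j : ℝ)) atTop atTop

/-- The facts on `F` used by part A (to be proved for the true `F b` in `H9SalemF`). -/
structure FFacts (b : ℝ) (G : ℝ → ℝ) : Prop where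
  nonneg : ∀ ξ, 0 ≤ G ξ
  le_one : ∀ ξ, G ξ ≤ 1
  scale : ∀ ξ, G (b * ξ) = phi (b * ξ) * G ξ
  near_one : ∀ ξ, 1 - 2 * Real.pi * (b / (b - 1)) * |ξ| ≤ G ξ

end Crest.Agent.H9Salem
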