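import Mathlib
import Crest.Prelude.Def_BernoulliConv
import Crest.Agent.H9SalemDefs
import Crest.Agent.H12SalemF

set_option autoImplicit false

open MeasureTheory Crest.AnalysisR Filter Topology
open scoped ENNReal

namespace Crest.Agent.H12Salem

open Crest.Agent.H9Salem (phi nuHat F SalemSeq FFacts)

/-! ### facts for part A -/

lemma F_eq_FB (b ξ : ℝ) : F b ξ = FB b ξ := rfl

theorem ffacts {b : ℝ} (hb : 1 < b) : FFacts b (F b) where
  nonneg ξ := FB_nonneg b ξ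
  le_one ξ := FB_le_one hb ξ
  scale ξ := FB_mul hb ξ
  near_one ξ := FB_ge hb ξ

/-! ### the function `phi` -/

lemma phi_nonneg (x : ℝ) : 0 ≤ phi x := abs_nonneg _
lemma phi_le_one (x : ℝ) : phi x ≤ 1 := Real.abs_cos_le_one _

lemma phi_neg (x : ℝ) : phi (-x) = phi x := by
  unfold phi; rw [mul_neg, Real.cos_neg]

lemma phi_sub_int (x : ℝ) (k : ℤ) : phi (x - k) = phi x := by
  unfold phi
  have : 2 * Real.pi * (x - k) = 2 * Real.pi * x - k * (2 * Real.pi) := by ring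
  rw [this, Real.cos_sub_int_mul_two_pi]

lemma abs_cos_sub_cos (x y : ℝ) : |Real.cos x - Real.cos y| ≤ |x - y| := by
  have h := Real.cos_sub_cos x y
  rw [h, abs_mul, abs_mul]
  have h1 : |Real.sin ((x + y) / 2)| ≤ 1 := Real.abs_sin_le_one _
  have h2 : |Real.sin ((x - y) / 2)| ≤ |(x - y) / 2| := Real.abs_sin_le_abs
  have h3 : |(x - y) / 2| = |x - y| / 2 := by rw [abs_div]; norm_num
  rw [h3] at h2
  have h4 : |(-2 : ℝ)| = 2 := by norm_num
  rw [h4]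
  have := abs_nonneg (Real.sin ((x + y) / 2))
  have := abs_nonneg (Real.sin ((x - y) / 2))
  nlinarith [abs_nonneg (x - y)]

lemma phi_lip (x y δ : ℝ) (h : |x - y| ≤ δ) : phi x ≤ phi y + 2 * Real.pi * δ := by
  unfold phi
  have h1 := abs_cos_sub_cos (2 * Real.pi * x) (2 * Real.pi * y)
  have h2 : |2 * Real.pi * x - 2 * Real.pi * y| = 2 * Real.pi * |x - y| := by
    rw [← mul_sub, abs_mul, abs_of_pos (by positivity : (0:ℝ) < 2 * Real.pi)]
  rw [h2] at h1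
  have h3 : |Real.cos (2 * Real.pi * x)| ≤ |Real.cos (2 * Real.pi * y)| +
      |Real.cos (2 * Real.pi * x) - Real.cos (2 * Real.pi * y)| := by
    have := abs_add_le (Real.cos (2 * Real.pi * y)) (Real.cos (2 * Real.pi * x) - Real.cos (2 * Real.pi * y))
    simpa using this
  have h4 : 2 * Real.pi * |x - y| ≤ 2 * Real.pi * δ := by gcongr
  linarith

lemma phi_near (x y δ : ℝ) (k : ℤ) (h : |x - y - k| ≤ δ) : phi x ≤ phi y + 2 * Real.pi * δ := by
  rw [← phi_sub_int x k]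
  apply phi_lip
  have : x - k - y = x - y - k := by ring
  rwa [this]

lemma phi_ge (x : ℝ) (k : ℤ) : 1 - 2 * Real.pi ^ 2 * (x - k) ^ 2 ≤ phi x := by
  rw [← phi_sub_int x k]
  unfold phi
  refine le_trans ?_ (le_abs_self _)
  have h1 := Real.one_sub_sq_div_two_le_cos (x := 2 * Real.pi * (x - k))
  have h2 : (2 * Real.pi * (x - k)) ^ 2 / 2 = 2 * Real.pi ^ 2 * (x - k) ^ 2 := by ring
  rw [h2] at h1
  exact h1

/-! ### monotonicity -/

variable {b : ℝ}

lemma F_le_one (hb : 1 < b) (ξ : ℝ) : F b ξ ≤ 1 := FB_le_one hb ξ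
lemma F_nonneg (b ξ : ℝ) : 0 ≤ F b ξ := FB_nonneg b ξ

lemma F_neg (b ξ : ℝ) : F b (-ξ) = F b ξ := by
  unfold F nuHat
  congr 2
  funext x
  rw [mul_neg, neg_mul, Real.cos_neg]

lemma F_iter (hb : 1 < b) (T : ℝ) (n : ℤ) (k : ℕ) :
    F b (T * b ^ n) = (∏ i ∈ Finset.range k, phi (T * b ^ (n - (i : ℤ)))) * F b (T * b ^ (n - (k : ℤ))) :=
  FB_iter hb T n k

lemma F_anti (hb : 1 < b) (T : ℝ) (n n' : ℤ) (h : n' ≤ n) : F b (T * b ^ n) ≤ F b (T * b ^ n') := by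
  obtain ⟨k, hk⟩ := Int.le.dest h
  have h1 := F_iter hb T n k
  have h2 : n - (k : ℤ) = n' := by rw [← hk]; ring
  rw [h2] at h1
  rw [h1]
  apply mul_le_of_le_one_left (F_nonneg _ _)
  exact Finset.prod_le_one (fun i _ => phi_nonneg _) (fun i _ => phi_le_one _)

/-! ### (1): lower bound along the orbit -/

section Dat

variable {m T τ σ : ℝ} {s : ℕ}

lemma tau_nonneg (hD : Crest.Agent.H9Salem.Datum b m T τ s σ) : 0 ≤ τ := by
  obtain ⟨k, hk⟩ := hD.near 0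
  have := (abs_nonneg _).trans hk
  linarith

lemma dist_int (hb : 1 < b) (hD : Crest.Agent.H9Salem.Datum b m T τ s σ) (i : ℤ) :
    ∃ k : ℤ, |T * b ^ i - k| ≤ 2 * τ + b ^ ((s : ℤ) - i) := by
  obtain ⟨k, hk⟩ := hD.near i
  refine ⟨k, ?_⟩
  have hb0 : 0 < b := by linarith
  have hT0 : 0 < T := by linarith [hD.one_le]
  have h1 : |σ * (T * b ^ (-i))| ≤ b ^ ((s : ℤ) - i) := by
    have hσ : |σ| = 1 := by rcases hD.sign with h | h <;> rw [h] <;> norm_num
    rw [abs_mul, hσ, one_mul, abs_of_pos (by positivity), sub_eq_add_neg, zpow_add₀ hb0.ne']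
    apply mul_le_mul_of_nonneg_right _ (by positivity)
    rw [zpow_natCast]; exact hD.le_pow
  have h2 : T * b ^ i - k = (T * b ^ i + σ * (T * b ^ (-i)) - k) - σ * (T * b ^ (-i)) := by ring
  rw [h2]
  refine (abs_sub _ _).trans ?_
  linarith

/-- lower bound for `F` along the orbit, raw form -/
lemma F_orbit_raw (hb : 1 < b) (hD : Crest.Agent.H9Salem.Datum b m T τ s σ) (k : ℕ) :
    F b (T * b ^ (2 * s : ℤ)) * (1 - ∑ i ∈ Finset.range k, 2 * Real.pi ^ 2 *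
      (2 * τ + b ^ (-(s : ℤ) - ((i : ℤ) + 1))) ^ 2) ≤ F b (T * b ^ ((2 * s : ℤ) + k)) := by
  have hb0 : b ≠ 0 := by positivity
  set a := F b (T * b ^ (2 * s : ℤ)) with ha
  have ha0 : 0 ≤ a := F_nonneg _ _
  induction k with
  | zero => simp [ha]
  | succ k ih =>
    set S := ∑ i ∈ Finset.range k, 2 * Real.pi ^ 2 * (2 * τ + b ^ (-(s : ℤ) - ((i : ℤ) + 1))) ^ 2 with hS
    have hF : F b (T * b ^ ((2 * s : ℤ) + (k + 1 : ℕ))) =
        phi (T * b ^ ((2 * s : ℤ) + (k + 1 : ℕ))) * F b (T * b ^ ((2 * s : ℤ) + k)) := by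
      have h := (ffacts hb).scale (T * b ^ ((2 * s : ℤ) + k))
      have e : b * (T * b ^ ((2 * s : ℤ) + k)) = T * b ^ ((2 * s : ℤ) + (k + 1 : ℕ)) := by
        have : ((2 * s : ℤ) + (k + 1 : ℕ)) = ((2 * s : ℤ) + k) + 1 := by push_cast; ring
        rw [this, zpow_add_one₀ hb0]; ring
      rwa [e] at h
    rw [hF, Finset.sum_range_succ, ← hS]
    set δ := 2 * Real.pi ^ 2 * (2 * τ + b ^ (-(s : ℤ) - ((k : ℤ) + 1))) ^ 2 with hδ
    have hδ0 : 0 ≤ δ := by positivity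
    have hφ : 1 - δ ≤ phi (T * b ^ ((2 * s : ℤ) + (k + 1 : ℕ))) := by
      obtain ⟨κ, hκ⟩ := dist_int hb hD ((2 * s : ℤ) + (k + 1 : ℕ))
      refine le_trans ?_ (phi_ge _ κ)
      have e : (s : ℤ) - ((2 * s : ℤ) + (k + 1 : ℕ)) = -(s : ℤ) - ((k : ℤ) + 1) := by push_cast; ring
      rw [e] at hκ
      have h1 : (T * b ^ ((2 * s : ℤ) + (k + 1 : ℕ)) - κ) ^ 2 ≤ (2 * τ + b ^ (-(s : ℤ) - ((k : ℤ) + 1))) ^ 2 := by
        rw [← sq_abs]
        exact pow_le_pow_left₀ (abs_nonneg _) hκ 2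
      have h2 : 2 * Real.pi ^ 2 * (T * b ^ ((2 * s : ℤ) + (k + 1 : ℕ)) - κ) ^ 2 ≤ δ := by
        rw [hδ]; gcongr
      linarith
    have hφ0 := phi_nonneg (T * b ^ ((2 * s : ℤ) + (k + 1 : ℕ)))
    have hF0 := F_nonneg b (T * b ^ ((2 * s : ℤ) + k))
    by_cases hneg : 1 - S < 0
    · have : a * (1 - (S + δ)) ≤ 0 := mul_nonpos_of_nonneg_of_nonpos ha0 (by linarith)
      exact this.trans (mul_nonneg hφ0 hF0)
    · push Not at hneg
      have hS0 : 0 ≤ S := Finset.sum_nonneg fun i _ => by positivity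
      have h3 : phi (T * b ^ ((2 * s : ℤ) + (k + 1 : ℕ))) * (a * (1 - S)) ≤
          phi (T * b ^ ((2 * s : ℤ) + (k + 1 : ℕ))) * F b (T * b ^ ((2 * s : ℤ) + k)) :=
        mul_le_mul_of_nonneg_left ih hφ0
      have h4 : (1 - δ) * (a * (1 - S)) ≤ phi (T * b ^ ((2 * s : ℤ) + (k + 1 : ℕ))) * (a * (1 - S)) :=
        mul_le_mul_of_nonneg_right hφ (mul_nonneg ha0 hneg)
      have h5 : a * (1 - (S + δ)) ≤ (1 - δ) * (a * (1 - S)) := by
        have h6 : 0 ≤ a * (δ * S) := mul_nonneg ha0 (mul_nonneg hδ0 hS0)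
        have e : (1 - δ) * (a * (1 - S)) = a * (1 - (S + δ)) + a * (δ * S) := by ring
        rw [e]
        exact le_add_of_nonneg_right h6
      exact h5.trans (h4.trans h3)

/-- geometric sums over injectively indexed finsets -/
lemma geom_le (r : ℝ) (hr0 : 0 ≤ r) (hr1 : r < 1) {ι : Type*} (S : Finset ι) (g : ι → ℕ)
    (hg : Set.InjOn g S) : ∑ i ∈ S, r ^ g i ≤ (1 - r)⁻¹ := by
  classical
  have h1 : ∑ i ∈ S, r ^ g i = ∑ k ∈ S.image g, r ^ k := by
    rw [Finset.sum_image hg]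
  rw [h1, ← tsum_geometric_of_lt_one hr0 hr1]
  exact (summable_geometric_of_lt_one hr0 hr1).sum_le_tsum _ (fun i _ => pow_nonneg hr0 i)

/-- constant depending on `b` only -/
noncomputable def err1 (b : ℝ) (τ : ℝ) (s N : ℕ) : ℝ :=
  4 * Real.pi ^ 2 * (4 * τ ^ 2 * N + (b⁻¹) ^ s * (1 - b⁻¹)⁻¹)

lemma F_orbit (hb : 1 < b) (hD : Crest.Agent.H9Salem.Datum b m T τ s σ) (k N : ℕ) (hk : k ≤ N) :
    F b (T * b ^ (2 * s : ℤ)) * (1 - err1 b τ s N) ≤ F b (T * b ^ ((2 * s : ℤ) + k)) := by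
  have hb0 : 0 < b := by positivity
  have hτ := tau_nonneg hD
  refine le_trans ?_ (F_orbit_raw hb hD k)
  apply mul_le_mul_of_nonneg_left _ (F_nonneg _ _)
  apply sub_le_sub_left
  have hr0 : 0 ≤ b⁻¹ := by positivity
  have hr1 : b⁻¹ < 1 := inv_lt_one_of_one_lt₀ hb
  calc ∑ i ∈ Finset.range k, 2 * Real.pi ^ 2 * (2 * τ + b ^ (-(s : ℤ) - ((i : ℤ) + 1))) ^ 2
      ≤ ∑ i ∈ Finset.range k, (4 * Real.pi ^ 2 * (4 * τ ^ 2) + 4 * Real.pi ^ 2 * (b⁻¹) ^ s * (b⁻¹) ^ i) := by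
        apply Finset.sum_le_sum
        intro i _
        have e : b ^ (-(s : ℤ) - ((i : ℤ) + 1)) = (b⁻¹) ^ (s + i + 1) := by
          rw [inv_pow, ← zpow_natCast, ← zpow_neg]; congr 1; push_cast; ring
        rw [e]
        set y := (b⁻¹) ^ (s + i + 1) with hy
        have hy0 : 0 ≤ y := by positivity
        have hy1 : y ≤ (b⁻¹) ^ (s + i) := by
          rw [hy]; exact pow_le_pow_of_le_one hr0 hr1.le (by omega)
        have hy2 : y ≤ 1 := pow_le_one₀ hr0 hr1.le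
        have h1 : (2 * τ + y) ^ 2 ≤ 2 * (4 * τ ^ 2) + 2 * y := by nlinarith [sq_nonneg (2 * τ - y)]
        have h2 : 2 * Real.pi ^ 2 * (2 * τ + y) ^ 2 ≤ 2 * Real.pi ^ 2 * (2 * (4 * τ ^ 2) + 2 * y) := by gcongr
        have h3 : 4 * Real.pi ^ 2 * y ≤ 4 * Real.pi ^ 2 * (b⁻¹) ^ (s + i) := by gcongr
        rw [pow_add] at h3
        nlinarith
    _ = 4 * Real.pi ^ 2 * (4 * τ ^ 2) * k + 4 * Real.pi ^ 2 * (b⁻¹) ^ s * ∑ i ∈ Finset.range k, (b⁻¹) ^ i := by
        rw [Finset.sum_add_distrib, Finset.sum_const, Finset.card_range, nsmul_eq_mul, Finset.mul_sum]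
        ring
    _ ≤ err1 b τ s N := by
        unfold err1
        have h1 : (k : ℝ) ≤ N := by exact_mod_cast hk
        have h2 := geom_le b⁻¹ hr0 hr1 (Finset.range k) (fun i => i) (fun _ _ _ _ h => h)
        have h3 : 4 * Real.pi ^ 2 * (4 * τ ^ 2) * k ≤ 4 * Real.pi ^ 2 * (4 * τ ^ 2) * N := by gcongr
        have h4 : 4 * Real.pi ^ 2 * (b⁻¹) ^ s * ∑ i ∈ Finset.range k, (b⁻¹) ^ i ≤
            4 * Real.pi ^ 2 * (b⁻¹) ^ s * (1 - b⁻¹)⁻¹ := by gcongr
        nlinarith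

/-! ### (2): upper bound at sums and differences -/

/-- the perturbation `2 τ + b^{-7s}` -/
noncomputable def pert (b τ : ℝ) (s : ℕ) : ℝ := 2 * τ + (b⁻¹) ^ (7 * s)

lemma pert_nonneg (hb : 1 < b) (hτ : 0 ≤ τ) : 0 ≤ pert b τ s := by
  unfold pert
  have : 0 < b := by linarith
  positivity

lemma factor2 (hb : 1 < b) (hm : 0 < m) (hD : Crest.Agent.H9Salem.Datum b m T τ s σ) (ς : ℝ) (hς : ς = 1 ∨ ς = -1)
    (d : ℕ) (hd : 10 * s ≤ d) (i : ℤ) (hi : -(2 * s : ℤ) < i) :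
    phi (T * (b ^ d + ς) * b ^ i) ≤ phi (T * b ^ i) * (1 + 2 * Real.pi * pert b τ s / m) := by
  have hb0 : 0 < b := by linarith
  have hT0 : 0 < T := by linarith [hD.one_le]
  obtain ⟨κ, hκ⟩ := hD.near (i + d)
  have h1 : |T * (b ^ d + ς) * b ^ i - ς * (T * b ^ i) - κ| ≤ pert b τ s := by
    have e : T * (b ^ d + ς) * b ^ i - ς * (T * b ^ i) - κ =
        (T * b ^ (i + d) + σ * (T * b ^ (-(i + d))) - κ) - σ * (T * b ^ (-(i + (d : ℤ)))) := by
      rw [zpow_add₀ hb0.ne', zpow_natCast]; ring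
    rw [e]
    refine (abs_sub _ _).trans ?_
    have h2 : |σ * (T * b ^ (-(i + (d : ℤ))))| ≤ (b⁻¹) ^ (7 * s) := by
      have hσ : |σ| = 1 := by rcases hD.sign with h | h <;> rw [h] <;> norm_num
      rw [abs_mul, hσ, one_mul, abs_of_pos (by positivity)]
      calc T * b ^ (-(i + (d : ℤ))) ≤ b ^ s * b ^ (-(i + (d : ℤ))) :=
            mul_le_mul_of_nonneg_right hD.le_pow (by positivity)
        _ = b ^ ((s : ℤ) + -(i + (d : ℤ))) := by rw [zpow_add₀ hb0.ne', zpow_natCast]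
        _ ≤ b ^ (-((7 * s : ℕ) : ℤ)) := by
            apply zpow_le_zpow_right₀ hb.le
            have : (10 * s : ℤ) ≤ d := by exact_mod_cast hd
            push_cast
            linarith
        _ = (b⁻¹) ^ (7 * s) := by rw [zpow_neg, zpow_natCast, inv_pow]
    unfold pert
    linarith
  have h3 := phi_near _ _ _ κ h1
  have h4 : phi (ς * (T * b ^ i)) = phi (T * b ^ i) := by
    rcases hς with h | h
    · rw [h, one_mul]
    · rw [h, neg_one_mul, phi_neg]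
  rw [h4] at h3
  have h5 := hD.lower i
  have h6 : 2 * Real.pi * pert b τ s ≤ phi (T * b ^ i) * (2 * Real.pi * pert b τ s / m) := by
    rw [mul_div_assoc', le_div_iff₀ hm]
    have := pert_nonneg (s := s) hb (tau_nonneg hD)
    have h7 : 0 ≤ 2 * Real.pi * pert b τ s := by positivity
    nlinarith
  nlinarith

lemma factor1 (hb : 1 < b) (hm : 0 < m) (hD : Crest.Agent.H9Salem.Datum b m T τ s σ) (ς : ℝ) (hς : ς = 1 ∨ ς = -1)
    (d : ℕ) (hd : 10 * s ≤ d) (i : ℤ) (hi : i ≤ 2 * s) :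
    phi (T * (b ^ d + ς) * b ^ (i - d)) ≤ phi (T * b ^ i) * (1 + 2 * Real.pi * pert b τ s / m) := by
  have hb0 : 0 < b := by linarith
  have hT0 : 0 < T := by linarith [hD.one_le]
  have hτ := tau_nonneg hD
  have h1 : |T * (b ^ d + ς) * b ^ (i - d) - T * b ^ i| ≤ pert b τ s := by
    have e : T * (b ^ d + ς) * b ^ (i - (d : ℤ)) - T * b ^ i = ς * (T * b ^ (i - (d : ℤ))) := by
      have : b ^ d * b ^ (i - (d : ℤ)) = b ^ i := by
        rw [← zpow_natCast, ← zpow_add₀ hb0.ne']; congr 1; ring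
      linear_combination T * this
    rw [e]
    have hς' : |ς| = 1 := by rcases hς with h | h <;> rw [h] <;> norm_num
    rw [abs_mul, hς', one_mul, abs_of_pos (by positivity)]
    have h2 : T * b ^ (i - (d : ℤ)) ≤ (b⁻¹) ^ (7 * s) := by
      calc T * b ^ (i - (d : ℤ)) ≤ b ^ s * b ^ (i - (d : ℤ)) :=
            mul_le_mul_of_nonneg_right hD.le_pow (by positivity)
        _ = b ^ ((s : ℤ) + (i - (d : ℤ))) := by rw [zpow_add₀ hb0.ne', zpow_natCast]
        _ ≤ b ^ (-((7 * s : ℕ) : ℤ)) := by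
            apply zpow_le_zpow_right₀ hb.le
            have : (10 * s : ℤ) ≤ d := by exact_mod_cast hd
            push_cast
            linarith
        _ = (b⁻¹) ^ (7 * s) := by rw [zpow_neg, zpow_natCast, inv_pow]
    unfold pert
    linarith
  have h3 := phi_lip _ _ _ h1
  have h5 := hD.lower i
  have h6 : 2 * Real.pi * pert b τ s ≤ phi (T * b ^ i) * (2 * Real.pi * pert b τ s / m) := by
    rw [mul_div_assoc', le_div_iff₀ hm]
    have := pert_nonneg (s := s) hb (tau_nonneg hD)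
    have h7 : 0 ≤ 2 * Real.pi * pert b τ s := by positivity
    nlinarith
  nlinarith

/-- the multiplicative error -/
noncomputable def fac (b m τ : ℝ) (s : ℕ) : ℝ :=
  ((1 + 2 * Real.pi * pert b τ s / m) ^ (4 * s)) ^ 2 / (1 - 2 * Real.pi * (b / (b - 1)) * (b⁻¹) ^ s) ^ 2

lemma F_pair (hb : 1 < b) (hm : 0 < m) (hD : Crest.Agent.H9Salem.Datum b m T τ s σ) (ς : ℝ) (hς : ς = 1 ∨ ς = -1)
    (hu : 0 < 1 - 2 * Real.pi * (b / (b - 1)) * (b⁻¹) ^ s)
    (d : ℕ) (hd : 10 * s ≤ d) (n : ℤ) (hn : 2 * s ≤ n) :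
    F b (T * (b ^ d + ς) * b ^ n) ≤ F b (T * b ^ (2 * s : ℤ)) ^ 2 * fac b m τ s := by
  have hb0 : 0 < b := by linarith
  have hT0 : 0 < T := by linarith [hD.one_le]
  have hp := pert_nonneg (s := s) hb (tau_nonneg hD)
  set T' := T * (b ^ d + ς) with hT'
  set a := F b (T * b ^ (2 * s : ℤ)) with ha
  set q := 1 + 2 * Real.pi * pert b τ s / m with hq
  have hq0 : 0 ≤ q := by positivity
  set Pr := ∏ i ∈ Finset.range (4 * s), phi (T * b ^ ((2 * s : ℤ) - (i : ℤ))) with hPr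
  have hPr0 : 0 ≤ Pr := Finset.prod_nonneg fun i _ => phi_nonneg _
  set u := 1 - 2 * Real.pi * (b / (b - 1)) * (b⁻¹) ^ s with hudef
  -- `a = Pr * F(T b^{-2s})`
  have ha1 : a = Pr * F b (T * b ^ ((2 * s : ℤ) - ((4 * s : ℕ) : ℤ))) := F_iter hb T (2 * s) (4 * s)
  have ha2 : u ≤ F b (T * b ^ ((2 * s : ℤ) - ((4 * s : ℕ) : ℤ))) := by
    refine le_trans ?_ ((ffacts hb).near_one _)
    rw [hudef]
    apply sub_le_sub_left
    have hb1 : 0 < b - 1 := by linarith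
    apply mul_le_mul_of_nonneg_left _ (by positivity)
    rw [abs_of_pos (by positivity)]
    calc T * b ^ ((2 * s : ℤ) - ((4 * s : ℕ) : ℤ)) ≤ b ^ s * b ^ ((2 * s : ℤ) - ((4 * s : ℕ) : ℤ)) :=
          mul_le_mul_of_nonneg_right hD.le_pow (by positivity)
      _ = b ^ ((s : ℤ) + ((2 * s : ℤ) - ((4 * s : ℕ) : ℤ))) := by rw [zpow_add₀ hb0.ne', zpow_natCast]
      _ = (b⁻¹) ^ s := by
          rw [inv_pow, ← zpow_natCast, ← zpow_neg]; congr 1; push_cast; ring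
  have ha3 : Pr ≤ a / u := by
    rw [le_div_iff₀ hu, ha1]
    exact mul_le_mul_of_nonneg_left ha2 hPr0
  -- the two blocks
  have hW2 : ∏ i ∈ Finset.range (4 * s), phi (T' * b ^ ((2 * s : ℤ) - (i : ℤ))) ≤ Pr * q ^ (4 * s) := by
    calc ∏ i ∈ Finset.range (4 * s), phi (T' * b ^ ((2 * s : ℤ) - (i : ℤ)))
        ≤ ∏ i ∈ Finset.range (4 * s), (phi (T * b ^ ((2 * s : ℤ) - (i : ℤ))) * q) := by
          apply Finset.prod_le_prod (fun i _ => phi_nonneg _)
          intro i hi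
          apply factor2 hb hm hD ς hς d hd
          have : i < 4 * s := Finset.mem_range.mp hi
          omega
      _ = Pr * q ^ (4 * s) := by
          rw [Finset.prod_mul_distrib, Finset.prod_const, Finset.card_range]
  have hW1 : ∏ i ∈ Finset.range (4 * s), phi (T' * b ^ ((2 * s : ℤ) - d - (i : ℤ))) ≤ Pr * q ^ (4 * s) := by
    calc ∏ i ∈ Finset.range (4 * s), phi (T' * b ^ ((2 * s : ℤ) - d - (i : ℤ)))
        ≤ ∏ i ∈ Finset.range (4 * s), (phi (T * b ^ ((2 * s : ℤ) - (i : ℤ))) * q) := by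
          apply Finset.prod_le_prod (fun i _ => phi_nonneg _)
          intro i hi
          have e : (2 * s : ℤ) - d - (i : ℤ) = ((2 * s : ℤ) - (i : ℤ)) - d := by ring
          rw [e]
          apply factor1 hb hm hD ς hς d hd
          omega
      _ = Pr * q ^ (4 * s) := by
          rw [Finset.prod_mul_distrib, Finset.prod_const, Finset.card_range]
  have hd' : (10 * s : ℤ) ≤ d := by exact_mod_cast hd
  calc F b (T' * b ^ n) ≤ F b (T' * b ^ (2 * s : ℤ)) := F_anti hb T' _ _ hn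
    _ = (∏ i ∈ Finset.range (4 * s), phi (T' * b ^ ((2 * s : ℤ) - (i : ℤ)))) *
        F b (T' * b ^ ((2 * s : ℤ) - ((4 * s : ℕ) : ℤ))) := F_iter hb T' (2 * s) (4 * s)
    _ ≤ (Pr * q ^ (4 * s)) * F b (T' * b ^ ((2 * s : ℤ) - d)) := by
        apply mul_le_mul hW2 _ (F_nonneg _ _) (by positivity)
        apply F_anti hb T'
        push_cast
        linarith
    _ = (Pr * q ^ (4 * s)) * ((∏ i ∈ Finset.range (4 * s), phi (T' * b ^ ((2 * s : ℤ) - d - (i : ℤ)))) *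
        F b (T' * b ^ ((2 * s : ℤ) - d - ((4 * s : ℕ) : ℤ)))) := by
        rw [← F_iter hb T' ((2 * s : ℤ) - d) (4 * s)]
    _ ≤ (Pr * q ^ (4 * s)) * ((Pr * q ^ (4 * s)) * 1) := by
        apply mul_le_mul_of_nonneg_left _ (by positivity)
        apply mul_le_mul hW1 (F_le_one hb _) (F_nonneg _ _) (by positivity)
    _ = Pr ^ 2 * (q ^ (4 * s)) ^ 2 := by ring
    _ ≤ (a / u) ^ 2 * (q ^ (4 * s)) ^ 2 := by gcongr
    _ = a ^ 2 * fac b m τ s := by
        unfold fac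
        rw [div_pow, ← hudef, ← hq]; ring

end Dat

end Crest.Agent.H12Salem
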