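import Mathlib
import Crest.Prelude.Def_BernoulliConv
import Crest.Agent.H9SalemDefs
import Crest.Agent.H12SalemF
import Crest.Agent.H12SalemB

set_option autoImplicit false

open MeasureTheory Crest.AnalysisR Filter Topology
open scoped ENNReal

namespace Crest.Agent.H12Salem

open Crest.Agent.H9Salem (phi nuHat F SalemSeq FFacts)

/-! ### mutual singularity from approximate separation -/

lemma mutuallySingular_of_approx {α : Type*} [MeasurableSpace α] (μ ν : Measure α)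
    (h : ∀ ε : ℝ≥0∞, 0 < ε → ∃ A, MeasurableSet A ∧ μ Aᶜ ≤ ε ∧ ν A ≤ ε) : μ.MutuallySingular ν := by
  have h2 : ∀ n : ℕ, (0 : ℝ≥0∞) < 2⁻¹ ^ (n + 1) := fun n => by
    apply ENNReal.pow_pos; simp
  choose A hA hμ hν using fun n : ℕ => h (2⁻¹ ^ (n + 1)) (h2 n)
  have hsum : ∑' n : ℕ, (2⁻¹ : ℝ≥0∞) ^ (n + 1) ≠ ⊤ := by
    rw [ENNReal.tsum_geometric_add_one]
    simp
  have h3 : ν (limsup A atTop) = 0 := by
    apply measure_limsup_atTop_eq_zero
    exact ne_top_of_le_ne_top hsum (ENNReal.tsum_le_tsum hν)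
  have h4 : μ (limsup (fun n => (A n)ᶜ) atTop) = 0 := by
    apply measure_limsup_atTop_eq_zero
    exact ne_top_of_le_ne_top hsum (ENNReal.tsum_le_tsum hμ)
  refine ⟨(limsup A atTop)ᶜ, (MeasurableSet.measurableSet_limsup hA).compl, ?_, ?_⟩
  · refine measure_mono_null ?_ h4
    rw [Filter.limsup_compl]
    exact liminf_le_limsup
  · rw [compl_compl]; exact h3

/-! ### second moments -/

/-- cosine transform -/
noncomputable def Ct (μ : Measure ℝ) (ξ : ℝ) : ℝ := ∫ x, Real.cos (2 * Real.pi * ξ * x) ∂μ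

/-- trigonometric sum -/
noncomputable def Y (N : ℕ) (ξ c : ℕ → ℝ) (x : ℝ) : ℝ :=
  ∑ n ∈ Finset.range N, c n * Real.cos (2 * Real.pi * ξ n * x)

lemma continuous_Y (N : ℕ) (ξ c : ℕ → ℝ) : Continuous (Y N ξ c) := by
  unfold Y; fun_prop

lemma integrable_cos (μ : Measure ℝ) [IsFiniteMeasure μ] (ξ : ℝ) :
    Integrable (fun x => Real.cos (2 * Real.pi * ξ * x)) μ := by
  apply Integrable.of_bound (by fun_prop) 1
  exact Eventually.of_forall fun ε => Real.abs_cos_le_one _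

lemma Y_sq (N : ℕ) (ξ c : ℕ → ℝ) (A x : ℝ) : (Y N ξ c x - A) ^ 2 =
    ∑ n ∈ Finset.range N, ∑ m ∈ Finset.range N, (c n * c m / 2) *
      (Real.cos (2 * Real.pi * (ξ n + ξ m) * x) + Real.cos (2 * Real.pi * (ξ n - ξ m) * x)) -
    2 * A * ∑ n ∈ Finset.range N, c n * Real.cos (2 * Real.pi * ξ n * x) + A ^ 2 := by
  have h1 : (Y N ξ c x) * (Y N ξ c x) = ∑ n ∈ Finset.range N, ∑ m ∈ Finset.range N, (c n * c m / 2) *
      (Real.cos (2 * Real.pi * (ξ n + ξ m) * x) + Real.cos (2 * Real.pi * (ξ n - ξ m) * x)) := by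
    unfold Y
    rw [Finset.sum_mul_sum]
    apply Finset.sum_congr rfl
    intro n _
    apply Finset.sum_congr rfl
    intro m _
    have e1 : 2 * Real.pi * (ξ n + ξ m) * x = 2 * Real.pi * ξ n * x + 2 * Real.pi * ξ m * x := by ring
    have e2 : 2 * Real.pi * (ξ n - ξ m) * x = 2 * Real.pi * ξ n * x - 2 * Real.pi * ξ m * x := by ring
    rw [e1, e2, Real.cos_add, Real.cos_sub]
    ring
  rw [← h1]
  have h2 : ∑ n ∈ Finset.range N, c n * Real.cos (2 * Real.pi * ξ n * x) = Y N ξ c x := rfl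
  rw [h2]; ring

lemma second_moment (μ : Measure ℝ) [IsFiniteMeasure μ] (N : ℕ) (ξ c : ℕ → ℝ) (A : ℝ) :
    ∫ x, (Y N ξ c x - A) ^ 2 ∂μ =
    ∑ n ∈ Finset.range N, ∑ m ∈ Finset.range N, (c n * c m / 2) * (Ct μ (ξ n + ξ m) + Ct μ (ξ n - ξ m)) -
    2 * A * ∑ n ∈ Finset.range N, c n * Ct μ (ξ n) + A ^ 2 * μ.real Set.univ := by
  simp_rw [Y_sq]
  have hI := integrable_cos μ
  have hI2 : ∀ n m, Integrable (fun x => (c n * c m / 2) *
      (Real.cos (2 * Real.pi * (ξ n + ξ m) * x) + Real.cos (2 * Real.pi * (ξ n - ξ m) * x))) μ :=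
    fun n m => ((hI _).add (hI _)).const_mul _
  have hI3 : ∀ n, Integrable (fun x => ∑ m ∈ Finset.range N, (c n * c m / 2) *
      (Real.cos (2 * Real.pi * (ξ n + ξ m) * x) + Real.cos (2 * Real.pi * (ξ n - ξ m) * x))) μ :=
    fun n => integrable_finsetSum _ fun m _ => hI2 n m
  have i1 : Integrable (fun x => ∑ n ∈ Finset.range N, ∑ m ∈ Finset.range N, (c n * c m / 2) *
      (Real.cos (2 * Real.pi * (ξ n + ξ m) * x) + Real.cos (2 * Real.pi * (ξ n - ξ m) * x))) μ :=
    integrable_finsetSum _ fun n _ => hI3 n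
  have i2 : Integrable (fun x => ∑ n ∈ Finset.range N, c n * Real.cos (2 * Real.pi * ξ n * x)) μ :=
    integrable_finsetSum _ fun n _ => (hI _).const_mul _
  have i3 : Integrable (fun x => ∑ n ∈ Finset.range N, ∑ m ∈ Finset.range N, (c n * c m / 2) *
      (Real.cos (2 * Real.pi * (ξ n + ξ m) * x) + Real.cos (2 * Real.pi * (ξ n - ξ m) * x)) -
      2 * A * ∑ n ∈ Finset.range N, c n * Real.cos (2 * Real.pi * ξ n * x)) μ := i1.sub (i2.const_mul _)
  rw [integral_add i3 (integrable_const _), integral_sub i1 (i2.const_mul _),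
    integral_const_mul, integral_const, smul_eq_mul]
  rw [integral_finsetSum _ (fun n _ => hI3 n)]
  rw [integral_finsetSum _ (fun n _ => (hI _).const_mul _)]
  have e1 : ∀ n, ∫ x, ∑ m ∈ Finset.range N, (c n * c m / 2) *
      (Real.cos (2 * Real.pi * (ξ n + ξ m) * x) + Real.cos (2 * Real.pi * (ξ n - ξ m) * x)) ∂μ =
      ∑ m ∈ Finset.range N, (c n * c m / 2) * (Ct μ (ξ n + ξ m) + Ct μ (ξ n - ξ m)) := by
    intro n
    rw [integral_finsetSum _ (fun m _ => hI2 n m)]
    apply Finset.sum_congr rfl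
    intro m _
    rw [integral_const_mul, integral_add (hI _) (hI _)]
    rfl
  simp_rw [e1]
  have e2 : ∀ n, ∫ x, c n * Real.cos (2 * Real.pi * ξ n * x) ∂μ = c n * Ct μ (ξ n) := by
    intro n; rw [integral_const_mul]; rfl
  simp_rw [e2]
  ring

lemma card_near (N d0 n : ℕ) :
    ((Finset.range N).filter (fun m => m < n + d0 ∧ n < m + d0)).card ≤ 2 * d0 := by
  have h : (Finset.range N).filter (fun m => m < n + d0 ∧ n < m + d0) ⊆ Finset.Ico (n + 1 - d0) (n + d0) := by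
    intro m hm
    rw [Finset.mem_filter] at hm
    rw [Finset.mem_Ico]
    omega
  refine (Finset.card_le_card h).trans ?_
  rw [Nat.card_Ico]
  omega

lemma pair_sum_le (N d0 : ℕ) (B : ℝ) (hB : 0 ≤ B) (g : ℕ → ℕ → ℝ) (h1 : ∀ n m, g n m ≤ 1)
    (h2 : ∀ n m, m + d0 ≤ n → g n m ≤ B) (h3 : ∀ n m, n + d0 ≤ m → g n m ≤ B) :
    ∑ n ∈ Finset.range N, ∑ m ∈ Finset.range N, g n m ≤ (N : ℝ) ^ 2 * B + 2 * d0 * N := by
  have hrow : ∀ n, ∑ m ∈ Finset.range N, g n m ≤ N * B + 2 * d0 := by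
    intro n
    calc ∑ m ∈ Finset.range N, g n m ≤ ∑ m ∈ Finset.range N, (B + if (m < n + d0 ∧ n < m + d0) then 1 else 0) := by
          apply Finset.sum_le_sum
          intro m _
          split_ifs with h
          · linarith [h1 n m]
          · rw [add_zero]
            by_cases hm : m < n + d0
            · exact h2 n m (by by_contra hc; exact h ⟨hm, by omega⟩)
            · exact h3 n m (by omega)
      _ = N * B + ((Finset.range N).filter (fun m => m < n + d0 ∧ n < m + d0)).card := by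
          rw [Finset.sum_add_distrib, Finset.sum_const, Finset.card_range, nsmul_eq_mul, Finset.sum_boole]
      _ ≤ N * B + 2 * d0 := by
          have := card_near N d0 n
          have h4 : (((Finset.range N).filter (fun m => m < n + d0 ∧ n < m + d0)).card : ℝ) ≤ 2 * d0 := by
            exact_mod_cast this
          linarith
  calc ∑ n ∈ Finset.range N, ∑ m ∈ Finset.range N, g n m ≤ ∑ n ∈ Finset.range N, (N * B + 2 * d0) :=
        Finset.sum_le_sum fun n _ => hrow n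
    _ = (N : ℝ) ^ 2 * B + 2 * d0 * N := by
        rw [Finset.sum_const, Finset.card_range, nsmul_eq_mul]; ring

lemma row_geom (r : ℝ) (hr0 : 0 ≤ r) (hr1 : r < 1) (N n : ℕ) :
    ∑ m ∈ Finset.range N, r ^ ((n - m) + (m - n)) ≤ 2 * (1 - r)⁻¹ := by
  rw [← Finset.sum_filter_add_sum_filter_not (Finset.range N) (fun m => m ≤ n)]
  have h1 : ∑ m ∈ (Finset.range N).filter (fun m => m ≤ n), r ^ ((n - m) + (m - n)) ≤ (1 - r)⁻¹ := by
    apply geom_le r hr0 hr1
    intro x hx y hy hxy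
    simp only [Finset.coe_filter, Finset.mem_range, Set.mem_ofPred_eq] at hx hy
    simp only at hxy
    omega
  have h2 : ∑ m ∈ (Finset.range N).filter (fun m => ¬ m ≤ n), r ^ ((n - m) + (m - n)) ≤ (1 - r)⁻¹ := by
    apply geom_le r hr0 hr1
    intro x hx y hy hxy
    simp only [Finset.coe_filter, Finset.mem_range, Set.mem_ofPred_eq] at hx hy
    simp only at hxy
    omega
  linarith

/-! ### Lebesgue measure on an interval -/

/-- Lebesgue measure on `[-R, R]` -/
noncomputable abbrev leb (R : ℝ) : Measure ℝ := volume.restrict (Set.Icc (-R) R)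

lemma Ct_leb_le (R : ℝ) (hR : 0 ≤ R) (ξ : ℝ) : |Ct (leb R) ξ| ≤ 2 * R := by
  unfold Ct
  have h := norm_integral_le_of_norm_le_const (μ := leb R) (f := fun x => Real.cos (2 * Real.pi * ξ * x)) (C := 1)
    (Eventually.of_forall fun x => Real.abs_cos_le_one _)
  have h2 : (leb R).real Set.univ = 2 * R := by
    rw [measureReal_restrict_apply_univ, Real.volume_real_Icc_of_le (by linarith)]; ring
  rw [h2, one_mul] at h
  exact h

lemma Ct_leb_inv (R : ℝ) (hR : 0 ≤ R) (ξ : ℝ) (hξ : 0 < ξ) : |Ct (leb R) ξ| ≤ 1 / ξ := by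
  unfold Ct
  rw [integral_Icc_eq_integral_Ioc, ← intervalIntegral.integral_of_le (by linarith)]
  have hc : (2 * Real.pi * ξ) ≠ 0 := by positivity
  have h1 : ∫ x in (-R)..R, Real.cos (2 * Real.pi * ξ * x) =
      (2 * Real.pi * ξ)⁻¹ * (Real.sin (2 * Real.pi * ξ * R) - Real.sin (2 * Real.pi * ξ * (-R))) := by
    rw [intervalIntegral.integral_comp_mul_left (fun x => Real.cos x) hc, integral_cos, smul_eq_mul]
  rw [h1, abs_mul, abs_of_pos (by positivity)]
  have h2 : |Real.sin (2 * Real.pi * ξ * R) - Real.sin (2 * Real.pi * ξ * (-R))| ≤ 2 := by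
    rw [abs_le]
    have a1 := Real.sin_le_one (2 * Real.pi * ξ * R)
    have a2 := Real.neg_one_le_sin (2 * Real.pi * ξ * R)
    have a3 := Real.sin_le_one (2 * Real.pi * ξ * (-R))
    have a4 := Real.neg_one_le_sin (2 * Real.pi * ξ * (-R))
    constructor <;> linarith
  calc (2 * Real.pi * ξ)⁻¹ * |Real.sin (2 * Real.pi * ξ * R) - Real.sin (2 * Real.pi * ξ * (-R))|
      ≤ (2 * Real.pi * ξ)⁻¹ * 2 := by gcongr
    _ = 1 / (Real.pi * ξ) := by field_simp
    _ ≤ 1 / ξ := by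
        apply one_div_le_one_div_of_le hξ
        have : 1 ≤ Real.pi := by linarith [Real.pi_gt_three]
        nlinarith

lemma Ct_neg (μ : Measure ℝ) (ξ : ℝ) : Ct μ (-ξ) = Ct μ ξ := by
  unfold Ct
  congr 1
  funext x
  rw [mul_neg, neg_mul, Real.cos_neg]

lemma Ct_leb_inv' (R : ℝ) (hR : 0 ≤ R) (ξ : ℝ) (hξ : ξ ≠ 0) : |Ct (leb R) ξ| ≤ 1 / |ξ| := by
  rcases lt_or_gt_of_ne hξ with h | h
  · rw [← Ct_neg, abs_of_neg h]; exact Ct_leb_inv R hR _ (by linarith)
  · rw [abs_of_pos h]; exact Ct_leb_inv R hR ξ h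

end Crest.Agent.H12Salem
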