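import Mathlib
import Crest.Prelude.Def_BernoulliConv
import Crest.Agent.H9SalemDefs
import Crest.Agent.H12SalemF
import Crest.Agent.H12SalemB
import Crest.Agent.H12SalemC

set_option autoImplicit false

open MeasureTheory Crest.AnalysisR Filter Topology
open scoped ENNReal

namespace Crest.Agent.H12Salem

open Crest.Agent.H9Salem (phi nuHat F SalemSeq FFacts)

section Dat

variable {b m T τ σ : ℝ} {s : ℕ}

/-- the frequencies -/
noncomputable def fr (b T : ℝ) (s : ℕ) (n : ℕ) : ℝ := T * b ^ ((2 * s : ℤ) + n)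

/-- the signs -/
noncomputable def sg (b T : ℝ) (s : ℕ) (n : ℕ) : ℝ := if 0 ≤ nuHat b (fr b T s n) then 1 else -1

lemma sg_mul (b T : ℝ) (s n : ℕ) : sg b T s n * nuHat b (fr b T s n) = F b (fr b T s n) := by
  unfold sg F
  split_ifs with h
  · rw [one_mul, abs_of_nonneg h]
  · rw [abs_of_neg (not_le.mp h)]; ring

lemma abs_sg (b T : ℝ) (s n : ℕ) : |sg b T s n| = 1 := by
  unfold sg; split_ifs <;> norm_num

lemma fr_add_sub (hb : 1 < b) (n m : ℕ) (h : m ≤ n) (ς : ℝ) :
    fr b T s n + ς * fr b T s m = T * (b ^ (n - m) + ς) * b ^ ((2 * s : ℤ) + m) := by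
  have hb0 : b ≠ 0 := by positivity
  unfold fr
  have e : ((2 * s : ℤ) + n) = ((n - m : ℕ) : ℤ) + ((2 * s : ℤ) + m) := by
    rw [Nat.cast_sub h]; ring
  rw [e, zpow_add₀ hb0 ((n - m : ℕ) : ℤ), zpow_natCast]; ring

lemma fr_gap (hb : 1 < b) (hT : 1 ≤ T) (n m : ℕ) (h : m < n) :
    (1 - b⁻¹) * b ^ (n - m) ≤ fr b T s n - fr b T s m := by
  have hb0 : 0 < b := by positivity
  have h1 := fr_add_sub (T := T) (s := s) hb n m h.le (-1)
  have h2 : fr b T s n - fr b T s m = T * (b ^ (n - m) + -1) * b ^ ((2 * s : ℤ) + m) := by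
    rw [← h1]; ring
  rw [h2]
  have h3 : (1 : ℝ) ≤ b ^ ((2 * s : ℤ) + m) := by
    apply one_le_zpow₀ hb.le; positivity
  have h4 : (1 - b⁻¹) * b ^ (n - m) ≤ b ^ (n - m) + -1 := by
    have h5 : b⁻¹ * b ^ (n - m) = b ^ (n - m - 1) := by
      obtain ⟨k, hk⟩ : ∃ k, n - m = k + 1 := ⟨n - m - 1, by omega⟩
      rw [hk, pow_succ, Nat.add_sub_cancel]; field_simp
    have h6 : (1 : ℝ) ≤ b ^ (n - m - 1) := one_le_pow₀ hb.le
    rw [sub_mul, h5]; linarith
  have h7 : 0 ≤ b ^ (n - m) + -1 := by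
    have : (1 : ℝ) ≤ b ^ (n - m) := one_le_pow₀ hb.le
    linarith
  calc (1 - b⁻¹) * b ^ (n - m) ≤ b ^ (n - m) + -1 := h4
    _ ≤ T * (b ^ (n - m) + -1) := le_mul_of_one_le_left h7 hT
    _ ≤ T * (b ^ (n - m) + -1) * b ^ ((2 * s : ℤ) + m) := le_mul_of_one_le_right (by positivity) h3

lemma fr_pos (hb : 1 < b) (hT : 1 ≤ T) (n : ℕ) : 0 < fr b T s n := by
  unfold fr; positivity

/-- second moment w.r.t. the Bernoulli convolution -/
lemma moment_nu (hb : 1 < b) (hm : 0 < m) (hD : Crest.Agent.H9Salem.Datum b m T τ s σ)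
    (hu : 0 < 1 - 2 * Real.pi * (b / (b - 1)) * (b⁻¹) ^ s) (N : ℕ) (a : ℝ) (ha : a = F b (T * b ^ (2 * s : ℤ))) :
    ∫ x, (Y N (fr b T s) (sg b T s) x - N * a) ^ 2 ∂(bernoulliConvolution b⁻¹) ≤
      20 * s * N + (N : ℝ) ^ 2 * a ^ 2 * (fac b m τ s - 1 + 2 * err1 b τ s N) := by
  have hprob := prob (inv_nonneg' hb) (inv_lt_one' hb)
  rw [second_moment]
  have hC : ∀ ξ, Ct (bernoulliConvolution b⁻¹) ξ = nuHat b ξ := fun ξ => rfl
  simp_rw [hC]
  have ha0 : 0 ≤ a := by rw [ha]; exact F_nonneg _ _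
  have hfac0 : 0 ≤ fac b m τ s := by unfold fac; positivity
  -- the pair sum
  have hpair : ∀ n m' : ℕ, m' + 10 * s ≤ n → ∀ ς : ℝ, (ς = 1 ∨ ς = -1) →
      F b (fr b T s n + ς * fr b T s m') ≤ a ^ 2 * fac b m τ s := by
    intro n m' h ς hς
    rw [fr_add_sub hb n m' (by omega) ς, ha]
    apply F_pair hb hm hD ς hς hu (n - m') (by omega)
    have : (0 : ℤ) ≤ (m' : ℤ) := by positivity
    linarith
  have hg : ∀ n m' : ℕ, sg b T s n * sg b T s m' / 2 * (nuHat b (fr b T s n + fr b T s m') +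
      nuHat b (fr b T s n - fr b T s m')) ≤
      (F b (fr b T s n + fr b T s m') + F b (fr b T s n - fr b T s m')) / 2 := by
    intro n m'
    have h1 : |sg b T s n * sg b T s m' / 2 * (nuHat b (fr b T s n + fr b T s m') +
      nuHat b (fr b T s n - fr b T s m'))| ≤
      (F b (fr b T s n + fr b T s m') + F b (fr b T s n - fr b T s m')) / 2 := by
      rw [abs_mul, abs_div, abs_mul, abs_sg, abs_sg]
      have h2 := abs_add_le (nuHat b (fr b T s n + fr b T s m')) (nuHat b (fr b T s n - fr b T s m'))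
      have h3 : |(2:ℝ)| = 2 := by norm_num
      rw [h3]
      unfold F
      linarith
    exact (le_abs_self _).trans h1
  have hsum := pair_sum_le N (10 * s) (a ^ 2 * fac b m τ s) (by positivity)
    (fun n m' => sg b T s n * sg b T s m' / 2 * (nuHat b (fr b T s n + fr b T s m') +
      nuHat b (fr b T s n - fr b T s m')))
    (fun n m' => (hg n m').trans (by
      have := F_le_one hb (fr b T s n + fr b T s m')
      have := F_le_one hb (fr b T s n - fr b T s m')
      linarith))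
    (fun n m' h => (hg n m').trans (by
      have h1 := hpair n m' h 1 (Or.inl rfl)
      have h2 := hpair n m' h (-1) (Or.inr rfl)
      rw [one_mul] at h1
      rw [neg_one_mul, ← sub_eq_add_neg] at h2
      linarith))
    (fun n m' h => (hg n m').trans (by
      have h1 := hpair m' n h 1 (Or.inl rfl)
      have h2 := hpair m' n h (-1) (Or.inr rfl)
      rw [one_mul, add_comm] at h1
      rw [neg_one_mul, ← sub_eq_add_neg, ← neg_sub, F_neg] at h2
      linarith))
  -- the linear term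
  have hlin : (N : ℝ) * (a * (1 - err1 b τ s N)) ≤ ∑ n ∈ Finset.range N, sg b T s n * nuHat b (fr b T s n) := by
    have h1 : ∀ n ∈ Finset.range N, a * (1 - err1 b τ s N) ≤ sg b T s n * nuHat b (fr b T s n) := by
      intro n hn
      rw [sg_mul, ha]
      exact F_orbit hb hD n N (Finset.mem_range.mp hn).le
    have h2 := Finset.sum_le_sum h1
    rw [Finset.sum_const, Finset.card_range, nsmul_eq_mul] at h2
    exact h2
  have hNa : 0 ≤ 2 * (N * a) := by positivity
  have h3 := mul_le_mul_of_nonneg_left hlin hNa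
  have h4 : (bernoulliConvolution b⁻¹).real Set.univ = 1 := by simp
  rw [h4]
  push_cast at hsum
  nlinarith [hsum, h3]

/-- second moment w.r.t. Lebesgue measure -/
lemma moment_leb (hb : 1 < b) (hT : 1 ≤ T) (R : ℝ) (hR : 0 ≤ R) (N : ℕ) :
    ∫ x, (Y N (fr b T s) (sg b T s) x) ^ 2 ∂(leb R) ≤ N * (2 * R + 2 * (1 - b⁻¹)⁻¹ * (1 - b⁻¹)⁻¹) := by
  have h0 := second_moment (leb R) N (fr b T s) (sg b T s) 0
  simp only [sub_zero, mul_zero, zero_mul, ne_eq, OfNat.ofNat_ne_zero, not_false_eq_true, zero_pow, add_zero] at h0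
  rw [h0]
  have hr0 : 0 ≤ b⁻¹ := by positivity
  have hr1 : b⁻¹ < 1 := inv_lt_one_of_one_lt₀ hb
  have h1r : 0 < 1 - b⁻¹ := by linarith
  -- off-diagonal bound
  have hoff : ∀ n m' : ℕ, m' < n → ∀ ξ : ℝ, fr b T s n - fr b T s m' ≤ |ξ| →
      |Ct (leb R) ξ| ≤ (1 - b⁻¹)⁻¹ * (b⁻¹) ^ (n - m') := by
    intro n m' h ξ hξ
    have hgap := fr_gap (T := T) (s := s) hb hT n m' h
    have hpos : 0 < (1 - b⁻¹) * b ^ (n - m') := by positivity
    have hξ0 : ξ ≠ 0 := by
      intro hh; rw [hh, abs_zero] at hξ; linarith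
    refine (Ct_leb_inv' R hR ξ hξ0).trans ?_
    have e : (1 - b⁻¹)⁻¹ * (b⁻¹) ^ (n - m') = 1 / ((1 - b⁻¹) * b ^ (n - m')) := by
      rw [one_div, mul_inv, inv_pow]
    rw [e]
    exact one_div_le_one_div_of_le hpos (hgap.trans hξ)
  have hg : ∀ n m' : ℕ, sg b T s n * sg b T s m' / 2 * (Ct (leb R) (fr b T s n + fr b T s m') +
      Ct (leb R) (fr b T s n - fr b T s m')) ≤
      (|Ct (leb R) (fr b T s n + fr b T s m')| + |Ct (leb R) (fr b T s n - fr b T s m')|) / 2 := by
    intro n m'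
    have h1 : |sg b T s n * sg b T s m' / 2 * (Ct (leb R) (fr b T s n + fr b T s m') +
      Ct (leb R) (fr b T s n - fr b T s m'))| ≤
      (|Ct (leb R) (fr b T s n + fr b T s m')| + |Ct (leb R) (fr b T s n - fr b T s m')|) / 2 := by
      rw [abs_mul, abs_div, abs_mul, abs_sg, abs_sg]
      have h2 := abs_add_le (Ct (leb R) (fr b T s n + fr b T s m')) (Ct (leb R) (fr b T s n - fr b T s m'))
      have h3 : |(2:ℝ)| = 2 := by norm_num
      rw [h3]
      linarith
    exact (le_abs_self _).trans h1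
  have hpair : ∀ n m' : ℕ, sg b T s n * sg b T s m' / 2 * (Ct (leb R) (fr b T s n + fr b T s m') +
      Ct (leb R) (fr b T s n - fr b T s m')) ≤
      (if m' = n then 2 * R else 0) + (1 - b⁻¹)⁻¹ * (b⁻¹) ^ ((n - m') + (m' - n)) := by
    intro n m'
    refine (hg n m').trans ?_
    rcases lt_trichotomy m' n with h | h | h
    · rw [if_neg h.ne, zero_add]
      have e : (n - m') + (m' - n) = n - m' := by omega
      rw [e]
      have p1 := fr_pos (T := T) (s := s) hb hT n
      have p2 := fr_pos (T := T) (s := s) hb hT m'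
      have h1 := hoff n m' h (fr b T s n + fr b T s m') (by
        rw [abs_of_pos (by linarith)]; linarith)
      have h2 := hoff n m' h (fr b T s n - fr b T s m') (le_abs_self _)
      linarith
    · rw [if_pos h, h]
      have h1 := Ct_leb_le R hR (fr b T s n + fr b T s n)
      have h2 := Ct_leb_le R hR (fr b T s n - fr b T s n)
      have h3 : 0 ≤ (1 - b⁻¹)⁻¹ * (b⁻¹) ^ ((n - n) + (n - n)) := by positivity
      linarith
    · rw [if_neg h.ne', zero_add]
      have e : (n - m') + (m' - n) = m' - n := by omega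
      rw [e]
      have p1 := fr_pos (T := T) (s := s) hb hT n
      have p2 := fr_pos (T := T) (s := s) hb hT m'
      have h1 := hoff m' n h (fr b T s n + fr b T s m') (by
        rw [abs_of_pos (by linarith)]; linarith)
      have h2 := hoff m' n h (fr b T s n - fr b T s m') (by
        rw [abs_sub_comm]; exact le_abs_self _)
      linarith
  calc ∑ n ∈ Finset.range N, ∑ m' ∈ Finset.range N, sg b T s n * sg b T s m' / 2 *
        (Ct (leb R) (fr b T s n + fr b T s m') + Ct (leb R) (fr b T s n - fr b T s m'))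
      ≤ ∑ n ∈ Finset.range N, ∑ m' ∈ Finset.range N,
        ((if m' = n then 2 * R else 0) + (1 - b⁻¹)⁻¹ * (b⁻¹) ^ ((n - m') + (m' - n))) :=
        Finset.sum_le_sum fun n _ => Finset.sum_le_sum fun m' _ => hpair n m'
    _ ≤ ∑ n ∈ Finset.range N, (2 * R + 2 * (1 - b⁻¹)⁻¹ * (1 - b⁻¹)⁻¹) := by
        apply Finset.sum_le_sum
        intro n hn
        rw [Finset.sum_add_distrib, Finset.sum_ite_eq' , if_pos hn, ← Finset.mul_sum]
        have h1 := row_geom b⁻¹ hr0 hr1 N n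
        have h2 : (1 - b⁻¹)⁻¹ * ∑ m' ∈ Finset.range N, (b⁻¹) ^ ((n - m') + (m' - n)) ≤
            (1 - b⁻¹)⁻¹ * (2 * (1 - b⁻¹)⁻¹) := by gcongr
        linarith
    _ = N * (2 * R + 2 * (1 - b⁻¹)⁻¹ * (1 - b⁻¹)⁻¹) := by
        rw [Finset.sum_const, Finset.card_range, nsmul_eq_mul]

/-- the separating set of one datum -/
lemma single (hb : 1 < b) (hm : 0 < m) (hD : Crest.Agent.H9Salem.Datum b m T τ s σ)
    (hu : 0 < 1 - 2 * Real.pi * (b / (b - 1)) * (b⁻¹) ^ s) (N : ℕ) (a : ℝ) (ha : a = F b (T * b ^ (2 * s : ℤ)))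
    (hNa : 0 < (N : ℝ) * a ^ 2) :
    ∃ A : Set ℝ, MeasurableSet A ∧
      bernoulliConvolution b⁻¹ Aᶜ ≤
        ENNReal.ofReal (80 * (s / (N * a ^ 2)) + 4 * (fac b m τ s - 1 + 2 * err1 b τ s N)) ∧
      volume A ≤ ENNReal.ofReal (4 * (2 * (1 - b⁻¹)⁻¹ + 2 * (1 - b⁻¹)⁻¹ * (1 - b⁻¹)⁻¹) * (N * a ^ 2)⁻¹) := by
  have hprob := prob (inv_nonneg' hb) (inv_lt_one' hb)
  have ha0 : 0 ≤ a := by rw [ha]; exact F_nonneg _ _
  have hN0 : 0 < (N : ℝ) := by
    rcases Nat.eq_zero_or_pos N with h | h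
    · rw [h] at hNa; simp at hNa
    · exact_mod_cast h
  have ha1 : 0 < a := by
    rcases ha0.lt_or_eq with h | h
    · exact h
    · rw [← h] at hNa; simp at hNa
  have hr1 : b⁻¹ < 1 := inv_lt_one_of_one_lt₀ hb
  set R := (1 - b⁻¹)⁻¹ with hR
  have hR0 : 0 ≤ R := by rw [hR]; have : 0 < 1 - b⁻¹ := by linarith
                         positivity
  have hcY := continuous_Y N (fr b T s) (sg b T s)
  set Yf := Y N (fr b T s) (sg b T s) with hYf
  have hY2 : MeasurableSet {x | N * a / 2 ≤ Yf x} := (isClosed_le continuous_const hcY).measurableSet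
  refine ⟨Set.Icc (-R) R ∩ {x | N * a / 2 ≤ Yf x}, measurableSet_Icc.inter hY2, ?_, ?_⟩
  · have h1 : bernoulliConvolution b⁻¹ (Set.Icc (-R) R ∩ {x | N * a / 2 ≤ Yf x})ᶜ ≤
        bernoulliConvolution b⁻¹ {x | (N * a / 2) ^ 2 ≤ (Yf x - N * a) ^ 2} := by
      apply measure_mono_ae
      filter_upwards [ae_le (inv_nonneg' hb) (inv_lt_one' hb)] with x hx hxc
      have hx1 : x ∈ Set.Icc (-R) R := abs_le.mp hx
      have hx2 : ¬ (N * a / 2 ≤ Yf x) := fun h => hxc ⟨hx1, h⟩
      push Not at hx2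
      show (N * a / 2) ^ 2 ≤ (Yf x - N * a) ^ 2
      have h2 : 0 ≤ N * a / 2 := by positivity
      have h3 : N * a / 2 ≤ N * a - Yf x := by linarith
      have h4 := pow_le_pow_left₀ h2 h3 2
      have h5 : (N * a - Yf x) ^ 2 = (Yf x - N * a) ^ 2 := by ring
      rwa [h5] at h4
    refine h1.trans ?_
    have hint : Integrable (fun x => (Yf x - N * a) ^ 2) (bernoulliConvolution b⁻¹) := by
      have hbd : ∀ x, |Yf x| ≤ N := by
        intro x
        rw [hYf]
        unfold Y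
        refine (Finset.abs_sum_le_sum_abs _ _).trans ?_
        calc ∑ n ∈ Finset.range N, |sg b T s n * Real.cos (2 * Real.pi * fr b T s n * x)| ≤
            ∑ n ∈ Finset.range N, (1 : ℝ) := by
              apply Finset.sum_le_sum
              intro n _
              rw [abs_mul, abs_sg, one_mul]
              exact Real.abs_cos_le_one _
          _ = N := by simp
      apply Integrable.of_bound (by fun_prop) ((N + N * a) ^ 2)
      refine Eventually.of_forall fun x => ?_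
      rw [Real.norm_eq_abs, abs_of_nonneg (sq_nonneg _), ← sq_abs]
      apply pow_le_pow_left₀ (abs_nonneg _)
      refine (abs_sub _ _).trans ?_
      have := hbd x
      rw [abs_of_nonneg (by positivity : (0:ℝ) ≤ N * a)]
      linarith
    have hmark := mul_meas_ge_le_integral_of_nonneg (μ := bernoulliConvolution b⁻¹)
      (f := fun x => (Yf x - N * a) ^ 2) (Eventually.of_forall fun x => sq_nonneg _) hint ((N * a / 2) ^ 2)
    have hmom := moment_nu hb hm hD hu N a ha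
    have hpos : 0 < (N * a / 2) ^ 2 := by positivity
    have h6 : (bernoulliConvolution b⁻¹).real {x | (N * a / 2) ^ 2 ≤ (Yf x - N * a) ^ 2} ≤
        80 * (s / (N * a ^ 2)) + 4 * (fac b m τ s - 1 + 2 * err1 b τ s N) := by
      have h7 : (bernoulliConvolution b⁻¹).real {x | (N * a / 2) ^ 2 ≤ (Yf x - N * a) ^ 2} ≤
          (20 * s * N + (N : ℝ) ^ 2 * a ^ 2 * (fac b m τ s - 1 + 2 * err1 b τ s N)) / (N * a / 2) ^ 2 := by
        rw [le_div_iff₀ hpos, mul_comm]
        exact hmark.trans hmom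
      refine h7.trans (le_of_eq ?_)
      field_simp
      ring
    rw [← ENNReal.ofReal_toReal (measure_ne_top (bernoulliConvolution b⁻¹) _)]
    exact ENNReal.ofReal_le_ofReal h6
  · have hint : Integrable (fun x => (Yf x) ^ 2) (leb R) := by
      apply Continuous.integrableOn_Icc; fun_prop
    have hmark := mul_meas_ge_le_integral_of_nonneg (μ := leb R)
      (f := fun x => (Yf x) ^ 2) (Eventually.of_forall fun x => sq_nonneg _) hint ((N * a / 2) ^ 2)
    have hmom := moment_leb (s := s) hb hD.one_le R hR0 N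
    have hpos : 0 < (N * a / 2) ^ 2 := by positivity
    have h1 : volume (Set.Icc (-R) R ∩ {x | N * a / 2 ≤ Yf x}) ≤ leb R {x | (N * a / 2) ^ 2 ≤ (Yf x) ^ 2} := by
      rw [Set.inter_comm, ← Measure.restrict_apply hY2]
      apply measure_mono
      intro x hx
      have hx' : N * a / 2 ≤ Yf x := hx
      show (N * a / 2) ^ 2 ≤ (Yf x) ^ 2
      exact pow_le_pow_left₀ (by positivity) hx' 2
    refine h1.trans ?_
    have h6 : (leb R).real {x | (N * a / 2) ^ 2 ≤ (Yf x) ^ 2} ≤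
        4 * (2 * R + 2 * R * R) * (N * a ^ 2)⁻¹ := by
      have h7 : (leb R).real {x | (N * a / 2) ^ 2 ≤ (Yf x) ^ 2} ≤
          (N * (2 * R + 2 * R * R)) / (N * a / 2) ^ 2 := by
        rw [le_div_iff₀ hpos, mul_comm]
        exact hmark.trans hmom
      refine h7.trans (le_of_eq ?_)
      field_simp
      ring
    rw [← ENNReal.ofReal_toReal (measure_ne_top (leb R) _)]
    exact ENNReal.ofReal_le_ofReal h6

end Dat

/-! ### limits -/

lemma tendsto_pow_inv {b : ℝ} (hb : 1 < b) {s : ℕ → ℕ} (hs : Tendsto s atTop atTop) :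
    Tendsto (fun j => (b⁻¹) ^ (s j)) atTop (𝓝 0) :=
  (tendsto_pow_atTop_nhds_zero_of_lt_one (by positivity) (inv_lt_one_of_one_lt₀ hb)).comp hs

lemma tendsto_s_pow {b : ℝ} (hb : 1 < b) {s : ℕ → ℕ} (hs : Tendsto s atTop atTop) :
    Tendsto (fun j => (s j : ℝ) * (b⁻¹) ^ (s j)) atTop (𝓝 0) :=
  (tendsto_self_mul_const_pow_of_lt_one (by positivity) (inv_lt_one_of_one_lt₀ hb)).comp hs

lemma tendsto_err1 {b : ℝ} (hb : 1 < b) {τ : ℕ → ℝ} {s N : ℕ → ℕ} (hs : Tendsto s atTop atTop)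
    (hN : Tendsto (fun j => (N j : ℝ) * τ j ^ 2) atTop (𝓝 0)) :
    Tendsto (fun j => err1 b (τ j) (s j) (N j)) atTop (𝓝 0) := by
  unfold err1
  have h1 := ((hN.const_mul 4).add ((tendsto_pow_inv hb hs).mul_const (1 - b⁻¹)⁻¹)).const_mul (4 * Real.pi ^ 2)
  simp only [mul_zero, zero_mul, add_zero] at h1
  refine h1.congr fun j => ?_
  ring

lemma tendsto_pert {b : ℝ} (hb : 1 < b) {τ : ℕ → ℝ} {s : ℕ → ℕ} (hτ : ∀ j, 0 ≤ τ j) (hs : Tendsto s atTop atTop)
    (hsτ : Tendsto (fun j => (s j : ℝ) * τ j) atTop (𝓝 0)) :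
    Tendsto (fun j => (s j : ℝ) * pert b (τ j) (s j)) atTop (𝓝 0) := by
  have h1 := (hsτ.const_mul 2).add (tendsto_s_pow hb hs)
  simp only [mul_zero, add_zero] at h1
  refine squeeze_zero (fun j => mul_nonneg (by positivity) (pert_nonneg hb (hτ j))) (fun j => ?_) h1
  unfold pert
  have h2 : (b⁻¹) ^ (7 * s j) ≤ (b⁻¹) ^ (s j) :=
    pow_le_pow_of_le_one (by positivity) (inv_lt_one_of_one_lt₀ hb).le (by omega)
  have h3 : (s j : ℝ) * (b⁻¹) ^ (7 * s j) ≤ (s j : ℝ) * (b⁻¹) ^ (s j) := by gcongr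
  linarith

lemma tendsto_fac {b m : ℝ} (hb : 1 < b) (hm : 0 < m) {τ : ℕ → ℝ} {s : ℕ → ℕ} (hτ : ∀ j, 0 ≤ τ j)
    (hs : Tendsto s atTop atTop) (hsτ : Tendsto (fun j => (s j : ℝ) * τ j) atTop (𝓝 0)) :
    Tendsto (fun j => fac b m (τ j) (s j)) atTop (𝓝 1) := by
  have hp := tendsto_pert hb hτ hs hsτ
  have h1 : Tendsto (fun j => (1 + 2 * Real.pi * pert b (τ j) (s j) / m) ^ (4 * s j)) atTop (𝓝 1) := by
    have h2 : Tendsto (fun j => Real.exp (8 * Real.pi / m * ((s j : ℝ) * pert b (τ j) (s j)))) atTop (𝓝 1) := by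
      have := (Real.continuous_exp.tendsto _).comp (hp.const_mul (8 * Real.pi / m))
      simpa [Function.comp_def] using this
    refine tendsto_of_tendsto_of_tendsto_of_le_of_le tendsto_const_nhds h2 (fun j => ?_) (fun j => ?_)
    · apply one_le_pow₀
      have := pert_nonneg (s := s j) hb (hτ j)
      have : 0 ≤ 2 * Real.pi * pert b (τ j) (s j) / m := by positivity
      linarith
    · have hx : 0 ≤ 2 * Real.pi * pert b (τ j) (s j) / m := by
        have := pert_nonneg (s := s j) hb (hτ j)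
        positivity
      calc (1 + 2 * Real.pi * pert b (τ j) (s j) / m) ^ (4 * s j)
          ≤ (Real.exp (2 * Real.pi * pert b (τ j) (s j) / m)) ^ (4 * s j) := by
            apply pow_le_pow_left₀ (by linarith)
            have := Real.add_one_le_exp (2 * Real.pi * pert b (τ j) (s j) / m)
            linarith
        _ = Real.exp (8 * Real.pi / m * ((s j : ℝ) * pert b (τ j) (s j))) := by
            rw [← Real.exp_nat_mul]; congr 1; push_cast; ring
  have h3 : Tendsto (fun j => 1 - 2 * Real.pi * (b / (b - 1)) * (b⁻¹) ^ (s j)) atTop (𝓝 1) := by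
    have := ((tendsto_pow_inv hb hs).const_mul (2 * Real.pi * (b / (b - 1)))).const_sub 1
    simpa using this
  have h4 := (h1.pow 2).div (h3.pow 2) (by norm_num)
  simp only [one_pow, div_one] at h4
  exact h4

theorem partB {b : ℝ} (hb : 1 < b) (h : SalemSeq b) :
    (bernoulliConvolution b⁻¹).MutuallySingular (volume : Measure ℝ) := by
  obtain ⟨m, T, τ, σ, s, N, hm, hD, hs, hN, hsτ, hNa⟩ := h
  have hτ : ∀ j, 0 ≤ τ j := fun j => tau_nonneg (hD j)
  have hF : ∀ j, F b (T j * b ^ (2 * s j)) = F b (T j * b ^ (2 * s j : ℤ)) := by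
    intro j; congr 2
  simp_rw [hF] at hNa
  set a : ℕ → ℝ := fun j => F b (T j * b ^ (2 * s j : ℤ)) with ha
  have hs1 : ∀ᶠ j in atTop, 1 ≤ s j := hs.eventually_ge_atTop 1
  have hNa2 : Tendsto (fun j => (N j : ℝ) * a j ^ 2) atTop atTop := by
    apply tendsto_atTop_mono' _ _ hNa
    filter_upwards [hs1] with j hj
    have h1 : (1 : ℝ) ≤ s j := by exact_mod_cast hj
    rw [div_le_iff₀ (by linarith)]
    have : 0 ≤ (N j : ℝ) * a j ^ 2 := by positivity
    exact le_mul_of_one_le_right this h1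
  have hlim1 : Tendsto (fun j => 80 * ((s j : ℝ) / (N j * a j ^ 2)) +
      4 * (fac b m (τ j) (s j) - 1 + 2 * err1 b (τ j) (s j) (N j))) atTop (𝓝 0) := by
    have e1 : Tendsto (fun j => (s j : ℝ) / (N j * a j ^ 2)) atTop (𝓝 0) := by
      have := hNa.inv_tendsto_atTop
      refine this.congr fun j => ?_
      simp [inv_div, ha]
    have := (e1.const_mul 80).add ((((tendsto_fac hb hm hτ hs hsτ).sub_const 1).add
      ((tendsto_err1 hb hs hN).const_mul 2)).const_mul 4)
    simpa using this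
  have hlim2 : Tendsto (fun j => 4 * (2 * (1 - b⁻¹)⁻¹ + 2 * (1 - b⁻¹)⁻¹ * (1 - b⁻¹)⁻¹) * (N j * a j ^ 2)⁻¹)
      atTop (𝓝 0) := by
    have := hNa2.inv_tendsto_atTop.const_mul (4 * (2 * (1 - b⁻¹)⁻¹ + 2 * (1 - b⁻¹)⁻¹ * (1 - b⁻¹)⁻¹))
    simpa using this
  have hlim3 : Tendsto (fun j => 1 - 2 * Real.pi * (b / (b - 1)) * (b⁻¹) ^ (s j)) atTop (𝓝 1) := by
    have := ((tendsto_pow_inv hb hs).const_mul (2 * Real.pi * (b / (b - 1)))).const_sub 1
    simpa using this
  have hlim1' := ENNReal.tendsto_ofReal hlim1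
  have hlim2' := ENNReal.tendsto_ofReal hlim2
  rw [ENNReal.ofReal_zero] at hlim1' hlim2'
  apply mutuallySingular_of_approx
  intro ε hε
  have v1 := hlim1'.eventually (Iic_mem_nhds hε)
  have v2 := hlim2'.eventually (Iic_mem_nhds hε)
  have v3 := hlim3.eventually (lt_mem_nhds (show (0:ℝ) < 1 by norm_num))
  have v4 := hNa2.eventually_gt_atTop 0
  obtain ⟨j, w1, w2, w3, w4⟩ := (v1.and (v2.and (v3.and v4))).exists
  obtain ⟨A, hA, h1, h2⟩ := single hb hm (hD j) w3 (N j) (a j) rfl w4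
  exact ⟨A, hA, h1.trans w1, h2.trans w2⟩

end Crest.Agent.H12Salem
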