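import Crest.Agent.H19SLSpec

/-! Modules SPH and BASE of rid 322 (S0499), by helper12. -/

set_option autoImplicit false

open MeasureTheory ProbabilityTheory Crest.StreamLearn
open scoped ENNReal NNReal Pointwise

namespace Crest.Agent.H12SlSph

theorem sig_apply {d : ℕ} (B : Set (E d)) (hB : MeasurableSet B) :
    Crest.Agent.H19SL.sig d B =
      ((volume : Measure (E d)).toSphere Set.univ)⁻¹ *
        (volume : Measure (E d)).toSphere ((fun x : Sphere d => (x : E d)) ⁻¹' B) := by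
  unfold Crest.Agent.H19SL.sig sphereUniform
  rw [Measure.map_apply measurable_subtype_coe hB]
  simp [Measure.smul_apply]

theorem sig_univ_le {d : ℕ} (B : Set (E d)) : Crest.Agent.H19SL.sig d B ≤ 1 := by
  calc Crest.Agent.H19SL.sig d B ≤ Crest.Agent.H19SL.sig d Set.univ := measure_mono (Set.subset_univ _)
    _ = ((volume : Measure (E d)).toSphere Set.univ)⁻¹ *
        (volume : Measure (E d)).toSphere Set.univ := by
          rw [sig_apply _ MeasurableSet.univ, Set.preimage_univ]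
    _ ≤ 1 := ENNReal.inv_mul_le_one _

theorem cover {d : ℕ} (z : E d) (r : ℝ) (hr : 0 < r) :
    Set.Ioo (0:ℝ) 1 • ((fun x : Sphere d => (x : E d)) '' ((fun x : Sphere d => (x : E d)) ⁻¹' Metric.ball z r))
      ⊆ ⋃ i ∈ Finset.range (⌊1 / r⌋₊ + 1), Metric.ball (((i : ℝ) * r) • z) (2 * r) := by
  rintro y ⟨t, ht, x, ⟨x', hx', rfl⟩, rfl⟩
  have hxz : ‖(x' : E d) - z‖ < r := by
    have h := hx'
    rw [Set.mem_preimage, mem_ball_iff_norm] at h
    exact h
  have hx1 : ‖(x' : E d)‖ = 1 := by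
    have := x'.2
    simpa using this
  simp only [Set.mem_iUnion, Finset.mem_range, exists_prop]
  refine ⟨⌊t / r⌋₊, ?_, ?_⟩
  · have : ⌊t / r⌋₊ ≤ ⌊1 / r⌋₊ := Nat.floor_mono (by
      apply div_le_div_of_nonneg_right ht.2.le hr.le)
    omega
  · set i : ℝ := (⌊t / r⌋₊ : ℝ) with hi
    have h1 : i ≤ t / r := Nat.floor_le (div_nonneg ht.1.le hr.le)
    have h2 : t / r < i + 1 := Nat.lt_floor_add_one _
    have h3 : i * r ≤ t := by rwa [le_div_iff₀ hr] at h1
    have h4 : t < i * r + r := by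
      rw [div_lt_iff₀ hr] at h2
      linarith
    have hi0 : 0 ≤ i := by positivity
    rw [mem_ball_iff_norm]
    show ‖t • (x' : E d) - (i * r) • z‖ < 2 * r
    have e : t • (x' : E d) - (i * r) • z = (t - i * r) • (x' : E d) + (i * r) • ((x' : E d) - z) := by
      rw [sub_smul, smul_sub]; abel
    rw [e]
    calc ‖(t - i * r) • (x' : E d) + (i * r) • ((x' : E d) - z)‖
        ≤ ‖(t - i * r) • (x' : E d)‖ + ‖(i * r) • ((x' : E d) - z)‖ := norm_add_le _ _
      _ = |t - i * r| * 1 + (i * r) * ‖(x' : E d) - z‖ := by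
          rw [norm_smul, norm_smul, hx1, Real.norm_eq_abs, Real.norm_eq_abs, abs_of_nonneg (mul_nonneg hi0 hr.le)]
      _ < r + r := by
          have h5 : |t - i * r| < r := by rw [abs_lt]; constructor <;> linarith
          have h6 : (i * r) * ‖(x' : E d) - z‖ ≤ 1 * r := by
            apply mul_le_mul (by linarith [ht.2]) hxz.le (norm_nonneg _) (by norm_num)
          linarith
      _ = 2 * r := by ring

theorem main : Crest.Agent.H19SL.Sph := by
  intro d hd z r hr
  by_cases hd1 : d = 1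
  · subst hd1
    simpa using sig_univ_le (Metric.ball z r)
  have hd2 : 2 ≤ d := by omega
  by_cases hr16 : 1 / 16 ≤ r
  · calc Crest.Agent.H19SL.sig d (Metric.ball z r) ≤ 1 := sig_univ_le _
      _ ≤ ENNReal.ofReal (16 * r) ^ (d - 1) := by
        apply one_le_pow₀
        rw [← ENNReal.ofReal_one]
        apply ENNReal.ofReal_le_ofReal
        linarith
  push Not at hr16
  haveI : Nonempty (Fin d) := ⟨⟨0, by omega⟩⟩
  rw [sig_apply _ Metric.isOpen_ball.measurableSet]
  have hms : MeasurableSet ((fun x : Sphere d => (x : E d)) ⁻¹' Metric.ball z r) :=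
    measurable_subtype_coe Metric.isOpen_ball.measurableSet
  rw [Measure.toSphere_apply' _ hms, Measure.toSphere_apply_univ]
  have hfr : Module.finrank ℝ (E d) = d := by simp
  rw [hfr]
  set V : ℝ≥0∞ := volume (Metric.ball (0 : E d) 1) with hV
  have hV0 : V ≠ 0 := (Metric.measure_ball_pos volume (0 : E d) one_pos).ne'
  have hVt : V ≠ ∞ := measure_ball_lt_top.ne
  have hcov : volume (Set.Ioo (0:ℝ) 1 • ((fun x : Sphere d => (x : E d)) '' ((fun x : Sphere d => (x : E d)) ⁻¹' Metric.ball z r)))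
      ≤ (⌊1 / r⌋₊ + 1 : ℕ) * (ENNReal.ofReal ((2 * r) ^ d) * V) := by
    calc _ ≤ volume (⋃ i ∈ Finset.range (⌊1 / r⌋₊ + 1), Metric.ball (((i : ℝ) * r) • z) (2 * r)) :=
          measure_mono (cover z r hr)
      _ ≤ ∑ i ∈ Finset.range (⌊1 / r⌋₊ + 1), volume (Metric.ball (((i : ℝ) * r) • z) (2 * r)) :=
          measure_biUnion_finset_le _ _
      _ = ∑ i ∈ Finset.range (⌊1 / r⌋₊ + 1), (ENNReal.ofReal ((2 * r) ^ d) * V) := by
          apply Finset.sum_congr rfl
          intro i _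
          rw [Measure.addHaar_ball_of_pos _ _ (by positivity), hfr]
      _ = _ := by rw [Finset.sum_const, Finset.card_range, nsmul_eq_mul]
  have hdne : (d : ℝ≥0∞) ≠ 0 := by
    simp; omega
  have hdt : (d : ℝ≥0∞) ≠ ∞ := ENNReal.natCast_ne_top d
  calc ((d : ℝ≥0∞) * V)⁻¹ * ((d : ℝ≥0∞) * volume (Set.Ioo (0:ℝ) 1 • ((fun x : Sphere d => (x : E d)) '' ((fun x : Sphere d => (x : E d)) ⁻¹' Metric.ball z r))))
      ≤ ((d : ℝ≥0∞) * V)⁻¹ * ((d : ℝ≥0∞) * ((⌊1 / r⌋₊ + 1 : ℕ) * (ENNReal.ofReal ((2 * r) ^ d) * V))) := by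
        gcongr
    _ = (((d : ℝ≥0∞) * V)⁻¹ * ((d : ℝ≥0∞) * V)) * ((⌊1 / r⌋₊ + 1 : ℕ) * ENNReal.ofReal ((2 * r) ^ d)) := by ring
    _ = (⌊1 / r⌋₊ + 1 : ℕ) * ENNReal.ofReal ((2 * r) ^ d) := by
        rw [ENNReal.inv_mul_cancel (mul_ne_zero hdne hV0) (ENNReal.mul_ne_top hdt hVt), one_mul]
    _ = ENNReal.ofReal ((⌊1 / r⌋₊ + 1 : ℕ) * (2 * r) ^ d) := by
        rw [ENNReal.ofReal_mul (by positivity), ENNReal.ofReal_natCast]
    _ ≤ ENNReal.ofReal ((16 * r) ^ (d - 1)) := by
        apply ENNReal.ofReal_le_ofReal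
        obtain ⟨e, rfl⟩ : ∃ e, d = e + 2 := ⟨d - 2, by omega⟩
        have h1 : ((⌊1 / r⌋₊ + 1 : ℕ) : ℝ) ≤ 1 / r + 1 := by
          push_cast
          have := Nat.floor_le (div_nonneg zero_le_one hr.le)
          linarith
        have h2 : ((⌊1 / r⌋₊ + 1 : ℕ) : ℝ) * (2 * r) ^ (e + 2) ≤ (1 / r + 1) * (2 * r) ^ (e + 2) := by
          gcongr
        have h3 : (1 / r + 1) * (2 * r) ^ (e + 2) = (2 * r) ^ (e + 1) * (2 + 2 * r) := by
          field_simp
          ring
        have h4 : (16 * r) ^ (e + 2 - 1) = (2 * r) ^ (e + 1) * 8 ^ (e + 1) := by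
          rw [← mul_pow]
          congr 1
          ring
        rw [h4]
        rw [h3] at h2
        refine h2.trans ?_
        apply mul_le_mul_of_nonneg_left _ (by positivity)
        have : (8:ℝ) ^ (e + 1) ≥ 8 ^ 1 := pow_le_pow_right₀ (by norm_num) (by omega)
        linarith
    _ = ENNReal.ofReal (16 * r) ^ (d - 1) := by
        rw [ENNReal.ofReal_pow (by positivity)]

theorem sig_compl_sphere {d : ℕ} : Crest.Agent.H19SL.sig d {x : E d | ‖x‖ ≠ 1} = 0 := by
  have hm : MeasurableSet {x : E d | ‖x‖ ≠ 1} :=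
    (measurableSet_eq_fun measurable_norm measurable_const).compl
  rw [sig_apply _ hm]
  have : ((fun x : Sphere d => (x : E d)) ⁻¹' {x : E d | ‖x‖ ≠ 1}) = ∅ := by
    ext x
    have := x.2
    simp at this
    simp [this]
  rw [this]; simp

theorem base (hS : Crest.Agent.H19SL.Sph) : Crest.Agent.H19SL.Base := by
  intro d s hd hs v ε hv hε w r hr
  -- measurability of the cap set
  have hmc : MeasurableSet {x : E d | Real.arccos (inner ℝ v x) ≤ ε} := by
    have : Measurable fun x : E d => Real.arccos (inner ℝ v x) :=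
      Real.measurable_arccos.comp (measurable_const.inner measurable_id)
    exact measurableSet_le this measurable_const
  have hν : ((Crest.Agent.H19SL.sig d).withDensity (Crest.Agent.H19SL.cap ε v)) (Metric.ball w r)
      = Crest.Agent.H19SL.sig d ({x : E d | Real.arccos (inner ℝ v x) ≤ ε} ∩ Metric.ball w r) := by
    rw [withDensity_apply _ Metric.isOpen_ball.measurableSet]
    unfold Crest.Agent.H19SL.cap
    rw [lintegral_indicator_one hmc, Measure.restrict_apply hmc]
  rw [hν]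
  have hcap : ∀ x : E d, ‖x‖ = 1 → Real.arccos (inner ℝ v x) ≤ ε → x ∈ Metric.ball v (2 * ε) := by
    intro x hx hxa
    rw [mem_ball_iff_norm]
    have hcs : |inner ℝ v x| ≤ 1 := by
      have := abs_real_inner_le_norm v x
      rw [hv, hx] at this
      simpa using this
    have hc := abs_le.mp hcs
    have hcos : Real.cos (Real.arccos (inner ℝ v x)) = inner ℝ v x := Real.cos_arccos hc.1 hc.2
    have h1 : 1 - (Real.arccos (inner ℝ v x)) ^ 2 / 2 ≤ inner ℝ v x := by
      have := Real.one_sub_sq_div_two_le_cos (x := Real.arccos (inner ℝ v x))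
      rwa [hcos] at this
    have h2 : ‖x - v‖ ^ 2 = 2 - 2 * inner ℝ v x := by
      rw [@norm_sub_sq_real, hx, hv, real_inner_comm]; ring
    have h3 : (Real.arccos (inner ℝ v x)) ^ 2 ≤ ε ^ 2 :=
      pow_le_pow_left₀ (Real.arccos_nonneg _) hxa 2
    have h4 : ‖x - v‖ ^ 2 ≤ ε ^ 2 := by rw [h2]; linarith
    have h5 : ‖x - v‖ ≤ ε := by
      exact le_of_sq_le_sq h4 hε.le
    linarith
  have e1 : d - 1 = s + (d - 1 - s) := by omega
  by_cases hrε : r ≤ ε
  · calc Crest.Agent.H19SL.sig d ({x : E d | Real.arccos (inner ℝ v x) ≤ ε} ∩ Metric.ball w r)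
        ≤ Crest.Agent.H19SL.sig d (Metric.ball w r) := measure_mono Set.inter_subset_right
      _ ≤ ENNReal.ofReal (16 * r) ^ (d - 1) := hS d hd w r hr
      _ = ENNReal.ofReal ((16 * r) ^ (d - 1)) := by rw [ENNReal.ofReal_pow (by positivity)]
      _ ≤ ENNReal.ofReal (32 ^ d * ε ^ (d - 1 - s) * r ^ s) := by
          apply ENNReal.ofReal_le_ofReal
          have h1 : (16 * r) ^ (d - 1) = 16 ^ (d - 1) * (r ^ (d - 1 - s) * r ^ s) := by
            rw [mul_pow, ← pow_add]
            congr 2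
            omega
          rw [h1, mul_assoc]
          have h2 : (16:ℝ) ^ (d - 1) ≤ 32 ^ d := by
            calc (16:ℝ) ^ (d - 1) ≤ 32 ^ (d - 1) := pow_le_pow_left₀ (by norm_num) (by norm_num) _
              _ ≤ 32 ^ d := pow_le_pow_right₀ (by norm_num) (by omega)
          gcongr
      _ = (32 : ℝ≥0∞) ^ d * ENNReal.ofReal ε ^ (d - 1 - s) * ENNReal.ofReal r ^ s := by
          rw [ENNReal.ofReal_mul (by positivity), ENNReal.ofReal_mul (by positivity),
            ENNReal.ofReal_pow (by norm_num), ENNReal.ofReal_pow hε.le, ENNReal.ofReal_pow hr.le]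
          norm_num
  · push Not at hrε
    calc Crest.Agent.H19SL.sig d ({x : E d | Real.arccos (inner ℝ v x) ≤ ε} ∩ Metric.ball w r)
        ≤ Crest.Agent.H19SL.sig d (Metric.ball v (2 * ε) ∪ {x : E d | ‖x‖ ≠ 1}) := by
          apply measure_mono
          rintro x ⟨hx1, _⟩
          by_cases hx : ‖x‖ = 1
          · exact Or.inl (hcap x hx hx1)
          · exact Or.inr hx
      _ ≤ Crest.Agent.H19SL.sig d (Metric.ball v (2 * ε)) + Crest.Agent.H19SL.sig d {x : E d | ‖x‖ ≠ 1} :=
          measure_union_le _ _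
      _ = Crest.Agent.H19SL.sig d (Metric.ball v (2 * ε)) := by rw [sig_compl_sphere, add_zero]
      _ ≤ ENNReal.ofReal (16 * (2 * ε)) ^ (d - 1) := hS d hd v (2 * ε) (by positivity)
      _ = ENNReal.ofReal ((16 * (2 * ε)) ^ (d - 1)) := by rw [ENNReal.ofReal_pow (by positivity)]
      _ ≤ ENNReal.ofReal (32 ^ d * ε ^ (d - 1 - s) * r ^ s) := by
          apply ENNReal.ofReal_le_ofReal
          have h1 : (16 * (2 * ε)) ^ (d - 1) = 32 ^ (d - 1) * (ε ^ (d - 1 - s) * ε ^ s) := by
            rw [← pow_add, show (16 * (2 * ε)) = 32 * ε by ring, mul_pow]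
            congr 2
            omega
          rw [h1, mul_assoc]
          have h2 : (32:ℝ) ^ (d - 1) ≤ 32 ^ d := pow_le_pow_right₀ (by norm_num) (by omega)
          gcongr
      _ = (32 : ℝ≥0∞) ^ d * ENNReal.ofReal ε ^ (d - 1 - s) * ENNReal.ofReal r ^ s := by
          rw [ENNReal.ofReal_mul (by positivity), ENNReal.ofReal_mul (by positivity),
            ENNReal.ofReal_pow (by norm_num), ENNReal.ofReal_pow hε.le, ENNReal.ofReal_pow hr.le]
          norm_num

end Crest.Agent.H12SlSph
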