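import Mathlib
import Crest.Prelude.Def_TwoAdicShift
/-! rid 113: S0148 from the operator of S0150 (helper12) -/
set_option autoImplicit false
open MeasureTheory Filter Topology
open Crest.AnalysisR.TwoAdic
attribute [local instance] Crest.AnalysisR.TwoAdic.borelTwoAdic
  Crest.AnalysisR.TwoAdic.borelSpace_twoAdic

namespace Crest.R113.H12

/-- the property of S0148 for a fixed Hilbert space -/
def HypT (H : Type*) [NormedAddCommGroup H] [InnerProductSpace ℂ H] : Prop :=
  ∃ T : H →L[ℂ] H, T ≠ 0 ∧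
      Tendsto (fun n : ℕ => ‖T ^ n‖ ^ (1 / (n : ℝ))) atTop (𝓝 0) ∧
      ∀ V : Submodule ℂ H, IsClosed (V : Set H) →
        (∀ A : H →L[ℂ] H, A * T = T * A → ∀ v ∈ V, A v ∈ V) → V = ⊥ ∨ V = ⊤

/-- a Hilbert basis indexed by ℕ -/
theorem exists_basis_nat (H : Type*) [NormedAddCommGroup H] [InnerProductSpace ℂ H]
    [CompleteSpace H] [TopologicalSpace.SeparableSpace H] (hH : ¬ FiniteDimensional ℂ H) :
    Nonempty (HilbertBasis ℕ ℂ H) := by
  obtain ⟨w, b, hb⟩ := exists_hilbertBasis ℂ H
  have hon := b.orthonormal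
  have hcount : Countable w := by
    have hd : (Set.univ : Set w).PairwiseDisjoint (fun x => Metric.ball (b x) (1 / 2)) := by
      intro x _ y _ hxy
      refine Metric.ball_disjoint_ball ?_
      have h1 : ‖b x - b y‖ ^ 2 = 2 := by
        rw [@norm_sub_sq ℂ]
        rw [hon.1 x, hon.1 y, hon.2 hxy]
        norm_num
      have h2 : (1 : ℝ) ≤ ‖b x - b y‖ := by
        by_contra hlt
        push Not at hlt
        nlinarith [norm_nonneg (b x - b y)]
      rw [dist_eq_norm]
      linarith
    have := hd.countable_of_isOpen (fun x _ => Metric.isOpen_ball)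
      (fun x _ => ⟨b x, Metric.mem_ball_self (by norm_num)⟩)
    exact Set.countable_univ_iff.1 this
  have hinf : Infinite w := by
    by_contra hfin
    rw [not_infinite_iff_finite] at hfin
    apply hH
    have hd := b.dense_span
    have hfd : FiniteDimensional ℂ (Submodule.span ℂ (Set.range b)) :=
      FiniteDimensional.span_of_finite ℂ (Set.finite_range b)
    have hcl : (Submodule.span ℂ (Set.range b)).topologicalClosure
        = Submodule.span ℂ (Set.range b) :=
      (Submodule.closed_of_finiteDimensional _).submodule_topologicalClosure_eq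
    rw [hcl] at hd
    have : FiniteDimensional ℂ (⊤ : Submodule ℂ H) := by rw [← hd]; exact hfd
    exact Module.Finite.equiv (Submodule.topEquiv (R := ℂ) (M := H))
  obtain ⟨e⟩ := nonempty_equiv_of_countable (α := ℕ) (β := w)
  refine ⟨HilbertBasis.mk (v := fun n => b (e n)) (hon.comp _ e.injective) ?_⟩
  have : Set.range (fun n => b (e n)) = Set.range b := by
    rw [show (fun n => b (e n)) = (b : w → H) ∘ e from rfl, e.surjective.range_comp]
  rw [this, b.dense_span]

theorem iso_of_sep (K H : Type*) [NormedAddCommGroup K] [InnerProductSpace ℂ K]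
    [CompleteSpace K] [TopologicalSpace.SeparableSpace K] (hK : ¬ FiniteDimensional ℂ K)
    [NormedAddCommGroup H] [InnerProductSpace ℂ H]
    [CompleteSpace H] [TopologicalSpace.SeparableSpace H] (hH : ¬ FiniteDimensional ℂ H) :
    Nonempty (K ≃ₗᵢ[ℂ] H) := by
  obtain ⟨bK⟩ := exists_basis_nat K hK
  obtain ⟨bH⟩ := exists_basis_nat H hH
  exact ⟨bK.repr.trans bH.repr.symm⟩

/-- transfer along an isometry -/
theorem HypT.transfer {K H : Type*} [NormedAddCommGroup K] [InnerProductSpace ℂ K]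
    [NormedAddCommGroup H] [InnerProductSpace ℂ H] (e : K ≃ₗᵢ[ℂ] H) (h : HypT K) : HypT H := by
  obtain ⟨T, hT0, hT1, hT2⟩ := h
  let conj : (K →L[ℂ] K) → (H →L[ℂ] H) := fun A =>
    (e.toContinuousLinearEquiv : K →L[ℂ] H) ∘L A ∘L (e.symm.toContinuousLinearEquiv : H →L[ℂ] K)
  have hconj : ∀ A x, conj A x = e (A (e.symm x)) := fun A x => rfl
  have hpow : ∀ n : ℕ, ∀ x, (conj T ^ n) x = e ((T ^ n) (e.symm x)) := by
    intro n
    induction n with
    | zero => intro x; simp
    | succ n ih =>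
      intro x
      rw [pow_succ, pow_succ]
      change (conj T ^ n) (conj T x) = e ((T ^ n) (T (e.symm x)))
      rw [ih, hconj, e.symm_apply_apply]
  have hnorm : ∀ n : ℕ, ‖conj T ^ n‖ = ‖T ^ n‖ := by
    intro n
    apply le_antisymm
    · refine ContinuousLinearMap.opNorm_le_bound _ (norm_nonneg _) (fun x => ?_)
      rw [hpow, e.norm_map]
      calc ‖(T ^ n) (e.symm x)‖ ≤ ‖T ^ n‖ * ‖e.symm x‖ := ContinuousLinearMap.le_opNorm _ _
        _ = _ := by rw [e.symm.norm_map]
    · refine ContinuousLinearMap.opNorm_le_bound _ (norm_nonneg _) (fun x => ?_)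
      have := (conj T ^ n).le_opNorm (e x)
      rw [hpow, e.norm_map, e.symm_apply_apply, e.norm_map] at this
      exact this
  refine ⟨conj T, ?_, ?_, ?_⟩
  · intro h0
    apply hT0
    ext x
    have := hconj T (e x)
    rw [h0, e.symm_apply_apply] at this
    have h2 : e (T x) = 0 := this.symm
    simpa using h2
  · simpa only [hnorm] using hT1
  · intro V hV hVA
    let V' : Submodule ℂ K := V.comap (e.toLinearEquiv : K →ₗ[ℂ] H)
    have hmem : ∀ x, x ∈ V' ↔ e x ∈ V := fun x => Iff.rfl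
    have hcl : IsClosed (V' : Set K) := hV.preimage e.continuous
    have := hT2 V' hcl (by
      intro A hA v hv
      rw [hmem] at hv ⊢
      have := hVA (conj A) (by
        ext x
        change conj A (conj T x) = conj T (conj A x)
        rw [hconj, hconj, hconj, hconj, e.symm_apply_apply, e.symm_apply_apply]
        have := congrArg (fun B : K →L[ℂ] K => B (e.symm x)) hA
        exact congrArg e this) (e v) hv
      rw [hconj, e.symm_apply_apply] at this
      exact this)
    rcases this with h | h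
    · left
      rw [Submodule.eq_bot_iff]
      intro y hy
      have : e.symm y ∈ V' := by rw [hmem, e.apply_symm_apply]; exact hy
      rw [h, Submodule.mem_bot] at this
      have h2 := congrArg e this
      rw [e.apply_symm_apply, map_zero] at h2
      exact h2
    · right
      rw [Submodule.eq_top_iff']
      intro y
      have : e.symm y ∈ V' := by rw [h]; trivial
      rw [hmem, e.apply_symm_apply] at this
      exact this

/-- quasinilpotence -/
theorem quasi {H : Type*} [NormedAddCommGroup H] [InnerProductSpace ℂ H] (S : H →L[ℂ] H)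
    (hS : ∀ n : ℕ, 1 ≤ n → ‖S ^ n‖ ≤ Real.exp (-10 * (((n + 1) ^ 2 / 4 : ℕ) : ℝ))) :
    Tendsto (fun n : ℕ => ‖S ^ n‖ ^ (1 / (n : ℝ))) atTop (𝓝 0) := by
  have hlim : Tendsto (fun n : ℕ => Real.exp (-(n : ℝ))) atTop (𝓝 0) := by
    have h1 : Tendsto (fun n : ℕ => (n : ℝ)) atTop atTop := tendsto_natCast_atTop_atTop
    exact Real.tendsto_exp_neg_atTop_nhds_zero.comp h1
  refine squeeze_zero' (Eventually.of_forall fun n => by positivity) ?_ hlim
  filter_upwards [eventually_ge_atTop 1] with n hn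
  have hn0 : (0 : ℝ) < n := by exact_mod_cast hn
  have h1 : ‖S ^ n‖ ^ (1 / (n : ℝ)) ≤ (Real.exp (-10 * (((n + 1) ^ 2 / 4 : ℕ) : ℝ))) ^ (1 / (n : ℝ)) :=
    Real.rpow_le_rpow (norm_nonneg _) (hS n hn) (by positivity)
  refine h1.trans ?_
  rw [← Real.exp_mul]
  apply Real.exp_le_exp.2
  have h2 : n ^ 2 ≤ 4 * ((n + 1) ^ 2 / 4) := by
    have h3 : (n + 1) ^ 2 = n ^ 2 + 2 * n + 1 := by ring
    omega
  have h4 : (n : ℝ) ^ 2 ≤ 4 * (((n + 1) ^ 2 / 4 : ℕ) : ℝ) := by exact_mod_cast h2
  rw [mul_one_div, div_le_iff₀ hn0]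
  nlinarith

/-- multiplication operators -/
theorem mul_op (g : ℤ_[2] → ℂ) (hg : Measurable g) (C : ℝ) (hC : ∀ x, ‖g x‖ ≤ C) :
    ∃ A : fibreSpace →L[ℂ] fibreSpace, ∀ f : fibreSpace,
      ∀ᵐ x ∂haarTwoAdic, (A f : ℤ_[2] → seqHilbert) x = g x • (f : ℤ_[2] → seqHilbert) x := by
  have hmem : ∀ f : fibreSpace,
      MemLp (fun x => g x • (f : ℤ_[2] → seqHilbert) x) 2 haarTwoAdic := by
    intro f
    refine MemLp.of_le_mul (c := C) (Lp.memLp f)
      (hg.aestronglyMeasurable.smul (Lp.aestronglyMeasurable f)) ?_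
    refine Eventually.of_forall fun x => ?_
    rw [norm_smul]
    exact mul_le_mul_of_nonneg_right (hC x) (norm_nonneg _)
  let L : fibreSpace →ₗ[ℂ] fibreSpace :=
    { toFun := fun f => (hmem f).toLp _
      map_add' := by
        intro f f'
        apply Lp.ext
        filter_upwards [(hmem (f + f')).coeFn_toLp, (hmem f).coeFn_toLp, (hmem f').coeFn_toLp,
          Lp.coeFn_add ((hmem f).toLp _) ((hmem f').toLp _), Lp.coeFn_add f f'] with x h1 h2 h3 h4 h5
        rw [h1, h4, Pi.add_apply, h2, h3, h5, Pi.add_apply, smul_add]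
      map_smul' := by
        intro c f
        apply Lp.ext
        filter_upwards [(hmem (c • f)).coeFn_toLp, (hmem f).coeFn_toLp,
          Lp.coeFn_smul c ((hmem f).toLp _), Lp.coeFn_smul c f] with x h1 h2 h3 h4
        simp only [RingHom.id_apply]
        rw [h1, h3, Pi.smul_apply, h2, h4, Pi.smul_apply, smul_comm] }
  refine ⟨L.mkContinuous C ?_, ?_⟩
  · intro f
    refine Lp.norm_le_mul_norm_of_ae_le_mul ?_
    filter_upwards [(hmem f).coeFn_toLp] with x h1
    change ‖((hmem f).toLp _ : ℤ_[2] → seqHilbert) x‖ ≤ _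
    rw [h1, norm_smul]
    exact mul_le_mul_of_nonneg_right (hC x) (norm_nonneg _)
  · intro f
    exact (hmem f).coeFn_toLp

theorem hypT_fibre (Sfib : ℤ_[2] → (seqHilbert →L[ℂ] seqHilbert))
    (S V : fibreSpace →L[ℂ] fibreSpace)
    (hSf : ∀ f : fibreSpace, ∀ᵐ x ∂haarTwoAdic,
      (S f : ℤ_[2] → seqHilbert) x = Sfib x ((f : ℤ_[2] → seqHilbert) x))
    (hS0 : S ≠ 0)
    (hSn : ∀ n : ℕ, 1 ≤ n → ‖S ^ n‖ ≤ Real.exp (-10 * (((n + 1) ^ 2 / 4 : ℕ) : ℝ)))
    (hVS : V * S = S * V)
    (htr : ∀ W : Submodule ℂ fibreSpace, IsClosed (W : Set fibreSpace) →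
        (∀ f ∈ W, S f ∈ W) → (∀ f ∈ W, V f ∈ W) →
        (∀ g : ℤ_[2] → ℂ, Measurable g → (∃ C : ℝ, ∀ x, ‖g x‖ ≤ C) →
          ∀ f ∈ W, ∀ f' : fibreSpace,
            (∀ᵐ x ∂haarTwoAdic, (f' : ℤ_[2] → seqHilbert) x = g x • (f : ℤ_[2] → seqHilbert) x) →
              f' ∈ W) →
        W = ⊥ ∨ W = ⊤) : HypT fibreSpace := by
  refine ⟨S, hS0, quasi S hSn, ?_⟩
  intro W hW hA
  refine htr W hW (fun f hf => hA S rfl f hf) (fun f hf => hA V hVS f hf) ?_
  rintro g hg ⟨C, hC⟩ f hf f' hf'
  obtain ⟨A, hAg⟩ := mul_op g hg C hC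
  have hcomm : A * S = S * A := by
    ext1 h
    apply Lp.ext
    change (A (S h) : ℤ_[2] → seqHilbert) =ᵐ[haarTwoAdic] (S (A h) : ℤ_[2] → seqHilbert)
    filter_upwards [hAg (S h), hSf h, hSf (A h), hAg h] with x h1 h2 h3 h4
    rw [h1, h2, h3, h4, map_smul]
  have : f' = A f := by
    apply Lp.ext
    filter_upwards [hf', hAg f] with x h1 h2
    rw [h1, h2]
  rw [this]
  exact hA A hcomm f hf

/-- standard Hilbert basis of ℓ²(ℤ) -/
noncomputable def stdBasis : HilbertBasis ℤ ℂ seqHilbert :=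
  HilbertBasis.ofRepr (LinearIsometryEquiv.refl ℂ seqHilbert)

theorem sep_of_basis {H : Type*} [NormedAddCommGroup H] [InnerProductSpace ℂ H]
    {ι : Type*} [Countable ι] (b : HilbertBasis ι ℂ H) : TopologicalSpace.SeparableSpace H := by
  have h1 : TopologicalSpace.IsSeparable (Submodule.span ℂ (Set.range b) : Set H) :=
    (Set.countable_range b).isSeparable.span
  have h2 := h1.closure
  have h3 : closure (Submodule.span ℂ (Set.range b) : Set H) = Set.univ := by
    rw [← Submodule.topologicalClosure_coe, b.dense_span]; rfl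
  rw [h3] at h2
  exact TopologicalSpace.isSeparable_univ_iff.1 h2

instance : TopologicalSpace.SeparableSpace seqHilbert := sep_of_basis stdBasis

instance : IsProbabilityMeasure haarTwoAdic := by
  refine ⟨?_⟩
  have := MeasureTheory.Measure.addHaarMeasure_self (K₀ := (⊤ : TopologicalSpace.PositiveCompacts ℤ_[2]))
  simpa [haarTwoAdic] using this

theorem fibre_sep : TopologicalSpace.SeparableSpace fibreSpace := by
  have : Fact ((2 : ENNReal) ≠ ⊤) := ⟨by norm_num⟩
  infer_instance

theorem seq_inf : ¬ FiniteDimensional ℂ seqHilbert := by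
  intro h
  have h1 : LinearIndependent ℂ (stdBasis : ℤ → seqHilbert) := stdBasis.orthonormal.linearIndependent
  have := h1.finite
  exact not_finite ℤ

theorem fibre_inf : ¬ FiniteDimensional ℂ fibreSpace := by
  intro h
  apply seq_inf
  let L : seqHilbert →ₗ[ℂ] fibreSpace := Lp.constₗ 2 haarTwoAdic ℂ
  have hinj : Function.Injective L := by
    rw [← LinearMap.ker_eq_bot, LinearMap.ker_eq_bot']
    intro c hc
    have h2 : (L c : ℤ_[2] → seqHilbert) =ᵐ[haarTwoAdic] fun _ => c := Lp.coeFn_const ..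
    rw [hc] at h2
    have h3 : ∀ᵐ _x ∂haarTwoAdic, c = 0 := by
      filter_upwards [h2, Lp.coeFn_zero seqHilbert 2 haarTwoAdic] with x h4 h5
      rw [h5] at h4
      exact h4.symm
    exact h3.exists.choose_spec
  exact Module.Finite.of_injective L hinj

theorem s0148_of (h : HypT fibreSpace) (H : Type*) [NormedAddCommGroup H]
    [InnerProductSpace ℂ H] [CompleteSpace H]
    [TopologicalSpace.SeparableSpace H] (hH : ¬ FiniteDimensional ℂ H) : HypT H := by
  have := fibre_sep
  obtain ⟨e⟩ := iso_of_sep fibreSpace H fibre_inf hH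
  exact h.transfer e

end Crest.R113.H12
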