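import Mathlib
import Crest.Prelude.Def_TwoAdicShift
import Crest.Agent.H12_113_S148
/-! rid 113: S0150, norm estimates (helper12) -/
set_option autoImplicit false
open MeasureTheory Filter Topology
open Crest.AnalysisR.TwoAdic
attribute [local instance] Crest.AnalysisR.TwoAdic.borelTwoAdic
  Crest.AnalysisR.TwoAdic.borelSpace_twoAdic

namespace Crest.R113.H12

/-- sum of `1 + |i|` over `n` consecutive integers ending at `j - 1` (downwards) -/
def cs (j : ℤ) : ℕ → ℤ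
  | 0 => 0
  | n + 1 => cs (j - 1) n + (1 + |j - 1|)

theorem cs_succ (j : ℤ) (n : ℕ) : cs j (n + 1) = cs (j - 1) n + (1 + |j - 1|) := rfl

theorem cs_last (n : ℕ) : ∀ j : ℤ, cs j (n + 1) = cs j n + (1 + |j - (n + 1)|) := by
  induction n with
  | zero => intro j; simp [cs]
  | succ n ih =>
    intro j
    rw [cs_succ j (n + 1), ih (j - 1), cs_succ j n]
    push_cast
    rw [show j - 1 - ((n : ℤ) + 1) = j - ((n : ℤ) + 1 + 1) by ring]
    ring

theorem cs_lower : ∀ (n : ℕ) (j : ℤ), (((n + 1) ^ 2 / 4 : ℕ) : ℤ) ≤ cs j n := by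
  intro n
  induction n using Nat.strong_induction_on with
  | _ n ih =>
    match n with
    | 0 => intro j; simp [cs]
    | 1 =>
      intro j
      simp only [cs]
      have := abs_nonneg (j - 1)
      norm_num
    | n + 2 =>
      intro j
      have h1 := ih n (by omega) (j - 1)
      rw [cs_last (n + 1) j, cs_succ j n]
      have h2 : ((n : ℤ) + 1) ≤ |j - 1| + |j - (((n + 1 : ℕ) : ℤ) + 1)| := by
        have h3 := abs_sub (j - 1) (j - (((n + 1 : ℕ) : ℤ) + 1))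
        have h4 : (j - 1) - (j - (((n + 1 : ℕ) : ℤ) + 1)) = (n : ℤ) + 1 := by push_cast; ring
        rw [h4] at h3
        exact (le_abs_self _).trans h3
      have h5 : (((n + 2 + 1) ^ 2 / 4 : ℕ) : ℤ) = (((n + 1) ^ 2 / 4 : ℕ) : ℤ) + (n + 2) := by
        have : (n + 2 + 1) ^ 2 / 4 = (n + 1) ^ 2 / 4 + (n + 2) := by
          have h6 : (n + 2 + 1) ^ 2 = (n + 1) ^ 2 + 4 * (n + 2) := by ring
          rw [h6]; omega
        rw [this]; push_cast; ring
      rw [h5]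
      linarith

theorem norm_shift_le (v w : seqHilbert) (C : ℝ) (hC : 0 ≤ C) (n : ℤ)
    (h : ∀ j : ℤ, ‖(w : ℤ → ℂ) j‖ ≤ C * ‖(v : ℤ → ℂ) (j - n)‖) : ‖w‖ ≤ C * ‖v‖ := by
  have h2 : (0 : ℝ) < (2 : ENNReal).toReal := by norm_num
  have hv := (lp.hasSum_norm h2 v)
  have hw := (lp.hasSum_norm h2 w)
  have hv' : HasSum (fun j : ℤ => ‖(v : ℤ → ℂ) (j - n)‖ ^ (2 : ENNReal).toReal)
      (‖v‖ ^ (2 : ENNReal).toReal) := (Equiv.subRight n).hasSum_iff.2 hv
  have hle : ‖w‖ ^ (2 : ENNReal).toReal ≤ C ^ (2 : ENNReal).toReal * ‖v‖ ^ (2 : ENNReal).toReal := by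
    refine hasSum_le (fun j => ?_) hw (hv'.mul_left _)
    rw [← Real.mul_rpow hC (norm_nonneg _)]
    exact Real.rpow_le_rpow (norm_nonneg _) (h j) h2.le
  rw [← Real.mul_rpow hC (norm_nonneg _)] at hle
  exact (Real.rpow_le_rpow_iff (norm_nonneg _) (by positivity) h2).1 hle

section
variable (Φ : ℤ_[2] → ℤ → ℝ) (hlo : ∀ (x : ℤ_[2]) (j : ℤ), 10 * (1 + |(j : ℝ)|) ≤ Φ x j)
  (h0 : ∀ x, Φ x 0 = 10) (Sfib : ℤ_[2] → (seqHilbert →L[ℂ] seqHilbert))
  (hS : ∀ (x : ℤ_[2]) (v : seqHilbert) (j : ℤ),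
    (Sfib x v : ℤ → ℂ) j = (Real.exp (-Φ x (j - 1)) : ℂ) * (v : ℤ → ℂ) (j - 1))
  (S : fibreSpace →L[ℂ] fibreSpace)
  (hSf : ∀ f : fibreSpace, ∀ᵐ x ∂haarTwoAdic,
    (S f : ℤ_[2] → seqHilbert) x = Sfib x ((f : ℤ_[2] → seqHilbert) x))

include hlo hS in
theorem fib_pow_coord (x : ℤ_[2]) : ∀ (n : ℕ) (v : seqHilbert) (j : ℤ),
    ‖(((Sfib x) ^ n) v : ℤ → ℂ) j‖ ≤ Real.exp (-10 * (cs j n : ℝ)) * ‖(v : ℤ → ℂ) (j - n)‖ := by
  intro n
  induction n with
  | zero => intro v j; simp [cs]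
  | succ n ih =>
    intro v j
    rw [pow_succ']
    change ‖(Sfib x (((Sfib x) ^ n) v) : ℤ → ℂ) j‖ ≤ _
    rw [hS, norm_mul]
    have h1 := ih v (j - 1)
    have h2 : ‖(Real.exp (-Φ x (j - 1)) : ℂ)‖ ≤ Real.exp (-10 * (1 + |(j - 1 : ℤ)| : ℝ)) := by
      rw [Complex.norm_real, Real.norm_eq_abs, abs_of_pos (Real.exp_pos _)]
      apply Real.exp_le_exp.2
      have := hlo x (j - 1)
      push_cast at this ⊢
      linarith
    calc ‖(Real.exp (-Φ x (j - 1)) : ℂ)‖ * ‖((((Sfib x) ^ n) v : seqHilbert) : ℤ → ℂ) (j - 1)‖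
        ≤ Real.exp (-10 * (1 + |(j - 1 : ℤ)| : ℝ)) *
          (Real.exp (-10 * (cs (j - 1) n : ℝ)) * ‖(v : ℤ → ℂ) (j - 1 - n)‖) :=
          mul_le_mul h2 h1 (norm_nonneg _) (Real.exp_pos _).le
      _ = _ := by
          rw [← mul_assoc, ← Real.exp_add, cs_succ]
          push_cast
          rw [show j - 1 - (n : ℤ) = j - ((n : ℤ) + 1) by ring]
          congr 2
          ring

include hlo hS in
theorem fib_pow_norm (x : ℤ_[2]) (n : ℕ) (v : seqHilbert) :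
    ‖((Sfib x) ^ n) v‖ ≤ Real.exp (-10 * (((n + 1) ^ 2 / 4 : ℕ) : ℝ)) * ‖v‖ := by
  refine norm_shift_le v _ _ (Real.exp_pos _).le n (fun j => ?_)
  refine (fib_pow_coord Φ hlo Sfib hS x n v j).trans ?_
  refine mul_le_mul_of_nonneg_right ?_ (norm_nonneg _)
  apply Real.exp_le_exp.2
  have h1 := cs_lower n j
  have h2 : ((((n + 1) ^ 2 / 4 : ℕ) : ℤ) : ℝ) ≤ (cs j n : ℝ) := by exact_mod_cast h1
  have h3 : ((((n + 1) ^ 2 / 4 : ℕ) : ℤ) : ℝ) = (((n + 1) ^ 2 / 4 : ℕ) : ℝ) := by push_cast; rfl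
  rw [h3] at h2
  linarith

include hSf in
theorem pow_fibre (n : ℕ) : ∀ f : fibreSpace, ∀ᵐ x ∂haarTwoAdic,
    ((S ^ n) f : ℤ_[2] → seqHilbert) x = ((Sfib x) ^ n) ((f : ℤ_[2] → seqHilbert) x) := by
  induction n with
  | zero => intro f; simp
  | succ n ih =>
    intro f
    rw [pow_succ']
    filter_upwards [ih f, hSf ((S ^ n) f)] with x h1 h2
    change (S ((S ^ n) f) : ℤ_[2] → seqHilbert) x = _
    rw [h2, h1, pow_succ']
    rfl

include hlo h0 hS hSf in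
theorem norms : S ≠ 0 ∧ ‖S‖ = Real.exp (-10) ∧
    ∀ n : ℕ, 1 ≤ n → ‖S ^ n‖ ≤ Real.exp (-10 * (((n + 1) ^ 2 / 4 : ℕ) : ℝ)) := by
  have hn : ∀ n : ℕ, ‖S ^ n‖ ≤ Real.exp (-10 * (((n + 1) ^ 2 / 4 : ℕ) : ℝ)) := by
    intro n
    refine ContinuousLinearMap.opNorm_le_bound _ (Real.exp_pos _).le (fun f => ?_)
    refine Lp.norm_le_mul_norm_of_ae_le_mul ?_
    filter_upwards [pow_fibre Sfib S hSf n f] with x h1
    rw [h1]
    exact fib_pow_norm Φ hlo Sfib hS x n _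
  have h1 : ‖S‖ ≤ Real.exp (-10) := by
    have := hn 1
    norm_num at this
    exact this
  -- test vector
  have hmem : MemLp (fun _ : ℤ_[2] => basisVec 0) 2 haarTwoAdic := memLp_const _
  set f : fibreSpace := hmem.toLp _ with hf
  have hbn : ‖basisVec 0‖ = 1 := by
    unfold basisVec
    rw [lp.norm_single (by norm_num)]
    simp
  have hfn : ‖f‖ = 1 := by
    rw [hf, Lp.norm_toLp, eLpNorm_const _ (by norm_num) (IsProbabilityMeasure.ne_zero _)]
    simp [hbn]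
  have hSfn : ‖S f‖ = Real.exp (-10) := by
    have h3 : (S f : ℤ_[2] → seqHilbert) =ᵐ[haarTwoAdic]
        fun _ => (Real.exp (-10) : ℂ) • basisVec 1 := by
      filter_upwards [hSf f, hmem.coeFn_toLp] with x h4 h5
      rw [h4, hf, h5]
      apply lp.ext
      funext j
      rw [hS]
      by_cases hj : j = 1
      · subst hj
        simp [basisVec, h0, lp.single_apply]
      · have hj' : j - 1 ≠ 0 := by omega
        simp [basisVec, lp.single_apply, hj, hj']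
    rw [Lp.norm_def, eLpNorm_congr_ae h3, eLpNorm_const _ (by norm_num) (IsProbabilityMeasure.ne_zero _)]
    have hbn1 : ‖basisVec 1‖ = 1 := by
      unfold basisVec
      rw [lp.norm_single (by norm_num)]
      simp
    rw [enorm_smul, measure_univ, ENNReal.one_rpow, mul_one, ENNReal.toReal_mul, toReal_enorm,
      toReal_enorm, hbn1, mul_one, Complex.norm_real, Real.norm_eq_abs, abs_of_pos (Real.exp_pos _)]
  have h2 : Real.exp (-10) ≤ ‖S‖ := by
    have := S.le_opNorm f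
    rw [hSfn, hfn, mul_one] at this
    exact this
  refine ⟨?_, le_antisymm h1 h2, fun n _ => hn n⟩
  intro hS0
  rw [hS0, norm_zero] at h2
  exact absurd h2 (not_le.2 (Real.exp_pos _))

end

end Crest.R113.H12
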