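import Mathlib

/-!
Abstract convexity part for S0209/S0210 (specification only).
-/

set_option autoImplicit false

namespace Crest.Agent.H13AbsSpec

/-- sup-convolution in the field variable: `sup_t (g b (h+t) - t^2/(2 b a))`. -/
noncomputable def supConv (a : ℝ) (g : ℝ → ℝ → ℝ) (b h : ℝ) : ℝ :=
  ⨆ t : ℝ, (g b (h + t) - t ^ 2 / (2 * b * a))

/-- `(e, r)` is a (global, on the half plane `b > 0`) subgradient of `g` at `(b, h)`. -/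
def Sub (g : ℝ → ℝ → ℝ) (b h e r : ℝ) : Prop :=
  ∀ b' h' : ℝ, 0 < b' → g b h + e * (b' - b) + r * (h' - h) ≤ g b' h'

/-- Bounds satisfied by all the pressures `g` in the sequence. -/
structure Bnd (B κ : ℝ) (g : ℝ → ℝ → ℝ) : Prop where
  nonneg : ∀ b h : ℝ, 0 < b → 0 ≤ g b h
  conv : ConvexOn ℝ {x : ℝ × ℝ | 0 < x.1} (fun x => g x.1 x.2)
  mono : ∀ b : ℝ, 0 < b → Monotone (g b)
  upper : ∀ b h : ℝ, 0 < b → g b h ≤ 1 + (max (h + b * B) 0) ^ 2 / (4 * b * κ)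

/-- Bounds for the base pressure `g 0`. -/
structure Base (p p' K C₁ β₀ : ℝ) (g : ℝ → ℝ → ℝ) : Prop where
  anti : ∀ h : ℝ, AntitoneOn (fun b => g b h) (Set.Ioi 0)
  at_zero : ∀ b : ℝ, 0 < b → g b 0 ≤ 1
  at_K : ∀ b : ℝ, β₀ ≤ b → g b (K - 2) ≤ K * p + 1
  low1 : ∀ b h : ℝ, 0 < b → p' * h - C₁ ≤ g b h
  low2 : ∀ b h : ℝ, 0 < b → 2 * p' * h - K * p' - C₁ ≤ g b h

/-- The abstract theorem. -/
def AbstractKink : Prop :=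
  ∀ p D M : ℝ, 0 < p → p ≤ D → 1 ≤ D → 4 ≤ M →
    ∃ ε₀ : ℝ, 0 < ε₀ ∧ ε₀ < 1 ∧
      ∀ C₁ : ℝ, ∃ K₀ : ℝ, ∀ K : ℝ, K₀ ≤ K →
        ∃ β₁ β₂ H δ : ℝ, 0 < β₁ ∧ β₁ < β₂ ∧ 0 < H ∧ 0 < δ ∧
          ∀ (a ε : ℕ → ℝ) (g : ℕ → ℝ → ℝ → ℝ) (ginf : ℝ → ℝ → ℝ),
            a 0 = K →
            (∀ j, 0 < a j) → (∀ j, 0 ≤ ε j) →
            (∀ j, a (j + 1) ≤ δ / 2 ^ j) →
            (∀ j, ε j ≤ a (j + 1) * (δ / 2 ^ j) ^ 4) →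
            (∀ j, Bnd (D * M * K) (M * K) (g j)) →
            Base p ((1 - ε₀) * p) K C₁ (1 / (4 * (2 * D + 1))) (g 0) →
            (∀ j, ∀ b h : ℝ, β₁ ≤ b → b ≤ β₂ → |h| ≤ H →
              |g (j + 1) b h - supConv (a j) (g j) b h| ≤ ε j) →
            (∀ b h : ℝ, 0 < b → Filter.Tendsto (fun j => g j b h) Filter.atTop (nhds (ginf b h))) →
            ∃ bc hc r₀ r₁ r₂ e₀ e₁ e₂ : ℝ, 0 < bc ∧ 0 ≤ r₀ ∧ r₀ < r₁ ∧ r₁ < r₂ ∧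
              Sub ginf bc hc e₀ r₀ ∧ Sub ginf bc hc e₁ r₁ ∧ Sub ginf bc hc e₂ r₂ ∧
              (r₂ - r₀) * e₁ < (r₂ - r₁) * e₀ + (r₁ - r₀) * e₂

end Crest.Agent.H13AbsSpec
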