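import Mathlib
import Crest.Prelude.Def_PairPotential

/-!
Iterated integrals of functionals of finite configurations (lists of points).
-/

set_option autoImplicit false

open MeasureTheory
open scoped ENNReal

namespace Crest.Agent.H13Conf

abbrev Pt : Type := Crest.ProbabilityR.Continuum.Pt

/-- iterated integral of a list functional over `Λ^n`. -/
noncomputable def J (Λ : Set Pt) : ℕ → (List Pt → ℝ≥0∞) → ℝ≥0∞
  | 0, F => F []
  | n + 1, F => ∫⁻ x in Λ, J Λ n (fun l => F (x :: l))

/-- parametrised measurability of list functionals. -/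
def MF {α : Type} [MeasurableSpace α] (F : α → List Pt → ℝ≥0∞) : Prop :=
  ∀ n : ℕ, Measurable (fun p : α × (Fin n → Pt) => F p.1 (List.ofFn p.2))

/-- measurability of a list functional. -/
def MF1 (F : List Pt → ℝ≥0∞) : Prop :=
  ∀ n : ℕ, Measurable (fun x : Fin n → Pt => F (List.ofFn x))

theorem MF1.mf {F : List Pt → ℝ≥0∞} (hF : MF1 F) {α : Type} [MeasurableSpace α] :
    MF (fun _ : α => F) := fun n => (hF n).comp measurable_snd

theorem MF.mf1 {α : Type} [MeasurableSpace α] {F : α → List Pt → ℝ≥0∞} (hF : MF F) (a : α) :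
    MF1 (F a) := fun n => (hF n).comp (measurable_const.prodMk measurable_id)

theorem MF.comp {α γ : Type} [MeasurableSpace α] [MeasurableSpace γ] {F : α → List Pt → ℝ≥0∞}
    (hF : MF F) {f : γ → α} (hf : Measurable f) : MF (fun c => F (f c)) :=
  fun n => (hF n).comp ((hf.comp measurable_fst).prodMk measurable_snd)

theorem MF.cons {α : Type} [MeasurableSpace α] {F : α → List Pt → ℝ≥0∞} (hF : MF F) :
    MF (fun (p : α × Pt) l => F p.1 (p.2 :: l)) := by
  intro n
  have h := hF (n + 1)
  have h2 : Measurable (fun q : (α × Pt) × (Fin n → Pt) =>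
      ((q.1.1, Fin.cons q.1.2 q.2) : α × (Fin (n + 1) → Pt))) := by
    refine (measurable_fst.comp measurable_fst).prodMk ?_
    rw [measurable_pi_iff]
    intro i
    refine Fin.cases ?_ ?_ i
    · exact (measurable_snd.comp measurable_fst)
    · intro j
      exact (measurable_pi_apply j).comp measurable_snd
  have h3 := h.comp h2
  convert h3 using 2 with q
  simp [List.ofFn_succ]

theorem MF1.cons {F : List Pt → ℝ≥0∞} (hF : MF1 F) : MF (fun (x : Pt) l => F (x :: l)) := by
  have h := (hF.mf (α := Unit)).cons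
  exact h.comp (f := fun x : Pt => ((), x)) (measurable_const.prodMk measurable_id)

theorem measurable_J (Λ : Set Pt) (n : ℕ) : ∀ {α : Type} [MeasurableSpace α]
    {F : α → List Pt → ℝ≥0∞}, MF F → Measurable (fun a => J Λ n (F a)) := by
  induction n with
  | zero =>
    intro α _ F hF
    have h := hF 0
    simp only [J]
    have h2 : Measurable (fun a : α => ((a, Fin.elim0) : α × (Fin 0 → Pt))) :=
      measurable_id.prodMk measurable_const
    have h3 := h.comp h2
    convert h3 using 2 with a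
    simp
  | succ n ih =>
    intro α _ F hF
    simp only [J]
    have h := ih hF.cons
    exact Measurable.lintegral_prod_right' (f := fun p : α × Pt => J Λ n (fun l => F p.1 (p.2 :: l))) h

theorem measurable_J_cons (Λ : Set Pt) (n : ℕ) {F : List Pt → ℝ≥0∞} (hF : MF1 F) :
    Measurable (fun x : Pt => J Λ n (fun l => F (x :: l))) :=
  measurable_J Λ n hF.cons

/-- monotonicity, only lists with all members in `Λ` matter -/
theorem J_mono {Λ : Set Pt} (hΛ : MeasurableSet Λ) (n : ℕ) : ∀ {F G : List Pt → ℝ≥0∞},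
    (∀ l : List Pt, l.length = n → (∀ x ∈ l, x ∈ Λ) → F l ≤ G l) → J Λ n F ≤ J Λ n G := by
  induction n with
  | zero => intro F G h; exact h [] rfl (by simp)
  | succ n ih =>
    intro F G h
    refine lintegral_mono_ae ?_
    refine (ae_restrict_iff' hΛ).2 (Filter.Eventually.of_forall ?_)
    intro x hx
    refine ih ?_
    intro l hl hl2
    refine h (x :: l) (by simp [hl]) ?_
    intro y hy
    rcases List.mem_cons.1 hy with rfl | hy
    · exact hx
    · exact hl2 y hy

theorem J_congr {Λ : Set Pt} (hΛ : MeasurableSet Λ) (n : ℕ) {F G : List Pt → ℝ≥0∞}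
    (h : ∀ l : List Pt, l.length = n → (∀ x ∈ l, x ∈ Λ) → F l = G l) : J Λ n F = J Λ n G :=
  le_antisymm (J_mono hΛ n fun l h1 h2 => (h l h1 h2).le)
    (J_mono hΛ n fun l h1 h2 => (h l h1 h2).ge)

theorem J_mono_set {Λ Λ' : Set Pt} (h : Λ ⊆ Λ') (n : ℕ) : ∀ (F : List Pt → ℝ≥0∞),
    J Λ n F ≤ J Λ' n F := by
  induction n with
  | zero => intro F; exact le_rfl
  | succ n ih =>
    intro F
    exact (lintegral_mono fun x => ih _).trans (lintegral_mono_set h)

theorem MF.add {α : Type} [MeasurableSpace α] {F G : α → List Pt → ℝ≥0∞} (hF : MF F) (hG : MF G) :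
    MF (fun a l => F a l + G a l) := fun n => (hF n).add (hG n)

theorem MF.mul {α : Type} [MeasurableSpace α] {F G : α → List Pt → ℝ≥0∞} (hF : MF F) (hG : MF G) :
    MF (fun a l => F a l * G a l) := fun n => (hF n).mul (hG n)

theorem MF1.add {F G : List Pt → ℝ≥0∞} (hF : MF1 F) (hG : MF1 G) :
    MF1 (fun l => F l + G l) := fun n => (hF n).add (hG n)

theorem MF1.mul {F G : List Pt → ℝ≥0∞} (hF : MF1 F) (hG : MF1 G) :
    MF1 (fun l => F l * G l) := fun n => (hF n).mul (hG n)

theorem MF1.const (c : ℝ≥0∞) : MF1 (fun _ => c) := fun _ => measurable_const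

theorem MF.const {α : Type} [MeasurableSpace α] {c : α → ℝ≥0∞} (hc : Measurable c) :
    MF (fun a (_ : List Pt) => c a) := fun _ => hc.comp measurable_fst

theorem MF1.of_length (f : ℕ → ℝ≥0∞) : MF1 (fun l => f l.length) := by
  intro n
  simp

theorem MF1.prod {ι : Type} (s : Finset ι) {F : ι → List Pt → ℝ≥0∞} (hF : ∀ i ∈ s, MF1 (F i)) :
    MF1 (fun l => ∏ i ∈ s, F i l) := by
  intro n
  exact Finset.measurable_fun_prod s fun i hi => hF i hi n

theorem MF.prod {α ι : Type} [MeasurableSpace α] (s : Finset ι) {F : ι → α → List Pt → ℝ≥0∞}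
    (hF : ∀ i ∈ s, MF (F i)) : MF (fun a l => ∏ i ∈ s, F i a l) := by
  intro n
  exact Finset.measurable_fun_prod s fun i hi => hF i hi n

theorem J_add (Λ : Set Pt) (n : ℕ) : ∀ {F G : List Pt → ℝ≥0∞}, MF1 F → MF1 G →
    J Λ n (fun l => F l + G l) = J Λ n F + J Λ n G := by
  induction n with
  | zero => intro F G _ _; rfl
  | succ n ih =>
    intro F G hF hG
    simp only [J]
    rw [← lintegral_add_left (measurable_J_cons Λ n hF)]
    refine lintegral_congr fun x => ?_
    exact ih (hF.cons.mf1 x) (hG.cons.mf1 x)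

theorem J_const_mul (Λ : Set Pt) (n : ℕ) (c : ℝ≥0∞) : ∀ {F : List Pt → ℝ≥0∞}, MF1 F →
    J Λ n (fun l => c * F l) = c * J Λ n F := by
  induction n with
  | zero => intro F _; rfl
  | succ n ih =>
    intro F hF
    simp only [J]
    rw [← lintegral_const_mul c (measurable_J_cons Λ n hF)]
    refine lintegral_congr fun x => ?_
    exact ih (hF.cons.mf1 x)

theorem J_mul_const (Λ : Set Pt) (n : ℕ) (c : ℝ≥0∞) {F : List Pt → ℝ≥0∞} (hF : MF1 F) :
    J Λ n (fun l => F l * c) = J Λ n F * c := by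
  have := J_const_mul Λ n c hF
  rw [mul_comm] at this
  simpa [mul_comm] using this

theorem MF.filter {s : Set Pt} (hs : MeasurableSet s) [DecidablePred (· ∈ s)] (n : ℕ) :
    ∀ {α : Type} [MeasurableSpace α] {F : α → List Pt → ℝ≥0∞}, MF F →
    Measurable (fun p : α × (Fin n → Pt) => F p.1 ((List.ofFn p.2).filter (· ∈ s))) := by
  induction n with
  | zero =>
    intro α _ F hF
    have := hF 0
    simpa using this
  | succ n ih =>
    intro α _ F hF
    have h1 := ih hF.cons
    have h0 := ih hF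
    -- split on head
    have key : (fun p : α × (Fin (n + 1) → Pt) => F p.1 ((List.ofFn p.2).filter (· ∈ s))) =
        fun p => if p.2 0 ∈ s then
          (fun q : (α × Pt) × (Fin n → Pt) => F q.1.1 (q.1.2 :: (List.ofFn q.2).filter (· ∈ s)))
            ((p.1, p.2 0), fun i => p.2 i.succ)
        else (fun q : α × (Fin n → Pt) => F q.1 ((List.ofFn q.2).filter (· ∈ s)))
            (p.1, fun i => p.2 i.succ) := by
      funext p
      rw [List.ofFn_succ, List.filter_cons]
      by_cases h : p.2 0 ∈ s <;> simp [h]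
    rw [key]
    have m0 : Measurable (fun p : α × (Fin (n + 1) → Pt) => p.2 0) :=
      (measurable_pi_apply 0).comp measurable_snd
    have mt : Measurable (fun p : α × (Fin (n + 1) → Pt) => (fun i : Fin n => p.2 i.succ)) := by
      rw [measurable_pi_iff]
      intro i
      exact (measurable_pi_apply i.succ).comp measurable_snd
    refine Measurable.ite (m0 hs) ?_ ?_
    · exact h1.comp ((measurable_fst.prodMk m0).prodMk mt)
    · exact h0.comp (measurable_fst.prodMk mt)

theorem MF1.filter {s : Set Pt} (hs : MeasurableSet s) [DecidablePred (· ∈ s)]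
    {F : List Pt → ℝ≥0∞} (hF : MF1 F) : MF1 (fun l => F (l.filter (· ∈ s))) := by
  intro n
  have h := MF.filter hs n (hF.mf (α := Unit))
  exact h.comp (measurable_const (a := ()) |>.prodMk measurable_id)

theorem J_zero_fun (Λ : Set Pt) (n : ℕ) : J Λ n (fun _ => 0) = 0 := by
  induction n with
  | zero => rfl
  | succ n ih => simp [J, ih]

open Classical in
theorem J_union {A B : Set Pt} (hA : MeasurableSet A) (hB : MeasurableSet B)
    (hAB : Disjoint A B) (n : ℕ) : ∀ {FA FB : List Pt → ℝ≥0∞}, MF1 FA → MF1 FB →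
    J (A ∪ B) n (fun l => FA (l.filter (· ∈ A)) * FB (l.filter (· ∈ B))) =
      ∑ ij ∈ Finset.HasAntidiagonal.antidiagonal n, (n.choose ij.1 : ℝ≥0∞) * (J A ij.1 FA * J B ij.2 FB) := by
  induction n with
  | zero => intro FA FB _ _; simp [J]
  | succ n ih =>
    intro FA FB hFA hFB
    rw [Finset.sum_antidiagonal_choose_succ_mul (fun i j => J A i FA * J B j FB) n]
    have e1 : J (A ∪ B) (n + 1) (fun l => FA (l.filter (· ∈ A)) * FB (l.filter (· ∈ B))) =
        (∫⁻ x in A, J (A ∪ B) n (fun l => FA (x :: l.filter (· ∈ A)) * FB (l.filter (· ∈ B)))) +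
        (∫⁻ x in B, J (A ∪ B) n (fun l => FA (l.filter (· ∈ A)) * FB (x :: l.filter (· ∈ B)))) := by
      simp only [J]
      rw [lintegral_union hB hAB]
      congr 1
      · refine setLIntegral_congr_fun hA ?_
        intro x hx
        have hxB : x ∉ B := fun h => (Set.disjoint_left.1 hAB) hx h
        simp [List.filter_cons, hx, hxB]
      · refine setLIntegral_congr_fun hB ?_
        intro x hx
        have hxA : x ∉ A := fun h => (Set.disjoint_left.1 hAB) h hx
        simp [List.filter_cons, hx, hxA]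
    rw [e1, add_comm]
    congr 1
    · calc _ = ∫⁻ x in B, ∑ ij ∈ Finset.HasAntidiagonal.antidiagonal n,
            (n.choose ij.1 : ℝ≥0∞) * (J A ij.1 FA * J B ij.2 (fun l => FB (x :: l))) := by
            refine lintegral_congr fun x => ?_
            exact ih hFA (hFB.cons.mf1 x)
        _ = ∑ ij ∈ Finset.HasAntidiagonal.antidiagonal n, (n.choose ij.1 : ℝ≥0∞) * (J A ij.1 FA * J B (ij.2 + 1) FB) := by
            rw [lintegral_finsetSum]
            · refine Finset.sum_congr rfl fun ij _ => ?_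
              rw [lintegral_const_mul, lintegral_const_mul]
              · rfl
              · exact measurable_J_cons B ij.2 hFB
              · exact (measurable_J_cons B ij.2 hFB).const_mul _
            · intro ij _
              exact ((measurable_J_cons B ij.2 hFB).const_mul _).const_mul _
    · calc _ = ∫⁻ x in A, ∑ ij ∈ Finset.HasAntidiagonal.antidiagonal n,
            (n.choose ij.1 : ℝ≥0∞) * (J A ij.1 (fun l => FA (x :: l)) * J B ij.2 FB) := by
            refine lintegral_congr fun x => ?_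
            exact ih (hFA.cons.mf1 x) hFB
        _ = ∑ ij ∈ Finset.HasAntidiagonal.antidiagonal n, (n.choose ij.2 : ℝ≥0∞) * (J A (ij.1 + 1) FA * J B ij.2 FB) := by
            rw [lintegral_finsetSum]
            · refine Finset.sum_congr rfl fun ij hij => ?_
              rw [lintegral_const_mul, lintegral_mul_const]
              · rw [Nat.choose_symm_of_eq_add (Finset.HasAntidiagonal.mem_antidiagonal.1 hij).symm]
                rfl
              · exact measurable_J_cons A ij.1 hFA
              · exact (measurable_J_cons A ij.1 hFA).mul_const _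
            · intro ij _
              exact ((measurable_J_cons A ij.1 hFA).mul_const _).const_mul _

/-- grand canonical sum -/
noncomputable def G (Λ : Set Pt) (F : List Pt → ℝ≥0∞) : ℝ≥0∞ :=
  ∑' n : ℕ, ((n.factorial : ℝ≥0∞))⁻¹ * J Λ n F

theorem tsum_mul_tsum_antidiagonal (a b : ℕ → ℝ≥0∞) :
    (∑' n, a n) * (∑' n, b n) = ∑' n, ∑ ij ∈ Finset.HasAntidiagonal.antidiagonal n, a ij.1 * b ij.2 := by
  rw [← ENNReal.tsum_mul_left]
  simp_rw [← ENNReal.tsum_mul_right]
  rw [ENNReal.tsum_comm, ← ENNReal.tsum_prod (f := fun i j => a i * b j)]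
  rw [← Finset.HasAntidiagonal.sigmaAntidiagonalEquivProd.tsum_eq (fun p : ℕ × ℕ => a p.1 * b p.2)]
  rw [ENNReal.tsum_sigma' ]
  refine tsum_congr fun n => ?_
  rw [← Finset.tsum_subtype]
  rfl

theorem inv_fact_choose {n i j : ℕ} (h : i + j = n) :
    ((n.factorial : ℝ≥0∞))⁻¹ * (n.choose i : ℝ≥0∞) =
      ((i.factorial : ℝ≥0∞))⁻¹ * ((j.factorial : ℝ≥0∞))⁻¹ := by
  subst h
  have h1 : (((i + j).choose i * i.factorial * j.factorial : ℕ) : ℝ≥0∞) = ((i + j).factorial : ℝ≥0∞) := by
    congr 1
    have := Nat.add_choose_mul_factorial_mul_factorial i j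
    rwa [← Nat.choose_symm_add] at this
  have hi : ((i.factorial : ℝ≥0∞)) ≠ 0 := by simpa using Nat.factorial_ne_zero i
  have hj : ((j.factorial : ℝ≥0∞)) ≠ 0 := by simpa using Nat.factorial_ne_zero j
  have hi' : ((i.factorial : ℝ≥0∞)) ≠ ⊤ := ENNReal.natCast_ne_top _
  have hj' : ((j.factorial : ℝ≥0∞)) ≠ ⊤ := ENNReal.natCast_ne_top _
  have hn : (((i + j).factorial : ℝ≥0∞)) ≠ 0 := by simpa using Nat.factorial_ne_zero (i + j)
  have hn' : (((i + j).factorial : ℝ≥0∞)) ≠ ⊤ := ENNReal.natCast_ne_top _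
  push_cast at h1
  rw [← ENNReal.mul_inv (Or.inl hi) (Or.inl hi')]
  refine ENNReal.eq_inv_of_mul_eq_one_left ?_
  calc (((i + j).factorial : ℝ≥0∞))⁻¹ * ((i + j).choose i : ℝ≥0∞) * ((i.factorial : ℝ≥0∞) * (j.factorial : ℝ≥0∞))
      = (((i + j).factorial : ℝ≥0∞))⁻¹ * (((i + j).choose i : ℝ≥0∞) * (i.factorial : ℝ≥0∞) * (j.factorial : ℝ≥0∞)) := by ring
    _ = 1 := by rw [h1]; exact ENNReal.inv_mul_cancel hn hn'

open Classical in
theorem G_union {A B : Set Pt} (hA : MeasurableSet A) (hB : MeasurableSet B)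
    (hAB : Disjoint A B) {FA FB : List Pt → ℝ≥0∞} (hFA : MF1 FA) (hFB : MF1 FB) :
    G (A ∪ B) (fun l => FA (l.filter (· ∈ A)) * FB (l.filter (· ∈ B))) = G A FA * G B FB := by
  unfold G
  rw [tsum_mul_tsum_antidiagonal]
  refine tsum_congr fun n => ?_
  rw [J_union hA hB hAB n hFA hFB, Finset.mul_sum]
  refine Finset.sum_congr rfl fun ij hij => ?_
  have h := inv_fact_choose (Finset.HasAntidiagonal.mem_antidiagonal.1 hij)
  calc ((n.factorial : ℝ≥0∞))⁻¹ * ((n.choose ij.1 : ℝ≥0∞) * (J A ij.1 FA * J B ij.2 FB))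
      = (((n.factorial : ℝ≥0∞))⁻¹ * (n.choose ij.1 : ℝ≥0∞)) * (J A ij.1 FA * J B ij.2 FB) := by ring
    _ = _ := by rw [h]; ring

theorem G_mono {Λ : Set Pt} (hΛ : MeasurableSet Λ) {F F' : List Pt → ℝ≥0∞}
    (h : ∀ l : List Pt, (∀ x ∈ l, x ∈ Λ) → F l ≤ F' l) : G Λ F ≤ G Λ F' :=
  ENNReal.tsum_le_tsum fun n => mul_le_mul_right (J_mono hΛ n fun l _ hl => h l hl) _

theorem G_congr {Λ : Set Pt} (hΛ : MeasurableSet Λ) {F F' : List Pt → ℝ≥0∞}
    (h : ∀ l : List Pt, (∀ x ∈ l, x ∈ Λ) → F l = F' l) : G Λ F = G Λ F' :=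
  le_antisymm (G_mono hΛ fun l hl => (h l hl).le) (G_mono hΛ fun l hl => (h l hl).ge)

theorem G_mono_set {Λ Λ' : Set Pt} (h : Λ ⊆ Λ') (F : List Pt → ℝ≥0∞) : G Λ F ≤ G Λ' F :=
  ENNReal.tsum_le_tsum fun n => mul_le_mul_right (J_mono_set h n F) _

theorem J_empty (n : ℕ) (F : List Pt → ℝ≥0∞) : J ∅ (n + 1) F = 0 := by
  simp [J]

theorem G_empty (F : List Pt → ℝ≥0∞) : G ∅ F = F [] := by
  unfold G
  rw [tsum_eq_single 0]
  · simp [J]
  · intro n hn
    obtain ⟨m, rfl⟩ := Nat.exists_eq_succ_of_ne_zero hn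
    simp [J_empty]

open Classical in
/-- product formula over a finite family of pairwise disjoint sets. -/
theorem G_iUnion {ι : Type} (s : Finset ι) (Λ : ι → Set Pt) (hΛ : ∀ i ∈ s, MeasurableSet (Λ i))
    (hd : (s : Set ι).PairwiseDisjoint Λ) {F : ι → List Pt → ℝ≥0∞} (hF : ∀ i ∈ s, MF1 (F i)) :
    G (⋃ i ∈ s, Λ i) (fun l => ∏ i ∈ s, F i (l.filter (· ∈ Λ i))) = ∏ i ∈ s, G (Λ i) (F i) := by
  induction s using Finset.induction_on with
  | empty => simp [G_empty]
  | insert a s ha ih =>
    have hΛs : ∀ i ∈ s, MeasurableSet (Λ i) := fun i hi => hΛ i (Finset.mem_insert_of_mem hi)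
    have hUm : MeasurableSet (⋃ i ∈ s, Λ i) := s.measurableSet_biUnion hΛs
    have hdisj : Disjoint (Λ a) (⋃ i ∈ s, Λ i) := by
      rw [Set.disjoint_iUnion₂_right]
      intro i hi
      refine hd (by simp) (by simp [hi]) ?_
      rintro rfl
      exact ha hi
    rw [Finset.prod_insert ha, ← ih hΛs (hd.subset (by simp)) (fun i hi => hF i (Finset.mem_insert_of_mem hi))]
    rw [← G_union (hΛ a (by simp)) hUm hdisj (hF a (by simp))]
    · rw [Finset.set_biUnion_insert]
      refine G_congr ((hΛ a (by simp)).union hUm) ?_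
      intro l hl
      rw [Finset.prod_insert ha]
      congr 1
      refine Finset.prod_congr rfl fun i hi => ?_
      rw [List.filter_filter]
      congr 1
      refine List.filter_congr fun x _ => ?_
      by_cases hx : x ∈ Λ i
      · have : x ∈ ⋃ i ∈ s, Λ i := Set.mem_biUnion hi hx
        simp [hx, this]
      · simp [hx]
    · refine MF1.prod s fun i hi => ?_
      exact (hF i (Finset.mem_insert_of_mem hi)).filter (hΛs i hi)

end Crest.Agent.H13Conf
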