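import Mathlib
import Crest.Prelude.Def_PairPotential
import Crest.Prelude.Def_UnitPacking
import Crest.Agent.H13Conf

/-!
Pair sums over lists, Boltzmann functionals, partition functions, grand pressure.
-/

set_option autoImplicit false

open MeasureTheory
open scoped ENNReal

namespace Crest.Agent.H13Energy

open Crest.Agent.H13Conf

/-- sum of a pair function over the pairs of a list (earlier element first) -/
noncomputable def pairSum (u : Pt → Pt → ℝ) : List Pt → ℝ
  | [] => 0
  | x :: t => (t.map (u x)).sum + pairSum u t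

@[simp] theorem pairSum_nil (u : Pt → Pt → ℝ) : pairSum u [] = 0 := rfl

@[simp] theorem pairSum_cons (u : Pt → Pt → ℝ) (x : Pt) (t : List Pt) :
    pairSum u (x :: t) = (t.map (u x)).sum + pairSum u t := rfl

/-- radial pair energy -/
noncomputable def E (v : ℝ → ℝ) (l : List Pt) : ℝ := pairSum (fun x y => v (dist x y)) l

/-- Boltzmann weight `exp(-b E + h n)` as an extended nonnegative real -/
noncomputable def bw (v : ℝ → ℝ) (b h : ℝ) (l : List Pt) : ℝ≥0∞ :=
  ENNReal.ofReal (Real.exp (-b * E v l + h * l.length))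

/-- canonical partition function of the region `Λ` -/
noncomputable def Zc (v : ℝ → ℝ) (Λ : Set Pt) (n : ℕ) (b : ℝ) : ℝ≥0∞ :=
  ((n.factorial : ℝ≥0∞))⁻¹ * J Λ n (bw v b 0)

/-- grand canonical partition function of the region `Λ` -/
noncomputable def Xi (v : ℝ → ℝ) (Λ : Set Pt) (b h : ℝ) : ℝ≥0∞ := G Λ (bw v b h)

abbrev cube := Crest.ProbabilityR.Continuum.cube

/-- grand pressure (with corridor `r₀`) -/
noncomputable def press (r₀ : ℝ) (v : ℝ → ℝ) (b h : ℝ) : ℝ :=
  ⨆ L : Set.Ioi (0 : ℝ), Real.log (Xi v (cube (L : ℝ)) b h).toReal / ((L : ℝ) + r₀) ^ 3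

/-- unit-cell (side `1/2`) index -/
noncomputable def cell (x : Pt) : Fin 3 → ℤ := fun k => ⌊2 * x k⌋

open Classical in
/-- number of ordered pairs (diagonal included) of list entries in the same unit cell,
`= len + 2 * pairSum 1_{same cell} = Σ_c n_c²`. -/
noncomputable def Q (l : List Pt) : ℝ :=
  l.length + 2 * pairSum (fun x y => if cell x = cell y then 1 else 0) l

/-- the attractive Kac kernel at scale `R` (continuous, supported in `r ≤ R+1`,
`1_{r ≤ R} ≤ |B_R| * kac R r ≤ 1_{r ≤ R+1}`). -/
noncomputable def kac (R r : ℝ) : ℝ := max 0 (min 1 (R + 1 - r)) / (4 / 3 * Real.pi * R ^ 3)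

end Crest.Agent.H13Energy
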