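import Mathlib
import Crest.Agent.H13Energy

/-!
Measurability of Boltzmann functionals, translation invariance, link with `partitionFn`,
integration over the last particle.
-/

set_option autoImplicit false

open MeasureTheory
open scoped ENNReal

namespace Crest.Agent.H13Basic

open Crest.Agent.H13Conf Crest.Agent.H13Energy

/-- measurability of real list functionals -/
def MR (f : List Pt → ℝ) : Prop := ∀ n : ℕ, Measurable (fun x : Fin n → Pt => f (List.ofFn x))

theorem MR.ofReal {f : List Pt → ℝ} (hf : MR f) : MF1 (fun l => ENNReal.ofReal (f l)) :=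
  fun n => (hf n).ennreal_ofReal

theorem MR.exp {f : List Pt → ℝ} (hf : MR f) : MR (fun l => Real.exp (f l)) :=
  fun n => (hf n).exp

theorem MR.add {f g : List Pt → ℝ} (hf : MR f) (hg : MR g) : MR (fun l => f l + g l) :=
  fun n => (hf n).add (hg n)

theorem MR.sub {f g : List Pt → ℝ} (hf : MR f) (hg : MR g) : MR (fun l => f l - g l) :=
  fun n => (hf n).sub (hg n)

theorem MR.mul {f g : List Pt → ℝ} (hf : MR f) (hg : MR g) : MR (fun l => f l * g l) :=
  fun n => (hf n).mul (hg n)

theorem MR.const_mul {f : List Pt → ℝ} (hf : MR f) (c : ℝ) : MR (fun l => c * f l) :=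
  fun n => (hf n).const_mul c

theorem MR.const (c : ℝ) : MR (fun _ => c) := fun _ => measurable_const

theorem MR.of_length (f : ℕ → ℝ) : MR (fun l => f l.length) := by
  intro n; simp

theorem MR_pairSum {u : Pt → Pt → ℝ} (hu : Measurable (fun p : Pt × Pt => u p.1 p.2)) :
    MR (pairSum u) := by
  intro n
  induction n with
  | zero => simp
  | succ n ih =>
    have e : (fun x : Fin (n + 1) → Pt => pairSum u (List.ofFn x)) =
        fun x => (∑ i : Fin n, u (x 0) (x i.succ)) + pairSum u (List.ofFn (fun i : Fin n => x i.succ)) := by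
      funext x
      rw [List.ofFn_succ, pairSum_cons, List.map_ofFn, List.sum_ofFn]
      rfl
    rw [e]
    refine Measurable.add ?_ ?_
    · refine Finset.measurable_fun_sum _ fun i _ => ?_
      exact hu.comp (f := fun x : Fin (n + 1) → Pt => (x 0, x i.succ))
        ((measurable_pi_apply 0).prodMk (measurable_pi_apply i.succ))
    · exact ih.comp (measurable_pi_iff.2 fun i => measurable_pi_apply i.succ)

theorem measurable_radial {v : ℝ → ℝ} (hv : Measurable v) :
    Measurable (fun p : Pt × Pt => v (dist p.1 p.2)) := hv.comp measurable_dist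

theorem MR_E {v : ℝ → ℝ} (hv : Measurable v) : MR (E v) := MR_pairSum (measurable_radial hv)

theorem MF1_bw {v : ℝ → ℝ} (hv : Measurable v) (b h : ℝ) : MF1 (bw v b h) :=
  (((MR_E hv).const_mul (-b)).add ((MR.of_length (fun n => h * n)))).exp.ofReal

/-! ### translation -/

theorem J_translate (Λ : Set Pt) (hΛ : MeasurableSet Λ) (a : Pt) (n : ℕ) :
    ∀ (F : List Pt → ℝ≥0∞), MF1 F →
    J ((fun x => x - a) ⁻¹' Λ) n F = J Λ n (fun l => F (l.map (· + a))) := by
  induction n with
  | zero => intro F _; simp [J]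
  | succ n ih =>
    intro F hF
    simp only [J]
    have h1 : ∀ x, J ((fun x => x - a) ⁻¹' Λ) n (fun l => F (x :: l)) =
        (fun y => J Λ n (fun l => F ((y + a) :: l.map (· + a)))) (x - a) := by
      intro x
      rw [ih _ (hF.cons.mf1 x)]
      simp
    rw [lintegral_congr h1]
    have hm : Measurable (fun y => J Λ n (fun l => F ((y + a) :: l.map (· + a)))) := by
      have h2 := measurable_J ((fun x => x - a) ⁻¹' Λ) n hF.cons
      have h3 : (fun y => J Λ n (fun l => F ((y + a) :: l.map (· + a)))) =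
          fun y => J ((fun x => x - a) ⁻¹' Λ) n (fun l => F ((y + a) :: l)) := by
        funext y
        rw [ih _ (hF.cons.mf1 (y + a))]
      rw [h3]
      exact h2.comp (measurable_add_const a)
    have h4 := (measurePreserving_sub_right (volume : Measure Pt) a).setLIntegral_comp_preimage hΛ hm
    refine h4.trans ?_
    simp

theorem G_translate (Λ : Set Pt) (hΛ : MeasurableSet Λ) (a : Pt) (F : List Pt → ℝ≥0∞) (hF : MF1 F) :
    G ((fun x => x - a) ⁻¹' Λ) F = G Λ (fun l => F (l.map (· + a))) := by
  unfold G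
  simp_rw [J_translate Λ hΛ a _ F hF]

theorem G_translate_inv (Λ : Set Pt) (hΛ : MeasurableSet Λ) (a : Pt) (F : List Pt → ℝ≥0∞)
    (hF : MF1 F) (hinv : ∀ l, F (l.map (· + a)) = F l) :
    G ((fun x => x - a) ⁻¹' Λ) F = G Λ F := by
  rw [G_translate Λ hΛ a F hF]
  simp_rw [hinv]

theorem pairSum_map (u : Pt → Pt → ℝ) (f : Pt → Pt) (l : List Pt) :
    pairSum u (l.map f) = pairSum (fun x y => u (f x) (f y)) l := by
  induction l with
  | nil => rfl
  | cons x t ih => simp [ih, Function.comp_def]

theorem E_translate (v : ℝ → ℝ) (a : Pt) (l : List Pt) : E v (l.map (· + a)) = E v l := by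
  unfold E
  rw [pairSum_map]
  simp

theorem bw_translate (v : ℝ → ℝ) (b h : ℝ) (a : Pt) (l : List Pt) :
    bw v b h (l.map (· + a)) = bw v b h l := by
  unfold bw
  rw [E_translate]
  simp

/-! ### integrating out in the other order -/

theorem lintegral_J_comm (Λ : Set Pt) {μ : Measure Pt} [SFinite μ] (n : ℕ) :
    ∀ (H : Pt → List Pt → ℝ≥0∞), MF H →
    ∫⁻ x, J Λ n (H x) ∂μ = J Λ n (fun l => ∫⁻ x, H x l ∂μ) := by
  induction n with
  | zero => intro H _; rfl
  | succ n ih =>
    intro H hH
    simp only [J]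
    rw [lintegral_lintegral_swap]
    · refine lintegral_congr fun y => ?_
      refine ih (fun x l => H x (y :: l)) ?_
      have := hH.cons
      exact this.comp (f := fun x : Pt => (x, y)) (measurable_id.prodMk measurable_const)
    · have := measurable_J Λ n hH.cons
      exact this.aemeasurable

theorem J_succ' (Λ : Set Pt) (n : ℕ) {F : List Pt → ℝ≥0∞} (hF : MF1 F) :
    J Λ (n + 1) F = J Λ n (fun l => ∫⁻ x in Λ, F (x :: l)) := by
  simp only [J]
  exact lintegral_J_comm Λ n (fun x l => F (x :: l)) hF.cons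

/-! ### link with `partitionFn` -/

theorem J_eq_lintegral (Λ : Set Pt) (n : ℕ) : ∀ {F : List Pt → ℝ≥0∞}, MF1 F →
    J Λ n F = ∫⁻ x in Set.pi Set.univ (fun _ : Fin n => Λ), F (List.ofFn x) := by
  induction n with
  | zero =>
    intro F _
    have h : volume (Set.univ.pi fun _ : Fin 0 => Λ) = 1 := by
      rw [volume_pi_pi]; simp
    simp [J, h]
  | succ n ih =>
    intro F hF
    have h1 : ∀ x, J Λ n (fun l => F (x :: l)) =
      ∫⁻ y in Set.pi Set.univ (fun _ : Fin n => Λ), F (x :: List.ofFn y) := fun x => ih (hF.cons.mf1 x)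
    simp only [J]
    simp_rw [h1]
    have hp : Measurable (fun p : Pt × (Fin n → Pt) => F (p.1 :: List.ofFn p.2)) := hF.cons n
    rw [← lintegral_prod (μ := volume.restrict Λ)
      (ν := volume.restrict (Set.pi Set.univ (fun _ : Fin n => Λ)))
      (fun p : Pt × (Fin n → Pt) => F (p.1 :: List.ofFn p.2)) hp.aemeasurable]
    rw [Measure.prod_restrict]
    have hmp := volume_preserving_piFinSuccAbove (fun _ : Fin (n + 1) => Pt) 0
    have h2 := hmp.setLIntegral_comp_preimage_emb
      (MeasurableEquiv.piFinSuccAbove (fun _ : Fin (n + 1) => Pt) 0).measurableEmbedding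
      (fun p : Pt × (Fin n → Pt) => F (p.1 :: List.ofFn p.2))
      (Λ ×ˢ Set.pi Set.univ (fun _ : Fin n => Λ))
    rw [← Measure.volume_eq_prod] at *
    rw [← h2]
    have hset : (MeasurableEquiv.piFinSuccAbove (fun _ : Fin (n + 1) => Pt) 0) ⁻¹'
        (Λ ×ˢ Set.pi Set.univ (fun _ : Fin n => Λ)) = Set.pi Set.univ (fun _ : Fin (n + 1) => Λ) := by
      ext x
      simp only [Set.mem_preimage, Set.mem_prod, Set.mem_pi, Set.mem_univ, true_implies,
        MeasurableEquiv.piFinSuccAbove_apply]
      constructor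
      · rintro ⟨h0, h1⟩ i
        refine Fin.cases h0 (fun j => ?_) i
        exact h1 j
      · intro h
        exact ⟨h 0, fun i => h _⟩
    rw [hset]
    refine lintegral_congr fun x => ?_
    rw [List.ofFn_succ]
    rfl

theorem sum_pairs_eq {n : ℕ} (g : Fin n → Fin n → ℝ) :
    ∑ p : {p : Fin n × Fin n // p.1 < p.2}, g p.1.1 p.1.2 =
      ∑ i, ∑ j, if i < j then g i j else 0 := by
  rw [← Finset.sum_product', Finset.univ_product_univ, ← Finset.sum_filter]
  symm
  exact Finset.sum_subtype _ (fun x => by simp) (fun p : Fin n × Fin n => g p.1 p.2)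

theorem pairSum_ofFn (u : Pt → Pt → ℝ) (n : ℕ) (x : Fin n → Pt) :
    pairSum u (List.ofFn x) = ∑ i, ∑ j, if i < j then u (x i) (x j) else 0 := by
  induction n with
  | zero => simp
  | succ n ih =>
    rw [List.ofFn_succ, pairSum_cons, ih, Fin.sum_univ_succ, Fin.sum_univ_succ]
    simp only [lt_self_iff_false, if_false, zero_add, Fin.succ_pos, if_true, List.map_ofFn, List.sum_ofFn]
    congr 1
    refine Finset.sum_congr rfl fun i _ => ?_
    rw [Fin.sum_univ_succ]
    simp

theorem energy_eq (φ : ℝ → ℝ) {n : ℕ} (x : Fin n → Pt) :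
    Crest.ProbabilityR.Continuum.energy φ x = E φ (List.ofFn x) := by
  unfold Crest.ProbabilityR.Continuum.energy E
  rw [pairSum_ofFn, sum_pairs_eq (fun i j => φ (dist (x i) (x j)))]

theorem measurable_energy {φ : ℝ → ℝ} (hφ : Measurable φ) (n : ℕ) :
    Measurable (fun x : Fin n → Pt => Crest.ProbabilityR.Continuum.energy φ x) := by
  simp_rw [energy_eq]
  exact MR_E hφ n

theorem partitionFn_eq {φ : ℝ → ℝ} (hφ : Measurable φ) (L : ℝ) (N : ℕ) (β : ℝ) :
    Crest.ProbabilityR.Continuum.partitionFn φ L N β = (Zc φ (cube L) N β).toReal := by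
  unfold Crest.ProbabilityR.Continuum.partitionFn Zc
  rw [J_eq_lintegral _ _ (MF1_bw hφ β 0), ENNReal.toReal_mul]
  congr 1
  · simp
  · rw [integral_eq_lintegral_of_nonneg_ae]
    · congr 1
      refine lintegral_congr fun x => ?_
      simp [bw, energy_eq]
    · exact Filter.Eventually.of_forall fun x => (Real.exp_pos _).le
    · exact (((measurable_energy hφ N).const_mul (-β)).exp).aestronglyMeasurable

end Crest.Agent.H13Basic
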