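import Mathlib
import Crest.Agent.H13Basic

/-!
Cubes, boxes, block decompositions.
-/

set_option autoImplicit false

open MeasureTheory
open scoped ENNReal

namespace Crest.Agent.H13Cube

open Crest.Agent.H13Conf Crest.Agent.H13Energy Crest.Agent.H13Basic

theorem measurable_coord (k : Fin 3) : Measurable (fun x : Pt => x k) := by
  fun_prop

theorem mem_cube {L : ℝ} {x : Pt} : x ∈ cube L ↔ ∀ k, 0 ≤ x k ∧ x k ≤ L := Iff.rfl

theorem measurableSet_cube (L : ℝ) : MeasurableSet (cube L) := by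
  have : cube L = ⋂ k : Fin 3, (fun x : Pt => x k) ⁻¹' (Set.Icc 0 L) := by
    ext x; simp [mem_cube]
  rw [this]
  exact MeasurableSet.iInter fun k => measurable_coord k measurableSet_Icc

theorem volume_cube {L : ℝ} (hL : 0 ≤ L) : volume (cube L) = ENNReal.ofReal (L ^ 3) := by
  have h := (EuclideanSpace.volume_preserving_symm_measurableEquiv_toLp (Fin 3)).measure_preimage
    (s := Set.pi Set.univ (fun _ : Fin 3 => Set.Icc (0 : ℝ) L))
    (MeasurableSet.univ_pi fun _ => measurableSet_Icc).nullMeasurableSet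
  have e : (MeasurableEquiv.toLp 2 (Fin 3 → ℝ)).symm ⁻¹' Set.pi Set.univ (fun _ : Fin 3 => Set.Icc (0 : ℝ) L) = cube L := by
    ext x
    simp only [Set.mem_preimage, Set.mem_pi, Set.mem_univ, true_implies, Set.mem_Icc, mem_cube]
    rfl
  rw [e] at h
  rw [h, volume_pi_pi]
  simp [Real.volume_Icc, ENNReal.ofReal_pow hL]

theorem cube_mono {L L' : ℝ} (h : L ≤ L') : cube L ⊆ cube L' :=
  fun _ hx k => ⟨(hx k).1, (hx k).2.trans h⟩

/-- closed box with corner `a` and side `L` -/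
def box (a : Fin 3 → ℝ) (L : ℝ) : Set Pt := {x | ∀ k, a k ≤ x k ∧ x k ≤ a k + L}

theorem box_eq (a : Fin 3 → ℝ) (L : ℝ) :
    box a L = (fun x : Pt => x - WithLp.toLp 2 a) ⁻¹' cube L := by
  ext x
  simp only [box, Set.mem_ofPred_eq, Set.mem_preimage, mem_cube, PiLp.sub_apply]
  constructor
  · intro h k
    have := h k
    constructor <;> linarith
  · intro h k
    have := h k
    constructor <;> linarith

theorem measurableSet_box (a : Fin 3 → ℝ) (L : ℝ) : MeasurableSet (box a L) := by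
  rw [box_eq]
  exact (measurable_sub_const _) (measurableSet_cube L)

theorem abs_coord_le_dist (x y : Pt) (k : Fin 3) : |x k - y k| ≤ dist x y := by
  rw [EuclideanSpace.dist_eq]
  have h1 : (dist (x k) (y k)) ^ 2 ≤ ∑ i, dist (x i) (y i) ^ 2 :=
    Finset.single_le_sum (f := fun i => dist (x i) (y i) ^ 2) (fun i _ => sq_nonneg _) (Finset.mem_univ k)
  have h2 : dist (x k) (y k) = |x k - y k| := Real.dist_eq _ _
  rw [← h2]
  exact Real.le_sqrt_of_sq_le h1

theorem dist_le_of_coord {x y : Pt} {c : ℝ} (hc : 0 ≤ c) (h : ∀ k, |x k - y k| ≤ c) :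
    dist x y ≤ 2 * c := by
  rw [EuclideanSpace.dist_eq]
  rw [Real.sqrt_le_left (by linarith)]
  have : ∀ i : Fin 3, dist (x i) (y i) ^ 2 ≤ c ^ 2 := by
    intro i
    rw [Real.dist_eq]
    exact pow_le_pow_left₀ (abs_nonneg _) (h i) 2
  calc ∑ i, dist (x i) (y i) ^ 2 ≤ ∑ _i : Fin 3, c ^ 2 := Finset.sum_le_sum fun i _ => this i
    _ = 3 * c ^ 2 := by simp
    _ ≤ (2 * c) ^ 2 := by nlinarith

/-- volume of a general translated functional over a box -/
theorem G_box (a : Fin 3 → ℝ) (L : ℝ) {F : List Pt → ℝ≥0∞} (hF : MF1 F)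
    (hinv : ∀ (c : Pt) (l : List Pt), F (l.map (· + c)) = F l) : G (box a L) F = G (cube L) F := by
  rw [box_eq]
  exact G_translate_inv _ (measurableSet_cube L) _ F hF (hinv _)

/-- half-open block with index `i` for the shifted grid of side `ℓ` -/
def blk (ℓ : ℝ) (a : Fin 3 → ℝ) (i : Fin 3 → ℤ) : Set Pt :=
  {x | ∀ k, ⌊(x k + a k) / ℓ⌋ = i k}

/-- the block index map -/
noncomputable def bmap (ℓ : ℝ) (a : Fin 3 → ℝ) (x : Pt) : Fin 3 → ℤ := fun k => ⌊(x k + a k) / ℓ⌋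

theorem mem_blk {ℓ : ℝ} {a : Fin 3 → ℝ} {i : Fin 3 → ℤ} {x : Pt} :
    x ∈ blk ℓ a i ↔ bmap ℓ a x = i := by
  unfold blk bmap
  constructor
  · intro h; funext k; exact h k
  · intro h k; exact congrFun h k

theorem measurableSet_blk (ℓ : ℝ) (a : Fin 3 → ℝ) (i : Fin 3 → ℤ) : MeasurableSet (blk ℓ a i) := by
  have : blk ℓ a i = ⋂ k : Fin 3, {x : Pt | ⌊(x k + a k) / ℓ⌋ = i k} := by
    ext x; simp [blk]
  rw [this]
  refine MeasurableSet.iInter fun k => ?_
  have hm : Measurable (fun x : Pt => ⌊(x k + a k) / ℓ⌋) :=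
    Int.measurable_floor.comp (((measurable_coord k).add_const _).div_const _)
  exact hm (measurableSet_singleton (i k))

theorem blk_disjoint (ℓ : ℝ) (a : Fin 3 → ℝ) {i j : Fin 3 → ℤ} (h : i ≠ j) :
    Disjoint (blk ℓ a i) (blk ℓ a j) := by
  rw [Set.disjoint_left]
  intro x hx hy
  rw [mem_blk] at hx hy
  exact h (hx.symm.trans hy)

theorem blk_subset_box {ℓ : ℝ} (hℓ : 0 < ℓ) (a : Fin 3 → ℝ) (i : Fin 3 → ℤ) :
    blk ℓ a i ⊆ box (fun k => ℓ * i k - a k) ℓ := by
  intro x hx k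
  have h := hx k
  rw [Int.floor_eq_iff] at h
  obtain ⟨h1, h2⟩ := h
  rw [le_div_iff₀ hℓ] at h1
  rw [div_lt_iff₀ hℓ] at h2
  constructor <;> nlinarith

end Crest.Agent.H13Cube
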