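import Mathlib
import Crest.Agent.H13Energy

/-!
Basic lemmas on `pairSum` (rid 149).
-/

set_option autoImplicit false

namespace Crest.Agent.H19Pair

open Crest.Agent.H13Conf Crest.Agent.H13Energy

/-! ### list sums -/

theorem sum_map_le_sum_map {α : Type*} {f g : α → ℝ} (l : List α) (h : ∀ x ∈ l, f x ≤ g x) :
    (l.map f).sum ≤ (l.map g).sum := by
  induction l with
  | nil => simp
  | cons a t ih =>
    simp only [List.map_cons, List.sum_cons]
    have h1 := h a (by simp)
    have h2 := ih fun x hx => h x (by simp [hx])
    linarith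

theorem sum_map_filter {α : Type*} (f : α → ℝ) (p : α → Bool) (l : List α) :
    ((l.filter p).map f).sum = (l.map fun x => if p x then f x else 0).sum := by
  induction l with
  | nil => simp
  | cons a t ih =>
    by_cases h : p a <;> simp [List.filter_cons, h, ih]

theorem sum_map_add' {α : Type*} (f g : α → ℝ) (l : List α) :
    (l.map fun x => f x + g x).sum = (l.map f).sum + (l.map g).sum := by
  induction l with
  | nil => simp
  | cons a t ih => simp only [List.map_cons, List.sum_cons, ih]; ring

theorem sum_map_mul_left' {α : Type*} (c : ℝ) (f : α → ℝ) (l : List α) :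
    (l.map fun x => c * f x).sum = c * (l.map f).sum := by
  induction l with
  | nil => simp
  | cons a t ih => simp only [List.map_cons, List.sum_cons, ih]; ring

theorem sum_map_zero' {α : Type*} (l : List α) : (l.map fun _ => (0 : ℝ)).sum = 0 := by
  induction l with
  | nil => simp
  | cons a t ih => simp only [List.map_cons, List.sum_cons, ih]; ring

theorem sum_map_finset_sum {α ι : Type*} (s : Finset ι) (f : ι → α → ℝ) (l : List α) :
    (l.map fun x => ∑ i ∈ s, f i x).sum = ∑ i ∈ s, (l.map (f i)).sum := by
  induction l with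
  | nil => simp
  | cons a t ih => simp only [List.map_cons, List.sum_cons, ih, Finset.sum_add_distrib]

theorem sum_map_one {α : Type*} (l : List α) : (l.map fun _ => (1 : ℝ)).sum = l.length := by
  induction l with
  | nil => simp
  | cons a t ih => simp only [List.map_cons, List.sum_cons, ih, List.length_cons]; push_cast; ring

/-! ### linearity and monotonicity -/

theorem pairSum_mono {u w : Pt → Pt → ℝ} (l : List Pt)
    (h : ∀ x ∈ l, ∀ y ∈ l, u x y ≤ w x y) : pairSum u l ≤ pairSum w l := by
  induction l with
  | nil => simp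
  | cons a t ih =>
    simp only [pairSum_cons]
    have h1 := sum_map_le_sum_map t (f := u a) (g := w a) fun y hy =>
      h a (by simp) y (by simp [hy])
    have h2 := ih fun x hx y hy => h x (by simp [hx]) y (by simp [hy])
    linarith

theorem pairSum_congr {u w : Pt → Pt → ℝ} (l : List Pt)
    (h : ∀ x ∈ l, ∀ y ∈ l, u x y = w x y) : pairSum u l = pairSum w l :=
  le_antisymm (pairSum_mono l fun x hx y hy => (h x hx y hy).le)
    (pairSum_mono l fun x hx y hy => (h x hx y hy).ge)

theorem pairSum_add (u w : Pt → Pt → ℝ) (l : List Pt) :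
    pairSum (fun x y => u x y + w x y) l = pairSum u l + pairSum w l := by
  induction l with
  | nil => simp
  | cons a t ih => simp only [pairSum_cons, ih, sum_map_add']; ring

theorem pairSum_const_mul (c : ℝ) (u : Pt → Pt → ℝ) (l : List Pt) :
    pairSum (fun x y => c * u x y) l = c * pairSum u l := by
  induction l with
  | nil => simp
  | cons a t ih => simp only [pairSum_cons, ih, sum_map_mul_left']; ring

theorem pairSum_mul_const (c : ℝ) (u : Pt → Pt → ℝ) (l : List Pt) :
    pairSum (fun x y => u x y * c) l = pairSum u l * c := by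
  have := pairSum_const_mul c u l
  simpa [mul_comm] using this

theorem pairSum_neg (u : Pt → Pt → ℝ) (l : List Pt) :
    pairSum (fun x y => -u x y) l = -pairSum u l := by
  have := pairSum_const_mul (-1) u l
  simpa using this

theorem pairSum_sub (u w : Pt → Pt → ℝ) (l : List Pt) :
    pairSum (fun x y => u x y - w x y) l = pairSum u l - pairSum w l := by
  have := pairSum_add u (fun x y => -w x y) l
  simpa [sub_eq_add_neg, pairSum_neg] using this

theorem pairSum_zero (l : List Pt) : pairSum (fun _ _ => (0 : ℝ)) l = 0 := by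
  induction l with
  | nil => simp
  | cons a t ih => rw [pairSum_cons, ih, sum_map_zero']; ring

theorem pairSum_finset_sum {ι : Type*} (s : Finset ι) (u : ι → Pt → Pt → ℝ) (l : List Pt) :
    pairSum (fun x y => ∑ i ∈ s, u i x y) l = ∑ i ∈ s, pairSum (u i) l := by
  induction l with
  | nil => simp
  | cons a t ih =>
    simp only [pairSum_cons, ih, sum_map_finset_sum, Finset.sum_add_distrib]

theorem pairSum_nonneg {u : Pt → Pt → ℝ} (l : List Pt)
    (h : ∀ x ∈ l, ∀ y ∈ l, 0 ≤ u x y) : 0 ≤ pairSum u l := by
  rw [← pairSum_zero l]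
  exact pairSum_mono l h

theorem pairSum_nonpos {u : Pt → Pt → ℝ} (l : List Pt)
    (h : ∀ x ∈ l, ∀ y ∈ l, u x y ≤ 0) : pairSum u l ≤ 0 := by
  rw [← pairSum_zero l]
  exact pairSum_mono l h

/-- number of pairs -/
theorem pairSum_one (l : List Pt) :
    2 * pairSum (fun _ _ => (1 : ℝ)) l = (l.length : ℝ) * (l.length - 1) := by
  induction l with
  | nil => simp
  | cons a t ih =>
    rw [pairSum_cons, sum_map_one, mul_add, ih, List.length_cons]
    push_cast
    ring

/-! ### filters -/

/-- splitting a pair sum along a predicate. -/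
theorem pairSum_filter_same (u : Pt → Pt → ℝ) (p : Pt → Bool) (l : List Pt) :
    pairSum (fun x y => if p x = p y then u x y else 0) l =
      pairSum u (l.filter p) + pairSum u (l.filter fun x => !p x) := by
  induction l with
  | nil => simp
  | cons a t ih =>
    rw [pairSum_cons, ih]
    by_cases h : p a
    · have h1 : (a :: t).filter p = a :: t.filter p := by simp [h]
      have h2 : ((a :: t).filter fun x => !p x) = t.filter fun x => !p x := by simp [h]
      rw [h1, h2, pairSum_cons, sum_map_filter]
      have : (t.map fun y => if p a = p y then u a y else 0).sum =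
          (t.map fun x => if p x = true then u a x else 0).sum := by
        congr 1
        refine List.map_congr_left fun y _ => ?_
        rw [h]
        cases p y <;> simp
      rw [this]
      ring
    · have h1 : (a :: t).filter p = t.filter p := by simp [h]
      have h2 : ((a :: t).filter fun x => !p x) = a :: t.filter fun x => !p x := by simp [h]
      rw [h1, h2, pairSum_cons, sum_map_filter]
      have : (t.map fun y => if p a = p y then u a y else 0).sum =
          (t.map fun x => if (!p x) = true then u a x else 0).sum := by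
        congr 1
        refine List.map_congr_left fun y _ => ?_
        have h' : p a = false := by simpa using h
        rw [h']
        cases p y <;> simp
      rw [this]
      ring

theorem pairSum_filter_le {u : Pt → Pt → ℝ} (p : Pt → Bool) (l : List Pt)
    (h : ∀ x ∈ l, ∀ y ∈ l, p x ≠ p y → u x y ≤ 0) :
    pairSum u l ≤ pairSum u (l.filter p) + pairSum u (l.filter fun x => !p x) := by
  rw [← pairSum_filter_same]
  refine pairSum_mono l fun x hx y hy => ?_
  split_ifs with hxy
  · exact le_rfl
  · exact h x hx y hy hxy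

theorem pairSum_filter_ge {u : Pt → Pt → ℝ} (p : Pt → Bool) (l : List Pt)
    (h : ∀ x ∈ l, ∀ y ∈ l, p x ≠ p y → 0 ≤ u x y) :
    pairSum u (l.filter p) + pairSum u (l.filter fun x => !p x) ≤ pairSum u l := by
  rw [← pairSum_filter_same]
  refine pairSum_mono l fun x hx y hy => ?_
  split_ifs with hxy
  · exact le_rfl
  · exact h x hx y hy hxy

theorem pairSum_filter_eq {u : Pt → Pt → ℝ} (p : Pt → Bool) (l : List Pt)
    (h : ∀ x ∈ l, ∀ y ∈ l, p x ≠ p y → u x y = 0) :
    pairSum u l = pairSum u (l.filter p) + pairSum u (l.filter fun x => !p x) :=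
  le_antisymm (pairSum_filter_le p l fun x hx y hy hxy => (h x hx y hy hxy).le)
    (pairSum_filter_ge p l fun x hx y hy hxy => (h x hx y hy hxy).ge)

/-- nonneg pair functions: sub-configurations have smaller pair sums -/
theorem pairSum_filter_mono {u : Pt → Pt → ℝ} (p : Pt → Bool) (l : List Pt)
    (h : ∀ x ∈ l, ∀ y ∈ l, 0 ≤ u x y) : pairSum u (l.filter p) ≤ pairSum u l := by
  have h1 := pairSum_filter_ge p l fun x hx y hy _ => h x hx y hy
  have h2 : 0 ≤ pairSum u (l.filter fun x => !p x) :=
    pairSum_nonneg _ fun x hx y hy => h x (List.mem_of_mem_filter hx) y (List.mem_of_mem_filter hy)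
  linarith

/-! ### block decompositions -/

variable {ι : Type*} [DecidableEq ι]

/-- block decomposition of the same-block part. -/
theorem pairSum_block (u : Pt → Pt → ℝ) (b : Pt → ι) (S : Finset ι) (l : List Pt)
    (hS : ∀ x ∈ l, b x ∈ S) :
    pairSum (fun x y => if b x = b y then u x y else 0) l =
      ∑ i ∈ S, pairSum u (l.filter fun x => decide (b x = i)) := by
  induction l with
  | nil => simp
  | cons a t ih =>
    rw [pairSum_cons, ih fun x hx => hS x (by simp [hx])]
    have ha : b a ∈ S := hS a (by simp)
    rw [← Finset.sum_erase_add S _ ha, ← Finset.sum_erase_add S _ ha]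
    have h1 : ∀ i ∈ S.erase (b a), pairSum u ((a :: t).filter fun x => decide (b x = i)) =
        pairSum u (t.filter fun x => decide (b x = i)) := by
      intro i hi
      have : b a ≠ i := fun h => (Finset.ne_of_mem_erase hi) h.symm
      simp [List.filter_cons, this]
    rw [Finset.sum_congr rfl h1]
    have h2 : ((a :: t).filter fun x => decide (b x = b a)) =
        a :: t.filter fun x => decide (b x = b a) := by simp
    rw [h2, pairSum_cons, sum_map_filter]
    have h3 : (t.map fun y => if b a = b y then u a y else 0).sum =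
        (t.map fun x => if decide (b x = b a) = true then u a x else 0).sum := by
      congr 1
      refine List.map_congr_left fun y _ => ?_
      simp [eq_comm]
    rw [h3]
    ring

theorem pairSum_le_block {u : Pt → Pt → ℝ} (b : Pt → ι) (S : Finset ι) (l : List Pt)
    (hS : ∀ x ∈ l, b x ∈ S) (h : ∀ x ∈ l, ∀ y ∈ l, b x ≠ b y → u x y ≤ 0) :
    pairSum u l ≤ ∑ i ∈ S, pairSum u (l.filter fun x => decide (b x = i)) := by
  rw [← pairSum_block u b S l hS]
  refine pairSum_mono l fun x hx y hy => ?_
  split_ifs with hxy
  · exact le_rfl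
  · exact h x hx y hy hxy

theorem block_le_pairSum {u : Pt → Pt → ℝ} (b : Pt → ι) (S : Finset ι) (l : List Pt)
    (hS : ∀ x ∈ l, b x ∈ S) (h : ∀ x ∈ l, ∀ y ∈ l, b x ≠ b y → 0 ≤ u x y) :
    ∑ i ∈ S, pairSum u (l.filter fun x => decide (b x = i)) ≤ pairSum u l := by
  rw [← pairSum_block u b S l hS]
  refine pairSum_mono l fun x hx y hy => ?_
  split_ifs with hxy
  · exact le_rfl
  · exact h x hx y hy hxy

theorem pairSum_eq_block {u : Pt → Pt → ℝ} (b : Pt → ι) (S : Finset ι) (l : List Pt)
    (hS : ∀ x ∈ l, b x ∈ S) (h : ∀ x ∈ l, ∀ y ∈ l, b x ≠ b y → u x y = 0) :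
    pairSum u l = ∑ i ∈ S, pairSum u (l.filter fun x => decide (b x = i)) :=
  le_antisymm (pairSum_le_block b S l hS fun x hx y hy hxy => (h x hx y hy hxy).le)
    (block_le_pairSum b S l hS fun x hx y hy hxy => (h x hx y hy hxy).ge)

theorem sum_length_filter (b : Pt → ι) (S : Finset ι) (l : List Pt) (hS : ∀ x ∈ l, b x ∈ S) :
    ∑ i ∈ S, ((l.filter fun x => decide (b x = i)).length : ℝ) = l.length := by
  induction l with
  | nil => simp
  | cons a t ih =>
    have ha : b a ∈ S := hS a (by simp)
    have ih' := ih fun x hx => hS x (by simp [hx])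
    rw [List.length_cons, Nat.cast_add, ← ih', ← Finset.sum_erase_add S _ ha,
      ← Finset.sum_erase_add S _ ha]
    have h1 : ∀ i ∈ S.erase (b a), (((a :: t).filter fun x => decide (b x = i)).length : ℝ) =
        ((t.filter fun x => decide (b x = i)).length : ℝ) := by
      intro i hi
      have : b a ≠ i := fun h => (Finset.ne_of_mem_erase hi) h.symm
      simp [List.filter_cons, this]
    rw [Finset.sum_congr rfl h1]
    have h2 : ((a :: t).filter fun x => decide (b x = b a)) =
        a :: t.filter fun x => decide (b x = b a) := by simp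
    rw [h2, List.length_cons]
    push_cast
    ring

theorem sum_sq_length_filter (b : Pt → ι) (S : Finset ι) (l : List Pt) (hS : ∀ x ∈ l, b x ∈ S) :
    ∑ i ∈ S, ((l.filter fun x => decide (b x = i)).length : ℝ) ^ 2 =
      l.length + 2 * pairSum (fun x y => if b x = b y then 1 else 0) l := by
  have h1 := pairSum_block (fun _ _ => (1 : ℝ)) b S l hS
  rw [h1, Finset.mul_sum, ← sum_length_filter b S l hS, ← Finset.sum_add_distrib]
  refine Finset.sum_congr rfl fun i _ => ?_
  rw [pairSum_one]
  ring

/-! ### the radial energy -/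

theorem E_nil (v : ℝ → ℝ) : E v [] = 0 := rfl

theorem E_cons (v : ℝ → ℝ) (x : Pt) (t : List Pt) :
    E v (x :: t) = (t.map fun y => v (dist x y)).sum + E v t := rfl

theorem E_add (v w : ℝ → ℝ) (l : List Pt) : E (fun r => v r + w r) l = E v l + E w l :=
  pairSum_add _ _ l

theorem E_const_mul (c : ℝ) (v : ℝ → ℝ) (l : List Pt) : E (fun r => c * v r) l = c * E v l :=
  pairSum_const_mul _ _ l

theorem E_sub (v w : ℝ → ℝ) (l : List Pt) : E (fun r => v r - w r) l = E v l - E w l :=
  pairSum_sub _ _ l

theorem E_nonneg {v : ℝ → ℝ} (h : ∀ r, 0 ≤ r → 0 ≤ v r) (l : List Pt) : 0 ≤ E v l :=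
  pairSum_nonneg l fun _ _ _ _ => h _ dist_nonneg

theorem E_mono {v w : ℝ → ℝ} (h : ∀ r, 0 ≤ r → v r ≤ w r) (l : List Pt) : E v l ≤ E w l :=
  pairSum_mono l fun _ _ _ _ => h _ dist_nonneg

end Crest.Agent.H19Pair
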