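import Mathlib
import Crest.Agent.H13Cube
import Crest.Agent.H19Pair

/-!
Product formula for blocks, separated boxes, superadditivity.
-/

set_option autoImplicit false

open MeasureTheory
open scoped ENNReal

namespace Crest.Agent.H13Super

open Crest.Agent.H13Conf Crest.Agent.H13Energy Crest.Agent.H13Basic Crest.Agent.H13Cube
open Crest.Agent.H19Pair

open Classical in
theorem G_blocks_eq {ι : Type} (b : Pt → ι) (s : Finset ι) (Λ : ι → Set Pt)
    (hΛ : ∀ i ∈ s, MeasurableSet (Λ i)) (hb : ∀ i ∈ s, ∀ x ∈ Λ i, b x = i)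
    {F : ι → List Pt → ℝ≥0∞} (hF : ∀ i ∈ s, MF1 (F i)) :
    G (⋃ i ∈ s, Λ i) (fun l => ∏ i ∈ s, F i (l.filter (fun x => decide (b x = i)))) =
      ∏ i ∈ s, G (Λ i) (F i) := by
  have hd : (s : Set ι).PairwiseDisjoint Λ := by
    intro i hi j hj hij
    rw [Function.onFun, Set.disjoint_left]
    intro x hx hy
    exact hij ((hb i hi x hx).symm.trans (hb j hj x hy))
  rw [← G_iUnion s Λ hΛ hd hF]
  refine G_congr (s.measurableSet_biUnion hΛ) ?_
  intro l hl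
  refine Finset.prod_congr rfl fun i hi => ?_
  congr 1
  refine List.filter_congr fun x hx => ?_
  have hx' := hl x hx
  simp only [Set.mem_iUnion, exists_prop] at hx'
  obtain ⟨j, hj, hxj⟩ := hx'
  have hbj := hb j hj x hxj
  by_cases hij : j = i
  · subst hij; simp [hbj, hxj]
  · have h1 : b x ≠ i := fun h => hij (hbj.symm.trans h)
    have h2 : x ∉ Λ i := fun h => h1 (hb i hi x h)
    simp [h1, h2]

/-- index set of the blocks -/
noncomputable def idx (M : ℕ) : Finset (Fin 3 → ℤ) := Fintype.piFinset (fun _ => Finset.Ico (0 : ℤ) M)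

theorem mem_idx {M : ℕ} {i : Fin 3 → ℤ} : i ∈ idx M ↔ ∀ k, 0 ≤ i k ∧ i k < M := by
  simp [idx, Fintype.mem_piFinset]

theorem card_idx (M : ℕ) : (idx M).card = M ^ 3 := by
  simp [idx, Fintype.card_piFinset]

/-- separated boxes of side `ℓ` with spacing `lam` -/
def sbox (lam ℓ : ℝ) (i : Fin 3 → ℤ) : Set Pt := box (fun k => lam * i k) ℓ

theorem mem_sbox {lam ℓ : ℝ} {i : Fin 3 → ℤ} {x : Pt} :
    x ∈ sbox lam ℓ i ↔ ∀ k, lam * i k ≤ x k ∧ x k ≤ lam * i k + ℓ := Iff.rfl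

theorem measurableSet_sbox (lam ℓ : ℝ) (i : Fin 3 → ℤ) : MeasurableSet (sbox lam ℓ i) :=
  measurableSet_box _ _

theorem bmap_sbox {lam ℓ : ℝ} (hlam : 0 < lam) (h : ℓ < lam) {i : Fin 3 → ℤ} {x : Pt}
    (hx : x ∈ sbox lam ℓ i) : bmap lam 0 x = i := by
  funext k
  have hk := (mem_sbox.1 hx) k
  unfold bmap
  rw [Int.floor_eq_iff]
  simp only [Pi.zero_apply, add_zero]
  constructor
  · rw [le_div_iff₀ hlam]; linarith [hk.1]
  · rw [div_lt_iff₀ hlam]; nlinarith [hk.2]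

theorem sbox_subset_cube {lam ℓ : ℝ} (hlam : 0 < lam) (h : ℓ ≤ lam) {M : ℕ} {i : Fin 3 → ℤ}
    (hi : i ∈ idx M) : sbox lam ℓ i ⊆ cube (M * lam) := by
  intro x hx k
  have hk := (mem_sbox.1 hx) k
  have hik := (mem_idx.1 hi) k
  have h1 : (0 : ℝ) ≤ i k := by exact_mod_cast hik.1
  have h2 : (i k : ℝ) + 1 ≤ M := by exact_mod_cast hik.2
  constructor
  · have := mul_nonneg hlam.le h1; linarith [hk.1]
  · nlinarith [hk.2]

theorem sbox_sep {lam ℓ : ℝ} (hlam : 0 < lam) {i j : Fin 3 → ℤ} (hij : i ≠ j) {x y : Pt}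
    (hx : x ∈ sbox lam ℓ i) (hy : y ∈ sbox lam ℓ j) : lam - ℓ ≤ dist x y := by
  obtain ⟨k, hk⟩ := Function.ne_iff.1 hij
  refine le_trans ?_ (abs_coord_le_dist x y k)
  have h1 := (mem_sbox.1 hx) k
  have h2 := (mem_sbox.1 hy) k
  rcases lt_or_gt_of_ne hk with h | h
  · have h3 : (i k : ℝ) + 1 ≤ j k := by exact_mod_cast h
    rw [abs_sub_comm, le_abs]
    left
    nlinarith
  · have h3 : (j k : ℝ) + 1 ≤ i k := by exact_mod_cast h
    rw [le_abs]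
    left
    nlinarith

/-- a functional is translation invariant -/
def TI (F : List Pt → ℝ≥0∞) : Prop := ∀ (c : Pt) (l : List Pt), F (l.map (· + c)) = F l

theorem TI_bw (v : ℝ → ℝ) (b h : ℝ) : TI (bw v b h) := fun c l => bw_translate v b h c l

/-- the general lower bound through separated boxes -/
theorem prod_G_le {lam ℓ : ℝ} (hlam : 0 < lam) (h : ℓ < lam) (M : ℕ)
    {F : (Fin 3 → ℤ) → List Pt → ℝ≥0∞} (hF : ∀ i, MF1 (F i)) (hTI : ∀ i, TI (F i))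
    {H : List Pt → ℝ≥0∞}
    (hH : ∀ l : List Pt, (∀ x ∈ l, bmap lam 0 x ∈ idx M ∧ x ∈ sbox lam ℓ (bmap lam 0 x)) →
      ∏ i ∈ idx M, F i (l.filter (fun x => decide (bmap lam 0 x = i))) ≤ H l) :
    ∏ i ∈ idx M, G (cube ℓ) (F i) ≤ G (cube (M * lam)) H := by
  have h1 : ∏ i ∈ idx M, G (cube ℓ) (F i) = ∏ i ∈ idx M, G (sbox lam ℓ i) (F i) :=
    Finset.prod_congr rfl fun i _ => (G_box _ ℓ (hF i) (hTI i)).symm
  rw [h1, ← G_blocks_eq (bmap lam 0) (idx M) (sbox lam ℓ) (fun i _ => measurableSet_sbox lam ℓ i)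
    (fun i _ x hx => bmap_sbox hlam h hx) (fun i _ => hF i)]
  refine le_trans (G_mono ((idx M).measurableSet_biUnion fun i _ => measurableSet_sbox lam ℓ i) (F' := H) ?_)
    (G_mono_set ?_ H)
  · intro l hl
    refine le_trans (le_of_eq ?_) (hH l ?_)
    · refine Finset.prod_congr rfl fun i _ => ?_
      congr 1
      refine List.filter_congr fun x _ => ?_
      simp
    · intro x hx
      have := hl x hx
      simp only [Set.mem_iUnion, exists_prop] at this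
      obtain ⟨i, hi, hxi⟩ := this
      rw [bmap_sbox hlam h hxi]
      exact ⟨hi, hxi⟩
  · refine Set.iUnion₂_subset fun i hi => ?_
    exact sbox_subset_cube hlam h.le hi

/-! ### basic properties of `G` and `J` -/

theorem G_const_mul (Λ : Set Pt) (c : ℝ≥0∞) {F : List Pt → ℝ≥0∞} (hF : MF1 F) :
    G Λ (fun l => c * F l) = c * G Λ F := by
  unfold G
  rw [← ENNReal.tsum_mul_left]
  refine tsum_congr fun n => ?_
  rw [J_const_mul Λ n c hF]
  ring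

theorem G_add (Λ : Set Pt) {F F' : List Pt → ℝ≥0∞} (hF : MF1 F) (hF' : MF1 F') :
    G Λ (fun l => F l + F' l) = G Λ F + G Λ F' := by
  unfold G
  rw [← ENNReal.tsum_add]
  refine tsum_congr fun n => ?_
  rw [J_add Λ n hF hF']
  ring

theorem G_sum {ι : Type} (s : Finset ι) (Λ : Set Pt) {F : ι → List Pt → ℝ≥0∞}
    (hF : ∀ i ∈ s, MF1 (F i)) : G Λ (fun l => ∑ i ∈ s, F i l) = ∑ i ∈ s, G Λ (F i) := by
  classical
  induction s using Finset.induction_on with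
  | empty =>
    simp only [Finset.sum_empty]
    unfold G
    simp [J_zero_fun]
  | insert a s ha ih =>
    simp only [Finset.sum_insert ha]
    rw [G_add Λ (hF a (by simp)), ih fun i hi => hF i (Finset.mem_insert_of_mem hi)]
    intro n
    exact Finset.measurable_fun_sum s fun i hi => hF i (Finset.mem_insert_of_mem hi) n

/-- the functional `F` restricted to lists of length `n` -/
def lenR (n : ℕ) (F : List Pt → ℝ≥0∞) (l : List Pt) : ℝ≥0∞ := if l.length = n then F l else 0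

theorem MF1_lenR {n : ℕ} {F : List Pt → ℝ≥0∞} (hF : MF1 F) : MF1 (lenR n F) := by
  intro m
  by_cases h : m = n
  · subst h
    simpa [lenR] using hF m
  · simp [lenR, h]

theorem TI_lenR {n : ℕ} {F : List Pt → ℝ≥0∞} (hF : TI F) : TI (lenR n F) := by
  intro c l
  simp [lenR, hF c l]

theorem G_lenR {Λ : Set Pt} (hΛ : MeasurableSet Λ) (n : ℕ) (F : List Pt → ℝ≥0∞) :
    G Λ (lenR n F) = ((n.factorial : ℝ≥0∞))⁻¹ * J Λ n F := by
  unfold G
  rw [tsum_eq_single n]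
  · congr 1
    refine J_congr hΛ n fun l hl _ => ?_
    simp [lenR, hl]
  · intro m hm
    have : J Λ m (lenR n F) = J Λ m (fun _ => 0) := by
      refine J_congr hΛ m fun l hl _ => ?_
      simp [lenR, hl, hm]
    rw [this, J_zero_fun, mul_zero]

theorem G_lenR_bw {Λ : Set Pt} (hΛ : MeasurableSet Λ) (v : ℝ → ℝ) (n : ℕ) (b : ℝ) :
    G Λ (lenR n (bw v b 0)) = Zc v Λ n b := G_lenR hΛ n _

theorem bw_pos (v : ℝ → ℝ) (b h : ℝ) (l : List Pt) : 0 < bw v b h l :=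
  ENNReal.ofReal_pos.2 (Real.exp_pos _)

theorem bw_nil (v : ℝ → ℝ) (b h : ℝ) : bw v b h [] = 1 := by
  simp [bw, E]

theorem bw_split (v : ℝ → ℝ) (b h : ℝ) (l : List Pt) :
    bw v b h l = ENNReal.ofReal (Real.exp h) ^ l.length * bw v b 0 l := by
  unfold bw
  rw [← ENNReal.ofReal_pow (Real.exp_pos _).le, ← ENNReal.ofReal_mul (by positivity),
    ← Real.exp_nat_mul, ← Real.exp_add]
  congr 2
  ring

theorem Xi_eq_tsum (v : ℝ → ℝ) (hv : Measurable v) (Λ : Set Pt) (hΛ : MeasurableSet Λ) (b h : ℝ) :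
    Xi v Λ b h = ∑' n : ℕ, ENNReal.ofReal (Real.exp (h * n)) * Zc v Λ n b := by
  unfold Xi G
  refine tsum_congr fun n => ?_
  have : J Λ n (bw v b h) = J Λ n (fun l => ENNReal.ofReal (Real.exp (h * n)) * bw v b 0 l) := by
    refine J_congr hΛ n fun l hl _ => ?_
    rw [bw_split, hl, ← ENNReal.ofReal_pow (Real.exp_pos _).le, ← Real.exp_nat_mul]
    congr 3
    ring
  rw [this, J_const_mul Λ n _ (MF1_bw hv b 0)]
  unfold Zc
  ring

theorem one_le_Xi (v : ℝ → ℝ) (Λ : Set Pt) (b h : ℝ) : 1 ≤ Xi v Λ b h := by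
  unfold Xi G
  refine le_trans ?_ (ENNReal.le_tsum 0)
  simp [J, bw_nil]

theorem J_pos {Λ : Set Pt} (hΛ : 0 < volume Λ) (n : ℕ) : ∀ {F : List Pt → ℝ≥0∞}, MF1 F →
    (∀ l, 0 < F l) → 0 < J Λ n F := by
  induction n with
  | zero => intro F _ h; exact h []
  | succ n ih =>
    intro F hF h
    simp only [J]
    rw [setLIntegral_pos_iff (measurable_J_cons Λ n hF)]
    have : Function.support (fun x => J Λ n fun l => F (x :: l)) = Set.univ := by
      ext x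
      simp only [Function.mem_support, Set.mem_univ, iff_true]
      exact (ih (hF.cons.mf1 x) fun l => h _).ne'
    rw [this, Set.univ_inter]
    exact hΛ

theorem volume_cube_pos {L : ℝ} (hL : 0 < L) : 0 < volume (cube L) := by
  rw [volume_cube hL.le]
  exact ENNReal.ofReal_pos.2 (by positivity)

theorem Zc_pos {v : ℝ → ℝ} (hv : Measurable v) {L : ℝ} (hL : 0 < L) (n : ℕ) (b : ℝ) :
    0 < Zc v (cube L) n b := by
  unfold Zc
  refine ENNReal.mul_pos ?_ (J_pos (volume_cube_pos hL) n (MF1_bw hv b 0) fun l => bw_pos _ _ _ _).ne'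
  exact ENNReal.inv_ne_zero.2 (ENNReal.natCast_ne_top _)

theorem J_pow (Λ : Set Pt) (c : ℝ≥0∞) (n : ℕ) :
    J Λ n (fun l => c ^ l.length) = (c * volume Λ) ^ n := by
  have h1 : ∀ n : ℕ, J Λ n (fun l => c ^ l.length) = (c * volume Λ) ^ n := by
    intro n
    induction n with
    | zero => simp [J]
    | succ n ih =>
      simp only [J, List.length_cons, pow_succ]
      rw [J_mul_const Λ n c (MF1.of_length (fun n => c ^ n)), ih]
      simp [mul_comm, mul_assoc, mul_left_comm]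
  exact h1 n

theorem tsum_pow_fact {x : ℝ} (hx : 0 ≤ x) :
    ∑' n : ℕ, ((n.factorial : ℝ≥0∞))⁻¹ * ENNReal.ofReal x ^ n = ENNReal.ofReal (Real.exp x) := by
  have h1 : Real.exp x = ∑' n : ℕ, x ^ n / n.factorial := by
    rw [Real.exp_eq_exp_ℝ, NormedSpace.exp_eq_tsum_div]
  rw [h1, ENNReal.ofReal_tsum_of_nonneg (fun n => by positivity) (Real.summable_pow_div_factorial x)]
  refine tsum_congr fun n => ?_
  rw [ENNReal.ofReal_div_of_pos (by positivity), ENNReal.ofReal_pow hx, ENNReal.ofReal_natCast,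
    ENNReal.div_eq_inv_mul]

theorem G_pow_cube {L : ℝ} (hL : 0 ≤ L) (x : ℝ) (F : List Pt → ℝ≥0∞)
    (hF : ∀ l, (∀ y ∈ l, y ∈ cube L) → F l ≤ ENNReal.ofReal (Real.exp (x * l.length))) :
    G (cube L) F ≤ ENNReal.ofReal (Real.exp (L ^ 3 * Real.exp x)) := by
  have h1 : G (cube L) F ≤ G (cube L) (fun l => ENNReal.ofReal (Real.exp x) ^ l.length) := by
    refine G_mono (measurableSet_cube L) fun l hl => (hF l hl).trans (le_of_eq ?_)
    rw [← ENNReal.ofReal_pow (Real.exp_pos _).le, ← Real.exp_nat_mul]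
    congr 2
    ring
  refine h1.trans (le_of_eq ?_)
  unfold G
  simp_rw [J_pow, volume_cube hL]
  rw [← ENNReal.ofReal_mul (Real.exp_pos _).le, tsum_pow_fact (by positivity), mul_comm]

/-! ### superadditivity -/

/-- stable potentials, nonpositive beyond `r₀` -/
structure Pot (r₀ B : ℝ) (v : ℝ → ℝ) : Prop where
  pos : 0 < r₀
  meas : Measurable v
  neg : ∀ r, r₀ ≤ r → v r ≤ 0
  stab : ∀ l : List Pt, -B * l.length ≤ E v l

/-- `l` is a configuration in the separated boxes -/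
def InBoxes (lam ℓ : ℝ) (M : ℕ) (l : List Pt) : Prop :=
  ∀ x ∈ l, bmap lam 0 x ∈ idx M ∧ x ∈ sbox lam ℓ (bmap lam 0 x)

theorem E_le_blocks {r₀ B ℓ : ℝ} {v : ℝ → ℝ} (hv : Pot r₀ B v) (hℓ : 0 < ℓ) {M : ℕ} {l : List Pt}
    (hl : InBoxes (ℓ + r₀) ℓ M l) :
    E v l ≤ ∑ i ∈ idx M, E v (l.filter (fun x => decide (bmap (ℓ + r₀) 0 x = i))) := by
  refine pairSum_le_block (bmap (ℓ + r₀) 0) (idx M) l (fun x hx => (hl x hx).1) ?_
  intro x hx y hy hxy
  refine hv.neg _ ?_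
  have := sbox_sep (lam := ℓ + r₀) (ℓ := ℓ) (by linarith [hv.pos]) hxy (hl x hx).2 (hl y hy).2
  linarith

theorem prod_ofReal_exp {ι : Type} (s : Finset ι) (f : ι → ℝ) :
    ∏ i ∈ s, ENNReal.ofReal (Real.exp (f i)) = ENNReal.ofReal (Real.exp (∑ i ∈ s, f i)) := by
  rw [Real.exp_sum, ENNReal.ofReal_prod_of_nonneg]
  intro i _
  exact (Real.exp_pos _).le

theorem Xi_superadd {r₀ B ℓ : ℝ} {v : ℝ → ℝ} (hv : Pot r₀ B v) (hℓ : 0 < ℓ) (M : ℕ) {b h : ℝ}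
    (hb : 0 ≤ b) : Xi v (cube ℓ) b h ^ (M ^ 3) ≤ Xi v (cube (M * (ℓ + r₀))) b h := by
  have h1 : Xi v (cube ℓ) b h ^ (M ^ 3) = ∏ i ∈ idx M, G (cube ℓ) (bw v b h) := by
    rw [Finset.prod_const, card_idx]; rfl
  rw [h1]
  refine prod_G_le (by linarith [hv.pos]) (by linarith [hv.pos]) M (fun _ => MF1_bw hv.meas b h)
    (fun _ => TI_bw v b h) ?_
  intro l hl
  unfold bw
  rw [prod_ofReal_exp]
  refine ENNReal.ofReal_le_ofReal (Real.exp_le_exp.2 ?_)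
  rw [Finset.sum_add_distrib, ← Finset.mul_sum, ← Finset.mul_sum,
    sum_length_filter (bmap (ℓ + r₀) 0) (idx M) l (fun x hx => (hl x hx).1)]
  have := E_le_blocks hv hℓ hl
  nlinarith

/-- canonical block bound, with a bonus `c` -/
theorem Zc_blocks_gen {ℓ lam : ℝ} (hlam : 0 < lam) (h : ℓ < lam) (M : ℕ) {v w : ℝ → ℝ}
    (hv : Measurable v) (hw : Measurable w) {b : ℝ} (hb : 0 ≤ b)
    (N : (Fin 3 → ℤ) → ℕ) (c : ℝ)
    (hE : ∀ l, InBoxes lam ℓ M l →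
      (∀ i ∈ idx M, (l.filter (fun x => decide (bmap lam 0 x = i))).length = N i) →
      E w l ≤ ∑ i ∈ idx M, E v (l.filter (fun x => decide (bmap lam 0 x = i))) - c) :
    ENNReal.ofReal (Real.exp (b * c)) * ∏ i ∈ idx M, Zc v (cube ℓ) (N i) b ≤
      Zc w (cube (M * lam)) (∑ i ∈ idx M, N i) b := by
  have h1 : ∏ i ∈ idx M, Zc v (cube ℓ) (N i) b =
      ∏ i ∈ idx M, G (cube ℓ) (lenR (N i) (bw v b 0)) :=
    Finset.prod_congr rfl fun i _ => (G_lenR_bw (measurableSet_cube ℓ) v (N i) b).symm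
  have h2 := prod_G_le hlam h M (F := fun i => lenR (N i) (bw v b 0))
    (fun i => MF1_lenR (MF1_bw hv b 0)) (fun i => TI_lenR (TI_bw v b 0))
    (H := fun l => ENNReal.ofReal (Real.exp (-(b * c))) * lenR (∑ i ∈ idx M, N i) (bw w b 0) l) ?_
  · rw [G_const_mul _ _ (MF1_lenR (MF1_bw hw b 0)), G_lenR_bw (measurableSet_cube _)] at h2
    rw [h1]
    calc ENNReal.ofReal (Real.exp (b * c)) * ∏ i ∈ idx M, G (cube ℓ) (lenR (N i) (bw v b 0))
        ≤ ENNReal.ofReal (Real.exp (b * c)) * (ENNReal.ofReal (Real.exp (-(b * c))) *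
          Zc w (cube (M * lam)) (∑ i ∈ idx M, N i) b) := by gcongr
      _ = _ := by
        rw [← mul_assoc, ← ENNReal.ofReal_mul (Real.exp_pos _).le, ← Real.exp_add]
        simp
  · intro l hl
    by_cases hlen : ∀ i ∈ idx M, (l.filter (fun x => decide (bmap lam 0 x = i))).length = N i
    · have hsum : l.length = ∑ i ∈ idx M, N i := by
        have := sum_length_filter (bmap lam 0) (idx M) l (fun x hx => (hl x hx).1)
        rw [Finset.sum_congr rfl fun i hi => congrArg Nat.cast (hlen i hi)] at this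
        exact_mod_cast this.symm
      have h3 : ∀ i ∈ idx M, lenR (N i) (bw v b 0) (l.filter (fun x => decide (bmap lam 0 x = i))) =
          ENNReal.ofReal (Real.exp (-b * E v (l.filter (fun x => decide (bmap lam 0 x = i))))) := by
        intro i hi
        simp [lenR, hlen i hi, bw]
      rw [Finset.prod_congr rfl h3, prod_ofReal_exp]
      have h4 : lenR (∑ i ∈ idx M, N i) (bw w b 0) l = ENNReal.ofReal (Real.exp (-b * E w l)) := by
        simp [lenR, hsum, bw]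
      rw [h4, ← ENNReal.ofReal_mul (Real.exp_pos _).le, ← Real.exp_add]
      refine ENNReal.ofReal_le_ofReal (Real.exp_le_exp.2 ?_)
      rw [← Finset.mul_sum]
      have := hE l hl hlen
      nlinarith
    · push Not at hlen
      obtain ⟨i, hi, hne⟩ := hlen
      rw [Finset.prod_eq_zero hi]
      · exact zero_le
      · simp [lenR, hne]

theorem Zc_blocks {r₀ B ℓ : ℝ} {v : ℝ → ℝ} (hv : Pot r₀ B v) (hℓ : 0 < ℓ) (M : ℕ) {b : ℝ}
    (hb : 0 ≤ b) (N : (Fin 3 → ℤ) → ℕ) :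
    ∏ i ∈ idx M, Zc v (cube ℓ) (N i) b ≤ Zc v (cube (M * (ℓ + r₀))) (∑ i ∈ idx M, N i) b := by
  have := Zc_blocks_gen (lam := ℓ + r₀) (ℓ := ℓ) (by linarith [hv.pos]) (by linarith [hv.pos]) M
    hv.meas hv.meas hb N 0 (fun l hl _ => by simpa using E_le_blocks hv hℓ hl)
  simpa using this

theorem Zc_mono_set {v : ℝ → ℝ} {Λ Λ' : Set Pt} (h : Λ ⊆ Λ') (n : ℕ) (b : ℝ) :
    Zc v Λ n b ≤ Zc v Λ' n b := mul_le_mul_right (J_mono_set h n _) _

theorem Xi_mono_set {v : ℝ → ℝ} {Λ Λ' : Set Pt} (h : Λ ⊆ Λ') (b h' : ℝ) :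
    Xi v Λ b h' ≤ Xi v Λ' b h' := G_mono_set h _

theorem Xi_le_exp {r₀ B : ℝ} {v : ℝ → ℝ} (hv : Pot r₀ B v) {L : ℝ} (hL : 0 ≤ L) {b : ℝ} (hb : 0 ≤ b)
    (h : ℝ) : Xi v (cube L) b h ≤ ENNReal.ofReal (Real.exp (L ^ 3 * Real.exp (h + b * B))) := by
  refine G_pow_cube hL (h + b * B) _ fun l _ => ?_
  refine ENNReal.ofReal_le_ofReal (Real.exp_le_exp.2 ?_)
  have := hv.stab l
  nlinarith

theorem Xi_ne_top {r₀ B : ℝ} {v : ℝ → ℝ} (hv : Pot r₀ B v) {L : ℝ} (hL : 0 ≤ L) {b : ℝ} (hb : 0 ≤ b)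
    (h : ℝ) : Xi v (cube L) b h ≠ ⊤ :=
  ne_top_of_le_ne_top ENNReal.ofReal_ne_top (Xi_le_exp hv hL hb h)

theorem Zc_le_Xi {v : ℝ → ℝ} (hv : Measurable v) (L : ℝ) (n : ℕ) (b h : ℝ) :
    ENNReal.ofReal (Real.exp (h * n)) * Zc v (cube L) n b ≤ Xi v (cube L) b h := by
  rw [Xi_eq_tsum v hv _ (measurableSet_cube L)]
  exact ENNReal.le_tsum n

theorem Zc_ne_top {r₀ B : ℝ} {v : ℝ → ℝ} (hv : Pot r₀ B v) {L : ℝ} (hL : 0 ≤ L) (n : ℕ) {b : ℝ}
    (hb : 0 ≤ b) : Zc v (cube L) n b ≠ ⊤ := by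
  have h := Zc_le_Xi hv.meas L n b 0
  simp only [zero_mul, Real.exp_zero, ENNReal.ofReal_one, one_mul] at h
  exact ne_top_of_le_ne_top (Xi_ne_top hv hL hb 0) h

theorem Zc_zero (v : ℝ → ℝ) (Λ : Set Pt) (b : ℝ) : Zc v Λ 0 b = 1 := by
  simp [Zc, J, bw_nil]

/-- log of the canonical partition function -/
noncomputable def lz (v : ℝ → ℝ) (L : ℝ) (n : ℕ) (b : ℝ) : ℝ := Real.log (Zc v (cube L) n b).toReal

/-- log of the grand partition function -/
noncomputable def lx (v : ℝ → ℝ) (L b h : ℝ) : ℝ := Real.log (Xi v (cube L) b h).toReal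

theorem ofReal_exp_lz {r₀ B : ℝ} {v : ℝ → ℝ} (hv : Pot r₀ B v) {L : ℝ} (hL : 0 < L) (n : ℕ) {b : ℝ}
    (hb : 0 ≤ b) : ENNReal.ofReal (Real.exp (lz v L n b)) = Zc v (cube L) n b := by
  unfold lz
  rw [Real.exp_log, ENNReal.ofReal_toReal (Zc_ne_top hv hL.le n hb)]
  exact ENNReal.toReal_pos (Zc_pos hv.meas hL n b).ne' (Zc_ne_top hv hL.le n hb)

theorem ofReal_exp_lx {r₀ B : ℝ} {v : ℝ → ℝ} (hv : Pot r₀ B v) {L : ℝ} (hL : 0 ≤ L) {b : ℝ}
    (hb : 0 ≤ b) (h : ℝ) : ENNReal.ofReal (Real.exp (lx v L b h)) = Xi v (cube L) b h := by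
  unfold lx
  rw [Real.exp_log, ENNReal.ofReal_toReal (Xi_ne_top hv hL hb h)]
  exact ENNReal.toReal_pos (zero_lt_one.trans_le (one_le_Xi v _ b h)).ne' (Xi_ne_top hv hL hb h)

theorem exp_le_of_ofReal {x y : ℝ} (h : ENNReal.ofReal (Real.exp x) ≤ ENNReal.ofReal (Real.exp y)) :
    x ≤ y := by
  rw [ENNReal.ofReal_le_ofReal_iff (Real.exp_pos _).le] at h
  exact Real.exp_le_exp.1 h

theorem lx_nonneg {r₀ B : ℝ} {v : ℝ → ℝ} (hv : Pot r₀ B v) {L : ℝ} (hL : 0 ≤ L) {b : ℝ}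
    (hb : 0 ≤ b) (h : ℝ) : 0 ≤ lx v L b h := by
  apply exp_le_of_ofReal
  rw [ofReal_exp_lx hv hL hb h]
  simpa using one_le_Xi v _ b h

theorem lx_superadd {r₀ B ℓ : ℝ} {v : ℝ → ℝ} (hv : Pot r₀ B v) (hℓ : 0 < ℓ) (M : ℕ) {b h : ℝ}
    (hb : 0 ≤ b) : (M : ℝ) ^ 3 * lx v ℓ b h ≤ lx v (M * (ℓ + r₀)) b h := by
  apply exp_le_of_ofReal
  have hL : 0 ≤ (M : ℝ) * (ℓ + r₀) := mul_nonneg (Nat.cast_nonneg _) (by linarith [hv.pos])
  rw [ofReal_exp_lx hv hL hb h]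
  refine le_trans (le_of_eq ?_) (Xi_superadd hv hℓ M hb)
  rw [← ofReal_exp_lx hv hℓ.le hb h, ← ENNReal.ofReal_pow (Real.exp_pos _).le, ← Real.exp_nat_mul]
  push_cast
  rfl

theorem lx_mono {r₀ B : ℝ} {v : ℝ → ℝ} (hv : Pot r₀ B v) {L L' : ℝ} (hL : 0 ≤ L) (hLL : L ≤ L') {b : ℝ}
    (hb : 0 ≤ b) (h : ℝ) : lx v L b h ≤ lx v L' b h := by
  apply exp_le_of_ofReal
  rw [ofReal_exp_lx hv hL hb h, ofReal_exp_lx hv (hL.trans hLL) hb h]
  exact Xi_mono_set (cube_mono hLL) b h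

theorem lz_blocks {r₀ B ℓ : ℝ} {v : ℝ → ℝ} (hv : Pot r₀ B v) (hℓ : 0 < ℓ) {M : ℕ} (hM : 0 < M) {b : ℝ}
    (hb : 0 ≤ b) (N : (Fin 3 → ℤ) → ℕ) :
    ∑ i ∈ idx M, lz v ℓ (N i) b ≤ lz v (M * (ℓ + r₀)) (∑ i ∈ idx M, N i) b := by
  apply exp_le_of_ofReal
  have hL : 0 < (M : ℝ) * (ℓ + r₀) := mul_pos (by exact_mod_cast hM) (by linarith [hv.pos])
  rw [ofReal_exp_lz hv hL _ hb]
  refine le_trans (le_of_eq ?_) (Zc_blocks hv hℓ M hb N)
  rw [← prod_ofReal_exp]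
  exact Finset.prod_congr rfl fun i _ => ofReal_exp_lz hv hℓ _ hb

theorem lz_mono {r₀ B : ℝ} {v : ℝ → ℝ} (hv : Pot r₀ B v) {L L' : ℝ} (hL : 0 < L) (hLL : L ≤ L') {b : ℝ}
    (hb : 0 ≤ b) (n : ℕ) : lz v L n b ≤ lz v L' n b := by
  apply exp_le_of_ofReal
  rw [ofReal_exp_lz hv hL n hb, ofReal_exp_lz hv (hL.trans_le hLL) n hb]
  exact Zc_mono_set (cube_mono hLL) n b

theorem lz_add_le_lx {r₀ B : ℝ} {v : ℝ → ℝ} (hv : Pot r₀ B v) {L : ℝ} (hL : 0 < L) (n : ℕ) {b : ℝ}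
    (hb : 0 ≤ b) (h : ℝ) : lz v L n b + h * n ≤ lx v L b h := by
  apply exp_le_of_ofReal
  rw [ofReal_exp_lx hv hL.le hb h, Real.exp_add, ENNReal.ofReal_mul (Real.exp_pos _).le,
    ofReal_exp_lz hv hL n hb, mul_comm]
  exact Zc_le_Xi hv.meas L n b h

theorem lz_zero (v : ℝ → ℝ) (L b : ℝ) : lz v L 0 b = 0 := by
  simp [lz, Zc_zero]

end Crest.Agent.H13Super
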