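import Mathlib
import Crest.Agent.H13Super

/-!
Hölder inequality, convexity of log partition functions, properties of the pressure.
-/

set_option autoImplicit false

open MeasureTheory Filter Topology
open scoped ENNReal

namespace Crest.Agent.H13Press

open Crest.Agent.H13Conf Crest.Agent.H13Energy Crest.Agent.H13Basic Crest.Agent.H13Cube
open Crest.Agent.H19Pair Crest.Agent.H13Super

/-! ### Hölder -/

theorem J_holder (Λ : Set Pt) {p q : ℝ} (hp : 0 ≤ p) (hq : 0 ≤ q) (hpq : p + q = 1) (n : ℕ) :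
    ∀ {F F' : List Pt → ℝ≥0∞}, MF1 F → MF1 F' →
    J Λ n (fun l => F l ^ p * F' l ^ q) ≤ J Λ n F ^ p * J Λ n F' ^ q := by
  induction n with
  | zero => intro F F' _ _; exact le_rfl
  | succ n ih =>
    intro F F' hF hF'
    simp only [J]
    refine le_trans (lintegral_mono fun x => ih (hF.cons.mf1 x) (hF'.cons.mf1 x)) ?_
    exact ENNReal.lintegral_mul_norm_pow_le (measurable_J_cons Λ n hF).aemeasurable
      (measurable_J_cons Λ n hF').aemeasurable hp hq hpq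

theorem tsum_holder {p q : ℝ} (hp : 0 ≤ p) (hq : 0 ≤ q) (hpq : p + q = 1) (f g : ℕ → ℝ≥0∞) :
    ∑' n, f n ^ p * g n ^ q ≤ (∑' n, f n) ^ p * (∑' n, g n) ^ q := by
  have := ENNReal.lintegral_mul_norm_pow_le (μ := Measure.count) (f := f) (g := g)
    (measurable_of_countable f).aemeasurable (measurable_of_countable g).aemeasurable hp hq hpq
  simpa [lintegral_count] using this

theorem G_holder (Λ : Set Pt) {p q : ℝ} (hp : 0 ≤ p) (hq : 0 ≤ q) (hpq : p + q = 1)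
    {F F' : List Pt → ℝ≥0∞} (hF : MF1 F) (hF' : MF1 F') :
    G Λ (fun l => F l ^ p * F' l ^ q) ≤ G Λ F ^ p * G Λ F' ^ q := by
  unfold G
  refine le_trans (ENNReal.tsum_le_tsum fun n => ?_)
    (tsum_holder hp hq hpq (fun n => ((n.factorial : ℝ≥0∞))⁻¹ * J Λ n F)
      (fun n => ((n.factorial : ℝ≥0∞))⁻¹ * J Λ n F'))
  rw [ENNReal.mul_rpow_of_nonneg _ _ hp, ENNReal.mul_rpow_of_nonneg _ _ hq]
  have h1 : ((n.factorial : ℝ≥0∞))⁻¹ ^ p * ((n.factorial : ℝ≥0∞))⁻¹ ^ q = ((n.factorial : ℝ≥0∞))⁻¹ := by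
    rw [← ENNReal.rpow_add_of_nonneg _ _ hp hq, hpq, ENNReal.rpow_one]
  calc ((n.factorial : ℝ≥0∞))⁻¹ * J Λ n (fun l => F l ^ p * F' l ^ q)
      ≤ ((n.factorial : ℝ≥0∞))⁻¹ * (J Λ n F ^ p * J Λ n F' ^ q) := by
        gcongr; exact J_holder Λ hp hq hpq n hF hF'
    _ = (((n.factorial : ℝ≥0∞))⁻¹ ^ p * ((n.factorial : ℝ≥0∞))⁻¹ ^ q) * (J Λ n F ^ p * J Λ n F' ^ q) := by
        rw [h1]
    _ = _ := by ring

theorem bw_convex (v : ℝ → ℝ) {p q : ℝ} (b₁ h₁ b₂ h₂ : ℝ) (l : List Pt) :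
    bw v (p * b₁ + q * b₂) (p * h₁ + q * h₂) l = bw v b₁ h₁ l ^ p * bw v b₂ h₂ l ^ q := by
  unfold bw
  rw [ENNReal.ofReal_rpow_of_pos (Real.exp_pos _), ENNReal.ofReal_rpow_of_pos (Real.exp_pos _),
    ← Real.exp_mul, ← Real.exp_mul, ← ENNReal.ofReal_mul (Real.exp_pos _).le, ← Real.exp_add]
  congr 2
  ring

theorem lx_convex {r₀ B : ℝ} {v : ℝ → ℝ} (hv : Pot r₀ B v) {L : ℝ} (hL : 0 ≤ L) {p q : ℝ}
    (hp : 0 ≤ p) (hq : 0 ≤ q) (hpq : p + q = 1) {b₁ b₂ : ℝ} (hb₁ : 0 ≤ b₁) (hb₂ : 0 ≤ b₂)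
    (h₁ h₂ : ℝ) : lx v L (p * b₁ + q * b₂) (p * h₁ + q * h₂) ≤
      p * lx v L b₁ h₁ + q * lx v L b₂ h₂ := by
  apply exp_le_of_ofReal
  rw [ofReal_exp_lx hv hL (by positivity)]
  have h := G_holder (cube L) hp hq hpq (MF1_bw hv.meas b₁ h₁) (MF1_bw hv.meas b₂ h₂)
  simp_rw [← bw_convex] at h
  refine le_trans h (le_of_eq ?_)
  change Xi v (cube L) b₁ h₁ ^ p * Xi v (cube L) b₂ h₂ ^ q = _
  rw [← ofReal_exp_lx hv hL hb₁, ← ofReal_exp_lx hv hL hb₂,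
    ENNReal.ofReal_rpow_of_pos (Real.exp_pos _), ENNReal.ofReal_rpow_of_pos (Real.exp_pos _),
    ← Real.exp_mul, ← Real.exp_mul, ← ENNReal.ofReal_mul (Real.exp_pos _).le, ← Real.exp_add]
  congr 2
  ring

theorem lz_convex {r₀ B : ℝ} {v : ℝ → ℝ} (hv : Pot r₀ B v) {L : ℝ} (hL : 0 < L) (n : ℕ) {p q : ℝ}
    (hp : 0 ≤ p) (hq : 0 ≤ q) (hpq : p + q = 1) {b₁ b₂ : ℝ} (hb₁ : 0 ≤ b₁) (hb₂ : 0 ≤ b₂) :
    lz v L n (p * b₁ + q * b₂) ≤ p * lz v L n b₁ + q * lz v L n b₂ := by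
  apply exp_le_of_ofReal
  rw [ofReal_exp_lz hv hL n (by positivity)]
  have h := J_holder (cube L) hp hq hpq n (MF1_bw hv.meas b₁ 0) (MF1_bw hv.meas b₂ 0)
  simp_rw [← bw_convex] at h
  simp only [mul_zero, add_zero] at h
  have e : ENNReal.ofReal (Real.exp (p * lz v L n b₁ + q * lz v L n b₂)) =
      Zc v (cube L) n b₁ ^ p * Zc v (cube L) n b₂ ^ q := by
    rw [← ofReal_exp_lz hv hL n hb₁, ← ofReal_exp_lz hv hL n hb₂,
      ENNReal.ofReal_rpow_of_pos (Real.exp_pos _), ENNReal.ofReal_rpow_of_pos (Real.exp_pos _),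
      ← Real.exp_mul, ← Real.exp_mul, ← ENNReal.ofReal_mul (Real.exp_pos _).le, ← Real.exp_add]
    congr 2
    ring
  rw [e]
  unfold Zc
  rw [ENNReal.mul_rpow_of_nonneg _ _ hp, ENNReal.mul_rpow_of_nonneg _ _ hq]
  have h1 : ((n.factorial : ℝ≥0∞))⁻¹ ^ p * ((n.factorial : ℝ≥0∞))⁻¹ ^ q = ((n.factorial : ℝ≥0∞))⁻¹ := by
    rw [← ENNReal.rpow_add_of_nonneg _ _ hp hq, hpq, ENNReal.rpow_one]
  calc ((n.factorial : ℝ≥0∞))⁻¹ * J (cube L) n (bw v (p * b₁ + q * b₂) 0)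
      ≤ ((n.factorial : ℝ≥0∞))⁻¹ * (J (cube L) n (bw v b₁ 0) ^ p * J (cube L) n (bw v b₂ 0) ^ q) := by
        gcongr
    _ = (((n.factorial : ℝ≥0∞))⁻¹ ^ p * ((n.factorial : ℝ≥0∞))⁻¹ ^ q) *
        (J (cube L) n (bw v b₁ 0) ^ p * J (cube L) n (bw v b₂ 0) ^ q) := by rw [h1]
    _ = _ := by ring

/-! ### the pressure -/

theorem lx_le_exp {r₀ B : ℝ} {v : ℝ → ℝ} (hv : Pot r₀ B v) {L : ℝ} (hL : 0 ≤ L) {b : ℝ}
    (hb : 0 ≤ b) (h : ℝ) : lx v L b h ≤ L ^ 3 * Real.exp (h + b * B) := by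
  apply exp_le_of_ofReal
  rw [ofReal_exp_lx hv hL hb]
  exact Xi_le_exp hv hL hb h

theorem press_bdd {r₀ B : ℝ} {v : ℝ → ℝ} (hv : Pot r₀ B v) {b : ℝ} (hb : 0 ≤ b) (h : ℝ) :
    BddAbove (Set.range fun L : Set.Ioi (0 : ℝ) => lx v (L : ℝ) b h / ((L : ℝ) + r₀) ^ 3) := by
  refine ⟨Real.exp (h + b * B), ?_⟩
  rintro _ ⟨⟨L, hL⟩, rfl⟩
  have hL' : 0 < L := hL
  have hr := hv.pos
  simp only
  rw [div_le_iff₀ (by positivity), mul_comm]
  refine (lx_le_exp hv hL'.le hb h).trans ?_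
  gcongr
  linarith

theorem lx_le_press {r₀ B : ℝ} {v : ℝ → ℝ} (hv : Pot r₀ B v) {b : ℝ} (hb : 0 ≤ b) (h : ℝ) {L : ℝ}
    (hL : 0 < L) : lx v L b h ≤ (L + r₀) ^ 3 * press r₀ v b h := by
  have h1 := le_ciSup (press_bdd hv hb h) ⟨L, hL⟩
  have hr := hv.pos
  rw [div_le_iff₀ (by positivity), mul_comm] at h1
  exact h1

theorem press_le_of_forall {r₀ : ℝ} {v : ℝ → ℝ} {b h c : ℝ}
    (H : ∀ L : ℝ, 0 < L → lx v L b h / (L + r₀) ^ 3 ≤ c) : press r₀ v b h ≤ c :=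
  ciSup_le fun L => H L L.2

theorem press_nonneg {r₀ B : ℝ} {v : ℝ → ℝ} (hv : Pot r₀ B v) {b : ℝ} (hb : 0 ≤ b) (h : ℝ) :
    0 ≤ press r₀ v b h := by
  have hr := hv.pos
  have h1 := lx_le_press hv hb h (L := 1) one_pos
  have h2 := lx_nonneg hv zero_le_one hb h
  by_contra hneg
  push Not at hneg
  have : (1 + r₀) ^ 3 * press r₀ v b h < 0 := mul_neg_of_pos_of_neg (by positivity) hneg
  linarith

/-- the supremum may be estimated along any large volumes -/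
theorem press_le_of_tendsto {r₀ B : ℝ} {v : ℝ → ℝ} (hv : Pot r₀ B v) {b : ℝ} (hb : 0 ≤ b) {h c : ℝ}
    {u : ℝ → ℝ} (hu : Tendsto u atTop (𝓝 c))
    (H : ∀ᶠ L in atTop, lx v L b h ≤ u L * (L + r₀) ^ 3) : press r₀ v b h ≤ c := by
  have hr := hv.pos
  refine press_le_of_forall fun ℓ hℓ => ?_
  set x := ℓ + r₀ with hx
  have hxpos : 0 < x := by positivity
  have ht : Tendsto (fun M : ℕ => (M : ℝ) * x) atTop atTop :=
    tendsto_natCast_atTop_atTop.atTop_mul_const hxpos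
  have h1 : Tendsto (fun M : ℕ => u ((M : ℝ) * x) * (1 + (r₀ / x) / M) ^ 3) atTop (𝓝 (c * (1 + 0) ^ 3)) := by
    refine (hu.comp ht).mul ?_
    refine Tendsto.pow (Tendsto.const_add 1 ?_) 3
    exact tendsto_const_div_atTop_nhds_zero_nat (r₀ / x)
  simp only [add_zero, one_pow, mul_one] at h1
  refine ge_of_tendsto h1 ?_
  filter_upwards [ht.eventually H, eventually_gt_atTop 0] with M hM hM0
  have hMpos : (0 : ℝ) < M := by exact_mod_cast hM0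
  have h2 := lx_superadd hv hℓ M (h := h) hb
  rw [← hx] at h2
  have h3 := h2.trans hM
  rw [div_le_iff₀ (by positivity)]
  have e : u ((M : ℝ) * x) * (M * x + r₀) ^ 3 = (M : ℝ) ^ 3 * (u ((M : ℝ) * x) * (1 + (r₀ / x) / M) ^ 3 * x ^ 3) := by
    field_simp
  rw [e] at h3
  exact le_of_mul_le_mul_left h3 (by positivity)

theorem press_mono {r₀ B : ℝ} {v : ℝ → ℝ} (hv : Pot r₀ B v) {b : ℝ} (hb : 0 ≤ b) :
    Monotone (press r₀ v b) := by
  intro h h' hh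
  have hr := hv.pos
  refine press_le_of_forall fun L hL => ?_
  have h1 := lx_le_press hv hb h' hL
  rw [div_le_iff₀ (by positivity), mul_comm]
  refine le_trans ?_ h1
  apply exp_le_of_ofReal
  rw [ofReal_exp_lx hv hL.le hb, ofReal_exp_lx hv hL.le hb]
  refine G_mono (measurableSet_cube L) fun l _ => ?_
  refine ENNReal.ofReal_le_ofReal (Real.exp_le_exp.2 ?_)
  gcongr

theorem press_convex {r₀ B : ℝ} {v : ℝ → ℝ} (hv : Pot r₀ B v) :
    ConvexOn ℝ {x : ℝ × ℝ | 0 < x.1} (fun x => press r₀ v x.1 x.2) := by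
  have hr := hv.pos
  constructor
  · intro x hx y hy p q hp hq hpq
    simp only [Set.mem_setOf_eq, Prod.fst_add, Prod.smul_fst, smul_eq_mul] at *
    rcases hp.eq_or_lt with rfl | hp'
    · have : q = 1 := by linarith
      subst this; simpa using hy
    · have := mul_pos hp' hx
      have := mul_nonneg hq hy.le
      linarith
  · intro x hx y hy p q hp hq hpq
    simp only [Set.mem_setOf_eq] at hx hy
    simp only [Prod.fst_add, Prod.smul_fst, Prod.snd_add, Prod.smul_snd, smul_eq_mul]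
    refine press_le_of_forall fun L hL => ?_
    rw [div_le_iff₀ (by positivity)]
    refine (lx_convex hv hL.le hp hq hpq hx.le hy.le x.2 y.2).trans ?_
    have h1 := lx_le_press hv hx.le x.2 hL
    have h2 := lx_le_press hv hy.le y.2 hL
    nlinarith [mul_le_mul_of_nonneg_left h1 hp, mul_le_mul_of_nonneg_left h2 hq]

/-- larger potentials have smaller pressures -/
theorem press_anti_pot {r₀ B B' : ℝ} {v w : ℝ → ℝ} (hv : Pot r₀ B v) (hw : Pot r₀ B' w)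
    (hvw : ∀ r, 0 ≤ r → v r ≤ w r) {b : ℝ} (hb : 0 ≤ b) (h : ℝ) :
    press r₀ w b h ≤ press r₀ v b h := by
  have hr := hv.pos
  refine press_le_of_forall fun L hL => ?_
  rw [div_le_iff₀ (by positivity), mul_comm]
  refine le_trans ?_ (lx_le_press hv hb h hL)
  apply exp_le_of_ofReal
  rw [ofReal_exp_lx hv hL.le hb, ofReal_exp_lx hw hL.le hb]
  refine G_mono (measurableSet_cube L) fun l _ => ?_
  refine ENNReal.ofReal_le_ofReal (Real.exp_le_exp.2 ?_)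
  have := E_mono hvw l
  nlinarith

end Crest.Agent.H13Press
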