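import Mathlib
import Crest.Agent.H13Press

/-!
Canonical thermodynamic limit and its equivalence with the grand pressure.
-/

set_option autoImplicit false

open MeasureTheory Filter Topology
open scoped ENNReal

namespace Crest.Agent.H13Canon

open Crest.Agent.H13Conf Crest.Agent.H13Energy Crest.Agent.H13Basic Crest.Agent.H13Cube
open Crest.Agent.H19Pair Crest.Agent.H13Super Crest.Agent.H13Press

theorem lz_blocks' {r₀ B ℓ : ℝ} {v : ℝ → ℝ} (hv : Pot r₀ B v) (hℓ : 0 < ℓ) {M : ℕ} (hM : 0 < M)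
    {b : ℝ} (hb : 0 ≤ b) (f : ℕ → ℕ) :
    ∑ j ∈ Finset.range (M ^ 3), lz v ℓ (f j) b ≤
      lz v (M * (ℓ + r₀)) (∑ j ∈ Finset.range (M ^ 3), f j) b := by
  classical
  let e : idx M ≃ Fin (M ^ 3) := (idx M).equivFinOfCardEq (card_idx M)
  have key : ∀ {β : Type} [AddCommMonoid β] (g : ℕ → β),
      ∑ j ∈ Finset.range (M ^ 3), g j = ∑ i ∈ idx M, g (if h : i ∈ idx M then (e ⟨i, h⟩ : ℕ) else 0) := by
    intro β _ g
    rw [Finset.sum_range, ← Finset.sum_coe_sort (idx M), ← Equiv.sum_comp e]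
    refine Finset.sum_congr rfl fun i _ => ?_
    simp
  have h := lz_blocks hv hℓ hM hb (fun i => f (if h : i ∈ idx M then (e ⟨i, h⟩ : ℕ) else 0))
  rw [key (fun j => lz v ℓ (f j) b), key f]
  exact h

/-- mixing two occupation numbers -/
theorem lz_mix {r₀ B ℓ : ℝ} {v : ℝ → ℝ} (hv : Pot r₀ B v) (hℓ : 0 < ℓ) {b : ℝ} (hb : 0 ≤ b)
    {n₁ n₂ : ℕ} (hn : n₁ < n₂) {M N : ℕ} (hM : 0 < M) (h1 : n₁ * M ^ 3 ≤ N) (h2 : N < n₂ * M ^ 3) :
    (M : ℝ) ^ 3 * lz v ℓ n₁ b + (((N - n₁ * M ^ 3) / (n₂ - n₁) : ℕ) : ℝ) * (lz v ℓ n₂ b - lz v ℓ n₁ b)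
      - ∑ r ∈ Finset.range (n₂ - n₁), |lz v ℓ (n₁ + r) b - lz v ℓ n₁ b| ≤
      lz v (M * (ℓ + r₀)) N b := by
  set d := n₂ - n₁ with hd
  have hdpos : 0 < d := by omega
  set k := (N - n₁ * M ^ 3) / d with hk
  set r := (N - n₁ * M ^ 3) % d with hr
  have hrd : r < d := Nat.mod_lt _ hdpos
  have hdm : d * k + r = N - n₁ * M ^ 3 := Nat.div_add_mod _ _
  have hn2 : n₂ = n₁ + d := by omega
  have hkM : k < M ^ 3 := by
    by_contra hcon
    push Not at hcon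
    have h3 : d * M ^ 3 ≤ d * k := Nat.mul_le_mul_left d hcon
    have h4 : n₂ * M ^ 3 = n₁ * M ^ 3 + d * M ^ 3 := by rw [hn2]; ring
    omega
  let f : ℕ → ℕ := fun j => if j < k then n₂ else if j = k then n₁ + r else n₁
  have hsum : ∀ (g : ℕ → ℝ), ∑ j ∈ Finset.range (M ^ 3), g (f j) =
      (M : ℝ) ^ 3 * g n₁ + k * (g n₂ - g n₁) + (g (n₁ + r) - g n₁) := by
    intro g
    have e1 : ∀ j, g (f j) = g n₁ + (if j < k then g n₂ - g n₁ else 0) +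
        (if j = k then g (n₁ + r) - g n₁ else 0) := by
      intro j
      simp only [f]
      by_cases hj : j < k
      · simp [hj, hj.ne]
      · by_cases hj2 : j = k
        · simp [hj2]
        · simp [hj, hj2]
    simp_rw [e1]
    rw [Finset.sum_add_distrib, Finset.sum_add_distrib, Finset.sum_const, Finset.card_range,
      Finset.sum_ite_eq' , ← Finset.sum_filter]
    have e2 : (Finset.range (M ^ 3)).filter (fun j => j < k) = Finset.range k := by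
      ext j; simp; omega
    rw [e2]
    simp [hkM]
    ring
  have hsumN : ∑ j ∈ Finset.range (M ^ 3), f j = N := by
    have h3 := hsum (fun n => (n : ℝ))
    have h4 : ((∑ j ∈ Finset.range (M ^ 3), f j : ℕ) : ℝ) = N := by
      push_cast
      rw [h3, hn2]
      have h5 : (d : ℝ) * k + r = N - n₁ * M ^ 3 := by
        have : ((d * k + r : ℕ) : ℝ) = ((N - n₁ * M ^ 3 : ℕ) : ℝ) := by rw [hdm]
        rw [Nat.cast_sub h1] at this
        push_cast at this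
        exact this
      push_cast
      linarith
    exact_mod_cast h4
  have h6 := lz_blocks' hv hℓ hM hb f
  rw [hsumN, hsum (fun n => lz v ℓ n b)] at h6
  have h7 : |lz v ℓ (n₁ + r) b - lz v ℓ n₁ b| ≤
      ∑ r ∈ Finset.range d, |lz v ℓ (n₁ + r) b - lz v ℓ n₁ b| :=
    Finset.single_le_sum (f := fun r => |lz v ℓ (n₁ + r) b - lz v ℓ n₁ b|)
      (fun _ _ => abs_nonneg _) (Finset.mem_range.2 hrd)
  have h8 := neg_abs_le (lz v ℓ (n₁ + r) b - lz v ℓ n₁ b)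
  linarith

/-- interpolation value -/
noncomputable def interp (r₀ : ℝ) (v : ℝ → ℝ) (b ρ ℓ : ℝ) (n₁ n₂ : ℕ) : ℝ :=
  (lz v ℓ n₁ b + (ρ * (ℓ + r₀) ^ 3 - n₁) / (n₂ - n₁) * (lz v ℓ n₂ b - lz v ℓ n₁ b)) / (ℓ + r₀) ^ 3

/-- density of the log partition function -/
noncomputable def gd (v : ℝ → ℝ) (b ρ L : ℝ) : ℝ := lz v L ⌊ρ * L ^ 3⌋₊ b / L ^ 3

theorem tendsto_floor_pow {a : ℝ} (ha : 0 ≤ a) :
    Tendsto (fun L : ℝ => (⌊a * L ^ 3⌋₊ : ℝ) / L ^ 3) atTop (𝓝 a) :=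
  (tendsto_nat_floor_mul_div_atTop ha).comp (tendsto_pow_atTop (by norm_num))

theorem tendsto_floorM {x : ℝ} (hx : 0 < x) :
    Tendsto (fun L : ℝ => ((⌊x⁻¹ * L⌋₊ : ℝ)) ^ 3 / L ^ 3) atTop (𝓝 ((x⁻¹) ^ 3)) := by
  have := (tendsto_nat_floor_mul_div_atTop (inv_nonneg.2 hx.le)).pow 3
  refine this.congr fun L => ?_
  rw [div_pow]

theorem interp_lower {r₀ B ℓ : ℝ} {v : ℝ → ℝ} (hv : Pot r₀ B v) (hℓ : 0 < ℓ) {b : ℝ} (hb : 0 ≤ b)
    {ρ : ℝ} (hρ : 0 < ρ) {n₁ n₂ : ℕ} (h1 : (n₁ : ℝ) ≤ ρ * (ℓ + r₀) ^ 3)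
    (h2 : ρ * (ℓ + r₀) ^ 3 < n₂) :
    ∃ u : ℝ → ℝ, Tendsto u atTop (𝓝 (interp r₀ v b ρ ℓ n₁ n₂)) ∧
      ∀ᶠ L in atTop, u L ≤ gd v b ρ L := by
  have hr := hv.pos
  set x := ℓ + r₀ with hx
  have hxpos : 0 < x := by positivity
  have hn : n₁ < n₂ := by exact_mod_cast h1.trans_lt h2
  have hdR : (0 : ℝ) < (n₂ : ℝ) - n₁ := by
    have : (n₁ : ℝ) < n₂ := by exact_mod_cast hn
    linarith
  set C := ∑ r ∈ Finset.range (n₂ - n₁), |lz v ℓ (n₁ + r) b - lz v ℓ n₁ b| with hC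
  let M : ℝ → ℕ := fun L => ⌊x⁻¹ * L⌋₊
  let N : ℝ → ℕ := fun L => ⌊ρ * L ^ 3⌋₊
  let k : ℝ → ℕ := fun L => (N L - n₁ * M L ^ 3) / (n₂ - n₁)
  refine ⟨fun L => ((M L : ℝ) ^ 3 * lz v ℓ n₁ b + (k L : ℝ) * (lz v ℓ n₂ b - lz v ℓ n₁ b) - C) / L ^ 3,
    ?_, ?_⟩
  · have hM3 : Tendsto (fun L : ℝ => (M L : ℝ) ^ 3 / L ^ 3) atTop (𝓝 ((x⁻¹) ^ 3)) := tendsto_floorM hxpos
    have hN3 : Tendsto (fun L : ℝ => (N L : ℝ) / L ^ 3) atTop (𝓝 ρ) := tendsto_floor_pow hρ.le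
    have hL3 : Tendsto (fun L : ℝ => L ^ 3) atTop atTop := tendsto_pow_atTop (by norm_num)
    have hr3 : Tendsto (fun L : ℝ => (((N L - n₁ * M L ^ 3) % (n₂ - n₁) : ℕ) : ℝ) / L ^ 3) atTop (𝓝 0) := by
      refine squeeze_zero' (g := fun L : ℝ => ((n₂ - n₁ : ℕ) : ℝ) / L ^ 3) ?_ ?_
        (hL3.const_div_atTop _)
      · filter_upwards [eventually_gt_atTop 0] with L hL
        positivity
      · filter_upwards [eventually_gt_atTop 0] with L hL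
        gcongr
        exact_mod_cast (Nat.mod_lt _ (by omega)).le
    have hk3 : Tendsto (fun L : ℝ => (k L : ℝ) / L ^ 3) atTop
        (𝓝 ((ρ - n₁ * (x⁻¹) ^ 3 - 0) / (n₂ - n₁))) := by
      have := ((hN3.sub (hM3.const_mul (n₁ : ℝ))).sub hr3).div_const ((n₂ : ℝ) - n₁)
      refine this.congr' ?_
      filter_upwards [eventually_gt_atTop 0] with L hL
      have hML : (M L : ℝ) ≤ x⁻¹ * L := Nat.floor_le (by positivity)
      have hle : n₁ * M L ^ 3 ≤ N L := by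
        refine Nat.le_floor ?_
        push_cast
        calc (n₁ : ℝ) * (M L : ℝ) ^ 3 ≤ (ρ * x ^ 3) * (x⁻¹ * L) ^ 3 := by gcongr
          _ = ρ * L ^ 3 := by field_simp
      have hdm : (n₂ - n₁) * k L + (N L - n₁ * M L ^ 3) % (n₂ - n₁) = N L - n₁ * M L ^ 3 :=
        Nat.div_add_mod _ _
      have hdm' : ((n₂ : ℝ) - n₁) * k L + (((N L - n₁ * M L ^ 3) % (n₂ - n₁) : ℕ) : ℝ) =
          N L - n₁ * (M L : ℝ) ^ 3 := by
        have := congrArg (Nat.cast (R := ℝ)) hdm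
        rw [Nat.cast_add, Nat.cast_mul, Nat.cast_sub hn.le, Nat.cast_sub hle] at this
        push_cast at this
        exact this
      rw [div_eq_iff hdR.ne']
      field_simp
      linarith
    have hall := ((hM3.mul_const (lz v ℓ n₁ b)).add (hk3.mul_const (lz v ℓ n₂ b - lz v ℓ n₁ b))).sub
      (hL3.const_div_atTop C)
    have e : (x⁻¹) ^ 3 * lz v ℓ n₁ b + (ρ - n₁ * (x⁻¹) ^ 3 - 0) / (n₂ - n₁) *
        (lz v ℓ n₂ b - lz v ℓ n₁ b) - 0 = interp r₀ v b ρ ℓ n₁ n₂ := by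
      unfold interp
      rw [← hx]
      field_simp
      ring
    rw [e] at hall
    refine hall.congr fun L => ?_
    ring
  · have hMlow : Tendsto (fun L : ℝ => (n₂ : ℝ) * ((M L : ℝ) ^ 3 / L ^ 3)) atTop (𝓝 (n₂ * (x⁻¹) ^ 3)) :=
      (tendsto_floorM hxpos).const_mul _
    have hlt : ρ < n₂ * (x⁻¹) ^ 3 := by
      rw [inv_pow, ← div_eq_mul_inv, lt_div_iff₀ (by positivity)]
      exact h2
    filter_upwards [hMlow.eventually (lt_mem_nhds hlt), eventually_gt_atTop 0,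
      eventually_ge_atTop x] with L hL1 hL hLx
    unfold gd
    have hML : (M L : ℝ) ≤ x⁻¹ * L := Nat.floor_le (by positivity)
    have hMpos : 0 < M L := by
      refine Nat.floor_pos.2 ?_
      rw [inv_mul_eq_div, le_div_iff₀ hxpos]
      linarith
    have hle : n₁ * M L ^ 3 ≤ N L := by
      refine Nat.le_floor ?_
      push_cast
      calc (n₁ : ℝ) * (M L : ℝ) ^ 3 ≤ (ρ * x ^ 3) * (x⁻¹ * L) ^ 3 := by gcongr
        _ = ρ * L ^ 3 := by field_simp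
    have hlt2 : N L < n₂ * M L ^ 3 := by
      rw [Nat.floor_lt (by positivity)]
      push_cast
      have : (n₂ : ℝ) * ((M L : ℝ) ^ 3 / L ^ 3) = n₂ * (M L : ℝ) ^ 3 / L ^ 3 := by ring
      rw [this, lt_div_iff₀ (by positivity)] at hL1
      exact hL1
    have hmix := lz_mix hv hℓ hb hn hMpos hle hlt2
    rw [← hx] at hmix
    have hmono : lz v ((M L : ℝ) * x) (N L) b ≤ lz v L (N L) b := by
      refine lz_mono hv (by positivity) ?_ hb _
      calc (M L : ℝ) * x ≤ (x⁻¹ * L) * x := by gcongr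
        _ = L := by field_simp
    gcongr
    exact hmix.trans hmono

/-- set of interpolation values -/
def interpSet (r₀ : ℝ) (v : ℝ → ℝ) (b ρ : ℝ) : Set ℝ :=
  {y | ∃ (ℓ : ℝ) (n₁ n₂ : ℕ), 0 < ℓ ∧ (n₁ : ℝ) ≤ ρ * (ℓ + r₀) ^ 3 ∧ ρ * (ℓ + r₀) ^ 3 < n₂ ∧
    y = interp r₀ v b ρ ℓ n₁ n₂}

/-- the canonical pressure -/
noncomputable def Pc (r₀ : ℝ) (v : ℝ → ℝ) (b ρ : ℝ) : ℝ := sSup (interpSet r₀ v b ρ)

theorem gd_le {r₀ B : ℝ} {v : ℝ → ℝ} (hv : Pot r₀ B v) {b : ℝ} (hb : 0 ≤ b) (ρ : ℝ) {L : ℝ}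
    (hL : 0 < L) : gd v b ρ L ≤ Real.exp (b * B) := by
  unfold gd
  rw [div_le_iff₀ (by positivity), mul_comm (Real.exp _)]
  have h1 := lz_add_le_lx hv hL ⌊ρ * L ^ 3⌋₊ hb 0
  have h2 := lx_le_exp hv hL.le hb 0
  simp only [zero_mul, add_zero, zero_add] at h1 h2
  exact h1.trans h2

theorem interpSet_bdd {r₀ B : ℝ} {v : ℝ → ℝ} (hv : Pot r₀ B v) {b : ℝ} (hb : 0 ≤ b) {ρ : ℝ}
    (hρ : 0 < ρ) : BddAbove (interpSet r₀ v b ρ) := by
  refine ⟨Real.exp (b * B), ?_⟩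
  rintro y ⟨ℓ, n₁, n₂, hℓ, h1, h2, rfl⟩
  obtain ⟨u, hu, hul⟩ := interp_lower hv hℓ hb hρ h1 h2
  refine le_of_tendsto hu ?_
  filter_upwards [hul, eventually_gt_atTop 0] with L hL1 hL2
  exact hL1.trans (gd_le hv hb ρ hL2)

theorem interp_le_Pc {r₀ B : ℝ} {v : ℝ → ℝ} (hv : Pot r₀ B v) {b : ℝ} (hb : 0 ≤ b) {ρ : ℝ}
    (hρ : 0 < ρ) {ℓ : ℝ} (hℓ : 0 < ℓ) {n₁ n₂ : ℕ} (h1 : (n₁ : ℝ) ≤ ρ * (ℓ + r₀) ^ 3)
    (h2 : ρ * (ℓ + r₀) ^ 3 < n₂) : interp r₀ v b ρ ℓ n₁ n₂ ≤ Pc r₀ v b ρ :=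
  le_csSup (interpSet_bdd hv hb hρ) ⟨ℓ, n₁, n₂, hℓ, h1, h2, rfl⟩

theorem interpSet_nonempty (r₀ : ℝ) (v : ℝ → ℝ) (b : ℝ) {ρ : ℝ} (hr : 0 < r₀)
    (hρ : 0 < ρ) : (interpSet r₀ v b ρ).Nonempty := by
  refine ⟨_, 1, ⌊ρ * (1 + r₀) ^ 3⌋₊, ⌊ρ * (1 + r₀) ^ 3⌋₊ + 1, one_pos, ?_, ?_, rfl⟩
  · exact Nat.floor_le (by positivity)
  · push_cast
    exact Nat.lt_floor_add_one _

theorem Pc_lower {r₀ B : ℝ} {v : ℝ → ℝ} (hv : Pot r₀ B v) {b : ℝ} (hb : 0 ≤ b) {ρ : ℝ}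
    (hρ : 0 < ρ) {c : ℝ} (hc : c < Pc r₀ v b ρ) : ∀ᶠ L in atTop, c < gd v b ρ L := by
  obtain ⟨y, ⟨ℓ, n₁, n₂, hℓ, h1, h2, rfl⟩, hy⟩ := exists_lt_of_lt_csSup
    (interpSet_nonempty r₀ v b hv.pos hρ) hc
  obtain ⟨u, hu, hul⟩ := interp_lower hv hℓ hb hρ h1 h2
  filter_upwards [hul, hu.eventually (lt_mem_nhds hy)] with L hL1 hL2
  exact hL2.trans_le hL1

/-- existence of the canonical limit -/
theorem tendsto_gd {r₀ B : ℝ} {v : ℝ → ℝ} (hv : Pot r₀ B v) {b : ℝ} (hb : 0 ≤ b) {ρ : ℝ}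
    (hρ : 0 < ρ) : Tendsto (gd v b ρ) atTop (𝓝 (Pc r₀ v b ρ)) := by
  have hr := hv.pos
  refine tendsto_order.2 ⟨fun c hc => Pc_lower hv hb hρ hc, fun c hc => ?_⟩
  -- upper bound
  set P := Pc r₀ v b ρ with hP
  set P2 := Pc r₀ v b (2 * ρ) with hP2
  set A := Real.exp (b * B) with hA
  -- weights
  let n1 : ℝ → ℕ := fun L => ⌊ρ * L ^ 3⌋₊
  let n2 : ℝ → ℕ := fun L => ⌊2 * ρ * L ^ 3⌋₊
  have hL3 : Tendsto (fun L : ℝ => L ^ 3) atTop atTop := tendsto_pow_atTop (by norm_num)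
  have hn1 : Tendsto (fun L : ℝ => (n1 L : ℝ) / L ^ 3) atTop (𝓝 ρ) := tendsto_floor_pow hρ.le
  have hn2 : Tendsto (fun L : ℝ => (n2 L : ℝ) / L ^ 3) atTop (𝓝 (2 * ρ)) :=
    tendsto_floor_pow (by positivity)
  have hx : Tendsto (fun L : ℝ => (L + r₀) ^ 3 / L ^ 3) atTop (𝓝 1) := by
    have : Tendsto (fun L : ℝ => (1 + r₀ / L) ^ 3) atTop (𝓝 ((1 + 0) ^ 3)) :=
      (Tendsto.const_add 1 (tendsto_const_nhds.div_atTop tendsto_id)).pow 3
    simp only [add_zero, one_pow] at this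
    refine this.congr' ?_
    filter_upwards [eventually_gt_atTop 0] with L hL
    field_simp
  -- lam
  have hlam : Tendsto (fun L : ℝ => (ρ * (L + r₀) ^ 3 - n1 L) / (n2 L - n1 L)) atTop (𝓝 0) := by
    have h1 := ((hx.const_mul ρ).sub hn1).div (hn2.sub hn1) (by linarith)
    have e : (ρ * 1 - ρ) / (2 * ρ - ρ) = 0 := by simp
    rw [e] at h1
    refine h1.congr' ?_
    filter_upwards [eventually_gt_atTop 0] with L hL
    simp only [Pi.div_apply]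
    rw [← mul_div_assoc, ← sub_div, ← sub_div, div_div_div_cancel_right₀ (by positivity)]
  have hw : Tendsto (fun L : ℝ => P * ((L + r₀) ^ 3 / L ^ 3) +
      ((ρ * (L + r₀) ^ 3 - n1 L) / (n2 L - n1 L)) * (A - (P2 - 1))) atTop (𝓝 P) := by
    have := (hx.const_mul P).add (hlam.mul_const (A - (P2 - 1)))
    simpa using this
  filter_upwards [hw.eventually (gt_mem_nhds hc), eventually_gt_atTop 0,
    Pc_lower hv hb (by positivity : 0 < 2 * ρ) (by linarith : P2 - 1 < P2),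
    (hx.const_mul ρ).eventually (gt_mem_nhds (by linarith : ρ * 1 < 3 / 2 * ρ)),
    hn2.eventually (lt_mem_nhds (by linarith : 3 / 2 * ρ < 2 * ρ))] with L hL1 hL2 hL3' hL4 hL5
  have hL3pos : (0 : ℝ) < L ^ 3 := by positivity
  have hn1le : (n1 L : ℝ) ≤ ρ * L ^ 3 := Nat.floor_le (by positivity)
  have hxx : L ^ 3 ≤ (L + r₀) ^ 3 := by gcongr; linarith
  have h1 : (n1 L : ℝ) ≤ ρ * (L + r₀) ^ 3 := hn1le.trans (by gcongr)
  have h2 : ρ * (L + r₀) ^ 3 < n2 L := by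
    have h3 : ρ * ((L + r₀) ^ 3 / L ^ 3) < (n2 L : ℝ) / L ^ 3 := hL4.trans hL5
    rw [← mul_div_assoc] at h3
    exact (div_lt_div_iff_of_pos_right hL3pos).1 h3
  have h4 := interp_le_Pc hv hb hρ hL2 h1 h2
  rw [← hP] at h4
  unfold interp at h4
  rw [div_le_iff₀ (by positivity)] at h4
  set lam := (ρ * (L + r₀) ^ 3 - n1 L) / (n2 L - n1 L) with hlamdef
  have hlam0 : 0 ≤ lam := div_nonneg (by linarith) (by linarith)
  have hz1 : lz v L (n1 L) b = gd v b ρ L * L ^ 3 := by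
    unfold gd; field_simp
    rfl
  have hz2 : lz v L (n2 L) b = gd v b (2 * ρ) L * L ^ 3 := by
    unfold gd; field_simp
    rfl
  rw [hz1, hz2] at h4
  have h5 := gd_le hv hb ρ hL2
  rw [← hA] at h5
  -- gd L^3 + lam (gd2 - gd) L^3 <= P (L+r0)^3
  have h6 : gd v b ρ L ≤ P * ((L + r₀) ^ 3 / L ^ 3) + lam * (A - (P2 - 1)) := by
    have h7 : gd v b ρ L * L ^ 3 + lam * ((P2 - 1) - A) * L ^ 3 ≤ P * (L + r₀) ^ 3 := by
      refine le_trans ?_ h4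
      have : lam * ((P2 - 1) - A) * L ^ 3 ≤ lam * (gd v b (2 * ρ) L * L ^ 3 - gd v b ρ L * L ^ 3) := by
        have h8 : (P2 - 1) - A ≤ gd v b (2 * ρ) L - gd v b ρ L := by linarith
        calc lam * ((P2 - 1) - A) * L ^ 3 ≤ lam * (gd v b (2 * ρ) L - gd v b ρ L) * L ^ 3 := by gcongr
          _ = _ := by ring
      linarith
    have h9 : (gd v b ρ L + lam * ((P2 - 1) - A)) * L ^ 3 ≤ P * (L + r₀) ^ 3 := by linarith
    have h10 : gd v b ρ L + lam * ((P2 - 1) - A) ≤ P * (L + r₀) ^ 3 / L ^ 3 := by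
      rw [le_div_iff₀ hL3pos]; exact h9
    rw [mul_div_assoc] at h10
    linarith
  exact h6.trans_lt hL1

theorem Pc_nonneg_low {r₀ B : ℝ} {v : ℝ → ℝ} (hv : Pot r₀ B v) {b : ℝ} (hb : 0 ≤ b) :
    ∃ C : ℝ, ∀ ρ : ℝ, 0 < ρ → ρ * (1 + r₀) ^ 3 < 1 → -(C * ρ) ≤ Pc r₀ v b ρ := by
  have hr := hv.pos
  refine ⟨|lz v 1 1 b|, fun ρ hρ h => ?_⟩
  have h1 := interp_le_Pc hv hb hρ (ℓ := 1) one_pos (n₁ := 0) (n₂ := 1) (by simp; positivity)
    (by simpa using h)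
  refine le_trans ?_ h1
  unfold interp
  rw [lz_zero]
  have h2 := neg_abs_le (lz v 1 1 b)
  have e : (0 + (ρ * (1 + r₀) ^ 3 - ((0 : ℕ) : ℝ)) / (((1 : ℕ) : ℝ) - ((0 : ℕ) : ℝ)) *
      (lz v 1 1 b - 0)) / (1 + r₀) ^ 3 = ρ * lz v 1 1 b := by
    push_cast
    field_simp
    ring
  rw [e]
  nlinarith

/-- the canonical pressure dominates finite volume values -/
theorem lz_le_Pc {r₀ B : ℝ} {v : ℝ → ℝ} (hv : Pot r₀ B v) {b : ℝ} (hb : 0 ≤ b) {ℓ : ℝ}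
    (hℓ : 0 < ℓ) {n : ℕ} (hn : 0 < n) :
    lz v ℓ n b ≤ (ℓ + r₀) ^ 3 * Pc r₀ v b (n / (ℓ + r₀) ^ 3) := by
  have hr := hv.pos
  have hρ : (0 : ℝ) < n / (ℓ + r₀) ^ 3 := by positivity
  have e1 : (n : ℝ) / (ℓ + r₀) ^ 3 * (ℓ + r₀) ^ 3 = n := by field_simp
  have h1 := interp_le_Pc hv hb hρ hℓ (n₁ := n) (n₂ := n + 1) (by rw [e1]) (by rw [e1]; push_cast; linarith)
  unfold interp at h1
  rw [e1, sub_self, zero_div, zero_mul, add_zero, div_le_iff₀ (by positivity)] at h1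
  linarith

theorem Pc_concave {r₀ B : ℝ} {v : ℝ → ℝ} (hv : Pot r₀ B v) {b : ℝ} (hb : 0 ≤ b) :
    ConcaveOn ℝ (Set.Ioi 0) (Pc r₀ v b) := by
  have hr := hv.pos
  refine LinearOrder.concaveOn_of_lt (convex_Ioi 0) ?_
  intro ρ₁ hρ₁ ρ₂ hρ₂ h12 p q hp hq hpq
  simp only [Set.mem_Ioi] at hρ₁ hρ₂
  simp only [smul_eq_mul]
  set ρ := p * ρ₁ + q * ρ₂ with hρdef
  have hρ : 0 < ρ := by positivity
  have hlt1 : ρ₁ < ρ := by
    have : ρ - ρ₁ = q * (ρ₂ - ρ₁) := by rw [hρdef, show p = 1 - q by linarith]; ring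
    have := mul_pos hq (sub_pos.2 h12)
    linarith
  have hlt2 : ρ < ρ₂ := by
    have : ρ₂ - ρ = p * (ρ₂ - ρ₁) := by rw [hρdef, show q = 1 - p by linarith]; ring
    have := mul_pos hp (sub_pos.2 h12)
    linarith
  let n1 : ℝ → ℕ := fun L => ⌊ρ₁ * L ^ 3⌋₊
  let n2 : ℝ → ℕ := fun L => ⌊ρ₂ * L ^ 3⌋₊
  have hn1 : Tendsto (fun L : ℝ => (n1 L : ℝ) / L ^ 3) atTop (𝓝 ρ₁) := tendsto_floor_pow hρ₁.le
  have hn2 : Tendsto (fun L : ℝ => (n2 L : ℝ) / L ^ 3) atTop (𝓝 ρ₂) := tendsto_floor_pow hρ₂.le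
  have hx : Tendsto (fun L : ℝ => (L + r₀) ^ 3 / L ^ 3) atTop (𝓝 1) := by
    have : Tendsto (fun L : ℝ => (1 + r₀ / L) ^ 3) atTop (𝓝 ((1 + 0) ^ 3)) :=
      (Tendsto.const_add 1 (tendsto_const_nhds.div_atTop tendsto_id)).pow 3
    simp only [add_zero, one_pow] at this
    refine this.congr' ?_
    filter_upwards [eventually_gt_atTop 0] with L hL
    field_simp
  have hlam : Tendsto (fun L : ℝ => (ρ * (L + r₀) ^ 3 - n1 L) / (n2 L - n1 L)) atTop (𝓝 q) := by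
    have h1 := ((hx.const_mul ρ).sub hn1).div (hn2.sub hn1) (by linarith)
    have e : (ρ * 1 - ρ₁) / (ρ₂ - ρ₁) = q := by
      rw [div_eq_iff (by linarith), hρdef, show p = 1 - q by linarith]; ring
    rw [e] at h1
    refine h1.congr' ?_
    filter_upwards [eventually_gt_atTop 0] with L hL
    simp only [Pi.div_apply]
    rw [← mul_div_assoc, ← sub_div, ← sub_div, div_div_div_cancel_right₀ (by positivity)]
  have hg1 := tendsto_gd hv hb hρ₁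
  have hg2 := tendsto_gd hv hb hρ₂
  have hlim : Tendsto (fun L : ℝ => (gd v b ρ₁ L + (ρ * (L + r₀) ^ 3 - n1 L) / (n2 L - n1 L) *
      (gd v b ρ₂ L - gd v b ρ₁ L)) / ((L + r₀) ^ 3 / L ^ 3)) atTop
      (𝓝 ((Pc r₀ v b ρ₁ + q * (Pc r₀ v b ρ₂ - Pc r₀ v b ρ₁)) / 1)) :=
    (hg1.add (hlam.mul (hg2.sub hg1))).div hx one_ne_zero
  have e : (Pc r₀ v b ρ₁ + q * (Pc r₀ v b ρ₂ - Pc r₀ v b ρ₁)) / 1 =
      p * Pc r₀ v b ρ₁ + q * Pc r₀ v b ρ₂ := by
    rw [div_one, show p = 1 - q by linarith]; ring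
  rw [e] at hlim
  refine le_of_tendsto hlim ?_
  filter_upwards [eventually_gt_atTop 0,
    ((hx.const_mul ρ).sub hn2).eventually (gt_mem_nhds (by linarith : ρ * 1 - ρ₂ < 0))] with L hL hL2
  have hL3pos : (0 : ℝ) < L ^ 3 := by positivity
  have hn1le : (n1 L : ℝ) ≤ ρ₁ * L ^ 3 := Nat.floor_le (by positivity)
  have hxx : L ^ 3 ≤ (L + r₀) ^ 3 := by gcongr; linarith
  have h1 : (n1 L : ℝ) ≤ ρ * (L + r₀) ^ 3 := hn1le.trans (by gcongr)
  have h2 : ρ * (L + r₀) ^ 3 < n2 L := by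
    have h3 : ρ * ((L + r₀) ^ 3 / L ^ 3) < (n2 L : ℝ) / L ^ 3 := by linarith
    rw [← mul_div_assoc] at h3
    exact (div_lt_div_iff_of_pos_right hL3pos).1 h3
  have h4 := interp_le_Pc hv hb hρ hL h1 h2
  refine le_trans (le_of_eq ?_) h4
  have e1 : gd v b ρ₁ L = lz v L (n1 L) b / L ^ 3 := rfl
  have e2 : gd v b ρ₂ L = lz v L (n2 L) b / L ^ 3 := rfl
  rw [e1, e2]
  unfold interp
  have h5 : (n2 L : ℝ) - n1 L ≠ 0 := by
    have : (n1 L : ℝ) < n2 L := h1.trans_lt h2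
    linarith
  generalize lz v L (n1 L) b = z1
  generalize lz v L (n2 L) b = z2
  generalize (ρ * (L + r₀) ^ 3 - (n1 L : ℝ)) / ((n2 L : ℝ) - n1 L) = lam
  field_simp

/-- supporting lines of concave functions on the half line -/
theorem exists_support {P : ℝ → ℝ} (hP : ConcaveOn ℝ (Set.Ioi 0) P) {ρ : ℝ} (hρ : 0 < ρ) :
    ∃ h : ℝ, ∀ ρ' : ℝ, 0 < ρ' → P ρ' + h * ρ' ≤ P ρ + h * ρ := by
  have hc : ConvexOn ℝ (Set.Ioi 0) (fun x => -P x) := hP.neg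
  have hint : ρ ∈ interior (Set.Ioi (0 : ℝ)) := by simpa using hρ
  refine ⟨derivWithin (fun x => -P x) (Set.Ioi ρ) ρ, fun ρ' hρ' => ?_⟩
  rcases lt_trichotomy ρ ρ' with h | h | h
  · have h1 := hc.rightDeriv_le_slope (Set.mem_Ioi.2 hρ) (Set.mem_Ioi.2 hρ') h
      (hc.differentiableWithinAt_Ioi_of_mem_interior hint)
    rw [slope_def_field, le_div_iff₀ (by linarith)] at h1
    linarith
  · subst h; exact le_rfl
  · have h1 := hc.leftDeriv_le_rightDeriv_of_mem_interior hint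
    have h2 := hc.slope_le_leftDeriv_of_mem_interior (Set.mem_Ioi.2 hρ') hint h
    rw [slope_def_field, div_le_iff₀ (by linarith)] at h2
    nlinarith

theorem tsum_split (f : ℕ → ℝ≥0∞) (m : ℕ) :
    ∑' n, f n = ∑ i ∈ Finset.range m, f i + ∑' i, f (i + m) :=
  (Summable.sum_add_tsum_nat_add' (f := f) (k := m) ENNReal.summable).symm

/-- finite volume estimate of the grand partition function by its terms -/
theorem lx_le_of_terms {r₀ B : ℝ} {v : ℝ → ℝ} (hv : Pot r₀ B v) {L : ℝ} (hL : 0 < L) {b h A : ℝ}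
    (hb : 0 ≤ b) (hA : 0 ≤ A) {m : ℕ} (hm : L ^ 3 * Real.exp (h + 1 + b * B) ≤ m)
    (H : ∀ n : ℕ, n < m → lz v L n b + h * n ≤ A) : lx v L b h ≤ A + Real.log (m + 1) := by
  apply exp_le_of_ofReal
  rw [ofReal_exp_lx hv hL.le hb, Xi_eq_tsum v hv.meas _ (measurableSet_cube L), tsum_split _ m]
  have h1 : ∑ i ∈ Finset.range m, ENNReal.ofReal (Real.exp (h * i)) * Zc v (cube L) i b ≤
      m * ENNReal.ofReal (Real.exp A) := by
    calc _ ≤ ∑ i ∈ Finset.range m, ENNReal.ofReal (Real.exp A) := by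
          refine Finset.sum_le_sum fun i hi => ?_
          rw [← ofReal_exp_lz hv hL i hb, ← ENNReal.ofReal_mul (Real.exp_pos _).le, ← Real.exp_add]
          refine ENNReal.ofReal_le_ofReal (Real.exp_le_exp.2 ?_)
          have := H i (Finset.mem_range.1 hi)
          linarith
      _ = _ := by simp
  have h2 : ∑' i : ℕ, ENNReal.ofReal (Real.exp (h * ((i + m : ℕ) : ℝ))) * Zc v (cube L) (i + m) b ≤
      ENNReal.ofReal (Real.exp A) := by
    calc ∑' i : ℕ, ENNReal.ofReal (Real.exp (h * ((i + m : ℕ) : ℝ))) * Zc v (cube L) (i + m) b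
        ≤ ∑' i : ℕ, ENNReal.ofReal (Real.exp (-(m : ℝ))) *
          (ENNReal.ofReal (Real.exp ((h + 1) * ((i + m : ℕ) : ℝ))) * Zc v (cube L) (i + m) b) := by
          refine ENNReal.tsum_le_tsum fun i => ?_
          rw [← mul_assoc, ← ENNReal.ofReal_mul (Real.exp_pos _).le, ← Real.exp_add]
          gcongr
          push_cast
          have : (0 : ℝ) ≤ i := Nat.cast_nonneg i
          nlinarith
      _ = ENNReal.ofReal (Real.exp (-(m : ℝ))) * ∑' i : ℕ,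
          (ENNReal.ofReal (Real.exp ((h + 1) * ((i + m : ℕ) : ℝ))) * Zc v (cube L) (i + m) b) :=
          ENNReal.tsum_mul_left
      _ ≤ ENNReal.ofReal (Real.exp (-(m : ℝ))) * Xi v (cube L) b (h + 1) := by
          refine mul_le_mul_right ?_ _
          rw [Xi_eq_tsum v hv.meas _ (measurableSet_cube L), tsum_split (fun n : ℕ =>
            ENNReal.ofReal (Real.exp ((h + 1) * (n : ℝ))) * Zc v (cube L) n b) m]
          exact le_add_self
      _ ≤ ENNReal.ofReal (Real.exp (-(m : ℝ))) *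
          ENNReal.ofReal (Real.exp (L ^ 3 * Real.exp (h + 1 + b * B))) := by
          gcongr
          exact Xi_le_exp hv hL.le hb _
      _ ≤ ENNReal.ofReal (Real.exp A) := by
          rw [← ENNReal.ofReal_mul (Real.exp_pos _).le, ← Real.exp_add]
          refine ENNReal.ofReal_le_ofReal (Real.exp_le_exp.2 ?_)
          linarith
  calc _ ≤ (m : ℝ≥0∞) * ENNReal.ofReal (Real.exp A) + ENNReal.ofReal (Real.exp A) := add_le_add h1 h2
    _ = ENNReal.ofReal (Real.exp (A + Real.log (m + 1))) := by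
      rw [Real.exp_add, Real.exp_log (by positivity), ENNReal.ofReal_mul (Real.exp_pos _).le,
        ENNReal.ofReal_add (by positivity) zero_le_one, ENNReal.ofReal_natCast]
      simp
      ring

theorem Pc_le_press {r₀ B : ℝ} {v : ℝ → ℝ} (hv : Pot r₀ B v) {b : ℝ} (hb : 0 ≤ b) {ρ : ℝ}
    (hρ : 0 < ρ) (h : ℝ) : Pc r₀ v b ρ + h * ρ ≤ press r₀ v b h := by
  have hr := hv.pos
  have hx : Tendsto (fun L : ℝ => (L + r₀) ^ 3 / L ^ 3 * press r₀ v b h) atTop (𝓝 (1 * press r₀ v b h)) := by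
    refine Tendsto.mul_const _ ?_
    have : Tendsto (fun L : ℝ => (1 + r₀ / L) ^ 3) atTop (𝓝 ((1 + 0) ^ 3)) :=
      (Tendsto.const_add 1 (tendsto_const_nhds.div_atTop tendsto_id)).pow 3
    simp only [add_zero, one_pow] at this
    refine this.congr' ?_
    filter_upwards [eventually_gt_atTop 0] with L hL
    field_simp
  rw [one_mul] at hx
  have h1 := (tendsto_gd hv hb hρ).add ((tendsto_floor_pow hρ.le).const_mul h)
  refine le_of_tendsto_of_tendsto h1 hx ?_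
  filter_upwards [eventually_gt_atTop 0] with L hL
  have h2 := lz_add_le_lx hv hL ⌊ρ * L ^ 3⌋₊ hb h
  have h3 := lx_le_press hv hb h hL
  unfold gd
  rw [← mul_div_assoc, ← add_div, div_mul_eq_mul_div]
  gcongr
  exact h2.trans h3

theorem tendsto_log_div_cube {a r₀ : ℝ} (ha : 0 ≤ a) (hr : 0 < r₀) :
    Tendsto (fun L : ℝ => Real.log (a * L ^ 3 + 2) / (L + r₀) ^ 3) atTop (𝓝 0) := by
  have h1 : Tendsto (fun L : ℝ => Real.log (L ^ 3) / L ^ 3) atTop (𝓝 0) := by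
    have h2 : Tendsto (fun x : ℝ => Real.log x / x) atTop (𝓝 0) := by
      have := Real.isLittleO_log_id_atTop.tendsto_div_nhds_zero
      simpa using this
    exact h2.comp (tendsto_pow_atTop (by norm_num))
  have h3 : Tendsto (fun L : ℝ => (Real.log (a + 2)) / L ^ 3 + Real.log (L ^ 3) / L ^ 3) atTop (𝓝 (0 + 0)) :=
    ((tendsto_pow_atTop (by norm_num : (3 : ℕ) ≠ 0)).const_div_atTop _).add h1
  rw [add_zero] at h3
  refine squeeze_zero' ?_ ?_ h3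
  · filter_upwards [eventually_ge_atTop 1] with L hL
    refine div_nonneg (Real.log_nonneg ?_) (by positivity)
    have : 0 ≤ a * L ^ 3 := by positivity
    linarith
  · filter_upwards [eventually_ge_atTop 1] with L hL
    have hL3 : 1 ≤ L ^ 3 := one_le_pow₀ hL
    rw [← add_div, ← Real.log_mul (by positivity) (by positivity)]
    have h4 : a * L ^ 3 + 2 ≤ (a + 2) * L ^ 3 := by nlinarith
    have h5 : 0 ≤ Real.log ((a + 2) * L ^ 3) := Real.log_nonneg (by nlinarith)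
    have h6 : Real.log (a * L ^ 3 + 2) ≤ Real.log ((a + 2) * L ^ 3) :=
      Real.log_le_log (by positivity) h4
    have h7 : L ^ 3 ≤ (L + r₀) ^ 3 := by gcongr; linarith
    calc Real.log (a * L ^ 3 + 2) / (L + r₀) ^ 3 ≤ Real.log ((a + 2) * L ^ 3) / (L + r₀) ^ 3 := by gcongr
      _ ≤ Real.log ((a + 2) * L ^ 3) / L ^ 3 := by gcongr

/-- equivalence of ensembles -/
theorem exists_press_eq {r₀ B : ℝ} {v : ℝ → ℝ} (hv : Pot r₀ B v) {b : ℝ} (hb : 0 ≤ b) {ρ : ℝ}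
    (hρ : 0 < ρ) : ∃ h : ℝ, press r₀ v b h ≤ Pc r₀ v b ρ + h * ρ := by
  have hr := hv.pos
  obtain ⟨h, hh⟩ := exists_support (Pc_concave hv hb) hρ
  refine ⟨h, ?_⟩
  set A := Pc r₀ v b ρ + h * ρ with hAdef
  have hA : 0 ≤ A := by
    obtain ⟨C, hC⟩ := Pc_nonneg_low hv hb
    have h1 : Tendsto (fun ρ' : ℝ => -(C * ρ') + h * ρ') (𝓝[>] 0) (𝓝 (-(C * 0) + h * 0)) := by
      refine Tendsto.mono_left ?_ nhdsWithin_le_nhds
      exact (Continuous.tendsto (by fun_prop) 0)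
    have e : -(C * 0) + h * 0 = 0 := by ring
    rw [e] at h1
    refine le_of_tendsto h1 ?_
    have h2 : ∀ᶠ ρ' in 𝓝[>] (0 : ℝ), ρ' * (1 + r₀) ^ 3 < 1 := by
      have h3 : Tendsto (fun ρ' : ℝ => ρ' * (1 + r₀) ^ 3) (𝓝[>] 0) (𝓝 (0 * (1 + r₀) ^ 3)) := by
        refine Tendsto.mono_left ?_ nhdsWithin_le_nhds
        exact (Continuous.tendsto (by fun_prop) 0)
      rw [zero_mul] at h3
      exact h3.eventually (gt_mem_nhds one_pos)
    filter_upwards [h2, self_mem_nhdsWithin] with ρ' h3 h4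
    have h5 := hC ρ' h4 h3
    have h6 := hh ρ' h4
    linarith
  set a := Real.exp (h + 1 + b * B) with ha
  have hapos : 0 < a := Real.exp_pos _
  refine press_le_of_tendsto hv hb (u := fun L => A + Real.log (a * L ^ 3 + 2) / (L + r₀) ^ 3) ?_ ?_
  · have := (tendsto_log_div_cube hapos.le hr).const_add A
    simpa using this
  · filter_upwards [eventually_gt_atTop 0] with L hL
    have hx : 0 < L + r₀ := by positivity
    have h1 := lx_le_of_terms hv hL (h := h) (A := (L + r₀) ^ 3 * A) hb (by positivity)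
      (m := ⌈L ^ 3 * a⌉₊) (Nat.le_ceil _) ?_
    · refine h1.trans ?_
      have h2 : Real.log ((⌈L ^ 3 * a⌉₊ : ℝ) + 1) ≤ Real.log (a * L ^ 3 + 2) := by
        refine Real.log_le_log (by positivity) ?_
        have := (Nat.ceil_lt_add_one (by positivity : 0 ≤ L ^ 3 * a)).le
        nlinarith
      have e : (A + Real.log (a * L ^ 3 + 2) / (L + r₀) ^ 3) * (L + r₀) ^ 3 =
          (L + r₀) ^ 3 * A + Real.log (a * L ^ 3 + 2) := by
        field_simp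
      rw [e]
      linarith
    · intro n _
      rcases Nat.eq_zero_or_pos n with rfl | hn
      · rw [lz_zero]; simp; positivity
      · have h3 := lz_le_Pc hv hb hL hn
        have hρ' : (0 : ℝ) < n / (L + r₀) ^ 3 := by positivity
        have h4 := hh _ hρ'
        have h5 : (L + r₀) ^ 3 * (Pc r₀ v b (n / (L + r₀) ^ 3) + h * (n / (L + r₀) ^ 3)) ≤
            (L + r₀) ^ 3 * A := by gcongr
        have e : (L + r₀) ^ 3 * (Pc r₀ v b (n / (L + r₀) ^ 3) + h * (n / (L + r₀) ^ 3)) =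
            (L + r₀) ^ 3 * Pc r₀ v b (n / (L + r₀) ^ 3) + h * n := by
          field_simp
        rw [e] at h5
        linarith

theorem Pc_convex {r₀ B : ℝ} {v : ℝ → ℝ} (hv : Pot r₀ B v) {ρ : ℝ} (hρ : 0 < ρ) :
    ConvexOn ℝ (Set.Ioi 0) (fun b => Pc r₀ v b ρ) := by
  refine ⟨convex_Ioi 0, ?_⟩
  intro b₁ hb₁ b₂ hb₂ p q hp hq hpq
  simp only [Set.mem_Ioi] at hb₁ hb₂
  simp only [smul_eq_mul]
  have h1 := tendsto_gd hv hb₁.le hρ
  have h2 := tendsto_gd hv hb₂.le hρ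
  have h3 := tendsto_gd hv (b := p * b₁ + q * b₂) (by positivity) hρ
  refine le_of_tendsto_of_tendsto h3 ((h1.const_mul p).add (h2.const_mul q)) ?_
  filter_upwards [eventually_gt_atTop 0] with L hL
  unfold gd
  have h4 := lz_convex hv hL ⌊ρ * L ^ 3⌋₊ hp hq hpq hb₁.le hb₂.le
  rw [← mul_div_assoc, ← mul_div_assoc, ← add_div]
  gcongr

end Crest.Agent.H13Canon
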