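import Mathlib
import Crest.Agent.H13Canon

/-!
Block decoupling with averaged shifts.
-/

set_option autoImplicit false

open MeasureTheory Filter Topology
open scoped ENNReal

namespace Crest.Agent.H13Dec

open Crest.Agent.H13Conf Crest.Agent.H13Energy Crest.Agent.H13Basic Crest.Agent.H13Cube
open Crest.Agent.H19Pair Crest.Agent.H13Super Crest.Agent.H13Press Crest.Agent.H13Canon

theorem card_floor_ne_aux {q : ℕ} (hq : 0 < q) {u w : ℝ} (huw : u ≤ w) :
    (((Finset.range q).filter (fun s : ℕ => ⌊u + s / q⌋ ≠ ⌊w + s / q⌋)).card : ℝ) ≤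
      q * (w - u) + 1 := by
  have hqR : (0 : ℝ) < q := by exact_mod_cast hq
  have h1 : ((Finset.range q).filter (fun s : ℕ => ⌊u + s / q⌋ ≠ ⌊w + s / q⌋)).card ≤
      (Finset.Ioc ⌊(q : ℝ) * u⌋ ⌊(q : ℝ) * w⌋).card := by
    refine Finset.card_le_card_of_injOn (fun s : ℕ => ⌊w + s / q⌋ * (q : ℤ) - s) ?_ ?_
    · intro s hs
      simp only [Finset.coe_filter, Finset.mem_range, Set.mem_ofPred_eq] at hs
      obtain ⟨_, hne⟩ := hs
      have hmono : ⌊u + s / q⌋ ≤ ⌊w + s / q⌋ := Int.floor_mono (by linarith)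
      have hlt : ⌊u + s / q⌋ < ⌊w + s / q⌋ := lt_of_le_of_ne hmono hne
      have h2 := Int.floor_lt.1 hlt
      have h3 := Int.floor_le (w + s / q : ℝ)
      simp only [Finset.coe_Ioc, Set.mem_Ioc]
      constructor
      · rw [Int.floor_lt]
        push_cast
        have := mul_lt_mul_of_pos_left h2 hqR
        rw [mul_add, mul_div_cancel₀ _ hqR.ne'] at this
        nlinarith
      · rw [Int.le_floor]
        push_cast
        have := mul_le_mul_of_nonneg_left h3 hqR.le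
        rw [mul_add, mul_div_cancel₀ _ hqR.ne'] at this
        nlinarith
    · intro s hs s' hs' heq
      simp only [Finset.coe_filter, Finset.mem_range, Set.mem_ofPred_eq] at hs hs'
      simp only at heq
      have h2 : ((s : ℤ) - s') = (⌊w + s / q⌋ - ⌊w + s' / q⌋) * q := by linarith
      have h3 : ((s : ℤ) - s') = 0 := by
        refine Int.eq_zero_of_abs_lt_dvd (m := (q : ℤ))
          ⟨⌊w + s / q⌋ - ⌊w + s' / q⌋, by rw [h2]; ring⟩ ?_
        rw [abs_lt]
        constructor <;> omega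
      omega
  have h2 : ((Finset.Ioc ⌊(q : ℝ) * u⌋ ⌊(q : ℝ) * w⌋).card : ℝ) ≤ q * (w - u) + 1 := by
    rw [Int.card_Ioc]
    have h3 : ⌊(q : ℝ) * u⌋ ≤ ⌊(q : ℝ) * w⌋ := Int.floor_mono (by nlinarith)
    have h4 : ((⌊(q : ℝ) * w⌋ - ⌊(q : ℝ) * u⌋).toNat : ℤ) = ⌊(q : ℝ) * w⌋ - ⌊(q : ℝ) * u⌋ :=
      Int.toNat_of_nonneg (by omega)
    have h5 : (((⌊(q : ℝ) * w⌋ - ⌊(q : ℝ) * u⌋).toNat : ℕ) : ℝ) = ⌊(q : ℝ) * w⌋ - ⌊(q : ℝ) * u⌋ := by
      exact_mod_cast congrArg (Int.cast (R := ℝ)) h4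
    rw [h5]
    have h6 := Int.floor_le ((q : ℝ) * w)
    have h7 := Int.lt_floor_add_one ((q : ℝ) * u)
    linarith
  exact (by exact_mod_cast h1 : ((_ : ℕ) : ℝ) ≤ ((_ : ℕ) : ℝ)).trans h2

theorem card_floor_ne {q : ℕ} (hq : 0 < q) (u w : ℝ) :
    (((Finset.range q).filter (fun s : ℕ => ⌊u + s / q⌋ ≠ ⌊w + s / q⌋)).card : ℝ) ≤
      q * |u - w| + 1 := by
  rcases le_total u w with h | h
  · refine (card_floor_ne_aux hq h).trans (le_of_eq ?_)
    rw [abs_sub_comm, abs_of_nonneg (by linarith)]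
  · have e : (Finset.range q).filter (fun s : ℕ => ⌊u + s / q⌋ ≠ ⌊w + s / q⌋) =
        (Finset.range q).filter (fun s : ℕ => ⌊w + s / q⌋ ≠ ⌊u + s / q⌋) := by
      refine Finset.filter_congr fun s _ => ?_
      exact ne_comm
    rw [e]
    refine (card_floor_ne_aux hq h).trans (le_of_eq ?_)
    rw [abs_of_nonneg (by linarith)]

/-- the shift vectors -/
noncomputable def sh (ℓ : ℝ) (q s : ℕ) : Fin 3 → ℝ := fun _ => s * ℓ / q

theorem card_cut {ℓ R' : ℝ} (hℓ : 0 < ℓ) {q : ℕ} (hq : 0 < q) {x y : Pt} (hxy : dist x y ≤ R') :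
    (((Finset.range q).filter (fun s : ℕ => bmap ℓ (sh ℓ q s) x ≠ bmap ℓ (sh ℓ q s) y)).card : ℝ) ≤
      3 * (q * (R' / ℓ) + 1) := by
  have hqR : (0 : ℝ) < q := by exact_mod_cast hq
  have h1 : (Finset.range q).filter (fun s : ℕ => bmap ℓ (sh ℓ q s) x ≠ bmap ℓ (sh ℓ q s) y) ⊆
      Finset.univ.biUnion (fun k : Fin 3 => (Finset.range q).filter
        (fun s : ℕ => ⌊x k / ℓ + s / q⌋ ≠ ⌊y k / ℓ + s / q⌋)) := by
    intro s hs
    simp only [Finset.mem_filter] at hs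
    obtain ⟨hs1, hs2⟩ := hs
    obtain ⟨k, hk⟩ := Function.ne_iff.1 hs2
    simp only [Finset.mem_biUnion, Finset.mem_univ, true_and, Finset.mem_filter]
    refine ⟨k, hs1, ?_⟩
    unfold bmap sh at hk
    have e : ∀ z : ℝ, (z + s * ℓ / q) / ℓ = z / ℓ + s / q := by
      intro z; field_simp
    rwa [e, e] at hk
  have h2 := (Finset.card_le_card h1).trans Finset.card_biUnion_le
  have h3 : ((∑ k : Fin 3, ((Finset.range q).filter
        (fun s : ℕ => ⌊x k / ℓ + s / q⌋ ≠ ⌊y k / ℓ + s / q⌋)).card : ℕ) : ℝ) ≤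
      ∑ _k : Fin 3, (q * (R' / ℓ) + 1) := by
    push_cast
    refine Finset.sum_le_sum fun k _ => ?_
    refine (card_floor_ne hq _ _).trans ?_
    have h4 : |x k / ℓ - y k / ℓ| ≤ R' / ℓ := by
      rw [← sub_div, abs_div, abs_of_pos hℓ]
      gcongr
      exact (abs_coord_le_dist x y k).trans hxy
    gcongr
  have h4 : ((((Finset.range q).filter
      (fun s : ℕ => bmap ℓ (sh ℓ q s) x ≠ bmap ℓ (sh ℓ q s) y)).card : ℕ) : ℝ) ≤
      ((∑ k : Fin 3, ((Finset.range q).filter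
        (fun s : ℕ => ⌊x k / ℓ + s / q⌋ ≠ ⌊y k / ℓ + s / q⌋)).card : ℕ) : ℝ) := by exact_mod_cast h2
  refine h4.trans (h3.trans (le_of_eq ?_))
  simp
  ring

/-- total attraction -/
noncomputable def Am (v : ℝ → ℝ) (l : List Pt) : ℝ := E (fun r => max 0 (-v r)) l

/-- a good shift -/
theorem exists_shift {v : ℝ → ℝ} {ℓ R' : ℝ} (hℓ : 0 < ℓ) {q : ℕ} (hq : 0 < q)
    (hR : ∀ r, R' < r → v r = 0) (l : List Pt) :
    ∃ s ∈ Finset.range q,
      pairSum (fun x y => if bmap ℓ (sh ℓ q s) x = bmap ℓ (sh ℓ q s) y then 0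
        else max 0 (-v (dist x y))) l ≤ 3 * (R' / ℓ + 1 / q) * Am v l := by
  have hqR : (0 : ℝ) < q := by exact_mod_cast hq
  have h1 : ∑ s ∈ Finset.range q, pairSum (fun x y => if bmap ℓ (sh ℓ q s) x = bmap ℓ (sh ℓ q s) y
      then 0 else max 0 (-v (dist x y))) l ≤
      ∑ s ∈ Finset.range q, 3 * (R' / ℓ + 1 / q) * Am v l := by
    rw [← pairSum_finset_sum, Finset.sum_const, Finset.card_range, nsmul_eq_mul]
    have e : (q : ℝ) * (3 * (R' / ℓ + 1 / q) * Am v l) =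
        pairSum (fun x y => 3 * (q * (R' / ℓ) + 1) * max 0 (-v (dist x y))) l := by
      rw [pairSum_const_mul]
      unfold Am E
      field_simp
    rw [e]
    refine pairSum_mono l fun x _ y _ => ?_
    by_cases hxy : dist x y ≤ R'
    · have h2 := card_cut hℓ hq hxy
      have h3 : ∑ s ∈ Finset.range q, (if bmap ℓ (sh ℓ q s) x = bmap ℓ (sh ℓ q s) y then 0
          else max 0 (-v (dist x y))) = (((Finset.range q).filter
            (fun s : ℕ => bmap ℓ (sh ℓ q s) x ≠ bmap ℓ (sh ℓ q s) y)).card : ℝ) *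
            max 0 (-v (dist x y)) := by
        rw [Finset.sum_ite, Finset.sum_const_zero, zero_add, Finset.sum_const, nsmul_eq_mul]
      rw [h3]
      gcongr
    · have : v (dist x y) = 0 := hR _ (not_le.1 hxy)
      simp [this]
  exact Finset.exists_le_of_sum_le (by simpa using hq.ne') h1

/-- decoupling inequality -/
theorem decouple {v : ℝ → ℝ} {ℓ R' B θ : ℝ} (hℓ : 0 < ℓ) {q : ℕ} (hq : 0 < q)
    (hR : ∀ r, R' < r → v r = 0) (hattr : ∀ l : List Pt, Am v l ≤ E v l + B * l.length)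
    (hθ : θ = 3 * (R' / ℓ + 1 / q)) (hθ0 : 0 ≤ θ) (l : List Pt) :
    ∃ s ∈ Finset.range q, ∀ S : Finset (Fin 3 → ℤ), (∀ x ∈ l, bmap ℓ (sh ℓ q s) x ∈ S) →
      ∑ i ∈ S, E v (l.filter (fun x => decide (bmap ℓ (sh ℓ q s) x = i))) ≤
        (1 + θ) * E v l + θ * B * l.length := by
  obtain ⟨s, hs, h1⟩ := exists_shift hℓ hq hR l
  refine ⟨s, hs, fun S hS => ?_⟩
  rw [← hθ] at h1
  have h2 := pairSum_block (fun x y => v (dist x y)) (bmap ℓ (sh ℓ q s)) S l hS
  have h3 : pairSum (fun x y => if bmap ℓ (sh ℓ q s) x = bmap ℓ (sh ℓ q s) y then v (dist x y) else 0) l ≤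
      E v l + pairSum (fun x y => if bmap ℓ (sh ℓ q s) x = bmap ℓ (sh ℓ q s) y then 0
        else max 0 (-v (dist x y))) l := by
    unfold E
    rw [← pairSum_add]
    refine pairSum_mono l fun x _ y _ => ?_
    split_ifs with h
    · simp
    · have := le_max_right 0 (-v (dist x y))
      linarith
  have h4 : ∑ i ∈ S, E v (l.filter (fun x => decide (bmap ℓ (sh ℓ q s) x = i))) =
      ∑ i ∈ S, pairSum (fun x y => v (dist x y)) (l.filter (fun x => decide (bmap ℓ (sh ℓ q s) x = i))) := rfl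
  rw [h4, ← h2]
  have h5 := mul_le_mul_of_nonneg_left (hattr l) hθ0
  linarith

/-- functional with a quadratic term in the particle number -/
noncomputable def Fq (v : ℝ → ℝ) (b h c : ℝ) (l : List Pt) : ℝ≥0∞ :=
  ENNReal.ofReal (Real.exp (-b * E v l + h * l.length + c * (l.length : ℝ) ^ 2))

theorem MF1_Fq {v : ℝ → ℝ} (hv : Measurable v) (b h c : ℝ) : MF1 (Fq v b h c) :=
  ((((MR_E hv).const_mul (-b)).add ((MR.of_length (fun n => h * n)))).add
    (MR.of_length (fun n => c * (n : ℝ) ^ 2))).exp.ofReal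

theorem TI_Fq (v : ℝ → ℝ) (b h c : ℝ) : TI (Fq v b h c) := by
  intro a l
  unfold Fq
  rw [E_translate]
  simp

theorem one_le_G_Fq (v : ℝ → ℝ) (Λ : Set Pt) (b h c : ℝ) : 1 ≤ G Λ (Fq v b h c) := by
  unfold G
  refine le_trans ?_ (ENNReal.le_tsum 0)
  simp [J, Fq, E]

theorem dec_upper {v w : ℝ → ℝ} (hv : Measurable v) {ℓ R' B θ b h c : ℝ}
    (hℓ : 0 < ℓ) {q : ℕ} (hq : 0 < q)
    (hR : ∀ r, R' < r → v r = 0) (hattr : ∀ l : List Pt, Am v l ≤ E v l + B * l.length)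
    (hθ : θ = 3 * (R' / ℓ + 1 / q)) (hθ0 : 0 ≤ θ) (hb : 0 < b)
    (hwE : ∀ (a : Fin 3 → ℝ) (l : List Pt), b * E v l ≤ b * E w l +
      c * (l.length + 2 * pairSum (fun x y => if bmap ℓ a x = bmap ℓ a y then 1 else 0) l))
    {L : ℝ} (hL : 0 < L) :
    Xi w (cube L) b h ≤ q * G (cube ℓ) (Fq v (b / (1 + θ)) (h + b / (1 + θ) * (θ * B)) c) ^
      ((⌊L / ℓ⌋₊ + 2) ^ 3) := by
  set b' := b / (1 + θ) with hb'
  set h' := h + b' * (θ * B) with hh'
  set M := ⌊L / ℓ⌋₊ + 2 with hM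
  have hqR : (0 : ℝ) < q := by exact_mod_cast hq
  have h1θ : 0 < 1 + θ := by linarith
  have hb'pos : 0 < b' := by positivity
  have hbb' : b' * (1 + θ) = b := by rw [hb']; field_simp
  -- block indices
  have hidx : ∀ s ∈ Finset.range q, ∀ x ∈ cube L, bmap ℓ (sh ℓ q s) x ∈ idx M := by
    intro s hs x hx
    rw [mem_idx]
    intro k
    have hk := hx k
    have hs' : (s : ℝ) < q := by exact_mod_cast Finset.mem_range.1 hs
    have hs0 : (0 : ℝ) ≤ s * ℓ / q := by positivity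
    have hs1 : s * ℓ / q ≤ ℓ := by
      rw [div_le_iff₀ hqR]
      nlinarith
    unfold bmap sh
    constructor
    · refine Int.floor_nonneg.2 (div_nonneg ?_ hℓ.le)
      linarith [hk.1]
    · rw [Int.floor_lt, div_lt_iff₀ hℓ]
      have h2 := Nat.lt_floor_add_one (L / ℓ)
      rw [div_lt_iff₀ hℓ] at h2
      rw [hM]
      push_cast
      nlinarith [hk.2]
  have hpt : ∀ l : List Pt, (∀ x ∈ l, x ∈ cube L) → bw w b h l ≤
      ∑ s ∈ Finset.range q, ∏ i ∈ idx M,
        Fq v b' h' c (l.filter (fun x => decide (bmap ℓ (sh ℓ q s) x = i))) := by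
    intro l hl
    obtain ⟨s, hs, hdec⟩ := decouple hℓ hq hR hattr hθ hθ0 l
    refine le_trans ?_ (Finset.single_le_sum (f := fun s => ∏ i ∈ idx M,
        Fq v b' h' c (l.filter (fun x => decide (bmap ℓ (sh ℓ q s) x = i)))) (fun _ _ => zero_le) hs)
    have hS : ∀ x ∈ l, bmap ℓ (sh ℓ q s) x ∈ idx M := fun x hx => hidx s hs x (hl x hx)
    have hd := hdec (idx M) hS
    simp only [Fq]
    rw [prod_ofReal_exp]
    unfold bw
    refine ENNReal.ofReal_le_ofReal (Real.exp_le_exp.2 ?_)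
    rw [Finset.sum_add_distrib, Finset.sum_add_distrib, ← Finset.mul_sum, ← Finset.mul_sum,
      ← Finset.mul_sum, sum_length_filter _ _ l hS, sum_sq_length_filter _ _ l hS]
    have h2 := hwE (sh ℓ q s) l
    have h3 := mul_le_mul_of_nonneg_left hd hb'pos.le
    have h4 : b' * ((1 + θ) * E v l + θ * B * l.length) = b * E v l + b' * (θ * B) * l.length := by
      rw [← hbb']; ring
    rw [h4] at h3
    rw [hh']
    linarith
  have hmeasF : ∀ s, MF1 (fun l => ∏ i ∈ idx M,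
        Fq v b' h' c (l.filter (fun x => decide (bmap ℓ (sh ℓ q s) x = i)))) := by
    intro s
    refine MF1.prod _ fun i _ => ?_
    classical
    have := (MF1_Fq hv b' h' c).filter (measurableSet_blk ℓ (sh ℓ q s) i)
    refine (iff_of_eq (congrArg MF1 ?_)).1 this
    funext l
    congr 1
    refine List.filter_congr fun x _ => ?_
    simp only [mem_blk]
  calc Xi w (cube L) b h
      ≤ G (cube L) (fun l => ∑ s ∈ Finset.range q, ∏ i ∈ idx M,
        Fq v b' h' c (l.filter (fun x => decide (bmap ℓ (sh ℓ q s) x = i)))) :=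
        G_mono (measurableSet_cube L) hpt
    _ = ∑ s ∈ Finset.range q, G (cube L) (fun l => ∏ i ∈ idx M,
        Fq v b' h' c (l.filter (fun x => decide (bmap ℓ (sh ℓ q s) x = i)))) :=
        G_sum _ _ fun s _ => hmeasF s
    _ ≤ ∑ s ∈ Finset.range q, G (cube ℓ) (Fq v b' h' c) ^ (M ^ 3) := by
        refine Finset.sum_le_sum fun s hs => ?_
        have hun : cube L = ⋃ i ∈ idx M, (cube L ∩ blk ℓ (sh ℓ q s) i) := by
          ext x
          simp only [Set.mem_iUnion, exists_prop]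
          constructor
          · intro hx
            exact ⟨_, hidx s hs x hx, hx, mem_blk.2 rfl⟩
          · rintro ⟨i, _, hx, _⟩
            exact hx
        have h5 := G_blocks_eq (bmap ℓ (sh ℓ q s)) (idx M) (fun i => cube L ∩ blk ℓ (sh ℓ q s) i)
          (fun i _ => (measurableSet_cube L).inter (measurableSet_blk _ _ _))
          (fun i _ x hx => mem_blk.1 hx.2) (F := fun _ => Fq v b' h' c) (fun _ _ => MF1_Fq hv b' h' c)
        rw [← hun] at h5
        have h6 : G (cube L) (fun l => ∏ i ∈ idx M,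
            Fq v b' h' c (l.filter (fun x => decide (bmap ℓ (sh ℓ q s) x = i)))) =
            ∏ i ∈ idx M, G (cube L ∩ blk ℓ (sh ℓ q s) i) (Fq v b' h' c) := by
          rw [← h5]
          refine G_congr (measurableSet_cube L) fun l _ => ?_
          refine Finset.prod_congr rfl fun i _ => ?_
          congr 1
          refine List.filter_congr fun x _ => ?_
          simp
        rw [h6]
        calc ∏ i ∈ idx M, G (cube L ∩ blk ℓ (sh ℓ q s) i) (Fq v b' h' c)
            ≤ ∏ i ∈ idx M, G (cube ℓ) (Fq v b' h' c) := by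
              refine Finset.prod_le_prod' fun i _ => ?_
              refine (G_mono_set (Set.inter_subset_right.trans (blk_subset_box hℓ _ i)) _).trans ?_
              rw [G_box _ ℓ (MF1_Fq hv b' h' c) (TI_Fq v b' h' c)]
          _ = _ := by rw [Finset.prod_const, card_idx]
    _ = _ := by simp

theorem press_le_of_G {r₀ B : ℝ} {v w : ℝ → ℝ} (hw : Pot r₀ B w) (hv : Measurable v)
    {ℓ R' B' θ b h c A : ℝ} (hℓ : 0 < ℓ) {q : ℕ} (hq : 0 < q)
    (hR : ∀ r, R' < r → v r = 0) (hattr : ∀ l : List Pt, Am v l ≤ E v l + B' * l.length)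
    (hθ : θ = 3 * (R' / ℓ + 1 / q)) (hθ0 : 0 ≤ θ) (hb : 0 < b)
    (hwE : ∀ (a : Fin 3 → ℝ) (l : List Pt), b * E v l ≤ b * E w l +
      c * (l.length + 2 * pairSum (fun x y => if bmap ℓ a x = bmap ℓ a y then 1 else 0) l))
    (hA : 0 ≤ A) (hG : G (cube ℓ) (Fq v (b / (1 + θ)) (h + b / (1 + θ) * (θ * B')) c) ≤
      ENNReal.ofReal (Real.exp A)) : press r₀ w b h ≤ A / ℓ ^ 3 := by
  have hr := hw.pos
  have hqR : (0 : ℝ) < q := by exact_mod_cast hq
  refine press_le_of_tendsto hw hb.le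
    (u := fun L => (Real.log q + (L / ℓ + 2) ^ 3 * A) / (L + r₀) ^ 3) ?_ ?_
  · have h1 : Tendsto (fun L : ℝ => Real.log q / (L + r₀) ^ 3 + ((1 / ℓ + (2 - r₀ / ℓ) / (L + r₀))) ^ 3 * A)
        atTop (𝓝 (0 + (1 / ℓ + 0) ^ 3 * A)) := by
      have h2 : Tendsto (fun L : ℝ => L + r₀) atTop atTop := tendsto_atTop_add_const_right _ _ tendsto_id
      refine Tendsto.add ?_ ?_
      · exact ((tendsto_pow_atTop (by norm_num)).comp h2).const_div_atTop _
      · refine Tendsto.mul_const _ (Tendsto.pow (Tendsto.const_add _ ?_) 3)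
        exact h2.const_div_atTop _
    have e : 0 + (1 / ℓ + 0) ^ 3 * A = A / ℓ ^ 3 := by field_simp; ring
    rw [e] at h1
    refine h1.congr' ?_
    filter_upwards [eventually_gt_atTop 0] with L hL
    have hx : 0 < L + r₀ := by positivity
    have e2 : 1 / ℓ + (2 - r₀ / ℓ) / (L + r₀) = (L / ℓ + 2) / (L + r₀) := by
      field_simp
      ring
    rw [e2, div_pow]
    field_simp
  · filter_upwards [eventually_gt_atTop 0] with L hL
    have hx : 0 < L + r₀ := by positivity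
    rw [div_mul_cancel₀ _ (by positivity)]
    apply exp_le_of_ofReal
    rw [ofReal_exp_lx hw hL.le hb.le]
    refine (dec_upper hv hℓ hq hR hattr hθ hθ0 hb hwE hL).trans ?_
    rw [Real.exp_add, Real.exp_log hqR, ENNReal.ofReal_mul hqR.le, ENNReal.ofReal_natCast]
    refine mul_le_mul_right ?_ _
    refine (pow_le_pow_left' hG _).trans ?_
    rw [← ENNReal.ofReal_pow (Real.exp_pos _).le, ← Real.exp_nat_mul]
    refine ENNReal.ofReal_le_ofReal (Real.exp_le_exp.2 ?_)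
    refine mul_le_mul_of_nonneg_right ?_ hA
    push_cast
    have : ((⌊L / ℓ⌋₊ : ℕ) : ℝ) ≤ L / ℓ := Nat.floor_le (by positivity)
    gcongr

theorem G_Fq_eq_tsum {v : ℝ → ℝ} (hv : Measurable v) {Λ : Set Pt} (hΛ : MeasurableSet Λ) (b h c : ℝ) :
    G Λ (Fq v b h c) = ∑' n : ℕ, ENNReal.ofReal (Real.exp (h * n + c * (n : ℝ) ^ 2)) * Zc v Λ n b := by
  unfold G
  refine tsum_congr fun n => ?_
  have : J Λ n (Fq v b h c) =
      J Λ n (fun l => ENNReal.ofReal (Real.exp (h * n + c * (n : ℝ) ^ 2)) * bw v b 0 l) := by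
    refine J_congr hΛ n fun l hl _ => ?_
    unfold Fq bw
    rw [hl, ← ENNReal.ofReal_mul (Real.exp_pos _).le, ← Real.exp_add]
    congr 2
    ring
  rw [this, J_const_mul Λ n _ (MF1_bw hv b 0)]
  unfold Zc
  ring

theorem G_Fq_zero (v : ℝ → ℝ) (Λ : Set Pt) (b h : ℝ) : G Λ (Fq v b h 0) = Xi v Λ b h := by
  unfold Xi
  congr 1
  funext l
  simp [Fq, bw]

theorem G_Fq_le_of_terms {r₀ B : ℝ} {v : ℝ → ℝ} (hv : Pot r₀ B v) {ℓ b h c A : ℝ} (hℓ : 0 < ℓ)
    (hb : 0 ≤ b) (hA : 0 ≤ A) {m : ℕ}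
    (H1 : ∀ n : ℕ, n < m → lz v ℓ n b + h * n + c * (n : ℝ) ^ 2 ≤ A)
    (H2 : ∀ n : ℕ, m ≤ n → lz v ℓ n b + h * n + c * (n : ℝ) ^ 2 ≤ -n) :
    G (cube ℓ) (Fq v b h c) ≤ ENNReal.ofReal (Real.exp (A + Real.log (m + 2))) := by
  rw [G_Fq_eq_tsum hv.meas (measurableSet_cube ℓ), tsum_split _ m]
  have h1 : ∑ i ∈ Finset.range m, ENNReal.ofReal (Real.exp (h * i + c * (i : ℝ) ^ 2)) * Zc v (cube ℓ) i b ≤
      m * ENNReal.ofReal (Real.exp A) := by
    calc _ ≤ ∑ i ∈ Finset.range m, ENNReal.ofReal (Real.exp A) := by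
          refine Finset.sum_le_sum fun i hi => ?_
          rw [← ofReal_exp_lz hv hℓ i hb, ← ENNReal.ofReal_mul (Real.exp_pos _).le, ← Real.exp_add]
          refine ENNReal.ofReal_le_ofReal (Real.exp_le_exp.2 ?_)
          have := H1 i (Finset.mem_range.1 hi)
          linarith
      _ = _ := by simp
  have h2 : ∑' i : ℕ, ENNReal.ofReal (Real.exp (h * ((i + m : ℕ) : ℝ) + c * (((i + m : ℕ) : ℝ)) ^ 2)) *
      Zc v (cube ℓ) (i + m) b ≤ 2 := by
    calc _ ≤ ∑' i : ℕ, (2⁻¹ : ℝ≥0∞) ^ i := by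
          refine ENNReal.tsum_le_tsum fun i => ?_
          rw [← ofReal_exp_lz hv hℓ _ hb, ← ENNReal.ofReal_mul (Real.exp_pos _).le, ← Real.exp_add]
          have h3 := H2 (i + m) (by omega)
          have h4 : ENNReal.ofReal (Real.exp (-(i : ℝ))) ≤ (2⁻¹ : ℝ≥0∞) ^ i := by
            have e : Real.exp (-(i : ℝ)) = Real.exp (-1) ^ i := by
              rw [← Real.exp_nat_mul]; congr 1; ring
            rw [e, ENNReal.ofReal_pow (Real.exp_pos _).le]
            refine pow_le_pow_left' ?_ i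
            have h5 : Real.exp (-1) ≤ 2⁻¹ := by
              rw [Real.exp_neg]
              have := Real.add_one_le_exp (1 : ℝ)
              gcongr
              linarith
            refine (ENNReal.ofReal_le_ofReal h5).trans (le_of_eq ?_)
            rw [ENNReal.ofReal_inv_of_pos (by norm_num)]
            simp
          refine le_trans (ENNReal.ofReal_le_ofReal (Real.exp_le_exp.2 ?_)) h4
          push_cast at h3 ⊢
          have : (0 : ℝ) ≤ m := Nat.cast_nonneg m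
          linarith
      _ = 2 := by rw [ENNReal.tsum_geometric, ENNReal.one_sub_inv_two, inv_inv]
  have h3 : (2 : ℝ≥0∞) ≤ 2 * ENNReal.ofReal (Real.exp A) := by
    have : (1 : ℝ≥0∞) ≤ ENNReal.ofReal (Real.exp A) := by
      rw [ENNReal.one_le_ofReal]; exact Real.one_le_exp hA
    calc (2 : ℝ≥0∞) = 2 * 1 := by ring
      _ ≤ _ := by gcongr
  calc _ ≤ (m : ℝ≥0∞) * ENNReal.ofReal (Real.exp A) + 2 * ENNReal.ofReal (Real.exp A) :=
        add_le_add h1 (h2.trans h3)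
    _ = ENNReal.ofReal (Real.exp (A + Real.log (m + 2))) := by
      rw [Real.exp_add, Real.exp_log (by positivity), ENNReal.ofReal_mul (Real.exp_pos _).le,
        ENNReal.ofReal_add (by positivity) zero_le_two, ENNReal.ofReal_natCast]
      simp
      ring

theorem G_Fq_le_of_g {r₀ B : ℝ} {v : ℝ → ℝ} (hv : Pot r₀ B v) {ℓ b h c A T : ℝ} (hℓ : 0 < ℓ)
    (hb : 0 ≤ b) (hA : 0 ≤ A) (hc : 0 < c) (hT : 0 ≤ T)
    (H1 : ∀ t : ℝ, 0 ≤ t → (ℓ + r₀) ^ 3 * press r₀ v b (h + t) - t ^ 2 / (4 * c) ≤ A)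
    (H2 : ∀ t : ℝ, T ≤ t → (ℓ + r₀) ^ 3 * press r₀ v b (h + 1 + t) - t ^ 2 / (4 * c) ≤ 0) :
    G (cube ℓ) (Fq v b h c) ≤ ENNReal.ofReal (Real.exp (A + Real.log (T / (2 * c) + 3))) := by
  have hr := hv.pos
  have key := G_Fq_le_of_terms hv (ℓ := ℓ) (b := b) (h := h) (c := c) (A := A) hℓ hb hA
    (m := ⌈T / (2 * c)⌉₊) ?_ ?_
  · refine key.trans (ENNReal.ofReal_le_ofReal (Real.exp_le_exp.2 ?_))
    have h1 : ((⌈T / (2 * c)⌉₊ : ℕ) : ℝ) + 2 ≤ T / (2 * c) + 3 := by
      have := (Nat.ceil_lt_add_one (by positivity : 0 ≤ T / (2 * c))).le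
      linarith
    have := Real.log_le_log (by positivity) h1
    linarith
  · intro n _
    have h1 := H1 (2 * c * n) (by positivity)
    have h2 := lz_add_le_lx hv hℓ n hb (h + 2 * c * n)
    have h3 := lx_le_press hv hb (h + 2 * c * n) hℓ
    have e : (2 * c * (n : ℝ)) ^ 2 / (4 * c) = c * (n : ℝ) ^ 2 := by field_simp; ring
    rw [e] at h1
    nlinarith
  · intro n hn
    have hTn : T ≤ 2 * c * n := by
      have := (Nat.le_ceil (T / (2 * c))).trans (by exact_mod_cast hn : ((⌈T / (2 * c)⌉₊ : ℕ) : ℝ) ≤ n)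
      rw [div_le_iff₀ (by positivity)] at this
      linarith
    have h1 := H2 (2 * c * n) hTn
    have h2 := lz_add_le_lx hv hℓ n hb (h + 1 + 2 * c * n)
    have h3 := lx_le_press hv hb (h + 1 + 2 * c * n) hℓ
    have e : (2 * c * (n : ℝ)) ^ 2 / (4 * c) = c * (n : ℝ) ^ 2 := by field_simp; ring
    rw [e] at h1
    nlinarith

end Crest.Agent.H13Dec
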