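import Mathlib

set_option linter.unusedSectionVars false

/-! Hosting lemma for rid 254: near-maximal cells of an iterated substitution. -/

open Finset

namespace Crest.H13Host

variable {V H Y : Type*} [NormedAddCommGroup V] [InnerProductSpace ℝ V]
  [NormedAddCommGroup H] [InnerProductSpace ℝ H]
  [NormedAddCommGroup Y] [InnerProductSpace ℝ Y]

/-- placing the point `p = (t, z)` of the gadget in the cell `(w, v)`; `ι` is a fresh copy of `V` -/
noncomputable def pl (ι : V → H) (w v : H) (p : ℝ × V) : H :=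
  w + p.1 • (v - w) + ‖v - w‖ • ι p.2

/-- squared distance of the gadget space `ℝ ⊕₂ V` -/
noncomputable def sq (p q : ℝ × V) : ℝ := (p.1 - q.1) ^ 2 + ‖p.2 - q.2‖ ^ 2

open Classical in
/-- the cells of level `k` -/
noncomputable def cells (e0 : H) (ι : ℕ → V → H) (St : Finset ((ℝ × V) × (ℝ × V))) :
    ℕ → Finset (H × H)
  | 0 => {(0, e0)}
  | k + 1 => (cells e0 ι St k ×ˢ St).image
      (fun es => (pl (ι k) es.1.1 es.1.2 es.2.1, pl (ι k) es.1.1 es.1.2 es.2.2))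

open Classical in
/-- the points of the first `K` substitutions -/
noncomputable def pts (e0 : H) (ι : ℕ → V → H) (St : Finset ((ℝ × V) × (ℝ × V)))
    (G : Finset (ℝ × V)) (K : ℕ) : Finset H :=
  (Finset.range K).biUnion fun k => (cells e0 ι St k ×ˢ G).image
    (fun eg => pl (ι k) eg.1.1 eg.1.2 eg.2)

lemma pl_sub (ι : V →ₗᵢ[ℝ] H) (w v : H) (p q : ℝ × V) :
    pl ι w v p - pl ι w v q = (p.1 - q.1) • (v - w) + ‖v - w‖ • ι (p.2 - q.2) := by
  simp only [pl, map_sub, sub_smul, smul_sub]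
  abel

lemma norm_pl_sub (ι : V →ₗᵢ[ℝ] H) (w v : H) (h : ∀ x, inner ℝ (v - w) (ι x) = 0)
    (p q : ℝ × V) :
    ‖pl ι w v p - pl ι w v q‖ ^ 2 = ‖v - w‖ ^ 2 * sq p q := by
  rw [pl_sub, norm_add_sq_real, norm_smul, norm_smul, inner_smul_left, inner_smul_right, h,
    ι.norm_map, sq]
  simp only [Real.norm_eq_abs, abs_norm]
  rw [mul_pow, mul_pow, sq_abs]
  simp
  ring

structure Blocks (e0 : H) (ι : ℕ → V →ₗᵢ[ℝ] H) : Prop where
  unit : ‖e0‖ = 1
  perp0 : ∀ k x, inner ℝ e0 (ι k x) = 0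
  perp : ∀ k l x y, k ≠ l → inner ℝ (ι k x) (ι l y) = 0

lemma cell_perp {e0 : H} {ι : ℕ → V →ₗᵢ[ℝ] H} (hB : Blocks e0 ι)
    (St : Finset ((ℝ × V) × (ℝ × V))) (k : ℕ) :
    ∀ e ∈ cells e0 (fun k => ι k) St k, ∀ l, k ≤ l → ∀ x,
      inner ℝ (e.2 - e.1) (ι l x) = 0 := by
  classical
  induction k with
  | zero =>
    intro e he l _ x
    simp only [cells, Finset.mem_singleton] at he
    subst he
    simpa using hB.perp0 l x
  | succ k ih =>
    intro e he l hl x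
    simp only [cells, Finset.mem_image, Finset.mem_product] at he
    obtain ⟨⟨e', s⟩, ⟨he', hs⟩, rfl⟩ := he
    simp only
    rw [pl_sub, inner_add_left, inner_smul_left, inner_smul_left,
      ih e' he' l (by omega) x, hB.perp k l _ _ (by omega)]
    simp

/-- time -/
noncomputable def tm (e0 : H) (x : H) : ℝ := inner ℝ e0 x

lemma tm_pl {e0 : H} {ι : ℕ → V →ₗᵢ[ℝ] H} (hB : Blocks e0 ι) (k : ℕ) (w v : H) (p q : ℝ × V) :
    tm e0 (pl (ι k) w v p) - tm e0 (pl (ι k) w v q) = (p.1 - q.1) * (tm e0 v - tm e0 w) := by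
  rw [tm, tm, ← inner_sub_right, pl_sub, inner_add_right, inner_smul_right, inner_smul_right,
    hB.perp0, inner_sub_right, tm, tm]
  ring

lemma cell_time {e0 : H} {ι : ℕ → V →ₗᵢ[ℝ] H} (hB : Blocks e0 ι)
    (St : Finset ((ℝ × V) × (ℝ × V))) (hSt : ∀ s ∈ St, s.1.1 < s.2.1) (k : ℕ) :
    ∀ e ∈ cells e0 (fun k => ι k) St k, 0 < tm e0 e.2 - tm e0 e.1 := by
  classical
  induction k with
  | zero =>
    intro e he
    simp only [cells, Finset.mem_singleton] at he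
    subst he
    simp [tm, hB.unit]
  | succ k ih =>
    intro e he
    simp only [cells, Finset.mem_image, Finset.mem_product] at he
    obtain ⟨⟨e', s⟩, ⟨he', hs⟩, rfl⟩ := he
    simp only
    rw [tm_pl hB]
    exact mul_pos (sub_pos.2 (hSt s hs)) (ih e' he')

lemma tm_le {e0 : H} (he : ‖e0‖ = 1) (w v : H) (h : 0 ≤ tm e0 v - tm e0 w) :
    (tm e0 v - tm e0 w) ^ 2 ≤ ‖v - w‖ ^ 2 := by
  have h1 : tm e0 v - tm e0 w ≤ ‖v - w‖ := by
    rw [tm, tm, ← inner_sub_right]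
    have := real_inner_le_norm e0 (v - w)
    rwa [he, one_mul] at this
  exact pow_le_pow_left₀ h h1 2

/-- variance identity -/
lemma var_identity (N : ℕ) (g : ℕ → Y) (t : ℕ → ℝ) (hm : ∀ a < N, 0 < t (a + 1) - t a)
    (ht : t N - t 0 = 1) :
    ∑ a ∈ range N, ‖g (a + 1) - g a - (t (a + 1) - t a) • (g N - g 0)‖ ^ 2 / (t (a + 1) - t a)
      = ∑ a ∈ range N, ‖g (a + 1) - g a‖ ^ 2 / (t (a + 1) - t a) - ‖g N - g 0‖ ^ 2 := by
  have h1 : ∀ a ∈ range N,
      ‖g (a + 1) - g a - (t (a + 1) - t a) • (g N - g 0)‖ ^ 2 / (t (a + 1) - t a)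
      = ‖g (a + 1) - g a‖ ^ 2 / (t (a + 1) - t a) - 2 * inner ℝ (g (a + 1) - g a) (g N - g 0)
        + (t (a + 1) - t a) * ‖g N - g 0‖ ^ 2 := by
    intro a ha
    have hp := hm a (Finset.mem_range.1 ha)
    rw [norm_sub_sq_real, norm_smul, inner_smul_right, Real.norm_of_nonneg hp.le]
    field_simp
  rw [Finset.sum_congr rfl h1, Finset.sum_add_distrib, Finset.sum_sub_distrib]
  have h2 : ∑ a ∈ range N, 2 * inner ℝ (g (a + 1) - g a) (g N - g 0) = 2 * ‖g N - g 0‖ ^ 2 := by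
    rw [← Finset.mul_sum, ← sum_inner, Finset.sum_range_sub, real_inner_self_eq_norm_sq]
  have h3 : ∑ a ∈ range N, (t (a + 1) - t a) * ‖g N - g 0‖ ^ 2 = ‖g N - g 0‖ ^ 2 := by
    rw [← Finset.sum_mul, Finset.sum_range_sub, ht, one_mul]
  rw [h2, h3]
  ring

lemma pl_zero (ι : V →ₗᵢ[ℝ] H) (w v : H) : pl ι w v (0, 0) = w := by
  simp [pl]

lemma pl_one (ι : V →ₗᵢ[ℝ] H) (w v : H) : pl ι w v (1, 0) = v := by
  simp [pl]

lemma mem_pts {e0 : H} {ι : ℕ → V → H} {St : Finset ((ℝ × V) × (ℝ × V))}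
    {G : Finset (ℝ × V)} {K k : ℕ} (hk : k < K) {e : H × H} (he : e ∈ cells e0 ι St k)
    {g : ℝ × V} (hg : g ∈ G) : pl (ι k) e.1 e.2 g ∈ pts e0 ι St G K := by
  classical
  simp only [pts, Finset.mem_biUnion, Finset.mem_range, Finset.mem_image, Finset.mem_product]
  exact ⟨k, hk, (e, g), ⟨he, hg⟩, rfl⟩

lemma mem_cells_succ {e0 : H} {ι : ℕ → V → H} {St : Finset ((ℝ × V) × (ℝ × V))}
    {k : ℕ} {e : H × H} (he : e ∈ cells e0 ι St k) {s : (ℝ × V) × (ℝ × V)} (hs : s ∈ St) :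
    (pl (ι k) e.1 e.2 s.1, pl (ι k) e.1 e.2 s.2) ∈ cells e0 ι St (k + 1) := by
  classical
  simp only [cells, Finset.mem_image, Finset.mem_product]
  exact ⟨(e, s), ⟨he, hs⟩, rfl⟩

lemma cells_nonempty {e0 : H} {ι : ℕ → V → H} {St : Finset ((ℝ × V) × (ℝ × V))}
    (hSt : St.Nonempty) (k : ℕ) : (cells e0 ι St k).Nonempty := by
  classical
  induction k with
  | zero => exact ⟨(0, e0), by simp [cells]⟩
  | succ k ih =>
    obtain ⟨e, he⟩ := ih
    obtain ⟨s, hs⟩ := hSt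
    exact ⟨_, mem_cells_succ he hs⟩

/-- **Hosting theorem.** -/
theorem host {e0 : H} {ι : ℕ → V →ₗᵢ[ℝ] H} (hB : Blocks e0 ι)
    (G : Finset (ℝ × V)) (St : Finset ((ℝ × V) × (ℝ × V)))
    (hSt : ∀ s ∈ St, s.1 ∈ G ∧ s.2 ∈ G ∧ s.1.1 < s.2.1) (hne : St.Nonempty)
    (h0 : ((0 : ℝ), (0 : V)) ∈ G) (h1 : ((1 : ℝ), (0 : V)) ∈ G)
    (D ε : ℝ) (hε : 0 < ε) (K : ℕ) (hK : D ^ 2 < K * ε)
    (f : H → Y)
    (hf : ∀ x ∈ pts e0 (fun k => ι k) St G K, ∀ y ∈ pts e0 (fun k => ι k) St G K,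
      ‖x - y‖ ≤ ‖f x - f y‖ ∧ ‖f x - f y‖ ≤ D * ‖x - y‖) :
    ∃ F : ℝ × V → Y,
      (∀ x ∈ G, ∀ y ∈ G, sq x y ≤ ‖F x - F y‖ ^ 2 ∧ ‖F x - F y‖ ^ 2 ≤ D ^ 2 * sq x y) ∧
      ∀ (N : ℕ) (x : ℕ → ℝ × V), x 0 = (0, 0) → x N = (1, 0) →
        (∀ a < N, (x a, x (a + 1)) ∈ St) →
        ∑ a ∈ range N, ‖F (x (a + 1)) - F (x a)
            - ((x (a + 1)).1 - (x a).1) • (F (1, 0) - F (0, 0))‖ ^ 2
              / ((x (a + 1)).1 - (x a).1)
          ≤ ε + (D ^ 2 + ε) * ∑ a ∈ range N, ‖(x (a + 1)).2 - (x a).2‖ ^ 2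
              / ((x (a + 1)).1 - (x a).1) := by
  classical
  have hK0 : 0 < K := by
    rcases Nat.eq_zero_or_pos K with h | h
    · subst h
      have := sq_nonneg D
      simp at hK
      linarith
    · exact h
  set P := pts e0 (fun k => ι k) St G K with hP
  set C : ℕ → Finset (H × H) := fun k => cells e0 (fun k => ι k) St k with hC
  -- end points of cells are in P
  have hmem : ∀ k ≤ K, ∀ e ∈ C k, e.1 ∈ P ∧ e.2 ∈ P := by
    intro k hk e he
    rcases k with _ | k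
    · have a1 := mem_pts (G := G) hK0 he h0
      have a2 := mem_pts (G := G) hK0 he h1
      rw [pl_zero] at a1
      rw [pl_one] at a2
      exact ⟨a1, a2⟩
    · simp only [hC, cells, Finset.mem_image, Finset.mem_product] at he
      obtain ⟨⟨e', s⟩, ⟨he', hs⟩, rfl⟩ := he
      exact ⟨mem_pts (by omega) he' (hSt s hs).1, mem_pts (by omega) he' (hSt s hs).2.1⟩
  have hpos : ∀ k, ∀ e ∈ C k, 0 < ‖e.2 - e.1‖ := by
    intro k e he
    have h := cell_time hB St (fun s hs => (hSt s hs).2.2) k e he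
    have h2 : tm e0 e.2 - tm e0 e.1 ≤ ‖e.2 - e.1‖ := by
      rw [tm, tm, ← inner_sub_right]
      have := real_inner_le_norm e0 (e.2 - e.1)
      rwa [hB.unit, one_mul] at this
    linarith
  let q : H × H → ℝ := fun e => ‖f e.2 - f e.1‖ ^ 2 / ‖e.2 - e.1‖ ^ 2
  have hq0 : ∀ e, 0 ≤ q e := fun e => by positivity
  have hqD : ∀ k ≤ K, ∀ e ∈ C k, q e ≤ D ^ 2 := by
    intro k hk e he
    have h := (hf _ (hmem k hk e he).2 _ (hmem k hk e he).1).2
    have hp := hpos k e he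
    rw [div_le_iff₀ (by positivity), ← mul_pow]
    exact pow_le_pow_left₀ (norm_nonneg _) h 2
  have hCne : ∀ k, (C k).Nonempty := cells_nonempty hne
  let S : ℕ → ℝ := fun k => (C k).sup' (hCne k) q
  have hSle : ∀ k, ∀ e ∈ C k, q e ≤ S k := fun k e he => Finset.le_sup' q he
  have hSex : ∀ k, ∃ e ∈ C k, q e = S k := by
    intro k
    obtain ⟨e, he, h⟩ := Finset.exists_mem_eq_sup' (hCne k) q
    exact ⟨e, he, h.symm⟩
  have hpig : ∃ k < K, S (k + 1) ≤ S k + ε := by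
    by_contra hcon
    push Not at hcon
    have : ∀ k ≤ K, k * ε ≤ S k := by
      intro k
      induction k with
      | zero =>
        intro _
        obtain ⟨e, _, h⟩ := hSex 0
        rw [← h]
        simpa using hq0 e
      | succ k ih =>
        intro hk
        have h1 := ih (by omega)
        have h2 := hcon k (by omega)
        push_cast
        linarith
    have h1 := this K le_rfl
    obtain ⟨e, he, h⟩ := hSex K
    have h2 := hqD K le_rfl e he
    rw [h] at h2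
    linarith
  obtain ⟨k, hkK, hk⟩ := hpig
  obtain ⟨e, he, heS⟩ := hSex k
  have hSD : S k ≤ D ^ 2 := by rw [← heS]; exact hqD k hkK.le e he
  have hL := hpos k e he
  set L := ‖e.2 - e.1‖ with hLdef
  have hperp : ∀ x, inner ℝ (e.2 - e.1) (ι k x) = 0 := cell_perp hB St k e he k le_rfl
  have hn := norm_pl_sub (ι k) e.1 e.2 hperp
  let F : ℝ × V → Y := fun p => L⁻¹ • (f (pl (ι k) e.1 e.2 p) - f e.1)
  have hFs : ∀ x y, ‖F x - F y‖ ^ 2
      = ‖f (pl (ι k) e.1 e.2 x) - f (pl (ι k) e.1 e.2 y)‖ ^ 2 / L ^ 2 := by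
    intro x y
    have : F x - F y = L⁻¹ • (f (pl (ι k) e.1 e.2 x) - f (pl (ι k) e.1 e.2 y)) := by
      simp only [F]
      rw [← smul_sub]
      congr 1
      abel
    rw [this, norm_smul, norm_inv, Real.norm_of_nonneg hL.le, mul_pow]
    field_simp
  refine ⟨F, ?_, ?_⟩
  · intro x hx y hy
    obtain ⟨a1, a2⟩ := hf _ (mem_pts hkK he hx) _ (mem_pts hkK he hy)
    rw [hFs]
    constructor
    · rw [le_div_iff₀ (by positivity), mul_comm, ← hn x y]
      exact pow_le_pow_left₀ (norm_nonneg _) a1 2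
    · rw [div_le_iff₀ (by positivity), mul_assoc, mul_comm (sq x y), ← hn x y, ← mul_pow]
      exact pow_le_pow_left₀ (norm_nonneg _) a2 2
  · intro N x hx0 hxN hx
    have hm : ∀ a < N, 0 < (x (a + 1)).1 - (x a).1 := fun a ha =>
      sub_pos.2 (hSt _ (hx a ha)).2.2
    have hvar := var_identity N (fun a => F (x a)) (fun a => (x a).1) hm
      (by simp [hx0, hxN])
    simp only [hx0, hxN] at hvar
    rw [hvar]
    have hbase : ‖F (1, 0) - F (0, 0)‖ ^ 2 = S k := by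
      rw [hFs, pl_one, pl_zero, ← heS]
    rw [hbase]
    have hstep : ∀ a ∈ range N, ‖F (x (a + 1)) - F (x a)‖ ^ 2 / ((x (a + 1)).1 - (x a).1)
        ≤ (S k + ε) * (((x (a + 1)).1 - (x a).1)
          + ‖(x (a + 1)).2 - (x a).2‖ ^ 2 / ((x (a + 1)).1 - (x a).1)) := by
      intro a ha
      have ha' := Finset.mem_range.1 ha
      have hma := hm a ha'
      have hc : (pl (ι k) e.1 e.2 (x a), pl (ι k) e.1 e.2 (x (a + 1))) ∈ C (k + 1) :=
        mem_cells_succ he (hx a ha')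
      have h1 := hSle (k + 1) _ hc
      have h2 := hpos (k + 1) _ hc
      simp only [q] at h1
      simp only at h2
      rw [div_le_iff₀ (by positivity), hn] at h1
      rw [hFs, div_div, div_le_iff₀ (by positivity)]
      refine h1.trans ?_
      have h3 : sq (x (a + 1)) (x a)
          = (((x (a + 1)).1 - (x a).1)
          + ‖(x (a + 1)).2 - (x a).2‖ ^ 2 / ((x (a + 1)).1 - (x a).1))
            * ((x (a + 1)).1 - (x a).1) := by
        rw [sq]
        field_simp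
      rw [h3]
      have h4 : S (k + 1) * (L ^ 2 * ((((x (a + 1)).1 - (x a).1)
          + ‖(x (a + 1)).2 - (x a).2‖ ^ 2 / ((x (a + 1)).1 - (x a).1))
            * ((x (a + 1)).1 - (x a).1)))
          ≤ (S k + ε) * (L ^ 2 * ((((x (a + 1)).1 - (x a).1)
          + ‖(x (a + 1)).2 - (x a).2‖ ^ 2 / ((x (a + 1)).1 - (x a).1))
            * ((x (a + 1)).1 - (x a).1))) := by
        apply mul_le_mul_of_nonneg_right hk
        positivity
      refine h4.trans (le_of_eq ?_)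
      ring
    have hsum := Finset.sum_le_sum hstep
    rw [← Finset.mul_sum, Finset.sum_add_distrib] at hsum
    have htel : ∑ a ∈ range N, ((x (a + 1)).1 - (x a).1) = 1 := by
      rw [Finset.sum_range_sub (fun a => (x a).1)]
      simp [hx0, hxN]
    rw [htel] at hsum
    have hnn : 0 ≤ ∑ a ∈ range N, ‖(x (a + 1)).2 - (x a).2‖ ^ 2 / ((x (a + 1)).1 - (x a).1) :=
      Finset.sum_nonneg fun a ha => by
        have := hm a (Finset.mem_range.1 ha)
        positivity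
    nlinarith

end Crest.H13Host
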