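import Mathlib
import Crest.Agent.H13Energy
import Crest.Agent.H19Pair

/-!
Counting inequalities for `pairSum` (rid 149, task T1).
-/

set_option autoImplicit false

open MeasureTheory
open scoped ENNReal

namespace Crest.Agent.H19Count

open Crest.Agent.H13Conf Crest.Agent.H13Energy Crest.Agent.H19Pair

/-! ### double sums over ordered pairs -/

/-- sum over ordered pairs, diagonal included -/
noncomputable def dbl (u : Pt → Pt → ℝ) (l : List Pt) : ℝ :=
  (l.map fun x => (l.map (u x)).sum).sum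

theorem dbl_eq {u : Pt → Pt → ℝ} (hu : ∀ x y, u x y = u y x) (l : List Pt) :
    dbl u l = 2 * pairSum u l + (l.map fun x => u x x).sum := by
  unfold dbl
  induction l with
  | nil => simp
  | cons a t ih =>
    simp only [List.map_cons, List.sum_cons, pairSum_cons]
    have h1 : (t.map fun x => u x a + (t.map (u x)).sum).sum =
        (t.map (u a)).sum + (t.map fun x => (t.map (u x)).sum).sum := by
      rw [sum_map_add']
      congr 2
      exact List.map_congr_left fun y _ => hu y a
    rw [h1, ih]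
    ring

theorem two_pairSum_le_dbl {u : Pt → Pt → ℝ} (hu : ∀ x y, u x y = u y x) (l : List Pt)
    (hd : ∀ x ∈ l, 0 ≤ u x x) : 2 * pairSum u l ≤ dbl u l := by
  rw [dbl_eq hu]
  have : 0 ≤ (l.map fun x => u x x).sum := by
    apply List.sum_nonneg
    intro y hy
    obtain ⟨x, hx, rfl⟩ := List.mem_map.1 hy
    exact hd x hx
  linarith

theorem dbl_finset_sum {ι : Type*} (s : Finset ι) (u : ι → Pt → Pt → ℝ) (l : List Pt) :
    dbl (fun x y => ∑ i ∈ s, u i x y) l = ∑ i ∈ s, dbl (u i) l := by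
  unfold dbl
  rw [← sum_map_finset_sum]
  congr 1
  refine List.map_congr_left fun x _ => ?_
  rw [sum_map_finset_sum]

/-- sums over a list grouped by the value of `c`. -/
theorem sum_map_group {κ : Type*} [DecidableEq κ] (c : Pt → κ) (f : κ → ℝ) (S : Finset κ)
    (l : List Pt) (hS : ∀ x ∈ l, c x ∈ S) :
    (l.map fun x => f (c x)).sum =
      ∑ i ∈ S, ((l.filter fun x => decide (c x = i)).length : ℝ) * f i := by
  induction l with
  | nil => simp
  | cons a t ih =>
    have ha : c a ∈ S := hS a (by simp)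
    rw [List.map_cons, List.sum_cons, ih fun x hx => hS x (by simp [hx]),
      ← Finset.sum_erase_add S _ ha, ← Finset.sum_erase_add S _ ha]
    have h1 : ∀ i ∈ S.erase (c a), (((a :: t).filter fun x => decide (c x = i)).length : ℝ) * f i =
        ((t.filter fun x => decide (c x = i)).length : ℝ) * f i := by
      intro i hi
      have : c a ≠ i := fun h => (Finset.ne_of_mem_erase hi) h.symm
      simp [this]
    rw [Finset.sum_congr rfl h1]
    have h2 : ((a :: t).filter fun x => decide (c x = c a)) =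
        a :: t.filter fun x => decide (c x = c a) := by simp
    rw [h2, List.length_cons]
    push_cast
    ring

theorem count_eq {κ : Type*} [DecidableEq κ] (c : Pt → κ) (j : κ) (l : List Pt) :
    (l.map fun x => if c x = j then (1 : ℝ) else 0).sum =
      ((l.filter fun x => decide (c x = j)).length : ℝ) := by
  rw [← sum_map_one, sum_map_filter]
  simp

theorem dbl_offset_le {κ : Type*} [DecidableEq κ] [AddCommGroup κ] (c : Pt → κ) (d : κ) (l : List Pt) :
    dbl (fun x y => if c x - c y = d then (1 : ℝ) else 0) l ≤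
      l.length + 2 * pairSum (fun x y => if c x = c y then 1 else 0) l := by
  classical
  set S : Finset κ := (l.map c).toFinset with hS
  have hmem : ∀ x ∈ l, c x ∈ S := by
    intro x hx
    simp only [hS, List.mem_toFinset, List.mem_map]
    exact ⟨x, hx, rfl⟩
  set N : κ → ℝ := fun i => ((l.filter fun x => decide (c x = i)).length : ℝ) with hN
  have hN0 : ∀ i, i ∉ S → N i = 0 := by
    intro i hi
    simp only [hN, Nat.cast_eq_zero, List.length_eq_zero_iff, List.filter_eq_nil_iff,
      decide_eq_true_eq]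
    intro x hx h
    exact hi (h ▸ hmem x hx)
  have h1 : dbl (fun x y => if c x - c y = d then (1 : ℝ) else 0) l = ∑ i ∈ S, N i * N (i - d) := by
    unfold dbl
    rw [← sum_map_group c (fun i => N (i - d)) S l hmem]
    congr 1
    refine List.map_congr_left fun x _ => ?_
    simp only [hN]
    rw [← count_eq]
    congr 1
    refine List.map_congr_left fun y _ => ?_
    have : c x - c y = d ↔ c y = c x - d := by
      constructor
      · intro h; rw [← h]; abel
      · intro h; rw [h]; abel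
    simp [this]
  rw [h1, ← sum_sq_length_filter c S l hmem]
  have h2 : ∑ i ∈ S, N i * N (i - d) ≤ ∑ i ∈ S, (N i ^ 2 + N (i - d) ^ 2) / 2 := by
    refine Finset.sum_le_sum fun i _ => ?_
    nlinarith [sq_nonneg (N i - N (i - d))]
  have h3 : ∑ i ∈ S, N (i - d) ^ 2 ≤ ∑ i ∈ S, N i ^ 2 := by
    have e1 : ∑ i ∈ S, N (i - d) ^ 2 = ∑ j ∈ S.image (fun i => i - d), N j ^ 2 := by
      rw [Finset.sum_image]
      intro a _ b _ hab
      simpa using hab
    rw [e1]
    have e2 : ∑ j ∈ S.image (fun i => i - d), N j ^ 2 =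
        ∑ j ∈ S.image (fun i => i - d) ∩ S, N j ^ 2 := by
      symm
      apply Finset.sum_subset Finset.inter_subset_left
      intro j hj hj2
      have : j ∉ S := fun h => hj2 (Finset.mem_inter.2 ⟨hj, h⟩)
      rw [hN0 j this]; ring
    rw [e2]
    exact Finset.sum_le_sum_of_subset_of_nonneg Finset.inter_subset_right
      fun _ _ _ => sq_nonneg _
  have h4 : ∑ i ∈ S, (N i ^ 2 + N (i - d) ^ 2) / 2 =
      (∑ i ∈ S, N i ^ 2 + ∑ i ∈ S, N (i - d) ^ 2) / 2 := by
    rw [← Finset.sum_add_distrib, Finset.sum_div]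
  have h5 : ∑ i ∈ S, N i ^ 2 = ∑ i ∈ S, ((l.filter fun x => decide (c x = i)).length : ℝ) ^ 2 := rfl
  linarith

/-- (1a) -/
theorem pairSum_offset {κ : Type*} [DecidableEq κ] [AddCommGroup κ] (c : Pt → κ) (D : Finset κ)
    (hD : ∀ d ∈ D, -d ∈ D) (l : List Pt) :
    2 * pairSum (fun x y => if c x - c y ∈ D then (1 : ℝ) else 0) l ≤
      D.card * (l.length + 2 * pairSum (fun x y => if c x = c y then 1 else 0) l) := by
  have h1 : 2 * pairSum (fun x y => if c x - c y ∈ D then (1 : ℝ) else 0) l ≤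
      dbl (fun x y => if c x - c y ∈ D then (1 : ℝ) else 0) l := by
    apply two_pairSum_le_dbl
    · intro x y
      have : c x - c y ∈ D ↔ c y - c x ∈ D := by
        constructor
        · intro h; have := hD _ h; rwa [neg_sub] at this
        · intro h; have := hD _ h; rwa [neg_sub] at this
      simp [this]
    · intro x _
      split_ifs <;> norm_num
  refine h1.trans ?_
  have h2 : (fun x y => if c x - c y ∈ D then (1 : ℝ) else 0) =
      fun x y => ∑ d ∈ D, if c x - c y = d then (1 : ℝ) else 0 := by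
    funext x y
    rw [Finset.sum_ite_eq]
  rw [h2, dbl_finset_sum]
  calc ∑ d ∈ D, dbl (fun x y => if c x - c y = d then (1 : ℝ) else 0) l
      ≤ ∑ _d ∈ D, ((l.length : ℝ) + 2 * pairSum (fun x y => if c x = c y then 1 else 0) l) :=
        Finset.sum_le_sum fun d _ => dbl_offset_le c d l
    _ = _ := by rw [Finset.sum_const, nsmul_eq_mul]

/-! ### floors and distances -/

theorem abs_coord_le_dist (x y : Pt) (k : Fin 3) : |x k - y k| ≤ dist x y := by
  rw [EuclideanSpace.dist_eq]
  apply Real.le_sqrt_of_sq_le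
  rw [← Real.dist_eq]
  exact Finset.single_le_sum (f := fun i => dist (x i) (y i) ^ 2)
    (fun i _ => sq_nonneg _) (Finset.mem_univ k)

/-- coordinatewise bound gives a distance bound (strict, with constant `√3 < 2`). -/
theorem dist_lt_of_coord {x y : Pt} {r : ℝ} (hr : 0 < r) (h : ∀ k, |x k - y k| ≤ r) :
    dist x y < 2 * r := by
  rw [EuclideanSpace.dist_eq, Real.sqrt_lt' (by linarith)]
  have h4 : ∀ k : Fin 3, dist (x k) (y k) ^ 2 ≤ r ^ 2 := by
    intro k
    rw [Real.dist_eq]
    exact pow_le_pow_left₀ (abs_nonneg _) (h k) 2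
  rw [Fin.sum_univ_three]
  have a := h4 0
  have b := h4 1
  have c := h4 2
  nlinarith

theorem dist_le_of_coord {x y : Pt} {r : ℝ} (hr : 0 ≤ r) (h : ∀ k, |x k - y k| ≤ r) :
    dist x y ≤ 2 * r := by
  rw [EuclideanSpace.dist_eq]
  apply Real.sqrt_le_iff.2 ⟨by linarith, ?_⟩
  have h4 : ∀ k : Fin 3, dist (x k) (y k) ^ 2 ≤ r ^ 2 := by
    intro k
    rw [Real.dist_eq]
    exact pow_le_pow_left₀ (abs_nonneg _) (h k) 2
  rw [Fin.sum_univ_three]
  have a := h4 0
  have b := h4 1
  have c := h4 2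
  nlinarith

theorem floor_sub_lt {a b m : ℝ} (h : |a - b| ≤ m) : |((⌊a⌋ - ⌊b⌋ : ℤ) : ℝ)| < m + 1 := by
  have h1 := Int.floor_le a
  have h2 := Int.lt_floor_add_one a
  have h3 := Int.floor_le b
  have h4 := Int.lt_floor_add_one b
  have h5 := abs_le.1 h
  push_cast
  rw [abs_lt]
  constructor <;> linarith

theorem abs_sub_floor_sub {a b : ℝ} : |(a - b) - ((⌊a⌋ - ⌊b⌋ : ℤ) : ℝ)| < 1 := by
  have h1 := Int.floor_le a
  have h2 := Int.lt_floor_add_one a
  have h3 := Int.floor_le b
  have h4 := Int.lt_floor_add_one b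
  push_cast
  rw [abs_lt]
  constructor <;> linarith

/-- symmetric integer box -/
noncomputable def box (m : ℤ) : Finset (Fin 3 → ℤ) := Fintype.piFinset fun _ => Finset.Icc (-m) m

theorem mem_box {m : ℤ} {d : Fin 3 → ℤ} : d ∈ box m ↔ ∀ k, |d k| ≤ m := by
  simp [box, abs_le]

theorem neg_mem_box {m : ℤ} {d : Fin 3 → ℤ} (h : d ∈ box m) : -d ∈ box m := by
  rw [mem_box] at h ⊢
  intro k
  simpa using h k

theorem card_box {m : ℤ} (hm : 0 ≤ m) : ((box m).card : ℝ) = (2 * m + 1) ^ 3 := by
  unfold box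
  rw [Fintype.card_piFinset]
  simp only [Int.card_Icc, Finset.prod_const, Finset.card_univ, Fintype.card_fin]
  have h : (m + 1 - -m).toNat = (2 * m + 1).toNat := by congr 1; ring
  rw [h]
  have h2 : (((2 * m + 1).toNat : ℤ)) = 2 * m + 1 := Int.toNat_of_nonneg (by omega)
  have h3 : (((2 * m + 1).toNat : ℕ) : ℝ) = ((2 * m + 1 : ℤ) : ℝ) := by exact_mod_cast h2
  push_cast
  rw [h3]
  push_cast
  ring

/-! ### (1b) superstability of the base potential -/

theorem base_superstable {s U : ℝ} (hs : 0 < s) (hU : 0 ≤ U) (h4s : 4 * s < 1) {φ : ℝ → ℝ}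
    (h0 : ∀ r, 0 ≤ r → 0 ≤ φ r) (h1 : ∀ r, 0 ≤ r → r < 2 * s → U ≤ φ r)
    (h2 : ∀ r, 4 * s ≤ r → r < 1 → U ≤ φ r) (l : List Pt) :
    U * (Q l / 1460 - l.length / 2) ≤ E φ l := by
  classical
  set bad : ℝ := pairSum (fun x y => if dist x y < 2 * s ∨ (4 * s ≤ dist x y ∧ dist x y < 1) then 1 else 0) l
    with hbad
  set good : ℝ := pairSum (fun x y => if 2 * s ≤ dist x y ∧ dist x y < 4 * s then 1 else 0) l
    with hgood
  set t : Pt → Fin 3 → ℤ := fun x k => ⌊x k / s⌋ with ht
  set sameT : ℝ := pairSum (fun x y => if t x = t y then 1 else 0) l with hsT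
  set sameU : ℝ := pairSum (fun x y => if cell x = cell y then 1 else 0) l with hsU
  have e1 : U * bad ≤ E φ l := by
    rw [hbad, ← pairSum_const_mul]
    refine pairSum_mono l fun x _ y _ => ?_
    have hd : 0 ≤ dist x y := dist_nonneg
    split_ifs with h
    · rcases h with h | ⟨h, h'⟩
      · simpa using h1 _ hd h
      · simpa using h2 _ h h'
    · simpa using h0 _ hd
  have e2 : sameT ≤ bad := by
    refine pairSum_mono l fun x _ y _ => ?_
    by_cases h : t x = t y
    · have : dist x y < 2 * s := by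
        apply dist_lt_of_coord hs
        intro k
        have hk : ⌊x k / s⌋ = ⌊y k / s⌋ := congrFun h k
        have := Int.abs_sub_lt_one_of_floor_eq_floor hk
        rw [← sub_div, abs_div, abs_of_pos hs, div_lt_one hs] at this
        exact this.le
      simp [h, this]
    · simp only [h, if_false]
      split_ifs <;> norm_num
  have e3 : sameU ≤ bad + good := by
    rw [hbad, hgood, ← pairSum_add]
    refine pairSum_mono l fun x _ y _ => ?_
    by_cases h : cell x = cell y
    · have h3 : dist x y < 1 := by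
        have : dist x y < 2 * (1 / 2) := by
          apply dist_lt_of_coord (by norm_num)
          intro k
          have hk : ⌊2 * x k⌋ = ⌊2 * y k⌋ := congrFun h k
          have := Int.abs_sub_lt_one_of_floor_eq_floor hk
          rw [← mul_sub, abs_mul, abs_of_pos (by norm_num : (0 : ℝ) < 2)] at this
          linarith
        linarith
      rw [if_pos h]
      by_cases h5 : dist x y < 2 * s
      · rw [if_pos (Or.inl h5)]
        split_ifs <;> norm_num
      · by_cases h6 : dist x y < 4 * s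
        · rw [if_pos (show 2 * s ≤ dist x y ∧ dist x y < 4 * s from ⟨not_lt.1 h5, h6⟩)]
          split_ifs <;> norm_num
        · rw [if_pos (Or.inr ⟨not_lt.1 h6, h3⟩)]
          split_ifs <;> norm_num
    · simp only [h, if_false]
      split_ifs <;> norm_num
  have e4 : 2 * good ≤ 729 * (l.length + 2 * sameT) := by
    have h5 := pairSum_offset t (box 4) (fun d hd => neg_mem_box hd) l
    rw [card_box (by norm_num)] at h5
    have h6 : good ≤ pairSum (fun x y => if t x - t y ∈ box 4 then (1 : ℝ) else 0) l := by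
      refine pairSum_mono l fun x _ y _ => ?_
      by_cases h : 2 * s ≤ dist x y ∧ dist x y < 4 * s
      · have : t x - t y ∈ box 4 := by
          rw [mem_box]
          intro k
          have h7 : |x k / s - y k / s| ≤ 4 := by
            rw [← sub_div, abs_div, abs_of_pos hs, div_le_iff₀ hs]
            exact (abs_coord_le_dist x y k).trans h.2.le
          have h8 := floor_sub_lt h7
          have h9 : |((t x - t y) k : ℤ)| < 5 := by
            have : ((|(t x - t y) k| : ℤ) : ℝ) < 5 := by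
              push_cast
              simpa [ht, show (4 : ℝ) + 1 = 5 by norm_num] using h8
            exact_mod_cast this
          omega
        simp [h, this]
      · simp only [h, if_false]
        split_ifs <;> norm_num
    have h7 : ((2 : ℝ) * ((4 : ℤ) : ℝ) + 1) ^ 3 = 729 := by norm_num
    rw [h7] at h5
    linarith
  have hQ : Q l = l.length + 2 * sameU := by
    unfold Q
    rw [hsU]
  have e5 : Q l / 1460 - l.length / 2 ≤ bad := by
    rw [hQ]
    linarith
  calc U * (Q l / 1460 - l.length / 2) ≤ U * bad := mul_le_mul_of_nonneg_left e5 hU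
    _ ≤ _ := e1

/-! ### (1c) attraction bound -/

theorem kac_nonneg {R : ℝ} (hR : 0 ≤ R) (r : ℝ) : 0 ≤ kac R r := by
  unfold kac
  have := Real.pi_pos
  positivity

theorem kac_le {R : ℝ} (hR : 0 < R) (r : ℝ) :
    kac R r ≤ (4 / 3 * Real.pi * R ^ 3)⁻¹ * (if r ≤ R + 1 then 1 else 0) := by
  unfold kac
  have hp := Real.pi_pos
  have hpos : 0 < 4 / 3 * Real.pi * R ^ 3 := by positivity
  rw [div_eq_inv_mul]
  apply mul_le_mul_of_nonneg_left _ (inv_nonneg.2 hpos.le)
  split_ifs with h
  · exact max_le (by norm_num) (min_le_left _ _)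
  · exact max_le (by norm_num) ((min_le_right _ _).trans (by linarith))

/-- `kac R r ≥ 1/|B_R|` for `r ≤ R`. -/
theorem le_kac {R : ℝ} (hR : 0 < R) {r : ℝ} (hr : r ≤ R) :
    (4 / 3 * Real.pi * R ^ 3)⁻¹ ≤ kac R r := by
  unfold kac
  have hp := Real.pi_pos
  have hpos : 0 < 4 / 3 * Real.pi * R ^ 3 := by positivity
  rw [div_eq_inv_mul (max 0 (min 1 (R + 1 - r)))]
  have h1 : (1 : ℝ) ≤ max 0 (min 1 (R + 1 - r)) := by
    apply le_max_of_le_right
    apply le_min le_rfl
    linarith
  calc (4 / 3 * Real.pi * R ^ 3)⁻¹ = (4 / 3 * Real.pi * R ^ 3)⁻¹ * 1 := (mul_one _).symm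
    _ ≤ _ := mul_le_mul_of_nonneg_left h1 (inv_nonneg.2 hpos.le)

theorem kac_attraction {R : ℝ} (hR : 1 ≤ R) (l : List Pt) :
    2 * pairSum (fun x y => kac R (dist x y)) l ≤ 320 * Q l := by
  classical
  have hR0 : 0 < R := by linarith
  set m : ℤ := ⌊2 * R + 3⌋ with hm
  have hm0 : 0 ≤ m := Int.floor_nonneg.2 (by linarith)
  have hmle : (m : ℝ) ≤ 2 * R + 3 := Int.floor_le _
  have h5 := pairSum_offset cell (box m) (fun d hd => neg_mem_box hd) l
  rw [card_box hm0] at h5
  have hQ : (l.length : ℝ) + 2 * pairSum (fun x y => if cell x = cell y then 1 else 0) l = Q l := by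
    unfold Q
    congr 2
  rw [hQ] at h5
  have hQ0 : 0 ≤ Q l := by
    unfold Q
    have : 0 ≤ pairSum (fun x y => if cell x = cell y then (1 : ℝ) else 0) l :=
      pairSum_nonneg l fun x _ y _ => by split_ifs <;> norm_num
    positivity
  set c : ℝ := (4 / 3 * Real.pi * R ^ 3)⁻¹ with hc
  have hpos : 0 < 4 / 3 * Real.pi * R ^ 3 := by have := Real.pi_pos; positivity
  have hc0 : 0 < c := inv_pos.2 hpos
  have h6 : pairSum (fun x y => kac R (dist x y)) l ≤
      c * pairSum (fun x y => if cell x - cell y ∈ box m then (1 : ℝ) else 0) l := by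
    rw [← pairSum_const_mul]
    refine pairSum_mono l fun x _ y _ => ?_
    refine (kac_le hR0 _).trans ?_
    apply mul_le_mul_of_nonneg_left _ hc0.le
    by_cases h : dist x y ≤ R + 1
    · have : cell x - cell y ∈ box m := by
        rw [mem_box]
        intro k
        have h7 : |2 * x k - 2 * y k| ≤ 2 * (R + 1) := by
          rw [← mul_sub, abs_mul, abs_of_pos (by norm_num : (0 : ℝ) < 2)]
          have := (abs_coord_le_dist x y k).trans h
          linarith
        have h8 := floor_sub_lt h7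
        have h9 : ((|(cell x - cell y) k| : ℤ) : ℝ) < 2 * (R + 1) + 1 := by
          push_cast
          simpa [cell] using h8
        rw [hm, Int.le_floor]
        linarith
      simp [h, this]
    · simp only [h, if_false]
      split_ifs <;> norm_num
  have h7 : (2 * (m : ℝ) + 1) ^ 3 ≤ (11 * R) ^ 3 := by
    apply pow_le_pow_left₀
    · have : (0 : ℝ) ≤ m := by exact_mod_cast hm0
      linarith
    · linarith
  have h8 : c * (11 * R) ^ 3 ≤ 320 := by
    rw [hc, inv_mul_le_iff₀ hpos]
    have hpi := Real.pi_gt_d2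
    have hR3 : 0 < R ^ 3 := by positivity
    nlinarith
  calc 2 * pairSum (fun x y => kac R (dist x y)) l
      ≤ c * (2 * pairSum (fun x y => if cell x - cell y ∈ box m then (1 : ℝ) else 0) l) := by linarith
    _ ≤ c * ((2 * (m : ℝ) + 1) ^ 3 * Q l) := mul_le_mul_of_nonneg_left h5 hc0.le
    _ ≤ c * ((11 * R) ^ 3 * Q l) := by
        apply mul_le_mul_of_nonneg_left _ hc0.le
        exact mul_le_mul_of_nonneg_right h7 hQ0
    _ = (c * (11 * R) ^ 3) * Q l := by ring
    _ ≤ 320 * Q l := mul_le_mul_of_nonneg_right h8 hQ0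

/-! ### half-open boxes -/

/-- the half-open box with corner `a` and side `w`. -/
def hbox (a : Fin 3 → ℝ) (w : ℝ) : Set Pt := {x | ∀ k, a k ≤ x k ∧ x k < a k + w}

theorem hbox_eq_preimage (a : Fin 3 → ℝ) (w : ℝ) :
    hbox a w = (WithLp.ofLp : Pt → (Fin 3 → ℝ)) ⁻¹' (Set.pi Set.univ fun k => Set.Ico (a k) (a k + w)) := by
  ext x
  simp [hbox]

theorem measurableSet_hbox (a : Fin 3 → ℝ) (w : ℝ) : MeasurableSet (hbox a w) := by
  rw [hbox_eq_preimage]
  exact (PiLp.volume_preserving_ofLp (Fin 3)).measurable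
    (MeasurableSet.univ_pi fun _ => measurableSet_Ico)

theorem volume_hbox (a : Fin 3 → ℝ) {w : ℝ} (hw : 0 ≤ w) :
    volume (hbox a w) = ENNReal.ofReal (w ^ 3) := by
  rw [hbox_eq_preimage, (PiLp.volume_preserving_ofLp (Fin 3)).measure_preimage
    (MeasurableSet.univ_pi fun _ => measurableSet_Ico).nullMeasurableSet, Real.volume_pi_Ico]
  simp only [add_sub_cancel_left, Finset.prod_const, Finset.card_univ, Fintype.card_fin]
  rw [ENNReal.ofReal_pow hw]

theorem cube_eq_preimage (L : ℝ) :
    cube L = (WithLp.ofLp : Pt → (Fin 3 → ℝ)) ⁻¹' (Set.pi Set.univ fun _ => Set.Icc 0 L) := by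
  ext x
  simp [cube, Crest.ProbabilityR.Continuum.cube, Pi.le_def, forall_and]

theorem measurableSet_cube (L : ℝ) : MeasurableSet (cube L) := by
  rw [cube_eq_preimage]
  exact (PiLp.volume_preserving_ofLp (Fin 3)).measurable
    (MeasurableSet.univ_pi fun _ => measurableSet_Icc)

theorem volume_cube {L : ℝ} (hL : 0 ≤ L) : volume (cube L) = ENNReal.ofReal (L ^ 3) := by
  rw [cube_eq_preimage, (PiLp.volume_preserving_ofLp (Fin 3)).measure_preimage
    (MeasurableSet.univ_pi fun _ => measurableSet_Icc).nullMeasurableSet,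
    Set.pi_univ_Icc (fun _ => 0) (fun _ => L), Real.volume_Icc_pi]
  simp only [sub_zero, Finset.prod_const, Finset.card_univ, Fintype.card_fin]
  rw [ENNReal.ofReal_pow hL]

/-- grid cell of side `w` with index `d` -/
def gbox (w : ℝ) (d : Fin 3 → ℤ) : Set Pt := hbox (fun k => w * d k) w

theorem mem_gbox_iff {w : ℝ} (hw : 0 < w) {d : Fin 3 → ℤ} {x : Pt} :
    x ∈ gbox w d ↔ (fun k => ⌊x k / w⌋) = d := by
  constructor
  · intro h
    funext k
    rw [Int.floor_eq_iff]
    obtain ⟨h1, h2⟩ := h k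
    constructor
    · rw [le_div_iff₀ hw]; linarith
    · rw [div_lt_iff₀ hw]; linarith
  · rintro rfl k
    have h1 := Int.floor_le (x k / w)
    have h2 := Int.lt_floor_add_one (x k / w)
    rw [le_div_iff₀ hw] at h1
    rw [div_lt_iff₀ hw] at h2
    constructor
    · simpa [mul_comm] using h1
    · have : (((⌊x k / w⌋ : ℤ) : ℝ) + 1) * w = w * ((⌊x k / w⌋ : ℤ) : ℝ) + w := by ring
      rw [this] at h2
      exact h2

theorem disjoint_gbox {w : ℝ} (hw : 0 < w) {d d' : Fin 3 → ℤ} (h : d ≠ d') :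
    Disjoint (gbox w d) (gbox w d') := by
  rw [Set.disjoint_left]
  intro x hx hx'
  rw [mem_gbox_iff hw] at hx hx'
  exact h (hx.symm.trans hx')

theorem volume_biUnion_gbox {w : ℝ} (hw : 0 < w) (D : Finset (Fin 3 → ℤ)) :
    volume (⋃ d ∈ D, gbox w d) = D.card * ENNReal.ofReal (w ^ 3) := by
  rw [measure_biUnion_finset]
  · simp [gbox, volume_hbox _ hw.le]
  · intro a _ b _ hab
    exact disjoint_gbox hw hab
  · intro d _
    exact measurableSet_hbox _ _

theorem volume_closedBall_real (x : Pt) {r : ℝ} (hr : 0 ≤ r) :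
    volume (Metric.closedBall x r) = ENNReal.ofReal (4 / 3 * Real.pi * r ^ 3) := by
  rw [EuclideanSpace.volume_closedBall_fin_three, ← ENNReal.ofReal_pow hr, ← ENNReal.ofReal_mul (by positivity)]
  congr 1
  ring

theorem volume_ball_real (x : Pt) {r : ℝ} (hr : 0 ≤ r) :
    volume (Metric.ball x r) = ENNReal.ofReal (4 / 3 * Real.pi * r ^ 3) := by
  rw [EuclideanSpace.volume_ball_fin_three, ← ENNReal.ofReal_pow hr, ← ENNReal.ofReal_mul (by positivity)]
  congr 1
  ring

theorem card_mul_le_of_subset_closedBall {w r : ℝ} (hw : 0 < w) (hr : 0 ≤ r)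
    {D : Finset (Fin 3 → ℤ)} (h : ∀ d ∈ D, gbox w d ⊆ Metric.closedBall 0 r) :
    (D.card : ℝ) * w ^ 3 ≤ 4 / 3 * Real.pi * r ^ 3 := by
  have h1 : volume (⋃ d ∈ D, gbox w d) ≤ volume (Metric.closedBall (0 : Pt) r) :=
    measure_mono (Set.iUnion₂_subset h)
  rw [volume_biUnion_gbox hw, volume_closedBall_real _ hr] at h1
  have h2 : (D.card : ℝ≥0∞) * ENNReal.ofReal (w ^ 3) = ENNReal.ofReal (D.card * w ^ 3) := by
    rw [ENNReal.ofReal_mul (by positivity), ENNReal.ofReal_natCast]
  rw [h2] at h1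
  exact (ENNReal.ofReal_le_ofReal_iff (by have := Real.pi_pos; positivity)).1 h1

theorem le_card_mul_of_closedBall_subset {w r : ℝ} (hw : 0 < w) (hr : 0 ≤ r)
    {D : Finset (Fin 3 → ℤ)} (h : Metric.closedBall (0 : Pt) r ⊆ ⋃ d ∈ D, gbox w d) :
    4 / 3 * Real.pi * r ^ 3 ≤ (D.card : ℝ) * w ^ 3 := by
  have h1 := measure_mono (μ := volume) h
  rw [volume_biUnion_gbox hw, volume_closedBall_real _ hr] at h1
  have h2 : (D.card : ℝ≥0∞) * ENNReal.ofReal (w ^ 3) = ENNReal.ofReal (D.card * w ^ 3) := by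
    rw [ENNReal.ofReal_mul (by positivity), ENNReal.ofReal_natCast]
  rw [h2] at h1
  exact (ENNReal.ofReal_le_ofReal_iff (by positivity)).1 h1

/-! ### (1d) block bound -/

/-- block index -/
noncomputable def blk (a : Fin 3 → ℝ) (ℓ : ℝ) (x : Pt) : Fin 3 → ℤ := fun k => ⌊(x k + a k) / ℓ⌋

theorem exists_blockOffsets {ℓ R : ℝ} (hℓ : 0 < ℓ) (hR : 0 ≤ R) :
    ∃ D : Finset (Fin 3 → ℤ), (∀ d ∈ D, -d ∈ D) ∧
      (D.card : ℝ) * ℓ ^ 3 ≤ 4 / 3 * Real.pi * (R + 4 * ℓ) ^ 3 ∧
      ∀ (a : Fin 3 → ℝ) (x y : Pt), dist x y ≤ R → blk a ℓ x - blk a ℓ y ∈ D := by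
  classical
  set m : ℤ := ⌈R / ℓ⌉ + 1 with hm
  set P : (Fin 3 → ℤ) → Prop := fun d => ∃ v : Pt, ‖v‖ ≤ R ∧ ∀ k, |v k / ℓ - d k| < 1 with hP
  refine ⟨(box m).filter P, ?_, ?_, ?_⟩
  · intro d hd
    rw [Finset.mem_filter] at hd ⊢
    refine ⟨neg_mem_box hd.1, ?_⟩
    obtain ⟨v, hv, hk⟩ := hd.2
    refine ⟨-v, by simpa using hv, fun k => ?_⟩
    have := hk k
    rw [← abs_neg] at this
    convert this using 2
    simp
    ring
  · apply card_mul_le_of_subset_closedBall hℓ (by positivity)
    intro d hd w hw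
    rw [Finset.mem_filter] at hd
    obtain ⟨v, hv, hk⟩ := hd.2
    have h1 : dist w v ≤ 2 * (2 * ℓ) := by
      apply dist_le_of_coord (by positivity)
      intro k
      obtain ⟨h2, h3⟩ := hw k
      have h4 := hk k
      have h5 : |v k - ℓ * d k| < ℓ := by
        have : v k - ℓ * d k = ℓ * (v k / ℓ - d k) := by
          field_simp
        rw [this, abs_mul, abs_of_pos hℓ]
        calc ℓ * |v k / ℓ - d k| < ℓ * 1 := mul_lt_mul_of_pos_left h4 hℓ
          _ = ℓ := mul_one _
      rw [abs_lt] at h5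
      rw [abs_le]
      simp only at h2 h3
      constructor <;> linarith [h5.1, h5.2]
    rw [Metric.mem_closedBall]
    calc dist w 0 ≤ dist w v + dist v 0 := dist_triangle _ _ _
      _ ≤ 2 * (2 * ℓ) + R := add_le_add h1 (by simpa using hv)
      _ = R + 4 * ℓ := by ring
  · intro a x y hxy
    have hk : ∀ k, |(x - y) k / ℓ - ((blk a ℓ x - blk a ℓ y) k : ℤ)| < 1 := by
      intro k
      have := abs_sub_floor_sub (a := (x k + a k) / ℓ) (b := (y k + a k) / ℓ)
      have h2 : (x k + a k) / ℓ - (y k + a k) / ℓ = (x - y) k / ℓ := by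
        rw [← sub_div]
        congr 1
        simp
      rw [h2] at this
      simpa [blk] using this
    rw [Finset.mem_filter]
    constructor
    · rw [mem_box]
      intro k
      have h1 : |(x - y) k / ℓ| ≤ R / ℓ := by
        rw [abs_div, abs_of_pos hℓ]
        apply div_le_div_of_nonneg_right _ hℓ.le
        exact (abs_coord_le_dist x y k).trans hxy
      have h2 := hk k
      have h3 : ((|(blk a ℓ x - blk a ℓ y) k| : ℤ) : ℝ) < m + 1 := by
        rw [Int.cast_abs, hm]
        push_cast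
        have h4 := Int.le_ceil (R / ℓ)
        have h5 := abs_lt.1 h2
        have h6 := abs_le.1 h1
        rw [abs_lt]
        push_cast at h5
        constructor <;> linarith [h5.1, h5.2, h6.1, h6.2]
      have h4 : |(blk a ℓ x - blk a ℓ y) k| < m + 1 := by exact_mod_cast h3
      omega
    · exact ⟨x - y, by rwa [← dist_eq_norm], hk⟩

theorem kac_block {ℓ R : ℝ} (hℓ : 0 < ℓ) (hR : 0 < R) (a : Fin 3 → ℝ) (l : List Pt) :
    2 * pairSum (fun x y => kac R (dist x y)) l ≤
      ((R + 1 + 4 * ℓ) / R) ^ 3 / ℓ ^ 3 *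
        (l.length + 2 * pairSum (fun x y => if blk a ℓ x = blk a ℓ y then 1 else 0) l) := by
  classical
  obtain ⟨D, hD1, hD2, hD3⟩ := exists_blockOffsets hℓ (show 0 ≤ R + 1 by linarith)
  have h5 := pairSum_offset (blk a ℓ) D hD1 l
  set Qb : ℝ := l.length + 2 * pairSum (fun x y => if blk a ℓ x = blk a ℓ y then 1 else 0) l with hQb
  have hQ0 : 0 ≤ Qb := by
    have : 0 ≤ pairSum (fun x y => if blk a ℓ x = blk a ℓ y then (1 : ℝ) else 0) l :=
      pairSum_nonneg l fun x _ y _ => by split_ifs <;> norm_num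
    positivity
  set c : ℝ := (4 / 3 * Real.pi * R ^ 3)⁻¹ with hc
  have hpos : 0 < 4 / 3 * Real.pi * R ^ 3 := by have := Real.pi_pos; positivity
  have hc0 : 0 < c := inv_pos.2 hpos
  have h6 : pairSum (fun x y => kac R (dist x y)) l ≤
      c * pairSum (fun x y => if blk a ℓ x - blk a ℓ y ∈ D then (1 : ℝ) else 0) l := by
    rw [← pairSum_const_mul]
    refine pairSum_mono l fun x _ y _ => ?_
    refine (kac_le hR _).trans ?_
    apply mul_le_mul_of_nonneg_left _ hc0.le
    by_cases h : dist x y ≤ R + 1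
    · have := hD3 a x y h
      simp [h, this]
    · simp only [h, if_false]
      split_ifs <;> norm_num
  have h8 : c * D.card ≤ ((R + 1 + 4 * ℓ) / R) ^ 3 / ℓ ^ 3 := by
    rw [hc, inv_mul_le_iff₀ hpos, ← mul_div_assoc, le_div_iff₀ (by positivity)]
    refine hD2.trans (le_of_eq ?_)
    rw [div_pow]
    field_simp
  calc 2 * pairSum (fun x y => kac R (dist x y)) l
      ≤ c * (2 * pairSum (fun x y => if blk a ℓ x - blk a ℓ y ∈ D then (1 : ℝ) else 0) l) := by linarith
    _ ≤ c * (D.card * Qb) := mul_le_mul_of_nonneg_left h5 hc0.le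
    _ = (c * D.card) * Qb := by ring
    _ ≤ _ := mul_le_mul_of_nonneg_right h8 hQ0

/-! ### (1e) lower count -/

theorem exists_innerOffsets {w R : ℝ} (hw : 0 < w) (hR : 4 * w ≤ R) :
    ∃ D : Finset (Fin 3 → ℤ), (∀ d ∈ D, -d ∈ D) ∧
      4 / 3 * Real.pi * (R - 4 * w) ^ 3 ≤ (D.card : ℝ) * w ^ 3 ∧
      (∀ d ∈ D, ∀ k, |((d k : ℤ) : ℝ)| * w ≤ R) ∧
      ∀ d ∈ D, ∀ (i : Fin 3 → ℤ) (x y : Pt),
        (∀ k, w * i k ≤ x k ∧ x k ≤ w * i k + w) →
        (∀ k, w * (i k + d k) ≤ y k ∧ y k ≤ w * (i k + d k) + w) → dist x y ≤ R := by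
  classical
  set m : ℤ := ⌈R / w⌉ + 1 with hm
  set vec : (Fin 3 → ℤ) → Pt := fun d => WithLp.toLp 2 (fun k => w * d k) with hvec
  have hvk : ∀ d k, vec d k = w * d k := fun _ _ => rfl
  set P : (Fin 3 → ℤ) → Prop := fun d => ‖vec d‖ + 2 * w ≤ R with hP
  have hRpos : 0 < R := by linarith
  have hbd : ∀ d, ‖vec d‖ ≤ R → ∀ k, |((d k : ℤ) : ℝ)| * w ≤ R := by
    intro d hd k
    have h1 := abs_coord_le_dist (vec d) 0 k
    rw [dist_zero_right] at h1
    have h2 : |vec d k - (0 : Pt) k| = |((d k : ℤ) : ℝ)| * w := by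
      rw [hvk]
      simp [abs_mul, abs_of_pos hw, mul_comm]
    rw [← h2]
    exact h1.trans hd
  refine ⟨(box m).filter P, ?_, ?_, ?_, ?_⟩
  · intro d hd
    rw [Finset.mem_filter] at hd ⊢
    refine ⟨neg_mem_box hd.1, ?_⟩
    have : vec (-d) = -vec d := by
      ext k
      simp [hvec]
    simp only [hP, this, norm_neg]
    exact hd.2
  · apply le_card_mul_of_closedBall_subset hw (by linarith)
    intro x hx
    rw [Metric.mem_closedBall, dist_zero_right] at hx
    set d : Fin 3 → ℤ := fun k => ⌊x k / w⌋ with hd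
    have hxd : x ∈ gbox w d := (mem_gbox_iff hw).2 rfl
    have h1 : dist (vec d) x ≤ 2 * w := by
      apply dist_le_of_coord hw.le
      intro k
      obtain ⟨h2, h3⟩ := hxd k
      rw [hvk, abs_le]
      simp only at h2 h3
      constructor <;> linarith
    have h2 : ‖vec d‖ ≤ R - 2 * w := by
      have : dist (vec d) 0 ≤ dist (vec d) x + dist x 0 := dist_triangle _ _ _
      rw [dist_zero_right, dist_zero_right] at this
      linarith
    refine Set.mem_biUnion (x := d) ?_ hxd
    rw [Finset.mem_coe, Finset.mem_filter]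
    refine ⟨?_, by simp only [hP]; linarith⟩
    rw [mem_box]
    intro k
    have h3 := hbd d (by linarith) k
    rw [← le_div_iff₀ hw] at h3
    have h4 := Int.le_ceil (R / w)
    have h5 : ((|d k| : ℤ) : ℝ) ≤ (m : ℝ) := by
      rw [Int.cast_abs, hm]
      push_cast
      linarith
    exact_mod_cast h5
  · intro d hd k
    rw [Finset.mem_filter] at hd
    exact hbd d (by have := hd.2; simp only [hP] at this; linarith) k
  · intro d hd i x y hx hy
    rw [Finset.mem_filter] at hd
    have h1 : dist (x + vec d) y ≤ 2 * w := by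
      apply dist_le_of_coord hw.le
      intro k
      have h2 := hx k
      have h3 := hy k
      have h4 : (x + vec d) k = x k + w * d k := rfl
      rw [h4, abs_le]
      constructor
      · nlinarith [h2.1, h3.2]
      · nlinarith [h2.2, h3.1]
    have h2 : dist x (x + vec d) = ‖vec d‖ := by
      rw [dist_eq_norm]
      simp
    have h3 := hd.2
    simp only [hP] at h3
    calc dist x y ≤ dist x (x + vec d) + dist (x + vec d) y := dist_triangle _ _ _
      _ ≤ ‖vec d‖ + 2 * w := by rw [h2]; linarith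
      _ ≤ R := h3

end Crest.Agent.H19Count
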