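import Mathlib
import Crest.Agent.H13Dec
import Crest.Agent.H13AbsSpec
import Crest.Agent.H19Count

/-!
Uniform Lipschitz bounds and tails for pressures satisfying `Bnd`; specialisation of the
decoupling bound to `w = v`.
-/

set_option autoImplicit false

open MeasureTheory Filter Topology
open scoped ENNReal

namespace Crest.Agent.H13Lip

open Crest.Agent.H13Conf Crest.Agent.H13Energy Crest.Agent.H13Basic Crest.Agent.H13Cube
open Crest.Agent.H19Pair Crest.Agent.H13Super Crest.Agent.H13Press Crest.Agent.H13Canon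
open Crest.Agent.H13Dec Crest.Agent.H13AbsSpec

theorem conv_step {B κ : ℝ} {g : ℝ → ℝ → ℝ} (hg : Bnd B κ g) {p₁ p₂ z₁ z₂ y₁ y₂ d δ Gm : ℝ}
    (hp : 0 < p₁) (hz : 0 < z₁) (hd : 0 ≤ d) (hδ : 0 < δ)
    (hy1 : y₁ = p₁ + d / (d + δ) * (z₁ - p₁)) (hy2 : y₂ = p₂ + d / (d + δ) * (z₂ - p₂))
    (hG : g z₁ z₂ ≤ Gm) (hG0 : 0 ≤ Gm) : g y₁ y₂ ≤ g p₁ p₂ + d / δ * Gm := by
  set s := d / (d + δ) with hs
  have hs0 : 0 ≤ s := by positivity
  have hs1 : s ≤ 1 := by rw [hs, div_le_one (by positivity)]; linarith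
  have h1 := hg.conv.2 (show (p₁, p₂) ∈ {x : ℝ × ℝ | 0 < x.1} from hp)
    (show (z₁, z₂) ∈ {x : ℝ × ℝ | 0 < x.1} from hz) (show 0 ≤ 1 - s by linarith) hs0 (by ring)
  simp only [Prod.smul_mk, Prod.mk_add_mk, smul_eq_mul] at h1
  have e1 : (1 - s) * p₁ + s * z₁ = y₁ := by rw [hy1]; ring
  have e2 : (1 - s) * p₂ + s * z₂ = y₂ := by rw [hy2]; ring
  rw [e1, e2] at h1
  have h2 := hg.nonneg p₁ p₂ hp
  have h3 : s ≤ d / δ := by
    rw [hs]
    gcongr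
    linarith
  have h4 : s * g z₁ z₂ ≤ d / δ * Gm := by
    calc s * g z₁ z₂ ≤ s * Gm := by gcongr
      _ ≤ d / δ * Gm := by gcongr
  have h5 : 0 ≤ s * g p₁ p₂ := by positivity
  linarith

theorem bound_on {B κ : ℝ} {g : ℝ → ℝ → ℝ} (hg : Bnd B κ g) (hB : 0 ≤ B) (hκ : 0 < κ)
    {b b₁ b₂ h H : ℝ} (hb1 : 0 < b₁) (h1 : b₁ ≤ b) (h2 : b ≤ b₂) (hh : |h| ≤ H) :
    g b h ≤ 1 + (H + b₂ * B) ^ 2 / (4 * b₁ * κ) := by
  have hb : 0 < b := by linarith
  have hH : 0 ≤ H := (abs_nonneg h).trans hh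
  refine (hg.upper b h hb).trans ?_
  have h3 : max (h + b * B) 0 ≤ H + b₂ * B := by
    refine max_le ?_ (by nlinarith [mul_nonneg hb.le hB])
    have := (abs_le.1 hh).2
    nlinarith
  have h4 : 0 ≤ max (h + b * B) 0 := le_max_right _ _
  gcongr

/-- uniform Lipschitz bound -/
theorem lip {B κ β₁ β₂ H : ℝ} (hB : 0 ≤ B) (hκ : 0 < κ) (hβ₁ : 0 < β₁) (hβ : β₁ ≤ β₂)
    (hH : 0 ≤ H) : ∃ Λ : ℝ, 0 < Λ ∧ ∀ g : ℝ → ℝ → ℝ, Bnd B κ g →
      ∀ b b' h h' : ℝ, β₁ ≤ b → b ≤ β₂ → β₁ ≤ b' → b' ≤ β₂ → |h| ≤ H → |h'| ≤ H →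
        g b' h' ≤ g b h + Λ * (|b' - b| + |h' - h|) := by
  have hβ₂ : 0 < β₂ := by linarith
  set Gm : ℝ := 1 + (H + 1 + 2 * β₂ * B) ^ 2 / (4 * (β₁ / 2) * κ) with hGm
  have hGm0 : 0 < Gm := by positivity
  refine ⟨Gm * (2 / β₁) + Gm, by positivity, ?_⟩
  intro g hg b b' h h' hb1 hb2 hb1' hb2' hh hh'
  have hbd : ∀ c k : ℝ, β₁ / 2 ≤ c → c ≤ 2 * β₂ → |k| ≤ H + 1 → g c k ≤ Gm := by
    intro c k h1 h2 h3
    exact bound_on hg hB hκ (by positivity) h1 h2 h3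
  -- first step: change b
  have s1 : g b' h' ≤ g b h' + |b' - b| / (β₁ / 2) * Gm := by
    rcases le_total b b' with hbb | hbb
    · have e : |b' - b| = b' - b := abs_of_nonneg (by linarith)
      rw [e]
      refine conv_step hg (z₁ := b' + β₁ / 2) (z₂ := h') (by linarith) (by linarith) (by linarith)
        (by positivity) ?_ ?_ (hbd _ _ (by linarith) (by linarith) (by linarith)) hGm0.le
      · have : (b' - b) + β₁ / 2 ≠ 0 := by linarith
        field_simp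
        ring
      · ring
    · have e : |b' - b| = b - b' := by rw [abs_sub_comm]; exact abs_of_nonneg (by linarith)
      rw [e]
      refine conv_step hg (z₁ := b' - β₁ / 2) (z₂ := h') (by linarith) (by linarith) (by linarith)
        (by positivity) ?_ ?_ (hbd _ _ (by linarith) (by linarith) (by linarith)) hGm0.le
      · have : (b - b') + β₁ / 2 ≠ 0 := by linarith
        field_simp
        ring
      · ring
  have s2 : g b h' ≤ g b h + |h' - h| / 1 * Gm := by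
    have hh1 := abs_le.1 hh
    have hh1' := abs_le.1 hh'
    rcases le_total h h' with hbb | hbb
    · have e : |h' - h| = h' - h := abs_of_nonneg (by linarith)
      rw [e]
      refine conv_step hg (z₁ := b) (z₂ := h' + 1) (by linarith) (by linarith) (by linarith)
        (by positivity) ?_ ?_ (hbd _ _ (by linarith) (by linarith) ?_) hGm0.le
      · ring
      · have : (h' - h) + 1 ≠ 0 := by linarith
        field_simp
        ring
      · rw [abs_le]; constructor <;> linarith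
    · have e : |h' - h| = h - h' := by rw [abs_sub_comm]; exact abs_of_nonneg (by linarith)
      rw [e]
      refine conv_step hg (z₁ := b) (z₂ := h' - 1) (by linarith) (by linarith) (by linarith)
        (by positivity) ?_ ?_ (hbd _ _ (by linarith) (by linarith) ?_) hGm0.le
      · ring
      · have : (h - h') + 1 ≠ 0 := by linarith
        field_simp
        ring
      · rw [abs_le]; constructor <;> linarith
  have e1 : |b' - b| / (β₁ / 2) * Gm = Gm * (2 / β₁) * |b' - b| := by field_simp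
  have e2 : |h' - h| / 1 * Gm = Gm * |h' - h| := by ring
  rw [e1] at s1
  rw [e2] at s2
  have h6 : 0 ≤ Gm * |b' - b| := by positivity
  have h7 : 0 ≤ Gm * (2 / β₁) * |h' - h| := by positivity
  nlinarith

/-- quadratic tail -/
theorem quad {B κ K β₁ β₂ H : ℝ} (hB : 0 ≤ B) (hK : 0 < K) (hκ : 4 * K ≤ κ) (hβ₁ : 0 < β₁)
    (hβ : β₁ ≤ β₂) (hH : 0 ≤ H) : ∃ T : ℝ, 1 ≤ T ∧ ∀ g : ℝ → ℝ → ℝ, Bnd B κ g →
      ∀ b h t : ℝ, β₁ ≤ b → b ≤ β₂ → |h| ≤ H → T ≤ |t| → g b (h + t) ≤ t ^ 2 / (5 * b * K) := by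
  have hβ₂ : 0 < β₂ := by linarith
  set c₀ := H + β₂ * B with hc₀
  have hc₀0 : 0 ≤ c₀ := by positivity
  refine ⟨1 + 14 * β₂ * K + 2 * c₀ ^ 2, by
    have : 0 ≤ 14 * β₂ * K := by positivity
    nlinarith [sq_nonneg c₀], ?_⟩
  intro g hg b h t hb1 hb2 hh ht
  have hb : 0 < b := by linarith
  have hκ0 : 0 < κ := by linarith
  have h1 : max (h + t + b * B) 0 ≤ c₀ + |t| := by
    refine max_le ?_ (by positivity)
    have := (abs_le.1 hh).2
    have := le_abs_self t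
    have : b * B ≤ β₂ * B := by gcongr
    linarith
  have h2 : g b (h + t) ≤ 1 + (2 * c₀ ^ 2 + 2 * t ^ 2) / (16 * b * K) := by
    refine (hg.upper b (h + t) hb).trans ?_
    have h3 : (max (h + t + b * B) 0) ^ 2 ≤ (c₀ + |t|) ^ 2 :=
      pow_le_pow_left₀ (le_max_right _ _) h1 2
    have h4 : (c₀ + |t|) ^ 2 ≤ 2 * c₀ ^ 2 + 2 * t ^ 2 := by
      have := sq_abs t
      nlinarith [sq_nonneg (c₀ - |t|)]
    have h5 : 16 * b * K ≤ 4 * b * κ := by nlinarith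
    calc 1 + (max (h + t + b * B) 0) ^ 2 / (4 * b * κ) ≤
        1 + (2 * c₀ ^ 2 + 2 * t ^ 2) / (4 * b * κ) := by
          gcongr
          exact h3.trans h4
      _ ≤ _ := by gcongr
  refine h2.trans ?_
  have h6 : 1 + 14 * β₂ * K + 2 * c₀ ^ 2 ≤ t ^ 2 := by
    have h7 : 1 ≤ |t| := by
      refine le_trans ?_ ht
      have : 0 ≤ 14 * β₂ * K := by positivity
      nlinarith [sq_nonneg c₀]
    rw [← sq_abs t]
    nlinarith
  have e : t ^ 2 / (5 * b * K) - (1 + (2 * c₀ ^ 2 + 2 * t ^ 2) / (16 * b * K)) =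
      (6 * t ^ 2 - 80 * b * K - 10 * c₀ ^ 2) / (80 * b * K) := by
    field_simp
    ring
  have h8 : 0 ≤ (6 * t ^ 2 - 80 * b * K - 10 * c₀ ^ 2) / (80 * b * K) := by
    apply div_nonneg _ (by positivity)
    have : b * K ≤ β₂ * K := by gcongr
    nlinarith [sq_nonneg c₀]
  linarith

theorem supConv_bdd {B κ K : ℝ} {g : ℝ → ℝ → ℝ} (hg : Bnd B κ g) (hB : 0 ≤ B) (hK : 0 < K)
    (hκ : 4 * K ≤ κ) {a b h : ℝ} (ha : 0 < a) (haK : a ≤ K) (hb : 0 < b) :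
    BddAbove (Set.range fun t : ℝ => g b (h + t) - t ^ 2 / (2 * b * a)) := by
  obtain ⟨T, hT1, hT⟩ := quad (H := |h|) hB hK hκ hb le_rfl (abs_nonneg h)
  refine ⟨1 + (|h| + T + b * B) ^ 2 / (4 * b * κ), ?_⟩
  rintro _ ⟨t, rfl⟩
  simp only
  have hκ0 : 0 < κ := by linarith
  have h0 : 0 ≤ t ^ 2 / (2 * b * a) := by positivity
  rcases le_total T |t| with h1 | h1
  · have h2 := hT g hg b h t le_rfl le_rfl le_rfl h1
    have h3 : t ^ 2 / (5 * b * K) ≤ t ^ 2 / (2 * b * a) := by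
      gcongr
      linarith
    have : 0 ≤ (|h| + T + b * B) ^ 2 / (4 * b * κ) := by positivity
    linarith
  · have h2 := bound_on hg hB hκ0 hb le_rfl le_rfl (h := h + t) (H := |h| + T)
      ((abs_add_le _ _).trans (by linarith))
    linarith

theorem le_supConv {B κ K : ℝ} {g : ℝ → ℝ → ℝ} (hg : Bnd B κ g) (hB : 0 ≤ B) (hK : 0 < K)
    (hκ : 4 * K ≤ κ) {a b h : ℝ} (ha : 0 < a) (haK : a ≤ K) (hb : 0 < b) (t : ℝ) :
    g b (h + t) - t ^ 2 / (2 * b * a) ≤ supConv a g b h :=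
  le_ciSup (supConv_bdd hg hB hK hκ ha haK hb) t

theorem supConv_nonneg {B κ K : ℝ} {g : ℝ → ℝ → ℝ} (hg : Bnd B κ g) (hB : 0 ≤ B) (hK : 0 < K)
    (hκ : 4 * K ≤ κ) {a b h : ℝ} (ha : 0 < a) (haK : a ≤ K) (hb : 0 < b) :
    0 ≤ supConv a g b h := by
  have h1 := le_supConv hg hB hK hκ (h := h) ha haK hb 0
  simp only [add_zero] at h1
  have h2 := hg.nonneg b h hb
  have e : (0 : ℝ) ^ 2 / (2 * b * a) = 0 := by simp
  linarith

/-- uniform upper bound of the sup-convolution -/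
theorem supConv_le {B κ K β₁ β₂ H : ℝ} (hB : 0 ≤ B) (hK : 0 < K) (hκ : 4 * K ≤ κ) (hβ₁ : 0 < β₁)
    (hβ : β₁ ≤ β₂) (hH : 0 ≤ H) : ∃ Sm : ℝ, 0 < Sm ∧ ∀ g : ℝ → ℝ → ℝ, Bnd B κ g →
      ∀ a b h : ℝ, 0 < a → a ≤ K → β₁ ≤ b → b ≤ β₂ → |h| ≤ H → supConv a g b h ≤ Sm := by
  obtain ⟨T, hT1, hT⟩ := quad hB hK hκ hβ₁ hβ hH
  have hκ0 : 0 < κ := by linarith
  have hβ₂ : 0 < β₂ := by linarith
  refine ⟨1 + (H + T + β₂ * B) ^ 2 / (4 * β₁ * κ), by positivity, ?_⟩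
  intro g hg a b h ha haK hb1 hb2 hh
  have hb : 0 < b := by linarith
  refine ciSup_le fun t => ?_
  have h0 : 0 ≤ t ^ 2 / (2 * b * a) := by positivity
  rcases le_total T |t| with h1 | h1
  · have h2 := hT g hg b h t hb1 hb2 hh h1
    have h3 : t ^ 2 / (5 * b * K) ≤ t ^ 2 / (2 * b * a) := by
      gcongr
      linarith
    have : 0 ≤ (H + T + β₂ * B) ^ 2 / (4 * β₁ * κ) := by positivity
    linarith
  · have h2 := bound_on hg hB hκ0 hβ₁ hb1 hb2 (h := h + t) (H := H + T)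
      ((abs_add_le _ _).trans (by linarith))
    linarith

/-- decoupling without Kac part -/
theorem press_le_lx {r₀ B B' : ℝ} {v : ℝ → ℝ} (hv : Pot r₀ B v)
    {ℓ R' θ b h : ℝ} (hℓ : 0 < ℓ) {q : ℕ} (hq : 0 < q)
    (hR : ∀ r, R' < r → v r = 0) (hattr : ∀ l : List Pt, Am v l ≤ E v l + B' * l.length)
    (hθ : θ = 3 * (R' / ℓ + 1 / q)) (hθ0 : 0 ≤ θ) (hb : 0 < b) :
    press r₀ v b h ≤ lx v ℓ (b / (1 + θ)) (h + b / (1 + θ) * (θ * B')) / ℓ ^ 3 := by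
  have h1θ : 0 < 1 + θ := by linarith
  refine press_le_of_G hv hv.meas hℓ hq hR hattr hθ hθ0 hb (c := 0) ?_
    (lx_nonneg hv hℓ.le (by positivity) _) ?_
  · intro a l
    simp
  · rw [G_Fq_zero, ofReal_exp_lx hv hℓ.le (by positivity)]

end Crest.Agent.H13Lip
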