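import Mathlib
import Crest.Agent.H13Lip

/-!
Upper half of the Kac step.
-/

set_option autoImplicit false

open MeasureTheory Filter Topology
open scoped ENNReal

namespace Crest.Agent.H13KacUp

open Crest.Agent.H13Conf Crest.Agent.H13Energy Crest.Agent.H13Basic Crest.Agent.H13Cube
open Crest.Agent.H19Pair Crest.Agent.H13Super Crest.Agent.H13Press Crest.Agent.H13Canon
open Crest.Agent.H13Dec Crest.Agent.H13AbsSpec Crest.Agent.H13Lip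

theorem cube_bounds {τ y w : ℝ} (hτ : 0 < τ) (hτ1 : τ ≤ 1 / 100) (hy1 : 1 ≤ y)
    (hy : y ≤ 1 + 5 * τ) (hw1 : 1 ≤ w) (hw : w ≤ 1 + 2 * τ) :
    1 ≤ y ^ 3 * w ^ 3 ∧ y ^ 3 * w ^ 3 ≤ 1 + 25 * τ ∧ w ^ 3 ≤ 1 + 7 * τ := by
  have h1 : y ^ 3 ≤ 1 + 16 * τ := by
    calc y ^ 3 ≤ (1 + 5 * τ) ^ 3 := by gcongr
      _ ≤ 1 + 16 * τ := by nlinarith [mul_pos hτ hτ, mul_pos (mul_pos hτ hτ) hτ]
  have h2 : w ^ 3 ≤ 1 + 7 * τ := by
    calc w ^ 3 ≤ (1 + 2 * τ) ^ 3 := by gcongr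
      _ ≤ 1 + 7 * τ := by nlinarith [mul_pos hτ hτ, mul_pos (mul_pos hτ hτ) hτ]
  have h3 : 1 ≤ y ^ 3 := one_le_pow₀ hy1
  have h4 : 1 ≤ w ^ 3 := one_le_pow₀ hw1
  refine ⟨by nlinarith, ?_, h2⟩
  calc y ^ 3 * w ^ 3 ≤ (1 + 16 * τ) * (1 + 7 * τ) := by gcongr
    _ ≤ 1 + 25 * τ := by nlinarith [mul_pos hτ hτ]

theorem b_bounds {b b' θ τ β₁ β₂ : ℝ} (hb1 : β₁ ≤ b) (hb2 : b ≤ β₂) (hβ₁ : 0 < β₁)
    (hθ0 : 0 < θ) (hθ6 : θ ≤ 6 * τ) (hτ1 : τ ≤ 1 / 100)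
    (hbb' : b' * (1 + θ) = b) :
    0 < b' ∧ b' ≤ b ∧ β₁ / 2 ≤ b' ∧ |b' - b| ≤ 6 * τ * β₂ ∧ b' * θ ≤ 6 * τ * β₂ ∧
      b ≤ b' * (106 / 100) := by
  have hb : 0 < b := by linarith
  have hb'pos : 0 < b' := by
    by_contra hcon
    push Not at hcon
    have : b' * (1 + θ) ≤ 0 := mul_nonpos_of_nonpos_of_nonneg hcon (by linarith)
    linarith
  have h1 : 0 < b' * θ := mul_pos hb'pos hθ0
  have hb'le : b' ≤ b := by linarith [hbb']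
  have h2 : b' * θ ≤ β₂ * (6 * τ) := mul_le_mul (by linarith) hθ6 hθ0.le (by linarith)
  have h3 : b' * θ ≤ b' * (6 / 100) := mul_le_mul_of_nonneg_left (by linarith) hb'pos.le
  refine ⟨hb'pos, hb'le, by linarith, ?_, by linarith, by linarith⟩
  rw [abs_sub_comm, abs_of_nonneg (by linarith)]
  linarith

theorem h_bounds {h b' θ τ β₂ B H : ℝ} (hh : |h| ≤ H) (hB : 0 ≤ B) (hb' : 0 < b') (hθ0 : 0 < θ)
    (hbθ : b' * θ ≤ 6 * τ * β₂) (hτ1 : τ ≤ 1 / 100) (hβ₂ : 0 < β₂) :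
    |h + b' * (θ * B) - h| ≤ 6 * τ * β₂ * B ∧ |h + b' * (θ * B)| ≤ H + 1 + β₂ * B ∧
      |h + b' * (θ * B) + 1| ≤ H + 1 + β₂ * B := by
  have h0 : 0 ≤ b' * (θ * B) := by positivity
  have h1 : b' * (θ * B) ≤ 6 * τ * β₂ * B := by
    calc b' * (θ * B) = b' * θ * B := by ring
      _ ≤ 6 * τ * β₂ * B := mul_le_mul_of_nonneg_right hbθ hB
  have h2 : 6 * τ * β₂ * B ≤ 1 * (β₂ * B) := by
    have : 6 * τ ≤ 1 := by linarith
    calc 6 * τ * β₂ * B = 6 * τ * (β₂ * B) := by ring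
      _ ≤ 1 * (β₂ * B) := mul_le_mul_of_nonneg_right this (by positivity)
  have h3 := abs_le.1 hh
  refine ⟨?_, ?_, ?_⟩
  · rw [add_sub_cancel_left, abs_of_nonneg h0]; exact h1
  · rw [abs_le]; constructor <;> linarith
  · rw [abs_le]; constructor <;> linarith

theorem energy_ineq {v : ℝ → ℝ} {ℓ R a b y c : ℝ} (hℓ : 0 < ℓ) (hR : 0 < R) (ha : 0 < a)
    (hb : 0 < b) (hy : y = (R + 1 + 4 * ℓ) / R) (hc : c = b * a * y ^ 3 / (2 * ℓ ^ 3))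
    (α : Fin 3 → ℝ) (l : List Pt) :
    b * E v l ≤ b * E (fun r => v r - a * kac R r) l +
      c * (l.length + 2 * pairSum (fun x y => if bmap ℓ α x = bmap ℓ α y then 1 else 0) l) := by
  have h1 : E (fun r => v r - a * kac R r) l = E v l - a * pairSum (fun x y => kac R (dist x y)) l := by
    rw [E_sub]
    congr 1
    exact E_const_mul a (kac R) l
  have h2 := Crest.Agent.H19Count.kac_block hℓ hR α l
  have h3 : (fun x y : Pt => if Crest.Agent.H19Count.blk α ℓ x = Crest.Agent.H19Count.blk α ℓ y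
      then (1 : ℝ) else 0) = fun x y => if bmap ℓ α x = bmap ℓ α y then 1 else 0 := rfl
  rw [h3, ← hy] at h2
  rw [h1]
  generalize pairSum (fun x y => kac R (dist x y)) l = P at *
  generalize (l.length : ℝ) + 2 * pairSum (fun x y => if bmap ℓ α x = bmap ℓ α y then (1:ℝ) else 0) l = S at *
  generalize E v l = e
  have h4 : b * a * (2 * P) ≤ b * a * (y ^ 3 / ℓ ^ 3 * S) :=
    mul_le_mul_of_nonneg_left h2 (by positivity)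
  have h5 : c * S = b * a * (y ^ 3 / ℓ ^ 3 * S) / 2 := by
    rw [hc]; field_simp
  rw [h5]
  linarith

theorem log_bound {T β₁ a b c y ℓ τ K : ℝ} (hT : 0 < T) (hβ₁ : 0 < β₁) (hb1 : β₁ ≤ b) (ha : 0 < a)
    (haK : a ≤ K) (hy1 : 1 ≤ y) (hℓ1 : 1 ≤ ℓ) (hℓτ : 1 ≤ τ * ℓ) (hτ : 0 < τ)
    (hc : c = b * a * y ^ 3 / (2 * ℓ ^ 3)) :
    Real.log (T / (2 * c) + 3) / ℓ ^ 3 ≤ (T / β₁ + 6 * K) / a * τ := by
  have hb : 0 < b := by linarith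
  have hℓ : 0 < ℓ := by linarith
  have hypos : 0 < y := by linarith
  have hcpos : 0 < c := by rw [hc]; positivity
  have h4 : T / (2 * c) ≤ T * ℓ ^ 3 / (β₁ * a) := by
    have e : T / (2 * c) = T * ℓ ^ 3 / (b * a * y ^ 3) := by rw [hc]; field_simp
    rw [e]
    have : β₁ * a ≤ b * a * y ^ 3 := by
      have h5 : 1 ≤ y ^ 3 := one_le_pow₀ hy1
      calc β₁ * a = β₁ * a * 1 := by ring
        _ ≤ b * a * y ^ 3 := by gcongr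
    gcongr
  have hℓ3 : 1 ≤ ℓ ^ 3 := one_le_pow₀ hℓ1
  have h5 : T / (2 * c) + 3 ≤ ℓ ^ 3 * (T / (β₁ * a) + 3) := by
    have e : T * ℓ ^ 3 / (β₁ * a) = ℓ ^ 3 * (T / (β₁ * a)) := by ring
    rw [e] at h4
    linarith
  have hu : 0 < T / (β₁ * a) + 3 := by positivity
  have h6 : Real.log (T / (2 * c) + 3) ≤ 3 * ℓ + (T / (β₁ * a) + 3) := by
    calc Real.log (T / (2 * c) + 3) ≤ Real.log (ℓ ^ 3 * (T / (β₁ * a) + 3)) :=
          Real.log_le_log (by positivity) h5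
      _ = 3 * Real.log ℓ + Real.log (T / (β₁ * a) + 3) := by
          rw [Real.log_mul (by positivity) (by positivity), Real.log_pow]; norm_num
      _ ≤ 3 * ℓ + (T / (β₁ * a) + 3) := by
          have h7 := Real.log_le_sub_one_of_pos hℓ
          have h8 := Real.log_le_sub_one_of_pos hu
          linarith
  have h7 : 3 * ℓ + (T / (β₁ * a) + 3) ≤ ℓ * (T / (β₁ * a) + 6) := by
    have : T / (β₁ * a) + 3 ≤ ℓ * (T / (β₁ * a) + 3) := le_mul_of_one_le_left hu.le hℓ1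
    linarith
  have h8 : Real.log (T / (2 * c) + 3) / ℓ ^ 3 ≤ (T / (β₁ * a) + 6) / ℓ := by
    rw [div_le_div_iff₀ (by positivity) hℓ]
    have h9 := h6.trans h7
    have h11 : 0 < T / (β₁ * a) + 6 := by positivity
    calc Real.log (T / (2 * c) + 3) * ℓ ≤ ℓ * (T / (β₁ * a) + 6) * ℓ := by gcongr
      _ = (T / (β₁ * a) + 6) * (ℓ ^ 2 * 1) := by ring
      _ ≤ (T / (β₁ * a) + 6) * (ℓ ^ 2 * ℓ) := by gcongr
      _ = (T / (β₁ * a) + 6) * ℓ ^ 3 := by ring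
  refine h8.trans ?_
  have h9 : 1 / ℓ ≤ τ := by rw [div_le_iff₀ hℓ]; exact hℓτ
  have h10 : T / (β₁ * a) + 6 ≤ (T / β₁ + 6 * K) / a := by
    rw [le_div_iff₀ ha]
    have e : (T / (β₁ * a) + 6) * a = T / β₁ + 6 * a := by field_simp
    rw [e]
    linarith
  have h12 : 0 ≤ T / (β₁ * a) + 6 := by positivity
  calc (T / (β₁ * a) + 6) / ℓ = (T / (β₁ * a) + 6) * (1 / ℓ) := by ring
    _ ≤ (T / β₁ + 6 * K) / a * τ := mul_le_mul h10 h9 (by positivity) (h12.trans h10)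

theorem z_compare {t T b β₁ a z τ : ℝ} (ht : 0 ≤ t) (htT : t ≤ T) (hβ₁ : 0 < β₁) (hb1 : β₁ ≤ b)
    (ha : 0 < a) (hz1 : 1 ≤ z) (hz2 : z ≤ 1 + 25 * τ) (hτ : 0 < τ) :
    t ^ 2 / (2 * b * a) - t ^ 2 / (2 * b * a * z) ≤ 25 * τ * T ^ 2 / (2 * β₁ * a) := by
  have hb : 0 < b := by linarith
  have hzpos : 0 < z := by linarith
  have e2 : t ^ 2 / (2 * b * a) - t ^ 2 / (2 * b * a * z) = t ^ 2 / (2 * b * a) * ((z - 1) / z) := by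
    field_simp
  rw [e2]
  have h5 : (z - 1) / z ≤ 25 * τ := by
    rw [div_le_iff₀ hzpos]
    have : 25 * τ * 1 ≤ 25 * τ * z := mul_le_mul_of_nonneg_left hz1 (by positivity)
    linarith
  have h6 : t ^ 2 / (2 * b * a) ≤ T ^ 2 / (2 * β₁ * a) := by gcongr
  have h7 : 0 ≤ (z - 1) / z := div_nonneg (by linarith) hzpos.le
  calc t ^ 2 / (2 * b * a) * ((z - 1) / z) ≤ T ^ 2 / (2 * β₁ * a) * (25 * τ) := by gcongr
    _ = _ := by ring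

theorem final_arith {S Sm e₁ Λ β₁ β₂ B K T a τ x ℓ LG : ℝ} (hS0 : 0 ≤ S) (hSm : S ≤ Sm)
    (hΛ : 0 < Λ) (hβ₁ : 0 < β₁) (hβ₂ : 0 < β₂) (hB : 0 ≤ B) (hK : 0 < K) (ha : 0 < a)
    (haK : a ≤ K) (hτ : 0 < τ) (hτ1 : τ ≤ 1 / 100) (hx : 0 < x) (hℓ : 0 < ℓ)
    (hw3 : (x / ℓ) ^ 3 ≤ 1 + 7 * τ)
    (he₁ : e₁ = Λ * (6 * τ * β₂ + 6 * τ * β₂ * B) + 25 * τ * T ^ 2 / (2 * β₁ * a))
    (hLG : LG / ℓ ^ 3 ≤ (T / β₁ + 6 * K) / a * τ) :
    (x ^ 3 * (S + e₁) + LG) / ℓ ^ 3 ≤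
      S + (7 * Sm * K + 12 * Λ * β₂ * (1 + B) * K + 25 * T ^ 2 / β₁ + T / β₁ + 6 * K) * τ / a := by
  have he₁0 : 0 ≤ e₁ := by rw [he₁]; positivity
  have hSm0 : 0 ≤ Sm := hS0.trans hSm
  rw [add_div]
  have h2 : x ^ 3 * (S + e₁) / ℓ ^ 3 ≤ S + 7 * τ * Sm + 2 * e₁ := by
    have e : x ^ 3 * (S + e₁) / ℓ ^ 3 = (x / ℓ) ^ 3 * (S + e₁) := by field_simp
    rw [e]
    have h3 : (x / ℓ) ^ 3 * (S + e₁) ≤ (1 + 7 * τ) * (S + e₁) :=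
      mul_le_mul_of_nonneg_right hw3 (by linarith)
    refine h3.trans ?_
    have h4 : 7 * τ * S ≤ 7 * τ * Sm := mul_le_mul_of_nonneg_left hSm (by positivity)
    have h5 : 7 * τ * e₁ ≤ 1 * e₁ := mul_le_mul_of_nonneg_right (by linarith) he₁0
    linarith
  have hKa : 1 ≤ K / a := by rw [le_div_iff₀ ha]; linarith
  have e2 : (7 * Sm * K + 12 * Λ * β₂ * (1 + B) * K + 25 * T ^ 2 / β₁ + T / β₁ + 6 * K) * τ / a =
      (7 * τ * Sm) * (K / a) + (12 * Λ * β₂ * (1 + B) * τ) * (K / a) + 25 * τ * T ^ 2 / (β₁ * a) +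
      (T / β₁ + 6 * K) / a * τ := by
    field_simp
    ring
  have e3 : 2 * e₁ = 12 * Λ * β₂ * (1 + B) * τ + 25 * τ * T ^ 2 / (β₁ * a) := by
    rw [he₁]; field_simp; ring
  rw [e2]
  have h5 : 7 * τ * Sm ≤ (7 * τ * Sm) * (K / a) := le_mul_of_one_le_right (by positivity) hKa
  have h6 : 12 * Λ * β₂ * (1 + B) * τ ≤ (12 * Λ * β₂ * (1 + B) * τ) * (K / a) :=
    le_mul_of_one_le_right (by positivity) hKa
  linarith

/-- the core estimate with all parameters given -/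
theorem kac_upper_core {r₀ B κ K β₁ β₂ H Λ T Sm : ℝ} (hr0 : 0 < r₀) (hr2 : r₀ ≤ 2) (hB : 0 ≤ B)
    (hK : 0 < K) (hκ : 4 * K ≤ κ) (hβ₁ : 0 < β₁) (hβ : β₁ ≤ β₂) (hT1 : 1 ≤ T) (hΛ0 : 0 < Λ)
    {v : ℝ → ℝ} {R' R a τ b b' h h' ℓ θ y z x c : ℝ} {q : ℕ} (hv : Pot r₀ B v)
    (hw : Pot r₀ B (fun r => v r - a * kac R r)) (hR : ∀ r, R' < r → v r = 0)
    (hattr : ∀ l : List Pt, Am v l ≤ E v l + B * l.length) (hbnd : Bnd B κ (press r₀ v))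
    (ha : 0 < a) (haK : a ≤ K) (hτ : 0 < τ) (hτ1 : τ ≤ 1 / 100) (hb1 : β₁ ≤ b) (hb2 : b ≤ β₂)
    (hRpos : 0 < R) (hℓ : 0 < ℓ) (hℓ1 : 1 ≤ ℓ) (hℓτ : 1 ≤ τ * ℓ) (hq0 : 0 < q)
    (hθ : θ = 3 * (R' / ℓ + 1 / (q : ℝ))) (hθ0 : 0 < θ)
    (hb' : b' = b / (1 + θ)) (hb'pos : 0 < b')
    (hb'β : β₁ / 2 ≤ b') (hb'le : b' ≤ b)
    (hh' : h' = h + b' * (θ * B)) (hdb : |b' - b| ≤ 6 * τ * β₂) (hdh : |h' - h| ≤ 6 * τ * β₂ * B)
    (hh : |h| ≤ H) (hH : 0 ≤ H)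
    (hh1 : |h'| ≤ H + 1 + β₂ * B) (hh2 : |h' + 1| ≤ H + 1 + β₂ * B)
    (hb106 : b ≤ b' * (106 / 100))
    (hx : x = ℓ + r₀) (hy : y = (R + 1 + 4 * ℓ) / R) (hy1 : 1 ≤ y)
    (hz1 : 1 ≤ z) (hz2 : z ≤ 1 + 25 * τ) (hw3 : (x / ℓ) ^ 3 ≤ 1 + 7 * τ)
    (hz : z = y ^ 3 * (x / ℓ) ^ 3) (hc : c = b * a * y ^ 3 / (2 * ℓ ^ 3))
    (hT : ∀ b h t : ℝ, β₁ / 2 ≤ b → b ≤ β₂ → |h| ≤ H + 1 + β₂ * B → T ≤ |t| →
      press r₀ v b (h + t) ≤ t ^ 2 / (5 * b * K))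
    (hΛ : ∀ b b' h h' : ℝ, β₁ / 2 ≤ b → b ≤ β₂ → β₁ / 2 ≤ b' → b' ≤ β₂ →
      |h| ≤ H + 1 + β₂ * B + T → |h'| ≤ H + 1 + β₂ * B + T →
        press r₀ v b' h' ≤ press r₀ v b h + Λ * (|b' - b| + |h' - h|))
    (hSm : supConv a (press r₀ v) b h ≤ Sm) :
    press r₀ (fun r => v r - a * kac R r) b h ≤ supConv a (press r₀ v) b h +
      (7 * Sm * K + 12 * Λ * β₂ * (1 + B) * K + 25 * T ^ 2 / β₁ + T / β₁ + 6 * K) * τ / a := by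
  have hb : 0 < b := by linarith
  have hβ₂ : 0 < β₂ := by linarith
  have hxpos : 0 < x := by linarith
  have hypos : 0 < y := by linarith
  have hzpos : 0 < z := by linarith
  have hcpos : 0 < c := by rw [hc]; positivity
  have hcz : 4 * c * x ^ 3 = 2 * b * a * z := by
    rw [hc, hz]; field_simp; ring
  have hS0 : 0 ≤ supConv a (press r₀ v) b h := supConv_nonneg hbnd hB hK hκ ha haK hb
  have hsup : ∀ t, press r₀ v b (h + t) - t ^ 2 / (2 * b * a) ≤ supConv a (press r₀ v) b h :=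
    fun t => Crest.Agent.H13Lip.le_supConv hbnd hB hK hκ ha haK hb t
  have hkey : 2 * b * a * z ≤ 5 * b' * K := by
    have h2 : z ≤ 125 / 100 := by linarith
    calc 2 * b * a * z ≤ 2 * (b' * (106 / 100)) * K * (125 / 100) := by gcongr
      _ = (265 / 100) * (b' * K) := by ring
      _ ≤ 5 * (b' * K) := by
          have : 0 < b' * K := mul_pos hb'pos hK
          linarith
      _ = 5 * b' * K := by ring
  have htail : ∀ (k t : ℝ), |k| ≤ H + 1 + β₂ * B → T ≤ t →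
      press r₀ v b' (k + t) ≤ t ^ 2 / (2 * b * a * z) := by
    intro k t hk ht
    have h1 := hT b' k t hb'β (by linarith) hk (ht.trans (le_abs_self t))
    refine h1.trans ?_
    exact div_le_div_of_nonneg_left (sq_nonneg t) (by positivity) hkey
  have hsplit : ∀ (u t : ℝ), x ^ 3 * u - t ^ 2 / (4 * c) = x ^ 3 * (u - t ^ 2 / (2 * b * a * z)) := by
    intro u t
    rw [← hcz]
    field_simp
  obtain ⟨e₁, he₁⟩ : ∃ e₁ : ℝ, e₁ = Λ * (6 * τ * β₂ + 6 * τ * β₂ * B) + 25 * τ * T ^ 2 / (2 * β₁ * a) :=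
    ⟨_, rfl⟩
  have he₁0 : 0 ≤ e₁ := by rw [he₁]; positivity
  have hA0 : 0 ≤ x ^ 3 * (supConv a (press r₀ v) b h + e₁) :=
    mul_nonneg (by positivity) (by linarith)
  have hG := G_Fq_le_of_g hv (ℓ := ℓ) (b := b') (h := h') (c := c)
    (A := x ^ 3 * (supConv a (press r₀ v) b h + e₁)) (T := T)
    hℓ hb'pos.le hA0 hcpos (by linarith) ?_ ?_
  · have hlog0 : 0 ≤ Real.log (T / (2 * c) + 3) := by
      apply Real.log_nonneg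
      have : 0 ≤ T / (2 * c) := by positivity
      linarith
    rw [hh', hb'] at hG
    have h1 := press_le_of_G (r₀ := r₀) (B := B) hw hv.meas hℓ hq0 hR hattr (b := b) (h := h) (c := c)
      (A := x ^ 3 * (supConv a (press r₀ v) b h + e₁) + Real.log (T / (2 * c) + 3)) hθ hθ0.le hb
      (fun α l => energy_ineq hℓ hRpos ha hb hy hc α l) (add_nonneg hA0 hlog0) hG
    refine h1.trans ?_
    exact final_arith hS0 hSm hΛ0 hβ₁ hβ₂ hB hK ha haK hτ hτ1 hxpos hℓ hw3 he₁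
      (log_bound (by linarith) hβ₁ hb1 ha haK hy1 hℓ1 hℓτ hτ hc)
  · intro t ht
    rw [← hx, hsplit]
    refine mul_le_mul_of_nonneg_left ?_ (by positivity)
    rcases le_total T t with h1 | h1
    · have h2 := htail h' t hh1 h1
      linarith
    · have habs : |t| ≤ T := by rw [abs_of_nonneg ht]; exact h1
      have hβB : 0 ≤ β₂ * B := by positivity
      have h2 := hΛ b b' (h + t) (h' + t) (by linarith) hb2 hb'β (by linarith)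
        ((abs_add_le _ _).trans (by linarith)) ((abs_add_le _ _).trans (by linarith))
      have e : (h' + t) - (h + t) = h' - h := by ring
      rw [e] at h2
      have h3 := hsup t
      have h4 := z_compare ht h1 hβ₁ hb1 ha hz1 hz2 hτ
      have h5 : Λ * (|b' - b| + |h' - h|) ≤ Λ * (6 * τ * β₂ + 6 * τ * β₂ * B) := by gcongr
      linarith
  · intro t ht
    rw [← hx, hsplit]
    have h2 := htail (h' + 1) t hh2 ht
    have h3 : 0 ≤ x ^ 3 := by positivity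
    exact mul_nonpos_of_nonneg_of_nonpos h3 (by linarith)

theorem kac_upper {r₀ B κ K β₁ β₂ H : ℝ} (hr0 : 0 < r₀) (hr2 : r₀ ≤ 2) (hB : 0 ≤ B) (hK : 0 < K)
    (hκ : 4 * K ≤ κ) (hβ₁ : 0 < β₁) (hβ : β₁ ≤ β₂) (hH : 0 ≤ H) :
    ∃ C : ℝ, 0 < C ∧ ∀ (v : ℝ → ℝ) (R' R a τ : ℝ), Pot r₀ B v →
      Pot r₀ B (fun r => v r - a * kac R r) → (∀ r, R' < r → v r = 0) →
      (∀ l : List Pt, Am v l ≤ E v l + B * l.length) → Bnd B κ (press r₀ v) → 1 ≤ R' → 0 < a →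
      a ≤ K → 0 < τ → τ ≤ 1 / 100 → R' = τ ^ 2 * R → ∀ b h : ℝ, β₁ ≤ b → b ≤ β₂ → |h| ≤ H →
        press r₀ (fun r => v r - a * kac R r) b h ≤ supConv a (press r₀ v) b h + C * τ / a := by
  have hβ₂ : 0 < β₂ := by linarith
  have hκ0 : 0 < κ := by linarith
  have hH₁0 : 0 < H + 1 + β₂ * B := by positivity
  obtain ⟨T, hT1, hT⟩ := quad (β₁ := β₁ / 2) (β₂ := β₂) (H := H + 1 + β₂ * B) hB hK hκ (by positivity)
    (by linarith) hH₁0.le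
  obtain ⟨Λ, hΛ0, hΛ⟩ := lip (β₁ := β₁ / 2) (β₂ := β₂) (H := H + 1 + β₂ * B + T) hB hκ0 (by positivity)
    (by linarith) (by linarith)
  obtain ⟨Sm, hSm0, hSm⟩ := supConv_le hB hK hκ hβ₁ hβ hH
  refine ⟨7 * Sm * K + 12 * Λ * β₂ * (1 + B) * K + 25 * T ^ 2 / β₁ + T / β₁ + 6 * K, by positivity, ?_⟩
  intro v R' R a τ hv hw hR hattr hbnd hR' ha haK hτ hτ1 hRR b h hb1 hb2 hh
  have hRpos : 0 < R := by
    by_contra hcon
    push Not at hcon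
    have : τ ^ 2 * R ≤ 0 := mul_nonpos_of_nonneg_of_nonpos (by positivity) hcon
    linarith
  obtain ⟨ℓ, hℓdef⟩ : ∃ ℓ : ℝ, ℓ = τ * R := ⟨_, rfl⟩
  have hℓ : 0 < ℓ := by rw [hℓdef]; positivity
  have hR'ℓ : R' = τ * ℓ := by rw [hRR, hℓdef]; ring
  have hℓτ : 1 ≤ τ * ℓ := by rw [← hR'ℓ]; exact hR'
  have hℓ1 : 1 ≤ ℓ := by
    have : τ * ℓ ≤ 1 * ℓ := mul_le_mul_of_nonneg_right (by linarith) hℓ.le
    linarith
  have hdR : R' / ℓ = τ := by rw [hR'ℓ]; field_simp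
  have hq0 : 0 < ⌈1 / τ⌉₊ := Nat.ceil_pos.2 (by positivity)
  have hqR : (0 : ℝ) < (⌈1 / τ⌉₊ : ℕ) := by exact_mod_cast hq0
  have hqτ : 1 / ((⌈1 / τ⌉₊ : ℕ) : ℝ) ≤ τ := by
    rw [div_le_iff₀ hqR]
    have := Nat.le_ceil (1 / τ)
    rw [div_le_iff₀ hτ] at this
    linarith
  obtain ⟨θ, hθ⟩ : ∃ θ : ℝ, θ = 3 * (R' / ℓ + 1 / ((⌈1 / τ⌉₊ : ℕ) : ℝ)) := ⟨_, rfl⟩
  have hθ0 : 0 < θ := by rw [hθ, hdR]; positivity
  have hθ6 : θ ≤ 6 * τ := by rw [hθ, hdR]; linarith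
  have h1θ : 0 < 1 + θ := by linarith
  have hbb' : b / (1 + θ) * (1 + θ) = b := by field_simp
  obtain ⟨hb'pos, hb'le, hb'β, hdb, hbθ, hb106⟩ := b_bounds hb1 hb2 hβ₁ hθ0 hθ6 hτ1 hbb'
  obtain ⟨hdh, hh1, hh2⟩ := h_bounds hh hB hb'pos hθ0 hbθ hτ1 hβ₂
  have hy1 : 1 ≤ (R + 1 + 4 * ℓ) / R := by
    rw [le_div_iff₀ hRpos]; linarith
  have hy2 : (R + 1 + 4 * ℓ) / R ≤ 1 + 5 * τ := by
    rw [div_le_iff₀ hRpos, hℓdef]
    have : 1 ≤ τ * R := by rw [← hℓdef]; exact hℓ1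
    linarith
  have hw1 : 1 ≤ (ℓ + r₀) / ℓ := by
    rw [le_div_iff₀ hℓ]; linarith
  have hw2 : (ℓ + r₀) / ℓ ≤ 1 + 2 * τ := by
    rw [div_le_iff₀ hℓ]
    linarith
  obtain ⟨hz1, hz2, hw3⟩ := cube_bounds hτ hτ1 hy1 hy2 hw1 hw2
  exact kac_upper_core (H := H) (κ := κ) hr0 hr2 hB hK hκ hβ₁ hβ hT1 hΛ0 hv hw hR hattr hbnd ha haK hτ hτ1 hb1
    hb2 hRpos hℓ hℓ1 hℓτ hq0 hθ hθ0 rfl hb'pos hb'β hb'le rfl hdb hdh hh hH hh1 hh2 hb106 rfl rfl hy1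
    hz1 hz2 hw3 rfl rfl (fun b h t => hT _ hbnd b h t) (fun b b' h h' => hΛ _ hbnd b b' h h')
    (hSm _ hbnd a b h ha haK hb1 hb2 hh)

end Crest.Agent.H13KacUp
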