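import Mathlib
import Crest.Agent.H13Canon
import Crest.Agent.H13AbsSpec

/-!
From three non-collinear subgradients of the grand pressure to the jump of the derivative of the
canonical free energy.
-/

set_option autoImplicit false

open MeasureTheory Filter Topology
open scoped ENNReal

namespace Crest.Agent.H13Kink

open Crest.Agent.H13Conf Crest.Agent.H13Energy Crest.Agent.H13Basic Crest.Agent.H13Cube
open Crest.Agent.H19Pair Crest.Agent.H13Super Crest.Agent.H13Press Crest.Agent.H13Canon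
open Crest.Agent.H13AbsSpec

theorem Sub.combo {g : ℝ → ℝ → ℝ} {b h e r e' r' : ℝ} (h1 : Sub g b h e r) (h2 : Sub g b h e' r')
    {p q : ℝ} (hp : 0 ≤ p) (hq : 0 ≤ q) (hpq : p + q = 1) :
    Sub g b h (p * e + q * e') (p * r + q * r') := by
  intro b' h' hb'
  have a1 := mul_le_mul_of_nonneg_left (h1 b' h' hb') hp
  have a2 := mul_le_mul_of_nonneg_left (h2 b' h' hb') hq
  have e1 : g b h = p * g b h + q * g b h := by rw [← add_mul, hpq, one_mul]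
  have e2 : g b' h' = p * g b' h' + q * g b' h' := by rw [← add_mul, hpq, one_mul]
  rw [e1, e2]
  nlinarith

/-- a subgradient of the grand pressure gives a subgradient of the canonical pressure -/
theorem Pc_sub {r₀ B : ℝ} {v : ℝ → ℝ} (hv : Pot r₀ B v) {bc hc e ρ : ℝ} (hbc : 0 < bc)
    (hρ : 0 < ρ) (hS : Sub (press r₀ v) bc hc e ρ) {b : ℝ} (hb : 0 < b) :
    Pc r₀ v bc ρ + e * (b - bc) ≤ Pc r₀ v b ρ := by
  obtain ⟨h, hh⟩ := exists_press_eq hv hb.le hρ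
  have h1 := hS b h hb
  have h2 := Pc_le_press hv hbc.le hρ hc
  nlinarith

theorem kink_of_subs {r₀ B : ℝ} {v : ℝ → ℝ} (hv : Pot r₀ B v) {bc hc s₀ s₁ s₂ e₀ e₁ e₂ : ℝ}
    (hbc : 0 < bc) (h01 : s₀ < s₁) (h12 : s₁ < s₂) (S0 : Sub (press r₀ v) bc hc e₀ s₀)
    (S1 : Sub (press r₀ v) bc hc e₁ s₁) (S2 : Sub (press r₀ v) bc hc e₂ s₂)
    (hst : (s₂ - s₀) * e₁ < (s₂ - s₁) * e₀ + (s₁ - s₀) * e₂) {ρ : ℝ} (hρ : 0 < ρ)
    (hρ0 : s₀ < ρ) (hρ2 : ρ < s₂) :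
    ∃ elo ehi : ℝ, elo < ehi ∧ ∀ b : ℝ, 0 < b →
      Pc r₀ v bc ρ + elo * (b - bc) ≤ Pc r₀ v b ρ ∧
      Pc r₀ v bc ρ + ehi * (b - bc) ≤ Pc r₀ v b ρ := by
  have h02 : s₀ < s₂ := h01.trans h12
  have d02 : 0 < s₂ - s₀ := by linarith
  -- upper chord
  have hi : Sub (press r₀ v) bc hc ((s₂ - ρ) / (s₂ - s₀) * e₀ + (ρ - s₀) / (s₂ - s₀) * e₂) ρ := by
    have := Sub.combo S0 S2 (p := (s₂ - ρ) / (s₂ - s₀)) (q := (ρ - s₀) / (s₂ - s₀))
      (div_nonneg (by linarith) d02.le) (div_nonneg (by linarith) d02.le) (by field_simp; ring)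
    have e : (s₂ - ρ) / (s₂ - s₀) * s₀ + (ρ - s₀) / (s₂ - s₀) * s₂ = ρ := by field_simp; ring
    rwa [e] at this
  rcases le_total ρ s₁ with hc1 | hc1
  · have d01 : 0 < s₁ - s₀ := by linarith
    have lo : Sub (press r₀ v) bc hc ((s₁ - ρ) / (s₁ - s₀) * e₀ + (ρ - s₀) / (s₁ - s₀) * e₁) ρ := by
      have := Sub.combo S0 S1 (p := (s₁ - ρ) / (s₁ - s₀)) (q := (ρ - s₀) / (s₁ - s₀))
        (div_nonneg (by linarith) d01.le) (div_nonneg (by linarith) d01.le) (by field_simp; ring)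
      have e : (s₁ - ρ) / (s₁ - s₀) * s₀ + (ρ - s₀) / (s₁ - s₀) * s₁ = ρ := by field_simp; ring
      rwa [e] at this
    refine ⟨_, _, ?_, fun b hb => ⟨Pc_sub hv hbc hρ lo hb, Pc_sub hv hbc hρ hi hb⟩⟩
    have e : ((s₂ - ρ) / (s₂ - s₀) * e₀ + (ρ - s₀) / (s₂ - s₀) * e₂) -
        ((s₁ - ρ) / (s₁ - s₀) * e₀ + (ρ - s₀) / (s₁ - s₀) * e₁) =
        (ρ - s₀) * ((s₂ - s₁) * e₀ + (s₁ - s₀) * e₂ - (s₂ - s₀) * e₁) / ((s₂ - s₀) * (s₁ - s₀)) := by
      field_simp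
      ring
    have : 0 < (ρ - s₀) * ((s₂ - s₁) * e₀ + (s₁ - s₀) * e₂ - (s₂ - s₀) * e₁) / ((s₂ - s₀) * (s₁ - s₀)) := by
      apply div_pos
      · exact mul_pos (by linarith) (by linarith)
      · exact mul_pos d02 d01
    linarith
  · have d12 : 0 < s₂ - s₁ := by linarith
    have lo : Sub (press r₀ v) bc hc ((s₂ - ρ) / (s₂ - s₁) * e₁ + (ρ - s₁) / (s₂ - s₁) * e₂) ρ := by
      have := Sub.combo S1 S2 (p := (s₂ - ρ) / (s₂ - s₁)) (q := (ρ - s₁) / (s₂ - s₁))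
        (div_nonneg (by linarith) d12.le) (div_nonneg (by linarith) d12.le) (by field_simp; ring)
      have e : (s₂ - ρ) / (s₂ - s₁) * s₁ + (ρ - s₁) / (s₂ - s₁) * s₂ = ρ := by field_simp; ring
      rwa [e] at this
    refine ⟨_, _, ?_, fun b hb => ⟨Pc_sub hv hbc hρ lo hb, Pc_sub hv hbc hρ hi hb⟩⟩
    have e : ((s₂ - ρ) / (s₂ - s₀) * e₀ + (ρ - s₀) / (s₂ - s₀) * e₂) -
        ((s₂ - ρ) / (s₂ - s₁) * e₁ + (ρ - s₁) / (s₂ - s₁) * e₂) =
        (s₂ - ρ) * ((s₂ - s₁) * e₀ + (s₁ - s₀) * e₂ - (s₂ - s₀) * e₁) / ((s₂ - s₀) * (s₂ - s₁)) := by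
      field_simp
      ring
    have : 0 < (s₂ - ρ) * ((s₂ - s₁) * e₀ + (s₁ - s₀) * e₂ - (s₂ - s₀) * e₁) / ((s₂ - s₀) * (s₂ - s₁)) := by
      apply div_pos
      · exact mul_pos (by linarith) (by linarith)
      · exact mul_pos d02 d12
    linarith

/-- convex functions with two subgradients have a derivative jump -/
theorem jump_of_two_subs {P : ℝ → ℝ} (hP : ConvexOn ℝ (Set.Ioi 0) P) {bc : ℝ} (hbc : 0 < bc)
    {elo ehi : ℝ} (hlt : elo < ehi)
    (hlo : ∀ b : ℝ, 0 < b → P bc + elo * (b - bc) ≤ P b)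
    (hhi : ∀ b : ℝ, 0 < b → P bc + ehi * (b - bc) ≤ P b) :
    ∃ Dl Dr : ℝ, HasDerivWithinAt P Dl (Set.Iio bc) bc ∧ HasDerivWithinAt P Dr (Set.Ioi bc) bc ∧
      Dl < Dr := by
  have hint : bc ∈ interior (Set.Ioi (0 : ℝ)) := by simpa using hbc
  refine ⟨_, _, hP.hasDerivWithinAt_leftDeriv_of_mem_interior hint,
    hP.hasDerivWithinAt_rightDeriv_of_mem_interior hint, ?_⟩
  have h1 : ehi ≤ derivWithin P (Set.Ioi bc) bc := by
    have hd := hP.hasDerivWithinAt_rightDeriv_of_mem_interior hint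
    rw [hasDerivWithinAt_iff_tendsto_slope] at hd
    have hs : (Set.Ioi bc) \ {bc} = Set.Ioi bc := by
      ext x; simp
    rw [hs] at hd
    refine ge_of_tendsto hd ?_
    filter_upwards [self_mem_nhdsWithin] with b hb
    have hb' : bc < b := hb
    rw [slope_def_field, le_div_iff₀ (by linarith)]
    have := hhi b (by linarith)
    linarith
  have h2 : derivWithin P (Set.Iio bc) bc ≤ elo := by
    have hd := hP.hasDerivWithinAt_leftDeriv_of_mem_interior hint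
    rw [hasDerivWithinAt_iff_tendsto_slope] at hd
    have hs : (Set.Iio bc) \ {bc} = Set.Iio bc := by
      ext x; simp
    rw [hs] at hd
    refine le_of_tendsto hd ?_
    have hev : ∀ᶠ b in 𝓝[<] bc, 0 < b := by
      have : Set.Ioi (0 : ℝ) ∈ 𝓝 bc := Ioi_mem_nhds hbc
      exact mem_nhdsWithin_of_mem_nhds this
    filter_upwards [self_mem_nhdsWithin, hev] with b hb hb0
    have hb' : b < bc := hb
    rw [slope_def_field, div_le_iff_of_neg (by linarith)]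
    have := hlo b hb0
    linarith
  linarith

/-- the free energy jump at `β = 1` for the rescaled potential `bc * v` -/
theorem free_energy_jump {r₀ B : ℝ} {v : ℝ → ℝ} (hv : Pot r₀ B v) {bc hc s₀ s₁ s₂ e₀ e₁ e₂ : ℝ}
    (hbc : 0 < bc) (h01 : s₀ < s₁) (h12 : s₁ < s₂) (S0 : Sub (press r₀ v) bc hc e₀ s₀)
    (S1 : Sub (press r₀ v) bc hc e₁ s₁) (S2 : Sub (press r₀ v) bc hc e₂ s₂)
    (hst : (s₂ - s₀) * e₁ < (s₂ - s₁) * e₀ + (s₁ - s₀) * e₂) {ρ : ℝ} (hρ : 0 < ρ)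
    (hρ0 : s₀ < ρ) (hρ2 : ρ < s₂) :
    ∃ Dl Dr : ℝ, HasDerivWithinAt (fun β => -(Pc r₀ v (bc * β) ρ / β)) Dl (Set.Iio 1) 1 ∧
      HasDerivWithinAt (fun β => -(Pc r₀ v (bc * β) ρ / β)) Dr (Set.Ioi 1) 1 ∧ Dr < Dl := by
  obtain ⟨elo, ehi, hlt, hsub⟩ := kink_of_subs hv hbc h01 h12 S0 S1 S2 hst hρ hρ0 hρ2
  obtain ⟨Dl, Dr, hl, hr, hD⟩ := jump_of_two_subs (Pc_convex hv hρ) hbc hlt
    (fun b hb => (hsub b hb).1) (fun b hb => (hsub b hb).2)
  have key : ∀ (D : ℝ) (s t : Set ℝ), HasDerivWithinAt (fun b => Pc r₀ v b ρ) D t bc →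
      Set.MapsTo (fun β : ℝ => bc * β) s t →
      HasDerivWithinAt (fun β => -(Pc r₀ v (bc * β) ρ / β)) (-((D * bc) * 1 - Pc r₀ v bc ρ * 1) / 1 ^ 2) s 1 := by
    intro D s t hD hmap
    have h1 : HasDerivWithinAt (fun β : ℝ => bc * β) bc s 1 := by
      simpa using ((hasDerivWithinAt_id (1 : ℝ) s).const_mul bc)
    have h2 : HasDerivWithinAt (fun β : ℝ => Pc r₀ v (bc * β) ρ) (D * bc) s 1 := by
      have := HasDerivWithinAt.comp (h₂ := fun b => Pc r₀ v b ρ) (h := fun β : ℝ => bc * β) (s := s)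
        (s' := t) (1 : ℝ) (by simpa using hD) h1 hmap
      exact this
    have h3 := (h2.div (hasDerivWithinAt_id (1 : ℝ) s) one_ne_zero).neg
    have e : -((D * bc) * 1 - Pc r₀ v bc ρ * 1) / 1 ^ 2 =
        -(((D * bc) * id 1 - Pc r₀ v (bc * 1) ρ * 1) / id 1 ^ 2) := by simp
    rw [e]
    exact h3
  refine ⟨_, _, key Dl (Set.Iio 1) (Set.Iio bc) hl ?_, key Dr (Set.Ioi 1) (Set.Ioi bc) hr ?_, ?_⟩
  · intro β hβ
    have hβ' : β < 1 := hβ
    show bc * β < bc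
    nlinarith
  · intro β hβ
    have hβ' : 1 < β := hβ
    show bc < bc * β
    nlinarith
  · simp only [mul_one, one_pow, div_one]
    have := mul_lt_mul_of_pos_right hD hbc
    linarith

/-- temperature rescaling -/
theorem energy_const_mul (c : ℝ) (φ : ℝ → ℝ) {N : ℕ} (x : Fin N → Pt) :
    Crest.ProbabilityR.Continuum.energy (fun r => c * φ r) x =
      c * Crest.ProbabilityR.Continuum.energy φ x := by
  unfold Crest.ProbabilityR.Continuum.energy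
  rw [Finset.mul_sum]

theorem partitionFn_const_mul (c : ℝ) (φ : ℝ → ℝ) (L : ℝ) (N : ℕ) (β : ℝ) :
    Crest.ProbabilityR.Continuum.partitionFn (fun r => c * φ r) L N β =
      Crest.ProbabilityR.Continuum.partitionFn φ L N (c * β) := by
  unfold Crest.ProbabilityR.Continuum.partitionFn
  simp_rw [energy_const_mul]
  congr 2
  funext x
  congr 1
  ring

/-- existence of the free energy -/
theorem tendsto_free_energy {r₀ B : ℝ} {v : ℝ → ℝ} (hv : Pot r₀ B v) {c : ℝ} (hc : 0 < c) {ρ : ℝ}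
    (hρ : 0 < ρ) {β : ℝ} (hβ : 0 < β) :
    Tendsto (fun L : ℝ => -(1 / (β * L ^ 3)) *
      Real.log (Crest.ProbabilityR.Continuum.partitionFn (fun r => c * v r) L ⌊ρ * L ^ 3⌋₊ β))
      atTop (𝓝 (-(Pc r₀ v (c * β) ρ / β))) := by
  have h1 := ((tendsto_gd hv (b := c * β) (by positivity) hρ).div_const β).neg
  refine h1.congr fun L => ?_
  rw [partitionFn_const_mul, partitionFn_eq hv.meas]
  unfold gd lz
  field_simp

end Crest.Agent.H13Kink
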