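import Crest.Agent.H18PrSpec
set_option autoImplicit false

/-! Sub-specification of the scalar part `BS`. -/

namespace Crest.Agent.H18Pr
noncomputable section
namespace Spec

/-- common hypotheses of the scalar part -/
structure Sq {m : ℕ} (q : Fin (m + 5) → ℝ) : Prop where
  nn : ∀ i, 0 ≤ q i
  srt : ∀ i j, i ≤ j → q j ≤ q i
  tot : ∑ i, q i = 16
  top : q 0 ≤ 8

/-- case A -/
def BSA : Prop := ∀ (m : ℕ) (q : Fin (m + 5) → ℝ), Sq q → 1 ≤ q 4 →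
  3 * Real.pi / 2 * 0.79 + (T4 0.79 (q 0) ((∑ i : Fin m, q (t5 i)) / 25)
      + T4 0.79 (q 1) ((∑ i : Fin m, q (t5 i)) / 25) + T4 0.79 (q 2) ((∑ i : Fin m, q (t5 i)) / 25)
      + T4 0.79 (q 3) ((∑ i : Fin m, q (t5 i)) / 25) + T4 0.79 (q 4) ((∑ i : Fin m, q (t5 i)) / 25))
      + ∑ i : Fin m, E4 0.79 (q (t5 i)) ≤ 6

/-- case D1 -/
def BSD1 : Prop := ∀ (m : ℕ) (q : Fin (m + 5) → ℝ), Sq q → q 4 ≤ 1 → 16 / 9 ≤ q 3 →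
  4 * 1 + (T3 1 (q 0) ((∑ i : Fin (m + 1), q (t4 i)) / 16)
      + T3 1 (q 1) ((∑ i : Fin (m + 1), q (t4 i)) / 16)
      + T3 1 (q 2) ((∑ i : Fin (m + 1), q (t4 i)) / 16)
      + T3 1 (q 3) ((∑ i : Fin (m + 1), q (t4 i)) / 16))
      + ∑ i : Fin (m + 1), E3 1 (q (t4 i)) ≤ 6

/-- case C -/
def BSC : Prop := ∀ (m : ℕ) (q : Fin (m + 5) → ℝ), Sq q → q 4 ≤ 1 → q 3 ≤ 16 / 9 →
  2.4 ≤ ∑ i : Fin (m + 1), q (t4 i) →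
  3 * Real.pi / 2 * 0.77 + (T4 0.77 (q 0) 0 + T4 0.77 (q 1) 0 + T4 0.77 (q 2) 0 + T4 0.77 (q 3) 0)
      + ∑ i : Fin (m + 1), E4 0.77 (q (t4 i)) ≤ 6

/-- all the cases D2, D2b, D3, D5 (three-dimensional majorant) -/
def BSD : Prop := ∀ (m : ℕ) (q : Fin (m + 5) → ℝ), Sq q → q 4 ≤ 1 → q 3 ≤ 16 / 9 →
  ∑ i : Fin (m + 1), q (t4 i) ≤ 2.4 → 2.09 ≤ 16 - q 0 - q 1 →
  (0.3 * q 2 ≤ q 3 ∨ 0.5 * q 2 ≤ 16 - q 0 - q 1 - q 2) →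
  ∃ β : ℝ, 0 < β ∧ 4 * β + (T3 β (q 0) ((∑ i : Fin (m + 1), q (t4 i)) / 16)
      + T3 β (q 1) ((∑ i : Fin (m + 1), q (t4 i)) / 16)
      + T3 β (q 2) ((∑ i : Fin (m + 1), q (t4 i)) / 16)
      + T3 β (q 3) ((∑ i : Fin (m + 1), q (t4 i)) / 16))
      + ∑ i : Fin (m + 1), E3 β (q (t4 i)) ≤ 6

/-- Assembly -/
theorem bs_of (hA : BSA) (hD1 : BSD1) (hC : BSC) (hD : BSD) : BS := by
  intro m q hnn hs ht h8 h2 h3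
  have hq : Sq q := ⟨hnn, hs, ht, h8⟩
  rcases le_total 1 (q 4) with h | h
  · exact Or.inr (Or.inr ⟨0.79, by norm_num, hA m q hq h⟩)
  rcases le_total (16 / 9) (q 3) with h' | h'
  · exact Or.inl ⟨1, by norm_num, hD1 m q hq h h'⟩
  rcases le_total 2.4 (∑ i : Fin (m + 1), q (t4 i)) with h'' | h''
  · exact Or.inr (Or.inl ⟨0.77, by norm_num, hC m q hq h h' h''⟩)
  · exact Or.inl (hD m q hq h h' h'' h2 h3)

end Spec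
end
end Crest.Agent.H18Pr
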