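import Mathlib
set_option autoImplicit false
open MeasureTheory ProbabilityTheory
open scoped InnerProductSpace

/-! Specification of the modules for S0334 (propeller problem in all dimensions). -/

namespace Crest.Agent.H18Pr
noncomputable section

abbrev Eu (N : ℕ) := EuclideanSpace ℝ (Fin N)

/-- `√(2π)` times the Gaussian expectation. -/
def ex {N : ℕ} (f : Eu N → ℝ) : ℝ := √(2 * Real.pi) * ∫ x, f x ∂(stdGaussian (Eu N))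

/-- maximum of the linear functionals `⟪y i, ·⟫`. -/
def mx {N : ℕ} {ι : Type} [Fintype ι] [Nonempty ι] (y : ι → Eu N) (x : Eu N) : ℝ :=
  Finset.univ.sup' Finset.univ_nonempty (fun i => ⟪y i, x⟫_ℝ)

/-- norm of the projection to the span of the orthonormal family `e`. -/
def nrm {N n : ℕ} (e : Fin n → Eu N) (x : Eu N) : ℝ := √(∑ i, ⟪e i, x⟫_ℝ ^ 2)

/-- semi-major axis of the confocal ellipse; `q = |y|²`, `w = τ²`. -/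
def sg (β q w : ℝ) : ℝ := √((β ^ 2 + q + √((q - β ^ 2) ^ 2 + 4 * β ^ 2 * w)) / 2)

def K3 (β s : ℝ) : ℝ := (s - β) ^ 2 / s
def K4 (β s : ℝ) : ℝ :=
  s - 2.35 * β + 1.5 * β ^ 2 / s - 0.125 * β ^ 4 / s ^ 3 - 0.025 * β ^ 6 / s ^ 5

def T3 (β q w : ℝ) : ℝ := K3 β (sg β q w)
def T4 (β q w : ℝ) : ℝ := K4 β (sg β q w)
def E3 (β q : ℝ) : ℝ := K3 β √(β ^ 2 + q)
def E4 (β q : ℝ) : ℝ := K4 β √(β ^ 2 + q)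

/-- Gram determinant of three vectors -/
def gram3 {N : ℕ} (a b c : Eu N) : ℝ :=
  ‖a‖ ^ 2 * ‖b‖ ^ 2 * ‖c‖ ^ 2 + 2 * ⟪a, b⟫_ℝ * ⟪b, c⟫_ℝ * ⟪a, c⟫_ℝ
    - ‖a‖ ^ 2 * ⟪b, c⟫_ℝ ^ 2 - ‖b‖ ^ 2 * ⟪a, c⟫_ℝ ^ 2 - ‖c‖ ^ 2 * ⟪a, b⟫_ℝ ^ 2

/-- `i ↦ i + 4` -/
def t4 {m : ℕ} (i : Fin (m + 1)) : Fin (m + 5) := ⟨i.val + 4, by omega⟩
/-- `i ↦ i + 5` -/
def t5 {m : ℕ} (i : Fin m) : Fin (m + 5) := ⟨i.val + 5, by omega⟩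

/-- centred, pairwise obtuse, sorted by norm, normalised configuration -/
structure Cfg {N m : ℕ} (y : Fin (m + 5) → Eu N) : Prop where
  sum0 : ∑ i, y i = 0
  obt : ∀ i j, i ≠ j → ⟪y i, y j⟫_ℝ ≤ 0
  sorted : ∀ i j, i ≤ j → ‖y j‖ ≤ ‖y i‖
  tot : ∑ i, ‖y i‖ ^ 2 = 16

namespace Spec

/-! ### M0: Gaussian basics -/

/-- integrability of continuous functions of linear growth -/
def Int : Prop := ∀ (N : ℕ) (f : Eu N → ℝ) (C : ℝ), Continuous f → (∀ x, |f x| ≤ C * (1 + ‖x‖)) →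
  Integrable f (stdGaussian (Eu N))

/-- the joint law of `(⟪u i, ·⟫)` only depends on the Gram matrix -/
def Law : Prop := ∀ (N M : ℕ) (ι : Type) (_ : Fintype ι) (u : ι → Eu N) (v : ι → Eu M),
  (∀ i j, ⟪u i, u j⟫_ℝ = ⟪v i, v j⟫_ℝ) → ∀ F : (ι → ℝ) → ℝ, Continuous F →
    ∫ x, F (fun i => ⟪u i, x⟫_ℝ) ∂(stdGaussian (Eu N)) = ∫ x, F (fun i => ⟪v i, x⟫_ℝ) ∂(stdGaussian (Eu M))

/-- coordinates along an orthonormal family are iid standard Gaussians -/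
def Pi : Prop := ∀ (N : ℕ) (ι : Type) (_ : Fintype ι) (e : ι → Eu N), Orthonormal ℝ e →
  (stdGaussian (Eu N)).map (fun x i => ⟪e i, x⟫_ℝ) = Measure.pi (fun _ : ι => gaussianReal 0 1)

/-- first moments of linear functionals -/
def Lin : Prop := ∀ (N : ℕ) (a : Eu N),
  ex (fun x => ⟪a, x⟫_ℝ) = 0 ∧ ex (fun x => |⟪a, x⟫_ℝ|) = 2 * ‖a‖ ∧ ex (fun x => max 0 ⟪a, x⟫_ℝ) = ‖a‖

/-! ### M2: the Gaussian lemma -/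

def GL3 : Prop := ∀ (N : ℕ) (e : Fin 3 → Eu N), Orthonormal ℝ e → ∀ (y : Eu N) (β w : ℝ), 0 < β →
  ‖y‖ ^ 2 - nrm e y ^ 2 ≤ w →
  ex (fun x => max 0 (⟪y, x⟫_ℝ - β * nrm e x)) ≤ K3 β (sg β (‖y‖ ^ 2) w)

def GL4 : Prop := ∀ (N : ℕ) (e : Fin 4 → Eu N), Orthonormal ℝ e → ∀ (y : Eu N) (β w : ℝ), 0 < β →
  ‖y‖ ^ 2 - nrm e y ^ 2 ≤ w →
  ex (fun x => max 0 (⟪y, x⟫_ℝ - β * nrm e x)) ≤ K4 β (sg β (‖y‖ ^ 2) w)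

/-- chi means -/
def C3 : Prop := ∀ (N : ℕ) (e : Fin 3 → Eu N), Orthonormal ℝ e → ex (nrm e) = 4
def C4 : Prop := ∀ (N : ℕ) (e : Fin 4 → Eu N), Orthonormal ℝ e → ex (nrm e) = 3 * Real.pi / 2

/-! ### M3: planar formulas -/

/-- expected maximum of three vectors = half perimeter (the vectors need not be centred) -/
def V3 : Prop := ∀ (N : ℕ) (a : Fin 3 → Eu N),
  ex (mx a) = (‖a 0 - a 1‖ + ‖a 1 - a 2‖ + ‖a 0 - a 2‖) / 2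

/-- gain of a vector over a segment -/
def Seg : Prop := ∀ (N : ℕ) (v b : Eu N),
  ex (fun x => max 0 (⟪v, x⟫_ℝ - |⟪b, x⟫_ℝ|)) ≤ √(‖b‖ ^ 2 + ‖v‖ ^ 2) - ‖b‖

/-! ### M4: near-planar lemma (bathtub) -/

/-- gain of a vector `v` over a centred triangle `a` -/
def NPR : Prop := ∀ (N : ℕ) (a : Fin 3 → Eu N) (v : Eu N) (ρ : ℝ), a 0 + a 1 + a 2 = 0 → 0 < ρ →
  81 * ρ ^ 4 * ‖v‖ ^ 2 ≤ 4 * Real.pi ^ 2 * gram3 (a 0) (a 1) v →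
  ex (fun x => max 0 (⟪v, x⟫_ℝ - mx a x)) ≤ ‖v‖ - ρ * Real.arctan (‖v‖ / ρ)

/-! ### M5: near-planar case -/

/-- polynomial inequality (altitudes of the triangle); `D = 4 Area²` -/
def HLem : Prop := ∀ x y z s1 s2 s3 D : ℝ, 0 ≤ x → 0 ≤ y → 0 ≤ z → 0 ≤ s1 → 0 ≤ s2 → 0 ≤ s3 →
  y + z + s3 ≤ x + y + s1 → y + z + s3 ≤ x + z + s2 → 2 * (s1 + s2 + s3) ≤ y + z + s3 →
  D = 9 * (x * y + y * z + z * x) + s1 * (x + y + 4 * z) + s2 * (x + 4 * y + z)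
      + s3 * (4 * x + y + z) + (s1 * s2 + s1 * s3 + s2 * s3) →
  3 / 2 * (y + z + s3) * (4 * x + y + z + s1 + s2) ≤ D ∧
  3 / 2 * (y + z + s3) * (x + 4 * y + z + s1 + s3) ≤ D ∧
  3 / 2 * (y + z + s3) * (x + y + 4 * z + s2 + s3) ≤ D ∧
  5.65 * (y + z + s3) ^ 2 ≤ D

/-- scalar inequality for triangles; `D = 4 Area²`, `ρ² = (4π/27) Area` -/
def N6 : Prop := ∀ l1 l2 l3 D ρ ξ : ℝ, 0 < l1 → 0 < l2 → 0 < l3 → 0 < D →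
  4 * D = 2 * (l1 ^ 2 * l2 ^ 2 + l2 ^ 2 * l3 ^ 2 + l3 ^ 2 * l1 ^ 2) - (l1 ^ 4 + l2 ^ 4 + l3 ^ 4) →
  0 < ρ → ρ ^ 2 = 2 * Real.pi / 27 * √D → 0 ≤ ξ → ξ ≤ 4 / 17 * ((l1 ^ 2 + l2 ^ 2 + l3 ^ 2) / 3) →
  ξ * l1 ^ 2 ≤ 4 / 9 * D → ξ * l2 ^ 2 ≤ 4 / 9 * D → ξ * l3 ^ 2 ≤ 4 / 9 * D →
  (l1 ^ 2 + l2 ^ 2 + l3 ^ 2) / 3 + ξ = 16 →
  (l1 + l2 + l3) / 2 + 4 / 3 * 0.236 * ξ / ρ ≤ 6

/-- bounds for the function `u - arctan u` -/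
def Arc : Prop := (∀ u : ℝ, 0 ≤ u → u ^ 2 ≤ 1.08 → u - Real.arctan u ≤ 0.2173 * u ^ 2) ∧
  (∀ u : ℝ, 0 ≤ u → u - Real.arctan u ≤ 0.2299 * u ^ 2)

def NP : Prop := ∀ (N m : ℕ) (y : Fin (m + 5) → Eu N), Cfg y → 0 < ‖y 2‖ →
  ‖y 3‖ ^ 2 ≤ 0.3 * ‖y 2‖ ^ 2 →
  16 - ‖y 0‖ ^ 2 - ‖y 1‖ ^ 2 - ‖y 2‖ ^ 2 ≤ 0.5 * ‖y 2‖ ^ 2 → ex (mx y) ≤ 6

/-! ### M7: two big vectors -/

def P1 : Prop := ∀ (N m : ℕ) (y : Fin (m + 5) → Eu N), Cfg y →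
  16 - ‖y 0‖ ^ 2 - ‖y 1‖ ^ 2 ≤ 2.09 → ex (mx y) ≤ 6

/-! ### M6: ball majorants -/

def B3b : Prop := ∀ (N m : ℕ) (y : Fin (m + 5) → Eu N), 8 ≤ N → Cfg y → ∀ β : ℝ, 0 < β →
  ex (mx y) ≤ 4 * β + (T3 β (‖y 0‖ ^ 2) ((∑ i : Fin (m + 1), ‖y (t4 i)‖ ^ 2) / 16)
    + T3 β (‖y 1‖ ^ 2) ((∑ i : Fin (m + 1), ‖y (t4 i)‖ ^ 2) / 16)
    + T3 β (‖y 2‖ ^ 2) ((∑ i : Fin (m + 1), ‖y (t4 i)‖ ^ 2) / 16)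
    + T3 β (‖y 3‖ ^ 2) ((∑ i : Fin (m + 1), ‖y (t4 i)‖ ^ 2) / 16))
    + ∑ i : Fin (m + 1), E3 β (‖y (t4 i)‖ ^ 2)

def B4a : Prop := ∀ (N m : ℕ) (y : Fin (m + 5) → Eu N), 8 ≤ N → Cfg y → ∀ β : ℝ, 0 < β →
  ex (mx y) ≤ 3 * Real.pi / 2 * β + (T4 β (‖y 0‖ ^ 2) 0 + T4 β (‖y 1‖ ^ 2) 0
    + T4 β (‖y 2‖ ^ 2) 0 + T4 β (‖y 3‖ ^ 2) 0)
    + ∑ i : Fin (m + 1), E4 β (‖y (t4 i)‖ ^ 2)

def B4b : Prop := ∀ (N m : ℕ) (y : Fin (m + 5) → Eu N), 8 ≤ N → Cfg y → ∀ β : ℝ, 0 < β →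
  ex (mx y) ≤ 3 * Real.pi / 2 * β + (T4 β (‖y 0‖ ^ 2) ((∑ i : Fin m, ‖y (t5 i)‖ ^ 2) / 25)
    + T4 β (‖y 1‖ ^ 2) ((∑ i : Fin m, ‖y (t5 i)‖ ^ 2) / 25)
    + T4 β (‖y 2‖ ^ 2) ((∑ i : Fin m, ‖y (t5 i)‖ ^ 2) / 25)
    + T4 β (‖y 3‖ ^ 2) ((∑ i : Fin m, ‖y (t5 i)‖ ^ 2) / 25)
    + T4 β (‖y 4‖ ^ 2) ((∑ i : Fin m, ‖y (t5 i)‖ ^ 2) / 25))
    + ∑ i : Fin m, E4 β (‖y (t5 i)‖ ^ 2)

/-- scalar part -/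
def BS : Prop := ∀ (m : ℕ) (q : Fin (m + 5) → ℝ), (∀ i, 0 ≤ q i) → (∀ i j, i ≤ j → q j ≤ q i) →
  ∑ i, q i = 16 → q 0 ≤ 8 → 2.09 ≤ 16 - q 0 - q 1 →
  (0.3 * q 2 ≤ q 3 ∨ 0.5 * q 2 ≤ 16 - q 0 - q 1 - q 2) →
  (∃ β : ℝ, 0 < β ∧ 4 * β + (T3 β (q 0) ((∑ i : Fin (m + 1), q (t4 i)) / 16)
      + T3 β (q 1) ((∑ i : Fin (m + 1), q (t4 i)) / 16)
      + T3 β (q 2) ((∑ i : Fin (m + 1), q (t4 i)) / 16)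
      + T3 β (q 3) ((∑ i : Fin (m + 1), q (t4 i)) / 16))
      + ∑ i : Fin (m + 1), E3 β (q (t4 i)) ≤ 6) ∨
  (∃ β : ℝ, 0 < β ∧ 3 * Real.pi / 2 * β + (T4 β (q 0) 0 + T4 β (q 1) 0 + T4 β (q 2) 0 + T4 β (q 3) 0)
      + ∑ i : Fin (m + 1), E4 β (q (t4 i)) ≤ 6) ∨
  (∃ β : ℝ, 0 < β ∧ 3 * Real.pi / 2 * β + (T4 β (q 0) ((∑ i : Fin m, q (t5 i)) / 25)
      + T4 β (q 1) ((∑ i : Fin m, q (t5 i)) / 25) + T4 β (q 2) ((∑ i : Fin m, q (t5 i)) / 25)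
      + T4 β (q 3) ((∑ i : Fin m, q (t5 i)) / 25) + T4 β (q 4) ((∑ i : Fin m, q (t5 i)) / 25))
      + ∑ i : Fin m, E4 β (q (t5 i)) ≤ 6)

/-! ### core and reduction -/

def Core : Prop := ∀ (N m : ℕ) (y : Fin (m + 5) → Eu N), 8 ≤ N → Cfg y → ex (mx y) ≤ 6

/-- the frozen statement (universe polymorphic version is obtained in the reduction module) -/
def Final.{u, v} : Prop := ∀ (E : Type u) [NormedAddCommGroup E] [InnerProductSpace ℝ E]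
    [FiniteDimensional ℝ E] [MeasurableSpace E] [BorelSpace E]
    (ι : Type v) [Fintype ι] (A : ι → Set E), (∀ i, MeasurableSet (A i)) →
    (Pairwise fun i j => Disjoint (A i) (A j)) → (⋃ i, A i = Set.univ) →
    ∑ i, ‖∫ x in A i, x ∂stdGaussian E‖ ^ 2 ≤ 9 / (8 * Real.pi)

/-- reduction: `Core → Final` -/
def Red.{u, v} : Prop := Core → Final.{u, v}

end Spec
end
end Crest.Agent.H18Pr
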