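import Mathlib
import Crest.Agent.H18PrSpec
import Crest.Agent.H18PrBSSpec
set_option autoImplicit false

namespace Crest.Agent.H13PrBSA
open H18Pr

/-- facts about the semi-major axis -/
theorem sg_facts {β q w : ℝ} (hβ : 0 < β) (hw : 0 ≤ w) :
    0 < sg β q w ∧ q ≤ sg β q w ^ 2 ∧ β ^ 2 ≤ sg β q w ^ 2 ∧
      (sg β q w ^ 2 - β ^ 2) * (sg β q w ^ 2 - q) = β ^ 2 * w := by
  have hD0 : 0 ≤ (q - β ^ 2) ^ 2 + 4 * β ^ 2 * w := by positivity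
  have hD2 : √((q - β ^ 2) ^ 2 + 4 * β ^ 2 * w) ^ 2 = (q - β ^ 2) ^ 2 + 4 * β ^ 2 * w :=
    Real.sq_sqrt hD0
  have hD : |q - β ^ 2| ≤ √((q - β ^ 2) ^ 2 + 4 * β ^ 2 * w) := by
    apply Real.abs_le_sqrt
    have : 0 ≤ 4 * β ^ 2 * w := by positivity
    linarith
  set Dd := √((q - β ^ 2) ^ 2 + 4 * β ^ 2 * w) with hDd
  have h1 := (abs_le.1 hD).1
  have h2 := (abs_le.1 hD).2
  have hβ2 : 0 < β ^ 2 := by positivity
  have hs2 : sg β q w ^ 2 = (β ^ 2 + q + Dd) / 2 := by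
    unfold sg
    rw [← hDd, Real.sq_sqrt]
    linarith
  refine ⟨?_, ?_, ?_, ?_⟩
  · unfold sg
    rw [← hDd]
    apply Real.sqrt_pos.2
    linarith
  · rw [hs2]; linarith
  · rw [hs2]; linarith
  · rw [hs2]
    nlinarith [hD2]

theorem poly1 {s : ℝ} (hs : 1 ≤ s) :
    0 ≤ 0.1935 * s ^ 7 - s ^ 6 + (-0.1685 + 2.35 * 0.79) * s ^ 5 - 1.5 * 0.79 ^ 2 * s ^ 4
      + 0.125 * 0.79 ^ 4 * s ^ 2 + 0.025 * 0.79 ^ 6 := by
  rcases le_total s (12 / 5) with h | h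
  · have e : 0.1935 * s ^ 7 - s ^ 6 + (-0.1685 + 2.35 * 0.79) * s ^ 5 - 1.5 * 0.79 ^ 2 * s ^ 4
      + 0.125 * 0.79 ^ 4 * s ^ 2 + 0.025 * 0.79 ^ 6
      = (s - 1) * (s - 2005 / 1000) ^ 2 * (387 / 2000 * s ^ 4 - 6113 / 200000 * s ^ 3
          - 1515239 / 80000000 * s ^ 2 - 30917163 / 4000000000 * s - 6082062493 / 640000000000)
        + (-822425759403453 / 25600000000000000 + 1158122838404013 / 25600000000000000 * s
          - 4159481443339 / 320000000000000 * s ^ 2) := by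
      norm_num
      ring
    rw [e]
    have hq : 0 ≤ 387 / 2000 * s ^ 4 - 6113 / 200000 * s ^ 3
          - 1515239 / 80000000 * s ^ 2 - 30917163 / 4000000000 * s - 6082062493 / 640000000000 := by
      obtain ⟨t, ht, rfl⟩ : ∃ t, 0 ≤ t ∧ s = 1 + t := ⟨s - 1, by linarith, by ring⟩
      have : 387 / 2000 * (1 + t) ^ 4 - 6113 / 200000 * (1 + t) ^ 3
          - 1515239 / 80000000 * (1 + t) ^ 2 - 30917163 / 4000000000 * (1 + t)
          - 6082062493 / 640000000000 = 387 / 2000 * t ^ 4 + 148687 / 200000 * t ^ 3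
          + 84029161 / 80000000 * t ^ 2 + 636694734250 / 1000000000000 * t
          + 81127679427 / 640000000000 := by ring
      rw [this]
      positivity
    have hr : 0 ≤ -822425759403453 / 25600000000000000
        + 1158122838404013 / 25600000000000000 * s - 4159481443339 / 320000000000000 * s ^ 2 := by
      nlinarith [mul_nonneg (sub_nonneg.2 hs) (sub_nonneg.2 h)]
    have h1 : 0 ≤ (s - 1) * (s - 2005 / 1000) ^ 2 := by
      have : 0 ≤ s - 1 := by linarith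
      positivity
    have := mul_nonneg h1 hq
    linarith
  · obtain ⟨t, ht, rfl⟩ : ∃ t, 0 ≤ t ∧ s = 12 / 5 + t := ⟨s - 12 / 5, by linarith, by ring⟩
    norm_num
    ring_nf
    positivity

theorem K4_le {s : ℝ} (hs : 1 ≤ s) : K4 0.79 s ≤ -0.1685 + 0.1935 * s ^ 2 := by
  have h0 : 0 < s := by linarith
  have h := poly1 hs
  have e : -0.1685 + 0.1935 * s ^ 2 - K4 0.79 s = (0.1935 * s ^ 7 - s ^ 6
      + (-0.1685 + 2.35 * 0.79) * s ^ 5 - 1.5 * 0.79 ^ 2 * s ^ 4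
      + 0.125 * 0.79 ^ 4 * s ^ 2 + 0.025 * 0.79 ^ 6) / s ^ 5 := by
    unfold K4
    field_simp
    ring
  have : 0 ≤ -0.1685 + 0.1935 * s ^ 2 - K4 0.79 s := by
    rw [e]
    positivity
  linarith

theorem T4_le {q w p : ℝ} (hp : 1 ≤ p) (hpq : p ≤ q) (hw : 0 ≤ w) :
    T4 0.79 q w ≤ -0.1685 + 0.1935 * (q + 0.79 ^ 2 * w / (p - 0.79 ^ 2)) := by
  obtain ⟨h0, h1, h2, h3⟩ := sg_facts (β := 0.79) (q := q) (w := w) (by norm_num) hw
  unfold T4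
  set s := sg 0.79 q w
  have hs : 1 ≤ s := by nlinarith
  have h4 := K4_le hs
  have h5 : s ^ 2 - q ≤ 0.79 ^ 2 * w / (p - 0.79 ^ 2) := by
    rw [le_div_iff₀ (by norm_num at *; linarith)]
    rw [← h3, mul_comm (s ^ 2 - 0.79 ^ 2)]
    apply mul_le_mul_of_nonneg_left _ (by linarith)
    linarith
  nlinarith

theorem E4_le1 {q : ℝ} (hq0 : 0 ≤ q) (hq1 : q ≤ 1) : E4 0.79 q ≤ 0.1292 * q := by
  have hs2 : √(0.79 ^ 2 + q) ^ 2 = 0.79 ^ 2 + q := Real.sq_sqrt (by positivity)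
  have hs0 : 0.79 ≤ √(0.79 ^ 2 + q) := by
    apply Real.le_sqrt_of_sq_le
    linarith
  unfold E4
  set s := √(0.79 ^ 2 + q)
  clear_value s
  have hq : q = s ^ 2 - 0.79 ^ 2 := by linarith
  have hs : 0 < s := by linarith
  rw [hq]
  have hs1 : s ≤ 1.275 := by nlinarith
  have e : 0.1292 * (s ^ 2 - 0.79 ^ 2) - K4 0.79 s = (0.1292 * (s ^ 2 - 0.79 ^ 2) * s ^ 5
      - (s ^ 6 - 2.35 * 0.79 * s ^ 5 + 1.5 * 0.79 ^ 2 * s ^ 4 - 0.125 * 0.79 ^ 4 * s ^ 2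
        - 0.025 * 0.79 ^ 6)) / s ^ 5 := by
    unfold K4
    field_simp
  have hp : 0 ≤ 0.1292 * (s ^ 2 - 0.79 ^ 2) * s ^ 5
      - (s ^ 6 - 2.35 * 0.79 * s ^ 5 + 1.5 * 0.79 ^ 2 * s ^ 4 - 0.125 * 0.79 ^ 4 * s ^ 2
        - 0.025 * 0.79 ^ 6) := by
    obtain ⟨t, rfl⟩ : ∃ t, s = 0.79 * (1 + t) := ⟨s / 0.79 - 1, by ring⟩
    have ht : 0 ≤ t := by linarith
    have hu : 0 ≤ 0.614 - t := by linarith
    have e2 : 0.1292 * ((0.79 * (1 + t)) ^ 2 - 0.79 ^ 2) * (0.79 * (1 + t)) ^ 5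
      - ((0.79 * (1 + t)) ^ 6 - 2.35 * 0.79 * (0.79 * (1 + t)) ^ 5
        + 1.5 * 0.79 ^ 2 * (0.79 * (1 + t)) ^ 4 - 0.125 * 0.79 ^ 4 * (0.79 * (1 + t)) ^ 2
        - 0.025 * 0.79 ^ 6) = 0.79 ^ 6 * (t * (25517 / 125000 + 186937 / 250000 * t
          + 517 / 10000 * t ^ 2 - 42199 / 25000 * t ^ 3 - 5027 / 3125 * t ^ 4
          - 71381 / 250000 * t ^ 5 + 25517 / 250000 * t ^ 6)) := by
      norm_num
      ring
    rw [e2]
    have h3 : 0 ≤ 25517 / 125000 + 186937 / 250000 * t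
          + 517 / 10000 * t ^ 2 - 42199 / 25000 * t ^ 3 - 5027 / 3125 * t ^ 4
          - 71381 / 250000 * t ^ 5 + 25517 / 250000 * t ^ 6 := by
      nlinarith [mul_nonneg (pow_nonneg ht 4) hu, mul_nonneg (pow_nonneg ht 3) hu,
        mul_nonneg (pow_nonneg ht 2) hu, mul_nonneg ht hu, pow_nonneg ht 6]
    positivity
  have : 0 ≤ 0.1292 * (s ^ 2 - 0.79 ^ 2) - K4 0.79 s := by
    rw [e]
    positivity
  linarith

theorem E4_le2 {q : ℝ} (hq0 : 1 ≤ q) (hq1 : q ≤ 8 / 3) :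
    E4 0.79 q ≤ (0.1935 - 0.1935 * 0.79 ^ 2 / 5 / (q - 0.79 ^ 2)) * q := by
  have hs2 : √(0.79 ^ 2 + q) ^ 2 = 0.79 ^ 2 + q := Real.sq_sqrt (by positivity)
  have hs0 : 1.27 ≤ √(0.79 ^ 2 + q) := by
    apply Real.le_sqrt_of_sq_le
    linarith
  unfold E4
  set s := √(0.79 ^ 2 + q)
  clear_value s
  have hq : q = s ^ 2 - 0.79 ^ 2 := by linarith
  have hs : 0 < s := by linarith
  rw [hq]
  have hs1 : s ≤ 1.82 := by nlinarith
  have hd : 0 < s ^ 2 - 0.79 ^ 2 - 0.79 ^ 2 := by nlinarith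
  have e : (0.1935 - 0.1935 * 0.79 ^ 2 / 5 / (s ^ 2 - 0.79 ^ 2 - 0.79 ^ 2)) * (s ^ 2 - 0.79 ^ 2)
      - K4 0.79 s = ((0.1935 * (s ^ 2 - 0.79 ^ 2 - 0.79 ^ 2) - 0.1935 * 0.79 ^ 2 / 5)
        * (s ^ 2 - 0.79 ^ 2) * s ^ 5
      - (s ^ 2 - 0.79 ^ 2 - 0.79 ^ 2) * (s ^ 6 - 2.35 * 0.79 * s ^ 5 + 1.5 * 0.79 ^ 2 * s ^ 4
        - 0.125 * 0.79 ^ 4 * s ^ 2 - 0.025 * 0.79 ^ 6))
        / ((s ^ 2 - 0.79 ^ 2 - 0.79 ^ 2) * s ^ 5) := by
    unfold K4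
    field_simp
  have hp : 0 ≤ (0.1935 * (s ^ 2 - 0.79 ^ 2 - 0.79 ^ 2) - 0.1935 * 0.79 ^ 2 / 5)
        * (s ^ 2 - 0.79 ^ 2) * s ^ 5
      - (s ^ 2 - 0.79 ^ 2 - 0.79 ^ 2) * (s ^ 6 - 2.35 * 0.79 * s ^ 5 + 1.5 * 0.79 ^ 2 * s ^ 4
        - 0.125 * 0.79 ^ 4 * s ^ 2 - 0.025 * 0.79 ^ 6) := by
    obtain ⟨t, rfl⟩ : ∃ t, s = 1.27 + t := ⟨s - 1.27, by ring⟩
    have ht : 0 ≤ t := by linarith
    have hu : 0 ≤ 0.55 - t := by linarith
    nlinarith [mul_nonneg (pow_nonneg ht 4) hu, mul_nonneg (pow_nonneg ht 3) hu,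
        pow_nonneg ht 9, pow_nonneg ht 8, pow_nonneg ht 7, pow_nonneg ht 6, pow_nonneg ht 3,
        pow_nonneg ht 2]
  have : 0 ≤ (0.1935 - 0.1935 * 0.79 ^ 2 / 5 / (s ^ 2 - 0.79 ^ 2 - 0.79 ^ 2))
      * (s ^ 2 - 0.79 ^ 2) - K4 0.79 s := by
    rw [e]
    positivity
  linarith

theorem split5 {m : ℕ} (q : Fin (m + 5) → ℝ) :
    ∑ i, q i = q 0 + q 1 + q 2 + q 3 + q 4 + ∑ i : Fin m, q (t5 i) := by
  rw [Fin.sum_univ_succ, Fin.sum_univ_succ, Fin.sum_univ_succ, Fin.sum_univ_succ,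
    Fin.sum_univ_succ]
  have h : ∀ i : Fin m, q (Fin.succ (Fin.succ (Fin.succ (Fin.succ (Fin.succ i))))) = q (t5 i) := by
    intro i
    congr 1
  simp only [h]
  have h1 : (Fin.succ 0 : Fin (m + 5)) = 1 := rfl
  have h2 : (Fin.succ (Fin.succ 0) : Fin (m + 5)) = 2 := rfl
  have h3 : (Fin.succ (Fin.succ (Fin.succ 0)) : Fin (m + 5)) = 3 := rfl
  have h4 : (Fin.succ (Fin.succ (Fin.succ (Fin.succ 0))) : Fin (m + 5)) = 4 := rfl
  rw [h1, h2, h3, h4]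
  ring

theorem main : Spec.BSA := by
  intro m q hq h4
  have hnn := hq.nn
  have hs := hq.srt
  have ht := hq.tot
  rw [split5] at ht
  set Q := ∑ i : Fin m, q (t5 i) with hQ
  have hQ0 : 0 ≤ Q := Finset.sum_nonneg (fun i _ => hnn _)
  have h34 : q 4 ≤ q 3 := hs 3 4 (by rw [Fin.le_def]; simp [Nat.mod_eq_of_lt])
  have h24 : q 4 ≤ q 2 := hs 2 4 (by rw [Fin.le_def]; simp [Nat.mod_eq_of_lt])
  have h14 : q 4 ≤ q 1 := hs 1 4 (by rw [Fin.le_def]; simp [Nat.mod_eq_of_lt])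
  have h04 : q 4 ≤ q 0 := hs 0 4 (by rw [Fin.le_def]; simp)
  set p := q 4 with hp
  have hw : 0 ≤ Q / 25 := by positivity
  have hpb : 0 < p - 0.79 ^ 2 := by
    norm_num at *
    linarith
  have t0 := T4_le h4 h04 hw
  have t1 := T4_le h4 h14 hw
  have t2 := T4_le h4 h24 hw
  have t3 := T4_le h4 h34 hw
  have t4' := T4_le h4 le_rfl hw
  have htail : ∑ i : Fin m, E4 0.79 (q (t5 i))
      ≤ ∑ i : Fin m, (0.1935 - 0.1935 * 0.79 ^ 2 / 5 / (p - 0.79 ^ 2)) * q (t5 i) := by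
    apply Finset.sum_le_sum
    intro i _
    have hi4 : q (t5 i) ≤ p := hs 4 (t5 i) (by
      rw [Fin.le_def]
      simp [Nat.mod_eq_of_lt, t5])
    have hi0 := hnn (t5 i)
    have hiQ : q (t5 i) ≤ Q := Finset.single_le_sum (f := fun i => q (t5 i))
      (fun j _ => hnn _) (Finset.mem_univ i)
    rcases le_total (q (t5 i)) 1 with h1 | h1
    · refine (E4_le1 hi0 h1).trans (mul_le_mul_of_nonneg_right ?_ hi0)
      have : 0.1935 * 0.79 ^ 2 / 5 / (p - 0.79 ^ 2) ≤ 0.1935 * 0.79 ^ 2 / 5 / (1 - 0.79 ^ 2) := by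
        apply div_le_div_of_nonneg_left (by norm_num) (by norm_num)
        linarith
      norm_num at this ⊢
      linarith
    · refine (E4_le2 h1 (by linarith)).trans (mul_le_mul_of_nonneg_right ?_ hi0)
      have : 0.1935 * 0.79 ^ 2 / 5 / (p - 0.79 ^ 2)
          ≤ 0.1935 * 0.79 ^ 2 / 5 / (q (t5 i) - 0.79 ^ 2) := by
        apply div_le_div_of_nonneg_left (by norm_num)
        · norm_num
          linarith
        · linarith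
      linarith
  rw [← Finset.mul_sum, ← hQ] at htail
  have hpi := Real.pi_lt_d2
  have e : 5 * (0.1935 * (0.79 ^ 2 * (Q / 25) / (p - 0.79 ^ 2)))
      = 0.1935 * 0.79 ^ 2 / 5 / (p - 0.79 ^ 2) * Q := by
    field_simp
    ring
  have e2 : (0.1935 - 0.1935 * 0.79 ^ 2 / 5 / (p - 0.79 ^ 2)) * Q
      = 0.1935 * Q - 0.1935 * 0.79 ^ 2 / 5 / (p - 0.79 ^ 2) * Q := by ring
  rw [e2] at htail
  have hsum : q 0 + q 1 + q 2 + q 3 + p + Q = 16 := ht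
  linarith

end Crest.Agent.H13PrBSA
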