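import Mathlib
import Crest.Agent.H18PrSpec
set_option autoImplicit false
open MeasureTheory ProbabilityTheory
open scoped InnerProductSpace

namespace Crest.Agent.H3PrGauss
open H18Pr

theorem int : Spec.Int := by
  intro N f C hf hC
  have h1 : Integrable (fun x : Eu N => C * (1 + ‖x‖)) (stdGaussian (Eu N)) := by
    apply Integrable.const_mul
    apply Integrable.add (integrable_const _)
    exact (IsGaussian.integrable_id (μ := stdGaussian (Eu N))).norm
  exact h1.mono' hf.aestronglyMeasurable (Filter.Eventually.of_forall (fun x => by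
    simpa [Real.norm_eq_abs] using hC x))

theorem cf {N : ℕ} {ι : Type} [Fintype ι] (u : ι → Eu N) (t : EuclideanSpace ℝ ι) :
    charFun ((stdGaussian (Eu N)).map
      (fun x => (WithLp.toLp 2 (fun i => ⟪u i, x⟫_ℝ) : EuclideanSpace ℝ ι))) t
      = Complex.exp (- (‖∑ i, t i • u i‖ ^ 2 : ℝ) / 2) := by
  have hm : Measurable (fun x : Eu N => (WithLp.toLp 2 (fun i => ⟪u i, x⟫_ℝ) : EuclideanSpace ℝ ι)) := by
    apply Continuous.measurable
    fun_prop
  rw [charFun_apply, integral_map hm.aemeasurable (by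
    apply Continuous.aestronglyMeasurable; fun_prop)]
  have h2 := charFun_stdGaussian (E := Eu N) (∑ i, t i • u i)
  rw [charFun_apply] at h2
  push_cast
  rw [← h2]
  apply integral_congr_ae
  refine Filter.Eventually.of_forall (fun x => ?_)
  simp only
  congr 3
  rw [PiLp.inner_apply, inner_sum]
  apply Finset.sum_congr rfl
  intro i _
  rw [real_inner_smul_right]
  simp [real_inner_comm]

theorem law_map {N M : ℕ} {ι : Type} [Fintype ι] (u : ι → Eu N) (v : ι → Eu M)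
    (h : ∀ i j, ⟪u i, u j⟫_ℝ = ⟪v i, v j⟫_ℝ) :
    (stdGaussian (Eu N)).map (fun x i => ⟪u i, x⟫_ℝ) = (stdGaussian (Eu M)).map (fun x i => ⟪v i, x⟫_ℝ) := by
  have hm : ∀ (K : ℕ) (w : ι → Eu K), Measurable (fun x : Eu K => (WithLp.toLp 2 (fun i => ⟪w i, x⟫_ℝ) : EuclideanSpace ℝ ι)) := by
    intro K w
    apply Continuous.measurable
    fun_prop
  have hn : ‖(1:ℝ)‖ = 1 := by simp
  have key : (stdGaussian (Eu N)).map
      (fun x => (WithLp.toLp 2 (fun i => ⟪u i, x⟫_ℝ) : EuclideanSpace ℝ ι)) =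
      (stdGaussian (Eu M)).map
      (fun x => (WithLp.toLp 2 (fun i => ⟪v i, x⟫_ℝ) : EuclideanSpace ℝ ι)) := by
    have : IsProbabilityMeasure ((stdGaussian (Eu N)).map
      (fun x => (WithLp.toLp 2 (fun i => ⟪u i, x⟫_ℝ) : EuclideanSpace ℝ ι))) :=
      Measure.isProbabilityMeasure_map (hm _ _).aemeasurable
    have : IsProbabilityMeasure ((stdGaussian (Eu M)).map
      (fun x => (WithLp.toLp 2 (fun i => ⟪v i, x⟫_ℝ) : EuclideanSpace ℝ ι))) :=
      Measure.isProbabilityMeasure_map (hm _ _).aemeasurable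
    apply Measure.ext_of_charFun
    ext t
    rw [cf, cf]
    have : ‖∑ i, t i • u i‖ ^ 2 = ‖∑ i, t i • v i‖ ^ 2 := by
      rw [← real_inner_self_eq_norm_sq, ← real_inner_self_eq_norm_sq]
      simp only [sum_inner, inner_sum, real_inner_smul_left, real_inner_smul_right, h]
    rw [this]
  have h1 : (fun (x : Eu N) i => ⟪u i, x⟫_ℝ) = (fun y : EuclideanSpace ℝ ι => WithLp.ofLp y) ∘
      (fun x => (WithLp.toLp 2 (fun i => ⟪u i, x⟫_ℝ) : EuclideanSpace ℝ ι)) := by
    funext x; rfl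
  have h2 : (fun (x : Eu M) i => ⟪v i, x⟫_ℝ) = (fun y : EuclideanSpace ℝ ι => WithLp.ofLp y) ∘
      (fun x => (WithLp.toLp 2 (fun i => ⟪v i, x⟫_ℝ) : EuclideanSpace ℝ ι)) := by
    funext x; rfl
  rw [h1, h2, ← Measure.map_map (by fun_prop) (hm _ _), ← Measure.map_map (by fun_prop) (hm _ _), key]

theorem law : Spec.Law := by
  intro N M ι _ u v h F hF
  have hu : Measurable (fun (x : Eu N) i => ⟪u i, x⟫_ℝ) := by
    apply Continuous.measurable; fun_prop
  have hv : Measurable (fun (x : Eu M) i => ⟪v i, x⟫_ℝ) := by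
    apply Continuous.measurable; fun_prop
  rw [← integral_map (φ := (fun (x : Eu N) i => ⟪u i, x⟫_ℝ)) hu.aemeasurable hF.aestronglyMeasurable,
    ← integral_map (φ := (fun (x : Eu M) i => ⟪v i, x⟫_ℝ)) hv.aemeasurable hF.aestronglyMeasurable,
    law_map u v h]

theorem pi : Spec.Pi := by
  intro N ι _ e he
  have hm : Measurable (fun x : Eu N => (WithLp.toLp 2 (fun i => ⟪e i, x⟫_ℝ) : EuclideanSpace ℝ ι)) := by
    apply Continuous.measurable
    fun_prop
  have key : (stdGaussian (Eu N)).map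
      (fun x => (WithLp.toLp 2 (fun i => ⟪e i, x⟫_ℝ) : EuclideanSpace ℝ ι)) =
      (Measure.pi (fun _ : ι => gaussianReal 0 1)).map (WithLp.toLp 2) := by
    rw [map_pi_eq_stdGaussian]
    have : IsProbabilityMeasure ((stdGaussian (Eu N)).map
      (fun x => (WithLp.toLp 2 (fun i => ⟪e i, x⟫_ℝ) : EuclideanSpace ℝ ι))) :=
      Measure.isProbabilityMeasure_map hm.aemeasurable
    apply Measure.ext_of_charFun
    ext t
    rw [cf, charFun_stdGaussian]
    have : ‖∑ i, t i • e i‖ ^ 2 = ‖t‖ ^ 2 := by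
      rw [← real_inner_self_eq_norm_sq, he.inner_sum, EuclideanSpace.real_norm_sq_eq]
      apply Finset.sum_congr rfl
      intro i _
      simp [sq]
    rw [this]
    push_cast
    rfl
  have h1 : (fun (x : Eu N) i => ⟪e i, x⟫_ℝ) = (fun y : EuclideanSpace ℝ ι => WithLp.ofLp y) ∘
      (fun x => (WithLp.toLp 2 (fun i => ⟪e i, x⟫_ℝ) : EuclideanSpace ℝ ι)) := by
    funext x; rfl
  rw [h1, ← Measure.map_map (by fun_prop) hm, key, Measure.map_map (by fun_prop) (by fun_prop)]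
  have : (fun y : EuclideanSpace ℝ ι => WithLp.ofLp y) ∘ (WithLp.toLp 2) = (id : (ι → ℝ) → (ι → ℝ)) := by
    funext x; rfl
  rw [this, Measure.map_id]


theorem pi1 {N : ℕ} (e : Eu N) (he : ‖e‖ = 1) :
    (stdGaussian (Eu N)).map (fun x => ⟪e, x⟫_ℝ) = gaussianReal 0 1 := by
  have h := pi N Unit inferInstance (fun _ => e) (by
    rw [orthonormal_iff_ite]
    intro i j
    simp [he])
  have h1 : (fun (x : Eu N) => ⟪e, x⟫_ℝ) = (fun y : Unit → ℝ => y ()) ∘
      (fun (x : Eu N) (_ : Unit) => ⟪e, x⟫_ℝ) := by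
    funext x; rfl
  rw [h1, ← Measure.map_map (by fun_prop) (by
    apply Continuous.measurable; fun_prop), h]
  exact (measurePreserving_eval (fun _ : Unit => gaussianReal 0 1) ()).map_eq

theorem abs1 : √(2 * Real.pi) * ∫ x, |x| ∂(gaussianReal 0 1) = 2 := by
  rw [integral_gaussianReal_eq_integral_smul (by norm_num)]
  have h1 : (fun x : ℝ => gaussianPDFReal 0 1 x • |x|) =
      fun x => (√(2 * Real.pi))⁻¹ * ((fun y : ℝ => y * Real.exp (- (1/2) * y ^ (2:ℝ))) |x|) := by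
    funext x
    simp only [gaussianPDFReal_def, smul_eq_mul, Real.rpow_two, sq_abs]
    norm_num
    ring_nf
  rw [h1, integral_const_mul, integral_comp_abs (f := fun y : ℝ => y * Real.exp (- (1/2) * y ^ (2:ℝ)))]
  have h2 := integral_rpow_mul_exp_neg_mul_rpow (p := 2) (q := 1) (b := 1/2) (by norm_num) (by norm_num) (by norm_num)
  have h3 : ∫ x in Set.Ioi (0:ℝ), x * Real.exp (- (1/2) * x ^ (2:ℝ)) = 1 := by
    have : ∀ x : ℝ, x ^ (1:ℝ) * Real.exp (- (1/2) * x ^ (2:ℝ)) = x * Real.exp (- (1/2) * x ^ (2:ℝ)) := by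
      intro x; rw [Real.rpow_one]
    simp only [this] at h2
    rw [h2]
    norm_num
  rw [h3]
  have : √(2 * Real.pi) ≠ 0 := by positivity
  field_simp

theorem exabs {N : ℕ} (a : Eu N) : ex (fun x => |⟪a, x⟫_ℝ|) = 2 * ‖a‖ := by
  by_cases ha : a = 0
  · subst ha; simp [ex]
  have hn : ‖a‖ ≠ 0 := by simpa using ha
  have h1 : ∀ x : Eu N, |⟪a, x⟫_ℝ| = ‖a‖ * |⟪(‖a‖)⁻¹ • a, x⟫_ℝ| := by
    intro x
    rw [real_inner_smul_left, abs_mul, abs_of_nonneg (by positivity : (0:ℝ) ≤ ‖a‖⁻¹)]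
    field_simp
  have h2 : ‖(‖a‖)⁻¹ • a‖ = 1 := by
    rw [norm_smul, norm_inv, norm_norm]; field_simp
  have h3 := pi1 _ h2
  unfold ex
  simp only [h1]
  rw [integral_const_mul]
  have h4 : ∫ x, |x| ∂(gaussianReal 0 1) = ∫ x, |⟪(‖a‖)⁻¹ • a, x⟫_ℝ| ∂(stdGaussian (Eu N)) := by
    rw [← h3, integral_map (by
      apply Measurable.aemeasurable
      apply Continuous.measurable; fun_prop) (by
      apply Continuous.aestronglyMeasurable; fun_prop)]
  rw [← h4]
  have := abs1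
  calc √(2 * Real.pi) * (‖a‖ * ∫ x, |x| ∂(gaussianReal 0 1))
      = (√(2 * Real.pi) * ∫ x, |x| ∂(gaussianReal 0 1)) * ‖a‖ := by ring
    _ = 2 * ‖a‖ := by rw [this]

theorem exlin {N : ℕ} (a : Eu N) : ex (fun x => ⟪a, x⟫_ℝ) = 0 := by
  unfold ex
  have := integral_strongDual_stdGaussian (E := Eu N) (innerSL ℝ a)
  have h : ∫ x, ⟪a, x⟫_ℝ ∂(stdGaussian (Eu N)) = 0 := by
    simpa using this
  rw [h, mul_zero]

theorem lin : Spec.Lin := by
  intro N a
  refine ⟨exlin a, exabs a, ?_⟩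
  have h1 : ∀ x : Eu N, max 0 ⟪a, x⟫_ℝ = 1/2 * (⟪a, x⟫_ℝ + |⟪a, x⟫_ℝ|) := by
    intro x
    rcases le_total 0 ⟪a, x⟫_ℝ with h | h
    · rw [max_eq_right h, abs_of_nonneg h]; ring
    · rw [max_eq_left h, abs_of_nonpos h]; ring
  have e1 := exlin a
  have e2 := exabs a
  unfold ex at *
  simp only [h1]
  rw [integral_const_mul, integral_add]
  · linear_combination (1/2) * e1 + (1/2) * e2
  · apply int N _ (‖a‖) (by fun_prop)
    intro x
    have := abs_real_inner_le_norm a x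
    nlinarith [norm_nonneg a]
  · apply int N _ (‖a‖) (by fun_prop)
    intro x
    have := abs_real_inner_le_norm a x
    rw [abs_abs]
    nlinarith [norm_nonneg a]

end Crest.Agent.H3PrGauss
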