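import Mathlib
import Crest.Agent.H18PrSpec
import Crest.Agent.H3PrGauss
set_option autoImplicit false
open MeasureTheory ProbabilityTheory
open scoped InnerProductSpace

namespace Crest.Agent.H13PrChi
open H18Pr

/-- product Gaussian measure has the product density -/
theorem pi_gauss (n : ℕ) : Measure.pi (fun _ : Fin n => gaussianReal 0 1) =
    (volume : Measure (Fin n → ℝ)).withDensity
      (fun z => ENNReal.ofReal (∏ i, gaussianPDFReal 0 1 (z i))) := by
  refine Measure.pi_eq fun s hs => ?_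
  rw [withDensity_apply _ (MeasurableSet.univ_pi hs), volume_pi, Measure.restrict_pi_pi,
    ← ofReal_integral_eq_lintegral_ofReal]
  · rw [integral_fintype_prod_eq_prod (𝕜 := ℝ) (E := fun _ : Fin n => ℝ)
      (μ := fun i => (volume : Measure ℝ).restrict (s i)) (fun _ x => gaussianPDFReal 0 1 x)]
    rw [ENNReal.ofReal_prod_of_nonneg]
    · apply Finset.prod_congr rfl
      intro i _
      rw [gaussianReal_apply_eq_integral 0 (by norm_num) (s i)]
    · intro i _
      exact integral_nonneg (fun x => gaussianPDFReal_nonneg _ _ _)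
  · exact Integrable.fintype_prod (μ := fun i => (volume : Measure ℝ).restrict (s i))
      (f := fun _ x => gaussianPDFReal 0 1 x)
      (fun i => (integrable_gaussianPDFReal 0 1).restrict)
  · exact Filter.Eventually.of_forall (fun z => Finset.prod_nonneg
      (fun i _ => gaussianPDFReal_nonneg _ _ _))

theorem prod_pdf {n : ℕ} (x : Eu n) : ∏ i, gaussianPDFReal 0 1 (x i)
    = ((√(2 * Real.pi))⁻¹) ^ n * Real.exp (-(‖x‖ ^ 2) / 2) := by
  simp only [gaussianPDFReal_def]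
  simp only [NNReal.coe_one, mul_one, sub_zero]
  rw [Finset.prod_mul_distrib, Finset.prod_const, ← Real.exp_sum, EuclideanSpace.real_norm_sq_eq,
    ← Finset.sum_div, Finset.sum_neg_distrib]
  simp

theorem int_pi (n : ℕ) (g : ℝ → ℝ) :
    ∫ z, g (√(∑ i, z i ^ 2)) ∂(Measure.pi (fun _ : Fin n => gaussianReal 0 1))
      = ∫ x : Eu n, (((√(2 * Real.pi))⁻¹) ^ n * Real.exp (-(‖x‖ ^ 2) / 2)) * g ‖x‖ := by
  rw [pi_gauss, integral_withDensity_eq_integral_toReal_smul]
  · rw [← (EuclideanSpace.volume_preserving_symm_measurableEquiv_toLp (Fin n)).symm.integral_comp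
      (MeasurableEquiv.measurableEmbedding _)]
    apply integral_congr_ae
    refine Filter.Eventually.of_forall (fun x => ?_)
    simp only
    rw [ENNReal.toReal_ofReal (Finset.prod_nonneg (fun i _ => gaussianPDFReal_nonneg _ _ _)),
      smul_eq_mul]
    have h1 : ((MeasurableEquiv.toLp 2 (Fin n → ℝ)).symm.symm x : Eu n) = WithLp.toLp 2 x := rfl
    rw [h1, ← prod_pdf]
    have h2 : ‖(WithLp.toLp 2 x : Eu n)‖ = √(∑ i, x i ^ 2) := by
      rw [EuclideanSpace.norm_eq]
      simp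
    rw [h2]
  · apply Measurable.ennreal_ofReal
    apply Finset.measurable_prod
    intro i _
    exact (measurable_gaussianPDFReal 0 1).comp (measurable_pi_apply i)
  · exact Filter.Eventually.of_forall (fun z => ENNReal.ofReal_lt_top)

/-- radial moments -/
theorem J (k : ℕ) : ∫ y in Set.Ioi (0:ℝ), y ^ k * Real.exp (-(y ^ 2) / 2)
    = (1/2 : ℝ) ^ (-((k:ℝ) + 1) / 2) * (1 / 2) * Real.Gamma (((k:ℝ) + 1) / 2) := by
  rw [← integral_rpow_mul_exp_neg_mul_rpow (p := 2) (q := k) (b := 1/2) (by norm_num)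
    (by have : (0:ℝ) ≤ k := Nat.cast_nonneg k
        linarith) (by norm_num)]
  apply setIntegral_congr_fun measurableSet_Ioi
  intro y _
  simp only
  rw [Real.rpow_natCast, Real.rpow_two]
  congr 2
  ring

theorem radial (n : ℕ) (hn : 0 < n) (f : ℝ → ℝ) :
    ∫ z, f (√(∑ i, z i ^ 2)) ∂(Measure.pi (fun _ : Fin n => gaussianReal 0 1))
      = (n * (volume : Measure (Eu n)).real (Metric.ball 0 1) * ((√(2 * Real.pi))⁻¹) ^ n) *
        ∫ y in Set.Ioi (0:ℝ), y ^ (n - 1) * (Real.exp (-(y ^ 2) / 2) * f y) := by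
  have : Nonempty (Fin n) := ⟨⟨0, hn⟩⟩
  rw [int_pi, integral_fun_norm_addHaar (volume : Measure (Eu n))
    (fun y => (((√(2 * Real.pi))⁻¹) ^ n * Real.exp (-(y ^ 2) / 2)) * f y)]
  simp only [finrank_euclideanSpace, Fintype.card_fin, nsmul_eq_mul, smul_eq_mul]
  rw [mul_assoc, mul_assoc]
  congr 2
  rw [← integral_const_mul]
  apply setIntegral_congr_fun measurableSet_Ioi
  intro y _
  simp only
  ring

theorem mean (n : ℕ) (hn : 0 < n) :
    (∫ z, (√(∑ i, z i ^ 2)) ∂(Measure.pi (fun _ : Fin n => gaussianReal 0 1)))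
      * (∫ y in Set.Ioi (0:ℝ), y ^ (n - 1) * Real.exp (-(y ^ 2) / 2))
      = ∫ y in Set.Ioi (0:ℝ), y ^ n * Real.exp (-(y ^ 2) / 2) := by
  have h0 := radial n hn (fun _ => 1)
  have h1 := radial n hn (fun y => y)
  simp only [integral_const, probReal_univ, smul_eq_mul, mul_one] at h0
  rw [h1]
  have e : ∫ y in Set.Ioi (0:ℝ), y ^ (n - 1) * (Real.exp (-(y ^ 2) / 2) * y)
      = ∫ y in Set.Ioi (0:ℝ), y ^ n * Real.exp (-(y ^ 2) / 2) := by
    apply setIntegral_congr_fun measurableSet_Ioi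
    intro y _
    simp only
    obtain ⟨m, rfl⟩ : ∃ m, n = m + 1 := ⟨n - 1, by omega⟩
    rw [Nat.add_sub_cancel]
    ring
  rw [e, mul_right_comm, ← h0, one_mul]

theorem ex_nrm {N n : ℕ} (e : Fin n → Eu N) (he : Orthonormal ℝ e) :
    ex (nrm e) = √(2 * Real.pi) *
      ∫ z, (√(∑ i, z i ^ 2)) ∂(Measure.pi (fun _ : Fin n => gaussianReal 0 1)) := by
  unfold ex
  rw [← H3PrGauss.pi N (Fin n) inferInstance e he, integral_map]
  · rfl
  · apply Measurable.aemeasurable
    apply Continuous.measurable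
    fun_prop
  · apply Continuous.aestronglyMeasurable
    fun_prop

theorem J2 : ∫ y in Set.Ioi (0:ℝ), y ^ 2 * Real.exp (-(y ^ 2) / 2) = √(2 * Real.pi) / 2 := by
  rw [J]
  have h1 : (-(((2:ℕ):ℝ) + 1) / 2) = -(1 + 1/2 : ℝ) := by norm_num
  have h2 : ((((2:ℕ):ℝ) + 1) / 2) = (1/2 : ℝ) + 1 := by norm_num
  rw [h1, h2, Real.Gamma_add_one (by norm_num), Real.Gamma_one_half_eq,
    Real.rpow_neg (by norm_num), Real.rpow_add (by norm_num), Real.rpow_one, ← Real.sqrt_eq_rpow,
    Real.sqrt_mul (by norm_num), one_div, Real.sqrt_inv]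
  field_simp

theorem J3 : ∫ y in Set.Ioi (0:ℝ), y ^ 3 * Real.exp (-(y ^ 2) / 2) = 2 := by
  rw [J]
  have h1 : (-(((3:ℕ):ℝ) + 1) / 2) = -(2 : ℝ) := by norm_num
  have h2 : ((((3:ℕ):ℝ) + 1) / 2) = (1 : ℝ) + 1 := by norm_num
  rw [h1, h2, Real.Gamma_add_one (by norm_num), Real.Gamma_one,
    Real.rpow_neg (by norm_num), Real.rpow_two]
  norm_num

theorem J4 : ∫ y in Set.Ioi (0:ℝ), y ^ 4 * Real.exp (-(y ^ 2) / 2) = 3 * √(2 * Real.pi) / 2 := by
  rw [J]
  have h1 : (-(((4:ℕ):ℝ) + 1) / 2) = -(2 + 1/2 : ℝ) := by norm_num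
  have h2 : ((((4:ℕ):ℝ) + 1) / 2) = ((1/2 : ℝ) + 1) + 1 := by norm_num
  rw [h1, h2, Real.Gamma_add_one (by norm_num), Real.Gamma_add_one (by norm_num),
    Real.Gamma_one_half_eq,
    Real.rpow_neg (by norm_num), Real.rpow_add (by norm_num), Real.rpow_two, ← Real.sqrt_eq_rpow,
    Real.sqrt_mul (by norm_num), one_div, Real.sqrt_inv]
  field_simp
  norm_num

theorem c3 : Spec.C3 := by
  intro N e he
  rw [ex_nrm e he]
  have h := mean 3 (by norm_num)
  rw [show 3 - 1 = 2 from rfl, J2, J3] at h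
  linarith

theorem c4 : Spec.C4 := by
  intro N e he
  rw [ex_nrm e he]
  have h := mean 4 (by norm_num)
  rw [show 4 - 1 = 3 from rfl, J3, J4] at h
  have h1 : √(2 * Real.pi) * √(2 * Real.pi) = 2 * Real.pi :=
    Real.mul_self_sqrt (by positivity)
  have h2 : (∫ z, (√(∑ i, z i ^ 2)) ∂(Measure.pi (fun _ : Fin 4 => gaussianReal 0 1)))
      = 3 * √(2 * Real.pi) / 4 := by linarith
  rw [h2]
  linarith

end Crest.Agent.H13PrChi
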