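import Mathlib

set_option autoImplicit false

/-!
Basic objects for the noisy-observation scheme: spin signs, the observation density
`1 + s (t - 1/2)` on the unit interval, its distribution function with mean parameter, and
quantile-type maps.
-/

open MeasureTheory ProbabilityTheory Filter Topology

namespace Crest.Agent.H14

/-- The unit interval. -/
abbrev UI : Type := unitInterval

/-- Sign of a spin. -/
def sg (b : Bool) : ℝ := if b then 1 else -1

@[simp] lemma sg_true : sg true = 1 := by simp [sg]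
@[simp] lemma sg_false : sg false = -1 := by simp [sg]

lemma abs_sg (b : Bool) : |sg b| = 1 := by cases b <;> simp

lemma sg_le_one (b : Bool) : sg b ≤ 1 := by cases b <;> simp
lemma neg_one_le_sg (b : Bool) : -1 ≤ sg b := by cases b <;> simp

/-- Observation weight. -/
noncomputable def wt (b : Bool) (t : ℝ) : ℝ := 1 + sg b * (t - 1 / 2)

lemma wt_pos (b : Bool) (t : UI) : 0 < wt b t := by
  have h0 := t.2.1
  have h1 := t.2.2
  cases b <;> simp only [wt, sg_true, sg_false] <;> linarith

lemma half_le_wt (b : Bool) (t : UI) : 1 / 2 ≤ wt b t := by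
  have h0 := t.2.1
  have h1 := t.2.2
  cases b <;> simp only [wt, sg_true, sg_false] <;> linarith

lemma wt_le_two (b : Bool) (t : UI) : wt b t ≤ 2 := by
  have h0 := t.2.1
  have h1 := t.2.2
  cases b <;> simp only [wt, sg_true, sg_false] <;> linarith

lemma wt_half (b : Bool) : wt b (1 / 2) = 1 := by simp [wt]

lemma measurable_sg : Measurable sg := measurable_of_finite _

lemma measurable_wt : Measurable (fun p : Bool × ℝ => wt p.1 p.2) := by
  unfold wt
  exact measurable_const.add ((measurable_sg.comp measurable_fst).mul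
    (measurable_snd.sub measurable_const))

/-- The distribution function of the mixed observation with mean spin `m`. -/
noncomputable def Fr (m t : ℝ) : ℝ := t - m / 2 * (t * (1 - t))

lemma Fr_mem {m : ℝ} (hm : |m| ≤ 1) {t : ℝ} (ht : t ∈ Set.Icc (0:ℝ) 1) :
    Fr m t ∈ Set.Icc (0:ℝ) 1 := by
  obtain ⟨h0, h1⟩ := ht
  obtain ⟨hm1, hm2⟩ := abs_le.1 hm
  have h2 : 0 ≤ t * (1 - t) := mul_nonneg h0 (by linarith)
  constructor
  · unfold Fr; nlinarith
  · unfold Fr; nlinarith

/-- The same function as a self-map of the unit interval. -/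
noncomputable def FI (m : ℝ) (t : UI) : UI := Set.projIcc 0 1 zero_le_one (Fr m t)

lemma FI_coe {m : ℝ} (hm : |m| ≤ 1) (t : UI) : (FI m t : ℝ) = Fr m t := by
  unfold FI
  rw [Set.projIcc_of_mem zero_le_one (Fr_mem hm t.2)]

lemma Fr_sub (m t t' : ℝ) : Fr m t - Fr m t' = (t - t') * (1 - m / 2 * (1 - t - t')) := by
  unfold Fr; ring

lemma FI_contract {m m' : ℝ} (hm : |m| ≤ 1) (hm' : |m'| ≤ 1) {t t' : UI}
    (h : FI m t = FI m' t') : |(t : ℝ) - t'| ≤ |m - m'| / 4 := by
  have h1 : Fr m t = Fr m' t' := by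
    rw [← FI_coe hm, ← FI_coe hm', h]
  have h2 := Fr_sub m t t'
  have h3 : Fr m t - Fr m t' = (m - m') / 2 * ((t':ℝ) * (1 - t')) := by
    rw [h1]; unfold Fr; ring
  obtain ⟨hm1, hm2⟩ := abs_le.1 hm
  have t0 := t.2.1
  have t1 := t.2.2
  have s0 := t'.2.1
  have s1 := t'.2.2
  have h4 : 1 / 2 ≤ 1 - m / 2 * (1 - t - t') := by nlinarith
  have h5 : |(t : ℝ) - t'| * (1 / 2) ≤ |(t:ℝ) - t'| * |1 - m / 2 * (1 - t - t')| := by
    apply mul_le_mul_of_nonneg_left _ (abs_nonneg _)
    exact h4.trans (le_abs_self _)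
  have h6 : |(t:ℝ) - t'| * |1 - m / 2 * (1 - t - t')| = |m - m'| / 2 * ((t':ℝ) * (1 - t')) := by
    rw [← abs_mul, ← h2, h3, abs_mul, abs_of_nonneg (mul_nonneg s0 (by linarith : (0:ℝ) ≤ 1 - t')),
      abs_div, abs_two]
  have h7 : (t':ℝ) * (1 - t') ≤ 1 / 4 := by nlinarith [sq_nonneg ((t':ℝ) - 1/2)]
  have h8 : |m - m'| / 2 * ((t':ℝ) * (1 - t')) ≤ |m - m'| / 2 * (1 / 4) := by
    apply mul_le_mul_of_nonneg_left h7; positivity
  linarith

lemma continuous_Fr (m : ℝ) : Continuous (Fr m) := by unfold Fr; fun_prop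

lemma continuous_FI (m : ℝ) : Continuous (FI m) :=
  continuous_projIcc.comp ((continuous_Fr m).comp continuous_subtype_val)

lemma measurable_FI : Measurable (fun p : ℝ × UI => FI p.1 p.2) := by
  unfold FI Fr
  have : Measurable (Set.projIcc (0:ℝ) 1 zero_le_one) := continuous_projIcc.measurable
  apply this.comp
  fun_prop

lemma FI_strictMono {m : ℝ} (hm : |m| ≤ 1) : StrictMono (FI m) := by
  intro t t' h
  have h' : (t:ℝ) < t' := h
  change (FI m t : ℝ) < FI m t'
  rw [FI_coe hm, FI_coe hm]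
  have h2 := Fr_sub m t t'
  obtain ⟨hm1, hm2⟩ := abs_le.1 hm
  have t0 := t.2.1
  have t1 := t.2.2
  have s0 := t'.2.1
  have s1 := t'.2.2
  have h4 : 1 / 2 ≤ 1 - m / 2 * (1 - t - t') := by nlinarith
  nlinarith

lemma FI_surj {m : ℝ} (hm : |m| ≤ 1) : Function.Surjective (FI m) := by
  intro x
  have h0 : FI m 0 = 0 := by
    apply Subtype.ext; rw [FI_coe hm]; simp [Fr]
  have h1 : FI m 1 = 1 := by
    apply Subtype.ext; rw [FI_coe hm]; simp [Fr]
  have := intermediate_value_univ (0 : UI) 1 (continuous_FI m)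
  rw [h0, h1] at this
  exact this ⟨x.2.1, x.2.2⟩

/-- The observation law with mean spin `m`. -/
noncomputable def qm (m : ℝ) : Measure UI :=
  (volume : Measure UI).withDensity (fun t => ENNReal.ofReal (1 + m * ((t:ℝ) - 1 / 2)))

lemma dens_nonneg {m : ℝ} (hm : |m| ≤ 1) {t : ℝ} (ht : t ∈ Set.Icc (0:ℝ) 1) :
    0 ≤ 1 + m * (t - 1 / 2) := by
  obtain ⟨h0, h1⟩ := ht
  obtain ⟨hm1, hm2⟩ := abs_le.1 hm
  nlinarith

lemma qm_Iic {m : ℝ} (hm : |m| ≤ 1) (x : UI) : qm m (Set.Iic x) = ENNReal.ofReal (Fr m x) := by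
  unfold qm
  rw [withDensity_apply _ measurableSet_Iic]
  have h1 : ∫⁻ t in Set.Iic x, ENNReal.ofReal (1 + m * ((t:ℝ) - 1 / 2)) =
      ∫⁻ t in Set.Icc (0:ℝ) x, ENNReal.ofReal (1 + m * (t - 1 / 2)) := by
    have hmp := unitInterval.measurePreserving_coe
    have : Set.Iic x = (Subtype.val : UI → ℝ) ⁻¹' (Set.Icc (0:ℝ) x) := by
      ext t
      simp only [Set.mem_Iic, Set.mem_preimage, Set.mem_Icc]
      exact ⟨fun h => ⟨t.2.1, h⟩, fun h => h.2⟩
    rw [this]
    have hf : Measurable (fun t : ℝ => ENNReal.ofReal (1 + m * (t - 1 / 2))) := by fun_prop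
    rw [hmp.setLIntegral_comp_preimage (f := fun t : ℝ => ENNReal.ofReal (1 + m * (t - 1 / 2)))
      measurableSet_Icc hf]
    rw [Measure.restrict_restrict measurableSet_Icc]
    congr 2
    ext t
    simp only [Set.mem_inter_iff, Set.mem_Icc]
    constructor
    · intro h; exact h.1
    · intro h; exact ⟨h, h.1, h.2.trans x.2.2⟩
  rw [h1, ← ofReal_integral_eq_lintegral_ofReal]
  · congr 1
    rw [integral_Icc_eq_integral_Ioc, ← intervalIntegral.integral_of_le x.2.1]
    have : ∀ t : ℝ, HasDerivAt (Fr m) (1 + m * (t - 1 / 2)) t := by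
      intro t
      have h : HasDerivAt (fun t : ℝ => t - m / 2 * (t * (1 - t)))
          (1 - m / 2 * (1 * (1 - t) + t * (0 - 1))) t :=
        (hasDerivAt_id t).sub (((hasDerivAt_id t).mul ((hasDerivAt_const t (1:ℝ)).sub
          (hasDerivAt_id t))).const_mul (m / 2))
      have e : (1 - m / 2 * (1 * (1 - t) + t * (0 - 1))) = 1 + m * (t - 1 / 2) := by ring
      rw [e] at h
      exact h
    rw [intervalIntegral.integral_eq_sub_of_hasDerivAt (f := Fr m) (fun t _ => this t)]
    · simp [Fr]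
    · apply Continuous.intervalIntegrable; fun_prop
  · exact (Continuous.integrableOn_Icc (by fun_prop))
  · refine (ae_restrict_iff' measurableSet_Icc).2 (ae_of_all _ ?_)
    intro t ht
    exact dens_nonneg hm ⟨ht.1, ht.2.trans x.2.2⟩

lemma qm_univ {m : ℝ} (hm : |m| ≤ 1) : qm m Set.univ = 1 := by
  have : (Set.univ : Set UI) = Set.Iic 1 := by
    ext t
    exact ⟨fun _ => unitInterval.le_one', fun _ => trivial⟩
  rw [this, qm_Iic hm]; simp [Fr]

lemma isProb_qm {m : ℝ} (hm : |m| ≤ 1) : IsProbabilityMeasure (qm m) := ⟨qm_univ hm⟩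

/-- The distribution-function transform makes the observation uniform. -/
lemma map_FI_qm {m : ℝ} (hm : |m| ≤ 1) : (qm m).map (FI m) = volume := by
  have := isProb_qm hm
  have : IsProbabilityMeasure ((qm m).map (FI m)) :=
    Measure.isProbabilityMeasure_map (continuous_FI m).measurable.aemeasurable
  apply Measure.ext_of_Iic
  intro x
  rw [Measure.map_apply (continuous_FI m).measurable measurableSet_Iic]
  obtain ⟨t, ht⟩ := FI_surj hm x
  have : FI m ⁻¹' Set.Iic x = Set.Iic t := by
    ext u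
    simp only [Set.mem_preimage, Set.mem_Iic, ← ht]
    exact (FI_strictMono hm).le_iff_le
  rw [this, qm_Iic hm, unitInterval.volume_Iic, ← ht, FI_coe hm]

lemma exists_Q : ∃ Q : Bool → UI → UI, (∀ b, Measurable (Q b)) ∧
    ∀ b, (volume : Measure UI).map (Q b) = qm (sg b) := by
  have : ∀ b : Bool, ∃ f : UI → UI, Measurable f ∧ (volume : Measure UI).map f = qm (sg b) := by
    intro b
    have := isProb_qm (m := sg b) (by rw [abs_sg])
    exact MeasureTheory.Measure.exists_measurable_map_eq (qm (sg b))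
  choose Q hQ using this
  exact ⟨Q, fun b => (hQ b).1, fun b => (hQ b).2⟩

/-- A fixed sampling map for the observation law. -/
noncomputable def Q : Bool → UI → UI := Classical.choose exists_Q

lemma measurable_Q (b : Bool) : Measurable (Q b) := (Classical.choose_spec exists_Q).1 b

lemma map_Q (b : Bool) : (volume : Measure UI).map (Q b) = qm (sg b) :=
  (Classical.choose_spec exists_Q).2 b

lemma measurable_Q' : Measurable (fun p : Bool × UI => Q p.1 p.2) :=
  measurable_from_prod_countable_right measurable_Q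

end Crest.Agent.H14
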