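import Crest.Agent.H14Basic

set_option autoImplicit false

/-!
Finite-dimensional laws of the noisy observations and the Bayes formula for the conditional
expectation of a function of the hidden configuration given finitely many observations.
-/

open MeasureTheory ProbabilityTheory Filter Topology

namespace Crest.Agent.H14

lemma pi_withDensity {ι : Type*} [Fintype ι] {X : Type*} [MeasurableSpace X] (μ : ι → Measure X)
    [∀ i, IsProbabilityMeasure (μ i)] (g : ι → X → ENNReal) (hg : ∀ i, Measurable (g i))
    [∀ i, SigmaFinite ((μ i).withDensity (g i))] :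
    Measure.pi (fun i => (μ i).withDensity (g i)) =
      (Measure.pi μ).withDensity (fun x => ∏ i, g i (x i)) := by
  refine Measure.pi_eq fun s hs => ?_
  rw [withDensity_apply _ (MeasurableSet.univ_pi hs),
    ← lintegral_indicator (MeasurableSet.univ_pi hs)]
  have h1 : (Set.univ.pi s).indicator (fun x : ι → X => ∏ i, g i (x i)) =
      fun x => ∏ i, (s i).indicator (g i) (x i) := by
    ext x
    by_cases hx : x ∈ Set.univ.pi s
    · rw [Set.indicator_of_mem hx]
      apply Finset.prod_congr rfl
      intro i _
      rw [Set.indicator_of_mem (hx i trivial)]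
    · rw [Set.indicator_of_notMem hx]
      simp only [Set.mem_pi, Set.mem_univ, true_implies, not_forall] at hx
      obtain ⟨i, hi⟩ := hx
      symm
      apply Finset.prod_eq_zero (Finset.mem_univ i)
      rw [Set.indicator_of_notMem hi]
  rw [h1]
  have hind : iIndepFun (fun (i : ι) (x : ι → X) => (s i).indicator (g i) (x i)) (Measure.pi μ) :=
    iIndepFun_pi (X := fun i x => (s i).indicator (g i) x)
      (fun i => ((hg i).indicator (hs i)).aemeasurable)
  rw [lintegral_prod_eq_prod_lintegral_of_indepFun Finset.univ _ hind
    (fun i => ((hg i).indicator (hs i)).comp (measurable_pi_apply i))]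
  apply Finset.prod_congr rfl
  intro i _
  rw [withDensity_apply _ (hs i), ← lintegral_indicator (hs i)]
  exact (measurePreserving_eval μ i).lintegral_comp ((hg i).indicator (hs i))

variable {I : Type*}

/-- The observation field: the observation of the spin at `i` in round `k`. -/
noncomputable def Y (ω : (I → Bool) × (ℕ × I → UI)) : ℕ × I → UI :=
  fun α => Q (ω.1 α.2) (ω.2 α)

lemma measurable_Y : Measurable (Y : (I → Bool) × (ℕ × I → UI) → ℕ × I → UI) := by
  unfold Y
  apply measurable_pi_lambda
  intro α
  have h : Measurable (fun ω : (I → Bool) × (ℕ × I → UI) => ((ω.1 α.2, ω.2 α) : Bool × UI)) :=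
    ((measurable_pi_apply _).comp measurable_fst).prodMk
      ((measurable_pi_apply _).comp measurable_snd)
  exact measurable_Q'.comp h

/-- The law of the noise. -/
noncomputable abbrev noise (O : Type*) : Measure (O → UI) :=
  Measure.infinitePi (fun _ : O => (volume : Measure UI))

lemma law_restrict (A : Finset (ℕ × I)) (s : I → Bool) :
    (noise (ℕ × I)).map (fun W => A.restrict (Y (s, W))) =
      (Measure.pi (fun _ : A => (volume : Measure UI))).withDensity
        (fun t => ∏ β : A, ENNReal.ofReal (wt (s β.1.2) (t β))) := by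
  have hprob : ∀ b, IsProbabilityMeasure (qm (sg b)) := fun b => isProb_qm (by rw [abs_sg])
  have h1 : (noise (ℕ × I)).map (fun W α => Q (s α.2) (W α)) =
      Measure.infinitePi (fun α : ℕ × I => qm (sg (s α.2))) := by
    have := Measure.infinitePi_map_pi (μ := fun _ : ℕ × I => (volume : Measure UI))
      (f := fun α => Q (s α.2)) (fun α => measurable_Q _)
    rw [noise, this]
    congr 1
    ext1 α
    exact map_Q _
  have h2 : (fun W : ℕ × I → UI => A.restrict (Y (s, W))) =
      A.restrict ∘ (fun W α => Q (s α.2) (W α)) := rfl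
  have hm : Measurable (fun (W : ℕ × I → UI) (α : ℕ × I) => Q (s α.2) (W α)) :=
    measurable_pi_lambda _ (fun α => (measurable_Q _).comp (measurable_pi_apply _))
  rw [h2, ← Measure.map_map (Finset.measurable_restrict A) hm, h1, Measure.infinitePi_map_restrict]
  have h3 : ∀ β : A, qm (sg (s β.1.2)) = (volume : Measure UI).withDensity
      (fun t => ENNReal.ofReal (wt (s β.1.2) t)) := fun _ => rfl
  have h4 : ∀ β : A, SigmaFinite ((volume : Measure UI).withDensity
      (fun t : UI => ENNReal.ofReal (wt (s β.1.2) t))) := fun β => by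
    rw [← h3 β]; infer_instance
  have h5 := pi_withDensity (fun _ : A => (volume : Measure UI))
    (fun (β : A) (t : UI) => ENNReal.ofReal (wt (s β.1.2) t)) (fun β => by
      unfold wt; fun_prop)
  exact h5

variable (ν : Measure (I → Bool)) [IsProbabilityMeasure ν]

/-- Weighted integral of `f` against the likelihood of the observations `t` on `A`. -/
noncomputable def numA (A : Finset (ℕ × I)) (f : (I → Bool) → ℝ) (t : A → UI) : ℝ :=
  ∫ s, f s * ∏ β : A, wt (s β.1.2) (t β) ∂ν

lemma measurable_lik (A : Finset (ℕ × I)) :
    Measurable (fun p : (A → UI) × (I → Bool) => ∏ β : A, wt (p.2 β.1.2) (p.1 β)) := by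
  apply Finset.measurable_prod
  intro β _
  have h : Measurable (fun p : (A → UI) × (I → Bool) => ((p.2 β.1.2, ((p.1 β : UI) : ℝ)) : Bool × ℝ)) :=
    ((measurable_pi_apply _).comp measurable_snd).prodMk
      (measurable_subtype_coe.comp ((measurable_pi_apply _).comp measurable_fst))
  exact measurable_wt.comp h

lemma lik_pos (A : Finset (ℕ × I)) (t : A → UI) (s : I → Bool) :
    0 < ∏ β : A, wt (s β.1.2) (t β) := Finset.prod_pos fun β _ => wt_pos _ _

lemma lik_le (A : Finset (ℕ × I)) (t : A → UI) (s : I → Bool) :
    ∏ β : A, wt (s β.1.2) (t β) ≤ 2 ^ A.card := by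
  calc ∏ β : A, wt (s β.1.2) (t β) ≤ ∏ β : A, (2:ℝ) :=
        Finset.prod_le_prod (fun β _ => (wt_pos _ _).le) (fun β _ => wt_le_two _ _)
    _ = 2 ^ A.card := by simp

lemma lik_ge (A : Finset (ℕ × I)) (t : A → UI) (s : I → Bool) :
    (1 / 2) ^ A.card ≤ ∏ β : A, wt (s β.1.2) (t β) := by
  calc (1 / 2) ^ A.card = ∏ β : A, (1 / 2 : ℝ) := by simp
    _ ≤ ∏ β : A, wt (s β.1.2) (t β) :=
        Finset.prod_le_prod (fun β _ => by norm_num) (fun β _ => half_le_wt _ _)

lemma bdd_integrable {X : Type*} [MeasurableSpace X] {μ : Measure X} [IsFiniteMeasure μ]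
    {f : X → ℝ} (hf : Measurable f) (C : ℝ) (hC : ∀ x, |f x| ≤ C) : Integrable f μ :=
  Integrable.of_bound hf.aestronglyMeasurable C (ae_of_all _ fun x => by simpa using hC x)

lemma measurable_numA (A : Finset (ℕ × I)) (f : (I → Bool) → ℝ) (hf : Measurable f) :
    Measurable (numA ν A f) := by
  unfold numA
  have : StronglyMeasurable (fun p : (A → UI) × (I → Bool) => f p.2 * ∏ β : A, wt (p.2 β.1.2) (p.1 β)) :=
    ((hf.comp measurable_snd).mul (measurable_lik A)).stronglyMeasurable
  exact this.integral_prod_right.measurable

/-- The joint law of the hidden configuration and the noise. -/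
noncomputable abbrev jl (ν : Measure (I → Bool)) : Measure ((I → Bool) × (ℕ × I → UI)) :=
  ν.prod (noise (ℕ × I))

lemma master (A : Finset (ℕ × I)) (f : (I → Bool) → ℝ) (hf : Measurable f) (C : ℝ)
    (hC : ∀ s, |f s| ≤ C) (η : (A → UI) → ℝ) (hη : Measurable η) (D : ℝ) (hD : ∀ t, |η t| ≤ D) :
    ∫ ω, f ω.1 * η (A.restrict (Y ω)) ∂(jl ν) =
      ∫ t, η t * numA ν A f t ∂(Measure.pi (fun _ : A => (volume : Measure UI))) := by
  have hmY : Measurable (fun ω : (I → Bool) × (ℕ × I → UI) => A.restrict (Y ω)) :=
    (Finset.measurable_restrict A).comp measurable_Y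
  have hC0 : 0 ≤ C := (abs_nonneg _).trans (hC (fun _ => true))
  have hD0 : 0 ≤ D := (abs_nonneg _).trans (hD (fun _ => 0))
  rw [integral_prod]
  · have h1 : ∀ s, ∫ W, f s * η (A.restrict (Y (s, W))) ∂(noise (ℕ × I)) =
        ∫ t, f s * ((∏ β : A, wt (s β.1.2) (t β)) * η t)
          ∂(Measure.pi (fun _ : A => (volume : Measure UI))) := by
      intro s
      rw [integral_const_mul, integral_const_mul]
      congr 1
      have hm' : Measurable (fun W : ℕ × I → UI => A.restrict (Y (s, W))) :=
        hmY.comp (measurable_const.prodMk measurable_id)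
      rw [← integral_map (φ := fun W : ℕ × I → UI => A.restrict (Y (s, W))) (f := η)
        hm'.aemeasurable hη.aestronglyMeasurable, law_restrict]
      have hden : Measurable (fun t : A → UI => ∏ β : A, ENNReal.ofReal (wt (s β.1.2) (t β))) := by
        apply Finset.measurable_prod
        intro β _
        apply ENNReal.measurable_ofReal.comp
        have h : Measurable (fun t : A → UI => ((s β.1.2, ((t β : UI) : ℝ)) : Bool × ℝ)) :=
          measurable_const.prodMk (measurable_subtype_coe.comp (measurable_pi_apply _))
        exact measurable_wt.comp h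
      rw [integral_withDensity_eq_integral_toReal_smul hden]
      · apply integral_congr_ae
        apply ae_of_all
        intro t
        simp only [smul_eq_mul]
        congr 1
        rw [ENNReal.toReal_prod]
        apply Finset.prod_congr rfl
        intro β _
        rw [ENNReal.toReal_ofReal (wt_pos _ _).le]
      · apply ae_of_all
        intro t
        exact ENNReal.prod_lt_top (fun _ _ => ENNReal.ofReal_lt_top)
    simp_rw [h1]
    rw [integral_integral_swap]
    · apply integral_congr_ae
      apply ae_of_all
      intro t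
      simp only [numA]
      rw [← integral_const_mul]
      apply integral_congr_ae
      apply ae_of_all
      intro s
      simp only
      ring
    · apply bdd_integrable (C := C * (2 ^ A.card * D))
      · have : Measurable (fun p : (I → Bool) × (A → UI) => ∏ β : A, wt (p.1 β.1.2) (p.2 β)) :=
          (measurable_lik A).comp measurable_swap
        exact (hf.comp measurable_fst).mul (this.mul (hη.comp measurable_snd))
      · rintro ⟨s, t⟩
        simp only [Function.uncurry]
        rw [abs_mul, abs_mul, abs_of_pos (lik_pos A t s)]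
        have := lik_le A t s
        have h0 := (lik_pos A t s).le
        gcongr
        · exact hC s
        · exact hD t
  · apply bdd_integrable (C := C * D)
    · exact (hf.comp measurable_fst).mul (hη.comp hmY)
    · intro ω
      rw [abs_mul]
      gcongr
      · exact hC _
      · exact hD _

lemma numA_one_pos (A : Finset (ℕ × I)) (t : A → UI) :
    (1 / 2) ^ A.card ≤ numA ν A (fun _ => 1) t := by
  unfold numA
  simp only [one_mul]
  have hm : Measurable (fun s : I → Bool => ∏ β : A, wt (s β.1.2) (t β)) :=
    (measurable_lik A).comp (measurable_const.prodMk measurable_id)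
  calc (1 / 2 : ℝ) ^ A.card = ∫ s : I → Bool, (1 / 2 : ℝ) ^ A.card ∂ν := by simp
    _ ≤ _ := by
      apply integral_mono
      · exact integrable_const _
      · apply bdd_integrable hm (2 ^ A.card)
        intro s
        rw [abs_of_pos (lik_pos A t s)]
        exact lik_le A t s
      · intro s
        exact lik_ge A t s

lemma abs_numA_le (A : Finset (ℕ × I)) (f : (I → Bool) → ℝ) (hf : Measurable f) (C : ℝ)
    (hC : ∀ s, |f s| ≤ C) (t : A → UI) : |numA ν A f t| ≤ C * numA ν A (fun _ => 1) t := by
  unfold numA
  have hm : Measurable (fun s : I → Bool => ∏ β : A, wt (s β.1.2) (t β)) :=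
    (measurable_lik A).comp (measurable_const.prodMk measurable_id)
  have hC0 : 0 ≤ C := (abs_nonneg _).trans (hC (fun _ => true))
  rw [← integral_const_mul]
  refine (abs_integral_le_integral_abs).trans ?_
  apply integral_mono
  · apply Integrable.abs
    apply bdd_integrable (hf.mul hm) (C * 2 ^ A.card)
    intro s
    simp only [Pi.mul_apply]
    rw [abs_mul, abs_of_pos (lik_pos A t s)]
    have := lik_le A t s
    have h0 := (lik_pos A t s).le
    gcongr
    exact hC s
  · apply bdd_integrable ((measurable_const.mul hm).const_mul _) (C * 2 ^ A.card)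
    intro s
    simp only [Pi.mul_apply]
    rw [one_mul, abs_mul, abs_of_pos (lik_pos A t s), abs_of_nonneg hC0]
    have := lik_le A t s
    gcongr
  · intro s
    simp only [one_mul]
    rw [abs_mul, abs_of_pos (lik_pos A t s)]
    have h0 := (lik_pos A t s).le
    gcongr
    exact hC s

/-- Bayes formula. -/
lemma bayes (A : Finset (ℕ × I)) (f : (I → Bool) → ℝ) (hf : Measurable f) (C : ℝ)
    (hC : ∀ s, |f s| ≤ C) (η : (A → UI) → ℝ) (hη : Measurable η) (D : ℝ) (hD : ∀ t, |η t| ≤ D) :
    ∫ ω, η (A.restrict (Y ω)) * (numA ν A f (A.restrict (Y ω)) /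
        numA ν A (fun _ => 1) (A.restrict (Y ω))) ∂(jl ν) =
      ∫ ω, f ω.1 * η (A.restrict (Y ω)) ∂(jl ν) := by
  have hpos : ∀ t, 0 < numA ν A (fun _ => 1) t := fun t =>
    lt_of_lt_of_le (by positivity) (numA_one_pos ν A t)
  have hD0 : 0 ≤ D := (abs_nonneg _).trans (hD (fun _ => 0))
  rw [master ν A f hf C hC η hη D hD]
  have h := master ν A (fun _ => 1) measurable_const 1 (by simp)
    (fun t => η t * (numA ν A f t / numA ν A (fun _ => 1) t))
    (hη.mul ((measurable_numA ν A f hf).div (measurable_numA ν A _ measurable_const))) (D * C) (by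
      intro t
      rw [abs_mul, abs_div, abs_of_pos (hpos t)]
      have h1 : |numA ν A f t| / numA ν A (fun _ => 1) t ≤ C := by
        rw [div_le_iff₀ (hpos t)]
        exact abs_numA_le ν A f hf C hC t
      have := hD t
      have h2 : 0 ≤ |numA ν A f t| / numA ν A (fun _ => 1) t :=
        div_nonneg (abs_nonneg _) (hpos t).le
      gcongr)
  simp only [one_mul] at h
  rw [h]
  apply integral_congr_ae
  apply ae_of_all
  intro t
  simp only
  have := (hpos t).ne'
  field_simp

end Crest.Agent.H14
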