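import Crest.Agent.H14Rosen

set_option autoImplicit false

/-!
Injectivity of the transform `T` when the posterior functional is Lipschitz with constant `< 4`
with respect to the observations of the current round.
-/

open MeasureTheory ProbabilityTheory Filter Topology

namespace Crest.Agent.H14

variable {I : Type*}

/-- Lipschitz property of a posterior functional in the observations of one round. -/
def LipPost (post : Finset I → (I → Bool → ℝ) → I → ℝ) (C : ℝ) : Prop :=
  ∀ (E : Finset I) (g : I → Bool → ℝ), (∀ i b, 0 < g i b) → ∀ (t t' : I → ℝ),
    (∀ i, t i ∈ Set.Icc (0:ℝ) 1) → (∀ i, t' i ∈ Set.Icc (0:ℝ) 1) → ∀ D : ℝ,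
    (∀ i, |t i - t' i| ≤ D) → ∀ v : I,
    |post E (fun i b => g i b * wt b (t i)) v - post E (fun i b => g i b * wt b (t' i)) v| ≤ C * D

lemma limsup_lip (u w : ℕ → ℝ) (c : ℝ) (h : ∀ n, |clip (u n) - clip (w n)| ≤ c) :
    |limsup (fun n => clip (u n)) atTop - limsup (fun n => clip (w n)) atTop| ≤ c := by
  have key : ∀ u w : ℕ → ℝ, (∀ n, |clip (u n) - clip (w n)| ≤ c) →
      limsup (fun n => clip (u n)) atTop ≤ limsup (fun n => clip (w n)) atTop + c := by
    intro u w h
    obtain ⟨a1, a2, a3⟩ := limsup_clip_bdd u
    obtain ⟨b1, b2, b3⟩ := limsup_clip_bdd w
    have h1 : limsup (fun n => clip (u n)) atTop ≤ limsup (fun n => clip (w n) + c) atTop := by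
      apply limsup_le_limsup
      · apply Eventually.of_forall
        intro n
        have := (abs_le.1 (h n)).2
        linarith
      · exact a2
      · refine isBoundedUnder_of ⟨1 + c, fun n => ?_⟩
        have := (abs_le.1 (abs_clip_le (w n))).2
        linarith
    refine h1.trans (le_of_eq ?_)
    exact limsup_add_const atTop (fun n => clip (w n)) c b1 b2
  rw [abs_le]
  constructor
  · have := key w u (fun n => by rw [abs_sub_comm]; exact h n)
    linarith
  · have := key u w h
    linarith

theorem T_injective (post : Finset I → (I → Bool → ℝ) → I → ℝ) (C : ℝ) (hC : C < 4)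
    (hpost : LipPost post C) (r : I → I → Prop) (N : ℕ → I → Finset I) :
    Function.Injective (T post r N) := by
  classical
  intro y y' hT
  have main : ∀ k, ∀ i, y (k, i) = y' (k, i) := by
    intro k
    induction k using Nat.strong_induction_on with
    | _ k ih =>
      intro i0
      have hne : Nonempty I := ⟨i0⟩
      set d : I → ℝ := fun i => |(y (k, i) : ℝ) - y' (k, i)| with hd
      have hd1 : ∀ i, d i ≤ 1 := by
        intro i
        have h0 := (y (k, i)).2.1
        have h1 := (y (k, i)).2.2
        have h2 := (y' (k, i)).2.1
        have h3 := (y' (k, i)).2.2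
        simp only [hd]
        rw [abs_le]
        constructor <;> linarith
      have hbdd : BddAbove (Set.range d) := ⟨1, by rintro _ ⟨i, rfl⟩; exact hd1 i⟩
      set D : ℝ := ⨆ i, d i with hDdef
      have hdD : ∀ i, d i ≤ D := fun i => le_ciSup hbdd i
      have hD0 : 0 ≤ D := (abs_nonneg _).trans (hdD i0)
      have hstep : ∀ v, d v ≤ C * D / 4 := by
        intro v
        have hTv : T post r N y (k, v) = T post r N y' (k, v) := by rw [hT]
        unfold T at hTv
        have h1 := FI_contract (abs_pmean_le _ _ _ _ _) (abs_pmean_le _ _ _ _ _) hTv
        have h2 : |pmean post r N y (k, v) - pmean post r N y' (k, v)| ≤ C * D := by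
          unfold pmean
          apply limsup_lip
          intro n
          refine (clip_lip _ _).trans ?_
          set g : I → Bool → ℝ := fun i b => ∏ j ∈ Finset.range k, wt b (y (j, i)) with hg
          have hg' : (fun (i : I) (b : Bool) => ∏ j ∈ Finset.range k, wt b (y' (j, i))) = g := by
            ext i b
            simp only [hg]
            apply Finset.prod_congr rfl
            intro j hj
            rw [ih j (Finset.mem_range.1 hj) i]
          have hgpos : ∀ i b, 0 < g i b := fun i b => Finset.prod_pos (fun j _ => wt_pos _ _)
          set t : I → ℝ := fun i => if r i v then ((y (k, i) : UI) : ℝ) else 1 / 2 with ht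
          set t' : I → ℝ := fun i => if r i v then ((y' (k, i) : UI) : ℝ) else 1 / 2 with ht'
          have e1 : wfun r y (k, v) = fun i b => g i b * wt b (t i) := by
            ext i b; rfl
          have e2 : wfun r y' (k, v) = fun i b => g i b * wt b (t' i) := by
            ext i b
            rw [← hg']
            rfl
          rw [e1, e2]
          apply hpost _ g hgpos t t'
          · intro i
            simp only [ht]
            split_ifs
            · exact (y (k, i)).2
            · constructor <;> norm_num
          · intro i
            simp only [ht']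
            split_ifs
            · exact (y' (k, i)).2
            · constructor <;> norm_num
          · intro i
            simp only [ht, ht']
            split_ifs
            · exact hdD i
            · simpa using hD0
        have h3 : d v = |(y (k, v) : ℝ) - y' (k, v)| := rfl
        rw [h3]
        linarith
      have hDle : D ≤ C * D / 4 := ciSup_le hstep
      have hDz : D ≤ 0 := by nlinarith
      have h0 : d i0 ≤ 0 := (hdD i0).trans hDz
      have h1 : |(y (k, i0) : ℝ) - y' (k, i0)| = 0 := le_antisymm h0 (abs_nonneg _)
      have h2 : (y (k, i0) : ℝ) = y' (k, i0) := by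
        have := abs_eq_zero.1 h1
        linarith
      exact Subtype.ext h2
  ext1 ⟨k, i⟩
  exact main k i

end Crest.Agent.H14
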