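import Crest.Agent.H14Read
import Crest.Agent.H14Contract

set_option autoImplicit false

/-!
Inversion of the transform: a measurable left inverse and the law of its output.
-/

open MeasureTheory ProbabilityTheory Filter Topology

namespace Crest.Agent.H14

variable {I : Type*} {Θ : Type*} [MeasurableSpace Θ]

/-- The joint transform keeping the order parameter. -/
noncomputable def Psi (ν : Measure (I → Bool)) (r : Θ → I → I → Prop) (N : ℕ → I → Finset I) :
    Θ × (ℕ × I → UI) → Θ × (ℕ × I → UI) :=
  fun p => (p.1, T (postν ν) (r p.1) N p.2)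

omit [MeasurableSpace Θ] in
lemma Psi_injective (ν : Measure (I → Bool)) (C : ℝ) (hC : C < 4) (hL : LipPost (postν ν) C)
    (r : Θ → I → I → Prop) (N : ℕ → I → Finset I) : Function.Injective (Psi ν r N) := by
  rintro ⟨θ, y⟩ ⟨θ', y'⟩ h
  unfold Psi at h
  simp only [Prod.mk.injEq] at h
  obtain ⟨rfl, h2⟩ := h
  rw [T_injective (postν ν) C hC hL (r θ) N h2]

lemma measurable_Psi (ν : Measure (I → Bool)) [IsProbabilityMeasure ν] (r : Θ → I → I → Prop)
    (hrm : ∀ i j, MeasurableSet {θ | r θ i j}) (N : ℕ → I → Finset I) :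
    Measurable (Psi ν r N) :=
  measurable_fst.prodMk (measurable_T_joint ν r hrm N)

open Classical in
/-- The output map: invert the transform on its range and read off the configuration. -/
noncomputable def outMap (ν : Measure (I → Bool)) (r : Θ → I → I → Prop) (N : ℕ → I → Finset I)
    (q : Θ × (ℕ × I → UI)) : I → Bool :=
  if h : ∃ p, Psi ν r N p = q then readout (Classical.choose h).2 else fun _ => false

lemma outMap_Psi (ν : Measure (I → Bool)) (C : ℝ) (hC : C < 4) (hL : LipPost (postν ν) C)
    (r : Θ → I → I → Prop) (N : ℕ → I → Finset I) (p : Θ × (ℕ × I → UI)) :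
    outMap ν r N (Psi ν r N p) = readout p.2 := by
  have h : ∃ p', Psi ν r N p' = Psi ν r N p := ⟨p, rfl⟩
  unfold outMap
  rw [dif_pos h]
  have := Psi_injective ν C hC hL r N (Classical.choose_spec h)
  rw [this]

lemma measurable_outMap [Countable I] [StandardBorelSpace Θ] (ν : Measure (I → Bool))
    [IsProbabilityMeasure ν] (C : ℝ) (hC : C < 4) (hL : LipPost (postν ν) C)
    (r : Θ → I → I → Prop) (hrm : ∀ i j, MeasurableSet {θ | r θ i j}) (N : ℕ → I → Finset I) :
    Measurable (outMap ν r N) := by
  classical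
  have hemb : MeasurableEmbedding (Psi ν r N) :=
    (measurable_Psi ν r hrm N).measurableEmbedding (Psi_injective ν C hC hL r N)
  rcases isEmpty_or_nonempty Θ with hΘ | hΘ
  · have : IsEmpty (Θ × (ℕ × I → UI)) := inferInstance
    exact measurable_of_empty _
  have e : outMap ν r N = fun q =>
      if q ∈ Set.range (Psi ν r N) then readout (hemb.invFun q).2 else fun _ => false := by
    ext1 q
    by_cases hq : q ∈ Set.range (Psi ν r N)
    · obtain ⟨p, rfl⟩ := hq
      rw [outMap_Psi ν C hC hL, if_pos ⟨p, rfl⟩, hemb.leftInverse_invFun p]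
    · rw [if_neg hq]
      unfold outMap
      have hq' : ¬ ∃ p, Psi ν r N p = q := hq
      rw [dif_neg hq']
  rw [e]
  exact Measurable.ite hemb.measurableSet_range
    (measurable_readout.comp (measurable_snd.comp hemb.measurable_invFun)) measurable_const

/-- The law of the output. -/
theorem map_outMap [Countable I] [StandardBorelSpace Θ] (ν : Measure (I → Bool))
    [IsProbabilityMeasure ν] (C : ℝ) (hC : C < 4) (hL : LipPost (postν ν) C)
    (r : Θ → I → I → Prop) (hrm : ∀ i j, MeasurableSet {θ | r θ i j}) (N : ℕ → I → Finset I)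
    (κ : Measure Θ) [IsProbabilityMeasure κ]
    (htot : ∀ᵐ θ ∂κ, IsStrictTotalOrder I (r θ))
    (hN : ∀ v, Monotone (fun n => N n v)) (hex : ∀ v i, ∃ n, i ∈ N n v) :
    (κ.prod (noise (ℕ × I))).map (outMap ν r N) = ν := by
  have h1 := rosenblatt_random ν r hrm κ htot N hN hex
  have hm := measurable_outMap ν C hC hL r hrm N
  have hTY := measurable_TY_joint ν r hrm N
  have hrY : Measurable (fun ω : (I → Bool) × (ℕ × I → UI) => readout (Y ω)) :=
    measurable_readout.comp measurable_Y
  have e : outMap ν r N ∘ (fun p : Θ × ((I → Bool) × (ℕ × I → UI)) =>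
      (p.1, T (postν ν) (r p.1) N (Y p.2))) =
      (fun ω : (I → Bool) × (ℕ × I → UI) => readout (Y ω)) ∘ Prod.snd := by
    ext1 p
    exact outMap_Psi ν C hC hL r N (p.1, Y p.2)
  calc (κ.prod (noise (ℕ × I))).map (outMap ν r N)
      = ((κ.prod (jl ν)).map (fun p => (p.1, T (postν ν) (r p.1) N (Y p.2)))).map
          (outMap ν r N) := by rw [h1]
    _ = (κ.prod (jl ν)).map ((fun ω : (I → Bool) × (ℕ × I → UI) => readout (Y ω)) ∘ Prod.snd) := by
        rw [Measure.map_map hm hTY, e]
    _ = ν := by
        rw [← Measure.map_map hrY measurable_snd]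
        have : (κ.prod (jl ν)).map Prod.snd = jl ν := by
          rw [← Measure.snd]; exact Measure.snd_prod
        rw [this, map_readout]

end Crest.Agent.H14
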