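import Crest.Agent.H14UstDefs
import Crest.Agent.H14Factor

set_option autoImplicit false

/-!
Transport of tilted means, posterior functionals and of the transform `T` along embeddings of
the index sets, and the canonical posterior functional on pairs of vertices.
-/

open MeasureTheory Filter Topology Finset

namespace Crest.Agent.H14

section embedding

variable {I J : Type*}

lemma sum_powerset_map (f : I ↪ J) (F : Finset I) (H : Finset J → ℝ) :
    ∑ S ∈ (F.map f).powerset, H S = ∑ S ∈ F.powerset, H (S.map f) := by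
  classical
  symm
  refine Finset.sum_bij (fun S _ => S.map f) ?_ ?_ ?_ ?_
  · intro S hS
    rw [Finset.mem_powerset] at hS ⊢
    exact Finset.map_subset_map.2 hS
  · intro S _ S' _ h
    exact Finset.map_injective f h
  · intro R hR
    rw [Finset.mem_powerset] at hR
    obtain ⟨S, hS, rfl⟩ := Finset.subset_map_iff.1 hR
    exact ⟨S, Finset.mem_powerset.2 hS, rfl⟩
  · intro S _
    rfl

variable [DecidableEq I] [DecidableEq J]

omit [DecidableEq I] [DecidableEq J] in
lemma tot_map (f : I ↪ J) (F : Finset I) (w : Finset J → ℝ) :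
    tot (F.map f) w = tot F (fun S => w (S.map f)) := sum_powerset_map f F w

lemma inc_map (f : I ↪ J) (F : Finset I) (w : Finset J → ℝ) (v : I) :
    inc (F.map f) w (f v) = inc F (fun S => w (S.map f)) v := by
  unfold inc
  rw [sum_powerset_map]
  apply Finset.sum_congr rfl
  intro S _
  simp only [Finset.mem_map']

omit [DecidableEq I] [DecidableEq J] in
lemma tilt_map (f : I ↪ J) (w : Finset J → ℝ) (x : J → ℝ) (S : Finset I) :
    tilt w x (S.map f) = tilt (fun S => w (S.map f)) (x ∘ f) S := by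
  unfold tilt
  rw [Finset.prod_map]
  rfl

lemma tmean_map (f : I ↪ J) (F : Finset I) (w : Finset J → ℝ) (v : I) (x : J → ℝ) :
    tmean (F.map f) w (f v) x = tmean F (fun S => w (S.map f)) v (x ∘ f) := by
  unfold tmean
  rw [tot_map, inc_map]
  simp only [tilt_map]

lemma tmean_congr_w {F : Finset I} {w w' : Finset I → ℝ} (h : ∀ S ∈ F.powerset, w S = w' S)
    (v : I) (x : I → ℝ) : tmean F w v x = tmean F w' v x := by
  have h1 : tot F (tilt w x) = tot F (tilt w' x) := by
    unfold tot
    apply Finset.sum_congr rfl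
    intro S hS
    unfold tilt
    rw [h S hS]
  have h2 : inc F (tilt w x) v = inc F (tilt w' x) v := by
    unfold inc
    apply Finset.sum_congr rfl
    intro S hS
    unfold tilt
    rw [h S hS]
  unfold tmean
  rw [h1, h2]

lemma odds_map (f : I ↪ J) (E : Finset I) (g : J → Bool → ℝ) :
    odds (E.map f) g ∘ f = odds E (g ∘ f) := by
  ext i
  unfold odds
  simp only [Function.comp, Finset.mem_map']

end embedding

section Tmap

variable {I J : Type*}

lemma wfun_pos (r : I → I → Prop) (y : ℕ × I → UI) (α : ℕ × I) (i : I) (b : Bool) :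
    0 < wfun r y α i b := by
  classical
  unfold wfun
  apply mul_pos
  · exact Finset.prod_pos fun j _ => wt_pos _ _
  · split_ifs
    · exact wt_pos _ _
    · have := wt_pos b (⟨1 / 2, by norm_num, by norm_num⟩ : UI)
      exact this

lemma wfun_map (f : I ↪ J) (rI : I → I → Prop) (rJ : J → J → Prop)
    (hr : ∀ i j, rJ (f i) (f j) ↔ rI i j) (y : ℕ × J → UI) (k : ℕ) (v : I) :
    wfun rJ y (k, f v) ∘ f = wfun rI (fun α => y (α.1, f α.2)) (k, v) := by
  classical
  ext i b
  unfold wfun
  simp only [Function.comp, hr]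

lemma T_map (f : I ↪ J) (postI : Finset I → (I → Bool → ℝ) → I → ℝ)
    (postJ : Finset J → (J → Bool → ℝ) → J → ℝ)
    (rI : I → I → Prop) (rJ : J → J → Prop) (NI : ℕ → I → Finset I) (NJ : ℕ → J → Finset J)
    (hr : ∀ i j, rJ (f i) (f j) ↔ rI i j)
    (hN : ∀ n v, NJ n (f v) = (NI n v).map f)
    (hpost : ∀ (E : Finset I) (g : J → Bool → ℝ), (∀ i b, 0 < g i b) → ∀ v,
      postJ (E.map f) g (f v) = postI E (g ∘ f) v)
    (y : ℕ × J → UI) (k : ℕ) (v : I) :
    T postJ rJ NJ y (k, f v) = T postI rI NI (fun α => y (α.1, f α.2)) (k, v) := by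
  unfold T
  simp only
  congr 1
  unfold pmean
  congr 1
  ext n
  rw [hN, hpost _ _ (fun i b => wfun_pos rJ y (k, f v) i b), wfun_map f rI rJ hr]

end Tmap

/-! ### The canonical posterior -/

section canonical

variable (G : SimpleGraph ℕ)

/-- Marginal weights from the inclusion probabilities. -/
noncomputable def margG (F S : Finset (Sym2 ℕ)) : ℝ :=
  ∑ R ∈ (F \ S).powerset, (-1 : ℝ) ^ R.card * pinc G (S ∪ R)

/-- The canonical posterior functional. -/
noncomputable def postG (E : Finset (Sym2 ℕ)) (g : Sym2 ℕ → Bool → ℝ) (v : Sym2 ℕ) : ℝ :=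
  tmean (insert v E) (margG G (insert v E)) v (odds E g)

/-- Inclusion-exclusion. -/
lemma marg_eq_sum {I : Type*} [DecidableEq I] (ν : Measure (I → Bool)) [IsProbabilityMeasure ν]
    (F S : Finset I) (hS : S ⊆ F) :
    marg ν F S = ∑ R ∈ (F \ S).powerset, (-1 : ℝ) ^ R.card *
      (ν {ω | ∀ e ∈ S ∪ R, ω e = true}).toReal := by
  have hcylm : ∀ R : Finset I, MeasurableSet {ω : I → Bool | ∀ e ∈ R, ω e = true} := by
    intro R
    have : {ω : I → Bool | ∀ i ∈ R, ω i = true} =
        ⋂ i ∈ R, (fun ω : I → Bool => ω i) ⁻¹' {b | b = true} := by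
      ext ω; simp
    rw [this]
    exact R.measurableSet_biInter (fun i _ => (measurable_pi_apply i) (MeasurableSet.of_discrete))
  set χ : (I → Bool) → I → ℝ := fun ω i => if ω i = true then 1 else 0 with hχ
  have hχR : ∀ (R : Finset I) (ω : I → Bool), ∏ i ∈ R, χ ω i =
      {ω : I → Bool | ∀ e ∈ R, ω e = true}.indicator (fun _ => (1:ℝ)) ω := by
    intro R ω
    by_cases h : ∀ e ∈ R, ω e = true
    · rw [Set.indicator_of_mem (show ω ∈ {ω : I → Bool | ∀ e ∈ R, ω e = true} from h)]
      apply Finset.prod_eq_one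
      intro i hi
      simp [hχ, h i hi]
    · rw [Set.indicator_of_notMem (show ω ∉ {ω : I → Bool | ∀ e ∈ R, ω e = true} from h)]
      push Not at h
      obtain ⟨i, hi, hne⟩ := h
      apply Finset.prod_eq_zero hi
      simp [hχ, hne]
  have hexp : ∀ ω : I → Bool,
      {ω : I → Bool | ∀ i ∈ F, (ω i = true ↔ i ∈ S)}.indicator (fun _ => (1:ℝ)) ω =
      ∑ R ∈ (F \ S).powerset, (-1 : ℝ) ^ R.card *
        {ω : I → Bool | ∀ e ∈ S ∪ R, ω e = true}.indicator (fun _ => (1:ℝ)) ω := by
    intro ω
    have h1 : {ω : I → Bool | ∀ i ∈ F, (ω i = true ↔ i ∈ S)}.indicator (fun _ => (1:ℝ)) ω =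
        (∏ i ∈ S, χ ω i) * ∏ i ∈ F \ S, (-χ ω i + 1) := by
      by_cases h : ∀ i ∈ F, (ω i = true ↔ i ∈ S)
      · rw [Set.indicator_of_mem
          (show ω ∈ {ω : I → Bool | ∀ i ∈ F, (ω i = true ↔ i ∈ S)} from h)]
        rw [Finset.prod_eq_one, Finset.prod_eq_one, one_mul]
        · intro i hi
          rw [Finset.mem_sdiff] at hi
          have : ¬ ω i = true := fun hh => hi.2 ((h i hi.1).1 hh)
          simp [hχ, this]
        · intro i hi
          have : ω i = true := (h i (hS hi)).2 hi
          simp [hχ, this]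
      · rw [Set.indicator_of_notMem
          (show ω ∉ {ω : I → Bool | ∀ i ∈ F, (ω i = true ↔ i ∈ S)} from h)]
        push Not at h
        obtain ⟨i, hi, hne⟩ := h
        by_cases hiS : i ∈ S
        · have : ¬ ω i = true := by
            rcases hne with ⟨_, h2⟩ | ⟨h1, _⟩
            · exact absurd hiS h2
            · exact h1
          rw [Finset.prod_eq_zero hiS (by simp [hχ, this]), zero_mul]
        · have : ω i = true := by
            rcases hne with ⟨h1, _⟩ | ⟨_, h2⟩
            · exact h1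
            · exact absurd h2 hiS
          rw [Finset.prod_eq_zero (Finset.mem_sdiff.2 ⟨hi, hiS⟩) (by simp [hχ, this]), mul_zero]
    rw [h1, Finset.prod_add_one, Finset.mul_sum]
    apply Finset.sum_congr rfl
    intro R hR
    have hd : Disjoint S R := by
      rw [Finset.mem_powerset] at hR
      exact (Finset.disjoint_sdiff (s := S) (t := F)).mono_right hR
    rw [← hχR, Finset.prod_union hd, Finset.prod_neg]
    ring
  have h2 : marg ν F S = ∫ ω, {ω : I → Bool | ∀ i ∈ F, (ω i = true ↔ i ∈ S)}.indicator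
      (fun _ => (1:ℝ)) ω ∂ν := by
    rw [integral_indicator_const _ (measurableSet_cyl F S)]
    simp [marg, Measure.real]
  rw [h2, integral_congr_ae (ae_of_all ν hexp), integral_finsetSum]
  · apply Finset.sum_congr rfl
    intro R _
    rw [integral_const_mul, integral_indicator_const _ (hcylm _)]
    simp [Measure.real]
  · intro R _
    exact ((integrable_const _).indicator (hcylm _)).const_mul _

variable {G}

/-- Edges as an embedded subtype. -/
def edgeEmb (G : SimpleGraph ℕ) : ↥G.edgeSet ↪ Sym2 ℕ := Function.Embedding.subtype (· ∈ G.edgeSet)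

lemma edgeEmb_apply (i : ↥G.edgeSet) : edgeEmb G i = i.1 := rfl

variable (ν : Measure (↥G.edgeSet → Bool)) [IsProbabilityMeasure ν]
  (hν : ∀ F : Finset ↥G.edgeSet, (ν {ω | ∀ e ∈ F, ω e = true}).toReal =
    pinc G (F.map (edgeEmb G)))

include hν in
lemma margG_map (F S : Finset ↥G.edgeSet) (hS : S ⊆ F) :
    margG G (F.map (edgeEmb G)) (S.map (edgeEmb G)) = marg ν F S := by
  rw [marg_eq_sum ν F S hS]
  unfold margG
  rw [← Finset.map_sdiff, sum_powerset_map]
  apply Finset.sum_congr rfl
  intro R _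
  rw [Finset.card_map, ← Finset.map_union, ← hν]

include hν in
lemma postG_map (E : Finset ↥G.edgeSet) (g : Sym2 ℕ → Bool → ℝ) (hg : ∀ i b, 0 < g i b)
    (v : ↥G.edgeSet) :
    postG G (E.map (edgeEmb G)) g (edgeEmb G v) = postν ν E (g ∘ edgeEmb G) v := by
  rw [postν_eq_tmean ν E (g ∘ edgeEmb G) (fun i b => hg (edgeEmb G i) b) v]
  unfold postG
  rw [← Finset.map_insert, tmean_map, odds_map]
  apply tmean_congr_w
  intro S hS
  exact margG_map ν hν _ _ (Finset.mem_powerset.1 hS)

lemma margG_perm (σ : Equiv.Perm ℕ)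
    (hp : ∀ F, pinc (G.comap σ) F = pinc G (F.map (symEmb σ))) (F S : Finset (Sym2 ℕ)) :
    margG (G.comap σ) F S = margG G (F.map (symEmb σ)) (S.map (symEmb σ)) := by
  unfold margG
  rw [← Finset.map_sdiff, sum_powerset_map]
  apply Finset.sum_congr rfl
  intro R _
  rw [Finset.card_map, ← Finset.map_union, hp]

lemma postG_perm (σ : Equiv.Perm ℕ)
    (hp : ∀ F, pinc (G.comap σ) F = pinc G (F.map (symEmb σ))) (E : Finset (Sym2 ℕ))
    (g : Sym2 ℕ → Bool → ℝ) (v : Sym2 ℕ) :
    postG G (E.map (symEmb σ)) g (symEmb σ v) = postG (G.comap σ) E (g ∘ symEmb σ) v := by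
  unfold postG
  rw [← Finset.map_insert, tmean_map, odds_map]
  apply tmean_congr_w
  intro S _
  exact (margG_perm σ hp _ _).symm

end canonical

end Crest.Agent.H14
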