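import Crest.Agent.H14Windows
import Crest.Agent.H14Trans
import Crest.Prelude.Def_Labels

set_option autoImplicit false

/-!
The rule producing the free uniform spanning forest from vertex labels, for all graphs at once.
-/

open MeasureTheory ProbabilityTheory Filter Topology
open Crest.ProbabilityR.GraphTables

namespace Crest.Agent.H14

/-- `y` solves the inversion problem for the graph `G` and the labels `x`. -/
def Sol (G : SimpleGraph ℕ) (x : ℕ → UI) (y : ℕ × Sym2 ℕ → UI) : Prop :=
  Good G ∧ (∀ k e, e ∉ G.edgeSet → y (k, e) = 0) ∧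
    ∀ k e, e ∈ G.edgeSet → T (postG G) (rU (Ux x)) (NG G) y (k, e) = VV G (Ux x) (Wx x) (k, e)

/-- The constant field `1/2`. -/
noncomputable def halfY {I : Type*} : ℕ × I → UI := fun _ => ⟨1 / 2, by norm_num, by norm_num⟩

lemma readout_half {I : Type*} (v : I) : readout (halfY : ℕ × I → UI) v = false := by
  simp [readout, halfY]

open Classical in
/-- The rule. -/
noncomputable def PhiG (G : SimpleGraph ℕ) (x : ℕ → UI) : Sym2 ℕ → Bool :=
  readout (if h : ∃ y, Sol G x y then Classical.choose h else halfY)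

/-! ### Measurability -/

section meas

/-- Parameter space. -/
abbrev PS : Type := ((ℕ → ℕ → Bool) × (ℕ → UI)) × (ℕ × Sym2 ℕ → UI)

variable (hpm : ∀ F, Measurable (fun A : ℕ → ℕ → Bool => pinc (graphOfTable A) F))

include hpm in
lemma measurable_margG (F S : Finset (Sym2 ℕ)) :
    Measurable (fun A : ℕ → ℕ → Bool => margG (graphOfTable A) F S) := by
  unfold margG
  apply Finset.measurable_sum
  intro R _
  exact (hpm _).const_mul _

lemma measurable_wfunP (k : ℕ) (e i : Sym2 ℕ) (b : Bool) :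
    Measurable (fun p : PS => wfun (rU (Ux p.1.2)) p.2 (k, e) i b) := by
  have h := measurable_wfun_joint (Θ := ℕ → UI) rU measurableSet_rU (k, e) i
  have h2 : Measurable (fun p : PS => (((Ux p.1.2, p.2), b) : ((ℕ → UI) × (ℕ × Sym2 ℕ → UI)) × Bool)) :=
    ((measurable_Ux.comp (measurable_snd.comp measurable_fst)).prodMk measurable_snd).prodMk
      measurable_const
  exact h.comp h2

include hpm in
lemma measurable_postGP (E : Finset (Sym2 ℕ)) (k : ℕ) (e : Sym2 ℕ) :
    Measurable (fun p : PS => postG (graphOfTable p.1.1) E (wfun (rU (Ux p.1.2)) p.2 (k, e)) e) := by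
  have hodds : ∀ i, Measurable (fun p : PS => odds E (wfun (rU (Ux p.1.2)) p.2 (k, e)) i) := by
    intro i
    unfold odds
    by_cases hi : i ∈ E
    · simp only [if_pos hi]
      exact (measurable_wfunP k e i true).div (measurable_wfunP k e i false)
    · simp only [if_neg hi]
      exact measurable_const
  have htilt : ∀ S, Measurable (fun p : PS => tilt (margG (graphOfTable p.1.1) (insert e E))
      (odds E (wfun (rU (Ux p.1.2)) p.2 (k, e))) S) := by
    intro S
    unfold tilt
    apply Measurable.mul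
    · exact (measurable_margG hpm _ _).comp (measurable_fst.comp measurable_fst)
    · apply Finset.measurable_prod
      intro i _
      exact hodds i
  have htot : Measurable (fun p : PS => tot (insert e E) (tilt (margG (graphOfTable p.1.1)
      (insert e E)) (odds E (wfun (rU (Ux p.1.2)) p.2 (k, e))))) := by
    unfold tot
    apply Finset.measurable_sum
    intro S _
    exact htilt S
  have hinc : Measurable (fun p : PS => inc (insert e E) (tilt (margG (graphOfTable p.1.1)
      (insert e E)) (odds E (wfun (rU (Ux p.1.2)) p.2 (k, e)))) e) := by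
    unfold inc
    apply Finset.measurable_sum
    intro S _
    by_cases hS : e ∈ S
    · simp only [if_pos hS]
      exact htilt S
    · simp only [if_neg hS]
      exact measurable_const
  unfold postG tmean
  exact ((hinc.const_mul 2).sub htot).div htot

include hpm in
lemma measurable_TP (α : ℕ × Sym2 ℕ) :
    Measurable (fun p : PS => T (postG (graphOfTable p.1.1)) (rU (Ux p.1.2))
      (NG (graphOfTable p.1.1)) p.2 α) := by
  obtain ⟨k, e⟩ := α
  unfold T
  have h0 : ∀ n, Measurable (fun p : PS => postG (graphOfTable p.1.1)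
      (NG (graphOfTable p.1.1) n e) (wfun (rU (Ux p.1.2)) p.2 (k, e)) e) := by
    intro n
    apply measurable_dispatch (fun p : PS => NG (graphOfTable p.1.1) n e)
      (fun C => (measurable_fst.comp measurable_fst) (measurableSet_NG n e C))
      (fun E p => postG (graphOfTable p.1.1) E (wfun (rU (Ux p.1.2)) p.2 (k, e)) e)
    intro E
    exact measurable_postGP hpm E k e
  have h1 : Measurable (fun p : PS => pmean (postG (graphOfTable p.1.1)) (rU (Ux p.1.2))
      (NG (graphOfTable p.1.1)) p.2 (k, e)) := by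
    unfold pmean
    exact Measurable.limsup (fun n => continuous_clip.measurable.comp (h0 n))
  have h : Measurable (fun p : PS => ((pmean (postG (graphOfTable p.1.1)) (rU (Ux p.1.2))
      (NG (graphOfTable p.1.1)) p.2 (k, e), p.2 (k, e)) : ℝ × UI)) :=
    h1.prodMk ((measurable_pi_apply _).comp measurable_snd)
  exact measurable_FI.comp h

include hpm in
lemma measurableSet_Sol :
    MeasurableSet {p : PS | Sol (graphOfTable p.1.1) p.1.2 p.2} := by
  have hedge : ∀ e : Sym2 ℕ, MeasurableSet {p : PS | e ∈ (graphOfTable p.1.1).edgeSet} :=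
    fun e => (measurable_fst.comp measurable_fst) (measurableSet_edge e)
  have hV : ∀ α, Measurable (fun p : PS => VV (graphOfTable p.1.1) (Ux p.1.2) (Wx p.1.2) α) := by
    intro α
    have h : Measurable (fun p : PS => (((p.1.1, Ux p.1.2), Wx p.1.2) :
        ((ℕ → ℕ → Bool) × (ℕ → UI)) × (ℕ × ℕ → UI))) :=
      ((measurable_fst.comp measurable_fst).prodMk
        (measurable_Ux.comp (measurable_snd.comp measurable_fst))).prodMk
        (measurable_Wx.comp (measurable_snd.comp measurable_fst))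
    exact (measurable_VV α).comp h
  have : {p : PS | Sol (graphOfTable p.1.1) p.1.2 p.2} = {p : PS | Good (graphOfTable p.1.1)} ∩
      ((⋂ k : ℕ, ⋂ e : Sym2 ℕ, ({p : PS | e ∈ (graphOfTable p.1.1).edgeSet} ∪
        {p : PS | p.2 (k, e) = 0})) ∩
      (⋂ k : ℕ, ⋂ e : Sym2 ℕ, ({p : PS | e ∈ (graphOfTable p.1.1).edgeSet}ᶜ ∪
        {p : PS | T (postG (graphOfTable p.1.1)) (rU (Ux p.1.2)) (NG (graphOfTable p.1.1)) p.2 (k, e)
          = VV (graphOfTable p.1.1) (Ux p.1.2) (Wx p.1.2) (k, e)}))) := by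
    ext p
    simp only [Set.mem_ofPred_eq, Set.mem_inter_iff, Set.mem_iInter, Set.mem_union,
      Set.mem_compl_iff, Sol]
    constructor
    · rintro ⟨h1, h2, h3⟩
      refine ⟨h1, fun k e => ?_, fun k e => ?_⟩
      · by_cases h : e ∈ (graphOfTable p.1.1).edgeSet
        · exact Or.inl h
        · exact Or.inr (h2 k e h)
      · by_cases h : e ∈ (graphOfTable p.1.1).edgeSet
        · exact Or.inr (h3 k e h)
        · exact Or.inl h
    · rintro ⟨h1, h2, h3⟩
      refine ⟨h1, fun k e he => (h2 k e).resolve_left he,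
        fun k e he => (h3 k e).resolve_left (fun h => h he)⟩
  rw [this]
  apply MeasurableSet.inter
  · exact (measurable_fst.comp measurable_fst) measurableSet_good
  apply MeasurableSet.inter
  · refine MeasurableSet.iInter fun k => MeasurableSet.iInter fun e => (hedge e).union ?_
    exact measurableSet_eq_fun ((measurable_pi_apply (k, e)).comp measurable_snd) measurable_const
  · refine MeasurableSet.iInter fun k => MeasurableSet.iInter fun e => (hedge e).compl.union ?_
    exact measurableSet_eq_fun (measurable_TP hpm (k, e)) (hV (k, e))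

end meas

/-! ### Restriction to the edges of a fixed graph -/

section fixed

variable {G : SimpleGraph ℕ}

open Classical in
/-- Windows on the edge subtype. -/
noncomputable def NI (G : SimpleGraph ℕ) (n : ℕ) (i : ↥G.edgeSet) : Finset ↥G.edgeSet :=
  (NG G n i.1).subtype (· ∈ G.edgeSet)

lemma NI_map (n : ℕ) (i : ↥G.edgeSet) : NG G n (edgeEmb G i) = (NI G n i).map (edgeEmb G) := by
  classical
  unfold NI edgeEmb
  rw [Finset.subtype_map]
  ext f
  rw [Finset.mem_filter]
  constructor
  · intro h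
    exact ⟨h, NG_subset G n _ f h⟩
  · rintro ⟨h, _⟩
    exact h

lemma mem_NI (n : ℕ) (i j : ↥G.edgeSet) : j ∈ NI G n i ↔ j.1 ∈ NG G n i.1 := by
  classical
  unfold NI
  rw [Finset.mem_subtype]

/-- Order on the edge subtype. -/
def rI (G : SimpleGraph ℕ) (U : ℕ → UI) (i j : ↥G.edgeSet) : Prop := rU U i.1 j.1

variable (ν : Measure (↥G.edgeSet → Bool)) [IsProbabilityMeasure ν]
  (hν : ∀ F : Finset ↥G.edgeSet, (ν {ω | ∀ e ∈ F, ω e = true}).toReal =
    pinc G (F.map (edgeEmb G)))

include hν in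
lemma T_restrict (U : ℕ → UI) (y : ℕ × Sym2 ℕ → UI) (k : ℕ) (i : ↥G.edgeSet) :
    T (postG G) (rU U) (NG G) y (k, i.1) =
      T (postν ν) (rI G U) (NI G) (fun α => y (α.1, α.2.1)) (k, i) :=
  T_map (edgeEmb G) (postν ν) (postG G) (rI G U) (rU U) (NI G) (NG G) (fun _ _ => Iff.rfl)
    NI_map (postG_map ν hν) y k i

/-- Noise on the edges of `G`. -/
noncomputable def VI (G : SimpleGraph ℕ) (x : ℕ → UI) : ℕ × ↥G.edgeSet → UI :=
  fun α => VV G (Ux x) (Wx x) (α.1, α.2.1)

include hν in
lemma Psi_of_sol {x : ℕ → UI} {y : ℕ × Sym2 ℕ → UI} (h : Sol G x y) :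
    Psi ν (rI G) (NI G) (Ux x, fun α => y (α.1, α.2.1)) = (Ux x, VI G x) := by
  unfold Psi
  simp only [Prod.mk.injEq, true_and]
  ext1 ⟨k, i⟩
  rw [← T_restrict ν hν]
  exact h.2.2 k i.1 i.2

open Classical in
include hν in
lemma sol_of_Psi (hG : Good G) {x : ℕ → UI} {p : (ℕ → UI) × (ℕ × ↥G.edgeSet → UI)}
    (h : Psi ν (rI G) (NI G) p = (Ux x, VI G x)) :
    Sol G x (fun α => if he : α.2 ∈ G.edgeSet then p.2 (α.1, ⟨α.2, he⟩) else 0) := by
  unfold Psi at h
  simp only [Prod.mk.injEq] at h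
  obtain ⟨h1, h2⟩ := h
  refine ⟨hG, ?_, ?_⟩
  · intro k e he
    simp only
    rw [dif_neg he]
  · intro k e he
    have := T_restrict ν hν (Ux x)
      (fun α => if he : α.2 ∈ G.edgeSet then p.2 (α.1, ⟨α.2, he⟩) else 0) k ⟨e, he⟩
    rw [this]
    have e1 : (fun α : ℕ × ↥G.edgeSet => (fun α : ℕ × Sym2 ℕ => if he : α.2 ∈ G.edgeSet then
        p.2 (α.1, ⟨α.2, he⟩) else 0) (α.1, α.2.1)) = p.2 := by
      ext1 ⟨k, i, hi⟩
      simp only
      rw [dif_pos hi]
    rw [e1]
    have h2' : T (postν ν) (rI G (Ux x)) (NI G) p.2 = VI G x := by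
      rw [← h1]
      rw [h2]
    rw [h2']
    rfl

include hν in
lemma sol_unique (C : ℝ) (hC : C < 4) (hL : LipPost (postν ν) C) {x : ℕ → UI}
    {y y' : ℕ × Sym2 ℕ → UI} (h : Sol G x y) (h' : Sol G x y') : y = y' := by
  have h1 := Psi_of_sol ν hν h
  have h2 := Psi_of_sol ν hν h'
  have h3 := Psi_injective ν C hC hL (rI G) (NI G) (h1.trans h2.symm)
  simp only [Prod.mk.injEq, true_and] at h3
  ext1 ⟨k, e⟩
  by_cases he : e ∈ G.edgeSet
  · exact congrFun h3 (k, ⟨e, he⟩)
  · rw [h.2.1 k e he, h'.2.1 k e he]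

include hν in
lemma PhiG_eq (C : ℝ) (hC : C < 4) (hL : LipPost (postν ν) C) (hG : Good G) (x : ℕ → UI)
    (i : ↥G.edgeSet) :
    PhiG G x i.1 = outMap ν (rI G) (NI G) (Ux x, VI G x) i := by
  classical
  by_cases hs : ∃ y, Sol G x y
  · unfold PhiG
    rw [dif_pos hs]
    have h1 := Psi_of_sol ν hν (Classical.choose_spec hs)
    rw [← h1, outMap_Psi ν C hC hL]
    rfl
  · unfold PhiG
    rw [dif_neg hs, readout_half]
    have : ¬ ∃ p, Psi ν (rI G) (NI G) p = (Ux x, VI G x) := by
      rintro ⟨p, hp⟩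
      exact hs ⟨_, sol_of_Psi ν hν hG hp⟩
    unfold outMap
    rw [dif_neg this]

include hν in
/-- The law of the output on a good graph. -/
theorem law_PhiG (C : ℝ) (hC : C < 4) (hL : LipPost (postν ν) C) (hG : Good G)
    (hmeas : Measurable (PhiG G)) (F : Finset (Sym2 ℕ)) (hF : (F : Set (Sym2 ℕ)) ⊆ G.edgeSet) :
    (((noise ℕ).map (PhiG G)) {ω | ∀ e ∈ F, ω e = true}).toReal = pinc G F := by
  classical
  have hcyl : ∀ {I : Type} (R : Finset I), MeasurableSet {ω : I → Bool | ∀ e ∈ R, ω e = true} := by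
    intro I R
    have : {ω : I → Bool | ∀ i ∈ R, ω i = true} =
        ⋂ i ∈ R, (fun ω : I → Bool => ω i) ⁻¹' {b | b = true} := by
      ext ω; simp
    rw [this]
    exact R.measurableSet_biInter (fun i _ => (measurable_pi_apply i) (MeasurableSet.of_discrete))
  have hrm : ∀ i j, MeasurableSet {U : ℕ → UI | rI G U i j} := fun i j => measurableSet_rU _ _
  have htot : ∀ᵐ U ∂(noise ℕ), IsStrictTotalOrder ↥G.edgeSet (rI G U) := by
    filter_upwards [ae_injective ℕ] with U hU
    exact rU_sto hU (fun i : ↥G.edgeSet => i.1) Subtype.val_injective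
  have hmap := map_outMap ν C hC hL (rI G) hrm (NI G) (noise ℕ) htot
    (by
      intro v m n hmn j hj
      rw [mem_NI] at hj ⊢
      exact NG_mono G hG.2 v.1 hmn hj)
    (by
      intro v i
      obtain ⟨n, hn⟩ := NG_exhaust G hG v.1 i.1 i.2
      exact ⟨n, (mem_NI n v i).2 hn⟩)
  have hout := measurable_outMap ν C hC hL (rI G) hrm (NI G)
  set F' : Finset ↥G.edgeSet := F.subtype (· ∈ G.edgeSet) with hF'
  have hFF : F'.map (edgeEmb G) = F := by
    rw [hF']
    unfold edgeEmb
    rw [Finset.subtype_map]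
    ext f
    rw [Finset.mem_filter]
    exact ⟨fun h => h.1, fun h => ⟨h, hF h⟩⟩
  have hUVm : Measurable (fun x : ℕ → UI => ((Ux x, VI G x) :
      (ℕ → UI) × (ℕ × ↥G.edgeSet → UI))) := by
    apply measurable_Ux.prodMk
    apply measurable_pi_lambda
    intro α
    exact (measurable_VV_fixed G (α.1, α.2.1)).comp (measurable_Ux.prodMk measurable_Wx)
  have hUV := map_UV G hG.2
  rw [Measure.map_apply hmeas (hcyl F)]
  have hset : PhiG G ⁻¹' {ω | ∀ e ∈ F, ω e = true} =
      (fun x : ℕ → UI => ((Ux x, VI G x) : (ℕ → UI) × (ℕ × ↥G.edgeSet → UI))) ⁻¹'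
        ((outMap ν (rI G) (NI G)) ⁻¹' {ω | ∀ e ∈ F', ω e = true}) := by
    ext x
    simp only [Set.mem_preimage, Set.mem_ofPred_eq]
    constructor
    · intro h i hi
      rw [← PhiG_eq ν hν C hC hL hG]
      apply h
      rw [hF', Finset.mem_subtype] at hi
      exact hi
    · intro h e he
      have he' : e ∈ G.edgeSet := hF he
      have := h ⟨e, he'⟩ (by rw [hF', Finset.mem_subtype]; exact he)
      rw [← PhiG_eq ν hν C hC hL hG] at this
      exact this
  rw [hset, ← Measure.map_apply hUVm (hout (hcyl F'))]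
  have e2 : (noise ℕ).map (fun x : ℕ → UI => ((Ux x, VI G x) :
      (ℕ → UI) × (ℕ × ↥G.edgeSet → UI))) = (noise ℕ).prod (noise (ℕ × ↥G.edgeSet)) := hUV
  rw [e2, ← Measure.map_apply hout (hcyl F'), hmap, hν, hFF]

end fixed

/-! ### Equivariance -/

section equiv

variable (hpc : ∀ (σ : Equiv.Perm ℕ) (G : SimpleGraph ℕ) (F : Finset (Sym2 ℕ)),
  pinc (G.comap σ) F = pinc G (F.map (symEmb σ)))

include hpc in
lemma sol_comap (σ : Equiv.Perm ℕ) {G : SimpleGraph ℕ} {x : ℕ → UI} {y : ℕ × Sym2 ℕ → UI}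
    (h : Sol G x y) : Sol (G.comap σ) (x ∘ σ) (fun α => y (α.1, Sym2.map σ α.2)) := by
  obtain ⟨h1, h2, h3⟩ := h
  refine ⟨good_comap G σ h1, ?_, ?_⟩
  · intro k e he
    rw [edge_comap] at he
    exact h2 k _ he
  · intro k e he
    rw [edge_comap] at he
    have h4 := h3 k _ he
    have h5 := T_map (symEmb σ) (postG (G.comap σ)) (postG G) (rU (Ux (x ∘ σ))) (rU (Ux x))
      (NG (G.comap σ)) (NG G) (fun i j => rU_map (Ux x) σ i j) (fun n v => NG_comap G σ n v)
      (fun E g _ v => postG_perm σ (hpc σ G) E g v) y k e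
    have h6 : VV (G.comap σ) (Ux (x ∘ σ)) (Wx (x ∘ σ)) (k, e) = VV G (Ux x) (Wx x)
        (k, Sym2.map σ e) := VV_comap G σ (Ux x) (Wx x) k e
    rw [h6, ← h4]
    exact h5.symm

include hpc in
lemma PhiG_comap (huniq : ∀ (G : SimpleGraph ℕ) (x : ℕ → UI) (y y' : ℕ × Sym2 ℕ → UI),
      Sol G x y → Sol G x y' → y = y')
    (σ : Equiv.Perm ℕ) (G : SimpleGraph ℕ) (x : ℕ → UI) :
    PhiG (G.comap σ) (x ∘ σ) = PhiG G x ∘ Sym2.map σ := by
  classical
  by_cases hs : ∃ y, Sol G x y
  · have hs' : ∃ y, Sol (G.comap σ) (x ∘ σ) y := by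
      obtain ⟨y, hy⟩ := hs
      exact ⟨_, sol_comap hpc σ hy⟩
    unfold PhiG
    rw [dif_pos hs, dif_pos hs']
    have h1 := sol_comap hpc σ (Classical.choose_spec hs)
    rw [huniq _ _ _ _ (Classical.choose_spec hs') h1]
    rfl
  · have hs' : ¬ ∃ y, Sol (G.comap σ) (x ∘ σ) y := by
      rintro ⟨y, hy⟩
      apply hs
      have h1 := sol_comap hpc σ.symm hy
      have e1 : (G.comap σ).comap σ.symm = G := by
        ext a b
        simp
      have e2 : (x ∘ σ) ∘ σ.symm = x := by
        ext a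
        simp
      rw [e1, e2] at h1
      exact ⟨_, h1⟩
    unfold PhiG
    rw [dif_neg hs, dif_neg hs']
    ext1 e
    rw [Function.comp, readout_half, readout_half]

end equiv

/-! ### Measurability of the rule -/

open Classical in
/-- The selected solution. -/
noncomputable def selG (G : SimpleGraph ℕ) (x : ℕ → UI) : ℕ × Sym2 ℕ → UI :=
  if h : ∃ y, Sol G x y then Classical.choose h else halfY

lemma PhiG_sel (G : SimpleGraph ℕ) (x : ℕ → UI) : PhiG G x = readout (selG G x) := rfl

lemma measurable_selG (hpm : ∀ F, Measurable (fun A : ℕ → ℕ → Bool => pinc (graphOfTable A) F))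
    (huniq : ∀ (G : SimpleGraph ℕ) (x : ℕ → UI) (y y' : ℕ × Sym2 ℕ → UI),
      Sol G x y → Sol G x y' → y = y') :
    Measurable (fun p : (ℕ → ℕ → Bool) × (ℕ → UI) => selG (graphOfTable p.1) p.2) := by
  have h1 : StandardBorelSpace ((ℕ → ℕ → Bool) × (ℕ → UI)) := inferInstance
  have h2 : StandardBorelSpace (ℕ × Sym2 ℕ → UI) := inferInstance
  exact measurable_unique_choice
      (fun (p : (ℕ → ℕ → Bool) × (ℕ → UI)) (y : ℕ × Sym2 ℕ → UI) => Sol (graphOfTable p.1) p.2 y)
      (measurableSet_Sol hpm)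
      (fun p y y' h h' => huniq _ _ y y' h h') halfY

lemma measurable_PhiG (hpm : ∀ F, Measurable (fun A : ℕ → ℕ → Bool => pinc (graphOfTable A) F))
    (huniq : ∀ (G : SimpleGraph ℕ) (x : ℕ → UI) (y y' : ℕ × Sym2 ℕ → UI),
      Sol G x y → Sol G x y' → y = y') :
    Measurable (fun p : (ℕ → ℕ → Bool) × (ℕ → UI) => PhiG (graphOfTable p.1) p.2) := by
  simp only [PhiG_sel]
  exact measurable_readout.comp (measurable_selG hpm huniq)

lemma measurable_PhiG_fixed
    (hm : Measurable (fun p : (ℕ → ℕ → Bool) × (ℕ → UI) => PhiG (graphOfTable p.1) p.2))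
    (G : SimpleGraph ℕ) : Measurable (PhiG G) := by
  obtain ⟨A, hA⟩ := exists_table G
  have h1 : Measurable (fun x : ℕ → UI => ((A, x) : (ℕ → ℕ → Bool) × (ℕ → UI))) :=
    measurable_const.prodMk measurable_id
  have h2 := hm.comp h1
  have h3 : PhiG G = (fun p : (ℕ → ℕ → Bool) × (ℕ → UI) => PhiG (graphOfTable p.1) p.2) ∘
      (fun x : ℕ → UI => ((A, x) : (ℕ → ℕ → Bool) × (ℕ → UI))) := by
    funext x
    rw [Function.comp_apply, hA]
  rw [h3]
  exact h2

end Crest.Agent.H14
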