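import Crest.Agent.LPCore

/-! rid 254 (S0392): module PACK (helper16). -/

set_option autoImplicit false
open Set

namespace Crest.LP.Pack16

section
variable {G : Type*} [NormedAddCommGroup G] [InnerProductSpace ℝ G]

theorem pt_sub (t t' : ℝ) (z z' : G) : pt t z - pt t' z' = pt (t - t') (z - z') := rfl

theorem norm_pt_sq (t : ℝ) (z : G) : ‖pt t z‖ ^ 2 = t ^ 2 + ‖z‖ ^ 2 := by
  rw [WithLp.prod_norm_sq_eq_of_L2]
  simp [pt]

theorem dist_pt_sq (t t' : ℝ) (z z' : G) :
    dist (pt t z) (pt t' z') ^ 2 = (t - t') ^ 2 + ‖z - z'‖ ^ 2 := by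
  rw [dist_eq_norm, pt_sub, norm_pt_sq]

theorem time_le_dist (t t' : ℝ) (z z' : G) : |t - t'| ≤ dist (pt t z) (pt t' z') := by
  have h := dist_pt_sq t t' z z'
  exact abs_le_of_sq_le_sq (by nlinarith [sq_nonneg ‖z - z'‖]) dist_nonneg

theorem pos_le_dist (t t' : ℝ) (z z' : G) : ‖z - z'‖ ≤ dist (pt t z) (pt t' z') := by
  have h := dist_pt_sq t t' z z'
  exact (le_abs_self _).trans (abs_le_of_sq_le_sq (by nlinarith [sq_nonneg (t - t')]) dist_nonneg)

/-- the point of the edge `e` at parameter `s` -/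
noncomputable def Ept (e : ℕ × G × G) (s : ℝ) : PT G := pt ((e.1 : ℝ) + s) (e.2.1 + s • (e.2.2 - e.2.1))

theorem line_eq (j : ℝ) (z w : G) (s : ℝ) :
    pt j z + s • (pt (j + 1) w - pt j z) = pt (j + s) (z + s • (w - z)) := by
  have h : s • (pt (j + 1) w - pt j z) = pt (s • ((j + 1) - j)) (s • (w - z)) := rfl
  rw [h]
  have h2 : pt j z + pt (s • ((j + 1) - j)) (s • (w - z)) = pt (j + s • ((j + 1) - j)) (z + s • (w - z)) := rfl
  rw [h2]
  congr 1
  simp

variable {K : ℕ} {τ : ℝ} {N : ℕ} {Ed : Edges G} (H : Honest K τ N Ed)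
include H

theorem err {e : ℕ × G × G} (he : e ∈ Ed) {p : PT G}
    (hp : p ∈ Cone (om τ) (pt (e.1 : ℝ) e.2.1) (pt ((e.1 : ℝ) + 1) e.2.2)) :
    ∃ s ∈ Icc (0 : ℝ) 1, dist p (Ept e s) ≤ 5 * cc * τ * min s (1 - s) := by
  obtain ⟨s, hs, h⟩ := hp
  refine ⟨s, hs, ?_⟩
  rw [line_eq] at h
  have hτ := H.τpos
  have htilt := H.tilt e.1 e.2.1 e.2.2 he
  have hlen : dist (pt (e.1 : ℝ) e.2.1) (pt ((e.1 : ℝ) + 1) e.2.2) ≤ 5 / 4 := by
    have h1 := dist_pt_sq (e.1 : ℝ) ((e.1 : ℝ) + 1) e.2.1 e.2.2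
    rw [norm_sub_rev] at h1
    refine abs_le_of_sq_le_sq' ?_ (by norm_num) |>.2
    rw [h1]
    nlinarith [norm_nonneg (e.2.2 - e.2.1)]
  have hm : 0 ≤ min s (1 - s) := le_min hs.1 (by linarith [hs.2])
  refine h.trans ?_
  have hom : om τ = 4 * cc * τ := rfl
  have hcc : (0 : ℝ) < cc := by norm_num [cc]
  rw [hom]
  have h2 : 4 * cc * τ * min s (1 - s) * dist (pt (e.1 : ℝ) e.2.1) (pt ((e.1 : ℝ) + 1) e.2.2) ≤
      4 * cc * τ * min s (1 - s) * (5 / 4) := mul_le_mul_of_nonneg_left hlen (by positivity)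
  linarith

theorem flow (j : ℕ) : ∀ (z w : G), (j, z, w) ∈ Ed → ∀ s ∈ Icc (0 : ℝ) 1, ∀ T : ℝ, 0 ≤ T →
    T ≤ j + s → ∃ x ∈ slice Ed (⌈T⌉₊ - 1) (T - ((⌈T⌉₊ - 1 : ℕ) : ℝ)),
      ‖x - (z + s • (w - z))‖ ≤ (j + s - T) / 100 := by
  induction j with
  | zero =>
    intro z w he s hs T hT0 hT
    have h1 : ⌈T⌉₊ - 1 = 0 := by
      have : ⌈T⌉₊ ≤ 1 := by
        rw [Nat.ceil_le]
        push_cast at hT ⊢
        linarith [hs.2]
      omega
    rw [h1]
    refine ⟨z + T • (w - z), ⟨z, w, he, by simp⟩, ?_⟩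
    have h2 : z + T • (w - z) - (z + s • (w - z)) = (T - s) • (w - z) := by module
    have ht := H.tilt 0 z w he
    push_cast at hT
    rw [h2, norm_smul, Real.norm_eq_abs, abs_of_nonpos (by linarith)]
    push_cast
    nlinarith [norm_nonneg (w - z)]
  | succ j ih =>
    intro z w he s hs T hT0 hT
    have ht := H.tilt (j + 1) z w he
    rcases lt_or_ge ((j : ℝ) + 1) T with h | h
    · have h1 : ⌈T⌉₊ = j + 2 := by
        rw [Nat.ceil_eq_iff (by omega)]
        push_cast at hT ⊢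
        constructor
        · linarith
        · linarith [hs.2]
      have h1' : ⌈T⌉₊ - 1 = j + 1 := by omega
      rw [h1']
      refine ⟨z + (T - ((j + 1 : ℕ) : ℝ)) • (w - z), ⟨z, w, he, rfl⟩, ?_⟩
      have h2 : z + (T - ((j + 1 : ℕ) : ℝ)) • (w - z) - (z + s • (w - z)) =
        (T - ((j + 1 : ℕ) : ℝ) - s) • (w - z) := by module
      rw [h2, norm_smul, Real.norm_eq_abs, abs_of_nonpos (by linarith)]
      nlinarith [norm_nonneg (w - z)]
    · obtain ⟨y, hy⟩ := H.pred j z w he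
      obtain ⟨x, hx, hxb⟩ := ih y z hy 1 (by norm_num) T hT0 h
      refine ⟨x, hx, ?_⟩
      have h3 : y + (1 : ℝ) • (z - y) = z := by module
      rw [h3] at hxb
      have h4 : x - (z + s • (w - z)) = (x - z) - s • (w - z) := by abel
      rw [h4]
      refine (norm_sub_le _ _).trans ?_
      rw [norm_smul, Real.norm_eq_abs, abs_of_nonneg hs.1]
      push_cast
      nlinarith [norm_nonneg (w - z), hs.1]

theorem edge_far {e e' : ℕ × G × G} (he : e ∈ Ed) (he' : e' ∈ Ed) (hne : e ≠ e') {s s' : ℝ}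
    (hs : s ∈ Icc (0 : ℝ) 1) (hs' : s' ∈ Icc (0 : ℝ) 1) :
    τ / 3 * min s (1 - s) ≤ dist (Ept e s) (Ept e' s') := by
  obtain ⟨j, z, w⟩ := e
  obtain ⟨j', z', w'⟩ := e'
  have hτ := H.τpos
  have hτ2 := H.τle
  have hm0 : 0 ≤ min s (1 - s) := le_min hs.1 (by linarith [hs.2])
  have hm1 := min_le_left s (1 - s)
  have hm2 := min_le_right s (1 - s)
  have htime := time_le_dist ((j : ℝ) + s) ((j' : ℝ) + s') (z + s • (w - z)) (z' + s' • (w' - z'))
  have hpos := pos_le_dist ((j : ℝ) + s) ((j' : ℝ) + s') (z + s • (w - z)) (z' + s' • (w' - z'))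
  change τ / 3 * min s (1 - s) ≤ dist (pt ((j : ℝ) + s) (z + s • (w - z)))
    (pt ((j' : ℝ) + s') (z' + s' • (w' - z')))
  set d := dist (pt ((j : ℝ) + s) (z + s • (w - z))) (pt ((j' : ℝ) + s') (z' + s' • (w' - z'))) with hd
  have hsmall : τ / 3 * min s (1 - s) ≤ min s (1 - s) := by nlinarith
  rcases lt_trichotomy j j' with hj | hj | hj
  · -- later edge
    have h1 : (j : ℝ) + 1 ≤ j' := by exact_mod_cast hj
    have h2 : 1 - s ≤ |(j : ℝ) + s - (j' + s')| := by
      rw [abs_sub_comm]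
      refine le_trans ?_ (le_abs_self _)
      linarith [hs'.1]
    linarith
  · subst hj
    have hΔ : |s - s'| ≤ d := by
      have : (j : ℝ) + s - (j + s') = s - s' := by ring
      rwa [this] at htime
    have ht' := H.tilt j z' w' he'
    -- position at the same parameter
    have key : ‖(z + s • (w - z)) - (z' + s • (w' - z'))‖ ≤ d + |s - s'| * (1 / 100) := by
      have e1 : (z + s • (w - z)) - (z' + s • (w' - z')) =
        ((z + s • (w - z)) - (z' + s' • (w' - z'))) - (s - s') • (w' - z') := by module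
      rw [e1]
      refine (norm_sub_le _ _).trans ?_
      rw [norm_smul, Real.norm_eq_abs]
      exact add_le_add hpos (mul_le_mul_of_nonneg_left ht' (abs_nonneg _))
    by_cases hz : z = z'
    · subst hz
      have hw : w ≠ w' := by rintro rfl; exact hne rfl
      have hv : τ ≤ dist w w' := by
        refine H.vsep (j + 1) w w' (Or.inr ⟨j, z, rfl, he⟩) (Or.inr ⟨j, z, rfl, he'⟩) hw
      have e2 : (z + s • (w - z)) - (z + s • (w' - z)) = s • (w - w') := by module
      rw [e2, norm_smul, Real.norm_eq_abs, abs_of_nonneg hs.1, ← dist_eq_norm] at key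
      nlinarith [hs.1, mul_le_mul_of_nonneg_left hv hs.1]
    · by_cases hw : w = w'
      · subst hw
        have hv : τ ≤ dist z z' :=
          H.vsep j z z' (Or.inl ⟨w, he⟩) (Or.inl ⟨w, he'⟩) hz
        have e2 : (z + s • (w - z)) - (z' + s • (w - z')) = (1 - s) • (z - z') := by module
        rw [e2, norm_smul, Real.norm_eq_abs, abs_of_nonneg (by linarith [hs.2]), ← dist_eq_norm] at key
        nlinarith [hs.2, mul_le_mul_of_nonneg_left hv (by linarith [hs.2] : (0 : ℝ) ≤ 1 - s)]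
      · have hv := H.esep j z w z' w' he he' hz hw s hs
        rw [dist_eq_norm] at hv
        have hm3 : min s (1 - s) ≤ 1 := hm1.trans hs.2
        nlinarith
  · have h1 : (j' : ℝ) + 1 ≤ j := by exact_mod_cast hj
    have h2 : s ≤ |(j : ℝ) + s - (j' + s')| := by
      refine le_trans ?_ (le_abs_self _)
      linarith [hs'.2]
    linarith

theorem caseI (A : Finset (PT G)) (r : ℝ) (hr : 0 < r) (e : PT G → ℕ × G × G) (s : PT G → ℝ)
    (he : ∀ p ∈ A, e p ∈ Ed ∧ s p ∈ Icc (0 : ℝ) 1 ∧ dist p (Ept (e p) (s p)) ≤ r / 200)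
    (hsep : ∀ x ∈ A, ∀ y ∈ A, x ≠ y → r ≤ dist x y) (hdiam : ∀ x ∈ A, ∀ y ∈ A, dist x y ≤ 8 * r) :
    A.card ≤ K * 66 := by
  classical
  rcases A.eq_empty_or_nonempty with rfl | ⟨p0, hp0⟩
  · simp
  set t : PT G → ℝ := fun p => ((e p).1 : ℝ) + s p with ht
  set pos : PT G → G := fun p => (e p).2.1 + s p • ((e p).2.2 - (e p).2.1) with hpos
  have hE : ∀ p, Ept (e p) (s p) = pt (t p) (pos p) := fun p => rfl
  have hup : ∀ p ∈ A, ∀ q ∈ A, dist (pt (t p) (pos p)) (pt (t q) (pos q)) ≤ 8 * r + r / 100 := by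
    intro p hp q hq
    have h1 := (he p hp).2.2
    have h2 := (he q hq).2.2
    rw [hE] at h1 h2
    have h3 := dist_triangle4 (pt (t p) (pos p)) p q (pt (t q) (pos q))
    rw [dist_comm (pt (t p) (pos p)) p] at h3
    linarith [hdiam p hp q hq]
  have hlow : ∀ p ∈ A, ∀ q ∈ A, p ≠ q → 99 / 100 * r ≤ dist (pt (t p) (pos p)) (pt (t q) (pos q)) := by
    intro p hp q hq hpq
    have h1 := (he p hp).2.2
    have h2 := (he q hq).2.2
    rw [hE] at h1 h2
    have h3 := dist_triangle4 p (pt (t p) (pos p)) (pt (t q) (pos q)) q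
    rw [dist_comm (pt (t q) (pos q)) q] at h3
    linarith [hsep p hp q hq hpq]
  have ht0 : ∀ p ∈ A, 0 ≤ t p := fun p hp => add_nonneg (Nat.cast_nonneg _) (he p hp).2.1.1
  have hrange : ∀ p ∈ A, |t p - t p0| ≤ 8 * r + r / 100 := fun p hp =>
    (time_le_dist _ _ _ _).trans (hup p hp p0 hp0)
  let k : PT G → ℕ := fun p => ⌊(t p - t p0 + (8 * r + r / 100)) / (r / 4)⌋₊
  have hk : ∀ p ∈ A, k p ∈ Finset.range 66 := by
    intro p hp
    rw [Finset.mem_range]
    refine (Nat.floor_lt' (by norm_num)).2 ?_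
    rw [div_lt_iff₀ (by positivity)]
    have := (abs_le.1 (hrange p hp)).2
    push_cast
    linarith
  have hcount := Finset.card_le_mul_card_image_of_maps_to hk K ?_
  · simpa using hcount
  intro b _
  set T : ℝ := max 0 (t p0 - (8 * r + r / 100) + b * (r / 4)) with hT
  have hT0 : 0 ≤ T := le_max_left _ _
  have hfib : ∀ p ∈ A.filter (fun p => k p = b), p ∈ A ∧ T ≤ t p ∧ t p - T ≤ r / 4 := by
    intro p hp
    rw [Finset.mem_filter] at hp
    obtain ⟨hpA, hkp⟩ := hp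
    have h1 : 0 ≤ (t p - t p0 + (8 * r + r / 100)) / (r / 4) := by
      apply div_nonneg _ (by positivity)
      linarith [(abs_le.1 (hrange p hpA)).1]
    have h2 : (b : ℝ) ≤ (t p - t p0 + (8 * r + r / 100)) / (r / 4) := by
      rw [← hkp]; exact Nat.floor_le h1
    have h3 : (t p - t p0 + (8 * r + r / 100)) / (r / 4) < b + 1 := by
      rw [← hkp]; exact Nat.lt_floor_add_one _
    rw [le_div_iff₀ (by positivity)] at h2
    rw [div_lt_iff₀ (by positivity)] at h3
    refine ⟨hpA, max_le (ht0 p hpA) (by linarith), ?_⟩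
    have : t p0 - (8 * r + r / 100) + b * (r / 4) ≤ T := le_max_right _ _
    linarith
  have hex : ∀ p ∈ A.filter (fun p => k p = b), ∃ x ∈ slice Ed (⌈T⌉₊ - 1) (T - ((⌈T⌉₊ - 1 : ℕ) : ℝ)),
      ‖x - pos p‖ ≤ r / 400 := by
    intro p hp
    obtain ⟨hpA, h1, h2⟩ := hfib p hp
    obtain ⟨x, hx, hxb⟩ := flow H (e p).1 (e p).2.1 (e p).2.2 (he p hpA).1 (s p) (he p hpA).2.1 T hT0 h1
    refine ⟨x, hx, hxb.trans ?_⟩
    have : ((e p).1 : ℝ) + s p - T ≤ r / 4 := h2
    linarith
  choose! x hx using hex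
  have hsepx : ∀ p ∈ A.filter (fun p => k p = b), ∀ q ∈ A.filter (fun p => k p = b), p ≠ q →
      9 / 10 * r ≤ dist (x p) (x q) := by
    intro p hp q hq hpq
    obtain ⟨hpA, h1, h2⟩ := hfib p hp
    obtain ⟨hqA, h3, h4⟩ := hfib q hq
    have h5 := hlow p hpA q hqA hpq
    have h6 := dist_pt_sq (t p) (t q) (pos p) (pos q)
    have h7 : |t p - t q| ≤ r / 4 := by rw [abs_le]; constructor <;> linarith
    have h8 : (t p - t q) ^ 2 ≤ (r / 4) ^ 2 := by
      rw [← sq_abs]; exact pow_le_pow_left₀ (abs_nonneg _) h7 2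
    have h9 : (99 / 100 * r) ^ 2 ≤ dist (pt (t p) (pos p)) (pt (t q) (pos q)) ^ 2 :=
      pow_le_pow_left₀ (by positivity) h5 2
    have h10 : (95 / 100 * r) ^ 2 ≤ ‖pos p - pos q‖ ^ 2 := by nlinarith
    have h11 : 95 / 100 * r ≤ ‖pos p - pos q‖ :=
      le_of_sq_le_sq h10 (norm_nonneg _)
    have h12 : ‖pos p - pos q‖ ≤ ‖x p - pos p‖ + dist (x p) (x q) + ‖x q - pos q‖ := by
      have : pos p - pos q = -(x p - pos p) + (x p - x q) + (x q - pos q) := by abel
      rw [this, dist_eq_norm]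
      refine (norm_add_le _ _).trans ?_
      gcongr
      refine (norm_add_le _ _).trans ?_
      rw [norm_neg]
    have h13 := (hx p hp).2
    have h14 := (hx q hq).2
    linarith
  have hinj : Set.InjOn x (A.filter (fun p => k p = b) : Finset (PT G)) := by
    intro p hp q hq hpq
    by_contra hne
    have := hsepx p hp q hq hne
    rw [hpq, dist_self] at this
    nlinarith
  rw [← Finset.card_image_of_injOn hinj]
  have hs1 : T - ((⌈T⌉₊ - 1 : ℕ) : ℝ) ∈ Icc (0 : ℝ) 1 := by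
    rcases Nat.eq_zero_or_pos ⌈T⌉₊ with h | h
    · have : T ≤ 0 := Nat.ceil_eq_zero.1 h
      rw [h]
      simp only [Nat.zero_sub, Nat.cast_zero, sub_zero]
      exact ⟨hT0, by linarith⟩
    · have h2 : ((⌈T⌉₊ - 1 : ℕ) : ℝ) = (⌈T⌉₊ : ℝ) - 1 := by push_cast [h]; ring
      rw [h2]
      have h3 := Nat.le_ceil T
      have h4 := Nat.ceil_lt_add_one hT0
      constructor <;> linarith
  refine H.slices (⌈T⌉₊ - 1) _ hs1 ((A.filter (fun p => k p = b)).image x) (9 / 10 * r) ?_ (by positivity) ?_ ?_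
  · intro y hy
    rw [Finset.coe_image] at hy
    obtain ⟨p, hp, rfl⟩ := hy
    exact (hx p hp).1
  · intro y hy y' hy' hne
    rw [Finset.mem_image] at hy hy'
    obtain ⟨p, hp, rfl⟩ := hy
    obtain ⟨q, hq, rfl⟩ := hy'
    exact hsepx p hp q hq (fun h => hne (by rw [h]))
  · intro y hy y' hy'
    rw [Finset.mem_image] at hy hy'
    obtain ⟨p, hp, rfl⟩ := hy
    obtain ⟨q, hq, rfl⟩ := hy'
    obtain ⟨hpA, -, -⟩ := hfib p hp
    obtain ⟨hqA, -, -⟩ := hfib q hq
    have h1 := (pos_le_dist (t p) (t q) (pos p) (pos q)).trans (hup p hpA q hqA)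
    have h12 : dist (x p) (x q) ≤ ‖x p - pos p‖ + ‖pos p - pos q‖ + ‖x q - pos q‖ := by
      rw [dist_eq_norm]
      have : x p - x q = (x p - pos p) + (pos p - pos q) + (-(x q - pos q)) := by abel
      rw [this]
      refine (norm_add_le _ _).trans ?_
      rw [norm_neg]
      gcongr
      exact norm_add_le _ _
    have h13 := (hx p hp).2
    have h14 := (hx q hq).2
    linarith

end

theorem pack : PACK := by
  intro G _ _ K τ N Ed X H hcone hX A r hA hr hsep hdiam
  classical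
  have hτ := H.τpos
  have hcc : (0 : ℝ) < cc := by norm_num [cc]
  have hcc2 : cc = 1 / 1000000 := rfl
  have hex : ∀ p ∈ A, ∃ e ∈ Ed, p ∈ X e ∧ ∃ s ∈ Icc (0 : ℝ) 1,
      dist p (Ept e s) ≤ 5 * cc * τ * min s (1 - s) := by
    intro p hp
    have h1 := hA hp
    simp only [mem_iUnion] at h1
    obtain ⟨e, he, hpe⟩ := h1
    exact ⟨e, he, hpe, err H he (hcone e he hpe)⟩
  choose! e he using hex
  have hex2 : ∀ p ∈ A, ∃ s ∈ Icc (0 : ℝ) 1, dist p (Ept (e p) s) ≤ 5 * cc * τ * min s (1 - s) :=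
    fun p hp => (he p hp).2.2
  choose! s hs using hex2
  by_cases hcase : ∀ p ∈ A, 5 * cc * τ * min (s p) (1 - s p) ≤ r / 200
  · have h1 := caseI H A r hr e s (fun p hp => ⟨(he p hp).1, (hs p hp).1, ((hs p hp).2).trans (hcase p hp)⟩)
      hsep hdiam
    refine h1.trans ?_
    unfold Psi
    omega
  · push Not at hcase
    obtain ⟨p, hp, hpr⟩ := hcase
    have hall : ∀ q ∈ A, e q = e p := by
      intro q hq
      by_contra hne
      have h1 := edge_far H (he p hp).1 (he q hq).1 (fun h => hne h.symm) (hs p hp).1 (hs q hq).1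
      have h2 := edge_far H (he q hq).1 (he p hp).1 hne (hs q hq).1 (hs p hp).1
      rw [dist_comm] at h2
      set d := dist (Ept (e p) (s p)) (Ept (e q) (s q)) with hd
      have h3 := dist_triangle4 (Ept (e p) (s p)) p q (Ept (e q) (s q))
      rw [dist_comm (Ept (e p) (s p)) p] at h3
      have h4 := (hs p hp).2
      have h5 := (hs q hq).2
      have h6 := hdiam p hp q hq
      have hm : 0 < min (s p) (1 - s p) := by
        by_contra hneg
        push Not at hneg
        have : 5 * cc * τ * min (s p) (1 - s p) ≤ 0 := mul_nonpos_of_nonneg_of_nonpos (by positivity) hneg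
        linarith
      set a := τ * min (s p) (1 - s p) with ha
      set b := τ * min (s q) (1 - s q) with hb
      have ha0 : 0 < a := mul_pos hτ hm
      have e1 : 5 * cc * τ * min (s p) (1 - s p) = 5 * cc * a := by rw [ha]; ring
      have e2 : 5 * cc * τ * min (s q) (1 - s q) = 5 * cc * b := by rw [hb]; ring
      have e3 : τ / 3 * min (s p) (1 - s p) = a / 3 := by rw [ha]; ring
      have e4 : τ / 3 * min (s q) (1 - s q) = b / 3 := by rw [hb]; ring
      rw [e1] at hpr h4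
      rw [e2] at h5
      rw [e3] at h1
      rw [e4] at h2
      rw [hcc2] at hpr h4 h5
      linarith
    refine hX (e p) (he p hp).1 A r ?_ hr hsep hdiam
    intro q hq
    have := (he q hq).2.1
    rw [hall q hq] at this
    exact this

end Crest.LP.Pack16
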