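import Mathlib
/-! rid 254 (S0392): definitions and module statements for the finite-set construction. -/
set_option autoImplicit false
open Set Filter Topology

namespace Crest.LP

/-- packing: every `r`-separated subset of `T` with diameter `≤ ρ r` has at most `K` points. -/
def Pk {X : Type*} [PseudoMetricSpace X] (ρ : ℝ) (K : ℕ) (T : Set X) : Prop :=
  ∀ (A : Finset X) (r : ℝ), (↑A : Set X) ⊆ T → 0 < r →
    (∀ x ∈ A, ∀ y ∈ A, x ≠ y → r ≤ dist x y) →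
    (∀ x ∈ A, ∀ y ∈ A, dist x y ≤ ρ * r) → A.card ≤ K

/-- space-time over the position space `G`. -/
abbrev PT (G : Type*) := WithLp 2 (ℝ × G)

/-- the point at time `t` and position `z`. -/
def pt {G : Type*} (t : ℝ) (z : G) : PT G := WithLp.toLp 2 (t, z)

def DBL {X Y : Type*} [PseudoMetricSpace X] [PseudoMetricSpace Y] (D : ℝ) (S : Set X)
    (f : X → Y) : Prop :=
  ∀ x ∈ S, ∀ y ∈ S, dist x y ≤ dist (f x) (f y) ∧ dist (f x) (f y) ≤ D * dist x y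

/-- `(j, z, w)` : the edge from `(j, z)` to `(j+1, w)`. -/
abbrev Edges (G : Type*) := Set (ℕ × G × G)

section
variable {G : Type*} [NormedAddCommGroup G] [InnerProductSpace ℝ G]

/-- vertices (time, position) -/
def Verts (Ed : Edges G) : Set (ℕ × G) :=
  {p | (∃ w, (p.1, p.2, w) ∈ Ed) ∨ ∃ j y, p.1 = j + 1 ∧ (j, y, p.2) ∈ Ed}

/-- vertices as points of space-time -/
def VPt (Ed : Edges G) : Set (PT G) := (fun p : ℕ × G => pt (p.1 : ℝ) p.2) '' Verts Ed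

/-- the slice at real time `j + s` -/
def slice (Ed : Edges G) (j : ℕ) (s : ℝ) : Set G :=
  {x | ∃ z w, (j, z, w) ∈ Ed ∧ x = z + s • (w - z)}

/-- universal small constant -/
noncomputable def cc : ℝ := 1 / 1000000

/-- opening of the double cones -/
noncomputable def om (τ : ℝ) : ℝ := 4 * cc * τ

/-- Psi K : universal packing constant of the nested sets -/
def Psi (K : ℕ) : ℕ := 4000 * (K + 1)

structure Honest (K : ℕ) (τ : ℝ) (N : ℕ) (Ed : Edges G) : Prop where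
  τpos : 0 < τ
  τle : τ ≤ 1 / 100
  hN : 100 ≤ N
  fin : Ed.Finite
  lt : ∀ j z w, (j, z, w) ∈ Ed → j < N
  main : ∀ j, j < N → (j, (0 : G), (0 : G)) ∈ Ed
  pred : ∀ j z w, (j + 1, z, w) ∈ Ed → ∃ y, (j, y, z) ∈ Ed
  quiet : ∀ j z w, (j, z, w) ∈ Ed → (3 * j ≤ N ∨ 2 * N ≤ 3 * (j + 1)) → z = 0 ∧ w = 0
  tilt : ∀ j z w, (j, z, w) ∈ Ed → ‖w - z‖ ≤ 1 / 100
  thin : ∀ p ∈ Verts Ed, ‖p.2‖ ≤ cc * τ * N
  vsep : ∀ j z z', (j, z) ∈ Verts Ed → (j, z') ∈ Verts Ed → z ≠ z' → τ ≤ dist z z'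
  esep : ∀ j z w z' w', (j, z, w) ∈ Ed → (j, z', w') ∈ Ed → z ≠ z' → w ≠ w' →
    ∀ s ∈ Icc (0 : ℝ) 1, τ / 2 ≤ dist (z + s • (w - z)) (z' + s • (w' - z'))
  outdeg : ∀ j z w₁ w₂ w₃, (j, z, w₁) ∈ Ed → (j, z, w₂) ∈ Ed → (j, z, w₃) ∈ Ed →
    w₁ = w₂ ∨ w₁ = w₃ ∨ w₂ = w₃
  indeg : ∀ j z₁ z₂ z₃ w, (j, z₁, w) ∈ Ed → (j, z₂, w) ∈ Ed → (j, z₃, w) ∈ Ed →
    z₁ = z₂ ∨ z₁ = z₃ ∨ z₂ = z₃
  slices : ∀ j, ∀ s ∈ Icc (0 : ℝ) 1, Pk 10 K (slice Ed j s)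

/-- double cone with vertices `a`, `b` -/
def Cone {P : Type*} [NormedAddCommGroup P] [InnerProductSpace ℝ P] (ω : ℝ) (a b : P) : Set P :=
  {p | ∃ s ∈ Icc (0 : ℝ) 1, dist p (a + s • (b - a)) ≤ ω * min s (1 - s) * dist a b}

/-- nested substitution sets with base `[a, b]` -/
inductive Nest (K : ℕ) (τ : ℝ) : PT G → PT G → Set (PT G) → Prop
  | base (a b : PT G) : a ≠ b → Nest K τ a b {a, b}
  | sub (a b : PT G) (lam : ℝ) (U : PT G ≃ₗᵢ[ℝ] PT G) (N : ℕ) (Ed : Edges G)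
      (X : ℕ × G × G → Set (PT G)) :
      0 < lam → Honest K τ N Ed → a + lam • U (pt (N : ℝ) 0) = b →
      (∀ e ∈ Ed, Nest K τ (a + lam • U (pt (e.1 : ℝ) e.2.1))
        (a + lam • U (pt ((e.1 : ℝ) + 1) e.2.2)) (X e)) →
      Nest K τ a b (⋃ e ∈ Ed, X e)

/-- a free cell: whatever nested set is placed into `(a,b)`, together with `M` it is part of a
nested set with base `[pt 0 0, pt 1 0]`. -/
def Cell (K : ℕ) (τ : ℝ) (M : Set (PT G)) (a b : PT G) : Prop :=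
  a ∈ M ∧ b ∈ M ∧ a ≠ b ∧ M.Finite ∧
    ∀ X', Nest K τ a b X' → ∃ X, Nest K τ (pt 0 (0 : G)) (pt 1 0) X ∧ M ∪ X' ⊆ X

/-! ### movies (complete scripts, offline) -/
def shiftE (σ : ℕ) (Ed : Edges G) : Edges G := {e | ∃ j z w, (j, z, w) ∈ Ed ∧ e = (j + σ, z, w)}

def mainE (N : ℕ) : Edges G := {e | ∃ j, j < N ∧ e = (j, (0 : G), (0 : G))}

def restE (T : Set G) (N : ℕ) : Edges G := {e | ∃ j x, j < N ∧ x ∈ T ∧ e = (j, x, x)}

/-- `x` is born from `x₀` in `m` steps, `T` at rest -/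
def birthE (T : Set G) (x₀ x : G) (m : ℕ) : Edges G :=
  restE T m ∪ {e | ∃ j, j < m ∧
    e = (j, x₀ + ((j : ℝ) / m) • (x - x₀), x₀ + (((j : ℝ) + 1) / m) • (x - x₀))}

def deathE (T : Set G) (x₀ x : G) (m : ℕ) : Edges G :=
  restE T m ∪ {e | ∃ j, j < m ∧
    e = (j, x + ((j : ℝ) / m) • (x₀ - x), x + (((j : ℝ) + 1) / m) • (x₀ - x))}

structure Movie (K : ℕ) (T : Set G) (N : ℕ) (Ed : Edges G) : Prop where
  hN : 1 ≤ N
  fin : Ed.Finite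
  lt : ∀ j z w, (j, z, w) ∈ Ed → j < N
  rest : ∀ x ∈ T, ∀ j, j < N → (j, x, x) ∈ Ed
  start : ∀ z w, (0, z, w) ∈ Ed → z ∈ T
  stop : ∀ j z w, (j, z, w) ∈ Ed → j + 1 = N → w ∈ T
  pred : ∀ j z w, (j + 1, z, w) ∈ Ed → ∃ y, (j, y, z) ∈ Ed
  succ : ∀ j z w, (j, z, w) ∈ Ed → j + 1 < N → ∃ y, (j + 1, w, y) ∈ Ed
  tilt : ∀ j z w, (j, z, w) ∈ Ed → ‖w - z‖ ≤ 1 / 100
  nocoll : ∀ j z w z' w', (j, z, w) ∈ Ed → (j, z', w') ∈ Ed → z ≠ z' → w ≠ w' →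
    ∀ s ∈ Icc (0 : ℝ) 1, z + s • (w - z) ≠ z' + s • (w' - z')
  outdeg : ∀ j z w₁ w₂ w₃, (j, z, w₁) ∈ Ed → (j, z, w₂) ∈ Ed → (j, z, w₃) ∈ Ed →
    w₁ = w₂ ∨ w₁ = w₃ ∨ w₂ = w₃
  indeg : ∀ j z₁ z₂ z₃ w, (j, z₁, w) ∈ Ed → (j, z₂, w) ∈ Ed → (j, z₃, w) ∈ Ed →
    z₁ = z₂ ∨ z₁ = z₃ ∨ z₂ = z₃
  slices : ∀ j, ∀ s ∈ Icc (0 : ℝ) 1, Pk 10 K (slice Ed j s)

/-- complete path -/
def IsPath (Ed : Edges G) (N : ℕ) (γ : ℕ → G) : Prop := ∀ j, j < N → (j, γ j, γ (j + 1)) ∈ Ed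

variable {F : Type*} [NormedAddCommGroup F] [InnerProductSpace ℝ F]

/-- deviation of `f` along the path `γ` on the time interval `[p,q)` from uniform speed `V` -/
noncomputable def dev (f : PT G → F) (V : F) (γ : ℕ → G) (p q : ℕ) : ℝ :=
  ∑ j ∈ Finset.Ico p q, ‖f (pt ((j : ℝ) + 1) (γ (j + 1))) - f (pt (j : ℝ) (γ j)) - V‖ ^ 2

/-- kinetic energy -/
noncomputable def KE (γ : ℕ → G) (p q : ℕ) : ℝ := ∑ j ∈ Finset.Ico p q, ‖γ (j + 1) - γ j‖ ^ 2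

/-- `f` is quasi-uniform on the movie -/
def Good (D ε : ℝ) (N : ℕ) (Ed : Edges G) (f : PT G → F) : Prop :=
  DBL D (VPt Ed) f ∧ ∃ V : F, ∀ γ : ℕ → G, IsPath Ed N γ →
    dev f V γ 0 N ≤ ε + (D + 1) ^ 2 * KE γ 0 N

/-- online families of embeddings -/
structure Online (K₂ : ℕ) (D : ℝ) (A : Set G → (G → F) → Prop) : Prop where
  zero : ∃ φ, A {0} φ
  fin : ∀ S φ, A S φ → S.Finite
  dbl : ∀ S φ, A S φ → DBL D S φ
  ext : ∀ S φ x, A S φ → x ∉ S → Pk 10 K₂ (insert x S) → ∃ φ', A (insert x S) φ' ∧ EqOn φ' φ S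

end

/-! ## Module statements (G : position space) -/

/-- CONE -/
def CONE : Prop := ∀ (G : Type) [NormedAddCommGroup G] [InnerProductSpace ℝ G]
  (K : ℕ) (τ : ℝ) (N : ℕ) (Ed : Edges G) (X : ℕ × G × G → Set (PT G)), Honest K τ N Ed →
  (∀ e ∈ Ed, X e ⊆ Cone (om τ) (pt (e.1 : ℝ) e.2.1) (pt ((e.1 : ℝ) + 1) e.2.2)) →
  (⋃ e ∈ Ed, X e) ⊆ Cone (om τ) (pt 0 (0 : G)) (pt (N : ℝ) 0)

/-- PACK -/
def PACK : Prop := ∀ (G : Type) [NormedAddCommGroup G] [InnerProductSpace ℝ G]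
  (K : ℕ) (τ : ℝ) (N : ℕ) (Ed : Edges G) (X : ℕ × G × G → Set (PT G)), Honest K τ N Ed →
  (∀ e ∈ Ed, X e ⊆ Cone (om τ) (pt (e.1 : ℝ) e.2.1) (pt ((e.1 : ℝ) + 1) e.2.2)) →
  (∀ e ∈ Ed, Pk 8 (Psi K) (X e)) → Pk 8 (Psi K) (⋃ e ∈ Ed, X e)

/-- PLACE : placement of a script between `a` and `b` (reflection) -/
def PLACE : Prop := ∀ (G : Type) [NormedAddCommGroup G] [InnerProductSpace ℝ G]
  (a b : PT G) (N : ℕ), a ≠ b → 1 ≤ N → ∃ (lam : ℝ) (U : PT G ≃ₗᵢ[ℝ] PT G), 0 < lam ∧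
    a + lam • U (pt (N : ℝ) 0) = b

/-- NEST (uses CONE, PACK) : all nested sets are universally packed, finite, contain endpoints -/
def NEST : Prop := ∀ (G : Type) [NormedAddCommGroup G] [InnerProductSpace ℝ G]
  (K : ℕ) (τ : ℝ) (a b : PT G) (X : Set (PT G)), 0 < τ → τ ≤ 1 / 100 → Nest K τ a b X →
  X.Finite ∧ a ∈ X ∧ b ∈ X ∧ a ≠ b ∧ X ⊆ Cone (om τ) a b ∧ Pk 8 (Psi K) X ∧
    Pk 10 ((Psi K) ^ 2) X

/-- NESTSIM : similarity invariance -/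
def NESTSIM : Prop := ∀ (G : Type) [NormedAddCommGroup G] [InnerProductSpace ℝ G]
  (K : ℕ) (τ : ℝ) (a b : PT G) (X : Set (PT G)) (c : PT G) (mu : ℝ) (V : PT G ≃ₗᵢ[ℝ] PT G),
  0 < mu → Nest K τ a b X →
  Nest K τ (c + mu • V a) (c + mu • V b) ((fun p => c + mu • V p) '' X)

/-- HON : a movie from {0} to {0} becomes honest after prolongation -/
def HON : Prop := ∀ (G : Type) [NormedAddCommGroup G] [InnerProductSpace ℝ G]
  (K : ℕ) (N : ℕ) (Ed : Edges G), 2 ≤ K → Movie K {0} N Ed →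
  ∃ τ : ℝ, 0 < τ ∧ ∃ M₀ : ℕ, ∀ M : ℕ, M₀ ≤ M →
    Honest K τ (3 * M) (shiftE (M + 1) Ed ∪ mainE (3 * M))

/-- the standing (false) hypothesis: all finite well-packed sets embed -/
def Star (G F : Type) [NormedAddCommGroup G] [InnerProductSpace ℝ G] [NormedAddCommGroup F]
    [InnerProductSpace ℝ F] (K₀ : ℕ) (D : ℝ) : Prop :=
  ∀ X : Set G, X.Finite → Pk 10 K₀ X → ∃ f : G → F, DBL D X f

/-- NAM (uses HON, NEST, NESTSIM, PLACE) : under `Star` every movie has a quasi-uniform embedding -/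
def NAM : Prop := ∀ (G F : Type) [NormedAddCommGroup G] [InnerProductSpace ℝ G]
  [NormedAddCommGroup F] [InnerProductSpace ℝ F] (K : ℕ) (D : ℝ), 1 ≤ D → 2 ≤ K →
  Star (PT G) F ((Psi K) ^ 2) D →
  ∀ (N : ℕ) (Ed : Edges G), Movie K {0} N Ed → ∀ ε : ℝ, 0 < ε →
    ∃ f : PT G → F, Good D ε N Ed f

/-- CAT : concatenation of movies -/
def CAT : Prop := ∀ (G : Type) [NormedAddCommGroup G] [InnerProductSpace ℝ G]
  (K : ℕ) (T : Set G) (N₁ N₂ : ℕ) (E₁ E₂ : Edges G), Movie K T N₁ E₁ → Movie K T N₂ E₂ →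
  Movie K T (N₁ + N₂) (E₁ ∪ shiftE N₁ E₂)

/-- SANDW : birth, movie, death -/
def SANDW : Prop := ∀ (G : Type) [NormedAddCommGroup G] [InnerProductSpace ℝ G]
  (K : ℕ) (T : Set G) (x₀ x : G) (m N : ℕ) (Ed : Edges G), T.Finite → Pk 10 K T →
  x ∉ T → x₀ ∈ T → (∀ y ∈ T, dist x x₀ ≤ dist x y) → 1 ≤ m → dist x x₀ ≤ (m : ℝ) / 100 →
  Movie (K + 1) (insert x T) N Ed →
  Movie (K + 1) T (m + N + m)
    (birthE T x₀ x m ∪ shiftE m Ed ∪ shiftE (m + N) (deathE T x₀ x m))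

/-- HSTEP (uses CAT, SANDW) -/
def HSTEP : Prop := ∀ (G F : Type) [NormedAddCommGroup G] [InnerProductSpace ℝ G]
  [FiniteDimensional ℝ G] [NormedAddCommGroup F] [InnerProductSpace ℝ F]
  [FiniteDimensional ℝ F] (K₂ : ℕ) (D : ℝ), 1 ≤ D → 1 ≤ K₂ →
  (∀ (N : ℕ) (Ed : Edges G), Movie (K₂ + 1) {0} N Ed → ∀ ε : ℝ, 0 < ε →
    ∃ f : PT G → F, Good D ε N Ed f) →
  ∃ A : Set G → (G → F) → Prop, Online K₂ D A

/-- families of configurations `Fin k → G × F` (positions, values) -/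
structure Fam0 (G F : Type) [NormedAddCommGroup G] [InnerProductSpace ℝ G]
    [NormedAddCommGroup F] [InnerProductSpace ℝ F] (D : ℝ)
    (S : (k : ℕ) → Set (Fin k → G × F)) : Prop where
  empty : Fin.elim0 ∈ S 0
  restr : ∀ (k j : ℕ) (g : Fin j → Fin k) (s : Fin k → G × F), s ∈ S k → s ∘ g ∈ S j
  ext : ∀ (k : ℕ) (s : Fin k → G × F) (x : G), s ∈ S k →
    Pk 10 3 (insert x (range fun i => (s i).1)) →
    ∃ y : F, (Fin.cons (x, y) s : Fin (k + 1) → G × F) ∈ S (k + 1)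
  dbl : ∀ (k : ℕ) (s : Fin k → G × F), s ∈ S k → ∀ i j,
    dist (s i).1 (s j).1 ≤ dist (s i).2 (s j).2 ∧
    dist (s i).2 (s j).2 ≤ D * dist (s i).1 (s j).1

/-- closed, invariant families; extension only by new points -/
structure Fam (G F : Type) [NormedAddCommGroup G] [InnerProductSpace ℝ G]
    [NormedAddCommGroup F] [InnerProductSpace ℝ F] (D : ℝ)
    (S : (k : ℕ) → Set (Fin k → G × F)) : Prop where
  point : ∃ s, s ∈ S 1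
  closed : ∀ k, IsClosed (S k)
  restr : ∀ (k j : ℕ) (g : Fin j → Fin k) (s : Fin k → G × F), Function.Injective g →
    s ∈ S k → s ∘ g ∈ S j
  ext : ∀ (k : ℕ) (s : Fin k → G × F) (x : G), s ∈ S k →
    Function.Injective (fun i => (s i).1) → x ∉ range (fun i => (s i).1) →
    Pk 10 3 (insert x (range fun i => (s i).1)) →
    ∃ y : F, (Fin.cons (x, y) s : Fin (k + 1) → G × F) ∈ S (k + 1)
  dbl : ∀ (k : ℕ) (s : Fin k → G × F), s ∈ S k → ∀ i j,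
    dist (s i).1 (s j).1 ≤ dist (s i).2 (s j).2 ∧
    dist (s i).2 (s j).2 ≤ D * dist (s i).1 (s j).1
  trans : ∀ (k : ℕ) (s : Fin k → G × F) (v : G) (w : F), s ∈ S k →
    (fun i => ((s i).1 + v, (s i).2 + w)) ∈ S k
  scale : ∀ (k : ℕ) (s : Fin k → G × F) (lam : ℝ), 0 < lam → s ∈ S k →
    (fun i => (lam • (s i).1, lam • (s i).2)) ∈ S k

/-- RSTEP (uses NEST, PLACE) -/
def RSTEP : Prop := ∀ (G F : Type) [NormedAddCommGroup G] [InnerProductSpace ℝ G]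
  [FiniteDimensional ℝ G] [NormedAddCommGroup F] [InnerProductSpace ℝ F]
  [FiniteDimensional ℝ F] (D : ℝ) (A : Set (PT G) → (PT G → F) → Prop), 1 ≤ D →
  Online ((Psi 5) ^ 2) D A → ∃ S, Fam0 G F D S

/-- BLOW : blow-down of a family -/
def BLOW : Prop := ∀ (G F : Type) [NormedAddCommGroup G] [InnerProductSpace ℝ G]
  [FiniteDimensional ℝ G] [NormedAddCommGroup F] [InnerProductSpace ℝ F]
  [FiniteDimensional ℝ F] (D : ℝ), 1 ≤ D → (∃ S, Fam0 G F D S) → ∃ S, Fam G F D S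

/-- ISTEP : no such family if `dim F < dim G` -/
def ISTEP : Prop := ∀ (n : ℕ) (G F : Type) [NormedAddCommGroup G] [InnerProductSpace ℝ G]
  [FiniteDimensional ℝ G] [NormedAddCommGroup F] [InnerProductSpace ℝ F]
  [FiniteDimensional ℝ F] (D : ℝ) (S : (k : ℕ) → Set (Fin k → G × F)), 1 ≤ D →
  Module.finrank ℝ F ≤ n → n < Module.finrank ℝ G → ¬ Fam G F D S

/-- the universal constants -/
def K2c : ℕ := (Psi 5) ^ 2
def K0c : ℕ := (Psi (K2c + 1)) ^ 2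

/-- FINB (uses everything above) -/
def FINB : Prop := ∀ (n : ℕ) (D : ℝ), 1 ≤ D →
  ¬ Star (PT (PT (EuclideanSpace ℝ (Fin (n + 1))))) (EuclideanSpace ℝ (Fin n)) K0c D

end Crest.LP
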