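import Mathlib
import Crest.Agent.LPCore

/-! rid 254 (S0392): PERT: similarity invariance and openness of `Pk`, far points. -/

set_option autoImplicit false
open Set Filter Topology

namespace Crest.LP

lemma Pk.mono {X : Type*} [PseudoMetricSpace X] {ρ : ℝ} {K : ℕ} {S T : Set X} (h : Pk ρ K T)
    (hST : S ⊆ T) : Pk ρ K S := fun A r hA hr h1 h2 => h A r (hA.trans hST) hr h1 h2

/-- similarity invariance of `Pk` -/
lemma Pk.image_sim {X Y : Type*} [MetricSpace X] [MetricSpace Y] {ρ : ℝ} {K : ℕ} {T : Set X}
    (f : X → Y) (lam : ℝ) (hlam : 0 < lam) (hf : ∀ x y, dist (f x) (f y) = lam * dist x y)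
    (h : Pk ρ K T) : Pk ρ K (f '' T) := by
  classical
  have hinj : Function.Injective f := by
    intro x y hxy
    have h1 := hf x y
    rw [hxy, dist_self] at h1
    have h2 : dist x y = 0 := by
      rcases mul_eq_zero.1 h1.symm with h | h
      · exact absurd h hlam.ne'
      · exact h
    exact dist_eq_zero.1 h2
  intro A r hA hr h1 h2
  obtain ⟨B, hB, hBA⟩ := Finset.subset_set_image_iff.1 hA
  have hcard : A.card = B.card := by
    rw [← hBA]; exact Finset.card_image_of_injective B hinj
  rw [hcard]
  refine h B (r / lam) hB (div_pos hr hlam) ?_ ?_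
  · intro x hx y hy hxy
    have h3 := h1 (f x) (by rw [← hBA]; exact Finset.mem_image_of_mem f hx) (f y)
      (by rw [← hBA]; exact Finset.mem_image_of_mem f hy) (fun h => hxy (hinj h))
    rw [hf] at h3
    rw [div_le_iff₀ hlam]; linarith [mul_comm lam (dist x y)]
  · intro x hx y hy
    have h3 := h2 (f x) (by rw [← hBA]; exact Finset.mem_image_of_mem f hx) (f y)
      (by rw [← hBA]; exact Finset.mem_image_of_mem f hy)
    rw [hf] at h3
    have h4 : ρ * (r / lam) = (ρ * r) / lam := by ring
    rw [h4, le_div_iff₀ hlam]; linarith [mul_comm lam (dist x y)]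

/-- characterisation of `Pk 10 3` by 4-tuples -/
lemma pk3_iff {X : Type*} [MetricSpace X] (T : Set X) :
    Pk 10 3 T ↔ ∀ a : Fin 4 → X, Function.Injective a → (∀ i, a i ∈ T) →
      ∃ i j k l, i ≠ j ∧ 10 * dist (a i) (a j) < dist (a k) (a l) := by
  classical
  constructor
  · intro h a ha haT
    by_contra hcon
    push Not at hcon
    -- minimal distance
    obtain ⟨p, hp, hpmin⟩ := Finset.exists_min_image
      (Finset.univ.filter fun p : Fin 4 × Fin 4 => p.1 ≠ p.2)
      (fun p => dist (a p.1) (a p.2)) ⟨(0, 1), by simp⟩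
    have hp' : p.1 ≠ p.2 := by simpa using hp
    have h1 := h (Finset.univ.image a) (dist (a p.1) (a p.2))
      (by intro x hx; simp at hx; obtain ⟨i, rfl⟩ := hx; exact haT i)
      (dist_pos.2 fun h => hp' (ha h))
      (by
        intro x hx y hy hxy
        simp at hx hy
        obtain ⟨i, rfl⟩ := hx
        obtain ⟨j, rfl⟩ := hy
        exact hpmin (i, j) (by simpa using fun h => hxy (by rw [h])))
      (by
        intro x hx y hy
        simp at hx hy
        obtain ⟨i, rfl⟩ := hx
        obtain ⟨j, rfl⟩ := hy
        exact hcon p.1 p.2 i j hp')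
    rw [Finset.card_image_of_injective _ ha] at h1
    simp at h1
  · intro h A r hA hr h1 h2
    by_contra hcard
    push Not at hcard
    obtain ⟨B, hBA, hB⟩ := Finset.exists_subset_card_eq (show 4 ≤ A.card by omega)
    let e := (Finset.equivFinOfCardEq hB).symm
    obtain ⟨i, j, k, l, hij, hlt⟩ := h (fun i => (e i : X))
      (fun i j hij => e.injective (Subtype.ext hij)) (fun i => hA (hBA (e i).2))
    have h3 := h1 (e i) (hBA (e i).2) (e j) (hBA (e j).2)
      (fun h => hij (e.injective (Subtype.ext h)))
    have h4 := h2 (e k) (hBA (e k).2) (e l) (hBA (e l).2)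
    linarith

/-- openness of `Pk 10 3` -/
theorem pk_open {X : Type*} [MetricSpace X] {k : ℕ} {ι : Type*} {l : Filter ι} (u : ι → Fin k → X)
    (x : Fin k → X) (hx : Function.Injective x) (hpk : Pk 10 3 (range x))
    (hu : Tendsto u l (𝓝 x)) : ∀ᶠ m in l, Pk 10 3 (range (u m)) := by
  classical
  have hu' : ∀ i, Tendsto (fun m => u m i) l (𝓝 (x i)) := fun i =>
    ((continuous_apply i).tendsto x).comp hu
  rw [pk3_iff] at hpk
  have key : ∀ g : Fin 4 → Fin k, Function.Injective g → ∀ᶠ m in l, ∃ i j p q : Fin 4, i ≠ j ∧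
      10 * dist (u m (g i)) (u m (g j)) < dist (u m (g p)) (u m (g q)) := by
    intro g hg
    obtain ⟨i, j, p, q, hij, hlt⟩ := hpk (fun i => x (g i)) (hx.comp hg) (fun i => ⟨g i, rfl⟩)
    have h1 : Tendsto (fun m => 10 * dist (u m (g i)) (u m (g j))) l
        (𝓝 (10 * dist (x (g i)) (x (g j)))) := ((hu' _).dist (hu' _)).const_mul 10
    have h2 : Tendsto (fun m => dist (u m (g p)) (u m (g q))) l
        (𝓝 (dist (x (g p)) (x (g q)))) := (hu' _).dist (hu' _)
    filter_upwards [h1.eventually_lt h2 hlt] with m hm
    exact ⟨i, j, p, q, hij, hm⟩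
  have key2 : ∀ᶠ m in l, ∀ g : Fin 4 → Fin k, Function.Injective g → ∃ i j p q : Fin 4, i ≠ j ∧
      10 * dist (u m (g i)) (u m (g j)) < dist (u m (g p)) (u m (g q)) := by
    rw [eventually_all]
    intro g
    by_cases hg : Function.Injective g
    · filter_upwards [key g hg] with m hm _ using hm
    · exact Eventually.of_forall fun m h => absurd h hg
  filter_upwards [key2] with m hm
  rw [pk3_iff]
  intro a ha haT
  choose g hg using haT
  have hginj : Function.Injective g := by
    intro i j hij
    apply ha
    rw [← hg i, ← hg j, hij]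
  obtain ⟨i, j, p, q, hij, hlt⟩ := hm g hginj
  refine ⟨i, j, p, q, hij, ?_⟩
  rw [hg, hg, hg, hg] at hlt
  exact hlt

/-- two far points can be added -/
theorem pk_far {X : Type*} [MetricSpace X] (T : Set X) (c p q : X) (δ L : ℝ)
    (h : ∀ x ∈ T, dist x c ≤ δ) (hL : 21 * δ < L) (hp : L ≤ dist p c) (hq : L ≤ dist q c)
    (hT : Pk 10 3 T) : Pk 10 3 (insert p (insert q T)) := by
  classical
  intro A r hA hr h1 h2
  by_cases hpq : p ∈ A ∨ q ∈ A
  · -- at most one point of T
    have hone : ∀ x ∈ A, ∀ y ∈ A, x ∈ T → y ∈ T → x = y := by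
      intro x hx y hy hxT hyT
      by_contra hne
      have h3 := h1 x hx y hy hne
      have h4 : dist x y ≤ 2 * δ := by
        have := dist_triangle_right x y c
        linarith [h x hxT, h y hyT]
      rcases hpq with hpA | hqA
      · have h5 := h2 p hpA x hx
        have h6 : L - δ ≤ dist p x := by
          have := dist_triangle p x c
          linarith [h x hxT]
        linarith
      · have h5 := h2 q hqA x hx
        have h6 : L - δ ≤ dist q x := by
          have := dist_triangle q x c
          linarith [h x hxT]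
        linarith
    by_cases hex : ∃ x ∈ A, x ∈ T
    · obtain ⟨x, hxA, hxT⟩ := hex
      have hsub : A ⊆ {p, q, x} := by
        intro y hy
        rcases hA hy with rfl | rfl | hyT
        · simp
        · simp
        · have := hone y hy x hxA hyT hxT
          simp [this]
      exact (Finset.card_le_card hsub).trans Finset.card_le_three
    · have hsub : A ⊆ {p, q} := by
        intro y hy
        rcases hA hy with rfl | rfl | hyT
        · simp
        · simp
        · exact absurd ⟨y, hy, hyT⟩ hex
      exact ((Finset.card_le_card hsub).trans Finset.card_le_two).trans (by norm_num)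
  · push Not at hpq
    refine hT A r ?_ hr h1 h2
    intro y hy
    rcases hA hy with rfl | rfl | hyT
    · exact absurd hy hpq.1
    · exact absurd hy hpq.2
    · exact hyT

end Crest.LP
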