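import Mathlib
import Crest.Agent.LPCore
import Crest.Agent.H23LPPert

/-! rid 254 (S0392): BLOW: closure of the similarity orbit of a family. -/

set_option autoImplicit false
open Set Filter Topology

namespace Crest.LP

section
variable {G F : Type} [NormedAddCommGroup G] [InnerProductSpace ℝ G]
    [NormedAddCommGroup F] [InnerProductSpace ℝ F]

/-- joint similarity of positions and values -/
def trf {k : ℕ} (lam : ℝ) (v : G) (w : F) (s : Fin k → G × F) : Fin k → G × F :=
  fun i => (lam • (s i).1 + v, lam • (s i).2 + w)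

def Orb (S : (k : ℕ) → Set (Fin k → G × F)) (k : ℕ) : Set (Fin k → G × F) :=
  {t | ∃ s ∈ S k, ∃ lam : ℝ, 0 < lam ∧ ∃ v w, t = trf lam v w s}

lemma dist_trf {E : Type*} [NormedAddCommGroup E] [InnerProductSpace ℝ E] (lam : ℝ)
    (hlam : 0 < lam) (v a b : E) : dist (lam • a + v) (lam • b + v) = lam * dist a b := by
  rw [dist_add_right, dist_smul₀, Real.norm_of_nonneg hlam.le]

lemma orb_dbl {D : ℝ} {S : (k : ℕ) → Set (Fin k → G × F)} (h : Fam0 G F D S) (k : ℕ)
    (t : Fin k → G × F) (ht : t ∈ Orb S k) (i j : Fin k) :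
    dist (t i).1 (t j).1 ≤ dist (t i).2 (t j).2 ∧
    dist (t i).2 (t j).2 ≤ D * dist (t i).1 (t j).1 := by
  obtain ⟨s, hs, lam, hlam, v, w, rfl⟩ := ht
  obtain ⟨h1, h2⟩ := h.dbl k s hs i j
  simp only [trf, dist_trf lam hlam]
  constructor
  · exact mul_le_mul_of_nonneg_left h1 hlam.le
  · calc lam * dist (s i).2 (s j).2 ≤ lam * (D * dist (s i).1 (s j).1) :=
        mul_le_mul_of_nonneg_left h2 hlam.le
      _ = D * (lam * dist (s i).1 (s j).1) := by ring

lemma closure_dbl {D : ℝ} {S : (k : ℕ) → Set (Fin k → G × F)} (h : Fam0 G F D S) (k : ℕ)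
    (t : Fin k → G × F) (ht : t ∈ closure (Orb S k)) (i j : Fin k) :
    dist (t i).1 (t j).1 ≤ dist (t i).2 (t j).2 ∧
    dist (t i).2 (t j).2 ≤ D * dist (t i).1 (t j).1 := by
  have hcl : IsClosed {t : Fin k → G × F | dist (t i).1 (t j).1 ≤ dist (t i).2 (t j).2 ∧
      dist (t i).2 (t j).2 ≤ D * dist (t i).1 (t j).1} := by
    have e1 : Continuous fun t : Fin k → G × F => dist (t i).1 (t j).1 := by fun_prop
    have e2 : Continuous fun t : Fin k → G × F => dist (t i).2 (t j).2 := by fun_prop
    exact (isClosed_le e1 e2).inter (isClosed_le e2 (e1.const_mul D))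
  exact closure_minimal (fun t ht => orb_dbl h k t ht i j) hcl ht

lemma orb_step {D : ℝ} {S : (k : ℕ) → Set (Fin k → G × F)} (h : Fam0 G F D S) (k : ℕ)
    (t : Fin k → G × F) (ht : t ∈ Orb S k) (x : G)
    (hpk : Pk 10 3 (insert x (range fun i => (t i).1))) :
    ∃ y : F, (Fin.cons (x, y) t : Fin (k + 1) → G × F) ∈ Orb S (k + 1) := by
  obtain ⟨s, hs, lam, hlam, v, w, rfl⟩ := ht
  have hpk' : Pk 10 3 (insert (lam⁻¹ • x + (-(lam⁻¹ • v))) (range fun i => (s i).1)) := by
    have h1 := hpk.image_sim (fun z : G => lam⁻¹ • z + (-(lam⁻¹ • v))) lam⁻¹ (inv_pos.2 hlam)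
      (fun a b => dist_trf _ (inv_pos.2 hlam) _ _ _)
    refine h1.mono ?_
    rintro z (rfl | ⟨i, rfl⟩)
    · exact ⟨x, Or.inl rfl, rfl⟩
    · refine ⟨_, Or.inr ⟨i, rfl⟩, ?_⟩
      simp only [trf, smul_add, smul_smul, inv_mul_cancel₀ hlam.ne', one_smul]
      abel
  obtain ⟨y, hy⟩ := h.ext k s _ hs hpk'
  refine ⟨lam • y + w, _, hy, lam, hlam, v, w, ?_⟩
  funext i
  refine Fin.cases ?_ (fun i => ?_) i
  · simp only [trf, Fin.cons_zero, smul_add, smul_neg, smul_smul, mul_inv_cancel₀ hlam.ne',
      one_smul]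
    simp
  · simp only [trf, Fin.cons_succ]

end

theorem blow : BLOW := by
  intro G F _ _ _ _ _ _ D hD ⟨S, hS⟩
  have : ProperSpace G := FiniteDimensional.proper ℝ G
  have : ProperSpace F := FiniteDimensional.proper ℝ F
  have hpoint : ∃ s, s ∈ closure (Orb S 1) := by
    obtain ⟨y, hy⟩ := hS.ext 0 Fin.elim0 0 hS.empty (by
      intro A r hA _ _ _
      have : A ⊆ {0} := by
        intro z hz
        rcases hA hz with h | ⟨i, _⟩
        · simp [h]
        · exact i.elim0
      exact (Finset.card_le_card this).trans (by simp))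
    exact ⟨_, subset_closure ⟨_, hy, 1, one_pos, 0, 0, rfl⟩⟩
  have htrans : ∀ (k : ℕ) (s : Fin k → G × F) (v : G) (w : F), s ∈ closure (Orb S k) →
      (fun i => ((s i).1 + v, (s i).2 + w)) ∈ closure (Orb S k) := by
    intro k s v w hs
    refine map_mem_closure (f := fun (s : Fin k → G × F) => fun i => ((s i).1 + v, (s i).2 + w))
      (by fun_prop) hs ?_
    rintro t ⟨s, hs, lam, hlam, v', w', rfl⟩
    refine ⟨s, hs, lam, hlam, v' + v, w' + w, ?_⟩
    funext i
    simp only [trf, add_assoc]
  refine ⟨fun k => closure (Orb S k), ⟨hpoint, fun k => isClosed_closure, ?_, ?_,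
    fun k s hs i j => closure_dbl hS k s hs i j, htrans, ?_⟩⟩
  · -- restr
    intro k j g s hg hs
    refine map_mem_closure (f := fun (s : Fin k → G × F) => s ∘ g) (by fun_prop) hs ?_
    rintro t ⟨s, hs, lam, hlam, v, w, rfl⟩
    exact ⟨s ∘ g, hS.restr k j g s hs, lam, hlam, v, w, rfl⟩
  · -- ext
    intro k s x hs hinj hx hpk
    rcases Nat.eq_zero_or_pos k with rfl | hk
    · obtain ⟨t, ht⟩ := hpoint
      have h1 := htrans 1 t (x - (t 0).1) 0 ht
      refine ⟨(t 0).2, ?_⟩
      convert h1 using 1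
      funext i
      have hi : i = (0 : Fin 1) := Subsingleton.elim (α := Fin 1) _ _
      subst hi
      simp
    · obtain ⟨u, hu, hlim⟩ := mem_closure_iff_seq_limit.1 hs
      -- positions
      have hcons : Tendsto (fun m => (Fin.cons x (fun i => (u m i).1) : Fin (k + 1) → G)) atTop
          (𝓝 (Fin.cons x (fun i => (s i).1) : Fin (k + 1) → G)) := by
        rw [tendsto_pi_nhds] at hlim ⊢
        intro i
        refine Fin.cases ?_ (fun i => ?_) i
        · simp
        · simp only [Fin.cons_succ]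
          exact (continuous_fst.tendsto _).comp (hlim i)
      have hinj' : Function.Injective (Fin.cons x (fun i => (s i).1) : Fin (k + 1) → G) :=
        Fin.cons_injective_iff.2 ⟨hx, hinj⟩
      have hev := pk_open _ _ hinj' (by rw [Fin.range_cons]; exact hpk) hcons
      have hev2 : ∀ᶠ m in atTop, ∃ y : F,
          (Fin.cons (x, y) (u m) : Fin (k + 1) → G × F) ∈ Orb S (k + 1) := by
        filter_upwards [hev] with m hm
        rw [Fin.range_cons] at hm
        exact orb_step hS k (u m) (hu m) x hm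
      obtain ⟨M, hM⟩ := eventually_atTop.1 hev2
      choose y hy using fun m : ℕ => hM (m + M) (Nat.le_add_left M m)
      -- boundedness
      let i0 : Fin k := ⟨0, hk⟩
      have hlim0 : Tendsto (fun m => u (m + M) i0) atTop (𝓝 (s i0)) :=
        ((tendsto_pi_nhds.1 hlim i0)).comp (tendsto_add_atTop_nat M)
      have hb : ∀ m, dist (y m) (u (m + M) i0).2 ≤ D * dist x (u (m + M) i0).1 := by
        intro m
        have := (orb_dbl hS (k + 1) _ (hy m) 0 (Fin.succ i0)).2
        simpa using this
      have hlim1 : Tendsto (fun m => D * dist x (u (m + M) i0).1) atTop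
          (𝓝 (D * dist x (s i0).1)) :=
        (tendsto_const_nhds.dist ((continuous_fst.tendsto _).comp hlim0)).const_mul D
      have hlim2 : Tendsto (fun m => dist (u (m + M) i0).2 (s i0).2) atTop (𝓝 0) := by
        have := ((continuous_snd.tendsto _).comp hlim0).dist
          (tendsto_const_nhds (x := (s i0).2))
        simpa using this
      have hlim3 := hlim1.add hlim2
      obtain ⟨R, hR⟩ := hlim3.bddAbove_range
      have hyb : ∀ m, y m ∈ Metric.closedBall (s i0).2 R := by
        intro m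
        rw [Metric.mem_closedBall]
        have h1 := hb m
        have h2 := dist_triangle (y m) (u (m + M) i0).2 (s i0).2
        have h3 : D * dist x (u (m + M) i0).1 + dist (u (m + M) i0).2 (s i0).2 ≤ R :=
          hR ⟨m, rfl⟩
        linarith
      obtain ⟨yl, -, φ, hφ, hyl⟩ := (isCompact_closedBall (s i0).2 R).tendsto_subseq hyb
      refine ⟨yl, ?_⟩
      refine mem_closure_of_tendsto (b := atTop)
        (f := fun m => (Fin.cons (x, y (φ m)) (u (φ m + M)) : Fin (k + 1) → G × F)) ?_
        (Eventually.of_forall fun m => hy (φ m))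
      rw [tendsto_pi_nhds]
      intro i
      refine Fin.cases ?_ (fun i => ?_) i
      · simp only [Fin.cons_zero]
        exact tendsto_const_nhds.prodMk_nhds hyl
      · simp only [Fin.cons_succ]
        exact (tendsto_pi_nhds.1 hlim i).comp
          ((tendsto_add_atTop_nat M).comp hφ.tendsto_atTop)
  · -- scale
    intro k s lam hlam hs
    refine map_mem_closure
      (f := fun (s : Fin k → G × F) => fun i => (lam • (s i).1, lam • (s i).2))
      (by fun_prop) hs ?_
    rintro t ⟨s, hs, mu, hmu, v, w, rfl⟩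
    refine ⟨s, hs, lam * mu, mul_pos hlam hmu, lam • v, lam • w, ?_⟩
    funext i
    simp only [trf, smul_add, smul_smul]

end Crest.LP
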