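import Crest.Agent.LPCore
/-! rid 254 (S0392): auxiliary statements (perturbation, R-step). -/
set_option autoImplicit false
open Set Filter Topology

namespace Crest.LP

/-- PERT : openness of `Pk 10 3` -/
def PERT : Prop := ∀ (G : Type) [NormedAddCommGroup G] [InnerProductSpace ℝ G]
  (k : ℕ) (x : Fin k → G), Function.Injective x → Pk 10 3 (range x) →
  ∃ δ : ℝ, 0 < δ ∧ ∀ x' : Fin k → G, (∀ i, dist (x' i) (x i) ≤ δ) →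
    Function.Injective x' ∧ Pk 10 3 (range x')

/-- FARP : adding two far points -/
def FARP : Prop := ∀ (G : Type) [NormedAddCommGroup G] [InnerProductSpace ℝ G]
  (k : ℕ) (x : Fin k → G), Function.Injective x → Pk 10 3 (range x) →
  ∃ δ : ℝ, 0 < δ ∧ ∃ R₀ : ℝ, ∀ x' : Fin k → G, (∀ i, dist (x' i) (x i) ≤ δ) →
    ∀ p q : G, (∀ i, R₀ ≤ dist p (x i)) → (∀ i, R₀ ≤ dist q (x i)) →
      Pk 10 3 (insert p (insert q (range x')))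

section
variable {G : Type*} [NormedAddCommGroup G] [InnerProductSpace ℝ G]
variable {F : Type*} [NormedAddCommGroup F] [InnerProductSpace ℝ F]

/-- placed vertices of a script -/
def PV (a : PT G) (lam : ℝ) (U : PT G ≃ₗᵢ[ℝ] PT G) (Ed : Edges G) : Set (PT G) :=
  (fun p => a + lam • U p) '' VPt Ed

/-- block of length `m` that can be appended to a script -/
structure Block (K : ℕ) (τ : ℝ) (m : ℕ) (B : Edges G) : Prop where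
  hm : 1 ≤ m
  fin : B.Finite
  lt : ∀ j z w, (j, z, w) ∈ B → j < m
  main : ∀ j, j < m → (j, (0 : G), (0 : G)) ∈ B
  pred : ∀ j z w, (j + 1, z, w) ∈ B → ∃ y, (j, y, z) ∈ B
  tilt : ∀ j z w, (j, z, w) ∈ B → ‖w - z‖ ≤ 1 / 100
  vsep : ∀ j z z', (j, z) ∈ Verts B → (j, z') ∈ Verts B → z ≠ z' → τ ≤ dist z z'
  esep : ∀ j z w z' w', (j, z, w) ∈ B → (j, z', w') ∈ B → z ≠ z' → w ≠ w' →
    ∀ s ∈ Icc (0 : ℝ) 1, τ / 2 ≤ dist (z + s • (w - z)) (z' + s • (w' - z'))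
  outdeg : ∀ j z w₁ w₂ w₃, (j, z, w₁) ∈ B → (j, z, w₂) ∈ B → (j, z, w₃) ∈ B →
    w₁ = w₂ ∨ w₁ = w₃ ∨ w₂ = w₃
  indeg : ∀ j z₁ z₂ z₃ w, (j, z₁, w) ∈ B → (j, z₂, w) ∈ B → (j, z₃, w) ∈ B →
    z₁ = z₂ ∨ z₁ = z₃ ∨ z₂ = z₃
  slices : ∀ j, ∀ s ∈ Icc (0 : ℝ) 1, Pk 10 K (slice B j s)

/-- best ratio on a free cell -/
noncomputable def vst (A : Set (PT G) → (PT G → F) → Prop) (τ : ℝ) : ℝ :=
  sSup {r | ∃ M a b φ, Cell 5 τ M a b ∧ A M φ ∧ r = dist (φ a) (φ b) / dist a b}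

/-- a script laid in a nearly extremal cell -/
structure Laid (D : ℝ) (A : Set (PT G) → (PT G → F) → Prop) (τ : ℝ) (N : ℕ) (M : Set (PT G))
    (a b : PT G) (lam : ℝ) (U : PT G ≃ₗᵢ[ℝ] PT G) (Ed : Edges G) (φ : PT G → F) (η : ℝ) :
    Prop where
  ηpos : 0 < η
  cell : Cell 5 τ M a b
  hon : Honest 5 τ N Ed
  lampos : 0 < lam
  place : a + lam • U (pt (N : ℝ) 0) = b
  alive : A (M ∪ PV a lam U Ed) φ
  near : (vst A τ - η / (4 * D * N)) * dist a b ≤ dist (φ a) (φ b)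

end

/-- CELLS : cell lemmas -/
def CELLS : Prop := ∀ (G : Type) [NormedAddCommGroup G] [InnerProductSpace ℝ G]
  (K : ℕ) (τ : ℝ), 0 < τ → τ ≤ 1 / 100 →
  Cell K τ {pt 0 (0 : G), pt 1 0} (pt 0 0) (pt 1 0) ∧
  (∀ (M : Set (PT G)) (a b : PT G) (lam : ℝ) (U : PT G ≃ₗᵢ[ℝ] PT G) (N : ℕ) (Ed : Edges G)
    (P : Set (PT G)), Cell K τ M a b → Honest K τ N Ed → 0 < lam →
    a + lam • U (pt (N : ℝ) 0) = b → P ⊆ VPt Ed →
    Pk 10 ((Psi K) ^ 2) (M ∪ (fun p => a + lam • U p) '' P) ∧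
    ∀ e ∈ Ed, pt (e.1 : ℝ) e.2.1 ∈ P → pt ((e.1 : ℝ) + 1) e.2.2 ∈ P →
      Cell K τ (M ∪ (fun p => a + lam • U p) '' P) (a + lam • U (pt (e.1 : ℝ) e.2.1))
        (a + lam • U (pt ((e.1 : ℝ) + 1) e.2.2)))

/-- LAY : extension by finitely many points -/
def LAY : Prop := ∀ (G F : Type) [NormedAddCommGroup G] [InnerProductSpace ℝ G]
  [NormedAddCommGroup F] [InnerProductSpace ℝ F] (K₂ : ℕ) (D : ℝ)
  (A : Set G → (G → F) → Prop), Online K₂ D A → ∀ (S S' : Set G) (φ : G → F), A S φ →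
  S ⊆ S' → S'.Finite → Pk 10 K₂ S' → ∃ φ', A S' φ' ∧ EqOn φ' φ S

/-- VST : properties of `vst` -/
def VST : Prop := ∀ (G F : Type) [NormedAddCommGroup G] [InnerProductSpace ℝ G]
  [NormedAddCommGroup F] [InnerProductSpace ℝ F] (D : ℝ)
  (A : Set (PT G) → (PT G → F) → Prop), 1 ≤ D → Online ((Psi 5) ^ 2) D A →
  ∀ τ : ℝ, 0 < τ → τ ≤ 1 / 100 →
  (1 ≤ vst A τ ∧ vst A τ ≤ D) ∧
  (∀ M a b φ, Cell 5 τ M a b → A M φ → dist (φ a) (φ b) ≤ vst A τ * dist a b) ∧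
  (∀ ε : ℝ, 0 < ε → ∃ M a b φ, Cell 5 τ M a b ∧ A M φ ∧
    (vst A τ - ε) * dist a b ≤ dist (φ a) (φ b))

/-- START : the empty script (main line only) laid in a nearly extremal cell -/
def START : Prop := ∀ (G F : Type) [NormedAddCommGroup G] [InnerProductSpace ℝ G]
  [NormedAddCommGroup F] [InnerProductSpace ℝ F] (D : ℝ)
  (A : Set (PT G) → (PT G → F) → Prop), 1 ≤ D → Online ((Psi 5) ^ 2) D A →
  ∀ (τ η : ℝ) (N : ℕ), 0 < τ → τ ≤ 1 / 100 → 0 < η → 100 ≤ N →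
  ∃ M a b lam U φ, Laid D A τ N M a b lam U (mainE N) φ η

/-- APPEND : appending a block at time `t` -/
def APPEND : Prop := ∀ (G : Type) [NormedAddCommGroup G] [InnerProductSpace ℝ G]
  (K : ℕ) (τ : ℝ) (N m t : ℕ) (Ed B : Edges G), Honest K τ N Ed → Block K τ m B →
  (∀ j z w, (j, z, w) ∈ Ed → t ≤ j → z = 0 ∧ w = 0) →
  (∀ z w, (0, z, w) ∈ B → (t, z) ∈ Verts Ed) → N < 3 * t → 3 * (t + m) < 2 * N →
  (∀ j z w, (j, z, w) ∈ B → ‖z‖ ≤ cc * τ * N ∧ ‖w‖ ≤ cc * τ * N) →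
  Honest K τ N (Ed ∪ shiftE t B)

/-- LAYSCR : laying a longer script -/
def LAYSCR : Prop := ∀ (G F : Type) [NormedAddCommGroup G] [InnerProductSpace ℝ G]
  [NormedAddCommGroup F] [InnerProductSpace ℝ F] (D : ℝ)
  (A : Set (PT G) → (PT G → F) → Prop), 1 ≤ D → Online ((Psi 5) ^ 2) D A →
  ∀ (τ : ℝ) (N : ℕ) (M : Set (PT G)) (a b : PT G) (lam : ℝ) (U : PT G ≃ₗᵢ[ℝ] PT G)
  (Ed Ed' : Edges G) (φ : PT G → F) (η : ℝ), Laid D A τ N M a b lam U Ed φ η →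
  Honest 5 τ N Ed' → Ed ⊆ Ed' →
  ∃ φ', Laid D A τ N M a b lam U Ed' φ' η ∧ EqOn φ' φ (M ∪ PV a lam U Ed)

/-- BIRTHBLK, RETBLK : the two blocks that are used -/
def BLOCKS : Prop := ∀ (G : Type) [NormedAddCommGroup G] [InnerProductSpace ℝ G] (τ : ℝ)
  (m : ℕ), 0 < τ → 1 ≤ m →
  (∀ (T : Set G) (x₀ x : G), T.Finite → (0 : G) ∈ T → Pk 10 4 T → x ∉ T → x₀ ∈ T →
    (∀ y ∈ T, dist x x₀ ≤ dist x y) → (∀ y ∈ T, ∀ z ∈ T, y ≠ z → τ ≤ dist y z) →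
    dist x x₀ ≤ (m : ℝ) / 100 → τ ≤ dist x x₀ / m → Block 5 τ m (birthE T x₀ x m)) ∧
  (∀ x : G, x ≠ 0 → ‖x‖ ≤ (m : ℝ) / 100 → τ ≤ ‖x‖ / m →
    Block 5 τ m (deathE {0} 0 x m)) ∧
  Block 5 τ m (mainE m : Edges G)

/-- NAPRE : the quadratic estimate for prefix paths (hypothetical return in `ρ` steps) -/
def NAPRE : Prop := ∀ (G F : Type) [NormedAddCommGroup G] [InnerProductSpace ℝ G]
  [NormedAddCommGroup F] [InnerProductSpace ℝ F] (D : ℝ)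
  (A : Set (PT G) → (PT G → F) → Prop), 1 ≤ D → Online ((Psi 5) ^ 2) D A →
  ∀ (τ : ℝ) (N : ℕ) (M : Set (PT G)) (a b : PT G) (lam : ℝ) (U : PT G ≃ₗᵢ[ℝ] PT G)
  (Ed : Edges G) (φ : PT G → F) (η : ℝ), Laid D A τ N M a b lam U Ed φ η →
  ∀ (t ρ : ℕ) (γ : ℕ → G), IsPath Ed t γ →
  (∀ j z w, (j, z, w) ∈ Ed → t ≤ j → z = 0 ∧ w = 0) →
  N < 3 * t → 3 * (t + ρ) < 2 * N → 1 ≤ ρ → ‖γ t‖ ≤ (ρ : ℝ) / 100 →
  (γ t = 0 ∨ τ ≤ ‖γ t‖ / ρ) →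
  dev (fun p => (1 / lam) • φ (a + lam • U p)) ((1 / (N * lam)) • (φ b - φ a)) γ 0 t ≤
    η + D ^ 2 * (KE γ 0 t + ‖γ t‖ ^ 2 / ρ)

end Crest.LP
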