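import Mathlib
import Crest.Agent.LPCore2

set_option autoImplicit false
open Set

namespace Crest.LP.H27

open Crest.LP

section

variable {G : Type} [NormedAddCommGroup G] [InnerProductSpace ℝ G]

theorem pk_mono_set {X : Type*} [PseudoMetricSpace X] {ρ : ℝ} {K : ℕ} {T T' : Set X}
    (h : Pk ρ K T) (hT : T' ⊆ T) : Pk ρ K T' := by
  intro A r hA hr h1 h2
  exact h A r (hA.trans hT) hr h1 h2

theorem pk_insert' {X : Type*} [PseudoMetricSpace X] {ρ : ℝ} {K : ℕ} {T : Set X}
    (h : Pk ρ K T) (x : X) : Pk ρ (K + 1) (insert x T) := by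
  classical
  intro A r hA hr h1 h2
  have hB : ((A.erase x : Finset X) : Set X) ⊆ T := by
    intro y hy
    simp only [Finset.coe_erase, Set.mem_diff, Finset.mem_coe, Set.mem_singleton_iff] at hy
    rcases hA hy.1 with h | h
    · exact absurd h hy.2
    · exact h
  have h3 := h (A.erase x) r hB hr
    (fun a ha b hb => h1 a (Finset.mem_of_mem_erase ha) b (Finset.mem_of_mem_erase hb))
    (fun a ha b hb => h2 a (Finset.mem_of_mem_erase ha) b (Finset.mem_of_mem_erase hb))
  have h4 := Finset.pred_card_le_card_erase (s := A) (a := x)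
  omega

/-- moving edges along the sequence `q` -/
def movE (q : ℕ → G) (m : ℕ) : Edges G := {e | ∃ j, j < m ∧ e = (j, q j, q (j + 1))}

theorem mem_restE {T : Set G} {m j : ℕ} {z w : G} :
    (j, z, w) ∈ restE T m ↔ j < m ∧ z ∈ T ∧ w = z := by
  constructor
  · rintro ⟨j', x, h1, h2, h3⟩
    simp only [Prod.mk.injEq] at h3
    obtain ⟨rfl, rfl, rfl⟩ := h3
    exact ⟨h1, h2, rfl⟩
  · rintro ⟨h1, h2, rfl⟩
    exact ⟨j, w, h1, h2, rfl⟩

theorem mem_movE {q : ℕ → G} {m j : ℕ} {z w : G} :
    (j, z, w) ∈ movE q m ↔ j < m ∧ z = q j ∧ w = q (j + 1) := by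
  constructor
  · rintro ⟨j', h1, h3⟩
    simp only [Prod.mk.injEq] at h3
    obtain ⟨rfl, rfl, rfl⟩ := h3
    exact ⟨h1, rfl, rfl⟩
  · rintro ⟨h1, rfl, rfl⟩
    exact ⟨j, h1, rfl⟩

theorem block_gen (τ : ℝ) (m : ℕ) (hm : 1 ≤ m) (T : Set G) (q : ℕ → G)
    (hfin : T.Finite) (h0 : (0 : G) ∈ T) (hT : Pk 10 4 T)
    (htilt : ∀ j, j < m → ‖q (j + 1) - q j‖ ≤ 1 / 100)
    (hsep : ∀ y ∈ T, ∀ z ∈ T, y ≠ z → τ ≤ dist y z) (hτ : 0 < τ)
    (hv : ∀ j, j ≤ m → ∀ y ∈ T, y ≠ q j → τ ≤ dist y (q j))
    (he : ∀ j, j < m → ∀ y ∈ T, y ≠ q j → y ≠ q (j + 1) → ∀ s ∈ Icc (0 : ℝ) 1,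
      τ / 2 ≤ dist y (q j + s • (q (j + 1) - q j))) :
    Block 5 τ m (restE T m ∪ movE q m) where
  hm := hm
  fin := by
    apply Set.Finite.union
    · apply Set.Finite.subset (((Set.finite_lt_nat m).prod hfin).image
        (fun p : ℕ × G => (p.1, p.2, p.2)))
      rintro ⟨j, z, w⟩ h
      obtain ⟨h1, h2, rfl⟩ := mem_restE.1 h
      exact ⟨(j, w), ⟨h1, h2⟩, rfl⟩
    · apply Set.Finite.subset ((Set.finite_lt_nat m).image (fun j : ℕ => (j, q j, q (j + 1))))
      rintro ⟨j, z, w⟩ h
      obtain ⟨h1, rfl, rfl⟩ := mem_movE.1 h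
      exact ⟨j, h1, rfl⟩
  lt := by
    rintro j z w (h | h)
    · exact (mem_restE.1 h).1
    · exact (mem_movE.1 h).1
  main := by
    intro j hj
    exact Or.inl (mem_restE.2 ⟨hj, h0, rfl⟩)
  pred := by
    rintro j z w (h | h)
    · obtain ⟨h1, h2, rfl⟩ := mem_restE.1 h
      exact ⟨w, Or.inl (mem_restE.2 ⟨by omega, h2, rfl⟩)⟩
    · obtain ⟨h1, rfl, rfl⟩ := mem_movE.1 h
      exact ⟨q j, Or.inr (mem_movE.2 ⟨by omega, rfl, rfl⟩)⟩
  tilt := by
    rintro j z w (h | h)
    · obtain ⟨h1, h2, rfl⟩ := mem_restE.1 h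
      simp
    · obtain ⟨h1, rfl, rfl⟩ := mem_movE.1 h
      exact htilt j h1
  vsep := by
    have key : ∀ j z, (j, z) ∈ Verts (restE T m ∪ movE q m) → j ≤ m ∧ (z ∈ T ∨ z = q j) := by
      rintro j z (⟨w, h | h⟩ | ⟨j', y, h1, h | h⟩)
      · obtain ⟨h1, h2, rfl⟩ := mem_restE.1 h
        exact ⟨h1.le, Or.inl h2⟩
      · obtain ⟨h1, h2, -⟩ := mem_movE.1 h
        exact ⟨h1.le, Or.inr h2⟩
      · obtain ⟨h2, h3, h4⟩ := mem_restE.1 h
        simp only at h1 h4
        subst h1 h4
        exact ⟨h2, Or.inl h3⟩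
      · obtain ⟨h2, h3, h4⟩ := mem_movE.1 h
        simp only at h1 h4
        subst h1
        exact ⟨h2, Or.inr h4⟩
    intro j z z' hz hz' hne
    obtain ⟨hj, h1⟩ := key j z hz
    obtain ⟨-, h2⟩ := key j z' hz'
    rcases h1 with h1 | h1 <;> rcases h2 with h2 | h2
    · exact hsep z h1 z' h2 hne
    · subst h2
      exact hv j hj z h1 hne
    · subst h1
      rw [dist_comm]
      exact hv j hj z' h2 (Ne.symm hne)
    · exact absurd (h1.trans h2.symm) hne
  esep := by
    rintro j z w z' w' (h | h) (h' | h') hz hw s hs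
    · obtain ⟨h1, h2, rfl⟩ := mem_restE.1 h
      obtain ⟨h1', h2', rfl⟩ := mem_restE.1 h'
      simp only [sub_self, smul_zero, add_zero]
      have := hsep _ h2 _ h2' hz
      linarith
    · obtain ⟨h1, h2, rfl⟩ := mem_restE.1 h
      obtain ⟨h1', rfl, rfl⟩ := mem_movE.1 h'
      simp only [sub_self, smul_zero, add_zero]
      exact he j h1 _ h2 hz hw s hs
    · obtain ⟨h1, rfl, rfl⟩ := mem_movE.1 h
      obtain ⟨h1', h2', rfl⟩ := mem_restE.1 h'
      simp only [sub_self, smul_zero, add_zero]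
      rw [dist_comm]
      exact he j h1 _ h2' (Ne.symm hz) (Ne.symm hw) s hs
    · obtain ⟨h1, rfl, rfl⟩ := mem_movE.1 h
      obtain ⟨h1', rfl, rfl⟩ := mem_movE.1 h'
      exact absurd rfl hz
  outdeg := by
    have key : ∀ j z w, (j, z, w) ∈ restE T m ∪ movE q m → w = z ∨ w = q (j + 1) := by
      rintro j z w (h | h)
      · exact Or.inl (mem_restE.1 h).2.2
      · exact Or.inr (mem_movE.1 h).2.2
    intro j z w₁ w₂ w₃ h1 h2 h3
    rcases key _ _ _ h1 with e1 | e1 <;> rcases key _ _ _ h2 with e2 | e2 <;>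
      rcases key _ _ _ h3 with e3 | e3 <;> simp [e1, e2, e3]
  indeg := by
    have key : ∀ j z w, (j, z, w) ∈ restE T m ∪ movE q m → z = w ∨ z = q j := by
      rintro j z w (h | h)
      · exact Or.inl (mem_restE.1 h).2.2.symm
      · exact Or.inr (mem_movE.1 h).2.1
    intro j z₁ z₂ z₃ w h1 h2 h3
    rcases key _ _ _ h1 with e1 | e1 <;> rcases key _ _ _ h2 with e2 | e2 <;>
      rcases key _ _ _ h3 with e3 | e3 <;> simp [e1, e2, e3]
  slices := by
    intro j s hs
    apply pk_mono_set (pk_insert' hT (q j + s • (q (j + 1) - q j)))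
    rintro x ⟨z, w, h | h, rfl⟩
    · obtain ⟨h1, h2, rfl⟩ := mem_restE.1 h
      right
      simpa using h2
    · obtain ⟨h1, rfl, rfl⟩ := mem_movE.1 h
      left
      rfl

theorem birthE_eq (T : Set G) (x₀ x : G) (m : ℕ) :
    birthE T x₀ x m = restE T m ∪ movE (fun j => x₀ + ((j : ℝ) / m) • (x - x₀)) m := by
  unfold birthE movE
  congr 1
  ext e
  simp only [Set.mem_setOf_eq, Nat.cast_add, Nat.cast_one]

theorem h27_deathE_eq (T : Set G) (x₀ x : G) (m : ℕ) :
    deathE T x₀ x m = restE T m ∪ movE (fun j => x + ((j : ℝ) / m) • (x₀ - x)) m := by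
  unfold deathE movE
  congr 1
  ext e
  simp only [Set.mem_setOf_eq, Nat.cast_add, Nat.cast_one]

theorem mainE_eq (m : ℕ) : (mainE m : Edges G) = restE {0} m ∪ movE (fun _ => 0) m := by
  ext ⟨j, z, w⟩
  rw [Set.mem_union, mem_restE, mem_movE]
  constructor
  · rintro ⟨j', h1, h2⟩
    simp only [Prod.mk.injEq] at h2
    obtain ⟨rfl, rfl, rfl⟩ := h2
    exact Or.inr ⟨h1, rfl, rfl⟩
  · rintro (⟨h1, h2, h3⟩ | ⟨h1, h2, h3⟩)
    · simp only [Set.mem_singleton_iff] at h2
      subst h2 h3
      exact ⟨j, h1, rfl⟩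
    · subst h2 h3
      exact ⟨j, h1, rfl⟩

theorem pk_single : Pk 10 4 ({0} : Set G) := by
  intro A r hA hr h1 h2
  have : A ⊆ {0} := by
    intro x hx
    have := hA hx
    simpa using this
  have := Finset.card_le_card this
  simp at this
  omega

theorem interp (x₀ v : G) (a b s : ℝ) :
    x₀ + a • v + s • (x₀ + b • v - (x₀ + a • v)) = x₀ + (a + s * (b - a)) • v := by
  module

end

theorem blocks0 : BLOCKS := by
  intro G _ _ τ m hτ hm
  have hm0 : (0 : ℝ) < m := by exact_mod_cast hm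
  refine ⟨?_, ?_, ?_⟩
  · intro T x₀ x hfin h0 hpk hxT hx₀ hnear hsep hd hdτ
    rw [birthE_eq]
    have hdist : ∀ (u : ℝ), 0 ≤ u → u ≤ 1 → ∀ y ∈ T, u * dist x x₀ ≤ dist y (x₀ + u • (x - x₀)) := by
      intro u hu hu1 y hy
      have h1 := hnear y hy
      have h2 : dist x (x₀ + u • (x - x₀)) = (1 - u) * dist x x₀ := by
        rw [dist_eq_norm, dist_eq_norm]
        have : x - (x₀ + u • (x - x₀)) = (1 - u) • (x - x₀) := by module
        rw [this, norm_smul, Real.norm_eq_abs, abs_of_nonneg (by linarith)]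
      have h3 := dist_triangle x (x₀ + u • (x - x₀)) y
      rw [dist_comm (x₀ + u • (x - x₀)) y] at h3
      nlinarith
    have hlen : ∀ u : ℝ, 0 ≤ u → dist x₀ (x₀ + u • (x - x₀)) = u * dist x x₀ := by
      intro u hu
      rw [dist_eq_norm, dist_eq_norm]
      have : x₀ - (x₀ + u • (x - x₀)) = (-u) • (x - x₀) := by module
      rw [this, norm_smul, Real.norm_eq_abs, abs_neg, abs_of_nonneg hu]
    apply block_gen τ m hm T _ hfin h0 hpk
    · intro j hj
      have e : x₀ + ((((j + 1 : ℕ) : ℝ)) / m) • (x - x₀) - (x₀ + ((j : ℝ) / m) • (x - x₀)) =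
          (1 / (m : ℝ)) • (x - x₀) := by
        push_cast
        rw [add_div]
        module
      rw [e, norm_smul, Real.norm_eq_abs, abs_of_pos (by positivity), ← dist_eq_norm]
      rw [one_div, inv_mul_le_iff₀ hm0]
      linarith
    · exact hsep
    · exact hτ
    · intro j hj y hy hne
      rcases Nat.eq_zero_or_pos j with rfl | hj0
      · simp only [CharP.cast_eq_zero, zero_div, zero_smul, add_zero] at hne ⊢
        exact hsep y hy x₀ hx₀ hne
      · have hj' : (j : ℝ) / m ≤ 1 := by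
          rw [div_le_one hm0]; exact_mod_cast hj
        have h1 := hdist ((j : ℝ) / m) (by positivity) hj' y hy
        have h2 : dist x x₀ / m ≤ (j : ℝ) / m * dist x x₀ := by
          rw [div_mul_eq_mul_div]
          apply div_le_div_of_nonneg_right _ hm0.le
          have : (1 : ℝ) ≤ j := by exact_mod_cast hj0
          nlinarith [dist_nonneg (x := x) (y := x₀)]
        linarith
    · intro j hj y hy hne hne' s hs
      rw [interp]
      have hj' : ((j : ℝ) + 1) / m ≤ 1 := by
        rw [div_le_one hm0]; exact_mod_cast hj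
      have e : (j : ℝ) / m + s * ((((j + 1 : ℕ) : ℝ)) / m - (j : ℝ) / m) = ((j : ℝ) + s) / m := by
        push_cast; field_simp; ring
      rw [e]
      have hu0 : 0 ≤ ((j : ℝ) + s) / m := by
        have := hs.1
        positivity
      have hu1 : ((j : ℝ) + s) / m ≤ 1 := by
        refine le_trans ?_ hj'
        apply div_le_div_of_nonneg_right _ hm0.le
        linarith [hs.2]
      have h1 := hdist _ hu0 hu1 y hy
      rcases Nat.eq_zero_or_pos j with rfl | hj0
      · simp only [CharP.cast_eq_zero, zero_div, zero_smul, add_zero] at hne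
        have h2 := hsep y hy x₀ hx₀ hne
        have h3 := dist_triangle y (x₀ + ((((0 : ℕ) : ℝ) + s) / m) • (x - x₀)) x₀
        rw [dist_comm (x₀ + ((((0 : ℕ) : ℝ) + s) / m) • (x - x₀)) x₀, hlen _ hu0] at h3
        linarith
      · have h2 : dist x x₀ / m ≤ ((j : ℝ) + s) / m * dist x x₀ := by
          rw [div_mul_eq_mul_div]
          apply div_le_div_of_nonneg_right _ hm0.le
          have : (1 : ℝ) ≤ j := by exact_mod_cast hj0
          have := hs.1
          nlinarith [dist_nonneg (x := x) (y := x₀)]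
        linarith
  · intro x hx hxm hxτ
    rw [h27_deathE_eq]
    have hform : ∀ u : ℝ, x + u • ((0 : G) - x) = (1 - u) • x := by
      intro u; module
    apply block_gen τ m hm {0} _ (Set.finite_singleton _) rfl pk_single
    · intro j hj
      have e : x + ((((j + 1 : ℕ) : ℝ)) / m) • ((0 : G) - x) - (x + ((j : ℝ) / m) • ((0 : G) - x)) =
          (-(1 / (m : ℝ))) • x := by
        push_cast
        rw [add_div]
        module
      rw [e, norm_smul, Real.norm_eq_abs, abs_neg, abs_of_pos (by positivity)]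
      rw [one_div, inv_mul_le_iff₀ hm0]
      linarith
    · intro y hy z hz hne
      simp only [Set.mem_singleton_iff] at hy hz
      exact absurd (hy.trans hz.symm) hne
    · exact hτ
    · intro j hj y hy hne
      simp only [Set.mem_singleton_iff] at hy
      subst hy
      rw [hform] at hne ⊢
      rw [dist_eq_norm, zero_sub, norm_neg, norm_smul, Real.norm_eq_abs]
      have hjm : j < m := by
        rcases Nat.lt_or_ge j m with h | h
        · exact h
        · exfalso
          apply hne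
          have : j = m := le_antisymm hj h
          subst this
          rw [div_self hm0.ne', sub_self, zero_smul]
      have hj' : (j : ℝ) + 1 ≤ m := by exact_mod_cast hjm
      have h1 : 1 / (m : ℝ) ≤ 1 - (j : ℝ) / m := by
        rw [le_sub_iff_add_le, ← add_div, div_le_one hm0]
        linarith
      rw [abs_of_nonneg (le_trans (by positivity) h1)]
      calc τ ≤ ‖x‖ / m := hxτ
        _ = 1 / (m : ℝ) * ‖x‖ := by ring
        _ ≤ _ := mul_le_mul_of_nonneg_right h1 (norm_nonneg _)
    · intro j hj y hy hne hne' s hs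
      simp only [Set.mem_singleton_iff] at hy
      subst hy
      rw [interp, hform, dist_eq_norm, zero_sub, norm_neg, norm_smul, Real.norm_eq_abs]
      rw [hform] at hne'
      have hjm : j + 1 < m := by
        rcases Nat.lt_or_ge (j + 1) m with h | h
        · exact h
        · exfalso
          apply hne'
          have : j + 1 = m := le_antisymm hj h
          rw [← this, div_self (by rw [this]; exact hm0.ne'), sub_self, zero_smul]
      have hj' : (j : ℝ) + 1 + 1 ≤ m := by exact_mod_cast hjm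
      have e : (j : ℝ) / m + s * ((((j + 1 : ℕ) : ℝ)) / m - (j : ℝ) / m) = ((j : ℝ) + s) / m := by
        push_cast; field_simp; ring
      rw [e]
      have h1 : 1 / (m : ℝ) ≤ 1 - ((j : ℝ) + s) / m := by
        rw [le_sub_iff_add_le, ← add_div, div_le_one hm0]
        linarith [hs.2]
      rw [abs_of_nonneg (le_trans (by positivity) h1)]
      calc τ / 2 ≤ τ := by linarith
        _ ≤ ‖x‖ / m := hxτ
        _ = 1 / (m : ℝ) * ‖x‖ := by ring
        _ ≤ _ := mul_le_mul_of_nonneg_right h1 (norm_nonneg _)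
  · rw [mainE_eq]
    apply block_gen τ m hm {0} _ (Set.finite_singleton _) rfl pk_single
    · intro j hj
      simp
    · intro y hy z hz hne
      simp only [Set.mem_singleton_iff] at hy hz
      exact absurd (hy.trans hz.symm) hne
    · exact hτ
    · intro j hj y hy hne
      simp only [Set.mem_singleton_iff] at hy
      exact absurd hy hne
    · intro j hj y hy hne hne' s hs
      simp only [Set.mem_singleton_iff] at hy
      exact absurd hy hne

end Crest.LP.H27

theorem Crest.LP.blocks : Crest.LP.BLOCKS := Crest.LP.H27.blocks0
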