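import Mathlib
import Crest.Agent.LPCore

set_option autoImplicit false
set_option linter.unusedSectionVars false
open Set Filter Topology

namespace Crest.LP.H2

open Crest.LP

variable {G : Type} [NormedAddCommGroup G] [InnerProductSpace ℝ G]
variable {F : Type} [NormedAddCommGroup F] [InnerProductSpace ℝ F]

/-- designer trees: first child `c` with subtree, then siblings -/
inductive Tr (G : Type) : Type
  | nil : Tr G
  | cons : G → Tr G → Tr G → Tr G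

def Tr.app : Tr G → Tr G → Tr G
  | .nil, s => s
  | .cons c t l, s => .cons c t (Tr.app l s)

def Host (K₂ : ℕ) (D : ℝ) (α : ℝ) : Tr G → Set G → (G → F) → Prop
  | .nil, _, _ => True
  | .cons c t l, T, φ =>
      (c ∉ T → Pk 10 K₂ (insert c T) → ∃ φ' : G → F, DBL D (insert c T) φ' ∧
        (∀ z ∈ T, dist (φ' z) (φ z) ≤ α) ∧ Host K₂ D α t (insert c T) φ') ∧
      Host K₂ D α l T φ

theorem Host.mono {K₂ : ℕ} {D α β : ℝ} (hab : α ≤ β) : ∀ (t : Tr G) (T : Set G) (φ : G → F),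
    Host K₂ D α t T φ → Host K₂ D β t T φ := by
  intro t
  induction t with
  | nil => intro T φ _; trivial
  | cons c t l iht ihl =>
    intro T φ h
    refine ⟨fun hc hp => ?_, ihl T φ h.2⟩
    obtain ⟨φ', h1, h2, h3⟩ := h.1 hc hp
    exact ⟨φ', h1, fun z hz => (h2 z hz).trans hab, iht _ _ h3⟩

theorem Host.change {K₂ : ℕ} {D α β : ℝ} (hβ : 0 ≤ β) : ∀ (t : Tr G) (T : Set G) (φ ψ : G → F),
    (∀ z ∈ T, dist (φ z) (ψ z) ≤ β) → Host K₂ D α t T φ → Host K₂ D (α + β) t T ψ := by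
  intro t
  induction t with
  | nil => intro T φ ψ _ _; trivial
  | cons c t l iht ihl =>
    intro T φ ψ hφ h
    refine ⟨fun hc hp => ?_, ihl T φ ψ hφ h.2⟩
    obtain ⟨φ', h1, h2, h3⟩ := h.1 hc hp
    exact ⟨φ', h1, fun z hz => (dist_triangle _ (φ z) _).trans (add_le_add (h2 z hz) (hφ z hz)),
      Host.mono (by linarith) _ _ _ h3⟩

theorem Host.app {K₂ : ℕ} {D α : ℝ} : ∀ (t s : Tr G) (T : Set G) (φ : G → F),
    Host K₂ D α (t.app s) T φ → Host K₂ D α t T φ ∧ Host K₂ D α s T φ := by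
  intro t
  induction t with
  | nil => intro s T φ h; exact ⟨trivial, h⟩
  | cons c t l iht ihl =>
    intro s T φ h
    obtain ⟨h1, h2⟩ := h
    obtain ⟨h3, h4⟩ := ihl s T φ h2
    exact ⟨⟨h1, h3⟩, h4⟩

/-- profile version of `Good` -/
def GoodG (D e : ℝ) (N : ℕ) (Ed : Edges G) (g : ℕ → G → F) : Prop :=
  (∀ j z z', (j, z) ∈ Verts Ed → (j, z') ∈ Verts Ed →
    dist z z' ≤ dist (g j z) (g j z') ∧ dist (g j z) (g j z') ≤ D * dist z z') ∧
  ∀ γ : ℕ → G, IsPath Ed N γ →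
    ∑ j ∈ Finset.range N, ‖g (j + 1) (γ (j + 1)) - g j (γ j)‖ ^ 2 ≤
      e + (D + 1) ^ 2 * ∑ j ∈ Finset.range N, ‖γ (j + 1) - γ j‖ ^ 2

theorem GoodG.mono {D e e' : ℝ} (he : e ≤ e') {N : ℕ} {Ed : Edges G} {g : ℕ → G → F}
    (h : GoodG D e N Ed g) : GoodG D e' N Ed g :=
  ⟨h.1, fun γ hγ => (h.2 γ hγ).trans (by linarith)⟩

/-- concatenation of paths -/
def cat (Na : ℕ) (γa γb : ℕ → G) : ℕ → G := fun j => if j ≤ Na then γa j else γb (j - Na)

theorem cat_left (Na : ℕ) (γa γb : ℕ → G) {j : ℕ} (hj : j ≤ Na) : cat Na γa γb j = γa j := by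
  simp [cat, hj]

theorem cat_right (Na : ℕ) (γa γb : ℕ → G) (hab : γa Na = γb 0) (i : ℕ) :
    cat Na γa γb (Na + i) = γb i := by
  rcases Nat.eq_zero_or_pos i with rfl | hi
  · simp [cat, hab]
  · simp [cat, show ¬ (Na + i ≤ Na) by omega]

theorem cat_path {Ea Eb : Edges G} {Na Nb : ℕ} {γa γb : ℕ → G} (ha : IsPath Ea Na γa)
    (hb : IsPath Eb Nb γb) (hab : γa Na = γb 0) :
    IsPath (Ea ∪ shiftE Na Eb) (Na + Nb) (cat Na γa γb) := by
  intro j hj
  rcases lt_or_ge j Na with h | h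
  · left
    rw [cat_left _ _ _ h.le, cat_left _ _ _ (show j + 1 ≤ Na by omega)]
    exact ha j h
  · right
    obtain ⟨i, rfl⟩ := Nat.exists_eq_add_of_le h
    rw [cat_right _ _ _ hab, show Na + i + 1 = Na + (i + 1) by ring, cat_right _ _ _ hab]
    refine ⟨i, γb i, γb (i + 1), hb i (by omega), ?_⟩
    rw [add_comm]

theorem cat_sum {Na Nb : ℕ} {γa γb : ℕ → G} (hab : γa Na = γb 0) (Φ : ℕ → G → G → ℝ) :
    ∑ j ∈ Finset.range (Na + Nb), Φ j (cat Na γa γb j) (cat Na γa γb (j + 1)) =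
    ∑ j ∈ Finset.range Na, Φ j (γa j) (γa (j + 1)) +
    ∑ j ∈ Finset.range Nb, Φ (Na + j) (γb j) (γb (j + 1)) := by
  rw [Finset.sum_range_add]
  congr 1
  · apply Finset.sum_congr rfl
    intro j hj
    rw [Finset.mem_range] at hj
    rw [cat_left _ _ _ hj.le, cat_left _ _ _ (show j + 1 ≤ Na by omega)]
  · apply Finset.sum_congr rfl
    intro j hj
    rw [cat_right _ _ _ hab, show Na + j + 1 = Na + (j + 1) by ring, cat_right _ _ _ hab]

theorem verts_left {Ea Eb : Edges G} {p : ℕ × G} (h : p ∈ Verts Ea) : p ∈ Verts (Ea ∪ Eb) := by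
  rcases h with ⟨w, hw⟩ | ⟨j, y, h1, h2⟩
  · exact Or.inl ⟨w, Or.inl hw⟩
  · exact Or.inr ⟨j, y, h1, Or.inl h2⟩

theorem verts_right {Ea Eb : Edges G} {Na : ℕ} {j : ℕ} {z : G} (h : (j, z) ∈ Verts Eb) :
    (Na + j, z) ∈ Verts (Ea ∪ shiftE Na Eb) := by
  rcases h with ⟨w, hw⟩ | ⟨i, y, h1, h2⟩
  · exact Or.inl ⟨w, Or.inr ⟨j, z, w, hw, by rw [add_comm]⟩⟩
  · refine Or.inr ⟨Na + i, y, ?_, Or.inr ⟨i, y, z, h2, by rw [add_comm]⟩⟩
    simp only at h1 ⊢
    omega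

theorem GoodG.left {D e κ : ℝ} {Na Nb : ℕ} {Ea Eb : Edges G} {g : ℕ → G → F}
    (h : GoodG D e (Na + Nb) (Ea ∪ shiftE Na Eb) g)
    (hκ : ∀ γa : ℕ → G, IsPath Ea Na γa → ∃ γb : ℕ → G, IsPath Eb Nb γb ∧ γb 0 = γa Na ∧
      ∑ j ∈ Finset.range Nb, ‖γb (j + 1) - γb j‖ ^ 2 ≤ κ) :
    GoodG D (e + (D + 1) ^ 2 * κ) Na Ea g := by
  refine ⟨fun j z z' hz hz' => h.1 j z z' (verts_left hz) (verts_left hz'), ?_⟩
  intro γa hγa
  obtain ⟨γb, hγb, hab, hk⟩ := hκ γa hγa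
  have := h.2 _ (cat_path hγa hγb hab.symm)
  rw [cat_sum hab.symm (fun j x y => ‖g (j + 1) y - g j x‖ ^ 2),
    cat_sum hab.symm (fun j x y => ‖y - x‖ ^ 2)] at this
  have h0 : 0 ≤ ∑ j ∈ Finset.range Nb, ‖g (Na + j + 1) (γb (j + 1)) - g (Na + j) (γb j)‖ ^ 2 :=
    Finset.sum_nonneg (fun _ _ => by positivity)
  have h1 : (D + 1) ^ 2 * ∑ j ∈ Finset.range Nb, ‖γb (j + 1) - γb j‖ ^ 2 ≤ (D + 1) ^ 2 * κ := by
    gcongr
  nlinarith

theorem GoodG.right {D e κ : ℝ} {Na Nb : ℕ} {Ea Eb : Edges G} {g : ℕ → G → F}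
    (h : GoodG D e (Na + Nb) (Ea ∪ shiftE Na Eb) g)
    (hκ : ∀ γb : ℕ → G, IsPath Eb Nb γb → ∃ γa : ℕ → G, IsPath Ea Na γa ∧ γa Na = γb 0 ∧
      ∑ j ∈ Finset.range Na, ‖γa (j + 1) - γa j‖ ^ 2 ≤ κ) :
    GoodG D (e + (D + 1) ^ 2 * κ) Nb Eb (fun j => g (Na + j)) := by
  refine ⟨fun j z z' hz hz' => h.1 (Na + j) z z' (verts_right hz) (verts_right hz'), ?_⟩
  intro γb hγb
  obtain ⟨γa, hγa, hab, hk⟩ := hκ γb hγb
  have := h.2 _ (cat_path hγa hγb hab)
  rw [cat_sum hab (fun j x y => ‖g (j + 1) y - g j x‖ ^ 2),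
    cat_sum hab (fun j x y => ‖y - x‖ ^ 2)] at this
  have h0 : 0 ≤ ∑ j ∈ Finset.range Na, ‖g (j + 1) (γa (j + 1)) - g j (γa j)‖ ^ 2 :=
    Finset.sum_nonneg (fun _ _ => by positivity)
  have h1 : (D + 1) ^ 2 * ∑ j ∈ Finset.range Na, ‖γa (j + 1) - γa j‖ ^ 2 ≤ (D + 1) ^ 2 * κ := by
    gcongr
  simp only [add_assoc] at this ⊢
  nlinarith

/-- resting particle: the profile changes little. -/
theorem GoodG.rest {D e : ℝ} {N : ℕ} {Ed : Edges G} {g : ℕ → G → F} (h : GoodG D e N Ed g)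
    {z : G} (hz : ∀ j, j < N → (j, z, z) ∈ Ed) {i : ℕ} (hi : i ≤ N) :
    ‖g i z - g 0 z‖ ^ 2 ≤ N * e := by
  have h1 := h.2 (fun _ => z) (fun j hj => hz j hj)
  simp only [sub_self, norm_zero, ne_eq, OfNat.ofNat_ne_zero, not_false_eq_true, zero_pow,
    Finset.sum_const_zero, mul_zero, add_zero] at h1
  have h2 : g i z - g 0 z = ∑ j ∈ Finset.range i, (g (j + 1) z - g j z) :=
    (Finset.sum_range_sub (fun j => g j z) i).symm
  have h3 : ‖g i z - g 0 z‖ ≤ ∑ j ∈ Finset.range i, ‖g (j + 1) z - g j z‖ := by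
    rw [h2]; exact norm_sum_le _ _
  have h4 : (∑ j ∈ Finset.range i, ‖g (j + 1) z - g j z‖) ^ 2 ≤
      i * ∑ j ∈ Finset.range i, ‖g (j + 1) z - g j z‖ ^ 2 := by
    have := sq_sum_le_card_mul_sum_sq (s := Finset.range i)
      (f := fun j => ‖g (j + 1) z - g j z‖)
    simpa using this
  have h5 : ∑ j ∈ Finset.range i, ‖g (j + 1) z - g j z‖ ^ 2 ≤
      ∑ j ∈ Finset.range N, ‖g (j + 1) z - g j z‖ ^ 2 :=
    Finset.sum_le_sum_of_subset_of_nonneg (Finset.range_mono hi) (fun _ _ _ => by positivity)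
  have h6 : (0 : ℝ) ≤ ∑ j ∈ Finset.range i, ‖g (j + 1) z - g j z‖ ^ 2 :=
    Finset.sum_nonneg (fun _ _ => by positivity)
  have hiN : (i : ℝ) ≤ N := by exact_mod_cast hi
  calc ‖g i z - g 0 z‖ ^ 2 ≤ (∑ j ∈ Finset.range i, ‖g (j + 1) z - g j z‖) ^ 2 := by gcongr
    _ ≤ i * ∑ j ∈ Finset.range i, ‖g (j + 1) z - g j z‖ ^ 2 := h4
    _ ≤ N * e := by
      apply mul_le_mul hiN (h5.trans h1) h6 (by positivity)

theorem Pk.mono' {X : Type*} [PseudoMetricSpace X] {ρ : ℝ} {K K' : ℕ} {S T : Set X}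
    (hK : K ≤ K') (hST : S ⊆ T) (h : Pk ρ K T) : Pk ρ K' S :=
  fun A r hA hr h1 h2 => (h A r (hA.trans hST) hr h1 h2).trans hK

theorem movie_rest {K₂ : ℕ} {T : Set G} (hT : T.Finite) (hP : Pk 10 K₂ T) :
    Movie (K₂ + 1) T 1 (restE T 1) where
  hN := le_rfl
  fin := by
    apply (hT.image (fun x => ((0 : ℕ), x, x))).subset
    rintro e ⟨j, x, hj, hx, rfl⟩
    obtain rfl : j = 0 := by omega
    exact ⟨x, hx, rfl⟩
  lt := by
    rintro j z w ⟨j', x, hj, hx, he⟩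
    simp only [Prod.mk.injEq] at he
    omega
  rest := fun x hx j hj => ⟨j, x, hj, hx, rfl⟩
  start := by
    rintro z w ⟨j', x, hj, hx, he⟩
    simp only [Prod.mk.injEq] at he
    rw [he.2.1]; exact hx
  stop := by
    rintro j z w ⟨j', x, hj, hx, he⟩ _
    simp only [Prod.mk.injEq] at he
    rw [he.2.2]; exact hx
  pred := by
    rintro j z w ⟨j', x, hj, hx, he⟩
    simp only [Prod.mk.injEq] at he
    omega
  succ := by
    rintro j z w ⟨j', x, hj, hx, he⟩ h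
    omega
  tilt := by
    rintro j z w ⟨j', x, hj, hx, he⟩
    simp only [Prod.mk.injEq] at he
    rw [he.2.1, he.2.2]; norm_num
  nocoll := by
    rintro j z w z' w' ⟨j', x, hj, hx, he⟩ ⟨j'', x', hj', hx', he'⟩ hz hw s hs
    simp only [Prod.mk.injEq] at he he'
    rw [he.2.1, he'.2.1] at hz
    rw [he.2.1, he.2.2, he'.2.1, he'.2.2]
    simpa using hz
  outdeg := by
    rintro j z w₁ w₂ w₃ ⟨_, x, _, _, he⟩ ⟨_, x', _, _, he'⟩ _
    simp only [Prod.mk.injEq] at he he'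
    left
    rw [he.2.2, he'.2.2, ← he.2.1, ← he'.2.1]
  indeg := by
    rintro j z₁ z₂ z₃ w ⟨_, x, _, _, he⟩ ⟨_, x', _, _, he'⟩ _
    simp only [Prod.mk.injEq] at he he'
    left
    rw [he.2.1, he'.2.1, ← he.2.2, ← he'.2.2]
  slices := by
    intro j s hs
    apply Pk.mono' (Nat.le_succ _) _ hP
    rintro y ⟨z, w, ⟨j', x, hj, hx, he⟩, rfl⟩
    simp only [Prod.mk.injEq] at he
    rw [he.2.1, he.2.2]
    simpa using hx

theorem ke_line (x y : G) (m : ℕ) (hm : 1 ≤ m) :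
    ∑ j ∈ Finset.range m, ‖(x + (((j + 1 : ℕ) : ℝ) / m) • (y - x)) -
      (x + ((j : ℝ) / m) • (y - x))‖ ^ 2 ≤ ‖y - x‖ ^ 2 / m := by
  have hm' : (0 : ℝ) < m := by exact_mod_cast hm
  have h1 : ∀ j ∈ Finset.range m, ‖(x + (((j + 1 : ℕ) : ℝ) / m) • (y - x)) -
      (x + ((j : ℝ) / m) • (y - x))‖ ^ 2 = ‖y - x‖ ^ 2 / m ^ 2 := by
    intro j _
    have : (x + (((j + 1 : ℕ) : ℝ) / m) • (y - x)) - (x + ((j : ℝ) / m) • (y - x)) =
        ((1 : ℝ) / m) • (y - x) := by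
      rw [add_sub_add_left_eq_sub, ← sub_smul]
      congr 1
      push_cast
      field_simp
      ring
    rw [this, norm_smul, mul_pow, Real.norm_eq_abs, sq_abs]
    field_simp
  rw [Finset.sum_congr rfl h1, Finset.sum_const, Finset.card_range, nsmul_eq_mul]
  apply le_of_eq
  field_simp

theorem birth_path (T : Set G) (x₀ x : G) (m : ℕ) (hm : 1 ≤ m) :
    ∃ γ : ℕ → G, IsPath (birthE T x₀ x m) m γ ∧ γ 0 = x₀ ∧ γ m = x ∧
      ∑ j ∈ Finset.range m, ‖γ (j + 1) - γ j‖ ^ 2 ≤ ‖x - x₀‖ ^ 2 / m := by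
  have hm' : (m : ℝ) ≠ 0 := by have : (0 : ℝ) < m := by exact_mod_cast hm
                               exact this.ne'
  refine ⟨fun j => x₀ + ((j : ℝ) / m) • (x - x₀), ?_, by simp, by simp [div_self hm'], ?_⟩
  · intro j hj
    right
    refine ⟨j, hj, ?_⟩
    push_cast
    rfl
  · exact ke_line x₀ x m hm

theorem death_path (T : Set G) (x₀ x : G) (m : ℕ) (hm : 1 ≤ m) :
    ∃ γ : ℕ → G, IsPath (deathE T x₀ x m) m γ ∧ γ 0 = x ∧ γ m = x₀ ∧
      ∑ j ∈ Finset.range m, ‖γ (j + 1) - γ j‖ ^ 2 ≤ ‖x - x₀‖ ^ 2 / m := by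
  have hm' : (m : ℝ) ≠ 0 := by have : (0 : ℝ) < m := by exact_mod_cast hm
                               exact this.ne'
  refine ⟨fun j => x + ((j : ℝ) / m) • (x₀ - x), ?_, by simp, by simp [div_self hm'], ?_⟩
  · intro j hj
    right
    refine ⟨j, hj, ?_⟩
    push_cast
    rfl
  · rw [norm_sub_rev x x₀]
    exact ke_line x x₀ m hm

theorem host_main (hCAT : CAT) (hSANDW : SANDW) {K₂ : ℕ} {D : ℝ} :
    ∀ (t : Tr G) (T : Set G), T.Finite → T.Nonempty → Pk 10 K₂ T → ∀ α : ℝ, 0 < α →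
    ∃ (N : ℕ) (Ed : Edges G) (e : ℝ), 0 < e ∧ Movie (K₂ + 1) T N Ed ∧
      ∀ g : ℕ → G → F, GoodG D e N Ed g → Host K₂ D α t T (g 0) := by
  intro t
  induction t with
  | nil =>
    intro T hT _ hP α hα
    exact ⟨1, restE T 1, 1, one_pos, movie_rest hT hP, fun g _ => trivial⟩
  | cons c t l iht ihl =>
    intro T hT hne hP α hα
    by_cases hc : c ∉ T ∧ Pk 10 K₂ (insert c T)
    swap
    · obtain ⟨N, Ed, e, he, hM, hg⟩ := ihl T hT hne hP α hα
      exact ⟨N, Ed, e, he, hM, fun g h => ⟨fun h1 h2 => absurd ⟨h1, h2⟩ hc, hg g h⟩⟩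
    obtain ⟨hcT, hcP⟩ := hc
    obtain ⟨N2, Ed2, e2, he2, hM2, hg2⟩ := ihl T hT hne hP (α / 2) (by positivity)
    obtain ⟨N1, Ed1, e1, he1, hM1, hg1⟩ := iht (insert c T) (hT.insert c) (insert_nonempty c T) hcP
      α hα
    obtain ⟨x₀, hx₀, hnear⟩ := Set.exists_min_image T (fun y => dist c y) hT hne
    obtain ⟨m, hm⟩ := exists_nat_ge (max 1 (max (100 * dist c x₀)
      (4 * (D + 1) ^ 2 * ‖c - x₀‖ ^ 2 / e1)))
    have hm1 : 1 ≤ m := by
      have : (1 : ℝ) ≤ m := (le_max_left _ _).trans hm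
      exact_mod_cast this
    have hm0 : (0 : ℝ) < m := by exact_mod_cast hm1
    have hm2 : dist c x₀ ≤ (m : ℝ) / 100 := by
      have : 100 * dist c x₀ ≤ m := (le_max_left _ _).trans ((le_max_right _ _).trans hm)
      linarith
    have hm3 : (D + 1) ^ 2 * (‖c - x₀‖ ^ 2 / m) + (D + 1) ^ 2 * (‖c - x₀‖ ^ 2 / m) ≤ e1 / 2 := by
      have : 4 * (D + 1) ^ 2 * ‖c - x₀‖ ^ 2 / e1 ≤ m :=
        (le_max_right _ _).trans ((le_max_right _ _).trans hm)
      rw [div_le_iff₀ he1] at this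
      have h2 : (D + 1) ^ 2 * (‖c - x₀‖ ^ 2 / m) + (D + 1) ^ 2 * (‖c - x₀‖ ^ 2 / m) =
        (2 * (D + 1) ^ 2 * ‖c - x₀‖ ^ 2) / m := by ring
      rw [h2, div_le_iff₀ hm0]
      linarith
    have hS := hSANDW G K₂ T x₀ c m N1 Ed1 hT hP hcT hx₀ hnear hm1 hm2 hM1
    have hCT := hCAT G (K₂ + 1) T (m + N1 + m) N2 _ Ed2 hS hM2
    set E12 := birthE T x₀ c m ∪ shiftE m Ed1 with hE12
    set E123 := E12 ∪ shiftE (m + N1) (deathE T x₀ c m) with hE123
    set κ := ‖c - x₀‖ ^ 2 / (m : ℝ) with hκ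
    have hκ0 : 0 ≤ κ := by positivity
    have hN1 := hM1.hN
    have hN2 := hM2.hN
    have hNpos : (0 : ℝ) < ((m + N1 + m + N2 : ℕ) : ℝ) := by
      have : 0 < m + N1 + m + N2 := by omega
      exact_mod_cast this
    refine ⟨m + N1 + m + N2, E123 ∪ shiftE (m + N1 + m) Ed2,
      min (e1 / 2) (min e2 ((α / 2) ^ 2 / ((m + N1 + m + N2 : ℕ) : ℝ))), ?_, hCT, ?_⟩
    · positivity
    intro g hg
    set e := min (e1 / 2) (min e2 ((α / 2) ^ 2 / ((m + N1 + m + N2 : ℕ) : ℝ))) with he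
    have hee1 : e ≤ e1 / 2 := min_le_left _ _
    have hee2 : e ≤ e2 := (min_le_right _ _).trans (min_le_left _ _)
    have hee3 : ((m + N1 + m + N2 : ℕ) : ℝ) * e ≤ (α / 2) ^ 2 := by
      have : e ≤ (α / 2) ^ 2 / ((m + N1 + m + N2 : ℕ) : ℝ) :=
        (min_le_right _ _).trans (min_le_right _ _)
      rw [le_div_iff₀ hNpos] at this
      linarith
    -- resting
    have hrest : ∀ z ∈ T, ∀ i ≤ m + N1 + m + N2, dist (g i z) (g 0 z) ≤ α / 2 := by
      intro z hz i hi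
      have := hg.rest (z := z) (fun j hj => hCT.rest z hz j hj) hi
      rw [dist_eq_norm]
      exact le_of_sq_le_sq (this.trans hee3) (by positivity)
    -- parts
    have hA : GoodG D (e + (D + 1) ^ 2 * 0) (m + N1 + m) E123 g := by
      apply GoodG.left hg
      intro γa hγa
      have hend : γa (m + N1 + m) ∈ T := by
        have h1 := hγa (m + N1 + m - 1) (by omega)
        have h2 := hS.stop _ _ _ h1 (by omega)
        rwa [show m + N1 + m - 1 + 1 = m + N1 + m by omega] at h2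
      exact ⟨fun _ => γa (m + N1 + m), fun j hj => hM2.rest _ hend j hj, rfl, by simp⟩
    have hB : GoodG D (e + (D + 1) ^ 2 * 0) N2 Ed2 (fun j => g (m + N1 + m + j)) := by
      apply GoodG.right hg
      intro γb hγb
      have hst : γb 0 ∈ T := hM2.start _ _ (hγb 0 (by omega))
      exact ⟨fun _ => γb 0, fun j hj => hS.rest _ hst j hj, rfl, by simp⟩
    have hC : GoodG D (e + (D + 1) ^ 2 * 0 + (D + 1) ^ 2 * κ) (m + N1) E12 g := by
      apply GoodG.left hA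
      intro γa hγa
      have hend : γa (m + N1) ∈ insert c T := by
        have h1 := hγa (m + N1 - 1) (by omega)
        rw [show m + N1 - 1 + 1 = m + N1 by omega] at h1
        rcases h1 with (⟨j, x, hj, hx, h2⟩ | ⟨j, hj, h2⟩) | ⟨j, z, w, h2, h3⟩
        · simp only [Prod.mk.injEq] at h2; omega
        · simp only [Prod.mk.injEq] at h2; omega
        · simp only [Prod.mk.injEq] at h3
          rw [h3.2.2]
          exact hM1.stop _ _ _ h2 (by omega)
      rcases hend with h | h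
      · obtain ⟨γ, h1, h2, h3, h4⟩ := death_path T x₀ c m hm1
        exact ⟨γ, h1, by rw [h2, h], h4⟩
      · exact ⟨fun _ => γa (m + N1), fun j hj => Or.inl ⟨j, _, hj, h, rfl⟩, rfl, by simpa using hκ0⟩
    have hE : GoodG D (e + (D + 1) ^ 2 * 0 + (D + 1) ^ 2 * κ + (D + 1) ^ 2 * κ) N1 Ed1
        (fun j => g (m + j)) := by
      apply GoodG.right hC
      intro γb hγb
      have hst : γb 0 ∈ insert c T := hM1.start _ _ (hγb 0 (by omega))
      rcases hst with h | h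
      · obtain ⟨γ, h1, h2, h3, h4⟩ := birth_path T x₀ c m hm1
        exact ⟨γ, h1, by rw [h3, h], h4⟩
      · exact ⟨fun _ => γb 0, fun j hj => Or.inl ⟨j, _, hj, h, rfl⟩, rfl, by simpa using hκ0⟩
    have hE' : GoodG D e1 N1 Ed1 (fun j => g (m + j)) := hE.mono (by linarith)
    have hB' : GoodG D e2 N2 Ed2 (fun j => g (m + N1 + m + j)) := hB.mono (by linarith)
    refine ⟨fun _ _ => ⟨g (m + 0), ?_, ?_, hg1 _ hE'⟩, ?_⟩
    · intro x hx y hy
      exact hE'.1 0 x y (Or.inl ⟨x, hM1.rest x hx 0 (by omega)⟩)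
        (Or.inl ⟨y, hM1.rest y hy 0 (by omega)⟩)
    · intro z hz
      have := hrest z hz (m + 0) (by omega)
      linarith
    · have h1 := hg2 _ hB'
      have h2 := Host.change (β := α / 2) (by positivity) l T _ (g 0)
        (fun z hz => hrest z hz (m + N1 + m + 0) (by omega)) h1
      rwa [add_halves] at h2

theorem dist_pt (t : ℝ) (z z' : G) : dist (pt t z) (pt t z') = dist z z' := by
  rw [dist_eq_norm, dist_eq_norm, pt, pt, ← WithLp.toLp_sub, Prod.mk_sub_mk, sub_self,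
    WithLp.prod_norm_eq_of_L2]
  simp

theorem goodG_of_good {D ε : ℝ} {N : ℕ} {Ed : Edges G} {f : PT G → F}
    (h : Good D ε N Ed f) : ∃ g : ℕ → G → F, GoodG D ε N Ed g ∧ g 0 0 = 0 := by
  obtain ⟨hDB, V, hV⟩ := h
  refine ⟨fun j z => f (pt (j : ℝ) z) - (j : ℝ) • V - f (pt 0 0), ⟨?_, ?_⟩, by simp⟩
  · intro j z z' hz hz'
    have := hDB (pt (j : ℝ) z) ⟨(j, z), hz, rfl⟩ (pt (j : ℝ) z') ⟨(j, z'), hz', rfl⟩
    rw [dist_pt] at this
    simpa [dist_sub_right] using this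
  · intro γ hγ
    have := hV γ hγ
    unfold dev KE at this
    rw [← Finset.range_eq_Ico] at this
    refine le_trans (le_of_eq ?_) this
    apply Finset.sum_congr rfl
    intro j _
    congr 2
    push_cast
    rw [add_smul, one_smul]
    abel

theorem pk_singleton {X : Type*} [PseudoMetricSpace X] {ρ : ℝ} {K : ℕ} (hK : 1 ≤ K) (x : X) :
    Pk ρ K {x} := by
  intro A r hA hr _ _
  have : A ⊆ {x} := by
    intro y hy
    simpa using hA hy
  exact (Finset.card_le_card this).trans (by simpa using hK)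

/-- the online family -/
def OnA (K₂ : ℕ) (D : ℝ) (S : Set G) (φ : G → F) : Prop :=
  S.Finite ∧ S.Nonempty ∧ ∀ (t : Tr G) (α : ℝ), 0 < α → ∃ ψ : G → F,
    DBL D S ψ ∧ (∀ z ∈ S, dist (ψ z) (φ z) ≤ α) ∧ Host K₂ D α t S ψ

theorem OnA.dbl {K₂ : ℕ} {D : ℝ} {S : Set G} {φ : G → F} (h : OnA K₂ D S φ) : DBL D S φ := by
  intro x hx y hy
  constructor
  · apply le_of_forall_pos_le_add
    intro α hα
    obtain ⟨ψ, h1, h2, _⟩ := h.2.2 .nil (α / 2) (by positivity)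
    have h3 := (h1 x hx y hy).1
    have h4 := dist_triangle4 (ψ x) (φ x) (φ y) (ψ y)
    have h5 := h2 x hx
    have h6 := h2 y hy
    rw [dist_comm (ψ y)] at h6
    linarith
  · apply le_of_forall_pos_le_add
    intro α hα
    obtain ⟨ψ, h1, h2, _⟩ := h.2.2 .nil (α / 2) (by positivity)
    have h3 := (h1 x hx y hy).2
    have h4 := dist_triangle4 (φ x) (ψ x) (ψ y) (φ y)
    have h5 := h2 x hx
    have h6 := h2 y hy
    rw [dist_comm (ψ x)] at h5
    linarith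

open Classical in
theorem OnA.ext [FiniteDimensional ℝ F] {K₂ : ℕ} {D : ℝ} {S : Set G} {φ : G → F} {x : G}
    (h : OnA K₂ D S φ) (hx : x ∉ S) (hP : Pk 10 K₂ (insert x S)) :
    ∃ φ', OnA K₂ D (insert x S) φ' ∧ EqOn φ' φ S := by
  by_contra hcon
  push Not at hcon
  obtain ⟨y₀, hy₀⟩ := h.2.1
  -- for every value v the extension fails
  have hv : ∀ v : F, ∃ (t : Tr G) (α : ℝ), 0 < α ∧ ∀ ψ : G → F, DBL D (insert x S) ψ →
      (∀ z ∈ S, dist (ψ z) (φ z) ≤ α) → dist (ψ x) v ≤ α → ¬ Host K₂ D α t (insert x S) ψ := by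
    intro v
    have h1 : EqOn (Function.update φ x v) φ S := by
      intro z hz
      have : z ≠ x := fun hh => hx (hh ▸ hz)
      simp [Function.update_of_ne this]
    have h2 : ¬ OnA K₂ D (insert x S) (Function.update φ x v) := fun hh => hcon _ hh h1
    unfold OnA at h2
    push Not at h2
    obtain ⟨t, α, hα, h3⟩ := h2 (h.1.insert x) (insert_nonempty x S)
    refine ⟨t, α, hα, fun ψ hψ h4 h5 => h3 ψ hψ ?_⟩
    rintro z (rfl | hz)
    · simpa using h5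
    · rw [h1 hz]; exact h4 z hz
  choose t α hα hno using hv
  set B := Metric.closedBall (φ y₀) (|D| * dist x y₀ + 2) with hB
  have hBc : IsCompact B := by
    haveI : ProperSpace F := FiniteDimensional.proper ℝ F
    exact isCompact_closedBall _ _
  obtain ⟨C, hCB, hC⟩ := hBc.elim_nhds_subcover (fun v => Metric.ball v (α v / 2))
    (fun v _ => Metric.ball_mem_nhds v (by have := hα v; positivity))
  -- merged tree and α
  obtain ⟨αα, hαα, hαα1, hααC⟩ : ∃ αα : ℝ, 0 < αα ∧ αα ≤ 1 ∧ ∀ v ∈ C, αα ≤ α v / 2 := by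
    clear hCB hC
    induction C using Finset.induction_on with
    | empty => exact ⟨1, one_pos, le_rfl, by simp⟩
    | insert v C hvC ih =>
      obtain ⟨αα, h1, h2, h3⟩ := ih
      refine ⟨min αα (α v / 2), lt_min h1 (by have := hα v; positivity),
        (min_le_left _ _).trans h2, ?_⟩
      intro w hw
      rcases Finset.mem_insert.1 hw with rfl | hw
      · exact min_le_right _ _
      · exact (min_le_left _ _).trans (h3 w hw)
  obtain ⟨tt, htt⟩ : ∃ tt : Tr G, ∀ v ∈ C, ∀ (ψ : G → F), Host K₂ D αα tt (insert x S) ψ →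
        Host K₂ D αα (t v) (insert x S) ψ := by
    clear hCB hC hααC
    induction C using Finset.induction_on with
    | empty => exact ⟨.nil, by simp⟩
    | insert v C hvC ih =>
      obtain ⟨tt, h3⟩ := ih
      refine ⟨(t v).app tt, ?_⟩
      intro w hw ψ hψ
      obtain ⟨h4, h5⟩ := Host.app _ _ _ _ hψ
      rcases Finset.mem_insert.1 hw with rfl | hw
      · exact h4
      · exact h3 w hw ψ h5
  obtain ⟨ψ, hψ, hclose, hHost⟩ := h.2.2 (.cons x tt .nil) αα hαα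
  obtain ⟨ψ', hψ', hclose', hHost'⟩ := hHost.1 hx hP
  have hd : ∀ z ∈ S, dist (ψ' z) (φ z) ≤ αα + αα := fun z hz =>
    (dist_triangle _ (ψ z) _).trans (add_le_add (hclose' z hz) (hclose z hz))
  have hxB : ψ' x ∈ B := by
    rw [hB, Metric.mem_closedBall]
    have h1 := (hψ' x (mem_insert _ _) y₀ (mem_insert_of_mem _ hy₀)).2
    have h2 := dist_triangle (ψ' x) (ψ' y₀) (φ y₀)
    have h3 := hd y₀ hy₀
    have h4 : D * dist x y₀ ≤ |D| * dist x y₀ := by
      gcongr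
      exact le_abs_self D
    linarith
  obtain ⟨v, hvC, hvb⟩ := mem_iUnion₂.1 (hC hxB)
  rw [Metric.mem_ball] at hvb
  have hαv := hα v
  have h7 := hααC v hvC
  exact hno v ψ' hψ' (fun z hz => (hd z hz).trans (by linarith)) (by linarith)
    (Host.mono (by linarith) _ _ _ (htt v hvC ψ' hHost'))

end Crest.LP.H2

namespace Crest.LP

theorem hstep_of (hCAT : CAT) (hSANDW : SANDW) : HSTEP := by
  intro G F _ _ _ _ _ _ K₂ D hD hK hyp
  refine ⟨H2.OnA K₂ D, ?_, fun S φ h => h.1, fun S φ h => h.dbl,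
    fun S φ x h hx hP => h.ext hx hP⟩
  refine ⟨fun _ => 0, finite_singleton _, singleton_nonempty _, ?_⟩
  intro t α hα
  obtain ⟨N, Ed, e, he, hM, hg⟩ := H2.host_main (F := F) (D := D) hCAT hSANDW t {0}
    (finite_singleton _) (singleton_nonempty _) (H2.pk_singleton hK _) α hα
  obtain ⟨f, hf⟩ := hyp N Ed hM e he
  obtain ⟨g, hg1, hg0⟩ := H2.goodG_of_good hf
  refine ⟨g 0, ?_, ?_, hg g hg1⟩
  · rintro x rfl y rfl
    simp
  · rintro z rfl
    simp [hg0, hα.le]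

end Crest.LP
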