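import Crest.Agent.LPCore

/-! rid 254: module HON. -/

set_option autoImplicit false
set_option linter.unusedSectionVars false
open Set

namespace Crest.LP.H7

open Crest.LP

section Hon

theorem exists_pos_le {ι : Type*} (S : Set ι) (hS : S.Finite) (f : ι → ℝ)
    (hf : ∀ i ∈ S, 0 < f i) : ∃ δ : ℝ, 0 < δ ∧ ∀ i ∈ S, δ ≤ f i := by
  rcases S.eq_empty_or_nonempty with h | h
  · exact ⟨1, one_pos, fun i hi => by rw [h] at hi; exact absurd hi (Set.notMem_empty i)⟩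
  · obtain ⟨a, ha, hmin⟩ := Set.exists_min_image S f hS h
    exact ⟨f a, hf a ha, hmin⟩

theorem Pk_mono' {X : Type*} [PseudoMetricSpace X] {ρ : ℝ} {K : ℕ} {S T : Set X}
    (h : Pk ρ K T) (hST : S ⊆ T) : Pk ρ K S :=
  fun A r hA hr h1 h2 => h A r (hA.trans hST) hr h1 h2

theorem Pk_singleton {X : Type*} [PseudoMetricSpace X] {ρ : ℝ} {K : ℕ} (hK : 1 ≤ K) (x : X) :
    Pk ρ K {x} := by
  intro A r hA _ _ _
  have : A ⊆ {x} := by
    intro y hy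
    have := hA (Finset.mem_coe.2 hy)
    simpa using this
  have := Finset.card_le_card this
  simp at this
  omega

variable {G : Type} [NormedAddCommGroup G] [InnerProductSpace ℝ G]

theorem mem_shiftE {σ : ℕ} {Ed : Edges G} {j : ℕ} {z w : G} :
    (j, z, w) ∈ shiftE σ Ed ↔ ∃ i, j = i + σ ∧ (i, z, w) ∈ Ed := by
  constructor
  · rintro ⟨i, z', w', h, e⟩
    simp only [Prod.mk.injEq] at e
    obtain ⟨rfl, rfl, rfl⟩ := e
    exact ⟨i, rfl, h⟩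
  · rintro ⟨i, rfl, h⟩
    exact ⟨i, z, w, h, rfl⟩

theorem mem_mainE {N : ℕ} {j : ℕ} {z w : G} :
    (j, z, w) ∈ (mainE N : Edges G) ↔ j < N ∧ z = 0 ∧ w = 0 := by
  constructor
  · rintro ⟨i, h, e⟩
    simp only [Prod.mk.injEq] at e
    obtain ⟨rfl, rfl, rfl⟩ := e
    exact ⟨h, rfl, rfl⟩
  · rintro ⟨h, rfl, rfl⟩
    exact ⟨j, h, rfl⟩

theorem shiftE_finite {σ : ℕ} {Ed : Edges G} (h : Ed.Finite) : (shiftE σ Ed).Finite := by
  apply (h.image (fun e : ℕ × G × G => (e.1 + σ, e.2.1, e.2.2))).subset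
  rintro ⟨j, z, w⟩ he
  obtain ⟨i, rfl, hi⟩ := mem_shiftE.1 he
  exact ⟨(i, z, w), hi, rfl⟩

theorem mainE_finite (N : ℕ) : (mainE N : Edges G).Finite := by
  apply ((Set.finite_Iio N).image (fun j : ℕ => ((j, (0 : G), (0 : G)) : ℕ × G × G))).subset
  rintro ⟨j, z, w⟩ he
  obtain ⟨h, rfl, rfl⟩ := mem_mainE.1 he
  exact ⟨j, h, rfl⟩

/-- positions -/
def Pos (Ed : Edges G) : Set G := (fun e : ℕ × G × G => e.2.1) '' Ed ∪ (fun e : ℕ × G × G => e.2.2) '' Ed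

theorem Pos_finite {Ed : Edges G} (h : Ed.Finite) : (Pos Ed).Finite :=
  (h.image _).union (h.image _)

theorem hon_cases {K N M : ℕ} {Ed : Edges G} (hM : Movie K {0} N Ed) {j : ℕ} {z w : G}
    (h : (j, z, w) ∈ shiftE (M + 1) Ed ∪ mainE (3 * M)) :
    (∃ i, i < N ∧ j = i + (M + 1) ∧ (i, z, w) ∈ Ed) ∨
      ((j < M + 1 ∨ M + 1 + N ≤ j) ∧ j < 3 * M ∧ z = 0 ∧ w = 0) := by
  rcases h with h | h
  · obtain ⟨i, e, hi⟩ := mem_shiftE.1 h
    exact Or.inl ⟨i, hM.lt _ _ _ hi, e, hi⟩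
  · obtain ⟨h1, rfl, rfl⟩ := mem_mainE.1 h
    by_cases hw : j < M + 1 ∨ M + 1 + N ≤ j
    · exact Or.inr ⟨hw, h1, rfl, rfl⟩
    · push Not at hw
      obtain ⟨i, rfl⟩ : ∃ i, j = i + (M + 1) := ⟨j - (M + 1), by omega⟩
      have hi : i < N := by omega
      exact Or.inl ⟨i, hi, rfl, hM.rest 0 rfl i hi⟩

theorem hon : HON := by
  intro G _ _ K N Ed hK hM
  -- positions
  have hPf : (insert (0 : G) (Pos Ed)).Finite := (Pos_finite hM.fin).insert 0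
  obtain ⟨δ₁, hδ₁, h1⟩ := exists_pos_le
    ({p : G × G | p.1 ∈ insert (0 : G) (Pos Ed) ∧ p.2 ∈ insert (0 : G) (Pos Ed) ∧ p.1 ≠ p.2})
    ((hPf.prod hPf).subset (fun p hp => ⟨hp.1, hp.2.1⟩)) (fun p => dist p.1 p.2)
    (fun p hp => dist_pos.2 hp.2.2)
  -- edges
  have hE : ∀ q : (ℕ × G × G) × (ℕ × G × G), ∃ δ : ℝ, 0 < δ ∧
      (q.1 ∈ Ed → q.2 ∈ Ed → q.1.1 = q.2.1 → q.1.2.1 ≠ q.2.2.1 → q.1.2.2 ≠ q.2.2.2 →
        ∀ s ∈ Icc (0 : ℝ) 1, δ ≤ dist (q.1.2.1 + s • (q.1.2.2 - q.1.2.1))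
          (q.2.2.1 + s • (q.2.2.2 - q.2.2.1))) := by
    rintro ⟨⟨j, z, w⟩, ⟨j', z', w'⟩⟩
    by_cases hc : (j, z, w) ∈ Ed ∧ (j', z', w') ∈ Ed ∧ j = j' ∧ z ≠ z' ∧ w ≠ w'
    · obtain ⟨c1, c2, rfl, c4, c5⟩ := hc
      have hcont : Continuous fun s : ℝ => dist (z + s • (w - z)) (z' + s • (w' - z')) := by
        fun_prop
      obtain ⟨s₀, hs₀, hmin⟩ := isCompact_Icc.exists_isMinOn
        (Set.nonempty_Icc.2 (zero_le_one' ℝ)) hcont.continuousOn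
      refine ⟨dist (z + s₀ • (w - z)) (z' + s₀ • (w' - z')), ?_, ?_⟩
      · exact dist_pos.2 (hM.nocoll j z w z' w' c1 c2 c4 c5 s₀ hs₀)
      · intro _ _ _ _ _ s hs
        exact hmin hs
    · refine ⟨1, one_pos, ?_⟩
      intro a1 a2 a3 a4 a5
      exact absurd ⟨a1, a2, a3, a4, a5⟩ hc
  choose δe hδe hEe using hE
  obtain ⟨δ₂, hδ₂, h2⟩ := exists_pos_le (Ed ×ˢ Ed) (hM.fin.prod hM.fin) δe (fun q _ => hδe q)
  obtain ⟨B, hB⟩ := hPf.isBounded.exists_norm_le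
  set τ : ℝ := min (1 / 100) (min δ₁ δ₂) with hτ
  have hτ0 : 0 < τ := by
    rw [hτ]; exact lt_min (by norm_num) (lt_min hδ₁ hδ₂)
  have hτ1 : τ ≤ δ₁ := (min_le_right _ _).trans (min_le_left _ _)
  have hτ2 : τ ≤ δ₂ := (min_le_right _ _).trans (min_le_right _ _)
  have hcc : (0 : ℝ) < cc * τ := by
    unfold cc; positivity
  obtain ⟨M₁, hM₁⟩ := exists_nat_ge (B / (cc * τ))
  refine ⟨τ, hτ0, M₁ + N + 34, fun M hMM => ?_⟩
  have hpos : ∀ j z w, (j, z, w) ∈ shiftE (M + 1) Ed ∪ mainE (3 * M) →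
      z ∈ insert (0 : G) (Pos Ed) ∧ w ∈ insert (0 : G) (Pos Ed) := by
    intro j z w h
    rcases hon_cases hM h with ⟨i, _, _, hi⟩ | ⟨_, _, rfl, rfl⟩
    · exact ⟨Or.inr (Or.inl ⟨_, hi, rfl⟩), Or.inr (Or.inr ⟨_, hi, rfl⟩)⟩
    · exact ⟨Or.inl rfl, Or.inl rfl⟩
  have hvpos : ∀ p ∈ Verts (shiftE (M + 1) Ed ∪ mainE (3 * M)),
      p.2 ∈ insert (0 : G) (Pos Ed) := by
    rintro ⟨j, z⟩ (⟨w, h⟩ | ⟨i, y, _, h⟩)
    · exact (hpos _ _ _ h).1
    · exact (hpos _ _ _ h).2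
  refine
    { τpos := hτ0
      τle := min_le_left _ _
      hN := by omega
      fin := (shiftE_finite hM.fin).union (mainE_finite _)
      lt := ?_
      main := ?_
      pred := ?_
      quiet := ?_
      tilt := ?_
      thin := ?_
      vsep := ?_
      esep := ?_
      outdeg := ?_
      indeg := ?_
      slices := ?_ }
  · intro j z w h
    rcases hon_cases hM h with ⟨i, hi, rfl, _⟩ | ⟨_, h3, _⟩ <;> omega
  · intro j hj
    exact Or.inr (mem_mainE.2 ⟨hj, rfl, rfl⟩)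
  · intro j z w h
    rcases hon_cases hM h with ⟨i, hi, e, hE⟩ | ⟨_, h3, rfl, rfl⟩
    · rcases i with _ | i
      · have hz : z = 0 := hM.start z w hE
        refine ⟨0, Or.inr (mem_mainE.2 ⟨by omega, rfl, hz⟩)⟩
      · obtain ⟨y, hy⟩ := hM.pred i z w hE
        exact ⟨y, Or.inl (mem_shiftE.2 ⟨i, by omega, hy⟩)⟩
    · exact ⟨0, Or.inr (mem_mainE.2 ⟨by omega, rfl, rfl⟩)⟩
  · intro j z w h hq
    rcases hon_cases hM h with ⟨i, hi, e, hE⟩ | ⟨_, h3, rfl, rfl⟩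
    · exfalso; omega
    · exact ⟨rfl, rfl⟩
  · intro j z w h
    rcases hon_cases hM h with ⟨i, hi, e, hE⟩ | ⟨_, h3, rfl, rfl⟩
    · exact hM.tilt i z w hE
    · simp
  · intro p hp
    have h3 := hB _ (hvpos p hp)
    refine h3.trans ?_
    rw [div_le_iff₀ hcc] at hM₁
    have h4 : (M₁ : ℝ) ≤ ((3 * M : ℕ) : ℝ) := by
      exact_mod_cast (by omega : M₁ ≤ 3 * M)
    calc B ≤ M₁ * (cc * τ) := hM₁
      _ ≤ ((3 * M : ℕ) : ℝ) * (cc * τ) := mul_le_mul_of_nonneg_right h4 hcc.le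
      _ = cc * τ * ((3 * M : ℕ) : ℝ) := by ring
  · intro j z z' hz hz' hne
    exact hτ1.trans (h1 (z, z') ⟨hvpos _ hz, hvpos _ hz', hne⟩)
  · intro j z w z' w' h h' hz hw s hs
    rcases hon_cases hM h with ⟨i, hi, e, hE⟩ | ⟨hj, h3, rfl, rfl⟩
    · rcases hon_cases hM h' with ⟨i', hi', e', hE'⟩ | ⟨hj', h3', rfl, rfl⟩
      · have hii : i = i' := by omega
        subst hii
        have h5 := hEe ((i, z, w), (i, z', w')) hE hE' rfl hz hw s hs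
        have h6 := h2 ((i, z, w), (i, z', w')) ⟨hE, hE'⟩
        simp only at h5
        linarith
      · exfalso; omega
    · rcases hon_cases hM h' with ⟨i', hi', e', hE'⟩ | ⟨hj', h3', rfl, rfl⟩
      · exfalso; omega
      · exact absurd rfl hz
  · intro j z w₁ w₂ w₃ a1 a2 a3
    rcases hon_cases hM a1 with ⟨i1, hi1, e1, hE1⟩ | ⟨hj1, _, rfl, rfl⟩
    · rcases hon_cases hM a2 with ⟨i2, hi2, e2, hE2⟩ | ⟨hj2, _, rfl, rfl⟩
      · rcases hon_cases hM a3 with ⟨i3, hi3, e3, hE3⟩ | ⟨hj3, _, rfl, rfl⟩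
        · have : i2 = i1 := by omega
          subst this
          have : i3 = i2 := by omega
          subst this
          exact hM.outdeg _ _ _ _ _ hE1 hE2 hE3
        · exfalso; omega
      · exfalso; omega
    · rcases hon_cases hM a2 with ⟨i2, hi2, e2, hE2⟩ | ⟨hj2, _, h0, rfl⟩
      · exfalso; omega
      · exact Or.inl rfl
  · intro j z₁ z₂ z₃ w a1 a2 a3
    rcases hon_cases hM a1 with ⟨i1, hi1, e1, hE1⟩ | ⟨hj1, _, rfl, rfl⟩
    · rcases hon_cases hM a2 with ⟨i2, hi2, e2, hE2⟩ | ⟨hj2, _, rfl, rfl⟩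
      · rcases hon_cases hM a3 with ⟨i3, hi3, e3, hE3⟩ | ⟨hj3, _, rfl, rfl⟩
        · have : i2 = i1 := by omega
          subst this
          have : i3 = i2 := by omega
          subst this
          exact hM.indeg _ _ _ _ _ hE1 hE2 hE3
        · exfalso; omega
      · exfalso; omega
    · rcases hon_cases hM a2 with ⟨i2, hi2, e2, hE2⟩ | ⟨hj2, _, rfl, h0⟩
      · exfalso; omega
      · exact Or.inl rfl
  · intro j s hs
    by_cases hj : M + 1 ≤ j ∧ j < M + 1 + N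
    · obtain ⟨i, rfl⟩ : ∃ i, j = i + (M + 1) := ⟨j - (M + 1), by omega⟩
      refine Pk_mono' (hM.slices i s hs) ?_
      rintro x ⟨z, w, h, rfl⟩
      rcases hon_cases hM h with ⟨i', hi', e', hE'⟩ | ⟨hj', h3', _, _⟩
      · have : i' = i := by omega
        subst this
        exact ⟨z, w, hE', rfl⟩
      · exfalso; omega
    · refine Pk_mono' (Pk_singleton (ρ := 10) (K := K) (by omega) (0 : G)) ?_
      rintro x ⟨z, w, h, rfl⟩
      rcases hon_cases hM h with ⟨i', hi', e', hE'⟩ | ⟨hj', h3', rfl, rfl⟩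
      · exfalso; omega
      · simp

end Hon

end Crest.LP.H7

/-- MODULE HON -/
theorem Crest.LP.hon : Crest.LP.HON := Crest.LP.H7.hon
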