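import Crest.Agent.LPCore2

/-! rid 254 (S0392): module APPEND. -/
set_option autoImplicit false
open Set Filter Topology

namespace Crest.LP

theorem append_pk_mono {X : Type*} [PseudoMetricSpace X] {ρ : ℝ} {K : ℕ} {S T : Set X}
    (h : Pk ρ K T) (hST : S ⊆ T) : Pk ρ K S :=
  fun A r hA hr h1 h2 => h A r (hA.trans hST) hr h1 h2

theorem append : APPEND := by
  intro G _ _ K τ N m t Ed B hE hB h0 hst hNt htm hsmall
  -- edges
  have hsh : ∀ j z w, (j, z, w) ∈ shiftE t B ↔ ∃ i, j = i + t ∧ (i, z, w) ∈ B := by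
    intro j z w
    constructor
    · rintro ⟨i, z', w', hi, he⟩
      simp only [Prod.mk.injEq] at he
      obtain ⟨rfl, rfl, rfl⟩ := he
      exact ⟨i, rfl, hi⟩
    · rintro ⟨i, rfl, hi⟩
      exact ⟨i, z, w, hi, rfl⟩
  have E1 : ∀ j z w, (j, z, w) ∈ Ed ∪ shiftE t B → (j < t ∨ t + m ≤ j) → (j, z, w) ∈ Ed := by
    intro j z w h hj
    rcases h with h | h
    · exact h
    · rw [hsh] at h
      obtain ⟨i, rfl, hi⟩ := h
      have := hB.lt _ _ _ hi
      omega
  have E2 : ∀ j z w, (j, z, w) ∈ Ed ∪ shiftE t B → t ≤ j → j < t + m →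
      (j - t, z, w) ∈ B := by
    intro j z w h hj hj2
    rcases h with h | h
    · obtain ⟨rfl, rfl⟩ := h0 _ _ _ h hj
      exact hB.main (j - t) (by omega)
    · rw [hsh] at h
      obtain ⟨i, rfl, hi⟩ := h
      rw [Nat.add_sub_cancel]
      exact hi
  have V1 : ∀ j z, (j, z) ∈ Verts (Ed ∪ shiftE t B) → j ≤ t → (j, z) ∈ Verts Ed := by
    intro j z h hj
    rcases h with ⟨w, h⟩ | ⟨i, y, hi, h⟩
    · rcases h with h | h
      · exact Or.inl ⟨w, h⟩
      · simp only at h
        rw [hsh] at h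
        obtain ⟨i, hi, hiB⟩ := h
        have : i = 0 := by omega
        subst this
        have : j = t := by omega
        subst this
        exact hst z w hiB
    · simp only at hi h
      rcases h with h | h
      · exact Or.inr ⟨i, y, hi, h⟩
      · rw [hsh] at h
        obtain ⟨i', hi', hiB⟩ := h
        omega
  have V3 : ∀ i, i ≤ m → (i, (0 : G)) ∈ Verts B := by
    intro i hi
    rcases Nat.lt_or_ge i m with h | h
    · exact Or.inl ⟨0, hB.main i h⟩
    · have h1 := hB.hm
      exact Or.inr ⟨i - 1, 0, by simp only; omega, hB.main _ (by omega)⟩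
  have V2 : ∀ j z, (j, z) ∈ Verts (Ed ∪ shiftE t B) → t < j →
      (z = 0 ∨ (j ≤ t + m ∧ (j - t, z) ∈ Verts B)) := by
    intro j z h hj
    rcases h with ⟨w, h⟩ | ⟨i, y, hi, h⟩
    · simp only at h
      rcases h with h | h
      · left
        exact (h0 _ _ _ h hj.le).1
      · rw [hsh] at h
        obtain ⟨i, hi, hiB⟩ := h
        right
        have h1 := hB.lt _ _ _ hiB
        refine ⟨by omega, Or.inl ⟨w, ?_⟩⟩
        have : j - t = i := by omega
        simp only [this]
        exact hiB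
    · simp only at hi h
      rcases h with h | h
      · left
        exact (h0 _ _ _ h (by omega)).2
      · rw [hsh] at h
        obtain ⟨i', hi', hiB⟩ := h
        right
        have h1 := hB.lt _ _ _ hiB
        exact ⟨by omega, Or.inr ⟨i', y, by simp only; omega, hiB⟩⟩
  have V4 : ∀ j z, (j, z) ∈ Verts (Ed ∪ shiftE t B) → t < j → j ≤ t + m →
      (j - t, z) ∈ Verts B := by
    intro j z h hj hj2
    rcases V2 j z h hj with rfl | h
    · exact V3 _ (by omega)
    · exact h.2
  have hcase : ∀ j, (j < t ∨ t + m ≤ j) ∨ (t ≤ j ∧ j < t + m) := by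
    intro j
    omega
  refine
    { τpos := hE.τpos
      τle := hE.τle
      hN := hE.hN
      fin := ?_
      lt := ?_
      main := fun j hj => Or.inl (hE.main j hj)
      pred := ?_
      quiet := ?_
      tilt := ?_
      thin := ?_
      vsep := ?_
      esep := ?_
      outdeg := ?_
      indeg := ?_
      slices := ?_ }
  · refine hE.fin.union ?_
    have : shiftE t B = (fun e : ℕ × G × G => (e.1 + t, e.2.1, e.2.2)) '' B := by
      ext e
      constructor
      · rintro ⟨j, z, w, h, rfl⟩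
        exact ⟨(j, z, w), h, rfl⟩
      · rintro ⟨⟨j, z, w⟩, h, rfl⟩
        exact ⟨j, z, w, h, rfl⟩
    rw [this]
    exact hB.fin.image _
  · intro j z w h
    rcases h with h | h
    · exact hE.lt _ _ _ h
    · rw [hsh] at h
      obtain ⟨i, rfl, hi⟩ := h
      have := hB.lt _ _ _ hi
      omega
  · intro j z w h
    rcases h with h | h
    · obtain ⟨y, hy⟩ := hE.pred _ _ _ h
      exact ⟨y, Or.inl hy⟩
    · rw [hsh] at h
      obtain ⟨i, hi, hiB⟩ := h
      rcases i with _ | i
      · have hj : t = j + 1 := by omega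
        rcases hst z w hiB with ⟨w', h'⟩ | ⟨i', y, hi', h'⟩
        · simp only [hj] at h'
          obtain ⟨y, hy⟩ := hE.pred _ _ _ h'
          exact ⟨y, Or.inl hy⟩
        · simp only at hi' h'
          have : i' = j := by omega
          subst this
          exact ⟨y, Or.inl h'⟩
      · obtain ⟨y, hy⟩ := hB.pred _ _ _ hiB
        refine ⟨y, Or.inr ?_⟩
        rw [hsh]
        exact ⟨i, by omega, hy⟩
  · intro j z w h hj
    rcases h with h | h
    · exact hE.quiet _ _ _ h hj
    · rw [hsh] at h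
      obtain ⟨i, rfl, hi⟩ := h
      have := hB.lt _ _ _ hi
      omega
  · intro j z w h
    rcases h with h | h
    · exact hE.tilt _ _ _ h
    · rw [hsh] at h
      obtain ⟨i, rfl, hi⟩ := h
      exact hB.tilt _ _ _ hi
  · rintro ⟨j, z⟩ h
    rcases Nat.lt_or_ge t j with hj | hj
    · rcases V2 j z h hj with rfl | ⟨_, h2⟩
      · simp only [norm_zero]
        have := hE.τpos
        unfold cc
        positivity
      · rcases h2 with ⟨w, h2⟩ | ⟨i, y, _, h2⟩
        · exact (hsmall _ _ _ h2).1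
        · exact (hsmall _ _ _ h2).2
    · exact hE.thin _ (V1 j z h hj)
  · intro j z z' h h' hne
    rcases Nat.lt_or_ge t j with hj | hj
    · rcases Nat.lt_or_ge (t + m) j with hj2 | hj2
      · exfalso
        rcases V2 j z h hj with rfl | h2
        · rcases V2 j z' h' hj with rfl | h3
          · exact hne rfl
          · omega
        · omega
      · exact hB.vsep _ _ _ (V4 j z h hj hj2) (V4 j z' h' hj hj2) hne
    · exact hE.vsep _ _ _ (V1 j z h hj) (V1 j z' h' hj) hne
  · intro j z w z' w' h h' hz hw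
    rcases hcase j with hj | ⟨hj, hj2⟩
    · exact hE.esep _ _ _ _ _ (E1 _ _ _ h hj) (E1 _ _ _ h' hj) hz hw
    · exact hB.esep _ _ _ _ _ (E2 _ _ _ h hj hj2) (E2 _ _ _ h' hj hj2) hz hw
  · intro j z w₁ w₂ w₃ h₁ h₂ h₃
    rcases hcase j with hj | ⟨hj, hj2⟩
    · exact hE.outdeg _ _ _ _ _ (E1 _ _ _ h₁ hj) (E1 _ _ _ h₂ hj) (E1 _ _ _ h₃ hj)
    · exact hB.outdeg _ _ _ _ _ (E2 _ _ _ h₁ hj hj2) (E2 _ _ _ h₂ hj hj2) (E2 _ _ _ h₃ hj hj2)
  · intro j z₁ z₂ z₃ w h₁ h₂ h₃
    rcases hcase j with hj | ⟨hj, hj2⟩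
    · exact hE.indeg _ _ _ _ _ (E1 _ _ _ h₁ hj) (E1 _ _ _ h₂ hj) (E1 _ _ _ h₃ hj)
    · exact hB.indeg _ _ _ _ _ (E2 _ _ _ h₁ hj hj2) (E2 _ _ _ h₂ hj hj2) (E2 _ _ _ h₃ hj hj2)
  · intro j s hs
    rcases hcase j with hj | ⟨hj, hj2⟩
    · refine append_pk_mono (hE.slices j s hs) ?_
      rintro x ⟨z, w, h, rfl⟩
      exact ⟨z, w, E1 _ _ _ h hj, rfl⟩
    · refine append_pk_mono (hB.slices (j - t) s hs) ?_
      rintro x ⟨z, w, h, rfl⟩
      exact ⟨z, w, E2 _ _ _ h hj hj2, rfl⟩

end Crest.LP
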