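import Mathlib
import Crest.Agent.LPCore
/-! rid 254 (S0392): module CAT, concatenation of movies. -/
set_option autoImplicit false
open Set Filter Topology

namespace Crest.LP

theorem cat_mem {G : Type*} [NormedAddCommGroup G] [InnerProductSpace ℝ G]
    {N₁ : ℕ} {E₁ E₂ : Edges G} (h₁ : ∀ j z w, (j, z, w) ∈ E₁ → j < N₁) (j : ℕ) (z w : G) :
    (j, z, w) ∈ E₁ ∪ shiftE N₁ E₂ ↔
      (j < N₁ ∧ (j, z, w) ∈ E₁) ∨ (N₁ ≤ j ∧ (j - N₁, z, w) ∈ E₂) := by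
  constructor
  · rintro (h | ⟨j', z', w', h, he⟩)
    · exact Or.inl ⟨h₁ _ _ _ h, h⟩
    · simp only [Prod.mk.injEq] at he
      obtain ⟨rfl, rfl, rfl⟩ := he
      refine Or.inr ⟨Nat.le_add_left _ _, ?_⟩
      simpa using h
  · rintro (⟨_, h⟩ | ⟨h, h'⟩)
    · exact Or.inl h
    · refine Or.inr ⟨j - N₁, z, w, h', ?_⟩
      rw [Nat.sub_add_cancel h]

theorem cat_pk_mono {X : Type*} [PseudoMetricSpace X] {ρ : ℝ} {K : ℕ} {S T : Set X}
    (h : Pk ρ K T) (hS : S ⊆ T) : Pk ρ K S :=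
  fun A r hA hr h1 h2 => h A r (hA.trans hS) hr h1 h2

theorem cat_shiftE_finite {G : Type*} [NormedAddCommGroup G] [InnerProductSpace ℝ G]
    (σ : ℕ) {Ed : Edges G} (h : Ed.Finite) : (shiftE σ Ed).Finite := by
  refine (h.image (fun e : ℕ × G × G => (e.1 + σ, e.2.1, e.2.2))).subset ?_
  rintro e ⟨j, z, w, he, rfl⟩
  exact ⟨(j, z, w), he, rfl⟩

theorem cat : CAT := by
  intro G _ _ K T N₁ N₂ E₁ E₂ h₁ h₂
  have hm := cat_mem (E₂ := E₂) h₁.lt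
  have hN₁ := h₁.hN
  have hN₂ := h₂.hN
  constructor
  · omega
  · exact h₁.fin.union (cat_shiftE_finite _ h₂.fin)
  · intro j z w h
    rcases (hm j z w).1 h with ⟨h, _⟩ | ⟨h, h'⟩
    · omega
    · have := h₂.lt _ _ _ h'
      omega
  · intro x hx j hj
    refine (hm j x x).2 ?_
    rcases lt_or_ge j N₁ with h | h
    · exact Or.inl ⟨h, h₁.rest x hx j h⟩
    · exact Or.inr ⟨h, h₂.rest x hx _ (by omega)⟩
  · intro z w h
    rcases (hm 0 z w).1 h with ⟨_, h⟩ | ⟨h, _⟩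
    · exact h₁.start z w h
    · omega
  · intro j z w h hj
    rcases (hm j z w).1 h with ⟨h, _⟩ | ⟨h, h'⟩
    · omega
    · exact h₂.stop _ z w h' (by omega)
  · intro j z w h
    rcases (hm (j + 1) z w).1 h with ⟨h, h'⟩ | ⟨h, h'⟩
    · obtain ⟨y, hy⟩ := h₁.pred j z w h'
      exact ⟨y, (hm j y z).2 (Or.inl ⟨by omega, hy⟩)⟩
    · rcases Nat.eq_or_lt_of_le h with h0 | h0
      · have e : j + 1 - N₁ = 0 := by omega
        rw [e] at h'
        have hz := h₂.start z w h'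
        exact ⟨z, (hm j z z).2 (Or.inl ⟨by omega, h₁.rest z hz j (by omega)⟩)⟩
      · have e : j + 1 - N₁ = (j - N₁) + 1 := by omega
        rw [e] at h'
        obtain ⟨y, hy⟩ := h₂.pred _ z w h'
        exact ⟨y, (hm j y z).2 (Or.inr ⟨by omega, hy⟩)⟩
  · intro j z w h hj
    rcases (hm j z w).1 h with ⟨h, h'⟩ | ⟨h, h'⟩
    · rcases Nat.eq_or_lt_of_le (Nat.succ_le_of_lt h) with h0 | h0
      · have hw := h₁.stop j z w h' h0
        refine ⟨w, (hm (j + 1) w w).2 (Or.inr ⟨by omega, ?_⟩)⟩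
        have e : j + 1 - N₁ = 0 := by omega
        rw [e]
        exact h₂.rest w hw 0 (by omega)
      · obtain ⟨y, hy⟩ := h₁.succ j z w h' h0
        exact ⟨y, (hm (j + 1) w y).2 (Or.inl ⟨h0, hy⟩)⟩
    · obtain ⟨y, hy⟩ := h₂.succ _ z w h' (by omega)
      refine ⟨y, (hm (j + 1) w y).2 (Or.inr ⟨by omega, ?_⟩)⟩
      have e : j + 1 - N₁ = (j - N₁) + 1 := by omega
      rw [e]
      exact hy
  · intro j z w h
    rcases (hm j z w).1 h with ⟨_, h⟩ | ⟨_, h⟩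
    · exact h₁.tilt _ _ _ h
    · exact h₂.tilt _ _ _ h
  · intro j z w z' w' h h' hz hw s hs
    rcases (hm j z w).1 h with ⟨a, h⟩ | ⟨a, h⟩ <;>
      rcases (hm j z' w').1 h' with ⟨b, h'⟩ | ⟨b, h'⟩
    · exact h₁.nocoll _ _ _ _ _ h h' hz hw s hs
    · omega
    · omega
    · exact h₂.nocoll _ _ _ _ _ h h' hz hw s hs
  · intro j z w₁ w₂ w₃ a b c
    rcases (hm _ _ _).1 a with ⟨a', a⟩ | ⟨a', a⟩ <;>
      rcases (hm _ _ _).1 b with ⟨b', b⟩ | ⟨b', b⟩ <;>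
      rcases (hm _ _ _).1 c with ⟨c', c⟩ | ⟨c', c⟩ <;>
      first
      | omega
      | exact h₁.outdeg _ _ _ _ _ a b c
      | exact h₂.outdeg _ _ _ _ _ a b c
  · intro j z₁ z₂ z₃ w a b c
    rcases (hm _ _ _).1 a with ⟨a', a⟩ | ⟨a', a⟩ <;>
      rcases (hm _ _ _).1 b with ⟨b', b⟩ | ⟨b', b⟩ <;>
      rcases (hm _ _ _).1 c with ⟨c', c⟩ | ⟨c', c⟩ <;>
      first
      | omega
      | exact h₁.indeg _ _ _ _ _ a b c
      | exact h₂.indeg _ _ _ _ _ a b c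
  · intro j s hs
    rcases lt_or_ge j N₁ with h | h
    · refine cat_pk_mono (h₁.slices j s hs) ?_
      rintro x ⟨z, w, he, rfl⟩
      rcases (hm _ _ _).1 he with ⟨_, he⟩ | ⟨a, _⟩
      · exact ⟨z, w, he, rfl⟩
      · omega
    · refine cat_pk_mono (h₂.slices (j - N₁) s hs) ?_
      rintro x ⟨z, w, he, rfl⟩
      rcases (hm _ _ _).1 he with ⟨a, _⟩ | ⟨_, he⟩
      · omega
      · exact ⟨z, w, he, rfl⟩

end Crest.LP
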