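import Crest.Agent.LPCore

/-! rid 254 (S0392), module NEST. -/

set_option autoImplicit false
open Set Filter Topology

namespace Crest.LP

/-- from ratio 8 to ratio 10 -/
theorem pk_eight_ten {X : Type*} [PseudoMetricSpace X] (T : Set X) (K : ℕ) (h : Pk 8 K T) :
    Pk 10 (K ^ 2) T := by
  classical
  intro A r hAT hr hsep hdiam
  set F : Finset (Finset X) := (A.powerset).filter
    (fun B => ∀ a ∈ B, ∀ b ∈ B, a ≠ b → (5 / 4) * r ≤ dist a b) with hF
  have hne : F.Nonempty := ⟨∅, by simp [hF]⟩
  obtain ⟨B, hB, hmax⟩ := F.exists_max_image Finset.card hne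
  rw [hF, Finset.mem_filter, Finset.mem_powerset] at hB
  obtain ⟨hBA, hBsep⟩ := hB
  have hBc : B.card ≤ K := by
    apply h B ((5 / 4) * r) (fun x hx => hAT (hBA hx)) (by positivity) hBsep
    intro x hx y hy
    have := hdiam x (hBA hx) y (hBA hy)
    linarith
  have hcov : ∀ a ∈ A, ∃ b ∈ B, dist a b < (5 / 4) * r := by
    intro a ha
    by_contra hcon
    push Not at hcon
    have haB : a ∉ B := fun hb => by
      have := hcon a hb
      rw [dist_self] at this
      linarith
    have hins : insert a B ∈ F := by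
      rw [hF, Finset.mem_filter, Finset.mem_powerset]
      refine ⟨Finset.insert_subset ha hBA, ?_⟩
      intro x hx y hy hxy
      rcases Finset.mem_insert.1 hx with hx | hx
      · rcases Finset.mem_insert.1 hy with hy | hy
        · exact absurd (hx.trans hy.symm) hxy
        · rw [hx]; exact hcon y hy
      · rcases Finset.mem_insert.1 hy with hy | hy
        · rw [dist_comm, hy]; exact hcon x hx
        · exact hBsep x hx y hy hxy
    have := hmax _ hins
    rw [Finset.card_insert_of_notMem haB] at this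
    omega
  have hsub : A ⊆ B.biUnion (fun b => A.filter (fun a => dist a b < (5 / 4) * r)) := by
    intro a ha
    obtain ⟨b, hb, hab⟩ := hcov a ha
    exact Finset.mem_biUnion.2 ⟨b, hb, Finset.mem_filter.2 ⟨ha, hab⟩⟩
  calc A.card ≤ (B.biUnion (fun b => A.filter (fun a => dist a b < (5 / 4) * r))).card :=
        Finset.card_le_card hsub
    _ ≤ B.card * K := by
        apply Finset.card_biUnion_le_card_mul
        intro b _
        apply h _ r (fun x hx => hAT (Finset.mem_filter.1 (Finset.mem_coe.1 hx)).1) hr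
        · intro x hx y hy hxy
          exact hsep x (Finset.mem_filter.1 hx).1 y (Finset.mem_filter.1 hy).1 hxy
        · intro x hx y hy
          have h1 := (Finset.mem_filter.1 hx).2
          have h2 := (Finset.mem_filter.1 hy).2
          have h3 := dist_triangle_right x y b
          linarith
    _ ≤ K * K := Nat.mul_le_mul_right _ hBc
    _ = K ^ 2 := by ring

section
variable {G : Type*} [NormedAddCommGroup G] [InnerProductSpace ℝ G]

/-- the similarity -/
noncomputable def simT (a : PT G) (lam : ℝ) (U : PT G ≃ₗᵢ[ℝ] PT G) (p : PT G) : PT G :=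
  a + lam • U p

lemma dist_simT (a : PT G) {lam : ℝ} (hlam : 0 < lam) (U : PT G ≃ₗᵢ[ℝ] PT G) (p q : PT G) :
    dist (simT a lam U p) (simT a lam U q) = lam * dist p q := by
  rw [simT, simT, dist_add_left, dist_smul₀, U.dist_map, Real.norm_of_nonneg hlam.le]

lemma simT_surj (a : PT G) {lam : ℝ} (hlam : 0 < lam) (U : PT G ≃ₗᵢ[ℝ] PT G) :
    Function.Surjective (simT a lam U) := by
  intro q
  refine ⟨U.symm (lam⁻¹ • (q - a)), ?_⟩
  rw [simT, U.apply_symm_apply, smul_smul, mul_inv_cancel₀ hlam.ne', one_smul]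
  abel

lemma simT_inj (a : PT G) {lam : ℝ} (hlam : 0 < lam) (U : PT G ≃ₗᵢ[ℝ] PT G) :
    Function.Injective (simT a lam U) := by
  intro p q hpq
  have h := dist_simT a hlam U p q
  rw [hpq, dist_self] at h
  have h2 : dist p q = 0 := by
    rcases mul_eq_zero.1 h.symm with h | h
    · exact absurd h hlam.ne'
    · exact h
  exact dist_eq_zero.1 h2

lemma simT_line (a : PT G) (lam : ℝ) (U : PT G ≃ₗᵢ[ℝ] PT G) (p q : PT G) (s : ℝ) :
    simT a lam U (p + s • (q - p)) =
      simT a lam U p + s • (simT a lam U q - simT a lam U p) := by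
  simp only [simT, map_add, map_smul, map_sub]
  module

lemma cone_simT (a : PT G) {lam : ℝ} (hlam : 0 < lam) (U : PT G ≃ₗᵢ[ℝ] PT G) (ω : ℝ)
    (p q x : PT G) :
    simT a lam U x ∈ Cone ω (simT a lam U p) (simT a lam U q) ↔ x ∈ Cone ω p q := by
  simp only [Cone, mem_ofPred_eq]
  apply exists_congr
  intro s
  apply and_congr_right
  intro _
  rw [← simT_line, dist_simT a hlam, dist_simT a hlam]
  constructor
  · intro h
    have : lam * dist x (p + s • (q - p)) ≤ lam * (ω * min s (1 - s) * dist p q) := by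
      linarith
    exact le_of_mul_le_mul_left this hlam
  · intro h
    have := mul_le_mul_of_nonneg_left h hlam.le
    linarith

lemma pk_simT (a : PT G) {lam : ℝ} (hlam : 0 < lam) (U : PT G ≃ₗᵢ[ℝ] PT G) (ρ : ℝ) (K : ℕ)
    (T : Set (PT G)) :
    Pk ρ K (simT a lam U ⁻¹' T) ↔ Pk ρ K T := by
  classical
  constructor
  · intro h A r hA hr hsep hd
    -- pull back A
    set A' : Finset (PT G) := A.preimage (simT a lam U) ((simT_inj a hlam U).injOn) with hA'
    have hmem : ∀ x, x ∈ A' ↔ simT a lam U x ∈ A := fun x => by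
      rw [hA', Finset.mem_preimage]
    have hcard : A'.card = A.card := by
      have : A'.image (simT a lam U) = A := by
        ext y
        rw [Finset.mem_image]
        constructor
        · rintro ⟨x, hx, rfl⟩
          exact (hmem x).1 hx
        · intro hy
          obtain ⟨x, rfl⟩ := simT_surj a hlam U y
          exact ⟨x, (hmem x).2 hy, rfl⟩
      rw [← this, Finset.card_image_of_injective _ (simT_inj a hlam U)]
    rw [← hcard]
    apply h A' (r / lam)
    · intro x hx
      exact hA ((hmem x).1 hx)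
    · positivity
    · intro x hx y hy hxy
      have h1 := hsep _ ((hmem x).1 hx) _ ((hmem y).1 hy)
        (fun h => hxy (simT_inj a hlam U h))
      rw [dist_simT a hlam] at h1
      rw [div_le_iff₀ hlam]
      linarith
    · intro x hx y hy
      have h1 := hd _ ((hmem x).1 hx) _ ((hmem y).1 hy)
      rw [dist_simT a hlam] at h1
      rw [← mul_div_assoc, le_div_iff₀ hlam]
      linarith
  · intro h A r hA hr hsep hd
    have hcard : (A.image (simT a lam U)).card = A.card :=
      Finset.card_image_of_injective _ (simT_inj a hlam U)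
    rw [← hcard]
    apply h _ (lam * r)
    · intro y hy
      rw [Finset.coe_image] at hy
      obtain ⟨x, hx, rfl⟩ := hy
      exact hA hx
    · positivity
    · intro x hx y hy hxy
      obtain ⟨x', hx', rfl⟩ := Finset.mem_image.1 hx
      obtain ⟨y', hy', rfl⟩ := Finset.mem_image.1 hy
      rw [dist_simT a hlam]
      exact mul_le_mul_of_nonneg_left
        (hsep x' hx' y' hy' (fun h => hxy (by rw [h]))) hlam.le
    · intro x hx y hy
      obtain ⟨x', hx', rfl⟩ := Finset.mem_image.1 hx
      obtain ⟨y', hy', rfl⟩ := Finset.mem_image.1 hy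
      rw [dist_simT a hlam]
      have := mul_le_mul_of_nonneg_left (hd x' hx' y' hy') hlam.le
      linarith

omit [InnerProductSpace ℝ G] in
lemma pt_zero : pt (0 : ℝ) (0 : G) = 0 := rfl

lemma cone_left {P : Type*} [NormedAddCommGroup P] [InnerProductSpace ℝ P] (ω : ℝ) (a b : P) :
    a ∈ Cone ω a b := ⟨0, by simp, by simp⟩

lemma cone_right {P : Type*} [NormedAddCommGroup P] [InnerProductSpace ℝ P] (ω : ℝ) (a b : P) :
    b ∈ Cone ω a b := ⟨1, by simp, by simp⟩

lemma pk_pair {X : Type*} [PseudoMetricSpace X] (ρ : ℝ) (K : ℕ) (hK : 2 ≤ K) (a b : X) :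
    Pk ρ K ({a, b} : Set X) := by
  classical
  intro A r hA _ _ _
  have : A ⊆ {a, b} := by
    intro x hx
    have := hA hx
    simpa using this
  exact (Finset.card_le_card this).trans (Finset.card_le_two.trans hK)

/-- NEST from CONE and PACK -/
theorem nest_of (hC : CONE) (hP : PACK) : NEST := by
  intro G _ _ K τ a b X hτ hτ' h
  suffices hs : X.Finite ∧ a ∈ X ∧ b ∈ X ∧ a ≠ b ∧ X ⊆ Cone (om τ) a b ∧ Pk 8 (Psi K) X by
    obtain ⟨h1, h2, h3, h4, h5, h6⟩ := hs
    exact ⟨h1, h2, h3, h4, h5, h6, pk_eight_ten _ _ h6⟩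
  induction h with
  | base a b hab =>
    refine ⟨Set.toFinite _, by simp, by simp, hab, ?_, pk_pair _ _ (by unfold Psi; omega) _ _⟩
    intro x hx
    rcases hx with rfl | hx
    · exact cone_left _ _ _
    · rw [mem_singleton_iff.1 hx]
      exact cone_right _ _ _
  | sub a b lam U N Ed X hlam hH hab hX ih =>
    have hT : ∀ p, a + lam • U p = simT a lam U p := fun p => rfl
    have hN : 0 < N := lt_of_lt_of_le (by norm_num) hH.hN
    have h0 : ((0 : ℕ), (0 : G), (0 : G)) ∈ Ed := hH.main 0 hN
    have h1 : (N - 1, (0 : G), (0 : G)) ∈ Ed := hH.main (N - 1) (by omega)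
    have hTa : simT a lam U (pt 0 (0 : G)) = a := by
      rw [pt_zero, simT, map_zero, smul_zero, add_zero]
    have hTb : simT a lam U (pt (N : ℝ) (0 : G)) = b := hab
    have ha : a ∈ X (0, 0, 0) := by
      have := (ih _ h0).2.1
      simp only [Nat.cast_zero] at this
      rwa [hT, hTa] at this
    have hb : b ∈ X (N - 1, 0, 0) := by
      have := (ih _ h1).2.2.1
      have hc : ((N - 1 : ℕ) : ℝ) + 1 = N := by
        have : ((N - 1 + 1 : ℕ) : ℝ) = N := by
          congr 1
          omega
        rw [← this]; push_cast; ring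
      simp only [hc] at this
      rwa [hT, hTb] at this
    have hcone : (⋃ e ∈ Ed, simT a lam U ⁻¹' (X e)) ⊆
        Cone (om τ) (pt 0 (0 : G)) (pt (N : ℝ) 0) := by
      apply hC G K τ N Ed _ hH
      intro e he x hx
      have := (ih e he).2.2.2.2.1 hx
      rw [hT, hT, cone_simT a hlam U] at this
      exact this
    have hpack : Pk 8 (Psi K) (⋃ e ∈ Ed, simT a lam U ⁻¹' (X e)) := by
      apply hP G K τ N Ed _ hH
      · intro e he x hx
        have := (ih e he).2.2.2.2.1 hx
        rw [hT, hT, cone_simT a hlam U] at this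
        exact this
      · intro e he
        rw [pk_simT a hlam U]
        exact (ih e he).2.2.2.2.2
    have hpre : (⋃ e ∈ Ed, simT a lam U ⁻¹' (X e)) = simT a lam U ⁻¹' (⋃ e ∈ Ed, X e) := by
      rw [preimage_iUnion₂]
    refine ⟨hH.fin.biUnion (fun e he => (ih e he).1), ?_, ?_, ?_, ?_, ?_⟩
    · exact mem_iUnion₂.2 ⟨_, h0, ha⟩
    · exact mem_iUnion₂.2 ⟨_, h1, hb⟩
    · rw [← hTb]
      conv_lhs => rw [← hTa]
      intro h
      have h2 := simT_inj a hlam U h
      have h3 : ((0 : ℝ), (0 : G)) = ((N : ℝ), (0 : G)) := by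
        have := congrArg (fun p : PT G => p.ofLp) h2
        simpa [pt] using this
      have h4 : (0 : ℝ) = N := (Prod.mk.inj h3).1
      have : (0 : ℝ) < N := by exact_mod_cast hN
      linarith
    · intro y hy
      obtain ⟨x, rfl⟩ := simT_surj a hlam U y
      have hx : x ∈ ⋃ e ∈ Ed, simT a lam U ⁻¹' (X e) := by
        rw [hpre]; exact hy
      have h := (cone_simT a hlam U (om τ) (pt 0 (0 : G)) (pt (N : ℝ) 0) x).2 (hcone hx)
      rw [hTa, hTb] at h
      exact h
    · rw [← pk_simT a hlam U, ← hpre]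
      exact hpack

end

end Crest.LP
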