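import Crest.Agent.LPCore2
import Crest.Agent.LP_NEST

/-! rid 254 (S0392), module CELLS. -/

set_option autoImplicit false
open Set Filter Topology

namespace Crest.LP

section
variable {G : Type} [NormedAddCommGroup G] [InnerProductSpace ℝ G]

omit [InnerProductSpace ℝ G] in
lemma pt_time_ne {s t : ℝ} (h : s ≠ t) (z w : G) : pt s z ≠ pt t w := by
  intro hh
  have := congrArg (fun p : PT G => p.ofLp) hh
  have h2 : ((s, z) : ℝ × G) = (t, w) := by simpa [pt] using this
  exact h (Prod.mk.inj h2).1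

lemma place_ne (a : PT G) {lam : ℝ} (hlam : 0 < lam) (U : PT G ≃ₗᵢ[ℝ] PT G) {s t : ℝ}
    (h : s ≠ t) (z w : G) : a + lam • U (pt s z) ≠ a + lam • U (pt t w) := by
  intro hh
  exact pt_time_ne h z w (simT_inj a hlam U hh)

lemma cells_key (hNEST : NEST) {K : ℕ} {τ : ℝ} (hτ : 0 < τ) (hτ' : τ ≤ 1 / 100)
    (M : Set (PT G)) (a b : PT G) (lam : ℝ) (U : PT G ≃ₗᵢ[ℝ] PT G) (N : ℕ) (Ed : Edges G)
    (hcell : Cell K τ M a b) (hH : Honest K τ N Ed) (hlam : 0 < lam)
    (hab : a + lam • U (pt (N : ℝ) 0) = b) (Xf : ℕ × G × G → Set (PT G))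
    (hXf : ∀ e ∈ Ed, Nest K τ (a + lam • U (pt (e.1 : ℝ) e.2.1))
        (a + lam • U (pt ((e.1 : ℝ) + 1) e.2.2)) (Xf e)) :
    ∃ X, Nest K τ (pt 0 (0 : G)) (pt 1 0) X ∧
      M ∪ (fun p => a + lam • U p) '' VPt Ed ⊆ X ∧ ∀ e ∈ Ed, Xf e ⊆ X := by
  obtain ⟨X, hX, hsub⟩ := hcell.2.2.2.2 _ (Nest.sub a b lam U N Ed Xf hlam hH hab hXf)
  have hall : ∀ e ∈ Ed, Xf e ⊆ X := fun e he x hx =>
    hsub (Or.inr (mem_iUnion₂.2 ⟨e, he, hx⟩))
  refine ⟨X, hX, ?_, hall⟩
  rintro x (hx | ⟨p, ⟨v, hv, rfl⟩, rfl⟩)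
  · exact hsub (Or.inl hx)
  · rcases hv with ⟨w, hw⟩ | ⟨j, y, hj, hy⟩
    · have h := (hNEST G K τ _ _ _ hτ hτ' (hXf _ hw)).2.1
      exact hall _ hw h
    · have h := (hNEST G K τ _ _ _ hτ hτ' (hXf _ hy)).2.2.1
      have h2 : ((v.1 : ℕ) : ℝ) = (j : ℝ) + 1 := by rw [hj]; push_cast; ring
      have h3 := hall _ hy h
      simp only at h3 ⊢
      rw [h2]
      exact h3

/-- CELLS from NEST -/
theorem cells_of (hNEST : NEST) : CELLS := by
  classical
  intro G _ _ K τ hτ hτ'
  refine ⟨⟨by simp, by simp, pt_time_ne (by norm_num) _ _, Set.toFinite _, ?_⟩, ?_⟩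
  · intro X' hX'
    have h := hNEST G K τ _ _ _ hτ hτ' hX'
    refine ⟨X', hX', ?_⟩
    rintro x (hx | hx)
    · rcases hx with rfl | hx
      · exact h.2.1
      · rw [mem_singleton_iff.1 hx]; exact h.2.2.1
    · exact hx
  · intro M a b lam U N Ed P hcell hH hlam hab hP
    have hne : ∀ e : ℕ × G × G, a + lam • U (pt (e.1 : ℝ) e.2.1) ≠
        a + lam • U (pt ((e.1 : ℝ) + 1) e.2.2) := fun e =>
      place_ne a hlam U (by intro h; linarith) _ _
    constructor
    · obtain ⟨X, hX, hsub, -⟩ := cells_key hNEST hτ hτ' M a b lam U N Ed hcell hH hlam hab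
        (fun e => {a + lam • U (pt (e.1 : ℝ) e.2.1), a + lam • U (pt ((e.1 : ℝ) + 1) e.2.2)})
        (fun e _ => Nest.base _ _ (hne e))
      have h10 := (hNEST G K τ _ _ _ hτ hτ' hX).2.2.2.2.2.2
      intro A r hA hr hsep hd
      refine h10 A r (fun x hx => hsub ?_) hr hsep hd
      rcases hA hx with h | ⟨p, hp, rfl⟩
      · exact Or.inl h
      · exact Or.inr ⟨p, hP hp, rfl⟩
    · intro e₀ he₀ hs he
      refine ⟨Or.inr ⟨_, hs, rfl⟩, Or.inr ⟨_, he, rfl⟩, hne e₀, ?_, ?_⟩
      · apply hcell.2.2.2.1.union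
        apply Set.Finite.image
        apply Set.Finite.subset _ hP
        -- VPt finite
        have hV : (Verts Ed).Finite := by
          apply Set.Finite.subset ((hH.fin.image (fun e => (e.1, e.2.1))).union
            (hH.fin.image (fun e => (e.1 + 1, e.2.2))))
          rintro ⟨j, z⟩ (⟨w, hw⟩ | ⟨i, y, hj, hy⟩)
          · exact Or.inl ⟨_, hw, rfl⟩
          · refine Or.inr ⟨_, hy, ?_⟩
            simp only at hj ⊢
            rw [hj]
        exact hV.image _
      · intro X' hX'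
        obtain ⟨X, hX, hsub, hall⟩ := cells_key hNEST hτ hτ' M a b lam U N Ed hcell hH hlam hab
          (fun e => if e = e₀ then X' else
            {a + lam • U (pt (e.1 : ℝ) e.2.1), a + lam • U (pt ((e.1 : ℝ) + 1) e.2.2)})
          (fun e _ => by
            by_cases h : e = e₀
            · rw [h]
              simp only [if_true]
              exact hX'
            · simp only [if_neg h]
              exact Nest.base _ _ (hne e))
        refine ⟨X, hX, ?_⟩
        rintro x (hx | hx)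
        · apply hsub
          rcases hx with h | ⟨p, hp, rfl⟩
          · exact Or.inl h
          · exact Or.inr ⟨p, hP hp, rfl⟩
        · have := hall e₀ he₀
          simp only [if_true] at this
          exact this hx

end

end Crest.LP
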