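import Crest.Agent.LP_PLACE

set_option autoImplicit false
open Set

namespace Crest.LP

section PtLemmas
variable {G : Type*} [NormedAddCommGroup G] [InnerProductSpace ℝ G]

theorem H20.pt_add_pt (t t' : ℝ) (z z' : G) : pt t z + pt t' z' = pt (t + t') (z + z') := rfl

theorem H20.pt_sub_pt (t t' : ℝ) (z z' : G) : pt t z - pt t' z' = pt (t - t') (z - z') := rfl

theorem H20.smul_pt (c t : ℝ) (z : G) : c • pt t z = pt (c * t) (c • z) := rfl

theorem H20.norm_pt_le (t : ℝ) (z : G) : ‖pt t z‖ ≤ |t| + ‖z‖ := by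
  have h := H20.norm_sq_pt t z
  have h1 : ‖pt t z‖ ^ 2 ≤ (|t| + ‖z‖) ^ 2 := by
    rw [h, ← sq_abs t]
    nlinarith [abs_nonneg t, norm_nonneg z]
  exact (pow_le_pow_iff_left₀ (norm_nonneg _) (by positivity) two_ne_zero).mp h1

theorem H20.norm_pt_zero_right (t : ℝ) : ‖pt t (0 : G)‖ = |t| := by
  have h := H20.norm_sq_pt t (0 : G)
  rw [norm_zero, zero_pow two_ne_zero, add_zero, ← sq_abs t] at h
  exact (pow_left_inj₀ (norm_nonneg _) (abs_nonneg _) two_ne_zero).mp h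

theorem H20.norm_pt_zero_left (z : G) : ‖pt 0 z‖ = ‖z‖ := by
  have h := H20.norm_sq_pt 0 z
  rw [zero_pow two_ne_zero, zero_add] at h
  exact (pow_left_inj₀ (norm_nonneg _) (norm_nonneg _) two_ne_zero).mp h

end PtLemmas

open H20 in
theorem cone : CONE := by
  intro G _ _ K τ N Ed X hH hX p hp
  simp only [mem_iUnion] at hp
  obtain ⟨⟨j, z, w⟩, he, hpe⟩ := hp
  obtain ⟨s, hs, hd⟩ := hX _ he hpe
  simp only at hd
  have hτ := hH.τpos
  have hN : (100 : ℝ) ≤ (N : ℝ) := by exact_mod_cast hH.hN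
  have hjN : (j : ℝ) + 1 ≤ (N : ℝ) := by exact_mod_cast hH.lt _ _ _ he
  have hj0 : (0 : ℝ) ≤ (j : ℝ) := Nat.cast_nonneg j
  have hcc : (0 : ℝ) < cc := by unfold cc; norm_num
  have hω : 0 < om τ := by unfold om; positivity
  have hN0 : (0 : ℝ) < (N : ℝ) := by linarith
  have hab : dist (pt (j : ℝ) z) (pt ((j : ℝ) + 1) w) ≤ 1 + ‖w - z‖ := by
    rw [dist_comm, dist_eq_norm, pt_sub_pt]
    refine (norm_pt_le _ _).trans ?_
    rw [add_sub_cancel_left, abs_one]
  have hmid : pt (j : ℝ) z + s • (pt ((j : ℝ) + 1) w - pt (j : ℝ) z) =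
      pt ((j : ℝ) + s) (z + s • (w - z)) := by
    rw [pt_sub_pt, smul_pt, pt_add_pt, add_sub_cancel_left, mul_one]
  rw [hmid] at hd
  have hmain : pt 0 (0 : G) + (((j : ℝ) + s) / N) • (pt (N : ℝ) (0 : G) - pt 0 0) =
      pt ((j : ℝ) + s) 0 := by
    rw [pt_sub_pt, smul_pt, pt_add_pt, sub_zero, sub_zero, smul_zero, zero_add, add_zero,
      div_mul_cancel₀ _ hN0.ne']
  have hdN : dist (pt 0 (0 : G)) (pt (N : ℝ) 0) = N := by
    rw [dist_comm, dist_eq_norm, pt_sub_pt, sub_zero, sub_zero, norm_pt_zero_right,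
      abs_of_pos hN0]
  have hmin : min (((j : ℝ) + s) / N) (1 - ((j : ℝ) + s) / N) * N =
      min ((j : ℝ) + s) (N - ((j : ℝ) + s)) := by
    rw [min_mul_of_nonneg _ _ hN0.le, div_mul_cancel₀ _ hN0.ne', sub_mul, one_mul,
      div_mul_cancel₀ _ hN0.ne']
  refine ⟨((j : ℝ) + s) / N, ⟨div_nonneg (by linarith [hs.1]) hN0.le,
    (div_le_one hN0).mpr (by linarith [hs.2])⟩, ?_⟩
  rw [hmain, hdN, mul_assoc, hmin]
  by_cases hzw : z = 0 ∧ w = 0
  · obtain ⟨rfl, rfl⟩ := hzw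
    have hd1 : dist (pt (j : ℝ) (0 : G)) (pt ((j : ℝ) + 1) 0) ≤ 1 := by simpa using hab
    have hm0 : 0 ≤ min s (1 - s) := le_min hs.1 (by linarith [hs.2])
    have h0 : (0 : G) + s • ((0 : G) - 0) = 0 := by simp
    rw [h0] at hd
    calc dist p (pt ((j : ℝ) + s) 0) ≤ om τ * min s (1 - s) * dist (pt (j : ℝ) (0 : G)) (pt ((j : ℝ) + 1) 0) := hd
      _ ≤ om τ * min s (1 - s) * 1 := mul_le_mul_of_nonneg_left hd1 (by positivity)
      _ = om τ * min s (1 - s) := mul_one _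
      _ ≤ om τ * min ((j : ℝ) + s) (N - ((j : ℝ) + s)) := by
          refine mul_le_mul_of_nonneg_left ?_ hω.le
          exact min_le_min (by linarith) (by linarith)
  · have hq : ¬ (3 * j ≤ N ∨ 2 * N ≤ 3 * (j + 1)) := fun h => hzw (hH.quiet _ _ _ he h)
    push Not at hq
    have hq1 : (N : ℝ) ≤ 3 * j := by exact_mod_cast hq.1.le
    have hq2 : (3 : ℝ) * (j + 1) ≤ 2 * N := by exact_mod_cast hq.2.le
    have hz : ‖z‖ ≤ cc * τ * N := hH.thin (j, z) (Or.inl ⟨w, he⟩)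
    have hw : ‖w‖ ≤ cc * τ * N := hH.thin (j + 1, w) (Or.inr ⟨j, z, rfl, he⟩)
    have hdz : ‖z + s • (w - z)‖ ≤ cc * τ * N := by
      have : z + s • (w - z) = (1 - s) • z + s • w := by
        rw [smul_sub, sub_smul, one_smul]; abel
      rw [this]
      calc ‖(1 - s) • z + s • w‖ ≤ ‖(1 - s) • z‖ + ‖s • w‖ := norm_add_le _ _
        _ = (1 - s) * ‖z‖ + s * ‖w‖ := by
            rw [norm_smul, norm_smul, Real.norm_eq_abs, Real.norm_eq_abs, abs_of_nonneg hs.1,
              abs_of_nonneg (by linarith [hs.2] : (0:ℝ) ≤ 1 - s)]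
        _ ≤ (1 - s) * (cc * τ * N) + s * (cc * τ * N) := by
            gcongr
            · linarith [hs.2]
            · exact hs.1
        _ = cc * τ * N := by ring
    have hmm : min s (1 - s) ≤ 1 / 2 := by
      rcases le_total s (1 / 2) with h | h
      · exact (min_le_left _ _).trans h
      · exact (min_le_right _ _).trans (by linarith)
    have hm0 : 0 ≤ min s (1 - s) := le_min hs.1 (by linarith [hs.2])
    have hdab : dist (pt (j : ℝ) z) (pt ((j : ℝ) + 1) w) ≤ 1.01 := by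
      have := hH.tilt _ _ _ he
      linarith
    have h1 : dist p (pt ((j : ℝ) + s) (z + s • (w - z))) ≤ om τ * (1 / 2) * 1.01 := by
      refine hd.trans ?_
      gcongr
    have h2 : dist (pt ((j : ℝ) + s) (z + s • (w - z))) (pt ((j : ℝ) + s) 0) ≤ cc * τ * N := by
      rw [dist_eq_norm, pt_sub_pt, sub_self, sub_zero, norm_pt_zero_left]
      exact hdz
    have h3 : (N : ℝ) / 3 ≤ min ((j : ℝ) + s) (N - ((j : ℝ) + s)) :=
      le_min (by linarith [hs.1]) (by linarith [hs.2])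
    have h4 : cc * τ * N = om τ * N / 4 := by unfold om; ring
    calc dist p (pt ((j : ℝ) + s) 0)
        ≤ dist p (pt ((j : ℝ) + s) (z + s • (w - z))) +
          dist (pt ((j : ℝ) + s) (z + s • (w - z))) (pt ((j : ℝ) + s) 0) := dist_triangle _ _ _
      _ ≤ om τ * (1 / 2) * 1.01 + om τ * N / 4 := by rw [← h4]; exact add_le_add h1 h2
      _ ≤ om τ * (N / 3) := by nlinarith
      _ ≤ om τ * min ((j : ℝ) + s) (N - ((j : ℝ) + s)) := mul_le_mul_of_nonneg_left h3 hω.le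

end Crest.LP
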