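import Mathlib
import Crest.Prelude.Def_Doubling

/-! packing bound gives doubling (rid 254). -/

set_option autoImplicit false

namespace Crest.H17LP

open Crest.GeometryTopology

/-- If every `r`-separated finite subset of `S ∩ closedBall x (2 r)` has at most `N` points, then
`S` is doubling with constant `N`. -/
theorem doubling_of_packing {X : Type*} [PseudoMetricSpace X] (S : Set X) (N : ℕ)
    (h : ∀ x ∈ S, ∀ r : ℝ, 0 < r → ∀ T : Finset X, (↑T : Set X) ⊆ S ∩ Metric.closedBall x (2 * r) →
      (∀ a ∈ T, ∀ b ∈ T, a ≠ b → r < dist a b) → T.card ≤ N) :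
    DoublingConstLE S N := by
  classical
  intro x hx r hr
  let P : ℕ → Prop := fun k => ∃ T : Finset X, T.card = k ∧
    (↑T : Set X) ⊆ S ∩ Metric.closedBall x (2 * r) ∧
    (∀ a ∈ T, ∀ b ∈ T, a ≠ b → r < dist a b)
  have hP0 : P 0 := ⟨∅, rfl, by simp, by simp⟩
  have hbd : ∀ k, P k → k ≤ N := by
    rintro k ⟨T, rfl, h1, h2⟩
    exact h x hx r hr T h1 h2
  obtain ⟨T, hTc, hT1, hT2⟩ : P (Nat.findGreatest P N) := Nat.findGreatest_spec (Nat.zero_le N) hP0
  refine ⟨T, fun a ha => (hT1 ha).1, ?_, ?_⟩
  · rw [hTc]; exact Nat.findGreatest_le N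
  · intro y hy
    by_contra hcon
    simp only [Set.mem_iUnion, Metric.mem_closedBall, not_exists, not_le] at hcon
    have hyT : y ∉ T := by
      intro hyT
      have := hcon y hyT
      rw [dist_self] at this
      linarith
    have hP : P (T.card + 1) := by
      refine ⟨insert y T, Finset.card_insert_of_notMem hyT, ?_, ?_⟩
      · intro a ha
        rw [Finset.coe_insert] at ha
        rcases ha with rfl | ha
        · exact hy
        · exact hT1 ha
      · intro a ha b hb hab
        rw [Finset.mem_insert] at ha hb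
        rcases ha with rfl | ha <;> rcases hb with rfl | hb
        · exact absurd rfl hab
        · exact hcon b hb
        · rw [dist_comm]; exact hcon a ha
        · exact hT2 a ha b hb hab
    have h3 := hbd _ hP
    have h4 : T.card + 1 ≤ Nat.findGreatest P N := Nat.le_findGreatest h3 hP
    omega

/-- Two points version of the packing bound: it is monotone in the set. -/
theorem packing_mono {X : Type*} [PseudoMetricSpace X] {S S' : Set X} (hSS : S ⊆ S') (N : ℕ)
    (h : ∀ x ∈ S', ∀ r : ℝ, 0 < r → ∀ T : Finset X,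
      (↑T : Set X) ⊆ S' ∩ Metric.closedBall x (2 * r) →
      (∀ a ∈ T, ∀ b ∈ T, a ≠ b → r < dist a b) → T.card ≤ N) :
    ∀ x ∈ S, ∀ r : ℝ, 0 < r → ∀ T : Finset X,
      (↑T : Set X) ⊆ S ∩ Metric.closedBall x (2 * r) →
      (∀ a ∈ T, ∀ b ∈ T, a ≠ b → r < dist a b) → T.card ≤ N :=
  fun x hx r hr T hT hs => h x (hSS hx) r hr T
    (hT.trans (Set.inter_subset_inter_left _ hSS)) hs

end Crest.H17LP
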