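import Mathlib
import Crest.Prelude.Def_Doubling

/-! Shared Props for rid 254 (S0392). -/

namespace Crest.Agent.LP

open Crest.GeometryTopology

universe u v

/-- Finite uniformly doubling subsets of Euclidean spaces without `D`-embedding in `R^n`. -/
def FIN : Prop :=
  ∃ Λ : ℕ, ∀ (n : ℕ) (D : ℝ), ∃ (m : ℕ) (X : Finset (EuclideanSpace ℝ (Fin m))),
    DoublingConstLE (X : Set (EuclideanSpace ℝ (Fin m))) Λ ∧
    ∀ f : EuclideanSpace ℝ (Fin m) → EuclideanSpace ℝ (Fin n),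
      ¬ ∀ x ∈ X, ∀ y ∈ X, ‖x - y‖ ≤ ‖f x - f y‖ ∧ ‖f x - f y‖ ≤ D * ‖x - y‖

/-- Dvoretzky's theorem with constant two. -/
def DV (B : Type u) [NormedAddCommGroup B] [NormedSpace ℝ B] : Prop :=
  ∀ m : ℕ, ∃ T : EuclideanSpace ℝ (Fin m) →ₗ[ℝ] B, ∀ x, ‖x‖ ≤ ‖T x‖ ∧ ‖T x‖ ≤ 2 * ‖x‖

end Crest.Agent.LP
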