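import Crest.Agent.LPCore
import Crest.Agent.LPDefs
import Crest.Agent.H17LPPack

/-! rid 254 (S0392): module FIN. -/
set_option autoImplicit false
open Set Filter Topology

namespace Crest.LP

open Crest.GeometryTopology

theorem pk_image {X Y : Type*} [PseudoMetricSpace X] [PseudoMetricSpace Y] {ρ : ℝ} {K : ℕ}
    {T : Set X} (φ : X ≃ᵢ Y) (h : Pk ρ K T) : Pk ρ K (φ '' T) := by
  classical
  intro A r hA hr hsep hdiam
  have hcard : (A.image φ.symm).card = A.card :=
    Finset.card_image_of_injective _ φ.symm.injective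
  rw [← hcard]
  refine h (A.image φ.symm) r ?_ hr ?_ ?_
  · intro a ha
    rw [Finset.coe_image] at ha
    obtain ⟨b, hb, rfl⟩ := ha
    obtain ⟨c, hc, hcb⟩ := hA hb
    rw [← hcb, IsometryEquiv.symm_apply_apply]
    exact hc
  · intro x hx y hy hxy
    rw [Finset.mem_image] at hx hy
    obtain ⟨x', hx', rfl⟩ := hx
    obtain ⟨y', hy', rfl⟩ := hy
    rw [φ.symm.isometry.dist_eq]
    exact hsep x' hx' y' hy' (fun h => hxy (by rw [h]))
  · intro x hx y hy
    rw [Finset.mem_image] at hx hy
    obtain ⟨x', hx', rfl⟩ := hx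
    obtain ⟨y', hy', rfl⟩ := hy
    rw [φ.symm.isometry.dist_eq]
    exact hdiam x' hx' y' hy'

theorem doubling_of_pk {X : Type*} [PseudoMetricSpace X] (S : Set X) (K : ℕ)
    (h : Pk 10 K S) : DoublingConstLE S K := by
  refine Crest.H17LP.doubling_of_packing S K ?_
  intro x hx r hr T hT hsep
  refine h T r (fun a ha => (hT ha).1) hr (fun a ha b hb hab => (hsep a ha b hb hab).le) ?_
  intro a ha b hb
  have h1 : dist a x ≤ 2 * r := (hT ha).2
  have h2 : dist b x ≤ 2 * r := (hT hb).2
  have h3 := dist_triangle_right a b x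
  linarith

theorem fin_of (hF : FINB) : Crest.Agent.LP.FIN := by
  classical
  refine ⟨K0c, ?_⟩
  intro n D
  have h := hF n (max D 1) (le_max_right _ _)
  unfold Star at h
  push Not at h
  obtain ⟨X, hXf, hXp, hX⟩ := h
  let e := (stdOrthonormalBasis ℝ (PT (PT (EuclideanSpace ℝ (Fin (n + 1)))))).repr
  refine ⟨Module.finrank ℝ (PT (PT (EuclideanSpace ℝ (Fin (n + 1))))),
    (hXf.image e).toFinset, ?_, ?_⟩
  · rw [Set.Finite.coe_toFinset]
    exact doubling_of_pk _ _ (pk_image e.toIsometryEquiv hXp)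
  · intro f hf
    refine hX (fun p => f (e p)) ?_
    intro x hx y hy
    have hx' : e x ∈ (hXf.image e).toFinset := by
      rw [Set.Finite.mem_toFinset]; exact ⟨x, hx, rfl⟩
    have hy' : e y ∈ (hXf.image e).toFinset := by
      rw [Set.Finite.mem_toFinset]; exact ⟨y, hy, rfl⟩
    have h1 := hf _ hx' _ hy'
    have h2 : ‖e x - e y‖ = dist x y := by
      rw [← dist_eq_norm]; exact e.isometry.dist_eq x y
    rw [h2, ← dist_eq_norm] at h1
    refine ⟨h1.1, h1.2.trans ?_⟩
    exact mul_le_mul_of_nonneg_right (le_max_left _ _) dist_nonneg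

end Crest.LP
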