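import Crest.Agent.LPCore2
/-! rid 254 (S0392): modules LAY, VST, START, LAYSCR. -/
set_option autoImplicit false
set_option linter.unusedSectionVars false
open Set Filter Topology

namespace Crest.LP

theorem lay : LAY := by
  classical
  intro G F _ _ _ _ K₂ D A hA S S' φ hS hSS' hfin hPk
  have key : ∀ t : Finset G, (↑t : Set G) ⊆ S' → ∃ φ', A (S ∪ ↑t) φ' ∧ EqOn φ' φ S := by
    intro t
    induction t using Finset.induction_on with
    | empty =>
      intro _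
      refine ⟨φ, ?_, fun x _ => rfl⟩
      simpa using hS
    | insert x t hx ih =>
      intro ht
      have hxS' : x ∈ S' := ht (by simp)
      have htS' : (↑t : Set G) ⊆ S' := fun y hy => ht (by
        simp only [Finset.coe_insert]
        exact Or.inr hy)
      obtain ⟨φ₁, h₁, e₁⟩ := ih htS'
      have heq : S ∪ ↑(insert x t) = insert x (S ∪ (↑t : Set G)) := by
        ext y
        simp only [Finset.coe_insert, mem_union, mem_insert_iff]
        tauto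
      rw [heq]
      by_cases hxS : x ∈ S ∪ (↑t : Set G)
      · rw [insert_eq_of_mem hxS]
        exact ⟨φ₁, h₁, e₁⟩
      · have hsub : insert x (S ∪ (↑t : Set G)) ⊆ S' :=
          insert_subset hxS' (union_subset hSS' htS')
        obtain ⟨φ₂, h₂, e₂⟩ := hA.ext _ φ₁ x h₁ hxS
          (fun B r hB => hPk B r (hB.trans hsub))
        exact ⟨φ₂, h₂, fun y hy => (e₂ (Or.inl hy)).trans (e₁ hy)⟩
  obtain ⟨φ', h, e⟩ := key hfin.toFinset (by simp)
  refine ⟨φ', ?_, e⟩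
  rwa [hfin.coe_toFinset, union_eq_self_of_subset_left hSS'] at h

theorem h21_pk_two {X : Type*} [PseudoMetricSpace X] (a b : X) (K : ℕ) (hK : 2 ≤ K) (ρ : ℝ) :
    Pk ρ K ({a, b} : Set X) := by
  classical
  intro A r hA _ _ _
  have h : A ⊆ ({a, b} : Finset X) := by
    intro x hx
    have := hA hx
    simpa using this
  exact (Finset.card_le_card h).trans (Finset.card_le_two.trans hK)

theorem h21_two_le_Psi5 : 2 ≤ (Psi 5) ^ 2 := by
  norm_num [Psi]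

theorem vst_of (hC : CELLS) (hL : LAY) : VST := by
  intro G F _ _ _ _ D A hD hA τ hτ hτ'
  -- bounds on the ratios
  have hub : ∀ r ∈ {r | ∃ (M : Set (PT G)) (a b : PT G) (φ : PT G → F), Cell 5 τ M a b ∧ A M φ ∧
      r = dist (φ a) (φ b) / dist a b}, 1 ≤ r ∧ r ≤ D := by
    rintro r ⟨M, a, b, φ, hc, hAφ, rfl⟩
    obtain ⟨haM, hbM, hab, -, -⟩ := hc
    have hd : 0 < dist a b := dist_pos.2 hab
    obtain ⟨h1, h2⟩ := hA.dbl M φ hAφ a haM b hbM
    constructor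
    · rw [le_div_iff₀ hd]; linarith
    · rw [div_le_iff₀ hd]; exact h2
  have hbdd : BddAbove {r | ∃ (M : Set (PT G)) (a b : PT G) (φ : PT G → F), Cell 5 τ M a b ∧
      A M φ ∧ r = dist (φ a) (φ b) / dist a b} := ⟨D, fun r hr => (hub r hr).2⟩
  have hne : {r | ∃ (M : Set (PT G)) (a b : PT G) (φ : PT G → F), Cell 5 τ M a b ∧
      A M φ ∧ r = dist (φ a) (φ b) / dist a b}.Nonempty := by
    obtain ⟨φ₀, hφ₀⟩ := hA.zero
    have h0 : (pt 0 (0 : G)) = 0 := rfl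
    obtain ⟨φ', hφ', -⟩ := hL (PT G) F ((Psi 5) ^ 2) D A hA {0} {pt 0 (0 : G), pt 1 0} φ₀ hφ₀
      (by rw [h0]; simp) (by simp) (h21_pk_two _ _ _ h21_two_le_Psi5 _)
    exact ⟨_, {pt 0 (0 : G), pt 1 0}, pt 0 0, pt 1 0, φ', (hC G 5 τ hτ hτ').1, hφ', rfl⟩
  refine ⟨?_, ?_, ?_⟩
  · obtain ⟨r, hr⟩ := hne
    refine ⟨(hub r hr).1.trans (le_csSup hbdd hr), csSup_le ⟨r, hr⟩ fun s hs => (hub s hs).2⟩
  · intro M a b φ hc hAφ
    have hd : 0 < dist a b := dist_pos.2 hc.2.2.1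
    have h : dist (φ a) (φ b) / dist a b ≤ vst A τ := le_csSup hbdd ⟨M, a, b, φ, hc, hAφ, rfl⟩
    rwa [div_le_iff₀ hd] at h
  · intro ε hε
    have hlt : vst A τ - ε < vst A τ := by linarith
    obtain ⟨r, ⟨M, a, b, φ, hc, hAφ, rfl⟩, hr⟩ := exists_lt_of_lt_csSup hne hlt
    have hd : 0 < dist a b := dist_pos.2 hc.2.2.1
    refine ⟨M, a, b, φ, hc, hAφ, ?_⟩
    rw [lt_div_iff₀ hd] at hr
    exact hr.le

section
variable {G : Type*} [NormedAddCommGroup G] [InnerProductSpace ℝ G]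

theorem h21_verts_finite {Ed : Edges G} (h : Ed.Finite) : (Verts Ed).Finite := by
  have h1 : ((fun e : ℕ × G × G => (e.1, e.2.1)) '' Ed ∪
      (fun e : ℕ × G × G => (e.1 + 1, e.2.2)) '' Ed).Finite := (h.image _).union (h.image _)
  refine h1.subset ?_
  rintro ⟨j, z⟩ (⟨w, hw⟩ | ⟨i, y, hi, hy⟩)
  · exact Or.inl ⟨(j, z, w), hw, rfl⟩
  · refine Or.inr ⟨(i, y, z), hy, ?_⟩
    simp only at hi ⊢
    rw [hi]

theorem h21_verts_mono {Ed Ed' : Edges G} (h : Ed ⊆ Ed') : Verts Ed ⊆ Verts Ed' := by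
  rintro ⟨j, z⟩ (⟨w, hw⟩ | ⟨i, y, hi, hy⟩)
  · exact Or.inl ⟨w, h hw⟩
  · exact Or.inr ⟨i, y, hi, h hy⟩

theorem h21_PV_finite {Ed : Edges G} (h : Ed.Finite) (a : PT G) (lam : ℝ) (U : PT G ≃ₗᵢ[ℝ] PT G) :
    (PV a lam U Ed).Finite := ((h21_verts_finite h).image _).image _

theorem h21_PV_mono {Ed Ed' : Edges G} (h : Ed ⊆ Ed') (a : PT G) (lam : ℝ)
    (U : PT G ≃ₗᵢ[ℝ] PT G) : PV a lam U Ed ⊆ PV a lam U Ed' :=
  image_mono (image_mono (h21_verts_mono h))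

theorem h21_mem_mainE {N j : ℕ} {z w : G} : (j, z, w) ∈ (mainE N : Edges G) ↔
    j < N ∧ z = 0 ∧ w = 0 := by
  constructor
  · rintro ⟨i, hi, he⟩
    simp only [Prod.mk.injEq] at he
    obtain ⟨rfl, rfl, rfl⟩ := he
    exact ⟨hi, rfl, rfl⟩
  · rintro ⟨h, rfl, rfl⟩
    exact ⟨j, h, rfl⟩

theorem h21_verts_mainE {N : ℕ} {p : ℕ × G} (h : p ∈ Verts (mainE N : Edges G)) : p.2 = 0 := by
  obtain ⟨j, z⟩ := p
  rcases h with ⟨w, hw⟩ | ⟨i, y, hi, hy⟩
  · exact (h21_mem_mainE.1 hw).2.1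
  · exact (h21_mem_mainE.1 hy).2.2

theorem h21_mainE_finite (N : ℕ) : (mainE N : Edges G).Finite := by
  have h : ((fun j : ℕ => (j, (0 : G), (0 : G))) '' {j | j < N}).Finite :=
    (Set.finite_lt_nat N).image _
  refine h.subset ?_
  rintro e ⟨j, hj, rfl⟩
  exact ⟨j, hj, rfl⟩

theorem h21_honest_mainE {K : ℕ} {τ : ℝ} {N : ℕ} (hK : 1 ≤ K) (hτ : 0 < τ) (hτ' : τ ≤ 1 / 100)
    (hN : 100 ≤ N) : Honest K τ N (mainE N : Edges G) where
  τpos := hτ
  τle := hτ'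
  hN := hN
  fin := h21_mainE_finite N
  lt := fun j z w h => (h21_mem_mainE.1 h).1
  main := fun j hj => h21_mem_mainE.2 ⟨hj, rfl, rfl⟩
  pred := fun j z w h => by
    obtain ⟨h1, h2, -⟩ := h21_mem_mainE.1 h
    exact ⟨0, h21_mem_mainE.2 ⟨by omega, rfl, h2⟩⟩
  quiet := fun j z w h _ => (h21_mem_mainE.1 h).2
  tilt := fun j z w h => by
    obtain ⟨-, rfl, rfl⟩ := h21_mem_mainE.1 h
    simp
  thin := fun p hp => by
    rw [h21_verts_mainE hp, norm_zero]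
    have : (0 : ℝ) ≤ cc := by norm_num [cc]
    positivity
  vsep := fun j z z' h h' hne => by
    have h1 : z = 0 := h21_verts_mainE h
    have h2 : z' = 0 := h21_verts_mainE h'
    exact absurd (h1.trans h2.symm) hne
  esep := fun j z w z' w' h h' hne _ => by
    have h1 : z = 0 := (h21_mem_mainE.1 h).2.1
    have h2 : z' = 0 := (h21_mem_mainE.1 h').2.1
    exact absurd (h1.trans h2.symm) hne
  outdeg := fun j z w₁ w₂ w₃ h1 h2 _ =>
    Or.inl ((h21_mem_mainE.1 h1).2.2.trans (h21_mem_mainE.1 h2).2.2.symm)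
  indeg := fun j z₁ z₂ z₃ w h1 h2 _ =>
    Or.inl ((h21_mem_mainE.1 h1).2.1.trans (h21_mem_mainE.1 h2).2.1.symm)
  slices := fun j s _ => by
    intro A r hA _ _ _
    have h : A ⊆ ({0} : Finset G) := by
      intro x hx
      obtain ⟨z, w, hzw, hx'⟩ := hA hx
      obtain ⟨-, rfl, rfl⟩ := h21_mem_mainE.1 hzw
      rw [hx']
      simp
    exact (Finset.card_le_card h).trans (by simpa using hK)

end

theorem start_of (hPl : PLACE) (hC : CELLS) (hL : LAY) (hV : VST) : START := by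
  intro G F _ _ _ _ D A hD hA τ η N hτ hτ' hη hN
  have hNpos : (0 : ℝ) < N := by
    have : 0 < N := by omega
    exact_mod_cast this
  have hε : 0 < η / (4 * D * N) := by positivity
  obtain ⟨M, a, b, φ₀, hc, hAφ, hnear⟩ := (hV G F D A hD hA τ hτ hτ').2.2 _ hε
  obtain ⟨haM, hbM, hab, hMfin, -⟩ := id hc
  obtain ⟨lam, U, hlam, hpl⟩ := hPl G a b N hab (by omega)
  have hon : Honest 5 τ N (mainE N : Edges G) := h21_honest_mainE (by norm_num) hτ hτ' hN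
  have hPk := ((hC G 5 τ hτ hτ').2 M a b lam U N (mainE N) (VPt (mainE N)) hc hon hlam hpl
    subset_rfl).1
  obtain ⟨φ, hφ, he⟩ := hL (PT G) F ((Psi 5) ^ 2) D A hA M (M ∪ PV a lam U (mainE N)) φ₀ hAφ
    subset_union_left (hMfin.union (h21_PV_finite (h21_mainE_finite N) a lam U)) hPk
  refine ⟨M, a, b, lam, U, φ, ⟨hη, hc, hon, hlam, hpl, hφ, ?_⟩⟩
  rw [he haM, he hbM]
  exact hnear

theorem layscr_of (hC : CELLS) (hL : LAY) : LAYSCR := by
  intro G F _ _ _ _ D A hD hA τ N M a b lam U Ed Ed' φ η hLaid hon' hsub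
  have hc := hLaid.cell
  obtain ⟨haM, hbM, hab, hMfin, -⟩ := id hc
  have hPk := ((hC G 5 τ hon'.τpos hon'.τle).2 M a b lam U N Ed' (VPt Ed') hc hon'
    hLaid.lampos hLaid.place subset_rfl).1
  obtain ⟨φ', hφ', he⟩ := hL (PT G) F ((Psi 5) ^ 2) D A hA (M ∪ PV a lam U Ed)
    (M ∪ PV a lam U Ed') φ hLaid.alive
    (union_subset_union_right M (h21_PV_mono hsub a lam U))
    (hMfin.union (h21_PV_finite hon'.fin a lam U)) hPk
  refine ⟨φ', ⟨hLaid.ηpos, hc, hon', hLaid.lampos, hLaid.place, hφ', ?_⟩, he⟩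
  rw [he (Or.inl haM), he (Or.inl hbM)]
  exact hLaid.near

end Crest.LP
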