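import Crest.Agent.LPCore
set_option autoImplicit false
set_option linter.unusedSectionVars false
open Set Filter Topology

namespace Crest.LP

section
variable {G : Type*} [NormedAddCommGroup G] [InnerProductSpace ℝ G]
variable {F : Type*} [NormedAddCommGroup F] [InnerProductSpace ℝ F]

lemma nam_pt_add (t s : ℝ) (z w : G) : pt t z + pt s w = pt (t + s) (z + w) := rfl

lemma nam_pt_sub (t s : ℝ) (z w : G) : pt t z - pt s w = pt (t - s) (z - w) := rfl

lemma nam_norm_pt (t : ℝ) (z : G) : ‖pt t z‖ ^ 2 = t ^ 2 + ‖z‖ ^ 2 := by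
  rw [WithLp.prod_norm_sq_eq_of_L2]
  simp [pt]

lemma nam_dist_plc {a : PT G} {lam : ℝ} (h : 0 < lam) (U : PT G ≃ₗᵢ[ℝ] PT G) (p q : PT G) :
    dist (a + lam • U p) (a + lam • U q) = lam * dist p q := by
  rw [dist_add_left, dist_smul₀, U.dist_map, Real.norm_of_nonneg h.le]

/-- squared ratio -/
noncomputable def rat (f : PT G → F) (a b : PT G) : ℝ := dist (f a) (f b) ^ 2 / dist a b ^ 2

lemma nam_ne {a : PT G} {lam : ℝ} (h : 0 < lam) (U : PT G ≃ₗᵢ[ℝ] PT G) (j : ℝ) (z w : G) :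
    a + lam • U (pt j z) ≠ a + lam • U (pt (j + 1) w) := by
  intro hc
  have h1 : dist (a + lam • U (pt j z)) (a + lam • U (pt (j + 1) w)) = 0 := by
    rw [hc, dist_self]
  rw [nam_dist_plc h] at h1
  have h2 : dist (pt j z) (pt (j + 1) w) = 0 := by
    rcases mul_eq_zero.1 h1 with h3 | h3
    · exact absurd h3 h.ne'
    · exact h3
  have h3 := nam_norm_pt (j - (j + 1)) (z - w)
  rw [← nam_pt_sub, ← dist_eq_norm, h2] at h3
  have := sq_nonneg ‖z - w‖
  nlinarith

end

lemma host_ind (G F : Type) [NormedAddCommGroup G] [InnerProductSpace ℝ G]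
    [NormedAddCommGroup F] [InnerProductSpace ℝ F] (hNEST : NEST) (hPLACE : PLACE)
    (K : ℕ) (τ : ℝ) (N : ℕ) (Ed : Edges G) (hH : Honest K τ N Ed) (δ : ℝ) :
    ∀ (n : ℕ) (a b : PT G), a ≠ b → ∃ X, Nest K τ a b X ∧ ∀ f : PT G → F,
      (∃ (a' : PT G) (lam : ℝ) (U : PT G ≃ₗᵢ[ℝ] PT G), 0 < lam ∧
        (∀ p ∈ VPt Ed, a' + lam • U p ∈ X) ∧
        ∀ j z w, (j, z, w) ∈ Ed →
          rat f (a' + lam • U (pt (j : ℝ) z)) (a' + lam • U (pt ((j : ℝ) + 1) w))
          ≤ rat f a' (a' + lam • U (pt (N : ℝ) 0)) + δ) ∨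
      ∃ w ∈ X, ∃ v ∈ X, w ≠ v ∧ rat f a b + n * δ ≤ rat f w v := by
  intro n
  induction n with
  | zero =>
    intro a b hab
    refine ⟨{a, b}, Nest.base a b hab, fun f => Or.inr ⟨a, by simp, b, by simp, hab, by simp⟩⟩
  | succ n ih =>
    intro a b hab
    obtain ⟨lam, U, hlam, hb⟩ := hPLACE G a b N hab (by have := hH.hN; omega)
    have hne : ∀ e : ℕ × G × G, a + lam • U (pt (e.1 : ℝ) e.2.1)
        ≠ a + lam • U (pt ((e.1 : ℝ) + 1) e.2.2) := fun e => nam_ne hlam U _ _ _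
    choose X hX hXf using fun e : ℕ × G × G => ih _ _ (hne e)
    have hsub : Nest K τ a b (⋃ e ∈ Ed, X e) :=
      Nest.sub a b lam U N Ed X hlam hH hb (fun e _ => hX e)
    have hend : ∀ e : ℕ × G × G, a + lam • U (pt (e.1 : ℝ) e.2.1) ∈ X e ∧
        a + lam • U (pt ((e.1 : ℝ) + 1) e.2.2) ∈ X e := by
      intro e
      obtain ⟨_, h1, h2, _⟩ := hNEST G K τ _ _ (X e) hH.τpos hH.τle (hX e)
      exact ⟨h1, h2⟩
    refine ⟨_, hsub, fun f => ?_⟩
    by_cases hall : ∀ j z w, (j, z, w) ∈ Ed →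
          rat f (a + lam • U (pt (j : ℝ) z)) (a + lam • U (pt ((j : ℝ) + 1) w))
          ≤ rat f a (a + lam • U (pt (N : ℝ) 0)) + δ
    · left
      refine ⟨a, lam, U, hlam, ?_, hall⟩
      rintro _ ⟨⟨j, z⟩, hv, rfl⟩
      rcases hv with ⟨w, hw⟩ | ⟨i, y, hi, hy⟩
      · exact Set.mem_biUnion hw (hend (j, z, w)).1
      · simp only at hi hy
        have := (hend (i, y, z)).2
        refine Set.mem_biUnion hy ?_
        simp only at this ⊢
        rw [hi]
        push_cast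
        exact this
    · push Not at hall
      obtain ⟨j, z, w, he, hlt⟩ := hall
      rw [hb] at hlt
      rcases hXf (j, z, w) f with h | ⟨w', hw', v', hv', hne', hle⟩
      · left
        obtain ⟨a', lam', U', h1, h2, h3⟩ := h
        exact ⟨a', lam', U', h1, fun p hp => Set.mem_biUnion he (h2 p hp), h3⟩
      · right
        refine ⟨w', Set.mem_biUnion he hw', v', Set.mem_biUnion he hv', hne', ?_⟩
        simp only at hle
        push_cast
        linarith


lemma nam_sum_dev {F : Type*} [NormedAddCommGroup F] [InnerProductSpace ℝ F] (L : ℕ)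
    (u : ℕ → F) (V : F) (h : ∑ i ∈ Finset.range L, u i = (L : ℝ) • V) :
    ∑ i ∈ Finset.range L, ‖u i - V‖ ^ 2 = ∑ i ∈ Finset.range L, ‖u i‖ ^ 2 - L * ‖V‖ ^ 2 := by
  have h1 : ∀ i ∈ Finset.range L, ‖u i - V‖ ^ 2 = ‖u i‖ ^ 2 - 2 * inner ℝ (u i) V + ‖V‖ ^ 2 :=
    fun i _ => norm_sub_sq_real _ _
  rw [Finset.sum_congr rfl h1, Finset.sum_add_distrib, Finset.sum_sub_distrib,
    ← Finset.mul_sum, ← sum_inner, h, inner_smul_left, real_inner_self_eq_norm_sq]
  simp
  ring

lemma nam_dist_sq {G : Type*} [NormedAddCommGroup G] [InnerProductSpace ℝ G]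
    {a : PT G} {lam : ℝ} (h : 0 < lam) (U : PT G ≃ₗᵢ[ℝ] PT G) (t s : ℝ) (z w : G) :
    dist (a + lam • U (pt t z)) (a + lam • U (pt s w)) ^ 2
      = lam ^ 2 * ((t - s) ^ 2 + ‖z - w‖ ^ 2) := by
  rw [nam_dist_plc h, mul_pow, dist_eq_norm, nam_pt_sub, nam_norm_pt]

theorem nam_of (hHON : HON) (hNEST : NEST) (_hSIM : NESTSIM) (hPLACE : PLACE) : NAM := by
  intro G F _ _ _ _ K D hD hK hStar N Ed hM ε hε
  obtain ⟨τ, hτ, M, hM0⟩ := hHON G K N Ed hK hM
  have hH := hM0 M le_rfl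
  set Ed' : Edges G := shiftE (M + 1) Ed ∪ mainE (3 * M) with hEd'
  have hN := hM.hN
  have hML : M + 1 + N ≤ 3 * M := by
    have h1 : (N - 1, (0 : G), (0 : G)) ∈ Ed := hM.rest 0 rfl (N - 1) (by omega)
    have h2 : (N - 1 + (M + 1), (0 : G), (0 : G)) ∈ Ed' := Or.inl ⟨N - 1, 0, 0, h1, rfl⟩
    have := hH.lt _ _ _ h2
    omega
  have hMpos : 0 < M := by have := hH.hN; omega
  have hMR : (0 : ℝ) < M := by exact_mod_cast hMpos
  set δ : ℝ := min (ε / (3 * M)) 1 with hδ
  have hδ0 : 0 < δ := lt_min (by positivity) one_pos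
  have hδ1 : δ ≤ 1 := min_le_right _ _
  have hδ2 : 3 * M * δ ≤ ε := by
    have : δ ≤ ε / (3 * M) := min_le_left _ _
    rw [le_div_iff₀ (by positivity)] at this
    linarith
  obtain ⟨n, hn⟩ := exists_nat_gt (D ^ 2 / δ)
  rw [div_lt_iff₀ hδ0] at hn
  have hne : pt 0 (0 : G) ≠ pt 1 0 := by
    intro hc
    have h3 := nam_norm_pt (0 - 1) ((0 : G) - 0)
    rw [← nam_pt_sub, hc, sub_self] at h3
    norm_num at h3
  obtain ⟨X, hX, hXf⟩ := host_ind G F hNEST hPLACE K τ (3 * M) Ed' hH δ n _ _ hne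
  obtain ⟨hfin, _, _, _, _, _, hpk⟩ := hNEST G K τ _ _ X hH.τpos hH.τle hX
  obtain ⟨f, hf⟩ := hStar X hfin hpk
  have hratD : ∀ w ∈ X, ∀ v ∈ X, w ≠ v → rat f w v ≤ D ^ 2 := by
    intro w hw v hv hwv
    have h1 := (hf w hw v hv).2
    have h2 : 0 < dist w v := dist_pos.2 hwv
    rw [rat, div_le_iff₀ (by positivity), ← mul_pow]
    exact pow_le_pow_left₀ dist_nonneg h1 2
  rcases hXf f with h | ⟨w, hw, v, hv, hne', hle⟩
  swap
  · exfalso
    have h1 := hratD w hw v hv hne'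
    have h2 : 0 ≤ rat f (pt 0 (0 : G)) (pt 1 0) := by unfold rat; positivity
    linarith
  obtain ⟨a, lam, U, hlam, hP, hE⟩ := h
  set L : ℕ := 3 * M with hL
  have hLpos : (0 : ℝ) < L := by rw [hL]; push_cast; positivity
  set b : PT G := a + lam • U (pt (L : ℝ) 0) with hb
  have haX : a ∈ X := by
    have h1 : pt 0 (0 : G) ∈ VPt Ed' :=
      ⟨(0, 0), Or.inl ⟨0, Or.inr ⟨0, by omega, rfl⟩⟩, by simp⟩
    have h2 := hP _ h1
    have h3 : pt 0 (0 : G) = 0 := rfl
    rwa [h3, map_zero, smul_zero, add_zero] at h2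
  have hbX : b ∈ X := by
    have h1 : pt (L : ℝ) (0 : G) ∈ VPt Ed' :=
      ⟨(L, 0), Or.inr ⟨L - 1, 0, by simp only; omega, Or.inr ⟨L - 1, by omega, rfl⟩⟩, by simp⟩
    exact hP _ h1
  have hdab : dist a b ^ 2 = lam ^ 2 * (L : ℝ) ^ 2 := by
    have h1 := nam_dist_sq (a := a) hlam U 0 L (0 : G) 0
    have h3 : pt 0 (0 : G) = 0 := rfl
    rw [h3, map_zero, smul_zero, add_zero] at h1
    rw [hb, h1]
    simp
  have hab : a ≠ b := by
    intro hc
    rw [← hc, dist_self] at hdab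
    have : 0 < lam ^ 2 * (L : ℝ) ^ 2 := by positivity
    simp at hdab
    rcases hdab with h | h <;> [exact hlam.ne' h; (rw [h] at hLpos; simp at hLpos)]
  set S := rat f a b with hS
  have hSD : S ≤ D ^ 2 := hratD a haX b hbX hab
  -- the restricted map
  let f' : PT G → F := fun p => lam⁻¹ • f (a + lam • U (p + pt ((M : ℝ) + 1) 0))
  have hvert : ∀ p ∈ VPt Ed, a + lam • U (p + pt ((M : ℝ) + 1) 0) ∈ X := by
    rintro _ ⟨⟨j, z⟩, hv, rfl⟩
    have h1 : pt (j : ℝ) z + pt ((M : ℝ) + 1) 0 = pt ((j + (M + 1) : ℕ) : ℝ) z := by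
      rw [nam_pt_add]; push_cast; simp
    simp only
    rw [h1]
    apply hP
    refine ⟨(j + (M + 1), z), ?_, rfl⟩
    rcases hv with ⟨w, hw⟩ | ⟨i, y, hi, hy⟩
    · exact Or.inl ⟨w, Or.inl ⟨j, z, w, hw, rfl⟩⟩
    · refine Or.inr ⟨i + (M + 1), y, ?_, Or.inl ⟨i, y, z, hy, rfl⟩⟩
      simp only at hi ⊢
      omega
  refine ⟨f', ?_, ?_⟩
  · intro p hp q hq
    have h1 := hf _ (hvert p hp) _ (hvert q hq)
    have h2 : dist (a + lam • U (p + pt ((M : ℝ) + 1) 0)) (a + lam • U (q + pt ((M : ℝ) + 1) 0))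
        = lam * dist p q := by
      rw [nam_dist_plc hlam, dist_add_right]
    rw [h2] at h1
    have h3 : dist (f' p) (f' q) = lam⁻¹ * dist (f (a + lam • U (p + pt ((M : ℝ) + 1) 0)))
        (f (a + lam • U (q + pt ((M : ℝ) + 1) 0))) := by
      simp only [f']
      rw [dist_smul₀, norm_inv, Real.norm_of_nonneg hlam.le]
    rw [h3]
    constructor
    · rw [← div_eq_inv_mul, le_div_iff₀ hlam]
      linarith [h1.1]
    · rw [← div_eq_inv_mul, div_le_iff₀ hlam]
      linarith [h1.2]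
  · refine ⟨(L : ℝ)⁻¹ • lam⁻¹ • (f b - f a), fun γ hγ => ?_⟩
    set V : F := (L : ℝ)⁻¹ • lam⁻¹ • (f b - f a) with hV
    have hVS : ‖V‖ ^ 2 = S := by
      rw [hV, norm_smul, norm_smul, norm_inv, norm_inv, Real.norm_of_nonneg hlam.le,
        Real.norm_of_nonneg hLpos.le, hS, rat, hdab, dist_comm, dist_eq_norm]
      field_simp
    have hγ0 : γ 0 = 0 := hM.start _ _ (hγ 0 (by omega))
    have hγN : γ N = 0 := by
      have h1 := hγ (N - 1) (by omega)
      have h2 := hM.stop _ _ _ h1 (by omega)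
      rwa [Nat.sub_add_cancel hN] at h2
    let γ' : ℕ → G := fun i => if M + 1 ≤ i ∧ i ≤ M + 1 + N then γ (i - (M + 1)) else 0
    have hg1 : ∀ j ≤ N, γ' (j + (M + 1)) = γ j := by
      intro j hj
      simp only [γ']
      rw [if_pos ⟨by omega, by omega⟩]
      congr 1
      omega
    have hg2 : ∀ i ≤ M + 1, γ' i = 0 := by
      intro i hi
      simp only [γ']
      split_ifs with h
      · have : i - (M + 1) = 0 := by omega
        rw [this, hγ0]
      · rfl
    have hg3 : ∀ i, M + 1 + N ≤ i → γ' i = 0 := by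
      intro i hi
      simp only [γ']
      split_ifs with h
      · have : i - (M + 1) = N := by omega
        rw [this, hγN]
      · rfl
    have hpath : ∀ i, i < L → (i, γ' i, γ' (i + 1)) ∈ Ed' := by
      intro i hi
      by_cases h1 : i < M + 1
      · rw [hg2 i h1.le, hg2 (i + 1) h1]
        exact Or.inr ⟨i, hi, rfl⟩
      · by_cases h2 : M + 1 + N ≤ i
        · rw [hg3 i h2, hg3 (i + 1) (by omega)]
          exact Or.inr ⟨i, hi, rfl⟩
        · left
          obtain ⟨j, rfl⟩ : ∃ j, i = j + (M + 1) := ⟨i - (M + 1), by omega⟩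
          have h3 : j + (M + 1) + 1 = (j + 1) + (M + 1) := by ring
          rw [h3, hg1 j (by omega), hg1 (j + 1) (by omega)]
          exact ⟨j, _, _, hγ j (by omega), rfl⟩
    let Q : ℕ → PT G := fun i => a + lam • U (pt (i : ℝ) (γ' i))
    let u : ℕ → F := fun i => lam⁻¹ • (f (Q (i + 1)) - f (Q i))
    have hQ0 : Q 0 = a := by
      have h3 : pt ((0 : ℕ) : ℝ) (γ' 0) = 0 := by rw [hg2 0 (by omega)]; simp; rfl
      simp only [Q]
      rw [h3, map_zero, smul_zero, add_zero]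
    have hQL : Q L = b := by
      simp only [Q]
      rw [hg3 L hML, hb]
    have hsumu : ∑ i ∈ Finset.range L, u i = (L : ℝ) • V := by
      simp only [u]
      rw [← Finset.smul_sum, Finset.sum_range_sub (fun i => f (Q i)), hQ0, hQL, hV,
        smul_smul, mul_inv_cancel₀ hLpos.ne', one_smul]
    have hdev := nam_sum_dev L u V hsumu
    have hui : ∀ i ∈ Finset.range L, ‖u i‖ ^ 2 ≤ (S + δ) * (1 + ‖γ' (i + 1) - γ' i‖ ^ 2) := by
      intro i hi
      have h1 := hE i _ _ (hpath i (Finset.mem_range.1 hi))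
      rw [rat, nam_dist_sq hlam, div_le_iff₀] at h1
      swap
      · have := sq_nonneg ‖γ' i - γ' (i + 1)‖
        have h4 : 0 < ((i : ℝ) - (i + 1)) ^ 2 := by norm_num
        positivity
      have h2 : ‖u i‖ ^ 2 = dist (f (Q i)) (f (Q (i + 1))) ^ 2 / lam ^ 2 := by
        simp only [u]
        rw [norm_smul, norm_inv, Real.norm_of_nonneg hlam.le, dist_comm, dist_eq_norm]
        field_simp
      rw [h2, div_le_iff₀ (by positivity)]
      have h3 : Q (i + 1) = a + lam • U (pt ((i : ℝ) + 1) (γ' (i + 1))) := by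
        simp only [Q]; push_cast; rfl
      rw [h3]
      refine h1.trans (le_of_eq ?_)
      rw [norm_sub_rev (γ' i)]
      ring
    have hsum := Finset.sum_le_sum hui
    rw [← Finset.mul_sum, Finset.sum_add_distrib] at hsum
    simp only [Finset.sum_const, Finset.card_range, nsmul_eq_mul, mul_one] at hsum
    have hKE : ∑ i ∈ Finset.range L, ‖γ' (i + 1) - γ' i‖ ^ 2 = KE γ 0 N := by
      rw [KE]
      have h1 : ∑ i ∈ Finset.Ico (M + 1) (M + 1 + N), ‖γ' (i + 1) - γ' i‖ ^ 2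
          = ∑ i ∈ Finset.range L, ‖γ' (i + 1) - γ' i‖ ^ 2 := by
        apply Finset.sum_subset
        · intro i hi
          rw [Finset.mem_Ico] at hi
          rw [Finset.mem_range]
          omega
        · intro i _ hi
          rw [Finset.mem_Ico] at hi
          by_cases h : i < M + 1
          · rw [hg2 i h.le, hg2 (i + 1) h]; simp
          · rw [hg3 i (by omega), hg3 (i + 1) (by omega)]; simp
      rw [← h1]
      have h2 := Finset.sum_Ico_add' (fun i => ‖γ' (i + 1) - γ' i‖ ^ 2) 0 N (M + 1)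
      rw [zero_add, add_comm N] at h2
      rw [← h2]
      apply Finset.sum_congr rfl
      intro j hj
      rw [Finset.mem_Ico] at hj
      have h3 : j + (M + 1) + 1 = (j + 1) + (M + 1) := by ring
      rw [h3, hg1 j (by omega), hg1 (j + 1) (by omega)]
    rw [hKE] at hsum
    have hdevle : dev f' V γ 0 N ≤ ∑ i ∈ Finset.range L, ‖u i - V‖ ^ 2 := by
      have h1 : ∑ i ∈ Finset.Ico (M + 1) (M + 1 + N), ‖u i - V‖ ^ 2
          ≤ ∑ i ∈ Finset.range L, ‖u i - V‖ ^ 2 := by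
        apply Finset.sum_le_sum_of_subset_of_nonneg
        · intro i hi
          rw [Finset.mem_Ico] at hi
          rw [Finset.mem_range]
          omega
        · intro i _ _
          positivity
      refine le_trans (le_of_eq ?_) h1
      rw [dev]
      have h2 := Finset.sum_Ico_add' (fun i => ‖u i - V‖ ^ 2) 0 N (M + 1)
      rw [zero_add, add_comm N] at h2
      rw [← h2]
      apply Finset.sum_congr rfl
      intro j hj
      rw [Finset.mem_Ico] at hj
      congr 2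
      simp only [u, Q, f']
      have h3 : j + (M + 1) + 1 = (j + 1) + (M + 1) := by ring
      rw [h3, hg1 j (by omega), hg1 (j + 1) (by omega), smul_sub, nam_pt_add, nam_pt_add]
      push_cast
      simp
    have hKE0 : 0 ≤ KE γ 0 N := by unfold KE; positivity
    have h1 : dev f' V γ 0 N ≤ L * δ + (S + δ) * KE γ 0 N := by
      rw [hdev, hVS] at hdevle
      nlinarith
    have h2 : (L : ℝ) * δ ≤ ε := by rw [hL]; push_cast; exact hδ2
    have h3 : (S + δ) * KE γ 0 N ≤ (D + 1) ^ 2 * KE γ 0 N := by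
      apply mul_le_mul_of_nonneg_right _ hKE0
      nlinarith
    linarith

end Crest.LP
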