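import Crest.Agent.LPCore2
/-! rid 254 (S0392): module NAPRE. -/
set_option autoImplicit false
open Set Filter Topology

namespace Crest.LP

section
variable {G : Type*} [NormedAddCommGroup G] [InnerProductSpace ℝ G]
variable {F : Type*} [NormedAddCommGroup F] [InnerProductSpace ℝ F]

lemma napre_dist_pt (s t : ℝ) (z w : G) :
    dist (pt s z) (pt t w) ^ 2 = (s - t) ^ 2 + ‖z - w‖ ^ 2 := by
  rw [dist_eq_norm, WithLp.prod_norm_sq_eq_of_L2]
  simp [pt]

lemma napre_dist_place (a : PT G) (lam : ℝ) (hl : 0 < lam) (U : PT G ≃ₗᵢ[ℝ] PT G) (p q : PT G) :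
    dist (a + lam • U p) (a + lam • U q) = lam * dist p q := by
  rw [dist_add_left, dist_smul₀, U.dist_map, Real.norm_of_nonneg hl.le]

/-- variance identity -/
lemma napre_var (N : ℕ) (g : ℕ → F) (V : F) (hV : g N - g 0 = (N : ℝ) • V) :
    ∑ j ∈ Finset.Ico 0 N, ‖g (j + 1) - g j - V‖ ^ 2
      = ∑ j ∈ Finset.Ico 0 N, ‖g (j + 1) - g j‖ ^ 2 - N * ‖V‖ ^ 2 := by
  have h1 : ∀ j ∈ Finset.Ico 0 N, ‖g (j + 1) - g j - V‖ ^ 2
      = ‖g (j + 1) - g j‖ ^ 2 - 2 * inner ℝ (g (j + 1) - g j) V + ‖V‖ ^ 2 := by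
    intro j _
    rw [norm_sub_sq_real]
  rw [Finset.sum_congr rfl h1, Finset.sum_add_distrib, Finset.sum_sub_distrib, ← Finset.mul_sum,
    ← sum_inner]
  have h2 : ∑ j ∈ Finset.Ico 0 N, (g (j + 1) - g j) = (N : ℝ) • V := by
    rw [← hV, Finset.sum_Ico_eq_sum_range]
    simp only [Nat.sub_zero, Nat.zero_add, zero_add]
    exact Finset.sum_range_sub g N
  rw [h2, inner_smul_left, real_inner_self_eq_norm_sq]
  simp
  ring

/-- the estimate for complete paths -/
theorem napre_full (hC : CELLS) (hV : VST) {G F : Type} [NormedAddCommGroup G]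
    [InnerProductSpace ℝ G] [NormedAddCommGroup F] [InnerProductSpace ℝ F] (D : ℝ)
    (A : Set (PT G) → (PT G → F) → Prop) (hD : 1 ≤ D) (hA : Online ((Psi 5) ^ 2) D A)
    (τ : ℝ) (N : ℕ) (M : Set (PT G)) (a b : PT G) (lam : ℝ) (U : PT G ≃ₗᵢ[ℝ] PT G)
    (Ed : Edges G) (φ : PT G → F) (η : ℝ) (hL : Laid D A τ N M a b lam U Ed φ η)
    (γ : ℕ → G) (hγ : IsPath Ed N γ) (h0 : γ 0 = 0) (hN0 : γ N = 0) :
    dev (fun p => (1 / lam) • φ (a + lam • U p)) ((1 / (N * lam)) • (φ b - φ a)) γ 0 N ≤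
      η + D ^ 2 * KE γ 0 N := by
  obtain ⟨hη, hcell, hhon, hlam, hpl, halive, hnear⟩ := hL
  have hτ := hhon.τpos
  have hτ' := hhon.τle
  have hN : (100 : ℝ) ≤ N := by exact_mod_cast hhon.hN
  have hNpos : (0 : ℝ) < N := by linarith
  obtain ⟨⟨hv1, hvD⟩, hv2, -⟩ := hV G F D A hD hA τ hτ hτ'
  set v := vst A τ with hv
  set g : ℕ → F := fun j => (1 / lam) • φ (a + lam • U (pt (j : ℝ) (γ j))) with hg
  have hg0 : g 0 = (1 / lam) • φ a := by
    simp only [hg, h0, Nat.cast_zero]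
    congr 2
    have : (pt (0 : ℝ) (0 : G)) = 0 := rfl
    rw [this, map_zero, smul_zero, add_zero]
  have hgN : g N = (1 / lam) • φ b := by
    simp only [hg, hN0, hpl]
  set V : F := (1 / (N * lam)) • (φ b - φ a) with hVdef
  have hVN : g N - g 0 = (N : ℝ) • V := by
    rw [hg0, hgN, hVdef, ← smul_sub, smul_smul]
    congr 1
    field_simp
  have hdev : dev (fun p => (1 / lam) • φ (a + lam • U p)) V γ 0 N
      = ∑ j ∈ Finset.Ico 0 N, ‖g (j + 1) - g j - V‖ ^ 2 := by
    unfold dev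
    apply Finset.sum_congr rfl
    intro j _
    simp only [hg]
    push_cast
    rfl
  rw [hdev, napre_var N g V hVN]
  -- edges
  have hedge : ∀ j ∈ Finset.Ico 0 N, ‖g (j + 1) - g j‖ ^ 2 ≤
      v ^ 2 * (1 + ‖γ (j + 1) - γ j‖ ^ 2) := by
    intro j hj
    rw [Finset.mem_Ico] at hj
    have he : (j, γ j, γ (j + 1)) ∈ Ed := hγ j hj.2
    have hm1 : pt (j : ℝ) (γ j) ∈ VPt Ed := ⟨(j, γ j), Or.inl ⟨γ (j + 1), he⟩, rfl⟩
    have hm2 : pt ((j : ℝ) + 1) (γ (j + 1)) ∈ VPt Ed :=
      ⟨(j + 1, γ (j + 1)), Or.inr ⟨j, γ j, rfl, he⟩, by simp⟩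
    have hc := ((hC G 5 τ hτ hτ').2 M a b lam U N Ed (VPt Ed) hcell hhon hlam hpl
      (subset_refl _)).2 (j, γ j, γ (j + 1)) he hm1 hm2
    have hd := hv2 _ _ _ φ hc halive
    rw [napre_dist_place a lam hlam] at hd
    have hgd : ‖g (j + 1) - g j‖ = (1 / lam) *
        dist (φ (a + lam • U (pt (j : ℝ) (γ j)))) (φ (a + lam • U (pt ((j : ℝ) + 1) (γ (j + 1))))) := by
      simp only [hg]
      push_cast
      rw [← smul_sub, norm_smul, Real.norm_of_nonneg (by positivity), ← dist_eq_norm, dist_comm]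
    have hgd' : ‖g (j + 1) - g j‖ ≤ v * dist (pt (j : ℝ) (γ j)) (pt ((j : ℝ) + 1) (γ (j + 1))) := by
      rw [hgd]
      calc (1 / lam) * _ ≤ (1 / lam) * (v * (lam *
            dist (pt (j : ℝ) (γ j)) (pt ((j : ℝ) + 1) (γ (j + 1))))) :=
            mul_le_mul_of_nonneg_left hd (by positivity)
        _ = _ := by field_simp
    calc ‖g (j + 1) - g j‖ ^ 2 ≤
          (v * dist (pt (j : ℝ) (γ j)) (pt ((j : ℝ) + 1) (γ (j + 1)))) ^ 2 :=
            pow_le_pow_left₀ (norm_nonneg _) hgd' 2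
      _ = v ^ 2 * (1 + ‖γ (j + 1) - γ j‖ ^ 2) := by
          rw [mul_pow, napre_dist_pt, norm_sub_rev (γ j)]
          ring
  have hsum : ∑ j ∈ Finset.Ico 0 N, ‖g (j + 1) - g j‖ ^ 2 ≤ v ^ 2 * (N + KE γ 0 N) := by
    calc ∑ j ∈ Finset.Ico 0 N, ‖g (j + 1) - g j‖ ^ 2
        ≤ ∑ j ∈ Finset.Ico 0 N, v ^ 2 * (1 + ‖γ (j + 1) - γ j‖ ^ 2) := Finset.sum_le_sum hedge
      _ = v ^ 2 * (N + KE γ 0 N) := by
          rw [← Finset.mul_sum, Finset.sum_add_distrib]
          simp [KE]
  -- the speed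
  have hab : dist a b = lam * N := by
    have h1 : dist a b = dist (a + lam • U (pt 0 (0 : G))) (a + lam • U (pt (N : ℝ) (0 : G))) := by
      rw [hpl]
      congr 1
      have : (pt (0 : ℝ) (0 : G)) = 0 := rfl
      rw [this, map_zero, smul_zero, add_zero]
    rw [h1, napre_dist_place a lam hlam]
    congr 1
    have h2 : dist (pt 0 (0 : G)) (pt (N : ℝ) (0 : G)) ^ 2 = (N : ℝ) ^ 2 := by
      rw [napre_dist_pt]; simp
    exact (pow_left_inj₀ dist_nonneg hNpos.le two_ne_zero).1 h2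
  have hVn : ‖V‖ = dist (φ a) (φ b) / (N * lam) := by
    rw [hVdef, norm_smul, Real.norm_of_nonneg (by positivity), dist_eq_norm, norm_sub_rev]
    ring
  have hDpos : 0 < D := by linarith
  have hVge : v - η / (4 * D * N) ≤ ‖V‖ := by
    rw [hVn, le_div_iff₀ (by positivity)]
    rw [hab] at hnear
    calc (v - η / (4 * D * N)) * (N * lam) = (v - η / (4 * D * N)) * (lam * N) := by ring
      _ ≤ _ := hnear
  have hV2 : v ^ 2 - η / (2 * N) ≤ ‖V‖ ^ 2 := by
    have hvpos : 0 < v := by linarith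
    have hq : 0 < η / (4 * D * N) := by positivity
    have hq2 : v * (η / (4 * D * N)) ≤ η / (4 * N) := by
      rw [mul_div_assoc', div_le_div_iff₀ (by positivity) (by positivity)]
      have : v * η ≤ D * η := mul_le_mul_of_nonneg_right hvD hη.le
      nlinarith [mul_pos hη hNpos]
    have hq3 : η / (2 * N) = 2 * (η / (4 * N)) := by
      field_simp
      ring
    rcases le_or_gt 0 (v - η / (4 * D * N)) with h | h
    · have := pow_le_pow_left₀ h hVge 2
      nlinarith
    · have h4 : v ^ 2 ≤ v * (η / (4 * D * N)) := by nlinarith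
      have h5 : 0 < η / (4 * N) := by positivity
      nlinarith [sq_nonneg ‖V‖]
  have hKE : 0 ≤ KE γ 0 N := by
    unfold KE
    positivity
  have hNV : N * v ^ 2 - η / 2 ≤ N * ‖V‖ ^ 2 := by
    have := mul_le_mul_of_nonneg_left hV2 hNpos.le
    have h6 : (N : ℝ) * (v ^ 2 - η / (2 * N)) = N * v ^ 2 - η / 2 := by
      field_simp
    linarith
  have hvD2 : v ^ 2 ≤ D ^ 2 := pow_le_pow_left₀ (by linarith) hvD 2
  have := mul_le_mul_of_nonneg_right hvD2 hKE
  nlinarith


lemma napre_dev_mono (f : PT G → F) (V : F) (γ : ℕ → G) (t N : ℕ) (h : t ≤ N) :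
    dev f V γ 0 t ≤ dev f V γ 0 N := by
  unfold dev
  apply Finset.sum_le_sum_of_subset_of_nonneg
  · exact Finset.Ico_subset_Ico le_rfl h
  · intro i _ _
    positivity

/-- transfer to a longer script -/
theorem napre_transfer (hC : CELLS) (hV : VST) {G F : Type} [NormedAddCommGroup G]
    [InnerProductSpace ℝ G] [NormedAddCommGroup F] [InnerProductSpace ℝ F] (D : ℝ)
    (A : Set (PT G) → (PT G → F) → Prop) (hD : 1 ≤ D) (hA : Online ((Psi 5) ^ 2) D A)
    (τ : ℝ) (N : ℕ) (M : Set (PT G)) (a b : PT G) (lam : ℝ) (U : PT G ≃ₗᵢ[ℝ] PT G)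
    (Ed Ed' : Edges G) (φ φ' : PT G → F) (η : ℝ) (hcell : Cell 5 τ M a b)
    (hL : Laid D A τ N M a b lam U Ed' φ' η) (hEq : EqOn φ' φ (M ∪ PV a lam U Ed))
    (t : ℕ) (γ γ' : ℕ → G) (hγ : IsPath Ed t γ) (htN : t ≤ N)
    (hγ' : IsPath Ed' N γ') (hag : ∀ j, j ≤ t → γ' j = γ j) (h0 : γ' 0 = 0) (hN0 : γ' N = 0) :
    dev (fun p => (1 / lam) • φ (a + lam • U p)) ((1 / (N * lam)) • (φ b - φ a)) γ 0 t ≤
      η + D ^ 2 * KE γ' 0 N := by
  have h1 := napre_full hC hV D A hD hA τ N M a b lam U Ed' φ' η hL γ' hγ' h0 hN0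
  have h2 := napre_dev_mono (fun p => (1 / lam) • φ' (a + lam • U p))
    ((1 / (N * lam)) • (φ' b - φ' a)) γ' t N htN
  refine le_trans (le_of_eq ?_) (h2.trans h1)
  have ea : φ' a = φ a := hEq (Or.inl hcell.1)
  have eb : φ' b = φ b := hEq (Or.inl hcell.2.1)
  unfold dev
  rw [ea, eb]
  apply Finset.sum_congr rfl
  intro j hj
  rw [Finset.mem_Ico] at hj
  have he : (j, γ j, γ (j + 1)) ∈ Ed := hγ j hj.2
  have hm1 : pt (j : ℝ) (γ j) ∈ VPt Ed := ⟨(j, γ j), Or.inl ⟨γ (j + 1), he⟩, rfl⟩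
  have hm2 : pt ((j : ℝ) + 1) (γ (j + 1)) ∈ VPt Ed :=
    ⟨(j + 1, γ (j + 1)), Or.inr ⟨j, γ j, rfl, he⟩, by simp⟩
  have e1 : φ' (a + lam • U (pt (j : ℝ) (γ j))) = φ (a + lam • U (pt (j : ℝ) (γ j))) :=
    hEq (Or.inr ⟨_, hm1, rfl⟩)
  have e2 : φ' (a + lam • U (pt ((j : ℝ) + 1) (γ (j + 1))))
      = φ (a + lam • U (pt ((j : ℝ) + 1) (γ (j + 1)))) := hEq (Or.inr ⟨_, hm2, rfl⟩)
  simp only
  rw [hag j hj.2.le, hag (j + 1) hj.2, e1, e2]

theorem napre_of (hC : CELLS) (hLS : LAYSCR) (hAp : APPEND) (hB : BLOCKS) (hV : VST) : NAPRE := by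
  intro G F _ _ _ _ D A hD hA τ N M a b lam U Ed φ η hL t ρ γ hγ hmain ht1 ht2 hρ hx hx2
  have hcell := hL.cell
  have hhon := hL.hon
  have hN := hhon.hN
  have htpos : 1 ≤ t := by omega
  have htN : t ≤ N := by omega
  have hγ0 : γ 0 = 0 := by
    have := hγ 0 (by omega)
    exact (hhon.quiet 0 _ _ this (Or.inl (by omega))).1
  by_cases hx0 : γ t = 0
  · -- no return needed
    have hEq : EqOn φ φ (M ∪ PV a lam U Ed) := fun _ _ => rfl
    set γ' : ℕ → G := fun j => if j ≤ t then γ j else 0 with hγ'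
    have hag : ∀ j, j ≤ t → γ' j = γ j := fun j hj => by simp [hγ', hj]
    have hlate : ∀ j, t ≤ j → γ' j = 0 := by
      intro j hj
      rcases eq_or_lt_of_le hj with rfl | hj'
      · rw [hag _ le_rfl, hx0]
      · simp [hγ', not_le.2 hj']
    have hp : IsPath Ed N γ' := by
      intro j hj
      rcases lt_or_ge j t with h | h
      · rw [hag j h.le, hag (j + 1) h]
        exact hγ j h
      · rw [hlate j h, hlate (j + 1) (by omega)]
        exact hhon.main j hj
    have h1 := napre_transfer hC hV D A hD hA τ N M a b lam U Ed Ed φ φ η hcell hL hEq t γ γ' hγ htN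
      hp hag (by rw [hag 0 (by omega), hγ0]) (hlate N htN)
    have hKE : KE γ' 0 N = KE γ 0 t := by
      unfold KE
      rw [← Finset.sum_Ico_consecutive _ (Nat.zero_le t) htN]
      have e1 : ∑ i ∈ Finset.Ico 0 t, ‖γ' (i + 1) - γ' i‖ ^ 2
          = ∑ i ∈ Finset.Ico 0 t, ‖γ (i + 1) - γ i‖ ^ 2 := by
        apply Finset.sum_congr rfl
        intro j hj
        rw [Finset.mem_Ico] at hj
        rw [hag j hj.2.le, hag (j + 1) hj.2]
      have e2 : ∑ i ∈ Finset.Ico t N, ‖γ' (i + 1) - γ' i‖ ^ 2 = 0 := by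
        apply Finset.sum_eq_zero
        intro j hj
        rw [Finset.mem_Ico] at hj
        rw [hlate j hj.1, hlate (j + 1) (by omega)]
        simp
      rw [e1, e2, add_zero]
    rw [hKE] at h1
    rw [hx0]
    simpa using h1
  · have hx3 : τ ≤ ‖γ t‖ / ρ := hx2.resolve_left hx0
    set x := γ t with hxdef
    obtain ⟨-, hBl, -⟩ := hB G τ ρ hhon.τpos hρ
    have hblk := hBl x hx0 hx hx3
    have htv : (t, x) ∈ Verts Ed := by
      right
      obtain ⟨s, rfl⟩ : ∃ s, t = s + 1 := ⟨t - 1, by omega⟩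
      exact ⟨s, γ s, rfl, hγ s (by omega)⟩
    have hthin := hhon.thin _ htv
    have hρR : (0 : ℝ) < ρ := by exact_mod_cast hρ
    have hccpos : 0 ≤ cc * τ * N := le_trans (norm_nonneg _) hthin
    have hseg : ∀ s : ℝ, 0 ≤ s → s ≤ 1 → ‖x + s • (0 - x)‖ ≤ cc * τ * N := by
      intro s hs0 hs1
      have : x + s • (0 - x) = (1 - s) • x := by
        rw [zero_sub, smul_neg, sub_smul, one_smul]; abel
      rw [this, norm_smul, Real.norm_of_nonneg (by linarith)]
      calc (1 - s) * ‖x‖ ≤ 1 * ‖x‖ := mul_le_mul_of_nonneg_right (by linarith) (norm_nonneg _)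
        _ ≤ _ := by rw [one_mul]; exact hthin
    have hon' : Honest 5 τ N (Ed ∪ shiftE t (deathE {0} 0 x ρ)) := by
      apply hAp G 5 τ N ρ t Ed _ hhon hblk hmain _ ht1 ht2 _
      · rintro z w (⟨j, y, hj, hy, he⟩ | ⟨j, hj, he⟩)
        · simp only [Prod.mk.injEq] at he
          obtain ⟨rfl, rfl, rfl⟩ := he
          rw [Set.mem_singleton_iff] at hy
          rw [hy]
          left
          exact ⟨0, hhon.main t (by omega)⟩
        · simp only [Prod.mk.injEq] at he
          obtain ⟨h1, h2, h3⟩ := he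
          rw [h2, ← h1]
          simpa using htv
      · rintro j z w (⟨i, y, hi, hy, he⟩ | ⟨i, hi, he⟩)
        · simp only [Prod.mk.injEq] at he
          obtain ⟨rfl, rfl, rfl⟩ := he
          rw [Set.mem_singleton_iff] at hy
          rw [hy]
          simpa using hccpos
        · simp only [Prod.mk.injEq] at he
          obtain ⟨rfl, rfl, rfl⟩ := he
          have hi' : ((j : ℝ) + 1) ≤ ρ := by exact_mod_cast hi
          constructor
          · exact hseg _ (by positivity) (by rw [div_le_one hρR]; linarith)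
          · exact hseg _ (by positivity) (by rw [div_le_one hρR]; linarith)
    obtain ⟨φ', hL', hEq⟩ := hLS G F D A hD hA τ N M a b lam U Ed _ φ η hL hon'
      Set.subset_union_left
    set γ' : ℕ → G := fun j => if j ≤ t then γ j else if j ≤ t + ρ then
      x + (((j - t : ℕ) : ℝ) / ρ) • (0 - x) else 0 with hγ'
    have hag : ∀ j, j ≤ t → γ' j = γ j := fun j hj => by simp [hγ', hj]
    have hmid : ∀ i, i ≤ ρ → γ' (t + i) = x + ((i : ℝ) / ρ) • (0 - x) := by
      intro i hi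
      rcases Nat.eq_zero_or_pos i with rfl | hi0
      · rw [Nat.add_zero, hag t le_rfl]
        simp [hxdef]
      · simp only [hγ']
        rw [if_neg (by omega), if_pos (by omega)]
        congr 4
        omega
    have hlate : ∀ j, t + ρ ≤ j → γ' j = 0 := by
      intro j hj
      rcases eq_or_lt_of_le hj with rfl | hj'
      · rw [hmid ρ le_rfl, div_self hρR.ne']
        simp
      · simp only [hγ']
        rw [if_neg (by omega), if_neg (by omega)]
    have hp : IsPath (Ed ∪ shiftE t (deathE {0} 0 x ρ)) N γ' := by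
      intro j hj
      rcases lt_or_ge j t with h | h
      · left
        rw [hag j h.le, hag (j + 1) h]
        exact hγ j h
      · obtain ⟨i, rfl⟩ := Nat.exists_eq_add_of_le h
        rcases lt_or_ge i ρ with h' | h'
        · right
          refine ⟨i, γ' (t + i), γ' (t + i + 1), ?_, by rw [Nat.add_comm]⟩
          right
          refine ⟨i, h', ?_⟩
          rw [hmid i h'.le, Nat.add_assoc, hmid (i + 1) h']
          push_cast
          rfl
        · left
          rw [hlate (t + i) (by omega), hlate (t + i + 1) (by omega)]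
          exact hhon.main _ hj
    have h1 := napre_transfer hC hV D A hD hA τ N M a b lam U Ed _ φ φ' η hcell hL' hEq t γ γ' hγ htN
      hp hag (by rw [hag 0 (by omega), hγ0]) (hlate N (by omega))
    have hKE : KE γ' 0 N = KE γ 0 t + ‖x‖ ^ 2 / ρ := by
      unfold KE
      rw [← Finset.sum_Ico_consecutive _ (Nat.zero_le t) htN,
        ← Finset.sum_Ico_consecutive _ (Nat.le_add_right t ρ) (by omega : t + ρ ≤ N)]
      have e1 : ∑ i ∈ Finset.Ico 0 t, ‖γ' (i + 1) - γ' i‖ ^ 2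
          = ∑ i ∈ Finset.Ico 0 t, ‖γ (i + 1) - γ i‖ ^ 2 := by
        apply Finset.sum_congr rfl
        intro j hj
        rw [Finset.mem_Ico] at hj
        rw [hag j hj.2.le, hag (j + 1) hj.2]
      have e2 : ∑ i ∈ Finset.Ico (t + ρ) N, ‖γ' (i + 1) - γ' i‖ ^ 2 = 0 := by
        apply Finset.sum_eq_zero
        intro j hj
        rw [Finset.mem_Ico] at hj
        rw [hlate j hj.1, hlate (j + 1) (by omega)]
        simp
      have e3 : ∑ i ∈ Finset.Ico t (t + ρ), ‖γ' (i + 1) - γ' i‖ ^ 2 = ‖x‖ ^ 2 / ρ := by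
        rw [Finset.sum_Ico_eq_sum_range]
        have : ∀ i ∈ Finset.range (t + ρ - t), ‖γ' (t + i + 1) - γ' (t + i)‖ ^ 2
            = ‖x‖ ^ 2 / ρ ^ 2 := by
          intro i hi
          rw [Finset.mem_range] at hi
          have hi' : i < ρ := by omega
          rw [hmid i hi'.le, Nat.add_assoc, hmid (i + 1) hi']
          have : x + (((i + 1 : ℕ) : ℝ) / ρ) • (0 - x) - (x + ((i : ℝ) / ρ) • (0 - x))
              = (-(1 / (ρ : ℝ))) • x := by
            rw [add_sub_add_left_eq_sub, ← sub_smul, zero_sub, smul_neg, ← neg_smul]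
            congr 1
            push_cast
            field_simp
            ring
          rw [this, norm_smul, mul_pow, norm_neg, Real.norm_of_nonneg (by positivity)]
          field_simp
        rw [Finset.sum_congr rfl this, Finset.sum_const, Finset.card_range, Nat.add_sub_cancel_left,
          nsmul_eq_mul]
        field_simp
      rw [e1, e2, e3, add_zero]
    rw [hKE] at h1
    exact h1

end

end Crest.LP
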