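import Crest.Agent.LPCore

/-! rid 254 (S0392): module NESTSIM. -/
set_option autoImplicit false
open Set Filter Topology

namespace Crest.LP

theorem nestsim : NESTSIM := by
  intro G _ _ K τ a b X c mu V hmu h
  have key : ∀ (a q : PT G) (lam : ℝ) (U : PT G ≃ₗᵢ[ℝ] PT G),
      c + mu • V (a + lam • U q) = (c + mu • V a) + (mu * lam) • (U.trans V) q := by
    intro a q lam U
    rw [map_add, map_smul, smul_add, smul_smul, add_assoc]
    rfl
  induction h with
  | base a b hab =>
    rw [Set.image_pair]
    refine Nest.base _ _ ?_
    intro h
    apply hab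
    have h1 := add_left_cancel h
    have h2 := smul_right_injective (PT G) hmu.ne' h1
    exact V.injective h2
  | sub a b lam U N Ed X hlam hH hab hX ih =>
    rw [Set.image_iUnion₂]
    refine Nest.sub _ _ (mu * lam) (U.trans V) N Ed (fun e => (fun p => c + mu • V p) '' X e)
      (mul_pos hmu hlam) hH ?_ ?_
    · rw [← key, hab]
    · intro e he
      have h1 := ih e he
      rw [key, key] at h1
      exact h1

end Crest.LP
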