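import Crest.Agent.LPCore

set_option autoImplicit false

namespace Crest.LP

theorem H20.norm_sq_pt {G : Type*} [NormedAddCommGroup G] [InnerProductSpace ℝ G] (t : ℝ) (z : G) :
    ‖pt t z‖ ^ 2 = t ^ 2 + ‖z‖ ^ 2 := by
  have h : ‖pt t z‖ ^ 2 = ‖t‖ ^ 2 + ‖z‖ ^ 2 := WithLp.prod_norm_sq_eq_of_L2 (pt t z)
  rwa [Real.norm_eq_abs, sq_abs] at h

/-- placement of a script between `a` and `b` (reflection) -/
theorem place : PLACE := by
  intro G _ _ a b N hab hN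
  have hN0 : (0 : ℝ) < (N : ℝ) := by exact_mod_cast hN
  have hba : 0 < ‖b - a‖ := norm_pos_iff.mpr (sub_ne_zero.mpr (Ne.symm hab))
  have hv : ‖(pt (N : ℝ) (0 : G))‖ = N := by
    have h := H20.norm_sq_pt (N : ℝ) (0 : G)
    rw [norm_zero] at h
    have h2 : ‖pt (N : ℝ) (0 : G)‖ ^ 2 = (N : ℝ) ^ 2 := by rw [h]; ring
    exact (pow_left_inj₀ (norm_nonneg _) hN0.le two_ne_zero).mp h2
  set lam : ℝ := ‖b - a‖ / N with hlam
  have hlam0 : 0 < lam := div_pos hba hN0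
  set w : PT G := lam⁻¹ • (b - a) with hw
  have hwn : ‖w‖ = N := by
    rw [hw, norm_smul, norm_inv, Real.norm_eq_abs, abs_of_pos hlam0, hlam]
    field_simp
  refine ⟨lam, (ℝ ∙ (pt (N : ℝ) (0 : G) - w))ᗮ.reflection, hlam0, ?_⟩
  rw [Submodule.reflection_sub (hv.trans hwn.symm), hw, smul_smul, mul_inv_cancel₀ hlam0.ne', one_smul]
  abel

end Crest.LP
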