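import Crest.Agent.LP_RBIRTH

set_option autoImplicit false
open Set Filter Topology

namespace Crest.LP

section aux
variable {G F : Type} [NormedAddCommGroup G] [InnerProductSpace ℝ G]
    [NormedAddCommGroup F] [InnerProductSpace ℝ F]

lemma real0_pert {D : ℝ} {A : Set (PT G) → (PT G → F) → Prop} {th1 th : ℝ} {k : ℕ}
    {s s' : Fin k → G × F} (h : Real0 D A th1 k s) (h1 : 0 < th1) (h2 : th1 ≤ th / 2)
    (hs : ∀ i, (s' i).1 = (s i).1) (hs2 : ∀ i, ‖(s i).2 - (s' i).2‖ ≤ th / 2) :
    Real0 D A th k s' := by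
  obtain ⟨τ, N, M, a, b, lam, U, Ed, φ, η, t, hL, hτth, hηth, hthN, hNt, htN, hmain, hpath, w, hw⟩ := h
  have hle : th1 ≤ th := by linarith
  have hinv : 1 / th ≤ 1 / th1 := one_div_le_one_div_of_le h1 hle
  refine ⟨τ, N, M, a, b, lam, U, Ed, φ, η, t, hL, by linarith, by linarith, by linarith, hNt, ?_,
    hmain, ?_, w, ?_⟩
  · have e1 : 3 / th = 3 * (1 / th) := by ring
    have e2 : 3 / th1 = 3 * (1 / th1) := by ring
    rw [e2] at htN
    rw [e1]
    linarith
  · intro i
    obtain ⟨γ, g1, g2, g3⟩ := hpath i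
    exact ⟨γ, g1, by rw [g2, hs i], by linarith⟩
  · intro i
    rw [hs i]
    have : (1 / lam) • φ (a + lam • U (pt (t : ℝ) (s i).1)) - w - (s' i).2 =
        ((1 / lam) • φ (a + lam • U (pt (t : ℝ) (s i).1)) - w - (s i).2) + ((s i).2 - (s' i).2) := by
      abel
    rw [this]
    have := norm_add_le ((1 / lam) • φ (a + lam • U (pt (t : ℝ) (s i).1)) - w - (s i).2)
      ((s i).2 - (s' i).2)
    have h3 := hw i
    have h4 := hs2 i
    linarith

lemma real0_dist {D : ℝ} {A : Set (PT G) → (PT G → F) → Prop} (hA : Online ((Psi 5) ^ 2) D A)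
    {th : ℝ} {k : ℕ} {s : Fin k → G × F} (h : Real0 D A th k s) (i j : Fin k) :
    dist (s i).1 (s j).1 ≤ dist (s i).2 (s j).2 + 2 * th ∧
    dist (s i).2 (s j).2 ≤ D * dist (s i).1 (s j).1 + 2 * th := by
  obtain ⟨τ, N, M, a, b, lam, U, Ed, φ, η, t, hL, hτth, hηth, hthN, hNt, htN, hmain, hpath, w, hw⟩ := h
  have ht1 : 1 ≤ t := by omega
  have hvert : ∀ i, (t, (s i).1) ∈ Verts Ed := by
    intro i
    right
    obtain ⟨γ, hγ, hγt, _⟩ := hpath i
    refine ⟨t - 1, γ (t - 1), by simp; omega, ?_⟩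
    have := hγ (t - 1) (by omega)
    rw [Nat.sub_add_cancel ht1, hγt] at this
    simpa using this
  have hmem : ∀ i, a + lam • U (pt (t : ℝ) (s i).1) ∈ M ∪ PV a lam U Ed := fun i =>
    Or.inr ⟨pt (t : ℝ) (s i).1, ⟨(t, (s i).1), hvert i, rfl⟩, rfl⟩
  have hd := hA.dbl _ _ hL.alive _ (hmem i) _ (hmem j)
  have hdist : dist (a + lam • U (pt (t : ℝ) (s i).1)) (a + lam • U (pt (t : ℝ) (s j).1)) =
      lam * dist (s i).1 (s j).1 := by
    rw [dist_add_left, dist_eq_norm, ← smul_sub, ← map_sub, norm_smul, LinearIsometryEquiv.norm_map,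
      Real.norm_eq_abs, abs_of_pos hL.lampos]
    congr 1
    rw [dist_eq_norm]
    have : pt (t : ℝ) (s i).1 - pt (t : ℝ) (s j).1 = pt 0 ((s i).1 - (s j).1) := by
      unfold pt
      rw [← WithLp.toLp_sub]
      simp
    rw [this]
    unfold pt
    rw [WithLp.prod_norm_eq_of_L2]
    simp
  rw [hdist] at hd
  have hlam := hL.lampos
  set gi := (1 / lam) • φ (a + lam • U (pt (t : ℝ) (s i).1)) with hgi
  set gj := (1 / lam) • φ (a + lam • U (pt (t : ℝ) (s j).1)) with hgj
  have hg : ‖gi - gj‖ = (1 / lam) * dist (φ (a + lam • U (pt (t : ℝ) (s i).1)))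
      (φ (a + lam • U (pt (t : ℝ) (s j).1))) := by
    rw [hgi, hgj, ← smul_sub, norm_smul, Real.norm_eq_abs, abs_of_pos (by positivity), dist_eq_norm]
  have hl1 : dist (s i).1 (s j).1 ≤ ‖gi - gj‖ := by
    rw [hg, one_div, ← div_eq_inv_mul, le_div_iff₀ hlam]
    linarith [hd.1]
  have hl2 : ‖gi - gj‖ ≤ D * dist (s i).1 (s j).1 := by
    rw [hg, one_div, ← div_eq_inv_mul, div_le_iff₀ hlam]
    linarith [hd.2]
  have hwi := hw i
  have hwj := hw j
  rw [← hgi] at hwi
  rw [← hgj] at hwj
  have e1 : gi - gj = (gi - w - (s i).2) - (gj - w - (s j).2) + ((s i).2 - (s j).2) := by abel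
  have e2 : (s i).2 - (s j).2 = (gj - w - (s j).2) - (gi - w - (s i).2) + (gi - gj) := by abel
  rw [dist_eq_norm (s i).2]
  constructor
  · have n1 : ‖gi - gj‖ ≤ ‖(gi - w - (s i).2) - (gj - w - (s j).2)‖ + ‖(s i).2 - (s j).2‖ := by
      conv_lhs => rw [e1]
      exact norm_add_le _ _
    have n2 := norm_sub_le (gi - w - (s i).2) (gj - w - (s j).2)
    linarith
  · have n1 : ‖(s i).2 - (s j).2‖ ≤ ‖(gj - w - (s j).2) - (gi - w - (s i).2)‖ + ‖gi - gj‖ := by
      conv_lhs => rw [e2]
      exact norm_add_le _ _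
    have n2 := norm_sub_le (gj - w - (s j).2) (gi - w - (s i).2)
    linarith

lemma real0_zero {D : ℝ} {A : Set (PT G) → (PT G → F) → Prop}
    {th : ℝ} (hth : 0 < th) {k : ℕ} {s : Fin k → G × F} (h : Real0 D A th k s) :
    ∃ y : F, Real0 D A th (k + 1) (Fin.cons ((0 : G), y) s) := by
  obtain ⟨τ, N, M, a, b, lam, U, Ed, φ, η, t, hL, hτth, hηth, hthN, hNt, htN, hmain, hpath, w, hw⟩ := h
  have htN' : t < N := by
    have h3 : (0 : ℝ) < 3 / th := by positivity
    have : (3 * (t : ℝ)) < 2 * N := by linarith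
    have : 3 * t < 2 * N := by exact_mod_cast this
    omega
  refine ⟨(1 / lam) • φ (a + lam • U (pt (t : ℝ) 0)) - w, τ, N, M, a, b, lam, U, Ed, φ, η, t, hL,
    hτth, hηth, hthN, hNt, htN, hmain, ?_, w, ?_⟩
  · intro i
    refine Fin.cases ?_ (fun i => ?_) i
    · refine ⟨fun _ => 0, fun j hj => hL.hon.main j (by omega), by simp, ?_⟩
      unfold KE
      simp [hth.le]
    · simpa using hpath i
  · intro i
    refine Fin.cases ?_ (fun i => ?_) i
    · simp [hth.le]
    · simpa using hw i

end aux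

theorem rstep_of (hST : START) (hLS : LAYSCR) (hAP : APPEND) (hBL : BLOCKS) (hNA : NAPRE) :
    RSTEP := by
  intro G F _ _ _ _ _ _ D A hD hA
  have hrestr : ∀ (k j : ℕ) (g : Fin j → Fin k) (s : Fin k → G × F),
      s ∈ {s : Fin k → G × F | ∀ th : ℝ, 0 < th → Real0 D A th k s} →
      s ∘ g ∈ {s : Fin j → G × F | ∀ th : ℝ, 0 < th → Real0 D A th j s} := by
    intro k j g s hs th hth
    obtain ⟨τ, N, M, a, b, lam, U, Ed, φ, η, t, hL, hτth, hηth, hthN, hNt, htN, hmain, hpath, w, hw⟩ :=
      hs th hth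
    exact ⟨τ, N, M, a, b, lam, U, Ed, φ, η, t, hL, hτth, hηth, hthN, hNt, htN, hmain,
      fun i => hpath (g i), w, fun i => hw (g i)⟩
  refine ⟨fun k => {s | ∀ th : ℝ, 0 < th → Real0 D A th k s}, ?_, hrestr, ?_, ?_⟩
  · -- empty
    intro th hth
    have hτ : 0 < min th (1 / 100) := by positivity
    have hcc : (0 : ℝ) < cc := by unfold cc; norm_num
    obtain ⟨N, hN⟩ := exists_nat_ge (max (max 100 (3 + 3 / th)) (1 / th / (cc * min th (1 / 100))))
    have h1 : (100 : ℝ) ≤ N := ((le_max_left _ _).trans (le_max_left _ _)).trans hN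
    have h2 : 3 + 3 / th ≤ N := ((le_max_right _ _).trans (le_max_left _ _)).trans hN
    have h3 : 1 / th / (cc * min th (1 / 100)) ≤ N := (le_max_right _ _).trans hN
    rw [div_le_iff₀ (by positivity)] at h3
    have h1' : 100 ≤ N := by exact_mod_cast h1
    obtain ⟨M, a, b, lam, U, φ, hL⟩ := hST G F D A hD hA (min th (1 / 100)) th N hτ (min_le_right _ _)
      hth h1'
    have ht : 3 * (N / 3 + 1) ≤ N + 3 := by omega
    have ht' : (3 * ((N / 3 + 1 : ℕ) : ℝ)) ≤ N + 3 := by exact_mod_cast ht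
    refine ⟨min th (1 / 100), N, M, a, b, lam, U, mainE N, φ, th, N / 3 + 1, hL, min_le_left _ _,
      le_rfl, by linarith, by omega, ?_, ?_, fun i => i.elim0, 0, fun i => i.elim0⟩
    · linarith
    · rintro j z w ⟨j', hj', he⟩ _
      simp only [Prod.mk.injEq] at he
      exact ⟨he.2.1, he.2.2⟩
  · -- ext
    intro k s x hs hpk
    by_cases hx : x ∈ range fun i => (s i).1
    · obtain ⟨i, hi⟩ := hx
      refine ⟨(s i).2, ?_⟩
      have h := hrestr k (k + 1) (Fin.cons i id) s hs
      have he : s ∘ (Fin.cons i id : Fin (k + 1) → Fin k) = Fin.cons (x, (s i).2) s := by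
        funext j
        refine Fin.cases ?_ (fun j => ?_) j
        · simp only [Function.comp_apply, Fin.cons_zero]
          rw [← hi]
        · simp
      rw [he] at h
      exact h
    · -- candidates
      have hcand : ∀ th' : ℝ, 0 < th' → ∃ y : F, Real0 D A th' (k + 1) (Fin.cons (x, y) s) := by
        intro th' hth'
        by_cases hx0 : x = 0
        · subst hx0
          exact real0_zero hth' (hs th' hth')
        · obtain ⟨th, h1, _, h2⟩ := real_birth hLS hAP hBL hNA G F D A hD hA k s x hpk hx hx0 th' hth'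
          exact h2 (hs th h1)
      -- bounded candidates
      obtain ⟨y₀, B, hB⟩ : ∃ (y₀ : F) (B : ℝ), ∀ th' : ℝ, 0 < th' → th' ≤ 1 →
          ∃ y : F, y ∈ Metric.closedBall y₀ B ∧ Real0 D A th' (k + 1) (Fin.cons (x, y) s) := by
        rcases Nat.eq_zero_or_pos k with hk | hk
        · subst hk
          refine ⟨0, 0, ?_⟩
          intro th' h1 h2
          obtain ⟨y, hy⟩ := hcand th' h1
          refine ⟨0, by simp, ?_⟩
          obtain ⟨τ, N, M, a, b, lam, U, Ed, φ, η, t, hL, hτth, hηth, hthN, hNt, htN, hmain, hpath, w,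
            hw⟩ := hy
          refine ⟨τ, N, M, a, b, lam, U, Ed, φ, η, t, hL, hτth, hηth, hthN, hNt, htN, hmain, ?_,
            w + y, ?_⟩
          · intro i
            have h := hpath i
            refine Fin.cases ?_ (fun i => i.elim0) i
            simpa using hpath 0
          · intro i
            refine Fin.cases ?_ (fun i => i.elim0) i
            have h := hw 0
            simp only [Fin.cons_zero] at h ⊢
            have e : (1 / lam) • φ (a + lam • U (pt (t : ℝ) x)) - (w + y) - 0 =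
              (1 / lam) • φ (a + lam • U (pt (t : ℝ) x)) - w - y := by abel
            rw [e]
            exact h
        · refine ⟨(s ⟨0, hk⟩).2, D * dist x (s ⟨0, hk⟩).1 + 2, ?_⟩
          intro th' h1 h2
          obtain ⟨y, hy⟩ := hcand th' h1
          refine ⟨y, ?_, hy⟩
          have h3 := (real0_dist hA hy 0 (Fin.succ ⟨0, hk⟩)).2
          simp only [Fin.cons_zero, Fin.cons_succ] at h3
          rw [Metric.mem_closedBall]
          linarith
      have hseq : ∀ m : ℕ, ∃ y : F, y ∈ Metric.closedBall y₀ B ∧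
          Real0 D A (1 / ((m : ℝ) + 1)) (k + 1) (Fin.cons (x, y) s) := by
        intro m
        apply hB _ (by positivity)
        rw [div_le_one (by positivity)]
        have : (0 : ℝ) ≤ m := by positivity
        linarith
      choose y hyB hyR using hseq
      obtain ⟨y', hy', ψ, hψ, hlim⟩ := (isCompact_closedBall y₀ B).tendsto_subseq hyB
      refine ⟨y', ?_⟩
      intro th hth
      have ev1 : ∀ᶠ m in atTop, dist ((y ∘ ψ) m) y' < th / 2 :=
        (Metric.tendsto_nhds.1 hlim) (th / 2) (by positivity)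
      have ev2 : ∀ᶠ m : ℕ in atTop, 1 / ((m : ℝ) + 1) < th / 2 :=
        (tendsto_order.1 tendsto_one_div_add_atTop_nhds_zero_nat).2 _ (by positivity)
      obtain ⟨m, hm1, hm2⟩ := (ev1.and ev2).exists
      have hψm : m ≤ ψ m := hψ.id_le m
      have hψm' : (m : ℝ) ≤ ψ m := by exact_mod_cast hψm
      have hle : 1 / ((ψ m : ℝ) + 1) ≤ 1 / ((m : ℝ) + 1) := by
        apply one_div_le_one_div_of_le (by positivity)
        linarith
      refine real0_pert (hyR (ψ m)) (by positivity) (by linarith) ?_ ?_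
      · intro i
        refine Fin.cases ?_ (fun i => ?_) i
        · simp
        · simp
      · intro i
        refine Fin.cases ?_ (fun i => ?_) i
        · simp only [Fin.cons_zero]
          rw [← dist_eq_norm]
          exact hm1.le
        · simp only [Fin.cons_succ, sub_self, norm_zero]
          positivity
  · -- dbl
    intro k s hs i j
    constructor
    · apply le_of_forall_pos_le_add
      intro ε hε
      have := (real0_dist hA (hs (ε / 2) (by positivity)) i j).1
      linarith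
    · apply le_of_forall_pos_le_add
      intro ε hε
      have := (real0_dist hA (hs (ε / 2) (by positivity)) i j).2
      linarith

end Crest.LP
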