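import Mathlib
import Crest.Agent.LPCore

set_option autoImplicit false
set_option linter.all false

open Set

namespace Crest.LP

section SANDWsec
variable {G : Type} [NormedAddCommGroup G] [InnerProductSpace ℝ G]

/-- the moving particle -/
noncomputable def sP (a b : G) (m j : ℕ) : G := a + ((j : ℝ) / m) • (b - a)

lemma sP_zero (a b : G) (m : ℕ) : sP a b m 0 = a := by simp [sP]

lemma sP_self (a b : G) (m : ℕ) (hm : 1 ≤ m) : sP a b m m = b := by
  have h : (m : ℝ) ≠ 0 := by positivity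
  simp [sP, h]

lemma sP_seg (a b : G) (m j : ℕ) (s : ℝ) :
    sP a b m j + s • (sP a b m (j + 1) - sP a b m j) = a + (((j : ℝ) + s) / m) • (b - a) := by
  unfold sP
  have : a + (((j + 1 : ℕ) : ℝ) / m) • (b - a) - (a + ((j : ℝ) / m) • (b - a))
      = ((1 : ℝ) / m) • (b - a) := by
    rw [add_sub_add_left_eq_sub, ← sub_smul]
    congr 1
    push_cast
    ring
  rw [this, smul_smul, add_assoc, ← add_smul]
  congr 2
  ring

lemma mem_birthE (T : Set G) (a b : G) (m j : ℕ) (z w : G) :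
    (j, z, w) ∈ birthE T a b m ↔
      j < m ∧ ((z ∈ T ∧ w = z) ∨ (z = sP a b m j ∧ w = sP a b m (j + 1))) := by
  unfold birthE restE sP
  constructor
  · rintro (⟨j', x, hj, hx, he⟩ | ⟨j', hj, he⟩)
    · simp only [Prod.mk.injEq] at he
      obtain ⟨rfl, rfl, rfl⟩ := he
      exact ⟨hj, Or.inl ⟨hx, rfl⟩⟩
    · simp only [Prod.mk.injEq] at he
      obtain ⟨rfl, h1, h2⟩ := he
      refine ⟨hj, Or.inr ⟨h1, ?_⟩⟩
      rw [h2]; push_cast; rfl
  · rintro ⟨hj, (⟨hz, rfl⟩ | ⟨h1, h2⟩)⟩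
    · exact Or.inl ⟨j, _, hj, hz, rfl⟩
    · refine Or.inr ⟨j, hj, ?_⟩
      rw [h1, h2]; push_cast; rfl

lemma deathE_eq (T : Set G) (x₀ x : G) (m : ℕ) : deathE T x₀ x m = birthE T x x₀ m := rfl

lemma mem_shiftE (σ : ℕ) (Ed : Edges G) (j : ℕ) (z w : G) :
    (j, z, w) ∈ shiftE σ Ed ↔ ∃ i, j = i + σ ∧ (i, z, w) ∈ Ed := by
  unfold shiftE
  constructor
  · rintro ⟨i, z', w', h, he⟩
    simp only [Prod.mk.injEq] at he
    obtain ⟨rfl, rfl, rfl⟩ := he
    exact ⟨i, rfl, h⟩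
  · rintro ⟨i, rfl, h⟩
    exact ⟨i, z, w, h, rfl⟩

lemma shiftE_finite (σ : ℕ) (Ed : Edges G) (h : Ed.Finite) : (shiftE σ Ed).Finite := by
  apply (h.image (fun e : ℕ × G × G => (e.1 + σ, e.2.1, e.2.2))).subset
  rintro ⟨j, z, w⟩ he
  rw [mem_shiftE] at he
  obtain ⟨i, rfl, hi⟩ := he
  exact ⟨(i, z, w), hi, rfl⟩

lemma birthE_finite (T : Set G) (a b : G) (m : ℕ) (hT : T.Finite) : (birthE T a b m).Finite := by
  have h1 : (restE T m).Finite := by
    apply (((Set.finite_Iio m).prod hT).image (fun e : ℕ × G => (e.1, e.2, e.2))).subset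
    rintro e ⟨j, x, hj, hx, rfl⟩
    exact ⟨(j, x), ⟨hj, hx⟩, rfl⟩
  apply h1.union
  apply ((Set.finite_Iio m).image (fun j : ℕ => (j, a + ((j : ℝ) / m) • (b - a),
    a + (((j : ℝ) + 1) / m) • (b - a)))).subset
  rintro e ⟨j, hj, rfl⟩
  exact ⟨j, hj, rfl⟩

/-- the edges -/
noncomputable def sE (T : Set G) (x₀ x : G) (m N : ℕ) (Ed : Edges G) : Edges G :=
  birthE T x₀ x m ∪ shiftE m Ed ∪ shiftE (m + N) (deathE T x₀ x m)

variable {T : Set G} {x₀ x : G} {m N : ℕ} {Ed : Edges G}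

lemma sE_lt {j : ℕ} {z w : G} (hj : j < m) : (j, z, w) ∈ sE T x₀ x m N Ed ↔
    ((z ∈ T ∧ w = z) ∨ (z = sP x₀ x m j ∧ w = sP x₀ x m (j + 1))) := by
  unfold sE
  rw [Set.mem_union, Set.mem_union, mem_birthE, mem_shiftE, mem_shiftE]
  constructor
  · rintro ((⟨-, h⟩ | ⟨i, hi, -⟩) | ⟨i, hi, -⟩)
    · exact h
    · omega
    · omega
  · intro h
    exact Or.inl (Or.inl ⟨hj, h⟩)

lemma sE_mid (hlt : ∀ j z w, (j, z, w) ∈ Ed → j < N) {i : ℕ} {z w : G} (hi : i < N) :
    (i + m, z, w) ∈ sE T x₀ x m N Ed ↔ (i, z, w) ∈ Ed := by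
  unfold sE
  rw [Set.mem_union, Set.mem_union, mem_birthE, mem_shiftE, mem_shiftE]
  constructor
  · rintro ((⟨h, -⟩ | ⟨i', hi', h⟩) | ⟨i', hi', -⟩)
    · omega
    · have : i = i' := by omega
      rw [this]; exact h
    · omega
  · intro h
    exact Or.inl (Or.inr ⟨i, rfl, h⟩)

lemma sE_end (hlt : ∀ j z w, (j, z, w) ∈ Ed → j < N) {i : ℕ} {z w : G} :
    (i + (m + N), z, w) ∈ sE T x₀ x m N Ed ↔
      i < m ∧ ((z ∈ T ∧ w = z) ∨ (z = sP x x₀ m i ∧ w = sP x x₀ m (i + 1))) := by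
  unfold sE
  rw [Set.mem_union, Set.mem_union, mem_birthE, mem_shiftE, mem_shiftE, deathE_eq]
  constructor
  · rintro ((⟨h, -⟩ | ⟨i', hi', h⟩) | ⟨i', hi', h⟩)
    · omega
    · have := hlt _ _ _ h
      omega
    · have : i = i' := by omega
      rw [this]; exact (mem_birthE _ _ _ _ _ _ _).1 h
  · intro h
    exact Or.inr ⟨i, rfl, (mem_birthE _ _ _ _ _ _ _).2 h⟩

lemma sE_cases (m N j : ℕ) : j < m ∨ (∃ i, i < N ∧ j = i + m) ∨ ∃ i, j = i + (m + N) := by
  rcases lt_or_ge j m with h | h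
  · exact Or.inl h
  · rcases lt_or_ge (j - m) N with h2 | h2
    · exact Or.inr (Or.inl ⟨j - m, h2, by omega⟩)
    · exact Or.inr (Or.inr ⟨j - (m + N), by omega⟩)

lemma Pk_insert (K : ℕ) (T : Set G) (p : G) (h : Pk 10 K T) : Pk 10 (K + 1) (insert p T) := by
  classical
  intro A r hA hr hsep hd
  have h1 : (A.erase p).card ≤ K := by
    apply h (A.erase p) r _ hr
    · intro a ha b hb hab
      exact hsep a (Finset.mem_of_mem_erase ha) b (Finset.mem_of_mem_erase hb) hab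
    · intro a ha b hb
      exact hd a (Finset.mem_of_mem_erase ha) b (Finset.mem_of_mem_erase hb)
    · intro a ha
      have ha' := Finset.mem_coe.1 ha
      have h2 := hA (Finset.mem_coe.2 (Finset.mem_of_mem_erase ha'))
      rcases h2 with h2 | h2
      · exact absurd h2 (Finset.ne_of_mem_erase ha')
      · exact h2
  have h2 : A.card ≤ (A.erase p).card + 1 := by
    have h3 : A ⊆ insert p (A.erase p) := by
      intro a ha
      rw [Finset.mem_insert, Finset.mem_erase]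
      by_cases h : a = p
      · exact Or.inl h
      · exact Or.inr ⟨h, ha⟩
    exact (Finset.card_le_card h3).trans (Finset.card_insert_le _ _)
  omega

lemma Pk_mono (K : ℕ) (T S : Set G) (hST : S ⊆ T) (h : Pk 10 K T) : Pk 10 K S :=
  fun A r hA hr hsep hd => h A r (hA.trans hST) hr hsep hd

lemma sP_tilt (a b : G) (m j : ℕ) (hm : 1 ≤ m) (h : dist b a ≤ (m : ℝ) / 100) :
    ‖sP a b m (j + 1) - sP a b m j‖ ≤ 1 / 100 := by
  have hm' : (0 : ℝ) < m := by exact_mod_cast hm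
  have : sP a b m (j + 1) - sP a b m j = ((1 : ℝ) / m) • (b - a) := by
    unfold sP
    rw [add_sub_add_left_eq_sub, ← sub_smul]
    congr 1
    push_cast
    ring
  rw [this, norm_smul, ← dist_eq_norm, Real.norm_eq_abs, abs_of_pos (by positivity)]
  rw [div_mul_eq_mul_div, one_mul, div_le_div_iff₀ hm' (by norm_num)]
  linarith

/-- no collision between a resting particle and the one moving from `x₀` towards `x` -/
lemma birth_nocoll (hx : x ≠ x₀) (hn : ∀ y ∈ T, dist x x₀ ≤ dist x y) (hm : 1 ≤ m) {y : G}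
    (hy : y ∈ T) {j : ℕ} {s : ℝ} (hj : j < m) (hs : s ∈ Icc (0 : ℝ) 1)
    (h : y = x₀ + (((j : ℝ) + s) / m) • (x - x₀)) : y = x₀ ∧ j = 0 := by
  have hm' : (0 : ℝ) < m := by exact_mod_cast hm
  have hd : 0 < dist x x₀ := dist_pos.2 hx
  have ht0 : 0 ≤ ((j : ℝ) + s) / m := div_nonneg (add_nonneg (Nat.cast_nonneg _) hs.1) hm'.le
  have ht1 : ((j : ℝ) + s) / m ≤ 1 := by
    rw [div_le_one hm']
    have : (j : ℝ) + 1 ≤ m := by exact_mod_cast hj
    linarith [hs.2]
  have e : x - y = (1 - ((j : ℝ) + s) / m) • (x - x₀) := by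
    rw [h, sub_smul, one_smul]; abel
  have h2 : dist x y = (1 - ((j : ℝ) + s) / m) * dist x x₀ := by
    rw [dist_eq_norm x y, e, norm_smul, ← dist_eq_norm x x₀, Real.norm_eq_abs,
      abs_of_nonneg (by linarith)]
  have h3 := hn y hy
  rw [h2] at h3
  have h4 : ((j : ℝ) + s) / m = 0 := by
    by_contra hne
    have : 0 < ((j : ℝ) + s) / m := lt_of_le_of_ne ht0 (Ne.symm hne)
    nlinarith
  have h5 : (j : ℝ) + s = 0 := by
    rcases div_eq_zero_iff.1 h4 with h | h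
    · exact h
    · exact absurd h hm'.ne'
  constructor
  · rw [h, h4, zero_smul, add_zero]
  · have : (j : ℝ) = 0 := le_antisymm (by linarith [hs.1]) (Nat.cast_nonneg _)
    exact_mod_cast this

lemma death_nocoll (hx : x ≠ x₀) (hn : ∀ y ∈ T, dist x x₀ ≤ dist x y) (hm : 1 ≤ m) {y : G}
    (hy : y ∈ T) {j : ℕ} {s : ℝ} (hj : j < m) (hs : s ∈ Icc (0 : ℝ) 1)
    (h : y = x + (((j : ℝ) + s) / m) • (x₀ - x)) : y = x₀ ∧ j + 1 = m := by
  have hm' : (0 : ℝ) < m := by exact_mod_cast hm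
  have hd : 0 < dist x x₀ := dist_pos.2 hx
  have ht0 : 0 ≤ ((j : ℝ) + s) / m := div_nonneg (add_nonneg (Nat.cast_nonneg _) hs.1) hm'.le
  have hj' : (j : ℝ) + 1 ≤ m := by exact_mod_cast hj
  have ht1 : ((j : ℝ) + s) / m ≤ 1 := by
    rw [div_le_one hm']
    linarith [hs.2]
  have e : x - y = (((j : ℝ) + s) / m) • (x - x₀) := by
    rw [h, ← neg_sub x x₀, smul_neg]; abel
  have h2 : dist x y = (((j : ℝ) + s) / m) * dist x x₀ := by
    rw [dist_eq_norm x y, e, norm_smul, ← dist_eq_norm x x₀, Real.norm_eq_abs, abs_of_nonneg ht0]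
  have h3 := hn y hy
  rw [h2] at h3
  have h4 : ((j : ℝ) + s) / m = 1 := by
    by_contra hne
    have : ((j : ℝ) + s) / m < 1 := lt_of_le_of_ne ht1 hne
    nlinarith
  have h5 : (j : ℝ) + s = m := by
    field_simp at h4
    linarith
  constructor
  · rw [h, h4, one_smul]; abel
  · have h6 : (m : ℝ) ≤ (j : ℝ) + 1 := by linarith [hs.2]
    have : m ≤ j + 1 := by exact_mod_cast h6
    omega

lemma sE_slice_lt {j : ℕ} (hj : j < m) (s : ℝ) :
    slice (sE T x₀ x m N Ed) j s ⊆ insert (x₀ + (((j : ℝ) + s) / m) • (x - x₀)) T := by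
  rintro p ⟨z, w, h, rfl⟩
  rw [sE_lt hj] at h
  rcases h with ⟨hz, rfl⟩ | ⟨rfl, rfl⟩
  · right; simpa using hz
  · left; exact sP_seg _ _ _ _ _

lemma sE_slice_end (hlt : ∀ j z w, (j, z, w) ∈ Ed → j < N) {i : ℕ} (s : ℝ) :
    slice (sE T x₀ x m N Ed) (i + (m + N)) s ⊆ insert (x + (((i : ℝ) + s) / m) • (x₀ - x)) T := by
  rintro p ⟨z, w, h, rfl⟩
  rw [sE_end hlt] at h
  rcases h with ⟨-, ⟨hz, rfl⟩ | ⟨rfl, rfl⟩⟩
  · right; simpa using hz
  · left; exact sP_seg _ _ _ _ _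

lemma three_of_two {α : Type*} {a b w₁ w₂ w₃ : α} (h1 : w₁ = a ∨ w₁ = b) (h2 : w₂ = a ∨ w₂ = b)
    (h3 : w₃ = a ∨ w₃ = b) : w₁ = w₂ ∨ w₁ = w₃ ∨ w₂ = w₃ := by
  rcases h1 with h1 | h1 <;> rcases h2 with h2 | h2 <;> rcases h3 with h3 | h3 <;>
    simp [h1, h2, h3]

end SANDWsec

theorem sandw : SANDW := by
  intro G _ _ K T x₀ x m N Ed hT hK hx hx₀ hn hm hdist M
  have hxx : x ≠ x₀ := fun h => hx (h ▸ hx₀)
  have hlt := M.lt
  have hN := M.hN
  change Movie (K + 1) T (m + N + m) (sE T x₀ x m N Ed)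
  have hdist' : dist x₀ x ≤ (m : ℝ) / 100 := by rw [dist_comm]; exact hdist
  constructor
  · omega
  · unfold sE
    exact ((birthE_finite _ _ _ _ hT).union (shiftE_finite _ _ M.fin)).union
      (shiftE_finite _ _ (by rw [deathE_eq]; exact birthE_finite _ _ _ _ hT))
  · intro j z w h
    rcases sE_cases m N j with hj | ⟨i, hi, rfl⟩ | ⟨i, rfl⟩
    · omega
    · omega
    · rw [sE_end hlt] at h
      omega
  · intro y hy j hj
    rcases sE_cases m N j with hj | ⟨i, hi, rfl⟩ | ⟨i, rfl⟩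
    · rw [sE_lt hj]; exact Or.inl ⟨hy, rfl⟩
    · rw [sE_mid hlt hi]; exact M.rest y (Or.inr hy) i hi
    · rw [sE_end hlt]; exact ⟨by omega, Or.inl ⟨hy, rfl⟩⟩
  · intro z w h
    rw [sE_lt (by omega)] at h
    rcases h with ⟨hz, -⟩ | ⟨hz, -⟩
    · exact hz
    · rw [sP_zero] at hz; rw [hz]; exact hx₀
  · intro j z w h hj
    rcases sE_cases m N j with hj' | ⟨i, hi, rfl⟩ | ⟨i, rfl⟩
    · omega
    · omega
    · rw [sE_end hlt] at h
      obtain ⟨him, ⟨hz, rfl⟩ | ⟨hz, hw⟩⟩ := h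
      · exact hz
      · have : i + 1 = m := by omega
        rw [this, sP_self _ _ _ hm] at hw
        rw [hw]; exact hx₀
  · -- pred
    intro j z w h
    rcases sE_cases m N (j + 1) with hj | ⟨i, hi, hji⟩ | ⟨i, hji⟩
    · rw [sE_lt hj] at h
      rcases h with ⟨hz, -⟩ | ⟨hz, -⟩
      · exact ⟨z, by rw [sE_lt (by omega)]; exact Or.inl ⟨hz, rfl⟩⟩
      · exact ⟨sP x₀ x m j, by rw [sE_lt (by omega)]; exact Or.inr ⟨rfl, hz⟩⟩
    · rw [hji, sE_mid hlt hi] at h
      rcases Nat.eq_zero_or_pos i with h0 | h0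
      · subst h0
        have hz := M.start z w h
        rcases hz with hz | hz
        · refine ⟨sP x₀ x m j, ?_⟩
          rw [sE_lt (by omega)]
          refine Or.inr ⟨rfl, ?_⟩
          have : j + 1 = m := by omega
          rw [this, sP_self _ _ _ hm]; exact hz
        · exact ⟨z, by rw [sE_lt (by omega)]; exact Or.inl ⟨hz, rfl⟩⟩
      · obtain ⟨i', rfl⟩ : ∃ i', i = i' + 1 := ⟨i - 1, by omega⟩
        obtain ⟨y, hy⟩ := M.pred i' z w h
        refine ⟨y, ?_⟩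
        have : j = i' + m := by omega
        rw [this, sE_mid hlt (by omega)]; exact hy
    · rw [hji, sE_end hlt] at h
      rcases Nat.eq_zero_or_pos i with h0 | h0
      · subst h0
        have hz : z ∈ insert x T := by
          obtain ⟨-, ⟨hz, -⟩ | ⟨hz, -⟩⟩ := h
          · exact Or.inr hz
          · rw [sP_zero] at hz; exact Or.inl hz
        refine ⟨z, ?_⟩
        have : j = (N - 1) + m := by omega
        rw [this, sE_mid hlt (by omega)]
        exact M.rest z hz (N - 1) (by omega)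
      · obtain ⟨i', rfl⟩ : ∃ i', i = i' + 1 := ⟨i - 1, by omega⟩
        have hj : j = i' + (m + N) := by omega
        obtain ⟨him, ⟨hz, -⟩ | ⟨hz, -⟩⟩ := h
        · exact ⟨z, by rw [hj, sE_end hlt]; exact ⟨by omega, Or.inl ⟨hz, rfl⟩⟩⟩
        · exact ⟨sP x x₀ m i', by rw [hj, sE_end hlt]; exact ⟨by omega, Or.inr ⟨rfl, hz⟩⟩⟩
  · -- succ
    intro j z w h hjlt
    rcases sE_cases m N j with hj | ⟨i, hi, rfl⟩ | ⟨i, rfl⟩
    · rw [sE_lt hj] at h
      rcases Nat.lt_or_ge (j + 1) m with h1 | h1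
      · rcases h with ⟨hz, rfl⟩ | ⟨hz, hw⟩
        · exact ⟨w, by rw [sE_lt h1]; exact Or.inl ⟨hz, rfl⟩⟩
        · exact ⟨sP x₀ x m (j + 1 + 1), by rw [sE_lt h1]; exact Or.inr ⟨hw, rfl⟩⟩
      · have hjm : j + 1 = 0 + m := by omega
        have hw : w ∈ insert x T := by
          rcases h with ⟨hz, rfl⟩ | ⟨hz, hw⟩
          · exact Or.inr hz
          · left
            rw [hw, hjm, zero_add, sP_self _ _ _ hm]
        refine ⟨w, ?_⟩
        rw [hjm, sE_mid hlt (by omega)]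
        exact M.rest w hw 0 (by omega)
    · rw [sE_mid hlt hi] at h
      rcases Nat.lt_or_ge (i + 1) N with h1 | h1
      · obtain ⟨y, hy⟩ := M.succ i z w h h1
        refine ⟨y, ?_⟩
        have : i + m + 1 = i + 1 + m := by omega
        rw [this, sE_mid hlt h1]; exact hy
      · have hw := M.stop i z w h (by omega)
        have e : i + m + 1 = 0 + (m + N) := by omega
        rcases hw with hw | hw
        · refine ⟨sP x x₀ m 1, ?_⟩
          rw [e, sE_end hlt]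
          exact ⟨by omega, Or.inr ⟨by rw [sP_zero]; exact hw, rfl⟩⟩
        · refine ⟨w, ?_⟩
          rw [e, sE_end hlt]
          exact ⟨by omega, Or.inl ⟨hw, rfl⟩⟩
    · rw [sE_end hlt] at h
      have e : i + (m + N) + 1 = i + 1 + (m + N) := by omega
      obtain ⟨him, ⟨hz, rfl⟩ | ⟨hz, hw⟩⟩ := h
      · exact ⟨w, by rw [e, sE_end hlt]; exact ⟨by omega, Or.inl ⟨hz, rfl⟩⟩⟩
      · exact ⟨sP x x₀ m (i + 1 + 1), by rw [e, sE_end hlt]; exact ⟨by omega, Or.inr ⟨hw, rfl⟩⟩⟩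
  · -- tilt
    intro j z w h
    rcases sE_cases m N j with hj | ⟨i, hi, rfl⟩ | ⟨i, rfl⟩
    · rw [sE_lt hj] at h
      rcases h with ⟨hz, rfl⟩ | ⟨rfl, rfl⟩
      · simp
      · exact sP_tilt _ _ _ _ hm hdist
    · rw [sE_mid hlt hi] at h
      exact M.tilt _ _ _ h
    · rw [sE_end hlt] at h
      obtain ⟨-, ⟨hz, rfl⟩ | ⟨rfl, rfl⟩⟩ := h
      · simp
      · exact sP_tilt _ _ _ _ hm hdist'
  · -- nocoll
    intro j z w z' w' h h' hzz hww s hs
    rcases sE_cases m N j with hj | ⟨i, hi, rfl⟩ | ⟨i, rfl⟩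
    · rw [sE_lt hj] at h h'
      rcases h with ⟨hz, rfl⟩ | ⟨rfl, rfl⟩ <;> rcases h' with ⟨hz', rfl⟩ | ⟨rfl, rfl⟩
      · simpa using hzz
      · rw [sP_seg]
        intro he
        have he' : w = x₀ + (((j : ℝ) + s) / m) • (x - x₀) := by simpa using he
        obtain ⟨h1, h2⟩ := birth_nocoll hxx hn hm hz hj hs he'
        apply hzz
        rw [h1, h2, sP_zero]
      · rw [sP_seg]
        intro he
        have he' : w' = x₀ + (((j : ℝ) + s) / m) • (x - x₀) := by simpa using he.symm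
        obtain ⟨h1, h2⟩ := birth_nocoll hxx hn hm hz' hj hs he'
        apply hzz
        rw [h1, h2, sP_zero]
      · exact absurd rfl hzz
    · rw [sE_mid hlt hi] at h h'
      exact M.nocoll _ _ _ _ _ h h' hzz hww s hs
    · rw [sE_end hlt] at h h'
      obtain ⟨him, h⟩ := h
      obtain ⟨-, h'⟩ := h'
      rcases h with ⟨hz, rfl⟩ | ⟨rfl, rfl⟩ <;> rcases h' with ⟨hz', rfl⟩ | ⟨rfl, rfl⟩
      · simpa using hzz
      · rw [sP_seg]
        intro he
        have he' : w = x + (((i : ℝ) + s) / m) • (x₀ - x) := by simpa using he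
        obtain ⟨h1, h2⟩ := death_nocoll hxx hn hm hz him hs he'
        apply hww
        rw [h1, h2, sP_self _ _ _ hm]
      · rw [sP_seg]
        intro he
        have he' : w' = x + (((i : ℝ) + s) / m) • (x₀ - x) := by simpa using he.symm
        obtain ⟨h1, h2⟩ := death_nocoll hxx hn hm hz' him hs he'
        apply hww
        rw [h1, h2, sP_self _ _ _ hm]
      · exact absurd rfl hzz
  · -- outdeg
    intro j z w₁ w₂ w₃ h1 h2 h3
    rcases sE_cases m N j with hj | ⟨i, hi, rfl⟩ | ⟨i, rfl⟩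
    · rw [sE_lt hj] at h1 h2 h3
      exact three_of_two (a := z) (b := sP x₀ x m (j + 1)) (h1.imp And.right And.right)
        (h2.imp And.right And.right) (h3.imp And.right And.right)
    · rw [sE_mid hlt hi] at h1 h2 h3
      exact M.outdeg _ _ _ _ _ h1 h2 h3
    · rw [sE_end hlt] at h1 h2 h3
      exact three_of_two (a := z) (b := sP x x₀ m (i + 1)) (h1.2.imp And.right And.right)
        (h2.2.imp And.right And.right) (h3.2.imp And.right And.right)
  · -- indeg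
    intro j z₁ z₂ z₃ w h1 h2 h3
    rcases sE_cases m N j with hj | ⟨i, hi, rfl⟩ | ⟨i, rfl⟩
    · rw [sE_lt hj] at h1 h2 h3
      exact three_of_two (a := w) (b := sP x₀ x m j) (h1.imp (fun h => h.2.symm) And.left)
        (h2.imp (fun h => h.2.symm) And.left) (h3.imp (fun h => h.2.symm) And.left)
    · rw [sE_mid hlt hi] at h1 h2 h3
      exact M.indeg _ _ _ _ _ h1 h2 h3
    · rw [sE_end hlt] at h1 h2 h3
      exact three_of_two (a := w) (b := sP x x₀ m i) (h1.2.imp (fun h => h.2.symm) And.left)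
        (h2.2.imp (fun h => h.2.symm) And.left) (h3.2.imp (fun h => h.2.symm) And.left)
  · -- slices
    intro j s hs
    rcases sE_cases m N j with hj | ⟨i, hi, rfl⟩ | ⟨i, rfl⟩
    · exact Pk_mono _ _ _ (sE_slice_lt hj s) (Pk_insert _ _ _ hK)
    · apply Pk_mono _ _ _ _ (M.slices i s hs)
      rintro p ⟨z, w, h, rfl⟩
      rw [sE_mid hlt hi] at h
      exact ⟨z, w, h, rfl⟩
    · exact Pk_mono _ _ _ (sE_slice_end hlt s) (Pk_insert _ _ _ hK)

end Crest.LP
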