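import Crest.Agent.LPFinb
import Crest.Agent.LP_FIN
import Crest.Agent.LP_CONE
import Crest.Agent.LP_PLACE
import Crest.Agent.LP_NEST
import Crest.Agent.LP_NESTSIM
import Crest.Agent.H7LPHon
import Crest.Agent.LP_NAM
import Crest.Agent.LP_CAT
import Crest.Agent.LP_SANDW
import Crest.Agent.H2HStep
import Crest.Agent.H23LPBlow
import Crest.Agent.H16LPPack
import Crest.Agent.LP_APPEND
import Crest.Agent.LP_CELLS
import Crest.Agent.LP_LAY
import Crest.Agent.LP_NAPRE
import Crest.Agent.H27LPBlocks
import Crest.Agent.LP_RSTEP

set_option autoImplicit false
namespace Crest.LP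

theorem nest_all : NEST := nest_of cone Pack16.pack
theorem nam_all : NAM := nam_of hon nest_all nestsim place
theorem hstep_all : HSTEP := hstep_of cat sandw
theorem cells_all : CELLS := cells_of nest_all
theorem vst_all : VST := vst_of cells_all lay
theorem start_all : START := start_of place cells_all lay vst_all
theorem layscr_all : LAYSCR := layscr_of cells_all lay
theorem napre_all : NAPRE := napre_of cells_all layscr_all append blocks vst_all
theorem rstep_all : RSTEP := rstep_of start_all layscr_all append blocks napre_all

theorem fin_all (hI : ISTEP) : Crest.Agent.LP.FIN :=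
  fin_of (finb_of nam_all hstep_all rstep_all blow hI)

end Crest.LP
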