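import Crest.Agent.H14Stable
import Crest.Agent.H14Contract

set_option autoImplicit false

/-!
Lipschitz dependence of tilted means on the external fields, from a row-sum bound on the
covariances of all tilts.
-/

open MeasureTheory Filter Topology Finset

namespace Crest.Agent.H14

variable {I : Type*} [DecidableEq I]

/-- Tilted weights. -/
noncomputable def tilt (w : Finset I → ℝ) (x : I → ℝ) : Finset I → ℝ :=
  fun S => w S * ∏ i ∈ S, x i

/-- Row-sum bound for the covariances of every tilt. -/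
def RowBd (F : Finset I) (w : Finset I → ℝ) : Prop :=
  ∀ x : I → ℝ, (∀ i, 0 < x i) → ∀ v ∈ F,
    ∑ j ∈ F, |cov F (tilt w x) v j| ≤ 1 / 2 * (tot F (tilt w x)) ^ 2

omit [DecidableEq I] in
lemma stable_tilt {F : Finset I} {w : Finset I → ℝ} (hs : Stable F w) (x : I → ℝ)
    (hx : ∀ i, 0 < x i) : Stable F (tilt w x) := by
  intro z hz
  have h := hs (fun i => (x i : ℂ) * z i) (by
    intro i hi
    rw [Complex.im_ofReal_mul]
    exact mul_pos (hx i) (hz i hi))
  have e : genP F (tilt w x) z = genP F w (fun i => (x i : ℂ) * z i) := by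
    unfold genP tilt
    apply Finset.sum_congr rfl
    intro S _
    rw [Finset.prod_mul_distrib]
    push_cast
    ring
  rw [e]
  exact h

omit [DecidableEq I] in
lemma tilt_nonneg {w : Finset I → ℝ} (hw : ∀ S, 0 ≤ w S) (x : I → ℝ) (hx : ∀ i, 0 < x i) :
    ∀ S, 0 ≤ tilt w x S := fun S =>
  mul_nonneg (hw S) (Finset.prod_nonneg fun i _ => (hx i).le)

lemma tot_tilt_pos {F : Finset I} {w : Finset I → ℝ} (hw : ∀ S, 0 ≤ w S)
    (hpos : ∃ S ∈ F.powerset, 0 < w S) (x : I → ℝ) (hx : ∀ i, 0 < x i) :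
    0 < tot F (tilt w x) := by
  obtain ⟨S, hS, hwS⟩ := hpos
  exact Finset.sum_pos' (fun S _ => tilt_nonneg hw x hx S)
    ⟨S, hS, mul_pos hwS (Finset.prod_pos fun i _ => hx i)⟩

lemma rowBd_of_stable {F : Finset I} {w : Finset I → ℝ} (hs : Stable F w) (hw : ∀ S, 0 ≤ w S)
    (hpos : ∃ S ∈ F.powerset, 0 < w S) : RowBd F w := by
  intro x hx v hv
  apply row_bound (stable_tilt hs x hx) (tilt_nonneg hw x hx) _ hv
  obtain ⟨S, hS, hwS⟩ := hpos
  exact ⟨S, hS, mul_pos hwS (Finset.prod_pos fun i _ => hx i)⟩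

/-- Tilted mean of the sign of the spin at `v`. -/
noncomputable def tmean (F : Finset I) (w : Finset I → ℝ) (v : I) (x : I → ℝ) : ℝ :=
  (2 * inc F (tilt w x) v - tot F (tilt w x)) / tot F (tilt w x)

lemma tmean_lip {F : Finset I} {w : Finset I → ℝ} (hw : ∀ S, 0 ≤ w S)
    (hpos : ∃ S ∈ F.powerset, 0 < w S) (hrow : RowBd F w) {v : I} (hv : v ∈ F)
    (h h' : I → ℝ) (δ : ℝ) (hδ : ∀ i ∈ F, |h' i - h i| ≤ δ) :
    |tmean F w v (fun i => Real.exp (h' i)) - tmean F w v (fun i => Real.exp (h i))| ≤ δ := by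
  have hδ0 : 0 ≤ δ := (abs_nonneg _).trans (hδ v hv)
  set x : ℝ → I → ℝ := fun θ i => Real.exp (h i + θ * (h' i - h i)) with hx
  have hxpos : ∀ θ i, 0 < x θ i := fun θ i => Real.exp_pos _
  set Δ : Finset I → ℝ := fun S => ∑ i ∈ S, (h' i - h i) with hΔ
  have hxprod : ∀ θ S, ∏ i ∈ S, x θ i = Real.exp (∑ i ∈ S, (h i + θ * (h' i - h i))) := by
    intro θ S
    rw [Real.exp_sum]
  have hd1 : ∀ S θ, HasDerivAt (fun θ => tilt w (x θ) S) (tilt w (x θ) S * Δ S) θ := by
    intro S θ
    unfold tilt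
    simp only [hxprod]
    have h1 : HasDerivAt (fun θ : ℝ => ∑ i ∈ S, (h i + θ * (h' i - h i))) (Δ S) θ := by
      simp only [hΔ]
      apply HasDerivAt.fun_sum
      intro i _
      have := ((hasDerivAt_id θ).mul_const (h' i - h i)).const_add (h i)
      simpa using this
    have h2 := (h1.exp).const_mul (w S)
    refine h2.congr_deriv ?_
    ring
  have hdt : ∀ θ, HasDerivAt (fun θ => tot F (tilt w (x θ)))
      (∑ S ∈ F.powerset, tilt w (x θ) S * Δ S) θ := by
    intro θ
    unfold tot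
    apply HasDerivAt.fun_sum
    intro S _
    exact hd1 S θ
  have hdi : ∀ θ, HasDerivAt (fun θ => inc F (tilt w (x θ)) v)
      (∑ S ∈ F.powerset, if v ∈ S then tilt w (x θ) S * Δ S else 0) θ := by
    intro θ
    unfold inc
    apply HasDerivAt.fun_sum
    intro S _
    by_cases hvS : v ∈ S
    · simp only [if_pos hvS]; exact hd1 S θ
    · simp only [if_neg hvS]; exact hasDerivAt_const _ _
  have htot : ∀ θ, 0 < tot F (tilt w (x θ)) := fun θ => tot_tilt_pos hw hpos (x θ) (hxpos θ)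
  have hsumt : ∀ θ, ∑ S ∈ F.powerset, tilt w (x θ) S * Δ S =
      ∑ j ∈ F, (h' j - h j) * inc F (tilt w (x θ)) j := by
    intro θ
    unfold inc
    simp only [hΔ, Finset.mul_sum]
    rw [Finset.sum_comm]
    apply Finset.sum_congr rfl
    intro S hS
    have hsub : S ⊆ F := Finset.mem_powerset.1 hS
    rw [← Finset.sum_subset hsub (f := fun j => (h' j - h j) * if j ∈ S then tilt w (x θ) S else 0)]
    · apply Finset.sum_congr rfl
      intro j hj
      rw [if_pos hj]; ring
    · intro j _ hj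
      rw [if_neg hj]; ring
  have hsumi : ∀ θ, ∑ S ∈ F.powerset, (if v ∈ S then tilt w (x θ) S * Δ S else 0) =
      ∑ j ∈ F, (h' j - h j) * inc2 F (tilt w (x θ)) v j := by
    intro θ
    unfold inc2
    simp only [hΔ, Finset.mul_sum]
    rw [Finset.sum_comm]
    apply Finset.sum_congr rfl
    intro S hS
    have hsub : S ⊆ F := Finset.mem_powerset.1 hS
    rw [← Finset.sum_subset hsub
      (f := fun j => (h' j - h j) * if v ∈ S ∧ j ∈ S then tilt w (x θ) S else 0)]
    · by_cases hvS : v ∈ S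
      · rw [if_pos hvS]
        apply Finset.sum_congr rfl
        intro j hj
        rw [if_pos ⟨hvS, hj⟩]; ring
      · rw [if_neg hvS]
        symm
        apply Finset.sum_eq_zero
        intro j _
        rw [if_neg (fun hh => hvS hh.1)]; ring
    · intro j _ hj
      rw [if_neg (fun hh => hj hh.2)]; ring
  set a : ℝ → ℝ := fun θ => tmean F w v (x θ) with ha
  have hda : ∀ θ, HasDerivAt a
      (2 * (∑ j ∈ F, (h' j - h j) * cov F (tilt w (x θ)) v j) / (tot F (tilt w (x θ))) ^ 2) θ := by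
    intro θ
    have h1 := (((hdi θ).const_mul 2).sub (hdt θ)).div (hdt θ) (htot θ).ne'
    have h2 : a = fun θ => (2 * inc F (tilt w (x θ)) v - tot F (tilt w (x θ))) /
        tot F (tilt w (x θ)) := rfl
    rw [h2]
    refine h1.congr_deriv ?_
    rw [hsumt, hsumi]
    simp only [Pi.sub_apply]
    congr 1
    have e : ∑ j ∈ F, (h' j - h j) * cov F (tilt w (x θ)) v j =
        (∑ j ∈ F, (h' j - h j) * inc2 F (tilt w (x θ)) v j) * tot F (tilt w (x θ)) -
        inc F (tilt w (x θ)) v * ∑ j ∈ F, (h' j - h j) * inc F (tilt w (x θ)) j := by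
      rw [Finset.sum_mul, Finset.mul_sum, ← Finset.sum_sub_distrib]
      apply Finset.sum_congr rfl
      intro j _
      unfold cov
      ring
    rw [e]
    ring
  have hbound : ∀ θ, ‖(2 * (∑ j ∈ F, (h' j - h j) * cov F (tilt w (x θ)) v j) /
      (tot F (tilt w (x θ))) ^ 2)‖ ≤ δ := by
    intro θ
    have hsq : 0 < (tot F (tilt w (x θ))) ^ 2 := by
      have := htot θ; positivity
    rw [Real.norm_eq_abs, abs_div, abs_of_pos hsq, div_le_iff₀ hsq, abs_mul, abs_two]
    have h1 : |∑ j ∈ F, (h' j - h j) * cov F (tilt w (x θ)) v j| ≤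
        ∑ j ∈ F, δ * |cov F (tilt w (x θ)) v j| := by
      refine (Finset.abs_sum_le_sum_abs _ _).trans ?_
      apply Finset.sum_le_sum
      intro j hj
      rw [abs_mul]
      exact mul_le_mul_of_nonneg_right (hδ j hj) (abs_nonneg _)
    rw [← Finset.mul_sum] at h1
    have h2 := hrow (x θ) (hxpos θ) v hv
    have h3 : δ * ∑ j ∈ F, |cov F (tilt w (x θ)) v j| ≤ δ * (1 / 2 * (tot F (tilt w (x θ))) ^ 2) :=
      mul_le_mul_of_nonneg_left h2 hδ0
    linarith
  have hmv := Convex.norm_image_sub_le_of_norm_hasDerivWithin_le (f := a) (s := Set.univ)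
    (fun θ _ => (hda θ).hasDerivWithinAt) (fun θ _ => hbound θ) convex_univ
    (Set.mem_univ (0:ℝ)) (Set.mem_univ (1:ℝ))
  have e1 : a 1 = tmean F w v (fun i => Real.exp (h' i)) := by
    simp only [ha, hx]
    congr 1
    ext i
    congr 1
    ring
  have e0 : a 0 = tmean F w v (fun i => Real.exp (h i)) := by
    simp only [ha, hx]
    congr 1
    ext i
    congr 1
    ring
  rw [e1, e0] at hmv
  simpa using hmv

/-- The log-odds of an observation is `8/3`-Lipschitz. -/
lemma logodds_lip {t t' : ℝ} (ht : t ∈ Set.Icc (0:ℝ) 1) (ht' : t' ∈ Set.Icc (0:ℝ) 1) :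
    |Real.log (wt true t' / wt false t') - Real.log (wt true t / wt false t)| ≤ 8 / 3 * |t' - t| := by
  set f : ℝ → ℝ := fun t => Real.log (wt true t / wt false t) with hf
  have hp1 : ∀ s ∈ Set.Icc (0:ℝ) 1, 0 < wt true s := by
    intro s hs; unfold wt; simp only [sg_true]; linarith [hs.1, hs.2]
  have hp2 : ∀ s ∈ Set.Icc (0:ℝ) 1, 0 < wt false s := by
    intro s hs; unfold wt; simp only [sg_false]; linarith [hs.1, hs.2]
  have hd : ∀ s ∈ Set.Icc (0:ℝ) 1, HasDerivWithinAt f (2 / (1 - (s - 1 / 2) ^ 2)) (Set.Icc 0 1) s := by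
    intro s hs
    have h1 := hp1 s hs
    have h2 := hp2 s hs
    have d1 : HasDerivAt (fun s => wt true s) 1 s := by
      unfold wt
      simp only [sg_true, one_mul]
      exact ((hasDerivAt_id s).sub_const _).const_add _
    have d2 : HasDerivAt (fun s => wt false s) (-1) s := by
      unfold wt
      simp only [sg_false]
      have := (((hasDerivAt_id s).sub_const (1/2)).const_mul (-1)).const_add 1
      simpa using this
    have d3 := (d1.div d2 h2.ne').log (div_pos h1 h2).ne'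
    refine (d3.hasDerivWithinAt (s := Set.Icc 0 1)).congr_deriv ?_
    have e1 : wt true s = 1 + (s - 1 / 2) := by simp [wt]
    have e2 : wt false s = 1 - (s - 1 / 2) := by simp [wt]; ring
    simp only [Pi.div_apply]
    have h1' : 0 < 1 + (s - 1 / 2) := by rw [← e1]; exact h1
    have h2' : 0 < 1 - (s - 1 / 2) := by rw [← e2]; exact h2
    rw [e1, e2]
    have h3 : (1 - (s - 1 / 2) ^ 2) = (1 + (s - 1 / 2)) * (1 - (s - 1 / 2)) := by ring
    rw [h3]
    have h1'' := h1'.ne'
    have h2'' := h2'.ne'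
    field_simp
    ring
  have hb : ∀ s ∈ Set.Icc (0:ℝ) 1, ‖(2 / (1 - (s - 1 / 2) ^ 2) : ℝ)‖ ≤ 8 / 3 := by
    intro s hs
    have h1 : 3 / 4 ≤ 1 - (s - 1 / 2) ^ 2 := by nlinarith [hs.1, hs.2]
    rw [Real.norm_eq_abs, abs_of_pos (by positivity), div_le_iff₀ (by linarith)]
    linarith
  have := Convex.norm_image_sub_le_of_norm_hasDerivWithin_le (f := f) (s := Set.Icc 0 1)
    hd hb (convex_Icc 0 1) ht ht'
  simpa [Real.norm_eq_abs] using this

end Crest.Agent.H14
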