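import Crest.Agent.H14Lip
import Crest.Prelude.Def_StronglyRayleigh

set_option autoImplicit false

/-!
The posterior functional of a law whose finite marginals satisfy the row-sum bound is Lipschitz;
in particular for strongly Rayleigh laws.
-/

open MeasureTheory Filter Topology Finset

namespace Crest.Agent.H14

variable {I : Type*}

/-- Weights of the marginal of `ν` on `F`. -/
noncomputable def marg (ν : Measure (I → Bool)) (F : Finset I) (S : Finset I) : ℝ :=
  (ν {ω | ∀ i ∈ F, (ω i = true ↔ i ∈ S)}).toReal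

lemma marg_nonneg (ν : Measure (I → Bool)) (F S : Finset I) : 0 ≤ marg ν F S :=
  ENNReal.toReal_nonneg

lemma measurableSet_cyl (F S : Finset I) :
    MeasurableSet {ω : I → Bool | ∀ i ∈ F, (ω i = true ↔ i ∈ S)} := by
  have : {ω : I → Bool | ∀ i ∈ F, (ω i = true ↔ i ∈ S)} =
      ⋂ i ∈ F, (fun ω : I → Bool => ω i) ⁻¹' {b | b = true ↔ i ∈ S} := by
    ext ω; simp
  rw [this]
  exact F.measurableSet_biInter (fun i _ => (measurable_pi_apply i) (MeasurableSet.of_discrete))

variable [DecidableEq I]

lemma cyl_iff (F S : Finset I) (hS : S ⊆ F) (ω : I → Bool) :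
    (∀ i ∈ F, (ω i = true ↔ i ∈ S)) ↔ F.filter (fun i => ω i = true) = S := by
  constructor
  · intro h
    ext i
    simp only [Finset.mem_filter]
    constructor
    · rintro ⟨h1, h2⟩; exact (h i h1).1 h2
    · intro hi; exact ⟨hS hi, (h i (hS hi)).2 hi⟩
  · rintro rfl i hi
    simp [hi]

/-- Integral of a function of finitely many coordinates. -/
lemma integral_cyl (ν : Measure (I → Bool)) [IsProbabilityMeasure ν] (F : Finset I)
    (H : Finset I → ℝ) :
    ∫ ω, H (F.filter (fun i => ω i = true)) ∂ν = ∑ S ∈ F.powerset, marg ν F S * H S := by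
  have h1 : ∀ ω : I → Bool, H (F.filter (fun i => ω i = true)) =
      ∑ S ∈ F.powerset,
        {ω : I → Bool | ∀ i ∈ F, (ω i = true ↔ i ∈ S)}.indicator (fun _ => H S) ω := by
    intro ω
    rw [Finset.sum_eq_single (F.filter (fun i => ω i = true))]
    · rw [Set.indicator_of_mem]
      exact (cyl_iff F _ (Finset.filter_subset _ _) ω).2 rfl
    · intro S hS hne
      rw [Set.indicator_of_notMem]
      intro h
      exact hne ((cyl_iff F S (Finset.mem_powerset.1 hS) ω).1 h).symm
    · intro h
      exact absurd (Finset.mem_powerset.2 (Finset.filter_subset _ _)) h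
  simp_rw [h1]
  rw [integral_finsetSum]
  · apply Finset.sum_congr rfl
    intro S _
    rw [integral_indicator_const _ (measurableSet_cyl F S)]
    rfl
  · intro S _
    exact (integrable_const _).indicator (measurableSet_cyl F S)

lemma exists_marg_pos (ν : Measure (I → Bool)) [IsProbabilityMeasure ν] (F : Finset I) :
    ∃ S ∈ F.powerset, 0 < marg ν F S := by
  by_contra hcon
  push Not at hcon
  have h := integral_cyl ν F (fun _ => 1)
  simp only [integral_const, mul_one, smul_eq_mul, probReal_univ] at h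
  have : ∑ S ∈ F.powerset, marg ν F S ≤ 0 := Finset.sum_nonpos hcon
  linarith

/-- Odds of the site weights. -/
noncomputable def odds (E : Finset I) (g : I → Bool → ℝ) (i : I) : ℝ :=
  if i ∈ E then g i true / g i false else 1

lemma prod_weights (E F : Finset I) (hEF : E ⊆ F) (g : I → Bool → ℝ)
    (hg : ∀ i b, 0 < g i b) (ω : I → Bool) :
    ∏ i ∈ E, g i (ω i) = (∏ i ∈ E, g i false) *
      ∏ i ∈ F.filter (fun i => ω i = true), odds E g i := by
  have h1 : ∏ i ∈ F.filter (fun i => ω i = true), odds E g i =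
      ∏ i ∈ E, if ω i = true then g i true / g i false else 1 := by
    rw [Finset.prod_filter]
    rw [← Finset.prod_subset hEF (f := fun i => if ω i = true then odds E g i else 1)]
    · apply Finset.prod_congr rfl
      intro i hi
      unfold odds
      rw [if_pos hi]
    · intro i _ hi
      unfold odds
      rw [if_neg hi]
      simp
  rw [h1, ← Finset.prod_mul_distrib]
  apply Finset.prod_congr rfl
  intro i _
  have := (hg i false).ne'
  cases h : ω i
  · rw [if_neg Bool.false_ne_true, mul_one]
  · rw [if_pos rfl, mul_div_assoc', mul_div_cancel_left₀ _ this]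

lemma postν_eq_tmean (ν : Measure (I → Bool)) [IsProbabilityMeasure ν] (E : Finset I)
    (g : I → Bool → ℝ) (hg : ∀ i b, 0 < g i b) (v : I) :
    postν ν E g v = tmean (insert v E) (marg ν (insert v E)) v (odds E g) := by
  set F := insert v E with hF
  have hEF : E ⊆ F := Finset.subset_insert _ _
  have hvF : v ∈ F := Finset.mem_insert_self _ _
  set c : ℝ := ∏ i ∈ E, g i false with hc
  have hcpos : 0 < c := Finset.prod_pos fun i _ => hg i false
  have hden : ∫ ω, ∏ i ∈ E, g i (ω i) ∂ν = c * tot F (tilt (marg ν F) (odds E g)) := by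
    have h := integral_cyl ν F (fun S => c * ∏ i ∈ S, odds E g i)
    rw [integral_congr_ae (ae_of_all ν (fun ω => prod_weights E F hEF g hg ω)), h]
    unfold tot tilt
    rw [Finset.mul_sum]
    apply Finset.sum_congr rfl
    intro S _
    ring
  have hnum : ∫ ω, sg (ω v) * ∏ i ∈ E, g i (ω i) ∂ν =
      c * (2 * inc F (tilt (marg ν F) (odds E g)) v - tot F (tilt (marg ν F) (odds E g))) := by
    have h := integral_cyl ν F (fun S => (if v ∈ S then 1 else -1) * (c * ∏ i ∈ S, odds E g i))
    have e : ∀ ω : I → Bool, sg (ω v) * ∏ i ∈ E, g i (ω i) =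
        (if v ∈ F.filter (fun i => ω i = true) then 1 else -1) *
          (c * ∏ i ∈ F.filter (fun i => ω i = true), odds E g i) := by
      intro ω
      rw [prod_weights E F hEF g hg]
      congr 1
      simp only [Finset.mem_filter, hvF, true_and]
      cases ω v <;> simp
    rw [integral_congr_ae (ae_of_all ν e), h]
    unfold tot inc tilt
    rw [Finset.mul_sum, ← Finset.sum_sub_distrib, Finset.mul_sum]
    apply Finset.sum_congr rfl
    intro S _
    split_ifs <;> ring
  unfold postν tmean
  rw [hden, hnum]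
  rw [mul_div_mul_left _ _ hcpos.ne']

lemma odds_pos (E : Finset I) (g : I → Bool → ℝ) (hg : ∀ i b, 0 < g i b) (i : I) :
    0 < odds E g i := by
  unfold odds
  split_ifs
  · exact div_pos (hg i true) (hg i false)
  · exact one_pos

/-- Tilted means are Lipschitz in the observations. -/
lemma tmean_obs_lip {F E : Finset I} {w : Finset I → ℝ} (hw : ∀ S, 0 ≤ w S)
    (hpos : ∃ S ∈ F.powerset, 0 < w S) (hrow : RowBd F w) {v : I} (hv : v ∈ F)
    (g : I → Bool → ℝ) (hg : ∀ i b, 0 < g i b) (t t' : I → ℝ)
    (ht : ∀ i, t i ∈ Set.Icc (0:ℝ) 1) (ht' : ∀ i, t' i ∈ Set.Icc (0:ℝ) 1) (D : ℝ)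
    (hD : ∀ i, |t i - t' i| ≤ D) :
    |tmean F w v (odds E (fun i b => g i b * wt b (t i))) -
      tmean F w v (odds E (fun i b => g i b * wt b (t' i)))| ≤ 8 / 3 * D := by
  have hD0 : 0 ≤ D := (abs_nonneg _).trans (hD v)
  have hwt : ∀ (s : I → ℝ), (∀ i, s i ∈ Set.Icc (0:ℝ) 1) → ∀ i b, 0 < wt b (s i) :=
    fun s hs i b => wt_pos b ⟨s i, hs i⟩
  have hgp : ∀ (s : I → ℝ), (∀ i, s i ∈ Set.Icc (0:ℝ) 1) → ∀ i b, 0 < g i b * wt b (s i) :=
    fun s hs i b => mul_pos (hg i b) (hwt s hs i b)
  have hexp : ∀ (s : I → ℝ), (∀ i, s i ∈ Set.Icc (0:ℝ) 1) →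
      odds E (fun i b => g i b * wt b (s i)) =
        fun i => Real.exp (Real.log (odds E (fun i b => g i b * wt b (s i)) i)) := by
    intro s hs
    ext i
    rw [Real.exp_log (odds_pos E _ (hgp s hs) i)]
  rw [hexp t ht, hexp t' ht']
  apply tmean_lip hw hpos hrow hv
  intro i _
  unfold odds
  by_cases hi : i ∈ E
  · rw [if_pos hi, if_pos hi]
    have e : ∀ s : I → ℝ, (∀ i, s i ∈ Set.Icc (0:ℝ) 1) →
        Real.log (g i true * wt true (s i) / (g i false * wt false (s i))) =
        Real.log (g i true / g i false) + Real.log (wt true (s i) / wt false (s i)) := by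
      intro s hs
      rw [mul_div_mul_comm, Real.log_mul (div_pos (hg i true) (hg i false)).ne'
        (div_pos (hwt s hs i true) (hwt s hs i false)).ne']
    rw [e t ht, e t' ht', add_sub_add_left_eq_sub]
    refine (logodds_lip (ht' i) (ht i)).trans ?_
    exact mul_le_mul_of_nonneg_left (hD i) (by norm_num)
  · rw [if_neg hi, if_neg hi, sub_self, abs_zero]
    positivity

theorem lipPost_of_rowBd (ν : Measure (I → Bool)) [IsProbabilityMeasure ν]
    (hrow : ∀ F : Finset I, RowBd F (marg ν F)) : LipPost (postν ν) (8 / 3) := by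
  intro E g hg t t' ht ht' D hD v
  have hwt : ∀ (s : I → ℝ), (∀ i, s i ∈ Set.Icc (0:ℝ) 1) → ∀ i b, 0 < g i b * wt b (s i) :=
    fun s hs i b => mul_pos (hg i b) (wt_pos b ⟨s i, hs i⟩)
  rw [postν_eq_tmean ν E _ (hwt t ht) v, postν_eq_tmean ν E _ (hwt t' ht') v]
  exact tmean_obs_lip (marg_nonneg ν _) (exists_marg_pos ν _) (hrow _)
    (Finset.mem_insert_self _ _) g hg t t' ht ht' D hD

open Crest.ProbabilityR.StronglyRayleigh in
theorem lipPost_of_sr (ν : Measure (I → Bool)) [IsProbabilityMeasure ν]
    (hsr : IsStronglyRayleigh ν) : LipPost (postν ν) (8 / 3) := by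
  apply lipPost_of_rowBd
  intro F
  apply rowBd_of_stable
  · intro z hz
    have h := hsr F z hz
    exact h
  · exact marg_nonneg ν F
  · exact exists_marg_pos ν F

end Crest.Agent.H14
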