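import Crest.Agent.H14Rosen3

set_option autoImplicit false

/-!
Reindexing of independent uniform fields, almost sure injectivity, and reading off the hidden
configuration from the observations by the law of large numbers.
-/

open MeasureTheory ProbabilityTheory Filter Topology

namespace Crest.Agent.H14

lemma noise_comp_inj {A O : Type*} (f : A → O) (hf : Function.Injective f) :
    (noise O).map (fun z a => z (f a)) = noise A :=
  Measure.map_infinitePi_infinitePi_of_inj (P := fun _ : O => (volume : Measure UI)) hf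

lemma noise_sum {A B : Type*} :
    ((noise A).prod (noise B)).map (fun p => (Sum.elim p.1 p.2 : A ⊕ B → UI)) = noise (A ⊕ B) := by
  have hm : Measurable (fun p : (A → UI) × (B → UI) => (Sum.elim p.1 p.2 : A ⊕ B → UI)) := by
    apply measurable_pi_lambda
    rintro (a | b)
    · exact (measurable_pi_apply a).comp measurable_fst
    · exact (measurable_pi_apply b).comp measurable_snd
  apply Measure.eq_infinitePi
  intro S t ht
  rw [Measure.map_apply hm (MeasurableSet.pi S.countable_toSet (fun i _ => ht i))]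
  have : (fun p : (A → UI) × (B → UI) => (Sum.elim p.1 p.2 : A ⊕ B → UI)) ⁻¹' (Set.pi S t) =
      (Set.pi (S.toLeft : Set A) (fun a => t (Sum.inl a))) ×ˢ
        (Set.pi (S.toRight : Set B) (fun b => t (Sum.inr b))) := by
    ext ⟨x, y⟩
    simp only [Set.mem_preimage, Set.mem_pi, Finset.mem_coe, Set.mem_prod, Finset.mem_toLeft,
      Finset.mem_toRight]
    constructor
    · intro h
      exact ⟨fun a ha => h (Sum.inl a) ha, fun b hb => h (Sum.inr b) hb⟩
    · rintro ⟨h1, h2⟩ (a | b) hab
      · exact h1 a hab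
      · exact h2 b hab
  rw [this, Measure.prod_prod, Measure.infinitePi_pi _ (fun i _ => ht _),
    Measure.infinitePi_pi _ (fun i _ => ht _), Finset.prod_sum_eq_prod_toLeft_mul_prod_toRight]

lemma noise_split {A B O : Type*} (f : A → O) (g : B → O)
    (h : Function.Injective (Sum.elim f g)) :
    (noise O).map (fun z => ((fun a => z (f a)), (fun b => z (g b)))) =
      (noise A).prod (noise B) := by
  have hm1 : Measurable (fun (z : O → UI) (i : A ⊕ B) => z (Sum.elim f g i)) :=
    measurable_pi_lambda _ (fun i => measurable_pi_apply _)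
  have hm2 : Measurable (fun z : A ⊕ B → UI => ((fun a => z (Sum.inl a)), (fun b => z (Sum.inr b)))) :=
    (measurable_pi_lambda _ (fun i => measurable_pi_apply _)).prodMk
      (measurable_pi_lambda _ (fun i => measurable_pi_apply _))
  have hm3 : Measurable (fun p : (A → UI) × (B → UI) => (Sum.elim p.1 p.2 : A ⊕ B → UI)) := by
    apply measurable_pi_lambda
    rintro (a | b)
    · exact (measurable_pi_apply a).comp measurable_fst
    · exact (measurable_pi_apply b).comp measurable_snd
  have e : (fun z : O → UI => ((fun a => z (f a)), (fun b => z (g b)))) =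
      (fun z : A ⊕ B → UI => ((fun a => z (Sum.inl a)), (fun b => z (Sum.inr b)))) ∘
      (fun (z : O → UI) (i : A ⊕ B) => z (Sum.elim f g i)) := rfl
  rw [e, ← Measure.map_map hm2 hm1, noise_comp_inj _ h, ← noise_sum, Measure.map_map hm2 hm3]
  have e2 : (fun z : A ⊕ B → UI => ((fun a => z (Sum.inl a)), (fun b => z (Sum.inr b)))) ∘
      (fun p : (A → UI) × (B → UI) => (Sum.elim p.1 p.2 : A ⊕ B → UI)) = id := rfl
  rw [e2, Measure.map_id]

/-- There is a map of the unit interval producing a sequence of independent uniform variables. -/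
lemma exists_split : ∃ τ : UI → (ℕ → UI), Measurable τ ∧ (volume : Measure UI).map τ = noise ℕ :=
  MeasureTheory.Measure.exists_measurable_map_eq (noise ℕ)

/-- A fixed such map. -/
noncomputable def tau : UI → (ℕ → UI) := Classical.choose exists_split

lemma measurable_tau : Measurable tau := (Classical.choose_spec exists_split).1

lemma map_tau : (volume : Measure UI).map tau = noise ℕ := (Classical.choose_spec exists_split).2

lemma noise_tau (O : Type*) :
    (noise O).map (fun (u : O → UI) (p : O × ℕ) => tau (u p.1) p.2) = noise (O × ℕ) := by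
  have h1 : (noise O).map (fun (u : O → UI) (o : O) => tau (u o)) =
      Measure.infinitePi (fun _ : O => noise ℕ) := by
    have := Measure.infinitePi_map_pi (μ := fun _ : O => (volume : Measure UI))
      (f := fun _ => tau) (fun _ => measurable_tau)
    rw [noise, this]
    congr 1
    ext1 o
    exact map_tau
  have h2 := Measure.infinitePi_map_curry_symm (ι := O) (κ := ℕ)
    (μ := fun _ _ => (volume : Measure UI))
  have hm : Measurable (fun (u : O → UI) (o : O) => tau (u o)) :=
    measurable_pi_lambda _ (fun o => measurable_tau.comp (measurable_pi_apply o))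
  have e : (fun (u : O → UI) (p : O × ℕ) => tau (u p.1) p.2) =
      (MeasurableEquiv.curry O ℕ UI).symm ∘ (fun (u : O → UI) (o : O) => tau (u o)) := rfl
  rw [e, ← Measure.map_map (MeasurableEquiv.measurable _) hm, h1]
  exact h2

/-- Almost surely the labels are distinct. -/
lemma ae_injective (O : Type*) [Countable O] : ∀ᵐ U ∂(noise O), Function.Injective U := by
  classical
  have h : ∀ i j : O, i ≠ j → ∀ᵐ U ∂(noise O), U i ≠ U j := by
    intro i j hij
    have hset : MeasurableSet {U : O → UI | U i = U j} :=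
      measurableSet_eq_fun (measurable_pi_apply i) (measurable_pi_apply j)
    rw [ae_iff]
    simp only [ne_eq, not_not]
    rw [← (update_mp (O := O) i).measure_preimage hset.nullMeasurableSet]
    have hset2 := (update_mp (O := O) i).measurable hset
    rw [Measure.prod_apply hset2]
    have : ∀ U : O → UI, (volume : Measure UI) (Prod.mk U ⁻¹' ((fun p : (O → UI) × UI =>
        Function.update p.1 i p.2) ⁻¹' {U : O → UI | U i = U j})) = 0 := by
      intro U
      have e : (Prod.mk U ⁻¹' ((fun p : (O → UI) × UI =>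
        Function.update p.1 i p.2) ⁻¹' {U : O → UI | U i = U j})) = {U j} := by
        ext w
        simp only [Set.mem_preimage, Set.mem_ofPred_eq, Function.update_self,
          Function.update_of_ne hij.symm, Set.mem_singleton_iff]
      rw [e]
      exact measure_singleton _
    rw [lintegral_congr this, lintegral_zero]
  have h2 : ∀ᵐ U ∂(noise O), ∀ i j : O, i ≠ j → U i ≠ U j := by
    rw [ae_all_iff]
    intro i
    rw [ae_all_iff]
    intro j
    by_cases hij : i = j
    · subst hij
      exact ae_of_all _ (fun U h => absurd rfl h)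
    · filter_upwards [h i j hij] with U hU _
      exact hU
  filter_upwards [h2] with U hU i j hij
  by_contra hne
  exact hU i j hne hij

open Classical in
/-- Read off a configuration from the observations. -/
noncomputable def readout {I : Type*} (y : ℕ × I → UI) : I → Bool := fun v =>
  decide (0 < limsup (fun n : ℕ => (∑ k ∈ Finset.range n, ((y (k, v) : ℝ) - 1 / 2)) / n) atTop)

lemma measurable_readout {I : Type*} : Measurable (readout : (ℕ × I → UI) → I → Bool) := by
  classical
  apply measurable_pi_lambda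
  intro v
  unfold readout
  apply measurable_to_bool
  have h : Measurable (fun y : ℕ × I → UI =>
      limsup (fun n : ℕ => (∑ k ∈ Finset.range n, ((y (k, v) : ℝ) - 1 / 2)) / n) atTop) := by
    apply Measurable.limsup
    intro n
    fun_prop
  have : (fun y : ℕ × I → UI => decide (0 < limsup (fun n : ℕ =>
      (∑ k ∈ Finset.range n, ((y (k, v) : ℝ) - 1 / 2)) / n) atTop)) ⁻¹' {true} =
      (fun y : ℕ × I → UI => limsup (fun n : ℕ =>
      (∑ k ∈ Finset.range n, ((y (k, v) : ℝ) - 1 / 2)) / n) atTop) ⁻¹' (Set.Ioi 0) := by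
    ext y; simp
  rw [this]
  exact h measurableSet_Ioi

lemma integral_Q (b : Bool) : ∫ w : UI, ((Q b w : UI) : ℝ) - 1 / 2 = sg b / 12 := by
  have hm : Measurable (fun t : UI => (t : ℝ) - 1 / 2) := by fun_prop
  have h1 : ∫ w : UI, ((Q b w : UI) : ℝ) - 1 / 2 = ∫ t : UI, (t : ℝ) - 1 / 2 ∂(qm (sg b)) := by
    rw [← map_Q b, integral_map (measurable_Q b).aemeasurable hm.aestronglyMeasurable]
  rw [h1]
  unfold qm
  rw [integral_withDensity_eq_integral_toReal_smul (by fun_prop) (by simp)]
  have h2 : ∫ t : UI, (ENNReal.ofReal (1 + sg b * ((t:ℝ) - 1 / 2))).toReal • ((t:ℝ) - 1 / 2) =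
      ∫ t : UI, (1 + sg b * ((t:ℝ) - 1 / 2)) * ((t:ℝ) - 1 / 2) := by
    apply integral_congr_ae
    apply ae_of_all
    intro t
    simp only [smul_eq_mul]
    rw [ENNReal.toReal_ofReal (dens_nonneg (by rw [abs_sg]) t.2)]
  rw [h2]
  have hmp := unitInterval.measurePreserving_coe
  have h3 : ∫ t : UI, (1 + sg b * ((t:ℝ) - 1 / 2)) * ((t:ℝ) - 1 / 2) =
      ∫ t in unitInterval, (1 + sg b * (t - 1 / 2)) * (t - 1 / 2) :=
    hmp.integral_comp unitInterval.measurableEmbedding_coe
      (fun t : ℝ => (1 + sg b * (t - 1 / 2)) * (t - 1 / 2))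
  rw [h3]
  have h4 : ∫ t in unitInterval, (1 + sg b * (t - 1 / 2)) * (t - 1 / 2) =
      ∫ t in (0:ℝ)..1, (1 + sg b * (t - 1 / 2)) * (t - 1 / 2) := by
    rw [intervalIntegral.integral_of_le zero_le_one, ← integral_Icc_eq_integral_Ioc]
  rw [h4]
  have hd : ∀ t ∈ Set.uIcc (0:ℝ) 1, HasDerivAt
      (fun t : ℝ => (t - 1 / 2) ^ 2 / 2 + sg b * ((t - 1 / 2) ^ 3 / 3))
      ((1 + sg b * (t - 1 / 2)) * (t - 1 / 2)) t := by
    intro t _
    have a1 : HasDerivAt (fun t : ℝ => t - 1 / 2) 1 t := (hasDerivAt_id t).sub_const _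
    have a2 := ((a1.pow 2).div_const 2).add (((a1.pow 3).div_const 3).const_mul (sg b))
    refine a2.congr_deriv ?_
    simp
    ring
  rw [intervalIntegral.integral_eq_sub_of_hasDerivAt hd]
  · ring
  · apply Continuous.intervalIntegrable; fun_prop

variable {I : Type*}

lemma lln (b : Bool) (v : I) : ∀ᵐ W ∂(noise (ℕ × I)),
    Tendsto (fun n : ℕ => (∑ k ∈ Finset.range n, (((Q b (W (k, v)) : UI) : ℝ) - 1 / 2)) / n)
      atTop (𝓝 (sg b / 12)) := by
  have hQm : Measurable (fun w : UI => ((Q b w : UI) : ℝ) - 1 / 2) :=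
    (measurable_subtype_coe.comp (measurable_Q b)).sub_const _
  have hXm : ∀ k : ℕ, Measurable (fun W : ℕ × I → UI => ((Q b (W (k, v)) : UI) : ℝ) - 1 / 2) :=
    fun k => hQm.comp (measurable_pi_apply _)
  have hmapk : ∀ k : ℕ, (noise (ℕ × I)).map (fun W : ℕ × I → UI => W (k, v)) = volume :=
    fun k => Measure.infinitePi_map_eval (fun _ : ℕ × I => (volume : Measure UI)) (k, v)
  have h := strong_law_ae_real (μ := noise (ℕ × I))
    (fun (k : ℕ) (W : ℕ × I → UI) => ((Q b (W (k, v)) : UI) : ℝ) - 1 / 2) ?_ ?_ ?_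
  · have e : ∫ W, (fun (k : ℕ) (W : ℕ × I → UI) => ((Q b (W (k, v)) : UI) : ℝ) - 1 / 2) 0 W
        ∂(noise (ℕ × I)) = sg b / 12 := by
      rw [← integral_Q b]
      have := integral_map (μ := noise (ℕ × I)) (φ := fun W : ℕ × I → UI => W (0, v))
        (measurable_pi_apply _).aemeasurable (f := fun w : UI => ((Q b w : UI) : ℝ) - 1 / 2)
        (by rw [hmapk 0]; exact hQm.aestronglyMeasurable)
      rw [hmapk 0] at this
      exact this.symm
    rw [e] at h
    exact h
  · apply bdd_integrable (hXm 0) 1
    intro W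
    exact abs_sub_half_le _
  · intro k l hkl
    have hi := iIndepFun_infinitePi (P := fun _ : ℕ × I => (volume : Measure UI))
      (X := fun (_ : ℕ × I) (w : UI) => ((Q b w : UI) : ℝ) - 1 / 2) (fun _ => hQm)
    exact hi.indepFun (i := (k, v)) (j := (l, v)) (by
      intro h
      exact hkl (Prod.ext_iff.1 h).1)
  · intro k
    refine ⟨(hXm k).aemeasurable, (hXm 0).aemeasurable, ?_⟩
    have e : ∀ k : ℕ, (noise (ℕ × I)).map
        (fun W : ℕ × I → UI => ((Q b (W (k, v)) : UI) : ℝ) - 1 / 2) =
        (volume : Measure UI).map (fun w : UI => ((Q b w : UI) : ℝ) - 1 / 2) := by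
      intro k
      have hev : Measurable (fun W : ℕ × I → UI => W (k, v)) := measurable_pi_apply _
      rw [← hmapk k, Measure.map_map hQm hev]
      rfl
    exact (e k).trans (e 0).symm

/-- The hidden configuration is read off almost surely. -/
lemma readout_Y [Countable I] (ν : Measure (I → Bool)) [IsProbabilityMeasure ν] :
    ∀ᵐ ω ∂(jl ν), readout (Y ω) = ω.1 := by
  have h1 : ∀ᵐ W ∂(noise (ℕ × I)), ∀ (b : Bool) (v : I),
      Tendsto (fun n : ℕ => (∑ k ∈ Finset.range n, (((Q b (W (k, v)) : UI) : ℝ) - 1 / 2)) / n)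
      atTop (𝓝 (sg b / 12)) := by
    rw [ae_all_iff]
    intro b
    rw [ae_all_iff]
    intro v
    exact lln b v
  have h2 : ∀ᵐ ω ∂(jl ν), ∀ (b : Bool) (v : I),
      Tendsto (fun n : ℕ => (∑ k ∈ Finset.range n, (((Q b (ω.2 (k, v)) : UI) : ℝ) - 1 / 2)) / n)
      atTop (𝓝 (sg b / 12)) :=
    Measure.quasiMeasurePreserving_snd.ae h1
  filter_upwards [h2] with ω hω
  ext1 v
  have h3 := (hω (ω.1 v) v).limsup_eq
  unfold readout
  have e : (fun n : ℕ => (∑ k ∈ Finset.range n, ((Y ω (k, v) : ℝ) - 1 / 2)) / n) =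
      (fun n : ℕ => (∑ k ∈ Finset.range n, (((Q (ω.1 v) (ω.2 (k, v)) : UI) : ℝ) - 1 / 2)) / n) := rfl
  rw [e, h3]
  cases ω.1 v <;> simp

lemma map_readout [Countable I] (ν : Measure (I → Bool)) [IsProbabilityMeasure ν] :
    (jl ν).map (fun ω => readout (Y ω)) = ν := by
  rw [Measure.map_congr (readout_Y ν)]
  have : (jl ν).map Prod.fst = ν := by
    rw [← Measure.fst]
    exact Measure.fst_prod
  exact this

end Crest.Agent.H14
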