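import Crest.Agent.H14UstNC
import Crest.Agent.H14Marg
import Crest.Prelude.Def_GraphTables

set_option autoImplicit false

/-!
Shared definitions for the free uniform spanning forest as a factor of iid labels.
-/

open MeasureTheory Filter Topology
open Crest.ProbabilityR.SpanningTrees Crest.ProbabilityR.GraphTables

namespace Crest.Agent.H14

open Classical in
/-- The limiting inclusion probability: infimum over all finite connected pieces containing `F`
(with the harmless default value `1` for the other finite sets). -/
noncomputable def pinc (G : SimpleGraph ℕ) (F : Finset (Sym2 ℕ)) : ℝ :=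
  ⨅ S : Finset ℕ, if (G.induce (S : Set ℕ)).Connected ∧ F ⊆ edgesIn G S then
    ustContains G S F else 1

/-- Action of a permutation of the vertices on pairs, as an embedding. -/
def symEmb (σ : Equiv.Perm ℕ) : Sym2 ℕ ↪ Sym2 ℕ :=
  ⟨Sym2.map σ, Sym2.map.injective σ.injective⟩

end Crest.Agent.H14
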