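import Crest.Agent.H14Sel
import Crest.Agent.H14Read
import Crest.Agent.H14UstDefs

set_option autoImplicit false

/-!
Orders on pairs and noise on edges from vertex labels.
-/

open MeasureTheory ProbabilityTheory Filter Topology
open Crest.ProbabilityR.GraphTables

namespace Crest.Agent.H14

/-- Order labels of the vertices. -/
noncomputable def Ux (x : ℕ → UI) : ℕ → UI := fun a => tau (x a) 0

/-- Noise labels of the vertices. -/
noncomputable def Wx (x : ℕ → UI) : ℕ × ℕ → UI := fun p => tau (x p.1) (p.2 + 1)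

/-- Smaller endpoint label. -/
noncomputable def mnU (U : ℕ → UI) (e : Sym2 ℕ) : UI :=
  Sym2.lift ⟨fun a b => min (U a) (U b), fun _ _ => min_comm _ _⟩ e

/-- Larger endpoint label. -/
noncomputable def mxU (U : ℕ → UI) (e : Sym2 ℕ) : UI :=
  Sym2.lift ⟨fun a b => max (U a) (U b), fun _ _ => max_comm _ _⟩ e

/-- Order of the pairs by the endpoint labels. -/
def rU (U : ℕ → UI) (e f : Sym2 ℕ) : Prop :=
  mnU U e < mnU U f ∨ (mnU U e = mnU U f ∧ mxU U e < mxU U f)

lemma mnU_mk (U : ℕ → UI) (a b : ℕ) : mnU U s(a, b) = min (U a) (U b) := rfl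

lemma mxU_mk (U : ℕ → UI) (a b : ℕ) : mxU U s(a, b) = max (U a) (U b) := rfl

lemma key_inj {U : ℕ → UI} (hU : Function.Injective U) {e f : Sym2 ℕ}
    (h1 : mnU U e = mnU U f) (h2 : mxU U e = mxU U f) : e = f := by
  induction e using Sym2.inductionOn with
  | _ a b =>
  induction f using Sym2.inductionOn with
  | _ c d =>
  rw [mnU_mk, mnU_mk] at h1
  rw [mxU_mk, mxU_mk] at h2
  rcases le_total (U a) (U b) with hab | hab <;> rcases le_total (U c) (U d) with hcd | hcd
  · rw [min_eq_left hab, min_eq_left hcd] at h1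
    rw [max_eq_right hab, max_eq_right hcd] at h2
    rw [hU h1, hU h2]
  · rw [min_eq_left hab, min_eq_right hcd] at h1
    rw [max_eq_right hab, max_eq_left hcd] at h2
    rw [hU h1, hU h2, Sym2.eq_swap]
  · rw [min_eq_right hab, min_eq_left hcd] at h1
    rw [max_eq_left hab, max_eq_right hcd] at h2
    rw [hU h1, hU h2, Sym2.eq_swap]
  · rw [min_eq_right hab, min_eq_right hcd] at h1
    rw [max_eq_left hab, max_eq_left hcd] at h2
    rw [hU h1, hU h2]

lemma rU_sto {U : ℕ → UI} (hU : Function.Injective U) {I : Type*} (f : I → Sym2 ℕ)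
    (hf : Function.Injective f) : IsStrictTotalOrder I (fun i j => rU U (f i) (f j)) := by
  have h1 : Std.Irrefl (fun i j => rU U (f i) (f j)) := ⟨fun a => by
    rintro (h | ⟨_, h⟩)
    · exact lt_irrefl _ h
    · exact lt_irrefl _ h⟩
  have h2 : IsTrans I (fun i j => rU U (f i) (f j)) := ⟨fun a b c => by
    rintro (h | ⟨h, h'⟩) (g | ⟨g, g'⟩)
    · exact Or.inl (h.trans g)
    · exact Or.inl (h.trans_eq g)
    · exact Or.inl (h.trans_lt g)
    · exact Or.inr ⟨h.trans g, h'.trans g'⟩⟩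
  have h3 : Std.Trichotomous (fun i j => rU U (f i) (f j)) := ⟨fun a b h1 h2 => by
    have h1' : ¬ (mnU U (f a) < mnU U (f b)) := fun h => h1 (Or.inl h)
    have h2' : ¬ (mnU U (f b) < mnU U (f a)) := fun h => h2 (Or.inl h)
    have he : mnU U (f a) = mnU U (f b) := le_antisymm (not_lt.1 h2') (not_lt.1 h1')
    have h1'' : ¬ (mxU U (f a) < mxU U (f b)) := fun h => h1 (Or.inr ⟨he, h⟩)
    have h2'' : ¬ (mxU U (f b) < mxU U (f a)) := fun h => h2 (Or.inr ⟨he.symm, h⟩)
    have he' : mxU U (f a) = mxU U (f b) := le_antisymm (not_lt.1 h2'') (not_lt.1 h1'')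
    exact hf (key_inj hU he he')⟩
  exact { }

lemma measurable_mnU (e : Sym2 ℕ) : Measurable (fun U : ℕ → UI => mnU U e) := by
  induction e using Sym2.inductionOn with
  | _ a b => exact (measurable_pi_apply a).min (measurable_pi_apply b)

lemma measurable_mxU (e : Sym2 ℕ) : Measurable (fun U : ℕ → UI => mxU U e) := by
  induction e using Sym2.inductionOn with
  | _ a b => exact (measurable_pi_apply a).max (measurable_pi_apply b)

lemma measurableSet_rU (e f : Sym2 ℕ) : MeasurableSet {U : ℕ → UI | rU U e f} := by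
  have h1 := measurableSet_lt (measurable_mnU e) (measurable_mnU f)
  have h2 := measurableSet_eq_fun (measurable_mnU e) (measurable_mnU f)
  have h3 := measurableSet_lt (measurable_mxU e) (measurable_mxU f)
  exact h1.union (h2.inter h3)

lemma mnU_map (U : ℕ → UI) (σ : Equiv.Perm ℕ) (e : Sym2 ℕ) :
    mnU U (Sym2.map σ e) = mnU (U ∘ σ) e := by
  induction e using Sym2.inductionOn with
  | _ a b => rfl

lemma mxU_map (U : ℕ → UI) (σ : Equiv.Perm ℕ) (e : Sym2 ℕ) :
    mxU U (Sym2.map σ e) = mxU (U ∘ σ) e := by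
  induction e using Sym2.inductionOn with
  | _ a b => rfl

lemma rU_map (U : ℕ → UI) (σ : Equiv.Perm ℕ) (e f : Sym2 ℕ) :
    rU U (Sym2.map σ e) (Sym2.map σ f) ↔ rU (U ∘ σ) e f := by
  unfold rU
  rw [mnU_map, mnU_map, mxU_map, mxU_map]

/-! ### Noise on the edges -/

/-- Rank of the neighbour `b` of `a`. -/
noncomputable def rk (G : SimpleGraph ℕ) (U : ℕ → UI) (a b : ℕ) : ℕ :=
  (toFin {c | G.Adj a c ∧ U c < U b}).card

open Classical in
/-- Noise of round `k` at the pair `{a, b}`. -/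
noncomputable def Vab (G : SimpleGraph ℕ) (U : ℕ → UI) (W : ℕ × ℕ → UI) (k a b : ℕ) : UI :=
  if U a < U b then W (a, Nat.pair k (rk G U a b)) else
    if U b < U a then W (b, Nat.pair k (rk G U b a)) else 0

lemma Vab_symm (G : SimpleGraph ℕ) (U : ℕ → UI) (W : ℕ × ℕ → UI) (k a b : ℕ) :
    Vab G U W k a b = Vab G U W k b a := by
  unfold Vab
  rcases lt_trichotomy (U a) (U b) with h | h | h
  · rw [if_pos h, if_neg (not_lt_of_gt h), if_pos h]
  · have h1 : ¬ U a < U b := by rw [h]; exact lt_irrefl _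
    have h2 : ¬ U b < U a := by rw [h]; exact lt_irrefl _
    rw [if_neg h1, if_neg h2, if_neg h2, if_neg h1]
  · rw [if_neg (not_lt_of_gt h), if_pos h, if_pos h]

/-- Noise field on pairs. -/
noncomputable def VV (G : SimpleGraph ℕ) (U : ℕ → UI) (W : ℕ × ℕ → UI) (α : ℕ × Sym2 ℕ) : UI :=
  Sym2.lift ⟨fun a b => Vab G U W α.1 a b, fun a b => Vab_symm G U W α.1 a b⟩ α.2

lemma VV_mk (G : SimpleGraph ℕ) (U : ℕ → UI) (W : ℕ × ℕ → UI) (k a b : ℕ) :
    VV G U W (k, s(a, b)) = Vab G U W k a b := rfl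

lemma rk_lt (G : SimpleGraph ℕ) (hlf : ∀ v, (G.neighborSet v).Finite) (U : ℕ → UI) (a b b' : ℕ)
    (hb : G.Adj a b) (h : U b < U b') : rk G U a b < rk G U a b' := by
  unfold rk
  have hfin : ∀ d, {c | G.Adj a c ∧ U c < U d}.Finite := fun d =>
    (hlf a).subset (fun c hc => hc.1)
  apply Finset.card_lt_card
  rw [Finset.ssubset_iff_of_subset]
  · refine ⟨b, ?_, ?_⟩
    · rw [mem_toFin (hfin b')]
      exact ⟨hb, h⟩
    · rw [mem_toFin (hfin b)]
      exact fun hh => lt_irrefl _ hh.2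
  · intro c hc
    rw [mem_toFin (hfin _)] at hc ⊢
    exact ⟨hc.1, hc.2.trans h⟩

lemma exists_index (G : SimpleGraph ℕ) (hlf : ∀ v, (G.neighborSet v).Finite) (U : ℕ → UI)
    (hU : Function.Injective U) : ∃ φ : ℕ × ↥G.edgeSet → ℕ × ℕ, Function.Injective φ ∧
      ∀ (W : ℕ × ℕ → UI) (α : ℕ × ↥G.edgeSet), VV G U W (α.1, α.2.1) = W (φ α) := by
  have hch : ∀ e : ↥G.edgeSet, ∃ p : ℕ × ℕ, s(p.1, p.2) = e.1 ∧ U p.1 < U p.2 ∧ G.Adj p.1 p.2 := by
    rintro ⟨e, he⟩
    induction e using Sym2.inductionOn with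
    | _ a b =>
    have hadj : G.Adj a b := he
    rcases lt_trichotomy (U a) (U b) with h | h | h
    · exact ⟨(a, b), rfl, h, hadj⟩
    · exact absurd (hU h) hadj.ne
    · exact ⟨(b, a), Sym2.eq_swap, h, hadj.symm⟩
  choose p hp1 hp2 hp3 using hch
  refine ⟨fun α => ((p α.2).1, Nat.pair α.1 (rk G U (p α.2).1 (p α.2).2)), ?_, ?_⟩
  · rintro ⟨k, e⟩ ⟨k', e'⟩ h
    simp only [Prod.mk.injEq, Nat.pair_eq_pair] at h
    obtain ⟨h1, h2, h3⟩ := h
    rw [h2]
    congr 1
    have h4 : (p e).2 = (p e').2 := by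
      rcases lt_trichotomy (U (p e).2) (U (p e').2) with h | h | h
      · have := rk_lt G hlf U (p e).1 _ _ (hp3 e) h
        rw [h3, h1] at this
        exact absurd this (lt_irrefl _)
      · exact hU h
      · have := rk_lt G hlf U (p e').1 _ _ (hp3 e') h
        rw [← h3, ← h1] at this
        exact absurd this (lt_irrefl _)
    apply Subtype.ext
    rw [← hp1 e, ← hp1 e', h1, h4]
  · rintro W ⟨k, e⟩
    simp only
    rw [← hp1 e, VV_mk]
    unfold Vab
    rw [if_pos (hp2 e)]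

lemma rk_comap (G : SimpleGraph ℕ) (σ : Equiv.Perm ℕ) (U : ℕ → UI) (a b : ℕ) :
    rk (G.comap σ) (U ∘ σ) a b = rk G U (σ a) (σ b) := by
  unfold rk
  rw [toFin_map σ.toEmbedding {c | (G.comap σ).Adj a c ∧ (U ∘ σ) c < (U ∘ σ) b}
    {c | G.Adj (σ a) c ∧ U c < U (σ b)}]
  · rw [Finset.card_map]
  · ext c
    simp only [Set.mem_ofPred_eq, Set.mem_image, SimpleGraph.comap_adj, Function.comp,
      Equiv.coe_toEmbedding]
    constructor
    · intro h
      exact ⟨σ.symm c, by simpa using h, by simp⟩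
    · rintro ⟨d, hd, rfl⟩
      exact hd

lemma VV_comap (G : SimpleGraph ℕ) (σ : Equiv.Perm ℕ) (U : ℕ → UI) (W : ℕ × ℕ → UI) (k : ℕ)
    (e : Sym2 ℕ) :
    VV (G.comap σ) (U ∘ σ) (fun p => W (σ p.1, p.2)) (k, e) = VV G U W (k, Sym2.map σ e) := by
  induction e using Sym2.inductionOn with
  | _ a b =>
  rw [Sym2.map_mk, VV_mk, VV_mk]
  unfold Vab
  rw [rk_comap, rk_comap]
  rfl

/-! ### Measurability -/

lemma measurableSet_adj (a b : ℕ) : MeasurableSet {A : ℕ → ℕ → Bool | (graphOfTable A).Adj a b} := by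
  have h : ∀ i j : ℕ, MeasurableSet {A : ℕ → ℕ → Bool | A i j = true} := by
    intro i j
    have hm : Measurable (fun A : ℕ → ℕ → Bool => A i j) :=
      (measurable_pi_apply j).comp (measurable_pi_apply i)
    exact hm (MeasurableSet.of_discrete (s := ({true} : Set Bool)))
  by_cases hab : a = b
  · have : {A : ℕ → ℕ → Bool | (graphOfTable A).Adj a b} = ∅ := by
      ext A
      subst hab
      simp
    rw [this]; exact MeasurableSet.empty
  · have : {A : ℕ → ℕ → Bool | (graphOfTable A).Adj a b} =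
        {A | A a b = true} ∪ {A | A b a = true} := by
      ext A
      simp [graphOfTable, SimpleGraph.fromRel_adj, hab]
    rw [this]
    exact (h a b).union (h b a)

lemma measurableSet_edge (e : Sym2 ℕ) :
    MeasurableSet {A : ℕ → ℕ → Bool | e ∈ (graphOfTable A).edgeSet} := by
  induction e using Sym2.inductionOn with
  | _ a b => exact measurableSet_adj a b

lemma measurableSet_rk (a b m : ℕ) :
    MeasurableSet {p : (ℕ → ℕ → Bool) × (ℕ → UI) | rk (graphOfTable p.1) p.2 a b = m} := by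
  have h : ∀ C : Finset ℕ, MeasurableSet {p : (ℕ → ℕ → Bool) × (ℕ → UI) |
      toFin {c | (graphOfTable p.1).Adj a c ∧ p.2 c < p.2 b} = C} := by
    intro C
    apply measurableSet_toFin (fun p : (ℕ → ℕ → Bool) × (ℕ → UI) =>
      {c | (graphOfTable p.1).Adj a c ∧ p.2 c < p.2 b})
    intro c
    have h1 : MeasurableSet {p : (ℕ → ℕ → Bool) × (ℕ → UI) | (graphOfTable p.1).Adj a c} :=
      measurable_fst (measurableSet_adj a c)
    have h2 : MeasurableSet {p : (ℕ → ℕ → Bool) × (ℕ → UI) | p.2 c < p.2 b} :=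
      measurableSet_lt ((measurable_pi_apply c).comp measurable_snd)
        ((measurable_pi_apply b).comp measurable_snd)
    exact h1.inter h2
  have : {p : (ℕ → ℕ → Bool) × (ℕ → UI) | rk (graphOfTable p.1) p.2 a b = m} =
      ⋃ C : {C : Finset ℕ // C.card = m}, {p : (ℕ → ℕ → Bool) × (ℕ → UI) |
        toFin {c | (graphOfTable p.1).Adj a c ∧ p.2 c < p.2 b} = C.1} := by
    ext p
    simp only [Set.mem_ofPred_eq, Set.mem_iUnion, Subtype.exists, exists_prop, rk]
    constructor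
    · intro h
      exact ⟨_, h, rfl⟩
    · rintro ⟨C, hC, h⟩
      rw [h, hC]
  rw [this]
  exact MeasurableSet.iUnion (fun C => h C.1)

lemma measurable_VV (α : ℕ × Sym2 ℕ) :
    Measurable (fun p : ((ℕ → ℕ → Bool) × (ℕ → UI)) × (ℕ × ℕ → UI) =>
      VV (graphOfTable p.1.1) p.1.2 p.2 α) := by
  classical
  obtain ⟨k, e⟩ := α
  induction e using Sym2.inductionOn with
  | _ a b =>
  have hlt : ∀ a b : ℕ, MeasurableSet {p : ((ℕ → ℕ → Bool) × (ℕ → UI)) × (ℕ × ℕ → UI) |
      p.1.2 a < p.1.2 b} := fun a b =>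
    measurableSet_lt ((measurable_pi_apply a).comp (measurable_snd.comp measurable_fst))
      ((measurable_pi_apply b).comp (measurable_snd.comp measurable_fst))
  have hW : ∀ a b : ℕ, Measurable (fun p : ((ℕ → ℕ → Bool) × (ℕ → UI)) × (ℕ × ℕ → UI) =>
      p.2 (a, Nat.pair k (rk (graphOfTable p.1.1) p.1.2 a b))) := by
    intro a b
    apply measurable_dispatch
      (fun p : ((ℕ → ℕ → Bool) × (ℕ → UI)) × (ℕ × ℕ → UI) => rk (graphOfTable p.1.1) p.1.2 a b)
      (fun m => measurable_fst (measurableSet_rk a b m))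
      (fun m p => p.2 (a, Nat.pair k m))
    intro m
    exact (measurable_pi_apply _).comp measurable_snd
  change Measurable (fun p : ((ℕ → ℕ → Bool) × (ℕ → UI)) × (ℕ × ℕ → UI) =>
      Vab (graphOfTable p.1.1) p.1.2 p.2 k a b)
  unfold Vab
  apply Measurable.ite (hlt a b) (hW a b)
  exact Measurable.ite (hlt b a) (hW b a) measurable_const

lemma exists_table (G : SimpleGraph ℕ) : ∃ A : ℕ → ℕ → Bool, graphOfTable A = G := by
  classical
  refine ⟨fun i j => decide (G.Adj i j), ?_⟩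
  ext a b
  simp only [graphOfTable, SimpleGraph.fromRel_adj, decide_eq_true_eq]
  constructor
  · rintro ⟨_, h | h⟩
    · exact h
    · exact h.symm
  · intro h
    exact ⟨h.ne, Or.inl h⟩

lemma measurable_VV_fixed (G : SimpleGraph ℕ) (α : ℕ × Sym2 ℕ) :
    Measurable (fun p : (ℕ → UI) × (ℕ × ℕ → UI) => VV G p.1 p.2 α) := by
  obtain ⟨A, rfl⟩ := exists_table G
  have h : Measurable (fun p : (ℕ → UI) × (ℕ × ℕ → UI) =>
      (((A, p.1), p.2) : ((ℕ → ℕ → Bool) × (ℕ → UI)) × (ℕ × ℕ → UI))) :=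
    (measurable_const.prodMk measurable_fst).prodMk measurable_snd
  exact (measurable_VV α).comp h

/-! ### Law -/

lemma measurable_Ux : Measurable Ux := by
  apply measurable_pi_lambda
  intro a
  exact (measurable_pi_apply 0).comp (measurable_tau.comp (measurable_pi_apply a))

lemma measurable_Wx : Measurable Wx := by
  apply measurable_pi_lambda
  intro p
  exact (measurable_pi_apply (p.2 + 1)).comp (measurable_tau.comp (measurable_pi_apply p.1))

lemma map_UW : (noise ℕ).map (fun x => (Ux x, Wx x)) = (noise ℕ).prod (noise (ℕ × ℕ)) := by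
  have h1 := noise_tau ℕ
  have h2 := noise_split (A := ℕ) (B := ℕ × ℕ) (O := ℕ × ℕ) (fun v => (v, 0))
    (fun α => (α.1, α.2 + 1)) (by
      rintro (a | ⟨k, a⟩) (b | ⟨l, b⟩) h
      · simp at h; rw [h]
      · simp at h
      · simp at h
      · simp at h; rw [h.1, h.2])
  have hm1 : Measurable (fun (u : ℕ → UI) (p : ℕ × ℕ) => tau (u p.1) p.2) :=
    measurable_pi_lambda _ (fun p => (measurable_pi_apply p.2).comp
      (measurable_tau.comp (measurable_pi_apply p.1)))
  have hm2 : Measurable (fun z : ℕ × ℕ → UI =>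
      ((fun a => z (a, 0)), (fun b : ℕ × ℕ => z (b.1, b.2 + 1)))) :=
    (measurable_pi_lambda _ (fun i => measurable_pi_apply _)).prodMk
      (measurable_pi_lambda _ (fun i => measurable_pi_apply _))
  have e : (fun x : ℕ → UI => (Ux x, Wx x)) = (fun z : ℕ × ℕ → UI =>
      ((fun a => z (a, 0)), (fun b : ℕ × ℕ => z (b.1, b.2 + 1)))) ∘
      (fun (u : ℕ → UI) (p : ℕ × ℕ) => tau (u p.1) p.2) := rfl
  rw [e, ← Measure.map_map hm2 hm1, h1]
  exact h2

theorem map_UV (G : SimpleGraph ℕ) (hlf : ∀ v, (G.neighborSet v).Finite) :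
    (noise ℕ).map (fun x => ((Ux x, fun α : ℕ × ↥G.edgeSet => VV G (Ux x) (Wx x) (α.1, α.2.1)) :
      (ℕ → UI) × (ℕ × ↥G.edgeSet → UI))) = (noise ℕ).prod (noise (ℕ × ↥G.edgeSet)) := by
  have hm0 : Measurable (fun x : ℕ → UI => (Ux x, Wx x)) := measurable_Ux.prodMk measurable_Wx
  have hmV : Measurable (fun p : (ℕ → UI) × (ℕ × ℕ → UI) =>
      (fun α : ℕ × ↥G.edgeSet => VV G p.1 p.2 (α.1, α.2.1))) :=
    measurable_pi_lambda _ (fun α => measurable_VV_fixed G _)
  have hm1 : Measurable (fun p : (ℕ → UI) × (ℕ × ℕ → UI) =>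
      ((p.1, fun α : ℕ × ↥G.edgeSet => VV G p.1 p.2 (α.1, α.2.1)) :
        (ℕ → UI) × (ℕ × ↥G.edgeSet → UI))) := measurable_fst.prodMk hmV
  have e : (fun x => ((Ux x, fun α : ℕ × ↥G.edgeSet => VV G (Ux x) (Wx x) (α.1, α.2.1)) :
      (ℕ → UI) × (ℕ × ↥G.edgeSet → UI))) = (fun p : (ℕ → UI) × (ℕ × ℕ → UI) =>
      ((p.1, fun α : ℕ × ↥G.edgeSet => VV G p.1 p.2 (α.1, α.2.1)) :
        (ℕ → UI) × (ℕ × ↥G.edgeSet → UI))) ∘ (fun x : ℕ → UI => (Ux x, Wx x)) := rfl
  rw [e, ← Measure.map_map hm1 hm0, map_UW]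
  ext B hB
  rw [Measure.map_apply hm1 hB, Measure.prod_apply (hm1 hB), Measure.prod_apply hB]
  apply lintegral_congr_ae
  filter_upwards [ae_injective ℕ] with U hU
  obtain ⟨φ, hφ, hφV⟩ := exists_index G hlf U hU
  have hmφ : Measurable (fun (W : ℕ × ℕ → UI) (α : ℕ × ↥G.edgeSet) => W (φ α)) :=
    measurable_pi_lambda _ (fun α => measurable_pi_apply _)
  have h1 := noise_comp_inj φ hφ
  have hBU : MeasurableSet (Prod.mk U ⁻¹' B) := measurable_prodMk_left hB
  have h2 : (noise (ℕ × ↥G.edgeSet)) (Prod.mk U ⁻¹' B) =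
      noise (ℕ × ℕ) ((fun (W : ℕ × ℕ → UI) (α : ℕ × ↥G.edgeSet) => W (φ α)) ⁻¹'
        (Prod.mk U ⁻¹' B)) := by
    rw [← h1, Measure.map_apply hmφ hBU]
  rw [h2]
  congr 1
  ext W
  simp only [Set.mem_preimage]
  have : (fun α : ℕ × ↥G.edgeSet => VV G U W (α.1, α.2.1)) = fun α => W (φ α) := by
    ext1 α
    exact hφV W α
  rw [this]

end Crest.Agent.H14
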