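import Crest.Agent.H14Bayes

set_option autoImplicit false

/-!
The sequential distribution-function transform of the noisy observations produces independent
uniform variables.
-/

open MeasureTheory ProbabilityTheory Filter Topology

namespace Crest.Agent.H14

variable {I : Type*}

/-- Clip a real number to `[-1, 1]`. -/
noncomputable def clip (x : ℝ) : ℝ := max (-1) (min 1 x)

lemma abs_clip_le (x : ℝ) : |clip x| ≤ 1 := by
  unfold clip
  rw [abs_le]
  constructor
  · exact le_max_left _ _
  · exact max_le (by norm_num) (min_le_left _ _)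

lemma clip_of_abs_le {x : ℝ} (h : |x| ≤ 1) : clip x = x := by
  obtain ⟨h1, h2⟩ := abs_le.1 h
  unfold clip
  rw [min_eq_right h2, max_eq_right h1]

lemma clip_lip (x y : ℝ) : |clip x - clip y| ≤ |x - y| := by
  unfold clip
  calc |max (-1) (min 1 x) - max (-1) (min 1 y)| ≤ |min 1 x - min 1 y| := by
        rw [max_comm (-1), max_comm (-1)]
        exact abs_max_sub_max_le_abs _ _ _
    _ ≤ |x - y| := by
        have := abs_min_sub_min_le_max (1:ℝ) x 1 y
        simpa using this

lemma continuous_clip : Continuous clip := by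
  unfold clip; fun_prop

/-- Observations strictly before `α` for the relation `r` on sites: all observations of earlier
rounds and, in the same round, those of the sites `r`-before. -/
def past (r : I → I → Prop) (α : ℕ × I) : Set (ℕ × I) :=
  {β | β.1 < α.1 ∨ (β.1 = α.1 ∧ r β.2 α.2)}

open Classical in
/-- Site weights seen from `α`. -/
noncomputable def wfun (r : I → I → Prop) (y : ℕ × I → UI) (α : ℕ × I) : I → Bool → ℝ :=
  fun i b => (∏ j ∈ Finset.range α.1, wt b (y (j, i))) *
    wt b (if r i α.2 then ((y (α.1, i) : UI) : ℝ) else 1 / 2)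

/-- The (clipped) limiting posterior mean of the spin at `α.2` given the past of `α`, for a
posterior functional `post` and windows `N`. -/
noncomputable def pmean (post : Finset I → (I → Bool → ℝ) → I → ℝ) (r : I → I → Prop)
    (N : ℕ → I → Finset I) (y : ℕ × I → UI) (α : ℕ × I) : ℝ :=
  limsup (fun n => clip (post (N n α.2) (wfun r y α) α.2)) atTop

/-- The transform of the observation field. -/
noncomputable def T (post : Finset I → (I → Bool → ℝ) → I → ℝ) (r : I → I → Prop)
    (N : ℕ → I → Finset I) (y : ℕ × I → UI) : ℕ × I → UI :=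
  fun α => FI (pmean post r N y α) (y α)

/-- The posterior mean of the spin at `v` under the law `ν` reweighted by `∏ g`. -/
noncomputable def postν (ν : Measure (I → Bool)) (E : Finset I) (g : I → Bool → ℝ) (v : I) : ℝ :=
  (∫ s, sg (s v) * ∏ i ∈ E, g i (s i) ∂ν) / (∫ s, ∏ i ∈ E, g i (s i) ∂ν)

lemma limsup_clip_bdd (u : ℕ → ℝ) :
    IsBoundedUnder (· ≤ ·) atTop (fun n => clip (u n)) ∧
    IsCoboundedUnder (· ≤ ·) atTop (fun n => clip (u n)) ∧
    IsBoundedUnder (· ≥ ·) atTop (fun n => clip (u n)) := by
  have h1 : IsBoundedUnder (· ≤ ·) atTop (fun n => clip (u n)) :=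
    isBoundedUnder_of ⟨1, fun n => (abs_le.1 (abs_clip_le (u n))).2⟩
  have h2 : IsBoundedUnder (· ≥ ·) atTop (fun n => clip (u n)) :=
    isBoundedUnder_of ⟨-1, fun n => (abs_le.1 (abs_clip_le (u n))).1⟩
  exact ⟨h1, h2.isCoboundedUnder_le, h2⟩

lemma abs_pmean_le (post : Finset I → (I → Bool → ℝ) → I → ℝ) (r : I → I → Prop)
    (N : ℕ → I → Finset I) (y : ℕ × I → UI) (α : ℕ × I) : |pmean post r N y α| ≤ 1 := by
  unfold pmean
  obtain ⟨h1, h2, h3⟩ := limsup_clip_bdd (fun n => post (N n α.2) (wfun r y α) α.2)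
  rw [abs_le]
  constructor
  · refine le_limsup_of_frequently_le (Frequently.of_forall fun n => ?_) h1
    exact (abs_le.1 (abs_clip_le _)).1
  · refine limsup_le_of_le h2 (Eventually.of_forall fun n => ?_)
    exact (abs_le.1 (abs_clip_le _)).2

lemma wfun_congr (r : I → I → Prop) {y y' : ℕ × I → UI} {α : ℕ × I}
    (h : ∀ β ∈ past r α, y β = y' β) : wfun r y α = wfun r y' α := by
  classical
  ext i b
  unfold wfun
  congr 1
  · apply Finset.prod_congr rfl
    intro j hj
    rw [h (j, i) (Or.inl (Finset.mem_range.1 hj))]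
  · by_cases hr : r i α.2
    · rw [if_pos hr, if_pos hr, h (α.1, i) (Or.inr ⟨rfl, hr⟩)]
    · rw [if_neg hr, if_neg hr]

lemma pmean_congr (post : Finset I → (I → Bool → ℝ) → I → ℝ) (r : I → I → Prop)
    (N : ℕ → I → Finset I) {y y' : ℕ × I → UI} {α : ℕ × I}
    (h : ∀ β ∈ past r α, y β = y' β) : pmean post r N y α = pmean post r N y' α := by
  unfold pmean
  rw [wfun_congr r h]

open Classical in
/-- Finite window of observations in the past of `α`. -/
noncomputable def win (r : I → I → Prop) (N : ℕ → I → Finset I) (n : ℕ) (α : ℕ × I) :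
    Finset (ℕ × I) :=
  (Finset.range (α.1 + 1) ×ˢ N n α.2).filter (· ∈ past r α)

lemma prod_win (r : I → I → Prop) (N : ℕ → I → Finset I) (n : ℕ) (α : ℕ × I)
    (y : ℕ × I → UI) (s : I → Bool) :
    ∏ β : win r N n α, wt (s β.1.2) ((win r N n α).restrict y β) =
      ∏ i ∈ N n α.2, wfun r y α i (s i) := by
  classical
  have h1 : ∏ β : win r N n α, wt (s β.1.2) ((win r N n α).restrict y β) =
      ∏ β ∈ win r N n α, wt (s β.2) (y β) :=
    Finset.prod_coe_sort (win r N n α) (fun β => wt (s β.2) (y β))
  rw [h1]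
  unfold win
  rw [Finset.prod_filter, Finset.prod_product_right]
  apply Finset.prod_congr rfl
  intro i _
  rw [Finset.prod_range_succ]
  unfold wfun
  congr 1
  · apply Finset.prod_congr rfl
    intro j hj
    have hm : (j, i) ∈ past r α := Or.inl (Finset.mem_range.1 hj)
    rw [if_pos hm]
  · by_cases hr : r i α.2
    · have hm : (α.1, i) ∈ past r α := Or.inr ⟨rfl, hr⟩
      rw [if_pos hm, if_pos hr]
    · have hm : (α.1, i) ∉ past r α := by
        rintro (h | ⟨_, h⟩)
        · exact lt_irrefl _ h
        · exact hr h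
      rw [if_neg hm, if_neg hr, wt_half]

variable (ν : Measure (I → Bool)) [IsProbabilityMeasure ν]

lemma postν_eq_ratio (r : I → I → Prop) (N : ℕ → I → Finset I) (n : ℕ) (α : ℕ × I)
    (y : ℕ × I → UI) :
    postν ν (N n α.2) (wfun r y α) α.2 =
      numA ν (win r N n α) (fun s => sg (s α.2)) ((win r N n α).restrict y) /
        numA ν (win r N n α) (fun _ => 1) ((win r N n α).restrict y) := by
  unfold postν numA
  simp only [one_mul, prod_win]

lemma measurable_sg_eval (v : I) : Measurable (fun s : I → Bool => sg (s v)) :=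
  measurable_sg.comp (measurable_pi_apply v)

lemma measurable_postν (r : I → I → Prop) (N : ℕ → I → Finset I) (n : ℕ) (α : ℕ × I) :
    Measurable (fun y : ℕ × I → UI => postν ν (N n α.2) (wfun r y α) α.2) := by
  simp_rw [postν_eq_ratio]
  exact ((measurable_numA ν _ _ (measurable_sg_eval _)).comp (Finset.measurable_restrict _)).div
    ((measurable_numA ν _ _ measurable_const).comp (Finset.measurable_restrict _))

lemma measurable_pmean (r : I → I → Prop) (N : ℕ → I → Finset I) (α : ℕ × I) :
    Measurable (fun y : ℕ × I → UI => pmean (postν ν) r N y α) := by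
  unfold pmean
  exact Measurable.limsup (fun n => continuous_clip.measurable.comp (measurable_postν ν r N n α))

lemma abs_postν_le (r : I → I → Prop) (N : ℕ → I → Finset I) (n : ℕ) (α : ℕ × I)
    (y : ℕ × I → UI) : |postν ν (N n α.2) (wfun r y α) α.2| ≤ 1 := by
  rw [postν_eq_ratio, abs_div]
  have hpos := lt_of_lt_of_le (by positivity) (numA_one_pos ν (win r N n α)
    ((win r N n α).restrict y))
  rw [abs_of_pos hpos, div_le_one hpos]
  have := abs_numA_le ν (win r N n α) (fun s => sg (s α.2)) (measurable_sg_eval _) 1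
    (fun s => (abs_sg _).le) ((win r N n α).restrict y)
  simpa using this

/-- The sigma-algebra of the observations in `P`. -/
@[reducible] noncomputable def obs (P : Set (ℕ × I)) : MeasurableSpace ((I → Bool) × (ℕ × I → UI)) :=
  MeasurableSpace.comap (fun ω (β : P) => Y ω β) inferInstance

lemma obs_le (P : Set (ℕ × I)) :
    obs P ≤ (inferInstance : MeasurableSpace ((I → Bool) × (ℕ × I → UI))) := by
  apply Measurable.comap_le
  exact measurable_pi_lambda _ (fun β => (measurable_pi_apply _).comp measurable_Y)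

lemma obs_mono {P P' : Set (ℕ × I)} (h : P ⊆ P') : obs P ≤ obs P' := by
  unfold obs
  have : (fun (ω : (I → Bool) × (ℕ × I → UI)) (β : P) => Y ω β) =
      (fun (z : P' → UI) (β : P) => z ⟨β.1, h β.2⟩) ∘ (fun ω (β : P') => Y ω β) := rfl
  rw [this, ← MeasurableSpace.comap_comp]
  apply MeasurableSpace.comap_mono
  apply Measurable.comap_le
  exact measurable_pi_lambda _ (fun β => measurable_pi_apply _)

/-- Filtration of the windows. -/
noncomputable def filt (W : ℕ → Finset (ℕ × I)) (hW : Monotone W) :
    Filtration ℕ (inferInstance : MeasurableSpace ((I → Bool) × (ℕ × I → UI))) where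
  seq n := obs (W n : Set (ℕ × I))
  mono' _ _ h := obs_mono (by exact_mod_cast hW h)
  le' n := obs_le _

lemma iSup_filt (W : ℕ → Finset (ℕ × I)) (hW : Monotone W) (P : Set (ℕ × I))
    (hP : ∀ β, β ∈ P ↔ ∃ n, β ∈ W n) : ⨆ n, (filt W hW) n = obs P := by
  apply le_antisymm
  · apply iSup_le
    intro n
    exact obs_mono (fun β hβ => (hP β).2 ⟨n, hβ⟩)
  · unfold obs
    rw [MeasurableSpace.pi, MeasurableSpace.comap_iSup]
    apply iSup_le
    intro β
    obtain ⟨n, hn⟩ := (hP β.1).1 β.2
    refine le_trans ?_ (le_iSup (fun n => (filt W hW) n) n)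
    change _ ≤ obs (W n : Set (ℕ × I))
    unfold obs
    rw [MeasurableSpace.comap_comp]
    rw [MeasurableSpace.pi, MeasurableSpace.comap_iSup]
    refine le_trans ?_ (le_iSup _ (⟨β.1, hn⟩ : (W n : Set (ℕ × I))))
    rw [MeasurableSpace.comap_comp]
    exact le_rfl

lemma condExp_win (A : Finset (ℕ × I)) (f : (I → Bool) → ℝ) (hf : Measurable f)
    (hC : ∀ s, |f s| ≤ 1) :
    (fun ω => numA ν A f (A.restrict (Y ω)) / numA ν A (fun _ => 1) (A.restrict (Y ω))) =ᵐ[jl ν]
      (jl ν)[fun ω => f ω.1 | obs (A : Set (ℕ × I))] := by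
  have hmY : Measurable (fun ω : (I → Bool) × (ℕ × I → UI) => A.restrict (Y ω)) :=
    (Finset.measurable_restrict A).comp measurable_Y
  have hpos : ∀ t, 0 < numA ν A (fun _ => 1) t := fun t =>
    lt_of_lt_of_le (by positivity) (numA_one_pos ν A t)
  have hmr : Measurable (fun t : A → UI => numA ν A f t / numA ν A (fun _ => 1) t) :=
    (measurable_numA ν A f hf).div (measurable_numA ν A _ measurable_const)
  have hr1 : ∀ t, |numA ν A f t / numA ν A (fun _ => 1) t| ≤ 1 := by
    intro t
    rw [abs_div, abs_of_pos (hpos t), div_le_one (hpos t)]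
    simpa using abs_numA_le ν A f hf 1 hC t
  apply ae_eq_condExp_of_forall_setIntegral_eq (obs_le _)
  · exact bdd_integrable (hf.comp measurable_fst) 1 (fun ω => hC ω.1)
  · intro s _ _
    exact (bdd_integrable (hmr.comp hmY) 1 (fun ω => hr1 _)).integrableOn
  · intro s hs _
    obtain ⟨B, hB, rfl⟩ := hs
    have hB' : MeasurableSet ((fun (ω : (I → Bool) × (ℕ × I → UI)) (β : (A : Set (ℕ × I))) => Y ω β) ⁻¹' B) := 
      hmY hB
    rw [← integral_indicator hB', ← integral_indicator hB']
    have h := bayes ν A f hf 1 hC (B.indicator (fun _ => (1:ℝ))) (measurable_const.indicator hB) 1 (by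
      intro t
      by_cases ht : t ∈ B
      · rw [Set.indicator_of_mem ht]; simp
      · rw [Set.indicator_of_notMem ht]; simp)
    convert h using 2
    · ext ω
      by_cases ht : A.restrict (Y ω) ∈ B
      · rw [Set.indicator_of_mem ht, Set.indicator_of_mem (by exact ht), one_mul]
      · rw [Set.indicator_of_notMem ht, Set.indicator_of_notMem (by exact ht), zero_mul]
    · ext ω
      by_cases ht : A.restrict (Y ω) ∈ B
      · rw [Set.indicator_of_mem ht, Set.indicator_of_mem (by exact ht), mul_one]
      · rw [Set.indicator_of_notMem ht, Set.indicator_of_notMem (by exact ht), mul_zero]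
  · apply Measurable.aestronglyMeasurable
    exact hmr.comp (Measurable.of_comap_le le_rfl)

lemma win_mono (r : I → I → Prop) (N : ℕ → I → Finset I) (hN : ∀ v, Monotone (fun n => N n v))
    (α : ℕ × I) : Monotone (fun n => win r N n α) := by
  classical
  intro n m h
  unfold win
  apply Finset.filter_subset_filter
  exact Finset.product_subset_product le_rfl (hN α.2 h)

lemma mem_win_iff (r : I → I → Prop) (N : ℕ → I → Finset I)
    (hex : ∀ v i, ∃ n, i ∈ N n v) (α β : ℕ × I) :
    β ∈ past r α ↔ ∃ n, β ∈ win r N n α := by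
  classical
  constructor
  · intro h
    obtain ⟨n, hn⟩ := hex α.2 β.2
    refine ⟨n, ?_⟩
    unfold win
    rw [Finset.mem_filter, Finset.mem_product, Finset.mem_range]
    refine ⟨⟨?_, hn⟩, h⟩
    rcases h with h | ⟨h, _⟩ <;> omega
  · rintro ⟨n, hn⟩
    unfold win at hn
    exact (Finset.mem_filter.1 hn).2

/-- The limiting posterior mean is the conditional expectation given the past. -/
lemma pmean_ae_eq (r : I → I → Prop) (N : ℕ → I → Finset I)
    (hN : ∀ v, Monotone (fun n => N n v)) (hex : ∀ v i, ∃ n, i ∈ N n v) (α : ℕ × I) :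
    (fun ω => pmean (postν ν) r N (Y ω) α) =ᵐ[jl ν]
      (jl ν)[fun ω => sg (ω.1 α.2) | obs (past r α)] := by
  have hmono := win_mono r N hN α
  have h1 := tendsto_ae_condExp (μ := jl ν) (ℱ := filt (fun n => win r N n α) hmono)
    (fun ω => sg (ω.1 α.2))
  rw [iSup_filt _ hmono (past r α) (mem_win_iff r N hex α)] at h1
  have h2 : ∀ n, (fun ω => numA ν (win r N n α) (fun s => sg (s α.2)) ((win r N n α).restrict (Y ω)) /
      numA ν (win r N n α) (fun _ => 1) ((win r N n α).restrict (Y ω))) =ᵐ[jl ν]
      (jl ν)[fun ω => sg (ω.1 α.2) | obs (win r N n α : Set (ℕ × I))] := fun n =>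
    condExp_win ν (win r N n α) (fun s => sg (s α.2)) (measurable_sg_eval _)
      (fun s => (abs_sg _).le)
  have h3 := ae_all_iff.2 h2
  filter_upwards [h1, h3] with ω h1 h3
  unfold pmean
  have h4 : (fun n => clip (postν ν (N n α.2) (wfun r (Y ω) α) α.2)) =
      fun n => (jl ν)[fun ω => sg (ω.1 α.2) | obs (win r N n α : Set (ℕ × I))] ω := by
    ext n
    rw [clip_of_abs_le (abs_postν_le ν r N n α (Y ω)), postν_eq_ratio, h3 n]
  rw [h4]
  exact h1.limsup_eq

end Crest.Agent.H14
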