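import Crest.Agent.H14Rosen

set_option autoImplicit false

/-!
The transform `T` applied to the noisy observations has the law of independent uniform variables.
-/

open MeasureTheory ProbabilityTheory Filter Topology

namespace Crest.Agent.H14

lemma update_mp {O : Type*} [DecidableEq O] (α : O) :
    MeasurePreserving (fun p : (O → UI) × UI => Function.update p.1 α p.2)
      ((noise O).prod volume) (noise O) := by
  have hm : Measurable (fun p : (O → UI) × UI => Function.update p.1 α p.2) := by
    apply measurable_pi_lambda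
    intro i
    by_cases hi : i = α
    · subst hi
      simpa using measurable_snd
    · have : (fun p : (O → UI) × UI => Function.update p.1 α p.2 i) = fun p => p.1 i := by
        ext p; rw [Function.update_of_ne hi]
      rw [this]
      exact (measurable_pi_apply i).comp measurable_fst
  refine ⟨hm, ?_⟩
  apply Measure.eq_infinitePi
  intro S t ht
  rw [Measure.map_apply hm (MeasurableSet.pi S.countable_toSet (fun i _ => ht i))]
  by_cases hα : α ∈ S
  · have : (fun p : (O → UI) × UI => Function.update p.1 α p.2) ⁻¹' (Set.pi S t) =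
        (Set.pi (S.erase α : Finset O) t) ×ˢ (t α) := by
      ext ⟨x, w⟩
      simp only [Set.mem_preimage, Set.mem_pi, Finset.mem_coe, Set.mem_prod, Finset.mem_erase]
      constructor
      · intro h
        refine ⟨fun i hi => ?_, ?_⟩
        · have := h i hi.2
          rwa [Function.update_of_ne hi.1] at this
        · have := h α hα
          rwa [Function.update_self] at this
      · rintro ⟨h1, h2⟩ i hi
        by_cases hiα : i = α
        · subst hiα; rwa [Function.update_self]
        · rw [Function.update_of_ne hiα]; exact h1 i ⟨hiα, hi⟩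
    rw [this, Measure.prod_prod, Measure.infinitePi_pi _ (fun i _ => ht i),
      Finset.prod_erase_mul S (fun i => (volume : Measure UI) (t i)) hα]
  · have : (fun p : (O → UI) × UI => Function.update p.1 α p.2) ⁻¹' (Set.pi S t) =
        (Set.pi S t) ×ˢ Set.univ := by
      ext ⟨x, w⟩
      simp only [Set.mem_preimage, Set.mem_pi, Finset.mem_coe, Set.mem_prod, Set.mem_univ,
        and_true]
      constructor
      · intro h i hi
        have := h i hi
        rwa [Function.update_of_ne (by rintro rfl; exact hα hi)] at this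
      · intro h i hi
        rw [Function.update_of_ne (by rintro rfl; exact hα hi)]
        exact h i hi
    rw [this, Measure.prod_prod, Measure.infinitePi_pi _ (fun i _ => ht i), measure_univ, mul_one]

variable {I : Type*}

lemma resample_mp [DecidableEq I] (ν : Measure (I → Bool)) [IsProbabilityMeasure ν] (α : ℕ × I) :
    MeasurePreserving (fun p : ((I → Bool) × (ℕ × I → UI)) × UI =>
      (p.1.1, Function.update p.1.2 α p.2)) ((jl ν).prod volume) (jl ν) := by
  have h1 := measurePreserving_prodAssoc ν (noise (ℕ × I)) (volume : Measure UI)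
  have h2 := (MeasurePreserving.id ν).prod (update_mp (O := ℕ × I) α)
  exact h2.comp h1

/-- Integral of the indicator of `FI m t ∈ B`. -/
noncomputable def J0 (B : Set UI) (m : ℝ) : ℝ := ∫ t : UI, B.indicator (fun _ => (1:ℝ)) (FI m t)

/-- Integral of the indicator of `FI m t ∈ B` times `t - 1/2`. -/
noncomputable def J1 (B : Set UI) (m : ℝ) : ℝ :=
  ∫ t : UI, B.indicator (fun _ => (1:ℝ)) (FI m t) * ((t:ℝ) - 1 / 2)

lemma measurable_ind (B : Set UI) (hB : MeasurableSet B) :
    Measurable (fun p : ℝ × UI => B.indicator (fun _ => (1:ℝ)) (FI p.1 p.2)) :=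
  (measurable_const.indicator hB).comp measurable_FI

lemma abs_ind_le (B : Set UI) (x : UI) : |B.indicator (fun _ => (1:ℝ)) x| ≤ 1 := by
  by_cases h : x ∈ B
  · rw [Set.indicator_of_mem h]; simp
  · rw [Set.indicator_of_notMem h]; simp

lemma measurable_J0 (B : Set UI) (hB : MeasurableSet B) : Measurable (J0 B) := by
  unfold J0
  exact (measurable_ind B hB).stronglyMeasurable.integral_prod_right.measurable

lemma measurable_J1 (B : Set UI) (hB : MeasurableSet B) : Measurable (J1 B) := by
  unfold J1
  have : StronglyMeasurable (fun p : ℝ × UI => B.indicator (fun _ => (1:ℝ)) (FI p.1 p.2) *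
      ((p.2:ℝ) - 1 / 2)) := by
    apply Measurable.stronglyMeasurable
    apply (measurable_ind B hB).mul
    fun_prop
  exact this.integral_prod_right.measurable

lemma abs_sub_half_le (t : UI) : |(t:ℝ) - 1 / 2| ≤ 1 := by
  have h0 := t.2.1
  have h1 := t.2.2
  rw [abs_le]; constructor <;> linarith

lemma abs_J0_le (B : Set UI) (hB : MeasurableSet B) (m : ℝ) : |J0 B m| ≤ 1 := by
  unfold J0
  calc |∫ t : UI, B.indicator (fun _ => (1:ℝ)) (FI m t)| ≤
      ∫ t : UI, |B.indicator (fun _ => (1:ℝ)) (FI m t)| := abs_integral_le_integral_abs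
    _ ≤ ∫ t : UI, (1:ℝ) := by
        apply integral_mono
        · apply Integrable.abs
          apply bdd_integrable _ 1 (fun t => abs_ind_le B _)
          exact (measurable_ind B hB).comp (measurable_const.prodMk measurable_id)
        · exact integrable_const _
        · intro t; exact abs_ind_le B _
    _ = 1 := by simp

lemma abs_J1_le (B : Set UI) (hB : MeasurableSet B) (m : ℝ) : |J1 B m| ≤ 1 := by
  unfold J1
  have hb : ∀ t : UI, |B.indicator (fun _ => (1:ℝ)) (FI m t) * ((t:ℝ) - 1 / 2)| ≤ 1 := by
    intro t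
    rw [abs_mul]
    exact mul_le_one₀ (abs_ind_le B _) (abs_nonneg _) (abs_sub_half_le t)
  calc |∫ t : UI, B.indicator (fun _ => (1:ℝ)) (FI m t) * ((t:ℝ) - 1 / 2)| ≤
      ∫ t : UI, |B.indicator (fun _ => (1:ℝ)) (FI m t) * ((t:ℝ) - 1 / 2)| :=
        abs_integral_le_integral_abs
    _ ≤ ∫ t : UI, (1:ℝ) := by
        apply integral_mono
        · apply Integrable.abs
          apply bdd_integrable _ 1 hb
          apply Measurable.mul
          · exact (measurable_ind B hB).comp (measurable_const.prodMk measurable_id)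
          · fun_prop
        · exact integrable_const _
        · intro t; exact hb t
    _ = 1 := by simp

lemma qm_preimage {m' : ℝ} (hm' : |m'| ≤ 1) (m : ℝ) (B : Set UI) (hB : MeasurableSet B) :
    (qm m' (FI m ⁻¹' B)).toReal = J0 B m + m' * J1 B m := by
  have hBm : MeasurableSet (FI m ⁻¹' B) := (continuous_FI m).measurable hB
  unfold qm
  rw [withDensity_apply _ hBm]
  have h1 : ∫ t in FI m ⁻¹' B, (1 + m' * ((t:ℝ) - 1 / 2)) =
      (∫⁻ t in FI m ⁻¹' B, ENNReal.ofReal (1 + m' * ((t:ℝ) - 1 / 2))).toReal := by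
    rw [integral_eq_lintegral_of_nonneg_ae]
    · exact ae_of_all _ (fun t => dens_nonneg hm' t.2)
    · apply Measurable.aestronglyMeasurable
      fun_prop
  rw [← h1, ← integral_indicator hBm]
  unfold J0 J1
  rw [← integral_const_mul, ← integral_add]
  · apply integral_congr_ae
    apply ae_of_all
    intro t
    by_cases ht : FI m t ∈ B
    · simp only
      rw [Set.indicator_of_mem (by exact ht), Set.indicator_of_mem ht]
      ring
    · simp only
      rw [Set.indicator_of_notMem (by exact ht), Set.indicator_of_notMem ht]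
      ring
  · apply bdd_integrable _ 1 (fun t => abs_ind_le B _)
    exact (measurable_ind B hB).comp (measurable_const.prodMk measurable_id)
  · apply Integrable.const_mul
    apply bdd_integrable _ 1
    · intro t
      rw [abs_mul]
      exact mul_le_one₀ (abs_ind_le B _) (abs_nonneg _) (abs_sub_half_le t)
    · apply Measurable.mul
      · exact (measurable_ind B hB).comp (measurable_const.prodMk measurable_id)
      · fun_prop

lemma J_self {m : ℝ} (hm : |m| ≤ 1) (B : Set UI) (hB : MeasurableSet B) :
    J0 B m + m * J1 B m = ((volume : Measure UI) B).toReal := by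
  rw [← qm_preimage hm m B hB, ← Measure.map_apply (continuous_FI m).measurable hB, map_FI_qm hm]

/-- A function of the observation field that only depends on the observations in `P` is
measurable for `obs P`. -/
lemma measurable_obs_of_dep {X : Type*} [MeasurableSpace X] (P : Set (ℕ × I))
    (g : (ℕ × I → UI) → X) (hg : Measurable g)
    (hdep : ∀ y y' : ℕ × I → UI, (∀ β ∈ P, y β = y' β) → g y = g y') :
    Measurable[obs P] (fun ω : (I → Bool) × (ℕ × I → UI) => g (Y ω)) := by
  classical
  let ext : (P → UI) → (ℕ × I → UI) := fun z β => if h : β ∈ P then z ⟨β, h⟩ else 0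
  have hext : Measurable ext := by
    apply measurable_pi_lambda
    intro β
    by_cases h : β ∈ P
    · simp only [ext, dif_pos h]
      exact measurable_pi_apply _
    · simp only [ext, dif_neg h]
      exact measurable_const
  have h1 : (fun ω : (I → Bool) × (ℕ × I → UI) => g (Y ω)) =
      (fun z => g (ext z)) ∘ (fun ω (β : P) => Y ω β) := by
    ext1 ω
    apply hdep
    intro β hβ
    simp only [ext, dif_pos hβ]
  rw [h1]
  exact (hg.comp hext).comp (Measurable.of_comap_le le_rfl)

lemma Y_update_of_ne [DecidableEq I] (ω : (I → Bool) × (ℕ × I → UI)) (α : ℕ × I) (w : UI)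
    {β : ℕ × I} (h : β ≠ α) : Y (ω.1, Function.update ω.2 α w) β = Y ω β := by
  unfold Y
  simp only
  rw [Function.update_of_ne h]

lemma Y_update_self [DecidableEq I] (ω : (I → Bool) × (ℕ × I → UI)) (α : ℕ × I) (w : UI) :
    Y (ω.1, Function.update ω.2 α w) α = Q (ω.1 α.2) w := by
  unfold Y
  simp only
  rw [Function.update_self]

variable (ν : Measure (I → Bool)) [IsProbabilityMeasure ν]

/-- Conditionally on its past, each transformed observation is uniform. -/
lemma key (r : I → I → Prop) (hirr : ∀ i, ¬ r i i) (N : ℕ → I → Finset I)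
    (hN : ∀ v, Monotone (fun n => N n v)) (hex : ∀ v i, ∃ n, i ∈ N n v) (α : ℕ × I)
    (g : (ℕ × I → UI) → Prop) (hg : MeasurableSet {y | g y})
    (hdep : ∀ y y' : ℕ × I → UI, (∀ β ∈ past r α, y β = y' β) → (g y ↔ g y'))
    (B : Set UI) (hB : MeasurableSet B) :
    (jl ν) {ω | g (Y ω) ∧ T (postν ν) r N (Y ω) α ∈ B} = (jl ν) {ω | g (Y ω)} * volume B := by
  classical
  set m : (I → Bool) × (ℕ × I → UI) → ℝ := fun ω => pmean (postν ν) r N (Y ω) α with hm
  have hα : α ∉ past r α := by
    rintro (h | ⟨_, h⟩)
    · exact lt_irrefl _ h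
    · exact hirr _ h
  have hm_meas : Measurable m := (measurable_pmean ν r N α).comp measurable_Y
  have hm_obs : Measurable[obs (past r α)] m :=
    measurable_obs_of_dep (past r α) (fun y => pmean (postν ν) r N y α)
      (measurable_pmean ν r N α) (fun y y' h => pmean_congr _ _ _ h)
  have hm1 : ∀ ω, |m ω| ≤ 1 := fun ω => abs_pmean_le _ _ _ _ _
  set E : Set ((I → Bool) × (ℕ × I → UI)) := {ω | g (Y ω)} with hE
  have hE_meas : MeasurableSet E := measurable_Y hg
  have hE_obs : Measurable[obs (past r α)] (E.indicator (fun _ => (1:ℝ))) := by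
    have := measurable_obs_of_dep (past r α) ({y : ℕ × I → UI | g y}.indicator (fun _ => (1:ℝ)))
      (measurable_const.indicator hg) (by
        intro y y' h
        have := hdep y y' h
        by_cases hy : g y
        · rw [Set.indicator_of_mem (by exact hy), Set.indicator_of_mem (by exact this.1 hy)]
        · rw [Set.indicator_of_notMem (by exact hy),
            Set.indicator_of_notMem (by exact fun h' => hy (this.2 h'))])
    exact this
  have hTm : Measurable (fun ω : (I → Bool) × (ℕ × I → UI) => T (postν ν) r N (Y ω) α) := by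
    unfold T
    exact measurable_FI.comp (hm_meas.prodMk ((measurable_pi_apply α).comp measurable_Y))
  have hD_meas : MeasurableSet {ω | g (Y ω) ∧ T (postν ν) r N (Y ω) α ∈ B} :=
    hE_meas.inter (hTm hB)
  -- resampling
  have h1 : (jl ν) {ω | g (Y ω) ∧ T (postν ν) r N (Y ω) α ∈ B} =
      ((jl ν).prod volume) {p | p.1 ∈ E ∧ FI (m p.1) (Q (p.1.1 α.2) p.2) ∈ B} := by
    rw [← (resample_mp ν α).measure_preimage hD_meas.nullMeasurableSet]
    congr 1
    ext ⟨ω, w⟩
    simp only [Set.mem_preimage, Set.mem_ofPred_eq]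
    have e1 : g (Y (ω.1, Function.update ω.2 α w)) ↔ g (Y ω) := by
      apply hdep
      intro β hβ
      exact Y_update_of_ne ω α w (by rintro rfl; exact hα hβ)
    have e2 : T (postν ν) r N (Y (ω.1, Function.update ω.2 α w)) α =
        FI (m ω) (Q (ω.1 α.2) w) := by
      unfold T
      rw [Y_update_self, hm]
      simp only
      rw [pmean_congr _ _ _ (fun β hβ => Y_update_of_ne ω α w (by rintro rfl; exact hα hβ))]
    rw [e1, e2]
    rfl
  have hset : MeasurableSet {p : ((I → Bool) × (ℕ × I → UI)) × UI |
      p.1 ∈ E ∧ FI (m p.1) (Q (p.1.1 α.2) p.2) ∈ B} := by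
    apply MeasurableSet.inter
    · exact measurable_fst hE_meas
    · have : Measurable (fun p : ((I → Bool) × (ℕ × I → UI)) × UI =>
          FI (m p.1) (Q (p.1.1 α.2) p.2)) := by
        have h : Measurable (fun p : ((I → Bool) × (ℕ × I → UI)) × UI =>
            ((p.1.1 α.2, p.2) : Bool × UI)) :=
          ((measurable_pi_apply _).comp (measurable_fst.comp measurable_fst)).prodMk measurable_snd
        have h' : Measurable (fun p : ((I → Bool) × (ℕ × I → UI)) × UI =>
            ((m p.1, Q (p.1.1 α.2) p.2) : ℝ × UI)) :=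
          (hm_meas.comp measurable_fst).prodMk (measurable_Q'.comp h)
        exact measurable_FI.comp h'
      exact this hB
  have h2 : ((jl ν).prod volume) {p : ((I → Bool) × (ℕ × I → UI)) × UI |
      p.1 ∈ E ∧ FI (m p.1) (Q (p.1.1 α.2) p.2) ∈ B} =
      ∫⁻ ω, ENNReal.ofReal (E.indicator (fun _ => (1:ℝ)) ω *
        (J0 B (m ω) + sg (ω.1 α.2) * J1 B (m ω))) ∂(jl ν) := by
    rw [Measure.prod_apply hset]
    apply lintegral_congr
    intro ω
    by_cases hω : ω ∈ E
    · have : (Prod.mk ω ⁻¹' {p : ((I → Bool) × (ℕ × I → UI)) × UI |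
          p.1 ∈ E ∧ FI (m p.1) (Q (p.1.1 α.2) p.2) ∈ B}) =
          (Q (ω.1 α.2)) ⁻¹' (FI (m ω) ⁻¹' B) := by
        ext w; simp [hω]
      rw [this, ← Measure.map_apply (measurable_Q _) ((continuous_FI _).measurable hB), map_Q,
        Set.indicator_of_mem hω, one_mul, ← qm_preimage (by rw [abs_sg]) _ B hB]
      have := isProb_qm (m := sg (ω.1 α.2)) (by rw [abs_sg])
      rw [ENNReal.ofReal_toReal (measure_ne_top _ _)]
    · have : (Prod.mk ω ⁻¹' {p : ((I → Bool) × (ℕ × I → UI)) × UI |
          p.1 ∈ E ∧ FI (m p.1) (Q (p.1.1 α.2) p.2) ∈ B}) = ∅ := by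
        ext w; simp [hω]
      rw [this, Set.indicator_of_notMem hω]
      simp
  -- conditional expectation
  have hJ0m : Measurable (fun ω => J0 B (m ω)) := (measurable_J0 B hB).comp hm_meas
  have hJ1m : Measurable (fun ω => J1 B (m ω)) := (measurable_J1 B hB).comp hm_meas
  have hsgm : Measurable (fun ω : (I → Bool) × (ℕ × I → UI) => sg (ω.1 α.2)) :=
    (measurable_sg_eval α.2).comp measurable_fst
  have hindm : Measurable (E.indicator (fun _ => (1:ℝ))) := measurable_const.indicator hE_meas
  have hind1 : ∀ ω, |E.indicator (fun _ => (1:ℝ)) ω| ≤ 1 := by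
    intro ω
    by_cases h : ω ∈ E
    · rw [Set.indicator_of_mem h]; simp
    · rw [Set.indicator_of_notMem h]; simp
  have hnonneg : ∀ ω, 0 ≤ E.indicator (fun _ => (1:ℝ)) ω *
        (J0 B (m ω) + sg (ω.1 α.2) * J1 B (m ω)) := by
    intro ω
    rw [← qm_preimage (by rw [abs_sg]) _ B hB]
    apply mul_nonneg _ ENNReal.toReal_nonneg
    exact Set.indicator_nonneg (fun _ _ => zero_le_one) _
  set h : (I → Bool) × (ℕ × I → UI) → ℝ := fun ω => E.indicator (fun _ => (1:ℝ)) ω * J1 B (m ω)
    with hh
  have hh_obs : StronglyMeasurable[obs (past r α)] h := by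
    apply Measurable.stronglyMeasurable
    exact Measurable.mul hE_obs (Measurable.comp (g := J1 B) (measurable_J1 B hB) hm_obs)
  have hh1 : ∀ ω, |h ω| ≤ 1 := by
    intro ω
    rw [hh]; simp only
    rw [abs_mul]
    exact mul_le_one₀ (hind1 ω) (abs_nonneg _) (abs_J1_le B hB _)
  have hhm : Measurable h := hindm.mul hJ1m
  have hsgint : Integrable (fun ω : (I → Bool) × (ℕ × I → UI) => sg (ω.1 α.2)) (jl ν) :=
    bdd_integrable hsgm 1 (fun ω => (abs_sg _).le)
  have h3 : ∫ ω, h ω * sg (ω.1 α.2) ∂(jl ν) = ∫ ω, h ω * m ω ∂(jl ν) := by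
    have hint : Integrable (h * fun ω => sg (ω.1 α.2)) (jl ν) := by
      apply bdd_integrable (hhm.mul hsgm) 1
      intro ω
      simp only [Pi.mul_apply]
      rw [abs_mul, abs_sg, mul_one]
      exact hh1 ω
    have hce := condExp_mul_of_stronglyMeasurable_left (m := obs (past r α)) (μ := jl ν)
      hh_obs hint hsgint
    have hie := integral_condExp (μ := jl ν) (f := h * fun ω => sg (ω.1 α.2)) (obs_le (past r α))
    have e : ∫ ω, h ω * sg (ω.1 α.2) ∂(jl ν) =
        ∫ ω, (h * fun ω : (I → Bool) × (ℕ × I → UI) => sg (ω.1 α.2)) ω ∂(jl ν) := rfl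
    rw [e, ← hie]
    apply integral_congr_ae
    filter_upwards [hce, pmean_ae_eq ν r N hN hex α] with ω h1 h2
    rw [h1]
    simp only [Pi.mul_apply]
    rw [← h2]
  have h4 : ∫ ω, E.indicator (fun _ => (1:ℝ)) ω *
        (J0 B (m ω) + sg (ω.1 α.2) * J1 B (m ω)) ∂(jl ν) =
      ∫ ω, E.indicator (fun _ => (1:ℝ)) ω * ((volume : Measure UI) B).toReal ∂(jl ν) := by
    have e1 : ∀ ω, E.indicator (fun _ => (1:ℝ)) ω * (J0 B (m ω) + sg (ω.1 α.2) * J1 B (m ω)) =
        E.indicator (fun _ => (1:ℝ)) ω * J0 B (m ω) + h ω * sg (ω.1 α.2) := by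
      intro ω; rw [hh]; ring
    have e2 : ∀ ω, E.indicator (fun _ => (1:ℝ)) ω * ((volume : Measure UI) B).toReal =
        E.indicator (fun _ => (1:ℝ)) ω * J0 B (m ω) + h ω * m ω := by
      intro ω; rw [← J_self (hm1 ω) B hB, hh]; ring
    simp_rw [e1, e2]
    have i0 : Integrable (fun ω => E.indicator (fun _ => (1:ℝ)) ω * J0 B (m ω)) (jl ν) := by
      apply bdd_integrable (hindm.mul hJ0m) 1
      intro ω
      simp only [Pi.mul_apply]
      rw [abs_mul]
      exact mul_le_one₀ (hind1 ω) (abs_nonneg _) (abs_J0_le B hB _)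
    rw [integral_add i0, integral_add i0, h3]
    · apply bdd_integrable (hhm.mul hm_meas) 1
      intro ω
      simp only [Pi.mul_apply]
      rw [abs_mul]
      exact mul_le_one₀ (hh1 ω) (abs_nonneg _) (hm1 ω)
    · apply bdd_integrable (hhm.mul hsgm) 1
      intro ω
      simp only [Pi.mul_apply]
      rw [abs_mul, abs_sg, mul_one]
      exact hh1 ω
  rw [h1, h2, ← ofReal_integral_eq_lintegral_ofReal, h4, integral_mul_const,
    integral_indicator_const _ hE_meas, smul_eq_mul, mul_one, Measure.real,
    ENNReal.ofReal_mul ENNReal.toReal_nonneg, ENNReal.ofReal_toReal (measure_ne_top _ _),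
    ENNReal.ofReal_toReal (measure_ne_top _ _)]
  · apply bdd_integrable (hindm.mul (hJ0m.add (hsgm.mul hJ1m))) 2
    intro ω
    simp only [Pi.mul_apply, Pi.add_apply]
    rw [abs_mul]
    have a1 : |J0 B (m ω) + sg (ω.1 α.2) * J1 B (m ω)| ≤ 2 := by
      refine (abs_add_le _ _).trans ?_
      rw [abs_mul, abs_sg, one_mul]
      have := abs_J0_le B hB (m ω)
      have := abs_J1_le B hB (m ω)
      linarith
    calc _ ≤ 1 * 2 := mul_le_mul (hind1 ω) a1 (abs_nonneg _) zero_le_one
      _ = 2 := by norm_num
  · exact ae_of_all _ hnonneg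

end Crest.Agent.H14
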