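import Crest.Agent.H14Rosen2

set_option autoImplicit false

/-!
The transformed observation field is a field of independent uniform variables, first for a fixed
total order on the sites and then for a random order.
-/

open MeasureTheory ProbabilityTheory Filter Topology

namespace Crest.Agent.H14

variable {I : Type*} (ν : Measure (I → Bool)) [IsProbabilityMeasure ν]

lemma measurable_T_apply (r : I → I → Prop) (N : ℕ → I → Finset I) (α : ℕ × I) :
    Measurable (fun y : ℕ × I → UI => T (postν ν) r N y α) := by
  unfold T
  have h : Measurable (fun y : ℕ × I → UI => ((pmean (postν ν) r N y α, y α) : ℝ × UI)) :=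
    (measurable_pmean ν r N α).prodMk (measurable_pi_apply α)
  exact measurable_FI.comp h

lemma measurable_T (r : I → I → Prop) (N : ℕ → I → Finset I) :
    Measurable (T (postν ν) r N) :=
  measurable_pi_lambda _ (measurable_T_apply ν r N)

lemma past_iff_lex (r : I → I → Prop) (α β : ℕ × I) :
    β ∈ past r α ↔ Prod.Lex (· < ·) r β α := by
  rw [Prod.lex_def]
  rfl

lemma T_congr (post : Finset I → (I → Bool → ℝ) → I → ℝ) (r : I → I → Prop)
    (N : ℕ → I → Finset I) {y y' : ℕ × I → UI} {α : ℕ × I}
    (h : ∀ β ∈ past r α, y β = y' β) (h' : y α = y' α) : T post r N y α = T post r N y' α := by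
  unfold T
  rw [pmean_congr post r N h, h']

theorem rosenblatt (r : I → I → Prop) (hr : IsStrictTotalOrder I r) (N : ℕ → I → Finset I)
    (hN : ∀ v, Monotone (fun n => N n v)) (hex : ∀ v i, ∃ n, i ∈ N n v) :
    (jl ν).map (fun ω => T (postν ν) r N (Y ω)) = noise (ℕ × I) := by
  classical
  have hlex : IsStrictTotalOrder (ℕ × I) (Prod.Lex (· < ·) r) := by
    exact { }
  have hirr : ∀ i, ¬ r i i := fun i => irrefl_of r i
  have htrans : ∀ i j k, r i j → r j k → r i k := fun i j k => trans_of r
  apply Measure.eq_infinitePi
  intro S t ht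
  have hTY : Measurable (fun ω : (I → Bool) × (ℕ × I → UI) => T (postν ν) r N (Y ω)) :=
    (measurable_T ν r N).comp measurable_Y
  rw [Measure.map_apply hTY (MeasurableSet.pi S.countable_toSet (fun i _ => ht i))]
  let _ : LinearOrder (ℕ × I) := linearOrderOfSTO (Prod.Lex (· < ·) r)
  have hlt : ∀ a b : ℕ × I, a < b ↔ a ∈ past r b := by
    intro a b
    rw [past_iff_lex]
    rfl
  induction S using Finset.induction_on_max with
  | empty => simp
  | insert a S hmax ih =>
    have ha : a ∉ S := fun h => lt_irrefl _ (hmax a h)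
    have hset : (fun ω : (I → Bool) × (ℕ × I → UI) => T (postν ν) r N (Y ω)) ⁻¹'
        (Set.pi (insert a S : Finset (ℕ × I)) t) =
        {ω | (∀ β ∈ S, T (postν ν) r N (Y ω) β ∈ t β) ∧ T (postν ν) r N (Y ω) a ∈ t a} := by
      ext ω
      simp only [Set.mem_preimage, Set.mem_pi, Finset.mem_coe, Finset.mem_insert,
        Set.mem_ofPred_eq]
      constructor
      · intro h
        exact ⟨fun β hβ => h β (Or.inr hβ), h a (Or.inl rfl)⟩
      · rintro ⟨h1, h2⟩ β (rfl | hβ)
        · exact h2
        · exact h1 β hβ
    rw [hset]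
    rw [key ν r hirr N hN hex a (fun y => ∀ β ∈ S, T (postν ν) r N y β ∈ t β) ?_ ?_ (t a) (ht a)]
    · rw [Finset.prod_insert ha, mul_comm]
      exact congrArg (_ * ·) ih
    · have : {y : ℕ × I → UI | ∀ β ∈ S, T (postν ν) r N y β ∈ t β} =
          ⋂ β ∈ S, (fun y => T (postν ν) r N y β) ⁻¹' (t β) := by
        ext y; simp
      rw [this]
      exact S.measurableSet_biInter (fun β _ => measurable_T_apply ν r N β (ht β))
    · intro y y' h
      have hβ : ∀ β ∈ S, T (postν ν) r N y β = T (postν ν) r N y' β := by
        intro β hβ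
        have hβa : β ∈ past r a := (hlt β a).1 (hmax β hβ)
        apply T_congr
        · intro γ hγ
          apply h
          rw [← hlt] at hγ hβa ⊢
          exact hγ.trans hβa
        · exact h β hβa
      constructor
      · intro H β hb
        rw [← hβ β hb]; exact H β hb
      · intro H β hb
        rw [hβ β hb]; exact H β hb

section random

variable {Θ : Type*} [MeasurableSpace Θ] (r : Θ → I → I → Prop)
  (hrm : ∀ i j, MeasurableSet {θ | r θ i j})

include hrm in
lemma measurable_wfun_joint (α : ℕ × I) (i : I) :
    Measurable (fun p : (Θ × (ℕ × I → UI)) × Bool => wfun (r p.1.1) p.1.2 α i p.2) := by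
  classical
  unfold wfun
  apply Measurable.mul
  · apply Finset.measurable_prod
    intro j _
    have h : Measurable (fun p : (Θ × (ℕ × I → UI)) × Bool =>
        ((p.2, ((p.1.2 (j, i) : UI) : ℝ)) : Bool × ℝ)) :=
      measurable_snd.prodMk (measurable_subtype_coe.comp ((measurable_pi_apply _).comp
        (measurable_snd.comp measurable_fst)))
    exact measurable_wt.comp h
  · have h0 : Measurable (fun p : (Θ × (ℕ × I → UI)) × Bool =>
        if r p.1.1 i α.2 then ((p.1.2 (α.1, i) : UI) : ℝ) else 1 / 2) := by
      apply Measurable.ite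
      · exact (measurable_fst.comp measurable_fst) (hrm i α.2)
      · exact measurable_subtype_coe.comp ((measurable_pi_apply _).comp
          (measurable_snd.comp measurable_fst))
      · exact measurable_const
    have h : Measurable (fun p : (Θ × (ℕ × I → UI)) × Bool =>
        ((p.2, if r p.1.1 i α.2 then ((p.1.2 (α.1, i) : UI) : ℝ) else 1 / 2) : Bool × ℝ)) :=
      measurable_snd.prodMk h0
    exact measurable_wt.comp h

include hrm in
lemma measurable_postν_joint (E : Finset I) (α : ℕ × I) :
    Measurable (fun p : Θ × (ℕ × I → UI) => postν ν E (wfun (r p.1) p.2 α) α.2) := by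
  unfold postν
  have hprod : Measurable (fun p : (Θ × (ℕ × I → UI)) × (I → Bool) =>
      ∏ i ∈ E, wfun (r p.1.1) p.1.2 α i (p.2 i)) := by
    apply Finset.measurable_prod
    intro i _
    have h : Measurable (fun p : (Θ × (ℕ × I → UI)) × (I → Bool) =>
        ((p.1, p.2 i) : (Θ × (ℕ × I → UI)) × Bool)) :=
      measurable_fst.prodMk ((measurable_pi_apply _).comp measurable_snd)
    exact (measurable_wfun_joint r hrm α i).comp h
  apply Measurable.div
  · have : StronglyMeasurable (fun p : (Θ × (ℕ × I → UI)) × (I → Bool) =>
        sg (p.2 α.2) * ∏ i ∈ E, wfun (r p.1.1) p.1.2 α i (p.2 i)) :=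
      (((measurable_sg_eval α.2).comp measurable_snd).mul hprod).stronglyMeasurable
    exact this.integral_prod_right.measurable
  · exact hprod.stronglyMeasurable.integral_prod_right.measurable

include hrm in
lemma measurable_T_joint (N : ℕ → I → Finset I) :
    Measurable (fun p : Θ × (ℕ × I → UI) => T (postν ν) (r p.1) N p.2) := by
  apply measurable_pi_lambda
  intro α
  unfold T
  have h1 : Measurable (fun p : Θ × (ℕ × I → UI) => pmean (postν ν) (r p.1) N p.2 α) := by
    unfold pmean
    exact Measurable.limsup (fun n => continuous_clip.measurable.comp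
      (measurable_postν_joint ν r hrm (N n α.2) α))
  have h : Measurable (fun p : Θ × (ℕ × I → UI) =>
      ((pmean (postν ν) (r p.1) N p.2 α, p.2 α) : ℝ × UI)) :=
    h1.prodMk ((measurable_pi_apply α).comp measurable_snd)
  exact measurable_FI.comp h

include hrm in
lemma measurable_TY_joint (N : ℕ → I → Finset I) :
    Measurable (fun p : Θ × ((I → Bool) × (ℕ × I → UI)) =>
      (p.1, T (postν ν) (r p.1) N (Y p.2))) := by
  have h : Measurable (fun p : Θ × ((I → Bool) × (ℕ × I → UI)) =>
      ((p.1, Y p.2) : Θ × (ℕ × I → UI))) :=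
    measurable_fst.prodMk (measurable_Y.comp measurable_snd)
  have h2 := (measurable_T_joint ν r hrm N).comp h
  exact measurable_fst.prodMk h2

include hrm in
/-- Random-order version: the order parameter and the transformed field are independent, the
latter being uniform. -/
theorem rosenblatt_random (κ : Measure Θ) [IsProbabilityMeasure κ]
    (htot : ∀ᵐ θ ∂κ, IsStrictTotalOrder I (r θ)) (N : ℕ → I → Finset I)
    (hN : ∀ v, Monotone (fun n => N n v)) (hex : ∀ v i, ∃ n, i ∈ N n v) :
    (κ.prod (jl ν)).map (fun p => (p.1, T (postν ν) (r p.1) N (Y p.2))) =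
      κ.prod (noise (ℕ × I)) := by
  have hm := measurable_TY_joint ν r hrm N
  ext D hD
  rw [Measure.map_apply hm hD, Measure.prod_apply (hm hD), Measure.prod_apply hD]
  apply lintegral_congr_ae
  filter_upwards [htot] with θ hθ
  have hTY : Measurable (fun ω : (I → Bool) × (ℕ × I → UI) => T (postν ν) (r θ) N (Y ω)) :=
    (measurable_T ν (r θ) N).comp measurable_Y
  have h := congrArg (fun μ : Measure (ℕ × I → UI) => μ (Prod.mk θ ⁻¹' D))
    (rosenblatt ν (r θ) hθ N hN hex)
  rw [Measure.map_apply hTY (measurable_prodMk_left hD)] at h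
  exact h

end random

end Crest.Agent.H14
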