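import Mathlib

set_option autoImplicit false

/-!
A Schwarz–Pick estimate at a positive real point for holomorphic self-maps of the slit plane.
-/

open Complex Metric

namespace Crest.Agent.H14

/-- Principal square root. -/
noncomputable def rt (z : ℂ) : ℂ := exp (log z / 2)

lemma rt_sq {z : ℂ} (hz : z ≠ 0) : rt z * rt z = z := by
  unfold rt
  rw [← exp_add, add_halves, exp_log hz]

lemma rt_re_pos {z : ℂ} (hz : z ∈ slitPlane) : 0 < (rt z).re := by
  unfold rt
  rw [exp_re]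
  apply mul_pos (Real.exp_pos _)
  have him : (log z / 2).im = z.arg / 2 := by
    have : (log z / 2) = ((1 / 2 : ℝ) : ℂ) * log z := by push_cast; ring
    rw [this, Complex.im_ofReal_mul, log_im]; ring
  rw [him]
  have h1 := Complex.neg_pi_lt_arg z
  have h2 : z.arg < Real.pi := lt_of_le_of_ne (Complex.arg_le_pi z) (by
    intro h
    exact (Complex.mem_slitPlane_iff_arg.1 hz).1 h)
  apply Real.cos_pos_of_mem_Ioo
  constructor <;> linarith

lemma hasDerivAt_rt {z : ℂ} (hz : z ∈ slitPlane) : HasDerivAt rt (rt z * (z⁻¹ / 2)) z := by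
  unfold rt
  exact ((hasDerivAt_log hz).div_const 2).cexp

lemma re_cayley_pos {ζ : ℂ} (hζ : ζ ∈ ball (0:ℂ) 1) : 0 < ((1 + ζ) / (1 - ζ)).re := by
  rw [mem_ball_zero_iff] at hζ
  have hne : (1 - ζ) ≠ 0 := by
    intro h
    have : ζ = 1 := by linear_combination -h
    rw [this] at hζ
    simp at hζ
  have hns : 0 < normSq (1 - ζ) := normSq_pos.2 hne
  rw [div_re]
  have h2 : normSq ζ < 1 := by
    rw [normSq_eq_norm_sq]
    have := norm_nonneg ζ
    nlinarith
  rw [normSq_apply] at h2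
  have : (1 + ζ).re * (1 - ζ).re / normSq (1 - ζ) + (1 + ζ).im * (1 - ζ).im / normSq (1 - ζ) =
      (1 - (ζ.re * ζ.re + ζ.im * ζ.im)) / normSq (1 - ζ) := by
    rw [← add_div]
    congr 1
    simp
    ring
  rw [this]
  apply div_pos _ hns
  linarith

lemma sq_mem_slit {w : ℂ} (hw : 0 < w.re) : w * w ∈ slitPlane := by
  rw [mem_slitPlane_iff]
  by_cases h : w.im = 0
  · left
    rw [mul_re, h]
    nlinarith
  · right
    rw [mul_im]
    intro h0
    have : w.re * w.im = 0 := by linarith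
    rcases mul_eq_zero.1 this with h1 | h1
    · linarith
    · exact h h1

theorem schwarz_slit (R : ℂ → ℂ) (hR : DifferentiableOn ℂ R slitPlane)
    (hmaps : Set.MapsTo R slitPlane slitPlane) (ρ : ℝ) (hρ : 0 < ρ) (hR1 : R 1 = (ρ : ℂ))
    (d : ℂ) (hd : HasDerivAt R d 1) : ‖d‖ ≤ ρ := by
  set c : ℂ := rt ρ with hc
  have hρs : (ρ : ℂ) ∈ slitPlane := by
    rw [mem_slitPlane_iff]; left; simpa using hρ
  have hρ0 : (ρ : ℂ) ≠ 0 := by exact_mod_cast hρ.ne'
  have hcc : c * c = ρ := rt_sq hρ0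
  have hcre : 0 < c.re := rt_re_pos hρs
  have hcim : c.im = 0 := by
    rw [hc]; unfold rt
    rw [← ofReal_log hρ.le]
    have : ((Real.log ρ : ℝ) : ℂ) / 2 = ((Real.log ρ / 2 : ℝ) : ℂ) := by push_cast; ring
    rw [this, ← ofReal_exp, ofReal_im]
  have hcne : c ≠ 0 := by
    intro h; rw [h] at hcre; simp at hcre
  set W : ℂ → ℂ := fun ζ => ((1 + ζ) / (1 - ζ)) * ((1 + ζ) / (1 - ζ)) with hW
  have hden : ∀ ζ ∈ ball (0:ℂ) 1, (1 - ζ) ≠ 0 := by
    intro ζ hζ h
    rw [mem_ball_zero_iff] at hζ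
    have : ζ = 1 := by linear_combination -h
    rw [this] at hζ
    simp at hζ
  have hWs : ∀ ζ ∈ ball (0:ℂ) 1, W ζ ∈ slitPlane := fun ζ hζ => sq_mem_slit (re_cayley_pos hζ)
  have hφd : ∀ ζ, (1 - ζ) ≠ 0 → HasDerivAt (fun ζ : ℂ => (1 + ζ) / (1 - ζ))
      ((1 * (1 - ζ) - (1 + ζ) * (-1)) / (1 - ζ) ^ 2) ζ := by
    intro ζ h
    exact (((hasDerivAt_id ζ).const_add 1)).div ((hasDerivAt_id ζ).const_sub 1) h
  have hWd : DifferentiableOn ℂ W (ball 0 1) := by
    intro ζ hζ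
    have := (hφd ζ (hden ζ hζ))
    exact (this.mul this).differentiableAt.differentiableWithinAt
  set S : ℂ → ℂ := fun ζ => rt (R (W ζ)) with hS
  have hSd : DifferentiableOn ℂ S (ball 0 1) := by
    intro ζ hζ
    have h1 : DifferentiableAt ℂ W ζ := (hWd ζ hζ).differentiableAt (isOpen_ball.mem_nhds hζ)
    have h2 : DifferentiableAt ℂ R (W ζ) :=
      (hR _ (hWs ζ hζ)).differentiableAt (isOpen_slitPlane.mem_nhds (hWs ζ hζ))
    have h3 : DifferentiableAt ℂ rt (R (W ζ)) :=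
      (hasDerivAt_rt (hmaps (hWs ζ hζ))).differentiableAt
    exact (h3.comp ζ (h2.comp ζ h1)).differentiableWithinAt
  have hSre : ∀ ζ ∈ ball (0:ℂ) 1, 0 < (S ζ).re := fun ζ hζ => rt_re_pos (hmaps (hWs ζ hζ))
  have hSc : ∀ ζ ∈ ball (0:ℂ) 1, S ζ + c ≠ 0 := by
    intro ζ hζ h
    have := hSre ζ hζ
    have h2 : (S ζ + c).re = 0 := by rw [h]; simp
    rw [add_re] at h2
    linarith
  set ψ : ℂ → ℂ := fun ζ => (S ζ - c) / (S ζ + c) with hψ
  have hψd : DifferentiableOn ℂ ψ (ball 0 1) :=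
    (hSd.sub_const c).div (hSd.add_const c) hSc
  have hW0 : W 0 = 1 := by simp [hW]
  have hS0 : S 0 = c := by simp only [hS, hW0, hR1]; rfl
  have hψ0 : ψ 0 = 0 := by simp [hψ, hS0]
  have hψmaps : Set.MapsTo ψ (ball 0 1) (closedBall (ψ 0) 1) := by
    intro ζ hζ
    rw [hψ0, mem_closedBall_zero_iff]
    simp only [hψ]
    rw [norm_div, div_le_one (norm_pos_iff.2 (hSc ζ hζ))]
    have h1 := hSre ζ hζ
    have : normSq (S ζ - c) ≤ normSq (S ζ + c) := by
      rw [normSq_apply, normSq_apply]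
      simp only [sub_re, sub_im, add_re, add_im, hcim]
      nlinarith [mul_pos h1 hcre]
    rw [normSq_eq_norm_sq, normSq_eq_norm_sq] at this
    exact (pow_le_pow_iff_left₀ (norm_nonneg _) (norm_nonneg _) two_ne_zero).1 this
  have hle := Complex.norm_deriv_le_one_of_mapsTo_ball hψd hψmaps one_pos
  -- compute the derivative at 0
  have hW' : HasDerivAt W 4 0 := by
    have h0 := hφd 0 (by simp)
    exact (h0.mul h0).congr_deriv (by norm_num)
  have hR' : HasDerivAt (fun ζ => R (W ζ)) (d * 4) 0 := by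
    have : HasDerivAt R d (W 0) := by rw [hW0]; exact hd
    exact this.comp 0 hW'
  have hS' : HasDerivAt S (c * ((ρ:ℂ)⁻¹ / 2) * (d * 4)) 0 := by
    have h1 : HasDerivAt rt (c * ((ρ:ℂ)⁻¹ / 2)) (R (W 0)) := by
      rw [hW0, hR1]
      exact hasDerivAt_rt hρs
    exact HasDerivAt.comp (h₂ := rt) (h := fun ζ => R (W ζ)) 0 h1 hR'
  have hψ' : HasDerivAt ψ (d / ρ) 0 := by
    have h1 := (hS'.sub_const c).div (hS'.add_const c) (hSc 0 (by simp))
    refine h1.congr_deriv ?_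
    rw [hS0]
    have h2c : (c + c) ≠ 0 := by
      intro h; apply hcne; linear_combination h / 2
    rw [← hcc]
    field_simp
    ring
  rw [hψ'.deriv, norm_div, Complex.norm_real, Real.norm_eq_abs, abs_of_pos hρ,
    div_le_one hρ] at hle
  exact hle

end Crest.Agent.H14
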