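import Mathlib

set_option autoImplicit false

/-!
General measurability lemmas: finite sets read from measurable families, dispatch over a
countable discrete parameter, measurable selection from a uniquely solvable relation.
-/

open MeasureTheory Filter Topology

namespace Crest.Agent.H14

open Classical in
/-- The finite set underlying a set (empty if the set is infinite). -/
noncomputable def toFin {α : Type*} (S : Set α) : Finset α :=
  if h : S.Finite then h.toFinset else ∅

lemma mem_toFin {α : Type*} {S : Set α} (h : S.Finite) (a : α) : a ∈ toFin S ↔ a ∈ S := by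
  unfold toFin
  rw [dif_pos h, Set.Finite.mem_toFinset]

lemma toFin_infinite {α : Type*} {S : Set α} (h : ¬ S.Finite) : toFin S = ∅ := by
  unfold toFin
  rw [dif_neg h]

lemma toFin_subset {α : Type*} {S : Set α} {a : α} (h : a ∈ toFin S) : a ∈ S := by
  by_cases hS : S.Finite
  · exact (mem_toFin hS a).1 h
  · rw [toFin_infinite hS] at h
    exact absurd h (Finset.notMem_empty a)

lemma toFin_map {α β : Type*} (f : α ↪ β) (S : Set α) (S' : Set β) (h : S' = f '' S) :
    toFin S' = (toFin S).map f := by
  subst h
  by_cases hS : S.Finite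
  · ext b
    rw [mem_toFin (hS.image f), Finset.mem_map]
    simp only [Set.mem_image, mem_toFin hS]
  · have : ¬ (f '' S).Finite := by
      intro hh
      exact hS (Set.Finite.of_finite_image hh f.injective.injOn)
    rw [toFin_infinite hS, toFin_infinite this, Finset.map_empty]

/-- A set-valued function whose membership events are measurable gives a measurable finite set. -/
lemma measurableSet_toFin {P : Type*} [MeasurableSpace P] {α : Type*} [Countable α]
    (S : P → Set α) (hS : ∀ a, MeasurableSet {p | a ∈ S p}) (C : Finset α) :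
    MeasurableSet {p | toFin (S p) = C} := by
  classical
  have h1 : ∀ C : Finset α, MeasurableSet {p | S p = (C : Set α)} := by
    intro C
    have : {p | S p = (C : Set α)} = ⋂ a : α, {p | a ∈ S p ↔ a ∈ C} := by
      ext p
      simp only [Set.mem_ofPred_eq, Set.mem_iInter, Set.ext_iff, Finset.mem_coe]
    rw [this]
    apply MeasurableSet.iInter
    intro a
    by_cases ha : a ∈ C
    · have : {p | a ∈ S p ↔ a ∈ C} = {p | a ∈ S p} := by
        ext p; simp [ha]
      rw [this]; exact hS a
    · have : {p | a ∈ S p ↔ a ∈ C} = {p | a ∈ S p}ᶜ := by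
        ext p; simp [ha]
      rw [this]; exact (hS a).compl
  have h2 : ∀ C : Finset α, C ≠ ∅ → {p | toFin (S p) = C} = {p | S p = (C : Set α)} := by
    intro C hC
    ext p
    simp only [Set.mem_ofPred_eq]
    constructor
    · intro h
      have hfin : (S p).Finite := by
        by_contra hcon
        rw [toFin_infinite hcon] at h
        exact hC h.symm
      ext a
      rw [← h, Finset.mem_coe, mem_toFin hfin]
    · intro h
      have hfin : (S p).Finite := by rw [h]; exact C.finite_toSet
      ext a
      rw [mem_toFin hfin, h, Finset.mem_coe]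
  by_cases hC : C = ∅
  · have h3 : {p | toFin (S p) = C} = (⋃ D : {D : Finset α // D ≠ ∅}, {p | toFin (S p) = D.1})ᶜ := by
      ext p
      simp only [Set.mem_ofPred_eq, Set.mem_compl_iff, Set.mem_iUnion, not_exists]
      rw [hC]
      constructor
      · intro h D hD
        exact D.2 (by rw [← hD, h])
      · intro h
        by_contra hcon
        exact h ⟨toFin (S p), hcon⟩ rfl
    rw [h3]
    apply MeasurableSet.compl
    apply MeasurableSet.iUnion
    intro D
    rw [h2 D.1 D.2]
    exact h1 D.1
  · rw [h2 C hC]
    exact h1 C

/-- Dispatch over a countable parameter. -/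
lemma measurable_dispatch {P : Type*} [MeasurableSpace P] {C : Type*} [Countable C]
    {Z : Type*} [MeasurableSpace Z] (c : P → C) (hc : ∀ d, MeasurableSet {p | c p = d})
    (F : C → P → Z) (hF : ∀ d, Measurable (F d)) : Measurable (fun p => F (c p) p) := by
  intro B hB
  have : (fun p => F (c p) p) ⁻¹' B = ⋃ d : C, {p | c p = d} ∩ (F d) ⁻¹' B := by
    ext p
    simp only [Set.mem_preimage, Set.mem_iUnion, Set.mem_inter_iff, Set.mem_ofPred_eq]
    constructor
    · intro h
      exact ⟨c p, rfl, h⟩
    · rintro ⟨d, hd, h⟩
      rw [hd]; exact h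
  rw [this]
  exact MeasurableSet.iUnion (fun d => (hc d).inter (hF d hB))

open Classical in
/-- Measurable selection from a relation with at most one solution. -/
lemma measurable_unique_choice {X Y : Type*} [MeasurableSpace X] [StandardBorelSpace X]
    [MeasurableSpace Y] [StandardBorelSpace Y] (S : X → Y → Prop)
    (hS : MeasurableSet {p : X × Y | S p.1 p.2})
    (huniq : ∀ x y y', S x y → S x y' → y = y') (y0 : Y) :
    Measurable (fun x => if h : ∃ y, S x y then Classical.choose h else y0) := by
  have hinj : Set.InjOn Prod.fst {p : X × Y | S p.1 p.2} := by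
    rintro ⟨x, y⟩ h ⟨x', y'⟩ h' hxx
    simp only [Set.mem_ofPred_eq] at h h' hxx
    subst hxx
    rw [huniq x y y' h h']
  have hproj : ∀ B : Set Y, MeasurableSet B → MeasurableSet {x | ∃ y ∈ B, S x y} := by
    intro B hB
    have hm : MeasurableSet ({p : X × Y | S p.1 p.2} ∩ Prod.snd ⁻¹' B) :=
      hS.inter (measurable_snd hB)
    have hi := hm.image_of_measurable_injOn (f := (Prod.fst : X × Y → X)) measurable_fst
      (hinj.mono Set.inter_subset_left)
    convert hi using 1
    ext x
    simp only [Set.mem_ofPred_eq, Set.mem_image, Set.mem_inter_iff, Set.mem_preimage, Prod.exists,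
      exists_and_right, exists_eq_right]
    constructor
    · rintro ⟨y, hy, h⟩
      exact ⟨y, h, hy⟩
    · rintro ⟨y, h, hy⟩
      exact ⟨y, hy, h⟩
  intro B hB
  have h1 : (fun x => if h : ∃ y, S x y then Classical.choose h else y0) ⁻¹' B =
      {x | ∃ y ∈ B, S x y} ∪ ({x | ∃ y ∈ Set.univ, S x y}ᶜ ∩ {_x | y0 ∈ B}) := by
    ext x
    simp only [Set.mem_preimage, Set.mem_union, Set.mem_inter_iff, Set.mem_compl_iff,
      Set.mem_ofPred_eq, Set.mem_univ, true_and]
    by_cases h : ∃ y, S x y
    · rw [dif_pos h]
      constructor
      · intro hB'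
        exact Or.inl ⟨_, hB', Classical.choose_spec h⟩
      · rintro (⟨y, hy, hSy⟩ | ⟨h1, _⟩)
        · rw [huniq x _ y (Classical.choose_spec h) hSy]
          exact hy
        · exact absurd h h1
    · rw [dif_neg h]
      constructor
      · intro hB'
        exact Or.inr ⟨h, hB'⟩
      · rintro (⟨y, hy, hSy⟩ | ⟨_, h2⟩)
        · exact absurd ⟨y, hSy⟩ h
        · exact h2
  rw [h1]
  exact (hproj B hB).union ((hproj _ MeasurableSet.univ).compl.inter (MeasurableSet.const _))

end Crest.Agent.H14
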