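import Crest.Agent.H14Schwarz

set_option autoImplicit false

/-!
Covariance bounds for finite strongly Rayleigh weights: negative correlation of distinct sites and
nonnegative correlation of a site with the total number, hence a bound on absolute row sums of
the covariance matrix.
-/

open Complex Metric Finset

namespace Crest.Agent.H14

variable {I : Type*}

/-- Generating polynomial of the weights `w` on the subsets of `F`. -/
noncomputable def genP (F : Finset I) (w : Finset I → ℝ) (z : I → ℂ) : ℂ :=
  ∑ S ∈ F.powerset, (w S : ℂ) * ∏ i ∈ S, z i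

/-- Nonvanishing when all the variables indexed by `F` lie in the open upper half plane. -/
def Stable (F : Finset I) (w : Finset I → ℝ) : Prop :=
  ∀ z : I → ℂ, (∀ i ∈ F, 0 < (z i).im) → genP F w z ≠ 0

section
variable [DecidableEq I]

/-- Part of the generating polynomial with the variable `j`, divided by that variable. -/
noncomputable def genB (F : Finset I) (w : Finset I → ℝ) (j : I) (z : I → ℂ) : ℂ :=
  ∑ S ∈ F.powerset, if j ∈ S then (w S : ℂ) * ∏ i ∈ S.erase j, z i else 0

/-- Part of the generating polynomial without the variable `j`. -/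
noncomputable def genA (F : Finset I) (w : Finset I → ℝ) (j : I) (z : I → ℂ) : ℂ :=
  ∑ S ∈ F.powerset, if j ∈ S then 0 else (w S : ℂ) * ∏ i ∈ S, z i

lemma genP_update (F : Finset I) (w : Finset I → ℝ) (j : I) (z : I → ℂ) (x : ℂ) :
    genP F w (Function.update z j x) = genA F w j z + x * genB F w j z := by
  unfold genP genA genB
  rw [Finset.mul_sum, ← Finset.sum_add_distrib]
  apply Finset.sum_congr rfl
  intro S _
  by_cases hj : j ∈ S
  · rw [if_pos hj, if_pos hj, zero_add, ← Finset.mul_prod_erase S _ hj, Function.update_self]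
    have : ∏ i ∈ S.erase j, Function.update z j x i = ∏ i ∈ S.erase j, z i := by
      apply Finset.prod_congr rfl
      intro i hi
      rw [Function.update_of_ne (Finset.ne_of_mem_erase hi)]
    rw [this]; ring
  · rw [if_neg hj, if_neg hj, mul_zero, add_zero]
    congr 1
    apply Finset.prod_congr rfl
    intro i hi
    rw [Function.update_of_ne (by rintro rfl; exact hj hi)]

lemma genP_eq (F : Finset I) (w : Finset I → ℝ) (j : I) (z : I → ℂ) :
    genP F w z = genA F w j z + z j * genB F w j z := by
  conv_lhs => rw [← Function.update_eq_self j z]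
  exact genP_update F w j z (z j)

lemma im_le_open {F : Finset I} {w : Finset I → ℝ} (hs : Stable F w) {j : I} (hj : j ∈ F)
    (z : I → ℂ) (hz : ∀ i ∈ F, 0 < (z i).im) :
    (genB F w j z * (starRingEnd ℂ) (genP F w z)).im ≤ 0 := by
  by_contra hcon
  push Not at hcon
  set A := genA F w j z with hA
  set B := genB F w j z with hB
  rw [genP_eq F w j z] at hcon
  rw [← hA, ← hB] at hcon
  have hBne : B ≠ 0 := by
    intro h
    rw [h] at hcon
    simp at hcon
  have hns : 0 < normSq B := normSq_pos.2 hBne
  have e : (B * (starRingEnd ℂ) (A + z j * B)).im =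
      (B * (starRingEnd ℂ) A).im - normSq B * (z j).im := by
    rw [map_add, map_mul, mul_add, add_im]
    have : B * ((starRingEnd ℂ) (z j) * (starRingEnd ℂ) B) =
        (normSq B : ℂ) * (starRingEnd ℂ) (z j) := by
      rw [← mul_conj]; ring
    rw [this, Complex.im_ofReal_mul, conj_im]
    ring
  rw [e] at hcon
  have hzj := hz j hj
  have h1 : 0 < (-(A / B)).im := by
    have : (-(A / B)).im = (B * (starRingEnd ℂ) A).im / normSq B := by
      rw [neg_im, div_eq_mul_inv, inv_def, ← mul_assoc, Complex.im_mul_ofReal, mul_im, mul_im, conj_re,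
        conj_im, conj_re, conj_im]
      field_simp
      ring
    rw [this]
    apply div_pos _ hns
    nlinarith
  have h2 := hs (Function.update z j (-(A / B))) (by
    intro i hi
    by_cases hij : i = j
    · subst hij; rw [Function.update_self]; exact h1
    · rw [Function.update_of_ne hij]; exact hz i hi)
  apply h2
  rw [genP_update, ← hA, ← hB]
  field_simp
  ring

lemma continuous_genP (F : Finset I) (w : Finset I → ℝ) (z : ℝ → I → ℂ)
    (hz : ∀ i, Continuous (fun δ => z δ i)) : Continuous (fun δ => genP F w (z δ)) := by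
  unfold genP
  apply continuous_finset_sum
  intro S _
  apply Continuous.mul continuous_const
  apply continuous_finset_prod
  intro i _
  exact hz i

lemma continuous_genB (F : Finset I) (w : Finset I → ℝ) (j : I) (z : ℝ → I → ℂ)
    (hz : ∀ i, Continuous (fun δ => z δ i)) : Continuous (fun δ => genB F w j (z δ)) := by
  unfold genB
  apply continuous_finset_sum
  intro S _
  by_cases hj : j ∈ S
  · simp only [if_pos hj]
    apply Continuous.mul continuous_const
    apply continuous_finset_prod
    intro i _
    exact hz i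
  · simp only [if_neg hj]
    exact continuous_const

lemma im_le_closed {F : Finset I} {w : Finset I → ℝ} (hs : Stable F w) {j : I} (hj : j ∈ F)
    (z : I → ℂ) (hz : ∀ i ∈ F, 0 ≤ (z i).im) :
    (genB F w j z * (starRingEnd ℂ) (genP F w z)).im ≤ 0 := by
  set zz : ℝ → I → ℂ := fun δ i => z i + (δ : ℂ) * Complex.I with hzz
  have hcont : Continuous (fun δ : ℝ =>
      (genB F w j (zz δ) * (starRingEnd ℂ) (genP F w (zz δ))).im) := by
    have hzc : ∀ i, Continuous (fun δ => zz δ i) := by
      intro i; simp only [hzz]; fun_prop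
    apply Complex.continuous_im.comp
    exact (continuous_genB F w j zz hzc).mul
      (Complex.continuous_conj.comp (continuous_genP F w zz hzc))
  have h0 : zz 0 = z := by
    ext i; simp [hzz]
  have hlim := (hcont.tendsto 0).mono_left (nhdsWithin_le_nhds (s := Set.Ioi (0:ℝ)))
  simp only [h0] at hlim
  apply le_of_tendsto hlim
  filter_upwards [self_mem_nhdsWithin] with δ hδ
  apply im_le_open hs hj
  intro i hi
  simp only [hzz, add_im, mul_im, ofReal_re, I_im, ofReal_im, I_re]
  have := hz i hi
  have : 0 < δ := hδ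
  linarith

/-- Total weight. -/
noncomputable def tot (F : Finset I) (w : Finset I → ℝ) : ℝ := ∑ S ∈ F.powerset, w S

/-- Weight of the subsets containing `v`. -/
noncomputable def inc (F : Finset I) (w : Finset I → ℝ) (v : I) : ℝ :=
  ∑ S ∈ F.powerset, if v ∈ S then w S else 0

/-- Weight of the subsets containing `v` and `j`. -/
noncomputable def inc2 (F : Finset I) (w : Finset I → ℝ) (v j : I) : ℝ :=
  ∑ S ∈ F.powerset, if v ∈ S ∧ j ∈ S then w S else 0

lemma negCorr {F : Finset I} {w : Finset I → ℝ} (hs : Stable F w) {i j : I} (hi : i ∈ F)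
    (hj : j ∈ F) (hij : i ≠ j) : inc2 F w i j * tot F w ≤ inc F w i * inc F w j := by
  have h := im_le_closed hs hj (fun k => if k = i then Complex.I else 1) (by
    intro k _
    split_ifs <;> simp)
  have hB : genB F w j (fun k => if k = i then Complex.I else 1) =
      ((inc F w j - inc2 F w i j : ℝ) : ℂ) + ((inc2 F w i j : ℝ) : ℂ) * Complex.I := by
    unfold genB inc inc2
    rw [← Finset.sum_sub_distrib]
    push_cast
    rw [Finset.sum_mul, ← Finset.sum_add_distrib]
    apply Finset.sum_congr rfl
    intro S _
    by_cases hjS : j ∈ S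
    · have hprod : ∏ k ∈ S.erase j, (if k = i then Complex.I else (1:ℂ)) =
          if i ∈ S then Complex.I else 1 := by
        rw [Finset.prod_ite_eq']
        simp [hij]
      rw [hprod]
      by_cases hiS : i ∈ S
      · simp [hiS, hjS]
      · simp [hiS, hjS]
    · simp [hjS]
  have hP : genP F w (fun k => if k = i then Complex.I else 1) =
      ((tot F w - inc F w i : ℝ) : ℂ) + ((inc F w i : ℝ) : ℂ) * Complex.I := by
    unfold genP inc tot
    rw [← Finset.sum_sub_distrib]
    push_cast
    rw [Finset.sum_mul, ← Finset.sum_add_distrib]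
    apply Finset.sum_congr rfl
    intro S _
    have hprod : ∏ k ∈ S, (if k = i then Complex.I else (1:ℂ)) =
        if i ∈ S then Complex.I else 1 := by
      rw [Finset.prod_ite_eq']
    rw [hprod]
    by_cases hiS : i ∈ S
    · simp [hiS]
    · simp [hiS]
  rw [hB, hP] at h
  simp only [map_add, map_mul, conj_ofReal, conj_I, mul_im, add_re, add_im, mul_re, ofReal_re,
    ofReal_im, I_re, I_im, neg_re, neg_im] at h
  nlinarith

lemma genP_const (F : Finset I) (w : Finset I → ℝ) (t : ℂ) :
    genP F w (fun _ => t) = ∑ S ∈ F.powerset, (w S : ℂ) * t ^ S.card := by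
  unfold genP
  simp

lemma genB_const (F : Finset I) (w : Finset I → ℝ) (v : I) (t : ℂ) :
    genB F w v (fun _ => t) =
      ∑ S ∈ F.powerset, if v ∈ S then (w S : ℂ) * t ^ (S.card - 1) else 0 := by
  unfold genB
  apply Finset.sum_congr rfl
  intro S _
  by_cases hv : v ∈ S
  · rw [if_pos hv, if_pos hv, Finset.prod_const, Finset.card_erase_of_mem hv]
  · rw [if_neg hv, if_neg hv]

/-- Weighted sum of sizes. -/
noncomputable def msz (F : Finset I) (w : Finset I → ℝ) : ℝ := ∑ S ∈ F.powerset, w S * S.card

/-- Weighted sum of sizes over the subsets containing `v`. -/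
noncomputable def mszv (F : Finset I) (w : Finset I → ℝ) (v : I) : ℝ :=
  ∑ S ∈ F.powerset, if v ∈ S then w S * S.card else 0

lemma genP_const_ne {F : Finset I} {w : Finset I → ℝ} (hs : Stable F w) (hw : ∀ S, 0 ≤ w S)
    (hpos : ∃ S ∈ F.powerset, 0 < w S) {t : ℂ} (ht : t ∈ slitPlane) :
    genP F w (fun _ => t) ≠ 0 := by
  rcases lt_trichotomy t.im 0 with h | h | h
  · intro h0
    have h1 := hs (fun _ => (starRingEnd ℂ) t) (by intro i _; rw [conj_im]; linarith)
    apply h1
    have : genP F w (fun _ => (starRingEnd ℂ) t) = (starRingEnd ℂ) (genP F w (fun _ => t)) := by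
      unfold genP
      simp
    rw [this, h0, map_zero]
  · have hre : 0 < t.re := by
      rw [mem_slitPlane_iff] at ht
      rcases ht with ht | ht
      · exact ht
      · exact absurd h ht
    have ht' : t = ((t.re : ℝ) : ℂ) := by
      apply Complex.ext
      · simp
      · simp [h]
    rw [genP_const, ht']
    have : ∑ S ∈ F.powerset, (w S : ℂ) * ((t.re : ℝ) : ℂ) ^ S.card =
        ((∑ S ∈ F.powerset, w S * t.re ^ S.card : ℝ) : ℂ) := by push_cast; rfl
    rw [this]
    have hsum : 0 < ∑ S ∈ F.powerset, w S * t.re ^ S.card := by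
      obtain ⟨S, hS, hwS⟩ := hpos
      apply Finset.sum_pos' (fun S _ => mul_nonneg (hw S) (by positivity)) ⟨S, hS, by positivity⟩
    exact_mod_cast hsum.ne'
  · exact hs (fun _ => t) (fun i _ => h)

lemma size_corr {F : Finset I} {w : Finset I → ℝ} (hs : Stable F w) (hw : ∀ S, 0 ≤ w S)
    (hpos : ∃ S ∈ F.powerset, 0 < w S) {v : I} (hv : v ∈ F) :
    inc F w v * msz F w ≤ mszv F w v * tot F w := by
  -- real quantities
  have htot : 0 < tot F w := by
    obtain ⟨S, hS, hwS⟩ := hpos
    exact Finset.sum_pos' (fun S _ => hw S) ⟨S, hS, hwS⟩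
  have hinc0 : 0 ≤ inc F w v := by
    unfold inc
    apply Finset.sum_nonneg
    intro S _
    split_ifs
    · exact hw S
    · exact le_rfl
  set P : ℂ → ℂ := fun t => genP F w (fun _ => t) with hP
  set B : ℂ → ℂ := fun t => genB F w v (fun _ => t) with hB
  have hP1 : P 1 = ((tot F w : ℝ) : ℂ) := by
    simp only [hP, genP_const, tot]; simp
  have hB1 : B 1 = ((inc F w v : ℝ) : ℂ) := by
    simp only [hB, genB_const, inc]
    push_cast
    apply Finset.sum_congr rfl
    intro S _
    split_ifs <;> simp
  have hPd : ∀ t, HasDerivAt P (∑ S ∈ F.powerset, (w S : ℂ) * ((S.card : ℂ) * t ^ (S.card - 1))) t := by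
    intro t
    have : P = fun t => ∑ S ∈ F.powerset, (w S : ℂ) * t ^ S.card := by
      ext t; simp only [hP, genP_const]
    rw [this]
    apply HasDerivAt.fun_sum
    intro S _
    exact (hasDerivAt_pow S.card t).const_mul _
  have hBd : ∀ t, HasDerivAt B (∑ S ∈ F.powerset, if v ∈ S then
      (w S : ℂ) * (((S.card - 1 : ℕ) : ℂ) * t ^ (S.card - 1 - 1)) else 0) t := by
    intro t
    have : B = fun t => ∑ S ∈ F.powerset, if v ∈ S then (w S : ℂ) * t ^ (S.card - 1) else 0 := by
      ext t; simp only [hB, genB_const]
    rw [this]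
    apply HasDerivAt.fun_sum
    intro S _
    by_cases hvS : v ∈ S
    · simp only [if_pos hvS]
      exact (hasDerivAt_pow (S.card - 1) t).const_mul _
    · simp only [if_neg hvS]
      exact hasDerivAt_const _ _
  have hPd1 : HasDerivAt P ((msz F w : ℝ) : ℂ) 1 := by
    refine (hPd 1).congr_deriv ?_
    unfold msz
    push_cast
    apply Finset.sum_congr rfl
    intro S _
    simp
  have hBd1 : HasDerivAt B ((mszv F w v - inc F w v : ℝ) : ℂ) 1 := by
    refine (hBd 1).congr_deriv ?_
    unfold mszv inc
    rw [← Finset.sum_sub_distrib]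
    push_cast
    apply Finset.sum_congr rfl
    intro S _
    by_cases hvS : v ∈ S
    · have hc : 1 ≤ S.card := Finset.card_pos.2 ⟨v, hvS⟩
      simp only [if_pos hvS, one_pow, mul_one]
      push_cast [Nat.cast_sub hc]
      ring
    · simp [hvS]
  have hPne : ∀ t ∈ slitPlane, P t ≠ 0 := fun t ht => genP_const_ne hs hw hpos ht
  have hconjP : ∀ t, P ((starRingEnd ℂ) t) = (starRingEnd ℂ) (P t) := by
    intro t
    simp only [hP, genP_const]
    simp
  have hconjB : ∀ t, B ((starRingEnd ℂ) t) = (starRingEnd ℂ) (B t) := by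
    intro t
    simp only [hB, genB_const, map_sum]
    apply Finset.sum_congr rfl
    intro S _
    by_cases hvS : v ∈ S
    · simp [hvS]
    · simp [hvS]
  have h1t : ∀ t ∈ slitPlane, (1 + t) ≠ 0 := by
    intro t ht h
    have : t = -1 := by linear_combination h
    rw [this, mem_slitPlane_iff] at ht
    simp at ht
    linarith
  have main : ∀ δ : ℝ, 0 < δ → inc F w v * msz F w - mszv F w v * tot F w ≤ (tot F w) ^ 2 * (δ / 4) := by
    intro δ hδ
    set R : ℂ → ℂ := fun t => B t / P t + (δ : ℂ) / (1 + t) with hR
    have hconjR : ∀ t, R ((starRingEnd ℂ) t) = (starRingEnd ℂ) (R t) := by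
      intro t
      simp only [hR, hconjP, hconjB]
      simp
    have him : ∀ t : ℂ, 0 < t.im → (R t).im < 0 := by
      intro t ht
      simp only [hR]
      rw [add_im]
      have a1 : (B t / P t).im ≤ 0 := by
        have h := im_le_open hs hv (fun _ => t) (fun _ _ => ht)
        rw [div_eq_mul_inv, inv_def, ← mul_assoc, Complex.im_mul_ofReal]
        exact mul_nonpos_of_nonpos_of_nonneg h (inv_nonneg.2 (normSq_nonneg _))
      have hts : t ∈ slitPlane := by rw [mem_slitPlane_iff]; right; exact ht.ne'
      have a2 : ((δ : ℂ) / (1 + t)).im < 0 := by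
        rw [div_eq_mul_inv, inv_def, ← mul_assoc, Complex.im_mul_ofReal]
        apply mul_neg_of_neg_of_pos _ (inv_pos.2 (normSq_pos.2 (h1t t hts)))
        rw [Complex.im_ofReal_mul, conj_im]
        simp only [add_im, one_im, zero_add]
        nlinarith
      linarith
    have hreal : ∀ x : ℝ, 0 < x → (R (x : ℂ)).re > 0 := by
      intro x hx
      simp only [hR, hP, hB, genP_const, genB_const]
      have e1 : (∑ S ∈ F.powerset, if v ∈ S then (w S : ℂ) * (x : ℂ) ^ (S.card - 1) else 0) =
          ((∑ S ∈ F.powerset, if v ∈ S then w S * x ^ (S.card - 1) else 0 : ℝ) : ℂ) := by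
        push_cast
        apply Finset.sum_congr rfl
        intro S _
        split_ifs <;> simp
      have e2 : (∑ S ∈ F.powerset, (w S : ℂ) * (x : ℂ) ^ S.card) =
          ((∑ S ∈ F.powerset, w S * x ^ S.card : ℝ) : ℂ) := by push_cast; rfl
      have e3 : (δ : ℂ) / (1 + (x : ℂ)) = ((δ / (1 + x) : ℝ) : ℂ) := by push_cast; rfl
      rw [e1, e2, e3, ← ofReal_div, ← ofReal_add, ofReal_re]
      have n1 : 0 ≤ ∑ S ∈ F.powerset, if v ∈ S then w S * x ^ (S.card - 1) else 0 := by
        apply Finset.sum_nonneg
        intro S _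
        split_ifs
        · exact mul_nonneg (hw S) (by positivity)
        · exact le_rfl
      have n2 : 0 < ∑ S ∈ F.powerset, w S * x ^ S.card := by
        obtain ⟨S, hS, hwS⟩ := hpos
        apply Finset.sum_pos' (fun S _ => mul_nonneg (hw S) (by positivity)) ⟨S, hS, by positivity⟩
      have : 0 < δ / (1 + x) := by positivity
      have := div_nonneg n1 n2.le
      linarith
    have hmaps : Set.MapsTo R slitPlane slitPlane := by
      intro t ht
      rw [mem_slitPlane_iff]
      rcases lt_trichotomy t.im 0 with h | h | h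
      · right
        have := him ((starRingEnd ℂ) t) (by rw [conj_im]; linarith)
        rw [hconjR, conj_im] at this
        intro h0
        rw [h0] at this
        simp at this
      · left
        have hre : 0 < t.re := by
          rw [mem_slitPlane_iff] at ht
          rcases ht with ht | ht
          · exact ht
          · exact absurd h ht
        have ht' : t = ((t.re : ℝ) : ℂ) := by
          apply Complex.ext
          · simp
          · simp [h]
        rw [ht']
        exact hreal t.re hre
      · right
        exact (him t h).ne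
    have hdiff : DifferentiableOn ℂ R slitPlane := by
      intro t ht
      apply DifferentiableAt.differentiableWithinAt
      apply DifferentiableAt.add
      · exact (hBd t).differentiableAt.div (hPd t).differentiableAt (hPne t ht)
      · exact (differentiableAt_const _).div ((differentiableAt_const _).add differentiableAt_id)
          (h1t t ht)
    have h1s : (1:ℂ) ∈ slitPlane := by rw [mem_slitPlane_iff]; left; simp
    have hR1 : R 1 = ((inc F w v / tot F w + δ / 2 : ℝ) : ℂ) := by
      simp only [hR, hP1, hB1]
      push_cast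
      norm_num
    have hRd : HasDerivAt R (((((mszv F w v - inc F w v) * tot F w - inc F w v * msz F w) /
        (tot F w) ^ 2 - δ / 4 : ℝ)) : ℂ) 1 := by
      have h1 := hBd1.div hPd1 (hPne 1 h1s)
      have h2 : HasDerivAt (fun t : ℂ => (δ : ℂ) / (1 + t)) (((0:ℂ) * (1 + 1) - δ * 1) / (1 + 1) ^ 2) 1 :=
        (hasDerivAt_const (1:ℂ) (δ:ℂ)).div ((hasDerivAt_id (1:ℂ)).const_add 1) (by norm_num)
      refine (h1.add h2).congr_deriv ?_
      rw [hP1, hB1]
      push_cast
      ring
    have hρ : 0 < inc F w v / tot F w + δ / 2 := by positivity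
    have hfin := schwarz_slit R hdiff hmaps _ hρ hR1 _ hRd
    rw [Complex.norm_real, Real.norm_eq_abs] at hfin
    have hfin2 := (abs_le.1 hfin).1
    have hsq : 0 < (tot F w) ^ 2 := by positivity
    have e4 : inc F w v / tot F w = inc F w v * tot F w / (tot F w) ^ 2 := by
      field_simp
    rw [e4] at hfin2
    have h5 : (inc F w v * msz F w - mszv F w v * tot F w) / (tot F w) ^ 2 ≤ δ / 4 := by
      have e5 : (inc F w v * msz F w - mszv F w v * tot F w) / (tot F w) ^ 2 =
          -(((mszv F w v - inc F w v) * tot F w - inc F w v * msz F w) / (tot F w) ^ 2) -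
            inc F w v * tot F w / (tot F w) ^ 2 := by ring
      rw [e5]
      linarith
    rw [div_le_iff₀ hsq] at h5
    linarith
  by_contra hcon
  push Not at hcon
  have hgap : 0 < inc F w v * msz F w - mszv F w v * tot F w := by linarith
  have hsq : 0 < (tot F w) ^ 2 := by positivity
  have := main ((inc F w v * msz F w - mszv F w v * tot F w) * 2 / (tot F w) ^ 2) (by positivity)
  have e : (tot F w) ^ 2 * ((inc F w v * msz F w - mszv F w v * tot F w) * 2 / (tot F w) ^ 2 / 4) =
      (inc F w v * msz F w - mszv F w v * tot F w) / 2 := by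
    field_simp
    ring
  rw [e] at this
  linarith

/-- Covariance (multiplied by the square of the total weight). -/
noncomputable def cov (F : Finset I) (w : Finset I → ℝ) (v j : I) : ℝ :=
  inc2 F w v j * tot F w - inc F w v * inc F w j

lemma sum_inc (F : Finset I) (w : Finset I → ℝ) : ∑ j ∈ F, inc F w j = msz F w := by
  unfold inc msz
  rw [Finset.sum_comm]
  apply Finset.sum_congr rfl
  intro S hS
  rw [← Finset.sum_filter, Finset.sum_const, nsmul_eq_mul, mul_comm]
  congr 2
  congr 1
  ext j
  simp only [Finset.mem_filter]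
  exact ⟨fun h => h.2, fun h => ⟨Finset.mem_powerset.1 hS h, h⟩⟩

lemma sum_inc2 (F : Finset I) (w : Finset I → ℝ) (v : I) : ∑ j ∈ F, inc2 F w v j = mszv F w v := by
  unfold inc2 mszv
  rw [Finset.sum_comm]
  apply Finset.sum_congr rfl
  intro S hS
  by_cases hv : v ∈ S
  · simp only [hv, true_and, if_true]
    rw [← Finset.sum_filter, Finset.sum_const, nsmul_eq_mul, mul_comm]
    congr 2
    congr 1
    ext j
    simp only [Finset.mem_filter]
    exact ⟨fun h => h.2, fun h => ⟨Finset.mem_powerset.1 hS h, h⟩⟩
  · simp [hv]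

lemma inc2_self (F : Finset I) (w : Finset I → ℝ) (v : I) : inc2 F w v v = inc F w v := by
  unfold inc2 inc
  simp

/-- Row-sum bound for covariances. -/
lemma row_bound {F : Finset I} {w : Finset I → ℝ} (hs : Stable F w) (hw : ∀ S, 0 ≤ w S)
    (hpos : ∃ S ∈ F.powerset, 0 < w S) {v : I} (hv : v ∈ F) :
    ∑ j ∈ F, |cov F w v j| ≤ 1 / 2 * (tot F w) ^ 2 := by
  have htot : 0 < tot F w := by
    obtain ⟨S, hS, hwS⟩ := hpos
    exact Finset.sum_pos' (fun S _ => hw S) ⟨S, hS, hwS⟩
  have hinc0 : 0 ≤ inc F w v := by
    unfold inc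
    apply Finset.sum_nonneg
    intro S _
    split_ifs
    · exact hw S
    · exact le_rfl
  have hincle : inc F w v ≤ tot F w := by
    unfold inc tot
    apply Finset.sum_le_sum
    intro S _
    split_ifs
    · exact le_rfl
    · exact hw S
  have hsum : 0 ≤ ∑ j ∈ F, cov F w v j := by
    unfold cov
    rw [Finset.sum_sub_distrib, ← Finset.sum_mul, ← Finset.mul_sum, sum_inc, sum_inc2]
    have := size_corr hs hw hpos hv
    linarith
  rw [← Finset.add_sum_erase F _ hv]
  rw [← Finset.add_sum_erase F _ hv] at hsum
  have hvv : cov F w v v = inc F w v * (tot F w - inc F w v) := by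
    unfold cov; rw [inc2_self]; ring
  have hvv0 : 0 ≤ cov F w v v := by
    rw [hvv]; exact mul_nonneg hinc0 (by linarith)
  have hneg : ∀ j ∈ F.erase v, |cov F w v j| = - cov F w v j := by
    intro j hj
    apply abs_of_nonpos
    unfold cov
    have := negCorr hs hv (Finset.mem_of_mem_erase hj) (Finset.ne_of_mem_erase hj).symm
    linarith
  rw [Finset.sum_congr rfl hneg, Finset.sum_neg_distrib, abs_of_nonneg hvv0]
  have h1 : cov F w v v ≤ 1 / 4 * (tot F w) ^ 2 := by
    rw [hvv]
    nlinarith [sq_nonneg (tot F w - 2 * inc F w v)]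
  linarith

end

end Crest.Agent.H14
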