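import Crest.Agent.H14UstLim

set_option autoImplicit false

/-!
Equivariance and measurability of the limiting inclusion probabilities of the free uniform
spanning forest.
-/

open MeasureTheory Filter Topology
open Crest.ProbabilityR.SpanningTrees Crest.ProbabilityR.GraphTables
open Crest.Agent.H14UstNC

namespace Crest.Agent.H14

/-- Isomorphism of the pieces under a permutation of the vertices. -/
def isoInd (H H' : SimpleGraph ℕ) (σ : Equiv.Perm ℕ)
    (h : ∀ a b, H'.Adj (σ a) (σ b) ↔ H.Adj a b) (S : Finset ℕ) :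
    H.induce (S : Set ℕ) ≃g H'.induce ((S.map σ.toEmbedding : Finset ℕ) : Set ℕ) where
  toEquiv := σ.subtypeEquiv (fun a => by simp)
  map_rel_iff' := by
    intro a b
    exact h a b

theorem connected_comap (σ : Equiv.Perm ℕ) (G : SimpleGraph ℕ) (S : Finset ℕ) :
    ((G.comap σ).induce (S : Set ℕ)).Connected ↔
      (G.induce ((S.map σ.toEmbedding : Finset ℕ) : Set ℕ)).Connected :=
  (isoInd (G.comap σ) G σ (fun _ _ => Iff.rfl) S).connected_iff

theorem mem_edgesIn (G : SimpleGraph ℕ) (S : Finset ℕ) (a b : ℕ) :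
    s(a, b) ∈ edgesIn G S ↔ (a ∈ S ∧ b ∈ S) ∧ G.Adj a b := by
  simp only [edgesIn, Finset.mem_filter, Finset.mk_mem_sym2_iff, SimpleGraph.mem_edgeSet]

theorem edgesIn_comap (σ : Equiv.Perm ℕ) (G : SimpleGraph ℕ) (S : Finset ℕ) :
    (edgesIn (G.comap σ) S).map (symEmb σ) = edgesIn G (S.map σ.toEmbedding) := by
  ext e
  induction e using Sym2.ind with
  | _ a b =>
    rw [Finset.mem_map, mem_edgesIn]
    constructor
    · rintro ⟨e', he', heq⟩
      induction e' using Sym2.ind with
      | _ c d =>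
        rw [mem_edgesIn] at he'
        have h2 : s(σ c, σ d) = s(a, b) := heq
        rw [Sym2.eq_iff] at h2
        rcases h2 with ⟨rfl, rfl⟩ | ⟨rfl, rfl⟩
        · refine ⟨⟨?_, ?_⟩, he'.2⟩
          · exact Finset.mem_map_of_mem _ he'.1.1
          · exact Finset.mem_map_of_mem _ he'.1.2
        · refine ⟨⟨?_, ?_⟩, (he'.2 : G.Adj _ _).symm⟩
          · exact Finset.mem_map_of_mem _ he'.1.2
          · exact Finset.mem_map_of_mem _ he'.1.1
    · rintro ⟨⟨ha, hb⟩, hadj⟩
      rw [Finset.mem_map] at ha hb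
      obtain ⟨c, hc, rfl⟩ := ha
      obtain ⟨d, hd, rfl⟩ := hb
      refine ⟨s(c, d), ?_, rfl⟩
      rw [mem_edgesIn]
      exact ⟨⟨hc, hd⟩, hadj⟩

theorem isSpanningTreeOn_comap (σ : Equiv.Perm ℕ) (G : SimpleGraph ℕ) (S : Finset ℕ)
    (A : Finset (Sym2 ℕ)) :
    IsSpanningTreeOn (G.comap σ) S A ↔
      IsSpanningTreeOn G (S.map σ.toEmbedding) (A.map (symEmb σ)) := by
  unfold IsSpanningTreeOn
  rw [← edgesIn_comap, Finset.map_subset_map]
  apply and_congr_right
  intro _
  apply SimpleGraph.Iso.isTree_iff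
  apply isoInd
  intro a b
  rw [SimpleGraph.fromEdgeSet_adj, SimpleGraph.fromEdgeSet_adj]
  rw [Finset.mem_coe, Finset.mem_coe, σ.injective.ne_iff]
  have : s(σ a, σ b) = symEmb σ s(a, b) := rfl
  rw [this, Finset.mem_map']

theorem trees_comap (σ : Equiv.Perm ℕ) (G : SimpleGraph ℕ) (S : Finset ℕ) :
    (trees (G.comap σ) S).map (Finset.mapEmbedding (symEmb σ)).toEmbedding =
      trees G (S.map σ.toEmbedding) := by
  ext B
  rw [Finset.mem_map, mem_trees]
  constructor
  · rintro ⟨A, hA, rfl⟩
    exact (isSpanningTreeOn_comap σ G S A).1 ((mem_trees _ _ _).1 hA)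
  · intro hB
    have hsub : B ⊆ (edgesIn (G.comap σ) S).map (symEmb σ) := by
      rw [edgesIn_comap]; exact hB.1
    obtain ⟨A, hA, rfl⟩ := Finset.subset_map_iff.1 hsub
    exact ⟨A, (mem_trees _ _ _).2 ((isSpanningTreeOn_comap σ G S A).2 hB), rfl⟩

theorem ustContains_comap (σ : Equiv.Perm ℕ) (G : SimpleGraph ℕ) (S : Finset ℕ)
    (F : Finset (Sym2 ℕ)) :
    ustContains (G.comap σ) S F = ustContains G (S.map σ.toEmbedding) (F.map (symEmb σ)) := by
  classical
  rw [ustContains_eq_card, ustContains_eq_card, ← trees_comap, Finset.card_map,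
    Finset.filter_map, Finset.card_map]
  congr 3
  ext A
  simp only [Finset.mem_filter, Function.comp_apply]
  apply and_congr_right
  intro _
  exact (Finset.map_subset_map (f := symEmb σ)).symm

/-- Equivariance of the limiting inclusion probabilities. -/
theorem pinc_comap (σ : Equiv.Perm ℕ) (G : SimpleGraph ℕ) (F : Finset (Sym2 ℕ)) :
    pinc (G.comap σ) F = pinc G (F.map (symEmb σ)) := by
  unfold pinc
  apply (Equiv.finsetCongr σ).iInf_congr
  intro S
  rw [Equiv.finsetCongr_apply, ← ustContains_comap]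
  have h1 := connected_comap σ G S
  have h2 : F.map (symEmb σ) ⊆ edgesIn G (S.map σ.toEmbedding) ↔ F ⊆ edgesIn (G.comap σ) S := by
    rw [← edgesIn_comap, Finset.map_subset_map]
  by_cases h : (G.induce ((S.map σ.toEmbedding : Finset ℕ) : Set ℕ)).Connected ∧
      F.map (symEmb σ) ⊆ edgesIn G (S.map σ.toEmbedding)
  · rw [if_pos h, if_pos ⟨h1.2 h.1, h2.1 h.2⟩]
  · rw [if_neg h, if_neg fun h' => h ⟨h1.1 h'.1, h2.2 h'.2⟩]

theorem induce_fromEdgeSet_edgesIn (G : SimpleGraph ℕ) (S : Finset ℕ) :
    (SimpleGraph.fromEdgeSet ((edgesIn G S : Finset (Sym2 ℕ)) : Set (Sym2 ℕ))).induce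
      (S : Set ℕ) = G.induce (S : Set ℕ) := by
  ext a b
  rw [SimpleGraph.comap_adj, SimpleGraph.comap_adj, SimpleGraph.fromEdgeSet_adj]
  simp only [Function.Embedding.subtype_apply, Finset.mem_coe, mem_edgesIn]
  constructor
  · rintro ⟨h, _⟩; exact h.2
  · intro h; exact ⟨⟨⟨a.2, b.2⟩, h⟩, h.ne⟩

theorem measurableSet_edgesIn (S : Finset ℕ) (T : Finset (Sym2 ℕ)) :
    MeasurableSet {A : ℕ → ℕ → Bool | edgesIn (graphOfTable A) S = T} := by
  classical
  by_cases hT : T ⊆ S.sym2
  · have : {A : ℕ → ℕ → Bool | edgesIn (graphOfTable A) S = T} =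
        ⋂ a ∈ S, ⋂ b ∈ S, {A : ℕ → ℕ → Bool | (graphOfTable A).Adj a b ↔ s(a, b) ∈ T} := by
      ext A
      simp only [Set.mem_ofPred_eq, Set.mem_iInter]
      constructor
      · rintro rfl a ha b hb
        rw [mem_edgesIn]
        exact ⟨fun h => ⟨⟨ha, hb⟩, h⟩, fun h => h.2⟩
      · intro h
        ext e
        induction e using Sym2.ind with
        | _ a b =>
          rw [mem_edgesIn]
          constructor
          · rintro ⟨⟨ha, hb⟩, hadj⟩
            exact (h a ha b hb).1 hadj
          · intro hab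
            have := hT hab
            rw [Finset.mk_mem_sym2_iff] at this
            exact ⟨this, (h a this.1 b this.2).2 hab⟩
    rw [this]
    refine S.measurableSet_biInter fun a _ => S.measurableSet_biInter fun b _ => ?_
    have hm : ∀ a b : ℕ, Measurable (fun A : ℕ → ℕ → Bool => A a b) := fun a b =>
      (measurable_pi_apply b).comp (measurable_pi_apply a)
    have h1 : MeasurableSet {A : ℕ → ℕ → Bool | A a b = true} :=
      hm a b (measurableSet_singleton true)
    have h2 : MeasurableSet {A : ℕ → ℕ → Bool | A b a = true} :=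
      hm b a (measurableSet_singleton true)
    have h3 : MeasurableSet {A : ℕ → ℕ → Bool | (graphOfTable A).Adj a b} := by
      by_cases hab : a = b
      · have : {A : ℕ → ℕ → Bool | (graphOfTable A).Adj a b} = ∅ := by
          ext A; simp [hab]
        rw [this]; exact MeasurableSet.empty
      · have : {A : ℕ → ℕ → Bool | (graphOfTable A).Adj a b} =
            {A : ℕ → ℕ → Bool | A a b = true} ∪ {A : ℕ → ℕ → Bool | A b a = true} := by
          ext A
          simp only [graphOfTable, SimpleGraph.fromRel_adj, Set.mem_ofPred_eq, Set.mem_union]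
          tauto
        rw [this]; exact h1.union h2
    by_cases hT' : s(a, b) ∈ T
    · simpa [hT'] using h3
    · have : {A : ℕ → ℕ → Bool | (graphOfTable A).Adj a b ↔ s(a, b) ∈ T} =
          {A : ℕ → ℕ → Bool | (graphOfTable A).Adj a b}ᶜ := by
        ext A; simp [hT']
      rw [this]; exact h3.compl
  · have : {A : ℕ → ℕ → Bool | edgesIn (graphOfTable A) S = T} = ∅ := by
      ext A
      simp only [Set.mem_ofPred_eq, Set.mem_empty_iff_false, iff_false]
      rintro rfl
      exact hT (Finset.filter_subset _ _)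
    rw [this]; exact MeasurableSet.empty

theorem measurable_edgesIn_comp (S : Finset ℕ) (h : Finset (Sym2 ℕ) → ℝ) :
    Measurable (fun A : ℕ → ℕ → Bool => h (edgesIn (graphOfTable A) S)) := by
  let _ : MeasurableSpace (Finset (Sym2 ℕ)) := ⊤
  have h1 : Measurable (fun A : ℕ → ℕ → Bool => edgesIn (graphOfTable A) S) := by
    apply measurable_to_countable'
    intro T
    exact measurableSet_edgesIn S T
  exact (measurable_from_top (f := h)).comp h1

/-- Measurability of the limiting inclusion probabilities in the adjacency table. -/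
theorem measurable_pinc (F : Finset (Sym2 ℕ)) :
    Measurable (fun A : ℕ → ℕ → Bool => pinc (graphOfTable A) F) := by
  classical
  unfold pinc
  apply Measurable.iInf
  intro S
  have := measurable_edgesIn_comp S (fun T =>
    if ((SimpleGraph.fromEdgeSet ((T : Finset (Sym2 ℕ)) : Set (Sym2 ℕ))).induce
      (S : Set ℕ)).Connected ∧ F ⊆ T then pr S T F else 1)
  have h2 : (fun A : ℕ → ℕ → Bool =>
      if ((graphOfTable A).induce (S : Set ℕ)).Connected ∧ F ⊆ edgesIn (graphOfTable A) S then
        ustContains (graphOfTable A) S F else 1) = fun A : ℕ → ℕ → Bool => (fun T =>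
    if ((SimpleGraph.fromEdgeSet ((T : Finset (Sym2 ℕ)) : Set (Sym2 ℕ))).induce
      (S : Set ℕ)).Connected ∧ F ⊆ T then pr S T F else 1) (edgesIn (graphOfTable A) S) := by
    funext A
    have h3 := induce_fromEdgeSet_edgesIn (graphOfTable A) S
    by_cases h : ((graphOfTable A).induce (S : Set ℕ)).Connected ∧
        F ⊆ edgesIn (graphOfTable A) S
    · rw [if_pos h]
      beta_reduce
      rw [if_pos ⟨by rw [h3]; exact h.1, h.2⟩, ustContains_eq_pr]
    · rw [if_neg h]
      beta_reduce
      rw [if_neg]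
      rintro ⟨h4, h5⟩
      rw [h3] at h4
      exact h ⟨h4, h5⟩
  rw [← h2] at this
  exact this

end Crest.Agent.H14
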