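import Crest.Agent.H14UstDefs

set_option autoImplicit false

/-!
Convergence of the inclusion probabilities of the uniform spanning trees of finite pieces, and
existence of the limiting law (the free uniform spanning forest) together with the row-sum bound
for the covariances of its marginals.
-/

open MeasureTheory Filter Topology
open Crest.ProbabilityR.SpanningTrees Crest.ProbabilityR.GraphTables
open Crest.Agent.H14UstNC

namespace Crest.Agent.H14

open Classical in
/-- the spanning trees of a piece. -/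
noncomputable def trees (G : SimpleGraph ℕ) (S : Finset ℕ) : Finset (Finset (Sym2 ℕ)) :=
  (edgesIn G S).powerset.filter (fun A => IsSpanningTreeOn G S A)

theorem mem_trees (G : SimpleGraph ℕ) (S : Finset ℕ) (A : Finset (Sym2 ℕ)) :
    A ∈ trees G S ↔ IsSpanningTreeOn G S A := by
  classical
  unfold trees
  rw [Finset.mem_filter, Finset.mem_powerset]
  exact ⟨fun h => h.2, fun h => ⟨h.1, h⟩⟩

open Classical in
theorem treeSum_eq_trees (G : SimpleGraph ℕ) (S : Finset ℕ) (c : Sym2 ℕ → ℝ)
    (F : Finset (Sym2 ℕ)) :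
    treeSum G S c F = ∑ A ∈ trees G S, if F ⊆ A then ∏ e ∈ A, c e else 0 := by
  unfold treeSum trees
  rw [← Finset.sum_filter, Finset.filter_filter]
  congr!

theorem card_trees (G : SimpleGraph ℕ) (S : Finset ℕ) :
    ((trees G S).card : ℝ) = treeSum G S 1 ∅ := by
  classical
  rw [treeSum_eq_trees]
  simp

open Classical in
theorem ustContains_eq_card (G : SimpleGraph ℕ) (S : Finset ℕ) (F : Finset (Sym2 ℕ)) :
    ustContains G S F = (((trees G S).filter (fun A => F ⊆ A)).card : ℝ) / (trees G S).card := by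
  rw [ustContains_eq_treeSum, card_trees, treeSum_eq_trees]
  congr 1
  simp

theorem ustContains_le_one (G : SimpleGraph ℕ) (S : Finset ℕ) (F : Finset (Sym2 ℕ)) :
    ustContains G S F ≤ 1 := by
  classical
  rw [ustContains_eq_card]
  apply div_le_one_of_le₀ _ (Nat.cast_nonneg _)
  exact_mod_cast Finset.card_filter_le _ _

/-- Convergence of the inclusion probabilities. -/
theorem tendsto_pinc (G : SimpleGraph ℕ) (S : ℕ → Finset ℕ) (hmono : Monotone S)
    (hex : ∀ v : ℕ, ∃ n, v ∈ S n) (hconn : ∀ n, (G.induce (S n : Set ℕ)).Connected)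
    (F : Finset (Sym2 ℕ)) (hF : (↑F : Set (Sym2 ℕ)) ⊆ G.edgeSet) :
    Tendsto (fun n => ustContains G (S n) F) atTop (nhds (pinc G F)) := by
  classical
  have hev : ∀ T : Finset ℕ, ∃ n, T ⊆ S n := by
    intro T
    induction T using Finset.induction_on with
    | empty => exact ⟨0, Finset.empty_subset _⟩
    | insert a T _ ih =>
      obtain ⟨n, hn⟩ := ih
      obtain ⟨m, hm⟩ := hex a
      refine ⟨max n m, Finset.insert_subset (hmono (le_max_right _ _) hm)
        (hn.trans (hmono (le_max_left _ _)))⟩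
  have hevF : ∃ n, F ⊆ edgesIn G (S n) := by
    obtain ⟨n, hn⟩ := hev (F.biUnion fun e => {(ends e).1, (ends e).2})
    refine ⟨n, fun e he => ?_⟩
    simp only [edgesIn, Finset.mem_filter]
    refine ⟨?_, hF he⟩
    have h1 : (ends e).1 ∈ S n := hn (Finset.mem_biUnion.2 ⟨e, he, by simp⟩)
    have h2 : (ends e).2 ∈ S n := hn (Finset.mem_biUnion.2 ⟨e, he, by simp⟩)
    rw [← mk_ends e]
    exact Finset.mk_mem_sym2_iff.2 ⟨h1, h2⟩
  obtain ⟨n0, hn0⟩ := hevF
  have hbdd : BddBelow (Set.range fun S : Finset ℕ =>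
      if (G.induce (S : Set ℕ)).Connected ∧ F ⊆ edgesIn G S then ustContains G S F else (1 : ℝ)) := by
    refine ⟨0, ?_⟩
    rintro _ ⟨S, rfl⟩
    dsimp only
    split_ifs
    · exact ustContains_nonneg G _ F
    · exact zero_le_one
  rw [Metric.tendsto_atTop]
  intro ε hε
  obtain ⟨T, hT⟩ := exists_lt_of_ciInf_lt (lt_add_of_pos_right (pinc G F) hε)
  obtain ⟨n1, hn1⟩ := hev T
  refine ⟨max n0 n1, fun n hn => ?_⟩
  have h0 : F ⊆ edgesIn G (S n) := hn0.trans (edgesIn_mono G (hmono ((le_max_left _ _).trans hn)))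
  have h1 : pinc G F ≤ ustContains G (S n) F := by
    have := ciInf_le hbdd (S n)
    rw [if_pos ⟨hconn n, h0⟩] at this
    exact this
  have h2 : ustContains G (S n) F < pinc G F + ε := by
    split_ifs at hT with hc
    · exact (ustContains_mono G T (S n) (hn1.trans (hmono ((le_max_right _ _).trans hn)))
        hc.1 (hconn n) F hc.2).trans_lt hT
    · exact (ustContains_le_one G (S n) F).trans_lt hT
  rw [Real.dist_eq, abs_of_nonneg (by linarith)]
  linarith

/-- Exhaustion of a connected graph by finite connected pieces. -/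
theorem exists_exhaustion (G : SimpleGraph ℕ) (hG : G.Connected) :
    ∃ S : ℕ → Finset ℕ, Monotone S ∧ (∀ v : ℕ, ∃ n, v ∈ S n) ∧
      ∀ n, (G.induce (S n : Set ℕ)).Connected := by
  classical
  have hex : ∀ t : Finset ℕ, ∃ t' : Finset ℕ, t.Nonempty →
      t ⊆ t' ∧ (G.induce (t' : Set ℕ)).Connected := by
    intro t
    by_cases ht : t.Nonempty
    · obtain ⟨t', h⟩ := SimpleGraph.extend_finset_to_connected hG.preconnected ht
      exact ⟨t', fun _ => h⟩
    · exact ⟨∅, fun h => absurd h ht⟩
  choose f hf using hex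
  let S : ℕ → Finset ℕ := fun n => Nat.rec (f {0}) (fun n T => f (insert (n + 1) T)) n
  have hS0 : S 0 = f {0} := rfl
  have hS1 : ∀ n, S (n + 1) = f (insert (n + 1) (S n)) := fun n => rfl
  have hsub : ∀ n, insert (n + 1) (S n) ⊆ S (n + 1) := fun n => by
    rw [hS1]; exact (hf _ (Finset.insert_nonempty _ _)).1
  refine ⟨S, ?_, ?_, ?_⟩
  · exact monotone_nat_of_le_succ fun n => (Finset.subset_insert _ _).trans (hsub n)
  · intro v
    cases v with
    | zero =>
      refine ⟨0, ?_⟩
      rw [hS0]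
      exact (hf _ (Finset.singleton_nonempty _)).1 (Finset.mem_singleton_self _)
    | succ v => exact ⟨v + 1, hsub v (Finset.mem_insert_self _ _)⟩
  · intro n
    cases n with
    | zero => rw [hS0]; exact (hf _ (Finset.singleton_nonempty _)).2
    | succ n => rw [hS1]; exact (hf _ (Finset.insert_nonempty _ _)).2

/-- Indicator configuration of a set of edges. -/
noncomputable def ptA (G : SimpleGraph ℕ) (A : Finset (Sym2 ℕ)) : ↥G.edgeSet → Bool :=
  open Classical in fun e => decide (e.1 ∈ A)

theorem ptA_eq_true (G : SimpleGraph ℕ) (A : Finset (Sym2 ℕ)) (e : ↥G.edgeSet) :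
    ptA G A e = true ↔ e.1 ∈ A := by
  unfold ptA
  simp

/-- Law of the edge indicators of the uniform spanning tree of a piece. -/
noncomputable def lawT (G : SimpleGraph ℕ) (S : Finset ℕ) : Measure (↥G.edgeSet → Bool) :=
  ((trees G S).card : ENNReal)⁻¹ • ∑ A ∈ trees G S, Measure.dirac (ptA G A)

theorem trees_card_pos (G : SimpleGraph ℕ) (S : Finset ℕ)
    (h : (G.induce (S : Set ℕ)).Connected) : 0 < (trees G S).card := by
  have h1 := treeSum_empty_pos G S h 1 (fun _ => zero_lt_one)
  rw [← card_trees] at h1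
  exact_mod_cast h1

theorem isProb_lawT (G : SimpleGraph ℕ) (S : Finset ℕ)
    (h : (G.induce (S : Set ℕ)).Connected) : IsProbabilityMeasure (lawT G S) := by
  constructor
  unfold lawT
  rw [Measure.smul_apply, Measure.finsetSum_apply]
  simp only [measure_univ, Finset.sum_const, nsmul_eq_mul, mul_one, smul_eq_mul]
  apply ENNReal.inv_mul_cancel
  · exact_mod_cast (trees_card_pos G S h).ne'
  · exact ENNReal.natCast_ne_top _

theorem integral_lawT (G : SimpleGraph ℕ) (S : Finset ℕ) (f : (↥G.edgeSet → Bool) → ℝ) :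
    ∫ ω, f ω ∂(lawT G S) = (∑ A ∈ trees G S, f (ptA G A)) / (trees G S).card := by
  unfold lawT
  rw [integral_smul_measure, integral_finsetSum_measure]
  · simp only [integral_dirac]
    rw [ENNReal.toReal_inv, ENNReal.toReal_natCast, smul_eq_mul, inv_mul_eq_div]
  · intro A _
    exact integrable_dirac (by simp)

theorem lawT_toReal (G : SimpleGraph ℕ) (S : Finset ℕ) (F : Finset ↥G.edgeSet) :
    (lawT G S {ω | ∀ e ∈ F, ω e = true}).toReal =
      ustContains G S (F.map (Function.Embedding.subtype (· ∈ G.edgeSet))) := by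
  classical
  have hm : MeasurableSet {ω : ↥G.edgeSet → Bool | ∀ e ∈ F, ω e = true} := by
    have : {ω : ↥G.edgeSet → Bool | ∀ e ∈ F, ω e = true} =
        ⋂ i ∈ F, (fun ω : ↥G.edgeSet → Bool => ω i) ⁻¹' {b | b = true} := by
      ext ω; simp
    rw [this]
    exact F.measurableSet_biInter (fun i _ => (measurable_pi_apply i) (MeasurableSet.of_discrete))
  have h := integral_lawT G S ({ω | ∀ e ∈ F, ω e = true}.indicator (fun _ => (1 : ℝ)))
  rw [integral_indicator_const _ hm] at h
  rw [ustContains_eq_card]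
  rw [smul_eq_mul, mul_one] at h
  refine Eq.trans h ?_
  congr 1
  rw [Finset.card_filter]
  push_cast
  refine Finset.sum_congr rfl fun A _ => ?_
  rw [Set.indicator_apply]
  congr 1
  simp only [Set.mem_ofPred_eq, ptA_eq_true, eq_iff_iff]
  constructor
  · intro h e he
    rw [Finset.mem_map] at he
    obtain ⟨e', he', rfl⟩ := he
    exact h e' he'
  · intro h e he
    exact h (Finset.mem_map_of_mem _ he)

open Classical in
/-- The conductances attached to a tilt. -/
noncomputable def cnd (G : SimpleGraph ℕ) (F : Finset ↥G.edgeSet) (x : ↥G.edgeSet → ℝ)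
    (e : Sym2 ℕ) : ℝ :=
  if h : e ∈ G.edgeSet then (if (⟨e, h⟩ : ↥G.edgeSet) ∈ F then x ⟨e, h⟩ else 1) else 1

theorem cnd_pos (G : SimpleGraph ℕ) (F : Finset ↥G.edgeSet) (x : ↥G.edgeSet → ℝ)
    (hx : ∀ i, 0 < x i) (e : Sym2 ℕ) : 0 < cnd G F x e := by
  unfold cnd
  split_ifs
  · exact hx _
  · exact one_pos
  · exact one_pos

open Classical in
theorem prod_cnd (G : SimpleGraph ℕ) (F : Finset ↥G.edgeSet) (x : ↥G.edgeSet → ℝ)
    (A : Finset (Sym2 ℕ)) :
    ∏ e ∈ A, cnd G F x e = ∏ i ∈ F.filter (fun i => ptA G A i = true), x i := by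
  have h1 : ∏ i ∈ F.filter (fun i => ptA G A i = true), x i =
      ∏ e ∈ (F.filter (fun i => ptA G A i = true)).map
        (Function.Embedding.subtype (· ∈ G.edgeSet)), cnd G F x e := by
    rw [Finset.prod_map]
    refine Finset.prod_congr rfl fun i hi => ?_
    unfold cnd
    rw [Function.Embedding.coe_subtype, dif_pos i.2, if_pos (Finset.mem_filter.1 hi).1]
  rw [h1]
  symm
  apply Finset.prod_subset
  · intro e he
    rw [Finset.mem_map] at he
    obtain ⟨i, hi, rfl⟩ := he
    exact (ptA_eq_true G A i).1 (Finset.mem_filter.1 hi).2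
  · intro e he hne
    unfold cnd
    split_ifs with h1 h2
    · exfalso
      apply hne
      rw [Finset.mem_map]
      exact ⟨⟨e, h1⟩, Finset.mem_filter.2 ⟨h2, (ptA_eq_true G A _).2 he⟩, rfl⟩
    · rfl
    · rfl

theorem sum_marg_lawT (G : SimpleGraph ℕ) [DecidableEq ↥G.edgeSet] (S : Finset ℕ)
    (h : (G.induce (S : Set ℕ)).Connected) (F : Finset ↥G.edgeSet) (x : ↥G.edgeSet → ℝ)
    (K : Finset ↥G.edgeSet) (hK : K ⊆ F) :
    ∑ W ∈ F.powerset, (if K ⊆ W then tilt (marg (lawT G S) F) x W else 0) =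
      treeSum G S (cnd G F x) (K.map (Function.Embedding.subtype (· ∈ G.edgeSet))) /
        (trees G S).card := by
  have := isProb_lawT G S h
  have h1 := integral_cyl (lawT G S) F (fun W => if K ⊆ W then ∏ i ∈ W, x i else 0)
  rw [integral_lawT] at h1
  have h2 : ∑ W ∈ F.powerset, (if K ⊆ W then tilt (marg (lawT G S) F) x W else 0) =
      ∑ W ∈ F.powerset, marg (lawT G S) F W * (if K ⊆ W then ∏ i ∈ W, x i else 0) := by
    refine Finset.sum_congr rfl fun W _ => ?_
    unfold tilt
    rw [mul_ite, mul_zero]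
  rw [h2, ← h1, treeSum_eq_trees]
  congr 1
  refine Finset.sum_congr rfl fun A _ => ?_
  rw [← prod_cnd]
  congr 1
  rw [eq_iff_iff]
  constructor
  · intro h e he
    rw [Finset.mem_map] at he
    obtain ⟨e', he', rfl⟩ := he
    exact (ptA_eq_true G A e').1 (Finset.mem_filter.1 (h he')).2
  · intro h e he
    exact Finset.mem_filter.2 ⟨hK he, (ptA_eq_true G A e).2 (h (Finset.mem_map_of_mem _ he))⟩

theorem treeSum_eq_zero (G : SimpleGraph ℕ) (S : Finset ℕ) (c : Sym2 ℕ → ℝ)
    (F : Finset (Sym2 ℕ)) (e : Sym2 ℕ) (he : e ∈ F) (hE : e ∉ edgesIn G S) :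
    treeSum G S c F = 0 := by
  classical
  rw [treeSum_eq_trees]
  refine Finset.sum_eq_zero fun A hA => ?_
  rw [if_neg]
  intro h
  exact hE (((mem_trees G S A).1 hA).1 (h he))

theorem treeSum_le (G : SimpleGraph ℕ) (S : Finset ℕ) (c : Sym2 ℕ → ℝ) (hc : ∀ e, 0 ≤ c e)
    (F : Finset (Sym2 ℕ)) : treeSum G S c F ≤ treeSum G S c ∅ := by
  classical
  rw [treeSum_eq_trees, treeSum_eq_trees]
  refine Finset.sum_le_sum fun A _ => ?_
  rw [if_pos (Finset.empty_subset A)]
  split_ifs
  · exact le_rfl
  · exact Finset.prod_nonneg fun e _ => hc e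

/-- Row-sum bound for the covariances of the weighted spanning trees of a piece. -/
theorem row_treeSum [DecidableEq (Sym2 ℕ)] (G : SimpleGraph ℕ) (S : Finset ℕ) (c : Sym2 ℕ → ℝ)
    (hc : ∀ e, 0 ≤ c e) (v : Sym2 ℕ) :
    ∑ f ∈ edgesIn G S, |treeSum G S c {v, f} * treeSum G S c ∅ -
      treeSum G S c {v} * treeSum G S c {f}| ≤ 1 / 2 * (treeSum G S c ∅) ^ 2 := by
  set Z := treeSum G S c ∅ with hZ
  have hZ0 : 0 ≤ Z := treeSum_nonneg G S c hc ∅
  set I : Sym2 ℕ → ℝ := fun f => treeSum G S c {f} with hI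
  set C : Sym2 ℕ → ℝ := fun f => treeSum G S c {v, f} * Z - I v * I f with hC
  change ∑ f ∈ edgesIn G S, |C f| ≤ _
  by_cases hv : v ∈ edgesIn G S
  · have hsum : ∑ f ∈ edgesIn G S, C f = 0 := by
      rw [hC]
      simp only
      rw [Finset.sum_sub_distrib, ← Finset.sum_mul, ← Finset.mul_sum, sum_treeSum_pair]
      have := sum_treeSum_insert G S c ∅
      simp only [insert_empty_eq] at this
      rw [hI]
      simp only
      rw [this]
      ring
    have hneg : ∀ f ∈ (edgesIn G S).erase v, C f ≤ 0 := by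
      intro f hf
      have := treeSum_negCorr' G S c hc v f (Finset.ne_of_mem_erase hf).symm
      rw [hC]
      simp only
      linarith
    have hCv : C v = I v * (Z - I v) := by
      rw [hC]
      simp only
      have : ({v, v} : Finset (Sym2 ℕ)) = {v} := by simp
      rw [this]
      ring
    have hIv : 0 ≤ I v := treeSum_nonneg G S c hc _
    have hIv' : I v ≤ Z := treeSum_le G S c hc _
    have hCv0 : 0 ≤ C v := by rw [hCv]; exact mul_nonneg hIv (by linarith)
    rw [← Finset.add_sum_erase _ _ hv] at hsum ⊢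
    have h1 : ∑ f ∈ (edgesIn G S).erase v, |C f| = - ∑ f ∈ (edgesIn G S).erase v, C f := by
      rw [← Finset.sum_neg_distrib]
      exact Finset.sum_congr rfl fun f hf => abs_of_nonpos (hneg f hf)
    rw [h1, abs_of_nonneg hCv0]
    have h2 : C v ≤ 1 / 4 * Z ^ 2 := by
      rw [hCv]
      nlinarith [sq_nonneg (Z - 2 * I v)]
    linarith
  · have : ∀ f ∈ edgesIn G S, |C f| = 0 := by
      intro f _
      rw [abs_eq_zero, hC]
      simp only [hI]
      rw [treeSum_eq_zero G S c {v, f} v (by simp) hv, treeSum_eq_zero G S c {v} v (by simp) hv]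
      ring
    rw [Finset.sum_eq_zero this]
    positivity

theorem rowBd_lawT (G : SimpleGraph ℕ) [DecidableEq ↥G.edgeSet] (S : Finset ℕ)
    (h : (G.induce (S : Set ℕ)).Connected) (F : Finset ↥G.edgeSet) :
    RowBd F (marg (lawT G S) F) := by
  intro x hx v hv
  set w := tilt (marg (lawT G S) F) x with hw
  set c := cnd G F x with hc
  set N : ℝ := ((trees G S).card : ℝ) with hN
  have hNpos : 0 < N := by
    rw [hN]; exact_mod_cast trees_card_pos G S h
  have hc0 : ∀ e, 0 ≤ c e := fun e => (cnd_pos G F x hx e).le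
  have htot : tot F w = treeSum G S c ∅ / N := by
    have := sum_marg_lawT G S h F x ∅ (Finset.empty_subset _)
    simpa [tot] using this
  have hinc : ∀ j ∈ F, inc F w j = treeSum G S c {j.1} / N := by
    intro j hj
    have := sum_marg_lawT G S h F x {j} (Finset.singleton_subset_iff.2 hj)
    rw [Finset.map_singleton] at this
    rw [← hc] at this
    unfold inc
    simpa using this
  have hinc2 : ∀ j ∈ F, inc2 F w v j = treeSum G S c {v.1, j.1} / N := by
    intro j hj
    have := sum_marg_lawT G S h F x {v, j} (by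
      rw [Finset.insert_subset_iff, Finset.singleton_subset_iff]; exact ⟨hv, hj⟩)
    rw [Finset.map_insert, Finset.map_singleton] at this
    rw [← hc] at this
    unfold inc2
    simpa [Finset.insert_subset_iff] using this
  have hcov : ∀ j ∈ F, |cov F w v j| = |treeSum G S c {v.1, j.1} * treeSum G S c ∅ -
      treeSum G S c {v.1} * treeSum G S c {j.1}| / N ^ 2 := by
    intro j hj
    unfold cov
    rw [hinc2 j hj, hinc j hj, hinc v hv, htot, ← abs_of_pos (pow_pos hNpos 2), ← abs_div]
    congr 1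
    field_simp
  rw [Finset.sum_congr rfl hcov, ← Finset.sum_div, htot, div_pow, ← mul_div_assoc]
  apply div_le_div_of_nonneg_right _ (by positivity)
  refine le_trans ?_ (row_treeSum G S c hc0 v.1)
  set D : Sym2 ℕ → ℝ := fun f => |treeSum G S c {v.1, f} * treeSum G S c ∅ -
      treeSum G S c {v.1} * treeSum G S c {f}| with hD
  have h1 : ∑ j ∈ F, D j.1 = ∑ f ∈ F.map (Function.Embedding.subtype (· ∈ G.edgeSet)), D f := by
    rw [Finset.sum_map]
    rfl
  have h2 : ∑ f ∈ F.map (Function.Embedding.subtype (· ∈ G.edgeSet)), D f =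
      ∑ f ∈ (F.map (Function.Embedding.subtype (· ∈ G.edgeSet))).filter (· ∈ edgesIn G S), D f := by
    rw [Finset.sum_filter]
    refine Finset.sum_congr rfl fun f _ => ?_
    split_ifs with hf
    · rfl
    · rw [hD]
      simp only
      rw [treeSum_eq_zero G S c {v.1, f} f (by simp) hf, treeSum_eq_zero G S c {f} f (by simp) hf]
      simp
  change ∑ j ∈ F, D j.1 ≤ ∑ f ∈ edgesIn G S, D f
  rw [h1, h2]
  apply Finset.sum_le_sum_of_subset_of_nonneg
  · intro f hf
    exact (Finset.mem_filter.1 hf).2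
  · intro f _ _
    exact abs_nonneg _

/-- The row-sum bound is a closed condition. -/
theorem rowBd_of_tendsto {I ι : Type*} [DecidableEq I] (F : Finset I) (w : ι → Finset I → ℝ) (w' : Finset I → ℝ)
    (U : Filter ι) [U.NeBot] (h : ∀ S, Tendsto (fun n => w n S) U (nhds (w' S)))
    (hw : ∀ n, RowBd F (w n)) : RowBd F w' := by
  intro x hx v hv
  have hlim : Tendsto w U (nhds w') := tendsto_pi_nhds.2 h
  have htot : Continuous fun u : Finset I → ℝ => tot F (tilt u x) := by
    unfold tot tilt
    fun_prop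
  have hinc : ∀ j, Continuous fun u : Finset I → ℝ => inc F (tilt u x) j := by
    intro j
    unfold inc tilt
    apply continuous_finsetSum
    intro S _
    split_ifs
    · fun_prop
    · fun_prop
  have hinc2 : ∀ j, Continuous fun u : Finset I → ℝ => inc2 F (tilt u x) v j := by
    intro j
    unfold inc2 tilt
    apply continuous_finsetSum
    intro S _
    split_ifs
    · fun_prop
    · fun_prop
  have h1 : Continuous fun u : Finset I → ℝ => ∑ j ∈ F, |cov F (tilt u x) v j| := by
    apply continuous_finsetSum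
    intro j _
    unfold cov
    exact (((hinc2 j).mul htot).sub ((hinc v).mul (hinc j))).abs
  have h2 : Continuous fun u : Finset I → ℝ => 1 / 2 * (tot F (tilt u x)) ^ 2 :=
    continuous_const.mul (htot.pow 2)
  exact le_of_tendsto_of_tendsto ((h1.tendsto w').comp hlim) ((h2.tendsto w').comp hlim)
    (Eventually.of_forall fun n => hw n x hx v hv)

theorem isClopen_cyl {I : Type*} (F : Finset I) (P : I → Set Bool) :
    IsClopen {ω : I → Bool | ∀ i ∈ F, ω i ∈ P i} := by
  have : {ω : I → Bool | ∀ i ∈ F, ω i ∈ P i} = ⋂ i ∈ F, (fun ω : I → Bool => ω i) ⁻¹' P i := by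
    ext ω; simp
  rw [this]
  exact isClopen_biInter_finset fun i _ => (isClopen_discrete (P i)).preimage (continuous_apply i)

/-- The free uniform spanning forest exists and its marginals satisfy the row-sum bound. -/
theorem exists_fusf (G : SimpleGraph ℕ) [DecidableEq ↥G.edgeSet] (hG : G.Connected) :
    ∃ ν : Measure (↥G.edgeSet → Bool), IsProbabilityMeasure ν ∧
      (∀ F : Finset ↥G.edgeSet, (ν {ω | ∀ e ∈ F, ω e = true}).toReal =
        pinc G (F.map (Function.Embedding.subtype (· ∈ G.edgeSet)))) ∧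
      ∀ F : Finset ↥G.edgeSet, RowBd F (marg ν F) := by
  obtain ⟨S, hmono, hex, hconn⟩ := exists_exhaustion G hG
  let μ : ℕ → ProbabilityMeasure (↥G.edgeSet → Bool) := fun n =>
    ⟨lawT G (S n), isProb_lawT G (S n) (hconn n)⟩
  have hμ : ∀ n, ((μ n : ProbabilityMeasure (↥G.edgeSet → Bool)) : Measure _) = lawT G (S n) :=
    fun n => rfl
  let U : Ultrafilter ℕ := Filter.hyperfilter ℕ
  have hU : (U : Filter ℕ) ≤ atTop := by
    rw [← Nat.cofinite_eq_atTop]
    exact Filter.hyperfilter_le_cofinite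
  obtain ⟨ν, -, hν⟩ := isCompact_univ.ultrafilter_le_nhds (U.map μ) (by simp)
  have hlim : Tendsto μ U (nhds ν) := hν
  have hcl : ∀ C : Set (↥G.edgeSet → Bool), IsClopen C →
      Tendsto (fun n => (lawT G (S n) C).toReal) U
        (nhds (((ν : Measure (↥G.edgeSet → Bool)) C).toReal)) := by
    intro C hC
    have h1 := ProbabilityMeasure.tendsto_measure_of_isClopen_of_tendsto hlim hC
    have h2 := (NNReal.continuous_coe.tendsto _).comp h1
    exact h2
  refine ⟨ν, inferInstance, ?_, ?_⟩
  · intro F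
    have h1 := hcl {ω | ∀ e ∈ F, ω e = true} (isClopen_cyl F fun _ => {true})
    have h2 := (tendsto_pinc G S hmono hex hconn
      (F.map (Function.Embedding.subtype (· ∈ G.edgeSet))) (by
        intro e he
        rw [Finset.mem_coe, Finset.mem_map] at he
        obtain ⟨i, _, rfl⟩ := he
        exact i.2)).mono_left hU
    simp_rw [lawT_toReal] at h1
    exact tendsto_nhds_unique h1 h2
  · intro F
    have h1 : ∀ W : Finset ↥G.edgeSet, Tendsto (fun n => marg (lawT G (S n)) F W) (U : Filter ℕ)
        (nhds (marg (ν : Measure (↥G.edgeSet → Bool)) F W)) := fun W =>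
      hcl _ (isClopen_cyl F fun i => {b | b = true ↔ i ∈ W})
    have h2 : ∀ n, RowBd F (marg (lawT G (S n)) F) := fun n => rowBd_lawT G (S n) (hconn n) F
    exact rowBd_of_tendsto F (fun n => marg (lawT G (S n)) F)
      (marg (ν : Measure (↥G.edgeSet → Bool)) F) (U : Filter ℕ) h1 h2

end Crest.Agent.H14
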