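import Mathlib
import Crest.Prelude.Def_SpanningTrees

set_option autoImplicit false

namespace Crest.Agent.H14UstNC

open Crest.ProbabilityR.SpanningTrees
open Finset

/-! ### Multilinear expansion of a weighted Gram determinant -/

section Expand

variable {ι E R : Type*} [Fintype ι] [DecidableEq ι] [DecidableEq E] [CommRing R]

/-- weighted Gram matrix `∑ e ∈ s, z e * b e i * b e j`. -/
def gram (b : E → ι → R) (s : Finset E) (z : E → R) : Matrix ι ι R :=
  Matrix.of fun i j => ∑ e ∈ s, z e * b e i * b e j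

/-- coefficient in the expansion. -/
noncomputable def gcoef (b : E → ι → R) (s : Finset E) (T : Finset E) : R :=
  ∑ φ ∈ (Fintype.piFinset fun _ : ι => s).filter
      (fun φ => Function.Injective φ ∧ univ.image φ = T),
    (∏ i, b (φ i) i) * (Matrix.of fun i j => b (φ i) j).det

theorem det_gram_expand (b : E → ι → R) (s : Finset E) (z : E → R) :
    (gram b s z).det =
      ∑ T ∈ s.powersetCard (Fintype.card ι), (∏ e ∈ T, z e) * gcoef b s T := by
  classical
  have h1 : (gram b s z).det = ∑ φ ∈ (Fintype.piFinset fun _ : ι => s),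
      (∏ i, z (φ i)) * ((∏ i, b (φ i) i) * (Matrix.of fun i j => b (φ i) j).det) := by
    have hg : (gram b s z) = (fun i => ∑ e ∈ s, (z e * b e i) • b e) := by
      ext i j
      simp [gram, Finset.sum_apply]
    have h2 : (gram b s z).det = Matrix.detRowAlternating (R := R) (n := ι)
        (fun i => ∑ e ∈ s, (z e * b e i) • b e) := by
      rw [← hg]; rfl
    rw [h2]
    have h3 := (Matrix.detRowAlternating (R := R) (n := ι)).toMultilinearMap.map_sum_finset
      (fun (i : ι) (e : E) => (z e * b e i) • b e) (fun _ => s)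
    refine Eq.trans h3 ?_
    refine Finset.sum_congr rfl fun φ _ => ?_
    have h4 := (Matrix.detRowAlternating (R := R) (n := ι)).toMultilinearMap.map_smul_univ
      (fun i => z (φ i) * b (φ i) i) (fun i => b (φ i))
    refine Eq.trans h4 ?_
    rw [Finset.prod_mul_distrib, smul_eq_mul, mul_assoc]
    rfl
  rw [h1]
  -- split off the non injective ones
  have h5 : ∑ φ ∈ (Fintype.piFinset fun _ : ι => s),
      (∏ i, z (φ i)) * ((∏ i, b (φ i) i) * (Matrix.of fun i j => b (φ i) j).det) =
      ∑ φ ∈ (Fintype.piFinset fun _ : ι => s).filter (fun φ => Function.Injective φ),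
      (∏ i, z (φ i)) * ((∏ i, b (φ i) i) * (Matrix.of fun i j => b (φ i) j).det) := by
    symm
    refine Finset.sum_subset (Finset.filter_subset _ _) ?_
    intro φ hφ hφ'
    have hni : ¬ Function.Injective φ := fun h => hφ' (Finset.mem_filter.2 ⟨hφ, h⟩)
    rw [Function.not_injective_iff] at hni
    obtain ⟨i, j, hij, hne⟩ := hni
    have : (Matrix.of fun i j => b (φ i) j).det = 0 := by
      apply Matrix.det_zero_of_row_eq hne
      ext k
      simp [hij]
    rw [this]; simp
  rw [h5]
  have hmaps : ∀ φ ∈ (Fintype.piFinset fun _ : ι => s).filter (fun φ => Function.Injective φ),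
      univ.image φ ∈ s.powersetCard (Fintype.card ι) := by
    intro φ hφ
    rw [Finset.mem_filter, Fintype.mem_piFinset] at hφ
    rw [Finset.mem_powersetCard]
    refine ⟨?_, ?_⟩
    · intro e he
      obtain ⟨i, _, rfl⟩ := Finset.mem_image.1 he
      exact hφ.1 i
    · rw [Finset.card_image_of_injective _ hφ.2, Finset.card_univ]
  rw [← Finset.sum_fiberwise_of_maps_to hmaps]
  refine Finset.sum_congr rfl fun T hT => ?_
  rw [gcoef, Finset.mul_sum, Finset.filter_filter]
  refine Finset.sum_congr rfl fun φ hφ => ?_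
  rw [Finset.mem_filter] at hφ
  congr 1
  rw [← hφ.2.2, Finset.prod_image (fun a _ b _ h => hφ.2.1 h)]

theorem gcoef_eq_det (b : E → ι → R) (s : Finset E) (T : Finset E) (hT : T ⊆ s)
    (hc : T.card = Fintype.card ι) :
    gcoef b s T = (gram b T 1).det := by
  classical
  have h1 : (gram b T 1) = gram b s (fun e => if e ∈ T then 1 else 0) := by
    ext i j
    simp only [gram, Matrix.of_apply, Pi.one_apply, ite_mul, one_mul, zero_mul]
    rw [Finset.sum_ite_mem, Finset.inter_eq_right.2 hT]
  rw [h1, det_gram_expand, Finset.sum_eq_single T]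
  · rw [Finset.prod_congr rfl (fun e he => if_pos he)]
    simp
  · intro T' hT' hne
    rw [Finset.mem_powersetCard] at hT'
    have : ∃ e ∈ T', e ∉ T := by
      by_contra hcon
      push Not at hcon
      exact hne (Finset.eq_of_subset_of_card_le hcon (by rw [hc, hT'.2]))
    obtain ⟨e, he, he'⟩ := this
    rw [Finset.prod_eq_zero he (if_neg he'), zero_mul]
  · intro h
    exact absurd (Finset.mem_powersetCard.2 ⟨hT, hc⟩) h

theorem det_gram (b : E → ι → R) (s : Finset E) (z : E → R) :
    (gram b s z).det =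
      ∑ T ∈ s.powersetCard (Fintype.card ι), (∏ e ∈ T, z e) * (gram b T 1).det := by
  rw [det_gram_expand]
  refine Finset.sum_congr rfl fun T hT => ?_
  rw [Finset.mem_powersetCard] at hT
  rw [gcoef_eq_det b s T hT.1 hT.2]

end Expand

/-! ### Functional connectivity -/

section Conn

variable {V : Type*}

/-- every function constant along the edges of `A` is constant on `S`. -/
def Conn (S : Finset V) (A : Finset (Sym2 V)) : Prop :=
  S.Nonempty ∧ ∀ f : V → Prop, (∀ a b, s(a, b) ∈ A → (f a ↔ f b)) →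
    ∀ a ∈ S, ∀ b ∈ S, (f a ↔ f b)

/-- the edges of `A` are honest pairs inside `S`. -/
def Inside (S : Finset V) (A : Finset (Sym2 V)) : Prop :=
  ∀ a b, s(a, b) ∈ A → a ∈ S ∧ b ∈ S ∧ a ≠ b

theorem Inside.mono {S : Finset V} {A B : Finset (Sym2 V)} (h : Inside S B) (hAB : A ⊆ B) :
    Inside S A := fun a b hab => h a b (hAB hab)

theorem inside_edgesIn (G : SimpleGraph V) (S : Finset V) : Inside S (edgesIn G S) := by
  classical
  intro a b hab
  simp only [edgesIn, Finset.mem_filter, Finset.mk_mem_sym2_iff, SimpleGraph.mem_edgeSet] at hab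
  exact ⟨hab.1.1, hab.1.2, hab.2.ne⟩

theorem connected_iff_conn (S : Finset V) (A : Finset (Sym2 V)) (hA : Inside S A) :
    ((SimpleGraph.fromEdgeSet (A : Set (Sym2 V))).induce (S : Set V)).Connected ↔ Conn S A := by
  classical
  constructor
  · intro h
    refine ⟨?_, ?_⟩
    · obtain ⟨x⟩ := h.nonempty
      exact ⟨x.1, x.2⟩
    · intro f hf a ha b hb
      have hr := h.preconnected ⟨a, ha⟩ ⟨b, hb⟩
      have key : ∀ (x y : (S : Set V)),
          ((SimpleGraph.fromEdgeSet (A : Set (Sym2 V))).induce (S : Set V)).Reachable x y →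
          (f x.1 ↔ f y.1) := by
        intro x y hxy
        obtain ⟨p⟩ := hxy
        induction p with
        | nil => exact Iff.rfl
        | @cons u v w hadj p ih =>
          refine Iff.trans ?_ ih
          apply hf
          have : (SimpleGraph.fromEdgeSet (A : Set (Sym2 V))).Adj u.1 v.1 := hadj
          rw [SimpleGraph.fromEdgeSet_adj] at this
          exact this.1
      exact key _ _ hr
  · intro h
    obtain ⟨⟨r, hr⟩, h⟩ := h
    rw [SimpleGraph.connected_iff]
    refine ⟨?_, ⟨⟨r, hr⟩⟩⟩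
    intro x y
    have := h (fun z => ∃ hz : z ∈ (S : Set V),
        ((SimpleGraph.fromEdgeSet (A : Set (Sym2 V))).induce (S : Set V)).Reachable x ⟨z, hz⟩)
      ?_ x.1 x.2 y.1 y.2
    · obtain ⟨_, h2⟩ := this.1 ⟨x.2, SimpleGraph.Reachable.refl _⟩
      exact h2
    · intro a b hab
      obtain ⟨ha, hb, hne⟩ := hA a b hab
      have hadj : ((SimpleGraph.fromEdgeSet (A : Set (Sym2 V))).induce (S : Set V)).Adj
          ⟨a, ha⟩ ⟨b, hb⟩ := by
        show (SimpleGraph.fromEdgeSet (A : Set (Sym2 V))).Adj a b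
        rw [SimpleGraph.fromEdgeSet_adj]
        exact ⟨hab, hne⟩
      constructor
      · rintro ⟨_, h1⟩
        exact ⟨hb, h1.trans hadj.reachable⟩
      · rintro ⟨_, h1⟩
        exact ⟨ha, h1.trans hadj.symm.reachable⟩

theorem card_edgeSet_induce (S : Finset V) (A : Finset (Sym2 V)) (hA : Inside S A) :
    Nat.card ((SimpleGraph.fromEdgeSet (A : Set (Sym2 V))).induce (S : Set V)).edgeSet
      = A.card := by
  classical
  have himg : (Sym2.map (Subtype.val : ↥(S : Set V) → V)) ''
      ((SimpleGraph.fromEdgeSet (A : Set (Sym2 V))).induce (S : Set V)).edgeSet = (A : Set (Sym2 V)) := by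
    ext e
    constructor
    · rintro ⟨e', he', rfl⟩
      induction e' with
      | h x y =>
        rw [SimpleGraph.mem_edgeSet] at he'
        have : (SimpleGraph.fromEdgeSet (A : Set (Sym2 V))).Adj x.1 y.1 := he'
        rw [SimpleGraph.fromEdgeSet_adj] at this
        simpa using this.1
    · intro he
      induction e with
      | h a b =>
        obtain ⟨ha, hb, hne⟩ := hA a b he
        refine ⟨s(⟨a, ha⟩, ⟨b, hb⟩), ?_, by simp⟩
        rw [SimpleGraph.mem_edgeSet]
        show (SimpleGraph.fromEdgeSet (A : Set (Sym2 V))).Adj a b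
        rw [SimpleGraph.fromEdgeSet_adj]
        exact ⟨he, hne⟩
  have hinj : Function.Injective (Sym2.map (Subtype.val : ↥(S : Set V) → V)) :=
    Sym2.map.injective Subtype.val_injective
  have h1 := Set.ncard_image_of_injective
    ((SimpleGraph.fromEdgeSet (A : Set (Sym2 V))).induce (S : Set V)).edgeSet hinj
  rw [himg, Set.ncard_coe_finset] at h1
  rw [h1, Nat.card_coe_set_eq]

/-- `A` is (the edge set of) a spanning tree of `S`, functional form. -/
def TreeOn (S : Finset V) (A : Finset (Sym2 V)) : Prop := Conn S A ∧ A.card + 1 = S.card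

theorem isTree_iff_treeOn (S : Finset V) (A : Finset (Sym2 V)) (hA : Inside S A) :
    ((SimpleGraph.fromEdgeSet (A : Set (Sym2 V))).induce (S : Set V)).IsTree ↔ TreeOn S A := by
  classical
  rw [SimpleGraph.isTree_iff_connected_and_card, connected_iff_conn S A hA,
    card_edgeSet_induce S A hA]
  simp [TreeOn]

theorem isSpanningTreeOn_iff (G : SimpleGraph V) (S : Finset V) (A : Finset (Sym2 V)) :
    IsSpanningTreeOn G S A ↔ A ⊆ edgesIn G S ∧ TreeOn S A := by
  unfold IsSpanningTreeOn
  constructor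
  · rintro ⟨h1, h2⟩
    exact ⟨h1, (isTree_iff_treeOn S A ((inside_edgesIn G S).mono h1)).1 h2⟩
  · rintro ⟨h1, h2⟩
    exact ⟨h1, (isTree_iff_treeOn S A ((inside_edgesIn G S).mono h1)).2 h2⟩

/-! ### Incidence vectors and the determinant of a tree -/

/-- an arbitrary ordered pair of end points. -/
noncomputable def ends (e : Sym2 V) : V × V := Quot.out e

theorem mk_ends (e : Sym2 V) : s((ends e).1, (ends e).2) = e := by
  have := Quot.out_eq e
  exact this

open Classical in
/-- signed incidence vector of an edge. -/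
noncomputable def bvec (e : Sym2 V) (v : V) : ℤ :=
  (if v = (ends e).1 then 1 else 0) - (if v = (ends e).2 then 1 else 0)

open Classical in
/-- pairing of a function supported on `S.erase r` with the incidence vector. -/
theorem sum_mul_bvec {K : Type*} [Ring K] (S : Finset V) (r : V) (e : Sym2 V)
    (h1 : (ends e).1 ∈ S) (h2 : (ends e).2 ∈ S) (x : V → K) (hr : x r = 0) :
    ∑ v : ↥(S.erase r), x v * ((bvec e (v : V) : ℤ) : K) = x (ends e).1 - x (ends e).2 := by
  have h3 : ∑ v : ↥(S.erase r), x v * ((bvec e (v : V) : ℤ) : K) =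
      ∑ v ∈ S, x v * ((bvec e v : ℤ) : K) := by
    rw [Finset.sum_coe_sort (S.erase r) (fun v => x v * ((bvec e v : ℤ) : K))]
    by_cases hrS : r ∈ S
    · rw [← Finset.add_sum_erase S _ hrS, hr]; simp
    · rw [Finset.erase_eq_of_notMem hrS]
  rw [h3]
  simp only [bvec, Int.cast_sub, Int.cast_ite, Int.cast_one, Int.cast_zero, mul_sub, mul_ite,
    mul_one, mul_zero, Finset.sum_sub_distrib, Finset.sum_ite_eq', h1, h2, if_true]

open Classical in
/-- if `T` is connected then the reduced incidence matrix has trivial left kernel. -/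
theorem ker_trivial {K : Type*} [Ring K] (S : Finset V) (r : V) (hr : r ∈ S)
    (T : Finset (Sym2 V)) (hT : Inside S T) (hc : Conn S T)
    (x : ↥(S.erase r) → K)
    (hx : ∀ e ∈ T, ∑ v : ↥(S.erase r), x v * ((bvec e (v : V) : ℤ) : K) = 0) : x = 0 := by
  set y : V → K := fun v => if h : v ∈ S.erase r then x ⟨v, h⟩ else 0 with hy
  have hyr : y r = 0 := by simp [hy]
  have hyx : ∀ v : ↥(S.erase r), y v = x v := by
    intro v
    simp only [hy]
    rw [dif_pos v.2]
  have key : ∀ a b, s(a, b) ∈ T → y a = y b := by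
    intro a b hab
    have h1 := hT _ _ (by rw [mk_ends]; exact hab : s((ends s(a,b)).1, (ends s(a,b)).2) ∈ T)
    have h2 := hx _ hab
    have h3 := sum_mul_bvec S r s(a, b) h1.1 h1.2.1 y hyr
    have h4 : ∑ v : ↥(S.erase r), x v * ((bvec s(a, b) (v : V) : ℤ) : K) =
        ∑ v : ↥(S.erase r), y v * ((bvec s(a, b) (v : V) : ℤ) : K) :=
      Finset.sum_congr rfl fun v _ => by rw [hyx]
    rw [← h4, h2] at h3
    have h5 := mk_ends s(a, b)
    rw [Sym2.eq_iff] at h5
    rcases h5 with ⟨h6, h7⟩ | ⟨h6, h7⟩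
    · rw [h6, h7] at h3
      exact sub_eq_zero.1 h3.symm
    · rw [h6, h7] at h3
      exact (sub_eq_zero.1 h3.symm).symm
  have h := hc.2 (fun v => y v = 0) (fun a b hab => by rw [key a b hab]) r hr
  ext v
  rw [← hyx v]
  exact (h v (Finset.mem_of_mem_erase v.2)).1 hyr

open Classical in
/-- square reduced incidence matrix. -/
noncomputable def bmat (S : Finset V) (r : V) (T : Finset (Sym2 V)) (ε : ↥(S.erase r) ≃ ↥T) :
    Matrix ↥(S.erase r) ↥(S.erase r) ℤ :=
  Matrix.of fun i j => bvec (ε j : Sym2 V) (i : V)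

open Classical in
theorem bmat_vecMul {K : Type*} [CommRing K] (S : Finset V) (r : V) (T : Finset (Sym2 V))
    (ε : ↥(S.erase r) ≃ ↥T) (x : ↥(S.erase r) → K) :
    Matrix.vecMul x ((bmat S r T ε).map (Int.cast : ℤ → K)) = 0 ↔
      ∀ e ∈ T, ∑ v : ↥(S.erase r), x v * ((bvec e (v : V) : ℤ) : K) = 0 := by
  constructor
  · intro h e he
    have := congrFun h (ε.symm ⟨e, he⟩)
    simpa [Matrix.vecMul, dotProduct, bmat] using this
  · intro h
    ext j
    have := h (ε j) (ε j).2
    simpa [Matrix.vecMul, dotProduct, bmat] using this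

open Classical in
theorem det_bmat_conn (S : Finset V) (r : V) (hr : r ∈ S) (T : Finset (Sym2 V))
    (hT : Inside S T) (hc : Conn S T) (ε : ↥(S.erase r) ≃ ↥T) :
    (bmat S r T ε).det ^ 2 = 1 := by
  have h1 : (bmat S r T ε).det.natAbs = 1 := by
    by_contra hne
    obtain ⟨p, hp, hdvd⟩ := Nat.exists_prime_and_dvd hne
    have : Fact p.Prime := ⟨hp⟩
    have h2 : ((bmat S r T ε).map (Int.cast : ℤ → ZMod p)).det = 0 := by
      have : ((bmat S r T ε).map (Int.cast : ℤ → ZMod p)).det =
          (Int.castRingHom (ZMod p)) (bmat S r T ε).det := by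
        rw [RingHom.map_det]; rfl
      rw [this]
      simp only [eq_intCast]
      rw [ZMod.intCast_zmod_eq_zero_iff_dvd]
      exact Int.natCast_dvd.2 hdvd
    rw [← Matrix.exists_vecMul_eq_zero_iff] at h2
    obtain ⟨x, hx0, hx⟩ := h2
    rw [bmat_vecMul] at hx
    exact hx0 (ker_trivial S r hr T hT hc x hx)
  rw [← Int.natAbs_sq, h1]
  norm_num

open Classical in
theorem det_bmat_not_conn (S : Finset V) (r : V) (hr : r ∈ S) (T : Finset (Sym2 V))
    (hT : Inside S T) (hc : ¬ Conn S T) (ε : ↥(S.erase r) ≃ ↥T) :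
    (bmat S r T ε).det = 0 := by
  have hc' : ∃ f : V → Prop, (∀ a b, s(a, b) ∈ T → (f a ↔ f b)) ∧
      ∃ a ∈ S, ∃ b ∈ S, f a ∧ ¬ f b := by
    unfold Conn at hc
    push Not at hc
    obtain ⟨f, hf, a, ha, b, hb, hab⟩ := hc ⟨r, hr⟩
    refine ⟨f, hf, ?_⟩
    by_cases hfa : f a
    · rcases hab with h | h
      · exact ⟨a, ha, b, hb, h.1, h.2⟩
      · exact absurd hfa h.1
    · rcases hab with h | h
      · exact absurd h.1 hfa
      · exact ⟨b, hb, a, ha, h.2, h.1⟩
  obtain ⟨f, hf, a, ha, b, hb, hfa, hfb⟩ := hc'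
  -- function vanishing at the root
  obtain ⟨y, hyr, hy, w, hw, hwy⟩ : ∃ y : V → ℤ, y r = 0 ∧ (∀ a b, s(a, b) ∈ T → y a = y b) ∧
      ∃ w ∈ S, y w ≠ 0 := by
    by_cases hfr : f r
    · refine ⟨fun v => if f v then 0 else 1, by simp [hfr], ?_, b, hb, by simp [hfb]⟩
      intro a b hab
      have := hf a b hab
      by_cases h : f a
      · simp [h, this.1 h]
      · simp [h, (not_congr this).1 h]
    · refine ⟨fun v => if f v then 1 else 0, by simp [hfr], ?_, a, ha, by simp [hfa]⟩
      intro a b hab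
      have := hf a b hab
      by_cases h : f a
      · simp [h, this.1 h]
      · simp [h, (not_congr this).1 h]
  rw [← Matrix.exists_vecMul_eq_zero_iff]
  refine ⟨fun v => y v, ?_, ?_⟩
  · intro h
    have hwr : w ≠ r := by
      rintro rfl
      exact hwy hyr
    have := congrFun h ⟨w, Finset.mem_erase.2 ⟨hwr, hw⟩⟩
    exact hwy this
  · have h1 := (bmat_vecMul (K := ℤ) S r T ε (fun v => y v)).2 (fun e he => by
      have h1 := hT _ _ (by rw [mk_ends]; exact he : s((ends e).1, (ends e).2) ∈ T)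
      have h3 := sum_mul_bvec S r e h1.1 h1.2.1 y hyr
      rw [h3, hy _ _ (by rw [mk_ends]; exact he), sub_self])
    have h2 : (bmat S r T ε).map (Int.cast : ℤ → ℤ) = bmat S r T ε := by
      ext i j; simp
    rw [h2] at h1
    exact h1

/-- real incidence vectors restricted to the reduced vertex set. -/
noncomputable def rvec (S : Finset V) [DecidableEq V] (r : V) (e : Sym2 V)
    (v : ↥(S.erase r)) : ℝ := ((bvec e (v : V) : ℤ) : ℝ)

open Classical in
theorem det_gram_tree (S : Finset V) (r : V) (hr : r ∈ S) (T : Finset (Sym2 V))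
    (hT : Inside S T) (hcard : T.card = Fintype.card ↥(S.erase r)) :
    (gram (rvec S r) T 1).det = if Conn S T then 1 else 0 := by
  have hcard' : Fintype.card ↥(S.erase r) = Fintype.card ↥T := by
    rw [← hcard, Fintype.card_coe]
  let ε : ↥(S.erase r) ≃ ↥T := Fintype.equivOfCardEq hcard'
  have h1 : gram (rvec S r) T 1 =
      ((bmat S r T ε).map (Int.cast : ℤ → ℝ)) * ((bmat S r T ε).map (Int.cast : ℤ → ℝ)).transpose := by
    ext i j
    simp only [gram, Matrix.of_apply, Pi.one_apply, one_mul, Matrix.mul_apply,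
      Matrix.transpose_apply, Matrix.map_apply, bmat, rvec]
    rw [Equiv.sum_comp ε (fun e : ↥T => ((bvec (e : Sym2 V) (i : V) : ℤ) : ℝ) *
      ((bvec (e : Sym2 V) (j : V) : ℤ) : ℝ))]
    rw [Finset.sum_coe_sort T (fun e => ((bvec e (i : V) : ℤ) : ℝ) * ((bvec e (j : V) : ℤ) : ℝ))]
  rw [h1, Matrix.det_mul, Matrix.det_transpose]
  have h2 : ((bmat S r T ε).map (Int.cast : ℤ → ℝ)).det = ((bmat S r T ε).det : ℝ) := by
    have := RingHom.map_det (Int.castRingHom ℝ) (bmat S r T ε)
    rw [← eq_intCast (Int.castRingHom ℝ), this]; rfl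
  rw [h2]
  by_cases hc : Conn S T
  · rw [if_pos hc]
    have := det_bmat_conn S r hr T hT hc ε
    have h3 := congrArg (Int.cast : ℤ → ℝ) this
    rw [Int.cast_pow, Int.cast_one] at h3
    rw [← sq]
    exact h3
  · rw [if_neg hc, det_bmat_not_conn S r hr T hT hc ε]
    simp

/-! ### Tree sums -/

open Classical in
/-- general weighted tree sum: spanning trees of `S` with edges in `E` containing `F`. -/
noncomputable def tsum' (S : Finset V) (E : Finset (Sym2 V)) (c : Sym2 V → ℝ)
    (F : Finset (Sym2 V)) : ℝ :=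
  ∑ A ∈ E.powerset.filter (fun A => TreeOn S A ∧ F ⊆ A), ∏ e ∈ A, c e

open Classical in
theorem det_gram_eq_tsum (S : Finset V) (r : V) (hr : r ∈ S) (E : Finset (Sym2 V))
    (hE : Inside S E) (c : Sym2 V → ℝ) :
    (gram (rvec S r) E c).det = tsum' S E c ∅ := by
  rw [det_gram, tsum']
  have hcard : Fintype.card ↥(S.erase r) + 1 = S.card := by
    rw [Fintype.card_coe, Finset.card_erase_add_one hr]
  have h1 : ∀ T ∈ E.powersetCard (Fintype.card ↥(S.erase r)),
      (∏ e ∈ T, c e) * (gram (rvec S r) T 1).det =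
        if Conn S T then (∏ e ∈ T, c e) else 0 := by
    intro T hT
    rw [Finset.mem_powersetCard] at hT
    rw [det_gram_tree S r hr T (hE.mono hT.1) hT.2]
    split_ifs <;> simp
  rw [Finset.sum_congr rfl h1, ← Finset.sum_filter]
  refine Finset.sum_congr ?_ fun _ _ => rfl
  ext T
  simp only [Finset.mem_filter, Finset.mem_powersetCard, Finset.mem_powerset, TreeOn,
    Finset.empty_subset, and_true]
  constructor
  · rintro ⟨⟨h1, h2⟩, h3⟩
    exact ⟨h1, h3, by omega⟩
  · rintro ⟨h1, h2, h3⟩
    exact ⟨⟨h1, by omega⟩, h2⟩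

theorem tsum'_nonneg (S : Finset V) (E : Finset (Sym2 V)) (c : Sym2 V → ℝ) (hc : ∀ e, 0 ≤ c e)
    (F : Finset (Sym2 V)) : 0 ≤ tsum' S E c F :=
  Finset.sum_nonneg fun _ _ => Finset.prod_nonneg fun e _ => hc e

open Classical in
theorem tsum'_eq (S : Finset V) (E : Finset (Sym2 V)) (c : Sym2 V → ℝ)
    (F : Finset (Sym2 V)) : tsum' S E c F =
      ∑ A ∈ E.powerset.filter (fun A => TreeOn S A), if F ⊆ A then ∏ e ∈ A, c e else 0 := by
  rw [tsum', ← Finset.filter_filter, Finset.sum_filter]

open Classical in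
theorem tsum'_le_of_subset (S : Finset V) (E : Finset (Sym2 V)) (c : Sym2 V → ℝ)
    (hc : ∀ e, 0 ≤ c e) (F F' : Finset (Sym2 V)) (h : F ⊆ F') :
    tsum' S E c F' ≤ tsum' S E c F := by
  rw [tsum'_eq, tsum'_eq]
  refine Finset.sum_le_sum fun A _ => ?_
  by_cases h' : F' ⊆ A
  · rw [if_pos h', if_pos (h.trans h')]
  · rw [if_neg h']
    split_ifs
    · exact Finset.prod_nonneg fun e _ => hc e
    · exact le_rfl

open Classical in
/-- doubling the weight of one edge. -/
theorem prod_tilt (c : Sym2 V → ℝ) (e : Sym2 V) (s : ℝ) (A : Finset (Sym2 V)) :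
    ∏ g ∈ A, (if g = e then s * c g else c g) = (if e ∈ A then s else 1) * ∏ g ∈ A, c g := by
  have : ∀ g ∈ A, (if g = e then s * c g else c g) = (if g = e then s else 1) * c g := by
    intro g _
    split_ifs <;> simp
  rw [Finset.prod_congr rfl this, Finset.prod_mul_distrib, Finset.prod_ite_eq']

open Classical in
theorem tsum'_tilt_one (S : Finset V) (E : Finset (Sym2 V)) (c : Sym2 V → ℝ) (e : Sym2 V)
    (s : ℝ) :
    tsum' S E (fun g => if g = e then (1 + s) * c g else c g) ∅ =
      tsum' S E c ∅ + s * tsum' S E c {e} := by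
  rw [tsum'_eq, tsum'_eq, tsum'_eq, Finset.mul_sum, ← Finset.sum_add_distrib]
  refine Finset.sum_congr rfl fun A _ => ?_
  simp only [Finset.empty_subset, if_true, Finset.singleton_subset_iff, prod_tilt]
  split_ifs <;> ring

open Classical in
theorem tsum'_tilt_two (S : Finset V) (E : Finset (Sym2 V)) (c : Sym2 V → ℝ) (e f : Sym2 V)
    (hef : e ≠ f) (s t : ℝ) :
    tsum' S E (fun g => if g = e then (1 + s) * c g else if g = f then (1 + t) * c g else c g) ∅ =
      tsum' S E c ∅ + s * tsum' S E c {e} + t * tsum' S E c {f} + s * t * tsum' S E c {e, f} := by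
  have h1 : (fun g => if g = e then (1 + s) * c g else if g = f then (1 + t) * c g else c g) =
      (fun g => if g = e then (1 + s) * (fun g => if g = f then (1 + t) * c g else c g) g
        else (fun g => if g = f then (1 + t) * c g else c g) g) := by
    funext g
    by_cases h : g = e
    · subst h
      simp [hef]
    · simp [h]
  rw [h1]
  simp only [tsum'_eq, Finset.mul_sum, ← Finset.sum_add_distrib]
  refine Finset.sum_congr rfl fun A _ => ?_
  simp only [Finset.empty_subset, if_true, Finset.insert_subset_iff, Finset.singleton_subset_iff]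
  rw [prod_tilt (fun g => if g = f then (1 + t) * c g else c g) e (1 + s) A,
    prod_tilt c f (1 + t) A]
  by_cases h1 : e ∈ A <;> by_cases h2 : f ∈ A <;> simp [h1, h2] <;> ring

/-! ### Rank two updates -/

theorem det_two {ι : Type*} [Fintype ι] [DecidableEq ι] (L : Matrix ι ι ℝ) (hL : IsUnit L.det)
    (u v : ι → ℝ) (x y : ℝ) :
    (L + Matrix.of (fun i j => x * u i * u j + y * v i * v j)).det =
      L.det * ((1 + x * dotProduct u (L⁻¹.mulVec u)) * (1 + y * dotProduct v (L⁻¹.mulVec v)) -
        x * y * dotProduct u (L⁻¹.mulVec v) * dotProduct v (L⁻¹.mulVec u)) := by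
  set U : Matrix ι (Fin 2) ℝ := Matrix.of fun i k => ![x * u i, y * v i] k with hU
  set W : Matrix (Fin 2) ι ℝ := Matrix.of fun k j => ![u j, v j] k with hW
  have h1 : Matrix.of (fun i j => x * u i * u j + y * v i * v j) = U * W := by
    ext i j
    simp [Matrix.mul_apply, hU, hW, Fin.sum_univ_two]
  rw [h1, Matrix.det_add_mul U W hL, Matrix.det_fin_two, Matrix.mul_assoc]
  have e00 : (W * (L⁻¹ * U)) 0 0 = x * dotProduct u (L⁻¹.mulVec u) := by
    simp only [Matrix.mul_apply, dotProduct, Matrix.mulVec, hU, hW, Matrix.of_apply,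
      Matrix.cons_val_zero, Finset.mul_sum]
    refine Finset.sum_congr rfl fun i _ => Finset.sum_congr rfl fun j _ => by ring
  have e01 : (W * (L⁻¹ * U)) 0 1 = y * dotProduct u (L⁻¹.mulVec v) := by
    simp only [Matrix.mul_apply, dotProduct, Matrix.mulVec, hU, hW, Matrix.of_apply,
      Matrix.cons_val_zero, Matrix.cons_val_one, Finset.mul_sum]
    refine Finset.sum_congr rfl fun i _ => Finset.sum_congr rfl fun j _ => by ring
  have e10 : (W * (L⁻¹ * U)) 1 0 = x * dotProduct v (L⁻¹.mulVec u) := by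
    simp only [Matrix.mul_apply, dotProduct, Matrix.mulVec, hU, hW, Matrix.of_apply,
      Matrix.cons_val_zero, Matrix.cons_val_one, Finset.mul_sum]
    refine Finset.sum_congr rfl fun i _ => Finset.sum_congr rfl fun j _ => by ring
  have e11 : (W * (L⁻¹ * U)) 1 1 = y * dotProduct v (L⁻¹.mulVec v) := by
    simp only [Matrix.mul_apply, dotProduct, Matrix.mulVec, hU, hW, Matrix.of_apply,
      Matrix.cons_val_one, Matrix.cons_val_zero, Finset.mul_sum]
    refine Finset.sum_congr rfl fun i _ => Finset.sum_congr rfl fun j _ => by ring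
  have o00 : (1 : Matrix (Fin 2) (Fin 2) ℝ) 0 0 = 1 := by simp
  have o01 : (1 : Matrix (Fin 2) (Fin 2) ℝ) 0 1 = 0 := by simp
  have o10 : (1 : Matrix (Fin 2) (Fin 2) ℝ) 1 0 = 0 := by simp
  have o11 : (1 : Matrix (Fin 2) (Fin 2) ℝ) 1 1 = 1 := by simp
  simp only [Matrix.add_apply, e00, e01, e10, e11, o00, o01, o10, o11]
  ring

theorem dot_symm {ι : Type*} [Fintype ι] [DecidableEq ι] (L : Matrix ι ι ℝ)
    (hL : L.transpose = L) (u v : ι → ℝ) :
    dotProduct u (L⁻¹.mulVec v) = dotProduct v (L⁻¹.mulVec u) := by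
  have h : (L⁻¹).transpose = L⁻¹ := by rw [Matrix.transpose_nonsing_inv, hL]
  rw [Matrix.dotProduct_mulVec, dotProduct_comm, ← Matrix.mulVec_transpose, h]

open Classical in
theorem gram_tilt {ι : Type*} [Fintype ι] (b : Sym2 V → ι → ℝ) (E : Finset (Sym2 V))
    (c : Sym2 V → ℝ) (e f : Sym2 V) (he : e ∈ E) (hf : f ∈ E) (hef : e ≠ f) (s t : ℝ) :
    gram b E (fun g => if g = e then (1 + s) * c g else if g = f then (1 + t) * c g else c g) =
      gram b E c + Matrix.of (fun i j => (s * c e) * b e i * b e j + (t * c f) * b f i * b f j) := by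
  ext i j
  simp only [gram, Matrix.of_apply, Matrix.add_apply]
  have h1 : ∀ g ∈ E, (if g = e then (1 + s) * c g else if g = f then (1 + t) * c g else c g) *
      b g i * b g j = c g * b g i * b g j + ((if g = e then s * c e * b e i * b e j else 0) +
        (if g = f then t * c f * b f i * b f j else 0)) := by
    intro g _
    by_cases h1 : g = e
    · subst h1
      simp [hef]
      ring
    · by_cases h2 : g = f
      · subst h2
        simp [h1]
        ring
      · simp [h1, h2]
  rw [Finset.sum_congr rfl h1, Finset.sum_add_distrib, Finset.sum_add_distrib,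
    Finset.sum_ite_eq', Finset.sum_ite_eq', if_pos he, if_pos hf]

open Classical in
theorem tsum'_eq_zero_of_notMem (S : Finset V) (E : Finset (Sym2 V)) (c : Sym2 V → ℝ)
    (F : Finset (Sym2 V)) (e : Sym2 V) (he : e ∈ F) (he' : e ∉ E) : tsum' S E c F = 0 := by
  rw [tsum'_eq]
  refine Finset.sum_eq_zero fun A hA => ?_
  rw [Finset.mem_filter, Finset.mem_powerset] at hA
  rw [if_neg]
  intro h
  exact he' (hA.1 (h he))

open Classical in
/-- **Rayleigh property** of the weighted uniform spanning tree. -/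
theorem tsum'_negCorr (S : Finset V) (E : Finset (Sym2 V)) (hE : Inside S E) (c : Sym2 V → ℝ)
    (hc : ∀ e, 0 ≤ c e) (e f : Sym2 V) (hef : e ≠ f) :
    tsum' S E c {e, f} * tsum' S E c ∅ ≤ tsum' S E c {e} * tsum' S E c {f} := by
  have hRHS : 0 ≤ tsum' S E c {e} * tsum' S E c {f} :=
    mul_nonneg (tsum'_nonneg _ _ _ hc _) (tsum'_nonneg _ _ _ hc _)
  by_cases he : e ∈ E
  swap
  · rw [tsum'_eq_zero_of_notMem S E c {e, f} e (by simp) he, zero_mul]
    exact hRHS
  by_cases hf : f ∈ E
  swap
  · rw [tsum'_eq_zero_of_notMem S E c {e, f} f (by simp) hf, zero_mul]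
    exact hRHS
  by_cases h0 : tsum' S E c ∅ = 0
  · rw [h0, mul_zero]; exact hRHS
  have hSne : S.Nonempty := by
    by_contra hS
    rw [Finset.not_nonempty_iff_eq_empty] at hS
    apply h0
    rw [tsum']
    refine Finset.sum_eq_zero fun A hA => ?_
    rw [Finset.mem_filter] at hA
    obtain ⟨x, hx⟩ := hA.2.1.1.1
    rw [hS] at hx
    simp at hx
  obtain ⟨r, hr⟩ := hSne
  set L := gram (rvec S r) E c with hL
  have hdet : L.det = tsum' S E c ∅ := det_gram_eq_tsum S r hr E hE c
  have hunit : IsUnit L.det := by rw [hdet]; exact isUnit_iff_ne_zero.2 h0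
  have hsymm : L.transpose = L := by
    ext i j
    simp only [hL, gram, Matrix.transpose_apply, Matrix.of_apply]
    exact Finset.sum_congr rfl fun _ _ => by ring
  have key : ∀ s t : ℝ, tsum' S E c ∅ + s * tsum' S E c {e} + t * tsum' S E c {f} +
      s * t * tsum' S E c {e, f} = L.det *
      ((1 + (s * c e) * dotProduct (rvec S r e) (L⁻¹.mulVec (rvec S r e))) *
       (1 + (t * c f) * dotProduct (rvec S r f) (L⁻¹.mulVec (rvec S r f))) -
        (s * c e) * (t * c f) * dotProduct (rvec S r e) (L⁻¹.mulVec (rvec S r f)) *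
          dotProduct (rvec S r f) (L⁻¹.mulVec (rvec S r e))) := by
    intro s t
    rw [← tsum'_tilt_two S E c e f hef s t, ← det_gram_eq_tsum S r hr E hE, gram_tilt _ E c e f he hf hef,
      ← det_two L hunit]
  rw [dot_symm L hsymm (rvec S r f) (rvec S r e)] at key
  set α := dotProduct (rvec S r e) (L⁻¹.mulVec (rvec S r e))
  set β := dotProduct (rvec S r f) (L⁻¹.mulVec (rvec S r f))
  set γ := dotProduct (rvec S r e) (L⁻¹.mulVec (rvec S r f))
  have k10 := key 1 0
  have k01 := key 0 1
  have k11 := key 1 1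
  rw [hdet] at k10 k01 k11
  set T0 := tsum' S E c ∅
  have hTe : tsum' S E c {e} = T0 * (c e * α) := by linarith
  have hTf : tsum' S E c {f} = T0 * (c f * β) := by linarith
  have hTef : tsum' S E c {e, f} = T0 * (c e * c f * (α * β - γ * γ)) := by
    rw [hTe, hTf] at k11
    linarith
  rw [hTe, hTf, hTef]
  have : 0 ≤ T0 * T0 * (c e * c f) * (γ * γ) :=
    mul_nonneg (mul_nonneg (mul_self_nonneg _) (mul_nonneg (hc e) (hc f))) (mul_self_nonneg _)
  nlinarith [this]

/-! ### Conditioning on a set of edges (limit of tilts) -/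

open Classical in
/-- tree sum with penalty `δ` for each missing edge of `F0`. -/
noncomputable def rsum (S : Finset V) (E : Finset (Sym2 V)) (c : Sym2 V → ℝ)
    (F0 H : Finset (Sym2 V)) (δ : ℝ) : ℝ :=
  ∑ A ∈ E.powerset.filter (fun A => TreeOn S A),
    if H ⊆ A then δ ^ (F0 \ A).card * ∏ e ∈ A, c e else 0

open Classical in
theorem rsum_zero (S : Finset V) (E : Finset (Sym2 V)) (c : Sym2 V → ℝ)
    (F0 H : Finset (Sym2 V)) : rsum S E c F0 H 0 = tsum' S E c (F0 ∪ H) := by
  rw [rsum, tsum'_eq]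
  refine Finset.sum_congr rfl fun A _ => ?_
  by_cases h1 : H ⊆ A
  · rw [if_pos h1]
    by_cases h2 : F0 ⊆ A
    · rw [if_pos (Finset.union_subset h2 h1), Finset.sdiff_eq_empty_iff_subset.2 h2]
      simp
    · rw [if_neg (fun h => h2 (Finset.union_subset_left h))]
      have : (F0 \ A).card ≠ 0 := by
        rw [Finset.card_ne_zero, Finset.nonempty_iff_ne_empty]
        intro h
        exact h2 (Finset.sdiff_eq_empty_iff_subset.1 h)
      rw [zero_pow this, zero_mul]
  · rw [if_neg h1, if_neg (fun h => h1 (Finset.union_subset_right h))]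

open Classical in
theorem rsum_pos (S : Finset V) (E : Finset (Sym2 V)) (c : Sym2 V → ℝ)
    (F0 H : Finset (Sym2 V)) (δ : ℝ) (hδ : 0 < δ) :
    rsum S E c F0 H δ =
      δ ^ F0.card * tsum' S E (fun g => if g ∈ F0 then δ⁻¹ * c g else c g) H := by
  rw [rsum, tsum'_eq, Finset.mul_sum]
  refine Finset.sum_congr rfl fun A _ => ?_
  by_cases h1 : H ⊆ A
  · rw [if_pos h1, if_pos h1]
    have h2 : ∀ g ∈ A, (if g ∈ F0 then δ⁻¹ * c g else c g) = (if g ∈ F0 then δ⁻¹ else 1) * c g := by
      intro g _
      split_ifs <;> simp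
    rw [Finset.prod_congr rfl h2, Finset.prod_mul_distrib, Finset.prod_ite_mem,
      Finset.prod_const, ← mul_assoc]
    congr 1
    have h3 : F0.card = (F0 \ A).card + (A ∩ F0).card := by
      rw [Finset.inter_comm]
      exact (Finset.card_sdiff_add_card_inter F0 A).symm
    rw [h3, pow_add, mul_assoc, ← mul_pow, mul_inv_cancel₀ hδ.ne', one_pow, mul_one]
  · rw [if_neg h1, if_neg h1, mul_zero]

open Classical in
theorem rsum_continuous (S : Finset V) (E : Finset (Sym2 V)) (c : Sym2 V → ℝ)
    (F0 H : Finset (Sym2 V)) : Continuous (rsum S E c F0 H) := by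
  unfold rsum
  refine continuous_finsetSum _ fun A _ => ?_
  split_ifs
  · fun_prop
  · fun_prop

open Classical in
theorem tsum'_negCorr_cond (S : Finset V) (E : Finset (Sym2 V)) (hE : Inside S E)
    (c : Sym2 V → ℝ) (hc : ∀ e, 0 ≤ c e) (F0 : Finset (Sym2 V)) (e f : Sym2 V) (hef : e ≠ f) :
    tsum' S E c (F0 ∪ {e, f}) * tsum' S E c F0 ≤
      tsum' S E c (F0 ∪ {e}) * tsum' S E c (F0 ∪ {f}) := by
  have h1 : ∀ δ : ℝ, 0 < δ → rsum S E c F0 {e, f} δ * rsum S E c F0 ∅ δ ≤
      rsum S E c F0 {e} δ * rsum S E c F0 {f} δ := by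
    intro δ hδ
    simp only [rsum_pos S E c F0 _ δ hδ]
    have h2 := tsum'_negCorr S E hE (fun g => if g ∈ F0 then δ⁻¹ * c g else c g) (by
      intro g
      split_ifs
      · exact mul_nonneg (inv_nonneg.2 hδ.le) (hc g)
      · exact hc g) e f hef
    have h3 : 0 ≤ δ ^ F0.card * δ ^ F0.card := mul_self_nonneg _
    have h4 := mul_le_mul_of_nonneg_left h2 h3
    linarith [h4, mul_mul_mul_comm (δ ^ F0.card) (tsum' S E (fun g => if g ∈ F0 then δ⁻¹ * c g else c g) {e, f})
      (δ ^ F0.card) (tsum' S E (fun g => if g ∈ F0 then δ⁻¹ * c g else c g) ∅),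
      mul_mul_mul_comm (δ ^ F0.card) (tsum' S E (fun g => if g ∈ F0 then δ⁻¹ * c g else c g) {e})
      (δ ^ F0.card) (tsum' S E (fun g => if g ∈ F0 then δ⁻¹ * c g else c g) {f})]
  have hl : Filter.Tendsto (fun δ => rsum S E c F0 {e, f} δ * rsum S E c F0 ∅ δ)
      (nhdsWithin 0 (Set.Ioi 0)) (nhds (rsum S E c F0 {e, f} 0 * rsum S E c F0 ∅ 0)) :=
    (((rsum_continuous S E c F0 {e, f}).mul (rsum_continuous S E c F0 ∅)).tendsto 0).mono_left
      nhdsWithin_le_nhds
  have hr : Filter.Tendsto (fun δ => rsum S E c F0 {e} δ * rsum S E c F0 {f} δ)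
      (nhdsWithin 0 (Set.Ioi 0)) (nhds (rsum S E c F0 {e} 0 * rsum S E c F0 {f} 0)) :=
    (((rsum_continuous S E c F0 {e}).mul (rsum_continuous S E c F0 {f})).tendsto 0).mono_left
      nhdsWithin_le_nhds
  have h2 := le_of_tendsto_of_tendsto hl hr
    (Filter.eventually_of_mem self_mem_nhdsWithin fun δ hδ => h1 δ hδ)
  simpa only [rsum_zero, Finset.union_empty] using h2

open Classical in
/-- the event `F ⊆ T` is negatively correlated with `e ∈ T`. -/
theorem tsum'_negCorr_set (S : Finset V) (E : Finset (Sym2 V)) (hE : Inside S E)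
    (c : Sym2 V → ℝ) (hc : ∀ e, 0 ≤ c e) (e : Sym2 V) (F : Finset (Sym2 V)) (heF : e ∉ F) :
    tsum' S E c (F ∪ {e}) * tsum' S E c ∅ ≤ tsum' S E c F * tsum' S E c {e} := by
  induction F using Finset.induction_on with
  | empty => rw [Finset.empty_union, mul_comm]
  | insert f F0 hf ih =>
    rw [Finset.mem_insert, not_or] at heF
    have ih' := ih heF.2
    have h1 := tsum'_negCorr_cond S E hE c hc F0 e f heF.1
    have e1 : insert f F0 ∪ {e} = F0 ∪ {e, f} := by
      ext x
      simp only [Finset.mem_union, Finset.mem_insert, Finset.mem_singleton]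
      tauto
    have e2 : insert f F0 = F0 ∪ {f} := by
      ext x
      simp only [Finset.mem_union, Finset.mem_insert, Finset.mem_singleton]
      tauto
    rw [e1, e2]
    have n0 := tsum'_nonneg S E c hc F0
    have n1 := tsum'_nonneg S E c hc ∅
    have n2 := tsum'_nonneg S E c hc (F0 ∪ {f})
    have n3 := tsum'_nonneg S E c hc {e}
    have n4 := tsum'_nonneg S E c hc (F0 ∪ {e})
    have n5 := tsum'_nonneg S E c hc (F0 ∪ {e, f})
    rcases n0.eq_or_lt with h0 | h0
    · have : tsum' S E c (F0 ∪ {e, f}) ≤ 0 := by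
        rw [h0]
        exact tsum'_le_of_subset S E c hc _ _ Finset.subset_union_left
      have h5 : tsum' S E c (F0 ∪ {e, f}) = 0 := le_antisymm this n5
      rw [h5, zero_mul]
      exact mul_nonneg n2 n3
    · refine le_of_mul_le_mul_left ?_ h0
      calc tsum' S E c F0 * (tsum' S E c (F0 ∪ {e, f}) * tsum' S E c ∅)
          = (tsum' S E c (F0 ∪ {e, f}) * tsum' S E c F0) * tsum' S E c ∅ := by ring
        _ ≤ (tsum' S E c (F0 ∪ {e}) * tsum' S E c (F0 ∪ {f})) * tsum' S E c ∅ :=
          mul_le_mul_of_nonneg_right h1 n1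
        _ = (tsum' S E c (F0 ∪ {e}) * tsum' S E c ∅) * tsum' S E c (F0 ∪ {f}) := by ring
        _ ≤ (tsum' S E c F0 * tsum' S E c {e}) * tsum' S E c (F0 ∪ {f}) :=
          mul_le_mul_of_nonneg_right ih' n2
        _ = tsum' S E c F0 * (tsum' S E c (F0 ∪ {f}) * tsum' S E c {e}) := by ring

/-! ### Deleting edges -/

open Classical in
theorem tsum'_erase (S : Finset V) (E : Finset (Sym2 V)) (c : Sym2 V → ℝ) (e : Sym2 V)
    (F : Finset (Sym2 V)) :
    tsum' S (E.erase e) c F = tsum' S E c F - tsum' S E c (F ∪ {e}) := by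
  rw [eq_sub_iff_add_eq]
  have h1 : tsum' S (E.erase e) c F = ∑ A ∈ E.powerset.filter (fun A => TreeOn S A),
      if F ⊆ A ∧ e ∉ A then ∏ g ∈ A, c g else 0 := by
    rw [← Finset.sum_filter, tsum']
    refine Finset.sum_congr ?_ fun _ _ => rfl
    ext A
    simp only [Finset.mem_filter, Finset.mem_powerset, Finset.subset_erase]
    tauto
  rw [h1, tsum'_eq, tsum'_eq, ← Finset.sum_add_distrib]
  refine Finset.sum_congr rfl fun A _ => ?_
  have h4 : (F ∪ {e} ⊆ A) ↔ (F ⊆ A ∧ e ∈ A) := by
    rw [Finset.union_subset_iff, Finset.singleton_subset_iff]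
  simp only [h4]
  by_cases h2 : F ⊆ A <;> by_cases h3 : e ∈ A <;> simp [h2, h3]

open Classical in
/-- probability that the uniform spanning tree of `(S, E)` contains `F`. -/
noncomputable def pr (S : Finset V) (E : Finset (Sym2 V)) (F : Finset (Sym2 V)) : ℝ :=
  tsum' S E 1 F / tsum' S E 1 ∅

open Classical in
theorem pr_erase_le (S : Finset V) (E : Finset (Sym2 V)) (hE : Inside S E) (F : Finset (Sym2 V))
    (e : Sym2 V) (heF : e ∉ F) (hpos : 0 < tsum' S (E.erase e) 1 ∅) :
    pr S E F ≤ pr S (E.erase e) F := by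
  have h1 := tsum'_negCorr_set S E hE 1 (fun _ => zero_le_one) e F heF
  have e1 := tsum'_erase S E 1 e F
  have e2 := tsum'_erase S E 1 e ∅
  rw [Finset.empty_union] at e2
  have n3 := tsum'_nonneg S E 1 (fun _ => zero_le_one) {e}
  have hpos' : 0 < tsum' S E 1 ∅ := by linarith
  unfold pr
  rw [div_le_div_iff₀ hpos' hpos, e1, e2]
  nlinarith [h1]

open Classical in
theorem tsum'_mono_edges (S : Finset V) (E E' : Finset (Sym2 V)) (h : E ⊆ E') (c : Sym2 V → ℝ)
    (hc : ∀ e, 0 ≤ c e) (F : Finset (Sym2 V)) : tsum' S E c F ≤ tsum' S E' c F := by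
  unfold tsum'
  refine Finset.sum_le_sum_of_subset_of_nonneg ?_ fun _ _ _ => Finset.prod_nonneg fun e _ => hc e
  exact Finset.filter_subset_filter _ (Finset.powerset_mono.2 h)

open Classical in
theorem pr_le_of_subset (S : Finset V) (E0 F : Finset (Sym2 V)) (hF : F ⊆ E0)
    (hpos : 0 < tsum' S E0 1 ∅) (D : Finset (Sym2 V)) (hD : Disjoint D E0)
    (hE : Inside S (E0 ∪ D)) :
    pr S (E0 ∪ D) F ≤ pr S E0 F := by
  induction D using Finset.induction_on with
  | empty => rw [Finset.union_empty]
  | insert e D0 he ih =>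
    have hdis : Disjoint D0 E0 := Finset.disjoint_of_subset_left (Finset.subset_insert _ _) hD
    have heE0 : e ∉ E0 := Finset.disjoint_left.1 hD (Finset.mem_insert_self _ _)
    have h1 : (E0 ∪ insert e D0).erase e = E0 ∪ D0 := by
      ext x
      simp only [Finset.mem_erase, Finset.mem_union, Finset.mem_insert]
      constructor
      · rintro ⟨h1, h2 | h2 | h2⟩
        · exact Or.inl h2
        · exact absurd h2 h1
        · exact Or.inr h2
      · rintro (h2 | h2)
        · exact ⟨fun h => heE0 (h ▸ h2), Or.inl h2⟩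
        · exact ⟨fun h => he (h ▸ h2), Or.inr (Or.inr h2)⟩
    have hin : Inside S (E0 ∪ D0) := hE.mono (by rw [← h1]; exact Finset.erase_subset _ _)
    refine le_trans ?_ (ih hdis hin)
    rw [← h1]
    refine pr_erase_le S _ hE F e (fun h => heE0 (hF h)) ?_
    rw [h1]
    exact lt_of_lt_of_le hpos (tsum'_mono_edges S _ _ Finset.subset_union_left 1
      (fun _ => zero_le_one) ∅)

/-! ### Adding a leaf -/

open Classical in
theorem treeOn_leaf (S : Finset V) (v w : V) (hv : v ∉ S) (hw : w ∈ S) (A : Finset (Sym2 V))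
    (hA : Inside S A) : TreeOn (insert v S) (insert s(v, w) A) ↔ TreeOn S A := by
  have hvw : s(v, w) ∉ A := fun h => hv (hA v w h).1
  unfold TreeOn
  rw [Finset.card_insert_of_notMem hv, Finset.card_insert_of_notMem hvw]
  have : Conn (insert v S) (insert s(v, w) A) ↔ Conn S A := by
    constructor
    · rintro ⟨_, h⟩
      refine ⟨⟨w, hw⟩, ?_⟩
      intro f hf a ha b hb
      have h1 := h (fun z => if z = v then f w else f z) (by
        intro a b hab
        rw [Finset.mem_insert] at hab
        rcases hab with hab | hab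
        · rw [Sym2.eq_iff] at hab
          have hwv : w ≠ v := fun h => hv (h ▸ hw)
          rcases hab with ⟨rfl, rfl⟩ | ⟨rfl, rfl⟩
          · simp
          · simp
        · obtain ⟨h1, h2, _⟩ := hA a b hab
          have ha : a ≠ v := fun h => hv (h ▸ h1)
          have hb : b ≠ v := fun h => hv (h ▸ h2)
          simp only [ha, hb, if_false]
          exact hf a b hab) a (Finset.mem_insert_of_mem ha) b (Finset.mem_insert_of_mem hb)
      have ha' : a ≠ v := fun h => hv (h ▸ ha)
      have hb' : b ≠ v := fun h => hv (h ▸ hb)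
      simpa only [ha', hb', if_false] using h1
    · rintro ⟨_, h⟩
      refine ⟨⟨v, Finset.mem_insert_self _ _⟩, ?_⟩
      intro f hf
      have h1 : ∀ a ∈ insert v S, (f a ↔ f w) := by
        intro a ha
        rw [Finset.mem_insert] at ha
        rcases ha with rfl | ha
        · exact hf a w (Finset.mem_insert_self _ _)
        · exact h f (fun a b hab => hf a b (Finset.mem_insert_of_mem hab)) a ha w hw
      intro a ha b hb
      exact (h1 a ha).trans (h1 b hb).symm
  rw [this]
  constructor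
  · rintro ⟨h1, h2⟩; exact ⟨h1, by omega⟩
  · rintro ⟨h1, h2⟩; exact ⟨h1, by omega⟩

open Classical in
theorem mem_of_treeOn_leaf (S : Finset V) (v w : V) (hv : v ∉ S) (hw : w ∈ S)
    (A' E : Finset (Sym2 V)) (hE : Inside S E) (hA' : A' ⊆ insert s(v, w) E)
    (ht : TreeOn (insert v S) A') : s(v, w) ∈ A' := by
  by_contra hcon
  have hA'E : A' ⊆ E := by
    intro x hx
    rcases Finset.mem_insert.1 (hA' hx) with h | h
    · exact absurd (h ▸ hx) hcon
    · exact h
  have := ht.1.2 (fun z => z = v) (by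
    intro a b hab
    obtain ⟨h1, h2, _⟩ := hE a b (hA'E hab)
    have ha : a ≠ v := fun h => hv (h ▸ h1)
    have hb : b ≠ v := fun h => hv (h ▸ h2)
    simp [ha, hb]) v (Finset.mem_insert_self _ _) w (Finset.mem_insert_of_mem hw)
  have hwv : w = v := this.1 rfl
  exact hv (hwv ▸ hw)

open Classical in
theorem tsum'_leaf (S : Finset V) (v w : V) (hv : v ∉ S) (hw : w ∈ S) (E F : Finset (Sym2 V))
    (hE : Inside S E) (hF : F ⊆ E) :
    tsum' (insert v S) (insert s(v, w) E) 1 F = tsum' S E 1 F := by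
  have hvw : s(v, w) ∉ E := fun h => hv (hE v w h).1
  unfold tsum'
  simp only [Pi.one_apply, Finset.prod_const_one]
  symm
  refine Finset.sum_bij (fun A _ => insert s(v, w) A) ?_ ?_ ?_ ?_
  · intro A hA
    simp only [Finset.mem_filter, Finset.mem_powerset] at hA ⊢
    refine ⟨Finset.insert_subset_insert _ hA.1, ?_, hA.2.2.trans (Finset.subset_insert _ _)⟩
    exact (treeOn_leaf S v w hv hw A (hE.mono hA.1)).2 hA.2.1
  · intro A hA B hB hAB
    simp only [Finset.mem_filter, Finset.mem_powerset] at hA hB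
    have h1 : s(v, w) ∉ A := fun h => hvw (hA.1 h)
    have h2 : s(v, w) ∉ B := fun h => hvw (hB.1 h)
    rw [← Finset.erase_insert h1, ← Finset.erase_insert h2]
    have hAB' : insert s(v, w) A = insert s(v, w) B := hAB
    rw [hAB']
  · intro A' hA'
    simp only [Finset.mem_filter, Finset.mem_powerset] at hA'
    have h1 := mem_of_treeOn_leaf S v w hv hw A' E hE hA'.1 hA'.2.1
    have h2 : A'.erase s(v, w) ⊆ E := by
      intro x hx
      rw [Finset.mem_erase] at hx
      rcases Finset.mem_insert.1 (hA'.1 hx.2) with h | h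
      · exact absurd h hx.1
      · exact h
    refine ⟨A'.erase s(v, w), ?_, Finset.insert_erase h1⟩
    simp only [Finset.mem_filter, Finset.mem_powerset]
    refine ⟨h2, ?_, ?_⟩
    · rw [← treeOn_leaf S v w hv hw _ (hE.mono h2), Finset.insert_erase h1]
      exact hA'.2.1
    · intro x hx
      rw [Finset.mem_erase]
      exact ⟨fun h => hvw (h ▸ hF hx), hA'.2.2 hx⟩
  · intro _ _; rfl

open Classical in
theorem tsum'_pos (S : Finset V) (E : Finset (Sym2 V)) (hE : Inside S E) (hc : Conn S E)
    (c : Sym2 V → ℝ) (hpos : ∀ e, 0 < c e) : 0 < tsum' S E c ∅ := by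
  obtain ⟨r, hr⟩ := hc.1
  refine lt_of_le_of_ne (tsum'_nonneg S E c (fun e => (hpos e).le) ∅) (Ne.symm ?_)
  rw [← det_gram_eq_tsum S r hr E hE c]
  intro hdet
  rw [← Matrix.exists_mulVec_eq_zero_iff] at hdet
  obtain ⟨x, hx0, hx⟩ := hdet
  have h1 : dotProduct x ((gram (rvec S r) E c).mulVec x) = 0 := by rw [hx]; simp
  have h2 : dotProduct x ((gram (rvec S r) E c).mulVec x) =
      ∑ e ∈ E, c e * (∑ v : ↥(S.erase r), x v * rvec S r e v) ^ 2 := by
    calc dotProduct x ((gram (rvec S r) E c).mulVec x)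
        = ∑ v, ∑ w, ∑ e ∈ E, c e * (x v * rvec S r e v * (x w * rvec S r e w)) := by
          simp only [dotProduct, Matrix.mulVec, gram, Matrix.of_apply, Finset.mul_sum,
            Finset.sum_mul]
          refine Finset.sum_congr rfl fun v _ => Finset.sum_congr rfl fun w _ =>
            Finset.sum_congr rfl fun e _ => by ring
      _ = ∑ v, ∑ e ∈ E, ∑ w, c e * (x v * rvec S r e v * (x w * rvec S r e w)) :=
          Finset.sum_congr rfl fun v _ => Finset.sum_comm
      _ = ∑ e ∈ E, ∑ v, ∑ w, c e * (x v * rvec S r e v * (x w * rvec S r e w)) :=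
          Finset.sum_comm
      _ = ∑ e ∈ E, c e * (∑ v : ↥(S.erase r), x v * rvec S r e v) ^ 2 := by
          refine Finset.sum_congr rfl fun e _ => ?_
          rw [sq, Finset.sum_mul_sum, Finset.mul_sum]
          refine Finset.sum_congr rfl fun v _ => ?_
          rw [Finset.mul_sum]
  rw [h1] at h2
  have h3 := (Finset.sum_eq_zero_iff_of_nonneg (fun e _ => mul_nonneg (hpos e).le (sq_nonneg
    (∑ v : ↥(S.erase r), x v * rvec S r e v)))).1 h2.symm
  apply hx0
  refine ker_trivial S r hr E hE hc x (fun e he => ?_)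
  have h4 := h3 e he
  rcases mul_eq_zero.1 h4 with h5 | h5
  · exact absurd h5 (hpos e).ne'
  · exact pow_eq_zero_iff (two_ne_zero) |>.1 h5

/-! ### Monotonicity in the piece -/

open Classical in
theorem edgesIn_insert (G : SimpleGraph V) (S : Finset V) (v w : V) (hw : w ∈ S)
    (hadj : G.Adj v w) : insert s(v, w) (edgesIn G S) ⊆ edgesIn G (insert v S) := by
  intro x hx
  rw [Finset.mem_insert] at hx
  rcases hx with rfl | hx
  · simp only [edgesIn, Finset.mem_filter, Finset.mk_mem_sym2_iff, SimpleGraph.mem_edgeSet]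
    exact ⟨⟨Finset.mem_insert_self _ _, Finset.mem_insert_of_mem hw⟩, hadj⟩
  · simp only [edgesIn, Finset.mem_filter] at hx ⊢
    exact ⟨Finset.sym2_mono (Finset.subset_insert _ _) hx.1, hx.2⟩

open Classical in
theorem edgesIn_mono (G : SimpleGraph V) {S S' : Finset V} (h : S ⊆ S') :
    edgesIn G S ⊆ edgesIn G S' := by
  intro x hx
  simp only [edgesIn, Finset.mem_filter] at hx ⊢
  exact ⟨Finset.sym2_mono h hx.1, hx.2⟩

open Classical in
theorem conn_insert (G : SimpleGraph V) (S : Finset V) (v w : V) (hw : w ∈ S)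
    (hadj : G.Adj v w) (hc : Conn S (edgesIn G S)) :
    Conn (insert v S) (edgesIn G (insert v S)) := by
  refine ⟨⟨v, Finset.mem_insert_self _ _⟩, ?_⟩
  intro f hf
  have h1 : ∀ a ∈ insert v S, (f a ↔ f w) := by
    intro a ha
    rw [Finset.mem_insert] at ha
    rcases ha with rfl | ha
    · exact hf a w (edgesIn_insert G S a w hw hadj (Finset.mem_insert_self _ _))
    · exact hc.2 f (fun a b hab => hf a b (edgesIn_insert G S v w hw hadj
        (Finset.mem_insert_of_mem hab))) a ha w hw
  intro a ha b hb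
  exact (h1 a ha).trans (h1 b hb).symm

open Classical in
theorem pr_insert_le (G : SimpleGraph V) (S : Finset V) (v w : V) (hv : v ∉ S) (hw : w ∈ S)
    (hadj : G.Adj v w) (hc : Conn S (edgesIn G S)) (F : Finset (Sym2 V)) (hF : F ⊆ edgesIn G S) :
    pr (insert v S) (edgesIn G (insert v S)) F ≤ pr S (edgesIn G S) F := by
  have hin := inside_edgesIn G S
  have h1 : pr (insert v S) (insert s(v, w) (edgesIn G S)) F = pr S (edgesIn G S) F := by
    unfold pr
    rw [tsum'_leaf S v w hv hw _ F hin hF, tsum'_leaf S v w hv hw _ ∅ hin (Finset.empty_subset _)]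
  rw [← h1]
  have hsub := edgesIn_insert G S v w hw hadj
  set E0 := insert s(v, w) (edgesIn G S) with hE0
  have h2 : edgesIn G (insert v S) = E0 ∪ (edgesIn G (insert v S) \ E0) :=
    (Finset.union_sdiff_of_subset hsub).symm
  rw [h2]
  refine pr_le_of_subset (insert v S) E0 F (hF.trans (Finset.subset_insert _ _)) ?_ _
    Finset.sdiff_disjoint ?_
  · rw [hE0, tsum'_leaf S v w hv hw _ ∅ hin (Finset.empty_subset _)]
    exact tsum'_pos S _ hin hc 1 (fun _ => one_pos)
  · rw [← h2]
    exact inside_edgesIn G _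

open Classical in
theorem pr_mono (G : SimpleGraph V) (S S' : Finset V) (h : S ⊆ S')
    (hc : Conn S (edgesIn G S)) (hc' : Conn S' (edgesIn G S'))
    (F : Finset (Sym2 V)) (hF : F ⊆ edgesIn G S) :
    pr S' (edgesIn G S') F ≤ pr S (edgesIn G S) F := by
  obtain ⟨n, hn⟩ : ∃ n, (S' \ S).card = n := ⟨_, rfl⟩
  induction n generalizing S with
  | zero =>
    have : S' = S := Finset.Subset.antisymm
      (Finset.sdiff_eq_empty_iff_subset.1 (Finset.card_eq_zero.1 hn)) h
    rw [this]
  | succ n ih =>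
    have hne : ∃ u ∈ S', u ∉ S := by
      have : (S' \ S).Nonempty := by rw [← Finset.card_pos]; omega
      obtain ⟨u, hu⟩ := this
      exact ⟨u, (Finset.mem_sdiff.1 hu).1, (Finset.mem_sdiff.1 hu).2⟩
    obtain ⟨u, huS', huS⟩ := hne
    have hex : ∃ v w, v ∈ S' ∧ v ∉ S ∧ w ∈ S ∧ G.Adj v w := by
      by_contra hcon
      push Not at hcon
      obtain ⟨x, hx⟩ := hc.1
      have h1 := hc'.2 (fun z => z ∈ S) (by
        intro a b hab
        have hab' := hab
        simp only [edgesIn, Finset.mem_filter, Finset.mk_mem_sym2_iff,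
          SimpleGraph.mem_edgeSet] at hab'
        obtain ⟨⟨ha, hb⟩, hadj⟩ := hab'
        constructor
        · intro haS
          by_contra hbS
          exact hcon b a hb hbS haS hadj.symm
        · intro hbS
          by_contra haS
          exact hcon a b ha haS hbS hadj) x (h hx) u huS'
      exact huS (h1.1 hx)
    obtain ⟨v, w, hvS', hvS, hwS, hadj⟩ := hex
    have hsub : insert v S ⊆ S' := Finset.insert_subset hvS' h
    have hcard : (S' \ insert v S).card = n := by
      have : S' \ insert v S = (S' \ S).erase v := by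
        ext x
        simp only [Finset.mem_sdiff, Finset.mem_insert, Finset.mem_erase]
        tauto
      rw [this, Finset.card_erase_of_mem (Finset.mem_sdiff.2 ⟨hvS', hvS⟩), hn]
      rfl
    have hc2 := conn_insert G S v w hwS hadj hc
    exact (ih (insert v S) hsub hc2 (hF.trans (edgesIn_mono G (Finset.subset_insert _ _)))
      hcard).trans (pr_insert_le G S v w hvS hwS hadj hc F hF)

end Conn

/-! ### Final statements -/

section Final

variable {V : Type*}

open Classical in
/-- weighted sum over the spanning trees of the piece `S` that contain `F`. -/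
noncomputable def treeSum (G : SimpleGraph V) (S : Finset V) (c : Sym2 V → ℝ)
    (F : Finset (Sym2 V)) : ℝ :=
  ∑ A ∈ (edgesIn G S).powerset.filter (fun A => IsSpanningTreeOn G S A ∧ F ⊆ A), ∏ e ∈ A, c e

open Classical in
theorem treeSum_eq_tsum' (G : SimpleGraph V) (S : Finset V) (c : Sym2 V → ℝ)
    (F : Finset (Sym2 V)) : treeSum G S c F = tsum' S (edgesIn G S) c F := by
  unfold treeSum tsum'
  refine Finset.sum_congr ?_ fun _ _ => rfl
  ext A
  simp only [Finset.mem_filter, Finset.mem_powerset, isSpanningTreeOn_iff]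
  tauto

theorem conn_of_connected (G : SimpleGraph V) (S : Finset V)
    (h : (G.induce (S : Set V)).Connected) : Conn S (edgesIn G S) := by
  classical
  rw [← connected_iff_conn S _ (inside_edgesIn G S)]
  refine h.mono ?_
  intro x y hxy
  show (SimpleGraph.fromEdgeSet ((edgesIn G S : Finset (Sym2 V)) : Set (Sym2 V))).Adj x.1 y.1
  have hadj : G.Adj x.1 y.1 := hxy
  rw [SimpleGraph.fromEdgeSet_adj]
  refine ⟨?_, hadj.ne⟩
  simp only [edgesIn, Finset.coe_filter, Set.mem_ofPred_eq, Finset.mk_mem_sym2_iff,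
    SimpleGraph.mem_edgeSet]
  exact ⟨⟨x.2, y.2⟩, hadj⟩

theorem treeSum_nonneg (G : SimpleGraph V) (S : Finset V) (c : Sym2 V → ℝ) (hc : ∀ e, 0 ≤ c e)
    (F : Finset (Sym2 V)) : 0 ≤ treeSum G S c F := by
  rw [treeSum_eq_tsum']
  exact tsum'_nonneg _ _ _ hc _

theorem treeSum_empty_pos (G : SimpleGraph V) (S : Finset V)
    (h : (G.induce (S : Set V)).Connected) (c : Sym2 V → ℝ) (hc : ∀ e, 0 < c e) :
    0 < treeSum G S c ∅ := by
  rw [treeSum_eq_tsum']
  exact tsum'_pos _ _ (inside_edgesIn G S) (conn_of_connected G S h) c hc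

/-- Rayleigh property (no connectivity needed, weights only nonnegative). -/
theorem treeSum_negCorr' [DecidableEq (Sym2 V)] (G : SimpleGraph V) (S : Finset V)
    (c : Sym2 V → ℝ) (hc : ∀ e, 0 ≤ c e) (e f : Sym2 V) (hef : e ≠ f) :
    treeSum G S c {e, f} * treeSum G S c ∅ ≤ treeSum G S c {e} * treeSum G S c {f} := by
  classical
  simp only [treeSum_eq_tsum']
  have := tsum'_negCorr S (edgesIn G S) (inside_edgesIn G S) c hc e f hef
  convert this using 3
  ext x
  simp

theorem treeSum_negCorr [DecidableEq (Sym2 V)] (G : SimpleGraph V) (S : Finset V)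
    (_h : (G.induce (S : Set V)).Connected)
    (c : Sym2 V → ℝ) (hc : ∀ e, 0 < c e) (e f : Sym2 V) (hef : e ≠ f) :
    treeSum G S c {e, f} * treeSum G S c ∅ ≤ treeSum G S c {e} * treeSum G S c {f} :=
  treeSum_negCorr' G S c (fun e => (hc e).le) e f hef

theorem card_of_isSpanningTreeOn (G : SimpleGraph V) (S : Finset V) (A : Finset (Sym2 V))
    (h : IsSpanningTreeOn G S A) : A.card + 1 = S.card :=
  ((isSpanningTreeOn_iff G S A).1 h).2.2

theorem sum_treeSum_insert [DecidableEq (Sym2 V)] (G : SimpleGraph V) (S : Finset V)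
    (c : Sym2 V → ℝ) (F : Finset (Sym2 V)) :
    ∑ f ∈ edgesIn G S, treeSum G S c (insert f F) = ((S.card : ℝ) - 1) * treeSum G S c F := by
  classical
  simp only [treeSum_eq_tsum', tsum'_eq]
  rw [Finset.sum_comm, Finset.mul_sum]
  refine Finset.sum_congr rfl fun A hA => ?_
  rw [Finset.mem_filter, Finset.mem_powerset] at hA
  have hcard : (A.card : ℝ) = (S.card : ℝ) - 1 := by
    have := hA.2.2
    rw [eq_sub_iff_add_eq]
    exact_mod_cast this
  by_cases hF : F ⊆ A
  · have h1 : ∀ f ∈ edgesIn G S, (if insert f F ⊆ A then ∏ e ∈ A, c e else 0) =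
        if f ∈ A then ∏ e ∈ A, c e else 0 := by
      intro f _
      have : insert f F ⊆ A ↔ f ∈ A := by
        rw [Finset.insert_subset_iff]
        exact ⟨fun h => h.1, fun h => ⟨h, hF⟩⟩
      simp only [this]
    have h2 : ∑ f ∈ edgesIn G S, (if insert f F ⊆ A then ∏ e ∈ A, c e else 0) =
        ∑ f ∈ edgesIn G S, (if f ∈ A then ∏ e ∈ A, c e else 0) := by
      refine Finset.sum_congr rfl fun f hf => ?_
      rw [← h1 f hf]
    rw [if_pos hF]
    refine Eq.trans ?_ (h2.trans ?_)
    · refine Finset.sum_congr rfl fun f _ => ?_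
      congr!
    · rw [Finset.sum_ite_mem, Finset.inter_eq_right.2 hA.1, Finset.sum_const, nsmul_eq_mul, hcard]
  · rw [if_neg hF, mul_zero]
    refine Finset.sum_eq_zero fun f _ => ?_
    rw [if_neg]
    intro h
    exact hF ((Finset.subset_insert _ _).trans h)

theorem sum_treeSum_pair [DecidableEq (Sym2 V)] (G : SimpleGraph V) (S : Finset V)
    (c : Sym2 V → ℝ) (e : Sym2 V) :
    ∑ f ∈ edgesIn G S, treeSum G S c {e, f} = ((S.card : ℝ) - 1) * treeSum G S c {e} := by
  rw [← sum_treeSum_insert G S c {e}]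
  refine Finset.sum_congr rfl fun f _ => ?_
  rw [Finset.pair_comm]

theorem ustContains_eq_pr (G : SimpleGraph V) (S : Finset V) (F : Finset (Sym2 V)) :
    ustContains G S F = pr S (edgesIn G S) F := by
  classical
  have h1 : ∀ (F : Finset (Sym2 V)), tsum' S (edgesIn G S) 1 F =
      (((edgesIn G S).powerset.filter (fun A => IsSpanningTreeOn G S A ∧ F ⊆ A)).card : ℝ) := by
    intro F
    rw [← treeSum_eq_tsum', treeSum]
    simp only [Pi.one_apply, Finset.prod_const_one, Finset.sum_const, nsmul_eq_mul, mul_one]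
  unfold pr
  rw [h1, h1]
  simp only [ustContains]
  congr!
  simp

theorem ustContains_eq_treeSum (G : SimpleGraph V) (S : Finset V) (F : Finset (Sym2 V)) :
    ustContains G S F = treeSum G S 1 F / treeSum G S 1 ∅ := by
  rw [ustContains_eq_pr, pr, treeSum_eq_tsum', treeSum_eq_tsum']

theorem ustContains_nonneg (G : SimpleGraph V) (S : Finset V) (F : Finset (Sym2 V)) :
    0 ≤ ustContains G S F := by
  rw [ustContains_eq_treeSum]
  exact div_nonneg (treeSum_nonneg _ _ _ (fun _ => zero_le_one) _)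
    (treeSum_nonneg _ _ _ (fun _ => zero_le_one) _)

/-- the free uniform spanning tree probability decreases in the piece. -/
theorem ustContains_mono (G : SimpleGraph V) (S S' : Finset V) (h : S ⊆ S')
    (hc : (G.induce (S : Set V)).Connected) (hc' : (G.induce (S' : Set V)).Connected)
    (F : Finset (Sym2 V)) (hF : F ⊆ edgesIn G S) :
    ustContains G S' F ≤ ustContains G S F := by
  rw [ustContains_eq_pr, ustContains_eq_pr]
  exact pr_mono G S S' h (conn_of_connected G S hc) (conn_of_connected G S' hc') F hF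

/-- limit value: infimum over finite connected pieces containing `F`. -/
noncomputable def fusfProb (G : SimpleGraph V) (F : Finset (Sym2 V)) : ℝ :=
  ⨅ S : {S : Finset V // (G.induce (S : Set V)).Connected ∧ F ⊆ edgesIn G S}, ustContains G S F

theorem tendsto_ustContains (G : SimpleGraph V) (S : ℕ → Finset V) (hmono : Monotone S)
    (hex : ∀ v : V, ∃ n, v ∈ S n) (hconn : ∀ n, (G.induce (S n : Set V)).Connected)
    (F : Finset (Sym2 V)) (hF : (↑F : Set (Sym2 V)) ⊆ G.edgeSet) :
    Filter.Tendsto (fun n => ustContains G (S n) F) Filter.atTop (nhds (fusfProb G F)) := by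
  classical
  -- every finite set of vertices is eventually covered
  have hev : ∀ T : Finset V, ∃ n, T ⊆ S n := by
    intro T
    induction T using Finset.induction_on with
    | empty => exact ⟨0, Finset.empty_subset _⟩
    | insert a T _ ih =>
      obtain ⟨n, hn⟩ := ih
      obtain ⟨m, hm⟩ := hex a
      refine ⟨max n m, Finset.insert_subset (hmono (le_max_right _ _) hm)
        (hn.trans (hmono (le_max_left _ _)))⟩
  have hevF : ∃ n, F ⊆ edgesIn G (S n) := by
    obtain ⟨n, hn⟩ := hev (F.biUnion fun e => {(ends e).1, (ends e).2})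
    refine ⟨n, fun e he => ?_⟩
    simp only [edgesIn, Finset.mem_filter]
    refine ⟨?_, hF he⟩
    have h1 : (ends e).1 ∈ S n := hn (Finset.mem_biUnion.2 ⟨e, he, by simp⟩)
    have h2 : (ends e).2 ∈ S n := hn (Finset.mem_biUnion.2 ⟨e, he, by simp⟩)
    rw [← mk_ends e]
    exact Finset.mk_mem_sym2_iff.2 ⟨h1, h2⟩
  obtain ⟨n0, hn0⟩ := hevF
  have hbdd : BddBelow (Set.range fun S : {S : Finset V //
      (G.induce (S : Set V)).Connected ∧ F ⊆ edgesIn G S} => ustContains G S F) := by
    refine ⟨0, ?_⟩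
    rintro _ ⟨S, rfl⟩
    exact ustContains_nonneg G _ F
  have : Nonempty {S : Finset V // (G.induce (S : Set V)).Connected ∧ F ⊆ edgesIn G S} :=
    ⟨⟨S n0, hconn n0, hn0⟩⟩
  rw [Metric.tendsto_atTop]
  intro ε hε
  obtain ⟨T, hT⟩ := exists_lt_of_ciInf_lt (lt_add_of_pos_right (fusfProb G F) hε)
  obtain ⟨n1, hn1⟩ := hev T.1
  refine ⟨max n0 n1, fun n hn => ?_⟩
  have h0 : F ⊆ edgesIn G (S n) := hn0.trans (edgesIn_mono G (hmono ((le_max_left _ _).trans hn)))
  have h1 : fusfProb G F ≤ ustContains G (S n) F :=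
    ciInf_le hbdd (⟨S n, hconn n, h0⟩ : {S : Finset V //
      (G.induce (S : Set V)).Connected ∧ F ⊆ edgesIn G S})
  have h2 : ustContains G (S n) F ≤ ustContains G T.1 F :=
    ustContains_mono G T.1 (S n) (hn1.trans (hmono ((le_max_right _ _).trans hn))) T.2.1 (hconn n)
      F T.2.2
  rw [Real.dist_eq, abs_of_nonneg (by linarith)]
  linarith

end Final

end Crest.Agent.H14UstNC
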