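import Crest.Agent.H14Order

set_option autoImplicit false

/-!
Graph-distance windows of edges.
-/

open MeasureTheory ProbabilityTheory Filter Topology
open Crest.ProbabilityR.GraphTables

namespace Crest.Agent.H14

/-- Vertices at distance at most `n` from an endpoint. -/
def ball (G : SimpleGraph ℕ) : ℕ → Sym2 ℕ → Set ℕ
  | 0, e => {a | a ∈ e}
  | n + 1, e => {c | c ∈ ball G n e ∨ ∃ b ∈ ball G n e, G.Adj b c}

/-- Windows. -/
noncomputable def NG (G : SimpleGraph ℕ) (n : ℕ) (e : Sym2 ℕ) : Finset (Sym2 ℕ) :=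
  toFin {f | f ∈ G.edgeSet ∧ ∀ a ∈ f, a ∈ ball G n e}

/-- Good graphs. -/
def Good (G : SimpleGraph ℕ) : Prop := G.Connected ∧ ∀ v, (G.neighborSet v).Finite

lemma ball_mono (G : SimpleGraph ℕ) (e : Sym2 ℕ) : Monotone (fun n => ball G n e) :=
  monotone_nat_of_le_succ (fun _ _ hc => Or.inl hc)

lemma ball_finite (G : SimpleGraph ℕ) (hlf : ∀ v, (G.neighborSet v).Finite) (n : ℕ)
    (e : Sym2 ℕ) : (ball G n e).Finite := by
  induction n with
  | zero =>
    induction e using Sym2.inductionOn with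
    | _ a b =>
    have : ball G 0 s(a, b) = {a, b} := by
      ext c
      simp [ball, Sym2.mem_iff]
    rw [this]
    exact (Set.finite_singleton b).insert a
  | succ n ih =>
    have : ball G (n + 1) e = ball G n e ∪ ⋃ b ∈ ball G n e, G.neighborSet b := by
      ext c
      simp [ball, SimpleGraph.mem_neighborSet]
    rw [this]
    exact ih.union (ih.biUnion (fun b _ => hlf b))

lemma ball_exhaust (G : SimpleGraph ℕ) (hc : G.Connected) (e : Sym2 ℕ) (c : ℕ) :
    ∃ n, c ∈ ball G n e := by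
  induction e using Sym2.inductionOn with
  | _ a b =>
  obtain ⟨p⟩ := hc.preconnected c a
  induction p with
  | nil => exact ⟨0, by simp [ball]⟩
  | cons h p ih =>
    obtain ⟨n, hn⟩ := ih
    exact ⟨n + 1, Or.inr ⟨_, hn, h.symm⟩⟩

lemma connected_of_ball (G : SimpleGraph ℕ) (h : ∀ a c, ∃ n, c ∈ ball G n s(a, a)) :
    G.Connected := by
  have key : ∀ n a c, c ∈ ball G n s(a, a) → G.Reachable a c := by
    intro n
    induction n with
    | zero =>
      intro a c hc
      have : c = a := by simpa [ball] using hc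
      rw [this]
    | succ n ih =>
      rintro a c (hc | ⟨b, hb, hbc⟩)
      · exact ih a c hc
      · exact (ih a b hb).trans hbc.reachable
  have hp : G.Preconnected := by
    intro a c
    obtain ⟨n, hn⟩ := h a c
    exact key n a c hn
  exact ⟨hp⟩

lemma window_finite (G : SimpleGraph ℕ) (hlf : ∀ v, (G.neighborSet v).Finite) (n : ℕ)
    (e : Sym2 ℕ) : {f | f ∈ G.edgeSet ∧ ∀ a ∈ f, a ∈ ball G n e}.Finite := by
  have hb := ball_finite G hlf n e
  refine (hb.toFinset.sym2.finite_toSet).subset ?_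
  rintro f ⟨_, hf⟩
  rw [Finset.mem_coe, Finset.mem_sym2_iff]
  intro a ha
  rw [Set.Finite.mem_toFinset]
  exact hf a ha

lemma mem_NG (G : SimpleGraph ℕ) (hlf : ∀ v, (G.neighborSet v).Finite) (n : ℕ)
    (e f : Sym2 ℕ) : f ∈ NG G n e ↔ f ∈ G.edgeSet ∧ ∀ a ∈ f, a ∈ ball G n e :=
  mem_toFin (window_finite G hlf n e) f

lemma NG_mono (G : SimpleGraph ℕ) (hlf : ∀ v, (G.neighborSet v).Finite) (e : Sym2 ℕ) :
    Monotone (fun n => NG G n e) := by
  intro m n hmn f hf
  rw [mem_NG G hlf] at hf ⊢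
  exact ⟨hf.1, fun a ha => ball_mono G e hmn (hf.2 a ha)⟩

lemma NG_exhaust (G : SimpleGraph ℕ) (hG : Good G) (e f : Sym2 ℕ) (hf : f ∈ G.edgeSet) :
    ∃ n, f ∈ NG G n e := by
  induction f using Sym2.inductionOn with
  | _ a b =>
  obtain ⟨m, hm⟩ := ball_exhaust G hG.1 e a
  obtain ⟨n, hn⟩ := ball_exhaust G hG.1 e b
  refine ⟨max m n, ?_⟩
  rw [mem_NG G hG.2]
  refine ⟨hf, ?_⟩
  intro c hc
  rw [Sym2.mem_iff] at hc
  rcases hc with rfl | rfl
  · exact ball_mono G e (le_max_left _ _) hm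
  · exact ball_mono G e (le_max_right _ _) hn

lemma NG_subset (G : SimpleGraph ℕ) (n : ℕ) (e f : Sym2 ℕ) (h : f ∈ NG G n e) :
    f ∈ G.edgeSet := (toFin_subset h).1

lemma ball_comap (G : SimpleGraph ℕ) (σ : Equiv.Perm ℕ) (n : ℕ) (e : Sym2 ℕ) (c : ℕ) :
    c ∈ ball (G.comap σ) n e ↔ σ c ∈ ball G n (Sym2.map σ e) := by
  induction n generalizing c with
  | zero =>
    change c ∈ e ↔ σ c ∈ Sym2.map σ e
    rw [Sym2.mem_map]
    constructor
    · intro h
      exact ⟨c, h, rfl⟩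
    · rintro ⟨d, hd, h⟩
      rw [← σ.injective h]
      exact hd
  | succ n ih =>
    change (c ∈ ball (G.comap σ) n e ∨ ∃ b ∈ ball (G.comap σ) n e, (G.comap σ).Adj b c) ↔
      (σ c ∈ ball G n (Sym2.map σ e) ∨ ∃ b ∈ ball G n (Sym2.map σ e), G.Adj b (σ c))
    rw [ih]
    constructor
    · rintro (h | ⟨b, hb, h⟩)
      · exact Or.inl h
      · exact Or.inr ⟨σ b, (ih b).1 hb, h⟩
    · rintro (h | ⟨b, hb, h⟩)
      · exact Or.inl h
      · refine Or.inr ⟨σ.symm b, ?_, ?_⟩
        · rw [ih, Equiv.apply_symm_apply]; exact hb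
        · rw [SimpleGraph.comap_adj, Equiv.apply_symm_apply]; exact h

lemma edge_comap (G : SimpleGraph ℕ) (σ : Equiv.Perm ℕ) (e : Sym2 ℕ) :
    e ∈ (G.comap σ).edgeSet ↔ Sym2.map σ e ∈ G.edgeSet := by
  induction e using Sym2.inductionOn with
  | _ a b => rfl

lemma symEmb_apply (σ : Equiv.Perm ℕ) (e : Sym2 ℕ) : symEmb σ e = Sym2.map σ e := rfl

lemma sym2_map_symm (σ : Equiv.Perm ℕ) (e : Sym2 ℕ) : Sym2.map σ (Sym2.map σ.symm e) = e := by
  induction e using Sym2.inductionOn with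
  | _ a b => simp [Sym2.map_mk]

lemma sym2_map_symm' (σ : Equiv.Perm ℕ) (e : Sym2 ℕ) : Sym2.map σ.symm (Sym2.map σ e) = e := by
  induction e using Sym2.inductionOn with
  | _ a b => simp [Sym2.map_mk]

lemma NG_comap (G : SimpleGraph ℕ) (σ : Equiv.Perm ℕ) (n : ℕ) (e : Sym2 ℕ) :
    NG G n (symEmb σ e) = (NG (G.comap σ) n e).map (symEmb σ) := by
  unfold NG
  apply toFin_map
  ext f
  simp only [Set.mem_ofPred_eq, Set.mem_image, edge_comap, symEmb_apply]
  constructor
  · rintro ⟨h1, h2⟩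
    refine ⟨Sym2.map σ.symm f, ⟨?_, ?_⟩, sym2_map_symm σ f⟩
    · rw [sym2_map_symm]; exact h1
    · intro a ha
      rw [ball_comap]
      apply h2
      rw [Sym2.mem_map] at ha
      obtain ⟨b, hb, rfl⟩ := ha
      rw [Equiv.apply_symm_apply]
      exact hb
  · rintro ⟨d, ⟨h1, h2⟩, rfl⟩
    refine ⟨h1, ?_⟩
    intro a ha
    rw [Sym2.mem_map] at ha
    obtain ⟨b, hb, rfl⟩ := ha
    rw [← ball_comap]
    exact h2 b hb

lemma good_comap (G : SimpleGraph ℕ) (σ : Equiv.Perm ℕ) (hG : Good G) : Good (G.comap σ) := by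
  refine ⟨connected_of_ball _ ?_, ?_⟩
  · intro a c
    obtain ⟨n, hn⟩ := ball_exhaust G hG.1 s(σ a, σ a) (σ c)
    exact ⟨n, (ball_comap G σ n s(a, a) c).2 hn⟩
  · intro v
    have : (G.comap σ).neighborSet v = σ ⁻¹' (G.neighborSet (σ v)) := by
      ext c
      rfl
    rw [this]
    exact (hG.2 (σ v)).preimage σ.injective.injOn

/-! ### Measurability -/

lemma measurableSet_ball (n : ℕ) (e : Sym2 ℕ) (c : ℕ) :
    MeasurableSet {A : ℕ → ℕ → Bool | c ∈ ball (graphOfTable A) n e} := by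
  induction n generalizing c with
  | zero => exact MeasurableSet.const _
  | succ n ih =>
    have : {A : ℕ → ℕ → Bool | c ∈ ball (graphOfTable A) (n + 1) e} =
        {A | c ∈ ball (graphOfTable A) n e} ∪
          ⋃ b, ({A | b ∈ ball (graphOfTable A) n e} ∩ {A | (graphOfTable A).Adj b c}) := by
      ext A
      simp only [ball, Set.mem_ofPred_eq, Set.mem_union, Set.mem_iUnion, Set.mem_inter_iff]
    rw [this]
    exact (ih c).union (MeasurableSet.iUnion fun b => (ih b).inter (measurableSet_adj b c))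

lemma measurableSet_NG (n : ℕ) (e : Sym2 ℕ) (C : Finset (Sym2 ℕ)) :
    MeasurableSet {A : ℕ → ℕ → Bool | NG (graphOfTable A) n e = C} := by
  unfold NG
  apply measurableSet_toFin (fun A : ℕ → ℕ → Bool =>
    {f | f ∈ (graphOfTable A).edgeSet ∧ ∀ a ∈ f, a ∈ ball (graphOfTable A) n e})
  intro f
  have : {A : ℕ → ℕ → Bool | f ∈ {f | f ∈ (graphOfTable A).edgeSet ∧
      ∀ a ∈ f, a ∈ ball (graphOfTable A) n e}} = {A | f ∈ (graphOfTable A).edgeSet} ∩
      ⋂ a : ℕ, {A | a ∈ f → a ∈ ball (graphOfTable A) n e} := by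
    ext A
    simp only [Set.mem_ofPred_eq, Set.mem_inter_iff, Set.mem_iInter]
  rw [this]
  apply (measurableSet_edge f).inter
  apply MeasurableSet.iInter
  intro a
  by_cases ha : a ∈ f
  · have : {A : ℕ → ℕ → Bool | a ∈ f → a ∈ ball (graphOfTable A) n e} =
        {A | a ∈ ball (graphOfTable A) n e} := by
      ext A; simp [ha]
    rw [this]
    exact measurableSet_ball n e a
  · have : {A : ℕ → ℕ → Bool | a ∈ f → a ∈ ball (graphOfTable A) n e} = Set.univ := by
      ext A; simp [ha]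
    rw [this]
    exact MeasurableSet.univ

lemma measurableSet_good : MeasurableSet {A : ℕ → ℕ → Bool | Good (graphOfTable A)} := by
  have : {A : ℕ → ℕ → Bool | Good (graphOfTable A)} =
      (⋂ a : ℕ, ⋂ c : ℕ, ⋃ n : ℕ, {A | c ∈ ball (graphOfTable A) n s(a, a)}) ∩
      (⋂ v : ℕ, ⋃ M : ℕ, ⋂ c : ℕ, {A | (graphOfTable A).Adj v c → c ≤ M}) := by
    ext A
    simp only [Set.mem_ofPred_eq, Set.mem_inter_iff, Set.mem_iInter, Set.mem_iUnion, Good]
    constructor
    · rintro ⟨h1, h2⟩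
      refine ⟨fun a c => ball_exhaust _ h1 _ c, fun v => ?_⟩
      obtain ⟨M, hM⟩ := (h2 v).bddAbove
      exact ⟨M, fun c hc => hM hc⟩
    · rintro ⟨h1, h2⟩
      refine ⟨connected_of_ball _ h1, fun v => ?_⟩
      obtain ⟨M, hM⟩ := h2 v
      exact (Set.finite_Iic M).subset (fun c hc => hM c hc)
  rw [this]
  apply MeasurableSet.inter
  · exact MeasurableSet.iInter fun a => MeasurableSet.iInter fun c => MeasurableSet.iUnion fun n =>
      measurableSet_ball n _ c
  · refine MeasurableSet.iInter fun v => MeasurableSet.iUnion fun M => MeasurableSet.iInter fun c => ?_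
    by_cases hc : c ≤ M
    · have : {A : ℕ → ℕ → Bool | (graphOfTable A).Adj v c → c ≤ M} = Set.univ := by
        ext A; simp [hc]
      rw [this]
      exact MeasurableSet.univ
    · have : {A : ℕ → ℕ → Bool | (graphOfTable A).Adj v c → c ≤ M} =
          {A | (graphOfTable A).Adj v c}ᶜ := by
        ext A; simp [hc]
      rw [this]
      exact (measurableSet_adj v c).compl

end Crest.Agent.H14
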