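import Mathlib

set_option autoImplicit false
set_option linter.all false

/-!
F_2-cochain algebra on a mod 2 "tower" of small simplices (helper22, rid 50).
Main result: for a cover of `S^2` by six antipodal colour classes without orthogonal pairs,
`n_R + n_{R'} = 1` for complementary triples.
-/

namespace Crest.H22Par

open Finset

lemma two0 : (2 : ZMod 2) = 0 := by decide

section tower
variable {E : Type*} [InvolutiveNeg E] {ι κ : Type*} [Fintype ι] [Fintype κ]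

/-- The part of the tower in dimensions `≤ 2`. -/
structure Tower2 (v0 v1 v2 : ι → E) (a b : κ → E) (e0 : E) : Prop where
  h1 : ∀ f : E → ZMod 2, ∑ j, (f (a j) + f (b j)) = f e0 + f (-e0)
  h2 : ∀ f : E → E → ZMod 2,
    ∑ i, (f (v1 i) (v2 i) + f (v0 i) (v2 i) + f (v0 i) (v1 i))
      = ∑ j, (f (a j) (b j) + f (-a j) (-b j))

variable {v0 v1 v2 : ι → E} {a b : κ → E} {e0 : E}

lemma aa (x : ZMod 2) : x + x = 0 := CharTwo.add_self_eq_zero x

lemma Tower2.inv (T : Tower2 v0 v1 v2 a b e0) (f : E → E → ZMod 2)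
    (hf : ∀ x y, f (-x) (-y) = f x y) :
    ∑ i, (f (v1 i) (v2 i) + f (v0 i) (v2 i) + f (v0 i) (v1 i)) = 0 := by
  rw [T.h2 f]
  apply Finset.sum_eq_zero
  intro j _
  rw [hf, aa]

lemma Tower2.odd_odd (T : Tower2 v0 v1 v2 a b e0) (g1 g2 : E → ZMod 2)
    (h1 : ∀ x, g1 (-x) = g1 x + 1) (h2 : ∀ x, g2 (-x) = g2 x + 1) :
    ∑ i, (g1 (v0 i) + g1 (v1 i)) * (g2 (v1 i) + g2 (v2 i)) = 1 := by
  have h := T.h2 (fun x y => g1 x * (g2 x + g2 y))
  have e1 : ∀ i, g1 (v1 i) * (g2 (v1 i) + g2 (v2 i)) + g1 (v0 i) * (g2 (v0 i) + g2 (v2 i))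
      + g1 (v0 i) * (g2 (v0 i) + g2 (v1 i)) = (g1 (v0 i) + g1 (v1 i)) * (g2 (v1 i) + g2 (v2 i)) := by
    intro i
    linear_combination (g1 (v0 i) * g2 (v0 i)) * two0
  have e2 : ∀ j, g1 (a j) * (g2 (a j) + g2 (b j)) + g1 (-a j) * (g2 (-a j) + g2 (-b j))
      = g2 (a j) + g2 (b j) := by
    intro j
    rw [h1, h2, h2]
    linear_combination (g1 (a j) * g2 (a j) + g1 (a j) * g2 (b j) + g1 (a j) + 1) * two0
  simp only [e1, e2] at h
  rw [h, T.h1 g2, h2]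
  have := aa (g2 e0)
  linear_combination this

lemma Tower2.even_odd (T : Tower2 v0 v1 v2 a b e0) (f g : E → ZMod 2)
    (h1 : ∀ x, f (-x) = f x) (h2 : ∀ x, g (-x) = g x + 1) :
    ∑ i, (f (v0 i) + f (v1 i)) * (g (v1 i) + g (v2 i)) = 0 := by
  have h := T.inv (fun x y => f x * (g x + g y)) (by
    intro x y
    rw [h1, h2, h2]
    linear_combination (f x) * two0)
  have e1 : ∀ i, f (v1 i) * (g (v1 i) + g (v2 i)) + f (v0 i) * (g (v0 i) + g (v2 i))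
      + f (v0 i) * (g (v0 i) + g (v1 i)) = (f (v0 i) + f (v1 i)) * (g (v1 i) + g (v2 i)) := by
    intro i
    linear_combination (f (v0 i) * g (v0 i)) * two0
  simp only [e1] at h
  exact h

/-- A symmetric double sum over `ι × ι` with zero diagonal vanishes mod 2. -/
lemma sum_symm_zero (F : ι → ι → ZMod 2) (hs : ∀ i j, F i j = F j i) (hd : ∀ i, F i i = 0) :
    ∑ i, ∑ j, F i j = 0 := by
  classical
  rw [← Finset.sum_product' univ univ F]
  apply Finset.sum_involution (fun (p : ι × ι) _ => (p.2, p.1))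
  · intro p _
    rw [hs p.2 p.1, aa]
  · intro p _ hp hne
    apply hp
    have : p.2 = p.1 := by
      have := congrArg Prod.fst hne
      simpa using this
    have h2 : F p.1 p.2 = F p.1 p.1 := by rw [this]
    rw [h2, hd]
  · intro p _; simp
  · intro p _; simp

end tower

section eta
variable {E : Type*} [InvolutiveNeg E] {ι κ : Type*} [Fintype ι] [Fintype κ]
variable {v0 v1 v2 : ι → E} {a b : κ → E} {e0 : E}

/-- three shuffles of a triangle and an edge -/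
def EZ3 (f : E × E → E × E → E × E → E × E → ZMod 2) (x0 x1 x2 y0 y1 : E) : ZMod 2 :=
  f (x0, y0) (x0, y1) (x1, y1) (x2, y1) + f (x0, y0) (x1, y0) (x1, y1) (x2, y1)
    + f (x0, y0) (x1, y0) (x2, y0) (x2, y1)

def EZ2 (f : E × E → E × E → E × E → ZMod 2) (x0 x1 y0 y1 : E) : ZMod 2 :=
  f (x0, y0) (x0, y1) (x1, y1) + f (x0, y0) (x1, y0) (x1, y1)

def d3 (f : E × E → E × E → E × E → ZMod 2) (p q r t : E × E) : ZMod 2 :=
  f q r t + f p r t + f p q t + f p q r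

lemma EZ_d (f : E × E → E × E → E × E → ZMod 2) (x0 x1 x2 y0 y1 : E) :
    EZ3 (d3 f) x0 x1 x2 y0 y1 = EZ2 f x1 x2 y0 y1 + EZ2 f x0 x2 y0 y1 + EZ2 f x0 x1 y0 y1
      + (f (x0, y0) (x1, y0) (x2, y0) + f (x0, y1) (x1, y1) (x2, y1)) := by
  unfold EZ3 EZ2 d3
  linear_combination (f (x0, y0) (x1, y1) (x2, y1) + f (x0, y0) (x1, y0) (x2, y1)) * two0

structure Inv3 (f : E × E → E × E → E × E → ZMod 2) : Prop where
  swap : ∀ p q r, f p.swap q.swap r.swap = f p q r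
  neg1 : ∀ p q r : E × E, f (-p.1, p.2) (-q.1, q.2) (-r.1, r.2) = f p q r
  neg2 : ∀ p q r : E × E, f (p.1, -p.2) (q.1, -q.2) (r.1, -r.2) = f p q r

/-- (Z): coboundaries of invariant cochains vanish on `eta`. -/
theorem Z2 (T : Tower2 v0 v1 v2 a b e0) (s : E → E → ZMod 2) (ssym : ∀ x y, s x y = s y x)
    (sneg : ∀ x y, s (-x) y = s x y + 1) (sdiag : ∀ x, s x x = 0)
    (f : E × E → E × E → E × E → ZMod 2) (hf : Inv3 f) :
    ∑ i, ∑ j, (s (v2 i) (v1 j) + s (v2 i) (v2 j)) * EZ3 (d3 f) (v0 i) (v1 i) (v2 i) (v0 j) (v1 j) = 0 := by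
  have sneg' : ∀ x y, s x (-y) = s x y + 1 := by
    intro x y; rw [ssym, sneg, ssym]
  -- second part
  have hB : ∀ i, ∑ j, ((s (v2 i) (v1 j) + s (v2 i) (v2 j)) * (f (v0 i, v0 j) (v1 i, v0 j) (v2 i, v0 j)
      + f (v0 i, v1 j) (v1 i, v1 j) (v2 i, v1 j))) = 0 := by
    intro i
    have := T.even_odd (fun w => f (v0 i, w) (v1 i, w) (v2 i, w)) (fun w => s (v2 i) w)
      (by intro w; exact hf.neg2 (v0 i, w) (v1 i, w) (v2 i, w)) (by intro w; exact sneg' _ _)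
    rw [← this]
    apply Finset.sum_congr rfl
    intro j _
    ring
  -- first part
  have hA : ∀ j, ∑ i, ((s (v2 i) (v1 j) + s (v2 i) (v2 j)) * EZ2 f (v1 i) (v2 i) (v0 j) (v1 j)
      + (s (v2 i) (v1 j) + s (v2 i) (v2 j)) * EZ2 f (v0 i) (v2 i) (v0 j) (v1 j)
      + (s (v1 i) (v1 j) + s (v1 i) (v2 j)) * EZ2 f (v0 i) (v1 i) (v0 j) (v1 j)) = 0 := by
    intro j
    have := T.inv (fun x y => (s y (v1 j) + s y (v2 j)) * EZ2 f x y (v0 j) (v1 j)) (by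
      intro x y
      have e1 : EZ2 f (-x) (-y) (v0 j) (v1 j) = EZ2 f x y (v0 j) (v1 j) := by
        unfold EZ2
        have h1 := hf.neg1 (x, v0 j) (x, v1 j) (y, v1 j)
        have h2 := hf.neg1 (x, v0 j) (y, v0 j) (y, v1 j)
        exact congrArg₂ (· + ·) h1 h2
      simp only [e1, sneg]
      linear_combination (EZ2 f x y (v0 j) (v1 j)) * two0)
    exact this
  have hS : ∀ x0 x1 y0 y1 : E, EZ2 f x0 x1 y0 y1 = EZ2 f y0 y1 x0 x1 := by
    intro x0 x1 y0 y1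
    unfold EZ2
    have h1 := hf.swap (x0, y0) (x0, y1) (x1, y1)
    have h2 := hf.swap (x0, y0) (x1, y0) (x1, y1)
    change f (y0, x0) (y1, x0) (y1, x1) = _ at h1
    change f (y0, x0) (y0, x1) (y1, x1) = _ at h2
    rw [← h1, ← h2]; ring
  have hC : ∑ i, ∑ j, (s (v2 i) (v1 j) + s (v2 i) (v2 j) + s (v1 i) (v1 j) + s (v1 i) (v2 j))
      * EZ2 f (v0 i) (v1 i) (v0 j) (v1 j) = 0 := by
    apply sum_symm_zero (fun i j => (s (v2 i) (v1 j) + s (v2 i) (v2 j) + s (v1 i) (v1 j) + s (v1 i) (v2 j))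
      * EZ2 f (v0 i) (v1 i) (v0 j) (v1 j))
    · intro i j
      rw [hS (v0 i), ssym (v2 i) (v1 j), ssym (v2 i) (v2 j), ssym (v1 i) (v1 j), ssym (v1 i) (v2 j)]
      ring
    · intro i
      rw [sdiag, sdiag, ssym (v2 i) (v1 i)]
      linear_combination (s (v1 i) (v2 i) * EZ2 f (v0 i) (v1 i) (v0 i) (v1 i)) * two0
  have hB' : ∑ i, ∑ j, ((s (v2 i) (v1 j) + s (v2 i) (v2 j)) * (f (v0 i, v0 j) (v1 i, v0 j) (v2 i, v0 j)
      + f (v0 i, v1 j) (v1 i, v1 j) (v2 i, v1 j))) = 0 := Finset.sum_eq_zero (fun i _ => hB i)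
  have hA' : ∑ i, ∑ j, ((s (v2 i) (v1 j) + s (v2 i) (v2 j)) * EZ2 f (v1 i) (v2 i) (v0 j) (v1 j)
      + (s (v2 i) (v1 j) + s (v2 i) (v2 j)) * EZ2 f (v0 i) (v2 i) (v0 j) (v1 j)
      + (s (v1 i) (v1 j) + s (v1 i) (v2 j)) * EZ2 f (v0 i) (v1 i) (v0 j) (v1 j)) = 0 := by
    rw [Finset.sum_comm]
    exact Finset.sum_eq_zero (fun j _ => hA j)
  have key : (∑ i, ∑ j, ((s (v2 i) (v1 j) + s (v2 i) (v2 j)) * EZ3 (d3 f) (v0 i) (v1 i) (v2 i) (v0 j) (v1 j)))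
      = 0 := by
    have : ∀ i j, (s (v2 i) (v1 j) + s (v2 i) (v2 j)) * EZ3 (d3 f) (v0 i) (v1 i) (v2 i) (v0 j) (v1 j)
      = ((s (v2 i) (v1 j) + s (v2 i) (v2 j)) * EZ2 f (v1 i) (v2 i) (v0 j) (v1 j)
      + (s (v2 i) (v1 j) + s (v2 i) (v2 j)) * EZ2 f (v0 i) (v2 i) (v0 j) (v1 j)
      + (s (v1 i) (v1 j) + s (v1 i) (v2 j)) * EZ2 f (v0 i) (v1 i) (v0 j) (v1 j))
      + (s (v2 i) (v1 j) + s (v2 i) (v2 j) + s (v1 i) (v1 j) + s (v1 i) (v2 j))
      * EZ2 f (v0 i) (v1 i) (v0 j) (v1 j)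
      + ((s (v2 i) (v1 j) + s (v2 i) (v2 j)) * (f (v0 i, v0 j) (v1 i, v0 j) (v2 i, v0 j)
      + f (v0 i, v1 j) (v1 i, v1 j) (v2 i, v1 j))) := by
      intro i j
      rw [EZ_d]
      linear_combination (-((s (v1 i) (v1 j) + s (v1 i) (v2 j)) * EZ2 f (v0 i) (v1 i) (v0 j) (v1 j))) * two0
    simp only [this, Finset.sum_add_distrib] at hA' hB' hC ⊢
    linear_combination hA' + hC + hB'
  exact key

end eta

end Crest.H22Par
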