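import Mathlib
import Crest.Agent.H15BRSort
import Crest.Agent.H22Par

/-!
# rid 50 (S0069): module BRIDGE

Towers: push forward along odd maps, conversion to helper22's indexed `Tower2`, rotation of the
standard tower of `R^4` so that `L1, L2` lie in `x^⊥`, and transfer to the unit sphere of `R^3`.
-/

set_option autoImplicit false

namespace Crest.BRSort

/-- Push a tower forward along a map which is odd on the entries of `L1`, `L2` and at `e0`. -/
theorem Tower.map {E F : Type*} [Neg E] [Neg F] {e0 : E} {L1 : List (E × E)}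
    {L2 : List (E × E × E)} {L3 : List (E × E × E × E)} (T : Tower e0 L1 L2 L3) (φ : E → F)
    (h0 : φ (-e0) = -φ e0) (hL1 : ∀ p ∈ L1, φ (-p.1) = -φ p.1 ∧ φ (-p.2) = -φ p.2)
    (hL2 : ∀ t ∈ L2, φ (-t.1) = -φ t.1 ∧ φ (-t.2.1) = -φ t.2.1 ∧ φ (-t.2.2) = -φ t.2.2) :
    Tower (φ e0) (L1.map fun p => (φ p.1, φ p.2)) (L2.map fun t => (φ t.1, φ t.2.1, φ t.2.2))
      (L3.map fun q => (φ q.1, φ q.2.1, φ q.2.2.1, φ q.2.2.2)) where
  h1 f := by
    have h := T.h1 (fun x => f (φ x))
    rw [List.map_map]
    rw [h0] at h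
    exact h
  h2 f := by
    have h := T.h2 (fun x y => f (φ x) (φ y))
    rw [List.map_map, List.map_map]
    refine Eq.trans h ?_
    congr 1
    apply List.map_congr_left
    intro p hp
    simp only [Function.comp]
    rw [(hL1 p hp).1, (hL1 p hp).2]
  h3 f := by
    have h := T.h3 (fun x y z => f (φ x) (φ y) (φ z))
    rw [List.map_map, List.map_map]
    refine Eq.trans h ?_
    congr 1
    apply List.map_congr_left
    intro t ht
    simp only [Function.comp]
    rw [(hL2 t ht).1, (hL2 t ht).2.1, (hL2 t ht).2.2]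

/-- Conversion to the indexed form. -/
theorem Tower.toTower2 {E : Type*} [InvolutiveNeg E] {e0 : E} {L1 : List (E × E)}
    {L2 : List (E × E × E)} {L3 : List (E × E × E × E)} (T : Tower e0 L1 L2 L3) :
    Crest.H22Par.Tower2 (fun i : Fin L2.length => (L2[i.1]).1)
      (fun i : Fin L2.length => (L2[i.1]).2.1) (fun i : Fin L2.length => (L2[i.1]).2.2)
      (fun j : Fin L1.length => (L1[j.1]).1) (fun j : Fin L1.length => (L1[j.1]).2) e0 where
  h1 f := by
    rw [← T.h1 f, ← Fin.sum_univ_fun_getElem]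
  h2 f := by
    have h := T.h2 f
    rw [← Fin.sum_univ_fun_getElem, ← Fin.sum_univ_fun_getElem] at h
    exact h

/-! ### Geometry -/

abbrev V4 := EuclideanSpace ℝ (Fin 4)
abbrev V3 := EuclideanSpace ℝ (Fin 3)

/-- the last basis vector -/
noncomputable def e3 : V4 := EuclideanSpace.single 3 1

/-- Forget the last coordinate. -/
noncomputable def drop (v : V4) : V3 := !₂[v 0, v 1, v 2]

/-- Append a zero coordinate. -/
noncomputable def incl (v : V3) : V4 := !₂[v 0, v 1, v 2, 0]

theorem drop_neg (v : V4) : drop (-v) = -drop v := by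
  ext i
  fin_cases i <;> simp [drop]

theorem incl_neg (v : V3) : incl (-v) = -incl v := by
  ext i
  fin_cases i <;> simp [incl]

theorem drop_incl (v : V3) : drop (incl v) = v := by
  ext i
  fin_cases i <;> simp [drop, incl]

theorem incl_drop (v : V4) (h : v 3 = 0) : incl (drop v) = v := by
  ext i
  fin_cases i <;> simp [drop, incl, h]

theorem inner_incl (u v : V3) : inner ℝ (incl u) (incl v) = inner ℝ u v := by
  simp [PiLp.inner_apply, incl, Fin.sum_univ_four, Fin.sum_univ_three]

theorem norm_incl (v : V3) : ‖incl v‖ = ‖v‖ := by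
  have h := inner_incl v v
  rw [real_inner_self_eq_norm_sq, real_inner_self_eq_norm_sq] at h
  exact (pow_left_inj₀ (norm_nonneg _) (norm_nonneg _) two_ne_zero).1 h

theorem incl_three (v : V3) : (incl v) 3 = 0 := by
  simp [incl]

theorem incl_sub (u v : V3) : incl (u - v) = incl u - incl v := by
  ext i
  fin_cases i <;> simp [incl]

theorem dist_incl (u v : V3) : dist (incl u) (incl v) = dist u v := by
  rw [dist_eq_norm, dist_eq_norm, ← norm_incl, incl_sub]

theorem norm_drop (v : V4) (h : v 3 = 0) : ‖drop v‖ = ‖v‖ := by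
  rw [← norm_incl, incl_drop v h]

theorem inner_e3 (v : V4) : inner ℝ v e3 = v 3 := by
  simp [e3, EuclideanSpace.inner_single_right]

theorem norm_e3 : ‖e3‖ = 1 := by
  simp [e3]

/-- A linear isometry of `R^4` taking the last basis vector to `x`. -/
theorem exists_isometry (x : V4) (hx : ‖x‖ = 1) : ∃ φ : V4 ≃ₗᵢ[ℝ] V4, φ e3 = x := by
  refine ⟨Submodule.reflection (ℝ ∙ (e3 - x))ᗮ, ?_⟩
  exact Submodule.reflection_sub (by rw [norm_e3, hx])

/-- the unit sphere of `R^3` -/
abbrev S2 := Metric.sphere (0 : V3) 1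

/-- Points of the unit sphere of `R^4` with last coordinate `0`, as points of the sphere `S2`. -/
noncomputable def toS2 (v : V4) : S2 :=
  if h : ‖drop v‖ = 1 then ⟨drop v, by simpa using h⟩
  else ⟨EuclideanSpace.single 0 1, by simp⟩

theorem toS2_coe (v : V4) (h1 : ‖v‖ = 1) (h : v 3 = 0) : ((toS2 v : S2) : V3) = drop v := by
  unfold toS2
  rw [dif_pos (by rw [norm_drop v h, h1])]

theorem incl_toS2 (v : V4) (h1 : ‖v‖ = 1) (h : v 3 = 0) : incl ((toS2 v : S2) : V3) = v := by
  rw [toS2_coe v h1 h, incl_drop v h]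

theorem toS2_neg (v : V4) (h1 : ‖v‖ = 1) (h : v 3 = 0) : toS2 (-v) = -toS2 v := by
  apply Subtype.ext
  rw [coe_neg_sphere, toS2_coe v h1 h, toS2_coe (-v) (by rw [norm_neg, h1]) (by simp [h]),
    drop_neg]

end Crest.BRSort
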