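import Mathlib
import Crest.Agent.H15BRBridge
import Crest.Agent.BRSpec

/-!
# rid 50 (S0069): module TRANSFER

The abstract parity theorem `Par4` on the unit sphere of `R^3` with six colours implies the
module `Crest.BR.Par`.
-/

set_option autoImplicit false

namespace Crest.BRSort

open Crest.BR (Col FTower nR)

/-- The abstract form of (4). -/
def Par4 : Prop :=
  ∀ ε : ℝ, 0 < ε → ∃ δ₀ : ℝ, 0 < δ₀ ∧
    ∀ (n m : ℕ) (v0 v1 v2 : Fin n → S2) (a b : Fin m → S2) (e0 : S2),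
      Crest.H22Par.Tower2 v0 v1 v2 a b e0 →
      (∀ i, dist (v0 i) (v1 i) ≤ δ₀ ∧ dist (v0 i) (v2 i) ≤ δ₀ ∧ dist (v1 i) (v2 i) ≤ δ₀) →
      (∀ j, dist (a j) (b j) ≤ δ₀) →
      ∀ c : S2 → Fin 6, (∀ v, c (-v) = c v) →
        (∀ u v : S2, c u = c v → ε ≤ |inner ℝ (u : V3) (v : V3)|) →
        (∀ i, c (v0 i) ≤ c (v1 i) ∧ c (v1 i) ≤ c (v2 i)) → (∀ j, c (a j) ≤ c (b j)) →
        ∑ i, ((if c (v0 i) = 0 ∧ c (v1 i) = 2 ∧ c (v2 i) = 4 then (1 : ZMod 2) else 0) +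
          (if c (v0 i) = 1 ∧ c (v1 i) = 3 ∧ c (v2 i) = 5 then (1 : ZMod 2) else 0)) = 1

theorem fin6_024 : ∀ a b c : Fin 6, a ≤ b → b ≤ c →
    (({a, b, c} : Finset (Fin 6)) = {0, 2, 4} ↔ a = 0 ∧ b = 2 ∧ c = 4) := by decide

theorem fin6_135 : ∀ a b c : Fin 6, a ≤ b → b ≤ c →
    (({a, b, c} : Finset (Fin 6)) = {1, 3, 5} ↔ a = 1 ∧ b = 3 ∧ c = 5) := by decide

/-- the set of entries of a triple is unchanged by sorting -/
theorem s3_set {E α β : Type*} [LinearOrder α] [DecidableEq β] (c : E → α) (g : E → β)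
    (t : E × E × E) :
    ({g (s3 c t).1, g (s3 c t).2.1, g (s3 c t).2.2} : Finset β) = {g t.1, g t.2.1, g t.2.2} := by
  ext x
  have h := s3_all c (fun v => g v ≠ x) t
  simp only [Finset.mem_insert, Finset.mem_singleton]
  constructor
  · intro h1
    by_contra h2
    push Not at h2
    have := h.2 ⟨fun e => h2.1 e.symm, fun e => h2.2.1 e.symm, fun e => h2.2.2 e.symm⟩
    rcases h1 with h1 | h1 | h1
    · exact this.1 h1.symm
    · exact this.2.1 h1.symm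
    · exact this.2.2 h1.symm
  · intro h1
    by_contra h2
    push Not at h2
    have := h.1 ⟨fun e => h2.1 e.symm, fun e => h2.2.1 e.symm, fun e => h2.2.2 e.symm⟩
    rcases h1 with h1 | h1 | h1
    · exact this.1 h1.symm
    · exact this.2.1 h1.symm
    · exact this.2.2 h1.symm

/-- A relabelling of six of the ten colours. -/
theorem exists_relabel (S R R' : Finset (Fin 10)) (hS : S.card = 4) (hR : R.card = 3)
    (hR' : R'.card = 3) (h1 : Disjoint S R) (h2 : Disjoint S R') (h3 : Disjoint R R') :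
    ∃ σ : Fin 10 → Fin 6, (∀ x y, x ∉ S → y ∉ S → σ x = σ y → x = y) ∧
      (∀ A : Finset (Fin 10), (∀ x ∈ A, x ∉ S) → (A = R ↔ A.image σ = {0, 2, 4})) ∧
      (∀ A : Finset (Fin 10), (∀ x ∈ A, x ∉ S) → (A = R' ↔ A.image σ = {1, 3, 5})) := by
  obtain ⟨r0, r1, r2, hr01, hr02, hr12, rfl⟩ := Finset.card_eq_three.1 hR
  obtain ⟨t0, t1, t2, ht01, ht02, ht12, rfl⟩ := Finset.card_eq_three.1 hR'
  have hdis : ∀ x ∈ ({r0, r1, r2} : Finset (Fin 10)), x ∉ ({t0, t1, t2} : Finset (Fin 10)) :=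
    fun x hx => Finset.disjoint_left.1 h3 hx
  have hcov : ∀ x, x ∉ S → x = r0 ∨ x = r1 ∨ x = r2 ∨ x = t0 ∨ x = t1 ∨ x = t2 := by
    intro x hx
    have hcard : (S ∪ ({r0, r1, r2} ∪ {t0, t1, t2})).card = 10 := by
      rw [Finset.card_union_of_disjoint, Finset.card_union_of_disjoint h3, hS, hR, hR']
      exact Finset.disjoint_union_right.2 ⟨h1, h2⟩
    have huniv : S ∪ ({r0, r1, r2} ∪ {t0, t1, t2}) = Finset.univ :=
      Finset.eq_univ_of_card _ (by rw [hcard]; rfl)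
    have := Finset.mem_univ x
    rw [← huniv] at this
    simp only [Finset.mem_union, Finset.mem_insert, Finset.mem_singleton] at this
    tauto
  have hS' : ∀ x ∈ ({r0, r1, r2} : Finset (Fin 10)), x ∉ S :=
    fun x hx => Finset.disjoint_right.1 h1 hx
  have hS'' : ∀ x ∈ ({t0, t1, t2} : Finset (Fin 10)), x ∉ S :=
    fun x hx => Finset.disjoint_right.1 h2 hx
  have a0 := hdis r0 (by simp)
  have a1 := hdis r1 (by simp)
  have a2 := hdis r2 (by simp)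
  simp only [Finset.mem_insert, Finset.mem_singleton, not_or] at a0 a1 a2
  obtain ⟨a00, a01, a02⟩ := a0
  obtain ⟨a10, a11, a12⟩ := a1
  obtain ⟨a20, a21, a22⟩ := a2
  let σ : Fin 10 → Fin 6 := fun x => if x = r0 then 0 else if x = r1 then 2 else
    if x = r2 then 4 else if x = t0 then 1 else if x = t1 then 3 else 5
  have e0 : σ r0 = 0 := by simp [σ]
  have e1 : σ r1 = 2 := by simp [σ, hr01.symm]
  have e2 : σ r2 = 4 := by simp [σ, hr02.symm, hr12.symm]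
  have f0 : σ t0 = 1 := by simp [σ, Ne.symm a00, Ne.symm a10, Ne.symm a20]
  have f1 : σ t1 = 3 := by simp [σ, Ne.symm a01, Ne.symm a11, Ne.symm a21, ht01.symm]
  have f2 : σ t2 = 5 := by
    simp [σ, Ne.symm a02, Ne.symm a12, Ne.symm a22, ht02.symm, ht12.symm]
  have hinj : ∀ x y, x ∉ S → y ∉ S → σ x = σ y → x = y := by
    intro x y hx hy hxy
    rcases hcov x hx with rfl | rfl | rfl | rfl | rfl | rfl <;>
    rcases hcov y hy with rfl | rfl | rfl | rfl | rfl | rfl <;>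
    first
    | rfl
    | (exfalso; simp only [e0, e1, e2, f0, f1, f2] at hxy; revert hxy; decide)
  have himg : ∀ A B : Finset (Fin 10), (∀ x ∈ A, x ∉ S) → (∀ x ∈ B, x ∉ S) →
      A.image σ = B.image σ → A = B := by
    intro A B hA hB h
    ext x
    constructor
    · intro hx
      have : σ x ∈ B.image σ := h ▸ Finset.mem_image_of_mem σ hx
      obtain ⟨y, hy, hyx⟩ := Finset.mem_image.1 this
      rw [← hinj y x (hB y hy) (hA x hx) hyx]
      exact hy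
    · intro hx
      have : σ x ∈ A.image σ := h ▸ Finset.mem_image_of_mem σ hx
      obtain ⟨y, hy, hyx⟩ := Finset.mem_image.1 this
      rw [← hinj y x (hA y hy) (hB x hx) hyx]
      exact hy
  have iR : ({r0, r1, r2} : Finset (Fin 10)).image σ = {0, 2, 4} := by
    simp only [Finset.image_insert, Finset.image_singleton, e0, e1, e2]
  have iR' : ({t0, t1, t2} : Finset (Fin 10)).image σ = {1, 3, 5} := by
    simp only [Finset.image_insert, Finset.image_singleton, f0, f1, f2]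
  refine ⟨σ, hinj, fun A hA => ⟨fun h => by rw [h, iR], fun h => ?_⟩,
    fun A hA => ⟨fun h => by rw [h, iR'], fun h => ?_⟩⟩
  · exact himg A _ hA hS' (by rw [h, iR])
  · exact himg A _ hA hS'' (by rw [h, iR'])

/-- Coordinates with respect to an orthonormal frame. -/
theorem exists_coords (e : Fin 4 → V4) (he : Orthonormal ℝ e) :
    ∃ ρ : V4 ≃ₗᵢ[ℝ] V4, ∀ v i, (ρ v) i = inner ℝ (e i) v := by
  have hcard : Fintype.card (Fin 4) = Module.finrank ℝ V4 := by simp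
  let B : Module.Basis (Fin 4) ℝ V4 := basisOfOrthonormalOfCardEqFinrank he hcard
  have hB : ⇑B = e := coe_basisOfOrthonormalOfCardEqFinrank he hcard
  let b : OrthonormalBasis (Fin 4) ℝ V4 := B.toOrthonormalBasis (by rw [hB]; exact he)
  refine ⟨b.repr, fun v i => ?_⟩
  rw [b.repr_apply_apply]
  congr 1
  simp [b, hB]

theorem transfer (h4 : Par4) : Crest.BR.Par := by
  intro c ε hc
  obtain ⟨δ₀, hδ₀, H⟩ := h4 ε hc.pos
  refine ⟨δ₀, hδ₀, ?_⟩
  intro e δ L1 L2 L3 he hδ hT S hS hplane R R' hR hR' d1 d2 d3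
  obtain ⟨ρ, hρ⟩ := exists_coords e he
  obtain ⟨σ, hσ, hσR, hσR'⟩ := exists_relabel S R R' hS hR hR' d1 d2 d3
  -- the two coordinate maps
  let φ : V4 → S2 := fun v => toS2 (ρ v)
  let ψ : S2 → V4 := fun u => ρ.symm (incl (u : V3))
  have hψφ : ∀ v, ‖v‖ = 1 → inner ℝ (e 3) v = 0 → ψ (φ v) = v := by
    intro v h1 h2
    simp only [ψ, φ]
    rw [incl_toS2 (ρ v) (by rw [ρ.norm_map, h1]) (by rw [hρ, h2]), ρ.symm_apply_apply]
  have hψ1 : ∀ u, ‖ψ u‖ = 1 := by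
    intro u
    simp only [ψ]
    rw [ρ.symm.norm_map, norm_incl]
    simpa using u.2
  have hψ3 : ∀ u, inner ℝ (e 3) (ψ u) = 0 := by
    intro u
    rw [← hρ]
    simp only [ψ]
    rw [ρ.apply_symm_apply, incl_three]
  have hψneg : ∀ u, ψ (-u) = -ψ u := by
    intro u
    simp only [ψ]
    rw [coe_neg_sphere, incl_neg, map_neg]
  have hψinner : ∀ u v, inner ℝ (ψ u) (ψ v) = inner ℝ (u : V3) (v : V3) := by
    intro u v
    simp only [ψ]
    rw [ρ.symm.inner_map_map, inner_incl]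
  have hφneg : ∀ v, ‖v‖ = 1 → inner ℝ (e 3) v = 0 → φ (-v) = -φ v := by
    intro v h1 h2
    simp only [φ]
    rw [map_neg, toS2_neg (ρ v) (by rw [ρ.norm_map, h1]) (by rw [hρ, h2])]
  have hφdist : ∀ v w, ‖v‖ = 1 → inner ℝ (e 3) v = 0 → ‖w‖ = 1 → inner ℝ (e 3) w = 0 →
      dist (φ v) (φ w) = ‖v - w‖ := by
    intro v w hv1 hv2 hw1 hw2
    rw [Subtype.dist_eq, ← dist_incl, ← dist_eq_norm]
    simp only [φ]
    rw [incl_toS2 (ρ v) (by rw [ρ.norm_map, hv1]) (by rw [hρ, hv2]),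
      incl_toS2 (ρ w) (by rw [ρ.norm_map, hw1]) (by rw [hρ, hw2]), ρ.dist_map]
  -- the colouring of the sphere
  let c' : S2 → Fin 6 := fun u => σ (c (ψ u))
  have hcS : ∀ u, c (ψ u) ∉ S := fun u => hplane _ (hψ1 u) (hψ3 u)
  have hc'neg : ∀ u, c' (-u) = c' u := by
    intro u
    simp only [c']
    rw [hψneg, hc.even]
  have hc'sep : ∀ u v : S2, c' u = c' v → ε ≤ |inner ℝ (u : V3) (v : V3)| := by
    intro u v h
    rw [← hψinner]
    exact hc.sep _ _ (hψ1 u) (hψ1 v) (hσ _ _ (hcS u) (hcS v) h)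
  have hc'φ : ∀ v, ‖v‖ = 1 → inner ℝ (e 3) v = 0 → c' (φ v) = σ (c v) := by
    intro v h1 h2
    simp only [c']
    rw [hψφ v h1 h2]
  -- the tower on the sphere
  have he0 : inner ℝ (e 3) (e 0) = 0 := he.2 (by decide)
  have T1 : Tower (φ (e 0)) (L1.map fun p => (φ p.1, φ p.2))
      (L2.map fun t => (φ t.1, φ t.2.1, φ t.2.2))
      (L3.map fun q => (φ q.1, φ q.2.1, φ q.2.2.1, φ q.2.2.2)) := by
    apply Tower.map hT.tower φ
    · exact hφneg _ (he.1 0) he0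
    · intro p hp
      obtain ⟨⟨h1, -, h2⟩, h3, -, h4⟩ := hT.all1 p hp
      exact ⟨hφneg _ h1 h2, hφneg _ h3 h4⟩
    · intro t ht
      obtain ⟨h1, h2, h3⟩ := hT.all2 t ht
      exact ⟨hφneg _ h1.1 h1.2, hφneg _ h2.1 h2.2, hφneg _ h3.1 h3.2⟩
  have T2 := (T1.sort c' hc'neg).toTower2
  -- distances
  set M1 := (L1.map fun p => (φ p.1, φ p.2)).map (s2 c') with hM1
  set M2 := (L2.map fun t => (φ t.1, φ t.2.1, φ t.2.2)).map (s3 c') with hM2
  have hdist2 : ∀ t ∈ M2, dist t.1 t.2.1 ≤ δ₀ ∧ dist t.1 t.2.2 ≤ δ₀ ∧ dist t.2.1 t.2.2 ≤ δ₀ := by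
    intro t ht
    rw [hM2, List.map_map, List.mem_map] at ht
    obtain ⟨t, ht, rfl⟩ := ht
    obtain ⟨h1, h2, h3⟩ := hT.all2 t ht
    obtain ⟨n1, n2, n3⟩ := hT.near2 t ht
    apply s3_rel c' (fun x y => dist x y ≤ δ₀) (fun x y h => by rwa [dist_comm])
    simp only
    rw [hφdist _ _ h1.1 h1.2 h2.1 h2.2, hφdist _ _ h1.1 h1.2 h3.1 h3.2,
      hφdist _ _ h2.1 h2.2 h3.1 h3.2]
    exact ⟨n1.trans hδ, n2.trans hδ, n3.trans hδ⟩
  have hdist1 : ∀ p ∈ M1, dist p.1 p.2 ≤ δ₀ := by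
    intro p hp
    rw [hM1, List.map_map, List.mem_map] at hp
    obtain ⟨p, hp, rfl⟩ := hp
    obtain ⟨⟨h1, -, h2⟩, h3, -, h4⟩ := hT.all1 p hp
    have n1 := hT.near1 p hp
    apply s2_rel c' (fun x y => dist x y ≤ δ₀) (fun x y h => by rwa [dist_comm])
    simp only
    rw [hφdist _ _ h1 h2 h3 h4]
    exact n1.trans hδ
  have hsort2 : ∀ t ∈ M2, c' t.1 ≤ c' t.2.1 ∧ c' t.2.1 ≤ c' t.2.2 := by
    intro t ht
    rw [hM2, List.mem_map] at ht
    obtain ⟨t, -, rfl⟩ := ht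
    exact s3_sorted c' t
  have hsort1 : ∀ p ∈ M1, c' p.1 ≤ c' p.2 := by
    intro p hp
    rw [hM1, List.mem_map] at hp
    obtain ⟨p, -, rfl⟩ := hp
    exact s2_sorted c' p
  have key := H M2.length M1.length _ _ _ _ _ _ T2
    (fun i => hdist2 _ (List.getElem_mem i.2)) (fun j => hdist1 _ (List.getElem_mem j.2))
    c' hc'neg hc'sep (fun i => hsort2 _ (List.getElem_mem i.2))
    (fun j => hsort1 _ (List.getElem_mem j.2))
  rw [Fin.sum_univ_fun_getElem M2 (fun t : S2 × S2 × S2 =>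
    ((if c' t.1 = 0 ∧ c' t.2.1 = 2 ∧ c' t.2.2 = 4 then (1 : ZMod 2) else 0) +
      (if c' t.1 = 1 ∧ c' t.2.1 = 3 ∧ c' t.2.2 = 5 then (1 : ZMod 2) else 0)))] at key
  rw [hM2, List.map_map, List.map_map] at key
  unfold nR
  rw [← List.sum_map_add]
  refine Eq.trans ?_ key
  congr 1
  apply List.map_congr_left
  intro t ht
  obtain ⟨h1, h2, h3⟩ := hT.all2 t ht
  have hA : ∀ x ∈ ({c t.1, c t.2.1, c t.2.2} : Finset (Fin 10)), x ∉ S := by
    intro x hx
    simp only [Finset.mem_insert, Finset.mem_singleton] at hx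
    rcases hx with rfl | rfl | rfl
    · exact hplane _ h1.1 h1.2
    · exact hplane _ h2.1 h2.2
    · exact hplane _ h3.1 h3.2
  have hs := s3_set c' c' (φ t.1, φ t.2.1, φ t.2.2)
  simp only at hs
  rw [hc'φ _ h1.1 h1.2, hc'φ _ h2.1 h2.2, hc'φ _ h3.1 h3.2] at hs
  have hso := s3_sorted c' (φ t.1, φ t.2.1, φ t.2.2)
  have h024 := fin6_024 _ _ _ hso.1 hso.2
  have h135 := fin6_135 _ _ _ hso.1 hso.2
  have hiff : ({c t.1, c t.2.1, c t.2.2} : Finset (Fin 10)) = R ↔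
      (c' (s3 c' (φ t.1, φ t.2.1, φ t.2.2)).1 = 0 ∧
        c' (s3 c' (φ t.1, φ t.2.1, φ t.2.2)).2.1 = 2 ∧
        c' (s3 c' (φ t.1, φ t.2.1, φ t.2.2)).2.2 = 4) := by
    rw [hσR _ hA, ← h024, hs]
    simp only [Finset.image_insert, Finset.image_singleton]
  have hiff' : ({c t.1, c t.2.1, c t.2.2} : Finset (Fin 10)) = R' ↔
      (c' (s3 c' (φ t.1, φ t.2.1, φ t.2.2)).1 = 1 ∧
        c' (s3 c' (φ t.1, φ t.2.1, φ t.2.2)).2.1 = 3 ∧
        c' (s3 c' (φ t.1, φ t.2.1, φ t.2.2)).2.2 = 5) := by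
    rw [hσR' _ hA, ← h135, hs]
    simp only [Finset.image_insert, Finset.image_singleton]
  simp only [Function.comp, hiff, hiff']

end Crest.BRSort
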