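import Crest.Agent.LPCore2
import Crest.Agent.H23LPPert
/-! rid 254 (S0392): PERT and FARP as stated in LPCore2. -/
set_option autoImplicit false
open Set Filter Topology

namespace Crest.LP

theorem pert : PERT := by
  intro G _ _ k x hx hpk
  have h1 : ∀ᶠ x' in 𝓝 x, Pk 10 3 (range x') :=
    pk_open (fun x' : Fin k → G => x') x hx hpk tendsto_id
  have h2 : ∀ᶠ x' in 𝓝 x, Function.Injective x' := by
    have h3 : ∀ᶠ x' in 𝓝 x, ∀ i j : Fin k, i ≠ j → x' i ≠ x' j := by
      rw [eventually_all]
      intro i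
      rw [eventually_all]
      intro j
      by_cases hij : i = j
      · exact Eventually.of_forall fun _ h => absurd hij h
      · have h4 : Tendsto (fun x' : Fin k → G => x' i) (𝓝 x) (𝓝 (x i)) :=
          (continuous_apply i).tendsto x
        have h5 : Tendsto (fun x' : Fin k → G => x' j) (𝓝 x) (𝓝 (x j)) :=
          (continuous_apply j).tendsto x
        have h6 := (h4.dist h5).eventually (lt_mem_nhds (dist_pos.2 fun h => hij (hx h)))
        exact h6.mono fun _ h _ => dist_pos.1 h
    refine h3.mono fun x' h i j hij => ?_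
    by_contra hne
    exact h i j hne hij
  obtain ⟨ε, hε, h3⟩ := Metric.eventually_nhds_iff.1 (h2.and h1)
  refine ⟨ε / 2, half_pos hε, fun x' hx' => h3 ?_⟩
  exact lt_of_le_of_lt ((dist_pi_le_iff (half_pos hε).le).2 hx') (half_lt_self hε)

theorem farp : FARP := by
  classical
  intro G _ _ k x hx hpk
  obtain ⟨δ, hδ, h⟩ := pert G k x hx hpk
  refine ⟨δ, hδ, ?_⟩
  rcases Nat.eq_zero_or_pos k with hk | hk
  · subst hk
    refine ⟨0, fun x' _ p q _ _ => ?_⟩
    intro A r hA hr _ _
    have h1 : A ⊆ {p, q} := by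
      intro a ha
      rcases hA (Finset.mem_coe.2 ha) with h | h | ⟨i, _⟩
      · simp [h]
      · simp [h]
      · exact i.elim0
    exact (Finset.card_le_card h1).trans (Finset.card_le_two.trans (by norm_num))
  · set B : ℝ := ∑ i, dist (x i) (x ⟨0, hk⟩) with hB
    have hB0 : ∀ i, dist (x i) (x ⟨0, hk⟩) ≤ B := fun i =>
      Finset.single_le_sum (f := fun i => dist (x i) (x ⟨0, hk⟩)) (fun _ _ => dist_nonneg)
        (Finset.mem_univ i)
    refine ⟨21 * (δ + B) + 1, fun x' hx' p q hp hq => ?_⟩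
    refine pk_far (range x') (x ⟨0, hk⟩) p q (δ + B) (21 * (δ + B) + 1) ?_ (by linarith)
      (hp _) (hq _) (h x' hx').2
    rintro _ ⟨i, rfl⟩
    exact (dist_triangle _ (x i) _).trans (add_le_add (hx' i) (hB0 i))

end Crest.LP
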