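import Crest.Agent.LPCore

set_option autoImplicit false

namespace Crest.LP

theorem finb_of (hNAM : NAM) (hH : HSTEP) (hR : RSTEP) (hB : BLOW) (hI : ISTEP) : FINB := by
  intro n D hD hstar
  haveI hfd : FiniteDimensional ℝ (PT (EuclideanSpace ℝ (Fin (n + 1)))) := inferInstance
  have hK : 1 ≤ K2c := by
    unfold K2c Psi
    norm_num
  have h1 := hNAM (PT (EuclideanSpace ℝ (Fin (n + 1)))) (EuclideanSpace ℝ (Fin n)) (K2c + 1) D hD
    (by omega) hstar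
  obtain ⟨A, hA⟩ := hH (PT (EuclideanSpace ℝ (Fin (n + 1)))) (EuclideanSpace ℝ (Fin n)) K2c D hD hK h1
  obtain ⟨S, hS⟩ := hR (EuclideanSpace ℝ (Fin (n + 1))) (EuclideanSpace ℝ (Fin n)) D A hD hA
  obtain ⟨S', hS'⟩ := hB (EuclideanSpace ℝ (Fin (n + 1))) (EuclideanSpace ℝ (Fin n)) D hD ⟨S, hS⟩
  exact hI n (EuclideanSpace ℝ (Fin (n + 1))) (EuclideanSpace ℝ (Fin n)) D S' hD (by simp) (by simp) hS'

end Crest.LP
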