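import Crest.Agent.H11LPFinal
import Crest.Agent.H16LPPack
import Crest.Agent.H23LPBlow
import Crest.Agent.H23LPPert2
import Crest.Agent.H7LPHon
import Crest.Agent.LPFinb
import Crest.Agent.LP_APPEND
import Crest.Agent.LP_CAT
import Crest.Agent.LP_CELLS
import Crest.Agent.LP_CONE
import Crest.Agent.LP_FIN
import Crest.Agent.LP_NEST
import Crest.Agent.LP_NESTSIM
import Crest.Agent.LP_NAM
import Crest.Agent.LP_NAPRE
import Crest.Agent.LP_LAY
import Crest.Agent.LP_PLACE
import Crest.Agent.LP_SANDW
import Crest.Agent.H2HStep
import Crest.Agent.H27LPBlocks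

/-! rid 254 (S0392): glue of the landed modules; only `RSTEP` and `ISTEP` remain as hypotheses. -/

set_option autoImplicit false

namespace Crest.LP

theorem h15_nest : NEST := nest_of cone Pack16.pack
theorem h15_cells : CELLS := cells_of h15_nest
theorem h15_vst : VST := vst_of h15_cells lay
theorem h15_start : START := start_of place h15_cells lay h15_vst
theorem h15_layscr : LAYSCR := layscr_of h15_cells lay
theorem h15_napre : NAPRE := napre_of h15_cells h15_layscr append blocks h15_vst
theorem h15_hstep : HSTEP := hstep_of cat sandw
theorem h15_nam : NAM := nam_of hon h15_nest nestsim place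

/-- everything except the R-step and the I-step -/
theorem h15_fin (hR : RSTEP) (hI : ISTEP) : Crest.Agent.LP.FIN :=
  fin_of (finb_of h15_nam h15_hstep hR blow hI)

end Crest.LP
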