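import Crest.Agent.H15LPGlue
import Crest.Agent.LP_RSTEP

/-! rid 254 (S0392): glue of the landed modules; only `ISTEP` remains as a hypothesis. -/

set_option autoImplicit false

namespace Crest.LP

theorem h15_rstep : RSTEP := rstep_of h15_start h15_layscr append blocks h15_napre

/-- everything except the I-step -/
theorem h15_fin' (hI : ISTEP) : Crest.Agent.LP.FIN := h15_fin h15_rstep hI

end Crest.LP
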