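import Mathlib
import Crest.Agent.H18PrSpec
set_option autoImplicit false

/-! Module M5d of S0334: two bounds for `u - arctan u`. -/

namespace Crest.Agent.H15PrArc
open Crest.Agent.H18Pr

/-- `x - x^3/3 ≤ arctan x` for `x ≥ 0`. -/
lemma arctan_lb {x : ℝ} (hx : 0 ≤ x) : x - x ^ 3 / 3 ≤ Real.arctan x := by
  have h1 : ∀ t : ℝ, HasDerivAt (fun t : ℝ => Real.arctan t - (t - t ^ 3 / 3))
      (1 / (1 + t ^ 2) - (1 - (3 * t ^ 2) / 3)) t := by
    intro t
    have h2 := (Real.hasDerivAt_arctan t).sub ((hasDerivAt_id t).sub ((hasDerivAt_pow 3 t).div_const 3))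
    exact h2
  have hmono : MonotoneOn (fun t : ℝ => Real.arctan t - (t - t ^ 3 / 3)) (Set.Ici 0) := by
    apply monotoneOn_of_deriv_nonneg (convex_Ici 0)
    · exact fun t _ => (h1 t).continuousAt.continuousWithinAt
    · exact fun t _ => (h1 t).differentiableAt.differentiableWithinAt
    · intro t _
      rw [(h1 t).deriv]
      have h3 : (0 : ℝ) < 1 + t ^ 2 := by positivity
      have h4 : 1 / (1 + t ^ 2) - (1 - (3 * t ^ 2) / 3) = t ^ 4 / (1 + t ^ 2) := by
        field_simp
        ring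
      rw [h4]
      positivity
  have := hmono (Set.mem_Ici.2 le_rfl) (Set.mem_Ici.2 hx) hx
  simp at this
  linarith

/-- `arctan x ≤ x` for `x ≥ 0`. -/
lemma arctan_ub {x : ℝ} (hx : 0 ≤ x) : Real.arctan x ≤ x := by
  have h1 : ∀ t : ℝ, HasDerivAt (fun t : ℝ => t - Real.arctan t) (1 - 1 / (1 + t ^ 2)) t := by
    intro t
    exact (hasDerivAt_id t).sub (Real.hasDerivAt_arctan t)
  have hmono : MonotoneOn (fun t : ℝ => t - Real.arctan t) (Set.Ici 0) := by
    apply monotoneOn_of_deriv_nonneg (convex_Ici 0)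
    · exact fun t _ => (h1 t).continuousAt.continuousWithinAt
    · exact fun t _ => (h1 t).differentiableAt.differentiableWithinAt
    · intro t _
      rw [(h1 t).deriv]
      have h3 : (0 : ℝ) < 1 + t ^ 2 := by positivity
      have h4 : 1 - 1 / (1 + t ^ 2) = t ^ 2 / (1 + t ^ 2) := by
        field_simp
        ring
      rw [h4]
      positivity
  have := hmono (Set.mem_Ici.2 le_rfl) (Set.mem_Ici.2 hx) hx
  simp at this
  linarith

lemma arctan_lb_neg {x : ℝ} (hx : x ≤ 0) : x ≤ Real.arctan x := by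
  have := arctan_ub (x := -x) (by linarith)
  rw [Real.arctan_neg] at this
  linarith

/-- better bound used only numerically: `x - x^3/3 + x^5/5 - x^7/7 ≤ arctan x`. -/
lemma arctan_lb7 {x : ℝ} (hx : 0 ≤ x) : x - x ^ 3 / 3 + x ^ 5 / 5 - x ^ 7 / 7 ≤ Real.arctan x := by
  have h1 : ∀ t : ℝ, HasDerivAt (fun t : ℝ => Real.arctan t - (t - t ^ 3 / 3 + t ^ 5 / 5 - t ^ 7 / 7))
      (1 / (1 + t ^ 2) - (1 - (3 * t ^ 2) / 3 + (5 * t ^ 4) / 5 - (7 * t ^ 6) / 7)) t := by
    intro t
    have h2 := (Real.hasDerivAt_arctan t).sub ((((hasDerivAt_id t).sub ((hasDerivAt_pow 3 t).div_const 3)).add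
      ((hasDerivAt_pow 5 t).div_const 5)).sub ((hasDerivAt_pow 7 t).div_const 7))
    exact h2
  have hmono : MonotoneOn (fun t : ℝ => Real.arctan t - (t - t ^ 3 / 3 + t ^ 5 / 5 - t ^ 7 / 7)) (Set.Ici 0) := by
    apply monotoneOn_of_deriv_nonneg (convex_Ici 0)
    · exact fun t _ => (h1 t).continuousAt.continuousWithinAt
    · exact fun t _ => (h1 t).differentiableAt.differentiableWithinAt
    · intro t _
      rw [(h1 t).deriv]
      have h3 : (0 : ℝ) < 1 + t ^ 2 := by positivity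
      have h4 : 1 / (1 + t ^ 2) - (1 - (3 * t ^ 2) / 3 + (5 * t ^ 4) / 5 - (7 * t ^ 6) / 7)
          = t ^ 8 / (1 + t ^ 2) := by
        field_simp
        ring
      rw [h4]
      positivity
  have := hmono (Set.mem_Ici.2 le_rfl) (Set.mem_Ici.2 hx) hx
  simp at this
  linarith

/-- shift: `arctan u = arctan r + arctan ((u-r)/(1+u r))` for `u, r ≥ 0`. -/
lemma arctan_shift {u r : ℝ} (hu : 0 ≤ u) (hr : 0 ≤ r) :
    Real.arctan u = Real.arctan r + Real.arctan ((u - r) / (1 + u * r)) := by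
  have h := Real.arctan_add (x := u) (y := -r) (by nlinarith [mul_nonneg hu hr])
  rw [Real.arctan_neg] at h
  have e : (u + -r) / (1 - u * -r) = (u - r) / (1 + u * r) := by ring_nf
  rw [e] at h
  linarith

lemma pi_lb : (0.785398 : ℝ) ≤ Real.arctan 1 := by
  rw [Real.arctan_one]
  have := Real.pi_gt_d6
  linarith

lemma a32 : (0.98279 : ℝ) ≤ Real.arctan (3 / 2) := by
  rw [arctan_shift (u := 3 / 2) (r := 1) (by norm_num) (by norm_num)]
  have h1 := pi_lb
  have h2 := arctan_lb7 (x := ((3 / 2 : ℝ) - 1) / (1 + 3 / 2 * 1)) (by norm_num)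
  norm_num at h1 h2 ⊢
  linarith

theorem part1 (u : ℝ) (hu : 0 ≤ u) (hu2 : u ^ 2 ≤ 1.08) : u - Real.arctan u ≤ 0.2173 * u ^ 2 := by
  have hu3 : u ≤ 1.0393 := by
    by_contra hc
    push Not at hc
    norm_num at hu2 hc
    nlinarith
  rcases le_total u 0.65 with h | h
  · have := arctan_lb hu
    norm_num at h
    nlinarith [mul_nonneg (sq_nonneg u) (by linarith : (0:ℝ) ≤ 13/20 - u)]
  · rcases le_total u 1 with h1 | h1
    · have hs := arctan_shift (u := u) (r := 1) hu (by norm_num)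
      have hx : (u - 1) / (1 + u * 1) ≤ 0 := by
        apply div_nonpos_of_nonpos_of_nonneg <;> linarith
      have h2 := arctan_lb_neg hx
      have h3 := pi_lb
      have h4 : 0 ≤ 0.2173 * u ^ 2 - u + 0.785398 + (u - 1) / (1 + u * 1) := by
        have hpos : (0 : ℝ) < 1 + u * 1 := by linarith
        have e : 0.2173 * u ^ 2 - u + 0.785398 + (u - 1) / (1 + u * 1)
            = ((0.2173 * u ^ 2 - u + 0.785398) * (1 + u * 1) + (u - 1)) / (1 + u * 1) := by
          field_simp
        rw [e]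
        apply div_nonneg _ hpos.le
        norm_num at h ⊢
        nlinarith [mul_nonneg (by linarith : (0:ℝ) ≤ u - 13/20) (by linarith : (0:ℝ) ≤ 1 - u),
          mul_nonneg (mul_nonneg (by linarith : (0:ℝ) ≤ u - 13/20) (by linarith : (0:ℝ) ≤ 1 - u)) hu, sq_nonneg (u-1)]
      linarith
    · have hs := arctan_shift (u := u) (r := 1) hu (by norm_num)
      have hx : 0 ≤ (u - 1) / (1 + u * 1) := by
        apply div_nonneg <;> linarith
      have hx2 : (u - 1) / (1 + u * 1) ≤ 0.02 := by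
        rw [div_le_iff₀ (by linarith)]
        norm_num at hu3 ⊢
        linarith
      have h2 := arctan_lb hx
      have h3 := pi_lb
      have h5 : ((u - 1) / (1 + u * 1)) ^ 3 / 3 ≤ 0.000003 := by
        have := pow_le_pow_left₀ hx hx2 3
        norm_num at this ⊢
        linarith
      have h4 : 0 ≤ 0.2173 * u ^ 2 - u + 0.785398 - 0.000003 + (u - 1) / (1 + u * 1) := by
        have hpos : (0 : ℝ) < 1 + u * 1 := by linarith
        have e : 0.2173 * u ^ 2 - u + 0.785398 - 0.000003 + (u - 1) / (1 + u * 1)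
            = ((0.2173 * u ^ 2 - u + 0.785398 - 0.000003) * (1 + u * 1) + (u - 1)) / (1 + u * 1) := by
          field_simp
        rw [e]
        apply div_nonneg _ hpos.le
        norm_num at hu3 ⊢
        nlinarith [mul_nonneg (by linarith : (0:ℝ) ≤ u - 1) (by linarith : (0:ℝ) ≤ 10393/10000 - u),
          mul_nonneg (mul_nonneg (by linarith : (0:ℝ) ≤ u - 1) (by linarith : (0:ℝ) ≤ 10393/10000 - u)) hu]
      linarith

theorem part2 (u : ℝ) (hu : 0 ≤ u) : u - Real.arctan u ≤ 0.2299 * u ^ 2 := by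
  rcases le_total u 0.68 with h | h
  · have := arctan_lb hu
    norm_num at h ⊢
    nlinarith [mul_nonneg (sq_nonneg u) (by linarith : (0:ℝ) ≤ 17/25 - u)]
  · have hs := arctan_shift (u := u) (r := 3 / 2) hu (by norm_num)
    have h3 := a32
    have hpos : (0 : ℝ) < 1 + u * (3 / 2) := by linarith
    rcases le_total u (3 / 2) with h1 | h1
    · have hx : (u - 3 / 2) / (1 + u * (3 / 2)) ≤ 0 := by
        apply div_nonpos_of_nonpos_of_nonneg <;> linarith
      have h2 := arctan_lb_neg hx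
      have h4 : 0 ≤ 0.2299 * u ^ 2 - u + 0.98279 + (u - 3 / 2) / (1 + u * (3 / 2)) := by
        have e : 0.2299 * u ^ 2 - u + 0.98279 + (u - 3 / 2) / (1 + u * (3 / 2))
            = ((0.2299 * u ^ 2 - u + 0.98279) * (1 + u * (3 / 2)) + (u - 3 / 2)) / (1 + u * (3 / 2)) := by
          field_simp
        rw [e]
        apply div_nonneg _ hpos.le
        norm_num at h ⊢
        nlinarith [mul_nonneg (by linarith : (0:ℝ) ≤ u - 17/25) (sq_nonneg (u - 3/2)), 
          mul_nonneg (by linarith : (0:ℝ) ≤ u - 17/25) (by linarith : (0:ℝ) ≤ 3/2 - u), sq_nonneg (u - 3/2)]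
      linarith
    · have hx : 0 ≤ (u - 3 / 2) / (1 + u * (3 / 2)) := by
        apply div_nonneg <;> linarith
      have h2 := arctan_lb hx
      have h4 : 0 ≤ 0.2299 * u ^ 2 - u + 0.98279 + ((u - 3 / 2) / (1 + u * (3 / 2)) 
          - ((u - 3 / 2) / (1 + u * (3 / 2))) ^ 3 / 3) := by
        have e : 0.2299 * u ^ 2 - u + 0.98279 + ((u - 3 / 2) / (1 + u * (3 / 2)) 
          - ((u - 3 / 2) / (1 + u * (3 / 2))) ^ 3 / 3)
            = ((0.2299 * u ^ 2 - u + 0.98279) * (1 + u * (3 / 2)) ^ 3 + (u - 3 / 2) * (1 + u * (3 / 2)) ^ 2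
              - (u - 3 / 2) ^ 3 / 3) / (1 + u * (3 / 2)) ^ 3 := by
          field_simp
          ring
        rw [e]
        apply div_nonneg _ (by positivity)
        obtain ⟨w, hw⟩ : ∃ w : ℝ, u = 3 / 2 + w := ⟨u - 3 / 2, by ring⟩
        have hw0 : 0 ≤ w := by linarith
        subst hw
        norm_num
        ring_nf
        nlinarith [mul_nonneg hw0 (sq_nonneg (w - 1/100)), mul_nonneg hw0 hw0, pow_nonneg hw0 3, pow_nonneg hw0 4, pow_nonneg hw0 5,
          sq_nonneg (w - 1/50), sq_nonneg (w - 1/100), sq_nonneg (w-1/68)]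
      linarith

theorem main : Spec.Arc := ⟨part1, part2⟩

end Crest.Agent.H15PrArc
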