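import Mathlib
import Crest.Agent.H18PrSpec
set_option autoImplicit false

/-! Module M5b of S0334: polynomial inequality `HLem` (linear-programming certificates). -/

namespace Crest.Agent.H15PrHLem
open Crest.Agent.H18Pr

theorem main : Spec.HLem := by
  intro x y z s1 s2 s3 D x0 y0 z0 a0 b0 c0 h1 h2 h3 hD
  have g1 : 0 ≤ (x + y + s1) - (y + z + s3) := by linarith
  have g2 : 0 ≤ (x + z + s2) - (y + z + s3) := by linarith
  have g3 : 0 ≤ (y + z + s3) - 2 * (s1 + s2 + s3) := by linarith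
  subst hD
  refine ⟨?_, ?_, ?_, ?_⟩
  · linarith [mul_nonneg x0 a0, mul_nonneg x0 b0, mul_nonneg y0 z0, mul_nonneg y0 g2, mul_nonneg z0 g1, mul_nonneg z0 g3, mul_nonneg a0 a0, mul_nonneg a0 c0, mul_nonneg a0 g1, mul_nonneg a0 g2, mul_nonneg b0 b0, mul_nonneg b0 c0, mul_nonneg b0 g1, mul_nonneg c0 g3, mul_nonneg g1 g3, mul_nonneg g2 g3]
  · linarith [mul_nonneg x0 z0, mul_nonneg x0 c0, mul_nonneg x0 g3, mul_nonneg y0 z0, mul_nonneg y0 a0, mul_nonneg y0 c0, mul_nonneg y0 g2, mul_nonneg y0 g3, mul_nonneg z0 a0, mul_nonneg z0 c0, mul_nonneg z0 g1, mul_nonneg a0 b0, mul_nonneg a0 g2, mul_nonneg b0 c0, mul_nonneg b0 g2, mul_nonneg b0 g3, mul_nonneg c0 g1]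
  · linarith [mul_nonneg x0 y0, mul_nonneg x0 b0, mul_nonneg x0 c0, mul_nonneg y0 z0, mul_nonneg y0 b0, mul_nonneg y0 g1, mul_nonneg y0 g2, mul_nonneg z0 b0, mul_nonneg z0 c0, mul_nonneg z0 g1, mul_nonneg z0 g3, mul_nonneg a0 b0, mul_nonneg a0 c0, mul_nonneg a0 g1, mul_nonneg a0 g3, mul_nonneg b0 g1, mul_nonneg c0 g1]
  · linarith [mul_nonneg x0 a0, mul_nonneg x0 b0, mul_nonneg x0 g3, mul_nonneg y0 g1, mul_nonneg y0 g2, mul_nonneg y0 g3, mul_nonneg z0 c0, mul_nonneg z0 g1, mul_nonneg z0 g2, mul_nonneg a0 b0, mul_nonneg a0 c0, mul_nonneg a0 g1, mul_nonneg a0 g2, mul_nonneg a0 g3, mul_nonneg b0 c0, mul_nonneg b0 g1, mul_nonneg b0 g2, mul_nonneg b0 g3, mul_nonneg c0 g1, mul_nonneg c0 g2]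

end Crest.Agent.H15PrHLem
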