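import Mathlib
import Crest.Agent.H18PrSpec
set_option autoImplicit false

/-! Module M5c of S0334: the scalar triangle inequality `N6`. -/

namespace Crest.Agent.H15PrN6
open Crest.Agent.H18Pr

/-- univariate inequality used to localise `b` (Bernstein certificates). -/
lemma cube_bound {b : ℝ} (h0 : 3 / 100 ≤ b) (h1 : b ≤ 22 / 100) :
    (16 * b - 4 * b ^ 2 - 48 / 100) ^ 3 ≤ 4025 * ((2 - b) ^ 2 * b ^ 4) := by
  rcases le_total b (1 / 10) with h | h
  · have p : 0 ≤ b - 3 / 100 := by linarith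
    have q : 0 ≤ 1 / 10 - b := by linarith
    have key : ∀ i j : ℕ, 0 ≤ (b - 3 / 100) ^ i * (1 / 10 - b) ^ j :=
      fun i j => mul_nonneg (pow_nonneg p i) (pow_nonneg q j)
    linarith [key 0 6, key 1 5, key 2 4, key 3 3, key 4 2, key 5 1, key 6 0]
  · have p : 0 ≤ b - 1 / 10 := by linarith
    have q : 0 ≤ 22 / 100 - b := by linarith
    have key : ∀ i j : ℕ, 0 ≤ (b - 1 / 10) ^ i * (22 / 100 - b) ^ j :=
      fun i j => mul_nonneg (pow_nonneg p i) (pow_nonneg q j)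
    linarith [key 0 6, key 1 5, key 2 4, key 3 3, key 4 2, key 5 1, key 6 0]

/-- all three `a - m_i` are positive. -/
lemma pos_of {x1 x2 x3 : ℝ} (h12 : 0 < x1 + x2) (h13 : 0 < x1 + x3) (_h23 : 0 < x2 + x3)
    (hp : 0 < x1 * x2 * x3) : 0 < x1 := by
  by_contra hc
  push Not at hc
  have h2 : 0 < x2 := by linarith
  have h3 : 0 < x3 := by linarith
  have := mul_nonneg (neg_nonneg.2 hc) (mul_pos h2 h3).le
  nlinarith

/-- the core inequality `0.04728 t² ≤ b² √D`. -/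
lemma core {a b t W M D : ℝ} (ha : 0 < a) (hb : b = 2 - a) (hb0 : 0 < b) (ht0 : 0 < t) (ht1 : 21 * t ≤ 64)
    (hW0 : 0 ≤ W) (hWa : W < a ^ 2) (hM : M ^ 2 ≤ 4 * W ^ 3)
    (hD : D = 12 * a ^ 4 - 36 * a ^ 2 * W - 12 * a * M) (hDt : 9 * a ^ 2 * t ≤ D)
    (ht : t = 16 - 4 * a ^ 2 - 2 * W) : 0.04728 * t ^ 2 ≤ b ^ 2 * √D := by
  have hD0 : 0 ≤ D := le_trans (by positivity) hDt
  rcases le_or_gt (t ^ 3) (4025 * (a ^ 2 * b ^ 4)) with hG | hG
  · -- case G1
    have h1 : 0.04728 * t ^ 2 / b ^ 2 ≤ √D := by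
      apply Real.le_sqrt_of_sq_le
      have hb4 : 0 < b ^ 4 := by positivity
      have e : (0.04728 * t ^ 2 / b ^ 2) ^ 2 = (0.04728 ^ 2 * t * t ^ 3) / b ^ 4 := by
        field_simp
      rw [e, div_le_iff₀ hb4]
      have h2 : t * t ^ 3 ≤ t * (4025 * (a ^ 2 * b ^ 4)) := mul_le_mul_of_nonneg_left hG ht0.le
      have h3 : 9 * a ^ 2 * t * b ^ 4 ≤ D * b ^ 4 := mul_le_mul_of_nonneg_right hDt hb4.le
      have h4 : 0 ≤ a ^ 2 * t * b ^ 4 := by positivity
      norm_num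
      linarith
    rw [div_le_iff₀ (by positivity)] at h1
    linarith
  · -- case G2
    have ha2 : 2.15 ≤ a ^ 2 := by
      norm_num
      linarith
    have hb1 : b ≤ 0.6 := by
      norm_num at ha2 ⊢
      by_contra hc
      push Not at hc
      have : a < 1.4 := by norm_num; linarith
      norm_num at this
      nlinarith
    have hb2 : b < 0.217 := by
      by_contra hc
      push Not at hc
      norm_num at hc hb1
      have h1 : (a * b ^ 2) ^ 2 < 0.00704 := by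
        have h1' : t ^ 3 ≤ (64 / 21) ^ 3 := pow_le_pow_left₀ ht0.le (by linarith) 3
        have e : (a * b ^ 2) ^ 2 = a ^ 2 * b ^ 4 := by ring
        rw [e]
        norm_num at h1' ⊢
        linarith
      have h2 : 0.08395 < a * b ^ 2 := by
        have e : a = 2 - b := by linarith
        rw [e]
        have i1 : 0 ≤ b - 217 / 1000 := by linarith
        have i2 : 0 ≤ 3 / 5 - b := by linarith
        have i3 : 0 ≤ (b - 217 / 1000) * (3 / 5 - b) := mul_nonneg i1 i2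
        have i4 : 0 ≤ 2 * (b + 217 / 1000) - (b ^ 2 + 217 / 1000 * b + (217 / 1000) ^ 2) := by
          norm_num
          linarith
        have i5 := mul_nonneg i1 i4
        norm_num
        linarith
      have h3 : (0.08395 : ℝ) ^ 2 < (a * b ^ 2) ^ 2 := pow_lt_pow_left₀ h2 (by norm_num) (by norm_num)
      norm_num at h1 h3
      linarith
    have haW : a ^ 2 - 2 * W = 4 - 20 * b + 5 * b ^ 2 + t := by
      rw [ht, hb]; ring
    have hWb : 2 * W = 16 * b - 4 * b ^ 2 - t := by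
      rw [ht, hb]; ring
    have hW : W ≤ 0.24 := by
      by_contra hc
      push Not at hc
      norm_num at hc hb2
      have h1 : t < 16 * b - 4 * b ^ 2 - 48 / 100 := by linarith
      have h2 : 3 / 100 ≤ b := by nlinarith
      have h3 := cube_bound h2 (by linarith)
      have h4 : t ^ 3 ≤ (16 * b - 4 * b ^ 2 - 48 / 100) ^ 3 := pow_le_pow_left₀ ht0.le h1.le 3
      have h5 : a = 2 - b := by linarith
      rw [h5] at hG
      linarith
    have hM1 : M ≤ 0.98 * W := by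
      norm_num at hW ⊢
      by_contra hc
      push Not at hc
      have h1 : 0 ≤ 49 / 50 * W := by positivity
      have h2 : (49 / 50 * W) ^ 2 < M ^ 2 := pow_lt_pow_left₀ hc h1 (by norm_num)
      have h3 := mul_nonneg (mul_nonneg hW0 hW0) (sub_nonneg.2 hW)
      have h4 := sq_nonneg W
      linarith
    have ha3 : 1.783 ≤ a := by
      norm_num at hb2 ⊢
      linarith
    have hs : 3.4641 * (a ^ 2 - 2 * W) ≤ √D := by
      apply Real.le_sqrt_of_sq_le
      have h1 : 0 ≤ a ^ 2 * W - a * M - 4 * W ^ 2 := by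
        norm_num at hM1 ha3 hW
        have h2 : a * M ≤ a * (49 / 50 * W) := mul_le_mul_of_nonneg_left hM1 ha.le
        have h3 : W * W ≤ W * (6 / 25) := mul_le_mul_of_nonneg_left hW hW0
        have h5 : 0 ≤ (a - 1783 / 1000) * a := mul_nonneg (by linarith) ha.le
        have h4 : 0 ≤ W * (a ^ 2 - 49 / 50 * a - 24 / 25) := mul_nonneg hW0 (by linarith)
        linarith
      have h2 : (3.4641 * (a ^ 2 - 2 * W)) ^ 2 ≤ 12 * (a ^ 2 - 2 * W) ^ 2 := by
        have e := sq_nonneg (a ^ 2 - 2 * W)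
        rw [mul_pow]
        norm_num
        linarith
      have h3 : 12 * (a ^ 2 - 2 * W) ^ 2 ≤ D := by
        rw [hD]; linarith
      linarith
    have hbs : b ^ 2 * (3.4641 * (a ^ 2 - 2 * W)) ≤ b ^ 2 * √D := mul_le_mul_of_nonneg_left hs (by positivity)
    refine le_trans ?_ hbs
    rw [haW]
    have hU : t ≤ 16 * b - 4 * b ^ 2 := by linarith
    have hGU : 0.04728 * (16 * b - 4 * b ^ 2) ^ 2 ≤ 3.4641 * b ^ 2 * (2 - b) ^ 2 := by
      norm_num at hb2 ⊢
      have h1 : 0 ≤ b ^ 2 * (34641 / 10000 * (2 - b) ^ 2 - 75648 / 100000 * (4 - b) ^ 2) := by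
        apply mul_nonneg (by positivity)
        have h1' := mul_nonneg hb0.le (sub_nonneg.2 hb2.le)
        have h2' := mul_nonneg hb0.le hb0.le
        linarith
      linarith
    rcases le_total b 0.21 with hb3 | hb3
    · norm_num at hb3 hGU ⊢
      have hG0 : 0 ≤ b ^ 2 * (4 - 20 * b + 5 * b ^ 2) := mul_nonneg (by positivity) (by nlinarith)
      have hUpos : 0 < 16 * b - 4 * b ^ 2 := by linarith
      have h1 : 0 ≤ (16 * b - 4 * b ^ 2) * (b ^ 2 * (34641 / 10000 * (4 - 20 * b + 5 * b ^ 2 + t)) - 591 / 12500 * t ^ 2) := by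
        have e : (16 * b - 4 * b ^ 2) * (b ^ 2 * (34641 / 10000 * (4 - 20 * b + 5 * b ^ 2 + t)) - 591 / 12500 * t ^ 2)
          = 34641 / 10000 * ((16 * b - 4 * b ^ 2) - t) * (b ^ 2 * (4 - 20 * b + 5 * b ^ 2))
            + t * (34641 / 10000 * b ^ 2 * (2 - b) ^ 2 - 591 / 12500 * (16 * b - 4 * b ^ 2) ^ 2)
            + 591 / 12500 * (t * ((16 * b - 4 * b ^ 2) - t) * (16 * b - 4 * b ^ 2)) := by ring
        rw [e]
        have i1 : 0 ≤ (16 * b - 4 * b ^ 2) - t := by linarith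
        have i2 : 0 ≤ 34641 / 10000 * b ^ 2 * (2 - b) ^ 2 - 591 / 12500 * (16 * b - 4 * b ^ 2) ^ 2 := by linarith
        positivity
      have h2 := nonneg_of_mul_nonneg_right h1 hUpos
      linarith
    · have htb : 2.9 ≤ t := by
        norm_num at hb3 hb2 ha3 ⊢
        by_contra hc
        push Not at hc
        have h1 : t ^ 3 ≤ (29 / 10) ^ 3 := pow_le_pow_left₀ ht0.le hc.le 3
        have h2 : (21 / 100) ^ 4 ≤ b ^ 4 := pow_le_pow_left₀ (by norm_num) hb3 4
        have h3 : (1783 / 1000) ^ 2 ≤ a ^ 2 := pow_le_pow_left₀ (by norm_num) ha3 2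
        have h4 : (1783 / 1000) ^ 2 * (21 / 100) ^ 4 ≤ a ^ 2 * b ^ 4 := mul_le_mul h3 h2 (by positivity) (by positivity)
        norm_num at h1 h4
        linarith
      norm_num at hb3 hb2 htb ⊢
      have j1 : t - 105 / 1000 ≤ 4 - 20 * b + 5 * b ^ 2 + t := by
        have := mul_nonneg (sub_nonneg.2 hb2.le) (by linarith : (0:ℝ) ≤ 20 - 5 * (b + 217 / 1000))
        linarith
      have j2 : (21 / 100) ^ 2 ≤ b ^ 2 := pow_le_pow_left₀ (by norm_num) hb3 2
      have j3 : (21 / 100) ^ 2 * (34641 / 10000 * (t - 105 / 1000)) ≤ b ^ 2 * (34641 / 10000 * (4 - 20 * b + 5 * b ^ 2 + t)) :=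
        mul_le_mul j2 (by linarith) (by linarith) (by positivity)
      have j4 : 0 ≤ t * (64 - 21 * t) := mul_nonneg ht0.le (by linarith)
      norm_num at j3
      linarith

theorem main : Spec.N6 := by
  intro l1 l2 l3 D ρ ξ h1 h2 h3 hD0 hD hρ hρ2 hξ hξ1 c1 c2 c3 hQ
  -- normalised variables
  obtain ⟨a, ha⟩ : ∃ a : ℝ, a = (l1 + l2 + l3) / 6 := ⟨_, rfl⟩
  obtain ⟨m1, hm1⟩ : ∃ m : ℝ, m = l1 - 2 * a := ⟨_, rfl⟩
  obtain ⟨m2, hm2⟩ : ∃ m : ℝ, m = l2 - 2 * a := ⟨_, rfl⟩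
  have hl1 : l1 = 2 * a + m1 := by linarith
  have hl2 : l2 = 2 * a + m2 := by linarith
  have hl3 : l3 = 2 * a - m1 - m2 := by linarith
  clear hm1 hm2 ha
  subst hl1 hl2 hl3
  have ha : 0 < a := by linarith
  obtain ⟨W, hW⟩ : ∃ W : ℝ, W = (m1 ^ 2 + m1 * m2 + m2 ^ 2) / 3 := ⟨_, rfl⟩
  obtain ⟨M, hM⟩ : ∃ M : ℝ, M = - (m1 * m2 * (m1 + m2)) := ⟨_, rfl⟩
  have hW0 : 0 ≤ W := by rw [hW]; nlinarith [sq_nonneg (m1 + m2), sq_nonneg m1, sq_nonneg m2]
  have hMW : M ^ 2 ≤ 4 * W ^ 3 := by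
    have e : 4 * W ^ 3 - M ^ 2 = ((m1 - m2) * (2 * m1 + m2) * (m1 + 2 * m2)) ^ 2 / 27 := by
      rw [hM, hW]; ring
    have := sq_nonneg ((m1 - m2) * (2 * m1 + m2) * (m1 + 2 * m2))
    linarith
  have hD1 : D = 12 * a * ((a - m1) * (a - m2) * (a + m1 + m2)) := by linarith
  have hD2 : D = 12 * a ^ 4 - 36 * a ^ 2 * W - 12 * a * M := by rw [hD1, hW, hM]; ring
  have hprod : 0 < (a - m1) * (a - m2) * (a + m1 + m2) := by
    have : 0 < 12 * a := by linarith
    rw [hD1] at hD0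
    exact (mul_pos_iff_of_pos_left this).1 hD0
  have x1 : 0 < a - m1 := pos_of (x2 := a - m2) (x3 := a + m1 + m2) (by linarith) (by linarith) (by linarith) hprod
  have x2 : 0 < a - m2 := pos_of (x2 := a - m1) (x3 := a + m1 + m2) (by linarith) (by linarith) (by linarith) (by linarith)
  have x3 : 0 < a + m1 + m2 := pos_of (x2 := a - m1) (x3 := a - m2) (by linarith) (by linarith) (by linarith) (by linarith)
  have hWa : W < a ^ 2 := by
    rw [hW]
    nlinarith [mul_pos x1 x2, mul_pos x1 x3, mul_pos x2 x3]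
  have ht : ξ = 16 - 4 * a ^ 2 - 2 * W := by rw [hW]; linarith
  have ht1 : 21 * ξ ≤ 64 := by linarith
  have hDt : 9 * a ^ 2 * ξ ≤ D := by
    have hmax : m1 ≥ 0 ∨ m2 ≥ 0 ∨ - m1 - m2 ≥ 0 := by
      by_contra hc
      push Not at hc
      obtain ⟨c1, c2, c3⟩ := hc
      linarith
    rcases hmax with h | h | h
    · have : ξ * (2 * a) ^ 2 ≤ ξ * (2 * a + m1) ^ 2 :=
        mul_le_mul_of_nonneg_left (pow_le_pow_left₀ (by linarith) (by linarith) 2) hξ
      linarith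
    · have : ξ * (2 * a) ^ 2 ≤ ξ * (2 * a + m2) ^ 2 :=
        mul_le_mul_of_nonneg_left (pow_le_pow_left₀ (by linarith) (by linarith) 2) hξ
      linarith
    · have : ξ * (2 * a) ^ 2 ≤ ξ * (2 * a - m1 - m2) ^ 2 :=
        mul_le_mul_of_nonneg_left (pow_le_pow_left₀ (by linarith) (by linarith) 2) hξ
      linarith
  have ha2 : a ≤ 2 := by
    have h4 : a ^ 2 ≤ 2 ^ 2 := by linarith
    exact le_of_sq_le_sq h4 (by norm_num)
  rcases hξ.eq_or_lt with h0 | hpos
  · rw [← h0]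
    simp
    linarith
  · have hb0 : 0 < 2 - a := by
      rcases ha2.lt_or_eq with h | h
      · linarith
      · exfalso; subst h; linarith
    have key := core ha rfl hb0 hpos ht1 hW0 hWa hMW hD2 hDt ht
    have hπ := Real.pi_gt_d4
    have hs : 0 ≤ √D := Real.sqrt_nonneg D
    -- (3 b ρ)² ≥ (K ξ)²
    have h5 : (4 / 3 * 0.236 * ξ) ^ 2 ≤ (3 * (2 - a) * ρ) ^ 2 := by
      have e1 : (3 * (2 - a) * ρ) ^ 2 = 9 * (2 - a) ^ 2 * ρ ^ 2 := by ring
      rw [e1, hρ2]
      have h6 : 0 ≤ (2 - a) ^ 2 * √D := by positivity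
      have h7 : (2 * 3.1415 / 3) * ((2 - a) ^ 2 * √D) ≤ (2 * Real.pi / 3) * ((2 - a) ^ 2 * √D) := by
        apply mul_le_mul_of_nonneg_right _ h6
        linarith
      have e2 : 9 * (2 - a) ^ 2 * (2 * Real.pi / 27 * √D) = (2 * Real.pi / 3) * ((2 - a) ^ 2 * √D) := by ring
      have e3 : (4 / 3 * 0.236 * ξ) ^ 2 = (4 / 3 * 0.236) ^ 2 * ξ ^ 2 := by ring
      rw [e2, e3]
      have := sq_nonneg ξ
      norm_num at h7 key ⊢
      linarith
    have h8 : 4 / 3 * 0.236 * ξ ≤ 3 * (2 - a) * ρ := by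
      have h9 : 0 ≤ 3 * (2 - a) * ρ := by positivity
      exact le_of_sq_le_sq h5 h9
    have h9 : 4 / 3 * 0.236 * ξ / ρ ≤ 3 * (2 - a) := by
      rw [div_le_iff₀ hρ]; exact h8
    linarith

end Crest.Agent.H15PrN6
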