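import Crest.Agent.H19SLSpec

/-!
rid 322 (S0499), module MEASOUT: joint measurability of the output of a randomized learner.
-/

set_option autoImplicit false

open MeasureTheory ProbabilityTheory Crest.StreamLearn
open scoped ENNReal NNReal

namespace Crest.Agent.H15SlMeasOut

/-- discrete measurability: all fibres are measurable -/
def DM {P S : Type*} [MeasurableSpace P] (g : P → S) : Prop := ∀ s, MeasurableSet {p | g p = s}

lemma DM.comp {P S R : Type*} [MeasurableSpace P] [Countable S] {g : P → S} (hg : DM g)
    {f : S → P → R} (hf : ∀ s, DM (f s)) : DM (fun p => f (g p) p) := by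
  intro r
  have h : {p | f (g p) p = r} = ⋃ s : S, ({p | g p = s} ∩ {p | f s p = r}) := by
    ext p
    simp
  rw [h]
  exact MeasurableSet.iUnion fun s => (hg s).inter (hf s r)

lemma DM.const {P S : Type*} [MeasurableSpace P] (s : S) : DM (fun _ : P => s) := by
  intro r
  simp

lemma DM.map {P S R : Type*} [MeasurableSpace P] [Countable S] {g : P → S} (hg : DM g)
    (f : S → R) : DM (fun p => f (g p)) :=
  DM.comp (f := fun s _ => f s) hg fun s => DM.const (f s)

lemma DM.prodMk {P S R : Type*} [MeasurableSpace P] {g : P → S} {h : P → R} (hg : DM g)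
    (hh : DM h) : DM (fun p => (g p, h p)) := by
  rintro ⟨s, r⟩
  have e : {p | (g p, h p) = (s, r)} = {p | g p = s} ∩ {p | h p = r} := by
    ext p
    simp
  rw [e]
  exact (hg s).inter (hh r)

lemma DM.comp_measurable {P Q S : Type*} [MeasurableSpace P] [MeasurableSpace Q] {g : Q → S}
    (hg : DM g) {f : P → Q} (hf : Measurable f) : DM (fun p => g (f p)) := fun s => hf (hg s)

lemma DM.measurable {P S Z : Type*} [MeasurableSpace P] [MeasurableSpace Z] [Countable S]
    {g : P → S} (hg : DM g) {f : S → P → Z} (hf : ∀ s, Measurable (f s)) :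
    Measurable (fun p => f (g p) p) := by
  intro A hA
  have h : (fun p => f (g p) p) ⁻¹' A = ⋃ s : S, ({p | g p = s} ∩ (f s) ⁻¹' A) := by
    ext p
    simp
  rw [h]
  exact MeasurableSet.iUnion fun s => (hg s).inter (hf s hA)

/-- the transition rule is discretely measurable in (seed, sample, measurement) -/
lemma trans_DM {d T M : ℕ} (L : RLearner d T M) (t : Fin T) (q : L.St) :
    letI : MeasurableSpace L.Ω := L.mΩ
    DM (fun p : L.Ω × (E d × ℝ) => L.trans t p.1 q p.2.1 p.2.2) := by
  letI : MeasurableSpace L.Ω := L.mΩ
  have h1 : DM (fun p : L.Ω × (E d × ℝ) => (L.trans t p.1 q p.2.1 p.2.2).1) := by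
    intro s
    exact (L.trans_measurable t q).1 (MeasurableSpace.measurableSet_top (s := {s}))
  have h2 : DM (fun p : L.Ω × (E d × ℝ) => (L.trans t p.1 q p.2.1 p.2.2).2) := by
    intro s
    exact (L.trans_measurable t q).2 (measurableSet_singleton s)
  exact h1.prodMk h2

theorem main : Crest.Agent.H19SL.MeasOut := by
  intro d T M L
  letI : MeasurableSpace L.Ω := L.mΩ
  haveI : Fintype L.St := L.fin
  show Measurable fun p : Sphere d × (L.Ω × (Fin T → E d)) => L.output p.2.1 p.1 p.2.2
  have hrun : DM (fun p : Sphere d × (L.Ω × (Fin T → E d)) => L.run p.2.1 (p.1 : E d) p.2.2) := by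
    unfold RLearner.run
    have key : ∀ (l : List (Fin T)) (a : Sphere d × (L.Ω × (Fin T → E d)) → L.St × Option ℕ),
        DM a → DM (fun p : Sphere d × (L.Ω × (Fin T → E d)) => l.foldl
          (fun st t => if st.2.isSome then st else
            if (L.trans t p.2.1 st.1 (p.2.2 t) (inner ℝ (p.2.2 t) (p.1 : E d))).2
            then ((L.trans t p.2.1 st.1 (p.2.2 t) (inner ℝ (p.2.2 t) (p.1 : E d))).1,
              some (t.val + 1))
            else ((L.trans t p.2.1 st.1 (p.2.2 t) (inner ℝ (p.2.2 t) (p.1 : E d))).1, none))
          (a p)) := by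
      intro l
      induction l with
      | nil => intro a ha; simpa using ha
      | cons t l ih =>
        intro a ha
        simp only [List.foldl_cons]
        refine ih (fun p => if (a p).2.isSome then a p else
            if (L.trans t p.2.1 (a p).1 (p.2.2 t) (inner ℝ (p.2.2 t) (p.1 : E d))).2
            then ((L.trans t p.2.1 (a p).1 (p.2.2 t) (inner ℝ (p.2.2 t) (p.1 : E d))).1,
              some (t.val + 1))
            else ((L.trans t p.2.1 (a p).1 (p.2.2 t) (inner ℝ (p.2.2 t) (p.1 : E d))).1, none))
            ?_
        refine DM.comp (g := a) (f := fun b (p : Sphere d × (L.Ω × (Fin T → E d))) =>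
          if b.2.isSome then b else
            if (L.trans t p.2.1 b.1 (p.2.2 t) (inner ℝ (p.2.2 t) (p.1 : E d))).2
            then ((L.trans t p.2.1 b.1 (p.2.2 t) (inner ℝ (p.2.2 t) (p.1 : E d))).1,
              some (t.val + 1))
            else ((L.trans t p.2.1 b.1 (p.2.2 t) (inner ℝ (p.2.2 t) (p.1 : E d))).1, none))
          ha ?_
        intro b
        have hm : Measurable (fun p : Sphere d × (L.Ω × (Fin T → E d)) =>
            ((p.2.1, (p.2.2 t, (inner ℝ (p.2.2 t) (p.1 : E d) : ℝ))) : L.Ω × (E d × ℝ))) := by
          have h1 : Measurable (fun p : Sphere d × (L.Ω × (Fin T → E d)) => p.2.2 t) :=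
            (measurable_pi_apply t).comp (measurable_snd.comp measurable_snd)
          have h2 : Measurable (fun p : Sphere d × (L.Ω × (Fin T → E d)) => (p.1 : E d)) :=
            measurable_subtype_coe.comp measurable_fst
          exact (measurable_fst.comp measurable_snd).prodMk (h1.prodMk (h1.inner h2))
        have ht := DM.comp_measurable (trans_DM L t b.1) hm
        exact DM.map (g := fun p : Sphere d × (L.Ω × (Fin T → E d)) =>
          L.trans t p.2.1 b.1 (p.2.2 t) (inner ℝ (p.2.2 t) (p.1 : E d))) ht
          (fun r => if b.2.isSome then b else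
            if r.2 then (r.1, some (t.val + 1)) else (r.1, none))
    refine key _ (fun p => (L.init p.2.1, if L.stopFirst p.2.1 then some 0 else none)) ?_
    have h1 : DM (fun p : Sphere d × (L.Ω × (Fin T → E d)) => L.init p.2.1) := by
      intro s
      exact (measurable_fst.comp measurable_snd)
        (L.init_measurable (MeasurableSpace.measurableSet_top (s := {s})))
    have h2 : DM (fun p : Sphere d × (L.Ω × (Fin T → E d)) => L.stopFirst p.2.1) := by
      intro s
      exact (measurable_fst.comp measurable_snd)
        (L.stopFirst_measurable (measurableSet_singleton s))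
    exact h1.prodMk (h2.map fun b => if b then some 0 else none)
  unfold RLearner.output
  refine DM.measurable (f := fun (r : L.St × Option ℕ) (p : Sphere d × (L.Ω × (Fin T → E d))) =>
    L.out (r.2.getD T) p.2.1 r.1) hrun ?_
  intro r
  exact (L.out_measurable _ _).comp (measurable_fst.comp measurable_snd)

end Crest.Agent.H15SlMeasOut
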