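import Crest.Agent.H19SLSpec
import Crest.Agent.H15SlMeasOut

/-!
rid 322 (S0499), module RUN: the success probability of a learner is bounded by the mass of value
functions reachable by blocks.
-/

set_option autoImplicit false

open MeasureTheory ProbabilityTheory Crest.StreamLearn Crest.Agent.H19SL
open Crest.Agent.H15SlMeasOut
open scoped ENNReal NNReal

namespace Crest.Agent.H15SlRun

variable {d T M : ℕ} (L : RLearner d T M) (ω : L.Ω)

/-- extended transition: beyond the horizon nothing happens -/
noncomputable def tr (t : ℕ) (q : L.St) (g : E d) (y : ℝ) : L.St × Bool :=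
  if h : t < T then L.trans ⟨t, h⟩ ω q g y else (q, false)

/-- value function with `j` remaining steps at time `t` in state `q` -/
noncomputable def V (ε : ℝ) : ℕ → ℕ → L.St → E d → ℝ≥0∞
  | 0, _, q, x => cap ε (L.out T ω q) x
  | j + 1, t, q, x => ∫⁻ g, (if (tr L ω t q g (inner ℝ g x)).2
      then cap ε (L.out (t + 1) ω (tr L ω t q g (inner ℝ g x)).1) x
      else V ε j (t + 1) (tr L ω t q g (inner ℝ g x)).1 x) ∂(stdGaussian (E d))

/-- run of a block -/
noncomputable def rb : (k : ℕ) → ℕ → L.St → (Fin k → E d) → (Fin k → ℝ) → L.St × Option ℕ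
  | 0, _, q, _, _ => (q, none)
  | k + 1, t, q, a, y =>
    if (tr L ω t q (a 0) (y 0)).2 then ((tr L ω t q (a 0) (y 0)).1, some (t + 1))
    else rb k (t + 1) (tr L ω t q (a 0) (y 0)).1 (fun i => a i.succ) (fun i => y i.succ)

/-- value of an outcome -/
noncomputable def val (ε : ℝ) (W : L.St → E d → ℝ≥0∞) (r : L.St × Option ℕ) (x : E d) : ℝ≥0∞ :=
  match r.2 with
  | none => W r.1 x
  | some s => cap ε (L.out s ω r.1) x

lemma tr_DM (t : ℕ) (q : L.St) : DM (fun p : E d × ℝ => tr L ω t q p.1 p.2) := by
  letI : MeasurableSpace L.Ω := L.mΩ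
  by_cases h : t < T
  · simp only [tr, h, dif_pos]
    have := DM.comp_measurable (trans_DM L ⟨t, h⟩ q)
      (f := fun p : E d × ℝ => (ω, (p.1, p.2))) (measurable_const.prodMk measurable_id)
    exact this
  · simp only [tr, h, dif_neg, not_false_eq_true]
    exact DM.const _

lemma rb_DM (k : ℕ) : ∀ (t : ℕ) (q : L.St),
    DM (fun p : (Fin k → E d) × (Fin k → ℝ) => rb L ω k t q p.1 p.2) := by
  haveI : Fintype L.St := L.fin
  induction k with
  | zero => intro t q; exact DM.const _
  | succ k ih =>
    intro t q
    simp only [rb]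
    have h1 : DM (fun p : (Fin (k + 1) → E d) × (Fin (k + 1) → ℝ) =>
        tr L ω t q (p.1 0) (p.2 0)) := by
      refine DM.comp_measurable (tr_DM L ω t q)
        (f := fun p : (Fin (k + 1) → E d) × (Fin (k + 1) → ℝ) => (p.1 0, p.2 0)) ?_
      exact ((measurable_pi_apply 0).comp measurable_fst).prodMk
        ((measurable_pi_apply 0).comp measurable_snd)
    refine DM.comp (g := fun p : (Fin (k + 1) → E d) × (Fin (k + 1) → ℝ) =>
        tr L ω t q (p.1 0) (p.2 0))
      (f := fun r p => if r.2 then (r.1, some (t + 1))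
        else rb L ω k (t + 1) r.1 (fun i => p.1 i.succ) (fun i => p.2 i.succ)) h1 ?_
    rintro ⟨q', b⟩
    cases b with
    | true => simpa using DM.const (P := (Fin (k + 1) → E d) × (Fin (k + 1) → ℝ)) (q', some (t + 1))
    | false =>
      have := DM.comp_measurable (ih (t + 1) q')
        (f := fun p : (Fin (k + 1) → E d) × (Fin (k + 1) → ℝ) =>
          ((fun i : Fin k => p.1 i.succ), (fun i : Fin k => p.2 i.succ))) (by fun_prop)
      simpa using this

lemma measurable_meas {k : ℕ} (x : E d) :
    Measurable (fun a : Fin k → E d => (a, meas a x)) := by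
  refine measurable_id.prodMk (measurable_pi_lambda _ fun j => ?_)
  exact (measurable_pi_apply j).inner measurable_const

instance gk_prob (d k : ℕ) : IsProbabilityMeasure (gk d k) := by
  unfold gk; infer_instance

lemma val_measurable (ε : ℝ) (W : L.St → E d → ℝ≥0∞) (x : E d) {P : Type*} [MeasurableSpace P]
    {g : P → L.St × Option ℕ} (hg : DM g) : Measurable (fun p => val L ω ε W (g p) x) := by
  haveI : Fintype L.St := L.fin
  exact DM.measurable (f := fun r _ => val L ω ε W r x) hg fun r => measurable_const

/-- splitting off the first row -/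
lemma lintegral_gk_succ (k : ℕ) (f : (Fin (k + 1) → E d) → ℝ≥0∞) (hf : Measurable f) :
    ∫⁻ a, f a ∂(gk d (k + 1)) =
      ∫⁻ g, ∫⁻ a, f (Fin.cons g a : Fin (k + 1) → E d) ∂(gk d k) ∂(stdGaussian (E d)) := by
  have hmp := measurePreserving_piFinSuccAbove (fun _ : Fin (k + 1) => stdGaussian (E d)) 0
  have h1 : ∫⁻ a, f a ∂(gk d (k + 1)) =
      ∫⁻ p, f ((MeasurableEquiv.piFinSuccAbove (fun _ : Fin (k + 1) => E d) 0).symm p)
        ∂((stdGaussian (E d)).prod (gk d k)) := by
    have := hmp.lintegral_comp_emb (MeasurableEquiv.measurableEmbedding _)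
      (fun p => f ((MeasurableEquiv.piFinSuccAbove (fun _ : Fin (k + 1) => E d) 0).symm p))
    simp only [MeasurableEquiv.symm_apply_apply] at this
    exact this
  have h2 : Measurable (fun p : E d × (Fin k → E d) =>
      f ((MeasurableEquiv.piFinSuccAbove (fun _ : Fin (k + 1) => E d) 0).symm p)) :=
    hf.comp (MeasurableEquiv.measurable _)
  rw [h1, lintegral_prod _ h2.aemeasurable]
  refine lintegral_congr fun g => lintegral_congr fun a => ?_
  have h3 : (MeasurableEquiv.piFinSuccAbove (fun _ : Fin (k + 1) => E d) 0).symm (g, a) =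
      (Fin.cons g a : Fin (k + 1) → E d) := by
    funext i
    refine Fin.cases ?_ (fun i => ?_) i
    · simp [MeasurableEquiv.piFinSuccAbove, Fin.insertNthEquiv]
    · simp [MeasurableEquiv.piFinSuccAbove, Fin.insertNthEquiv]
  rw [h3]

lemma V_block (ε : ℝ) (j : ℕ) (k : ℕ) : ∀ (t : ℕ) (q : L.St) (x : E d),
    V L ω ε (k + j) t q x =
      ∫⁻ a, val L ω ε (V L ω ε j (t + k)) (rb L ω k t q a (meas a x)) x ∂(gk d k) := by
  induction k with
  | zero =>
    intro t q x
    simp [rb, val]
  | succ k ih =>
    intro t q x
    rw [lintegral_gk_succ]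
    · have e : k + 1 + j = (k + j) + 1 := by omega
      rw [e]
      simp only [V]
      refine lintegral_congr fun g => ?_
      simp only [rb, Fin.cons_zero, Fin.cons_succ]
      have hm0 : ∀ a : Fin k → E d, meas (Fin.cons g a : Fin (k + 1) → E d) x 0 = inner ℝ g x := by
        intro a; simp [meas]
      have hms : ∀ a : Fin k → E d, (fun i : Fin k =>
          meas (Fin.cons g a : Fin (k + 1) → E d) x i.succ) = meas a x := by
        intro a; funext i; simp [meas]
      simp only [hm0, hms]
      split_ifs with hs
      · simp [val]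
      · rw [ih]
        have e2 : t + 1 + k = t + (k + 1) := by omega
        rw [e2]
    · refine val_measurable L ω ε _ x ?_
      exact DM.comp_measurable (rb_DM L ω (k + 1) t q) (measurable_meas x)

lemma V_const (ε : ℝ) (m : ℕ) : ∀ (t : ℕ) (q : L.St) (x : E d), T ≤ t →
    V L ω ε m t q x = cap ε (L.out T ω q) x := by
  induction m with
  | zero => intro t q x _; rfl
  | succ m ih =>
    intro t q x ht
    have h : ¬ t < T := by omega
    simp only [V, tr, h, dif_neg, not_false_eq_true, Bool.false_eq_true, if_false]
    rw [ih (t + 1) q x (by omega)]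
    simp

lemma V_pad (ε : ℝ) (m : ℕ) (j : ℕ) : ∀ (t : ℕ) (q : L.St) (x : E d), j + t = T →
    V L ω ε (j + m) t q x = V L ω ε j t q x := by
  induction j with
  | zero =>
    intro t q x ht
    rw [V_const L ω ε _ t q x (by omega), V_const L ω ε _ t q x (by omega)]
  | succ j ih =>
    intro t q x ht
    have e : j + 1 + m = (j + m) + 1 := by omega
    rw [e]
    simp only [V]
    refine lintegral_congr fun g => ?_
    split_ifs
    · rfl
    · rw [ih (t + 1) _ x (by omega)]

lemma rb_range (k : ℕ) : ∀ (t : ℕ) (q : L.St) (a : Fin k → E d) (y : Fin k → ℝ) (s : ℕ),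
    (rb L ω k t q a y).2 = some s → t + 1 ≤ s ∧ s ≤ t + k := by
  induction k with
  | zero => intro t q a y s h; simp [rb] at h
  | succ k ih =>
    intro t q a y s h
    simp only [rb] at h
    split_ifs at h with hs
    · simp only [Option.some.injEq] at h
      omega
    · have := ih (t + 1) _ _ _ s h
      omega

lemma reach (ε : ℝ) (k : ℕ) (n : ℕ) : ∀ (t : ℕ) (q : L.St),
    Reach d k (2 ^ M * (k + 1)) ε n (V L ω ε (n * k) t q) := by
  haveI : Fintype L.St := L.fin
  induction n with
  | zero =>
    intro t q
    have : V L ω ε (0 * k) t q = cap ε (L.out T ω q) := by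
      funext x; simp [V]
    rw [this]
    exact Reach.base 0 _ (L.out_unit _ _ _)
  | succ n ih =>
    intro t q
    let enc : L.St × Option ℕ → L.St × Fin (k + 1) := fun r =>
      (r.1, match r.2 with
        | none => 0
        | some s => Fin.ofNat (k + 1) (s - t))
    let o : (Fin k → E d) × (Fin k → ℝ) → L.St × Fin (k + 1) :=
      fun p => enc (rb L ω k t q p.1 p.2)
    let W : L.St × Fin (k + 1) → E d → ℝ≥0∞ := fun i =>
      if i.2 = 0 then V L ω ε (n * k) (t + k) i.1 else cap ε (L.out (t + i.2.val) ω i.1)
    have hW : ∀ i, Reach d k (2 ^ M * (k + 1)) ε n (W i) := by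
      intro i
      simp only [W]
      split_ifs
      · exact ih _ _
      · exact Reach.base n _ (L.out_unit _ _ _)
    have hcard : Fintype.card (L.St × Fin (k + 1)) ≤ 2 ^ M * (k + 1) := by
      rw [Fintype.card_prod, Fintype.card_fin]
      refine Nat.mul_le_mul_right _ ?_
      convert L.card_le
    letI mι : MeasurableSpace (L.St × Fin (k + 1)) := ⊤
    haveI : @DiscreteMeasurableSpace (L.St × Fin (k + 1)) mι := ⟨fun _ => trivial⟩
    have ho : Measurable o := by
      refine measurable_to_countable' fun i => ?_
      exact DM.map (rb_DM L ω k t q) enc i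
    have hstep := Reach.step (d := d) (k := k) (N := 2 ^ M * (k + 1)) (ε := ε) n
      (L.St × Fin (k + 1)) hcard W hW o ho
    have heq : V L ω ε ((n + 1) * k) t q = fun x => ∫⁻ a, W (o (a, meas a x)) x ∂(gk d k) := by
      funext x
      have e : (n + 1) * k = k + n * k := by ring
      rw [e, V_block]
      refine lintegral_congr fun a => ?_
      simp only [o, enc, W, val]
      rcases hr : (rb L ω k t q a (meas a x)).2 with _ | s
      · simp
      · have hs := rb_range L ω k t q a (meas a x) s hr
        have hv : (Fin.ofNat (k + 1) (s - t)).val = s - t := by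
          simp only [Fin.ofNat]
          exact Nat.mod_eq_of_lt (by omega)
        have hne : Fin.ofNat (k + 1) (s - t) ≠ 0 := by
          intro h0
          have := congrArg Fin.val h0
          rw [hv] at this
          simp at this
          omega
        simp only [hne, if_false]
        have e3 : t + (Fin.ofNat (k + 1) (s - t)).val = s := by rw [hv]; omega
        rw [e3]
    rw [heq]
    exact hstep

/-- the transition step of the run -/
noncomputable def stp (s : E d) (xs : Fin T → E d) (st : L.St × Option ℕ) (t : Fin T) :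
    L.St × Option ℕ :=
  if st.2.isSome then st else
      if (L.trans t ω st.1 (xs t) (inner ℝ (xs t) s)).2
      then ((L.trans t ω st.1 (xs t) (inner ℝ (xs t) s)).1, some (t.val + 1))
      else ((L.trans t ω st.1 (xs t) (inner ℝ (xs t) s)).1, none)

lemma foldl_stopped (s : E d) (xs : Fin T → E d) (st : L.St × Option ℕ) (h : st.2.isSome)
    (l : List (Fin T)) : l.foldl (stp L ω s xs) st = st := by
  induction l with
  | nil => rfl
  | cons t l ih => simp [stp, h, ih]

lemma foldl_rb (s : E d) (xs : Fin T → E d) (k : ℕ) : ∀ (t : ℕ) (q : L.St) (f : Fin k → Fin T),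
    (∀ i, (f i).val = t + i.val) →
    ((List.finRange k).map f).foldl (stp L ω s xs) (q, none) =
      rb L ω k t q (fun i => xs (f i)) (fun i => inner ℝ (xs (f i)) s) := by
  induction k with
  | zero => intro t q f _; simp [rb]
  | succ k ih =>
    intro t q f hf
    have h0 : (f 0).val = t := by simpa using hf 0
    have htr : ∀ g y, tr L ω t q g y = L.trans (f 0) ω q g y := by
      intro g y
      have hlt : t < T := h0 ▸ (f 0).isLt
      simp only [tr, hlt, dif_pos]
      congr 1
      exact Fin.ext h0.symm
    rw [List.finRange_succ, List.map_cons, List.foldl_cons, List.map_map]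
    simp only [rb, htr]
    by_cases hs : (L.trans (f 0) ω q (xs (f 0)) (inner ℝ (xs (f 0)) s)).2 = true
    · rw [foldl_stopped]
      · simp [stp, hs, h0]
      · simp [stp, hs]
    · have e : stp L ω s xs (q, none) (f 0) =
          ((L.trans (f 0) ω q (xs (f 0)) (inner ℝ (xs (f 0)) s)).1, none) := by
        simp [stp, hs]
      rw [e, ih (t + 1) _ (f ∘ Fin.succ) (by intro i; simp [hf i.succ]; omega)]
      simp [hs]

lemma run_eq (s : E d) (xs : Fin T → E d) :
    L.run ω s xs = if L.stopFirst ω then (L.init ω, some 0)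
      else rb L ω T 0 (L.init ω) xs (meas xs s) := by
  have h : L.run ω s xs = (List.finRange T).foldl (stp L ω s xs)
      (L.init ω, if L.stopFirst ω then some 0 else none) := rfl
  rw [h]
  split_ifs with hs
  · exact foldl_stopped L ω s xs _ rfl _
  · have := foldl_rb L ω s xs T 0 (L.init ω) id (by intro i; simp)
    rw [List.map_id] at this
    exact this

/-- the value function of the whole learner -/
noncomputable def U (ε : ℝ) (x : E d) : ℝ≥0∞ :=
  if L.stopFirst ω then cap ε (L.out 0 ω (L.init ω)) x else V L ω ε T 0 (L.init ω) x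

lemma lintegral_output (ε : ℝ) (x : E d) :
    ∫⁻ xs, cap ε (L.output ω x xs) x ∂(Measure.pi fun _ : Fin T => stdGaussian (E d)) =
      U L ω ε x := by
  unfold U RLearner.output
  simp only [run_eq]
  split_ifs with hs
  · simp
  · have h := V_block L ω ε 0 T 0 (L.init ω) x
    rw [Nat.add_zero] at h
    rw [h]
    refine lintegral_congr fun a => ?_
    simp only [val]
    rcases (rb L ω T 0 (L.init ω) a (meas a x)) with ⟨q', _ | s⟩
    · simp [V]
    · simp

lemma reach_U (ε : ℝ) (k n : ℕ) (hT : T ≤ n * k) :
    Reach d k (2 ^ M * (k + 1)) ε n (U L ω ε) := by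
  unfold U
  split_ifs with hs
  · exact Reach.base n _ (L.out_unit _ _ _)
  · have h := reach L ω ε k n 0 (L.init ω)
    have e : V L ω ε (n * k) 0 (L.init ω) = fun x => V L ω ε T 0 (L.init ω) x := by
      funext x
      obtain ⟨m, hm⟩ := Nat.exists_eq_add_of_le hT
      rw [hm]
      exact V_pad L ω ε m T 0 _ x (by omega)
    rw [e] at h
    exact h

theorem main : Crest.Agent.H19SL.Run := by
  intro d T M k n ε L B hd hT hB
  letI : MeasurableSpace L.Ω := L.mΩ
  haveI : IsProbabilityMeasure L.ρ := L.prob
  have hM : Measurable fun p : Sphere d × (L.Ω × (Fin T → E d)) => L.output p.2.1 p.1 p.2.2 :=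
    Crest.Agent.H15SlMeasOut.main d T M L
  haveI : SFinite (sphereUniform d) := by unfold sphereUniform; infer_instance
  set π : Measure (Fin T → E d) := Measure.pi fun _ : Fin T => stdGaussian (E d) with hπ
  set S : Set (Sphere d × (L.Ω × (Fin T → E d))) :=
    {p | Real.arccos (inner ℝ (L.output p.2.1 p.1 p.2.2) (p.1 : E d)) ≤ ε} with hS
  have hSm : MeasurableSet S := by
    refine measurableSet_le ?_ measurable_const
    exact Real.continuous_arccos.measurable.comp
      (hM.inner (measurable_subtype_coe.comp measurable_fst))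
  have h0 : L.successProb ε = ((sphereUniform d).prod (L.ρ.prod π)).real S := rfl
  rw [h0]
  refine le_trans ENNReal.ofReal_toReal_le ?_
  rw [← lintegral_indicator_one hSm]
  set f : Sphere d × (L.Ω × (Fin T → E d)) → ℝ≥0∞ := S.indicator 1 with hf
  have hfm : Measurable f := measurable_one.indicator hSm
  have hfc : ∀ p, f p = cap ε (L.output p.2.1 p.1 p.2.2) (p.1 : E d) := by
    intro p
    simp only [hf, hS, cap, Set.indicator_apply, Set.mem_ofPred_eq, Pi.one_apply]
  rw [lintegral_prod_symm' f hfm, lintegral_prod _ (hfm.lintegral_prod_left').aemeasurable]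
  calc ∫⁻ ω, ∫⁻ a, ∫⁻ x, f (x, (ω, a)) ∂(sphereUniform d) ∂π ∂L.ρ
      ≤ ∫⁻ ω, B ∂L.ρ := by
        refine lintegral_mono fun ω => ?_
        rw [lintegral_lintegral_swap]
        · have h1 : ∀ x : Sphere d, ∫⁻ a, f (x, (ω, a)) ∂π = U L ω ε (x : E d) := by
            intro x
            rw [← lintegral_output]
            exact lintegral_congr fun a => hfc _
          simp only [h1]
          have h2 : ∫⁻ x : Sphere d, U L ω ε (x : E d) ∂(sphereUniform d) =
              ∫⁻ x, U L ω ε x ∂(sig d) := by
            unfold sig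
            rw [(MeasurableEmbedding.subtype_coe
              (Metric.isClosed_sphere.measurableSet)).lintegral_map]
          rw [h2]
          exact hB _ (reach_U L ω ε k n hT)
        · exact (hfm.comp (measurable_snd.prodMk
            (measurable_const.prodMk measurable_fst))).aemeasurable
    _ = B := by simp

end Crest.Agent.H15SlRun
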