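import Mathlib

set_option autoImplicit false
open Filter Topology

namespace Crest.R113.H15

/-- The conclusion of S0148 for a fixed Hilbert space. -/
def PROP (H : Type*) [NormedAddCommGroup H] [InnerProductSpace ℂ H] : Prop :=
  ∃ T : H →L[ℂ] H, T ≠ 0 ∧
    Tendsto (fun n : ℕ => ‖T ^ n‖ ^ (1 / (n : ℝ))) atTop (𝓝 0) ∧
    ∀ V : Submodule ℂ H, IsClosed (V : Set H) →
      (∀ A : H →L[ℂ] H, A * T = T * A → ∀ v ∈ V, A v ∈ V) → V = ⊥ ∨ V = ⊤

/-- conjugation by a unitary -/
noncomputable def conj {K H : Type*} [NormedAddCommGroup K] [InnerProductSpace ℂ K]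
    [NormedAddCommGroup H] [InnerProductSpace ℂ H] (e : K ≃ₗᵢ[ℂ] H) (T : K →L[ℂ] K) :
    H →L[ℂ] H :=
  (e.toContinuousLinearEquiv : K →L[ℂ] H).comp
    (T.comp (e.symm.toContinuousLinearEquiv : H →L[ℂ] K))

section
variable {K H : Type*} [NormedAddCommGroup K] [InnerProductSpace ℂ K]
    [NormedAddCommGroup H] [InnerProductSpace ℂ H] (e : K ≃ₗᵢ[ℂ] H)

@[simp] theorem conj_apply (T : K →L[ℂ] K) (x : H) : conj e T x = e (T (e.symm x)) := rfl

theorem conj_mul (S T : K →L[ℂ] K) : conj e (S * T) = conj e S * conj e T := by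
  ext x
  simp

theorem conj_one : conj e (1 : K →L[ℂ] K) = 1 := by
  ext x
  simp

theorem conj_pow (T : K →L[ℂ] K) (n : ℕ) : (conj e T) ^ n = conj e (T ^ n) := by
  induction n with
  | zero => simp [conj_one]
  | succ n ih => rw [pow_succ, ih, ← conj_mul, ← pow_succ]

theorem conj_conj (T : K →L[ℂ] K) : conj e.symm (conj e T) = T := by
  ext x
  simp

theorem norm_conj_le (T : K →L[ℂ] K) : ‖conj e T‖ ≤ ‖T‖ := by
  refine ContinuousLinearMap.opNorm_le_bound _ (norm_nonneg _) (fun x => ?_)
  rw [conj_apply, e.norm_map]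
  refine (T.le_opNorm _).trans ?_
  rw [e.symm.norm_map]

theorem norm_conj (T : K →L[ℂ] K) : ‖conj e T‖ = ‖T‖ := by
  refine le_antisymm (norm_conj_le e T) ?_
  have h := norm_conj_le e.symm (conj e T)
  rwa [conj_conj] at h

end

theorem transfer {K H : Type*} [NormedAddCommGroup K] [InnerProductSpace ℂ K]
    [NormedAddCommGroup H] [InnerProductSpace ℂ H] (e : K ≃ₗᵢ[ℂ] H) (hK : PROP K) : PROP H := by
  obtain ⟨T, hT0, hTq, hT⟩ := hK
  refine ⟨conj e T, ?_, ?_, ?_⟩
  · intro h
    apply hT0
    have h1 := congrArg (conj e.symm) h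
    rw [conj_conj] at h1
    rw [h1]
    ext x
    simp
  · refine hTq.congr (fun n => ?_)
    rw [conj_pow, norm_conj]
  · intro V hV hinv
    have h := hT (V.comap (e.toContinuousLinearEquiv : K →L[ℂ] H).toLinearMap) ?_ ?_
    · rcases h with h | h
      · left
        rw [Submodule.eq_bot_iff] at h ⊢
        intro x hx
        have h1 : e.symm x = 0 := by
          apply h
          rw [Submodule.mem_comap]
          simpa using hx
        simpa using congrArg e h1
      · right
        rw [Submodule.eq_top_iff'] at h ⊢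
        intro x
        have h1 := h (e.symm x)
        rw [Submodule.mem_comap] at h1
        simpa using h1
    · exact hV.preimage e.continuous
    · intro A hA v hv
      rw [Submodule.mem_comap] at hv ⊢
      have hc : conj e A * conj e T = conj e T * conj e A := by
        rw [← conj_mul, ← conj_mul, hA]
      have h1 := hinv (conj e A) hc (e v) (by simpa using hv)
      simpa using h1

end Crest.R113.H15
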