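import Crest.Agent.H29BRDefs

/-! rid 50 (S0069), grid backup: telescoping lemmas GS3, GS2, GS1 (helper16). -/

set_option autoImplicit false

namespace Crest.B29

open Finset

theorem two0 : (2 : ZMod 2) = 0 := rfl

theorem add_self0 (x : ZMod 2) : x + x = 0 := CharTwo.add_self_eq_zero x

theorem tel (F : ℕ → ZMod 2) (n : ℕ) : ∑ k ∈ range n, (F k + F (k + 1)) = F 0 + F n := by
  induction n with
  | zero => simp [add_self0]
  | succ n ih =>
    rw [sum_range_succ, ih]
    linear_combination (F n) * two0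

/-- face decomposition of a cube -/
theorem K3_d2 (v : ℕ → ℕ → ℕ → CF) (e : CF → CF → CF → ZMod 2) :
    K3 v (d2 e) =
      (K2 (fun u w => v 0 u w) e + K2 (fun u w => v 1 u w) e) +
      (K2 (fun u w => v u 0 w) e + K2 (fun u w => v u 1 w) e) +
      (K2 (fun u w => v u w 0) e + K2 (fun u w => v u w 1) e) := by
  simp only [K3, d2, K2]
  linear_combination (e (v 0 0 0) (v 1 0 0) (v 1 1 1) + e (v 0 0 0) (v 0 1 0) (v 1 1 1) +
    e (v 0 0 0) (v 0 0 1) (v 1 1 1) + e (v 0 0 0) (v 1 1 0) (v 1 1 1) +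
    e (v 0 0 0) (v 1 0 1) (v 1 1 1) + e (v 0 0 0) (v 0 1 1) (v 1 1 1)) * two0

/-- edge decomposition of a square -/
theorem K2_d1 (v : ℕ → ℕ → CF) (e : CF → CF → ZMod 2) :
    K2 v (d1 e) = (e (v 0 0) (v 0 1) + e (v 1 0) (v 1 1)) + (e (v 0 0) (v 1 0) + e (v 0 1) (v 1 1)) := by
  simp only [K2, d1]
  linear_combination (e (v 0 0) (v 1 1)) * two0

/-- a sum over a full period is shift invariant -/
theorem sum_shift (F : ℕ → ZMod 2) (P : ℕ) (hF : ∀ j, F (j + P) = F j) (m : ℕ) :
    ∑ j ∈ range P, F (j + m) = ∑ j ∈ range P, F j := by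
  induction m with
  | zero => rfl
  | succ m ih =>
    rw [← ih]
    have h := tel (fun j => F (j + m)) P
    have h2 : F (P + m) = F (0 + m) := by
      rw [show P + m = m + P by ring, hF]; simp
    simp only [h2, add_self0, sum_add_distrib] at h
    have h3 : ∑ j ∈ range P, F (j + (m + 1)) = ∑ j ∈ range P, F (j + 1 + m) :=
      sum_congr rfl fun j _ => by rw [show j + (m + 1) = j + 1 + m by ring]
    rw [h3]
    linear_combination (-1 : ZMod 2) * h + (∑ j ∈ range P, F (j + 1 + m)) * two0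

theorem sum_half (F : ℕ → ZMod 2) (P : ℕ) (hF : ∀ j, F (j + P) = F j) :
    ∑ j ∈ range (2 * P), F j = 0 := by
  rw [two_mul, sum_range_add]
  have : ∑ x ∈ range P, F (P + x) = ∑ x ∈ range P, F x :=
    sum_congr rfl fun x _ => by rw [add_comm P x, hF]
  rw [this, add_self0]

theorem gs3 : Spec.GS3 := by
  intro G e
  -- the three families of faces
  set A : Bool → ℕ → ℕ → ℕ → ZMod 2 :=
    fun b i j k => K2 (fun u w => G.g b i (j + u) (k + w)) e with hA
  set B : Bool → ℕ → ℕ → ℕ → ZMod 2 :=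
    fun b i j k => K2 (fun u w => G.g b (i + u) j (k + w)) e with hB
  set C : Bool → ℕ → ℕ → ℕ → ZMod 2 :=
    fun b i j k => K2 (fun u w => G.g b (i + u) (j + w) k) e with hC
  have h1 : ∀ b i j k, K3 (fun u v w => G.g b (i + u) (j + v) (k + w)) (d2 e) =
      (A b i j k + A b (i + 1) j k) + (B b i j k + B b i (j + 1) k) +
        (C b i j k + C b i j (k + 1)) := by
    intro b i j k
    rw [K3_d2]
    simp only [hA, hB, hC, add_zero]
  have hS : S3 G (d2 e) =
      ∑ b : Bool, ((∑ j ∈ range (8 * G.N), ∑ k ∈ range G.N, (A b 0 j k + A b (2 * G.N) j k)) +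
        (∑ i ∈ range (2 * G.N), ∑ k ∈ range G.N, (B b i 0 k + B b i (8 * G.N) k)) +
        (∑ i ∈ range (2 * G.N), ∑ j ∈ range (8 * G.N), (C b i j 0 + C b i j G.N))) := by
    unfold S3
    refine sum_congr rfl fun b _ => ?_
    simp only [h1]
    have e1 : ∑ i ∈ range (2 * G.N), ∑ j ∈ range (8 * G.N), ∑ k ∈ range G.N,
        (A b i j k + A b (i + 1) j k) =
        ∑ j ∈ range (8 * G.N), ∑ k ∈ range G.N, (A b 0 j k + A b (2 * G.N) j k) := by
      rw [sum_comm]
      refine sum_congr rfl fun j _ => ?_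
      rw [sum_comm]
      refine sum_congr rfl fun k _ => ?_
      exact tel (fun i => A b i j k) (2 * G.N)
    have e2 : ∑ i ∈ range (2 * G.N), ∑ j ∈ range (8 * G.N), ∑ k ∈ range G.N,
        (B b i j k + B b i (j + 1) k) =
        ∑ i ∈ range (2 * G.N), ∑ k ∈ range G.N, (B b i 0 k + B b i (8 * G.N) k) := by
      refine sum_congr rfl fun i _ => ?_
      rw [sum_comm]
      refine sum_congr rfl fun k _ => ?_
      exact tel (fun j => B b i j k) (8 * G.N)
    have e3 : ∑ i ∈ range (2 * G.N), ∑ j ∈ range (8 * G.N), ∑ k ∈ range G.N,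
        (C b i j k + C b i j (k + 1)) =
        ∑ i ∈ range (2 * G.N), ∑ j ∈ range (8 * G.N), (C b i j 0 + C b i j G.N) := by
      refine sum_congr rfl fun i _ => ?_
      refine sum_congr rfl fun j _ => ?_
      exact tel (fun k => C b i j k) G.N
    rw [← e1, ← e2, ← e3]
    simp only [sum_add_distrib]
  -- the j-faces
  have hBz : ∀ b i k, B b i 0 k + B b i (8 * G.N) k = 0 := by
    intro b i k
    have : B b i (8 * G.N) k = B b i 0 k := by
      simp only [hB, K2]
      have := G.hper b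
      have h0 : ∀ i k, G.g b i (8 * G.N) k = G.g b i 0 k := fun i k => by
        have := G.hper b i 0 k
        simpa using this
      simp only [h0]
    rw [this, add_self0]
  -- the i = 0 faces
  have hA0 : ∀ b k, ∑ j ∈ range (8 * G.N), A b 0 j k = 0 := by
    intro b k
    rw [show 8 * G.N = 2 * (4 * G.N) by ring]
    apply sum_half
    intro j
    simp only [hA, K2]
    have hp : ∀ j k, G.g b 0 (j + 4 * G.N) k = G.g b 0 j k := fun j k => G.hpole b j k
    have r : ∀ u, j + 4 * G.N + u = (j + u) + 4 * G.N := fun u => by ring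
    simp only [r, hp]
  -- the i = 2G.N faces
  have hA2 : ∀ k, ∑ j ∈ range (8 * G.N), A true (2 * G.N) j k = ∑ j ∈ range (8 * G.N), A false (2 * G.N) j k := by
    intro k
    have h3 : ∀ j, A true (2 * G.N) j k = A false (2 * G.N) (j + 4 * G.N) k := by
      intro j
      simp only [hA, K2]
      have r : ∀ u, j + 4 * G.N + u = (j + u) + 4 * G.N := fun u => by ring
      simp only [r, G.heq]
    simp only [h3]
    refine sum_shift (fun j => A false (2 * G.N) j k) (8 * G.N) ?_ (4 * G.N)
    intro j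
    simp only [hA, K2]
    have r : ∀ u, j + 8 * G.N + u = (j + u) + 8 * G.N := fun u => by ring
    simp only [r, G.hper]
  -- the k faces
  have hC0 : ∀ i j, C true i j 0 = C false i j 0 := by
    intro i j
    simp only [hC, K2, G.h0]
  have hCN : ∀ i j, C true i j G.N = K2 (fun u w => G.g false (i + u) (j + w) G.N) (sw2 e) := by
    intro i j
    simp only [hC, K2, G.hsw, sw2]
  rw [hS]
  have hAall : ∀ b, ∑ j ∈ range (8 * G.N), ∑ k ∈ range G.N, (A b 0 j k + A b (2 * G.N) j k) =
      ∑ k ∈ range G.N, ∑ j ∈ range (8 * G.N), A b (2 * G.N) j k := by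
    intro b
    rw [sum_comm]
    refine sum_congr rfl fun k _ => ?_
    rw [sum_add_distrib, hA0, zero_add]
  simp only [hAall, hBz, sum_const_zero, add_zero, Fintype.sum_bool, hA2]
  have e5 : (∑ i ∈ range (2 * G.N), ∑ j ∈ range (8 * G.N), (C true i j 0 + C true i j G.N)) +
      (∑ i ∈ range (2 * G.N), ∑ j ∈ range (8 * G.N), (C false i j 0 + C false i j G.N)) =
      S2 G e + S2 G (sw2 e) := by
    unfold S2
    rw [← sum_add_distrib, ← sum_add_distrib]
    refine sum_congr rfl fun i _ => ?_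
    rw [← sum_add_distrib, ← sum_add_distrib]
    refine sum_congr rfl fun j _ => ?_
    rw [hC0, hCN]
    have : C false i j G.N = K2 (fun u w => G.g false (i + u) (j + w) G.N) e := rfl
    rw [this]
    linear_combination (C false i j 0) * two0
  linear_combination e5 + (∑ k ∈ range G.N, ∑ j ∈ range (8 * G.N), A false (2 * G.N) j k) * two0

theorem gs2 : Spec.GS2 := by
  intro G e
  unfold S2
  simp only [K2_d1, add_zero]
  set a : ℕ → ℕ → ZMod 2 := fun i j => e (G.g false i j G.N) (G.g false i (j + 1) G.N) with ha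
  set b : ℕ → ℕ → ZMod 2 := fun i j => e (G.g false i j G.N) (G.g false (i + 1) j G.N) with hb
  have h1 : ∀ i j, (e (G.g false i j G.N) (G.g false i (j + 1) G.N) +
      e (G.g false (i + 1) j G.N) (G.g false (i + 1) (j + 1) G.N) +
      (e (G.g false i j G.N) (G.g false (i + 1) j G.N) +
        e (G.g false i (j + 1) G.N) (G.g false (i + 1) (j + 1) G.N))) =
      (a i j + a (i + 1) j) + (b i j + b i (j + 1)) := fun i j => rfl
  simp only [h1]
  rw [show ∑ i ∈ range (2 * G.N), ∑ j ∈ range (8 * G.N), ((a i j + a (i + 1) j) + (b i j + b i (j + 1))) =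
    (∑ i ∈ range (2 * G.N), ∑ j ∈ range (8 * G.N), (a i j + a (i + 1) j)) +
    ∑ i ∈ range (2 * G.N), ∑ j ∈ range (8 * G.N), (b i j + b i (j + 1)) by
      simp only [sum_add_distrib]]
  have hb0 : ∀ i, ∑ j ∈ range (8 * G.N), (b i j + b i (j + 1)) = 0 := by
    intro i
    rw [tel (fun j => b i j)]
    have h0 : ∀ i, G.g false i (8 * G.N) G.N = G.g false i 0 G.N := fun i => by
      have := G.hper false i 0 G.N
      simpa using this
    simp only [hb, h0, add_self0]
  have ha0 : ∑ i ∈ range (2 * G.N), ∑ j ∈ range (8 * G.N), (a i j + a (i + 1) j) =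
      ∑ j ∈ range (8 * G.N), (a 0 j + a (2 * G.N) j) := by
    rw [sum_comm]
    exact sum_congr rfl fun j _ => tel (fun i => a i j) _
  have hpole : ∑ j ∈ range (8 * G.N), a 0 j = 0 := by
    rw [show 8 * G.N = 2 * (4 * G.N) by ring]
    apply sum_half
    intro j
    simp only [ha, G.hpole, show j + 4 * G.N + 1 = (j + 1) + 4 * G.N by ring]
  rw [ha0, sum_congr rfl fun i _ => hb0 i, sum_const_zero, add_zero, sum_add_distrib, hpole, zero_add]
  rw [show 8 * G.N = 4 * G.N + 4 * G.N by ring, sum_range_add]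
  unfold S1
  congr 1
  refine sum_congr rfl fun j _ => ?_
  have h3 : ∀ j, G.g false (2 * G.N) (4 * G.N + j) G.N = sw (G.g false (2 * G.N) j G.N) := fun j => by
    rw [add_comm, G.heq, G.hsw]
  simp only [ha, sw1, ← h3, add_assoc]

theorem gs1 : Spec.GS1 := by
  intro G
  unfold S1
  simp only [d0]
  rw [tel (fun j => sg (G.g false (2 * G.N) j G.N))]
  have h3 : G.g false (2 * G.N) (4 * G.N) G.N = sw (G.g false (2 * G.N) 0 G.N) := by
    have := G.heq 0 G.N
    rw [zero_add] at this
    rw [this, G.hsw]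
  rw [h3]
  have hok := G.hok false (2 * G.N) 0 G.N 0 0 0 0 0 0 (by norm_num) (by norm_num) (by norm_num)
    (by norm_num) (by norm_num) (by norm_num)
  simp only [add_zero] at hok
  generalize G.g false (2 * G.N) 0 G.N = f at hok ⊢
  have h1 : f.2.1 ≠ f.2.2 := hok.2.2.1
  simp only [sg, sw]
  rcases lt_or_gt_of_ne h1 with h | h
  · rw [if_neg (not_lt.mpr h.le), if_pos h, zero_add]
  · rw [if_pos h, if_neg (not_lt.mpr h.le), add_zero]

end Crest.B29
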