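import Crest.Agent.H16BRGS

/-! rid 50 (S0069), grid backup: cell number N4 (helper16). -/

set_option autoImplicit false

namespace Crest.B29

open Finset

theorem i3_xxz {t1 t2 t3 : Fin 6} (h12 : t1 ≠ t2) (h13 : t1 ≠ t3) (h23 : t2 ≠ t3) (x z : Fin 6) :
    i3 t1 t2 t3 x x z = 0 := by
  unfold i3
  rw [if_neg]
  rintro (⟨a, b, _⟩ | ⟨a, b, _⟩ | ⟨a, b, _⟩ | ⟨a, b, _⟩ | ⟨a, b, _⟩ | ⟨a, b, _⟩) <;>
    (rw [a] at b
     first
      | exact h12 b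
      | exact h13 b
      | exact h23 b
      | exact h12 b.symm
      | exact h13 b.symm
      | exact h23 b.symm)

theorem i3_xyy {t1 t2 t3 : Fin 6} (h12 : t1 ≠ t2) (h13 : t1 ≠ t3) (h23 : t2 ≠ t3) (x y : Fin 6) :
    i3 t1 t2 t3 x y y = 0 := by
  unfold i3
  rw [if_neg]
  rintro (⟨_, a, b⟩ | ⟨_, a, b⟩ | ⟨_, a, b⟩ | ⟨_, a, b⟩ | ⟨_, a, b⟩ | ⟨_, a, b⟩) <;>
    (rw [a] at b
     first
      | exact h12 b
      | exact h13 b
      | exact h23 b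
      | exact h12 b.symm
      | exact h13 b.symm
      | exact h23 b.symm)

theorem K3_C321 {t1 t2 t3 : Fin 6} (h12 : t1 ≠ t2) (h13 : t1 ≠ t3) (h23 : t2 ≠ t3) (p1 p2 q : Fin 6)
    (v : ℕ → ℕ → ℕ → CF) (Y : ℕ → ℕ → Fin 6) (hv : ∀ u w t, (v u w t).1 = Y u w) :
    K3 v (C321 t1 t2 t3 p1 p2 q) =
      (i3 t1 t2 t3 (Y 0 0) (Y 1 0) (Y 1 1) + i3 t1 t2 t3 (Y 0 0) (Y 0 1) (Y 1 1)) *
      (i2 p1 p2 (v 1 1 0).2.1 (v 1 1 1).2.1 * i1 q (v 1 1 1).2.2) := by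
  simp only [K3, C321, hv, i3_xxz h12 h13 h23, i3_xyy h12 h13 h23, zero_mul, add_zero]
  ring

theorem K3_swC321 {t1 t2 t3 : Fin 6} (h12 : t1 ≠ t2) (h13 : t1 ≠ t3) (h23 : t2 ≠ t3) (p1 p2 q : Fin 6)
    (v : ℕ → ℕ → ℕ → CF) (Y : ℕ → ℕ → Fin 6) (hv : ∀ u w t, (v u w t).1 = Y u w) :
    K3 v (sw3 (C321 t1 t2 t3 p1 p2 q)) =
      (i3 t1 t2 t3 (Y 0 0) (Y 1 0) (Y 1 1) + i3 t1 t2 t3 (Y 0 0) (Y 0 1) (Y 1 1)) *
      (i2 p1 p2 (v 1 1 0).2.2 (v 1 1 1).2.2 * i1 q (v 1 1 1).2.1) := by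
  have h := K3_C321 h12 h13 h23 p1 p2 q (fun u w t => sw (v u w t)) Y (fun u w t => by simp [sw, hv])
  exact h

/-- order `p1 < q < p2` on ordered pairs -/
def sN (p1 p2 q : Fin 6) (z z' : Fin 6) : ZMod 2 :=
  if (z = p1 ∧ z' = q) ∨ (z = p1 ∧ z' = p2) ∨ (z = q ∧ z' = p2) then 1 else 0

theorem sN_step {p1 p2 q : Fin 6} (h12 : p1 ≠ p2) (h1q : p1 ≠ q) (h2q : p2 ≠ q) (z z' w w' : Fin 6)
    (hz : z = p1 ∨ z = p2 ∨ z = q) (hz' : z' = p1 ∨ z' = p2 ∨ z' = q)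
    (hw : w = p1 ∨ w = p2 ∨ w = q) (hw' : w' = p1 ∨ w' = p2 ∨ w' = q)
    (a1 : z ≠ z') (a2 : w ≠ w') (a3 : z ≠ w') (a4 : w ≠ z') :
    i2 p1 p2 z w * i1 q w' + i2 p1 p2 z' w' * i1 q w = sN p1 p2 q z z' + sN p1 p2 q w w' := by
  have h21 := h12.symm
  have hq1 := h1q.symm
  have hq2 := h2q.symm
  have e : (1 : ZMod 2) + 1 = 0 := rfl
  rcases hz with rfl | rfl | rfl <;> rcases hz' with rfl | rfl | rfl <;>
    first
    | exact absurd rfl a1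
    | (rcases hw with rfl | rfl | rfl <;> rcases hw' with rfl | rfl | rfl <;>
        first
        | exact absurd rfl a1 | exact absurd rfl a2 | exact absurd rfl a3 | exact absurd rfl a4
        | simp [i2, i1, sN, h12, h1q, h2q, h21, hq1, hq2, e])

theorem sN_sw {p1 p2 q : Fin 6} (h12 : p1 ≠ p2) (h1q : p1 ≠ q) (h2q : p2 ≠ q) (z z' : Fin 6)
    (hz : z = p1 ∨ z = p2 ∨ z = q) (hz' : z' = p1 ∨ z' = p2 ∨ z' = q) (a1 : z ≠ z') :
    sN p1 p2 q z z' + sN p1 p2 q z' z = 1 := by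
  have h21 := h12.symm
  have hq1 := h1q.symm
  have hq2 := h2q.symm
  rcases hz with rfl | rfl | rfl <;> rcases hz' with rfl | rfl | rfl <;>
    first
    | exact absurd rfl a1
    | simp [sN, h12, h1q, h2q, h21, hq1, hq2]

theorem cover6 {t1 t2 t3 p1 p2 q : Fin 6} (h : [t1, t2, t3, p1, p2, q].Nodup) (z : Fin 6)
    (h1 : z ≠ t1) (h2 : z ≠ t2) (h3 : z ≠ t3) : z = p1 ∨ z = p2 ∨ z = q := by
  have hc : ([t1, t2, t3, p1, p2, q].toFinset).card = 6 := by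
    rw [List.toFinset_card_of_nodup h]; rfl
  have hu : [t1, t2, t3, p1, p2, q].toFinset = Finset.univ :=
    Finset.eq_univ_of_card _ (by rw [hc]; rfl)
  have hz : z ∈ [t1, t2, t3, p1, p2, q].toFinset := by rw [hu]; exact Finset.mem_univ z
  rw [List.mem_toFinset] at hz
  simp only [List.mem_cons, List.not_mem_nil, or_false] at hz
  rcases hz with h | h | h | h | h | h
  · exact absurd h h1
  · exact absurd h h2
  · exact absurd h h3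
  · exact Or.inl h
  · exact Or.inr (Or.inl h)
  · exact Or.inr (Or.inr h)

theorem i3_ne0 {t1 t2 t3 x y z : Fin 6} (h : i3 t1 t2 t3 x y z ≠ 0) (w : Fin 6)
    (hx : x ≠ w) (hy : y ≠ w) (hz : z ≠ w) : w ≠ t1 ∧ w ≠ t2 ∧ w ≠ t3 := by
  unfold i3 at h
  split_ifs at h with h1
  · rcases h1 with ⟨a, b, c⟩ | ⟨a, b, c⟩ | ⟨a, b, c⟩ | ⟨a, b, c⟩ | ⟨a, b, c⟩ | ⟨a, b, c⟩ <;>
      (rw [a] at hx; rw [b] at hy; rw [c] at hz
       refine ⟨?_, ?_, ?_⟩ <;> (intro e; rw [e] at hx hy hz; first | exact hx rfl | exact hy rfl | exact hz rfl))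
  · exact absurd rfl h

theorem col (G : Grid) {p1 p2 q : Fin 6} (h12 : p1 ≠ p2) (h1q : p1 ≠ q) (h2q : p2 ≠ q) (I J : ℕ)
    (hz : ∀ b k, (G.g b I J k).2.1 = p1 ∨ (G.g b I J k).2.1 = p2 ∨ (G.g b I J k).2.1 = q)
    (hz' : ∀ b k, (G.g b I J k).2.2 = p1 ∨ (G.g b I J k).2.2 = p2 ∨ (G.g b I J k).2.2 = q) :
    ∑ b : Bool, ∑ k ∈ range G.N,
      (i2 p1 p2 (G.g b I J k).2.1 (G.g b I J (k + 1)).2.1 * i1 q (G.g b I J (k + 1)).2.2 +
       i2 p1 p2 (G.g b I J k).2.2 (G.g b I J (k + 1)).2.2 * i1 q (G.g b I J (k + 1)).2.1) = 1 := by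
  have hok : ∀ b k v, v ≤ 1 → ok (G.g b I J k) (G.g b I J (k + v)) := by
    intro b k v hv
    have := G.hok b I J k 0 0 0 0 0 v (by norm_num) (by norm_num) (by norm_num)
      (by norm_num) (by norm_num) hv
    simpa using this
  have hd : ∀ b k, (G.g b I J k).2.1 ≠ (G.g b I J k).2.2 := fun b k => by
    have := hok b k 0 (by norm_num)
    exact this.2.2.1
  have hstep : ∀ b k, i2 p1 p2 (G.g b I J k).2.1 (G.g b I J (k + 1)).2.1 * i1 q (G.g b I J (k + 1)).2.2 +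
       i2 p1 p2 (G.g b I J k).2.2 (G.g b I J (k + 1)).2.2 * i1 q (G.g b I J (k + 1)).2.1 =
       sN p1 p2 q (G.g b I J k).2.1 (G.g b I J k).2.2 +
       sN p1 p2 q (G.g b I J (k + 1)).2.1 (G.g b I J (k + 1)).2.2 := by
    intro b k
    have h := hok b k 1 le_rfl
    exact sN_step h12 h1q h2q _ _ _ _ (hz b k) (hz' b k) (hz b (k + 1)) (hz' b (k + 1)) (hd b k)
      (hd b (k + 1)) h.2.2.1 h.2.2.2.2.2
  simp only [hstep]
  have htel : ∀ b, ∑ k ∈ range G.N, (sN p1 p2 q (G.g b I J k).2.1 (G.g b I J k).2.2 +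
       sN p1 p2 q (G.g b I J (k + 1)).2.1 (G.g b I J (k + 1)).2.2) =
       sN p1 p2 q (G.g b I J 0).2.1 (G.g b I J 0).2.2 +
       sN p1 p2 q (G.g b I J G.N).2.1 (G.g b I J G.N).2.2 := fun b =>
    tel (fun k => sN p1 p2 q (G.g b I J k).2.1 (G.g b I J k).2.2) G.N
  simp only [htel, Fintype.sum_bool, G.h0, G.hsw, sw]
  have := sN_sw h12 h1q h2q _ _ (hz false G.N) (hz' false G.N) (hd false G.N)
  linear_combination this + (sN p1 p2 q (G.g false I J 0).2.1 (G.g false I J 0).2.2) * two0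

theorem n4 : Spec.N4 := by
  intro G t1 t2 t3 p1 p2 q hnd
  have h12 : t1 ≠ t2 := by rintro rfl; simp at hnd
  have h13 : t1 ≠ t3 := by rintro rfl; simp at hnd
  have h23 : t2 ≠ t3 := by rintro rfl; simp at hnd
  have g12 : p1 ≠ p2 := by rintro rfl; simp at hnd
  have g1q : p1 ≠ q := by rintro rfl; simp at hnd
  have g2q : p2 ≠ q := by rintro rfl; simp at hnd
  have hcol : ∀ i j (x y z : Fin 6), (∃ u1 u2, u1 ≤ 1 ∧ u2 ≤ 1 ∧ x = G.Y (i + u1) (j + u2)) →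
      (∃ u1 u2, u1 ≤ 1 ∧ u2 ≤ 1 ∧ y = G.Y (i + u1) (j + u2)) →
      (∃ u1 u2, u1 ≤ 1 ∧ u2 ≤ 1 ∧ z = G.Y (i + u1) (j + u2)) →
      i3 t1 t2 t3 x y z * ∑ b : Bool, ∑ k ∈ range G.N,
      (i2 p1 p2 (G.g b (i + 1) (j + 1) k).2.1 (G.g b (i + 1) (j + 1) (k + 1)).2.1 *
          i1 q (G.g b (i + 1) (j + 1) (k + 1)).2.2 +
       i2 p1 p2 (G.g b (i + 1) (j + 1) k).2.2 (G.g b (i + 1) (j + 1) (k + 1)).2.2 *
          i1 q (G.g b (i + 1) (j + 1) (k + 1)).2.1) = i3 t1 t2 t3 x y z := by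
    intro i j x y z hx hy hz
    by_cases h0 : i3 t1 t2 t3 x y z = 0
    · rw [h0, zero_mul]
    have key : ∀ (w : Fin 6) b k, (w = (G.g b (i + 1) (j + 1) k).2.1 ∨ w = (G.g b (i + 1) (j + 1) k).2.2) →
        ∀ c : Fin 6, (∃ u1 u2, u1 ≤ 1 ∧ u2 ≤ 1 ∧ c = G.Y (i + u1) (j + u2)) → c ≠ w := by
      rintro w b k hw c ⟨u1, u2, hu1, hu2, rfl⟩
      have := G.hok b i j k u1 u2 0 1 1 0 hu1 hu2 (by norm_num) le_rfl le_rfl (by norm_num)
      simp only [add_zero] at this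
      rw [← G.hY b (i + u1) (j + u2) k]
      rcases hw with rfl | rfl
      · exact this.1
      · exact this.2.1
    have mem : ∀ (w : Fin 6) b k, (w = (G.g b (i + 1) (j + 1) k).2.1 ∨ w = (G.g b (i + 1) (j + 1) k).2.2) →
        w = p1 ∨ w = p2 ∨ w = q := by
      intro w b k hw
      obtain ⟨a1, a2, a3⟩ := i3_ne0 h0 w (key w b k hw x hx) (key w b k hw y hy) (key w b k hw z hz)
      exact cover6 hnd w a1 a2 a3
    rw [col G g12 g1q g2q (i + 1) (j + 1) (fun b k => mem _ b k (Or.inl rfl))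
      (fun b k => mem _ b k (Or.inr rfl)), mul_one]
  have hK : ∀ b i j k, K3 (fun u v w => G.g b (i + u) (j + v) (k + w)) (C321 t1 t2 t3 p1 p2 q) =
      (i3 t1 t2 t3 (G.Y i j) (G.Y (i + 1) j) (G.Y (i + 1) (j + 1)) +
       i3 t1 t2 t3 (G.Y i j) (G.Y i (j + 1)) (G.Y (i + 1) (j + 1))) *
      (i2 p1 p2 (G.g b (i + 1) (j + 1) k).2.1 (G.g b (i + 1) (j + 1) (k + 1)).2.1 *
        i1 q (G.g b (i + 1) (j + 1) (k + 1)).2.2) := by
    intro b i j k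
    rw [K3_C321 h12 h13 h23 p1 p2 q (fun u v w => G.g b (i + u) (j + v) (k + w))
      (fun u v => G.Y (i + u) (j + v)) (fun u v w => G.hY _ _ _ _)]
    simp only [add_zero]
  have hK' : ∀ b i j k, K3 (fun u v w => G.g b (i + u) (j + v) (k + w)) (sw3 (C321 t1 t2 t3 p1 p2 q)) =
      (i3 t1 t2 t3 (G.Y i j) (G.Y (i + 1) j) (G.Y (i + 1) (j + 1)) +
       i3 t1 t2 t3 (G.Y i j) (G.Y i (j + 1)) (G.Y (i + 1) (j + 1))) *
      (i2 p1 p2 (G.g b (i + 1) (j + 1) k).2.2 (G.g b (i + 1) (j + 1) (k + 1)).2.2 *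
        i1 q (G.g b (i + 1) (j + 1) (k + 1)).2.1) := by
    intro b i j k
    rw [K3_swC321 h12 h13 h23 p1 p2 q (fun u v w => G.g b (i + u) (j + v) (k + w))
      (fun u v => G.Y (i + u) (j + v)) (fun u v w => G.hY _ _ _ _)]
    simp only [add_zero]
  unfold S3 nT
  simp only [hK, hK', ← sum_add_distrib, ← mul_add]
  rw [sum_comm]
  refine sum_congr rfl fun i _ => ?_
  rw [sum_comm]
  refine sum_congr rfl fun j _ => ?_
  simp only [← mul_sum]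
  have e1 := hcol i j (G.Y i j) (G.Y (i + 1) j) (G.Y (i + 1) (j + 1))
    ⟨0, 0, by norm_num, by norm_num, rfl⟩ ⟨1, 0, by norm_num, by norm_num, rfl⟩
    ⟨1, 1, by norm_num, by norm_num, rfl⟩
  have e2 := hcol i j (G.Y i j) (G.Y i (j + 1)) (G.Y (i + 1) (j + 1))
    ⟨0, 0, by norm_num, by norm_num, rfl⟩ ⟨0, 1, by norm_num, by norm_num, rfl⟩
    ⟨1, 1, by norm_num, by norm_num, rfl⟩
  rw [add_mul, e1, e2]

end Crest.B29
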