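import Mathlib
import Crest.Prelude.Def_NonlocalGame

/-!
H26OneShot: the one-shot value bound for arbitrary finite index types, sub-normalised POVMs and
unnormalised vectors.
-/

set_option autoImplicit false

namespace Crest.H26OneShot

open scoped Kronecker ComplexOrder BigOperators
open Crest.MathPhysics.NonlocalGame

universe u w

/-- the real number `Re ⟨ψ, (A ⊗ B) ψ⟩` -/
noncomputable def bra {α β : Type*} [Fintype α] [Fintype β]
    (ψ : α × β → ℂ) (A : Matrix α α ℂ) (B : Matrix β β ℂ) : ℝ :=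
  (dotProduct (star ψ) ((A ⊗ₖ B).mulVec ψ)).re

section bra
variable {α β : Type*} [Fintype α] [Fintype β]

/-- quadratic form of a Kronecker product of psd matrices is nonnegative -/
theorem bra_nonneg [DecidableEq α] [DecidableEq β]
    (ψ : α × β → ℂ) {A : Matrix α α ℂ} {B : Matrix β β ℂ} (hA : A.PosSemidef) (hB : B.PosSemidef) :
    0 ≤ bra ψ A B := by
  have h2 := (Matrix.PosSemidef.dotProduct_mulVec_nonneg (hA.kronecker hB) ψ)
  exact (Complex.le_def.1 h2).1

theorem bra_add_left (ψ : α × β → ℂ) (A A' : Matrix α α ℂ) (B : Matrix β β ℂ) :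
    bra ψ (A + A') B = bra ψ A B + bra ψ A' B := by
  simp [bra, Matrix.add_kronecker, Matrix.add_mulVec, dotProduct_add]

theorem bra_add_right (ψ : α × β → ℂ) (A : Matrix α α ℂ) (B B' : Matrix β β ℂ) :
    bra ψ A (B + B') = bra ψ A B + bra ψ A B' := by
  simp [bra, Matrix.kronecker_add, Matrix.add_mulVec, dotProduct_add]

theorem bra_mono [DecidableEq α] [DecidableEq β] (ψ : α × β → ℂ)
    {A : Matrix α α ℂ} {B : Matrix β β ℂ} {A' : Matrix α α ℂ} {B' : Matrix β β ℂ}
    (hA : A.PosSemidef) (hB' : B'.PosSemidef) (hAA : (A' - A).PosSemidef)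
    (hBB : (B' - B).PosSemidef) : bra ψ A B ≤ bra ψ A' B' := by
  have e1 : bra ψ A' B' = bra ψ A B' + bra ψ (A' - A) B' := by
    rw [← bra_add_left]; congr 1; abel
  have e2 : bra ψ A B' = bra ψ A B + bra ψ A (B' - B) := by
    rw [← bra_add_right]; congr 1; abel
  have h1 := bra_nonneg ψ hAA hB'
  have h2 := bra_nonneg ψ hA hBB
  linarith

theorem bra_smul (c : ℂ) (ψ : α × β → ℂ) (A : Matrix α α ℂ) (B : Matrix β β ℂ) :
    bra (c • ψ) A B = ‖c‖ ^ 2 * bra ψ A B := by
  unfold bra
  rw [Matrix.mulVec_smul, star_smul, smul_dotProduct, dotProduct_smul]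
  rw [smul_eq_mul, smul_eq_mul, ← mul_assoc]
  have : star c * c = ((‖c‖ ^ 2 : ℝ) : ℂ) := by
    rw [Complex.star_def, Complex.conj_mul']
    push_cast; rfl
  rw [this, Complex.re_ofReal_mul]

theorem bra_reindex {α' β' : Type*} [Fintype α'] [Fintype β'] (e : α ≃ α') (f : β ≃ β')
    (ψ : α × β → ℂ) (A : Matrix α α ℂ) (B : Matrix β β ℂ) :
    bra (fun p : α' × β' => ψ (e.symm p.1, f.symm p.2)) (A.submatrix e.symm e.symm)
      (B.submatrix f.symm f.symm) = bra ψ A B := by
  unfold bra
  congr 1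
  unfold dotProduct Matrix.mulVec dotProduct
  refine (Fintype.sum_equiv (e.prodCongr f) _ _ ?_).symm
  intro p
  simp only [Pi.star_apply, Equiv.prodCongr_apply, Prod.map_fst, Prod.map_snd, Equiv.symm_apply_apply]
  congr 1
  refine (Fintype.sum_equiv (e.prodCongr f) _ _ ?_)
  intro q
  simp [Matrix.kroneckerMap_apply]

end bra

/-- value of a one-shot strategy given by arbitrary psd families -/
noncomputable def val1 (G : Game) {α β : Type*} [Fintype α] [Fintype β]
    (ψ : α × β → ℂ) (M : Fin G.nX → Fin G.nA → Matrix α α ℂ)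
    (N : Fin G.nY → Fin G.nB → Matrix β β ℂ) : ℝ :=
  ∑ x, ∑ y, G.prob x y * ∑ a, ∑ b, if G.accept x y a b = true then bra ψ (M x a) (N y b) else 0

variable {G : Game} {v : ℝ}

/-- the exact case -/
theorem val1_le_fin (hv : ∀ (dA dB : ℕ) (S : Strategy G 1 dA dB), S.probWinsAtLeast 1 ≤ v)
    {dA dB : ℕ} (ψ : Fin dA × Fin dB → ℂ) (hψ : ∑ i, ‖ψ i‖ ^ 2 = 1)
    (M : Fin G.nX → Fin G.nA → Matrix (Fin dA) (Fin dA) ℂ)
    (N : Fin G.nY → Fin G.nB → Matrix (Fin dB) (Fin dB) ℂ)
    (hM : ∀ x a, (M x a).PosSemidef) (hN : ∀ y b, (N y b).PosSemidef)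
    (hMs : ∀ x, ∑ a, M x a = 1) (hNs : ∀ y, ∑ b, N y b = 1) :
    val1 G ψ M N ≤ v := by
  classical
  let S : Strategy G 1 dA dB :=
    { ψ := ψ
      ψ_norm := hψ
      M := fun x a => M (x 0) (a 0)
      N := fun y b => N (y 0) (b 0)
      M_posSemidef := fun x a => hM _ _
      N_posSemidef := fun y b => hN _ _
      M_sum := fun x => by
        rw [← hMs (x 0)]
        exact Fintype.sum_equiv (Equiv.funUnique (Fin 1) (Fin G.nA)) _ _ (fun a => rfl)
      N_sum := fun y => by
        rw [← hNs (y 0)]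
        exact Fintype.sum_equiv (Equiv.funUnique (Fin 1) (Fin G.nB)) _ _ (fun a => rfl) }
  have h := hv dA dB S
  refine le_trans (le_of_eq ?_) h
  unfold val1 Strategy.probWinsAtLeast
  refine (Fintype.sum_equiv (Equiv.funUnique (Fin 1) (Fin G.nX)) _ _ (fun x => ?_)).symm
  refine (Fintype.sum_equiv (Equiv.funUnique (Fin 1) (Fin G.nY)) _ _ (fun y => ?_))
  have e1 : (∏ i, G.prob (x i) (y i)) = G.prob (x 0) (y 0) := by simp
  rw [e1]
  have e2 : (Equiv.funUnique (Fin 1) (Fin G.nX)) x = x 0 := rfl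
  have e3 : (Equiv.funUnique (Fin 1) (Fin G.nY)) y = y 0 := rfl
  rw [e2, e3]
  congr 1
  refine (Fintype.sum_equiv (Equiv.funUnique (Fin 1) (Fin G.nA)) _ _ (fun a => ?_))
  refine (Fintype.sum_equiv (Equiv.funUnique (Fin 1) (Fin G.nB)) _ _ (fun b => ?_))
  have e4 : (Equiv.funUnique (Fin 1) (Fin G.nA)) a = a 0 := rfl
  have e5 : (Equiv.funUnique (Fin 1) (Fin G.nB)) b = b 0 := rfl
  rw [e4, e5]
  have hw : ((1 : ℝ) ≤ (wins G 1 x y a b : ℝ)) ↔ (G.accept (x 0) (y 0) (a 0) (b 0) = true) := by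
    unfold wins
    rw [Nat.one_le_cast, Nat.one_le_iff_ne_zero, Finset.card_ne_zero]
    constructor
    · rintro ⟨i, hi⟩
      have : i = 0 := Subsingleton.elim _ _
      subst this
      simpa using hi
    · intro h
      exact ⟨0, by simpa using h⟩
  by_cases hacc : G.accept (x 0) (y 0) (a 0) (b 0) = true
  · rw [if_pos (hw.2 hacc), if_pos hacc]; rfl
  · rw [if_neg (fun h => hacc (hw.1 h)), if_neg hacc]

theorem val1_reindex {α β α' β' : Type*} [Fintype α] [Fintype β] [Fintype α'] [Fintype β']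
    (e : α ≃ α') (f : β ≃ β') (ψ : α × β → ℂ) (M : Fin G.nX → Fin G.nA → Matrix α α ℂ)
    (N : Fin G.nY → Fin G.nB → Matrix β β ℂ) :
    val1 G (fun p : α' × β' => ψ (e.symm p.1, f.symm p.2))
      (fun x a => (M x a).submatrix e.symm e.symm) (fun y b => (N y b).submatrix f.symm f.symm)
      = val1 G ψ M N := by
  unfold val1
  simp only [bra_reindex]

/-- nonnegativity of `v` -/
theorem v_nonneg (hv : ∀ (dA dB : ℕ) (S : Strategy G 1 dA dB), S.probWinsAtLeast 1 ≤ v)
    (hA : 0 < G.nA) (hB : 0 < G.nB) : 0 ≤ v := by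
  classical
  have h := val1_le_fin (G := G) hv (dA := 1) (dB := 1) (fun _ => 1) (by simp)
    (fun _ a => if a = ⟨0, hA⟩ then 1 else 0) (fun _ b => if b = ⟨0, hB⟩ then 1 else 0)
    (fun _ a => by
      split_ifs
      · exact Matrix.PosSemidef.one
      · exact Matrix.PosSemidef.zero)
    (fun _ a => by
      split_ifs
      · exact Matrix.PosSemidef.one
      · exact Matrix.PosSemidef.zero)
    (fun _ => by simp) (fun _ => by simp)
  refine le_trans ?_ h
  unfold val1
  refine Finset.sum_nonneg fun x _ => Finset.sum_nonneg fun y _ => mul_nonneg (G.prob_nonneg x y) ?_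
  refine Finset.sum_nonneg fun a _ => Finset.sum_nonneg fun b _ => ?_
  split_ifs
  · refine bra_nonneg _ ?_ ?_
    · show (if a = ⟨0, hA⟩ then (1 : Matrix (Fin 1) (Fin 1) ℂ) else 0).PosSemidef
      split_ifs
      · exact Matrix.PosSemidef.one
      · exact Matrix.PosSemidef.zero
    · show (if b = ⟨0, hB⟩ then (1 : Matrix (Fin 1) (Fin 1) ℂ) else 0).PosSemidef
      split_ifs
      · exact Matrix.PosSemidef.one
      · exact Matrix.PosSemidef.zero
  · exact le_refl _

/-- **One-shot bound**: any finite index types, sub-normalised POVMs, unnormalised vector. -/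
theorem oneshot (hv : ∀ (dA dB : ℕ) (S : Strategy G 1 dA dB), S.probWinsAtLeast 1 ≤ v)
    (hA : 0 < G.nA) (hB : 0 < G.nB)
    {α β : Type*} [Fintype α] [DecidableEq α] [Fintype β] [DecidableEq β]
    (ψ : α × β → ℂ) (M : Fin G.nX → Fin G.nA → Matrix α α ℂ)
    (N : Fin G.nY → Fin G.nB → Matrix β β ℂ)
    (hM : ∀ x a, (M x a).PosSemidef) (hN : ∀ y b, (N y b).PosSemidef)
    (hMs : ∀ x, (1 - ∑ a, M x a).PosSemidef) (hNs : ∀ y, (1 - ∑ b, N y b).PosSemidef) :
    val1 G ψ M N ≤ v * ∑ i, ‖ψ i‖ ^ 2 := by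
  classical
  -- complete the POVMs
  set M' : Fin G.nX → Fin G.nA → Matrix α α ℂ := fun x a =>
    M x a + (if a = ⟨0, hA⟩ then (1 - ∑ a, M x a) else 0) with hM'
  set N' : Fin G.nY → Fin G.nB → Matrix β β ℂ := fun y b =>
    N y b + (if b = ⟨0, hB⟩ then (1 - ∑ b, N y b) else 0) with hN'
  have hM'p : ∀ x a, (M' x a).PosSemidef := by
    intro x a
    refine (hM x a).add ?_
    split_ifs
    · exact hMs x
    · exact Matrix.PosSemidef.zero
  have hN'p : ∀ y b, (N' y b).PosSemidef := by
    intro x a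
    refine (hN x a).add ?_
    split_ifs
    · exact hNs x
    · exact Matrix.PosSemidef.zero
  have hM's : ∀ x, ∑ a, M' x a = 1 := by
    intro x
    simp [hM', Finset.sum_add_distrib]
  have hN's : ∀ y, ∑ b, N' y b = 1 := by
    intro x
    simp [hN', Finset.sum_add_distrib]
  have hmono : val1 G ψ M N ≤ val1 G ψ M' N' := by
    unfold val1
    refine Finset.sum_le_sum fun x _ => Finset.sum_le_sum fun y _ =>
      mul_le_mul_of_nonneg_left ?_ (G.prob_nonneg x y)
    refine Finset.sum_le_sum fun a _ => Finset.sum_le_sum fun b _ => ?_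
    split_ifs
    · refine bra_mono ψ (hM x a) (hN'p y b) ?_ ?_
      · simp only [hM', add_sub_cancel_left]
        split_ifs
        · exact hMs x
        · exact Matrix.PosSemidef.zero
      · simp only [hN', add_sub_cancel_left]
        split_ifs
        · exact hNs y
        · exact Matrix.PosSemidef.zero
    · exact le_refl _
  refine le_trans hmono ?_
  -- norm
  set c2 : ℝ := ∑ i, ‖ψ i‖ ^ 2 with hc2
  have hc2n : 0 ≤ c2 := Finset.sum_nonneg fun i _ => by positivity
  rcases hc2n.eq_or_lt with h0 | hpos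
  · -- ψ = 0
    have hz : ψ = 0 := by
      funext i
      have := (Finset.sum_eq_zero_iff_of_nonneg (fun i _ => by positivity)).1 h0.symm i
        (Finset.mem_univ i)
      simpa using this
    rw [← h0, mul_zero]
    have : ∀ (A : Matrix α α ℂ) (B : Matrix β β ℂ), bra ψ A B = 0 := by
      intro A B; simp [bra, hz]
    unfold val1
    simp [this]
  · set c : ℝ := Real.sqrt c2 with hc
    have hcpos : 0 < c := Real.sqrt_pos.2 hpos
    set φ : α × β → ℂ := fun i => ((c⁻¹ : ℝ) : ℂ) * ψ i with hφ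
    have hψφ : ψ = ((c : ℝ) : ℂ) • φ := by
      funext i
      simp only [hφ, Pi.smul_apply, smul_eq_mul, ← mul_assoc, ← Complex.ofReal_mul]
      rw [mul_inv_cancel₀ hcpos.ne']
      simp
    have hφn : ∑ i, ‖φ i‖ ^ 2 = 1 := by
      simp only [hφ, norm_mul, mul_pow, ← Finset.mul_sum]
      rw [← hc2, Complex.norm_real, Real.norm_eq_abs, sq_abs, inv_pow, hc, Real.sq_sqrt hc2n]
      exact inv_mul_cancel₀ hpos.ne'
    have hval : val1 G ψ M' N' = c2 * val1 G φ M' N' := by
      have : ∀ (A : Matrix α α ℂ) (B : Matrix β β ℂ), bra ψ A B = c2 * bra φ A B := by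
        intro A B
        conv_lhs => rw [hψφ]
        rw [bra_smul, Complex.norm_real, Real.norm_eq_abs, sq_abs, hc, Real.sq_sqrt hc2n]
      unfold val1
      simp only [this, Finset.mul_sum]
      refine Finset.sum_congr rfl fun x _ => Finset.sum_congr rfl fun y _ =>
        Finset.sum_congr rfl fun a _ => Finset.sum_congr rfl fun b _ => ?_
      split_ifs
      · ring
      · simp
    rw [hval, mul_comm v]
    refine mul_le_mul_of_nonneg_left ?_ hc2n
    rw [← val1_reindex (Fintype.equivFin α) (Fintype.equivFin β)]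
    refine val1_le_fin hv _ ?_ _ _ ?_ ?_ ?_ ?_
    · rw [← hφn]
      refine Fintype.sum_equiv ((Fintype.equivFin α).prodCongr (Fintype.equivFin β)).symm _ _ ?_
      intro p
      rfl
    · intro x a; exact (hM'p x a).submatrix _
    · intro x a; exact (hN'p x a).submatrix _
    · intro x
      have : (∑ a, (M' x a).submatrix (Fintype.equivFin α).symm (Fintype.equivFin α).symm)
          = (∑ a, M' x a).submatrix (Fintype.equivFin α).symm (Fintype.equivFin α).symm := by
        ext i j
        simp [Matrix.sum_apply]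
      rw [this, hM's, Matrix.submatrix_one_equiv]
    · intro x
      have : (∑ a, (N' x a).submatrix (Fintype.equivFin β).symm (Fintype.equivFin β).symm)
          = (∑ a, N' x a).submatrix (Fintype.equivFin β).symm (Fintype.equivFin β).symm := by
        ext i j
        simp [Matrix.sum_apply]
      rw [this, hN's, Matrix.submatrix_one_equiv]

end Crest.H26OneShot
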