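import Mathlib
import Crest.Agent.H26OneShot

/-!
H26PRTele: abstract telescoping for rid 342 (parallel repetition of entangled games).

Averaging operators along coordinates with reversible kernels, adjointness, telescoping along a
list of coordinates.
-/

set_option autoImplicit false
set_option linter.unusedSectionVars false
set_option linter.unusedVariables false

namespace Crest.H26PRTele

open scoped BigOperators

section abstractPart

variable {ι Z : Type*} [Fintype ι] [DecidableEq ι] [Fintype Z]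

/-- a reversible idempotent (class averaging) kernel with respect to the weight `m` -/
structure RevKer (m : Z → ℝ) (κ : Z → Z → ℝ) : Prop where
  nonneg : ∀ u w, 0 ≤ κ u w
  rev : ∀ u w, m u * κ u w = m w * κ w u
  sum_one : ∀ u, m u ≠ 0 → ∑ w, κ u w = 1
  sum_le : ∀ u, ∑ w, κ u w ≤ 1
  cls : ∀ u w t, κ u w ≠ 0 → κ w t = κ u t

/-- averaging of the coordinate `i` -/
noncomputable def Av {E : Type*} [AddCommMonoid E] [Module ℝ E] (κ : Z → Z → ℝ) (i : ι)
    (f : (ι → Z) → E) : (ι → Z) → E :=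
  fun z => ∑ w, κ (z i) w • f (Function.update z i w)

/-- `f` is invariant under the `κ`-moves of coordinate `i` -/
def Inv {E : Type*} (κ : Z → Z → ℝ) (i : ι) (f : (ι → Z) → E) : Prop :=
  ∀ z w, κ (z i) w ≠ 0 → f (Function.update z i w) = f z

/-- weighted expectation (weight `∏ m (z j)` times `g`) -/
noncomputable def Ex (m : Z → ℝ) (g h : (ι → Z) → ℝ) : ℝ :=
  ∑ z, (∏ j, m (z j)) * g z * h z

theorem Inv.comp {E F : Type*} {κ : Z → Z → ℝ} {i : ι} {f : (ι → Z) → E} (h : Inv κ i f)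
    (φ : E → F) : Inv κ i (fun z => φ (f z)) := fun z w hw => by
  show φ (f _) = φ (f _)
  rw [h z w hw]

theorem Inv.comp₂ {E F G : Type*} {κ : Z → Z → ℝ} {i : ι} {f : (ι → Z) → E} {f' : (ι → Z) → F}
    (h : Inv κ i f) (h' : Inv κ i f') (φ : E → F → G) : Inv κ i (fun z => φ (f z) (f' z)) :=
  fun z w hw => by
  show φ (f _) (f' _) = φ (f _) (f' _)
  rw [h z w hw, h' z w hw]

variable {E : Type*} [AddCommMonoid E] [Module ℝ E]

theorem inv_Av_self {m : Z → ℝ} {κ : Z → Z → ℝ} (hκ : RevKer m κ) (i : ι) (f : (ι → Z) → E) :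
    Inv κ i (Av κ i f) := by
  intro z w hw
  unfold Av
  refine Finset.sum_congr rfl fun t _ => ?_
  rw [Function.update_self, Function.update_idem, hκ.cls _ _ _ hw]

theorem inv_Av_other {κ κ' : Z → Z → ℝ} {i j : ι} (hij : j ≠ i) {f : (ι → Z) → E}
    (hf : Inv κ' j f) : Inv κ' j (Av κ i f) := by
  intro z w hw
  unfold Av
  refine Finset.sum_congr rfl fun t _ => ?_
  rw [Function.update_of_ne hij.symm, Function.update_comm hij]
  rw [hf (Function.update z i t) w (by rwa [Function.update_of_ne hij])]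

/-- the involution used in the adjointness lemma -/
def swp (i : ι) : ((ι → Z) × Z) ≃ ((ι → Z) × Z) where
  toFun p := (Function.update p.1 i p.2, p.1 i)
  invFun p := (Function.update p.1 i p.2, p.1 i)
  left_inv p := by simp
  right_inv p := by simp

theorem prod_update_mul (m : Z → ℝ) (i : ι) (z : ι → Z) (w : Z) :
    (∏ j, m (Function.update z i w j)) * m (z i) = (∏ j, m (z j)) * m w := by
  rw [← Finset.mul_prod_erase Finset.univ (fun j => m (Function.update z i w j)) (Finset.mem_univ i),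
    ← Finset.mul_prod_erase Finset.univ (fun j => m (z j)) (Finset.mem_univ i)]
  rw [Function.update_self]
  have : ∏ x ∈ Finset.univ.erase i, m (Function.update z i w x)
      = ∏ x ∈ Finset.univ.erase i, m (z x) := by
    refine Finset.prod_congr rfl fun x hx => ?_
    rw [Function.update_of_ne (Finset.ne_of_mem_erase hx)]
  rw [this]; ring

/-- the basic identity: averaging a coordinate does not change the expectation -/
theorem sum_avg {m : Z → ℝ} {κ : Z → Z → ℝ} (hκ : RevKer m κ) (i : ι) (h : (ι → Z) → ℝ) :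
    ∑ z, ∑ w, (∏ j, m (z j)) * κ (z i) w * h (Function.update z i w)
      = ∑ z, (∏ j, m (z j)) * h z := by
  rw [← Fintype.sum_prod_type']
  rw [← Equiv.sum_comp (swp i)]
  rw [Fintype.sum_prod_type]
  refine Finset.sum_congr rfl fun z _ => ?_
  have e : ∀ w : Z, (∏ j, m ((swp i (z, w)).1 j)) * κ ((swp i (z, w)).1 i) (swp i (z, w)).2
      * h (Function.update (swp i (z, w)).1 i (swp i (z, w)).2)
      = (∏ j, m (z j)) * h z * κ (z i) w := by
    intro w
    show (∏ j, m (Function.update z i w j)) * κ (Function.update z i w i) (z i)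
      * h (Function.update (Function.update z i w) i (z i)) = _
    rw [Function.update_self, Function.update_idem, Function.update_eq_self]
    have hP := prod_update_mul m i z w
    have hr := hκ.rev (z i) w
    -- P(z) = m (z i) * Q ; P(upd) = m w * Q
    rw [← Finset.mul_prod_erase Finset.univ (fun j => m (Function.update z i w j))
      (Finset.mem_univ i), ← Finset.mul_prod_erase Finset.univ (fun j => m (z j))
      (Finset.mem_univ i), Function.update_self]
    have : ∏ x ∈ Finset.univ.erase i, m (Function.update z i w x)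
        = ∏ x ∈ Finset.univ.erase i, m (z x) := by
      refine Finset.prod_congr rfl fun x hx => ?_
      rw [Function.update_of_ne (Finset.ne_of_mem_erase hx)]
    rw [this]
    calc m w * (∏ x ∈ Finset.univ.erase i, m (z x)) * κ w (z i) * h z
        = (m w * κ w (z i)) * ((∏ x ∈ Finset.univ.erase i, m (z x)) * h z) := by ring
      _ = (m (z i) * κ (z i) w) * ((∏ x ∈ Finset.univ.erase i, m (z x)) * h z) := by rw [hr]
      _ = _ := by ring
  rw [Finset.sum_congr rfl (fun w _ => e w), ← Finset.mul_sum]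
  by_cases hz : m (z i) = 0
  · have : (∏ j, m (z j)) = 0 := Finset.prod_eq_zero (Finset.mem_univ i) hz
    simp [this]
  · rw [hκ.sum_one _ hz, mul_one]

variable {E₁ E₂ : Type*} [AddCommGroup E₁] [Module ℝ E₁] [AddCommGroup E₂] [Module ℝ E₂]

/-- adjointness of averaging -/
theorem adj_left {m : Z → ℝ} {κ : Z → Z → ℝ} (hκ : RevKer m κ) (i : ι)
    (β : E₁ →ₗ[ℝ] E₂ →ₗ[ℝ] ℝ) {g : (ι → Z) → ℝ} (hg : Inv κ i g) (f₁ : (ι → Z) → E₁)
    {f₂ : (ι → Z) → E₂} (hf₂ : Inv κ i f₂) :
    Ex m g (fun z => β (Av κ i f₁ z) (f₂ z)) = Ex m g (fun z => β (f₁ z) (f₂ z)) := by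
  unfold Ex
  have h1 := sum_avg hκ i (fun z => g z * β (f₁ z) (f₂ z))
  simp only [← mul_assoc] at h1
  rw [← h1]
  refine Finset.sum_congr rfl fun z _ => ?_
  unfold Av
  dsimp only
  rw [map_sum, LinearMap.sum_apply, Finset.mul_sum]
  refine Finset.sum_congr rfl fun w _ => ?_
  rw [map_smul, LinearMap.smul_apply, smul_eq_mul]
  by_cases hw : κ (z i) w = 0
  · simp [hw]
  · rw [hg z w hw, hf₂ z w hw]; ring

theorem adj_right {m : Z → ℝ} {κ : Z → Z → ℝ} (hκ : RevKer m κ) (i : ι)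
    (β : E₁ →ₗ[ℝ] E₂ →ₗ[ℝ] ℝ) {g : (ι → Z) → ℝ} (hg : Inv κ i g) {f₁ : (ι → Z) → E₁}
    (hf₁ : Inv κ i f₁) (f₂ : (ι → Z) → E₂) :
    Ex m g (fun z => β (f₁ z) (Av κ i f₂ z)) = Ex m g (fun z => β (f₁ z) (f₂ z)) := by
  have := adj_left hκ i β.flip hg f₂ hf₁
  simpa only [LinearMap.flip_apply] using this

/-- the gauge hypothesis for a potential `θ` and a discrepancy `D` on the set `Good`, tested
against the dual cone `Pos₂` -/
def Gauge (β : E₁ →ₗ[ℝ] E₂ →ₗ[ℝ] ℝ) (Z : Type*) [Fintype Z] (Good : E₁ → Prop) (Pos₂ : E₂ → Prop)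
    (θ : E₁ → E₁) (D : E₁ → E₁ → E₁) : Prop :=
  ∀ (w : Z → ℝ) (F : Z → E₁), (∀ u, 0 ≤ w u) → ∑ u, w u = 1 → (∀ u, w u ≠ 0 → Good (F u)) →
    ∀ b, Pos₂ b →
      β (∑ u, w u • θ (F u)) b + β (∑ u, w u • D (F u) (∑ u', w u' • F u')) b
        ≤ β (θ (∑ u, w u • F u)) b

/-- one step of the telescoping -/
theorem step {m : Z → ℝ} (hm : ∀ u, 0 ≤ m u) {κ κ' : Z → Z → ℝ} (hκ : RevKer m κ)
    (hκ' : RevKer m κ') (i : ι) (β : E₁ →ₗ[ℝ] E₂ →ₗ[ℝ] ℝ) {g : (ι → Z) → ℝ} (hg0 : ∀ z, 0 ≤ g z)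
    (hg : Inv κ i g) (hg' : Inv κ' i g) {Good : E₁ → Prop} {Pos₂ : E₂ → Prop}
    {θ : E₁ → E₁} {D : E₁ → E₁ → E₁} (hG : Gauge β Z Good Pos₂ θ D)
    {M' : (ι → Z) → E₁} (hMg : ∀ z, Good (M' z)) (hM : Inv κ' i M')
    {N' : (ι → Z) → E₂} (hNp : ∀ z, Pos₂ (N' z)) (hN : Inv κ i N') :
    Ex m g (fun z => β (θ (M' z)) (Av κ' i N' z))
      + Ex m g (fun z => β (D (M' z) (Av κ i M' z)) (N' z))
      ≤ Ex m g (fun z => β (θ (Av κ i M' z)) (N' z)) := by
  rw [adj_right hκ' i β hg' (f₁ := fun z => θ (M' z)) (hM.comp θ) N']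
  rw [← adj_left hκ i β hg (fun z => θ (M' z)) hN]
  rw [← adj_left hκ i β hg (fun z => D (M' z) (Av κ i M' z)) hN]
  unfold Ex
  rw [← Finset.sum_add_distrib]
  refine Finset.sum_le_sum fun z _ => ?_
  by_cases hz : m (z i) = 0
  · have : (∏ j, m (z j)) = 0 := Finset.prod_eq_zero (Finset.mem_univ i) hz
    simp [this]
  rw [← mul_add]
  refine mul_le_mul_of_nonneg_left ?_ (mul_nonneg (Finset.prod_nonneg fun j _ => hm _) (hg0 z))
  have key := hG (fun w => κ (z i) w) (fun w => M' (Function.update z i w))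
    (fun w => hκ.nonneg _ _) (hκ.sum_one _ hz) (fun w _ => hMg _) (N' z) (hNp z)
  refine le_trans (le_of_eq ?_) key
  have e2 : Av κ i (fun z => D (M' z) (Av κ i M' z)) z
      = ∑ u, κ (z i) u • D (M' (Function.update z i u))
          (∑ u', κ (z i) u' • M' (Function.update z i u')) := by
    unfold Av
    refine Finset.sum_congr rfl fun u _ => ?_
    by_cases hu : κ (z i) u = 0
    · simp [hu]
    · have := inv_Av_self hκ i M' z u hu
      unfold Av at this
      dsimp only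
      rw [this]
  dsimp only
  rw [e2]
  rfl

/-- left fold of averagings -/
noncomputable def Tl (κ : Z → Z → ℝ) (l : List ι) (f : (ι → Z) → E) : (ι → Z) → E :=
  l.foldl (fun f j => Av κ j f) f

/-- right fold of averagings -/
noncomputable def Sl (κ : Z → Z → ℝ) (l : List ι) (f : (ι → Z) → E) : (ι → Z) → E :=
  l.foldr (fun j f => Av κ j f) f

@[simp] theorem Tl_nil (κ : Z → Z → ℝ) (f : (ι → Z) → E) : Tl κ [] f = f := rfl
@[simp] theorem Tl_cons (κ : Z → Z → ℝ) (i : ι) (l : List ι) (f : (ι → Z) → E) :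
    Tl κ (i :: l) f = Tl κ l (Av κ i f) := rfl
@[simp] theorem Sl_nil (κ : Z → Z → ℝ) (f : (ι → Z) → E) : Sl κ [] f = f := rfl
@[simp] theorem Sl_cons (κ : Z → Z → ℝ) (i : ι) (l : List ι) (f : (ι → Z) → E) :
    Sl κ (i :: l) f = Av κ i (Sl κ l f) := rfl

theorem inv_Sl {κ κ' : Z → Z → ℝ} {j : ι} {l : List ι} (hj : j ∉ l) {f : (ι → Z) → E}
    (hf : Inv κ' j f) : Inv κ' j (Sl κ l f) := by
  induction l with
  | nil => exact hf
  | cons i l ih =>
    rw [List.mem_cons, not_or] at hj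
    exact inv_Av_other hj.1 (ih hj.2)

theorem inv_Tl {κ κ' : Z → Z → ℝ} {j : ι} {l : List ι} (hj : j ∉ l) {f : (ι → Z) → E}
    (hf : Inv κ' j f) : Inv κ' j (Tl κ l f) := by
  induction l generalizing f with
  | nil => exact hf
  | cons i l ih =>
    rw [List.mem_cons, not_or] at hj
    exact ih hj.2 (inv_Av_other hj.1 hf)

/-- a predicate closed under sub-convex combinations -/
def SubConv (Z : Type*) [Fintype Z] (P : E → Prop) : Prop :=
  ∀ (w : Z → ℝ) (F : Z → E), (∀ u, 0 ≤ w u) → ∑ u, w u ≤ 1 → (∀ u, P (F u)) →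
    P (∑ u, w u • F u)

theorem Av_pred {m : Z → ℝ} {κ : Z → Z → ℝ} (hκ : RevKer m κ) {P : E → Prop}
    (hP : SubConv Z P) {f : (ι → Z) → E} (hf : ∀ z, P (f z)) (i : ι) (z : ι → Z) :
    P (Av κ i f z) :=
  hP _ _ (fun w => hκ.nonneg _ _) (hκ.sum_le _) (fun w => hf _)

theorem Sl_pred {m : Z → ℝ} {κ : Z → Z → ℝ} (hκ : RevKer m κ) {P : E → Prop}
    (hP : SubConv Z P) {f : (ι → Z) → E} (hf : ∀ z, P (f z)) (l : List ι) :
    ∀ z, P (Sl κ l f z) := by
  induction l with
  | nil => exact hf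
  | cons i l ih => exact fun z => Av_pred hκ hP ih i z

theorem Tl_pred {m : Z → ℝ} {κ : Z → Z → ℝ} (hκ : RevKer m κ) {P : E → Prop}
    (hP : SubConv Z P) {f : (ι → Z) → E} (hf : ∀ z, P (f z)) (l : List ι) :
    ∀ z, P (Tl κ l f z) := by
  induction l generalizing f with
  | nil => exact hf
  | cons i l ih => exact ih (fun z => Av_pred hκ hP hf i z)

/-- **telescoping**, Alice part: the sum over the coordinates of the list -/
theorem tele {m : Z → ℝ} (hm : ∀ u, 0 ≤ m u) {κ κ' : Z → Z → ℝ} (hκ : RevKer m κ)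
    (hκ' : RevKer m κ') (β : E₁ →ₗ[ℝ] E₂ →ₗ[ℝ] ℝ) {g : (ι → Z) → ℝ} (hg0 : ∀ z, 0 ≤ g z)
    {Good₁ Pos₁ : E₁ → Prop} {Good₂ Pos₂ : E₂ → Prop}
    (hs₁ : SubConv Z Good₁) (hs₂ : SubConv Z Good₂)
    (hgp₁ : ∀ a, Good₁ a → Pos₁ a) (hgp₂ : ∀ a, Good₂ a → Pos₂ a)
    {θ₁ : E₁ → E₁} {D₁ : E₁ → E₁ → E₁} (hG₁ : Gauge β Z Good₁ Pos₂ θ₁ D₁)
    {θ₂ : E₂ → E₂} {D₂ : E₂ → E₂ → E₂} (hG₂ : Gauge β.flip Z Good₂ Pos₁ θ₂ D₂)
    {N : (ι → Z) → E₂} (hNg : ∀ z, Good₂ (N z)) (l : List ι) (hl : l.Nodup)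
    (hg : ∀ i ∈ l, Inv κ i g) (hg' : ∀ i ∈ l, Inv κ' i g)
    (hN : ∀ i ∈ l, Inv κ i N)
    {M : (ι → Z) → E₁} (hMg : ∀ z, Good₁ (M z)) (hM : ∀ i ∈ l, Inv κ' i M) :
    (∑ t : Fin l.length,
      (Ex m g (fun z => β (D₁ (Tl κ (l.take t) M z) (Tl κ (l.take (t + 1)) M z))
          (Sl κ' (l.drop (t + 1)) N z))
        + Ex m g (fun z => β (Tl κ (l.take t) M z)
            (D₂ (Sl κ' (l.drop (t + 1)) N z) (Sl κ' (l.drop t) N z)))))
      ≤ (Ex m g (fun z => β (θ₁ (Tl κ l M z)) (N z)) - Ex m g (fun z => β (θ₁ (M z)) (Sl κ' l N z)))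
        + (Ex m g (fun z => β (M z) (θ₂ (Sl κ' l N z)))
            - Ex m g (fun z => β (Tl κ l M z) (θ₂ (N z)))) := by
  induction l generalizing M with
  | nil => simp
  | cons i l ih =>
    rw [List.nodup_cons] at hl
    have hmem : ∀ j ∈ l, j ∈ i :: l := fun j hj => List.mem_cons_of_mem i hj
    have hii : i ∈ i :: l := List.mem_cons_self
    have IH := ih hl.2 (fun j hj => hg j (hmem j hj)) (fun j hj => hg' j (hmem j hj))
      (fun j hj => hN j (hmem j hj)) (M := Av κ i M) (fun z => Av_pred hκ hs₁ hMg i z)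
      (fun j hj => inv_Av_other (fun h => hl.1 (by rw [← h]; exact hj)) (hM j (hmem j hj)))
    have hN'g : ∀ z, Good₂ (Sl κ' l N z) := Sl_pred hκ' hs₂ hNg l
    have hN'inv : Inv κ i (Sl κ' l N) := inv_Sl hl.1 (hN i hii)
    have s1 := step hm hκ hκ' i β hg0 (hg i hii) (hg' i hii) hG₁ hMg (hM i hii)
      (fun z => hgp₂ _ (hN'g z)) hN'inv
    have s2 := step hm hκ' hκ i β.flip hg0 (hg' i hii) (hg i hii) hG₂ hN'g hN'inv
      (fun z => hgp₁ _ (hMg z)) (hM i hii)
    simp only [LinearMap.flip_apply] at s2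
    rw [List.length_cons, Fin.sum_univ_succ]
    have e0 : (Ex m g (fun z => β (D₁ (Tl κ ((i :: l).take ((0 : Fin (l.length + 1)) : ℕ)) M z)
          (Tl κ ((i :: l).take (((0 : Fin (l.length + 1)) : ℕ) + 1)) M z))
          (Sl κ' ((i :: l).drop (((0 : Fin (l.length + 1)) : ℕ) + 1)) N z))
        + Ex m g (fun z => β (Tl κ ((i :: l).take ((0 : Fin (l.length + 1)) : ℕ)) M z)
            (D₂ (Sl κ' ((i :: l).drop (((0 : Fin (l.length + 1)) : ℕ) + 1)) N z)
              (Sl κ' ((i :: l).drop ((0 : Fin (l.length + 1)) : ℕ)) N z))))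
        = Ex m g (fun z => β (D₁ (M z) (Av κ i M z)) (Sl κ' l N z))
          + Ex m g (fun z => β (M z) (D₂ (Sl κ' l N z) (Av κ' i (Sl κ' l N) z))) := by
      simp
    rw [e0]
    have e1 : ∀ t : Fin l.length,
        (Ex m g (fun z => β (D₁ (Tl κ ((i :: l).take ((t.succ : Fin (l.length + 1)) : ℕ)) M z)
          (Tl κ ((i :: l).take (((t.succ : Fin (l.length + 1)) : ℕ) + 1)) M z))
          (Sl κ' ((i :: l).drop (((t.succ : Fin (l.length + 1)) : ℕ) + 1)) N z))
        + Ex m g (fun z => β (Tl κ ((i :: l).take ((t.succ : Fin (l.length + 1)) : ℕ)) M z)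
            (D₂ (Sl κ' ((i :: l).drop (((t.succ : Fin (l.length + 1)) : ℕ) + 1)) N z)
              (Sl κ' ((i :: l).drop ((t.succ : Fin (l.length + 1)) : ℕ)) N z))))
        = Ex m g (fun z => β (D₁ (Tl κ (l.take t) (Av κ i M) z)
            (Tl κ (l.take (t + 1)) (Av κ i M) z)) (Sl κ' (l.drop (t + 1)) N z))
        + Ex m g (fun z => β (Tl κ (l.take t) (Av κ i M) z)
            (D₂ (Sl κ' (l.drop (t + 1)) N z) (Sl κ' (l.drop t) N z))) := by
      intro t
      simp
    rw [Finset.sum_congr rfl (fun t _ => e1 t)]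
    simp only [Tl_cons, Sl_cons]
    linarith

/-- removal of all averagings -/
theorem unfold_avg {m : Z → ℝ} {κ κ' : Z → Z → ℝ} (hκ : RevKer m κ)
    (hκ' : RevKer m κ') (β : E₁ →ₗ[ℝ] E₂ →ₗ[ℝ] ℝ) {g : (ι → Z) → ℝ}
    (l₁ l₂ : List ι) (hnd : l₁.Nodup) (hdisj : ∀ i ∈ l₁, i ∉ l₂)
    (hg : ∀ i ∈ l₁, Inv κ i g) (hg' : ∀ i ∈ l₂, Inv κ' i g)
    {N : (ι → Z) → E₂} (hN : ∀ i ∈ l₁, Inv κ i N)
    {M : (ι → Z) → E₁} (hM : ∀ i ∈ l₂, Inv κ' i M) :
    Ex m g (fun z => β (Tl κ l₁ M z) (Sl κ' l₂ N z)) = Ex m g (fun z => β (M z) (N z)) := by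
  have A : ∀ (l₁ : List ι) (M : (ι → Z) → E₁), l₁.Nodup → (∀ i ∈ l₁, i ∉ l₂) →
      (∀ i ∈ l₁, Inv κ i g) → (∀ i ∈ l₁, Inv κ i N) →
      Ex m g (fun z => β (Tl κ l₁ M z) (Sl κ' l₂ N z)) = Ex m g (fun z => β (M z) (Sl κ' l₂ N z)) := by
    intro l₁
    induction l₁ with
    | nil => intro M _ _ _ _; rfl
    | cons i l ih =>
      intro M hnd hd hg hN
      rw [Tl_cons, ih (Av κ i M) (List.nodup_cons.1 hnd).2
        (fun j hj => hd j (List.mem_cons_of_mem i hj)) (fun j hj => hg j (List.mem_cons_of_mem i hj))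
        (fun j hj => hN j (List.mem_cons_of_mem i hj))]
      exact adj_left hκ i β (hg i List.mem_cons_self) M
        (inv_Sl (hd i List.mem_cons_self) (hN i List.mem_cons_self))
  rw [A l₁ M hnd hdisj hg hN]
  clear A hdisj hN hg hnd
  induction l₂ with
  | nil => rfl
  | cons i l ih =>
    rw [Sl_cons, adj_right hκ' i β (hg' i List.mem_cons_self) (hM i List.mem_cons_self)]
    exact ih (fun j hj => hg' j (List.mem_cons_of_mem i hj))
      (fun j hj => hM j (List.mem_cons_of_mem i hj))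

end abstractPart

end Crest.H26PRTele

namespace Crest.H26PRTele

open scoped BigOperators

section gamePart

variable {ι X Y : Type*} [Fintype ι] [DecidableEq ι] [Fintype X] [Fintype Y] [DecidableEq X]
  [DecidableEq Y]

/-- average the first question given the second one -/
noncomputable def kX (μ : X → Y → ℝ) (u w : X × Y) : ℝ :=
  if w.2 = u.2 then μ w.1 u.2 / ∑ x, μ x u.2 else 0

/-- average the second question given the first one -/
noncomputable def kY (μ : X → Y → ℝ) (u w : X × Y) : ℝ :=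
  if w.1 = u.1 then μ u.1 w.2 / ∑ y, μ u.1 y else 0

theorem revKer_kX {μ : X → Y → ℝ} (hμ : ∀ x y, 0 ≤ μ x y) :
    RevKer (fun u : X × Y => μ u.1 u.2) (kX μ) where
  nonneg u w := by
    unfold kX
    split_ifs
    · exact div_nonneg (hμ _ _) (Finset.sum_nonneg fun x _ => hμ _ _)
    · exact le_refl _
  rev u w := by
    obtain ⟨x, y⟩ := u
    obtain ⟨x', y'⟩ := w
    unfold kX
    dsimp only
    by_cases h : y' = y
    · subst h; simp; ring
    · rw [if_neg h, if_neg (fun h' => h h'.symm)]; simp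
  sum_one u hu := by
    obtain ⟨x, y⟩ := u
    unfold kX
    dsimp only at hu ⊢
    rw [Fintype.sum_prod_type]
    simp only [Finset.sum_ite_eq', Finset.mem_univ, if_true]
    rw [← Finset.sum_div]
    refine div_self ?_
    have : 0 < ∑ x, μ x y :=
      lt_of_lt_of_le (lt_of_le_of_ne (hμ x y) (Ne.symm hu))
        (Finset.single_le_sum (f := fun x => μ x y) (fun x _ => hμ x y) (Finset.mem_univ x))
    exact this.ne'
  sum_le u := by
    obtain ⟨x, y⟩ := u
    unfold kX
    dsimp only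
    rw [Fintype.sum_prod_type]
    simp only [Finset.sum_ite_eq', Finset.mem_univ, if_true]
    rw [← Finset.sum_div]
    exact div_self_le_one _
  cls u w t h := by
    unfold kX at h ⊢
    by_cases h' : w.2 = u.2
    · rw [h']
    · rw [if_neg h'] at h; exact absurd rfl h

theorem revKer_kY {μ : X → Y → ℝ} (hμ : ∀ x y, 0 ≤ μ x y) :
    RevKer (fun u : X × Y => μ u.1 u.2) (kY μ) where
  nonneg u w := by
    unfold kY
    split_ifs
    · exact div_nonneg (hμ _ _) (Finset.sum_nonneg fun x _ => hμ _ _)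
    · exact le_refl _
  rev u w := by
    obtain ⟨x, y⟩ := u
    obtain ⟨x', y'⟩ := w
    unfold kY
    dsimp only
    by_cases h : x' = x
    · subst h; simp; ring
    · rw [if_neg h, if_neg (fun h' => h h'.symm)]; simp
  sum_one u hu := by
    obtain ⟨x, y⟩ := u
    unfold kY
    dsimp only at hu ⊢
    rw [Fintype.sum_prod_type_right]
    simp only [Finset.sum_ite_eq', Finset.mem_univ, if_true]
    rw [← Finset.sum_div]
    refine div_self ?_
    have : 0 < ∑ y, μ x y :=
      lt_of_lt_of_le (lt_of_le_of_ne (hμ x y) (Ne.symm hu))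
        (Finset.single_le_sum (f := fun y => μ x y) (fun y _ => hμ x y) (Finset.mem_univ y))
    exact this.ne'
  sum_le u := by
    obtain ⟨x, y⟩ := u
    unfold kY
    dsimp only
    rw [Fintype.sum_prod_type_right]
    simp only [Finset.sum_ite_eq', Finset.mem_univ, if_true]
    rw [← Finset.sum_div]
    exact div_self_le_one _
  cls u w t h := by
    unfold kY at h ⊢
    by_cases h' : w.1 = u.1
    · rw [h']
    · rw [if_neg h'] at h; exact absurd rfl h

/-- a function of the first questions is invariant under averaging of second questions -/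
theorem inv_fst {E : Type*} (μ : X → Y → ℝ) (F : (ι → X) → E) (i : ι) :
    Inv (kY μ) i (fun z : ι → X × Y => F (fun j => (z j).1)) := by
  intro z w hw
  have h1 : w.1 = (z i).1 := by
    unfold kY at hw
    by_contra h
    rw [if_neg h] at hw
    exact hw rfl
  show F _ = F _
  congr 1
  funext j
  by_cases hj : j = i
  · subst hj; rw [Function.update_self, h1]
  · rw [Function.update_of_ne hj]

theorem inv_snd {E : Type*} (μ : X → Y → ℝ) (F : (ι → Y) → E) (i : ι) :
    Inv (kX μ) i (fun z : ι → X × Y => F (fun j => (z j).2)) := by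
  intro z w hw
  have h1 : w.2 = (z i).2 := by
    unfold kX at hw
    by_contra h
    rw [if_neg h] at hw
    exact hw rfl
  show F _ = F _
  congr 1
  funext j
  by_cases hj : j = i
  · subst hj; rw [Function.update_self, h1]
  · rw [Function.update_of_ne hj]

/-- functions not depending on coordinate `i` at all -/
theorem inv_of_indep {Z E : Type*} (κ : Z → Z → ℝ) {i : ι} {f : (ι → Z) → E}
    (h : ∀ z w, f (Function.update z i w) = f z) : Inv κ i f := fun z w _ => h z w

end gamePart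

end Crest.H26PRTele
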