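import Crest.Agent.PRDefs
import Crest.Agent.H26PRTele

/-!
H16PRFam: the families of conditional operators of the GLUE/ASM module (rid 342).
-/

set_option autoImplicit false

open scoped Kronecker ComplexOrder BigOperators
open Crest.MathPhysics.NonlocalGame

namespace Crest.H16PR

open Crest.PR Crest.H26OneShot Crest.H26PRTele

variable {G : Game} {k dA dB : ℕ}

/-- the type of question pairs -/
abbrev Zt (G : Game) : Type := Fin G.nX × Fin G.nY

/-- the weight of a question pair -/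
noncomputable def mu (G : Game) (u : Zt G) : ℝ := G.prob u.1 u.2

/-- partial answer strings on `C` for both players -/
abbrev OC (G : Game) (C : Finset (Fin k)) : Type := (↥C → Fin G.nA) × (↥C → Fin G.nB)

/-- Alice's operator for the partial answers `o` on `C` -/
noncomputable def MC (S : Strategy G k dA dB) (C : Finset (Fin k)) (o : OC G C)
    (z : Fin k → Zt G) : Matrix (Fin dA) (Fin dA) ℂ :=
  ∑ a : Fin k → Fin G.nA, if (∀ i : ↥C, a i = o.1 i) then S.M (fun j => (z j).1) a else 0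

/-- Bob's operator for the partial answers `o` on `C` -/
noncomputable def NC (S : Strategy G k dA dB) (C : Finset (Fin k)) (o : OC G C)
    (z : Fin k → Zt G) : Matrix (Fin dB) (Fin dB) ℂ :=
  ∑ b : Fin k → Fin G.nB, if (∀ i : ↥C, b i = o.2 i) then S.N (fun j => (z j).2) b else 0

/-- refinement by the answer of coordinate `i` -/
noncomputable def MCi (S : Strategy G k dA dB) (C : Finset (Fin k)) (o : OC G C) (i : Fin k)
    (α : Fin G.nA) (z : Fin k → Zt G) : Matrix (Fin dA) (Fin dA) ℂ :=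
  ∑ a : Fin k → Fin G.nA,
    if (∀ i : ↥C, a i = o.1 i) ∧ a i = α then S.M (fun j => (z j).1) a else 0

/-- refinement by the answer of coordinate `i` -/
noncomputable def NCi (S : Strategy G k dA dB) (C : Finset (Fin k)) (o : OC G C) (i : Fin k)
    (α : Fin G.nB) (z : Fin k → Zt G) : Matrix (Fin dB) (Fin dB) ℂ :=
  ∑ b : Fin k → Fin G.nB,
    if (∀ i : ↥C, b i = o.2 i) ∧ b i = α then S.N (fun j => (z j).2) b else 0

/-- indicator that all coordinates of `C` are accepted -/
noncomputable def uC (G : Game) (C : Finset (Fin k)) (o : OC G C) (z : Fin k → Zt G) : ℝ :=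
  if ∀ i : ↥C, G.accept (z i).1 (z i).2 (o.1 i) (o.2 i) = true then 1 else 0

/-- `bra ψ` as a bilinear map -/
noncomputable def betaL {α β : Type*} [Fintype α] [Fintype β] (ψ : α × β → ℂ) :
    Matrix α α ℂ →ₗ[ℝ] Matrix β β ℂ →ₗ[ℝ] ℝ :=
  LinearMap.mk₂ ℝ (fun A B => bra ψ A B)
    (fun A A' B => bra_add_left ψ A A' B)
    (fun c A B => by
      unfold bra
      rw [Matrix.smul_kronecker, Matrix.smul_mulVec, dotProduct_smul, Complex.smul_re])
    (fun A B B' => bra_add_right ψ A B B')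
    (fun c A B => by
      unfold bra
      rw [Matrix.kronecker_smul, Matrix.smul_mulVec, dotProduct_smul, Complex.smul_re])

@[simp] theorem betaL_apply {α β : Type*} [Fintype α] [Fintype β] (ψ : α × β → ℂ)
    (A : Matrix α α ℂ) (B : Matrix β β ℂ) : betaL ψ A B = bra ψ A B := rfl

/-- the discrepancy `∑_r (K_r A - K_r B)ᴴ (K_r A - K_r B)` of a gauge family `K` -/
noncomputable def Disc {ρ n : Type*} [Fintype ρ] [Fintype n] (K : ρ → Matrix n n ℂ → Matrix n n ℂ)
    (A B : Matrix n n ℂ) : Matrix n n ℂ :=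
  ∑ r, (K r A - K r B).conjTranspose * (K r A - K r B)

/-- Interface of the GAUGE module: `K` is an exact square-root family, `θ` its potential, `ε` the
error; all matrices are between `0` and `1`. -/
structure GaugeOK {ρ n : Type} [Fintype ρ] [Fintype n] [DecidableEq n]
    (K : ρ → Matrix n n ℂ → Matrix n n ℂ) (θ : Matrix n n ℂ → Matrix n n ℂ) (ε : ℝ) : Prop where
  exact : ∀ M : Matrix n n ℂ, M.PosSemidef → (1 - M).PosSemidef →
    ∑ r, (K r M).conjTranspose * K r M = M
  gauge : ∀ (ι : Type) [Fintype ι] (w : ι → ℝ) (M : ι → Matrix n n ℂ), (∀ x, 0 ≤ w x) →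
    ∑ x, w x = 1 → (∀ x, w x ≠ 0 → (M x).PosSemidef) → (∀ x, w x ≠ 0 → (1 - M x).PosSemidef) →
    (θ (∑ x, w x • M x) + ε • 1 - ∑ x, w x • θ (M x)
      - ∑ x, w x • Disc K (M x) (∑ x', w x' • M x')).PosSemidef
  nonneg : ∀ M : Matrix n n ℂ, M.PosSemidef → (1 - M).PosSemidef → (θ M).PosSemidef
  ubL : ∀ (β : Type) [Fintype β] [DecidableEq β] (ψ : n × β → ℂ) (M : Matrix n n ℂ)
    (N : Matrix β β ℂ), M.PosSemidef → (1 - M).PosSemidef → N.PosSemidef →
    bra ψ (θ M) N ≤ bra ψ M N * Real.log (bra ψ 1 N / bra ψ M N)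
  ubR : ∀ (α : Type) [Fintype α] [DecidableEq α] (ψ : α × n → ℂ) (N : Matrix α α ℂ)
    (M : Matrix n n ℂ), M.PosSemidef → (1 - M).PosSemidef → N.PosSemidef →
    bra ψ N (θ M) ≤ bra ψ N M * Real.log (bra ψ N 1 / bra ψ N M)

/-- Alice's averaged operator: the first `t` coordinates of `L` are averaged -/
noncomputable def MT (S : Strategy G k dA dB) (C : Finset (Fin k)) (o : OC G C)
    (L : List (Fin k)) (t : ℕ) : (Fin k → Zt G) → Matrix (Fin dA) (Fin dA) ℂ :=
  Tl (kX G.prob) (L.take t) (MC S C o)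

/-- Bob's averaged operator: the coordinates of `L` from position `t` on are averaged -/
noncomputable def NT (S : Strategy G k dA dB) (C : Finset (Fin k)) (o : OC G C)
    (L : List (Fin k)) (t : ℕ) : (Fin k → Zt G) → Matrix (Fin dB) (Fin dB) ℂ :=
  Sl (kY G.prob) (L.drop t) (NC S C o)

/-- Alice's error at position `t` -/
noncomputable def ErrA {ρ : Type*} [Fintype ρ] (S : Strategy G k dA dB) (C : Finset (Fin k))
    (L : List (Fin k))
    (KA : ρ → Matrix (Fin dA) (Fin dA) ℂ → Matrix (Fin dA) (Fin dA) ℂ) (t : ℕ) : ℝ :=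
  ∑ o : OC G C, Ex (mu G) (uC G C o) (fun z =>
    bra S.ψ (Disc KA (MT S C o L t z) (MT S C o L (t + 1) z)) (NT S C o L (t + 1) z))

/-- Bob's error at position `t` -/
noncomputable def ErrB {ρ : Type*} [Fintype ρ] (S : Strategy G k dA dB) (C : Finset (Fin k))
    (L : List (Fin k))
    (KB : ρ → Matrix (Fin dB) (Fin dB) ℂ → Matrix (Fin dB) (Fin dB) ℂ) (t : ℕ) : ℝ :=
  ∑ o : OC G C, Ex (mu G) (uC G C o) (fun z =>
    bra S.ψ (MT S C o L t z) (Disc KB (NT S C o L (t + 1) z) (NT S C o L t z)))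

/-- the conditional winning weight on `C` given all questions -/
noncomputable def hC (S : Strategy G k dA dB) (C : Finset (Fin k)) (z : Fin k → Zt G) : ℝ :=
  ∑ o : OC G C, uC G C o z * bra S.ψ (MC S C o z) (NC S C o z)

/-- **Module ENT** (entropy bound for the total gauge error): to be proved as
`theorem ent : EntStatement G` from TELE, LOGSUM and `PW`/`qAcc` counting. -/
def EntStatement (G : Game) : Prop :=
  ∀ (k dA dB : ℕ) (S : Strategy G k dA dB) (C : Finset (Fin k)), 0 < PW S C →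
    ∃ c : ℝ, 0 ≤ c ∧ ∀ (L : List (Fin k)), L.Nodup → (∀ i ∈ L, i ∉ C) → (∀ i, i ∉ C → i ∈ L) →
    ∀ (ρA ρB : Type) [Fintype ρA] [Fintype ρB]
      (KA : ρA → Matrix (Fin dA) (Fin dA) ℂ → Matrix (Fin dA) (Fin dA) ℂ)
      (θA : Matrix (Fin dA) (Fin dA) ℂ → Matrix (Fin dA) (Fin dA) ℂ)
      (KB : ρB → Matrix (Fin dB) (Fin dB) ℂ → Matrix (Fin dB) (Fin dB) ℂ)
      (θB : Matrix (Fin dB) (Fin dB) ℂ → Matrix (Fin dB) (Fin dB) ℂ) (ε : ℝ), 0 < ε →
      GaugeOK KA θA ε → GaugeOK KB θB ε →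
      ∑ t : Fin L.length, (ErrA S C L KA t + ErrB S C L KB t) ≤
        PW S C * (2 * Real.log (qAcc G ^ C.card / PW S C)
          + C.card * Real.log ((G.nA * G.nB : ℕ) : ℝ)) + c * ε

end Crest.H16PR
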