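import Mathlib

set_option autoImplicit false

open scoped ComplexOrder MatrixOrder Matrix Kronecker
open Matrix

namespace Crest.H1PR

variable {n : Type*} [Fintype n] [DecidableEq n]

/-- resolvent `(M + s)⁻¹`. -/
noncomputable def res (s : ℝ) (M : Matrix n n ℂ) : Matrix n n ℂ := (M + (s : ℂ) • 1)⁻¹

/-- `k_s(M) = M (M+s)⁻¹ = 1 - s (M+s)⁻¹`. -/
noncomputable def kS (s : ℝ) (M : Matrix n n ℂ) : Matrix n n ℂ := 1 - (s : ℂ) • res s M

theorem posDef_add_smul {M : Matrix n n ℂ} (hM : M.PosSemidef) {s : ℝ} (hs : 0 < s) :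
    (M + (s : ℂ) • 1).PosDef := by
  apply Matrix.PosDef.posSemidef_add hM
  exact (Matrix.PosDef.one).smul (by exact_mod_cast hs)

theorem res_mul {M : Matrix n n ℂ} (hM : M.PosSemidef) {s : ℝ} (hs : 0 < s) :
    res s M * (M + (s : ℂ) • 1) = 1 := by
  have h := (posDef_add_smul hM hs).isUnit
  exact Matrix.nonsing_inv_mul _ ((Matrix.isUnit_iff_isUnit_det _).mp h)

theorem mul_res {M : Matrix n n ℂ} (hM : M.PosSemidef) {s : ℝ} (hs : 0 < s) :
    (M + (s : ℂ) • 1) * res s M = 1 := by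
  have h := (posDef_add_smul hM hs).isUnit
  exact Matrix.mul_nonsing_inv _ ((Matrix.isUnit_iff_isUnit_det _).mp h)

theorem res_posSemidef {M : Matrix n n ℂ} (hM : M.PosSemidef) {s : ℝ} (hs : 0 < s) :
    (res s M).PosSemidef := (posDef_add_smul hM hs).inv.posSemidef

theorem res_isHermitian {M : Matrix n n ℂ} (hM : M.PosSemidef) {s : ℝ} (hs : 0 < s) :
    (res s M)ᴴ = res s M := (res_posSemidef hM hs).isHermitian

theorem kS_eq {M : Matrix n n ℂ} (hM : M.PosSemidef) {s : ℝ} (hs : 0 < s) :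
    kS s M = M * res s M := by
  have h := mul_res hM hs
  rw [add_mul, smul_mul_assoc, one_mul] at h
  rw [kS, ← h]; abel

theorem kS_eq' {M : Matrix n n ℂ} (hM : M.PosSemidef) {s : ℝ} (hs : 0 < s) :
    kS s M = res s M * M := by
  have h := res_mul hM hs
  rw [mul_add, mul_smul_comm, mul_one] at h
  rw [kS, ← h]; abel

theorem kS_isHermitian {M : Matrix n n ℂ} (hM : M.PosSemidef) {s : ℝ} (hs : 0 < s) :
    (kS s M)ᴴ = kS s M := by
  rw [kS, conjTranspose_sub, conjTranspose_one, conjTranspose_smul, res_isHermitian hM hs]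
  simp

/-- The gauge inequality. -/
theorem gauge {ι : Type*} (t : Finset ι) (w : ι → ℝ) (M : ι → Matrix n n ℂ)
    (hw : ∀ x ∈ t, 0 ≤ w x) (hw1 : ∑ x ∈ t, w x = 1) (hM : ∀ x ∈ t, (M x).PosSemidef)
    {s : ℝ} (hs : 0 < s) :
    (kS s (∑ x ∈ t, (w x : ℂ) • M x) - ∑ x ∈ t, (w x : ℂ) • kS s (M x)
      - ∑ x ∈ t, (w x : ℂ) • ((kS s (M x) - kS s (∑ x ∈ t, (w x : ℂ) • M x)) *
          (kS s (M x) - kS s (∑ x ∈ t, (w x : ℂ) • M x)))).PosSemidef := by
  set Mb := ∑ x ∈ t, (w x : ℂ) • M x with hMb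
  have hMbP : Mb.PosSemidef := by
    rw [hMb]
    apply Matrix.posSemidef_sum
    intro x hx
    exact (hM x hx).smul (by exact_mod_cast hw x hx)
  set Rb := res s Mb with hRb
  have key : kS s Mb - ∑ x ∈ t, (w x : ℂ) • kS s (M x)
      - ∑ x ∈ t, (w x : ℂ) • ((kS s (M x) - kS s Mb) * (kS s (M x) - kS s Mb)) =
      ∑ x ∈ t, (w x : ℂ) • ((s : ℂ) • ((Rb - res s (M x)) * M x * (Rb - res s (M x)))) := by
    have hx : ∀ x ∈ t, (s : ℂ) • ((Rb - res s (M x)) * M x * (Rb - res s (M x))) =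
        (s : ℂ) • (Rb * (M x + (s : ℂ) • 1) * Rb) - (2 * s : ℂ) • Rb + (s : ℂ) • res s (M x)
         - (kS s (M x) - kS s Mb) * (kS s (M x) - kS s Mb) := by
      intro x hx
      have h1 := res_mul (hM x hx) hs
      have h2 := mul_res (hM x hx) hs
      have e1 : M x = (M x + (s : ℂ) • 1) - (s : ℂ) • 1 := by abel
      set A := M x + (s : ℂ) • 1 with hA
      set R := res s (M x) with hR
      have e2 : (Rb - R) * M x * (Rb - R) = Rb * A * Rb - (2 : ℂ) • Rb + R
          - (s : ℂ) • ((Rb - R) * (Rb - R)) := by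
        rw [e1]
        have : (Rb - R) * (A - (s : ℂ) • 1) * (Rb - R) = Rb * A * Rb - (Rb * (A * R)) - (R * A) * Rb + R * A * R
           - (s : ℂ) • ((Rb - R) * (Rb - R)) := by
          simp only [sub_mul, mul_sub, smul_mul_assoc, mul_smul_comm, mul_one, one_mul, smul_sub]
          simp only [Matrix.mul_assoc]
          abel
        rw [this, h2, h1]
        simp only [mul_one, one_mul, two_smul]
        abel
      rw [e2]
      simp only [kS]
      have : (1 - (s : ℂ) • R - (1 - (s : ℂ) • res s Mb)) * (1 - (s : ℂ) • R - (1 - (s : ℂ) • res s Mb))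
          = (s : ℂ) • ((s : ℂ) • ((Rb - R) * (Rb - R))) := by
        have e3 : (1 - (s : ℂ) • R - (1 - (s : ℂ) • res s Mb)) = (s : ℂ) • (Rb - R) := by
          rw [smul_sub, ← hRb]; abel
        rw [e3]
        simp [smul_mul_assoc, mul_smul_comm]
      rw [this]
      simp only [smul_sub, smul_add, smul_smul]
      rw [mul_comm (2:ℂ) (s:ℂ)]
    have hsum : ∑ x ∈ t, (w x : ℂ) • ((s : ℂ) • ((Rb - res s (M x)) * M x * (Rb - res s (M x)))) =
        ∑ x ∈ t, (w x : ℂ) • ((s : ℂ) • (Rb * (M x + (s : ℂ) • 1) * Rb)) -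
          ∑ x ∈ t, (w x : ℂ) • ((2 * s : ℂ) • Rb) + ∑ x ∈ t, (w x : ℂ) • ((s : ℂ) • res s (M x)) -
          ∑ x ∈ t, (w x : ℂ) • ((kS s (M x) - kS s Mb) * (kS s (M x) - kS s Mb)) := by
      rw [← Finset.sum_sub_distrib, ← Finset.sum_add_distrib, ← Finset.sum_sub_distrib]
      apply Finset.sum_congr rfl
      intro x hx'
      rw [hx x hx', smul_sub, smul_add, smul_sub]
    rw [hsum]
    have hw1' : ∑ x ∈ t, (w x : ℂ) = 1 := by exact_mod_cast hw1
    have f1 : ∑ x ∈ t, (w x : ℂ) • ((s : ℂ) • (Rb * (M x + (s : ℂ) • 1) * Rb)) = (s : ℂ) • Rb := by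
      have : ∑ x ∈ t, (w x : ℂ) • (M x + (s : ℂ) • (1 : Matrix n n ℂ)) = Mb + (s : ℂ) • 1 := by
        simp only [smul_add, Finset.sum_add_distrib]
        rw [← Finset.sum_smul, hw1', one_smul]
      calc ∑ x ∈ t, (w x : ℂ) • ((s : ℂ) • (Rb * (M x + (s : ℂ) • 1) * Rb))
          = (s : ℂ) • (Rb * (∑ x ∈ t, (w x : ℂ) • (M x + (s : ℂ) • (1 : Matrix n n ℂ))) * Rb) := by
            rw [Finset.mul_sum, Finset.sum_mul, Finset.smul_sum]
            apply Finset.sum_congr rfl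
            intro x _
            rw [mul_smul_comm, smul_mul_assoc, smul_comm]
        _ = (s : ℂ) • Rb := by
            rw [this, hRb, res_mul hMbP hs, one_mul]
    have f2 : ∑ x ∈ t, (w x : ℂ) • ((2 * s : ℂ) • Rb) = (2 * s : ℂ) • Rb := by
      rw [← Finset.sum_smul, hw1', one_smul]
    have f3 : kS s Mb - ∑ x ∈ t, (w x : ℂ) • kS s (M x) =
        (s : ℂ) • Rb - (2 * s : ℂ) • Rb + ∑ x ∈ t, (w x : ℂ) • ((s : ℂ) • res s (M x)) := by
      simp only [kS, smul_sub, Finset.sum_sub_distrib]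
      rw [← Finset.sum_smul, hw1', one_smul, two_mul, add_smul, ← hRb]
      abel
    rw [f1, f2, f3]
  rw [key]
  apply Matrix.posSemidef_sum
  intro x hx
  apply Matrix.PosSemidef.smul _ (by exact_mod_cast hw x hx)
  apply Matrix.PosSemidef.smul _ (by exact_mod_cast hs.le)
  have hH : (Rb - res s (M x))ᴴ = Rb - res s (M x) := by
    rw [conjTranspose_sub, hRb, res_isHermitian hMbP hs, res_isHermitian (hM x hx) hs]
  have := (hM x hx).mul_mul_conjTranspose_same (Rb - res s (M x))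
  rwa [hH] at this

end Crest.H1PR
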