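import Mathlib
import Crest.Agent.H1PRGauge
import Crest.Agent.H26OneShot

set_option autoImplicit false

open scoped ComplexOrder MatrixOrder Matrix Kronecker
open Matrix

namespace Crest.H1PR

section scalar

theorem log_step {t s h : ℝ} (ht : 0 < t) (ht1 : t ≤ 1) (hh : 0 < h) (hs : h ≤ s) :
    h * (1 / (t + s) - 1 / (1 + s)) ≤
      Real.log ((1 + (s - h)) / (t + (s - h))) - Real.log ((1 + s) / (t + s)) := by
  have h1 : 0 < t + s := by linarith
  have h2 : 0 < t + (s - h) := by linarith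
  have h3 : 0 < 1 + s := by linarith
  have h4 : 0 < 1 + (s - h) := by linarith
  rw [← Real.log_div (by positivity) (by positivity)]
  set y := ((1 + (s - h)) / (t + (s - h))) / ((1 + s) / (t + s)) with hy
  have hypos : 0 < y := by positivity
  have hlog : 1 - y⁻¹ ≤ Real.log y := Real.one_sub_inv_le_log_of_pos hypos
  refine le_trans ?_ hlog
  have e : 1 - y⁻¹ = h * (1 - t) / ((t + s) * (1 + (s - h))) := by
    rw [hy]; field_simp; ring
  rw [e]
  have e2 : h * (1 / (t + s) - 1 / (1 + s)) = h * (1 - t) / ((t + s) * (1 + s)) := by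
    field_simp; ring
  rw [e2]
  apply div_le_div_of_nonneg_left
  · exact mul_nonneg hh.le (by linarith)
  · positivity
  · apply mul_le_mul_of_nonneg_left _ h1.le
    linarith

theorem sum_log {t h : ℝ} (ht : 0 < t) (ht1 : t ≤ 1) (hh : 0 < h) (N : ℕ) :
    ∑ j ∈ Finset.range N, h * (1 / (t + ((j : ℝ) + 1) * h) - 1 / (1 + ((j : ℝ) + 1) * h))
      ≤ Real.log (1 / t) := by
  have key : ∑ j ∈ Finset.range N, h * (1 / (t + ((j : ℝ) + 1) * h) - 1 / (1 + ((j : ℝ) + 1) * h))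
      ≤ Real.log ((1 + 0) / (t + 0)) - Real.log ((1 + N * h) / (t + N * h)) := by
    induction N with
    | zero => simp
    | succ n ih =>
      rw [Finset.sum_range_succ]
      have h1 := log_step ht ht1 hh (s := ((n : ℝ) + 1) * h) (by nlinarith [n.cast_nonneg (α := ℝ)])
      have e : ((n : ℝ) + 1) * h - h = n * h := by ring
      rw [e] at h1
      push_cast
      linarith
  have h2 : 0 ≤ Real.log ((1 + N * h) / (t + N * h)) := by
    apply Real.log_nonneg
    rw [le_div_iff₀ (by positivity)]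
    linarith
  simp only [add_zero] at key
  linarith

/-- lower Riemann-type bounds for `∑ h t²/(t+s_j)²`. -/
theorem sum_sq_le {t h : ℝ} (ht : 0 ≤ t) (hh : 0 < h) (N : ℕ) :
    ∑ j ∈ Finset.range N, h * (t / (t + ((j : ℝ) + 1) * h)) ^ 2 ≤ t := by
  rcases eq_or_lt_of_le ht with rfl | ht
  · simp
  have key : ∑ j ∈ Finset.range N, h * (t / (t + ((j : ℝ) + 1) * h)) ^ 2
      ≤ t ^ 2 / (t + 0) - t ^ 2 / (t + N * h) := by
    induction N with
    | zero => simp
    | succ n ih =>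
      rw [Finset.sum_range_succ]
      have hn : (0 : ℝ) ≤ n := n.cast_nonneg
      have h1 : h * (t / (t + ((n : ℝ) + 1) * h)) ^ 2 ≤ t ^ 2 / (t + n * h) - t ^ 2 / (t + ((n : ℝ) + 1) * h) := by
        have a1 : 0 < t + n * h := by positivity
        have a2 : 0 < t + ((n : ℝ) + 1) * h := by positivity
        have e : t ^ 2 / (t + n * h) - t ^ 2 / (t + ((n : ℝ) + 1) * h) =
            h * t ^ 2 / ((t + n * h) * (t + ((n : ℝ) + 1) * h)) := by
          field_simp; ring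
        have e2 : h * (t / (t + ((n : ℝ) + 1) * h)) ^ 2 = h * t ^ 2 / ((t + ((n : ℝ) + 1) * h) * (t + ((n : ℝ) + 1) * h)) := by
          field_simp
        rw [e, e2]
        apply div_le_div_of_nonneg_left (by positivity) (by positivity)
        apply mul_le_mul_of_nonneg_right _ a2.le
        nlinarith
      push_cast
      linarith
  have h2 : 0 ≤ t ^ 2 / (t + N * h) := by positivity
  have h3 : t ^ 2 / (t + 0) = t := by rw [add_zero]; field_simp
  linarith

theorem le_sum_sq {t h : ℝ} (ht : 0 ≤ t) (ht1 : t ≤ 1) (hh : 0 < h) (N : ℕ) :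
    t - ∑ j ∈ Finset.range N, h * (t / (t + ((j : ℝ) + 1) * h)) ^ 2 ≤ h + 1 / (((N : ℝ) + 1) * h) := by
  rcases eq_or_lt_of_le ht with rfl | ht
  · have : 0 ≤ h + 1 / (((N : ℝ) + 1) * h) := by positivity
    simpa using this
  have key : t ^ 2 / (t + h) - t ^ 2 / (t + ((N : ℝ) + 1) * h) ≤
      ∑ j ∈ Finset.range N, h * (t / (t + ((j : ℝ) + 1) * h)) ^ 2 := by
    induction N with
    | zero => simp
    | succ n ih =>
      rw [Finset.sum_range_succ]
      have hn : (0 : ℝ) ≤ n := n.cast_nonneg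
      have h1 : t ^ 2 / (t + ((n : ℝ) + 1) * h) - t ^ 2 / (t + (((n + 1 : ℕ) : ℝ) + 1) * h) ≤
          h * (t / (t + ((n : ℝ) + 1) * h)) ^ 2 := by
        push_cast
        have a1 : 0 < t + (n + 1 + 1) * h := by positivity
        have a2 : 0 < t + ((n : ℝ) + 1) * h := by positivity
        have e : t ^ 2 / (t + ((n : ℝ) + 1) * h) - t ^ 2 / (t + ((n : ℝ) + 1 + 1) * h) =
            h * t ^ 2 / ((t + (n + 1 + 1) * h) * (t + ((n : ℝ) + 1) * h)) := by
          field_simp; ring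
        have e2 : h * (t / (t + ((n : ℝ) + 1) * h)) ^ 2 = h * t ^ 2 / ((t + ((n : ℝ) + 1) * h) * (t + ((n : ℝ) + 1) * h)) := by
          field_simp
        rw [e, e2]
        apply div_le_div_of_nonneg_left (by positivity) (by positivity)
        apply mul_le_mul_of_nonneg_right _ a2.le
        nlinarith
      linarith
  have hN : (0 : ℝ) ≤ N := N.cast_nonneg
  have h3 : t ^ 2 / (t + ((N : ℝ) + 1) * h) ≤ 1 / (((N : ℝ) + 1) * h) := by
    rw [div_le_div_iff₀ (by positivity) (by positivity)]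
    have : t ^ 2 ≤ 1 := by nlinarith
    have hp : 0 < ((N : ℝ) + 1) * h := by positivity
    nlinarith
  have h4 : t - t ^ 2 / (t + h) ≤ h := by
    have : t - t ^ 2 / (t + h) = t * h / (t + h) := by field_simp; ring
    rw [this, div_le_iff₀ (by positivity)]
    nlinarith
  linarith

end scalar

section matrix

variable {d : Type*} [Fintype d] [DecidableEq d]

/-- diagonal in the basis `U`. -/
noncomputable def fc (U : Matrix d d ℂ) (f : d → ℝ) : Matrix d d ℂ :=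
  U * diagonal (fun i => (f i : ℂ)) * Uᴴ

theorem fc_mul {U : Matrix d d ℂ} (hU : Uᴴ * U = 1) (f g : d → ℝ) :
    fc U f * fc U g = fc U (fun i => f i * g i) := by
  unfold fc
  calc U * diagonal (fun i => (f i : ℂ)) * Uᴴ * (U * diagonal (fun i => (g i : ℂ)) * Uᴴ)
      = U * diagonal (fun i => (f i : ℂ)) * (Uᴴ * U) * diagonal (fun i => (g i : ℂ)) * Uᴴ := by
        simp only [Matrix.mul_assoc]
    _ = _ := by
        rw [hU, Matrix.mul_one, Matrix.mul_assoc U, diagonal_mul_diagonal]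
        simp

theorem fc_add (U : Matrix d d ℂ) (f g : d → ℝ) :
    fc U f + fc U g = fc U (fun i => f i + g i) := by
  unfold fc
  rw [← add_mul, ← mul_add, diagonal_add]
  simp

theorem fc_sub (U : Matrix d d ℂ) (f g : d → ℝ) :
    fc U f - fc U g = fc U (fun i => f i - g i) := by
  unfold fc
  rw [← sub_mul, ← mul_sub, diagonal_sub]
  simp

theorem fc_smul (U : Matrix d d ℂ) (c : ℝ) (f : d → ℝ) :
    (c : ℂ) • fc U f = fc U (fun i => c * f i) := by
  unfold fc
  rw [← smul_mul_assoc, ← mul_smul_comm, ← diagonal_smul]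
  congr 2
  ext i j
  simp [diagonal, Pi.smul_apply]

theorem fc_sum (U : Matrix d d ℂ) {ι : Type*} (t : Finset ι) (f : ι → d → ℝ) :
    ∑ x ∈ t, fc U (f x) = fc U (fun i => ∑ x ∈ t, f x i) := by
  classical
  induction t using Finset.induction_on with
  | empty => 
    simp only [Finset.sum_empty]
    unfold fc
    simp
  | insert a t ha ih =>
    rw [Finset.sum_insert ha, ih, fc_add]
    congr 1
    ext i
    rw [Finset.sum_insert ha]

theorem fc_one {U : Matrix d d ℂ} (hU : U * Uᴴ = 1) : fc U (fun _ => 1) = 1 := by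
  unfold fc
  have : (diagonal (fun _ : d => ((1 : ℝ) : ℂ))) = (1 : Matrix d d ℂ) := by
    simp
  rw [this, Matrix.mul_one, hU]

theorem fc_posSemidef (U : Matrix d d ℂ) {f : d → ℝ} (hf : ∀ i, 0 ≤ f i) :
    (fc U f).PosSemidef := by
  unfold fc
  apply Matrix.PosSemidef.mul_mul_conjTranspose_same
  apply Matrix.PosSemidef.diagonal
  intro i
  simpa using hf i

theorem exists_diag {M : Matrix d d ℂ} (hM : M.PosSemidef) (hM1 : (1 - M).PosSemidef) :
    ∃ (U : Matrix d d ℂ) (f : d → ℝ), Uᴴ * U = 1 ∧ U * Uᴴ = 1 ∧ M = fc U f ∧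
      (∀ i, 0 ≤ f i) ∧ (∀ i, f i ≤ 1) := by
  have hH := hM.isHermitian
  set U : Matrix d d ℂ := (hH.eigenvectorUnitary : Matrix d d ℂ) with hUdef
  have h1 : Uᴴ * U = 1 := by
    have := (Matrix.mem_unitaryGroup_iff' (A := U)).1 hH.eigenvectorUnitary.2
    simpa [star_eq_conjTranspose] using this
  have h2 : U * Uᴴ = 1 := by
    have := (Matrix.mem_unitaryGroup_iff (A := U)).1 hH.eigenvectorUnitary.2
    simpa [star_eq_conjTranspose] using this
  have hM' : M = fc U hH.eigenvalues := by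
    conv_lhs => rw [hH.spectral_theorem]
    rw [Unitary.conjStarAlgAut_apply]
    unfold fc
    rfl
  refine ⟨U, hH.eigenvalues, h1, h2, hM', hM.eigenvalues_nonneg, ?_⟩
  intro i
  have h3 : (1 - M) = fc U (fun i => 1 - hH.eigenvalues i) := by
    conv_lhs => rw [hM', ← fc_one h2, fc_sub]
  have h4 : (Uᴴ * (1 - M) * U).PosSemidef := hM1.conjTranspose_mul_mul_same U
  have h5 : Uᴴ * (1 - M) * U = diagonal (fun i => ((1 - hH.eigenvalues i : ℝ) : ℂ)) := by
    rw [h3]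
    unfold fc
    calc Uᴴ * (U * diagonal (fun i => ((1 - hH.eigenvalues i : ℝ) : ℂ)) * Uᴴ) * U
        = (Uᴴ * U) * diagonal (fun i => ((1 - hH.eigenvalues i : ℝ) : ℂ)) * (Uᴴ * U) := by
          simp only [Matrix.mul_assoc]
      _ = _ := by rw [h1]; simp
  rw [h5] at h4
  have h6 := Matrix.posSemidef_diagonal_iff.1 h4 i
  have h7 : (0 : ℝ) ≤ 1 - hH.eigenvalues i := by exact_mod_cast h6
  linarith

theorem kS_fc {U : Matrix d d ℂ} (h1 : Uᴴ * U = 1) (h2 : U * Uᴴ = 1) {f : d → ℝ}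
    (hf : ∀ i, 0 ≤ f i) {s : ℝ} (hs : 0 < s) :
    kS s (fc U f) = fc U (fun i => f i / (f i + s)) := by
  have hP := fc_posSemidef U hf
  have hA : fc U f + (s : ℂ) • 1 = fc U (fun i => f i + s) := by
    rw [← fc_one h2, fc_smul, fc_add]
    simp
  have hres : res s (fc U f) = fc U (fun i => (f i + s)⁻¹) := by
    unfold res
    rw [hA]
    apply Matrix.inv_eq_right_inv
    rw [fc_mul h1, ← fc_one h2]
    congr 1
    ext i
    have : f i + s ≠ 0 := by have := hf i; linarith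
    field_simp
  rw [kS_eq hP hs, hres, fc_mul h1]
  congr 1

/-- `θ'(M) = ∑_j h (k_{s_j}(M) - M/(1+s_j))`. -/
noncomputable def theta (h : ℝ) (N : ℕ) (M : Matrix d d ℂ) : Matrix d d ℂ :=
  ∑ j ∈ Finset.range N, (h : ℂ) • (kS (((j : ℝ) + 1) * h) M - ((1 / (1 + ((j : ℝ) + 1) * h) : ℝ) : ℂ) • M)

/-- leftover `M - ∑ h k²`. -/
noncomputable def leftover (h : ℝ) (N : ℕ) (M : Matrix d d ℂ) : Matrix d d ℂ :=
  M - ∑ j ∈ Finset.range N, (h : ℂ) • (kS (((j : ℝ) + 1) * h) M * kS (((j : ℝ) + 1) * h) M)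

/-- the gauge family -/
noncomputable def Kg (h : ℝ) (N : ℕ) (M : Matrix d d ℂ) : Option (Fin N) → Matrix d d ℂ
  | none => CFC.sqrt (leftover h N M)
  | some j => ((Real.sqrt h : ℝ) : ℂ) • kS (((j : ℕ) + 1 : ℝ) * h) M

theorem leftover_fc {U : Matrix d d ℂ} (h1 : Uᴴ * U = 1) (h2 : U * Uᴴ = 1) {f : d → ℝ}
    (hf : ∀ i, 0 ≤ f i) {h : ℝ} (hh : 0 < h) (N : ℕ) :
    leftover h N (fc U f) =
      fc U (fun i => f i - ∑ j ∈ Finset.range N, h * (f i / (f i + ((j : ℝ) + 1) * h)) ^ 2) := by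
  unfold leftover
  have : ∀ j ∈ Finset.range N, (h : ℂ) • (kS (((j : ℝ) + 1) * h) (fc U f) * kS (((j : ℝ) + 1) * h) (fc U f)) =
      fc U (fun i => h * (f i / (f i + ((j : ℝ) + 1) * h)) ^ 2) := by
    intro j _
    rw [kS_fc h1 h2 hf (by positivity), fc_mul h1, fc_smul]
    congr 1
    ext i
    ring
  rw [Finset.sum_congr rfl this, fc_sum, fc_sub]

theorem leftover_posSemidef {M : Matrix d d ℂ} (hM : M.PosSemidef) (hM1 : (1 - M).PosSemidef)
    {h : ℝ} (hh : 0 < h) (N : ℕ) : (leftover h N M).PosSemidef := by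
  obtain ⟨U, f, h1, h2, rfl, hf, hf1⟩ := exists_diag hM hM1
  rw [leftover_fc h1 h2 hf hh]
  apply fc_posSemidef
  intro i
  have := sum_sq_le (hf i) hh N
  linarith

theorem leftover_le {M : Matrix d d ℂ} (hM : M.PosSemidef) (hM1 : (1 - M).PosSemidef)
    {h : ℝ} (hh : 0 < h) (N : ℕ) :
    (((h + 1 / (((N : ℝ) + 1) * h) : ℝ) : ℂ) • 1 - leftover h N M).PosSemidef := by
  obtain ⟨U, f, h1, h2, rfl, hf, hf1⟩ := exists_diag hM hM1
  rw [leftover_fc h1 h2 hf hh, ← fc_one h2, fc_smul, fc_sub]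
  apply fc_posSemidef
  intro i
  have := le_sum_sq (hf i) (hf1 i) hh N
  linarith

theorem sqrt_leftover {M : Matrix d d ℂ} (hM : M.PosSemidef) (hM1 : (1 - M).PosSemidef)
    {h : ℝ} (hh : 0 < h) (N : ℕ) :
    (CFC.sqrt (leftover h N M))ᴴ = CFC.sqrt (leftover h N M) ∧
    CFC.sqrt (leftover h N M) * CFC.sqrt (leftover h N M) = leftover h N M := by
  have hL := leftover_posSemidef hM hM1 hh N
  constructor
  · exact (CFC.sqrt_nonneg (leftover h N M)).posSemidef.isHermitian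
  · exact CFC.sqrt_mul_sqrt_self _ hL.nonneg

/-- (a) `∑ K_r^* K_r = M`. -/
theorem Kg_sum {M : Matrix d d ℂ} (hM : M.PosSemidef) (hM1 : (1 - M).PosSemidef)
    {h : ℝ} (hh : 0 < h) (N : ℕ) :
    ∑ r, (Kg h N M r)ᴴ * Kg h N M r = M := by
  rw [Fintype.sum_option]
  obtain ⟨e1, e2⟩ := sqrt_leftover hM hM1 hh N
  simp only [Kg]
  rw [e1, e2]
  have : ∀ j : Fin N, (((Real.sqrt h : ℝ) : ℂ) • kS (((j : ℕ) + 1 : ℝ) * h) M)ᴴ *
      (((Real.sqrt h : ℝ) : ℂ) • kS (((j : ℕ) + 1 : ℝ) * h) M) =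
      (h : ℂ) • (kS ((((j : ℕ) : ℝ) + 1) * h) M * kS ((((j : ℕ) : ℝ) + 1) * h) M) := by
    intro j
    rw [conjTranspose_smul, kS_isHermitian hM (by positivity), smul_mul_assoc, mul_smul_comm, smul_smul]
    congr 1
    rw [Complex.star_def, Complex.conj_ofReal, ← Complex.ofReal_mul, Real.mul_self_sqrt hh.le]
  simp only [this]
  rw [Fin.sum_univ_eq_sum_range (fun j => (h : ℂ) • (kS (((j : ℝ) + 1) * h) M * kS (((j : ℝ) + 1) * h) M)) N]
  unfold leftover
  abel

/-- (c) positivity of `θ'`. -/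
theorem theta_posSemidef {M : Matrix d d ℂ} (hM : M.PosSemidef) (hM1 : (1 - M).PosSemidef)
    {h : ℝ} (hh : 0 < h) (N : ℕ) : (theta h N M).PosSemidef := by
  obtain ⟨U, f, h1, h2, rfl, hf, hf1⟩ := exists_diag hM hM1
  unfold theta
  apply Matrix.posSemidef_sum
  intro j _
  apply Matrix.PosSemidef.smul _ (by exact_mod_cast hh.le)
  rw [kS_fc h1 h2 hf (by positivity), fc_smul, fc_sub]
  apply fc_posSemidef
  intro i
  have hs : 0 < ((j : ℝ) + 1) * h := by positivity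
  have hfi := hf i
  have hfi1 := hf1 i
  rw [sub_nonneg, one_div, inv_mul_eq_div]
  exact div_le_div_of_nonneg_left hfi (by linarith) (by linarith)

/-- (b) the gauge inequality for the whole family. -/
theorem gauge_total {ι : Type*} (t : Finset ι) (w : ι → ℝ) (M : ι → Matrix d d ℂ)
    (hw : ∀ x ∈ t, 0 ≤ w x) (hw1 : ∑ x ∈ t, w x = 1) (hM : ∀ x ∈ t, (M x).PosSemidef)
    (hM1 : ∀ x ∈ t, (1 - M x).PosSemidef)
    {h : ℝ} (hh : 0 < h) (N : ℕ) :
    (theta h N (∑ x ∈ t, (w x : ℂ) • M x) - ∑ x ∈ t, (w x : ℂ) • theta h N (M x)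
      + ((4 * (h + 1 / (((N : ℝ) + 1) * h)) : ℝ) : ℂ) • 1
      - ∑ x ∈ t, (w x : ℂ) • ∑ r, (Kg h N (M x) r - Kg h N (∑ x ∈ t, (w x : ℂ) • M x) r)ᴴ *
          (Kg h N (M x) r - Kg h N (∑ x ∈ t, (w x : ℂ) • M x) r)).PosSemidef := by
  set Mb := ∑ x ∈ t, (w x : ℂ) • M x with hMb
  have hw1' : ∑ x ∈ t, (w x : ℂ) = 1 := by exact_mod_cast hw1
  have hMbP : Mb.PosSemidef := by
    rw [hMb]
    apply Matrix.posSemidef_sum
    intro x hx
    exact (hM x hx).smul (by exact_mod_cast hw x hx)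
  have hMbP1 : (1 - Mb).PosSemidef := by
    have : 1 - Mb = ∑ x ∈ t, (w x : ℂ) • (1 - M x) := by
      simp only [smul_sub, Finset.sum_sub_distrib]
      rw [← Finset.sum_smul, hw1', one_smul]
    rw [this]
    apply Matrix.posSemidef_sum
    intro x hx
    exact (hM1 x hx).smul (by exact_mod_cast hw x hx)
  -- resolvent components
  have hg : ∀ j : ℕ, (kS (((j : ℝ) + 1) * h) Mb - ∑ x ∈ t, (w x : ℂ) • kS (((j : ℝ) + 1) * h) (M x)
      - ∑ x ∈ t, (w x : ℂ) • ((kS (((j : ℝ) + 1) * h) (M x) - kS (((j : ℝ) + 1) * h) Mb) *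
          (kS (((j : ℝ) + 1) * h) (M x) - kS (((j : ℝ) + 1) * h) Mb))).PosSemidef := by
    intro j
    exact gauge t w M hw hw1 hM (by positivity)
  -- the leftover component
  set ε : ℝ := h + 1 / (((N : ℝ) + 1) * h) with hε
  have hsq : ∀ x ∈ t, (((4 * ε : ℝ) : ℂ) • (1 : Matrix d d ℂ) -
      (CFC.sqrt (leftover h N (M x)) - CFC.sqrt (leftover h N Mb))ᴴ *
        (CFC.sqrt (leftover h N (M x)) - CFC.sqrt (leftover h N Mb))).PosSemidef := by
    intro x hx
    obtain ⟨a1, a2⟩ := sqrt_leftover (hM x hx) (hM1 x hx) hh N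
    obtain ⟨b1, b2⟩ := sqrt_leftover hMbP hMbP1 hh N
    have c1 := leftover_le (hM x hx) (hM1 x hx) hh N
    have c2 := leftover_le hMbP hMbP1 hh N
    set A := CFC.sqrt (leftover h N (M x)) with hA
    set B := CFC.sqrt (leftover h N Mb) with hB
    have e : ((4 * ε : ℝ) : ℂ) • (1 : Matrix d d ℂ) - (A - B)ᴴ * (A - B) =
        (((2 : ℝ) : ℂ) • ((ε : ℂ) • 1 - leftover h N (M x))) +
        (((2 : ℝ) : ℂ) • ((ε : ℂ) • 1 - leftover h N Mb)) + (A + B)ᴴ * (A + B) := by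
      rw [conjTranspose_sub, conjTranspose_add, a1, b1, ← a2, ← b2]
      simp only [sub_mul, mul_sub, add_mul, mul_add, smul_sub, smul_smul]
      have : ((4 * ε : ℝ) : ℂ) = ((2 : ℝ) : ℂ) * (ε : ℂ) + ((2 : ℝ) : ℂ) * (ε : ℂ) := by
        push_cast; ring
      rw [this, add_smul]
      have t1 : ∀ X : Matrix d d ℂ, ((2 : ℝ) : ℂ) • X = X + X := by
        intro X
        have : ((2 : ℝ) : ℂ) = 2 := by norm_num
        rw [this, two_smul]
      rw [t1 (A * A), t1 (B * B)]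
      abel
    rw [e]
    refine Matrix.PosSemidef.add (Matrix.PosSemidef.add ?_ ?_) ?_
    · exact c1.smul (by norm_num)
    · exact c2.smul (by norm_num)
    · exact Matrix.posSemidef_conjTranspose_mul_self _
  -- assemble
  have hsplit : ∀ x ∈ t, ∑ r, (Kg h N (M x) r - Kg h N Mb r)ᴴ * (Kg h N (M x) r - Kg h N Mb r) =
      (CFC.sqrt (leftover h N (M x)) - CFC.sqrt (leftover h N Mb))ᴴ *
        (CFC.sqrt (leftover h N (M x)) - CFC.sqrt (leftover h N Mb)) +
      ∑ j ∈ Finset.range N, (h : ℂ) • ((kS (((j : ℝ) + 1) * h) (M x) - kS (((j : ℝ) + 1) * h) Mb) *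
          (kS (((j : ℝ) + 1) * h) (M x) - kS (((j : ℝ) + 1) * h) Mb)) := by
    intro x hx
    rw [Fintype.sum_option]
    simp only [Kg]
    congr 1
    rw [← Fin.sum_univ_eq_sum_range (fun j => (h : ℂ) • ((kS (((j : ℝ) + 1) * h) (M x) - kS (((j : ℝ) + 1) * h) Mb) *
          (kS (((j : ℝ) + 1) * h) (M x) - kS (((j : ℝ) + 1) * h) Mb))) N]
    apply Finset.sum_congr rfl
    intro j _
    rw [← smul_sub, conjTranspose_smul, conjTranspose_sub, kS_isHermitian (hM x hx) (by positivity),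
      kS_isHermitian hMbP (by positivity), smul_mul_assoc, mul_smul_comm, smul_smul]
    congr 1
    rw [Complex.star_def, Complex.conj_ofReal, ← Complex.ofReal_mul, Real.mul_self_sqrt hh.le]
  have hfin : theta h N Mb - ∑ x ∈ t, (w x : ℂ) • theta h N (M x)
      + ((4 * ε : ℝ) : ℂ) • 1
      - ∑ x ∈ t, (w x : ℂ) • ∑ r, (Kg h N (M x) r - Kg h N Mb r)ᴴ * (Kg h N (M x) r - Kg h N Mb r)
      = ∑ j ∈ Finset.range N, (h : ℂ) • (kS (((j : ℝ) + 1) * h) Mb - ∑ x ∈ t, (w x : ℂ) • kS (((j : ℝ) + 1) * h) (M x)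
      - ∑ x ∈ t, (w x : ℂ) • ((kS (((j : ℝ) + 1) * h) (M x) - kS (((j : ℝ) + 1) * h) Mb) *
          (kS (((j : ℝ) + 1) * h) (M x) - kS (((j : ℝ) + 1) * h) Mb))) +
        ∑ x ∈ t, (w x : ℂ) • (((4 * ε : ℝ) : ℂ) • (1 : Matrix d d ℂ) -
      (CFC.sqrt (leftover h N (M x)) - CFC.sqrt (leftover h N Mb))ᴴ *
        (CFC.sqrt (leftover h N (M x)) - CFC.sqrt (leftover h N Mb))) := by
    have g1 : ∑ x ∈ t, (w x : ℂ) • ∑ r, (Kg h N (M x) r - Kg h N Mb r)ᴴ * (Kg h N (M x) r - Kg h N Mb r)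
        = ∑ x ∈ t, (w x : ℂ) • ((CFC.sqrt (leftover h N (M x)) - CFC.sqrt (leftover h N Mb))ᴴ *
        (CFC.sqrt (leftover h N (M x)) - CFC.sqrt (leftover h N Mb))) +
        ∑ j ∈ Finset.range N, (h : ℂ) • ∑ x ∈ t, (w x : ℂ) • ((kS (((j : ℝ) + 1) * h) (M x) - kS (((j : ℝ) + 1) * h) Mb) *
          (kS (((j : ℝ) + 1) * h) (M x) - kS (((j : ℝ) + 1) * h) Mb)) := by
      rw [Finset.sum_congr rfl (fun x hx => by rw [hsplit x hx])]
      simp only [smul_add, Finset.sum_add_distrib, Finset.smul_sum]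
      congr 1
      rw [Finset.sum_comm]
      apply Finset.sum_congr rfl
      intro j _
      apply Finset.sum_congr rfl
      intro x _
      rw [smul_comm]
    have g2 : ∑ x ∈ t, (w x : ℂ) • theta h N (M x) =
        ∑ j ∈ Finset.range N, (h : ℂ) • (∑ x ∈ t, (w x : ℂ) • kS (((j : ℝ) + 1) * h) (M x) -
          ((1 / (1 + ((j : ℝ) + 1) * h) : ℝ) : ℂ) • Mb) := by
      unfold theta
      simp only [Finset.smul_sum]
      rw [Finset.sum_comm]
      apply Finset.sum_congr rfl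
      intro j _
      rw [hMb]
      simp only [smul_sub, Finset.sum_sub_distrib, Finset.smul_sum]
      congr 1
      · apply Finset.sum_congr rfl
        intro x _
        rw [smul_comm]
      · apply Finset.sum_congr rfl
        intro x _
        rw [smul_comm (w x : ℂ) (h : ℂ), smul_comm (w x : ℂ)]
    have g3 : ∑ x ∈ t, (w x : ℂ) • (((4 * ε : ℝ) : ℂ) • (1 : Matrix d d ℂ) -
      (CFC.sqrt (leftover h N (M x)) - CFC.sqrt (leftover h N Mb))ᴴ *
        (CFC.sqrt (leftover h N (M x)) - CFC.sqrt (leftover h N Mb))) =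
        ((4 * ε : ℝ) : ℂ) • (1 : Matrix d d ℂ) - ∑ x ∈ t, (w x : ℂ) • ((CFC.sqrt (leftover h N (M x)) - CFC.sqrt (leftover h N Mb))ᴴ *
        (CFC.sqrt (leftover h N (M x)) - CFC.sqrt (leftover h N Mb))) := by
      simp only [smul_sub, Finset.sum_sub_distrib]
      rw [← Finset.sum_smul, hw1', one_smul]
    rw [g1, g2, g3]
    simp only [theta]
    have g4 : ∑ j ∈ Finset.range N, (h : ℂ) • (kS (((j : ℝ) + 1) * h) Mb - ∑ x ∈ t, (w x : ℂ) • kS (((j : ℝ) + 1) * h) (M x)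
      - ∑ x ∈ t, (w x : ℂ) • ((kS (((j : ℝ) + 1) * h) (M x) - kS (((j : ℝ) + 1) * h) Mb) *
          (kS (((j : ℝ) + 1) * h) (M x) - kS (((j : ℝ) + 1) * h) Mb))) =
        ∑ j ∈ Finset.range N, (h : ℂ) • (kS (((j : ℝ) + 1) * h) Mb - ((1 / (1 + ((j : ℝ) + 1) * h) : ℝ) : ℂ) • Mb) -
        ∑ j ∈ Finset.range N, (h : ℂ) • (∑ x ∈ t, (w x : ℂ) • kS (((j : ℝ) + 1) * h) (M x) -
          ((1 / (1 + ((j : ℝ) + 1) * h) : ℝ) : ℂ) • Mb) -
        ∑ j ∈ Finset.range N, (h : ℂ) • ∑ x ∈ t, (w x : ℂ) • ((kS (((j : ℝ) + 1) * h) (M x) - kS (((j : ℝ) + 1) * h) Mb) *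
          (kS (((j : ℝ) + 1) * h) (M x) - kS (((j : ℝ) + 1) * h) Mb)) := by
      rw [← Finset.sum_sub_distrib, ← Finset.sum_sub_distrib]
      apply Finset.sum_congr rfl
      intro j _
      simp only [smul_sub]
      abel
    rw [g4]
    abel
  rw [hfin]
  apply Matrix.PosSemidef.add
  · apply Matrix.posSemidef_sum
    intro j _
    exact (hg j).smul (by exact_mod_cast hh.le)
  · apply Matrix.posSemidef_sum
    intro x hx
    exact (hsq x hx).smul (by exact_mod_cast hw x hx)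

end matrix

end Crest.H1PR
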