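import Mathlib
import Crest.Agent.H1PRGauge2

set_option autoImplicit false
set_option linter.unusedSectionVars false

open scoped ComplexOrder MatrixOrder Matrix Kronecker
open Matrix Crest.H26OneShot

namespace Crest.H1PR

variable {α β : Type*} [Fintype α] [DecidableEq α] [Fintype β] [DecidableEq β]

theorem bra_smul_left (ψ : α × β → ℂ) (c : ℝ) (A : Matrix α α ℂ) (B : Matrix β β ℂ) :
    bra ψ ((c : ℂ) • A) B = c * bra ψ A B := by
  unfold bra
  rw [Matrix.smul_kronecker, Matrix.smul_mulVec, dotProduct_smul, smul_eq_mul,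
    Complex.re_ofReal_mul]

theorem bra_smul_right (ψ : α × β → ℂ) (c : ℝ) (A : Matrix α α ℂ) (B : Matrix β β ℂ) :
    bra ψ A ((c : ℂ) • B) = c * bra ψ A B := by
  unfold bra
  rw [Matrix.kronecker_smul, Matrix.smul_mulVec, dotProduct_smul, smul_eq_mul,
    Complex.re_ofReal_mul]

theorem bra_zero_left (ψ : α × β → ℂ) (B : Matrix β β ℂ) : bra ψ 0 B = 0 := by
  unfold bra; simp

theorem bra_zero_right (ψ : α × β → ℂ) (A : Matrix α α ℂ) : bra ψ A 0 = 0 := by
  unfold bra; simp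

theorem bra_sub_left (ψ : α × β → ℂ) (A A' : Matrix α α ℂ) (B : Matrix β β ℂ) :
    bra ψ (A - A') B = bra ψ A B - bra ψ A' B := by
  have := bra_add_left ψ (A - A') A' B
  rw [sub_add_cancel] at this
  linarith

theorem bra_sub_right (ψ : α × β → ℂ) (A : Matrix α α ℂ) (B B' : Matrix β β ℂ) :
    bra ψ A (B - B') = bra ψ A B - bra ψ A B' := by
  have := bra_add_right ψ A (B - B') B'
  rw [sub_add_cancel] at this
  linarith

theorem bra_sum_left (ψ : α × β → ℂ) {ι : Type*} (t : Finset ι) (A : ι → Matrix α α ℂ)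
    (B : Matrix β β ℂ) : bra ψ (∑ x ∈ t, A x) B = ∑ x ∈ t, bra ψ (A x) B := by
  classical
  induction t using Finset.induction_on with
  | empty => simp [bra_zero_left]
  | insert a t ha ih => rw [Finset.sum_insert ha, Finset.sum_insert ha, bra_add_left, ih]

theorem bra_sum_right (ψ : α × β → ℂ) {ι : Type*} (t : Finset ι) (A : Matrix α α ℂ)
    (B : ι → Matrix β β ℂ) : bra ψ A (∑ x ∈ t, B x) = ∑ x ∈ t, bra ψ A (B x) := by
  classical
  induction t using Finset.induction_on with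
  | empty => simp [bra_zero_right]
  | insert a t ha ih => rw [Finset.sum_insert ha, Finset.sum_insert ha, bra_add_right, ih]

theorem bra_swap (ψ : α × β → ℂ) (A : Matrix α α ℂ) (B : Matrix β β ℂ) :
    bra (fun p : β × α => ψ (p.2, p.1)) B A = bra ψ A B := by
  unfold bra
  congr 1
  unfold dotProduct Matrix.mulVec dotProduct
  refine Fintype.sum_equiv (Equiv.prodComm β α) _ _ ?_
  rintro ⟨b, a⟩
  simp only [Pi.star_apply, Equiv.prodComm_apply, Prod.swap_prod_mk]
  congr 1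
  refine Fintype.sum_equiv (Equiv.prodComm β α) _ _ ?_
  rintro ⟨b', a'⟩
  simp [Matrix.kroneckerMap_apply, mul_comm]

/-- Cauchy–Schwarz for the resolvent: `⟨k_s(M) ⊗ N⟩ ≤ ν p / (p + s ν)`. -/
theorem bra_kS_le (ψ : α × β → ℂ) {M : Matrix α α ℂ} (hM : M.PosSemidef)
    {N : Matrix β β ℂ} (hN : N.PosSemidef) {s : ℝ} (hs : 0 < s)
    (hν : 0 < bra ψ 1 N) :
    bra ψ (kS s M) N ≤ bra ψ 1 N * bra ψ M N / (bra ψ M N + s * bra ψ 1 N) := by
  set ν := bra ψ 1 N with hνd
  set p := bra ψ M N with hp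
  have hp0 : 0 ≤ p := bra_nonneg ψ hM hN
  set r := bra ψ (res s M) N with hr
  have hk : bra ψ (kS s M) N = ν - s * r := by
    rw [kS, bra_sub_left, bra_smul_left]
  set t : ℝ := (p + s * ν) / ν with ht
  have htpos : 0 < t := by positivity
  have hPS : (M + (s : ℂ) • 1 - (2 * t : ℝ) • (1 : Matrix α α ℂ) + ((t ^ 2 : ℝ) : ℂ) • res s M).PosSemidef := by
    have h1 := mul_res hM hs
    have h2 := res_mul hM hs
    have hH := res_isHermitian hM hs
    have hA := (posDef_add_smul hM hs).posSemidef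
    have := hA.conjTranspose_mul_mul_same (1 - (t : ℂ) • res s M)
    have e : (1 - (t : ℂ) • res s M)ᴴ * (M + (s : ℂ) • 1) * (1 - (t : ℂ) • res s M) =
        M + (s : ℂ) • 1 - (2 * t : ℝ) • (1 : Matrix α α ℂ) + ((t ^ 2 : ℝ) : ℂ) • res s M := by
      rw [conjTranspose_sub, conjTranspose_one, conjTranspose_smul, hH]
      have hst : star (t : ℂ) = (t : ℂ) := by simp
      rw [hst]
      have e1 : (1 - (t : ℂ) • res s M) * (M + (s : ℂ) • 1) = M + (s : ℂ) • 1 - (t : ℂ) • 1 := by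
        rw [sub_mul, one_mul, smul_mul_assoc, h2]
      rw [e1, mul_sub, mul_one, mul_smul_comm, sub_mul, h1, smul_mul_assoc, one_mul]
      have e2 : ((2 * t : ℝ) • (1 : Matrix α α ℂ)) = (t : ℂ) • 1 + (t : ℂ) • 1 := by
        ext i j
        simp [Matrix.smul_apply, two_mul, add_mul]
      rw [e2, smul_sub, smul_smul]
      have e3 : ((t ^ 2 : ℝ) : ℂ) = (t : ℂ) * (t : ℂ) := by push_cast; ring
      rw [e3]
      abel
    rwa [e] at this
  have h0 := bra_nonneg ψ hPS hN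
  have e : ((2 * t : ℝ) • (1 : Matrix α α ℂ)) = ((2 * t : ℝ) : ℂ) • (1 : Matrix α α ℂ) := by
    ext i j; simp [Matrix.smul_apply]
  rw [e, bra_add_left, bra_sub_left, bra_add_left, bra_smul_left, bra_smul_left, bra_smul_left,
    ← hp, ← hνd, ← hr] at h0
  have hts : p + s * ν = t * ν := by rw [ht]; field_simp
  have hrl : ν / t ≤ r := by
    rw [div_le_iff₀ htpos]
    have : 0 ≤ t * (r * t - ν) := by nlinarith
    have := (mul_nonneg_iff_of_pos_left htpos).1 this
    linarith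
  rw [hk, hts]
  have e4 : ν * p / (t * ν) = p / t := by field_simp
  rw [e4]
  have e5 : ν - s * (ν / t) = p / t := by
    have : ν * t = p + s * ν := by rw [hts]; ring
    field_simp
    linarith
  have := mul_le_mul_of_nonneg_left hrl hs.le
  linarith

/-- (d) `⟨θ'(M) ⊗ N⟩ ≤ p log (ν / p)`. -/
theorem bra_theta_le (ψ : α × β → ℂ) {M : Matrix α α ℂ} (hM : M.PosSemidef)
    (hM1 : (1 - M).PosSemidef)
    {N : Matrix β β ℂ} (hN : N.PosSemidef) {h : ℝ} (hh : 0 < h) (n : ℕ) :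
    bra ψ (theta h n M) N ≤ bra ψ M N * Real.log (bra ψ 1 N / bra ψ M N) := by
  have hν0 : 0 ≤ bra ψ 1 N := bra_nonneg ψ Matrix.PosSemidef.one hN
  have hp0 : 0 ≤ bra ψ M N := bra_nonneg ψ hM hN
  have hpν : bra ψ M N ≤ bra ψ 1 N := by
    have := bra_nonneg ψ hM1 hN
    rw [bra_sub_left] at this
    linarith
  have hexp : bra ψ (theta h n M) N = ∑ j ∈ Finset.range n,
      h * (bra ψ (kS (((j : ℝ) + 1) * h) M) N - (1 / (1 + ((j : ℝ) + 1) * h)) * bra ψ M N) := by
    unfold theta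
    rw [bra_sum_left]
    apply Finset.sum_congr rfl
    intro j _
    rw [bra_smul_left, bra_sub_left, bra_smul_left]
  rcases eq_or_lt_of_le hν0 with hν | hν
  · -- ν = 0
    have hp : bra ψ M N = 0 := le_antisymm (by rw [hν]; exact hpν) hp0
    rw [hexp, hp]
    simp only [mul_zero, sub_zero, zero_mul]
    apply Finset.sum_nonpos
    intro j _
    apply mul_nonpos_of_nonneg_of_nonpos hh.le
    -- k_s(M) ≤ 1
    have hs : (0 : ℝ) < ((j : ℝ) + 1) * h := by positivity
    have h1 : (1 - kS (((j : ℝ) + 1) * h) M).PosSemidef := by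
      rw [kS, sub_sub_cancel]
      exact (res_posSemidef hM hs).smul (by exact_mod_cast hs.le)
    have := bra_nonneg ψ h1 hN
    rw [bra_sub_left, ← hν] at this
    linarith
  · rcases eq_or_lt_of_le hp0 with hp | hp
    · rw [← hp, zero_mul, hexp]
      apply Finset.sum_nonpos
      intro j _
      apply mul_nonpos_of_nonneg_of_nonpos hh.le
      have hs : (0 : ℝ) < ((j : ℝ) + 1) * h := by positivity
      have := bra_kS_le ψ hM hN hs hν
      rw [← hp] at this ⊢
      simpa using this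
    · set ν := bra ψ 1 N with hνd
      set p := bra ψ M N with hpd
      have ht : 0 < p / ν := by positivity
      have ht1 : p / ν ≤ 1 := by rw [div_le_one hν]; exact hpν
      have hlog := sum_log ht ht1 hh n
      have e1 : Real.log (1 / (p / ν)) = Real.log (ν / p) := by
        congr 1; field_simp
      rw [e1] at hlog
      rw [hexp]
      have : ∑ j ∈ Finset.range n, h * (bra ψ (kS (((j : ℝ) + 1) * h) M) N - (1 / (1 + ((j : ℝ) + 1) * h)) * p)
          ≤ ∑ j ∈ Finset.range n, p * (h * (1 / (p / ν + ((j : ℝ) + 1) * h) - 1 / (1 + ((j : ℝ) + 1) * h))) := by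
        apply Finset.sum_le_sum
        intro j _
        have hs : (0 : ℝ) < ((j : ℝ) + 1) * h := by positivity
        have h2 := bra_kS_le ψ hM hN hs hν
        have e2 : ν * p / (p + ((j : ℝ) + 1) * h * ν) = p * (1 / (p / ν + ((j : ℝ) + 1) * h)) := by
          field_simp
        rw [← hνd, ← hpd, e2] at h2
        nlinarith
      have h4 : ∑ j ∈ Finset.range n, p * (h * (1 / (p / ν + ((j : ℝ) + 1) * h) - 1 / (1 + ((j : ℝ) + 1) * h)))
          = p * ∑ j ∈ Finset.range n, h * (1 / (p / ν + ((j : ℝ) + 1) * h) - 1 / (1 + ((j : ℝ) + 1) * h)) :=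
        (Finset.mul_sum _ _ _).symm
      have h3 := mul_le_mul_of_nonneg_left hlog hp.le
      linarith

/-- mirrored version of (d). -/
theorem bra_theta_le' (ψ : α × β → ℂ) {M : Matrix α α ℂ} (hM : M.PosSemidef)
    {N : Matrix β β ℂ} (hN : N.PosSemidef) (hN1 : (1 - N).PosSemidef) {h : ℝ} (hh : 0 < h) (n : ℕ) :
    bra ψ M (theta h n N) ≤ bra ψ M N * Real.log (bra ψ M 1 / bra ψ M N) := by
  have := bra_theta_le (fun p : β × α => ψ (p.2, p.1)) hN hN1 hM hh n
  rwa [bra_swap, bra_swap, bra_swap] at this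

/-- scalar form of the tangent bound -/
theorem theta_scalar_le {x t h : ℝ} (hx : 0 ≤ x) (hx1 : x ≤ 1) (ht : 0 < t) (hh : 0 < h) (N : ℕ) :
    ∑ j ∈ Finset.range N, h * (x / (x + ((j : ℝ) + 1) * h) - 1 / (1 + ((j : ℝ) + 1) * h) * x)
      ≤ (Real.log (1 / t) - 1) * x + t := by
  rcases eq_or_lt_of_le hx with rfl | hx0
  · simp [ht.le]
  · have h1 := sum_log hx0 hx1 hh N
    have h2 : ∑ j ∈ Finset.range N, h * (x / (x + ((j : ℝ) + 1) * h) - 1 / (1 + ((j : ℝ) + 1) * h) * x)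
        = x * ∑ j ∈ Finset.range N, h * (1 / (x + ((j : ℝ) + 1) * h) - 1 / (1 + ((j : ℝ) + 1) * h)) := by
      rw [Finset.mul_sum]
      apply Finset.sum_congr rfl
      intro j _
      ring
    rw [h2]
    have h3 := mul_le_mul_of_nonneg_left h1 hx0.le
    have h4 : x * Real.log (1 / x) ≤ (Real.log (1 / t) - 1) * x + t := by
      have h5 : Real.log (1 / x) = Real.log (1 / t) + Real.log (t / x) := by
        rw [← Real.log_mul (by positivity) (by positivity)]
        congr 1; field_simp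
      have h6 : Real.log (t / x) ≤ t / x - 1 := Real.log_le_sub_one_of_pos (by positivity)
      rw [h5]
      have h7 := mul_le_mul_of_nonneg_left h6 hx0.le
      have h8 : x * (t / x - 1) = t - x := by field_simp
      nlinarith
    linarith

theorem theta_le {M : Matrix α α ℂ} (hM : M.PosSemidef) (hM1 : (1 - M).PosSemidef)
    {h t : ℝ} (hh : 0 < h) (ht : 0 < t) (N : ℕ) :
    (((Real.log (1 / t) - 1 : ℝ) : ℂ) • M + (t : ℂ) • 1 - theta h N M).PosSemidef := by
  obtain ⟨U, f, h1, h2, rfl, hf, hf1⟩ := exists_diag hM hM1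
  have e : theta h N (fc U f) = fc U (fun i => ∑ j ∈ Finset.range N,
      h * (f i / (f i + ((j : ℝ) + 1) * h) - 1 / (1 + ((j : ℝ) + 1) * h) * f i)) := by
    unfold theta
    have : ∀ j ∈ Finset.range N, (h : ℂ) • (kS (((j : ℝ) + 1) * h) (fc U f) -
        ((1 / (1 + ((j : ℝ) + 1) * h) : ℝ) : ℂ) • fc U f) =
        fc U (fun i => h * (f i / (f i + ((j : ℝ) + 1) * h) - 1 / (1 + ((j : ℝ) + 1) * h) * f i)) := by
      intro j _
      rw [kS_fc h1 h2 hf (by positivity), fc_smul, fc_sub, fc_smul]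
    rw [Finset.sum_congr rfl this, fc_sum]
  rw [e, fc_smul, ← fc_one h2, fc_smul, fc_add, fc_sub]
  apply fc_posSemidef
  intro i
  have := theta_scalar_le (hf i) (hf1 i) ht hh N
  linarith

/-- the gauge as one rectangular matrix -/
noncomputable def Kmat (h : ℝ) (N : ℕ) (M : Matrix α α ℂ) : Matrix (Option (Fin N) × α) α ℂ :=
  fun p j => Kg h N M p.1 p.2 j

theorem Kmat_mul (h : ℝ) (N : ℕ) (M M' : Matrix α α ℂ) :
    (Kmat h N M)ᴴ * Kmat h N M' = ∑ r, (Kg h N M r)ᴴ * Kg h N M' r := by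
  ext i j
  simp only [Matrix.mul_apply, Matrix.conjTranspose_apply, Kmat, Matrix.sum_apply,
    Fintype.sum_prod_type]

theorem Kmat_self {M : Matrix α α ℂ} (hM : M.PosSemidef) (hM1 : (1 - M).PosSemidef)
    {h : ℝ} (hh : 0 < h) (N : ℕ) : (Kmat h N M)ᴴ * Kmat h N M = M := by
  rw [Kmat_mul, Kg_sum hM hM1 hh]

theorem Kmat_sub (h : ℝ) (N : ℕ) (M M' : Matrix α α ℂ) :
    (Kmat h N M - Kmat h N M')ᴴ * (Kmat h N M - Kmat h N M') =
      ∑ r, (Kg h N M r - Kg h N M' r)ᴴ * (Kg h N M r - Kg h N M' r) := by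
  ext i j
  simp only [Matrix.mul_apply, Matrix.conjTranspose_apply, Kmat, Matrix.sum_apply,
    Fintype.sum_prod_type, Matrix.sub_apply]

/-- final form of the gauge package (helper3's shape). -/
theorem gauge_final (ε : ℝ) (hε : 0 < ε) (A : Type*) [Fintype A] [DecidableEq A] :
    ∃ (N : ℕ) (K : Matrix A A ℂ → Matrix (Option (Fin N) × A) A ℂ) (Θ : Matrix A A ℂ → Matrix A A ℂ),
      (∀ M : Matrix A A ℂ, M.PosSemidef → (1 - M).PosSemidef →
        (K M)ᴴ * K M = M ∧ (Θ M).PosSemidef ∧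
        (∀ t : ℝ, 0 < t → (((Real.log (1 / t) - 1 : ℝ) : ℂ) • M + (t : ℂ) • 1 - Θ M).PosSemidef) ∧
        (∀ (β : Type*) [Fintype β] [DecidableEq β] (ψ : A × β → ℂ) (N' : Matrix β β ℂ),
          N'.PosSemidef → bra ψ (Θ M) N' ≤ bra ψ M N' * Real.log (bra ψ 1 N' / bra ψ M N'))) ∧
      (∀ (ι : Type*) (s : Finset ι) (w : ι → ℝ) (M : ι → Matrix A A ℂ),
        (∀ x ∈ s, 0 ≤ w x) → ∑ x ∈ s, w x = 1 → (∀ x ∈ s, (M x).PosSemidef) →
        (∀ x ∈ s, (1 - M x).PosSemidef) →
        (Θ (∑ x ∈ s, (w x : ℂ) • M x) - ∑ x ∈ s, (w x : ℂ) • Θ (M x) + (ε : ℂ) • 1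
          - ∑ x ∈ s, (w x : ℂ) • ((K (M x) - K (∑ x ∈ s, (w x : ℂ) • M x))ᴴ *
              (K (M x) - K (∑ x ∈ s, (w x : ℂ) • M x)))).PosSemidef) := by
  -- choose h = ε/8, N with 1/((N+1)h) ≤ ε/8
  set h : ℝ := ε / 8 with hh'
  have hh : 0 < h := by positivity
  obtain ⟨N, hN⟩ := exists_nat_gt (8 / (ε * h))
  have hsmall : 4 * (h + 1 / (((N : ℝ) + 1) * h)) ≤ ε := by
    have h1 : 1 / (((N : ℝ) + 1) * h) ≤ ε / 8 := by
      rw [div_le_div_iff₀ (by positivity) (by norm_num)]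
      rw [div_lt_iff₀ (by positivity)] at hN
      nlinarith [hN, mul_pos hε hh]
    rw [hh'] at h1 ⊢
    linarith
  refine ⟨N, Kmat h N, theta h N, ?_, ?_⟩
  · intro M hM hM1
    refine ⟨Kmat_self hM hM1 hh N, theta_posSemidef hM hM1 hh N, ?_, ?_⟩
    · intro t ht
      exact theta_le hM hM1 hh ht N
    · intro β _ _ ψ N' hN'
      exact bra_theta_le ψ hM hM1 hN' hh N
  · intro ι s w M hw hw1 hM hM1
    have h1 := gauge_total s w M hw hw1 hM hM1 hh N
    simp only [Kmat_sub]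
    have h2 : (((ε - 4 * (h + 1 / (((N : ℝ) + 1) * h)) : ℝ) : ℂ) • (1 : Matrix A A ℂ)).PosSemidef := by
      apply Matrix.PosSemidef.one.smul
      have : 0 ≤ ε - 4 * (h + 1 / (((N : ℝ) + 1) * h)) := by linarith
      exact_mod_cast this
    have h3 := h1.add h2
    convert h3 using 1
    have e : (ε : ℂ) • (1 : Matrix A A ℂ) = ((4 * (h + 1 / (((N : ℝ) + 1) * h)) : ℝ) : ℂ) • (1 : Matrix A A ℂ) +
        (((ε - 4 * (h + 1 / (((N : ℝ) + 1) * h)) : ℝ) : ℂ) • (1 : Matrix A A ℂ)) := by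
      rw [← add_smul]
      congr 1
      push_cast
      ring
    rw [e]
    abel

end Crest.H1PR
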