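import Mathlib
import Crest.Agent.H1PRBra
import Crest.Agent.H16PRFam

set_option autoImplicit false
set_option linter.unusedSectionVars false

open scoped ComplexOrder MatrixOrder Matrix Kronecker
open Matrix Crest.H26OneShot Crest.H16PR

namespace Crest.H1PR

theorem real_smul_eq {n : Type*} (c : ℝ) (M : Matrix n n ℂ) : c • M = (c : ℂ) • M := by
  ext i j
  simp [Matrix.smul_apply]

theorem gaugeOK_explicit (n : Type) [Fintype n] [DecidableEq n] {h ε : ℝ} (hh : 0 < h) (N : ℕ)
    (hsmall : 4 * (h + 1 / (((N : ℝ) + 1) * h)) ≤ ε) :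
    GaugeOK (ρ := Option (Fin N)) (n := n) (fun r M => Kg h N M r) (theta h N) ε := by
  classical
  refine ⟨?_, ?_, ?_, ?_, ?_⟩
  · intro M hM hM1
    exact Kg_sum hM hM1 hh N
  · intro ι _ w M hw hw1 hM hM1
    set s : Finset ι := Finset.univ.filter fun x => w x ≠ 0 with hs
    have hsub : ∀ (F : ι → Matrix n n ℂ), ∑ x, w x • F x = ∑ x ∈ s, (w x : ℂ) • F x := by
      intro F
      rw [hs, Finset.sum_filter]
      apply Finset.sum_congr rfl
      intro x _
      by_cases hx : w x = 0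
      · simp [hx]
      · rw [if_pos hx, real_smul_eq]
    have hw1' : ∑ x ∈ s, w x = 1 := by
      rw [hs, Finset.sum_filter, ← hw1]
      apply Finset.sum_congr rfl
      intro x _
      by_cases hx : w x = 0
      · simp [hx]
      · rw [if_pos hx]
    have hmem : ∀ x ∈ s, w x ≠ 0 := fun x hx => (Finset.mem_filter.1 hx).2
    have h1 := gauge_total s w M (fun x _ => hw x) hw1' (fun x hx => hM x (hmem x hx))
      (fun x hx => hM1 x (hmem x hx)) hh N
    have h2 : (((ε - 4 * (h + 1 / (((N : ℝ) + 1) * h)) : ℝ) : ℂ) • (1 : Matrix n n ℂ)).PosSemidef := by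
      apply Matrix.PosSemidef.one.smul
      have : 0 ≤ ε - 4 * (h + 1 / (((N : ℝ) + 1) * h)) := by linarith
      exact_mod_cast this
    have h3 := h1.add h2
    rw [hsub M, hsub (fun x => theta h N (M x)), hsub (fun x => Disc (fun r M => Kg h N M r) (M x)
      (∑ x ∈ s, (w x : ℂ) • M x))]
    unfold Disc
    convert h3 using 1
    rw [real_smul_eq]
    have e : (ε : ℂ) • (1 : Matrix n n ℂ) = ((4 * (h + 1 / (((N : ℝ) + 1) * h)) : ℝ) : ℂ) • (1 : Matrix n n ℂ) +
        (((ε - 4 * (h + 1 / (((N : ℝ) + 1) * h)) : ℝ) : ℂ) • (1 : Matrix n n ℂ)) := by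
      rw [← add_smul]
      congr 1
      push_cast
      ring
    rw [e]
    abel
  · intro M hM hM1
    exact theta_posSemidef hM hM1 hh N
  · intro β _ _ ψ M N' hM hM1 hN'
    exact bra_theta_le ψ hM hM1 hN' hh N
  · intro α _ _ ψ N' M hM hM1 hN'
    exact bra_theta_le' ψ hN' hM hM1 hh N

/-- existence of a gauge with error `ε`, for two dimensions at once. -/
theorem exists_gauge (ε : ℝ) (hε : 0 < ε) :
    ∃ (h : ℝ) (N : ℕ), 0 < h ∧ ∀ (n : Type) [Fintype n] [DecidableEq n],
      GaugeOK (ρ := Option (Fin N)) (n := n) (fun r M => Kg h N M r) (theta h N) ε := by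
  set h : ℝ := ε / 8 with hh'
  have hh : 0 < h := by positivity
  obtain ⟨N, hN⟩ := exists_nat_gt (8 / (ε * h))
  have hsmall : 4 * (h + 1 / (((N : ℝ) + 1) * h)) ≤ ε := by
    have h1 : 1 / (((N : ℝ) + 1) * h) ≤ ε / 8 := by
      rw [div_le_div_iff₀ (by positivity) (by norm_num)]
      rw [div_lt_iff₀ (by positivity)] at hN
      nlinarith [hN, mul_pos hε hh]
    rw [hh'] at h1 ⊢
    linarith
  exact ⟨h, N, hh, fun n _ _ => gaugeOK_explicit n hh N hsmall⟩

end Crest.H1PR
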