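import Mathlib

/-!
Classical part of the parallel repetition proof (rid 342): superadditivity of the relative
entropy for product distributions and the resulting Hellinger / total variation bounds.
-/

set_option autoImplicit false

namespace Crest.H24PRClassical

open Finset

variable {ι Z : Type*} [Fintype ι] [DecidableEq ι] [Fintype Z] [DecidableEq Z]

/-- `w z0 * E[h | z i = z0]`, unnormalised conditional sum. -/
noncomputable def slice (w : Z → ℝ) (h : (ι → Z) → ℝ) (i : ι) (z0 : Z) : ℝ :=
  ∑ z : ι → Z, if z i = z0 then (∏ j, w (z j)) * h z else 0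

lemma sum_slice (w : Z → ℝ) (h : (ι → Z) → ℝ) (i : ι) :
    ∑ z0, slice w h i z0 = ∑ z : ι → Z, (∏ j, w (z j)) * h z := by
  unfold slice
  rw [Finset.sum_comm]
  refine Finset.sum_congr rfl fun z _ => ?_
  simp

/-- slice in terms of `Function.update`. -/
lemma slice_eq_update (w : Z → ℝ) (hw1 : ∑ z, w z = 1) (h : (ι → Z) → ℝ) (i : ι) (z0 : Z) :
    slice w h i z0 = w z0 * ∑ z : ι → Z, (∏ j, w (z j)) * h (Function.update z i z0) := by
  classical
  unfold slice
  -- split the sum over z according to z i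
  have key : ∀ g : (ι → Z) → ℝ, ∑ z : ι → Z, g z =
      ∑ z1 : Z, ∑ z : ι → Z, if z i = z1 then g z else 0 := by
    intro g
    rw [Finset.sum_comm]
    refine Finset.sum_congr rfl fun z _ => ?_
    simp
  rw [key (fun z => (∏ j, w (z j)) * h (Function.update z i z0))]
  have h1 : ∀ z1 : Z, (∑ z : ι → Z, if z i = z1 then (∏ j, w (z j)) * h (Function.update z i z0) else 0)
      = w z1 * ∑ z : ι → Z, if z i = z0 then (∏ j ∈ univ.erase i, w (z j)) * h z else 0 := by
    intro z1
    rw [Finset.mul_sum]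
    rw [← Finset.sum_filter]
    have : ∑ z : ι → Z, w z1 * (if z i = z0 then (∏ j ∈ univ.erase i, w (z j)) * h z else 0)
        = ∑ z ∈ univ.filter (fun z : ι → Z => z i = z0),
            w z1 * ((∏ j ∈ univ.erase i, w (z j)) * h z) := by
      rw [Finset.sum_filter]
      refine Finset.sum_congr rfl fun z _ => ?_
      split_ifs <;> simp
    rw [this]
    refine Finset.sum_bij' (fun z _ => Function.update z i z0) (fun z _ => Function.update z i z1)
      ?_ ?_ ?_ ?_ ?_
    · intro z hz; simp
    · intro z hz; simp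
    · intro z hz
      simp only [mem_filter, mem_univ, true_and] at hz
      rw [Function.update_idem, ← hz, Function.update_eq_self]
    · intro z hz
      simp only [mem_filter, mem_univ, true_and] at hz
      rw [Function.update_idem, ← hz, Function.update_eq_self]
    · intro z hz
      simp only [mem_filter, mem_univ, true_and] at hz
      rw [← Finset.mul_prod_erase univ (fun j => w (z j)) (mem_univ i), hz]
      have : ∏ j ∈ univ.erase i, w (Function.update z i z0 j) = ∏ j ∈ univ.erase i, w (z j) := by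
        refine Finset.prod_congr rfl fun j hj => ?_
        rw [Function.update_of_ne (Finset.ne_of_mem_erase hj)]
      rw [this]; ring
  simp_rw [h1]
  rw [← Finset.sum_mul, hw1, one_mul, Finset.mul_sum]
  refine Finset.sum_congr rfl fun z _ => ?_
  split_ifs with hz
  · rw [← Finset.mul_prod_erase univ (fun j => w (z j)) (mem_univ i), hz]; ring
  · simp

/-- Superadditivity of relative entropy, in unnormalised form. -/
theorem kl_superadd (w : Z → ℝ) (hw : ∀ z, 0 ≤ w z)
    (h : (ι → Z) → ℝ) (hh : ∀ z, 0 ≤ h z) (Q : ℝ) (hQ : ∀ z, h z ≤ Q)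
    (P : ℝ) (hP : P = ∑ z : ι → Z, (∏ j, w (z j)) * h z) (hPpos : 0 < P)
    (hi : ι → Z → ℝ) (hhi : ∀ i z0, w z0 * hi i z0 = slice w h i z0) :
    ∑ i, ∑ z0, w z0 * (hi i z0 * Real.log (hi i z0 / P)) ≤ P * Real.log (Q / P) := by
  classical
  set W : (ι → Z) → ℝ := fun z => ∏ j, w (z j) with hWdef
  have hWnn : ∀ z, 0 ≤ W z := fun z => Finset.prod_nonneg fun j _ => hw _
  have hslice_nn : ∀ i z0, 0 ≤ slice w h i z0 := by
    intro i z0
    refine Finset.sum_nonneg fun z _ => ?_
    split_ifs
    · exact mul_nonneg (hWnn z) (hh z)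
    · exact le_rfl
  -- pointwise inequality
  have hpt : ∀ z : ι → Z, W z * h z * ∑ i, Real.log (hi i (z i) / P)
      ≤ W z * h z * Real.log (Q / P) + P * (∏ i, (w (z i) * hi i (z i) / P)) - W z * h z := by
    intro z
    have hprodnn : 0 ≤ ∏ i, (w (z i) * hi i (z i) / P) := by
      refine Finset.prod_nonneg fun i _ => ?_
      rw [hhi]
      exact div_nonneg (hslice_nn _ _) hPpos.le
    by_cases hz : W z * h z = 0
    · rw [hz, zero_mul, zero_mul, zero_add, sub_zero]
      exact mul_nonneg hPpos.le hprodnn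
    · have hWpos : 0 < W z := lt_of_le_of_ne (hWnn z) (fun h0 => hz (by rw [← h0]; simp))
      have hhpos : 0 < h z := lt_of_le_of_ne (hh z) (fun h0 => hz (by rw [← h0]; simp))
      have hwpos : ∀ j, 0 < w (z j) := by
        intro j
        refine lt_of_le_of_ne (hw _) (fun h0 => ?_)
        have : W z = 0 := Finset.prod_eq_zero (mem_univ j) h0.symm
        exact absurd this hWpos.ne'
      have hipos : ∀ i, 0 < hi i (z i) := by
        intro i
        have h1 : 0 < slice w h i (z i) := by
          unfold slice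
          refine Finset.sum_pos' (fun z' _ => ?_) ⟨z, mem_univ z, ?_⟩
          · split_ifs
            · exact mul_nonneg (hWnn z') (hh z')
            · exact le_rfl
          · simp only [if_true]
            exact mul_pos hWpos hhpos
        rw [← hhi] at h1
        exact (pos_iff_pos_of_mul_pos h1).1 (hwpos i)
      have hx : 0 < (∏ i, (hi i (z i) / P)) / (h z / P) := by
        refine div_pos (Finset.prod_pos fun i _ => div_pos (hipos i) hPpos) (div_pos hhpos hPpos)
      have hlog := Real.log_le_sub_one_of_pos hx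
      rw [Real.log_div (Finset.prod_pos fun i _ => div_pos (hipos i) hPpos).ne'
        (div_pos hhpos hPpos).ne', Real.log_prod (fun i _ => (div_pos (hipos i) hPpos).ne')] at hlog
      have hlogQ : Real.log (h z / P) ≤ Real.log (Q / P) := by
        apply Real.log_le_log (div_pos hhpos hPpos)
        gcongr
        exact hQ z
      have hmu : 0 < W z * h z := mul_pos hWpos hhpos
      have e1 : W z * h z * ((∏ i, (hi i (z i) / P)) / (h z / P))
          = P * (∏ i, (w (z i) * hi i (z i) / P)) := by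
        have : ∏ i, (w (z i) * hi i (z i) / P) = W z * ∏ i, (hi i (z i) / P) := by
          rw [hWdef, ← Finset.prod_mul_distrib]
          refine Finset.prod_congr rfl fun i _ => ?_
          ring
        rw [this]
        field_simp
      have h2 : ∑ i, Real.log (hi i (z i) / P) ≤
          Real.log (Q / P) + ((∏ i, (hi i (z i) / P)) / (h z / P)) - 1 := by linarith
      calc W z * h z * ∑ i, Real.log (hi i (z i) / P)
          ≤ W z * h z * (Real.log (Q / P) + ((∏ i, (hi i (z i) / P)) / (h z / P)) - 1) :=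
            mul_le_mul_of_nonneg_left h2 hmu.le
        _ = W z * h z * Real.log (Q / P) +
              W z * h z * ((∏ i, (hi i (z i) / P)) / (h z / P)) - W z * h z := by ring
        _ = _ := by rw [e1]
  have hsum := Finset.sum_le_sum (fun z (_ : z ∈ (univ : Finset (ι → Z))) => hpt z)
  have hPsum : ∑ z : ι → Z, W z * h z = P := hP.symm
  have hprod1 : ∑ z : ι → Z, ∏ i, (w (z i) * hi i (z i) / P) = 1 := by
    have h1 : ∏ i : ι, ∑ z0 : Z, (w z0 * hi i z0 / P) = 1 := by
      refine Finset.prod_eq_one fun i _ => ?_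
      rw [← Finset.sum_div]
      simp_rw [hhi]
      rw [sum_slice, ← hP, div_self hPpos.ne']
    rw [← h1, Finset.prod_univ_sum]
    refine Finset.sum_congr ?_ fun _ _ => rfl
    ext z; simp
  have hR : ∑ z : ι → Z, (W z * h z * Real.log (Q / P) +
      P * (∏ i, (w (z i) * hi i (z i) / P)) - W z * h z) = P * Real.log (Q / P) := by
    rw [Finset.sum_sub_distrib, Finset.sum_add_distrib, ← Finset.sum_mul, ← Finset.mul_sum,
      hPsum, hprod1]
    ring
  rw [hR] at hsum
  refine le_trans (le_of_eq ?_) hsum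
  -- regroup
  have : ∀ z : ι → Z, W z * h z * ∑ i, Real.log (hi i (z i) / P)
      = ∑ i, ∑ z0, (if z i = z0 then W z * h z else 0) * Real.log (hi i z0 / P) := by
    intro z
    rw [Finset.mul_sum]
    refine Finset.sum_congr rfl fun i _ => ?_
    simp [ite_mul]
  simp_rw [this]
  conv_rhs => rw [Finset.sum_comm]
  refine Finset.sum_congr rfl fun i _ => ?_
  conv_rhs => rw [Finset.sum_comm]
  refine Finset.sum_congr rfl fun z0 _ => ?_
  rw [← Finset.sum_mul, ← mul_assoc, hhi]
  rfl

/-- pointwise Hellinger/KL inequality -/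
lemma hell_le_kl_pt (t P : ℝ) (ht : 0 ≤ t) (hP : 0 < P) :
    (Real.sqrt t - Real.sqrt P) ^ 2 ≤ t * Real.log (t / P) - t + P := by
  rcases ht.eq_or_lt with h0 | h0
  · rw [← h0]; simp [Real.sq_sqrt hP.le]
  · have hst : 0 < Real.sqrt t := Real.sqrt_pos.2 h0
    have hsP : 0 < Real.sqrt P := Real.sqrt_pos.2 hP
    have hu : 0 < Real.sqrt P / Real.sqrt t := div_pos hsP hst
    have hl := Real.log_le_sub_one_of_pos hu
    rw [Real.log_div hsP.ne' hst.ne', Real.log_sqrt hP.le, Real.log_sqrt h0.le] at hl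
    rw [Real.log_div h0.ne' hP.ne']
    have ht2 : Real.sqrt t ^ 2 = t := Real.sq_sqrt h0.le
    have hP2 : Real.sqrt P ^ 2 = P := Real.sq_sqrt hP.le
    have h3 : t * (Real.log P / 2 - Real.log t / 2) ≤ t * (Real.sqrt P / Real.sqrt t - 1) :=
      mul_le_mul_of_nonneg_left hl h0.le
    have h4 : t * (Real.sqrt P / Real.sqrt t - 1) = Real.sqrt t * Real.sqrt P - t := by
      have : t * (Real.sqrt P / Real.sqrt t) = Real.sqrt t * Real.sqrt P := by
        rw [mul_div_assoc', div_eq_iff hst.ne']
        calc t * Real.sqrt P = Real.sqrt t ^ 2 * Real.sqrt P := by rw [ht2]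
          _ = _ := by ring
      rw [mul_sub, this, mul_one]
    rw [h4] at h3
    nlinarith [h3, ht2, hP2]

/-- Hellinger norm bound summed over the coordinates. -/
theorem hellinger (w : Z → ℝ) (hw : ∀ z, 0 ≤ w z) (hw1 : ∑ z, w z = 1)
    (h : (ι → Z) → ℝ) (hh : ∀ z, 0 ≤ h z) (Q : ℝ) (hQ : ∀ z, h z ≤ Q)
    (P : ℝ) (hP : P = ∑ z : ι → Z, (∏ j, w (z j)) * h z) (hPpos : 0 < P)
    (hi : ι → Z → ℝ) (hhi : ∀ i z0, w z0 * hi i z0 = slice w h i z0) :
    ∑ i, ∑ z0, w z0 * (Real.sqrt (hi i z0) - Real.sqrt P) ^ 2 ≤ P * Real.log (Q / P) := by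
  refine le_trans ?_ (kl_superadd w hw h hh Q hQ P hP hPpos hi hhi)
  refine Finset.sum_le_sum fun i _ => ?_
  have hslice_nn : ∀ i z0, 0 ≤ slice w h i z0 := by
    intro i z0
    refine Finset.sum_nonneg fun z _ => ?_
    split_ifs
    · exact mul_nonneg (Finset.prod_nonneg fun j _ => hw _) (hh z)
    · exact le_rfl
  have h1 : ∀ z0, w z0 * (Real.sqrt (hi i z0) - Real.sqrt P) ^ 2
      ≤ w z0 * (hi i z0 * Real.log (hi i z0 / P)) - slice w h i z0 + w z0 * P := by
    intro z0
    rcases (hw z0).eq_or_lt with h0 | h0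
    · have : slice w h i z0 = 0 := by rw [← hhi, ← h0]; simp
      rw [this, ← h0]; simp
    · have hinn : 0 ≤ hi i z0 := by
        have := hslice_nn i z0
        rw [← hhi] at this
        exact nonneg_of_mul_nonneg_right this h0
      have := mul_le_mul_of_nonneg_left (hell_le_kl_pt (hi i z0) P hinn hPpos) h0.le
      rw [← hhi]
      linarith [this]
  refine (Finset.sum_le_sum fun z0 _ => h1 z0).trans (le_of_eq ?_)
  rw [Finset.sum_add_distrib, Finset.sum_sub_distrib, sum_slice, ← hP, ← Finset.sum_mul, hw1]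
  ring

/-- Total variation form (constant 4). -/
theorem tv (w : Z → ℝ) (hw : ∀ z, 0 ≤ w z) (hw1 : ∑ z, w z = 1)
    (h : (ι → Z) → ℝ) (hh : ∀ z, 0 ≤ h z) (Q : ℝ) (hQ : ∀ z, h z ≤ Q)
    (P : ℝ) (hP : P = ∑ z : ι → Z, (∏ j, w (z j)) * h z) (hPpos : 0 < P)
    (hi : ι → Z → ℝ) (hhi : ∀ i z0, w z0 * hi i z0 = slice w h i z0) :
    ∑ i, (∑ z0, w z0 * |hi i z0 - P|) ^ 2 ≤ 4 * P ^ 2 * Real.log (Q / P) := by
  have hslice_nn : ∀ i z0, 0 ≤ slice w h i z0 := by
    intro i z0
    refine Finset.sum_nonneg fun z _ => ?_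
    split_ifs
    · exact mul_nonneg (Finset.prod_nonneg fun j _ => hw _) (hh z)
    · exact le_rfl
  have hone : ∀ i, (∑ z0, w z0 * |hi i z0 - P|) ^ 2
      ≤ 4 * P * ∑ z0, w z0 * (Real.sqrt (hi i z0) - Real.sqrt P) ^ 2 := by
    intro i
    have e : ∀ z0, w z0 * |hi i z0 - P| =
        (Real.sqrt (w z0) * |Real.sqrt (hi i z0) - Real.sqrt P|) *
          (Real.sqrt (w z0) * (Real.sqrt (hi i z0) + Real.sqrt P)) := by
      intro z0
      have hsw : Real.sqrt (w z0) * Real.sqrt (w z0) = w z0 := Real.mul_self_sqrt (hw z0)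
      rcases (hw z0).eq_or_lt with h0 | h0
      · rw [← h0]; simp
      · have hinn : 0 ≤ hi i z0 := by
          have := hslice_nn i z0
          rw [← hhi] at this
          exact nonneg_of_mul_nonneg_right this h0
        have h2 : hi i z0 - P = (Real.sqrt (hi i z0) - Real.sqrt P) *
            (Real.sqrt (hi i z0) + Real.sqrt P) := by
          have a := Real.mul_self_sqrt hinn
          have b := Real.mul_self_sqrt hPpos.le
          linarith [a, b]
        rw [h2, abs_mul, abs_of_nonneg (a := Real.sqrt (hi i z0) + Real.sqrt P) (by positivity)]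
        calc w z0 * (|Real.sqrt (hi i z0) - Real.sqrt P| * (Real.sqrt (hi i z0) + Real.sqrt P))
            = (Real.sqrt (w z0) * Real.sqrt (w z0)) * (|Real.sqrt (hi i z0) - Real.sqrt P| *
              (Real.sqrt (hi i z0) + Real.sqrt P)) := by rw [hsw]
          _ = _ := by ring
    simp_rw [e]
    refine (Finset.sum_mul_sq_le_sq_mul_sq univ _ _).trans ?_
    have ea : ∑ z0, (Real.sqrt (w z0) * |Real.sqrt (hi i z0) - Real.sqrt P|) ^ 2
        = ∑ z0, w z0 * (Real.sqrt (hi i z0) - Real.sqrt P) ^ 2 := by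
      refine Finset.sum_congr rfl fun z0 _ => ?_
      rw [mul_pow, Real.sq_sqrt (hw z0), sq_abs]
    have eb : ∑ z0, (Real.sqrt (w z0) * (Real.sqrt (hi i z0) + Real.sqrt P)) ^ 2 ≤ 4 * P := by
      have : ∀ z0, (Real.sqrt (w z0) * (Real.sqrt (hi i z0) + Real.sqrt P)) ^ 2
          ≤ 2 * slice w h i z0 + 2 * (w z0 * P) := by
        intro z0
        rw [mul_pow, Real.sq_sqrt (hw z0), ← hhi]
        rcases (hw z0).eq_or_lt with h0 | h0
        · rw [← h0]; simp
        · have hinn : 0 ≤ hi i z0 := by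
            have := hslice_nn i z0
            rw [← hhi] at this
            exact nonneg_of_mul_nonneg_right this h0
          have a := Real.sq_sqrt hinn
          have b := Real.sq_sqrt hPpos.le
          have c : (Real.sqrt (hi i z0) + Real.sqrt P) ^ 2 ≤ 2 * hi i z0 + 2 * P := by
            nlinarith [sq_nonneg (Real.sqrt (hi i z0) - Real.sqrt P)]
          calc w z0 * (Real.sqrt (hi i z0) + Real.sqrt P) ^ 2
              ≤ w z0 * (2 * hi i z0 + 2 * P) := mul_le_mul_of_nonneg_left c h0.le
            _ = _ := by ring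
      refine (Finset.sum_le_sum fun z0 _ => this z0).trans (le_of_eq ?_)
      rw [Finset.sum_add_distrib, ← Finset.mul_sum, ← Finset.mul_sum, sum_slice, ← hP,
        ← Finset.sum_mul, hw1]
      ring
    rw [ea, mul_comm]
    refine mul_le_mul_of_nonneg_right eb ?_
    exact Finset.sum_nonneg fun z0 _ => mul_nonneg (hw z0) (sq_nonneg _)
  refine (Finset.sum_le_sum fun i _ => hone i).trans ?_
  rw [← Finset.mul_sum]
  have := hellinger w hw hw1 h hh Q hQ P hP hPpos hi hhi
  nlinarith [mul_le_mul_of_nonneg_left this (by positivity : (0:ℝ) ≤ 4 * P)]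

/-- Hellinger bound with the conditional means written with `Function.update`. -/
theorem hellinger_update (w : Z → ℝ) (hw : ∀ z, 0 ≤ w z) (hw1 : ∑ z, w z = 1)
    (h : (ι → Z) → ℝ) (hh : ∀ z, 0 ≤ h z) (Q : ℝ) (hQ : ∀ z, h z ≤ Q)
    (P : ℝ) (hP : P = ∑ z : ι → Z, (∏ j, w (z j)) * h z) (hPpos : 0 < P) :
    ∑ i, ∑ z0, w z0 * (Real.sqrt (∑ z : ι → Z, (∏ j, w (z j)) * h (Function.update z i z0))
      - Real.sqrt P) ^ 2 ≤ P * Real.log (Q / P) :=
  hellinger w hw hw1 h hh Q hQ P hP hPpos
    (fun i z0 => ∑ z : ι → Z, (∏ j, w (z j)) * h (Function.update z i z0))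
    (fun i z0 => (slice_eq_update w hw1 h i z0).symm)

/-- Superadditivity with a set `C` of coordinates on which `h` is dominated by a product of
`u`'s: the bound is `P log (q^|C| / P)`, `q = E u`. -/
theorem kl_superadd_C (w : Z → ℝ) (hw : ∀ z, 0 ≤ w z)
    (C : Finset ι) (u : Z → ℝ) (hu : ∀ z, 0 ≤ u z)
    (h : (ι → Z) → ℝ) (hh : ∀ z, 0 ≤ h z) (hle : ∀ z, h z ≤ ∏ j ∈ C, u (z j))
    (q : ℝ) (hq : q = ∑ z, w z * u z)
    (P : ℝ) (hP : P = ∑ z : ι → Z, (∏ j, w (z j)) * h z) (hPpos : 0 < P)
    (hi : ι → Z → ℝ) (hhi : ∀ i, i ∉ C → ∀ z0, w z0 * hi i z0 = slice w h i z0) :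
    ∑ i ∈ Cᶜ, ∑ z0, w z0 * (hi i z0 * Real.log (hi i z0 / P)) ≤
      P * Real.log (q ^ C.card / P) := by
  classical
  set W : (ι → Z) → ℝ := fun z => ∏ j, w (z j) with hWdef
  have hWnn : ∀ z, 0 ≤ W z := fun z => Finset.prod_nonneg fun j _ => hw _
  have hslice_nn : ∀ i z0, 0 ≤ slice w h i z0 := by
    intro i z0
    refine Finset.sum_nonneg fun z _ => ?_
    split_ifs
    · exact mul_nonneg (hWnn z) (hh z)
    · exact le_rfl
  -- positivity of q when C is nonempty
  have hqpos : C.Nonempty → 0 < q := by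
    intro hC
    obtain ⟨j, hj⟩ := hC
    have hex : ∃ z, 0 < W z * h z := by
      by_contra hcon
      push Not at hcon
      have : P ≤ 0 := by
        rw [hP]
        exact Finset.sum_nonpos fun z _ => hcon z
      linarith
    obtain ⟨z, hz⟩ := hex
    have hWz : 0 < W z := lt_of_le_of_ne (hWnn z) (fun h0 => by rw [← h0] at hz; simp at hz)
    have hhz : 0 < h z := lt_of_le_of_ne (hh z) (fun h0 => by rw [← h0] at hz; simp at hz)
    have hwj : 0 < w (z j) := by
      refine lt_of_le_of_ne (hw _) (fun h0 => ?_)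
      have : W z = 0 := Finset.prod_eq_zero (mem_univ j) h0.symm
      exact absurd this hWz.ne'
    have huj : 0 < u (z j) := by
      refine lt_of_le_of_ne (hu _) (fun h0 => ?_)
      have h1 : ∏ j ∈ C, u (z j) = 0 := Finset.prod_eq_zero hj h0.symm
      have := hle z
      rw [h1] at this
      linarith
    rw [hq]
    exact Finset.sum_pos' (fun z _ => mul_nonneg (hw z) (hu z))
      ⟨z j, mem_univ _, mul_pos hwj huj⟩
  set g : ι → Z → ℝ := fun i z0 => if i ∈ C then u z0 / q else hi i z0 / P with hgdef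
  have hgnn : ∀ i z0, 0 ≤ w z0 * g i z0 := by
    intro i z0
    simp only [hgdef]
    split_ifs with hiC
    · exact mul_nonneg (hw _) (div_nonneg (hu _) (hqpos ⟨i, hiC⟩).le)
    · rw [mul_div_assoc', hhi i hiC]
      exact div_nonneg (hslice_nn _ _) hPpos.le
  have hgsum : ∀ i, ∑ z0, w z0 * g i z0 = 1 := by
    intro i
    simp only [hgdef]
    split_ifs with hiC
    · simp_rw [mul_div_assoc']
      rw [← Finset.sum_div, ← hq, div_self (hqpos ⟨i, hiC⟩).ne']
    · simp_rw [mul_div_assoc', hhi i hiC]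
      rw [← Finset.sum_div, sum_slice, ← hP, div_self hPpos.ne']
  -- pointwise inequality
  have hpt : ∀ z : ι → Z, W z * h z * ∑ i ∈ Cᶜ, Real.log (hi i (z i) / P)
      ≤ W z * h z * Real.log (q ^ C.card / P) + P * (∏ i, (w (z i) * g i (z i)))
        - W z * h z := by
    intro z
    have hprodnn : 0 ≤ ∏ i, (w (z i) * g i (z i)) := Finset.prod_nonneg fun i _ => hgnn _ _
    by_cases hz : W z * h z = 0
    · rw [hz, zero_mul, zero_mul, zero_add, sub_zero]
      exact mul_nonneg hPpos.le hprodnn
    · have hWpos : 0 < W z := lt_of_le_of_ne (hWnn z) (fun h0 => hz (by rw [← h0]; simp))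
      have hhpos : 0 < h z := lt_of_le_of_ne (hh z) (fun h0 => hz (by rw [← h0]; simp))
      have hwpos : ∀ j, 0 < w (z j) := by
        intro j
        refine lt_of_le_of_ne (hw _) (fun h0 => ?_)
        have : W z = 0 := Finset.prod_eq_zero (mem_univ j) h0.symm
        exact absurd this hWpos.ne'
      have hipos : ∀ i, i ∉ C → 0 < hi i (z i) := by
        intro i hiC
        have h1 : 0 < slice w h i (z i) := by
          unfold slice
          refine Finset.sum_pos' (fun z' _ => ?_) ⟨z, mem_univ z, ?_⟩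
          · split_ifs
            · exact mul_nonneg (hWnn z') (hh z')
            · exact le_rfl
          · simp only [if_true]
            exact mul_pos hWpos hhpos
        rw [← hhi i hiC] at h1
        exact (pos_iff_pos_of_mul_pos h1).1 (hwpos i)
      have hupos : ∀ j ∈ C, 0 < u (z j) := by
        intro j hj
        refine lt_of_le_of_ne (hu _) (fun h0 => ?_)
        have h1 : ∏ j ∈ C, u (z j) = 0 := Finset.prod_eq_zero hj h0.symm
        have := hle z
        rw [h1] at this
        linarith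
      have hgpos : ∀ i, 0 < g i (z i) := by
        intro i
        simp only [hgdef]
        split_ifs with hiC
        · exact div_pos (hupos i hiC) (hqpos ⟨i, hiC⟩)
        · exact div_pos (hipos i hiC) hPpos
      have hx : 0 < (∏ i, g i (z i)) / (h z / P) :=
        div_pos (Finset.prod_pos fun i _ => hgpos i) (div_pos hhpos hPpos)
      have hlog := Real.log_le_sub_one_of_pos hx
      rw [Real.log_div (Finset.prod_pos fun i _ => hgpos i).ne'
        (div_pos hhpos hPpos).ne', Real.log_prod (fun i _ => (hgpos i).ne')] at hlog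
      rw [← Finset.sum_add_sum_compl C] at hlog
      have hC1 : ∑ i ∈ C, Real.log (g i (z i)) = ∑ i ∈ C, Real.log (u (z i))
          - C.card * Real.log q := by
        rw [Finset.sum_congr rfl (g := fun i => Real.log (u (z i)) - Real.log q)]
        · rw [Finset.sum_sub_distrib, Finset.sum_const, nsmul_eq_mul]
        · intro i hiC
          simp only [hgdef, hiC, if_true]
          rw [Real.log_div (hupos i hiC).ne' (hqpos ⟨i, hiC⟩).ne']
      have hC2 : ∑ i ∈ Cᶜ, Real.log (g i (z i)) = ∑ i ∈ Cᶜ, Real.log (hi i (z i) / P) := by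
        refine Finset.sum_congr rfl fun i hiC => ?_
        have : i ∉ C := by simpa using hiC
        simp only [hgdef, this, if_false]
      have hprodu : 0 < ∏ j ∈ C, u (z j) := Finset.prod_pos hupos
      have hlogh : Real.log (h z) ≤ ∑ j ∈ C, Real.log (u (z j)) := by
        rw [← Real.log_prod (fun j hj => (hupos j hj).ne')]
        exact Real.log_le_log hhpos (hle z)
      have hlogQ : Real.log (q ^ C.card / P) = C.card * Real.log q - Real.log P := by
        rcases C.eq_empty_or_nonempty with hC0 | hC0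
        · rw [hC0]; simp
        · rw [Real.log_div (pow_pos (hqpos hC0) _).ne' hPpos.ne', Real.log_pow]
      rw [hC1, hC2, Real.log_div hhpos.ne' hPpos.ne'] at hlog
      have hmu : 0 < W z * h z := mul_pos hWpos hhpos
      have e1 : W z * h z * ((∏ i, g i (z i)) / (h z / P))
          = P * (∏ i, (w (z i) * g i (z i))) := by
        have : ∏ i, (w (z i) * g i (z i)) = W z * ∏ i, g i (z i) := by
          rw [hWdef, ← Finset.prod_mul_distrib]
        rw [this]
        field_simp
      have h2 : ∑ i ∈ Cᶜ, Real.log (hi i (z i) / P) ≤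
          Real.log (q ^ C.card / P) + ((∏ i, g i (z i)) / (h z / P)) - 1 := by
        rw [hlogQ]; linarith
      calc W z * h z * ∑ i ∈ Cᶜ, Real.log (hi i (z i) / P)
          ≤ W z * h z * (Real.log (q ^ C.card / P) + ((∏ i, g i (z i)) / (h z / P)) - 1) :=
            mul_le_mul_of_nonneg_left h2 hmu.le
        _ = W z * h z * Real.log (q ^ C.card / P) +
              W z * h z * ((∏ i, g i (z i)) / (h z / P)) - W z * h z := by ring
        _ = _ := by rw [e1]
  have hsum := Finset.sum_le_sum (fun z (_ : z ∈ (univ : Finset (ι → Z))) => hpt z)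
  have hPsum : ∑ z : ι → Z, W z * h z = P := hP.symm
  have hprod1 : ∑ z : ι → Z, ∏ i, (w (z i) * g i (z i)) = 1 := by
    have h1 : ∏ i : ι, ∑ z0 : Z, (w z0 * g i z0) = 1 :=
      Finset.prod_eq_one fun i _ => hgsum i
    rw [← h1, Finset.prod_univ_sum]
    refine Finset.sum_congr ?_ fun _ _ => rfl
    ext z; simp
  have hR : ∑ z : ι → Z, (W z * h z * Real.log (q ^ C.card / P) +
      P * (∏ i, (w (z i) * g i (z i))) - W z * h z) = P * Real.log (q ^ C.card / P) := by
    rw [Finset.sum_sub_distrib, Finset.sum_add_distrib, ← Finset.sum_mul, ← Finset.mul_sum,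
      hPsum, hprod1]
    ring
  rw [hR] at hsum
  refine le_trans (le_of_eq ?_) hsum
  -- regroup
  have : ∀ z : ι → Z, W z * h z * ∑ i ∈ Cᶜ, Real.log (hi i (z i) / P)
      = ∑ i ∈ Cᶜ, ∑ z0, (if z i = z0 then W z * h z else 0) * Real.log (hi i z0 / P) := by
    intro z
    rw [Finset.mul_sum]
    refine Finset.sum_congr rfl fun i _ => ?_
    simp [ite_mul]
  simp_rw [this]
  conv_rhs => rw [Finset.sum_comm]
  refine Finset.sum_congr rfl fun i hiC => ?_
  have hiC' : i ∉ C := by simpa using hiC
  conv_rhs => rw [Finset.sum_comm]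
  refine Finset.sum_congr rfl fun z0 _ => ?_
  rw [← Finset.sum_mul, ← mul_assoc, hhi i hiC']
  rfl

/-- Hellinger norm bound summed over the coordinates outside `C`. -/
theorem hellinger_C (w : Z → ℝ) (hw : ∀ z, 0 ≤ w z) (hw1 : ∑ z, w z = 1)
    (C : Finset ι) (u : Z → ℝ) (hu : ∀ z, 0 ≤ u z)
    (h : (ι → Z) → ℝ) (hh : ∀ z, 0 ≤ h z) (hle : ∀ z, h z ≤ ∏ j ∈ C, u (z j))
    (q : ℝ) (hq : q = ∑ z, w z * u z)
    (P : ℝ) (hP : P = ∑ z : ι → Z, (∏ j, w (z j)) * h z) (hPpos : 0 < P)
    (hi : ι → Z → ℝ) (hhi : ∀ i, i ∉ C → ∀ z0, w z0 * hi i z0 = slice w h i z0) :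
    ∑ i ∈ Cᶜ, ∑ z0, w z0 * (Real.sqrt (hi i z0) - Real.sqrt P) ^ 2 ≤
      P * Real.log (q ^ C.card / P) := by
  refine le_trans ?_ (kl_superadd_C w hw C u hu h hh hle q hq P hP hPpos hi hhi)
  refine Finset.sum_le_sum fun i hiC => ?_
  have hiC' : i ∉ C := by simpa using hiC
  have hslice_nn : ∀ i z0, 0 ≤ slice w h i z0 := by
    intro i z0
    refine Finset.sum_nonneg fun z _ => ?_
    split_ifs
    · exact mul_nonneg (Finset.prod_nonneg fun j _ => hw _) (hh z)
    · exact le_rfl
  have h1 : ∀ z0, w z0 * (Real.sqrt (hi i z0) - Real.sqrt P) ^ 2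
      ≤ w z0 * (hi i z0 * Real.log (hi i z0 / P)) - slice w h i z0 + w z0 * P := by
    intro z0
    rcases (hw z0).eq_or_lt with h0 | h0
    · have : slice w h i z0 = 0 := by rw [← hhi i hiC', ← h0]; simp
      rw [this, ← h0]; simp
    · have hinn : 0 ≤ hi i z0 := by
        have := hslice_nn i z0
        rw [← hhi i hiC'] at this
        exact nonneg_of_mul_nonneg_right this h0
      have := mul_le_mul_of_nonneg_left (hell_le_kl_pt (hi i z0) P hinn hPpos) h0.le
      rw [← hhi i hiC']
      linarith [this]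
  refine (Finset.sum_le_sum fun z0 _ => h1 z0).trans (le_of_eq ?_)
  rw [Finset.sum_add_distrib, Finset.sum_sub_distrib, sum_slice, ← hP, ← Finset.sum_mul, hw1]
  ring

end Crest.H24PRClassical
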