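import Crest.Agent.PRDefs
import Crest.Agent.H24PRClassical

/-!
Concrete form of the classical bound for row 342.
-/

set_option autoImplicit false

open scoped Kronecker ComplexOrder BigOperators
open Crest.MathPhysics.NonlocalGame

namespace Crest.H24PRClassicalG

open Finset Crest.PR Crest.H24PRClassical

variable {G : Game} {k dA dB : ℕ}

lemma answerProb_nonneg (S : Strategy G k dA dB) (x : Fin k → Fin G.nX) (y : Fin k → Fin G.nY)
    (a : Fin k → Fin G.nA) (b : Fin k → Fin G.nB) : 0 ≤ S.answerProb x y a b :=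
  H26OneShot.bra_nonneg S.ψ (S.M_posSemidef x a) (S.N_posSemidef y b)

lemma answerProb_sum (S : Strategy G k dA dB) (x : Fin k → Fin G.nX) (y : Fin k → Fin G.nY) :
    ∑ a, ∑ b, S.answerProb x y a b = 1 := by
  have h1 : ∀ a, ∑ b, S.answerProb x y a b = H26OneShot.bra S.ψ (S.M x a) 1 := by
    intro a
    rw [← S.N_sum y]
    have := map_sum (⟨⟨fun B => H26OneShot.bra S.ψ (S.M x a) B, by
      simp [H26OneShot.bra]⟩, fun B B' => H26OneShot.bra_add_right S.ψ _ B B'⟩ :
        Matrix (Fin dB) (Fin dB) ℂ →+ ℝ) (fun b => S.N y b) univ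
    exact this.symm
  simp_rw [h1]
  have h2 : ∑ a, H26OneShot.bra S.ψ (S.M x a) 1 = H26OneShot.bra S.ψ 1 1 := by
    rw [← S.M_sum x]
    have := map_sum (⟨⟨fun A => H26OneShot.bra S.ψ A (1 : Matrix (Fin dB) (Fin dB) ℂ), by
      simp [H26OneShot.bra]⟩, fun A A' => H26OneShot.bra_add_left S.ψ A A' _⟩ :
        Matrix (Fin dA) (Fin dA) ℂ →+ ℝ) (fun a => S.M x a) univ
    exact this.symm
  rw [h2]
  unfold H26OneShot.bra
  rw [Matrix.one_kronecker_one, Matrix.one_mulVec]
  have h3 : dotProduct (star S.ψ) S.ψ = ((∑ i, ‖S.ψ i‖ ^ 2 : ℝ) : ℂ) := by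
    unfold dotProduct
    push_cast
    refine Finset.sum_congr rfl fun i _ => ?_
    rw [Pi.star_apply, Complex.star_def, Complex.conj_mul']
  rw [h3, S.ψ_norm]; simp

/-- the probability of winning on `C` given the question strings -/
noncomputable def hC (S : Strategy G k dA dB) (C : Finset (Fin k)) (x : Fin k → Fin G.nX)
    (y : Fin k → Fin G.nY) : ℝ :=
  ∑ a, ∑ b, if C ⊆ wset G k (x, y, a, b) then S.answerProb x y a b else 0

open Classical in
/-- indicator that a question pair has an accepted answer -/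
noncomputable def uAcc (G : Game) (z : Fin G.nX × Fin G.nY) : ℝ :=
  if (∃ a b, G.accept z.1 z.2 a b = true) then 1 else 0

lemma hC_nonneg (S : Strategy G k dA dB) (C : Finset (Fin k)) (x : Fin k → Fin G.nX)
    (y : Fin k → Fin G.nY) : 0 ≤ hC S C x y := by
  refine Finset.sum_nonneg fun a _ => Finset.sum_nonneg fun b _ => ?_
  split_ifs
  · exact answerProb_nonneg S x y a b
  · exact le_rfl

lemma hC_le (S : Strategy G k dA dB) (C : Finset (Fin k)) (x : Fin k → Fin G.nX)
    (y : Fin k → Fin G.nY) : hC S C x y ≤ ∏ j ∈ C, uAcc G (x j, y j) := by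
  classical
  by_cases hall : ∀ j ∈ C, ∃ a b, G.accept (x j) (y j) a b = true
  · have h1 : ∏ j ∈ C, uAcc G (x j, y j) = 1 := by
      refine Finset.prod_eq_one fun j hj => ?_
      unfold uAcc
      exact if_pos (hall j hj)
    rw [h1, ← answerProb_sum S x y]
    refine Finset.sum_le_sum fun a _ => Finset.sum_le_sum fun b _ => ?_
    split_ifs
    · exact le_rfl
    · exact answerProb_nonneg S x y a b
  · push Not at hall
    obtain ⟨j, hj, hno⟩ := hall
    have h0 : hC S C x y = 0 := by
      refine Finset.sum_eq_zero fun a _ => Finset.sum_eq_zero fun b _ => ?_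
      rw [if_neg]
      intro hsub
      have := hsub hj
      simp only [wset, mem_filter, mem_univ, true_and] at this
      exact hno (a j) (b j) this
    rw [h0]
    refine Finset.prod_nonneg fun j _ => ?_
    unfold uAcc
    split_ifs <;> norm_num

lemma sum_out (f : Out G k → ℝ) : ∑ o : Out G k, f o = ∑ x, ∑ y, ∑ a, ∑ b, f (x, y, a, b) := by
  rw [Fintype.sum_prod_type]
  refine Finset.sum_congr rfl fun x _ => ?_
  rw [Fintype.sum_prod_type]
  refine Finset.sum_congr rfl fun y _ => ?_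
  rw [Fintype.sum_prod_type]

lemma PW_eq (S : Strategy G k dA dB) (C : Finset (Fin k)) :
    PW S C = ∑ x, ∑ y, (∏ i, G.prob (x i) (y i)) * hC S C x y := by
  unfold PW
  rw [sum_out]
  refine Finset.sum_congr rfl fun x _ => Finset.sum_congr rfl fun y _ => ?_
  unfold hC
  rw [Finset.mul_sum]
  refine Finset.sum_congr rfl fun a _ => ?_
  rw [Finset.mul_sum]
  refine Finset.sum_congr rfl fun b _ => ?_
  rw [mul_ite, mul_zero]
  rfl

/-- sums over strings of pairs -/
lemma sum_pairs (f : (Fin k → Fin G.nX) → (Fin k → Fin G.nY) → ℝ) :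
    ∑ x, ∑ y, f x y = ∑ z : Fin k → Fin G.nX × Fin G.nY,
      f (fun i => (z i).1) (fun i => (z i).2) := by
  rw [← Fintype.sum_prod_type']
  exact (Fintype.sum_equiv (Equiv.arrowProdEquivProdArrow (Fin k) (fun _ => Fin G.nX)
    (fun _ => Fin G.nY)) _ _ (fun z => rfl)).symm

/-- slice of `PW`: questions at coordinate `i` equal to `(x0, y0)` -/
lemma slice_eq (S : Strategy G k dA dB) (C : Finset (Fin k)) (i : Fin k)
    (z0 : Fin G.nX × Fin G.nY) :
    Crest.H24PRClassical.slice (fun z : Fin G.nX × Fin G.nY => G.prob z.1 z.2)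
      (fun z : Fin k → Fin G.nX × Fin G.nY => hC S C (fun i => (z i).1) (fun i => (z i).2)) i z0
    = ∑ o : Out G k, if o.1 i = z0.1 ∧ o.2.1 i = z0.2 ∧ C ⊆ wset G k o then pOut S o else 0 := by
  rw [sum_out]
  have h1 : ∀ (x : Fin k → Fin G.nX) (y : Fin k → Fin G.nY),
      (∑ a, ∑ b, if x i = z0.1 ∧ y i = z0.2 ∧
      C ⊆ wset G k (x, y, a, b) then pOut S (x, y, a, b) else 0)
      = if x i = z0.1 ∧ y i = z0.2 then (∏ j, G.prob (x j) (y j)) * hC S C x y else 0 := by
    intro x y
    split_ifs with hxy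
    · unfold hC
      rw [Finset.mul_sum]
      refine Finset.sum_congr rfl fun a _ => ?_
      rw [Finset.mul_sum]
      refine Finset.sum_congr rfl fun b _ => ?_
      rw [mul_ite, mul_zero]
      simp only [hxy, true_and]
      rfl
    · refine Finset.sum_eq_zero fun a _ => Finset.sum_eq_zero fun b _ => ?_
      rw [if_neg]
      rintro ⟨h1, h2, _⟩
      exact hxy ⟨h1, h2⟩
  refine Eq.trans ?_ (Finset.sum_congr rfl fun x _ =>
    Finset.sum_congr rfl fun y _ => h1 x y).symm
  rw [sum_pairs]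
  unfold Crest.H24PRClassical.slice
  refine Finset.sum_congr rfl fun z _ => ?_
  have : (z i = z0) ↔ ((z i).1 = z0.1 ∧ (z i).2 = z0.2) := Prod.ext_iff
  simp only [this]

lemma qAcc_eq : qAcc G = ∑ z : Fin G.nX × Fin G.nY, G.prob z.1 z.2 * uAcc G z := by
  classical
  unfold qAcc
  rw [Fintype.sum_prod_type]
  refine Finset.sum_congr rfl fun x _ => Finset.sum_congr rfl fun y _ => ?_
  unfold uAcc
  simp only
  split_ifs <;> simp

/-- CLASSICAL, concrete form: for any version `qi i x0 y0` of the conditional probability of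
winning on `C` given the questions `(x0, y0)` at coordinate `i`. -/
theorem classical_bound (S : Strategy G k dA dB) (C : Finset (Fin k)) (hP : 0 < PW S C)
    (qi : Fin k → Fin G.nX → Fin G.nY → ℝ)
    (hqi : ∀ i, i ∉ C → ∀ x0 y0, G.prob x0 y0 * qi i x0 y0 =
      ∑ o : Out G k, if o.1 i = x0 ∧ o.2.1 i = y0 ∧ C ⊆ wset G k o then pOut S o else 0) :
    ∑ i ∈ Cᶜ, ∑ x, ∑ y, G.prob x y * (Real.sqrt (qi i x y) - Real.sqrt (PW S C)) ^ 2 ≤
      PW S C * Real.log (qAcc G ^ C.card / PW S C) := by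
  classical
  have hw1 : ∑ z : Fin G.nX × Fin G.nY, G.prob z.1 z.2 = 1 := by
    rw [Fintype.sum_prod_type]; exact G.prob_sum
  have := hellinger_C (ι := Fin k) (Z := Fin G.nX × Fin G.nY)
    (fun z => G.prob z.1 z.2) (fun z => G.prob_nonneg _ _) hw1 C (uAcc G)
    (fun z => by unfold uAcc; split_ifs <;> norm_num)
    (fun z => hC S C (fun i => (z i).1) (fun i => (z i).2))
    (fun z => hC_nonneg S C _ _) (fun z => hC_le S C _ _) (qAcc G) qAcc_eq (PW S C)
    (by rw [PW_eq, sum_pairs]) hP (fun i z0 => qi i z0.1 z0.2)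
    (fun i hiC z0 => by rw [hqi i hiC, slice_eq])
  refine le_trans (le_of_eq ?_) this
  refine Finset.sum_congr rfl fun i _ => ?_
  rw [Fintype.sum_prod_type]

/-- conditional probability in terms of `Function.update` -/
noncomputable def condPW (S : Strategy G k dA dB) (C : Finset (Fin k)) (i : Fin k)
    (x0 : Fin G.nX) (y0 : Fin G.nY) : ℝ :=
  ∑ x, ∑ y, (∏ j, G.prob (x j) (y j)) * hC S C (Function.update x i x0) (Function.update y i y0)

lemma condPW_spec (S : Strategy G k dA dB) (C : Finset (Fin k)) (i : Fin k)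
    (x0 : Fin G.nX) (y0 : Fin G.nY) :
    G.prob x0 y0 * condPW S C i x0 y0 =
      ∑ o : Out G k, if o.1 i = x0 ∧ o.2.1 i = y0 ∧ C ⊆ wset G k o then pOut S o else 0 := by
  classical
  have hw1 : ∑ z : Fin G.nX × Fin G.nY, G.prob z.1 z.2 = 1 := by
    rw [Fintype.sum_prod_type]; exact G.prob_sum
  have h1 := slice_eq S C i (x0, y0)
  have h2 := slice_eq_update (ι := Fin k) (fun z : Fin G.nX × Fin G.nY => G.prob z.1 z.2) hw1
    (fun z => hC S C (fun i => (z i).1) (fun i => (z i).2)) i (x0, y0)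
  rw [h1] at h2
  rw [h2]
  unfold condPW
  rw [sum_pairs]
  congr 1
  refine Finset.sum_congr rfl fun z _ => ?_
  congr 1
  congr 1
  · funext j
    by_cases hj : j = i
    · subst hj; simp
    · simp [Function.update_of_ne hj]
  · funext j
    by_cases hj : j = i
    · subst hj; simp
    · simp [Function.update_of_ne hj]

theorem classical_bound_update (S : Strategy G k dA dB) (C : Finset (Fin k)) (hP : 0 < PW S C) :
    ∑ i ∈ Cᶜ, ∑ x, ∑ y, G.prob x y * (Real.sqrt (condPW S C i x y) - Real.sqrt (PW S C)) ^ 2 ≤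
      PW S C * Real.log (qAcc G ^ C.card / PW S C) :=
  classical_bound S C hP (condPW S C) (fun i _ x0 y0 => condPW_spec S C i x0 y0)

end Crest.H24PRClassicalG
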