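import Crest.Agent.H16PRFam
import Crest.Agent.H24PRClassicalG

/-!
CLASSICAL in the notation of `H16PRFam`.
-/

set_option autoImplicit false

open scoped Kronecker ComplexOrder BigOperators
open Crest.MathPhysics.NonlocalGame

namespace Crest.H24PRClassical16

open Finset Crest.PR Crest.H26OneShot

variable {G : Game} {k dA dB : ℕ}

/-- the two definitions of the conditional winning weight agree -/
theorem hC_eq (S : Strategy G k dA dB) (C : Finset (Fin k)) (z : Fin k → H16PR.Zt G) :
    H16PR.hC S C z = H24PRClassicalG.hC S C (fun j => (z j).1) (fun j => (z j).2) := by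
  classical
  unfold H16PR.hC H24PRClassicalG.hC
  have h1 : ∀ o : H16PR.OC G C, H16PR.uC G C o z * bra S.ψ (H16PR.MC S C o z) (H16PR.NC S C o z)
      = ∑ a : Fin k → Fin G.nA, ∑ b : Fin k → Fin G.nB,
        if ((fun i : ↥C => a i) = o.1 ∧ (fun i : ↥C => b i) = o.2) then
          H16PR.uC G C o z * S.answerProb (fun j => (z j).1) (fun j => (z j).2) a b else 0 := by
    intro o
    have e : bra S.ψ (H16PR.MC S C o z) (H16PR.NC S C o z) =
        ∑ a : Fin k → Fin G.nA, ∑ b : Fin k → Fin G.nB,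
          H16PR.betaL S.ψ (if (∀ i : ↥C, a i = o.1 i) then S.M (fun j => (z j).1) a else 0)
            (if (∀ i : ↥C, b i = o.2 i) then S.N (fun j => (z j).2) b else 0) := by
      rw [← H16PR.betaL_apply]
      unfold H16PR.MC H16PR.NC
      rw [map_sum]
      simp_rw [map_sum, LinearMap.sum_apply]
      exact Finset.sum_comm
    rw [e, Finset.mul_sum]
    refine Finset.sum_congr rfl fun a _ => ?_
    rw [Finset.mul_sum]
    refine Finset.sum_congr rfl fun b _ => ?_
    by_cases ha : ∀ i : ↥C, a i = o.1 i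
    · by_cases hb : ∀ i : ↥C, b i = o.2 i
      · rw [if_pos ha, if_pos hb, if_pos ⟨funext ha, funext hb⟩]
        rfl
      · have hne : ¬ ((fun i : ↥C => a i) = o.1 ∧ (fun i : ↥C => b i) = o.2) :=
          fun h => hb (fun i => congrFun h.2 i)
        rw [if_pos ha, if_neg hb, if_neg hne, map_zero, mul_zero]
    · have hne : ¬ ((fun i : ↥C => a i) = o.1 ∧ (fun i : ↥C => b i) = o.2) :=
        fun h => ha (fun i => congrFun h.1 i)
      rw [if_neg ha, if_neg hne, map_zero, LinearMap.zero_apply, mul_zero]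
  simp_rw [h1]
  rw [Finset.sum_comm]
  refine Finset.sum_congr rfl fun a _ => ?_
  rw [Finset.sum_comm]
  refine Finset.sum_congr rfl fun b _ => ?_
  rw [Finset.sum_eq_single ((fun i : ↥C => a i, fun i : ↥C => b i) : H16PR.OC G C)]
  · rw [if_pos ⟨rfl, rfl⟩]
    unfold H16PR.uC
    have hiff : (∀ i : ↥C, G.accept (z i).1 (z i).2 (a i) (b i) = true) ↔
        C ⊆ wset G k (fun j => (z j).1, fun j => (z j).2, a, b) := by
      constructor
      · intro h j hj
        simp only [wset, mem_filter, mem_univ, true_and]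
        exact h ⟨j, hj⟩
      · intro h i
        have := h i.2
        simpa only [wset, mem_filter, mem_univ, true_and] using this
    by_cases hc : C ⊆ wset G k (fun j => (z j).1, fun j => (z j).2, a, b)
    · rw [if_pos hc, if_pos (hiff.2 hc), one_mul]
    · rw [if_neg hc, if_neg (fun h => hc (hiff.1 h)), zero_mul]
  · intro o _ hne
    rw [if_neg]
    rintro ⟨h1, h2⟩
    exact hne (Prod.ext h1.symm h2.symm)
  · intro h
    exact absurd (mem_univ _) h

theorem hC_nonneg (S : Strategy G k dA dB) (C : Finset (Fin k)) (z : Fin k → H16PR.Zt G) :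
    0 ≤ H16PR.hC S C z := by
  rw [hC_eq]; exact H24PRClassicalG.hC_nonneg S C _ _

/-- `PW` as an average of `hC` -/
theorem PW_eq (S : Strategy G k dA dB) (C : Finset (Fin k)) :
    PW S C = ∑ z : Fin k → H16PR.Zt G, (∏ j, H16PR.mu G (z j)) * H16PR.hC S C z := by
  rw [H24PRClassicalG.PW_eq, H24PRClassicalG.sum_pairs]
  refine Finset.sum_congr rfl fun z _ => ?_
  rw [hC_eq]
  rfl

/-- **CLASSICAL** in the notation of `H16PRFam`. -/
theorem classical_bound (S : Strategy G k dA dB) (C : Finset (Fin k)) (hP : 0 < PW S C)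
    (qi : Fin k → Fin G.nX → Fin G.nY → ℝ)
    (hqi : ∀ i, i ∉ C → ∀ x0 y0, G.prob x0 y0 * qi i x0 y0 =
      ∑ z : Fin k → H16PR.Zt G, if z i = (x0, y0) then
        (∏ j, H16PR.mu G (z j)) * H16PR.hC S C z else 0) :
    ∑ i ∈ Cᶜ, ∑ x, ∑ y, G.prob x y * (Real.sqrt (qi i x y) - Real.sqrt (PW S C)) ^ 2 ≤
      PW S C * Real.log (qAcc G ^ C.card / PW S C) := by
  refine H24PRClassicalG.classical_bound S C hP qi ?_
  intro i hiC x0 y0
  rw [hqi i hiC x0 y0, ← H24PRClassicalG.slice_eq S C i (x0, y0)]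
  unfold H24PRClassical.slice
  refine Finset.sum_congr rfl fun z _ => ?_
  rw [hC_eq]
  rfl

/-- list version: sum over the positions of a duplicate-free enumeration of `Cᶜ` -/
theorem classical_bound_list (S : Strategy G k dA dB) (C : Finset (Fin k)) (hP : 0 < PW S C)
    (L : List (Fin k)) (hL : L.Nodup) (hLC : ∀ i ∈ L, i ∉ C)
    (qi : Fin k → Fin G.nX → Fin G.nY → ℝ)
    (hqi : ∀ i, i ∉ C → ∀ x0 y0, G.prob x0 y0 * qi i x0 y0 =
      ∑ z : Fin k → H16PR.Zt G, if z i = (x0, y0) then
        (∏ j, H16PR.mu G (z j)) * H16PR.hC S C z else 0) :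
    ∑ t : Fin L.length, ∑ x, ∑ y, G.prob x y *
        (Real.sqrt (qi (L.get t) x y) - Real.sqrt (PW S C)) ^ 2 ≤
      PW S C * Real.log (qAcc G ^ C.card / PW S C) := by
  classical
  refine le_trans ?_ (classical_bound S C hP qi hqi)
  have h1 : ∑ t : Fin L.length, ∑ x, ∑ y, G.prob x y *
        (Real.sqrt (qi (L.get t) x y) - Real.sqrt (PW S C)) ^ 2
      = ∑ i ∈ L.toFinset, ∑ x, ∑ y, G.prob x y *
        (Real.sqrt (qi i x y) - Real.sqrt (PW S C)) ^ 2 := by
    rw [List.sum_toFinset _ hL, ← List.sum_ofFn]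
    congr 1
    apply List.ext_get
    · simp
    · intro n h1 h2; simp
  rw [h1]
  refine Finset.sum_le_sum_of_subset_of_nonneg ?_ ?_
  · intro i hi
    simp only [List.mem_toFinset] at hi
    simpa using hLC i hi
  · intro i _ _
    exact Finset.sum_nonneg fun x _ => Finset.sum_nonneg fun y _ =>
      mul_nonneg (G.prob_nonneg x y) (sq_nonneg _)

end Crest.H24PRClassical16
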