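import Crest.Agent.H24PRClassical16

/-!
P1 of the ASM split of row 342.
-/

set_option autoImplicit false

open scoped Kronecker ComplexOrder BigOperators
open Crest.MathPhysics.NonlocalGame

namespace Crest.H16PR

open Finset Crest.PR Crest.H26OneShot Crest.H26PRTele

variable {G : Game} {k dA dB : ℕ}

theorem famsum_hC (S : Strategy G k dA dB) (C : Finset (Fin k)) (F : (Fin k → Zt G) → ℝ) :
    ∑ o : OC G C, Ex (mu G) (fun z => uC G C o z * F z)
      (fun z => bra S.ψ (MC S C o z) (NC S C o z))
    = ∑ z : Fin k → Zt G, (∏ j, mu G (z j)) * F z * hC S C z := by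
  unfold Ex hC
  rw [Finset.sum_comm]
  refine Finset.sum_congr rfl fun z _ => ?_
  rw [Finset.mul_sum]
  refine Finset.sum_congr rfl fun o _ => ?_
  ring

theorem famsum (S : Strategy G k dA dB) (C : Finset (Fin k)) (F : Zt G → ℝ) (i : Fin k) :
    ∑ o : OC G C, Ex (mu G) (fun z => uC G C o z * F (z i))
      (fun z => bra S.ψ (MC S C o z) (NC S C o z))
    = ∑ w : Out G k, if C ⊆ wset G k w then F (w.1 i, w.2.1 i) * pOut S w else 0 := by
  classical
  rw [famsum_hC S C (fun z => F (z i)), H24PRClassicalG.sum_out]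
  have h1 : ∀ (x : Fin k → Fin G.nX) (y : Fin k → Fin G.nY),
      (∑ a, ∑ b, if C ⊆ wset G k (x, y, a, b) then F (x i, y i) * pOut S (x, y, a, b) else 0)
      = (∏ j, G.prob (x j) (y j)) * F (x i, y i) * H24PRClassicalG.hC S C x y := by
    intro x y
    unfold H24PRClassicalG.hC
    rw [Finset.mul_sum]
    refine Finset.sum_congr rfl fun a _ => ?_
    rw [Finset.mul_sum]
    refine Finset.sum_congr rfl fun b _ => ?_
    rw [mul_ite, mul_zero]
    split_ifs
    · unfold pOut; ring
    · rfl
  refine Eq.trans ?_ (Finset.sum_congr rfl fun x _ =>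
    Finset.sum_congr rfl fun y _ => h1 x y).symm
  rw [H24PRClassicalG.sum_pairs]
  refine Finset.sum_congr rfl fun z _ => ?_
  rw [H24PRClassical16.hC_eq]
  rfl

end Crest.H16PR
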