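import Mathlib

set_option autoImplicit false

open Finset

namespace Crest.H9PRLog

/-- weighted log-sum inequality -/
theorem logsum {I : Type*} (s : Finset I) (w p nu : I → ℝ) (hw : ∀ i ∈ s, 0 ≤ w i)
    (hp : ∀ i ∈ s, 0 ≤ p i) (hnu : ∀ i ∈ s, 0 ≤ nu i) (h0 : ∀ i ∈ s, nu i = 0 → p i = 0) :
    ∑ i ∈ s, w i * (p i * Real.log (nu i / p i))
      ≤ (∑ i ∈ s, w i * p i) * Real.log ((∑ i ∈ s, w i * nu i) / (∑ i ∈ s, w i * p i)) := by
  set P := ∑ i ∈ s, w i * p i with hP
  set V := ∑ i ∈ s, w i * nu i with hV
  have hP0 : 0 ≤ P := Finset.sum_nonneg fun i hi => mul_nonneg (hw i hi) (hp i hi)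
  have hV0 : 0 ≤ V := Finset.sum_nonneg fun i hi => mul_nonneg (hw i hi) (hnu i hi)
  rcases hP0.eq_or_lt with hPz | hPp
  · have hz : ∀ i ∈ s, w i * p i = 0 :=
      (Finset.sum_eq_zero_iff_of_nonneg fun i hi => mul_nonneg (hw i hi) (hp i hi)).1
        (by rw [← hP]; exact hPz.symm)
    have : ∑ i ∈ s, w i * (p i * Real.log (nu i / p i)) = 0 := by
      refine Finset.sum_eq_zero fun i hi => ?_
      rw [← mul_assoc, hz i hi, zero_mul]
    rw [this, ← hPz, zero_mul]
  · have hVp : 0 < V := by
      rcases hV0.eq_or_lt with hVz | h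
      · exfalso
        have hz : ∀ i ∈ s, w i * nu i = 0 :=
          (Finset.sum_eq_zero_iff_of_nonneg fun i hi => mul_nonneg (hw i hi) (hnu i hi)).1
            (by rw [← hV]; exact hVz.symm)
        have : P = 0 := by
          rw [hP]
          refine Finset.sum_eq_zero fun i hi => ?_
          rcases mul_eq_zero.1 (hz i hi) with h | h
          · rw [h, zero_mul]
          · rw [h0 i hi h, mul_zero]
        rw [this] at hPp
        exact lt_irrefl _ hPp
      · exact h
    have key : ∀ i ∈ s, w i * (p i * Real.log (nu i / p i))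
        ≤ (w i * p i) * Real.log (V / P) + (w i * nu i * (P / V) - w i * p i) := by
      intro i hi
      rcases (hp i hi).eq_or_lt with hpz | hpp
      · rw [← hpz]
        simp only [zero_mul, mul_zero, sub_zero, zero_add]
        exact mul_nonneg (mul_nonneg (hw i hi) (hnu i hi)) (div_nonneg hPp.le hVp.le)
      · have hnup : 0 < nu i := by
          rcases (hnu i hi).eq_or_lt with h | h
          · rw [h0 i hi h.symm] at hpp; exact absurd hpp (lt_irrefl _)
          · exact h
        have e1 : Real.log (nu i / p i) = Real.log (V / P) + Real.log (nu i * P / (p i * V)) := by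
          rw [← Real.log_mul (by positivity) (by positivity)]
          congr 1
          field_simp
        have e2 : Real.log (nu i * P / (p i * V)) ≤ nu i * P / (p i * V) - 1 :=
          Real.log_le_sub_one_of_pos (by positivity)
        rw [e1]
        have e3 : w i * (p i * (Real.log (V / P) + Real.log (nu i * P / (p i * V))))
            ≤ w i * (p i * (Real.log (V / P) + (nu i * P / (p i * V) - 1))) := by
          refine mul_le_mul_of_nonneg_left ?_ (hw i hi)
          refine mul_le_mul_of_nonneg_left ?_ hpp.le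
          linarith
        refine le_trans e3 (le_of_eq ?_)
        field_simp
    refine le_trans (Finset.sum_le_sum key) (le_of_eq ?_)
    rw [Finset.sum_add_distrib, Finset.sum_sub_distrib, ← Finset.sum_mul, ← Finset.sum_mul,
      ← hP, ← hV]
    have : V * (P / V) = P := by field_simp
    rw [this]
    ring

theorem logsum_fintype {I : Type*} [Fintype I] (w p nu : I → ℝ) (hw : ∀ i, 0 ≤ w i)
    (hp : ∀ i, 0 ≤ p i) (hnu : ∀ i, 0 ≤ nu i) (h0 : ∀ i, nu i = 0 → p i = 0) :
    ∑ i, w i * (p i * Real.log (nu i / p i))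
      ≤ (∑ i, w i * p i) * Real.log ((∑ i, w i * nu i) / (∑ i, w i * p i)) :=
  logsum univ w p nu (fun i _ => hw i) (fun i _ => hp i) (fun i _ => hnu i) (fun i _ => h0 i)

end Crest.H9PRLog
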