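import Mathlib
import Crest.Agent.H16PRFam
import Crest.Agent.H9PRLog

/-!
H26PREnt: the entropy bound ENT of rid 342.
-/

set_option autoImplicit false
set_option linter.unusedSectionVars false
set_option linter.unusedVariables false

open scoped Kronecker ComplexOrder BigOperators
open Crest.MathPhysics.NonlocalGame
open Crest.PR Crest.H26OneShot Crest.H26PRTele Crest.H16PR

namespace Crest.H26PREnt

section prelim

variable {n : Type*} [Fintype n] [DecidableEq n]

/-- operators between `0` and `1` -/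
def Good (A : Matrix n n ℂ) : Prop := A.PosSemidef ∧ (1 - A).PosSemidef

theorem psd_smul {A : Matrix n n ℂ} (hA : A.PosSemidef) {w : ℝ} (hw : 0 ≤ w) :
    (w • A).PosSemidef := by
  have h : (w • A) = ((w : ℂ) • A) := by
    ext i j; simp
  rw [h]
  exact hA.smul (by exact_mod_cast hw)

theorem subConv_good {Z : Type*} [Fintype Z] : SubConv Z (Good (n := n)) := by
  intro w F hw hs hF
  refine ⟨?_, ?_⟩
  · exact Matrix.posSemidef_sum _ fun u _ => psd_smul (hF u).1 (hw u)
  · have e : (1 : Matrix n n ℂ) - ∑ u, w u • F u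
        = (1 - ∑ u, w u) • (1 : Matrix n n ℂ) + ∑ u, w u • (1 - F u) := by
      simp only [smul_sub, Finset.sum_sub_distrib, sub_smul, one_smul, ← Finset.sum_smul]
      abel
    rw [e]
    refine Matrix.PosSemidef.add (psd_smul Matrix.PosSemidef.one (by linarith)) ?_
    exact Matrix.posSemidef_sum _ fun u _ => psd_smul (hF u).2 (hw u)

theorem bra_one_one {α β : Type*} [Fintype α] [DecidableEq α] [Fintype β] [DecidableEq β]
    (ψ : α × β → ℂ) : bra ψ 1 1 = ∑ i, ‖ψ i‖ ^ 2 := by
  unfold bra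
  rw [Matrix.one_kronecker_one, Matrix.one_mulVec]
  unfold dotProduct
  rw [Complex.re_sum]
  refine Finset.sum_congr rfl fun i _ => ?_
  rw [Pi.star_apply, Complex.star_def, mul_comm, Complex.mul_conj']
  norm_cast

end prelim

/-- the gauge hypothesis of TELE from `GaugeOK`, Alice side -/
theorem gauge_left {ρ α β Z : Type} [Fintype ρ] [Fintype α] [DecidableEq α] [Fintype β]
    [DecidableEq β] [Fintype Z] {K : ρ → Matrix α α ℂ → Matrix α α ℂ}
    {θ : Matrix α α ℂ → Matrix α α ℂ} {ε : ℝ} (h : GaugeOK K θ ε) (ψ : α × β → ℂ) :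
    Gauge (betaL ψ) Z Good (fun B : Matrix β β ℂ => B.PosSemidef) θ
      (fun A B => Disc K A B - ε • (1 : Matrix α α ℂ)) := by
  intro w F hw hs hF b hb
  have h1 := h.gauge Z w F hw hs (fun x hx => (hF x hx).1) (fun x hx => (hF x hx).2)
  have h2 := bra_nonneg ψ h1 hb
  rw [← betaL_apply] at h2
  simp only [map_sub, map_add, LinearMap.sub_apply, LinearMap.add_apply] at h2
  have e : (∑ u, w u • (Disc K (F u) (∑ u', w u' • F u') - ε • (1 : Matrix α α ℂ)))
      = (∑ u, w u • Disc K (F u) (∑ u', w u' • F u')) - ε • (1 : Matrix α α ℂ) := by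
    simp only [smul_sub, Finset.sum_sub_distrib]
    rw [← Finset.sum_smul, hs, one_smul]
  rw [e]
  simp only [map_sub, LinearMap.sub_apply]
  linarith

/-- the gauge hypothesis of TELE from `GaugeOK`, Bob side -/
theorem gauge_right {ρ α β Z : Type} [Fintype ρ] [Fintype α] [DecidableEq α] [Fintype β]
    [DecidableEq β] [Fintype Z] {K : ρ → Matrix β β ℂ → Matrix β β ℂ}
    {θ : Matrix β β ℂ → Matrix β β ℂ} {ε : ℝ} (h : GaugeOK K θ ε) (ψ : α × β → ℂ) :
    Gauge (betaL ψ).flip Z Good (fun B : Matrix α α ℂ => B.PosSemidef) θ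
      (fun A B => Disc K A B - ε • (1 : Matrix β β ℂ)) := by
  intro w F hw hs hF b hb
  have h1 := h.gauge Z w F hw hs (fun x hx => (hF x hx).1) (fun x hx => (hF x hx).2)
  have h2 := bra_nonneg ψ hb h1
  rw [← betaL_apply] at h2
  simp only [map_sub, map_add] at h2
  have e : (∑ u, w u • (Disc K (F u) (∑ u', w u' • F u') - ε • (1 : Matrix β β ℂ)))
      = (∑ u, w u • Disc K (F u) (∑ u', w u' • F u')) - ε • (1 : Matrix β β ℂ) := by
    simp only [smul_sub, Finset.sum_sub_distrib]
    rw [← Finset.sum_smul, hs, one_smul]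
  rw [e]
  simp only [LinearMap.flip_apply, map_sub, LinearMap.sub_apply]
  linarith

variable {G : Game} {k dA dB : ℕ}

theorem mu_nonneg (u : Zt G) : 0 ≤ mu G u := G.prob_nonneg _ _

theorem sum_mu : ∑ u : Zt G, mu G u = 1 := by
  unfold mu
  rw [Fintype.sum_prod_type]
  exact G.prob_sum

theorem MC_good (S : Strategy G k dA dB) (C : Finset (Fin k)) (o : OC G C) (z : Fin k → Zt G) :
    Good (MC S C o z) := by
  refine ⟨?_, ?_⟩
  · refine Matrix.posSemidef_sum _ fun a _ => ?_
    split_ifs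
    · exact S.M_posSemidef _ _
    · exact Matrix.PosSemidef.zero
  · rw [← S.M_sum (fun j => (z j).1)]
    unfold MC
    rw [← Finset.sum_sub_distrib]
    refine Matrix.posSemidef_sum _ fun a _ => ?_
    split_ifs
    · rw [sub_self]; exact Matrix.PosSemidef.zero
    · rw [sub_zero]; exact S.M_posSemidef _ _

theorem NC_good (S : Strategy G k dA dB) (C : Finset (Fin k)) (o : OC G C) (z : Fin k → Zt G) :
    Good (NC S C o z) := by
  refine ⟨?_, ?_⟩
  · refine Matrix.posSemidef_sum _ fun a _ => ?_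
    split_ifs
    · exact S.N_posSemidef _ _
    · exact Matrix.PosSemidef.zero
  · rw [← S.N_sum (fun j => (z j).2)]
    unfold NC
    rw [← Finset.sum_sub_distrib]
    refine Matrix.posSemidef_sum _ fun a _ => ?_
    split_ifs
    · rw [sub_self]; exact Matrix.PosSemidef.zero
    · rw [sub_zero]; exact S.N_posSemidef _ _

theorem MC_inv (S : Strategy G k dA dB) (C : Finset (Fin k)) (o : OC G C) (i : Fin k) :
    Inv (kY G.prob) i (MC S C o) :=
  inv_fst G.prob (fun x => ∑ a : Fin k → Fin G.nA, if (∀ i : ↥C, a i = o.1 i) then S.M x a else 0) i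

theorem NC_inv (S : Strategy G k dA dB) (C : Finset (Fin k)) (o : OC G C) (i : Fin k) :
    Inv (kX G.prob) i (NC S C o) :=
  inv_snd G.prob (fun y => ∑ b : Fin k → Fin G.nB, if (∀ i : ↥C, b i = o.2 i) then S.N y b else 0) i

theorem uC_indep (C : Finset (Fin k)) (o : OC G C) {i : Fin k} (hi : i ∉ C) (z : Fin k → Zt G)
    (w : Zt G) : uC G C o (Function.update z i w) = uC G C o z := by
  unfold uC
  have : ∀ j : ↥C, Function.update z i w (j : Fin k) = z j := fun j => by
    rw [Function.update_of_ne]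
    rintro h
    exact hi (h ▸ j.2)
  simp only [this]

theorem uC_nonneg (C : Finset (Fin k)) (o : OC G C) (z : Fin k → Zt G) : 0 ≤ uC G C o z := by
  unfold uC; split_ifs <;> norm_num

theorem uC_le_one (C : Finset (Fin k)) (o : OC G C) (z : Fin k → Zt G) : uC G C o z ≤ 1 := by
  unfold uC; split_ifs <;> norm_num

theorem prod_mu_nonneg (z : Fin k → Zt G) : 0 ≤ ∏ j, mu G (z j) :=
  Finset.prod_nonneg fun j _ => mu_nonneg _

theorem sum_prod_mu : ∑ z : Fin k → Zt G, ∏ j, mu G (z j) = 1 := by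
  have h := Finset.prod_univ_sum (fun _ : Fin k => (Finset.univ : Finset (Zt G)))
    (fun _ u => mu G u)
  rw [Fintype.piFinset_univ] at h
  rw [← h]
  simp [sum_mu]

/-- bounds for expectations of functions at most one -/
theorem Ex_le_one (C : Finset (Fin k)) (o : OC G C) (f : (Fin k → Zt G) → ℝ)
    (hf : ∀ z, f z ≤ 1) : Ex (mu G) (uC G C o) f ≤ 1 := by
  unfold Ex
  rw [← sum_prod_mu (G := G) (k := k)]
  refine Finset.sum_le_sum fun z _ => ?_
  have h1 := prod_mu_nonneg (G := G) z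
  have h2 := uC_nonneg C o z
  have h3 := uC_le_one C o z
  have h4 := hf z
  calc (∏ j, mu G (z j)) * uC G C o z * f z ≤ (∏ j, mu G (z j)) * uC G C o z * 1 :=
        mul_le_mul_of_nonneg_left h4 (mul_nonneg h1 h2)
    _ ≤ (∏ j, mu G (z j)) * 1 * 1 := by
        rw [mul_one, mul_one, mul_one]
        exact mul_le_of_le_one_right h1 h3
    _ = _ := by ring

theorem Ex_nonneg (C : Finset (Fin k)) (o : OC G C) (f : (Fin k → Zt G) → ℝ)
    (hf : ∀ z, 0 ≤ f z) : 0 ≤ Ex (mu G) (uC G C o) f :=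
  Finset.sum_nonneg fun z _ => mul_nonneg (mul_nonneg (prod_mu_nonneg z) (uC_nonneg C o z)) (hf z)

/-- bilinear expansion -/
theorem bra_sum_ite {α β A B : Type*} [Fintype α] [Fintype β] [Fintype A] [Fintype B]
    (ψ : α × β → ℂ) (P : A → Prop) [DecidablePred P] (Q : B → Prop) [DecidablePred Q]
    (M : A → Matrix α α ℂ) (N : B → Matrix β β ℂ) :
    bra ψ (∑ a, if P a then M a else 0) (∑ b, if Q b then N b else 0)
      = ∑ a, ∑ b, if P a ∧ Q b then bra ψ (M a) (N b) else 0 := by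
  rw [← betaL_apply, map_sum (betaL ψ), LinearMap.sum_apply]
  refine Finset.sum_congr rfl fun a _ => ?_
  rw [map_sum]
  refine Finset.sum_congr rfl fun b _ => ?_
  by_cases h1 : P a <;> by_cases h2 : Q b <;> simp [h1, h2, bra]

/-- summing over the partial answers -/
theorem sum_o (S : Strategy G k dA dB) (C : Finset (Fin k)) (z : Fin k → Zt G) :
    ∑ o : OC G C, uC G C o z * bra S.ψ (MC S C o z) (NC S C o z)
      = ∑ a : Fin k → Fin G.nA, ∑ b : Fin k → Fin G.nB,
          (if (∀ i ∈ C, G.accept (z i).1 (z i).2 (a i) (b i) = true) then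
            bra S.ψ (S.M (fun j => (z j).1) a) (S.N (fun j => (z j).2) b) else 0) := by
  have h1 : ∀ o : OC G C, uC G C o z * bra S.ψ (MC S C o z) (NC S C o z)
      = ∑ a : Fin k → Fin G.nA, ∑ b : Fin k → Fin G.nB,
        (if ((fun i : ↥C => a i), (fun i : ↥C => b i)) = o then
          uC G C o z * bra S.ψ (S.M (fun j => (z j).1) a) (S.N (fun j => (z j).2) b) else 0) := by
    intro o
    unfold MC NC
    rw [bra_sum_ite, Finset.mul_sum]
    refine Finset.sum_congr rfl fun a _ => ?_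
    rw [Finset.mul_sum]
    refine Finset.sum_congr rfl fun b _ => ?_
    have hiff : ((∀ i : ↥C, a i = o.1 i) ∧ (∀ i : ↥C, b i = o.2 i))
        ↔ ((fun i : ↥C => a i), (fun i : ↥C => b i)) = o := by
      constructor
      · rintro ⟨h1, h2⟩
        exact Prod.ext (funext h1) (funext h2)
      · rintro rfl
        exact ⟨fun i => rfl, fun i => rfl⟩
    by_cases h : ((fun i : ↥C => a i), (fun i : ↥C => b i)) = o
    · rw [if_pos h, if_pos (hiff.2 h)]
    · rw [if_neg h, if_neg (fun h' => h (hiff.1 h')), mul_zero]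
  rw [Finset.sum_congr rfl (fun o _ => h1 o)]
  rw [Finset.sum_comm]
  refine Finset.sum_congr rfl fun a _ => ?_
  rw [Finset.sum_comm]
  refine Finset.sum_congr rfl fun b _ => ?_
  rw [Finset.sum_ite_eq]
  rw [if_pos (Finset.mem_univ _)]
  unfold uC
  by_cases h : ∀ i ∈ C, G.accept (z i).1 (z i).2 (a i) (b i) = true
  · rw [if_pos h, if_pos (fun i : ↥C => h i i.2), one_mul]
  · rw [if_neg h, if_neg (fun h' : (∀ i : ↥C, _) => h (fun i hi => h' ⟨i, hi⟩)), zero_mul]

theorem sum_z_eq {E : Type*} [AddCommMonoid E] (f : (Fin k → Zt G) → E) :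
    ∑ z, f z = ∑ x : Fin k → Fin G.nX, ∑ y : Fin k → Fin G.nY, f (fun j => (x j, y j)) := by
  rw [← Fintype.sum_prod_type']
  refine Fintype.sum_equiv (Equiv.arrowProdEquivProdArrow (Fin k) (fun _ => Fin G.nX)
    (fun _ => Fin G.nY)) _ _ ?_
  intro z
  rfl

/-- the unaveraged total is `PW` -/
theorem sum_PW (S : Strategy G k dA dB) (C : Finset (Fin k)) :
    ∑ o : OC G C, Ex (mu G) (uC G C o) (fun z => bra S.ψ (MC S C o z) (NC S C o z)) = PW S C := by
  unfold Ex
  rw [Finset.sum_comm]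
  have h1 : ∀ z : Fin k → Zt G, ∑ o : OC G C, (∏ j, mu G (z j)) * uC G C o z *
      bra S.ψ (MC S C o z) (NC S C o z) = (∏ j, mu G (z j)) *
        ∑ a : Fin k → Fin G.nA, ∑ b : Fin k → Fin G.nB,
          (if (∀ i ∈ C, G.accept (z i).1 (z i).2 (a i) (b i) = true) then
            bra S.ψ (S.M (fun j => (z j).1) a) (S.N (fun j => (z j).2) b) else 0) := by
    intro z
    rw [← sum_o, Finset.mul_sum]
    refine Finset.sum_congr rfl fun o _ => ?_
    ring
  rw [Finset.sum_congr rfl (fun z _ => h1 z), sum_z_eq]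
  unfold PW
  rw [Fintype.sum_prod_type]
  refine Finset.sum_congr rfl fun x _ => ?_
  rw [Fintype.sum_prod_type]
  refine Finset.sum_congr rfl fun y _ => ?_
  rw [Fintype.sum_prod_type, Finset.mul_sum]
  refine Finset.sum_congr rfl fun a _ => ?_
  rw [Finset.mul_sum]
  refine Finset.sum_congr rfl fun b _ => ?_
  have hiff : C ⊆ wset G k (x, y, a, b) ↔ ∀ i ∈ C, G.accept (x i) (y i) (a i) (b i) = true := by
    unfold wset
    constructor
    · intro h i hi
      have := h hi
      simpa using this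
    · intro h i hi
      simpa using h i hi
  by_cases h : ∀ i ∈ C, G.accept (x i) (y i) (a i) (b i) = true
  · rw [if_pos h, if_pos (hiff.2 h)]
    rfl
  · rw [if_neg h, if_neg (fun h' => h (hiff.1 h')), mul_zero]

/-- the acceptability factor of a question pair -/
noncomputable def acc (G : Game) (u : Zt G) : ℝ :=
  if ∃ a b, G.accept u.1 u.2 a b = true then 1 else 0

theorem sum_acc : ∑ u : Zt G, mu G u * acc G u = qAcc G := by
  unfold acc mu qAcc
  rw [Fintype.sum_prod_type]
  refine Finset.sum_congr rfl fun x _ => Finset.sum_congr rfl fun y _ => ?_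
  by_cases h : ∃ a b, G.accept x y a b = true
  · rw [if_pos h, if_pos h, mul_one]
  · rw [if_neg h, if_neg h, mul_zero]

theorem sum_prod_acc (C : Finset (Fin k)) :
    ∑ z : Fin k → Zt G, (∏ j, mu G (z j)) * ∏ i ∈ C, acc G (z i) = qAcc G ^ C.card := by
  have h := Finset.prod_univ_sum (fun _ : Fin k => (Finset.univ : Finset (Zt G)))
    (fun j u => mu G u * (if j ∈ C then acc G u else 1))
  rw [Fintype.piFinset_univ] at h
  have e1 : ∀ z : Fin k → Zt G, (∏ j, mu G (z j)) * ∏ i ∈ C, acc G (z i)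
      = ∏ j, (mu G (z j) * (if j ∈ C then acc G (z j) else 1)) := by
    intro z
    rw [Finset.prod_mul_distrib]
    congr 1
    rw [Finset.prod_ite, Finset.prod_const_one, mul_one]
    congr 1
    ext i; simp
  rw [Finset.sum_congr rfl (fun z _ => e1 z), ← h]
  have e2 : ∀ j : Fin k, ∑ u : Zt G, mu G u * (if j ∈ C then acc G u else 1)
      = if j ∈ C then qAcc G else 1 := by
    intro j
    split_ifs with hj
    · exact sum_acc
    · simp [sum_mu]
  rw [Finset.prod_congr rfl (fun j _ => e2 j)]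
  rw [Finset.prod_ite, Finset.prod_const_one, mul_one, Finset.prod_const]
  congr 1
  congr 1
  ext i; simp

theorem uC_le_acc (C : Finset (Fin k)) (o : OC G C) (z : Fin k → Zt G) :
    uC G C o z ≤ ∏ i ∈ C, acc G (z i) := by
  unfold uC
  split_ifs with h
  · refine le_of_eq (Finset.prod_eq_one fun i hi => ?_).symm
    unfold acc
    rw [if_pos ⟨_, _, h ⟨i, hi⟩⟩]
  · refine Finset.prod_nonneg fun i _ => ?_
    unfold acc
    split_ifs <;> norm_num

theorem acc_nonneg (C : Finset (Fin k)) (z : Fin k → Zt G) : 0 ≤ ∏ i ∈ C, acc G (z i) := by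
  refine Finset.prod_nonneg fun i _ => ?_
  unfold acc
  split_ifs <;> norm_num

/-- sum of Bob's operators over his partial answers -/
theorem sum_NC (S : Strategy G k dA dB) (C : Finset (Fin k)) (a : ↥C → Fin G.nA)
    (z : Fin k → Zt G) : ∑ b : ↥C → Fin G.nB, NC S C (a, b) z = 1 := by
  unfold NC
  rw [Finset.sum_comm]
  rw [← S.N_sum (fun j => (z j).2)]
  refine Finset.sum_congr rfl fun b _ => ?_
  have : ∀ c : ↥C → Fin G.nB, (if (∀ i : ↥C, b i = (a, c).2 i) then S.N (fun j => (z j).2) b else 0)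
      = if (fun i : ↥C => b i) = c then S.N (fun j => (z j).2) b else 0 := by
    intro c
    by_cases h : (fun i : ↥C => b i) = c
    · rw [if_pos h, if_pos (fun i => congrFun h i)]
    · rw [if_neg h, if_neg (fun h' => h (funext h'))]
  rw [Finset.sum_congr rfl (fun c _ => this c), Finset.sum_ite_eq, if_pos (Finset.mem_univ _)]

theorem sum_MC (S : Strategy G k dA dB) (C : Finset (Fin k)) (b : ↥C → Fin G.nB)
    (z : Fin k → Zt G) : ∑ a : ↥C → Fin G.nA, MC S C (a, b) z = 1 := by
  unfold MC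
  rw [Finset.sum_comm]
  rw [← S.M_sum (fun j => (z j).1)]
  refine Finset.sum_congr rfl fun a _ => ?_
  have : ∀ c : ↥C → Fin G.nA, (if (∀ i : ↥C, a i = (c, b).1 i) then S.M (fun j => (z j).1) a else 0)
      = if (fun i : ↥C => a i) = c then S.M (fun j => (z j).1) a else 0 := by
    intro c
    by_cases h : (fun i : ↥C => a i) = c
    · rw [if_pos h, if_pos (fun i => congrFun h i)]
    · rw [if_neg h, if_neg (fun h' => h (funext h'))]
  rw [Finset.sum_congr rfl (fun c _ => this c), Finset.sum_ite_eq, if_pos (Finset.mem_univ _)]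

theorem bra_ψ_one (S : Strategy G k dA dB) : bra S.ψ 1 1 = 1 := by
  rw [bra_one_one, S.ψ_norm]

/-- total `ν` mass, Bob side -/
theorem V_le (S : Strategy G k dA dB) (C : Finset (Fin k)) :
    ∑ o : OC G C, Ex (mu G) (uC G C o) (fun z => bra S.ψ 1 (NC S C o z))
      ≤ qAcc G ^ C.card * (G.nA : ℝ) ^ C.card := by
  unfold Ex
  rw [Finset.sum_comm]
  rw [← sum_prod_acc C, Finset.sum_mul]
  refine Finset.sum_le_sum fun z _ => ?_
  have h1 : ∑ o : OC G C, (∏ j, mu G (z j)) * uC G C o z * bra S.ψ 1 (NC S C o z)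
      ≤ ∑ o : OC G C, (∏ j, mu G (z j)) * (∏ i ∈ C, acc G (z i)) * bra S.ψ 1 (NC S C o z) := by
    refine Finset.sum_le_sum fun o _ => ?_
    refine mul_le_mul_of_nonneg_right ?_ (bra_nonneg _ Matrix.PosSemidef.one (NC_good S C o z).1)
    exact mul_le_mul_of_nonneg_left (uC_le_acc C o z) (prod_mu_nonneg z)
  refine h1.trans (le_of_eq ?_)
  rw [← Finset.mul_sum, Fintype.sum_prod_type]
  have h2 : ∀ a : ↥C → Fin G.nA, ∑ b : ↥C → Fin G.nB, bra S.ψ 1 (NC S C (a, b) z) = 1 := by
    intro a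
    have : ∑ b : ↥C → Fin G.nB, bra S.ψ 1 (NC S C (a, b) z)
        = bra S.ψ 1 (∑ b : ↥C → Fin G.nB, NC S C (a, b) z) := by
      simp only [← betaL_apply]
      rw [map_sum]
    rw [this, sum_NC, bra_ψ_one]
  rw [Finset.sum_congr rfl (fun a _ => h2 a)]
  simp

/-- total `ν` mass, Alice side -/
theorem V_le' (S : Strategy G k dA dB) (C : Finset (Fin k)) :
    ∑ o : OC G C, Ex (mu G) (uC G C o) (fun z => bra S.ψ (MC S C o z) 1)
      ≤ qAcc G ^ C.card * (G.nB : ℝ) ^ C.card := by
  unfold Ex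
  rw [Finset.sum_comm]
  rw [← sum_prod_acc C, Finset.sum_mul]
  refine Finset.sum_le_sum fun z _ => ?_
  have h1 : ∑ o : OC G C, (∏ j, mu G (z j)) * uC G C o z * bra S.ψ (MC S C o z) 1
      ≤ ∑ o : OC G C, (∏ j, mu G (z j)) * (∏ i ∈ C, acc G (z i)) * bra S.ψ (MC S C o z) 1 := by
    refine Finset.sum_le_sum fun o _ => ?_
    refine mul_le_mul_of_nonneg_right ?_ (bra_nonneg _ (MC_good S C o z).1 Matrix.PosSemidef.one)
    exact mul_le_mul_of_nonneg_left (uC_le_acc C o z) (prod_mu_nonneg z)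
  refine h1.trans (le_of_eq ?_)
  rw [← Finset.mul_sum, Fintype.sum_prod_type_right]
  have h2 : ∀ b : ↥C → Fin G.nB, ∑ a : ↥C → Fin G.nA, bra S.ψ (MC S C (a, b) z) 1 = 1 := by
    intro b
    have : ∑ a : ↥C → Fin G.nA, bra S.ψ (MC S C (a, b) z) 1
        = bra S.ψ (∑ a : ↥C → Fin G.nA, MC S C (a, b) z) 1 := by
      simp only [← betaL_apply]
      rw [map_sum, LinearMap.sum_apply]
    rw [this, sum_MC, bra_ψ_one]
  rw [Finset.sum_congr rfl (fun a _ => h2 a)]
  simp

/-- the logarithmic bound: `∑ w p log(ν/p) ≤ P log(q^c n^c / P)` in abstract form -/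
theorem log_part (C : Finset (Fin k)) {P Q : ℝ} (hP : 0 < P)
    (p nu : OC G C → (Fin k → Zt G) → ℝ) (hp : ∀ o z, 0 ≤ p o z) (hpn : ∀ o z, p o z ≤ nu o z)
    (hPsum : ∑ o, Ex (mu G) (uC G C o) (p o) = P)
    (hV : ∑ o, Ex (mu G) (uC G C o) (nu o) ≤ Q) :
    ∑ o, Ex (mu G) (uC G C o) (fun z => p o z * Real.log (nu o z / p o z)) ≤ P * Real.log (Q / P)
      ∧ 0 < Q := by
  have hls := H9PRLog.logsum_fintype (I := OC G C × (Fin k → Zt G))
    (fun i => (∏ j, mu G (i.2 j)) * uC G C i.1 i.2) (fun i => p i.1 i.2) (fun i => nu i.1 i.2)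
    (fun i => mul_nonneg (prod_mu_nonneg _) (uC_nonneg _ _ _)) (fun i => hp _ _)
    (fun i => (hp _ _).trans (hpn _ _)) (fun i h => le_antisymm ((hpn _ _).trans h.le) (hp _ _))
  have E : ∀ f : OC G C × (Fin k → Zt G) → ℝ, ∑ i, f i = ∑ o, ∑ z, f (o, z) :=
    fun f => Fintype.sum_prod_type f
  rw [E, E, E] at hls
  dsimp only at hls
  have e1 : ∑ o, ∑ z, (∏ j, mu G (z j)) * uC G C o z * (p o z * Real.log (nu o z / p o z))
      = ∑ o, Ex (mu G) (uC G C o) (fun z => p o z * Real.log (nu o z / p o z)) := rfl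
  have e2 : ∑ o, ∑ z, (∏ j, mu G (z j)) * uC G C o z * p o z
      = ∑ o, Ex (mu G) (uC G C o) (p o) := rfl
  have e3 : ∑ o, ∑ z, (∏ j, mu G (z j)) * uC G C o z * nu o z
      = ∑ o, Ex (mu G) (uC G C o) (nu o) := rfl
  have hVP : P ≤ ∑ o, Ex (mu G) (uC G C o) (nu o) := by
    rw [← hPsum]
    refine Finset.sum_le_sum fun o _ => Finset.sum_le_sum fun z _ => ?_
    exact mul_le_mul_of_nonneg_left (hpn o z) (mul_nonneg (prod_mu_nonneg _) (uC_nonneg _ _ _))
  have hVpos : 0 < ∑ o, Ex (mu G) (uC G C o) (nu o) := lt_of_lt_of_le hP hVP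
  refine ⟨?_, lt_of_lt_of_le hVpos hV⟩
  rw [← e1]
  refine hls.trans ?_
  rw [e2, e3, hPsum]
  refine mul_le_mul_of_nonneg_left ?_ hP.le
  exact Real.log_le_log (div_pos hVpos hP) (div_le_div_of_nonneg_right hV hP.le)

/-- arithmetic of the final logarithms -/
theorem log_final {q P : ℝ} {c nA nB : ℕ} (hP : 0 < P) (hA : 0 < q ^ c * (nA : ℝ) ^ c)
    (hB : 0 < q ^ c * (nB : ℝ) ^ c) :
    P * Real.log (q ^ c * (nA : ℝ) ^ c / P) + P * Real.log (q ^ c * (nB : ℝ) ^ c / P)
      = P * (2 * Real.log (q ^ c / P) + c * Real.log ((nA * nB : ℕ) : ℝ)) := by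
  have hq : q ^ c ≠ 0 := fun h => by rw [h, zero_mul] at hA; exact lt_irrefl _ hA
  have hnA : (nA : ℝ) ^ c ≠ 0 := fun h => by rw [h, mul_zero] at hA; exact lt_irrefl _ hA
  have hnB : (nB : ℝ) ^ c ≠ 0 := fun h => by rw [h, mul_zero] at hB; exact lt_irrefl _ hB
  have hqP : q ^ c / P ≠ 0 := div_ne_zero hq hP.ne'
  have e1 : Real.log (q ^ c * (nA : ℝ) ^ c / P) = Real.log (q ^ c / P) + c * Real.log nA := by
    rw [show q ^ c * (nA : ℝ) ^ c / P = (q ^ c / P) * (nA : ℝ) ^ c by ring,
      Real.log_mul hqP hnA, Real.log_pow]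
  have e2 : Real.log (q ^ c * (nB : ℝ) ^ c / P) = Real.log (q ^ c / P) + c * Real.log nB := by
    rw [show q ^ c * (nB : ℝ) ^ c / P = (q ^ c / P) * (nB : ℝ) ^ c by ring,
      Real.log_mul hqP hnB, Real.log_pow]
  have e3 : (c : ℝ) * Real.log ((nA * nB : ℕ) : ℝ) = c * Real.log nA + c * Real.log nB := by
    rcases Nat.eq_zero_or_pos c with h0 | h0
    · rw [h0]; simp
    · have a1 : (nA : ℝ) ≠ 0 := fun h => hnA (by rw [h, zero_pow h0.ne'])
      have a2 : (nB : ℝ) ≠ 0 := fun h => hnB (by rw [h, zero_pow h0.ne'])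
      rw [Nat.cast_mul, Real.log_mul a1 a2]; ring
  rw [e1, e2, e3]; ring

/-- subtracting `ε` inside -/
theorem Ex_sub_const {E : Type*} (C : Finset (Fin k)) (o : OC G C) (ε : ℝ)
    (f h : (Fin k → Zt G) → ℝ) :
    Ex (mu G) (uC G C o) (fun z => f z - ε * h z)
      = Ex (mu G) (uC G C o) f - ε * Ex (mu G) (uC G C o) h := by
  unfold Ex
  rw [Finset.mul_sum, ← Finset.sum_sub_distrib]
  exact Finset.sum_congr rfl fun z _ => by ring

/-- **ENT** -/
theorem ent (G : Game) : EntStatement G := by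
  intro k dA dB S C hP
  refine ⟨2 * k * Fintype.card (OC G C), by positivity, ?_⟩
  intro L hnd hLC hCL ρA ρB _ _ KA θA KB θB ε hε hA hB
  -- TELE for each `o`
  have hm : ∀ u : Zt G, 0 ≤ mu G u := mu_nonneg
  have hκ : RevKer (mu G) (kX G.prob) := revKer_kX G.prob_nonneg
  have hκ' : RevKer (mu G) (kY G.prob) := revKer_kY G.prob_nonneg
  have hNTgood : ∀ (o : OC G C) (t : ℕ) (z : Fin k → Zt G), Good (NT S C o L t z) :=
    fun o t z => Sl_pred hκ' subConv_good (NC_good S C o) _ z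
  have hMTgood : ∀ (o : OC G C) (t : ℕ) (z : Fin k → Zt G), Good (MT S C o L t z) :=
    fun o t z => Tl_pred hκ subConv_good (MC_good S C o) _ z
  have hMgood : ∀ (o : OC G C) (z : Fin k → Zt G), Good (Tl (kX G.prob) L (MC S C o) z) :=
    fun o z => Tl_pred hκ subConv_good (MC_good S C o) _ z
  have hNgood : ∀ (o : OC G C) (z : Fin k → Zt G), Good (Sl (kY G.prob) L (NC S C o) z) :=
    fun o z => Sl_pred hκ' subConv_good (NC_good S C o) _ z
  have h1p : (1 : Matrix (Fin dA) (Fin dA) ℂ).PosSemidef := Matrix.PosSemidef.one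
  have h1q : (1 : Matrix (Fin dB) (Fin dB) ℂ).PosSemidef := Matrix.PosSemidef.one
  have hz1 : ((1 : Matrix (Fin dA) (Fin dA) ℂ) - 1).PosSemidef := by
    rw [sub_self]; exact Matrix.PosSemidef.zero
  have hz2 : ((1 : Matrix (Fin dB) (Fin dB) ℂ) - 1).PosSemidef := by
    rw [sub_self]; exact Matrix.PosSemidef.zero
  have htele := fun o : OC G C =>
    tele (ι := Fin k) (Z := Zt G) hm hκ hκ' (betaL S.ψ) (g := uC G C o) (uC_nonneg C o)
      (Good₁ := Good) (Pos₁ := fun A => A.PosSemidef) (Good₂ := Good)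
      (Pos₂ := fun A => A.PosSemidef) subConv_good subConv_good (fun a h => h.1) (fun a h => h.1)
      (gauge_left hA S.ψ) (gauge_right hB S.ψ) (NC_good S C o) L hnd
      (fun i hi => inv_of_indep _ (uC_indep C o (hLC i hi)))
      (fun i hi => inv_of_indep _ (uC_indep C o (hLC i hi)))
      (fun i _ => NC_inv S C o i) (MC_good S C o) (fun i _ => MC_inv S C o i)
  -- compare the terms
  have hterm : ∀ (o : OC G C) (t : Fin L.length),
      Ex (mu G) (uC G C o) (fun z =>
          bra S.ψ (Disc KA (MT S C o L t z) (MT S C o L (t + 1) z)) (NT S C o L (t + 1) z))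
        + Ex (mu G) (uC G C o) (fun z =>
          bra S.ψ (MT S C o L t z) (Disc KB (NT S C o L (t + 1) z) (NT S C o L t z)))
      ≤ (Ex (mu G) (uC G C o) (fun z => betaL S.ψ
            (Disc KA (Tl (kX G.prob) (L.take t) (MC S C o) z)
              (Tl (kX G.prob) (L.take (t + 1)) (MC S C o) z) - ε • (1 : Matrix _ _ ℂ))
            (Sl (kY G.prob) (L.drop (t + 1)) (NC S C o) z))
        + Ex (mu G) (uC G C o) (fun z => betaL S.ψ (Tl (kX G.prob) (L.take t) (MC S C o) z)
            (Disc KB (Sl (kY G.prob) (L.drop (t + 1)) (NC S C o) z)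
              (Sl (kY G.prob) (L.drop t) (NC S C o) z) - ε • (1 : Matrix _ _ ℂ)))) + 2 * ε := by
    intro o t
    have a1 : Ex (mu G) (uC G C o) (fun z => betaL S.ψ
            (Disc KA (Tl (kX G.prob) (L.take t) (MC S C o) z)
              (Tl (kX G.prob) (L.take (t + 1)) (MC S C o) z) - ε • (1 : Matrix _ _ ℂ))
            (Sl (kY G.prob) (L.drop (t + 1)) (NC S C o) z))
        = Ex (mu G) (uC G C o) (fun z =>
          bra S.ψ (Disc KA (MT S C o L t z) (MT S C o L (t + 1) z)) (NT S C o L (t + 1) z))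
          - ε * Ex (mu G) (uC G C o) (fun z => bra S.ψ 1 (NT S C o L (t + 1) z)) := by
      rw [← Ex_sub_const (E := ℝ)]
      congr 1
      funext z
      rw [map_sub, LinearMap.sub_apply, map_smul, LinearMap.smul_apply]
      rfl
    have a2 : Ex (mu G) (uC G C o) (fun z => betaL S.ψ (Tl (kX G.prob) (L.take t) (MC S C o) z)
            (Disc KB (Sl (kY G.prob) (L.drop (t + 1)) (NC S C o) z)
              (Sl (kY G.prob) (L.drop t) (NC S C o) z) - ε • (1 : Matrix _ _ ℂ)))
        = Ex (mu G) (uC G C o) (fun z =>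
          bra S.ψ (MT S C o L t z) (Disc KB (NT S C o L (t + 1) z) (NT S C o L t z)))
          - ε * Ex (mu G) (uC G C o) (fun z => bra S.ψ (MT S C o L t z) 1) := by
      rw [← Ex_sub_const (E := ℝ)]
      congr 1
      funext z
      rw [map_sub, map_smul]
      rfl
    have b1 : Ex (mu G) (uC G C o) (fun z => bra S.ψ 1 (NT S C o L (t + 1) z)) ≤ 1 :=
      Ex_le_one C o _ fun z => by
        rw [← bra_ψ_one S]
        exact bra_mono S.ψ h1p h1q hz1 (hNTgood o _ z).2
    have b2 : Ex (mu G) (uC G C o) (fun z => bra S.ψ (MT S C o L t z) 1) ≤ 1 :=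
      Ex_le_one C o _ fun z => by
        rw [← bra_ψ_one S]
        exact bra_mono S.ψ (hMTgood o _ z).1 h1q (hMTgood o _ z).2 hz2
    rw [a1, a2]
    nlinarith
  -- sum over `t` and `o`
  have hlen : (L.length : ℝ) ≤ k := by
    have := hnd.length_le_card
    rw [Fintype.card_fin] at this
    exact_mod_cast this
  have hsum : ∀ o : OC G C, ∑ t : Fin L.length, (Ex (mu G) (uC G C o) (fun z =>
          bra S.ψ (Disc KA (MT S C o L t z) (MT S C o L (t + 1) z)) (NT S C o L (t + 1) z))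
        + Ex (mu G) (uC G C o) (fun z =>
          bra S.ψ (MT S C o L t z) (Disc KB (NT S C o L (t + 1) z) (NT S C o L t z))))
      ≤ Ex (mu G) (uC G C o) (fun z => bra S.ψ (Tl (kX G.prob) L (MC S C o) z) (NC S C o z)
          * Real.log (bra S.ψ 1 (NC S C o z)
            / bra S.ψ (Tl (kX G.prob) L (MC S C o) z) (NC S C o z)))
        + Ex (mu G) (uC G C o) (fun z => bra S.ψ (MC S C o z) (Sl (kY G.prob) L (NC S C o) z)
          * Real.log (bra S.ψ (MC S C o z) 1
            / bra S.ψ (MC S C o z) (Sl (kY G.prob) L (NC S C o) z))) + 2 * k * ε := by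
    intro o
    refine (Finset.sum_le_sum fun t _ => hterm o t).trans ?_
    rw [Finset.sum_add_distrib]
    have c1 := htele o
    have c2 : 0 ≤ Ex (mu G) (uC G C o) (fun z => betaL S.ψ (θA (MC S C o z))
        (Sl (kY G.prob) L (NC S C o) z)) := Ex_nonneg C o _ fun z =>
      bra_nonneg _ (hA.nonneg _ (MC_good S C o z).1 (MC_good S C o z).2) (hNgood o z).1
    have c3 : 0 ≤ Ex (mu G) (uC G C o) (fun z => betaL S.ψ (Tl (kX G.prob) L (MC S C o) z)
        (θB (NC S C o z))) := Ex_nonneg C o _ fun z =>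
      bra_nonneg _ (hMgood o z).1 (hB.nonneg _ (NC_good S C o z).1 (NC_good S C o z).2)
    have c4 : Ex (mu G) (uC G C o) (fun z => betaL S.ψ (θA (Tl (kX G.prob) L (MC S C o) z))
        (NC S C o z)) ≤ Ex (mu G) (uC G C o) (fun z =>
          bra S.ψ (Tl (kX G.prob) L (MC S C o) z) (NC S C o z)
          * Real.log (bra S.ψ 1 (NC S C o z)
            / bra S.ψ (Tl (kX G.prob) L (MC S C o) z) (NC S C o z))) := by
      unfold Ex
      refine Finset.sum_le_sum fun z _ => mul_le_mul_of_nonneg_left ?_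
        (mul_nonneg (prod_mu_nonneg _) (uC_nonneg _ _ _))
      exact hA.ubL (Fin dB) S.ψ _ _ (hMgood o z).1 (hMgood o z).2 (NC_good S C o z).1
    have c5 : Ex (mu G) (uC G C o) (fun z => betaL S.ψ (MC S C o z)
        (θB (Sl (kY G.prob) L (NC S C o) z))) ≤ Ex (mu G) (uC G C o) (fun z =>
          bra S.ψ (MC S C o z) (Sl (kY G.prob) L (NC S C o) z)
          * Real.log (bra S.ψ (MC S C o z) 1
            / bra S.ψ (MC S C o z) (Sl (kY G.prob) L (NC S C o) z))) := by
      unfold Ex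
      refine Finset.sum_le_sum fun z _ => mul_le_mul_of_nonneg_left ?_
        (mul_nonneg (prod_mu_nonneg _) (uC_nonneg _ _ _))
      exact hB.ubR (Fin dA) S.ψ _ _ (hNgood o z).1 (hNgood o z).2 (MC_good S C o z).1
    have c6 : ∑ t : Fin L.length, 2 * ε ≤ 2 * k * ε := by
      rw [Finset.sum_const, Finset.card_univ, Fintype.card_fin, nsmul_eq_mul]
      nlinarith
    linarith
  -- the two logarithmic sums
  have hPA : ∑ o, Ex (mu G) (uC G C o) (fun z => bra S.ψ (Tl (kX G.prob) L (MC S C o) z)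
      (NC S C o z)) = PW S C := by
    rw [← sum_PW]
    refine Finset.sum_congr rfl fun o _ => ?_
    exact unfold_avg (m := mu G) hκ hκ' (betaL S.ψ) L [] hnd (fun i _ => List.not_mem_nil)
      (fun i hi => inv_of_indep _ (uC_indep C o (hLC i hi))) (fun i hi => by simp at hi)
      (fun i _ => NC_inv S C o i) (fun i hi => by simp at hi)
  have hPB : ∑ o, Ex (mu G) (uC G C o) (fun z => bra S.ψ (MC S C o z)
      (Sl (kY G.prob) L (NC S C o) z)) = PW S C := by
    rw [← sum_PW]
    refine Finset.sum_congr rfl fun o _ => ?_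
    exact unfold_avg (m := mu G) hκ hκ' (betaL S.ψ) [] L List.nodup_nil (fun i hi => by simp at hi)
      (fun i hi => by simp at hi) (fun i hi => inv_of_indep _ (uC_indep C o (hLC i hi)))
      (fun i hi => by simp at hi) (fun i _ => MC_inv S C o i)
  have hzN : ∀ (o : OC G C) (z : Fin k → Zt G), (NC S C o z - NC S C o z).PosSemidef := fun o z => by
    rw [sub_self]; exact Matrix.PosSemidef.zero
  have hzM : ∀ (o : OC G C) (z : Fin k → Zt G), (MC S C o z - MC S C o z).PosSemidef := fun o z => by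
    rw [sub_self]; exact Matrix.PosSemidef.zero
  have hLA := log_part C hP
    (fun o z => bra S.ψ (Tl (kX G.prob) L (MC S C o) z) (NC S C o z))
    (fun o z => bra S.ψ 1 (NC S C o z))
    (fun o z => bra_nonneg _ (hMgood o z).1 (NC_good S C o z).1)
    (fun o z => bra_mono S.ψ (hMgood o z).1 (NC_good S C o z).1 (hMgood o z).2 (hzN o z))
    hPA (V_le S C)
  have hLB := log_part C hP
    (fun o z => bra S.ψ (MC S C o z) (Sl (kY G.prob) L (NC S C o) z))
    (fun o z => bra S.ψ (MC S C o z) 1)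
    (fun o z => bra_nonneg _ (MC_good S C o z).1 (hNgood o z).1)
    (fun o z => bra_mono S.ψ (MC_good S C o z).1 h1q (hzM o z) (hNgood o z).2)
    hPB (V_le' S C)
  have hfin := log_final (q := qAcc G) (c := C.card) (nA := G.nA) (nB := G.nB) hP hLA.2 hLB.2
  -- assemble
  have hL : ∑ t : Fin L.length, (ErrA S C L KA t + ErrB S C L KB t)
      = ∑ o : OC G C, ∑ t : Fin L.length, (Ex (mu G) (uC G C o) (fun z =>
          bra S.ψ (Disc KA (MT S C o L t z) (MT S C o L (t + 1) z)) (NT S C o L (t + 1) z))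
        + Ex (mu G) (uC G C o) (fun z =>
          bra S.ψ (MT S C o L t z) (Disc KB (NT S C o L (t + 1) z) (NT S C o L t z)))) := by
    rw [Finset.sum_comm]
    refine Finset.sum_congr rfl fun t _ => ?_
    rw [Finset.sum_add_distrib]
    rfl
  rw [hL]
  refine (Finset.sum_le_sum fun o _ => hsum o).trans ?_
  rw [Finset.sum_add_distrib, Finset.sum_add_distrib]
  have hc : ∑ o : OC G C, 2 * (k : ℝ) * ε = 2 * k * Fintype.card (OC G C) * ε := by
    rw [Finset.sum_const, Finset.card_univ, nsmul_eq_mul]; ring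
  rw [hc, ← hfin]
  have := hLA.1
  have := hLB.1
  linarith

end Crest.H26PREnt
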