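import Mathlib

/-!
# The averaging / threshold part of the parallel repetition theorem (rid 342)

A purely finite-probability statement: `PW p W C` is the probability that all coordinates of `C` are won, and
the average over `C` of size `j` of an inequality of the form
`∑_{i ∉ C} PW (insert i C) ≤ (k - |C|) PW C (v + Φ (ε_C))` gives the exponential bound for the probability of
winning at least `(v + δ) k` coordinates.
-/

set_option autoImplicit false

namespace Crest.H6PR

open Finset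

section
variable {Ω : Type*} [Fintype Ω] {k : ℕ} (p : Ω → ℝ) (W : Ω → Finset (Fin k))

/-- probability that all the coordinates of `C` are won -/
noncomputable def PW (C : Finset (Fin k)) : ℝ := ∑ ω, if C ⊆ W ω then p ω else 0

lemma PW_nonneg (hp : ∀ ω, 0 ≤ p ω) (C : Finset (Fin k)) : 0 ≤ PW p W C := by
  refine sum_nonneg (fun ω _ => ?_)
  split_ifs
  · exact hp ω
  · exact le_rfl

lemma PW_mono (hp : ∀ ω, 0 ≤ p ω) {C D : Finset (Fin k)} (h : C ⊆ D) : PW p W D ≤ PW p W C := by
  refine sum_le_sum (fun ω _ => ?_)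
  by_cases hD : D ⊆ W ω
  · rw [if_pos hD, if_pos (h.trans hD)]
  · rw [if_neg hD]
    split_ifs
    · exact hp ω
    · exact le_rfl

lemma sum_PW (j : ℕ) :
    ∑ C ∈ powersetCard j univ, PW p W C = ∑ ω, p ω * ((W ω).card.choose j : ℝ) := by
  unfold PW
  rw [sum_comm]
  refine sum_congr rfl (fun ω _ => ?_)
  rw [← sum_filter, sum_const, nsmul_eq_mul, mul_comm]
  have : (powersetCard j (univ : Finset (Fin k))).filter (fun C => C ⊆ W ω)
      = powersetCard j (W ω) := by
    ext C
    simp only [mem_filter, mem_powersetCard, subset_univ, true_and]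
    tauto
  rw [this, card_powersetCard]

lemma sum_insert_PW (j : ℕ) :
    ∑ C ∈ powersetCard j univ, ∑ i ∈ univ \ C, PW p W (insert i C)
      = ((j : ℝ) + 1) * ∑ C ∈ powersetCard (j + 1) univ, PW p W C := by
  have h1 : ∑ C ∈ powersetCard j univ, ∑ i ∈ univ \ C, PW p W (insert i C)
      = ∑ ω, p ω * (((W ω).card.choose j * ((W ω).card - j) : ℕ) : ℝ) := by
    unfold PW
    have h2 : ∀ C ∈ powersetCard j (univ : Finset (Fin k)),
        ∑ i ∈ univ \ C, ∑ ω, (if insert i C ⊆ W ω then p ω else 0)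
          = ∑ ω, if C ⊆ W ω then p ω * (((W ω).card - j : ℕ) : ℝ) else 0 := by
      intro C hC
      rw [mem_powersetCard] at hC
      rw [sum_comm]
      refine sum_congr rfl (fun ω _ => ?_)
      by_cases hCW : C ⊆ W ω
      · rw [if_pos hCW, ← sum_filter, sum_const, nsmul_eq_mul, mul_comm]
        have : (univ \ C).filter (fun i => insert i C ⊆ W ω) = W ω \ C := by
          ext i
          simp only [mem_filter, mem_sdiff, mem_univ, true_and, insert_subset_iff]
          tauto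
        rw [this, card_sdiff_of_subset hCW, hC.2]
      · rw [if_neg hCW]
        refine sum_eq_zero (fun i _ => ?_)
        rw [if_neg]
        intro h
        exact hCW ((subset_insert i C).trans h)
    rw [sum_congr rfl h2, sum_comm]
    refine sum_congr rfl (fun ω _ => ?_)
    rw [← sum_filter, sum_const, nsmul_eq_mul]
    have : (powersetCard j (univ : Finset (Fin k))).filter (fun C => C ⊆ W ω)
        = powersetCard j (W ω) := by
      ext C
      simp only [mem_filter, mem_powersetCard, subset_univ, true_and]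
      tauto
    rw [this, card_powersetCard]
    push_cast
    ring
  rw [h1, sum_PW, mul_sum]
  refine sum_congr rfl (fun ω _ => ?_)
  have := Nat.choose_succ_right_eq (W ω).card j
  rw [← this]
  push_cast
  ring

/-- the average of `PW` over the sets of size `j` -/
noncomputable def av (j : ℕ) : ℝ := (∑ C ∈ powersetCard j univ, PW p W C) / (k.choose j : ℝ)

lemma av_zero (hp1 : ∑ ω, p ω = 1) : av p W 0 = 1 := by
  unfold av
  rw [sum_PW]
  simp [hp1]

lemma choose_pos' {j : ℕ} (hj : j ≤ k) : (0 : ℝ) < (k.choose j : ℝ) := by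
  exact_mod_cast Nat.choose_pos hj

lemma choose_rec {j : ℕ} (hj : j < k) :
    (k.choose (j + 1) : ℝ) * ((j : ℝ) + 1) = (k.choose j : ℝ) * ((k : ℝ) - j) := by
  have := Nat.choose_succ_right_eq k j
  have h2 : ((k - j : ℕ) : ℝ) = (k : ℝ) - j := by
    rw [Nat.cast_sub hj.le]
  rw [← h2]
  exact_mod_cast this

/-- lower bound of `av` by the probability of the threshold event -/
lemma av_lower (hp : ∀ ω, 0 ≤ p ω) (v δ : ℝ) (hv : 0 ≤ v) (hδ : 0 < δ)
    (a : ℝ) (ha : a = ∑ ω, if (v + δ) * (k : ℝ) ≤ ((W ω).card : ℝ) then p ω else 0)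
    (m : ℕ) (hm : (m : ℝ) ≤ δ * k / 4) (j : ℕ) (hj : j ≤ m) (hmk : m ≤ k) :
    a * (v + 3 * δ / 4) ^ j ≤ av p W j := by
  have hck : (0 : ℝ) < (k.choose j : ℝ) := choose_pos' (hj.trans hmk)
  unfold av
  rw [sum_PW, le_div_iff₀ hck, ha, sum_mul, sum_mul]
  refine sum_le_sum (fun ω _ => ?_)
  by_cases hω : (v + δ) * (k : ℝ) ≤ ((W ω).card : ℝ)
  · rw [if_pos hω, mul_assoc]
    refine mul_le_mul_of_nonneg_left ?_ (hp ω)
    -- (v+3δ/4)^j * C(k,j) ≤ C(w,j)
    have key : ∀ i : ℕ, i ≤ j → (v + 3 * δ / 4) ^ i * (k.choose i : ℝ) ≤ ((W ω).card.choose i : ℝ) := by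
      intro i
      induction i with
      | zero => intro _; simp
      | succ i ih =>
        intro hi
        have ih' := ih (by omega)
        have hik : i < k := by omega
        have him : (i : ℝ) ≤ δ * k / 4 := by
          have : (i : ℝ) ≤ (m : ℝ) := by exact_mod_cast (by omega : i ≤ m)
          linarith
        have hkpos : (0 : ℝ) ≤ (k : ℝ) := Nat.cast_nonneg k
        have hi0 : (0 : ℝ) ≤ (i : ℝ) := Nat.cast_nonneg i
        have hw : (i : ℝ) ≤ ((W ω).card : ℝ) := by nlinarith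
        have hw' : i ≤ (W ω).card := by exact_mod_cast hw
        have e1 : ((W ω).card.choose (i + 1) : ℝ) * ((i : ℝ) + 1)
            = ((W ω).card.choose i : ℝ) * (((W ω).card : ℝ) - i) := by
          have := Nat.choose_succ_right_eq (W ω).card i
          have h2 : (((W ω).card - i : ℕ) : ℝ) = ((W ω).card : ℝ) - i := by
            rw [Nat.cast_sub hw']
          rw [← h2]
          exact_mod_cast this
        have e2 := choose_rec (k := k) hik
        have h3 : (v + 3 * δ / 4) * ((k : ℝ) - i) ≤ ((W ω).card : ℝ) - i := by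
          nlinarith [mul_nonneg hi0 hv, mul_nonneg hi0 hδ.le]
        have h4 : (0 : ℝ) < (i : ℝ) + 1 := by positivity
        have h5 : 0 ≤ v + 3 * δ / 4 := by positivity
        have h6 : (0 : ℝ) ≤ (k : ℝ) - i := by
          have : (i : ℝ) < (k : ℝ) := by exact_mod_cast hik
          linarith
        have h7 : ((v + 3 * δ / 4) ^ (i + 1) * (k.choose (i + 1) : ℝ)) * ((i : ℝ) + 1)
            ≤ ((W ω).card.choose (i + 1) : ℝ) * ((i : ℝ) + 1) := by
          rw [e1]
          calc ((v + 3 * δ / 4) ^ (i + 1) * (k.choose (i + 1) : ℝ)) * ((i : ℝ) + 1)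
              = ((v + 3 * δ / 4) ^ i * (k.choose i : ℝ)) * ((v + 3 * δ / 4) * ((k : ℝ) - i)) := by
                rw [mul_assoc, e2]; ring
            _ ≤ ((W ω).card.choose i : ℝ) * (((W ω).card : ℝ) - i) :=
                mul_le_mul ih' h3 (mul_nonneg h5 h6) (Nat.cast_nonneg _)
        exact le_of_mul_le_mul_right h7 h4
    exact key j le_rfl
  · rw [if_neg hω]
    have : 0 ≤ p ω * ((W ω).card.choose j : ℝ) := mul_nonneg (hp ω) (Nat.cast_nonneg _)
    simpa using this

/-- the averaged inequality -/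
lemma av_step (hp : ∀ ω, 0 ≤ p ω) (Φ : ℝ → ℝ) (hΦ : ConcaveOn ℝ (Set.Ici 0) Φ)
    (hΦm : MonotoneOn Φ (Set.Ici 0)) (β v q L : ℝ) (hβ : 0 ≤ β) (hq : 0 < q) (hL : 0 ≤ L)
    (hE : ∀ C : Finset (Fin k), 0 < PW p W C →
      0 ≤ β * Real.log (q ^ C.card / PW p W C) + C.card * L)
    (H : ∀ C : Finset (Fin k), 0 < PW p W C → C.card < k →
      ∑ i ∈ univ \ C, PW p W (insert i C) ≤ ((k : ℝ) - C.card) * PW p W C *
        (v + Φ ((β * Real.log (q ^ C.card / PW p W C) + C.card * L) / ((k : ℝ) - C.card))))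
    (j : ℕ) (hj : j < k) (hs : 0 < av p W j) :
    0 ≤ (β * Real.log (q ^ j / av p W j) + j * L) / ((k : ℝ) - j) ∧
    av p W (j + 1) ≤ av p W j *
      (v + Φ ((β * Real.log (q ^ j / av p W j) + j * L) / ((k : ℝ) - j))) := by
  classical
  have hck : (0 : ℝ) < (k.choose j : ℝ) := choose_pos' hj.le
  have hkj : (0 : ℝ) < (k : ℝ) - j := by
    have : (j : ℝ) < (k : ℝ) := by exact_mod_cast hj
    linarith
  set S : ℝ := ∑ C ∈ powersetCard j univ, PW p W C with hS
  have hSs : S = av p W j * (k.choose j : ℝ) := by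
    unfold av
    rw [← hS]
    field_simp
  have hSpos : 0 < S := by rw [hSs]; positivity
  let ε : Finset (Fin k) → ℝ := fun C =>
    (β * Real.log (q ^ j / PW p W C) + j * L) / ((k : ℝ) - j)
  have hεnn : ∀ C ∈ powersetCard j (univ : Finset (Fin k)), 0 ≤ ε C := by
    intro C hC
    rw [mem_powersetCard] at hC
    rcases (PW_nonneg p W hp C).lt_or_eq with h | h
    · have := hE C h
      rw [hC.2] at this
      exact div_nonneg this hkj.le
    · simp only [ε, ← h, div_zero, Real.log_zero, mul_zero, zero_add]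
      positivity
  -- the sum of the inequalities
  have h1 : ((j : ℝ) + 1) * ∑ C ∈ powersetCard (j + 1) univ, PW p W C
      ≤ ((k : ℝ) - j) * (v * S + ∑ C ∈ powersetCard j univ, PW p W C * Φ (ε C)) := by
    rw [← sum_insert_PW, hS, mul_sum, ← sum_add_distrib, mul_sum]
    refine sum_le_sum (fun C hC => ?_)
    have hC' := (mem_powersetCard.mp hC).2
    rcases (PW_nonneg p W hp C).lt_or_eq with h | h
    · have := H C h (by omega)
      rw [hC'] at this
      refine this.trans (le_of_eq ?_)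
      simp only [ε]
      ring
    · rw [← h]
      have : ∑ i ∈ univ \ C, PW p W (insert i C) ≤ 0 := by
        refine sum_nonpos (fun i _ => ?_)
        rw [h]
        exact PW_mono p W hp (subset_insert i C)
      simpa using this
  -- Jensen for Φ
  have h2 : ∑ C ∈ powersetCard j univ, (PW p W C / S) • Φ (ε C)
      ≤ Φ (∑ C ∈ powersetCard j univ, (PW p W C / S) • ε C) := by
    refine hΦ.le_map_sum (fun C _ => div_nonneg (PW_nonneg p W hp C) hSpos.le) ?_
      (fun C hC => hεnn C hC)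
    rw [← sum_div, ← hS, div_self hSpos.ne']
  -- Jensen for x log x
  have h3 : av p W j * Real.log (av p W j) * (k.choose j : ℝ)
      ≤ ∑ C ∈ powersetCard j univ, PW p W C * Real.log (PW p W C) := by
    have hc := Real.convexOn_mul_log.map_sum_le (t := powersetCard j (univ : Finset (Fin k)))
      (w := fun _ => (1 / (k.choose j : ℝ))) (p := fun C => PW p W C)
      (fun C _ => by positivity) (by
        rw [sum_const, card_powersetCard, card_univ, Fintype.card_fin, nsmul_eq_mul]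
        field_simp) (fun C _ => PW_nonneg p W hp C)
    simp only [smul_eq_mul] at hc
    rw [← mul_sum, ← mul_sum, ← hS] at hc
    have e : 1 / (k.choose j : ℝ) * S = av p W j := by
      rw [hSs]; field_simp
    rw [e] at hc
    have := mul_le_mul_of_nonneg_right hc hck.le
    refine this.trans (le_of_eq ?_)
    field_simp
  -- the average of ε
  have h4 : ∑ C ∈ powersetCard j univ, (PW p W C / S) • ε C
      ≤ (β * Real.log (q ^ j / av p W j) + j * L) / ((k : ℝ) - j) := by
    have e1 : ∀ C ∈ powersetCard j (univ : Finset (Fin k)), (PW p W C / S) • ε C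
        = ((β * (j * Real.log q) + j * L) * PW p W C
            - β * (PW p W C * Real.log (PW p W C))) / (S * ((k : ℝ) - j)) := by
      intro C _
      rcases (PW_nonneg p W hp C).lt_or_eq with h | h
      · simp only [ε, smul_eq_mul]
        rw [Real.log_div (by positivity) h.ne', Real.log_pow]
        field_simp
        ring
      · simp [← h]
    rw [sum_congr rfl e1, ← sum_div, sum_sub_distrib, ← mul_sum, ← mul_sum, ← hS]
    rw [Real.log_div (by positivity) hs.ne', Real.log_pow]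
    rw [div_le_div_iff₀ (by positivity) hkj]
    have h5 : Real.log (av p W j) * S ≤ ∑ C ∈ powersetCard j univ, PW p W C * Real.log (PW p W C) := by
      refine le_trans (le_of_eq ?_) h3
      rw [hSs]; ring
    have h5' := mul_le_mul_of_nonneg_left h5 hβ
    have h5'' := mul_le_mul_of_nonneg_right h5' hkj.le
    nlinarith
  have h0 : 0 ≤ ∑ C ∈ powersetCard j univ, (PW p W C / S) • ε C :=
    sum_nonneg (fun C hC => mul_nonneg (div_nonneg (PW_nonneg p W hp C) hSpos.le) (hεnn C hC))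
  refine ⟨h0.trans h4, ?_⟩
  have h6 := h2.trans (hΦm h0 (h0.trans h4) h4)
  have h7 : ∑ C ∈ powersetCard j univ, PW p W C * Φ (ε C)
      ≤ S * Φ ((β * Real.log (q ^ j / av p W j) + j * L) / ((k : ℝ) - j)) := by
    have : ∑ C ∈ powersetCard j univ, (PW p W C / S) • Φ (ε C)
        = (∑ C ∈ powersetCard j univ, PW p W C * Φ (ε C)) / S := by
      rw [sum_div]
      refine sum_congr rfl (fun C _ => ?_)
      simp only [smul_eq_mul]
      ring
    rw [this, div_le_iff₀ hSpos] at h6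
    linarith
  have h8 : av p W (j + 1) * ((k.choose j : ℝ) * ((k : ℝ) - j))
      = ((j : ℝ) + 1) * ∑ C ∈ powersetCard (j + 1) univ, PW p W C := by
    have hck1 : (0 : ℝ) < (k.choose (j + 1) : ℝ) := choose_pos' hj
    rw [← choose_rec hj]
    unfold av
    field_simp
  have h9 : av p W (j + 1) * ((k.choose j : ℝ) * ((k : ℝ) - j)) ≤
      (av p W j * (v + Φ ((β * Real.log (q ^ j / av p W j) + j * L) / ((k : ℝ) - j))))
        * ((k.choose j : ℝ) * ((k : ℝ) - j)) := by
    rw [h8]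
    refine h1.trans ?_
    calc ((k : ℝ) - j) * (v * S + ∑ C ∈ powersetCard j univ, PW p W C * Φ (ε C))
        ≤ ((k : ℝ) - j) * (v * S +
          S * Φ ((β * Real.log (q ^ j / av p W j) + j * L) / ((k : ℝ) - j))) := by
          refine mul_le_mul_of_nonneg_left ?_ hkj.le
          linarith
      _ = _ := by rw [hSs]; ring
  exact le_of_mul_le_mul_right h9 (by positivity)

/-- The threshold theorem. -/
theorem threshold (hp : ∀ ω, 0 ≤ p ω) (hp1 : ∑ ω, p ω = 1)
    (Φ : ℝ → ℝ) (hΦ : ConcaveOn ℝ (Set.Ici 0) Φ)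
    (hΦm : MonotoneOn Φ (Set.Ici 0)) (β v q L δ : ℝ) (hβ : 0 ≤ β) (hv : 0 ≤ v) (hδ : 0 < δ)
    (hvδ : δ < 1 - v) (hq : 0 < q) (hL : 0 ≤ L) (hqv : q ≤ v * Real.exp L)
    (hE : ∀ C : Finset (Fin k), 0 < PW p W C →
      0 ≤ β * Real.log (q ^ C.card / PW p W C) + C.card * L)
    (H : ∀ C : Finset (Fin k), 0 < PW p W C → C.card < k →
      ∑ i ∈ univ \ C, PW p W (insert i C) ≤ ((k : ℝ) - C.card) * PW p W C *
        (v + Φ ((β * Real.log (q ^ C.card / PW p W C) + C.card * L) / ((k : ℝ) - C.card))))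
    (m : ℕ) (hm : (m : ℝ) ≤ δ * k / 4) (hm1 : 1 ≤ m)
    (hmΦ : Φ ((β * (δ * m / 4) + (β + 1) * ((m : ℝ) - 1) * L) / ((k : ℝ) - ((m : ℝ) - 1))) ≤ δ / 2) :
    (∑ ω, if (v + δ) * (k : ℝ) ≤ ((W ω).card : ℝ) then p ω else 0)
      ≤ Real.exp (-(δ * m / 4)) := by
  set a : ℝ := ∑ ω, if (v + δ) * (k : ℝ) ≤ ((W ω).card : ℝ) then p ω else 0 with ha
  by_contra hcon
  push Not at hcon
  have hapos : 0 < a := lt_trans (Real.exp_pos _) hcon
  have hloga : -Real.log a ≤ δ * m / 4 := by
    have := Real.log_lt_log (Real.exp_pos _) hcon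
    rw [Real.log_exp] at this
    linarith
  have hkpos : (0 : ℝ) ≤ (k : ℝ) := Nat.cast_nonneg k
  have hm1' : (1 : ℝ) ≤ (m : ℝ) := by exact_mod_cast hm1
  have hmk' : (m : ℝ) ≤ (k : ℝ) / 4 := by nlinarith
  have hmk : m ≤ k := by
    have : (m : ℝ) ≤ (k : ℝ) := by linarith
    exact_mod_cast this
  have hb : 0 < v + 3 * δ / 4 := by positivity
  have hlow : ∀ j : ℕ, j ≤ m → a * (v + 3 * δ / 4) ^ j ≤ av p W j := fun j hj =>
    av_lower p W hp v δ hv hδ a ha m hm j hj hmk
  have hspos : ∀ j : ℕ, j ≤ m → 0 < av p W j := fun j hj =>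
    lt_of_lt_of_le (by positivity) (hlow j hj)
  have hstep : ∀ j : ℕ, j < m → av p W (j + 1) ≤ av p W j * (v + δ / 2) := by
    intro j hj
    have hjk : j < k := by omega
    obtain ⟨h1, h2⟩ := av_step p W hp Φ hΦ hΦm β v q L hβ hq hL hE H j hjk (hspos j hj.le)
    refine h2.trans (mul_le_mul_of_nonneg_left ?_ (hspos j hj.le).le)
    have hjm : (j : ℝ) ≤ (m : ℝ) - 1 := by
      have : (j : ℝ) + 1 ≤ (m : ℝ) := by exact_mod_cast hj
      linarith
    have hj0 : (0 : ℝ) ≤ (j : ℝ) := Nat.cast_nonneg j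
    have hlog : Real.log (q ^ j / av p W j) ≤ δ * m / 4 + j * L := by
      have e1 : q ^ j / av p W j ≤ (Real.exp L) ^ j / a := by
        rw [div_le_div_iff₀ (hspos j hj.le) hapos]
        calc q ^ j * a ≤ ((v + 3 * δ / 4) * Real.exp L) ^ j * a := by
              refine mul_le_mul_of_nonneg_right ?_ hapos.le
              refine pow_le_pow_left₀ hq.le ?_ j
              refine hqv.trans (mul_le_mul_of_nonneg_right ?_ (Real.exp_pos _).le)
              linarith
          _ = Real.exp L ^ j * (a * (v + 3 * δ / 4) ^ j) := by rw [mul_pow]; ring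
          _ ≤ Real.exp L ^ j * av p W j :=
              mul_le_mul_of_nonneg_left (hlow j hj.le) (by positivity)
      have e2 := Real.log_le_log (div_pos (pow_pos hq j) (hspos j hj.le)) e1
      rw [Real.log_div (by positivity) hapos.ne', Real.log_pow, Real.log_exp] at e2
      linarith
    have hkj : (0 : ℝ) < (k : ℝ) - j := by linarith
    have hkm : (0 : ℝ) < (k : ℝ) - ((m : ℝ) - 1) := by linarith
    have harg : (β * Real.log (q ^ j / av p W j) + j * L) / ((k : ℝ) - j)
        ≤ (β * (δ * m / 4) + (β + 1) * ((m : ℝ) - 1) * L) / ((k : ℝ) - ((m : ℝ) - 1)) := by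
      have hnum : β * Real.log (q ^ j / av p W j) + j * L
          ≤ β * (δ * m / 4) + (β + 1) * ((m : ℝ) - 1) * L := by
        have e3 := mul_le_mul_of_nonneg_left hlog hβ
        have e4 := mul_le_mul_of_nonneg_left (mul_le_mul_of_nonneg_right hjm hL)
          (by linarith : (0 : ℝ) ≤ β + 1)
        linarith
      have hnum0 : 0 ≤ β * (δ * m / 4) + (β + 1) * ((m : ℝ) - 1) * L := by
        have : 0 ≤ (m : ℝ) - 1 := by linarith
        positivity
      exact div_le_div₀ hnum0 hnum hkm (by linarith)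
    have := hΦm h1 (h1.trans harg) harg
    linarith
  have hup : ∀ j : ℕ, j ≤ m → av p W j ≤ (v + δ / 2) ^ j := by
    intro j
    induction j with
    | zero => intro _; rw [av_zero p W hp1]; simp
    | succ j ih =>
      intro hj
      refine (hstep j (by omega)).trans ?_
      rw [pow_succ]
      exact mul_le_mul_of_nonneg_right (ih (by omega)) (by positivity)
  have h1 := (hlow m le_rfl).trans (hup m le_rfl)
  have h2 : (v + δ / 2) ≤ (v + 3 * δ / 4) * Real.exp (-(δ / 4)) := by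
    have h3 : 1 - δ / 4 ≤ Real.exp (-(δ / 4)) := by
      have := Real.add_one_le_exp (-(δ / 4))
      linarith
    have h4 : (v + 3 * δ / 4) * (1 - δ / 4) ≤ (v + 3 * δ / 4) * Real.exp (-(δ / 4)) :=
      mul_le_mul_of_nonneg_left h3 hb.le
    nlinarith
  have h3 : (v + δ / 2) ^ m ≤ (v + 3 * δ / 4) ^ m * Real.exp (-(δ * m / 4)) := by
    calc (v + δ / 2) ^ m ≤ ((v + 3 * δ / 4) * Real.exp (-(δ / 4))) ^ m :=
          pow_le_pow_left₀ (by positivity) h2 m
      _ = (v + 3 * δ / 4) ^ m * Real.exp (-(δ * m / 4)) := by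
          rw [mul_pow, ← Real.exp_nat_mul]
          congr 2
          ring
  have h4 : a * (v + 3 * δ / 4) ^ m ≤ Real.exp (-(δ * m / 4)) * (v + 3 * δ / 4) ^ m := by
    linarith
  have h5 := le_of_mul_le_mul_right h4 (by positivity)
  exact absurd hcon (not_lt.mpr h5)

/-- Markov's inequality for the number of wins. -/
lemma markov (hp : ∀ ω, 0 ≤ p ω) (hk : 1 ≤ k) (v δ : ℝ) (hv : 0 ≤ v) (hδ : 0 < δ)
    (hvδ : δ < 1 - v) (h1 : ∀ i : Fin k, PW p W {i} ≤ v) :
    (∑ ω, if (v + δ) * (k : ℝ) ≤ ((W ω).card : ℝ) then p ω else 0) ≤ Real.exp (-δ) := by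
  have hkpos : (0 : ℝ) < (k : ℝ) := by exact_mod_cast hk
  have e1 : ∑ i : Fin k, PW p W {i} = ∑ ω, p ω * ((W ω).card : ℝ) := by
    unfold PW
    rw [sum_comm]
    refine sum_congr rfl (fun ω _ => ?_)
    rw [← sum_filter, sum_const, nsmul_eq_mul, mul_comm]
    congr 2
    simp
  have e2 : ∑ ω, p ω * ((W ω).card : ℝ) ≤ k * v := by
    rw [← e1]
    refine (sum_le_sum (fun i _ => h1 i)).trans ?_
    simp
  have e3 : (v + δ) * (k : ℝ) * (∑ ω, if (v + δ) * (k : ℝ) ≤ ((W ω).card : ℝ) then p ω else 0)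
      ≤ ∑ ω, p ω * ((W ω).card : ℝ) := by
    rw [mul_sum]
    refine sum_le_sum (fun ω _ => ?_)
    by_cases hω : (v + δ) * (k : ℝ) ≤ ((W ω).card : ℝ)
    · rw [if_pos hω]
      nlinarith [hp ω]
    · rw [if_neg hω, mul_zero]
      exact mul_nonneg (hp ω) (Nat.cast_nonneg _)
  have e4 : (v + δ) * (∑ ω, if (v + δ) * (k : ℝ) ≤ ((W ω).card : ℝ) then p ω else 0) ≤ v := by
    have := e3.trans e2
    have h : k * ((v + δ) * (∑ ω, if (v + δ) * (k : ℝ) ≤ ((W ω).card : ℝ) then p ω else 0))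
        ≤ k * v := by linarith
    exact le_of_mul_le_mul_left h hkpos
  have h3 : 1 - δ ≤ Real.exp (-δ) := by
    have := Real.add_one_le_exp (-δ)
    linarith
  refine le_trans ?_ h3
  have hvd : 0 < v + δ := by positivity
  have : (v + δ) * (∑ ω, if (v + δ) * (k : ℝ) ≤ ((W ω).card : ℝ) then p ω else 0)
      ≤ (v + δ) * (1 - δ) := by
    refine e4.trans ?_
    nlinarith
  exact le_of_mul_le_mul_left this hvd

/-- The version for S0537. -/
theorem cor537 (hp : ∀ ω, 0 ≤ p ω) (hp1 : ∑ ω, p ω = 1) (hk : 1 ≤ k)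
    (v q L δ κ c : ℝ) (hv : 0 ≤ v) (hδ : 0 < δ)
    (hvδ : δ < 1 - v) (hq : 0 < q) (hL : 0 ≤ L) (hqv : q ≤ v * Real.exp L) (hκ : 0 ≤ κ)
    (hc : 0 ≤ c) (hc2 : c ^ 2 ≤ 255 * (1 + κ))
    (h1 : ∀ i : Fin k, PW p W {i} ≤ v)
    (hE : ∀ C : Finset (Fin k), 0 < PW p W C →
      0 ≤ 3 * Real.log (q ^ C.card / PW p W C) + C.card * L)
    (H : ∀ C : Finset (Fin k), 0 < PW p W C → C.card < k →
      ∑ i ∈ univ \ C, PW p W (insert i C) ≤ ((k : ℝ) - C.card) * PW p W C *
        (v + c * √((3 * Real.log (q ^ C.card / PW p W C) + C.card * L) / ((k : ℝ) - C.card)))) :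
    (∑ ω, if (v + δ) * (k : ℝ) ≤ ((W ω).card : ℝ) then p ω else 0)
      ≤ Real.exp (-(δ ^ 3 / (16384 * (1 + κ) * (1 + L)) * k)) := by
  have hkpos : (0 : ℝ) < (k : ℝ) := by exact_mod_cast hk
  have hδ1 : δ ≤ 1 := by linarith
  set D : ℝ := δ ^ 2 * k / (4096 * (1 + κ) * (1 + L)) with hD
  have hden : 0 < 4096 * (1 + κ) * (1 + L) := by positivity
  have hDeq : D * (4096 * (1 + κ) * (1 + L)) = δ ^ 2 * k := by
    rw [hD]; field_simp
  have hDpos : 0 < D := by rw [hD]; positivity
  have htarget : δ ^ 3 / (16384 * (1 + κ) * (1 + L)) * k = δ * D / 4 := by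
    rw [hD]; field_simp; ring
  rw [htarget]
  rcases le_or_gt D 2 with hD2 | hD2
  · refine (markov p W hp hk v δ hv hδ hvδ h1).trans ?_
    rw [Real.exp_le_exp]
    nlinarith
  · set m : ℕ := ⌈D⌉₊ with hm
    have hmD : D ≤ (m : ℝ) := Nat.le_ceil D
    have hmD' : (m : ℝ) < D + 1 := Nat.ceil_lt_add_one hDpos.le
    have hm1 : 1 ≤ m := by
      have : (0 : ℝ) < (m : ℝ) := by linarith
      have : 0 < m := by exact_mod_cast this
      exact this
    have hDk : D ≤ δ ^ 2 * k / 4096 := by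
      rw [hD]
      apply div_le_div_of_nonneg_left (by positivity) (by norm_num)
      nlinarith [mul_nonneg hκ hL]
    have hDk' : D ≤ δ * k / 4096 := by
      refine hDk.trans ?_
      have : δ ^ 2 * k ≤ δ * k := by
        have : δ ^ 2 ≤ δ := by nlinarith
        exact mul_le_mul_of_nonneg_right this hkpos.le
      linarith
    have hDk'' : D ≤ k / 4096 := by
      refine hDk'.trans ?_
      have : δ * k ≤ 1 * k := mul_le_mul_of_nonneg_right hδ1 hkpos.le
      linarith
    have hmk : (m : ℝ) ≤ δ * k / 4 := by linarith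
    refine (threshold p W hp hp1 (fun ε => c * √ε) ?_ ?_ 3 v q L δ (by norm_num) hv hδ hvδ hq hL hqv
      hE H m hmk hm1 ?_).trans ?_
    · exact (Real.strictConcaveOn_sqrt.concaveOn).smul hc
    · intro a _ b _ hab
      exact mul_le_mul_of_nonneg_left (Real.sqrt_le_sqrt hab) hc
    · set A : ℝ := (3 * (δ * m / 4) + (3 + 1) * ((m : ℝ) - 1) * L) / ((k : ℝ) - ((m : ℝ) - 1)) with hA
      have hkm : 0 < (k : ℝ) - ((m : ℝ) - 1) := by linarith
      have hm1' : (1 : ℝ) ≤ (m : ℝ) := by exact_mod_cast hm1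
      have hA1 : A * (4095 * (1 + κ)) ≤ 4 * δ ^ 2 := by
        rw [hA, div_mul_eq_mul_div, div_le_iff₀ hkm]
        have e1 : 3 * (δ * m / 4) + (3 + 1) * ((m : ℝ) - 1) * L ≤ 4 * D * (1 + L) := by
          have : ((m : ℝ) - 1) * L ≤ D * L := mul_le_mul_of_nonneg_right (by linarith) hL
          have : δ * m ≤ 1 * m := mul_le_mul_of_nonneg_right hδ1 (by linarith)
          nlinarith
        have e2 : (3 * (δ * m / 4) + (3 + 1) * ((m : ℝ) - 1) * L) * (4095 * (1 + κ))
            ≤ 4 * D * (1 + L) * (4095 * (1 + κ)) :=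
          mul_le_mul_of_nonneg_right e1 (by positivity)
        have e3 : 4 * D * (1 + L) * (4095 * (1 + κ)) = 4095 / 4096 * 4 * (δ ^ 2 * k) := by
          rw [← hDeq]; ring
        have e4 : 4095 / 4096 * (k : ℝ) ≤ (k : ℝ) - ((m : ℝ) - 1) := by linarith
        have e5 : 4 * δ ^ 2 * (4095 / 4096 * (k : ℝ)) ≤ 4 * δ ^ 2 * ((k : ℝ) - ((m : ℝ) - 1)) :=
          mul_le_mul_of_nonneg_left e4 (by positivity)
        linarith
      have hA0 : 0 ≤ A := by
        rw [hA]
        have : 0 ≤ (m : ℝ) - 1 := by linarith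
        positivity
      have hcA : c ^ 2 * A ≤ (δ / 2) ^ 2 := by
        have e1 : c ^ 2 * A ≤ 255 * (1 + κ) * A := mul_le_mul_of_nonneg_right hc2 hA0
        nlinarith [sq_nonneg δ]
      calc c * √A = √(c ^ 2 * A) := by
            rw [Real.sqrt_mul (by positivity), Real.sqrt_sq hc]
        _ ≤ √((δ / 2) ^ 2) := Real.sqrt_le_sqrt hcA
        _ = δ / 2 := Real.sqrt_sq (by positivity)
    · rw [Real.exp_le_exp]
      nlinarith

/-- The version for S0536 (fourth root error). -/
theorem cor536 (hp : ∀ ω, 0 ≤ p ω) (hp1 : ∑ ω, p ω = 1) (hk : 1 ≤ k)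
    (v q L δ c A : ℝ) (hv : 0 ≤ v) (hδ : 0 < δ)
    (hvδ : δ < 1 - v) (hq : 0 < q) (hL : 0 ≤ L) (hqv : q ≤ v * Real.exp L)
    (hc : 0 ≤ c) (hA1 : 64 ≤ A) (hA2 : 256 * c ^ 4 ≤ A)
    (h1 : ∀ i : Fin k, PW p W {i} ≤ v)
    (hE : ∀ C : Finset (Fin k), 0 < PW p W C →
      0 ≤ 3 * Real.log (q ^ C.card / PW p W C) + C.card * L)
    (H : ∀ C : Finset (Fin k), 0 < PW p W C → C.card < k →
      ∑ i ∈ univ \ C, PW p W (insert i C) ≤ ((k : ℝ) - C.card) * PW p W C *
        (v + c * √(√((3 * Real.log (q ^ C.card / PW p W C) + C.card * L) / ((k : ℝ) - C.card))))) :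
    (∑ ω, if (v + δ) * (k : ℝ) ≤ ((W ω).card : ℝ) then p ω else 0)
      ≤ Real.exp (-(1 / (4 * A) * δ ^ 5 / (1 + L) * k)) := by
  have hkpos : (0 : ℝ) < (k : ℝ) := by exact_mod_cast hk
  have hδ1 : δ ≤ 1 := by linarith
  have hApos : 0 < A := by linarith
  set D : ℝ := δ ^ 4 * k / (A * (1 + L)) with hD
  have hden : 0 < A * (1 + L) := by positivity
  have hDeq : D * (A * (1 + L)) = δ ^ 4 * k := by
    rw [hD]; field_simp
  have hDpos : 0 < D := by rw [hD]; positivity
  have htarget : 1 / (4 * A) * δ ^ 5 / (1 + L) * k = δ * D / 4 := by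
    rw [hD]; field_simp
  rw [htarget]
  rcases le_or_gt D 2 with hD2 | hD2
  · refine (markov p W hp hk v δ hv hδ hvδ h1).trans ?_
    rw [Real.exp_le_exp]
    nlinarith
  · set m : ℕ := ⌈D⌉₊ with hm
    have hmD : D ≤ (m : ℝ) := Nat.le_ceil D
    have hmD' : (m : ℝ) < D + 1 := Nat.ceil_lt_add_one hDpos.le
    have hm1 : 1 ≤ m := by
      have : (0 : ℝ) < (m : ℝ) := by linarith
      have : 0 < m := by exact_mod_cast this
      exact this
    have hδ4 : δ ^ 4 ≤ δ := by
      calc δ ^ 4 ≤ δ ^ 1 := pow_le_pow_of_le_one hδ.le hδ1 (by norm_num)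
        _ = δ := pow_one δ
    have hDk : D ≤ δ ^ 4 * k / 64 := by
      rw [hD]
      apply div_le_div_of_nonneg_left (by positivity) (by norm_num)
      nlinarith
    have hDk' : D ≤ δ * k / 64 := by
      refine hDk.trans ?_
      have : δ ^ 4 * k ≤ δ * k := mul_le_mul_of_nonneg_right hδ4 hkpos.le
      linarith
    have hDk'' : D ≤ k / 64 := by
      refine hDk'.trans ?_
      have : δ * k ≤ 1 * k := mul_le_mul_of_nonneg_right hδ1 hkpos.le
      linarith
    have hmk : (m : ℝ) ≤ δ * k / 4 := by linarith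
    refine (threshold p W hp hp1 (fun ε => c * √(√ε)) ?_ ?_ 3 v q L δ (by norm_num) hv hδ hvδ hq hL
      hqv hE H m hmk hm1 ?_).trans ?_
    · refine ConcaveOn.smul hc ?_
      refine ⟨convex_Ici 0, ?_⟩
      intro x hx y hy a b ha hb hab
      have s1 := Real.strictConcaveOn_sqrt.concaveOn.2 hx hy ha hb hab
      have s2 := Real.strictConcaveOn_sqrt.concaveOn.2 (Real.sqrt_nonneg x) (Real.sqrt_nonneg y)
        ha hb hab
      exact s2.trans (Real.sqrt_le_sqrt s1)
    · intro a _ b _ hab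
      exact mul_le_mul_of_nonneg_left (Real.sqrt_le_sqrt (Real.sqrt_le_sqrt hab)) hc
    · set B : ℝ := (3 * (δ * m / 4) + (3 + 1) * ((m : ℝ) - 1) * L) / ((k : ℝ) - ((m : ℝ) - 1)) with hB
      have hkm : 0 < (k : ℝ) - ((m : ℝ) - 1) := by linarith
      have hm1' : (1 : ℝ) ≤ (m : ℝ) := by exact_mod_cast hm1
      have hB1 : B * A ≤ 8 * δ ^ 4 := by
        rw [hB, div_mul_eq_mul_div, div_le_iff₀ hkm]
        have e1 : 3 * (δ * m / 4) + (3 + 1) * ((m : ℝ) - 1) * L ≤ 4 * D * (1 + L) := by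
          have : ((m : ℝ) - 1) * L ≤ D * L := mul_le_mul_of_nonneg_right (by linarith) hL
          have : δ * m ≤ 1 * m := mul_le_mul_of_nonneg_right hδ1 (by linarith)
          nlinarith
        have e2 : (3 * (δ * m / 4) + (3 + 1) * ((m : ℝ) - 1) * L) * A
            ≤ 4 * D * (1 + L) * A :=
          mul_le_mul_of_nonneg_right e1 hApos.le
        have e3 : 4 * D * (1 + L) * A = 4 * (δ ^ 4 * k) := by
          rw [← hDeq]; ring
        have e4 : 1 / 2 * (k : ℝ) ≤ (k : ℝ) - ((m : ℝ) - 1) := by linarith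
        have e5 : 8 * δ ^ 4 * (1 / 2 * (k : ℝ)) ≤ 8 * δ ^ 4 * ((k : ℝ) - ((m : ℝ) - 1)) :=
          mul_le_mul_of_nonneg_left e4 (by positivity)
        linarith
      have hB0 : 0 ≤ B := by
        rw [hB]
        have : 0 ≤ (m : ℝ) - 1 := by linarith
        positivity
      have hcB : c ^ 4 * B ≤ (δ / 2) ^ 4 := by
        have e1 : 256 * c ^ 4 * B ≤ A * B := mul_le_mul_of_nonneg_right hA2 hB0
        nlinarith [sq_nonneg δ]
      have hfin : (c * √(√B)) ^ 4 ≤ (δ / 2) ^ 4 := by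
        have : (c * √(√B)) ^ 4 = c ^ 4 * B := by
          rw [mul_pow]
          congr 1
          calc (√(√B)) ^ 4 = ((√(√B)) ^ 2) ^ 2 := by ring
            _ = B := by rw [Real.sq_sqrt (Real.sqrt_nonneg B), Real.sq_sqrt hB0]
        rw [this]
        exact hcB
      exact le_of_pow_le_pow_left₀ (by norm_num) (by positivity) hfin
    · rw [Real.exp_le_exp]
      nlinarith

end

end Crest.H6PR
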