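import Mathlib
import Crest.Prelude.Def_NonlocalGame
import Crest.Agent.H6PRThreshold
import Crest.Agent.H26OneShot

/-!
# From strategies to the abstract threshold theorem (rid 342)
-/

set_option autoImplicit false

namespace Crest.H6PR

open Crest.MathPhysics.NonlocalGame Crest.H26OneShot Finset
open scoped Kronecker ComplexOrder

/-- outcomes of `k` repetitions: questions and answers -/
abbrev Out (G : Game) (k : ℕ) :=
  (Fin k → Fin G.nX) × (Fin k → Fin G.nY) × (Fin k → Fin G.nA) × (Fin k → Fin G.nB)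

variable {G : Game} {k dA dB : ℕ}

/-- the probability of an outcome -/
noncomputable def pS (S : Strategy G k dA dB) (ω : Out G k) : ℝ :=
  (∏ i, G.prob (ω.1 i) (ω.2.1 i)) * S.answerProb ω.1 ω.2.1 ω.2.2.1 ω.2.2.2

/-- the set of won coordinates -/
def WS (G : Game) (k : ℕ) (ω : Out G k) : Finset (Fin k) :=
  univ.filter fun i => G.accept (ω.1 i) (ω.2.1 i) (ω.2.2.1 i) (ω.2.2.2 i) = true

/-- the probability of winning all the coordinates of `C` -/
noncomputable def PS (S : Strategy G k dA dB) (C : Finset (Fin k)) : ℝ := PW (pS S) (WS G k) C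

open Classical in
/-- the probability that the question pair has an accepted answer pair -/
noncomputable def qG (G : Game) : ℝ :=
  ∑ x, ∑ y, if (∃ a b, G.accept x y a b = true) then G.prob x y else 0

lemma answerProb_nonneg (S : Strategy G k dA dB) (x : Fin k → Fin G.nX) (y : Fin k → Fin G.nY)
    (a : Fin k → Fin G.nA) (b : Fin k → Fin G.nB) : 0 ≤ S.answerProb x y a b :=
  bra_nonneg S.ψ (S.M_posSemidef x a) (S.N_posSemidef y b)

lemma pS_nonneg (S : Strategy G k dA dB) (ω : Out G k) : 0 ≤ pS S ω :=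
  mul_nonneg (prod_nonneg fun _ _ => G.prob_nonneg _ _) (answerProb_nonneg S _ _ _ _)

lemma sum_out {M : Type*} [AddCommMonoid M] (f : Out G k → M) :
    ∑ ω, f ω = ∑ x, ∑ y, ∑ a, ∑ b, f (x, y, a, b) := by
  rw [Fintype.sum_prod_type]
  refine sum_congr rfl fun x _ => ?_
  rw [Fintype.sum_prod_type]
  refine sum_congr rfl fun y _ => ?_
  rw [Fintype.sum_prod_type]

lemma probWins_eq (S : Strategy G k dA dB) (t : ℝ) :
    S.probWinsAtLeast t = ∑ ω, if t ≤ ((WS G k ω).card : ℝ) then pS S ω else 0 := by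
  rw [sum_out]
  unfold Strategy.probWinsAtLeast
  refine sum_congr rfl fun x _ => sum_congr rfl fun y _ => ?_
  rw [mul_sum]
  refine sum_congr rfl fun a _ => ?_
  rw [mul_sum]
  refine sum_congr rfl fun b _ => ?_
  by_cases h : t ≤ (wins G k x y a b : ℝ)
  · have h' : t ≤ ((WS G k (x, y, a, b)).card : ℝ) := h
    rw [if_pos h, if_pos h']
    rfl
  · have h' : ¬ t ≤ ((WS G k (x, y, a, b)).card : ℝ) := h
    rw [if_neg h, if_neg h', mul_zero]

lemma PS_eq (S : Strategy G k dA dB) (C : Finset (Fin k)) :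
    PS S C = ∑ x, ∑ y, (∏ i, G.prob (x i) (y i)) *
      ∑ a, ∑ b, if (∀ i ∈ C, G.accept (x i) (y i) (a i) (b i) = true) then
        S.answerProb x y a b else 0 := by
  unfold PS PW
  rw [sum_out]
  refine sum_congr rfl fun x _ => sum_congr rfl fun y _ => ?_
  rw [mul_sum]
  refine sum_congr rfl fun a _ => ?_
  rw [mul_sum]
  refine sum_congr rfl fun b _ => ?_
  have : C ⊆ WS G k (x, y, a, b) ↔ ∀ i ∈ C, G.accept (x i) (y i) (a i) (b i) = true := by
    unfold WS
    constructor
    · intro h i hi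
      simpa using h hi
    · intro h i hi
      simpa using h i hi
  simp only [pS, this]
  split_ifs <;> simp

lemma bra_sum_left {α β γ : Type*} [Fintype α] [Fintype β] (s : Finset γ)
    (ψ : α × β → ℂ) (A : γ → Matrix α α ℂ) (B : Matrix β β ℂ) :
    bra ψ (∑ c ∈ s, A c) B = ∑ c ∈ s, bra ψ (A c) B := by
  classical
  induction s using Finset.induction_on with
  | empty => simp [bra]
  | insert c s hc ih => rw [sum_insert hc, sum_insert hc, bra_add_left, ih]

lemma bra_sum_right {α β γ : Type*} [Fintype α] [Fintype β] (s : Finset γ)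
    (ψ : α × β → ℂ) (A : Matrix α α ℂ) (B : γ → Matrix β β ℂ) :
    bra ψ A (∑ c ∈ s, B c) = ∑ c ∈ s, bra ψ A (B c) := by
  classical
  induction s using Finset.induction_on with
  | empty => simp [bra]
  | insert c s hc ih => rw [sum_insert hc, sum_insert hc, bra_add_right, ih]

lemma bra_one_one {α β : Type*} [Fintype α] [Fintype β] [DecidableEq α] [DecidableEq β]
    (ψ : α × β → ℂ) : bra ψ 1 1 = ∑ i, ‖ψ i‖ ^ 2 := by
  unfold bra
  rw [Matrix.one_kronecker_one, Matrix.one_mulVec]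
  unfold dotProduct
  rw [Complex.re_sum]
  refine sum_congr rfl fun i _ => ?_
  rw [Pi.star_apply, Complex.star_def, Complex.conj_mul']
  norm_cast

lemma answerProb_sum (S : Strategy G k dA dB) (x : Fin k → Fin G.nX) (y : Fin k → Fin G.nY) :
    ∑ a, ∑ b, S.answerProb x y a b = 1 := by
  have h1 : ∀ a b, S.answerProb x y a b = bra S.ψ (S.M x a) (S.N y b) := fun _ _ => rfl
  simp only [h1, ← bra_sum_right, S.N_sum, ← bra_sum_left, S.M_sum, bra_one_one, S.ψ_norm]

/-- sums of products -/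
lemma sum_sum_prod {X Y : Type*} [Fintype X] [Fintype Y] (g : Fin k → X → Y → ℝ) :
    ∑ x : Fin k → X, ∑ y : Fin k → Y, ∏ i, g i (x i) (y i) = ∏ i, ∑ a, ∑ b, g i a b := by
  rw [Fintype.prod_sum]
  refine sum_congr rfl fun x _ => ?_
  rw [Fintype.prod_sum]

lemma pS_sum (S : Strategy G k dA dB) : ∑ ω, pS S ω = 1 := by
  rw [sum_out]
  have h1 : ∀ x y, ∑ a, ∑ b, pS S (x, y, a, b) = ∏ i, G.prob (x i) (y i) := by
    intro x y
    simp only [pS, ← mul_sum, answerProb_sum, mul_one]
  simp only [h1]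
  rw [sum_sum_prod (fun _ a b => G.prob a b)]
  simp [G.prob_sum]

lemma PS_nonneg (S : Strategy G k dA dB) (C : Finset (Fin k)) : 0 ≤ PS S C :=
  PW_nonneg _ _ (pS_nonneg S) C

lemma qG_nonneg (G : Game) : 0 ≤ qG G := by
  unfold qG
  refine sum_nonneg fun x _ => sum_nonneg fun y _ => ?_
  split_ifs
  · exact G.prob_nonneg x y
  · exact le_rfl

open Classical in
lemma PS_le_pow (S : Strategy G k dA dB) (C : Finset (Fin k)) : PS S C ≤ qG G ^ C.card := by
  rw [PS_eq]
  let acc : Fin G.nX → Fin G.nY → ℝ := fun x y =>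
    if (∃ a b, G.accept x y a b = true) then 1 else 0
  have hacc : ∀ x y, 0 ≤ acc x y := by
    intro x y
    simp only [acc]
    split_ifs
    · exact zero_le_one
    · exact le_rfl
  have h1 : ∀ x y, (∏ i, G.prob (x i) (y i)) *
      (∑ a, ∑ b, if (∀ i ∈ C, G.accept (x i) (y i) (a i) (b i) = true) then
        S.answerProb x y a b else 0)
      ≤ ∏ i, (G.prob (x i) (y i) * (if i ∈ C then acc (x i) (y i) else 1)) := by
    intro x y
    rw [prod_mul_distrib]
    refine mul_le_mul_of_nonneg_left ?_ (prod_nonneg fun _ _ => G.prob_nonneg _ _)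
    by_cases hC : ∀ i ∈ C, ∃ a b, G.accept (x i) (y i) a b = true
    · have : ∏ i, (if i ∈ C then acc (x i) (y i) else 1) = 1 := by
        refine prod_eq_one fun i _ => ?_
        split_ifs with hi
        · simp only [acc]
          rw [if_pos (hC i hi)]
        · rfl
      rw [this, ← answerProb_sum S x y]
      refine sum_le_sum fun a _ => sum_le_sum fun b _ => ?_
      split_ifs
      · exact le_rfl
      · exact answerProb_nonneg S _ _ _ _
    · have : ∑ a, ∑ b, (if (∀ i ∈ C, G.accept (x i) (y i) (a i) (b i) = true) then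
          S.answerProb x y a b else 0) = 0 := by
        refine sum_eq_zero fun a _ => sum_eq_zero fun b _ => ?_
        rw [if_neg]
        intro h
        exact hC fun i hi => ⟨_, _, h i hi⟩
      rw [this]
      refine prod_nonneg fun i _ => ?_
      split_ifs
      · exact hacc _ _
      · exact zero_le_one
  refine (sum_le_sum fun x _ => sum_le_sum fun y _ => h1 x y).trans ?_
  rw [sum_sum_prod (fun i a b => G.prob a b * (if i ∈ C then acc a b else 1))]
  have h2 : ∀ i : Fin k, ∑ a, ∑ b, G.prob a b * (if i ∈ C then acc a b else 1)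
      = if i ∈ C then qG G else 1 := by
    intro i
    split_ifs
    · unfold qG
      refine sum_congr rfl fun x _ => sum_congr rfl fun y _ => ?_
      simp only [acc]
      split_ifs <;> simp
    · simp [G.prob_sum]
  rw [prod_congr rfl fun i _ => h2 i]
  rw [Finset.prod_ite_mem, Finset.univ_inter, prod_const]

/-- resampling one coordinate -/
lemma resample {X Y : Type*} [Fintype X] [Fintype Y] (w : X → Y → ℝ) (hw : ∑ x, ∑ y, w x y = 1)
    (i : Fin k) (g : (Fin k → X) → (Fin k → Y) → ℝ) :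
    ∑ x : Fin k → X, ∑ y : Fin k → Y, (∏ j, w (x j) (y j)) * g x y
      = ∑ x : Fin k → X, ∑ y : Fin k → Y, (∏ j, w (x j) (y j)) *
          ∑ x', ∑ y', w x' y' * g (Function.update x i x') (Function.update y i y') := by
  classical
  have h1 : ∑ x : Fin k → X, ∑ y : Fin k → Y, (∏ j, w (x j) (y j)) * g x y
      = ∑ z : ((Fin k → X) × (Fin k → Y)) × (X × Y),
          (∏ j, w (z.1.1 j) (z.1.2 j)) * w z.2.1 z.2.2 * g z.1.1 z.1.2 := by
    rw [Fintype.sum_prod_type, Fintype.sum_prod_type]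
    refine sum_congr rfl fun x _ => sum_congr rfl fun y _ => ?_
    rw [Fintype.sum_prod_type]
    have : ∑ a, ∑ b, (∏ j, w (x j) (y j)) * w a b * g x y
        = ((∏ j, w (x j) (y j)) * g x y) * ∑ a, ∑ b, w a b := by
      rw [mul_sum]
      refine sum_congr rfl fun a _ => ?_
      rw [mul_sum]
      refine sum_congr rfl fun b _ => ?_
      ring
    rw [this, hw, mul_one]
  have h2 : ∑ x : Fin k → X, ∑ y : Fin k → Y, (∏ j, w (x j) (y j)) *
          ∑ x', ∑ y', w x' y' * g (Function.update x i x') (Function.update y i y')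
      = ∑ z : ((Fin k → X) × (Fin k → Y)) × (X × Y),
          (∏ j, w (z.1.1 j) (z.1.2 j)) * w z.2.1 z.2.2 *
            g (Function.update z.1.1 i z.2.1) (Function.update z.1.2 i z.2.2) := by
    rw [Fintype.sum_prod_type, Fintype.sum_prod_type]
    refine sum_congr rfl fun x _ => sum_congr rfl fun y _ => ?_
    rw [Fintype.sum_prod_type, mul_sum]
    refine sum_congr rfl fun a _ => ?_
    rw [mul_sum]
    refine sum_congr rfl fun b _ => ?_
    ring
  rw [h1, h2]
  have hinv : Function.Involutive (fun z : ((Fin k → X) × (Fin k → Y)) × (X × Y) =>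
      ((Function.update z.1.1 i z.2.1, Function.update z.1.2 i z.2.2), (z.1.1 i, z.1.2 i))) := by
    rintro ⟨⟨x, y⟩, ⟨a, b⟩⟩
    simp
  refine (Fintype.sum_equiv (hinv.toPerm _) _ _ ?_).symm
  rintro ⟨⟨x, y⟩, ⟨a, b⟩⟩
  simp only [Function.Involutive.coe_toPerm]
  congr 1
  rw [← mul_prod_erase univ (fun j => w (x j) (y j)) (mem_univ i),
    ← mul_prod_erase univ (fun j => w (Function.update x i a j) (Function.update y i b j))
      (mem_univ i)]
  have : ∏ j ∈ univ.erase i, w (Function.update x i a j) (Function.update y i b j)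
      = ∏ j ∈ univ.erase i, w (x j) (y j) := by
    refine prod_congr rfl fun j hj => ?_
    rw [Function.update_of_ne (ne_of_mem_erase hj), Function.update_of_ne (ne_of_mem_erase hj)]
  rw [this]
  simp only [Function.update_self]
  ring

lemma nX_nonempty (G : Game) : ∃ x y, 0 < G.prob x y := by
  by_contra hcon
  push Not at hcon
  have : ∑ x, ∑ y, G.prob x y ≤ 0 := sum_nonpos fun x _ => sum_nonpos fun y _ => hcon x y
  rw [G.prob_sum] at this
  linarith

lemma dpos (S : Strategy G k dA dB) : 0 < dA ∧ 0 < dB := by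
  have h := S.ψ_norm
  have : Nonempty (Fin dA × Fin dB) := by
    by_contra hcon
    rw [not_nonempty_iff] at hcon
    simp at h
  obtain ⟨⟨a, b⟩⟩ := this
  exact ⟨a.pos, b.pos⟩

lemma nA_pos (S : Strategy G k dA dB) (hk : 1 ≤ k) : 0 < G.nA := by
  obtain ⟨x, y, -⟩ := nX_nonempty G
  by_contra hcon
  have h0 : G.nA = 0 := by omega
  have : IsEmpty (Fin k → Fin G.nA) := by
    rw [h0]
    refine ⟨fun f => ?_⟩
    exact (f ⟨0, hk⟩).elim0
  have h := S.M_sum (fun _ => x)
  rw [Finset.univ_eq_empty, Finset.sum_empty] at h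
  have h2 := congrFun (congrFun h ⟨0, (dpos S).1⟩) ⟨0, (dpos S).1⟩
  simp at h2

lemma nB_pos (S : Strategy G k dA dB) (hk : 1 ≤ k) : 0 < G.nB := by
  obtain ⟨x, y, -⟩ := nX_nonempty G
  by_contra hcon
  have h0 : G.nB = 0 := by omega
  have : IsEmpty (Fin k → Fin G.nB) := by
    rw [h0]
    refine ⟨fun f => ?_⟩
    exact (f ⟨0, hk⟩).elim0
  have h := S.N_sum (fun _ => y)
  rw [Finset.univ_eq_empty, Finset.sum_empty] at h
  have h2 := congrFun (congrFun h ⟨0, (dpos S).2⟩) ⟨0, (dpos S).2⟩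
  simp at h2

lemma PS_single_le {v : ℝ} (hv : ∀ (dA dB : ℕ) (S : Strategy G 1 dA dB), S.probWinsAtLeast 1 ≤ v)
    (S : Strategy G k dA dB) (hk : 1 ≤ k) (i : Fin k) : PS S {i} ≤ v := by
  classical
  rw [PS_eq]
  rw [resample G.prob G.prob_sum i (fun x y => ∑ a, ∑ b,
    if (∀ j ∈ ({i} : Finset (Fin k)), G.accept (x j) (y j) (a j) (b j) = true) then
        S.answerProb x y a b else 0)]
  have hA := nA_pos S hk
  have hB := nB_pos S hk
  have key : ∀ (x : Fin k → Fin G.nX) (y : Fin k → Fin G.nY),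
      ∑ x', ∑ y', G.prob x' y' * (∑ a, ∑ b,
        if (∀ j ∈ ({i} : Finset (Fin k)), G.accept (Function.update x i x' j)
          (Function.update y i y' j) (a j) (b j) = true) then
        S.answerProb (Function.update x i x') (Function.update y i y') a b else 0) ≤ v := by
    intro x y
    let M : Fin G.nX → Fin G.nA → Matrix (Fin dA) (Fin dA) ℂ := fun x' a' =>
      ∑ a ∈ univ.filter (fun a : Fin k → Fin G.nA => a i = a'), S.M (Function.update x i x') a
    let N : Fin G.nY → Fin G.nB → Matrix (Fin dB) (Fin dB) ℂ := fun y' b' =>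
      ∑ b ∈ univ.filter (fun b : Fin k → Fin G.nB => b i = b'), S.N (Function.update y i y') b
    have hM1 : ∀ x', ∑ a', M x' a' = 1 := by
      intro x'
      rw [← S.M_sum (Function.update x i x')]
      simp only [M]
      exact sum_fiberwise_of_maps_to (fun a _ => mem_univ (a i)) _
    have hN1 : ∀ y', ∑ b', N y' b' = 1 := by
      intro y'
      rw [← S.N_sum (Function.update y i y')]
      simp only [N]
      exact sum_fiberwise_of_maps_to (fun b _ => mem_univ (b i)) _
    have hMp : ∀ x' a', (M x' a').PosSemidef := by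
      intro x' a'
      exact Matrix.posSemidef_sum _ fun a _ => S.M_posSemidef _ a
    have hNp : ∀ y' b', (N y' b').PosSemidef := by
      intro y' b'
      exact Matrix.posSemidef_sum _ fun b _ => S.N_posSemidef _ b
    have h1 := oneshot hv hA hB S.ψ M N hMp hNp
      (fun x' => by rw [hM1, sub_self]; exact Matrix.PosSemidef.zero)
      (fun y' => by rw [hN1, sub_self]; exact Matrix.PosSemidef.zero)
    rw [S.ψ_norm, mul_one] at h1
    refine le_trans (le_of_eq ?_) h1
    unfold val1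
    refine sum_congr rfl fun x' _ => sum_congr rfl fun y' _ => ?_
    congr 1
    simp only [M, N, bra_sum_left, bra_sum_right]
    have h2 : ∀ a : Fin k → Fin G.nA, ∀ b : Fin k → Fin G.nB,
        (if (∀ j ∈ ({i} : Finset (Fin k)), G.accept (Function.update x i x' j)
          (Function.update y i y' j) (a j) (b j) = true) then
        S.answerProb (Function.update x i x') (Function.update y i y') a b else 0)
        = if G.accept x' y' (a i) (b i) = true then
          bra S.ψ (S.M (Function.update x i x') a) (S.N (Function.update y i y') b) else 0 := by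
      intro a b
      simp only [mem_singleton, forall_eq, Function.update_self]
      rfl
    simp only [h2]
    -- fiberwise
    rw [← sum_fiberwise_of_maps_to (fun (a : Fin k → Fin G.nA) _ => mem_univ (a i))]
    refine sum_congr rfl fun a' _ => ?_
    have h3 : ∀ a : Fin k → Fin G.nA, (∑ b : Fin k → Fin G.nB,
        if G.accept x' y' (a i) (b i) = true then
          bra S.ψ (S.M (Function.update x i x') a) (S.N (Function.update y i y') b) else 0)
        = ∑ b' : Fin G.nB, if G.accept x' y' (a i) b' = true then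
          ∑ b ∈ univ.filter (fun b : Fin k → Fin G.nB => b i = b'),
          bra S.ψ (S.M (Function.update x i x') a) (S.N (Function.update y i y') b) else 0 := by
      intro a
      rw [← sum_fiberwise_of_maps_to (fun (b : Fin k → Fin G.nB) _ => mem_univ (b i))]
      refine sum_congr rfl fun b' _ => ?_
      by_cases hacc : G.accept x' y' (a i) b' = true
      · rw [if_pos hacc]
        refine sum_congr rfl fun b hb => ?_
        rw [(mem_filter.mp hb).2, if_pos hacc]
      · rw [if_neg hacc]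
        refine sum_eq_zero fun b hb => ?_
        rw [(mem_filter.mp hb).2, if_neg hacc]
    simp only [h3]
    rw [sum_comm]
    refine sum_congr rfl fun b' _ => ?_
    by_cases hacc : G.accept x' y' a' b' = true
    · rw [if_pos hacc]
      rw [sum_comm]
      refine sum_congr rfl fun a ha => ?_
      rw [(mem_filter.mp ha).2, if_pos hacc]
    · rw [if_neg hacc]
      refine sum_eq_zero fun a ha => ?_
      rw [(mem_filter.mp ha).2, if_neg hacc]
  have h4 : ∑ x : Fin k → Fin G.nX, ∑ y : Fin k → Fin G.nY, (∏ j, G.prob (x j) (y j)) * v = v := by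
    simp only [← sum_mul]
    rw [sum_sum_prod (fun _ a b => G.prob a b)]
    simp [G.prob_sum]
  rw [← h4]
  refine sum_le_sum fun x _ => sum_le_sum fun y _ =>
    mul_le_mul_of_nonneg_left (key x y) (prod_nonneg fun _ _ => G.prob_nonneg _ _)

lemma qG_le {v : ℝ} (hv : ∀ (dA dB : ℕ) (S : Strategy G 1 dA dB), S.probWinsAtLeast 1 ≤ v)
    (hA : 0 < G.nA) (hB : 0 < G.nB) :
    qG G ≤ v * Real.exp (Real.log ((G.nA * G.nB : ℕ) : ℝ)) := by
  classical
  have hA' : (0 : ℝ) < (G.nA : ℝ) := by exact_mod_cast hA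
  have hB' : (0 : ℝ) < (G.nB : ℝ) := by exact_mod_cast hB
  have hAB : (0 : ℝ) < ((G.nA * G.nB : ℕ) : ℝ) := by exact_mod_cast Nat.mul_pos hA hB
  rw [Real.exp_log hAB]
  let M : Fin G.nX → Fin G.nA → Matrix (Fin 1) (Fin 1) ℂ := fun _ _ =>
    (((G.nA : ℝ)⁻¹ : ℝ) : ℂ) • 1
  let N : Fin G.nY → Fin G.nB → Matrix (Fin 1) (Fin 1) ℂ := fun _ _ =>
    (((G.nB : ℝ)⁻¹ : ℝ) : ℂ) • 1
  have hb : ∀ x a y b, bra (fun _ => 1 : Fin 1 × Fin 1 → ℂ) (M x a) (N y b)
      = (G.nA : ℝ)⁻¹ * (G.nB : ℝ)⁻¹ := by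
    intro x a y b
    simp only [M, N]
    unfold bra
    rw [Matrix.smul_kronecker, Matrix.kronecker_smul, Matrix.one_kronecker_one]
    simp [Matrix.smul_mulVec, dotProduct]
  have h := val1_le_fin (G := G) hv (dA := 1) (dB := 1) (fun _ => 1) (by simp) M N
    (fun _ _ => by
      simp only [M]
      refine Matrix.PosSemidef.smul Matrix.PosSemidef.one ?_
      rw [Complex.zero_le_real]
      positivity)
    (fun _ _ => by
      simp only [N]
      refine Matrix.PosSemidef.smul Matrix.PosSemidef.one ?_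
      rw [Complex.zero_le_real]
      positivity)
    (fun _ => by
      simp only [M, sum_const, card_univ, Fintype.card_fin, ← Nat.cast_smul_eq_nsmul ℂ, smul_smul]
      rw [Complex.ofReal_inv, Complex.ofReal_natCast, mul_inv_cancel₀ (by exact_mod_cast hA.ne'),
        one_smul])
    (fun _ => by
      simp only [N, sum_const, card_univ, Fintype.card_fin, ← Nat.cast_smul_eq_nsmul ℂ, smul_smul]
      rw [Complex.ofReal_inv, Complex.ofReal_natCast, mul_inv_cancel₀ (by exact_mod_cast hB.ne'),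
        one_smul])
  have h2 : qG G * ((G.nA : ℝ)⁻¹ * (G.nB : ℝ)⁻¹) ≤ v := by
    refine le_trans ?_ h
    unfold val1 qG
    rw [sum_mul]
    refine sum_le_sum fun x _ => ?_
    rw [sum_mul]
    refine sum_le_sum fun y _ => ?_
    simp only [hb]
    have hc : 0 ≤ (G.nA : ℝ)⁻¹ * (G.nB : ℝ)⁻¹ := by positivity
    split_ifs with hex
    · refine mul_le_mul_of_nonneg_left ?_ (G.prob_nonneg x y)
      obtain ⟨a, b, hab⟩ := hex
      have e1 : (G.nA : ℝ)⁻¹ * (G.nB : ℝ)⁻¹ ≤ ∑ b', if G.accept x y a b' = true then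
          (G.nA : ℝ)⁻¹ * (G.nB : ℝ)⁻¹ else 0 := by
        refine le_trans ?_ (single_le_sum (f := fun b' => if G.accept x y a b' = true then
          (G.nA : ℝ)⁻¹ * (G.nB : ℝ)⁻¹ else 0) (fun b' _ => ?_) (mem_univ b))
        · simp only [hab, if_true]; exact le_rfl
        · split_ifs
          · exact hc
          · exact le_rfl
      refine e1.trans ?_
      refine single_le_sum (f := fun a' => ∑ b', if G.accept x y a' b' = true then
          (G.nA : ℝ)⁻¹ * (G.nB : ℝ)⁻¹ else 0) (fun a' _ => ?_) (mem_univ a)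
      refine sum_nonneg fun b' _ => ?_
      split_ifs
      · exact hc
      · exact le_rfl
    · rw [zero_mul]
      refine mul_nonneg (G.prob_nonneg x y) (sum_nonneg fun a _ => sum_nonneg fun b _ => ?_)
      split_ifs
      · exact hc
      · exact le_rfl
  have h3 := mul_le_mul_of_nonneg_right h2 hAB.le
  have h4 : qG G * ((G.nA : ℝ)⁻¹ * (G.nB : ℝ)⁻¹) * ((G.nA * G.nB : ℕ) : ℝ) = qG G := by
    push_cast
    field_simp
  linarith

lemma log_nn {G : Game} (hA : 0 < G.nA) (hB : 0 < G.nB) :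
    0 ≤ Real.log ((G.nA * G.nB : ℕ) : ℝ) := by
  apply Real.log_nonneg
  exact_mod_cast Nat.mul_pos hA hB

/-- the domain condition -/
lemma dom_nonneg (S : Strategy G k dA dB) (hk : 1 ≤ k) (q : ℝ) (hq : qG G ≤ q)
    (C : Finset (Fin k)) (hC : 0 < PS S C) :
    0 ≤ 3 * Real.log (q ^ C.card / PS S C) + C.card * Real.log ((G.nA * G.nB : ℕ) : ℝ) := by
  have h1 : 0 ≤ Real.log (q ^ C.card / PS S C) := by
    apply Real.log_nonneg
    rw [le_div_iff₀ hC, one_mul]
    exact (PS_le_pow S C).trans (pow_le_pow_left₀ (qG_nonneg G) hq _)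
  have h2 := log_nn (nA_pos S hk) (nB_pos S hk)
  have h3 : (0 : ℝ) ≤ (C.card : ℝ) := Nat.cast_nonneg _
  positivity

/-- the trivial case -/
lemma triv (S : Strategy G k dA dB) (hk : 1 ≤ k) (v δ : ℝ) (hv : 0 ≤ v) (hδ : 0 < δ)
    (hq : qG G = 0) : S.probWinsAtLeast ((v + δ) * k) = 0 := by
  rw [probWins_eq]
  have hkpos : (0 : ℝ) < (k : ℝ) := by exact_mod_cast hk
  refine sum_eq_zero fun ω _ => ?_
  split_ifs with h
  · have hpos : 0 < ((WS G k ω).card : ℝ) := lt_of_lt_of_le (by positivity) h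
    have hpos' : 0 < (WS G k ω).card := by exact_mod_cast hpos
    obtain ⟨i, hi⟩ := card_pos.mp hpos'
    have h1 : PS S {i} ≤ 0 := by
      have := PS_le_pow S {i}
      rwa [card_singleton, pow_one, hq] at this
    have h2 : PS S {i} = 0 := le_antisymm h1 (PS_nonneg S _)
    unfold PS PW at h2
    rw [sum_eq_zero_iff_of_nonneg] at h2
    · have h3 := h2 ω (mem_univ ω)
      rw [if_pos (singleton_subset_iff.mpr hi)] at h3
      exact h3
    · intro ω' _
      split_ifs
      · exact pS_nonneg S ω'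
      · exact le_rfl
  · rfl

/-- **Front end for S0537** (general `q` with `qG G ≤ q ≤ v nA nB`). -/
theorem front537 (G : Game) (v : ℝ)
    (hv : ∀ (dA dB : ℕ) (S : Strategy G 1 dA dB), S.probWinsAtLeast 1 ≤ v)
    (κ c : ℝ) (hκ : 0 ≤ κ) (hc : 0 ≤ c) (hc2 : c ^ 2 ≤ 255 * (1 + κ))
    (δ : ℝ) (hδ : 0 < δ) (hδv : δ < 1 - v) (k dA dB : ℕ) (S : Strategy G k dA dB) (hk : 1 ≤ k)
    (q : ℝ) (hq1 : qG G ≤ q) (hq2 : q ≤ v * ((G.nA * G.nB : ℕ) : ℝ))
    (H : ∀ C : Finset (Fin k), 0 < PS S C → C.card < k →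
      ∑ i ∈ univ \ C, PS S (insert i C) ≤ ((k : ℝ) - C.card) * PS S C *
        (v + c * √((3 * Real.log (q ^ C.card / PS S C)
          + C.card * Real.log ((G.nA * G.nB : ℕ) : ℝ)) / ((k : ℝ) - C.card)))) :
    S.probWinsAtLeast ((v + δ) * k) ≤
      Real.exp (-(δ ^ 3 / (16384 * (1 + κ) * (1 + Real.log ((G.nA * G.nB : ℕ) : ℝ))) * k)) := by
  have hA := nA_pos S hk
  have hB := nB_pos S hk
  have hv0 : 0 ≤ v := v_nonneg hv hA hB
  have hAB : (0 : ℝ) < ((G.nA * G.nB : ℕ) : ℝ) := by exact_mod_cast Nat.mul_pos hA hB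
  rcases ((qG_nonneg G).trans hq1).eq_or_lt with hq | hq
  · rw [triv S hk v δ hv0 hδ (le_antisymm (hq1.trans hq.symm.le) (qG_nonneg G))]
    exact (Real.exp_pos _).le
  · rw [probWins_eq]
    exact cor537 (pS S) (WS G k) (pS_nonneg S) (pS_sum S) hk v q
      (Real.log ((G.nA * G.nB : ℕ) : ℝ)) δ κ c hv0 hδ hδv hq (log_nn hA hB)
      (by rw [Real.exp_log hAB]; exact hq2) hκ hc
      hc2 (fun i => PS_single_le hv S hk i) (fun C hC => dom_nonneg S hk q hq1 C hC) H

/-- **Front end for S0536** (general `q` with `qG G ≤ q ≤ v nA nB`). -/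
theorem front536 (G : Game) (v : ℝ)
    (hv : ∀ (dA dB : ℕ) (S : Strategy G 1 dA dB), S.probWinsAtLeast 1 ≤ v)
    (c A : ℝ) (hc : 0 ≤ c) (hA1 : 64 ≤ A) (hA2 : 256 * c ^ 4 ≤ A)
    (δ : ℝ) (hδ : 0 < δ) (hδv : δ < 1 - v) (k dA dB : ℕ) (S : Strategy G k dA dB) (hk : 1 ≤ k)
    (q : ℝ) (hq1 : qG G ≤ q) (hq2 : q ≤ v * ((G.nA * G.nB : ℕ) : ℝ))
    (H : ∀ C : Finset (Fin k), 0 < PS S C → C.card < k →
      ∑ i ∈ univ \ C, PS S (insert i C) ≤ ((k : ℝ) - C.card) * PS S C *
        (v + c * √(√((3 * Real.log (q ^ C.card / PS S C)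
          + C.card * Real.log ((G.nA * G.nB : ℕ) : ℝ)) / ((k : ℝ) - C.card))))) :
    S.probWinsAtLeast ((v + δ) * k) ≤
      Real.exp (-(1 / (4 * A) * δ ^ 5 / (1 + Real.log ((G.nA * G.nB : ℕ) : ℝ)) * k)) := by
  have hA := nA_pos S hk
  have hB := nB_pos S hk
  have hv0 : 0 ≤ v := v_nonneg hv hA hB
  have hAB : (0 : ℝ) < ((G.nA * G.nB : ℕ) : ℝ) := by exact_mod_cast Nat.mul_pos hA hB
  rcases ((qG_nonneg G).trans hq1).eq_or_lt with hq | hq
  · rw [triv S hk v δ hv0 hδ (le_antisymm (hq1.trans hq.symm.le) (qG_nonneg G))]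
    exact (Real.exp_pos _).le
  · rw [probWins_eq]
    exact cor536 (pS S) (WS G k) (pS_nonneg S) (pS_sum S) hk v q
      (Real.log ((G.nA * G.nB : ℕ) : ℝ)) δ c A hv0 hδ hδv hq (log_nn hA hB)
      (by rw [Real.exp_log hAB]; exact hq2) hc
      hA1 hA2 (fun i => PS_single_le hv S hk i) (fun C hC => dom_nonneg S hk q hq1 C hC) H

lemma qG_le' {v : ℝ} (hv : ∀ (dA dB : ℕ) (S : Strategy G 1 dA dB), S.probWinsAtLeast 1 ≤ v)
    (hA : 0 < G.nA) (hB : 0 < G.nB) : qG G ≤ v * ((G.nA * G.nB : ℕ) : ℝ) := by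
  have h := qG_le hv hA hB
  have hAB : (0 : ℝ) < ((G.nA * G.nB : ℕ) : ℝ) := by exact_mod_cast Nat.mul_pos hA hB
  rwa [Real.exp_log hAB] at h

/-- **Front end for S0537**, system form: for every `C` there are errors `D i ≥ 0`, `i ∉ C`, with
`∑ D i ≤ PS S C * (3 log (q^|C| / PS S C) + |C| log (nA nB)) + η` for all `η > 0`. -/
theorem front537_sys (G : Game) (v : ℝ)
    (hv : ∀ (dA dB : ℕ) (S : Strategy G 1 dA dB), S.probWinsAtLeast 1 ≤ v)
    (κ c : ℝ) (hκ : 0 ≤ κ) (hc : 0 ≤ c) (hc2 : c ^ 2 ≤ 255 * (1 + κ))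
    (δ : ℝ) (hδ : 0 < δ) (hδv : δ < 1 - v) (k dA dB : ℕ) (S : Strategy G k dA dB) (hk : 1 ≤ k)
    (q : ℝ) (hq1 : qG G ≤ q) (hq2 : q ≤ v * ((G.nA * G.nB : ℕ) : ℝ))
    (H : ∀ C : Finset (Fin k), 0 < PS S C → C.card < k → ∀ η : ℝ, 0 < η →
      ∃ D : Fin k → ℝ, (∀ i ∉ C, 0 ≤ D i) ∧
        (∀ i ∉ C, PS S (insert i C) ≤ v * PS S C + c * √(PS S C * D i)) ∧
        ∑ i ∈ univ \ C, D i ≤ PS S C * (3 * Real.log (q ^ C.card / PS S C)
          + C.card * Real.log ((G.nA * G.nB : ℕ) : ℝ)) + η) :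
    S.probWinsAtLeast ((v + δ) * k) ≤
      Real.exp (-(δ ^ 3 / (16384 * (1 + κ) * (1 + Real.log ((G.nA * G.nB : ℕ) : ℝ))) * k)) := by
  refine front537 G v hv κ c hκ hc hc2 δ hδ hδv k dA dB S hk q hq1 hq2 fun C hC hCk => ?_
  have hdom := dom_nonneg S hk q hq1 C hC
  set E : ℝ := 3 * Real.log (q ^ C.card / PS S C)
          + C.card * Real.log ((G.nA * G.nB : ℕ) : ℝ) with hE
  set P : ℝ := PS S C with hP
  have hR : (0 : ℝ) < (k : ℝ) - C.card := by
    have : (C.card : ℝ) < (k : ℝ) := by exact_mod_cast hCk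
    linarith
  have hcardR : (((univ \ C).card : ℕ) : ℝ) = (k : ℝ) - C.card := by
    rw [card_sdiff_of_subset (subset_univ C), card_univ, Fintype.card_fin, Nat.cast_sub hCk.le]
  have h1 : ∀ η : ℝ, 0 < η → ∑ i ∈ univ \ C, PS S (insert i C) ≤
      ((k : ℝ) - C.card) * (v * P) + c * √(((k : ℝ) - C.card) * (P * (P * E + η))) := by
    intro η hη
    obtain ⟨D, hD0, hD1, hD2⟩ := H C hC hCk η hη
    have h2 : ∑ i ∈ univ \ C, PS S (insert i C) ≤
        ∑ i ∈ univ \ C, (v * P + c * √(P * D i)) :=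
      sum_le_sum fun i hi => hD1 i (mem_sdiff.mp hi).2
    refine h2.trans ?_
    rw [sum_add_distrib, sum_const, nsmul_eq_mul, hcardR, ← mul_sum]
    refine add_le_add le_rfl (mul_le_mul_of_nonneg_left ?_ hc)
    -- Cauchy–Schwarz
    apply Real.le_sqrt_of_sq_le
    have hcs := sq_sum_le_card_mul_sum_sq (s := univ \ C) (f := fun i => √(P * D i))
    refine hcs.trans ?_
    rw [hcardR]
    refine mul_le_mul_of_nonneg_left ?_ hR.le
    have : ∀ i ∈ univ \ C, (√(P * D i)) ^ 2 = P * D i := fun i hi =>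
      Real.sq_sqrt (mul_nonneg hC.le (hD0 i (mem_sdiff.mp hi).2))
    rw [sum_congr rfl this, ← mul_sum]
    exact mul_le_mul_of_nonneg_left hD2 hC.le
  -- limit η → 0
  have h2 : ∑ i ∈ univ \ C, PS S (insert i C) ≤
      ((k : ℝ) - C.card) * (v * P) + c * √(((k : ℝ) - C.card) * (P * (P * E))) := by
    have hcont : Filter.Tendsto (fun η : ℝ => ((k : ℝ) - C.card) * (v * P)
        + c * √(((k : ℝ) - C.card) * (P * (P * E + η)))) (nhdsWithin 0 (Set.Ioi 0))
        (nhds (((k : ℝ) - C.card) * (v * P) + c * √(((k : ℝ) - C.card) * (P * (P * E))))) := by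
      have hc' : Continuous (fun η : ℝ => ((k : ℝ) - C.card) * (v * P)
        + c * √(((k : ℝ) - C.card) * (P * (P * E + η)))) := by fun_prop
      have := hc'.tendsto 0
      simp only [add_zero] at this
      exact this.mono_left nhdsWithin_le_nhds
    refine ge_of_tendsto hcont ?_
    filter_upwards [self_mem_nhdsWithin] with η hη
    exact h1 η hη
  refine h2.trans (le_of_eq ?_)
  have h3 : √(((k : ℝ) - C.card) * (P * (P * E))) = (((k : ℝ) - C.card) * P) *
      √(E / ((k : ℝ) - C.card)) := by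
    have : ((k : ℝ) - C.card) * (P * (P * E))
        = (((k : ℝ) - C.card) * P) ^ 2 * (E / ((k : ℝ) - C.card)) := by
      field_simp
    rw [this, Real.sqrt_mul (by positivity), Real.sqrt_sq (by positivity)]
  rw [h3]
  ring

/-- **Front end for S0536**, system form with `PS S (insert i C) ≤ v P + c P^{1/2} (P * D i)^{1/4}`. -/
theorem front536_sys (G : Game) (v : ℝ)
    (hv : ∀ (dA dB : ℕ) (S : Strategy G 1 dA dB), S.probWinsAtLeast 1 ≤ v)
    (c A : ℝ) (hc : 0 ≤ c) (hA1 : 64 ≤ A) (hA2 : 256 * c ^ 4 ≤ A)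
    (δ : ℝ) (hδ : 0 < δ) (hδv : δ < 1 - v) (k dA dB : ℕ) (S : Strategy G k dA dB) (hk : 1 ≤ k)
    (q : ℝ) (hq1 : qG G ≤ q) (hq2 : q ≤ v * ((G.nA * G.nB : ℕ) : ℝ))
    (H : ∀ C : Finset (Fin k), 0 < PS S C → C.card < k → ∀ η : ℝ, 0 < η →
      ∃ D : Fin k → ℝ, (∀ i ∉ C, 0 ≤ D i) ∧
        (∀ i ∉ C, PS S (insert i C) ≤ v * PS S C + c * (√(PS S C) * √(√(PS S C * D i)))) ∧
        ∑ i ∈ univ \ C, D i ≤ PS S C * (3 * Real.log (q ^ C.card / PS S C)
          + C.card * Real.log ((G.nA * G.nB : ℕ) : ℝ)) + η) :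
    S.probWinsAtLeast ((v + δ) * k) ≤
      Real.exp (-(1 / (4 * A) * δ ^ 5 / (1 + Real.log ((G.nA * G.nB : ℕ) : ℝ)) * k)) := by
  refine front536 G v hv c A hc hA1 hA2 δ hδ hδv k dA dB S hk q hq1 hq2 fun C hC hCk => ?_
  have hdom := dom_nonneg S hk q hq1 C hC
  set E : ℝ := 3 * Real.log (q ^ C.card / PS S C)
          + C.card * Real.log ((G.nA * G.nB : ℕ) : ℝ) with hE
  set P : ℝ := PS S C with hP
  have hR : (0 : ℝ) < (k : ℝ) - C.card := by
    have : (C.card : ℝ) < (k : ℝ) := by exact_mod_cast hCk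
    linarith
  have hcardR : (((univ \ C).card : ℕ) : ℝ) = (k : ℝ) - C.card := by
    rw [card_sdiff_of_subset (subset_univ C), card_univ, Fintype.card_fin, Nat.cast_sub hCk.le]
  have h1 : ∀ η : ℝ, 0 < η → ∑ i ∈ univ \ C, PS S (insert i C) ≤
      ((k : ℝ) - C.card) * (v * P) + c * (√P *
        √(((k : ℝ) - C.card) * √(((k : ℝ) - C.card) * (P * (P * E + η))))) := by
    intro η hη
    obtain ⟨D, hD0, hD1, hD2⟩ := H C hC hCk η hη
    have h2 : ∑ i ∈ univ \ C, PS S (insert i C) ≤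
        ∑ i ∈ univ \ C, (v * P + c * (√P * √(√(P * D i)))) :=
      sum_le_sum fun i hi => hD1 i (mem_sdiff.mp hi).2
    refine h2.trans ?_
    rw [sum_add_distrib, sum_const, nsmul_eq_mul, hcardR, ← mul_sum, ← mul_sum]
    refine add_le_add le_rfl (mul_le_mul_of_nonneg_left (mul_le_mul_of_nonneg_left ?_
      (Real.sqrt_nonneg _)) hc)
    -- Cauchy–Schwarz twice
    apply Real.le_sqrt_of_sq_le
    have hcs := sq_sum_le_card_mul_sum_sq (s := univ \ C) (f := fun i => √(√(P * D i)))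
    refine hcs.trans ?_
    rw [hcardR]
    refine mul_le_mul_of_nonneg_left ?_ hR.le
    have e1 : ∀ i ∈ univ \ C, (√(√(P * D i))) ^ 2 = √(P * D i) := fun i _ =>
      Real.sq_sqrt (Real.sqrt_nonneg _)
    rw [sum_congr rfl e1]
    apply Real.le_sqrt_of_sq_le
    have hcs2 := sq_sum_le_card_mul_sum_sq (s := univ \ C) (f := fun i => √(P * D i))
    refine hcs2.trans ?_
    rw [hcardR]
    refine mul_le_mul_of_nonneg_left ?_ hR.le
    have : ∀ i ∈ univ \ C, (√(P * D i)) ^ 2 = P * D i := fun i hi =>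
      Real.sq_sqrt (mul_nonneg hC.le (hD0 i (mem_sdiff.mp hi).2))
    rw [sum_congr rfl this, ← mul_sum]
    exact mul_le_mul_of_nonneg_left hD2 hC.le
  -- limit η → 0
  have h2 : ∑ i ∈ univ \ C, PS S (insert i C) ≤
      ((k : ℝ) - C.card) * (v * P) + c * (√P *
        √(((k : ℝ) - C.card) * √(((k : ℝ) - C.card) * (P * (P * E))))) := by
    have hcont : Filter.Tendsto (fun η : ℝ => ((k : ℝ) - C.card) * (v * P)
        + c * (√P * √(((k : ℝ) - C.card) * √(((k : ℝ) - C.card) * (P * (P * E + η))))))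
        (nhdsWithin 0 (Set.Ioi 0))
        (nhds (((k : ℝ) - C.card) * (v * P) + c * (√P *
          √(((k : ℝ) - C.card) * √(((k : ℝ) - C.card) * (P * (P * E))))))) := by
      have hc' : Continuous (fun η : ℝ => ((k : ℝ) - C.card) * (v * P)
        + c * (√P * √(((k : ℝ) - C.card) * √(((k : ℝ) - C.card) * (P * (P * E + η)))))) := by
        fun_prop
      have := hc'.tendsto 0
      simp only [add_zero] at this
      exact this.mono_left nhdsWithin_le_nhds
    refine ge_of_tendsto hcont ?_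
    filter_upwards [self_mem_nhdsWithin] with η hη
    exact h1 η hη
  refine h2.trans (le_of_eq ?_)
  have h3 : √(((k : ℝ) - C.card) * (P * (P * E))) = (((k : ℝ) - C.card) * P) *
      √(E / ((k : ℝ) - C.card)) := by
    have : ((k : ℝ) - C.card) * (P * (P * E))
        = (((k : ℝ) - C.card) * P) ^ 2 * (E / ((k : ℝ) - C.card)) := by
      field_simp
    rw [this, Real.sqrt_mul (by positivity), Real.sqrt_sq (by positivity)]
  have h4 : √(((k : ℝ) - C.card) * ((((k : ℝ) - C.card) * P) * √(E / ((k : ℝ) - C.card))))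
      = ((k : ℝ) - C.card) * (√P * √(√(E / ((k : ℝ) - C.card)))) := by
    have : ((k : ℝ) - C.card) * ((((k : ℝ) - C.card) * P) * √(E / ((k : ℝ) - C.card)))
        = ((k : ℝ) - C.card) ^ 2 * (P * √(E / ((k : ℝ) - C.card))) := by ring
    rw [this, Real.sqrt_mul (by positivity), Real.sqrt_sq hR.le, Real.sqrt_mul hC.le]
  rw [h3, h4]
  have h5 : √P * (((k : ℝ) - C.card) * (√P * √(√(E / ((k : ℝ) - C.card)))))
      = ((k : ℝ) - C.card) * P * √(√(E / ((k : ℝ) - C.card))) := by
    calc √P * (((k : ℝ) - C.card) * (√P * √(√(E / ((k : ℝ) - C.card)))))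
        = ((k : ℝ) - C.card) * (√P * √P) * √(√(E / ((k : ℝ) - C.card))) := by ring
      _ = _ := by rw [Real.mul_self_sqrt hC.le]
  rw [h5]
  ring

/-- from the hypothesis of S0537: `κ ≥ 0` -/
lemma kappa_nonneg (G : Game) (κ : ℝ)
    (hκ : ∀ z : Fin G.nX × Fin G.nY, 0 < G.prob z.1 z.2 → ∀ w ∈ G.supportComponent z,
      8 * ((G.supportComponent z).card - 1 : ℝ) * (∑ u ∈ G.supportComponent z, G.prob u.1 u.2)
        ≤ κ * G.prob w.1 w.2) : 0 ≤ κ := by
  obtain ⟨x, y, hxy⟩ := nX_nonempty G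
  have hmem : (x, y) ∈ G.supportComponent (x, y) := by
    unfold Game.supportComponent
    rw [@mem_filter _ _ (Classical.decPred _)]
    exact ⟨mem_univ _, SimpleGraph.Reachable.refl _⟩
  have h := hκ (x, y) hxy (x, y) hmem
  have hcard : (1 : ℝ) ≤ ((G.supportComponent (x, y)).card : ℝ) := by
    have : 0 < (G.supportComponent (x, y)).card := card_pos.mpr ⟨_, hmem⟩
    exact_mod_cast this
  have hsum : 0 ≤ ∑ u ∈ G.supportComponent (x, y), G.prob u.1 u.2 :=
    sum_nonneg fun u _ => G.prob_nonneg _ _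
  have h2 : 0 ≤ κ * G.prob x y := by
    refine le_trans ?_ h
    have : 0 ≤ ((G.supportComponent (x, y)).card : ℝ) - 1 := by linarith
    positivity
  exact nonneg_of_mul_nonneg_left h2 hxy

end Crest.H6PR
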