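import Mathlib
import Crest.Prelude.Def_NonlocalGame
import Crest.Agent.H26OneShot

/-!
Common definitions for row 342 (parallel repetition of entangled games).
-/

set_option autoImplicit false

open scoped Kronecker ComplexOrder BigOperators
open Crest.MathPhysics.NonlocalGame

namespace Crest.PR

/-- squared norm of a finite vector -/
noncomputable def nsq {ι : Type*} [Fintype ι] (v : ι → ℂ) : ℝ := ∑ i, ‖v i‖ ^ 2

/-- entangled value at most `v` -/
def ValLe (G : Game) (v : ℝ) : Prop :=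
  ∀ (dA dB : ℕ) (S : Strategy G 1 dA dB), S.probWinsAtLeast 1 ≤ v

/-- the hypothesis on `κ` in S0537 -/
def KappaHyp (G : Game) (κ : ℝ) : Prop :=
  ∀ z : Fin G.nX × Fin G.nY, 0 < G.prob z.1 z.2 → ∀ w ∈ G.supportComponent z,
      8 * ((G.supportComponent z).card - 1 : ℝ) * (∑ u ∈ G.supportComponent z, G.prob u.1 u.2)
        ≤ κ * G.prob w.1 w.2

/-- One-coordinate data: `P` = probability of winning on `C`, `W` = probability of winning on
`C ∪ {i}`, `E` = total squared gauge error. -/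
def OneCoord (G : Game) (P E W : ℝ) : Prop :=
  ∃ (α β : Type) (_ : Fintype α) (_ : DecidableEq α) (_ : Fintype β) (_ : DecidableEq β)
    (Φ : Fin G.nX → Fin G.nY → (α × β → ℂ)) (ΦX : Fin G.nX → (α × β → ℂ))
    (ΦY : Fin G.nY → (α × β → ℂ))
    (QA : Fin G.nX → Fin G.nA → Matrix α α ℂ) (QB : Fin G.nY → Fin G.nB → Matrix β β ℂ),
    (∀ x a, (QA x a).PosSemidef) ∧ (∀ y b, (QB y b).PosSemidef) ∧
    (∀ x, (1 - ∑ a, QA x a).PosSemidef) ∧ (∀ y, (1 - ∑ b, QB y b).PosSemidef) ∧
    (∑ x, ∑ y, G.prob x y * nsq (Φ x y) = P) ∧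
    (∑ x, ∑ y, G.prob x y * (nsq (Φ x y - ΦX x) + nsq (Φ x y - ΦY y)
        + (Real.sqrt (nsq (Φ x y)) - Real.sqrt P) ^ 2) ≤ E) ∧
    (∑ x, ∑ y, G.prob x y * ∑ a, ∑ b, (if G.accept x y a b = true then
        H26OneShot.bra (Φ x y) (QA x a) (QB y b) else 0) = W)

variable {G : Game} {k dA dB : ℕ}

/-- the outcome space of `k` repetitions -/
abbrev Out (G : Game) (k : ℕ) : Type :=
  (Fin k → Fin G.nX) × (Fin k → Fin G.nY) × (Fin k → Fin G.nA) × (Fin k → Fin G.nB)

/-- probability of an outcome -/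
noncomputable def pOut (S : Strategy G k dA dB) (o : Out G k) : ℝ :=
  (∏ i, G.prob (o.1 i) (o.2.1 i)) * S.answerProb o.1 o.2.1 o.2.2.1 o.2.2.2

/-- set of won coordinates -/
def wset (G : Game) (k : ℕ) (o : Out G k) : Finset (Fin k) :=
  Finset.univ.filter fun i => G.accept (o.1 i) (o.2.1 i) (o.2.2.1 i) (o.2.2.2 i) = true

/-- probability that all coordinates of `C` are won -/
noncomputable def PW (S : Strategy G k dA dB) (C : Finset (Fin k)) : ℝ :=
  ∑ o : Out G k, if C ⊆ wset G k o then pOut S o else 0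

/-- probability that a question pair has an accepted answer pair -/
noncomputable def qAcc (G : Game) : ℝ :=
  ∑ x, ∑ y, if (∃ a b, G.accept x y a b = true) then G.prob x y else 0

end Crest.PR
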