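import Mathlib
import Crest.Prelude.Def_NonlocalGame
import Crest.Agent.PRDefs
import Crest.Agent.H6PRFront

/-!
# rid 342: final assembly of S0537 / S0536 from the end lemmas S37, S36 and the assembly ASM
-/

set_option autoImplicit false

namespace Crest.H3PR

open Crest.MathPhysics.NonlocalGame Crest.PR Finset

/-- one-round statement for S0537 -/
def S37 : Prop := ∀ (G : Game) (v κ : ℝ), ValLe G v → KappaHyp G κ → 0 < G.nA → 0 < G.nB →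
  ∀ P E W : ℝ, 0 ≤ P → 0 ≤ E → OneCoord G P E W →
    W ≤ v * P + 3 * √(2 * κ + 1) * √(P * E)

/-- one-round statement for S0536 -/
def S36 : Prop := ∃ c : ℝ, 0 ≤ c ∧ ∀ (G : Game) (v : ℝ), ValLe G v → 0 < G.nA → 0 < G.nB →
  ∀ P E W : ℝ, 0 < P → 0 ≤ E → OneCoord G P E W →
    W ≤ v * P + c * (√P * √(√(P * E)))

/-- the assembly (GLUE) -/
def ASM : Prop := ∀ (G : Game) (k dA dB : ℕ) (S : Strategy G k dA dB) (C : Finset (Fin k)),
  0 < PW S C → C.card < k → ∀ η : ℝ, 0 < η →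
  ∃ E : Fin k → ℝ, (∀ i, i ∉ C → 0 ≤ E i) ∧
    (∀ i, i ∉ C → OneCoord G (PW S C) (E i) (PW S (insert i C))) ∧
    ∑ i ∈ univ \ C, E i ≤ PW S C * (3 * Real.log (qAcc G ^ C.card / PW S C)
      + C.card * Real.log ((G.nA * G.nB : ℕ) : ℝ)) + η

variable {G : Game} {k dA dB : ℕ}

theorem PW_eq (S : Strategy G k dA dB) (C : Finset (Fin k)) : PW S C = H6PR.PS S C := by
  unfold PW H6PR.PS H6PR.PW
  refine sum_congr rfl fun o _ => ?_
  rfl

theorem qAcc_eq (G : Game) : qAcc G = H6PR.qG G := by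
  unfold qAcc H6PR.qG
  refine sum_congr rfl fun x _ => sum_congr rfl fun y _ => ?_
  congr

theorem final537 (h37 : S37) (hasm : ASM) (G : Game) (v : ℝ)
    (hv : ∀ (dA dB : ℕ) (S : Strategy G 1 dA dB), S.probWinsAtLeast 1 ≤ v) (κ : ℝ)
    (hκ : ∀ z : Fin G.nX × Fin G.nY, 0 < G.prob z.1 z.2 → ∀ w ∈ G.supportComponent z,
      8 * ((G.supportComponent z).card - 1 : ℝ) * (∑ u ∈ G.supportComponent z, G.prob u.1 u.2)
        ≤ κ * G.prob w.1 w.2)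
    (δ : ℝ) (hδ : 0 < δ) (hδv : δ < 1 - v) (k dA dB : ℕ) (S : Strategy G k dA dB) (hk : 1 ≤ k) :
    S.probWinsAtLeast ((v + δ) * k) ≤
      Real.exp (-(δ ^ 3 / (16384 * (1 + κ) * (1 + Real.log ((G.nA * G.nB : ℕ) : ℝ))) * k)) := by
  have hκ0 : 0 ≤ κ := H6PR.kappa_nonneg G κ hκ
  have hA := H6PR.nA_pos S hk
  have hB := H6PR.nB_pos S hk
  refine H6PR.front537_sys G v hv κ (3 * √(2 * κ + 1)) hκ0 (by positivity) ?_ δ hδ hδv k dA dB S hk
    (H6PR.qG G) le_rfl (H6PR.qG_le' hv hA hB) ?_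
  · rw [mul_pow, Real.sq_sqrt (by positivity)]
    nlinarith
  · intro C hC hCk η hη
    rw [← PW_eq] at hC
    obtain ⟨E, hE0, hE1, hE2⟩ := hasm G k dA dB S C hC hCk η hη
    refine ⟨E, hE0, fun i hi => ?_, ?_⟩
    · rw [← PW_eq, ← PW_eq]
      exact h37 G v κ hv hκ hA hB _ _ _ hC.le (hE0 i hi) (hE1 i hi)
    · rw [← PW_eq, ← qAcc_eq]
      exact hE2

theorem final536 (h36 : S36) (hasm : ASM) :
    ∃ κ₀ : ℝ, 0 < κ₀ ∧ ∀ (G : Game) (v : ℝ),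
      (∀ (dA dB : ℕ) (S : Strategy G 1 dA dB), S.probWinsAtLeast 1 ≤ v) →
      ∀ δ : ℝ, 0 < δ → δ < 1 - v → ∀ (k dA dB : ℕ) (S : Strategy G k dA dB), 1 ≤ k →
        S.probWinsAtLeast ((v + δ) * k) ≤
          Real.exp (-(κ₀ * δ ^ 5 / (1 + Real.log ((G.nA * G.nB : ℕ) : ℝ)) * k)) := by
  obtain ⟨c, hc, h36⟩ := h36
  refine ⟨1 / (4 * max 64 (256 * c ^ 4)), by positivity, ?_⟩
  intro G v hv δ hδ hδv k dA dB S hk
  have hA := H6PR.nA_pos S hk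
  have hB := H6PR.nB_pos S hk
  refine H6PR.front536_sys G v hv c (max 64 (256 * c ^ 4)) hc (le_max_left _ _) (le_max_right _ _)
    δ hδ hδv k dA dB S hk (H6PR.qG G) le_rfl (H6PR.qG_le' hv hA hB) ?_
  intro C hC hCk η hη
  rw [← PW_eq] at hC
  obtain ⟨E, hE0, hE1, hE2⟩ := hasm G k dA dB S C hC hCk η hη
  refine ⟨E, hE0, fun i hi => ?_, ?_⟩
  · rw [← PW_eq, ← PW_eq]
    exact h36 G v hv hA hB _ _ _ hC (hE0 i hi) (hE1 i hi)
  · rw [← PW_eq, ← qAcc_eq]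
    exact hE2

end Crest.H3PR
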