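import Mathlib
import Crest.Agent.PRDefs
import Crest.Agent.H26OneShot
import Crest.Agent.H26PRTele

/-!
H5PRQacc (module QACC of rid 342): facts about `qAcc`, `PW`, `pOut`, product-weight sums.
-/

set_option autoImplicit false
set_option linter.unusedSectionVars false
set_option linter.unusedVariables false

open scoped Kronecker ComplexOrder BigOperators
open Crest.MathPhysics.NonlocalGame

namespace Crest.PR

open Crest.H26OneShot

/-! ### generic product-weight sums -/

section generic
variable {ι Z : Type*} [Fintype ι] [DecidableEq ι] [Fintype Z]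

theorem sum_prod_eq (f : ι → Z → ℝ) : ∑ z : ι → Z, ∏ j, f j (z j) = ∏ j, ∑ w, f j w := by
  rw [Finset.prod_univ_sum]
  rw [Fintype.piFinset_univ]

theorem sum_prod_one {m : Z → ℝ} (hm : ∑ w, m w = 1) : ∑ z : ι → Z, ∏ j, m (z j) = 1 := by
  rw [sum_prod_eq]; simp [hm]

/-- product of a function over `C` : the sum over all strings -/
theorem sum_prod_mul_prod {m : Z → ℝ} (hm : ∑ w, m w = 1) (f : Z → ℝ) (C : Finset ι) :
    ∑ z : ι → Z, (∏ j, m (z j)) * ∏ i ∈ C, f (z i) = (∑ w, m w * f w) ^ C.card := by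
  have h1 : ∀ z : ι → Z, (∏ j, m (z j)) * ∏ i ∈ C, f (z i)
      = ∏ j, (m (z j) * if j ∈ C then f (z j) else 1) := by
    intro z
    rw [Finset.prod_mul_distrib, Finset.prod_ite_mem, Finset.univ_inter]
  rw [Finset.sum_congr rfl (fun z _ => h1 z)]
  rw [sum_prod_eq (fun j w => m w * if j ∈ C then f w else 1)]
  have h2 : ∀ j, (∑ w, m w * if j ∈ C then f w else 1) = if j ∈ C then ∑ w, m w * f w else 1 := by
    intro j
    split_ifs
    · rfl
    · simpa using hm
  rw [Finset.prod_congr rfl (fun j _ => h2 j), Finset.prod_ite_mem, Finset.univ_inter,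
    Finset.prod_const]

/-- the involution used for resampling the coordinates in `C` -/
def swpC (C : Finset ι) : ((ι → Z) × (ι → Z)) ≃ ((ι → Z) × (ι → Z)) where
  toFun p := (C.piecewise p.2 p.1, C.piecewise p.1 p.2)
  invFun p := (C.piecewise p.2 p.1, C.piecewise p.1 p.2)
  left_inv p := by
    ext j <;> by_cases h : j ∈ C <;> simp [Finset.piecewise, h]
  right_inv p := by
    ext j <;> by_cases h : j ∈ C <;> simp [Finset.piecewise, h]

theorem prod_swpC (m : Z → ℝ) (C : Finset ι) (z w : ι → Z) :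
    (∏ j, m (C.piecewise w z j)) * (∏ j, m (C.piecewise z w j))
      = (∏ j, m (z j)) * (∏ j, m (w j)) := by
  rw [← Finset.prod_mul_distrib, ← Finset.prod_mul_distrib]
  refine Finset.prod_congr rfl fun j _ => ?_
  by_cases h : j ∈ C
  · simp [Finset.piecewise, h, mul_comm]
  · simp [Finset.piecewise, h]

/-- resampling the coordinates in `C` does not change the expectation -/
theorem resampleC {m : Z → ℝ} (hm : ∑ w, m w = 1) (C : Finset ι) (g : (ι → Z) → ℝ) :
    ∑ z : ι → Z, (∏ j, m (z j)) * ∑ w : ι → Z, (∏ j, m (w j)) * g (C.piecewise w z)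
      = ∑ z : ι → Z, (∏ j, m (z j)) * g z := by
  have h1 : ∑ z : ι → Z, (∏ j, m (z j)) * ∑ w : ι → Z, (∏ j, m (w j)) * g (C.piecewise w z)
      = ∑ p : (ι → Z) × (ι → Z),
          ((∏ j, m (p.1 j)) * (∏ j, m (p.2 j))) * g (C.piecewise p.2 p.1) := by
    rw [Fintype.sum_prod_type]
    refine Finset.sum_congr rfl fun z _ => ?_
    rw [Finset.mul_sum]
    refine Finset.sum_congr rfl fun w _ => ?_
    ring
  rw [h1, ← Equiv.sum_comp (swpC C)]
  have h2 : ∀ p : (ι → Z) × (ι → Z),
      ((∏ j, m ((swpC C p).1 j)) * (∏ j, m ((swpC C p).2 j)))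
        * g (C.piecewise (swpC C p).2 (swpC C p).1)
      = ((∏ j, m (p.1 j)) * (∏ j, m (p.2 j))) * g p.1 := by
    intro p
    have e1 : C.piecewise (swpC C p).2 (swpC C p).1 = p.1 := by
      have := (swpC C).left_inv p
      exact congrArg Prod.fst this
    rw [e1]
    have e2 := prod_swpC m C p.1 p.2
    show ((∏ j, m (C.piecewise p.2 p.1 j)) * (∏ j, m (C.piecewise p.1 p.2 j))) * g p.1 = _
    rw [e2]
  rw [Finset.sum_congr rfl (fun p _ => h2 p), Fintype.sum_prod_type]
  refine Finset.sum_congr rfl fun z _ => ?_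
  have h3 : ∀ w : ι → Z, (∏ j, m (z j)) * (∏ j, m (w j)) * g z
      = ((∏ j, m (z j)) * g z) * ∏ j, m (w j) := fun w => by ring
  dsimp only
  rw [Finset.sum_congr rfl (fun w _ => h3 w), ← Finset.mul_sum, sum_prod_one hm, mul_one]

/-- single coordinate resampling -/
theorem resample1 {m : Z → ℝ} (hm0 : ∀ u, 0 ≤ m u) (hm : ∑ w, m w = 1) (i : ι)
    (g : (ι → Z) → ℝ) :
    ∑ z : ι → Z, (∏ j, m (z j)) * ∑ w, m w * g (Function.update z i w)
      = ∑ z : ι → Z, (∏ j, m (z j)) * g z := by
  have hκ : Crest.H26PRTele.RevKer m (fun _ w => m w) :=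
    { nonneg := fun _ w => hm0 w
      rev := fun u w => mul_comm _ _
      sum_one := fun _ _ => hm
      sum_le := fun _ => hm.le
      cls := fun _ _ _ _ => rfl }
  rw [← Crest.H26PRTele.sum_avg hκ i g]
  refine Finset.sum_congr rfl fun z _ => ?_
  rw [Finset.mul_sum]
  refine Finset.sum_congr rfl fun w _ => ?_
  ring

/-- (3) restricted sum: with the coordinates outside `C` fixed, the product weight of the
coordinates in `C`, times a product function, sums to a power -/
theorem sum_piecewise_prod {m : Z → ℝ} (hm : ∑ w, m w = 1) (f : Z → ℝ) (C : Finset ι)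
    (z : ι → Z) :
    ∑ w : ι → Z, (∏ j, m (w j)) * ∏ i ∈ C, f (C.piecewise w z i) = (∑ u, m u * f u) ^ C.card := by
  rw [← sum_prod_mul_prod hm f C]
  refine Finset.sum_congr rfl fun w _ => ?_
  congr 1
  refine Finset.prod_congr rfl fun i hi => ?_
  rw [Finset.piecewise_eq_of_mem _ _ _ hi]

end generic


/-! ### games -/

variable {G : Game} {k dA dB : ℕ} {v : ℝ}

theorem bra_sum_left {α β κ : Type*} [Fintype α] [Fintype β] (s : Finset κ) (ψ : α × β → ℂ)
    (A : κ → Matrix α α ℂ) (B : Matrix β β ℂ) :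
    bra ψ (∑ a ∈ s, A a) B = ∑ a ∈ s, bra ψ (A a) B :=
  map_sum (AddMonoidHom.mk' (fun A : Matrix α α ℂ => bra ψ A B)
    (fun A A' => bra_add_left ψ A A' B)) A s

theorem bra_sum_right {α β κ : Type*} [Fintype α] [Fintype β] (s : Finset κ) (ψ : α × β → ℂ)
    (A : Matrix α α ℂ) (B : κ → Matrix β β ℂ) :
    bra ψ A (∑ a ∈ s, B a) = ∑ a ∈ s, bra ψ A (B a) :=
  map_sum (AddMonoidHom.mk' (fun B : Matrix β β ℂ => bra ψ A B)
    (fun B B' => bra_add_right ψ A B B')) B s

theorem bra_one_one {α β : Type*} [Fintype α] [Fintype β] [DecidableEq α] [DecidableEq β]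
    (ψ : α × β → ℂ) : bra ψ (1 : Matrix α α ℂ) (1 : Matrix β β ℂ) = nsq ψ := by
  unfold bra nsq
  rw [Matrix.one_kronecker_one, Matrix.one_mulVec]
  unfold dotProduct
  rw [Complex.re_sum]
  refine Finset.sum_congr rfl fun i _ => ?_
  rw [Pi.star_apply, Complex.star_def, Complex.conj_mul']
  norm_cast

theorem bra_zero_left {α β : Type*} [Fintype α] [Fintype β] (ψ : α × β → ℂ)
    (B : Matrix β β ℂ) : bra ψ (0 : Matrix α α ℂ) B = 0 :=
  map_zero (AddMonoidHom.mk' (fun A : Matrix α α ℂ => bra ψ A B)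
    (fun A A' => bra_add_left ψ A A' B))

theorem bra_zero_right {α β : Type*} [Fintype α] [Fintype β] (ψ : α × β → ℂ)
    (A : Matrix α α ℂ) : bra ψ A (0 : Matrix β β ℂ) = 0 :=
  map_zero (AddMonoidHom.mk' (fun B : Matrix β β ℂ => bra ψ A B)
    (fun B B' => bra_add_right ψ A B B'))

theorem answerProb_eq_bra (S : Strategy G k dA dB) (x : Fin k → Fin G.nX) (y : Fin k → Fin G.nY)
    (a : Fin k → Fin G.nA) (b : Fin k → Fin G.nB) :
    S.answerProb x y a b = bra S.ψ (S.M x a) (S.N y b) := rfl

theorem answerProb_nonneg (S : Strategy G k dA dB) (x : Fin k → Fin G.nX) (y : Fin k → Fin G.nY)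
    (a : Fin k → Fin G.nA) (b : Fin k → Fin G.nB) : 0 ≤ S.answerProb x y a b := by
  rw [answerProb_eq_bra]
  exact bra_nonneg _ (S.M_posSemidef _ _) (S.N_posSemidef _ _)

theorem sum_answerProb (S : Strategy G k dA dB) (x : Fin k → Fin G.nX) (y : Fin k → Fin G.nY) :
    ∑ a, ∑ b, S.answerProb x y a b = 1 := by
  simp only [answerProb_eq_bra]
  simp only [← bra_sum_right, S.N_sum]
  rw [← bra_sum_left, S.M_sum, bra_one_one]
  exact S.ψ_norm

/-- a question pair has an accepted answer pair -/
noncomputable def accInd (G : Game) (u : Fin G.nX × Fin G.nY) : ℝ :=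
  if (∃ a b, G.accept u.1 u.2 a b = true) then 1 else 0

theorem accInd_nonneg (G : Game) (u : Fin G.nX × Fin G.nY) : 0 ≤ accInd G u := by
  unfold accInd; split_ifs <;> norm_num

theorem accInd_le_one (G : Game) (u : Fin G.nX × Fin G.nY) : accInd G u ≤ 1 := by
  unfold accInd; split_ifs <;> norm_num

/-- weight of a question pair -/
def mG (G : Game) (u : Fin G.nX × Fin G.nY) : ℝ := G.prob u.1 u.2

theorem mG_nonneg (G : Game) (u : Fin G.nX × Fin G.nY) : 0 ≤ mG G u := G.prob_nonneg _ _

theorem mG_sum (G : Game) : ∑ u, mG G u = 1 := by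
  rw [Fintype.sum_prod_type]; exact G.prob_sum

theorem qAcc_eq (G : Game) : ∑ u, mG G u * accInd G u = qAcc G := by
  unfold qAcc
  rw [Fintype.sum_prod_type]
  refine Finset.sum_congr rfl fun x _ => Finset.sum_congr rfl fun y _ => ?_
  unfold mG accInd
  dsimp only
  split_ifs <;> simp

theorem qAcc_nonneg (G : Game) : 0 ≤ qAcc G := by
  rw [← qAcc_eq]
  exact Finset.sum_nonneg fun u _ => mul_nonneg (mG_nonneg G u) (accInd_nonneg G u)

theorem qAcc_le_one (G : Game) : qAcc G ≤ 1 := by
  rw [← qAcc_eq, ← mG_sum G]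
  refine Finset.sum_le_sum fun u _ => ?_
  have := mul_le_mul_of_nonneg_left (accInd_le_one G u) (mG_nonneg G u)
  simpa using this

/-- winning predicate on `C` -/
def WinOn (G : Game) {k : ℕ} (C : Finset (Fin k)) (x : Fin k → Fin G.nX) (y : Fin k → Fin G.nY)
    (a : Fin k → Fin G.nA) (b : Fin k → Fin G.nB) : Prop :=
  ∀ i ∈ C, G.accept (x i) (y i) (a i) (b i) = true

instance (G : Game) {k : ℕ} (C : Finset (Fin k)) (x : Fin k → Fin G.nX) (y : Fin k → Fin G.nY)
    (a : Fin k → Fin G.nA) (b : Fin k → Fin G.nB) : Decidable (WinOn G C x y a b) := by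
  unfold WinOn; infer_instance

theorem subset_wset_iff (C : Finset (Fin k)) (o : Out G k) :
    C ⊆ wset G k o ↔ WinOn G C o.1 o.2.1 o.2.2.1 o.2.2.2 := by
  unfold wset WinOn
  constructor
  · intro h i hi
    have := h hi
    simpa using this
  · intro h i hi
    simpa using h i hi

/-- `PW` as a sum over question strings -/
theorem PW_eq (S : Strategy G k dA dB) (C : Finset (Fin k)) :
    PW S C = ∑ x : Fin k → Fin G.nX, ∑ y : Fin k → Fin G.nY, (∏ i, G.prob (x i) (y i)) *
      ∑ a, ∑ b, if WinOn G C x y a b then S.answerProb x y a b else 0 := by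
  unfold PW
  rw [Fintype.sum_prod_type]
  refine Finset.sum_congr rfl fun x _ => ?_
  rw [Fintype.sum_prod_type]
  refine Finset.sum_congr rfl fun y _ => ?_
  rw [Fintype.sum_prod_type, Finset.mul_sum]
  refine Finset.sum_congr rfl fun a _ => ?_
  rw [Finset.mul_sum]
  refine Finset.sum_congr rfl fun b _ => ?_
  by_cases h : WinOn G C x y a b
  · rw [if_pos ((subset_wset_iff C (x, y, a, b)).2 h), if_pos h]
    rfl
  · rw [if_neg (fun h' => h ((subset_wset_iff C (x, y, a, b)).1 h')), if_neg h, mul_zero]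

/-- sums over pairs of strings and over strings of pairs -/
theorem sum_strings {X Y : Type*} [Fintype X] [Fintype Y] (F : (Fin k → X) → (Fin k → Y) → ℝ) :
    ∑ x : Fin k → X, ∑ y : Fin k → Y, F x y
      = ∑ z : Fin k → X × Y, F (fun j => (z j).1) (fun j => (z j).2) := by
  rw [← Fintype.sum_prod_type']
  exact (Fintype.sum_equiv (Equiv.arrowProdEquivProdArrow _ _ _) _ _ (fun z => rfl)).symm

theorem PW_eq_z (S : Strategy G k dA dB) (C : Finset (Fin k)) :
    PW S C = ∑ z : Fin k → Fin G.nX × Fin G.nY, (∏ i, mG G (z i)) *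
      ∑ a, ∑ b, if WinOn G C (fun j => (z j).1) (fun j => (z j).2) a b then
        S.answerProb (fun j => (z j).1) (fun j => (z j).2) a b else 0 := by
  rw [PW_eq, sum_strings]
  rfl

theorem prod_accInd_of_win {C : Finset (Fin k)} {x : Fin k → Fin G.nX} {y : Fin k → Fin G.nY}
    {a : Fin k → Fin G.nA} {b : Fin k → Fin G.nB} (h : WinOn G C x y a b) :
    ∏ i ∈ C, accInd G (x i, y i) = 1 := by
  refine Finset.prod_eq_one fun i hi => ?_
  unfold accInd
  rw [if_pos ⟨a i, b i, h i hi⟩]

theorem prod_accInd_nonneg (C : Finset (Fin k)) (z : Fin k → Fin G.nX × Fin G.nY) :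
    0 ≤ ∏ i ∈ C, accInd G (z i) := Finset.prod_nonneg fun i _ => accInd_nonneg G _

/-- inner sums are at most the indicator that every coordinate in `C` is winnable -/
theorem inner_le (S : Strategy G k dA dB) (C : Finset (Fin k)) (x : Fin k → Fin G.nX)
    (y : Fin k → Fin G.nY) :
    (∑ a, ∑ b, if WinOn G C x y a b then S.answerProb x y a b else 0)
      ≤ ∏ i ∈ C, accInd G (x i, y i) := by
  have h0 : 0 ≤ ∏ i ∈ C, accInd G (x i, y i) := Finset.prod_nonneg fun i _ => accInd_nonneg G _
  calc (∑ a, ∑ b, if WinOn G C x y a b then S.answerProb x y a b else 0)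
      ≤ ∑ a, ∑ b, (∏ i ∈ C, accInd G (x i, y i)) * S.answerProb x y a b := by
        refine Finset.sum_le_sum fun a _ => Finset.sum_le_sum fun b _ => ?_
        split_ifs with h
        · rw [prod_accInd_of_win h, one_mul]
        · exact mul_nonneg h0 (answerProb_nonneg S x y a b)
    _ = ∏ i ∈ C, accInd G (x i, y i) := by
        simp only [← Finset.mul_sum]
        rw [sum_answerProb, mul_one]

/-- (2) -/
theorem PW_le_qAcc (S : Strategy G k dA dB) (C : Finset (Fin k)) :
    PW S C ≤ qAcc G ^ C.card := by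
  rw [PW_eq_z, ← qAcc_eq, ← sum_prod_mul_prod (mG_sum G) (accInd G) C]
  refine Finset.sum_le_sum fun z _ => ?_
  refine mul_le_mul_of_nonneg_left ?_ (Finset.prod_nonneg fun i _ => mG_nonneg G _)
  exact inner_le S C _ _

theorem PW_nonneg (S : Strategy G k dA dB) (C : Finset (Fin k)) : 0 ≤ PW S C := by
  rw [PW_eq_z]
  refine Finset.sum_nonneg fun z _ => mul_nonneg (Finset.prod_nonneg fun i _ => mG_nonneg G _) ?_
  refine Finset.sum_nonneg fun a _ => Finset.sum_nonneg fun b _ => ?_
  split_ifs
  · exact answerProb_nonneg S _ _ _ _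
  · exact le_refl _

theorem PW_le_one (S : Strategy G k dA dB) (C : Finset (Fin k)) : PW S C ≤ 1 :=
  (PW_le_qAcc S C).trans (pow_le_one₀ (qAcc_nonneg G) (qAcc_le_one G))

theorem PW_empty (S : Strategy G k dA dB) : PW S ∅ = 1 := by
  rw [PW_eq_z]
  have h : ∀ z : Fin k → Fin G.nX × Fin G.nY, (∑ a, ∑ b,
      if WinOn G ∅ (fun j => (z j).1) (fun j => (z j).2) a b then
        S.answerProb (fun j => (z j).1) (fun j => (z j).2) a b else 0) = 1 := by
    intro z
    rw [← sum_answerProb S (fun j => (z j).1) (fun j => (z j).2)]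
    refine Finset.sum_congr rfl fun a _ => Finset.sum_congr rfl fun b _ => ?_
    rw [if_pos]
    intro i hi
    simp at hi
  simp only [h, mul_one]
  exact sum_prod_one (mG_sum G)

/-- answer sets are nonempty as soon as there is a strategy for `k ≥ 1` repetitions -/
theorem nA_pos (S : Strategy G k dA dB) (i : Fin k) : 0 < G.nA := by
  by_contra h
  have hA : G.nA = 0 := by omega
  have hx : Nonempty (Fin k → Fin G.nX) := by
    by_contra hne
    have h1 := sum_prod_one (ι := Fin k) (mG_sum G)
    have : IsEmpty (Fin k → Fin G.nX × Fin G.nY) := by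
      refine ⟨fun z => hne ⟨fun j => (z j).1⟩⟩
    rw [Fintype.sum_empty] at h1
    exact zero_ne_one h1
  have hy : Nonempty (Fin k → Fin G.nY) := by
    by_contra hne
    have h1 := sum_prod_one (ι := Fin k) (mG_sum G)
    have : IsEmpty (Fin k → Fin G.nX × Fin G.nY) := by
      refine ⟨fun z => hne ⟨fun j => (z j).2⟩⟩
    rw [Fintype.sum_empty] at h1
    exact zero_ne_one h1
  obtain ⟨x⟩ := hx
  obtain ⟨y⟩ := hy
  have h2 := sum_answerProb S x y
  have : IsEmpty (Fin k → Fin G.nA) := ⟨fun a => by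
    have := a i
    rw [hA] at this
    exact this.elim0⟩
  rw [Fintype.sum_empty] at h2
  exact zero_ne_one h2

theorem nB_pos (S : Strategy G k dA dB) (i : Fin k) : 0 < G.nB := by
  by_contra h
  have hB : G.nB = 0 := by omega
  have hz : Nonempty (Fin k → Fin G.nX × Fin G.nY) := by
    by_contra hne
    have h1 := sum_prod_one (ι := Fin k) (mG_sum G)
    have : IsEmpty (Fin k → Fin G.nX × Fin G.nY) := not_nonempty_iff.1 hne
    rw [Fintype.sum_empty] at h1
    exact zero_ne_one h1
  obtain ⟨z⟩ := hz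
  have h2 := sum_answerProb S (fun j => (z j).1) (fun j => (z j).2)
  have : IsEmpty (Fin k → Fin G.nB) := ⟨fun a => by
    have := a i
    rw [hB] at this
    exact this.elim0⟩
  simp only [Fintype.sum_empty, Finset.sum_const_zero] at h2
  exact zero_ne_one h2

/-- (1) -/
theorem qAcc_le (hv : ValLe G v) : qAcc G ≤ v * ((G.nA * G.nB : ℕ) : ℝ) := by
  classical
  rcases Nat.eq_zero_or_pos G.nA with hA | hA
  · have : qAcc G = 0 := by
      unfold qAcc
      refine Finset.sum_eq_zero fun x _ => Finset.sum_eq_zero fun y _ => ?_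
      rw [if_neg]
      rintro ⟨a, -⟩
      rw [hA] at a
      exact a.elim0
    rw [this, hA]; simp
  rcases Nat.eq_zero_or_pos G.nB with hB | hB
  · have : qAcc G = 0 := by
      unfold qAcc
      refine Finset.sum_eq_zero fun x _ => Finset.sum_eq_zero fun y _ => ?_
      rw [if_neg]
      rintro ⟨a, b, -⟩
      rw [hB] at b
      exact b.elim0
    rw [this, hB]; simp
  have hA' : (0 : ℝ) < G.nA := by exact_mod_cast hA
  have hB' : (0 : ℝ) < G.nB := by exact_mod_cast hB
  have hps : ∀ (n : ℕ), ((((n : ℝ)⁻¹ : ℝ) : ℂ) • (1 : Matrix (Fin 1) (Fin 1) ℂ)).PosSemidef := by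
    intro n
    refine Matrix.PosSemidef.one.smul ?_
    rw [Complex.le_def]
    constructor
    · simp
    · simp
  have h := oneshot (G := G) (v := v) hv hA hB (α := Fin 1) (β := Fin 1) (fun _ => 1)
    (fun _ _ => (((G.nA : ℝ)⁻¹ : ℝ) : ℂ) • (1 : Matrix (Fin 1) (Fin 1) ℂ))
    (fun _ _ => (((G.nB : ℝ)⁻¹ : ℝ) : ℂ) • (1 : Matrix (Fin 1) (Fin 1) ℂ))
    (fun _ _ => hps _) (fun _ _ => hps _)
    (fun _ => by
      have : (∑ _a : Fin G.nA, (((G.nA : ℝ)⁻¹ : ℝ) : ℂ) • (1 : Matrix (Fin 1) (Fin 1) ℂ)) = 1 := by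
        rw [Finset.sum_const, Finset.card_univ, Fintype.card_fin, ← Nat.cast_smul_eq_nsmul ℂ,
          smul_smul]
        have : ((G.nA : ℂ) * (((G.nA : ℝ)⁻¹ : ℝ) : ℂ)) = 1 := by
          push_cast
          exact mul_inv_cancel₀ (by exact_mod_cast hA'.ne')
        rw [this, one_smul]
      rw [this, sub_self]
      exact Matrix.PosSemidef.zero)
    (fun _ => by
      have : (∑ _a : Fin G.nB, (((G.nB : ℝ)⁻¹ : ℝ) : ℂ) • (1 : Matrix (Fin 1) (Fin 1) ℂ)) = 1 := by
        rw [Finset.sum_const, Finset.card_univ, Fintype.card_fin, ← Nat.cast_smul_eq_nsmul ℂ,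
          smul_smul]
        have : ((G.nB : ℂ) * (((G.nB : ℝ)⁻¹ : ℝ) : ℂ)) = 1 := by
          push_cast
          exact mul_inv_cancel₀ (by exact_mod_cast hB'.ne')
        rw [this, one_smul]
      rw [this, sub_self]
      exact Matrix.PosSemidef.zero)
  have hn : ∑ _i : Fin 1 × Fin 1, ‖(1 : ℂ)‖ ^ 2 = 1 := by simp
  rw [hn, mul_one] at h
  have hbra : bra (fun _ : Fin 1 × Fin 1 => (1 : ℂ))
      ((((G.nA : ℝ)⁻¹ : ℝ) : ℂ) • (1 : Matrix (Fin 1) (Fin 1) ℂ))
      ((((G.nB : ℝ)⁻¹ : ℝ) : ℂ) • (1 : Matrix (Fin 1) (Fin 1) ℂ)) = (G.nA : ℝ)⁻¹ * (G.nB : ℝ)⁻¹ := by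
    unfold bra
    simp only [dotProduct, Matrix.mulVec, Fintype.sum_prod_type, Finset.univ_unique,
      Finset.sum_singleton, Matrix.kroneckerMap_apply, Matrix.smul_apply]
    simp [-Complex.ofReal_inv]
  have hval : qAcc G * ((G.nA : ℝ)⁻¹ * (G.nB : ℝ)⁻¹) ≤ v := by
    refine le_trans ?_ h
    unfold val1 qAcc
    rw [Finset.sum_mul]
    refine Finset.sum_le_sum fun x _ => ?_
    rw [Finset.sum_mul]
    refine Finset.sum_le_sum fun y _ => ?_
    dsimp only
    rw [hbra]
    have hc : (0 : ℝ) ≤ (G.nA : ℝ)⁻¹ * (G.nB : ℝ)⁻¹ := by positivity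
    split_ifs with hex
    · refine mul_le_mul_of_nonneg_left ?_ (G.prob_nonneg x y)
      obtain ⟨a, b, hab⟩ := hex
      calc (G.nA : ℝ)⁻¹ * (G.nB : ℝ)⁻¹
          = (if G.accept x y a b = true then (G.nA : ℝ)⁻¹ * (G.nB : ℝ)⁻¹ else 0) := by
            rw [if_pos hab]
        _ ≤ ∑ b', (if G.accept x y a b' = true then (G.nA : ℝ)⁻¹ * (G.nB : ℝ)⁻¹ else 0) := by
            refine Finset.single_le_sum (f := fun b' => if G.accept x y a b' = true then
              (G.nA : ℝ)⁻¹ * (G.nB : ℝ)⁻¹ else 0) (fun b' _ => ?_) (Finset.mem_univ b)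
            split_ifs
            · exact hc
            · exact le_refl _
        _ ≤ _ := by
            refine Finset.single_le_sum (f := fun a' => ∑ b', if G.accept x y a' b' = true then
              (G.nA : ℝ)⁻¹ * (G.nB : ℝ)⁻¹ else 0) (fun a' _ => ?_) (Finset.mem_univ a)
            refine Finset.sum_nonneg fun b' _ => ?_
            split_ifs
            · exact hc
            · exact le_refl _
    · rw [zero_mul]
      refine mul_nonneg (G.prob_nonneg x y) ?_
      refine Finset.sum_nonneg fun a _ => Finset.sum_nonneg fun b _ => ?_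
      split_ifs
      · exact hc
      · exact le_refl _
  have hAB : (0 : ℝ) < G.nA * G.nB := mul_pos hA' hB'
  have h3 : qAcc G * ((G.nA : ℝ)⁻¹ * (G.nB : ℝ)⁻¹) = qAcc G / (G.nA * G.nB) := by
    rw [div_eq_mul_inv, mul_inv]
  rw [h3, div_le_iff₀ hAB] at hval
  push_cast
  exact hval

/-- (4) -/
theorem PW_singleton_le (hv : ValLe G v) (S : Strategy G k dA dB) (i : Fin k) :
    PW S {i} ≤ v := by
  classical
  have hA := nA_pos S i
  have hB := nB_pos S i
  rw [PW_eq_z]
  rw [← resample1 (mG_nonneg G) (mG_sum G) i]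
  have hkey : ∀ z : Fin k → Fin G.nX × Fin G.nY, (∑ u, mG G u * ∑ a, ∑ b,
      if WinOn G {i} (fun j => (Function.update z i u j).1) (fun j => (Function.update z i u j).2) a b
        then S.answerProb (fun j => (Function.update z i u j).1)
          (fun j => (Function.update z i u j).2) a b else 0) ≤ v := by
    intro z
    have h := oneshot (G := G) (v := v) hv hA hB S.ψ
      (fun x a => ∑ α, if α i = a then S.M (Function.update (fun j => (z j).1) i x) α else 0)
      (fun y b => ∑ β, if β i = b then S.N (Function.update (fun j => (z j).2) i y) β else 0)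
      (fun x a => Matrix.posSemidef_sum _ fun α _ => by
        split_ifs
        · exact S.M_posSemidef _ _
        · exact Matrix.PosSemidef.zero)
      (fun y b => Matrix.posSemidef_sum _ fun β _ => by
        split_ifs
        · exact S.N_posSemidef _ _
        · exact Matrix.PosSemidef.zero)
      (fun x => by
        rw [Finset.sum_comm]
        simp only [Finset.sum_ite_eq, Finset.mem_univ, if_true, S.M_sum, sub_self]
        exact Matrix.PosSemidef.zero)
      (fun y => by
        rw [Finset.sum_comm]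
        simp only [Finset.sum_ite_eq, Finset.mem_univ, if_true, S.N_sum, sub_self]
        exact Matrix.PosSemidef.zero)
    rw [S.ψ_norm, mul_one] at h
    refine le_trans (le_of_eq ?_) h
    unfold val1
    rw [Fintype.sum_prod_type]
    refine Finset.sum_congr rfl fun x _ => Finset.sum_congr rfl fun y _ => ?_
    unfold mG
    dsimp only
    congr 1
    have e1 : (fun j => (Function.update z i (x, y) j).1)
        = Function.update (fun j => (z j).1) i x := by
      funext j
      by_cases hj : j = i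
      · subst hj; simp
      · simp [Function.update_of_ne hj]
    have e2 : (fun j => (Function.update z i (x, y) j).2)
        = Function.update (fun j => (z j).2) i y := by
      funext j
      by_cases hj : j = i
      · subst hj; simp
      · simp [Function.update_of_ne hj]
    rw [e1, e2]
    -- both sides
    have hR : ∀ a b, (if G.accept x y a b = true then bra S.ψ
        (∑ α, if α i = a then S.M (Function.update (fun j => (z j).1) i x) α else 0)
        (∑ β, if β i = b then S.N (Function.update (fun j => (z j).2) i y) β else 0) else 0)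
        = ∑ α, ∑ β, (if α i = a ∧ β i = b ∧ G.accept x y (α i) (β i) = true then
          S.answerProb (Function.update (fun j => (z j).1) i x)
            (Function.update (fun j => (z j).2) i y) α β else 0) := by
      intro a b
      split_ifs with hacc
      · rw [bra_sum_left]
        refine Finset.sum_congr rfl fun α _ => ?_
        rw [bra_sum_right]
        refine Finset.sum_congr rfl fun β _ => ?_
        by_cases h1 : α i = a
        · by_cases h2 : β i = b
          · rw [if_pos h1, if_pos h2, if_pos ⟨h1, h2, by rw [h1, h2]; exact hacc⟩]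
            rfl
          · rw [if_neg h2, bra_zero_right, if_neg (fun h => h2 h.2.1)]
        · rw [if_neg h1, bra_zero_left, if_neg (fun h => h1 h.1)]
      · symm
        refine Finset.sum_eq_zero fun α _ => Finset.sum_eq_zero fun β _ => ?_
        rw [if_neg]
        rintro ⟨h1, h2, h3⟩
        rw [h1, h2] at h3
        exact hacc h3
    simp only [hR]
    -- exchange sums
    have hswap : ∀ (F : (Fin k → Fin G.nA) → (Fin k → Fin G.nB) → ℝ),
        ∑ a, ∑ b, ∑ α, ∑ β, (if α i = a ∧ β i = b ∧ G.accept x y (α i) (β i) = true then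
          F α β else 0) = ∑ α, ∑ β, if G.accept x y (α i) (β i) = true then F α β else 0 := by
      intro F
      have s1 : ∀ a, ∑ b, ∑ α, ∑ β, (if α i = a ∧ β i = b ∧ G.accept x y (α i) (β i) = true then
          F α β else 0) = ∑ α, ∑ β, (if α i = a ∧ G.accept x y (α i) (β i) = true then
          F α β else 0) := by
        intro a
        rw [Finset.sum_comm]
        refine Finset.sum_congr rfl fun α _ => ?_
        rw [Finset.sum_comm]
        refine Finset.sum_congr rfl fun β _ => ?_
        by_cases h1 : α i = a ∧ G.accept x y (α i) (β i) = true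
        · rw [if_pos h1]
          rw [Finset.sum_eq_single (β i)]
          · rw [if_pos ⟨h1.1, rfl, h1.2⟩]
          · intro b _ hb
            rw [if_neg (fun h => hb h.2.1.symm)]
          · intro h; exact absurd (Finset.mem_univ _) h
        · rw [if_neg h1]
          refine Finset.sum_eq_zero fun b _ => ?_
          rw [if_neg (fun h => h1 ⟨h.1, h.2.2⟩)]
      rw [Finset.sum_congr rfl (fun a _ => s1 a)]
      rw [Finset.sum_comm]
      refine Finset.sum_congr rfl fun α _ => ?_
      rw [Finset.sum_comm]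
      refine Finset.sum_congr rfl fun β _ => ?_
      by_cases h1 : G.accept x y (α i) (β i) = true
      · rw [if_pos h1]
        rw [Finset.sum_eq_single (α i)]
        · rw [if_pos ⟨rfl, h1⟩]
        · intro b _ hb
          rw [if_neg (fun h => hb h.1.symm)]
        · intro h; exact absurd (Finset.mem_univ _) h
      · rw [if_neg h1]
        refine Finset.sum_eq_zero fun b _ => ?_
        rw [if_neg (fun h => h1 h.2)]
    rw [hswap]
    refine Finset.sum_congr rfl fun α _ => Finset.sum_congr rfl fun β _ => ?_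
    have hW : WinOn G {i} (Function.update (fun j => (z j).1) i x)
        (Function.update (fun j => (z j).2) i y) α β ↔ G.accept x y (α i) (β i) = true := by
      unfold WinOn
      simp
    by_cases h1 : G.accept x y (α i) (β i) = true
    · rw [if_pos (hW.2 h1), if_pos h1]
    · rw [if_neg (fun h => h1 (hW.1 h)), if_neg h1]
  calc _ ≤ ∑ z : Fin k → Fin G.nX × Fin G.nY, (∏ j, mG G (z j)) * v := by
        refine Finset.sum_le_sum fun z _ => ?_
        exact mul_le_mul_of_nonneg_left (hkey z) (Finset.prod_nonneg fun i _ => mG_nonneg G _)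
    _ = v := by
        rw [← Finset.sum_mul, sum_prod_one (mG_sum G), one_mul]

end Crest.PR
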