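import Crest.Agent.H16PRFam
import Crest.Agent.H5PRQacc

/-!
H5PRFamWin (P2 of the ASM split, rid 342): the winning probability on `insert i C` in terms of the
families `MCi`, `NCi`.
-/

set_option autoImplicit false
set_option linter.unusedSectionVars false
set_option linter.unusedVariables false

open scoped Kronecker ComplexOrder BigOperators
open Crest.MathPhysics.NonlocalGame

namespace Crest.H16PR

open Crest.PR Crest.H26OneShot Crest.H26PRTele

variable {G : Game} {k dA dB : ℕ}

theorem bra_MCi_NCi (S : Strategy G k dA dB) (C : Finset (Fin k)) (o : OC G C) (i : Fin k)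
    (α : Fin G.nA) (β : Fin G.nB) (z : Fin k → Zt G) :
    bra S.ψ (MCi S C o i α z) (NCi S C o i β z)
      = ∑ a : Fin k → Fin G.nA, ∑ b : Fin k → Fin G.nB,
        if ((∀ i : ↥C, a i = o.1 i) ∧ a i = α) ∧ ((∀ i : ↥C, b i = o.2 i) ∧ b i = β) then
          S.answerProb (fun j => (z j).1) (fun j => (z j).2) a b else 0 := by
  unfold MCi NCi
  rw [bra_sum_left]
  refine Finset.sum_congr rfl fun a _ => ?_
  rw [bra_sum_right]
  refine Finset.sum_congr rfl fun b _ => ?_
  by_cases h1 : (∀ i : ↥C, a i = o.1 i) ∧ a i = α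
  · by_cases h2 : (∀ i : ↥C, b i = o.2 i) ∧ b i = β
    · rw [if_pos h1, if_pos h2, if_pos ⟨h1, h2⟩]
      rfl
    · rw [if_neg h2, bra_zero_right, if_neg (fun h => h2 h.2)]
  · rw [if_neg h1, bra_zero_left, if_neg (fun h => h1 h.1)]

theorem sum_select {T P : Type*} [Fintype T] [Fintype P] [DecidableEq T] (c : T → ℝ)
    (f : P → ℝ) (τ : P → T) :
    ∑ t : T, c t * ∑ p : P, (if t = τ p then f p else 0) = ∑ p : P, c (τ p) * f p := by
  have h1 : ∀ t : T, c t * ∑ p : P, (if t = τ p then f p else 0)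
      = ∑ p : P, (if t = τ p then c t * f p else 0) := by
    intro t
    rw [Finset.mul_sum]
    refine Finset.sum_congr rfl fun p _ => ?_
    split_ifs <;> simp
  rw [Finset.sum_congr rfl (fun t _ => h1 t), Finset.sum_comm]
  refine Finset.sum_congr rfl fun p _ => ?_
  rw [Finset.sum_ite_eq' Finset.univ (τ p)]
  simp

theorem inner_win (S : Strategy G k dA dB) (C : Finset (Fin k)) (i : Fin k)
    (z : Fin k → Zt G) :
    ∑ o : OC G C, ∑ α : Fin G.nA, ∑ β : Fin G.nB,
      (uC G C o z * (if G.accept (z i).1 (z i).2 α β = true then 1 else 0)) *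
        bra S.ψ (MCi S C o i α z) (NCi S C o i β z)
      = ∑ a, ∑ b, if WinOn G (insert i C) (fun j => (z j).1) (fun j => (z j).2) a b then
          S.answerProb (fun j => (z j).1) (fun j => (z j).2) a b else 0 := by
  classical
  have key := sum_select (T := OC G C × Fin G.nA × Fin G.nB)
    (P := (Fin k → Fin G.nA) × (Fin k → Fin G.nB))
    (fun t => uC G C t.1 z * (if G.accept (z i).1 (z i).2 t.2.1 t.2.2 = true then 1 else 0))
    (fun p => S.answerProb (fun j => (z j).1) (fun j => (z j).2) p.1 p.2)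
    (fun p => ((fun j : ↥C => p.1 j, fun j : ↥C => p.2 j), p.1 i, p.2 i))
  have hL : ∑ o : OC G C, ∑ α : Fin G.nA, ∑ β : Fin G.nB,
      (uC G C o z * (if G.accept (z i).1 (z i).2 α β = true then 1 else 0)) *
        bra S.ψ (MCi S C o i α z) (NCi S C o i β z)
      = ∑ t : OC G C × Fin G.nA × Fin G.nB,
        (uC G C t.1 z * (if G.accept (z i).1 (z i).2 t.2.1 t.2.2 = true then 1 else 0)) *
        ∑ p : (Fin k → Fin G.nA) × (Fin k → Fin G.nB),
          (if t = (((fun j => p.1 j, fun j => p.2 j), p.1 i, p.2 i) :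
              OC G C × Fin G.nA × Fin G.nB) then
            S.answerProb (fun j => (z j).1) (fun j => (z j).2) p.1 p.2 else 0) := by
    refine Eq.trans ?_ (Fintype.sum_prod_type _).symm
    refine Finset.sum_congr rfl fun o _ => ?_
    refine Eq.trans ?_ (Fintype.sum_prod_type _).symm
    refine Finset.sum_congr rfl fun α _ => Finset.sum_congr rfl fun β _ => ?_
    rw [bra_MCi_NCi, Fintype.sum_prod_type]
    refine congrArg₂ (· * ·) rfl ?_
    refine Finset.sum_congr rfl fun a _ => Finset.sum_congr rfl fun b _ => ?_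
    have hiff : (((∀ i : ↥C, a i = o.1 i) ∧ a i = α) ∧ ((∀ i : ↥C, b i = o.2 i) ∧ b i = β)) ↔
        ((o, α, β) : OC G C × Fin G.nA × Fin G.nB)
          = ((fun j : ↥C => a j, fun j : ↥C => b j), a i, b i) := by
      constructor
      · rintro ⟨⟨h1, h2⟩, h3, h4⟩
        refine Prod.ext (Prod.ext ?_ ?_) (Prod.ext ?_ ?_)
        · funext j; exact (h1 j).symm
        · funext j; exact (h3 j).symm
        · exact h2.symm
        · exact h4.symm
      · intro h
        have e1 := congrArg (fun t : OC G C × Fin G.nA × Fin G.nB => t.1.1) h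
        have e2 := congrArg (fun t : OC G C × Fin G.nA × Fin G.nB => t.1.2) h
        have e3 := congrArg (fun t : OC G C × Fin G.nA × Fin G.nB => t.2.1) h
        have e4 := congrArg (fun t : OC G C × Fin G.nA × Fin G.nB => t.2.2) h
        dsimp only at e1 e2 e3 e4
        refine ⟨⟨fun j => ?_, e3.symm⟩, fun j => ?_, e4.symm⟩
        · rw [e1]
        · rw [e2]
    by_cases hc : ((∀ i : ↥C, a i = o.1 i) ∧ a i = α) ∧ ((∀ i : ↥C, b i = o.2 i) ∧ b i = β)
    · rw [if_pos hc, if_pos (hiff.1 hc)]
    · rw [if_neg hc, if_neg (fun h => hc (hiff.2 h))]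
  rw [hL, key, Fintype.sum_prod_type]
  refine Finset.sum_congr rfl fun a _ => Finset.sum_congr rfl fun b _ => ?_
  dsimp only
  unfold uC
  dsimp only
  have hW : WinOn G (insert i C) (fun j => (z j).1) (fun j => (z j).2) a b ↔
      (∀ j : ↥C, G.accept (z j).1 (z j).2 (a j) (b j) = true) ∧
        G.accept (z i).1 (z i).2 (a i) (b i) = true := by
    unfold WinOn
    constructor
    · intro h
      exact ⟨fun j => h j (Finset.mem_insert_of_mem j.2), h i (Finset.mem_insert_self i C)⟩
    · rintro ⟨h1, h2⟩ j hj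
      rcases Finset.mem_insert.1 hj with h | h
      · subst h; exact h2
      · exact h1 ⟨j, h⟩
  by_cases h1 : (∀ j : ↥C, G.accept (z j).1 (z j).2 (a j) (b j) = true)
  · by_cases h2 : G.accept (z i).1 (z i).2 (a i) (b i) = true
    · rw [if_pos h1, if_pos h2, if_pos (hW.2 ⟨h1, h2⟩)]; ring
    · rw [if_pos h1, if_neg h2, if_neg (fun h => h2 (hW.1 h).2)]; ring
  · rw [if_neg h1, if_neg (fun h => h1 (hW.1 h).1)]; ring

/-- P2 of the ASM split -/
theorem famsum_win (S : Strategy G k dA dB) (C : Finset (Fin k)) (i : Fin k) (hi : i ∉ C) :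
    ∑ o : OC G C, ∑ α : Fin G.nA, ∑ β : Fin G.nB,
      Ex (mu G) (fun z => uC G C o z * (if G.accept (z i).1 (z i).2 α β = true then 1 else 0))
        (fun z => bra S.ψ (MCi S C o i α z) (NCi S C o i β z)) = PW S (insert i C) := by
  rw [PW_eq_z]
  have h1 : ∀ (o : OC G C) (α : Fin G.nA) (β : Fin G.nB),
      Ex (mu G) (fun z => uC G C o z * (if G.accept (z i).1 (z i).2 α β = true then 1 else 0))
        (fun z => bra S.ψ (MCi S C o i α z) (NCi S C o i β z))
      = ∑ z : Fin k → Zt G, (∏ j, mG G (z j)) *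
        ((uC G C o z * (if G.accept (z i).1 (z i).2 α β = true then 1 else 0)) *
        bra S.ψ (MCi S C o i α z) (NCi S C o i β z)) := by
    intro o α β
    unfold Ex
    refine Finset.sum_congr rfl fun z _ => ?_
    rw [mul_assoc]
    rfl
  have h2 : ∀ (o : OC G C) (α : Fin G.nA), (∑ β : Fin G.nB,
      Ex (mu G) (fun z => uC G C o z * (if G.accept (z i).1 (z i).2 α β = true then 1 else 0))
        (fun z => bra S.ψ (MCi S C o i α z) (NCi S C o i β z)))
      = ∑ z : Fin k → Zt G, (∏ j, mG G (z j)) * ∑ β : Fin G.nB,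
        ((uC G C o z * (if G.accept (z i).1 (z i).2 α β = true then 1 else 0)) *
        bra S.ψ (MCi S C o i α z) (NCi S C o i β z)) := by
    intro o α
    rw [Finset.sum_congr rfl (fun β _ => h1 o α β), Finset.sum_comm]
    refine Finset.sum_congr rfl fun z _ => ?_
    rw [Finset.mul_sum]
  have h3 : ∀ (o : OC G C), (∑ α : Fin G.nA, ∑ β : Fin G.nB,
      Ex (mu G) (fun z => uC G C o z * (if G.accept (z i).1 (z i).2 α β = true then 1 else 0))
        (fun z => bra S.ψ (MCi S C o i α z) (NCi S C o i β z)))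
      = ∑ z : Fin k → Zt G, (∏ j, mG G (z j)) * ∑ α : Fin G.nA, ∑ β : Fin G.nB,
        ((uC G C o z * (if G.accept (z i).1 (z i).2 α β = true then 1 else 0)) *
        bra S.ψ (MCi S C o i α z) (NCi S C o i β z)) := by
    intro o
    rw [Finset.sum_congr rfl (fun α _ => h2 o α), Finset.sum_comm]
    refine Finset.sum_congr rfl fun z _ => ?_
    rw [Finset.mul_sum]
  rw [Finset.sum_congr rfl (fun o _ => h3 o), Finset.sum_comm]
  refine Finset.sum_congr rfl fun z _ => ?_
  rw [← Finset.mul_sum]
  rw [inner_win S C i z]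

end Crest.H16PR
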