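import Crest.Agent.H16PRCore
import Crest.Agent.H26PREnt
import Crest.Agent.H5PRFamWin
import Crest.Agent.H24PRFamsum
import Crest.Agent.H24PRClassical16
import Crest.Agent.H1PRGaugeOK
import Crest.Agent.H3PRFinal

/-!
H16PRAsm: the assembly ASM of rid 342.
-/

set_option autoImplicit false

open scoped Kronecker ComplexOrder BigOperators Matrix
open Crest.MathPhysics.NonlocalGame

namespace Crest.H16PR

open Crest.PR Crest.H26OneShot Crest.H26PRTele

variable {G : Game} {k dA dB : ℕ}

/-! ### independence facts -/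

/-- the full kernels -/
def fX (G : Game) (u w : Zt G) : ℝ := if w.2 = u.2 then 1 else 0
def fY (G : Game) (u w : Zt G) : ℝ := if w.1 = u.1 then 1 else 0

theorem inv_fY_iff {E : Type*} {i : Fin k} {f : (Fin k → Zt G) → E} (h : Inv (fY G) i f)
    (z : Fin k → Zt G) (x : Fin G.nX) (y y' : Fin G.nY) :
    f (Function.update z i (x, y)) = f (Function.update z i (x, y')) := by
  have := h (Function.update z i (x, y')) (x, y) (by unfold fY; simp)
  rw [Function.update_idem] at this
  exact this

theorem inv_fX_iff {E : Type*} {i : Fin k} {f : (Fin k → Zt G) → E} (h : Inv (fX G) i f)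
    (z : Fin k → Zt G) (x x' : Fin G.nX) (y : Fin G.nY) :
    f (Function.update z i (x, y)) = f (Function.update z i (x', y)) := by
  have := h (Function.update z i (x', y)) (x, y) (by unfold fX; simp)
  rw [Function.update_idem] at this
  exact this

theorem fst_inv {E : Type*} (F : (Fin k → Fin G.nX) → E) (i : Fin k) :
    Inv (fY G) i (fun z : Fin k → Zt G => F (fun j => (z j).1)) := by
  intro z w hw
  have h1 : w.1 = (z i).1 := by
    unfold fY at hw
    by_contra h
    rw [if_neg h] at hw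
    exact hw rfl
  show F _ = F _
  congr 1
  funext j
  by_cases hj : j = i
  · subst hj; rw [Function.update_self, h1]
  · rw [Function.update_of_ne hj]

theorem snd_inv {E : Type*} (F : (Fin k → Fin G.nY) → E) (i : Fin k) :
    Inv (fX G) i (fun z : Fin k → Zt G => F (fun j => (z j).2)) := by
  intro z w hw
  have h1 : w.2 = (z i).2 := by
    unfold fX at hw
    by_contra h
    rw [if_neg h] at hw
    exact hw rfl
  show F _ = F _
  congr 1
  funext j
  by_cases hj : j = i
  · subst hj; rw [Function.update_self, h1]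
  · rw [Function.update_of_ne hj]

theorem Av_kX_inv {E : Type*} [AddCommMonoid E] [Module ℝ E] (i : Fin k)
    (f : (Fin k → Zt G) → E) : Inv (fX G) i (Av (kX G.prob) i f) := by
  intro z w hw
  have h1 : w.2 = (z i).2 := by
    unfold fX at hw
    by_contra h
    rw [if_neg h] at hw
    exact hw rfl
  unfold Av
  refine Finset.sum_congr rfl fun t _ => ?_
  rw [Function.update_self, Function.update_idem]
  unfold kX
  rw [h1]

theorem Av_kY_inv {E : Type*} [AddCommMonoid E] [Module ℝ E] (i : Fin k)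
    (f : (Fin k → Zt G) → E) : Inv (fY G) i (Av (kY G.prob) i f) := by
  intro z w hw
  have h1 : w.1 = (z i).1 := by
    unfold fY at hw
    by_contra h
    rw [if_neg h] at hw
    exact hw rfl
  unfold Av
  refine Finset.sum_congr rfl fun t _ => ?_
  rw [Function.update_self, Function.update_idem]
  unfold kY
  rw [h1]

theorem Tl_append_singleton {E : Type*} [AddCommMonoid E] [Module ℝ E] {Z ι : Type*} [Fintype ι]
    [DecidableEq ι] [Fintype Z] (κ : Z → Z → ℝ) (l : List ι)
    (i : ι) (f : (ι → Z) → E) : Tl κ (l ++ [i]) f = Av κ i (Tl κ l f) := by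
  unfold Tl
  rw [List.foldl_append]
  rfl

/-! ### linearity -/

theorem Av_sum {E A : Type*} [AddCommMonoid E] [Module ℝ E] [Fintype A] {Z ι : Type*} [Fintype ι]
    [DecidableEq ι] [Fintype Z] (κ : Z → Z → ℝ) (i : ι) (f : A → (ι → Z) → E) :
    (fun z => ∑ a, Av κ i (f a) z) = Av κ i (fun z => ∑ a, f a z) := by
  funext z
  unfold Av
  rw [Finset.sum_comm]
  refine Finset.sum_congr rfl fun w _ => ?_
  rw [Finset.smul_sum]

theorem Tl_sum {E A : Type*} [AddCommMonoid E] [Module ℝ E] [Fintype A] {Z ι : Type*} [Fintype ι]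
    [DecidableEq ι] [Fintype Z] (κ : Z → Z → ℝ) (l : List ι) (f : A → (ι → Z) → E) :
    (fun z => ∑ a, Tl κ l (f a) z) = Tl κ l (fun z => ∑ a, f a z) := by
  induction l generalizing f with
  | nil => rfl
  | cons i l ih =>
    simp only [Tl_cons]
    rw [ih (fun a => Av κ i (f a)), Av_sum]

theorem Sl_sum {E A : Type*} [AddCommMonoid E] [Module ℝ E] [Fintype A] {Z ι : Type*} [Fintype ι]
    [DecidableEq ι] [Fintype Z] (κ : Z → Z → ℝ) (l : List ι) (f : A → (ι → Z) → E) :
    (fun z => ∑ a, Sl κ l (f a) z) = Sl κ l (fun z => ∑ a, f a z) := by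
  induction l with
  | nil => rfl
  | cons i l ih =>
    simp only [Sl_cons]
    rw [Av_sum, ih]

theorem sum_MCi (S : Strategy G k dA dB) (C : Finset (Fin k)) (o : OC G C) (i : Fin k)
    (z : Fin k → Zt G) : ∑ α, MCi S C o i α z = MC S C o z := by
  unfold MCi MC
  rw [Finset.sum_comm]
  refine Finset.sum_congr rfl fun a _ => ?_
  by_cases h : ∀ i : ↥C, a i = o.1 i
  · simp only [h, implies_true, true_and, if_true]
    simp
  · simp only [h, false_and, if_false, Finset.sum_const_zero]

theorem sum_NCi (S : Strategy G k dA dB) (C : Finset (Fin k)) (o : OC G C) (i : Fin k)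
    (z : Fin k → Zt G) : ∑ β, NCi S C o i β z = NC S C o z := by
  unfold NCi NC
  rw [Finset.sum_comm]
  refine Finset.sum_congr rfl fun a _ => ?_
  by_cases h : ∀ i : ↥C, a i = o.2 i
  · simp only [h, implies_true, true_and, if_true]
    simp
  · simp only [h, false_and, if_false, Finset.sum_const_zero]

theorem MCi_psd (S : Strategy G k dA dB) (C : Finset (Fin k)) (o : OC G C) (i : Fin k)
    (α : Fin G.nA) (z : Fin k → Zt G) : (MCi S C o i α z).PosSemidef := by
  refine Matrix.posSemidef_sum _ fun a _ => ?_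
  split_ifs
  · exact S.M_posSemidef _ _
  · exact Matrix.PosSemidef.zero

theorem NCi_psd (S : Strategy G k dA dB) (C : Finset (Fin k)) (o : OC G C) (i : Fin k)
    (β : Fin G.nB) (z : Fin k → Zt G) : (NCi S C o i β z).PosSemidef := by
  refine Matrix.posSemidef_sum _ fun a _ => ?_
  split_ifs
  · exact S.N_posSemidef _ _
  · exact Matrix.PosSemidef.zero

theorem subConv_psd {Z n : Type*} [Fintype Z] [Fintype n] [DecidableEq n] :
    SubConv Z (fun A : Matrix n n ℂ => A.PosSemidef) := by
  intro w F hw _ hF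
  exact Matrix.posSemidef_sum _ fun u _ => H26PREnt.psd_smul (hF u) (hw u)

/-- psd and at most one, for the averaged families -/
theorem MT_good (S : Strategy G k dA dB) (C : Finset (Fin k)) (o : OC G C) (L : List (Fin k))
    (t : ℕ) (z : Fin k → Zt G) : H26PREnt.Good (MT S C o L t z) :=
  Tl_pred (revKer_kX G.prob_nonneg) (P := H26PREnt.Good) H26PREnt.subConv_good
    (fun z => H26PREnt.MC_good S C o z) (L.take t) z

theorem NT_good (S : Strategy G k dA dB) (C : Finset (Fin k)) (o : OC G C) (L : List (Fin k))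
    (t : ℕ) (z : Fin k → Zt G) : H26PREnt.Good (NT S C o L t z) :=
  Sl_pred (revKer_kY G.prob_nonneg) (P := H26PREnt.Good) H26PREnt.subConv_good
    (fun z => H26PREnt.NC_good S C o z) (L.drop t) z

theorem MC_fY (S : Strategy G k dA dB) (C : Finset (Fin k)) (o : OC G C) (i : Fin k) :
    Inv (fY G) i (MC S C o) :=
  fst_inv (fun x => ∑ a : Fin k → Fin G.nA, if (∀ i : ↥C, a i = o.1 i) then S.M x a else 0) i

theorem NC_fX (S : Strategy G k dA dB) (C : Finset (Fin k)) (o : OC G C) (i : Fin k) :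
    Inv (fX G) i (NC S C o) :=
  snd_inv (fun y => ∑ b : Fin k → Fin G.nB, if (∀ i : ↥C, b i = o.2 i) then S.N y b else 0) i

theorem MCi_fY (S : Strategy G k dA dB) (C : Finset (Fin k)) (o : OC G C) (j : Fin k)
    (α : Fin G.nA) (i : Fin k) : Inv (fY G) i (MCi S C o j α) :=
  fst_inv (fun x => ∑ a : Fin k → Fin G.nA,
    if (∀ i : ↥C, a i = o.1 i) ∧ a j = α then S.M x a else 0) i

theorem NCi_fX (S : Strategy G k dA dB) (C : Finset (Fin k)) (o : OC G C) (j : Fin k)
    (β : Fin G.nB) (i : Fin k) : Inv (fX G) i (NCi S C o j β) :=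
  snd_inv (fun y => ∑ b : Fin k → Fin G.nB,
    if (∀ i : ↥C, b i = o.2 i) ∧ b j = β then S.N y b else 0) i

theorem MCi_inv (S : Strategy G k dA dB) (C : Finset (Fin k)) (o : OC G C) (j : Fin k)
    (α : Fin G.nA) (i : Fin k) : Inv (kY G.prob) i (MCi S C o j α) :=
  inv_fst G.prob (fun x => ∑ a : Fin k → Fin G.nA,
    if (∀ i : ↥C, a i = o.1 i) ∧ a j = α then S.M x a else 0) i

theorem NCi_inv (S : Strategy G k dA dB) (C : Finset (Fin k)) (o : OC G C) (j : Fin k)
    (β : Fin G.nB) (i : Fin k) : Inv (kX G.prob) i (NCi S C o j β) :=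
  inv_snd G.prob (fun y => ∑ b : Fin k → Fin G.nB,
    if (∀ i : ↥C, b i = o.2 i) ∧ b j = β then S.N y b else 0) i

/-- the averaged pair has the same expectation against any weight not depending on the averaged
coordinates -/
theorem unfold_MT_NT (S : Strategy G k dA dB) (C : Finset (Fin k)) (o : OC G C)
    (L : List (Fin k)) (hL : L.Nodup) (t : ℕ) (ht : t < L.length) (g : (Fin k → Zt G) → ℝ)
    (hg : ∀ j ∈ L, j ≠ L[t] → ∀ z w, g (Function.update z j w) = g z) :
    Ex (mu G) g (fun z => bra S.ψ (MT S C o L t z) (NT S C o L (t + 1) z))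
      = Ex (mu G) g (fun z => bra S.ψ (MC S C o z) (NC S C o z)) := by
  have hsplit : L = L.take t ++ L[t] :: L.drop (t + 1) := by
    rw [← List.drop_eq_getElem_cons ht, List.take_append_drop]
  have hnd : (L.take t ++ L[t] :: L.drop (t + 1)).Nodup := by rw [← hsplit]; exact hL
  rw [List.nodup_append] at hnd
  obtain ⟨h1, h2, h3⟩ := hnd
  rw [List.nodup_cons] at h2
  have hne1 : ∀ j ∈ L.take t, j ≠ L[t] := fun j hj h => h3 j hj _ List.mem_cons_self h
  have hne2 : ∀ j ∈ L.drop (t + 1), j ≠ L[t] := fun j hj h => h2.1 (h ▸ hj)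
  exact unfold_avg (revKer_kX G.prob_nonneg) (revKer_kY G.prob_nonneg) (betaL S.ψ)
    (L.take t) (L.drop (t + 1)) h1 (fun i hi hi' => h3 i hi i (List.mem_cons_of_mem _ hi') rfl)
    (fun i hi => inv_of_indep _ (hg i (List.mem_of_mem_take hi) (hne1 i hi)))
    (fun i hi => inv_of_indep _ (hg i (List.mem_of_mem_drop hi) (hne2 i hi)))
    (fun i _ => H26PREnt.NC_inv S C o i) (fun i _ => H26PREnt.MC_inv S C o i)

theorem unfold_MTi_NTi (S : Strategy G k dA dB) (C : Finset (Fin k)) (o : OC G C)
    (L : List (Fin k)) (hL : L.Nodup) (t : ℕ) (ht : t < L.length) (g : (Fin k → Zt G) → ℝ)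
    (hg : ∀ j ∈ L, j ≠ L[t] → ∀ z w, g (Function.update z j w) = g z) (i : Fin k)
    (α : Fin G.nA) (β : Fin G.nB) :
    Ex (mu G) g (fun z => bra S.ψ (Tl (kX G.prob) (L.take t) (MCi S C o i α) z)
        (Sl (kY G.prob) (L.drop (t + 1)) (NCi S C o i β) z))
      = Ex (mu G) g (fun z => bra S.ψ (MCi S C o i α z) (NCi S C o i β z)) := by
  have hsplit : L = L.take t ++ L[t] :: L.drop (t + 1) := by
    rw [← List.drop_eq_getElem_cons ht, List.take_append_drop]
  have hnd : (L.take t ++ L[t] :: L.drop (t + 1)).Nodup := by rw [← hsplit]; exact hL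
  rw [List.nodup_append] at hnd
  obtain ⟨h1, h2, h3⟩ := hnd
  rw [List.nodup_cons] at h2
  have hne1 : ∀ j ∈ L.take t, j ≠ L[t] := fun j hj h => h3 j hj _ List.mem_cons_self h
  have hne2 : ∀ j ∈ L.drop (t + 1), j ≠ L[t] := fun j hj h => h2.1 (h ▸ hj)
  exact unfold_avg (revKer_kX G.prob_nonneg) (revKer_kY G.prob_nonneg) (betaL S.ψ)
    (L.take t) (L.drop (t + 1)) h1 (fun i hi hi' => h3 i hi i (List.mem_cons_of_mem _ hi') rfl)
    (fun i hi => inv_of_indep _ (hg i (List.mem_of_mem_take hi) (hne1 i hi)))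
    (fun i hi => inv_of_indep _ (hg i (List.mem_of_mem_drop hi) (hne2 i hi)))
    (fun j _ => NCi_inv S C o i β j) (fun j _ => MCi_inv S C o i α j)

/-- the conditional weight of the question pair `(x, y)` at coordinate `i`, position `t` -/
noncomputable def qT (S : Strategy G k dA dB) (C : Finset (Fin k)) (L : List (Fin k)) (t : ℕ)
    (i : Fin k) (x : Fin G.nX) (y : Fin G.nY) : ℝ :=
  ∑ ω : OC G C × (Fin k → Zt G), ((∏ j, mu G (ω.2 j)) * uC G C ω.1 ω.2) *
      bra S.ψ (MT S C ω.1 L t (Function.update ω.2 i (x, y)))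
        (NT S C ω.1 L (t + 1) (Function.update ω.2 i (x, y)))

/-- the one-coordinate data at position `t` -/
theorem one_coord (S : Strategy G k dA dB) (C : Finset (Fin k)) (L : List (Fin k)) (hL : L.Nodup)
    (hLC : ∀ i ∈ L, i ∉ C) (t : ℕ) (ht : t < L.length)
    {ρA ρB : Type} [Fintype ρA] [Fintype ρB] [DecidableEq ρA] [DecidableEq ρB]
    (KA : ρA → Matrix (Fin dA) (Fin dA) ℂ → Matrix (Fin dA) (Fin dA) ℂ)
    (KB : ρB → Matrix (Fin dB) (Fin dB) ℂ → Matrix (Fin dB) (Fin dB) ℂ)
    (hKA : Exact KA) (hKB : Exact KB) :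
    OneCoord G (PW S C)
      (ErrA S C L KA t + ErrB S C L KB t + ∑ x, ∑ y, G.prob x y *
        (Real.sqrt (qT S C L t L[t] x y) - Real.sqrt (PW S C)) ^ 2)
      (PW S (insert L[t] C)) := by
  have hiC : L[t] ∉ C := hLC _ (List.getElem_mem ht)
  have hsplit : L = L.take t ++ L[t] :: L.drop (t + 1) := by
    rw [← List.drop_eq_getElem_cons ht, List.take_append_drop]
  have hnd : (L.take t ++ L[t] :: L.drop (t + 1)).Nodup := by rw [← hsplit]; exact hL
  rw [List.nodup_append] at hnd
  obtain ⟨h1, h2, h3⟩ := hnd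
  rw [List.nodup_cons] at h2
  have hi1 : L[t] ∉ L.take t := fun h => h3 _ h _ List.mem_cons_self rfl
  have hi2 : L[t] ∉ L.drop (t + 1) := h2.1
  have hP : PW S C = ∑ o, Ex (mu G) (uC G C o)
      (fun z => bra S.ψ (MT S C o L t z) (NT S C o L (t + 1) z)) := by
    rw [← H26PREnt.sum_PW S C]
    refine Finset.sum_congr rfl fun o _ => ?_
    rw [unfold_MT_NT S C o L hL t ht]
    exact fun j hj _ z w => H26PREnt.uC_indep C o (hLC j hj) z w
  have hW : PW S (insert L[t] C) = ∑ o : OC G C, ∑ α : Fin G.nA, ∑ β : Fin G.nB,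
      Ex (mu G) (fun z => uC G C o z *
        (if G.accept (z L[t]).1 (z L[t]).2 α β = true then 1 else 0))
        (fun z => bra S.ψ (Tl (kX G.prob) (L.take t) (MCi S C o L[t] α) z)
          (Sl (kY G.prob) (L.drop (t + 1)) (NCi S C o L[t] β) z)) := by
    rw [← famsum_win S C L[t] hiC]
    refine Finset.sum_congr rfl fun o _ => Finset.sum_congr rfl fun α _ =>
      Finset.sum_congr rfl fun β _ => ?_
    rw [unfold_MTi_NTi S C o L hL t ht]
    intro j hj hne z w
    rw [H26PREnt.uC_indep C o (hLC j hj) z w, Function.update_of_ne (Ne.symm hne)]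
  rw [hW]
  refine core S.ψ L[t] (fun o => uC G C o) (fun o z => H26PREnt.uC_nonneg C o z)
    (fun o z w => H26PREnt.uC_indep C o hiC z w)
    (fun o => MT S C o L t) (fun o => MT S C o L (t + 1))
    (fun o => NT S C o L (t + 1)) (fun o => NT S C o L t)
    (fun o α => Tl (kX G.prob) (L.take t) (MCi S C o L[t] α))
    (fun o β => Sl (kY G.prob) (L.drop (t + 1)) (NCi S C o L[t] β))
    (fun o z => (MT_good S C o L t z).1) (fun o z => (MT_good S C o L t z).2)
    (fun o z => (NT_good S C o L _ z).1) (fun o z => (NT_good S C o L _ z).2)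
    ?_ ?_ ?_ ?_ ?_ ?_ ?_ ?_ ?_ ?_ KA KB hKA hKB (PW S C) hP _ (fun x y => rfl)
  · intro o a z
    exact Tl_pred (revKer_kX G.prob_nonneg)
      (P := fun A : Matrix (Fin dA) (Fin dA) ℂ => A.PosSemidef) subConv_psd
      (fun z => MCi_psd S C o _ a z) (L.take t) z
  · intro o z
    have := congrFun (Tl_sum (kX G.prob) (L.take t) (fun a => MCi S C o L[t] a)) z
    rw [this]
    have e : (fun z => ∑ a, MCi S C o L[t] a z) = MC S C o := by
      funext z; exact sum_MCi S C o _ z
    rw [e]
    rfl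
  · intro o a z
    exact Sl_pred (revKer_kY G.prob_nonneg)
      (P := fun A : Matrix (Fin dB) (Fin dB) ℂ => A.PosSemidef) subConv_psd
      (fun z => NCi_psd S C o _ a z) (L.drop (t + 1)) z
  · intro o z
    have := congrFun (Sl_sum (kY G.prob) (L.drop (t + 1)) (fun a => NCi S C o L[t] a)) z
    rw [this]
    have e : (fun z => ∑ a, NCi S C o L[t] a z) = NC S C o := by
      funext z; exact sum_NCi S C o _ z
    rw [e]
    rfl
  · intro o z x y y'
    exact inv_fY_iff (inv_Tl hi1 (MC_fY S C o _)) z x y y'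
  · intro o a z x y y'
    exact inv_fY_iff (inv_Tl hi1 (MCi_fY S C o _ a _)) z x y y'
  · intro o z x x' y
    exact inv_fX_iff (inv_Sl hi2 (NC_fX S C o _)) z x x' y
  · intro o b z x x' y
    exact inv_fX_iff (inv_Sl hi2 (NCi_fX S C o _ b _)) z x x' y
  · intro o z x x' y
    have e : MT S C o L (t + 1) = Av (kX G.prob) L[t] (MT S C o L t) := by
      unfold MT
      rw [← List.take_append_getElem ht, Tl_append_singleton]
    rw [e]
    exact inv_fX_iff (Av_kX_inv _ _) z x x' y
  · intro o z x y y'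
    have e : NT S C o L t = Av (kY G.prob) L[t] (NT S C o L (t + 1)) := by
      unfold NT
      rw [List.drop_eq_getElem_cons ht]
      rfl
    rw [e]
    exact inv_fY_iff (Av_kY_inv _ _) z x y y'

/-- the defining property of `qT` -/
theorem prob_mul_qT (S : Strategy G k dA dB) (C : Finset (Fin k)) (L : List (Fin k))
    (hL : L.Nodup) (hLC : ∀ i ∈ L, i ∉ C) (t : ℕ) (ht : t < L.length) (x0 : Fin G.nX)
    (y0 : Fin G.nY) :
    G.prob x0 y0 * qT S C L t L[t] x0 y0 = ∑ z : Fin k → Zt G, if z L[t] = (x0, y0) then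
        (∏ j, mu G (z j)) * hC S C z else 0 := by
  classical
  have hiC : L[t] ∉ C := hLC _ (List.getElem_mem ht)
  set F : Zt G → ℝ := fun u => if u = (x0, y0) then 1 else 0 with hF
  have h1 := resample L[t] (fun o : OC G C => uC G C o) (fun o z w => H26PREnt.uC_indep C o hiC z w)
    (fun o z => F (z L[t]) * bra S.ψ (MT S C o L t z) (NT S C o L (t + 1) z))
  have h2 : ∑ x, ∑ y, G.prob x y * ∑ ω : OC G C × (Fin k → Zt G),
      ((∏ j, mu G (ω.2 j)) * uC G C ω.1 ω.2) *
        (F ((Function.update ω.2 L[t] (x, y)) L[t]) *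
          bra S.ψ (MT S C ω.1 L t (Function.update ω.2 L[t] (x, y)))
            (NT S C ω.1 L (t + 1) (Function.update ω.2 L[t] (x, y))))
      = G.prob x0 y0 * qT S C L t L[t] x0 y0 := by
    have h3 : ∀ x y, G.prob x y * ∑ ω : OC G C × (Fin k → Zt G),
      ((∏ j, mu G (ω.2 j)) * uC G C ω.1 ω.2) *
        (F ((Function.update ω.2 L[t] (x, y)) L[t]) *
          bra S.ψ (MT S C ω.1 L t (Function.update ω.2 L[t] (x, y)))
            (NT S C ω.1 L (t + 1) (Function.update ω.2 L[t] (x, y))))
      = F (x, y) * (G.prob x y * qT S C L t L[t] x y) := by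
      intro x y
      unfold qT
      simp only [Function.update_self, Finset.mul_sum]
      refine Finset.sum_congr rfl fun ω _ => ?_
      ring
    simp only [h3]
    rw [Finset.sum_eq_single x0, Finset.sum_eq_single y0]
    · simp [hF]
    · intro y _ hy
      have : F (x0, y) = 0 := by
        rw [hF]; simp [hy]
      rw [this, zero_mul]
    · intro h; exact absurd (Finset.mem_univ _) h
    · intro x _ hx
      refine Finset.sum_eq_zero fun y _ => ?_
      have : F (x, y) = 0 := by
        rw [hF]; simp [hx]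
      rw [this, zero_mul]
    · intro h; exact absurd (Finset.mem_univ _) h
  rw [← h2]
  refine h1.trans ?_
  have h4 : ∀ o : OC G C, Ex (mu G) (uC G C o)
      (fun z => F (z L[t]) * bra S.ψ (MT S C o L t z) (NT S C o L (t + 1) z))
      = Ex (mu G) (fun z => uC G C o z * F (z L[t]))
        (fun z => bra S.ψ (MC S C o z) (NC S C o z)) := by
    intro o
    rw [← unfold_MT_NT S C o L hL t ht (fun z => uC G C o z * F (z L[t]))]
    · unfold Ex
      refine Finset.sum_congr rfl fun z _ => ?_
      ring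
    · intro j hj hne z w
      rw [H26PREnt.uC_indep C o (hLC j hj) z w, Function.update_of_ne (Ne.symm hne)]
  rw [Finset.sum_congr rfl (fun o _ => h4 o), famsum_hC S C (fun z => F (z L[t]))]
  refine Finset.sum_congr rfl fun z _ => ?_
  rw [hF]
  dsimp only
  split_ifs
  · ring
  · ring

theorem oneCoord_nonneg {P E W : ℝ} (h : OneCoord G P E W) : 0 ≤ E := by
  obtain ⟨α, β, _, _, _, _, Φ, ΦX, ΦY, QA, QB, -, -, -, -, -, hE, -⟩ := h
  refine le_trans ?_ hE
  refine Finset.sum_nonneg fun x _ => Finset.sum_nonneg fun y _ =>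
    mul_nonneg (G.prob_nonneg x y) ?_
  have h1 := nsq_nonneg (Φ x y - ΦX x)
  have h2 := nsq_nonneg (Φ x y - ΦY y)
  positivity

/-- **ASM** -/
theorem asm : H3PR.ASM := by
  classical
  intro G k dA dB S C hP hCk η hη
  obtain ⟨c, hc0, hent⟩ := H26PREnt.ent G k dA dB S C hP
  set ε : ℝ := η / (c + 1) with hε
  have hε0 : 0 < ε := by positivity
  obtain ⟨h, N, hh, hG⟩ := H1PR.exists_gauge ε hε0
  set L : List (Fin k) := (Finset.univ \ C).toList with hLdef
  have hL : L.Nodup := Finset.nodup_toList _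
  have hmem : ∀ i, i ∈ L ↔ i ∉ C := by
    intro i
    rw [hLdef, Finset.mem_toList]
    simp
  have hLC : ∀ i ∈ L, i ∉ C := fun i hi => (hmem i).1 hi
  have hA := hG (Fin dA)
  have hB := hG (Fin dB)
  have key := hent L hL hLC (fun i hi => (hmem i).2 hi) (Option (Fin N)) (Option (Fin N))
    _ _ _ _ ε hε0 hA hB
  set KA : Option (Fin N) → Matrix (Fin dA) (Fin dA) ℂ → Matrix (Fin dA) (Fin dA) ℂ :=
    fun r M => H1PR.Kg h N M r with hKA
  set KB : Option (Fin N) → Matrix (Fin dB) (Fin dB) ℂ → Matrix (Fin dB) (Fin dB) ℂ :=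
    fun r M => H1PR.Kg h N M r with hKB
  set qi : Fin k → Fin G.nX → Fin G.nY → ℝ := fun i => qT S C L (L.idxOf i) i with hqi
  set E : Fin k → ℝ := fun i => ErrA S C L KA (L.idxOf i) + ErrB S C L KB (L.idxOf i)
    + ∑ x, ∑ y, G.prob x y * (Real.sqrt (qi i x y) - Real.sqrt (PW S C)) ^ 2 with hE
  have hone : ∀ i, i ∉ C → OneCoord G (PW S C) (E i) (PW S (insert i C)) := by
    intro i hi
    have hi' : i ∈ L := (hmem i).2 hi
    have ht : L.idxOf i < L.length := List.idxOf_lt_length_of_mem hi'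
    have e : L[L.idxOf i] = i := List.getElem_idxOf ht
    have := one_coord S C L hL hLC (L.idxOf i) ht KA KB hA.exact hB.exact
    rw [e] at this
    exact this
  refine ⟨E, fun i hi => oneCoord_nonneg (hone i hi), hone, ?_⟩
  -- the sum
  have hsum : ∑ i ∈ Finset.univ \ C, E i = ∑ t : Fin L.length, E (L.get t) := by
    have e1 : Finset.univ \ C = L.toFinset := by
      ext i
      simp [hmem]
    rw [e1, List.sum_toFinset _ hL, ← List.sum_ofFn]
    congr 1
    apply List.ext_get
    · simp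
    · intro n h1 h2; simp
  have hcls := H24PRClassical16.classical_bound_list S C hP L hL hLC qi (by
    intro i hi x0 y0
    have hi' : i ∈ L := (hmem i).2 hi
    have ht : L.idxOf i < L.length := List.idxOf_lt_length_of_mem hi'
    have e : L[L.idxOf i] = i := List.getElem_idxOf ht
    have := prob_mul_qT S C L hL hLC (L.idxOf i) ht x0 y0
    rw [e] at this
    exact this)
  rw [hsum]
  have hEt : ∀ t : Fin L.length, E (L.get t) = (ErrA S C L KA t + ErrB S C L KB t)
      + ∑ x, ∑ y, G.prob x y * (Real.sqrt (qi (L.get t) x y) - Real.sqrt (PW S C)) ^ 2 := by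
    intro t
    have e : L.idxOf (L.get t) = (t : ℕ) := by
      rw [List.get_eq_getElem]
      exact hL.idxOf_getElem t t.2
    rw [hE]
    dsimp only
    rw [e]
  rw [Finset.sum_congr rfl (fun t _ => hEt t), Finset.sum_add_distrib]
  have hcε : c * ε ≤ η := by
    rw [hε, mul_div_assoc', div_le_iff₀ (by positivity)]
    nlinarith
  calc _ ≤ (PW S C * (2 * Real.log (qAcc G ^ C.card / PW S C)
          + C.card * Real.log ((G.nA * G.nB : ℕ) : ℝ)) + c * ε)
        + PW S C * Real.log (qAcc G ^ C.card / PW S C) := add_le_add key hcls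
    _ ≤ _ := by nlinarith

end Crest.H16PR
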