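import Crest.Agent.H16PRReg

/-!
H16PRCore: construction of the one-coordinate data (rid 342).
-/

set_option autoImplicit false

open scoped Kronecker ComplexOrder BigOperators Matrix
open Crest.MathPhysics.NonlocalGame

namespace Crest.H16PR

open Crest.PR Crest.H26OneShot Crest.H26PRTele

variable {G : Game} {k dA dB : ℕ}

theorem mu_sum : ∑ u : Zt G, mu G u = 1 := by
  rw [Fintype.sum_prod_type]
  exact G.prob_sum

theorem mu_nonneg (u : Zt G) : 0 ≤ mu G u := G.prob_nonneg _ _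

/-- complete resampling kernel -/
theorem revKer_mu : RevKer (mu G) (fun _ w => mu G w) where
  nonneg _ _ := mu_nonneg _
  rev _ _ := mul_comm _ _
  sum_one _ _ := mu_sum
  sum_le _ := le_of_eq mu_sum
  cls _ _ _ _ := rfl

theorem resample {O : Type*} [Fintype O] (i : Fin k) (u : O → (Fin k → Zt G) → ℝ)
    (hu : ∀ o z w, u o (Function.update z i w) = u o z) (H : O → (Fin k → Zt G) → ℝ) :
    ∑ x, ∑ y, G.prob x y * ∑ ω : O × (Fin k → Zt G),
      ((∏ j, mu G (ω.2 j)) * u ω.1 ω.2) * H ω.1 (Function.update ω.2 i (x, y))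
      = ∑ o, Ex (mu G) (u o) (H o) := by
  have h1 : ∀ o, Ex (mu G) (u o) (H o)
      = ∑ z, ∑ w : Zt G, (∏ j, mu G (z j)) * mu G w * (u o z * H o (Function.update z i w)) := by
    intro o
    have := sum_avg (revKer_mu (G := G)) i (fun z => u o z * H o z)
    simp only [hu] at this
    unfold Ex
    rw [this]
    refine Finset.sum_congr rfl fun z _ => ?_
    ring
  simp only [h1]
  rw [← Fintype.sum_prod_type' (f := fun x y => G.prob x y * ∑ ω : O × (Fin k → Zt G),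
      ((∏ j, mu G (ω.2 j)) * u ω.1 ω.2) * H ω.1 (Function.update ω.2 i (x, y)))]
  rw [← Fintype.sum_prod_type' (f := fun (o : O) (z : Fin k → Zt G) => ∑ w : Zt G,
      (∏ j, mu G (z j)) * mu G w * (u o z * H o (Function.update z i w)))]
  simp only [Finset.mul_sum]
  rw [Finset.sum_comm]
  refine Finset.sum_congr rfl fun ω _ => Finset.sum_congr rfl fun w _ => ?_
  unfold mu
  ring

theorem kron_sub_right {m n m' n' : Type*} (A : Matrix m n ℂ) (B B' : Matrix m' n' ℂ) :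
    A ⊗ₖ (B - B') = A ⊗ₖ B - A ⊗ₖ B' := by
  ext i j
  simp [Matrix.kroneckerMap_apply, mul_sub]

theorem kron_sub_left {m n m' n' : Type*} (A A' : Matrix m n ℂ) (B : Matrix m' n' ℂ) :
    (A - A') ⊗ₖ B = A ⊗ₖ B - A' ⊗ₖ B := by
  ext i j
  simp [Matrix.kroneckerMap_apply, sub_mul]

theorem nsq_smul_mulVec {α β m m' : Type*} [Fintype α] [Fintype β] [Fintype m] [Fintype m']
    [DecidableEq m] [DecidableEq m'] (A : Matrix m α ℂ) (B : Matrix m' β ℂ) (ψ : α × β → ℂ)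
    (c : ℝ) :
    nsq ((c : ℂ) • ((A ⊗ₖ B).mulVec ψ)) = c ^ 2 * bra ψ (Aᴴ * A) (Bᴴ * B) := by
  rw [nsq_smul, nsq_eq_bra, bra_mulVec, Matrix.mul_one, Matrix.mul_one]

theorem nsq_sub_mulVec_right {α β m m' : Type*} [Fintype α] [Fintype β] [Fintype m] [Fintype m']
    [DecidableEq m] [DecidableEq m'] (A : Matrix m α ℂ) (B B' : Matrix m' β ℂ) (ψ : α × β → ℂ)
    (c : ℝ) :
    nsq ((c : ℂ) • ((A ⊗ₖ B).mulVec ψ) - (c : ℂ) • ((A ⊗ₖ B').mulVec ψ))
      = c ^ 2 * bra ψ (Aᴴ * A) ((B - B')ᴴ * (B - B')) := by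
  rw [← smul_sub, ← Matrix.sub_mulVec, ← kron_sub_right, nsq_smul_mulVec]

theorem nsq_sub_mulVec_left {α β m m' : Type*} [Fintype α] [Fintype β] [Fintype m] [Fintype m']
    [DecidableEq m] [DecidableEq m'] (A A' : Matrix m α ℂ) (B : Matrix m' β ℂ) (ψ : α × β → ℂ)
    (c : ℝ) :
    nsq ((c : ℂ) • ((A ⊗ₖ B).mulVec ψ) - (c : ℂ) • ((A' ⊗ₖ B).mulVec ψ))
      = c ^ 2 * bra ψ ((A - A')ᴴ * (A - A')) (Bᴴ * B) := by
  rw [← smul_sub, ← Matrix.sub_mulVec, ← kron_sub_left, nsq_smul_mulVec]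

theorem bra_smul_mulVec {α β m m' : Type*} [Fintype α] [Fintype β] [Fintype m] [Fintype m']
    (A : Matrix m α ℂ) (B : Matrix m' β ℂ) (Q : Matrix m m ℂ) (Q' : Matrix m' m' ℂ)
    (ψ : α × β → ℂ) (c : ℝ) :
    bra ((c : ℂ) • ((A ⊗ₖ B).mulVec ψ)) Q Q' = c ^ 2 * bra ψ (Aᴴ * Q * A) (Bᴴ * Q' * B) := by
  rw [bra_smul, bra_mulVec, Complex.norm_real, Real.norm_eq_abs, sq_abs]

theorem one_sub_blockDiagonal {Ω α A : Type*} [DecidableEq Ω] [DecidableEq α] [Fintype A]
    (Q : Ω → A → Matrix α α ℂ) :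
    1 - ∑ a, Matrix.blockDiagonal (fun ω => Q ω a)
      = Matrix.blockDiagonal (fun ω => 1 - ∑ a, Q ω a) := by
  ext p p'
  obtain ⟨i, ω⟩ := p
  obtain ⟨j, ω'⟩ := p'
  rw [Matrix.sub_apply, Matrix.sum_apply]
  simp only [Matrix.blockDiagonal_apply, Matrix.sub_apply, Matrix.sum_apply, Matrix.one_apply,
    Prod.mk.injEq]
  by_cases h : ω = ω'
  · simp [h]
  · simp [h]

/-- exactness of a gauge family (first part of `GaugeOK`) -/
def Exact {ρ n : Type*} [Fintype ρ] [Fintype n] [DecidableEq n]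
    (K : ρ → Matrix n n ℂ → Matrix n n ℂ) : Prop :=
  ∀ M : Matrix n n ℂ, M.PosSemidef → (1 - M).PosSemidef →
    ∑ r, (K r M).conjTranspose * K r M = M

theorem Exact.stack {ρ n : Type*} [Fintype ρ] [Fintype n] [DecidableEq n]
    {K : ρ → Matrix n n ℂ → Matrix n n ℂ} (h : Exact K) {M : Matrix n n ℂ} (hM : M.PosSemidef)
    (hM1 : (1 - M).PosSemidef) :
    (H16PR.stack (fun r => K r M))ᴴ * H16PR.stack (fun r => K r M) = M := by
  rw [stack_conj_mul]
  exact h M hM hM1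

/-- **the one-coordinate construction** in abstract form -/
theorem core (ψ : Fin dA × Fin dB → ℂ) {O : Type} [Fintype O] [DecidableEq O] (i : Fin k)
    (u : O → (Fin k → Zt G) → ℝ) (hu0 : ∀ o z, 0 ≤ u o z)
    (hu : ∀ o z w, u o (Function.update z i w) = u o z)
    (A A' : O → (Fin k → Zt G) → Matrix (Fin dA) (Fin dA) ℂ)
    (B B' : O → (Fin k → Zt G) → Matrix (Fin dB) (Fin dB) ℂ)
    (Aα : O → Fin G.nA → (Fin k → Zt G) → Matrix (Fin dA) (Fin dA) ℂ)
    (Bβ : O → Fin G.nB → (Fin k → Zt G) → Matrix (Fin dB) (Fin dB) ℂ)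
    (hA : ∀ o z, (A o z).PosSemidef) (hA1 : ∀ o z, (1 - A o z).PosSemidef)
    
    (hB : ∀ o z, (B o z).PosSemidef) (hB1 : ∀ o z, (1 - B o z).PosSemidef)
    
    (hAα : ∀ o a z, (Aα o a z).PosSemidef) (hAs : ∀ o z, ∑ a, Aα o a z = A o z)
    (hBβ : ∀ o b z, (Bβ o b z).PosSemidef) (hBs : ∀ o z, ∑ b, Bβ o b z = B o z)
    (iA : ∀ o z x y y', A o (Function.update z i (x, y)) = A o (Function.update z i (x, y')))
    (iAα : ∀ o a z x y y',
      Aα o a (Function.update z i (x, y)) = Aα o a (Function.update z i (x, y')))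
    (iB : ∀ o z x x' y, B o (Function.update z i (x, y)) = B o (Function.update z i (x', y)))
    (iBβ : ∀ o b z x x' y,
      Bβ o b (Function.update z i (x, y)) = Bβ o b (Function.update z i (x', y)))
    (iA' : ∀ o z x x' y, A' o (Function.update z i (x, y)) = A' o (Function.update z i (x', y)))
    (iB' : ∀ o z x y y', B' o (Function.update z i (x, y)) = B' o (Function.update z i (x, y')))
    {ρA ρB : Type} [Fintype ρA] [Fintype ρB] [DecidableEq ρA] [DecidableEq ρB]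
    (KA : ρA → Matrix (Fin dA) (Fin dA) ℂ → Matrix (Fin dA) (Fin dA) ℂ)
    (KB : ρB → Matrix (Fin dB) (Fin dB) ℂ → Matrix (Fin dB) (Fin dB) ℂ)
    (hKA : Exact KA) (hKB : Exact KB)
    (P : ℝ) (hP : P = ∑ o, Ex (mu G) (u o) (fun z => bra ψ (A o z) (B o z)))
    (q : Fin G.nX → Fin G.nY → ℝ)
    (hq : ∀ x y, q x y = ∑ ω : O × (Fin k → Zt G), ((∏ j, mu G (ω.2 j)) * u ω.1 ω.2) *
      bra ψ (A ω.1 (Function.update ω.2 i (x, y))) (B ω.1 (Function.update ω.2 i (x, y)))) :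
    OneCoord G P
      ((∑ o, Ex (mu G) (u o) (fun z => bra ψ (Disc KA (A o z) (A' o z)) (B o z)))
        + (∑ o, Ex (mu G) (u o) (fun z => bra ψ (A o z) (Disc KB (B o z) (B' o z))))
        + ∑ x, ∑ y, G.prob x y * (Real.sqrt (q x y) - Real.sqrt P) ^ 2)
      (∑ o, ∑ a, ∑ b, Ex (mu G) (fun z => u o z *
        (if G.accept (z i).1 (z i).2 a b = true then 1 else 0))
        (fun z => bra ψ (Aα o a z) (Bβ o b z))) := by
  classical
  set wt : O × (Fin k → Zt G) → ℝ := fun ω => (∏ j, mu G (ω.2 j)) * u ω.1 ω.2 with hwt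
  have hwt0 : ∀ ω, 0 ≤ wt ω := fun ω =>
    mul_nonneg (Finset.prod_nonneg fun j _ => mu_nonneg _) (hu0 _ _)
  set VA : O × (Fin k → Zt G) → Fin G.nX → Matrix (ρA × Fin dA) (Fin dA) ℂ := fun ω x =>
    stack (fun r => KA r (A ω.1 (Function.update ω.2 i (x, (ω.2 i).2)))) with hVA
  set VB : O × (Fin k → Zt G) → Fin G.nY → Matrix (ρB × Fin dB) (Fin dB) ℂ := fun ω y =>
    stack (fun r => KB r (B ω.1 (Function.update ω.2 i ((ω.2 i).1, y)))) with hVB
  set VA' : O × (Fin k → Zt G) → Fin G.nY → Matrix (ρA × Fin dA) (Fin dA) ℂ := fun ω y =>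
    stack (fun r => KA r (A' ω.1 (Function.update ω.2 i ((ω.2 i).1, y)))) with hVA'
  set VB' : O × (Fin k → Zt G) → Fin G.nX → Matrix (ρB × Fin dB) (Fin dB) ℂ := fun ω x =>
    stack (fun r => KB r (B' ω.1 (Function.update ω.2 i (x, (ω.2 i).2)))) with hVB'
  -- evaluation of the stacks
  have eVA : ∀ ω x y, (VA ω x)ᴴ * VA ω x = A ω.1 (Function.update ω.2 i (x, y)) := by
    intro ω x y
    rw [hVA, iA ω.1 ω.2 x y (ω.2 i).2]
    exact hKA.stack (hA _ _) (hA1 _ _)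
  have eVB : ∀ ω x y, (VB ω y)ᴴ * VB ω y = B ω.1 (Function.update ω.2 i (x, y)) := by
    intro ω x y
    rw [hVB, iB ω.1 ω.2 x (ω.2 i).1 y]
    exact hKB.stack (hB _ _) (hB1 _ _)
  have eDA : ∀ ω x y, (VA ω x - VA' ω y)ᴴ * (VA ω x - VA' ω y)
      = Disc KA (A ω.1 (Function.update ω.2 i (x, y))) (A' ω.1 (Function.update ω.2 i (x, y))) := by
    intro ω x y
    rw [disc_eq, iA ω.1 ω.2 x y (ω.2 i).2, iA' ω.1 ω.2 x (ω.2 i).1 y]
  have eDB : ∀ ω x y, (VB ω y - VB' ω x)ᴴ * (VB ω y - VB' ω x)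
      = Disc KB (B ω.1 (Function.update ω.2 i (x, y))) (B' ω.1 (Function.update ω.2 i (x, y))) := by
    intro ω x y
    rw [disc_eq, iB ω.1 ω.2 x (ω.2 i).1 y, iB' ω.1 ω.2 x y (ω.2 i).2]
  -- the measurements
  have hQA : ∀ (ω : O × (Fin k → Zt G)) (x : Fin G.nX),
      ∃ Q : Fin G.nA → Matrix (ρA × Fin dA) (ρA × Fin dA) ℂ,
      (∀ a, (Q a).PosSemidef) ∧ (1 - ∑ a, Q a).PosSemidef ∧
      ∀ a, (VA ω x)ᴴ * Q a * VA ω x = Aα ω.1 a (Function.update ω.2 i (x, (ω.2 i).2)) := by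
    intro ω x
    refine povm_pull (VA ω x) _ (fun a => hAα _ _ _) ?_
    rw [hAs, eVA ω x (ω.2 i).2]
  have hQB : ∀ (ω : O × (Fin k → Zt G)) (y : Fin G.nY),
      ∃ Q : Fin G.nB → Matrix (ρB × Fin dB) (ρB × Fin dB) ℂ,
      (∀ a, (Q a).PosSemidef) ∧ (1 - ∑ a, Q a).PosSemidef ∧
      ∀ a, (VB ω y)ᴴ * Q a * VB ω y = Bβ ω.1 a (Function.update ω.2 i ((ω.2 i).1, y)) := by
    intro ω y
    refine povm_pull (VB ω y) _ (fun a => hBβ _ _ _) ?_
    rw [hBs, eVB ω (ω.2 i).1 y]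
  choose QA0 hQA1 hQA2 hQA3 using hQA
  choose QB0 hQB1 hQB2 hQB3 using hQB
  set φ : Fin G.nX → Fin G.nY → O × (Fin k → Zt G) → (ρA × Fin dA) × (ρB × Fin dB) → ℂ :=
    fun x y ω => ((Real.sqrt (wt ω) : ℝ) : ℂ) • ((VA ω x ⊗ₖ VB ω y).mulVec ψ) with hφ
  set φX : Fin G.nX → O × (Fin k → Zt G) → (ρA × Fin dA) × (ρB × Fin dB) → ℂ :=
    fun x ω => ((Real.sqrt (wt ω) : ℝ) : ℂ) • ((VA ω x ⊗ₖ VB' ω x).mulVec ψ) with hφX
  set φY : Fin G.nY → O × (Fin k → Zt G) → (ρA × Fin dA) × (ρB × Fin dB) → ℂ :=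
    fun y ω => ((Real.sqrt (wt ω) : ℝ) : ℂ) • ((VA' ω y ⊗ₖ VB ω y).mulVec ψ) with hφY
  have hqn : ∀ x y, nsq (dsum (φ x y)) = q x y := by
    intro x y
    rw [nsq_dsum, hq]
    refine Finset.sum_congr rfl fun ω _ => ?_
    rw [hφ]
    dsimp only
    rw [nsq_smul_mulVec, Real.sq_sqrt (hwt0 ω), eVA ω x y, eVB ω x y]
  refine ⟨(ρA × Fin dA) × (O × (Fin k → Zt G)), (ρB × Fin dB) × (O × (Fin k → Zt G)),
    inferInstance, inferInstance, inferInstance, inferInstance,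
    fun x y => dsum (φ x y), fun x => dsum (φX x), fun y => dsum (φY y),
    fun x a => Matrix.blockDiagonal (fun ω => QA0 ω x a),
    fun y b => Matrix.blockDiagonal (fun ω => QB0 ω y b), ?_, ?_, ?_, ?_, ?_, ?_, ?_⟩
  · intro x a
    exact blockDiagonal_posSemidef fun ω => hQA1 ω x a
  · intro y b
    exact blockDiagonal_posSemidef fun ω => hQB1 ω y b
  · intro x
    rw [one_sub_blockDiagonal (fun ω a => QA0 ω x a)]
    exact blockDiagonal_posSemidef fun ω => hQA2 ω x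
  · intro y
    rw [one_sub_blockDiagonal (fun ω b => QB0 ω y b)]
    exact blockDiagonal_posSemidef fun ω => hQB2 ω y
  · -- total weight
    simp only [hqn]
    rw [hP, ← resample i u hu (fun o z => bra ψ (A o z) (B o z))]
    refine Finset.sum_congr rfl fun x _ => Finset.sum_congr rfl fun y _ => ?_
    rw [hq]
  · -- errors
    have e1 : ∀ x y, nsq (dsum (φ x y) - dsum (φX x))
        = ∑ ω : O × (Fin k → Zt G), ((∏ j, mu G (ω.2 j)) * u ω.1 ω.2) *
          bra ψ (A ω.1 (Function.update ω.2 i (x, y)))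
            (Disc KB (B ω.1 (Function.update ω.2 i (x, y)))
              (B' ω.1 (Function.update ω.2 i (x, y)))) := by
      intro x y
      rw [← dsum_sub, nsq_dsum]
      refine Finset.sum_congr rfl fun ω _ => ?_
      rw [hφ, hφX]
      dsimp only
      rw [nsq_sub_mulVec_right, Real.sq_sqrt (hwt0 ω), eVA ω x y, eDB ω x y]
    have e2 : ∀ x y, nsq (dsum (φ x y) - dsum (φY y))
        = ∑ ω : O × (Fin k → Zt G), ((∏ j, mu G (ω.2 j)) * u ω.1 ω.2) *
          bra ψ (Disc KA (A ω.1 (Function.update ω.2 i (x, y)))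
              (A' ω.1 (Function.update ω.2 i (x, y))))
            (B ω.1 (Function.update ω.2 i (x, y))) := by
      intro x y
      rw [← dsum_sub, nsq_dsum]
      refine Finset.sum_congr rfl fun ω _ => ?_
      rw [hφ, hφY]
      dsimp only
      rw [nsq_sub_mulVec_left, Real.sq_sqrt (hwt0 ω), eVB ω x y, eDA ω x y]
    simp only [e1, e2, hqn, mul_add, Finset.sum_add_distrib]
    rw [resample i u hu (fun o z => bra ψ (A o z) (Disc KB (B o z) (B' o z))),
      resample i u hu (fun o z => bra ψ (Disc KA (A o z) (A' o z)) (B o z))]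
    linarith
  · -- winning weight
    obtain ⟨H0, hH0⟩ : ∃ H : O → (Fin k → Zt G) → ℝ, H = fun o z => ∑ a, ∑ b,
        if G.accept (z i).1 (z i).2 a b = true then bra ψ (Aα o a z) (Bβ o b z) else 0 := ⟨_, rfl⟩
    have e3 : ∀ x y, (∑ a, ∑ b, if G.accept x y a b = true then
        bra (dsum (φ x y)) (Matrix.blockDiagonal (fun ω => QA0 ω x a))
          (Matrix.blockDiagonal (fun ω => QB0 ω y b)) else 0)
        = ∑ ω : O × (Fin k → Zt G), ((∏ j, mu G (ω.2 j)) * u ω.1 ω.2) *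
          H0 ω.1 (Function.update ω.2 i (x, y)) := by
      intro x y
      rw [hH0]
      dsimp only
      simp only [Function.update_self]
      simp only [Finset.mul_sum]
      rw [Finset.sum_comm (s := (Finset.univ : Finset (O × (Fin k → Zt G))))]
      refine Finset.sum_congr rfl fun a _ => ?_
      rw [Finset.sum_comm (s := (Finset.univ : Finset (O × (Fin k → Zt G))))]
      refine Finset.sum_congr rfl fun b _ => ?_
      split_ifs with hacc
      · rw [bra_dsum]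
        refine Finset.sum_congr rfl fun ω _ => ?_
        rw [hφ]
        dsimp only
        rw [bra_smul_mulVec, Real.sq_sqrt (hwt0 ω), hQA3, hQB3, iAα ω.1 a ω.2 x (ω.2 i).2 y,
          iBβ ω.1 b ω.2 (ω.2 i).1 x y]
      · simp
    calc _ = ∑ x, ∑ y, G.prob x y * ∑ ω : O × (Fin k → Zt G),
          ((∏ j, mu G (ω.2 j)) * u ω.1 ω.2) * H0 ω.1 (Function.update ω.2 i (x, y)) := by
          refine Finset.sum_congr rfl fun x _ => Finset.sum_congr rfl fun y _ => ?_
          rw [e3]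
      _ = ∑ o, Ex (mu G) (u o) (H0 o) := resample i u hu H0
      _ = _ := by
          refine Finset.sum_congr rfl fun o _ => ?_
          unfold Ex
          rw [hH0]
          simp only [Finset.mul_sum]
          rw [Finset.sum_comm]
          refine Finset.sum_congr rfl fun a _ => ?_
          rw [Finset.sum_comm]
          refine Finset.sum_congr rfl fun b _ => Finset.sum_congr rfl fun z _ => ?_
          split_ifs
          · ring
          · ring

end Crest.H16PR
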