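import Crest.Agent.H16PRFam

/-!
H16PRQ: POVM pull-back and direct-sum registers (rid 342).
-/

set_option autoImplicit false

open scoped Kronecker ComplexOrder BigOperators Matrix MatrixOrder
open Crest.MathPhysics.NonlocalGame

namespace Crest.H16PR

open Crest.PR Crest.H26OneShot Crest.H26PRTele

/-- pseudo-inverse of a Hermitian matrix -/
theorem exists_pinv {n : Type*} [Fintype n] [DecidableEq n] {M : Matrix n n ℂ}
    (hM : M.IsHermitian) : ∃ P : Matrix n n ℂ, P.IsHermitian ∧ M * P * M = M ∧ P * M * P = P := by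
  classical
  set U : Matrix n n ℂ := (hM.eigenvectorUnitary : Matrix n n ℂ) with hU
  have hUU : Uᴴ * U = 1 := by
    have := (Matrix.mem_unitaryGroup_iff'.1 hM.eigenvectorUnitary.2)
    simpa [Matrix.star_eq_conjTranspose] using this
  set D : Matrix n n ℂ := Matrix.diagonal (fun i => ((hM.eigenvalues i : ℝ) : ℂ)) with hD
  have hMs : M = U * D * Uᴴ := by
    have := hM.spectral_theorem
    rw [Unitary.conjStarAlgAut_apply] at this
    exact this
  set D' : Matrix n n ℂ := Matrix.diagonal (fun i => ((hM.eigenvalues i : ℝ) : ℂ)⁻¹) with hD'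
  refine ⟨U * D' * Uᴴ, ?_, ?_, ?_⟩
  · unfold Matrix.IsHermitian
    rw [Matrix.conjTranspose_mul, Matrix.conjTranspose_mul, Matrix.conjTranspose_conjTranspose,
      ← Matrix.mul_assoc]
    congr 2
    rw [hD', Matrix.diagonal_conjTranspose]
    congr 1
    funext i
    simp
  · have h3 : D * D' * D = D := by
      rw [hD, hD', Matrix.diagonal_mul_diagonal, Matrix.diagonal_mul_diagonal]
      congr 1
      funext i
      by_cases h : ((hM.eigenvalues i : ℝ) : ℂ) = 0
      · simp [h]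
      · rw [mul_inv_cancel₀ h, one_mul]
    calc M * (U * D' * Uᴴ) * M = (U * D * Uᴴ) * (U * D' * Uᴴ) * (U * D * Uᴴ) := by rw [← hMs]
      _ = U * (D * (Uᴴ * U) * D' * (Uᴴ * U) * D) * Uᴴ := by simp only [Matrix.mul_assoc]
      _ = U * D * Uᴴ := by rw [hUU, Matrix.mul_one, Matrix.mul_one, h3]
      _ = M := hMs.symm
  · have h3 : D' * D * D' = D' := by
      rw [hD, hD', Matrix.diagonal_mul_diagonal, Matrix.diagonal_mul_diagonal]
      congr 1
      funext i
      by_cases h : ((hM.eigenvalues i : ℝ) : ℂ) = 0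
      · simp [h]
      · rw [inv_mul_cancel₀ h, one_mul]
    calc (U * D' * Uᴴ) * M * (U * D' * Uᴴ) = (U * D' * Uᴴ) * (U * D * Uᴴ) * (U * D' * Uᴴ) := by
          rw [← hMs]
      _ = U * (D' * (Uᴴ * U) * D * (Uᴴ * U) * D') * Uᴴ := by simp only [Matrix.mul_assoc]
      _ = U * D' * Uᴴ := by rw [hUU, Matrix.mul_one, Matrix.mul_one, h3]

/-- **POVM pull-back** -/
theorem povm_pull {m n A : Type*} [Fintype m] [DecidableEq m] [Fintype n] [DecidableEq n]
    [Fintype A] (K : Matrix m n ℂ) (Ma : A → Matrix n n ℂ) (hMa : ∀ a, (Ma a).PosSemidef)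
    (hsum : ∑ a, Ma a = Kᴴ * K) :
    ∃ Q : A → Matrix m m ℂ, (∀ a, (Q a).PosSemidef) ∧ (1 - ∑ a, Q a).PosSemidef ∧
      ∀ a, Kᴴ * Q a * K = Ma a := by
  classical
  set M : Matrix n n ℂ := Kᴴ * K with hMdef
  have hMpsd : M.PosSemidef := Matrix.posSemidef_conjTranspose_mul_self K
  obtain ⟨P, hPh, h1, h2⟩ := exists_pinv hMpsd.isHermitian
  have hPh' : Pᴴ = P := hPh
  have hMh : Mᴴ = M := hMpsd.isHermitian
  refine ⟨fun a => (K * P) * Ma a * (K * P)ᴴ, fun a => (hMa a).mul_mul_conjTranspose_same _, ?_, ?_⟩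
  · have hE : ∑ a, (K * P) * Ma a * (K * P)ᴴ = K * P * Kᴴ := by
      rw [← Matrix.sum_mul, ← Matrix.mul_sum, hsum, Matrix.conjTranspose_mul, hPh']
      calc K * P * M * (P * Kᴴ) = K * (P * M * P) * Kᴴ := by simp only [Matrix.mul_assoc]
        _ = K * P * Kᴴ := by rw [h2]
    rw [hE]
    have hEE : (K * P * Kᴴ) * (K * P * Kᴴ) = K * P * Kᴴ := by
      calc (K * P * Kᴴ) * (K * P * Kᴴ) = K * (P * (Kᴴ * K) * P) * Kᴴ := by
            simp only [Matrix.mul_assoc]
        _ = K * P * Kᴴ := by rw [← hMdef, h2]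
    have hEh : (K * P * Kᴴ)ᴴ = K * P * Kᴴ := by
      rw [Matrix.conjTranspose_mul, Matrix.conjTranspose_mul, Matrix.conjTranspose_conjTranspose,
        hPh', Matrix.mul_assoc]
    have h3 : (1 - K * P * Kᴴ) = (1 - K * P * Kᴴ)ᴴ * (1 - K * P * Kᴴ) := by
      rw [Matrix.conjTranspose_sub, hEh, Matrix.conjTranspose_one, sub_mul, mul_sub, mul_sub, hEE]
      simp
    rw [h3]
    exact Matrix.posSemidef_conjTranspose_mul_self _
  · intro a
    have hle : (M - Ma a).PosSemidef := by
      have : M - Ma a = ∑ b ∈ Finset.univ.erase a, Ma b := by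
        rw [← hsum, ← Finset.add_sum_erase Finset.univ Ma (Finset.mem_univ a)]
        abel
      rw [this]
      exact Matrix.posSemidef_sum _ fun b _ => hMa b
    set R : Matrix n n ℂ := 1 - M * P with hR
    have hRM : R * M = 0 := by rw [hR, sub_mul, one_mul, h1, sub_self]
    have hz : R * Ma a * Rᴴ = 0 := by
      have p1 := (hMa a).mul_mul_conjTranspose_same R
      have p2 := hle.mul_mul_conjTranspose_same R
      rw [mul_sub, hRM, zero_sub, neg_mul] at p2
      have h4 : R * Ma a * Rᴴ ≤ 0 := by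
        rw [Matrix.le_iff, zero_sub]; exact p2
      have h5 : 0 ≤ R * Ma a * Rᴴ := by
        rw [Matrix.le_iff, sub_zero]; exact p1
      exact le_antisymm h4 h5
    obtain ⟨B, hB⟩ := CStarAlgebra.nonneg_iff_eq_star_mul_self.mp (hMa a).nonneg
    rw [Matrix.star_eq_conjTranspose] at hB
    have hBR : B * Rᴴ = 0 := by
      have : (B * Rᴴ)ᴴ * (B * Rᴴ) = 0 := by
        rw [Matrix.conjTranspose_mul, Matrix.conjTranspose_conjTranspose]
        calc R * Bᴴ * (B * Rᴴ) = R * (Bᴴ * B) * Rᴴ := by simp only [Matrix.mul_assoc]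
          _ = 0 := by rw [← hB, hz]
      exact Matrix.conjTranspose_mul_self_eq_zero.1 this
    have hMR : Ma a * Rᴴ = 0 := by
      rw [hB, Matrix.mul_assoc, hBR, Matrix.mul_zero]
    have hRh : Rᴴ = 1 - P * M := by
      rw [hR, Matrix.conjTranspose_sub, Matrix.conjTranspose_one, Matrix.conjTranspose_mul, hPh',
        hMh]
    have h6 : Ma a * (P * M) = Ma a := by
      rw [hRh, mul_sub, mul_one, sub_eq_zero] at hMR
      exact hMR.symm
    have h7 : (M * P) * Ma a = Ma a := by
      have := congrArg Matrix.conjTranspose h6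
      rw [Matrix.conjTranspose_mul, Matrix.conjTranspose_mul, hPh', hMh, (hMa a).isHermitian] at this
      exact this
    calc Kᴴ * ((K * P) * Ma a * (K * P)ᴴ) * K
        = (Kᴴ * K * P) * Ma a * (P * (Kᴴ * K)) := by
          rw [Matrix.conjTranspose_mul, hPh']; simp only [Matrix.mul_assoc]
      _ = (M * P) * Ma a * (P * M) := by rw [← hMdef]
      _ = Ma a := by rw [h7, h6]

end Crest.H16PR
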