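import Crest.Agent.H16PRQ

/-!
H16PRReg: direct-sum (classical) registers (rid 342).
-/

set_option autoImplicit false

open scoped Kronecker ComplexOrder BigOperators Matrix
open Crest.MathPhysics.NonlocalGame

namespace Crest.H16PR

open Crest.PR Crest.H26OneShot Crest.H26PRTele

section basic
variable {α β m m' : Type*} [Fintype α] [Fintype β] [Fintype m] [Fintype m']

theorem bra_mulVec (A : Matrix m α ℂ) (B : Matrix m' β ℂ) (Q : Matrix m m ℂ) (Q' : Matrix m' m' ℂ)
    (ψ : α × β → ℂ) :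
    bra ((A ⊗ₖ B).mulVec ψ) Q Q' = bra ψ (Aᴴ * Q * A) (Bᴴ * Q' * B) := by
  unfold bra
  congr 1
  rw [Matrix.star_mulVec, ← Matrix.dotProduct_mulVec, Matrix.mulVec_mulVec, Matrix.mulVec_mulVec]
  congr 2
  rw [Matrix.conjTranspose_kronecker, ← Matrix.mul_kronecker_mul, ← Matrix.mul_kronecker_mul,
    Matrix.mul_assoc, Matrix.mul_assoc]

theorem nsq_eq_bra [DecidableEq α] [DecidableEq β] (ψ : α × β → ℂ) : nsq ψ = bra ψ 1 1 := by
  unfold nsq bra
  rw [Matrix.one_kronecker_one, Matrix.one_mulVec]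
  unfold dotProduct
  rw [Complex.re_sum]
  refine Finset.sum_congr rfl fun i _ => ?_
  rw [Pi.star_apply, Complex.star_def, Complex.conj_mul', ← Complex.ofReal_pow, Complex.ofReal_re]

theorem nsq_nonneg {ι : Type*} [Fintype ι] (v : ι → ℂ) : 0 ≤ nsq v :=
  Finset.sum_nonneg fun _ _ => by positivity

theorem nsq_smul {ι : Type*} [Fintype ι] (c : ℝ) (v : ι → ℂ) :
    nsq ((c : ℂ) • v) = c ^ 2 * nsq v := by
  unfold nsq
  rw [Finset.mul_sum]
  refine Finset.sum_congr rfl fun i _ => ?_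
  rw [Pi.smul_apply, smul_eq_mul, norm_mul, mul_pow, Complex.norm_real, Real.norm_eq_abs, sq_abs]

end basic

section dsum
variable {Ω α β : Type*} [Fintype Ω] [DecidableEq Ω] [Fintype α] [Fintype β]

/-- direct sum of vectors with a perfectly correlated classical register -/
def dsum (φ : Ω → α × β → ℂ) : (α × Ω) × (β × Ω) → ℂ :=
  fun p => if p.1.2 = p.2.2 then φ p.1.2 (p.1.1, p.2.1) else 0

theorem dsum_sub (φ φ' : Ω → α × β → ℂ) : dsum (fun ω => φ ω - φ' ω) = dsum φ - dsum φ' := by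
  funext p
  unfold dsum
  rw [Pi.sub_apply]
  split_ifs
  · rfl
  · simp

theorem dot_dsum (φ φ' : Ω → α × β → ℂ) :
    dotProduct (star (dsum φ)) (dsum φ') = ∑ ω, dotProduct (star (φ ω)) (φ' ω) := by
  unfold dotProduct dsum
  simp only [Fintype.sum_prod_type, Pi.star_apply]
  have : ∀ (i : α) (ω : Ω) (j : β), (∑ ω' : Ω, star (if ω = ω' then φ ω (i, j) else 0) *
      (if ω = ω' then φ' ω (i, j) else 0)) = star (φ ω (i, j)) * φ' ω (i, j) := by
    intro i ω j
    rw [Finset.sum_eq_single ω]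
    · simp
    · intro b _ hb
      rw [if_neg (Ne.symm hb)]; simp
    · intro h; exact absurd (Finset.mem_univ _) h
  simp only [this]
  rw [Finset.sum_comm]

theorem mulVec_dsum (φ : Ω → α × β → ℂ) (Q : Ω → Matrix α α ℂ) (Q' : Ω → Matrix β β ℂ) :
    (Matrix.blockDiagonal Q ⊗ₖ Matrix.blockDiagonal Q').mulVec (dsum φ)
      = dsum (fun ω => (Q ω ⊗ₖ Q' ω).mulVec (φ ω)) := by
  funext p
  obtain ⟨⟨i, ω⟩, ⟨j, ω'⟩⟩ := p
  unfold Matrix.mulVec dotProduct dsum
  simp only [Fintype.sum_prod_type, Matrix.kroneckerMap_apply, Matrix.blockDiagonal_apply]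
  by_cases h : ω = ω'
  · subst h
    rw [if_pos rfl]
    refine Finset.sum_congr rfl fun i' _ => ?_
    rw [Finset.sum_eq_single ω]
    · refine Finset.sum_congr rfl fun j' _ => ?_
      rw [Finset.sum_eq_single ω]
      · simp
      · intro b _ hb
        rw [if_neg (Ne.symm hb)]; simp
      · intro h; exact absurd (Finset.mem_univ _) h
    · intro b _ hb
      refine Finset.sum_eq_zero fun j' _ => Finset.sum_eq_zero fun b' _ => ?_
      rw [if_neg (Ne.symm hb)]; simp
    · intro h; exact absurd (Finset.mem_univ _) h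
  · rw [if_neg h]
    refine Finset.sum_eq_zero fun i' _ => Finset.sum_eq_zero fun ω1 _ =>
      Finset.sum_eq_zero fun j' _ => Finset.sum_eq_zero fun ω1' _ => ?_
    by_cases h1 : ω = ω1
    · by_cases h2 : ω' = ω1'
      · rw [if_neg (show ¬ ω1 = ω1' by rw [← h1, ← h2]; exact h)]; simp
      · rw [if_neg h2]; simp
    · rw [if_neg h1]; simp

theorem bra_dsum (φ : Ω → α × β → ℂ) (Q : Ω → Matrix α α ℂ) (Q' : Ω → Matrix β β ℂ) :
    bra (dsum φ) (Matrix.blockDiagonal Q) (Matrix.blockDiagonal Q')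
      = ∑ ω, bra (φ ω) (Q ω) (Q' ω) := by
  unfold bra
  rw [mulVec_dsum, dot_dsum, Complex.re_sum]

theorem nsq_dsum (φ : Ω → α × β → ℂ) : nsq (dsum φ) = ∑ ω, nsq (φ ω) := by
  have h : ∀ {ι : Type _} [Fintype ι] (v : ι → ℂ), nsq v = (dotProduct (star v) v).re := by
    intro ι _ v
    unfold nsq dotProduct
    rw [Complex.re_sum]
    refine Finset.sum_congr rfl fun i _ => ?_
    rw [Pi.star_apply, Complex.star_def, Complex.conj_mul', ← Complex.ofReal_pow,
      Complex.ofReal_re]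
  rw [h, dot_dsum, Complex.re_sum]
  refine Finset.sum_congr rfl fun ω _ => ?_
  unfold nsq dotProduct
  rw [Complex.re_sum]
  refine Finset.sum_congr rfl fun i _ => ?_
  rw [Pi.star_apply, Complex.star_def, Complex.conj_mul', ← Complex.ofReal_pow,
    Complex.ofReal_re]

omit [Fintype Ω] in
theorem blockDiagonal_conj_mul (B : Ω → Matrix α α ℂ) [Fintype Ω] :
    (Matrix.blockDiagonal B)ᴴ * Matrix.blockDiagonal B
      = Matrix.blockDiagonal (fun ω => (B ω)ᴴ * B ω) := by
  rw [Matrix.blockDiagonal_conjTranspose, ← Matrix.blockDiagonal_mul]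

open scoped MatrixOrder in
theorem blockDiagonal_posSemidef {Q : Ω → Matrix α α ℂ} (hQ : ∀ ω, (Q ω).PosSemidef) :
    (Matrix.blockDiagonal Q).PosSemidef := by
  classical
  have h : ∀ ω, ∃ B : Matrix α α ℂ, Q ω = Bᴴ * B := by
    intro ω
    obtain ⟨B, hB⟩ := CStarAlgebra.nonneg_iff_eq_star_mul_self.mp (hQ ω).nonneg
    exact ⟨B, hB⟩
  choose B hB using h
  have : Matrix.blockDiagonal Q = (Matrix.blockDiagonal B)ᴴ * Matrix.blockDiagonal B := by
    rw [blockDiagonal_conj_mul]
    congr 1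
    funext ω
    exact hB ω
  rw [this]
  exact Matrix.posSemidef_conjTranspose_mul_self _

end dsum

section stack
variable {ρ n : Type*} [Fintype ρ] [Fintype n]

/-- stack of a family of matrices -/
def stack (K : ρ → Matrix n n ℂ) : Matrix (ρ × n) n ℂ := fun p j => K p.1 p.2 j

theorem stack_sub (K K' : ρ → Matrix n n ℂ) : stack (fun r => K r - K' r) = stack K - stack K' := by
  ext p j
  rfl

theorem stack_conj_mul (K : ρ → Matrix n n ℂ) :
    (stack K)ᴴ * stack K = ∑ r, (K r)ᴴ * K r := by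
  ext i j
  rw [Matrix.mul_apply, Fintype.sum_prod_type, Matrix.sum_apply]
  refine Finset.sum_congr rfl fun r _ => ?_
  rw [Matrix.mul_apply]
  rfl

theorem disc_eq (K : ρ → Matrix n n ℂ → Matrix n n ℂ) (A B : Matrix n n ℂ) :
    Disc K A B = (stack (fun r => K r A) - stack (fun r => K r B))ᴴ
      * (stack (fun r => K r A) - stack (fun r => K r B)) := by
  rw [← stack_sub, stack_conj_mul]
  rfl

end stack

end Crest.H16PR
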