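import Mathlib
import Crest.Prelude.Def_TwoAdicShift

/-! rid 113: weighted shifts on `ℓ²(ℤ)`. -/
set_option autoImplicit false
open Filter Topology
open Crest.AnalysisR.TwoAdic

namespace Crest.R113.H16

/-- the sequence `(a_j f_{j-k})_j` is square summable -/
lemma memW (a : ℤ → ℂ) (C : ℝ) (hC : ∀ j, ‖a j‖ ≤ C) (k : ℤ) (f : seqHilbert) :
    Memℓp (fun j : ℤ => a j * f (j - k)) 2 := by
  have hC0 : 0 ≤ C := (norm_nonneg _).trans (hC 0)
  have hf := lp.memℓp f
  have h2 : (0 : ℝ) < (2 : ENNReal).toReal := by norm_num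
  refine memℓp_gen ?_
  have hs := (hf.summable h2)
  have hs' : Summable fun j : ℤ => ‖f (j - k)‖ ^ (2 : ENNReal).toReal :=
    (Equiv.subRight k).summable_iff.2 hs
  refine Summable.of_nonneg_of_le (fun j => by positivity) (fun j => ?_)
    (hs'.mul_left (C ^ (2 : ENNReal).toReal))
  rw [norm_mul, Real.mul_rpow (norm_nonneg _) (norm_nonneg _)]
  gcongr
  exact hC j

/-- weighted shift `(W f)_j = a_j f_{j-k}` -/
noncomputable def W (a : ℤ → ℂ) (C : ℝ) (hC : ∀ j, ‖a j‖ ≤ C) (k : ℤ) :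
    seqHilbert →L[ℂ] seqHilbert :=
  LinearMap.mkContinuous
    { toFun := fun f => ⟨fun j : ℤ => a j * f (j - k), memW a C hC k f⟩
      map_add' := fun f g => by
        ext j
        simp [mul_add]
      map_smul' := fun c f => by
        ext j
        simp [mul_left_comm] } C (fun f => by
    have hC0 : 0 ≤ C := (norm_nonneg _).trans (hC 0)
    have h2 : (0 : ℝ) < (2 : ENNReal).toReal := by norm_num
    refine lp.norm_le_of_forall_sum_le h2 (by positivity) (fun s => ?_)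
    have h3 : ∑ j ∈ s, ‖f (j - k)‖ ^ (2 : ENNReal).toReal ≤ ‖f‖ ^ (2 : ENNReal).toReal := by
      classical
      have := lp.sum_rpow_le_norm_rpow h2 f (s.image fun j => j - k)
      rwa [Finset.sum_image (fun a _ b _ h => sub_left_injective h)] at this
    calc ∑ j ∈ s, ‖a j * f (j - k)‖ ^ (2 : ENNReal).toReal
        ≤ ∑ j ∈ s, C ^ (2 : ENNReal).toReal * ‖f (j - k)‖ ^ (2 : ENNReal).toReal := by
          refine Finset.sum_le_sum fun j _ => ?_
          rw [norm_mul, Real.mul_rpow (norm_nonneg _) (norm_nonneg _)]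
          gcongr
          exact hC j
      _ = C ^ (2 : ENNReal).toReal * ∑ j ∈ s, ‖f (j - k)‖ ^ (2 : ENNReal).toReal := by
          rw [Finset.mul_sum]
      _ ≤ C ^ (2 : ENNReal).toReal * ‖f‖ ^ (2 : ENNReal).toReal := by gcongr
      _ = (C * ‖f‖) ^ (2 : ENNReal).toReal := by
          rw [Real.mul_rpow hC0 (norm_nonneg _)])

lemma W_apply (a : ℤ → ℂ) (C : ℝ) (hC : ∀ j, ‖a j‖ ≤ C) (k : ℤ) (f : seqHilbert) (j : ℤ) :
    W a C hC k f j = a j * f (j - k) := rfl

lemma W_norm (a : ℤ → ℂ) (C : ℝ) (hC : ∀ j, ‖a j‖ ≤ C) (k : ℤ) (f : seqHilbert) :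
    ‖W a C hC k f‖ ≤ C * ‖f‖ := by
  have hC0 : 0 ≤ C := (norm_nonneg _).trans (hC 0)
  exact ContinuousLinearMap.le_of_opNorm_le _ (LinearMap.mkContinuous_norm_le _ hC0 _) f

lemma basis_apply (i j : ℤ) : basisVec i j = if j = i then 1 else 0 := by
  rw [basisVec, lp.single_apply, Pi.single_apply]

lemma W_basis (a : ℤ → ℂ) (C : ℝ) (hC : ∀ j, ‖a j‖ ≤ C) (k : ℤ) (i : ℤ) :
    W a C hC k (basisVec i) = a (i + k) • basisVec (i + k) := by
  ext j
  rw [W_apply, lp.coeFn_smul, Pi.smul_apply, basis_apply, basis_apply, smul_eq_mul]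
  by_cases h : j = i + k
  · subst h; simp
  · have h' : j - k ≠ i := fun h2 => h (by omega)
    rw [if_neg h', if_neg h, mul_zero, mul_zero]

end Crest.R113.H16
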