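import Mathlib
import Crest.Agent.H17Area
import Crest.Agent.H17Cyl

set_option autoImplicit false

open MeasureTheory MeasureTheory.Measure Module
open scoped ENNReal RealInnerProductSpace

namespace Crest.Agent.H17Cover

open Crest.Agent.H17Area Crest.Agent.H17Cyl

lemma mb {a b M : ℝ} (ha : |a| ≤ 1) (hb : |b| ≤ M) : |a * b| ≤ M := by
  rw [abs_mul]
  have : 0 ≤ |b| := abs_nonneg b
  nlinarith [abs_nonneg a]

/-- the height function -/
noncomputable def RR (c : ℝ) : ℝ := 1 / 2 + (c ^ 2 + c ^ 4) / 4000000 + 4 / 1000000000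

lemma half_le_RR (c : ℝ) : 1 / 2 ≤ RR c := by
  unfold RR
  have : 0 ≤ (c ^ 2 + c ^ 4) / 4000000 := by positivity
  linarith

lemma main_ineq (x y z c d : ℝ) (hx : |x| ≤ 1 - z) (hy : |y| ≤ z)
    (hc : |c| ≤ 1) (hd : |d| ≤ 1)
    (h1 : |y - (1/1000) * x * (1 + c ^ 2 - (1/1000000) ^ 2) / 2 - c * (z - (1/1000) * x * c)|
      ≤ (1/1000000) * (z - (1/1000) * x * c))
    (h2 : |-x - (1/1000) * y * (1 + d ^ 2 - (1/1000000) ^ 2) / 2 - d * (1 - z - (1/1000) * y * d)|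
      ≤ (1/1000000) * (1 - z - (1/1000) * y * d))
    (h3 : RR c < z - (1/1000) * x * c) (h4 : RR d < 1 - z - (1/1000) * y * d) : False := by
  have hz0 : 0 ≤ z := (abs_nonneg y).trans hy
  have hz1 : z ≤ 1 := by linarith only [(abs_nonneg x).trans hx]
  have hx1 : |x| ≤ 1 := by linarith only [hx, hz0]
  have hy1 : |y| ≤ 1 := by linarith only [hy, hz1]
  have hcc := abs_le.mp hc
  have hdd := abs_le.mp hd
  have hc2 : |1 - c ^ 2| ≤ 1 := by
    rw [abs_le]; constructor <;> nlinarith only [hcc.1, hcc.2]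
  have hd2 : |1 - d ^ 2| ≤ 1 := by
    rw [abs_le]; constructor <;> nlinarith only [hdd.1, hdd.2]
  have hxc := mb hc hx1
  have hyd := mb hd hy1
  obtain ⟨e1, he1⟩ : ∃ e1, e1 = y - (1/1000) * x * (1 + c ^ 2 - (1/1000000) ^ 2) / 2 - c * (z - (1/1000) * x * c) := ⟨_, rfl⟩
  obtain ⟨e2, he2⟩ : ∃ e2, e2 = -x - (1/1000) * y * (1 + d ^ 2 - (1/1000000) ^ 2) / 2 - d * (1 - z - (1/1000) * y * d) := ⟨_, rfl⟩
  rw [← he1] at h1
  rw [← he2] at h2
  have hxc' := abs_le.mp hxc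
  have hyd' := abs_le.mp hyd
  have hE1 : |e1| ≤ 2 / 1000000 := by
    refine h1.trans ?_
    linarith only [hxc'.1, hxc'.2, hz1]
  have hE2 : |e2| ≤ 2 / 1000000 := by
    refine h2.trans ?_
    linarith only [hyd'.1, hyd'.2, hz0]
  have hR1 : 1 / 2 ≤ RR c := half_le_RR c
  have hR2 : 1 / 2 ≤ RR d := half_le_RR d
  obtain ⟨W, hW⟩ : ∃ W, W = 2 * z - 1 := ⟨_, rfl⟩
  obtain ⟨A, hA⟩ : ∃ A, A = x + d / 2 := ⟨_, rfl⟩
  obtain ⟨B, hB⟩ : ∃ B, B = y - c / 2 := ⟨_, rfl⟩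
  have hWb : |W| ≤ 2 / 1000 := by
    rw [abs_le, hW]; constructor
    · linarith only [hxc'.1, h3, hR1]
    · linarith only [hyd'.1, h4, hR2]
  have hBeq : B = c * W / 2 + (1/1000) * ((1 - c ^ 2) * x) / 2 - (1/1000) * x * (1/1000000) ^ 2 / 2 + e1 := by
    rw [hB, hW, he1]; ring
  have hAeq : A = d * W / 2 - (1/1000) * ((1 - d ^ 2) * y) / 2 + (1/1000) * y * (1/1000000) ^ 2 / 2 - e2 := by
    rw [hA, hW, he2]; ring
  have q1 := abs_le.mp (mb hc hWb)
  have q2 := abs_le.mp (mb hd hWb)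
  have q3 := abs_le.mp (mb hc2 hx1)
  have q4 := abs_le.mp (mb hd2 hy1)
  have q5 := abs_le.mp hE1
  have q6 := abs_le.mp hE2
  have q7 := abs_le.mp hx1
  have q8 := abs_le.mp hy1
  have hBb : |B| ≤ 1503 / 1000000 := by
    rw [abs_le, hBeq]; constructor <;> linarith only [q1.1, q1.2, q3.1, q3.2, q5.1, q5.2, q7.1, q7.2]
  have hAb : |A| ≤ 1503 / 1000000 := by
    rw [abs_le, hAeq]; constructor <;> linarith only [q2.1, q2.2, q4.1, q4.2, q6.1, q6.2, q8.1, q8.2]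
  obtain ⟨E, hE⟩ : ∃ E, E = (z - (1/1000) * x * c) + (1 - z - (1/1000) * y * d) - 1 := ⟨_, rfl⟩
  have hEeq : E = -(1/1000) * (c * A + d * B) := by rw [hE, hA, hB]; ring
  have q9 := abs_le.mp (mb hc hAb)
  have q10 := abs_le.mp (mb hd hBb)
  obtain ⟨D, hD⟩ : ∃ D, D = (z - (1/1000) * x * c) - (1 - z - (1/1000) * y * d) := ⟨_, rfl⟩
  have hDb : |D| ≤ 302 / 100000000 := by
    rw [abs_le]
    have : E ≤ 302 / 100000000 := by rw [hEeq]; linarith only [q9.1, q10.1]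
    constructor
    · linarith only [this, hE, hD, h3, h4, hR1, hR2]
    · linarith only [this, hE, hD, h3, h4, hR1, hR2]
  obtain ⟨Z, hZ⟩ : ∃ Z, Z = W + (1/1000) * c * d := ⟨_, rfl⟩
  have hZeq : Z = D + (1/1000) * (c * A - d * B) := by rw [hZ, hW, hD, hA, hB]; ring
  have qD := abs_le.mp hDb
  have hZb : |Z| ≤ 604 / 100000000 := by
    rw [abs_le, hZeq]; constructor <;> linarith only [q9.1, q9.2, q10.1, q10.2, qD.1, qD.2]
  obtain ⟨A1, hA1⟩ : ∃ A1, A1 = A + (1/1000) * c * (1 + d ^ 2) / 4 := ⟨_, rfl⟩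
  obtain ⟨B1, hB1⟩ : ∃ B1, B1 = B + (1/1000) * d * (1 + c ^ 2) / 4 := ⟨_, rfl⟩
  have hB1eq : B1 = c * Z / 2 + (1/1000) * ((1 - c ^ 2) * A) / 2 - (1/1000) * x * (1/1000000) ^ 2 / 2 + e1 := by
    rw [hB1, hBeq, hZ, hA]; ring
  have hA1eq : A1 = d * Z / 2 - (1/1000) * ((1 - d ^ 2) * B) / 2 + (1/1000) * y * (1/1000000) ^ 2 / 2 - e2 := by
    rw [hA1, hAeq, hZ, hB]; ring
  have q13 := abs_le.mp (mb hc hZb)
  have q14 := abs_le.mp (mb hd hZb)
  have q15 := abs_le.mp (mb hc2 hAb)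
  have q16 := abs_le.mp (mb hd2 hBb)
  have hB1b : |B1| ≤ 58 / 10000000 := by
    rw [abs_le, hB1eq]
    constructor <;> linarith only [q13.1, q13.2, q15.1, q15.2, q5.1, q5.2, q7.1, q7.2]
  have hA1b : |A1| ≤ 58 / 10000000 := by
    rw [abs_le, hA1eq]
    constructor <;> linarith only [q14.1, q14.2, q16.1, q16.2, q6.1, q6.2, q8.1, q8.2]
  have hkey : c * A1 + d * B1 = c * (d * D) + (1/2000) * (d * A1 + c * (c * (d * A1)) - c * B1 - d * (d * (c * B1)))
      - c * e2 + d * e1 + (1/2000) * (1/1000000) ^ 2 * (c * y - d * x) := by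
    have e1' : e1 = B1 - (c * Z / 2 + (1/1000) * ((1 - c ^ 2) * A) / 2 - (1/1000) * x * (1/1000000) ^ 2 / 2) := by
      linarith only [hB1eq]
    have e2' : e2 = -A1 + (d * Z / 2 - (1/1000) * ((1 - d ^ 2) * B) / 2 + (1/1000) * y * (1/1000000) ^ 2 / 2) := by
      linarith only [hA1eq]
    rw [e1', e2', hZeq, hA1, hB1]; ring
  have q17 := abs_le.mp (mb hc (mb hd hDb))
  have q18 := abs_le.mp (mb hd hA1b)
  have q19 := abs_le.mp (mb hc (mb hc (mb hd hA1b)))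
  have q20 := abs_le.mp (mb hc hB1b)
  have q21 := abs_le.mp (mb hd (mb hd (mb hc hB1b)))
  have q22 := abs_le.mp (mb hc hE2)
  have q23 := abs_le.mp (mb hd hE1)
  have q24 := abs_le.mp (mb hc hy1)
  have q25 := abs_le.mp (mb hd hx1)
  have hlow : -(71 / 10000000) ≤ c * A1 + d * B1 := by
    rw [hkey]
    linarith only [q17.1, q18.1, q19.1, q20.2, q21.2, q22.2, q23.1, q24.1, q25.2]
  have hE2eq : E = (1/1000)^2 * (c ^ 2 + d ^ 2 + 2 * (c ^ 2 * d ^ 2)) / 4 - (1/1000) * (c * A1 + d * B1) := by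
    rw [hEeq, hA1, hB1]; ring
  have hcd : 2 * (c ^ 2 * d ^ 2) ≤ c ^ 4 + d ^ 4 := by nlinarith only [sq_nonneg (c ^ 2 - d ^ 2)]
  have h5 : E ≤ (1/1000)^2 * (c ^ 2 + d ^ 2 + (c ^ 4 + d ^ 4)) / 4 + (71 / 10000000000) := by
    rw [hE2eq]; linarith only [hcd, hlow]
  unfold RR at h3 h4
  linarith only [h5, h3, h4, hE]


/-- discrete intermediate value -/
lemma find_index (G : ℕ → ℝ) (N : ℕ) (hN : 0 < N) (h0 : G 0 ≤ 0) (hG : 0 ≤ G N) :
    ∃ i < N, G i ≤ 0 ∧ 0 ≤ G (i + 1) := by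
  classical
  have hex : ∃ k, 0 < k ∧ 0 ≤ G k := ⟨N, hN, hG⟩
  obtain ⟨hk0, hk1⟩ := Nat.find_spec hex
  have hkN : Nat.find hex ≤ N := Nat.find_min' hex ⟨hN, hG⟩
  obtain ⟨m, hm⟩ : ∃ m, Nat.find hex = m + 1 := ⟨Nat.find hex - 1, by omega⟩
  refine ⟨m, by omega, ?_, by rw [← hm]; exact hk1⟩
  rcases Nat.eq_zero_or_pos m with h | h
  · rw [h]; exact h0
  · by_contra hcon
    push Not at hcon
    exact Nat.find_min hex (m := m) (by omega) ⟨h, hcon.le⟩

/-- centres of the sectors -/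
noncomputable def cc (i : ℕ) : ℝ := -1 + (2 * i + 1) / 1000000

noncomputable def lowW (c : ℝ) : E3 := !₂[1, (1/1000) * (1 + c ^ 2 - (1/1000000) ^ 2) / 2, Real.sqrt 2 * ((1/1000) * c)]
noncomputable def lowQ (c : ℝ) : E3 := !₂[0, RR c * (c - 1/1000000), Real.sqrt 2 * RR c]
noncomputable def lowR (c : ℝ) : E3 := !₂[0, RR c * (c + 1/1000000), Real.sqrt 2 * RR c]
noncomputable def upP : E3 := !₂[0, 0, Real.sqrt 2]
noncomputable def upW (c : ℝ) : E3 := !₂[-((1/1000) * (1 + c ^ 2 - (1/1000000) ^ 2) / 2), 1, -(Real.sqrt 2 * ((1/1000) * c))]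
noncomputable def upQ (c : ℝ) : E3 := !₂[-(RR c * (c - 1/1000000)), 0, Real.sqrt 2 - Real.sqrt 2 * RR c]
noncomputable def upR (c : ℝ) : E3 := !₂[-(RR c * (c + 1/1000000)), 0, Real.sqrt 2 - Real.sqrt 2 * RR c]

lemma RR_pos (c : ℝ) : 0 < RR c := lt_of_lt_of_le (by norm_num) (half_le_RR c)

lemma mem_low (x y z c : ℝ)
    (h1 : (c - 1/1000000) * (z - (1/1000) * x * c) ≤ y - (1/1000) * x * (1 + c ^ 2 - (1/1000000) ^ 2) / 2)
    (h2 : y - (1/1000) * x * (1 + c ^ 2 - (1/1000000) ^ 2) / 2 ≤ (c + 1/1000000) * (z - (1/1000) * x * c))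
    (h3 : z - (1/1000) * x * c ≤ RR c) :
    (!₂[x, y, Real.sqrt 2 * z] : E3) ∈ Cyl 0 (lowQ c) (lowR c) (lowW c) := by
  have hR := RR_pos c
  set z' := z - (1/1000) * x * c with hz'
  set y' := y - (1/1000) * x * (1 + c ^ 2 - (1/1000000) ^ 2) / 2 with hy'
  refine ⟨(((c + 1/1000000) * z' - y') / (RR c * (2/1000000))) • lowQ c +
    ((y' - (c - 1/1000000) * z') / (RR c * (2/1000000))) • lowR c, ?_, x, ?_⟩
  · rw [convexHull_triple_eq_image]
    refine ⟨!₂[((c + 1/1000000) * z' - y') / (RR c * (2/1000000)),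
      (y' - (c - 1/1000000) * z') / (RR c * (2/1000000))], ⟨?_, ?_, ?_⟩, ?_⟩
    · simp only [Matrix.cons_val_zero]
      apply div_nonneg <;> [linarith; positivity]
    · simp only [Matrix.cons_val_one]
      apply div_nonneg <;> [linarith; positivity]
    · simp only [Matrix.cons_val_zero, Matrix.cons_val_one]
      rw [← add_div, div_le_one (by positivity)]
      linarith
    · simp
  · ext i
    fin_cases i
    · simp [lowQ, lowR, lowW]
    · simp [lowQ, lowR, lowW]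
      field_simp
      rw [hy', hz']
      ring
    · simp [lowQ, lowR, lowW]
      field_simp
      rw [hz']
      ring

lemma mem_up (x y z c : ℝ)
    (h1 : (c - 1/1000000) * (1 - z - (1/1000) * y * c) ≤ -x - (1/1000) * y * (1 + c ^ 2 - (1/1000000) ^ 2) / 2)
    (h2 : -x - (1/1000) * y * (1 + c ^ 2 - (1/1000000) ^ 2) / 2 ≤ (c + 1/1000000) * (1 - z - (1/1000) * y * c))
    (h3 : 1 - z - (1/1000) * y * c ≤ RR c) :
    (!₂[x, y, Real.sqrt 2 * z] : E3) ∈ Cyl upP (upQ c) (upR c) (upW c) := by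
  have hR := RR_pos c
  set z' := 1 - z - (1/1000) * y * c with hz'
  set y' := -x - (1/1000) * y * (1 + c ^ 2 - (1/1000000) ^ 2) / 2 with hy'
  refine ⟨upP + (((c + 1/1000000) * z' - y') / (RR c * (2/1000000))) • (upQ c - upP) +
    ((y' - (c - 1/1000000) * z') / (RR c * (2/1000000))) • (upR c - upP), ?_, y, ?_⟩
  · rw [convexHull_triple_eq_image]
    refine ⟨!₂[((c + 1/1000000) * z' - y') / (RR c * (2/1000000)),
      (y' - (c - 1/1000000) * z') / (RR c * (2/1000000))], ⟨?_, ?_, ?_⟩, ?_⟩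
    · simp only [Matrix.cons_val_zero]
      apply div_nonneg <;> [linarith; positivity]
    · simp only [Matrix.cons_val_one]
      apply div_nonneg <;> [linarith; positivity]
    · simp only [Matrix.cons_val_zero, Matrix.cons_val_one]
      rw [← add_div, div_le_one (by positivity)]
      linarith
    · simp
  · ext i
    fin_cases i
    · simp [upP, upQ, upR, upW]
      field_simp
      rw [hy', hz']
      ring
    · simp [upP, upQ, upR, upW]
    · simp [upP, upQ, upR, upW]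
      field_simp
      rw [hz']
      ring

lemma cc_bound (i : ℕ) (hi : i < 1000000) : |cc i| ≤ 1 := by
  have h : (i : ℝ) + 1 ≤ 1000000 := by exact_mod_cast hi
  have h0 : (0 : ℝ) ≤ i := Nat.cast_nonneg i
  rw [abs_le]; unfold cc
  constructor <;> linarith

lemma exists_sector (x y z : ℝ) (hy : |y| ≤ z) :
    ∃ i < 1000000, (cc i - 1/1000000) * (z - (1/1000) * x * cc i) ≤ y - (1/1000) * x * (1 + cc i ^ 2 - (1/1000000) ^ 2) / 2 ∧
      y - (1/1000) * x * (1 + cc i ^ 2 - (1/1000000) ^ 2) / 2 ≤ (cc i + 1/1000000) * (z - (1/1000) * x * cc i) := by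
  have hy' := abs_le.mp hy
  let t : ℕ → ℝ := fun k => -1 + 2 * k / 1000000
  let G : ℕ → ℝ := fun k => t k * z + (1/1000) * x * (1 - t k ^ 2) / 2 - y
  obtain ⟨i, hi, h1, h2⟩ := find_index G 1000000 (by norm_num) (by simp [G, t]; linarith)
    (by simp only [G, t]; push_cast; linarith)
  refine ⟨i, hi, ?_, ?_⟩
  · simp only [G, t] at h1
    unfold cc
    nlinarith only [h1]
  · simp only [G, t] at h2
    push_cast at h2
    unfold cc
    nlinarith only [h2]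

lemma cover (x y z : ℝ) (hx : |x| ≤ 1 - z) (hy : |y| ≤ z) :
    (∃ i < 1000000, (!₂[x, y, Real.sqrt 2 * z] : E3) ∈ Cyl 0 (lowQ (cc i)) (lowR (cc i)) (lowW (cc i))) ∨
    (∃ i < 1000000, (!₂[x, y, Real.sqrt 2 * z] : E3) ∈ Cyl upP (upQ (cc i)) (upR (cc i)) (upW (cc i))) := by
  obtain ⟨i, hi, h1, h2⟩ := exists_sector x y z hy
  obtain ⟨j, hj, h3, h4⟩ := exists_sector y (-x) (1 - z) (by rwa [abs_neg])
  by_contra hcon
  push Not at hcon
  have hA : RR (cc i) < z - (1/1000) * x * cc i := by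
    by_contra h; push Not at h
    exact hcon.1 i hi (mem_low x y z _ h1 h2 h)
  have hB : RR (cc j) < 1 - z - (1/1000) * y * cc j := by
    by_contra h; push Not at h
    exact hcon.2 j hj (mem_up x y z _ h3 h4 h)
  refine main_ineq x y z (cc i) (cc j) hx hy (cc_bound i hi) (cc_bound j hj) ?_ ?_ hA hB
  · rw [abs_le]; constructor <;> linarith
  · rw [abs_le]; constructor <;> linarith

end Crest.Agent.H17Cover
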