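import Mathlib

/-! MEAN part of Dvoretzky's theorem (rid 254). -/

set_option autoImplicit false

namespace Crest.H17DV

open MeasureTheory ProbabilityTheory WithLp

variable {N : ℕ}

local notation "EN" => EuclideanSpace ℝ (Fin N)

lemma semi_le (q : Seminorm ℝ EN) (x : EN) :
    q x ≤ (∑ i, q (EuclideanSpace.single i 1)) * ‖x‖ := by
  have h1 : x = ∑ i, (x i) • (EuclideanSpace.single i (1 : ℝ) : EN) := by
    ext j
    simp [Pi.single_apply]
  have h2 : q (∑ i, (x i) • (EuclideanSpace.single i (1 : ℝ) : EN))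
      ≤ ∑ i, q ((x i) • (EuclideanSpace.single i (1 : ℝ) : EN)) := by
    have : ∀ s : Finset (Fin N), q (∑ i ∈ s, (x i) • (EuclideanSpace.single i (1 : ℝ) : EN))
      ≤ ∑ i ∈ s, q ((x i) • (EuclideanSpace.single i (1 : ℝ) : EN)) := by
      intro s
      induction s using Finset.cons_induction with
      | empty => simp
      | cons a s ha ih =>
        rw [Finset.sum_cons, Finset.sum_cons]
        exact (map_add_le_add q _ _).trans (by linarith)
    exact this Finset.univ
  calc q x = q (∑ i, (x i) • (EuclideanSpace.single i (1 : ℝ) : EN)) := by rw [← h1]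
    _ ≤ ∑ i, q ((x i) • (EuclideanSpace.single i (1 : ℝ) : EN)) := h2
    _ ≤ ∑ i, ‖x‖ * q (EuclideanSpace.single i 1) := by
        apply Finset.sum_le_sum
        intro i _
        rw [map_smul_eq_mul]
        exact mul_le_mul_of_nonneg_right (PiLp.norm_apply_le x i) (apply_nonneg q _)
    _ = (∑ i, q (EuclideanSpace.single i 1)) * ‖x‖ := by
        rw [Finset.sum_mul]
        exact Finset.sum_congr rfl fun i _ => mul_comm _ _

lemma semi_lip (q : Seminorm ℝ EN) (x y : EN) :
    |q x - q y| ≤ (∑ i, q (EuclideanSpace.single i 1)) * ‖x - y‖ :=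
  (abs_sub_map_le_sub q x y).trans (semi_le q _)

lemma semi_cont (q : Seminorm ℝ EN) : Continuous q := by
  set C := ∑ i, q (EuclideanSpace.single i (1 : ℝ)) with hC
  have hC0 : 0 ≤ C := Finset.sum_nonneg fun i _ => apply_nonneg q _
  have : LipschitzWith ⟨C, hC0⟩ q := by
    apply LipschitzWith.of_dist_le_mul
    intro x y
    rw [Real.dist_eq, dist_eq_norm]
    exact semi_lip q x y
  exact this.continuous

lemma semi_int (q : Seminorm ℝ EN) : Integrable q (stdGaussian EN) := by
  have h1 : Integrable (fun x : EN => x) (stdGaussian EN) := IsGaussian.integrable_id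
  refine (h1.norm.const_mul (∑ i, q (EuclideanSpace.single i 1))).mono'
    (semi_cont q).aestronglyMeasurable ?_
  filter_upwards with x
  rw [Real.norm_of_nonneg (apply_nonneg q x)]
  exact semi_le q x

/-- flip of all coordinates except `i` -/
noncomputable def flip (i : Fin N) : EN ≃ₗᵢ[ℝ] EN :=
  (Submodule.span ℝ {(EuclideanSpace.single i (1 : ℝ) : EN)}).reflection

lemma flip_apply (i : Fin N) (x : EN) :
    flip i x = (2 * x i) • (EuclideanSpace.single i (1 : ℝ) : EN) - x := by
  unfold flip
  rw [Submodule.reflection_apply, Submodule.starProjection_singleton]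
  simp [EuclideanSpace.inner_single_left, two_smul, two_mul, add_smul]

lemma flip_abs (i j : Fin N) (x : EN) : |flip i x j| = |x j| := by
  rw [flip_apply]
  by_cases h : j = i
  · subst h
    simp
    ring_nf
  · simp [h]

/-- first coordinate with large absolute value -/
def A (s : ℝ) (i : Fin N) : Set EN := {x | s ≤ |x i| ∧ ∀ j < i, |x j| < s}

lemma A_meas (s : ℝ) (i : Fin N) : MeasurableSet (A s i) := by
  unfold A
  have h1 : MeasurableSet {x : EN | s ≤ |x i|} := by
    apply measurableSet_le measurable_const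
    fun_prop
  have h2 : MeasurableSet {x : EN | ∀ j < i, |x j| < s} := by
    have : {x : EN | ∀ j < i, |x j| < s} = ⋂ j : Fin N, ⋂ (_ : j < i), {x : EN | |x j| < s} := by
      ext x; simp
    rw [this]
    refine MeasurableSet.iInter fun j => MeasurableSet.iInter fun _ => ?_
    apply measurableSet_lt _ measurable_const
    fun_prop
  exact h1.inter h2

lemma A_disj (s : ℝ) : Pairwise (Function.onFun Disjoint (A (N := N) s)) := by
  intro i j hij
  rw [Function.onFun, Set.disjoint_left]
  intro x hi hj
  rcases lt_or_gt_of_ne hij with h | h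
  · have := hj.2 i h
    exact absurd hi.1 (not_le.2 this)
  · have := hi.2 j h
    exact absurd hj.1 (not_le.2 this)

lemma A_union (s : ℝ) : (⋃ i, A (N := N) s i) = {x : EN | ∀ j, |x j| < s}ᶜ := by
  ext x
  simp only [Set.mem_iUnion, Set.mem_compl_iff, Set.mem_setOf_eq, not_forall, not_lt]
  constructor
  · rintro ⟨i, hi⟩
    exact ⟨i, hi.1⟩
  · intro h
    classical
    obtain ⟨i, hi, hmin⟩ : ∃ i, s ≤ |x i| ∧ ∀ j < i, ¬ s ≤ |x j| := by
      have hne : (Finset.univ.filter (fun i : Fin N => s ≤ |x i|)).Nonempty := by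
        obtain ⟨i, hi⟩ := h
        exact ⟨i, by simp [hi]⟩
      refine ⟨(Finset.univ.filter (fun i : Fin N => s ≤ |x i|)).min' hne, ?_, ?_⟩
      · have := Finset.min'_mem _ hne
        simpa using this
      · intro j hj hsj
        have := Finset.min'_le (Finset.univ.filter (fun i : Fin N => s ≤ |x i|)) j (by simp [hsj])
        exact absurd hj (not_lt.2 this)
    exact ⟨i, hi, fun j hj => not_le.1 (hmin j hj)⟩

lemma flip_A (s : ℝ) (i : Fin N) : (flip i) ⁻¹' (A s i) = A s i := by
  ext x
  simp only [A, Set.mem_preimage, Set.mem_setOf_eq, flip_abs]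

lemma int_A (q : Seminorm ℝ EN) (hq : ∀ i, 1 / 2 ≤ q (EuclideanSpace.single i 1)) (s : ℝ)
    (hs : 0 ≤ s) (i : Fin N) :
    s / 2 * (stdGaussian EN).real (A s i) ≤ ∫ x in A s i, q x ∂(stdGaussian EN) := by
  set γ := stdGaussian EN with hγ
  have hmap : γ.map (flip i) = γ := stdGaussian_map (flip i)
  have h1 : ∫ x in A s i, q (flip i x) ∂γ = ∫ x in A s i, q x ∂γ := by
    conv_rhs => rw [← hmap]
    rw [setIntegral_map (A_meas s i)]
    · rw [flip_A]
    · exact (semi_cont q).aestronglyMeasurable
    · exact (flip i).continuous.aemeasurable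
  have hint : Integrable q γ := semi_int q
  have hint' : Integrable (fun x => q (flip i x)) γ := by
    have : Integrable q (γ.map (flip i)) := by rw [hmap]; exact hint
    exact (integrable_map_measure this.aestronglyMeasurable
      (flip i).continuous.aemeasurable).1 this
  have h2 : ∫ x in A s i, q x ∂γ = (1 / 2) * ∫ x in A s i, (q x + q (flip i x)) ∂γ := by
    rw [integral_add hint.integrableOn hint'.integrableOn, h1]
    ring
  rw [h2]
  have h3 : s * γ.real (A s i) ≤ ∫ x in A s i, (q x + q (flip i x)) ∂γ := by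
    have h4 : ∫ x in A s i, s ∂γ = s * γ.real (A s i) := by
      rw [setIntegral_const, smul_eq_mul, mul_comm]
    rw [← h4]
    apply setIntegral_mono_on
    · exact integrableOn_const (by finiteness)
    · exact (hint.add hint').integrableOn
    · exact A_meas s i
    · intro x hx
      have h5 : q (x + flip i x) ≤ q x + q (flip i x) := map_add_le_add q _ _
      have h6 : x + flip i x = (2 * x i) • (EuclideanSpace.single i (1 : ℝ) : EN) := by
        rw [flip_apply]; abel
      rw [h6, map_smul_eq_mul, Real.norm_eq_abs, abs_mul, abs_two] at h5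
      have h7 := hx.1
      have h8 := hq i
      have h9 := abs_nonneg (x i)
      nlinarith
  linarith

lemma prob_all (s : ℝ) :
    (stdGaussian EN).real {x : EN | ∀ j, |x j| < s}
      = ((gaussianReal 0 1).real {x : ℝ | |x| < s}) ^ N := by
  have h1 : (stdGaussian EN) {x : EN | ∀ j, |x j| < s}
      = ((gaussianReal 0 1) {x : ℝ | |x| < s}) ^ N := by
    rw [← map_pi_eq_stdGaussian, Measure.map_apply]
    · have : (toLp 2 : (Fin N → ℝ) → EN) ⁻¹' {x : EN | ∀ j, |x j| < s}
          = Set.pi Set.univ (fun _ => {x : ℝ | |x| < s}) := by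
        ext x; simp
      rw [this, Measure.pi_pi]
      simp
    · fun_prop
    · have : {x : EN | ∀ j, |x j| < s} = ⋂ j : Fin N, {x : EN | |x j| < s} := by
        ext x; simp
      rw [this]
      refine MeasurableSet.iInter fun j => ?_
      apply measurableSet_lt _ measurable_const
      fun_prop
  rw [Measure.real, h1, Measure.real, ENNReal.toReal_pow]

lemma prob_lt_one (s : ℝ) : (gaussianReal 0 1).real {x : ℝ | |x| < s} < 1 := by
  have hm : MeasurableSet {x : ℝ | |x| < s} := by
    apply measurableSet_lt _ measurable_const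
    fun_prop
  have h1 : (gaussianReal 0 1) (Set.Ici s) ≠ 0 := by
    intro h
    have := gaussianReal_absolutelyContinuous' 0 (v := 1) one_ne_zero h
    rw [Real.volume_Ici] at this
    exact ENNReal.top_ne_zero this
  have h2 : (gaussianReal 0 1).real {x : ℝ | |x| < s}
      = 1 - (gaussianReal 0 1).real {x : ℝ | |x| < s}ᶜ := by
    rw [probReal_compl_eq_one_sub hm]; ring
  rw [h2]
  have h3 : 0 < (gaussianReal 0 1).real {x : ℝ | |x| < s}ᶜ := by
    have h4 : Set.Ici s ⊆ {x : ℝ | |x| < s}ᶜ := by
      intro x hx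
      simp only [Set.mem_compl_iff, Set.mem_setOf_eq, not_lt]
      exact le_trans hx (le_abs_self x)
    have h5 := measureReal_mono (μ := gaussianReal 0 1) h4
    have h6 : 0 < (gaussianReal 0 1).real (Set.Ici s) := by
      rw [Measure.real]
      exact ENNReal.toReal_pos h1 (measure_ne_top _ _)
    linarith
  linarith

/-- (MEAN) -/
theorem mean : ∀ t : ℝ, ∃ N0 : ℕ, ∀ N ≥ N0, ∀ q : Seminorm ℝ (EuclideanSpace ℝ (Fin N)),
    (∀ i, 1 / 2 ≤ q (EuclideanSpace.single i 1)) →
    t ≤ ∫ x, q x ∂(stdGaussian (EuclideanSpace ℝ (Fin N))) := by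
  intro t
  set s : ℝ := 4 * max t 0 with hs
  have hs0 : 0 ≤ s := by positivity
  have hp := prob_lt_one s
  obtain ⟨N0, hN0⟩ := exists_pow_lt_of_lt_one (show (0 : ℝ) < 1 / 2 by norm_num) hp
  refine ⟨N0, fun N hN q hq => ?_⟩
  have hpN : ((gaussianReal 0 1).real {x : ℝ | |x| < s}) ^ N ≤ 1 / 2 :=
    (pow_le_pow_of_le_one measureReal_nonneg hp.le hN).trans hN0.le
  have h1 : ∫ x in ⋃ i, A (N := N) s i, q x ∂(stdGaussian (EuclideanSpace ℝ (Fin N)))
      = ∑ i, ∫ x in A (N := N) s i, q x ∂(stdGaussian (EuclideanSpace ℝ (Fin N))) := by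
    rw [integral_iUnion_fintype (fun i => A_meas s i) (A_disj s)]
    intro i
    exact (semi_int q).integrableOn
  have h2 : ∫ x in ⋃ i, A (N := N) s i, q x ∂(stdGaussian (EuclideanSpace ℝ (Fin N)))
      ≤ ∫ x, q x ∂(stdGaussian (EuclideanSpace ℝ (Fin N))) := by
    apply setIntegral_le_integral (semi_int q)
    filter_upwards with x using apply_nonneg q x
  have h3 : (stdGaussian (EuclideanSpace ℝ (Fin N))).real (⋃ i, A (N := N) s i)
      = ∑ i, (stdGaussian (EuclideanSpace ℝ (Fin N))).real (A (N := N) s i) := by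
    rw [measureReal_iUnion_fintype (A_disj s) (fun i => A_meas s i)]
  have h4 : 1 / 2 ≤ (stdGaussian (EuclideanSpace ℝ (Fin N))).real (⋃ i, A (N := N) s i) := by
    rw [A_union, probReal_compl_eq_one_sub, prob_all]
    · linarith
    · have : {x : EuclideanSpace ℝ (Fin N) | ∀ j, |x j| < s}
          = ⋂ j : Fin N, {x : EuclideanSpace ℝ (Fin N) | |x j| < s} := by
        ext x; simp
      rw [this]
      refine MeasurableSet.iInter fun j => ?_
      apply measurableSet_lt _ measurable_const
      fun_prop
  have h5 : s / 2 * (1 / 2) ≤ ∫ x in ⋃ i, A (N := N) s i, q x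
      ∂(stdGaussian (EuclideanSpace ℝ (Fin N))) := by
    rw [h1]
    calc s / 2 * (1 / 2) ≤ s / 2 * (stdGaussian (EuclideanSpace ℝ (Fin N))).real
          (⋃ i, A (N := N) s i) := by
            apply mul_le_mul_of_nonneg_left h4 (by positivity)
      _ = ∑ i, s / 2 * (stdGaussian (EuclideanSpace ℝ (Fin N))).real (A (N := N) s i) := by
            rw [h3, Finset.mul_sum]
      _ ≤ _ := Finset.sum_le_sum fun i _ => int_A q hq s hs0 i
  have h6 : t ≤ s / 2 * (1 / 2) := by
    rw [hs]
    have := le_max_left t 0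
    linarith
  linarith

end Crest.H17DV
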