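import Mathlib
import Crest.Prelude.Def_FinProb
import Crest.Prelude.Def_RandomGraph
import Crest.Agent.H19KKSpec

/-!
Module TRANS of S0076 (second Kahn-Kalai): graphs <-> action of `Equiv.Perm (Fin n)` on the edge slots.
-/

set_option autoImplicit false
open Finset
open scoped Pointwise
open Crest.CombinatoricsR.RandomGraph Crest.FinProb

namespace Crest.Agent.H17KKTrans

/-- Permutations of the vertices act on edge slots. -/
instance slotAction (n : ℕ) : MulAction (Equiv.Perm (Fin n)) (EdgeSlot n) where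
  smul g e := ⟨e.1.map g, by rw [Sym2.isDiag_map g.injective]; exact e.2⟩
  one_smul e := by
    apply Subtype.ext
    change Sym2.map (1 : Equiv.Perm (Fin n)) e.1 = e.1
    rw [Equiv.Perm.coe_one, Sym2.map_id]; rfl
  mul_smul g h e := by
    apply Subtype.ext
    change Sym2.map (g * h : Equiv.Perm (Fin n)) e.1 = Sym2.map g (Sym2.map h e.1)
    rw [Equiv.Perm.coe_mul, Sym2.map_map]

lemma smul_val {n : ℕ} (g : Equiv.Perm (Fin n)) (e : EdgeSlot n) : (g • e).1 = e.1.map g := rfl

/-- probability that all slots of `T` are present. -/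
lemma sum_weight_superset {E : Type*} [Fintype E] [DecidableEq E] (p : ℝ) (T : Finset E) :
    ∑ ω : E → Bool, bernoulliWeight p ω * (if ∀ e ∈ T, ω e = true then (1:ℝ) else 0)
      = p ^ T.card := by
  have h1 : ∀ ω : E → Bool, bernoulliWeight p ω * (if ∀ e ∈ T, ω e = true then (1:ℝ) else 0)
      = ∏ e, ((if ω e then p else 1 - p) * (if e ∈ T → ω e = true then (1:ℝ) else 0)) := by
    intro ω
    rw [bernoulliWeight, Finset.prod_mul_distrib]
    congr 1
    by_cases h : ∀ e ∈ T, ω e = true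
    · rw [if_pos h]
      symm
      apply Finset.prod_eq_one
      intro e _
      rw [if_pos (h e)]
    · rw [if_neg h]
      push Not at h
      obtain ⟨e, he, he2⟩ := h
      symm
      apply Finset.prod_eq_zero (Finset.mem_univ e)
      rw [if_neg]
      intro h3
      exact he2 (h3 he)
  rw [Finset.sum_congr rfl (fun ω _ => h1 ω)]
  have h2 := Finset.prod_univ_sum (fun _ : E => (Finset.univ : Finset Bool))
    (fun (e : E) (b : Bool) => ((if b then p else 1 - p) * (if e ∈ T → b = true then (1:ℝ) else 0)))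
  rw [Fintype.piFinset_univ] at h2
  rw [← h2]
  have h3 : ∀ e : E, ∑ b : Bool, ((if b then p else 1 - p) * (if e ∈ T → b = true then (1:ℝ) else 0))
      = if e ∈ T then p else 1 := by
    intro e
    by_cases he : e ∈ T <;> simp [he]
  rw [Finset.prod_congr rfl (fun e _ => h3 e)]
  simp

lemma weight_nonneg {E : Type*} [Fintype E] (p : ℝ) (hp0 : 0 ≤ p) (hp1 : p ≤ 1) (ω : E → Bool) :
    0 ≤ bernoulliWeight p ω := by
  rw [bernoulliWeight]
  apply Finset.prod_nonneg
  intro e _
  split_ifs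
  · exact hp0
  · linarith

lemma graphOf_adj {n : ℕ} (ω : EdgeSlot n → Bool) (a b : Fin n) :
    (graphOf ω).Adj a b ↔ ∃ h : ¬ (s(a, b)).IsDiag, ω ⟨s(a, b), h⟩ = true := by
  rw [graphOf, SimpleGraph.fromEdgeSet_adj]
  constructor
  · rintro ⟨h, _⟩; exact h
  · intro h
    refine ⟨h, ?_⟩
    obtain ⟨h1, _⟩ := h
    rwa [Sym2.mk_isDiag_iff] at h1

section sub

variable {W : Type} {n : ℕ} (H : SimpleGraph W) (φ : W ↪ Fin n) (F : Finset (EdgeSlot n))

/-- the subgraph of `H` whose edges are those landing in `F`. -/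
def subOf : H.Subgraph where
  verts := {a | ∃ b, H.Adj a b ∧ ∃ e ∈ F, e.1 = s(φ a, φ b)}
  Adj a b := H.Adj a b ∧ ∃ e ∈ F, e.1 = s(φ a, φ b)
  adj_sub := fun h => h.1
  edge_vert := fun {a b} h => ⟨b, h.1, h.2⟩
  symm := ⟨fun a b h => ⟨h.1.symm, by
    obtain ⟨e, he, he2⟩ := h.2
    exact ⟨e, he, by rw [he2, Sym2.eq_swap]⟩⟩⟩

lemma subOf_adj (a b : W) : (subOf H φ F).Adj a b ↔ H.Adj a b ∧ ∃ e ∈ F, e.1 = s(φ a, φ b) := Iff.rfl

lemma mem_subOf_verts (a : W) :
    a ∈ (subOf H φ F).verts ↔ ∃ b, H.Adj a b ∧ ∃ e ∈ F, e.1 = s(φ a, φ b) := Iff.rfl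

/-- every copy of the subgraph comes from a permutation of the vertices. -/
lemma exists_perm (hF : ∀ e ∈ F, ∃ a b, H.Adj a b ∧ e.1 = s(φ a, φ b))
    (K : SimpleGraph (Fin n)) (G' : K.Subgraph) (e : (subOf H φ F).coe ≃g G'.coe) :
    ∃ g : Equiv.Perm (Fin n), ∀ z : EdgeSlot n, z ∈ g • F ↔ z.1 ∈ G'.edgeSet := by
  have : Finite W := Finite.of_injective φ φ.injective
  obtain ⟨g, hg⟩ := Equiv.Perm.exists_extending_pair
    (fun a : (subOf H φ F).verts => φ a.1) (fun a : (subOf H φ F).verts => (e a).1)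
    (fun a b h => Subtype.ext (φ.injective h))
    (fun a b h => e.injective (Subtype.ext h))
  refine ⟨g, fun z => ?_⟩
  constructor
  · intro hz
    rw [Finset.mem_smul_finset] at hz
    obtain ⟨y, hy, rfl⟩ := hz
    obtain ⟨a, b, hab, hyab⟩ := hF y hy
    have ha : a ∈ (subOf H φ F).verts := ⟨b, hab, y, hy, hyab⟩
    have hadj : (subOf H φ F).Adj a b := ⟨hab, y, hy, hyab⟩
    have hb : b ∈ (subOf H φ F).verts := (subOf H φ F).edge_vert hadj.symm
    have h1 : (subOf H φ F).coe.Adj ⟨a, ha⟩ ⟨b, hb⟩ := hadj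
    have h2 : G'.coe.Adj (e ⟨a, ha⟩) (e ⟨b, hb⟩) := e.map_rel_iff.2 h1
    have h3 : G'.Adj (e ⟨a, ha⟩).1 (e ⟨b, hb⟩).1 := h2
    rw [smul_val, hyab, Sym2.map_mk]
    have ga := hg ⟨a, ha⟩
    have gb := hg ⟨b, hb⟩
    simp only at ga gb
    rw [ga, gb, SimpleGraph.Subgraph.mem_edgeSet]
    exact h3
  · intro hz
    obtain ⟨z, hzd⟩ := z
    induction z using Sym2.ind with
    | _ x y =>
      simp only at hz
      rw [SimpleGraph.Subgraph.mem_edgeSet] at hz
      have hx : x ∈ G'.verts := G'.edge_vert hz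
      have hy : y ∈ G'.verts := G'.edge_vert hz.symm
      have h1 : G'.coe.Adj ⟨x, hx⟩ ⟨y, hy⟩ := hz
      have h2 : (subOf H φ F).coe.Adj (e.symm ⟨x, hx⟩) (e.symm ⟨y, hy⟩) :=
        e.symm.map_rel_iff.2 h1
      have h3 : (subOf H φ F).Adj (e.symm ⟨x, hx⟩).1 (e.symm ⟨y, hy⟩).1 := h2
      obtain ⟨_, w, hw, hw2⟩ := h3
      rw [Finset.mem_smul_finset]
      refine ⟨w, hw, ?_⟩
      apply Subtype.ext
      rw [smul_val, hw2, Sym2.map_mk]
      have ga := hg (e.symm ⟨x, hx⟩)
      have gb := hg (e.symm ⟨y, hy⟩)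
      rw [ga, gb, RelIso.apply_symm_apply, RelIso.apply_symm_apply]

/-- a subgraph isomorphic to `subOf` is determined by its edges. -/
lemma sub_determined (K : SimpleGraph (Fin n)) (G₁ G₂ : K.Subgraph)
    (e₁ : (subOf H φ F).coe ≃g G₁.coe) (e₂ : (subOf H φ F).coe ≃g G₂.coe)
    (h : ∀ z : EdgeSlot n, z.1 ∈ G₁.edgeSet ↔ z.1 ∈ G₂.edgeSet) : G₁ = G₂ := by
  have hadj : ∀ x y, G₁.Adj x y ↔ G₂.Adj x y := by
    intro x y
    by_cases hxy : x = y
    · subst hxy
      exact ⟨fun h => absurd h.ne (by simp), fun h => absurd h.ne (by simp)⟩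
    · have := h ⟨s(x, y), by rwa [Sym2.mk_isDiag_iff]⟩
      simp only [SimpleGraph.Subgraph.mem_edgeSet] at this
      exact this
  have hverts : ∀ (G' : K.Subgraph), ((subOf H φ F).coe ≃g G'.coe) →
      ∀ x, x ∈ G'.verts ↔ ∃ y, G'.Adj x y := by
    intro G' e x
    constructor
    · intro hx
      have h1 := (e.symm ⟨x, hx⟩).2
      obtain ⟨b, hb1, hb2⟩ := h1
      have hadj' : (subOf H φ F).Adj (e.symm ⟨x, hx⟩).1 b := ⟨hb1, hb2⟩
      have hb : b ∈ (subOf H φ F).verts := (subOf H φ F).edge_vert hadj'.symm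
      have h2 : (subOf H φ F).coe.Adj (e.symm ⟨x, hx⟩) ⟨b, hb⟩ := hadj'
      have h3 : G'.coe.Adj (e (e.symm ⟨x, hx⟩)) (e ⟨b, hb⟩) := e.map_rel_iff.2 h2
      rw [RelIso.apply_symm_apply] at h3
      exact ⟨_, h3⟩
    · rintro ⟨y, hy⟩
      exact G'.edge_vert hy
  apply SimpleGraph.Subgraph.ext
  · ext x
    rw [hverts G₁ e₁, hverts G₂ e₂]
    simp only [hadj]
  · ext x y
    exact hadj x y

/-- counting inequality for a single graph. -/
lemma stab_mul_copyCount_le (hF : ∀ e ∈ F, ∃ a b, H.Adj a b ∧ e.1 = s(φ a, φ b))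
    (ω : EdgeSlot n → Bool) :
    (univ.filter (fun g : Equiv.Perm (Fin n) => g • F = F)).card *
        (graphOf ω).copyCount (subOf H φ F).coe
      ≤ (univ.filter (fun g : Equiv.Perm (Fin n) => ∀ e ∈ g • F, ω e = true)).card := by
  classical
  rw [SimpleGraph.copyCount, ← Finset.card_product]
  have hsel : ∀ G' : (graphOf ω).Subgraph, ∃ g : Equiv.Perm (Fin n),
      Nonempty ((subOf H φ F).coe ≃g G'.coe) → ∀ z : EdgeSlot n, z ∈ g • F ↔ z.1 ∈ G'.edgeSet := by
    intro G'
    by_cases h : Nonempty ((subOf H φ F).coe ≃g G'.coe)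
    · obtain ⟨e⟩ := h
      obtain ⟨g, hg⟩ := exists_perm H φ F hF _ G' e
      exact ⟨g, fun _ => hg⟩
    · exact ⟨1, fun h' => absurd h' h⟩
  choose gs hgs using hsel
  apply Finset.card_le_card_of_injOn (fun x => gs x.2 * x.1)
  · rintro ⟨s, G'⟩ hx
    simp only [Finset.coe_product, Set.mem_prod, Finset.mem_coe, Finset.mem_filter,
      Finset.mem_univ, true_and] at hx ⊢
    obtain ⟨h1, h2⟩ := hx
    intro z hz
    rw [mul_smul, h1, hgs G' h2] at hz
    have h3 : z.1 ∈ (graphOf ω).edgeSet := G'.edgeSet_subset hz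
    obtain ⟨z, hzd⟩ := z
    induction z using Sym2.ind with
    | _ x y =>
      simp only at h3
      rw [SimpleGraph.mem_edgeSet, graphOf_adj] at h3
      exact h3.2
  · rintro ⟨s, G₁⟩ hx ⟨t, G₂⟩ hy hxy
    simp only [Finset.coe_product, Set.mem_prod, Finset.mem_coe, Finset.mem_filter,
      Finset.mem_univ, true_and] at hx hy hxy
    obtain ⟨h1, ⟨e₁⟩⟩ := hx
    obtain ⟨h2, ⟨e₂⟩⟩ := hy
    have h3 : gs G₁ • F = gs G₂ • F := by
      have := congrArg (fun g : Equiv.Perm (Fin n) => g • F) hxy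
      simp only [mul_smul, h1, h2] at this
      exact this
    have h4 : G₁ = G₂ := by
      apply sub_determined H φ F _ G₁ G₂ e₁ e₂
      intro z
      rw [← hgs G₁ ⟨e₁⟩, ← hgs G₂ ⟨e₂⟩, h3]
    subst h4
    have h5 : s = t := mul_left_cancel hxy
    rw [h5]

lemma card_stab_le (hF : ∀ e ∈ F, ∃ a b, H.Adj a b ∧ e.1 = s(φ a, φ b))
    (p : ℝ) (hp0 : 0 ≤ p) (hp1 : p ≤ 1)
    (hE : (1 : ℝ) / 2 ≤ gnpExpect n p (fun G => (G.copyCount (subOf H φ F).coe : ℝ))) :
    ((univ.filter (fun g : Equiv.Perm (Fin n) => g • F = F)).card : ℝ)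
      ≤ 2 * (Fintype.card (Equiv.Perm (Fin n)) : ℝ) * p ^ F.card := by
  have h1 : ((univ.filter (fun g : Equiv.Perm (Fin n) => g • F = F)).card : ℝ) *
      gnpExpect n p (fun G => (G.copyCount (subOf H φ F).coe : ℝ))
      ≤ (Fintype.card (Equiv.Perm (Fin n)) : ℝ) * p ^ F.card := by
    rw [gnpExpect, Finset.mul_sum]
    calc ∑ ω : EdgeSlot n → Bool, ((univ.filter (fun g : Equiv.Perm (Fin n) => g • F = F)).card : ℝ) *
          (bernoulliWeight p ω * ((graphOf ω).copyCount (subOf H φ F).coe : ℝ))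
        ≤ ∑ ω : EdgeSlot n → Bool, bernoulliWeight p ω *
          ((univ.filter (fun g : Equiv.Perm (Fin n) => ∀ e ∈ g • F, ω e = true)).card : ℝ) := by
          apply Finset.sum_le_sum
          intro ω _
          have h2 := stab_mul_copyCount_le H φ F hF ω
          have h3 : (((univ.filter (fun g : Equiv.Perm (Fin n) => g • F = F)).card : ℝ) *
              ((graphOf ω).copyCount (subOf H φ F).coe : ℝ))
              ≤ ((univ.filter (fun g : Equiv.Perm (Fin n) => ∀ e ∈ g • F, ω e = true)).card : ℝ) := by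
            exact_mod_cast h2
          have h4 := mul_le_mul_of_nonneg_left h3 (weight_nonneg p hp0 hp1 ω)
          linarith
      _ = ∑ ω : EdgeSlot n → Bool, ∑ g : Equiv.Perm (Fin n), bernoulliWeight p ω *
          (if ∀ e ∈ g • F, ω e = true then (1:ℝ) else 0) := by
          apply Finset.sum_congr rfl
          intro ω _
          rw [← Finset.mul_sum, Finset.sum_boole]
      _ = ∑ g : Equiv.Perm (Fin n), ∑ ω : EdgeSlot n → Bool, bernoulliWeight p ω *
          (if ∀ e ∈ g • F, ω e = true then (1:ℝ) else 0) := Finset.sum_comm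
      _ = ∑ g : Equiv.Perm (Fin n), p ^ F.card := by
          apply Finset.sum_congr rfl
          intro g _
          rw [sum_weight_superset, Finset.card_smul_finset]
      _ = (Fintype.card (Equiv.Perm (Fin n)) : ℝ) * p ^ F.card := by
          rw [Finset.sum_const, nsmul_eq_mul, Finset.card_univ]
  have h5 : ((univ.filter (fun g : Equiv.Perm (Fin n) => g • F = F)).card : ℝ) * (1 / 2)
      ≤ ((univ.filter (fun g : Equiv.Perm (Fin n) => g • F = F)).card : ℝ) *
      gnpExpect n p (fun G => (G.copyCount (subOf H φ F).coe : ℝ)) :=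
    mul_le_mul_of_nonneg_left hE (by positivity)
  linarith

end sub

/-- image of the edges of `H` under an embedding. -/
def slots {W : Type} [Fintype W] {n : ℕ} (H : SimpleGraph W) [DecidableRel H.Adj]
    (φ : W ↪ Fin n) : Finset (EdgeSlot n) :=
  H.edgeFinset.attach.image (fun e => ⟨e.1.map φ, by
    rw [Sym2.isDiag_map φ.injective]
    exact H.not_isDiag_of_mem_edgeFinset e.2⟩)

lemma mem_slots {W : Type} [Fintype W] {n : ℕ} (H : SimpleGraph W) [DecidableRel H.Adj]
    (φ : W ↪ Fin n) (z : EdgeSlot n) : z ∈ slots H φ ↔ ∃ a b, H.Adj a b ∧ z.1 = s(φ a, φ b) := by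
  rw [slots, Finset.mem_image]
  constructor
  · rintro ⟨⟨e, he⟩, _, rfl⟩
    induction e using Sym2.ind with
    | _ a b =>
      rw [SimpleGraph.mem_edgeFinset, SimpleGraph.mem_edgeSet] at he
      exact ⟨a, b, he, by simp⟩
  · rintro ⟨a, b, hab, hz⟩
    refine ⟨⟨s(a, b), by rw [SimpleGraph.mem_edgeFinset, SimpleGraph.mem_edgeSet]; exact hab⟩,
      Finset.mem_attach _ _, ?_⟩
    apply Subtype.ext
    simp [hz]

lemma card_slots {W : Type} [Fintype W] {n : ℕ} (H : SimpleGraph W) [DecidableRel H.Adj]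
    (φ : W ↪ Fin n) : (slots H φ).card = H.edgeFinset.card := by
  rw [slots, Finset.card_image_of_injective, Finset.card_attach]
  rintro ⟨a, ha⟩ ⟨b, hb⟩ h
  apply Subtype.ext
  have h1 := congrArg Subtype.val h
  exact Sym2.map.injective φ.injective h1

theorem main : H19KK.Trans := by
  intro hCore hSpread n hn W _ _ H _ hW hH p hp0 hp1 hE
  classical
  obtain ⟨φ⟩ : Nonempty (W ↪ Fin n) := Function.Embedding.nonempty_of_card_le (by simpa using hW)
  set H₀ := slots H φ with hH₀
  have hcard₀ : H₀.card = H.edgeFinset.card := card_slots H φ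
  -- stabiliser bounds
  have hstab : ∀ F : Finset (EdgeSlot n), F ⊆ H₀ →
      ((univ.filter (fun g : Equiv.Perm (Fin n) => g • F = F)).card : ℝ)
      ≤ 2 * (Fintype.card (Equiv.Perm (Fin n)) : ℝ) * p ^ F.card := by
    intro F hF
    apply card_stab_le H φ F _ p hp0 hp1
    · exact hE _
    · intro e he
      exact (mem_slots H φ e).1 (hF he)
  have hNpos : (0 : ℝ) < (Fintype.card (Equiv.Perm (Fin n)) : ℝ) := by
    exact_mod_cast Fintype.card_pos
  have hstabpos : ∀ F : Finset (EdgeSlot n),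
      (0 : ℝ) < ((univ.filter (fun g : Equiv.Perm (Fin n) => g • F = F)).card : ℝ) := by
    intro F
    have : (1 : Equiv.Perm (Fin n)) ∈ (univ.filter (fun g : Equiv.Perm (Fin n) => g • F = F)) := by
      simp
    exact_mod_cast Finset.card_pos.2 ⟨_, this⟩
  have hH₀ne : 1 ≤ H₀.card := by rw [hcard₀]; exact hH
  -- positivity of p
  have hp : 0 < p := by
    rcases hp0.lt_or_eq with h | h
    · exact h
    · exfalso
      have h1 := hstab H₀ (Finset.Subset.refl _)
      rw [← h, zero_pow (by omega), mul_zero] at h1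
      exact absurd (hstabpos H₀) (not_lt.2 h1)
  set q : ℝ := Real.exp 49 * p with hq
  have hqpos : 0 < q := by positivity
  have hcore := hCore (Equiv.Perm (Fin n)) (EdgeSlot n) H₀ q hqpos (by
    intro F hF hFne
    have h1 := hstab F hF
    have hFc : 1 ≤ F.card := Finset.card_pos.2 hFne
    have h2 : (2 : ℝ) < Real.exp (F.card : ℝ) := by
      have h3 : (1 : ℝ) ≤ (F.card : ℝ) := by exact_mod_cast hFc
      have h4 := Real.add_one_lt_exp (show (1 : ℝ) ≠ 0 by norm_num)
      have h5 := Real.exp_le_exp.2 h3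
      linarith
    have h6 : q ^ F.card = Real.exp (48 * (F.card : ℝ)) * Real.exp (F.card : ℝ) * p ^ F.card := by
      rw [hq, mul_pow, ← Real.exp_nat_mul, ← Real.exp_add]
      congr 2
      ring
    rw [h6]
    have h7 : 0 < Real.exp (48 * (F.card : ℝ)) := Real.exp_pos _
    have h8 : 0 < p ^ F.card := by positivity
    calc Real.exp (48 * (F.card : ℝ)) * ((univ.filter (fun g : Equiv.Perm (Fin n) => g • F = F)).card : ℝ)
        ≤ Real.exp (48 * (F.card : ℝ)) * (2 * (Fintype.card (Equiv.Perm (Fin n)) : ℝ) * p ^ F.card) :=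
          mul_le_mul_of_nonneg_left h1 h7.le
      _ = 2 * (Real.exp (48 * (F.card : ℝ)) * (Fintype.card (Equiv.Perm (Fin n)) : ℝ) * p ^ F.card) := by ring
      _ < Real.exp (F.card : ℝ) * (Real.exp (48 * (F.card : ℝ)) * (Fintype.card (Equiv.Perm (Fin n)) : ℝ) * p ^ F.card) :=
          mul_lt_mul_of_pos_right h2 (by positivity)
      _ = _ := by ring)
  set h : ℕ := H.edgeFinset.card with hh
  set pp : ℝ := min 1 (2048 * Real.exp 50 * p * (1 + Real.logb 2 (h : ℝ))) with hpp
  have hlog : 0 ≤ Real.logb 2 (h : ℝ) :=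
    Real.logb_nonneg (by norm_num) (by exact_mod_cast hH)
  have hpp0 : 0 ≤ pp := by
    rw [hpp]
    apply le_min
    · norm_num
    · positivity
  have hpp1 : pp ≤ 1 := min_le_left _ _
  -- the containment event
  have hcont : ∀ ω : EdgeSlot n → Bool, (∃ g : Equiv.Perm (Fin n), ∀ e ∈ g • H₀, ω e = true) →
      H.IsContained (graphOf ω) := by
    rintro ω ⟨g, hg⟩
    refine ⟨⟨⟨fun a => g (φ a), ?_⟩, ?_⟩⟩
    · intro a b hab
      rw [graphOf_adj]
      have hne : ¬ (s(g (φ a), g (φ b))).IsDiag := by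
        rw [Sym2.mk_isDiag_iff]
        intro h1
        exact hab.ne (φ.injective (g.injective h1))
      refine ⟨hne, ?_⟩
      apply hg
      have hne2 : ¬ (s(φ a, φ b)).IsDiag := by
        rw [Sym2.mk_isDiag_iff]
        intro h1
        exact hab.ne (φ.injective h1)
      rw [Finset.mem_smul_finset]
      refine ⟨⟨s(φ a, φ b), hne2⟩, ?_, ?_⟩
      · rw [hH₀, mem_slots]
        exact ⟨a, b, hab, rfl⟩
      · apply Subtype.ext
        rw [smul_val, Sym2.map_mk]
    · intro a b hab
      exact φ.injective (g.injective hab)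
  rw [gnpProb]
  by_cases hcase : 1 ≤ 2048 * Real.exp 50 * p * (1 + Real.logb 2 (h : ℝ))
  · have hpp' : pp = 1 := by rw [hpp]; exact min_eq_left hcase
    rw [hpp', bernoulliProb]
    have hmem : (fun _ => true : EdgeSlot n → Bool) ∈
        @Finset.filter _ (fun x => x ∈ {ω : EdgeSlot n → Bool | graphOf ω ∈ {G | H.IsContained G}})
          (Classical.decPred _) (univ : Finset (EdgeSlot n → Bool)) := by
      rw [Finset.mem_filter]
      exact ⟨Finset.mem_univ _, hcont _ ⟨1, fun _ _ => rfl⟩⟩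
    have h1 := Finset.single_le_sum (f := fun ω : EdgeSlot n → Bool => bernoulliWeight 1 ω)
      (fun ω _ => weight_nonneg 1 (by norm_num) le_rfl ω) hmem
    refine le_trans ?_ h1
    simp [bernoulliWeight]
    norm_num
  · push Not at hcase
    have hpp' : pp = 2048 * Real.exp 50 * p * (1 + Real.logb 2 (h : ℝ)) := by
      rw [hpp]; exact min_eq_right hcase.le
    have hsp := hSpread (EdgeSlot n) (Equiv.Perm (Fin n)) (fun g => g • H₀) h hH
      (by intro g; rw [Finset.card_smul_finset, hcard₀]) q hqpos (by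
        intro S
        have h1 := hcore S
        have h2 : (univ.filter (fun g : Equiv.Perm (Fin n) => S ⊆ g • H₀)).card
            = (univ.filter (fun g : Equiv.Perm (Fin n) => g • S ⊆ H₀)).card := by
          apply Finset.card_bij (fun g _ => g⁻¹)
          · intro g hg
            simp only [Finset.mem_filter, Finset.mem_univ, true_and] at hg ⊢
            rwa [Finset.smul_finset_subset_iff, inv_inv]
          · intro a _ b _ hab
            exact inv_injective hab
          · intro g hg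
            simp only [Finset.mem_filter, Finset.mem_univ, true_and] at hg
            refine ⟨g⁻¹, ?_, inv_inv g⟩
            simp only [Finset.mem_filter, Finset.mem_univ, true_and]
            rwa [Finset.smul_finset_subset_iff] at hg
        rw [h2]
        exact h1) pp hpp0 hpp1 (by
        rw [hpp', hq]
        have h3 : Real.exp 50 = Real.exp 1 * Real.exp 49 := by
          rw [← Real.exp_add]; norm_num
        rw [h3]
        apply le_of_eq
        ring)
    refine le_trans hsp ?_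
    rw [bernoulliProb, bernoulliProb]
    apply Finset.sum_le_sum_of_subset_of_nonneg
    · intro ω hω
      simp only [Finset.mem_filter, Finset.mem_univ, true_and, Set.mem_ofPred_eq] at hω ⊢
      exact hcont ω hω
    · intro ω _ _
      exact weight_nonneg pp hpp0 hpp1 ω

end Crest.Agent.H17KKTrans
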