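import Mathlib
import Crest.Agent.H17Area
import Crest.Agent.H17Cyl
import Crest.Agent.H17Cover

set_option autoImplicit false

open MeasureTheory MeasureTheory.Measure Module
open scoped ENNReal RealInnerProductSpace

namespace Crest.Agent.H17Sum

open Crest.Agent.H17Area Crest.Agent.H17Cyl Crest.Agent.H17Cover

/-- the squared tilt -/
noncomputable def uu (c : ℝ) : ℝ := (1/1000) ^ 2 * ((1 + c ^ 2 - (1/1000000) ^ 2) ^ 2 / 4 + 2 * c ^ 2)

lemma norm_lowW_sq (c : ℝ) : ‖lowW c‖ ^ 2 = 1 + uu c := by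
  rw [normsq3]
  simp only [lowW, uu]
  simp
  rw [mul_pow, Real.sq_sqrt (by norm_num)]
  ring

lemma norm_upW_sq (c : ℝ) : ‖upW c‖ ^ 2 = 1 + uu c := by
  rw [normsq3]
  simp only [upW, uu]
  simp
  rw [mul_pow, Real.sq_sqrt (by norm_num)]
  ring

lemma uu_nonneg (c : ℝ) : 0 ≤ uu c := by unfold uu; positivity

lemma norm_lowW_pos (c : ℝ) : 0 < ‖lowW c‖ := by
  have h1 := norm_lowW_sq c
  have h := uu_nonneg c
  by_contra hcon
  have h2 : ‖lowW c‖ = 0 := le_antisymm (not_lt.mp hcon) (norm_nonneg _)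
  rw [h2] at h1
  linarith

lemma norm_upW_eq (c : ℝ) : ‖upW c‖ = ‖lowW c‖ := by
  have h : ‖upW c‖ ^ 2 = ‖lowW c‖ ^ 2 := by rw [norm_upW_sq, norm_lowW_sq]
  exact (pow_left_inj₀ (norm_nonneg _) (norm_nonneg _) two_ne_zero).mp h

lemma lowW_ne (c : ℝ) : lowW c ≠ 0 := norm_pos_iff.mp (norm_lowW_pos c)
lemma upW_ne (c : ℝ) : upW c ≠ 0 := norm_pos_iff.mp (by rw [norm_upW_eq]; exact norm_lowW_pos c)

/-- the common area -/
noncomputable def ar (c : ℝ) : ℝ := Real.sqrt 2 * ((1/1000000) * (RR c ^ 2 / ‖lowW c‖))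

lemma det_low (c : ℝ) : |det3 (lowQ c - 0) (lowR c - 0) (lowW c)| / (2 * ‖lowW c‖) = ar c := by
  have h1 : det3 (lowQ c - 0) (lowR c - 0) (lowW c) = -(Real.sqrt 2 * (2 / 1000000) * RR c ^ 2) := by
    simp only [det3, lowQ, lowR, lowW]
    simp
    ring
  have hn := norm_lowW_pos c
  rw [h1, abs_neg, abs_of_nonneg (by positivity), ar]
  field_simp

lemma det_up (c : ℝ) : |det3 (upQ c - upP) (upR c - upP) (upW c)| / (2 * ‖upW c‖) = ar c := by
  have h1 : det3 (upQ c - upP) (upR c - upP) (upW c) = Real.sqrt 2 * (2 / 1000000) * RR c ^ 2 := by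
    simp only [det3, upQ, upR, upW, upP]
    simp
    ring
  have hn := norm_lowW_pos c
  rw [h1, abs_of_nonneg (by positivity), norm_upW_eq, ar]
  field_simp

lemma ar_nonneg (c : ℝ) : 0 ≤ ar c := by
  have hn := norm_lowW_pos c
  unfold ar; positivity

/-- antiderivative of the density, with slack -/
noncomputable def FF (t : ℝ) : ℝ :=
  t / 4 + (1/1000) ^ 2 * ((7 / 160) * t ^ 5 - t ^ 3 / 48 - t / 32) + 401 / 100000000000 * t

lemma density_bound (c : ℝ) (hc : |c| ≤ 1) :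
    RR c ^ 2 / ‖lowW c‖ ≤ 1 / 4 + (1/1000) ^ 2 * ((7 / 32) * c ^ 4 - c ^ 2 / 16 - 1 / 32) + 4009 / 1000000000000 := by
  have hn := norm_lowW_pos c
  have hn2 := norm_lowW_sq c
  have hu0 := uu_nonneg c
  have hcc := abs_le.mp hc
  have ha0 : 0 ≤ c ^ 2 := sq_nonneg c
  have ha1 : c ^ 2 ≤ 1 := by nlinarith only [hcc.1, hcc.2]
  obtain ⟨a, ha⟩ : ∃ a, a = c ^ 2 := ⟨_, rfl⟩
  have ha4 : c ^ 4 = a ^ 2 := by rw [ha]; ring
  rw [← ha] at ha0 ha1
  have haa : a ^ 2 ≤ 1 := by nlinarith only [ha0, ha1]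
  have hu1 : uu c ≤ 3 / 1000000 := by
    unfold uu; rw [← ha]; nlinarith only [ha0, ha1, haa]
  have hu2 : (1/1000) ^ 2 * ((1 + a) ^ 2 / 4 + 2 * a) - (1/1000) ^ 2 * (1/1000000) ^ 2 ≤ uu c := by
    unfold uu; rw [← ha]; nlinarith only [ha0, ha1]
  obtain ⟨u, hu⟩ : ∃ u, u = uu c := ⟨_, rfl⟩
  rw [← hu] at hn2 hu0 hu1 hu2
  obtain ⟨g, hg⟩ : ∃ g, g = 1 - u / 2 + 3 * u ^ 2 / 8 := ⟨_, rfl⟩
  have hg0 : 0 < g := by rw [hg]; nlinarith only [hu0, hu1, sq_nonneg u]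
  have hgn : 1 ≤ g * ‖lowW c‖ := by
    have h1 : (1 : ℝ) ≤ (g * ‖lowW c‖) ^ 2 := by
      rw [mul_pow, hn2, hg]
      have h3 : 0 ≤ u ^ 3 := by positivity
      have h5 : 0 ≤ u ^ 5 := by positivity
      have h4 : u ^ 4 ≤ u ^ 3 := by
        have : u ^ 4 = u ^ 3 * u := by ring
        rw [this]; nlinarith only [h3, hu1]
      nlinarith only [h3, h4, h5]
    by_contra hcon
    push Not at hcon
    have : (g * ‖lowW c‖) ^ 2 < 1 := by
      have h0 : 0 < g * ‖lowW c‖ := by positivity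
      nlinarith only [hcon, h0]
    linarith
  have hinv : RR c ^ 2 / ‖lowW c‖ ≤ RR c ^ 2 * g := by
    rw [div_le_iff₀ hn]
    have : 0 ≤ RR c ^ 2 := by positivity
    nlinarith only [this, hgn]
  refine hinv.trans ?_
  have hRR : RR c = 1 / 2 + (a + a ^ 2) / 4000000 + 4 / 1000000000 := by unfold RR; rw [ha4, ha]
  obtain ⟨p, hp⟩ : ∃ p, p = (a + a ^ 2) / 4000000 + 4 / 1000000000 := ⟨_, rfl⟩
  have hp0 : 0 ≤ p := by rw [hp]; positivity
  have hp1 : p ≤ 6 / 10000000 := by rw [hp]; linarith only [ha1, haa]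
  have hR2 : RR c ^ 2 ≤ 1 / 4 + p + 4 / 10000000000000 := by
    have : RR c = 1 / 2 + p := by rw [hRR, hp]; ring
    rw [this]; nlinarith only [hp0, hp1]
  have hR0 : 0 ≤ RR c ^ 2 := sq_nonneg _
  have hu22 : u ^ 2 ≤ 9 / 1000000000000 := by nlinarith only [hu0, hu1]
  have hg1 : g ≤ 1 - u / 2 + 27 / 8000000000000 := by rw [hg]; linarith only [hu22]
  have h1 : RR c ^ 2 * g ≤ (1 / 4 + p + 4 / 10000000000000) * (1 - u / 2 + 27 / 8000000000000) := by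
    apply mul_le_mul hR2 hg1 hg0.le
    linarith only [hp0]
  refine h1.trans ?_
  have h2 : (1 / 4 + p + 4 / 10000000000000) * (1 - u / 2 + 27 / 8000000000000) ≤
      1 / 4 + p - u / 8 + 3 / 1000000000000 := by
    nlinarith only [hp0, hp1, hu0, hu1, mul_nonneg hp0 hu0]
  refine h2.trans ?_
  rw [ha4, ← ha, hp]
  nlinarith only [hu2]

lemma ar_le (c : ℝ) (hc : |c| ≤ 1) :
    ar c ≤ Real.sqrt 2 * ((FF (c + 1/1000000) - FF (c - 1/1000000)) / 2) := by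
  unfold ar
  apply mul_le_mul_of_nonneg_left _ (Real.sqrt_nonneg _)
  have h := density_bound c hc
  have ha0 : 0 ≤ c ^ 2 := sq_nonneg c
  have : (FF (c + 1/1000000) - FF (c - 1/1000000)) / 2 = (1/1000000) * (1 / 4 + (1/1000) ^ 2 * ((7 / 32) * c ^ 4 - c ^ 2 / 16 - 1 / 32) + 401/100000000000)
      + (1/1000) ^ 2 * ((7/16) * c ^ 2 * (1/1000000) ^ 3 + (7/160) * (1/1000000) ^ 5 - (1/1000000) ^ 3 / 48) := by
    unfold FF; ring
  rw [this]
  nlinarith only [h, ha0]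

lemma sum_ar_le : ∑ i ∈ Finset.range 1000000, ar (cc i) ≤ Real.sqrt 2 * (1 / 4 - 43 / 10000000000) := by
  have h1 : ∑ i ∈ Finset.range 1000000, ar (cc i) ≤ ∑ i ∈ Finset.range 1000000,
      (Real.sqrt 2 / 2 * FF (-1 + 2 * ((i + 1 : ℕ) : ℝ) / 1000000) - Real.sqrt 2 / 2 * FF (-1 + 2 * (i : ℝ) / 1000000)) := by
    apply Finset.sum_le_sum
    intro i hi
    rw [Finset.mem_range] at hi
    refine (ar_le (cc i) (cc_bound i hi)).trans (le_of_eq ?_)
    have e1 : cc i + 1/1000000 = -1 + 2 * ((i + 1 : ℕ) : ℝ) / 1000000 := by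
      unfold cc; push_cast; ring
    have e2 : cc i - 1/1000000 = -1 + 2 * (i : ℝ) / 1000000 := by
      unfold cc; ring
    rw [e1, e2]; ring
  refine h1.trans ?_
  rw [Finset.sum_range_sub (fun i : ℕ => Real.sqrt 2 / 2 * FF (-1 + 2 * (i : ℝ) / 1000000))]
  have h2 : Real.sqrt 2 / 2 * FF (-1 + 2 * ((1000000 : ℕ) : ℝ) / 1000000) - Real.sqrt 2 / 2 * FF (-1 + 2 * ((0 : ℕ) : ℝ) / 1000000)
      = Real.sqrt 2 * ((FF 1 - FF (-1)) / 2) := by
    push_cast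
    have : (-1 + 2 * (1000000:ℝ) / 1000000) = 1 := by norm_num
    rw [this]
    simp
    ring
  rw [h2]
  apply mul_le_mul_of_nonneg_left _ (Real.sqrt_nonneg _)
  unfold FF
  norm_num

end Crest.Agent.H17Sum
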