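import Mathlib
import Crest.Agent.H17Area
import Crest.Agent.H17Cyl
import Crest.Agent.H17Cover
import Crest.Agent.H17Sum
import Crest.Agent.H17Proj

set_option autoImplicit false

open MeasureTheory MeasureTheory.Measure Module
open scoped ENNReal RealInnerProductSpace

namespace Crest.Agent.H17Main

open Crest.Agent.H17Area Crest.Agent.H17Cyl Crest.Agent.H17Cover Crest.Agent.H17Sum Crest.Agent.H17Proj

lemma KK_desc (p : E3) (hp : p ∈ KK) : ∃ x y z : ℝ, p = !₂[x, y, Real.sqrt 2 * z] ∧ |x| ≤ 1 - z ∧ |y| ≤ z := by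
  have hs : 0 < Real.sqrt 2 := by positivity
  have hconv : Convex ℝ {p : E3 | ∃ x y z : ℝ, p = !₂[x, y, Real.sqrt 2 * z] ∧ |x| ≤ 1 - z ∧ |y| ≤ z} := by
    rintro p ⟨x, y, z, rfl, h1, h2⟩ q ⟨x', y', z', rfl, h1', h2'⟩ a b ha hb hab
    refine ⟨a * x + b * x', a * y + b * y', a * z + b * z', ?_, ?_, ?_⟩
    · ext i; fin_cases i <;> simp; ring
    · calc |a * x + b * x'| ≤ |a * x| + |b * x'| := abs_add_le _ _
        _ = a * |x| + b * |x'| := by rw [abs_mul, abs_mul, abs_of_nonneg ha, abs_of_nonneg hb]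
        _ ≤ a * (1 - z) + b * (1 - z') := by gcongr
        _ = (a + b) - (a * z + b * z') := by ring
        _ = _ := by rw [hab]
    · calc |a * y + b * y'| ≤ |a * y| + |b * y'| := abs_add_le _ _
        _ = a * |y| + b * |y'| := by rw [abs_mul, abs_mul, abs_of_nonneg ha, abs_of_nonneg hb]
        _ ≤ a * z + b * z' := by gcongr
  have hsub : ({!₂[1, 0, 0], !₂[-1, 0, 0], !₂[0, 1, Real.sqrt 2], !₂[0, -1, Real.sqrt 2]} : Set E3) ⊆
      {p : E3 | ∃ x y z : ℝ, p = !₂[x, y, Real.sqrt 2 * z] ∧ |x| ≤ 1 - z ∧ |y| ≤ z} := by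
    intro p hp
    simp only [Set.mem_insert_iff, Set.mem_singleton_iff] at hp
    rcases hp with rfl | rfl | rfl | rfl
    · exact ⟨1, 0, 0, by simp, by simp, by simp⟩
    · exact ⟨-1, 0, 0, by simp, by simp, by simp⟩
    · exact ⟨0, 1, 1, by simp, by simp, by simp⟩
    · exact ⟨0, -1, 1, by simp, by simp, by simp⟩
  exact convexHull_min hsub hconv hp

/-- the direction of the padding cylinders -/
noncomputable def e0 : E3 := !₂[1, 0, 0]

lemma e0_ne : e0 ≠ 0 := by
  intro h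
  have := congrArg (fun v : E3 => v 0) h
  simp [e0] at this

variable (N : ℕ) (α : ℝ)

noncomputable def gP (i : ℕ) : E3 := if i < N then 0 else if i < 2 * N then upP else 0
noncomputable def gQ (i : ℕ) : E3 :=
  if i < N then lowQ (cc i) else if i < 2 * N then upQ (cc (i - N)) else if i = 2 * N then !₂[0, 2 * α, 0] else 0
noncomputable def gR (i : ℕ) : E3 :=
  if i < N then lowR (cc i) else if i < 2 * N then upR (cc (i - N)) else !₂[0, 0, 1]
noncomputable def gW (i : ℕ) : E3 :=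
  if i < N then lowW (cc i) else if i < 2 * N then upW (cc (i - N)) else e0

lemma gW_ne (i : ℕ) : gW N i ≠ 0 := by
  unfold gW
  split_ifs
  · exact lowW_ne _
  · exact upW_ne _
  · exact e0_ne

/-- the area of the i-th base -/
noncomputable def ga (i : ℕ) : ℝ :=
  |det3 (gQ N α i - gP N i) (gR N i - gP N i) (gW N i)| / (2 * ‖gW N i‖)

lemma norm_e0 : ‖e0‖ = 1 := by
  have : ‖e0‖ ^ 2 = 1 := by rw [normsq3]; simp [e0]
  have h0 := norm_nonneg e0
  nlinarith

lemma ga_low (i : ℕ) (hi : i < N) : ga N α i = ar (cc i) := by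
  unfold ga gQ gP gR gW
  simp only [hi, if_true]
  exact det_low _

lemma ga_up (i : ℕ) (hi : i < N) : ga N α (N + i) = ar (cc i) := by
  have h1 : ¬ (N + i < N) := by omega
  have h2 : N + i < 2 * N := by omega
  have h3 : N + i - N = i := by omega
  unfold ga gQ gP gR gW
  simp only [h1, h2, h3, if_true, if_false]
  exact det_up _

lemma ga_pad (hα : 0 ≤ α) : ga N α (2 * N) = α := by
  have h1 : ¬ (2 * N < N) := by omega
  have h2 : ¬ (2 * N < 2 * N) := by omega
  unfold ga gQ gP gR gW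
  simp only [h1, h2, if_true, if_false, norm_e0]
  simp [det3, e0, hα, abs_of_nonneg]

lemma ga_zero (i : ℕ) (hi : 2 * N < i) : ga N α i = 0 := by
  have h1 : ¬ (i < N) := by omega
  have h2 : ¬ (i < 2 * N) := by omega
  have h3 : ¬ (i = 2 * N) := by omega
  unfold ga gQ gP gR gW
  simp only [h1, h2, h3, if_false]
  simp [det3]

lemma sum_ga (hα : 0 ≤ α) (n : ℕ) (hn : 2 * N + 1 ≤ n) :
    ∑ i ∈ Finset.range n, ga N α i = 2 * (∑ i ∈ Finset.range N, ar (cc i)) + α := by
  obtain ⟨m, rfl⟩ : ∃ m, n = (N + N + 1) + m := ⟨n - (N + N + 1), by omega⟩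
  rw [Finset.sum_range_add, Finset.sum_range_succ, Finset.sum_range_add]
  have h1 : ∑ i ∈ Finset.range N, ga N α i = ∑ i ∈ Finset.range N, ar (cc i) :=
    Finset.sum_congr rfl (fun i hi => ga_low N α i (Finset.mem_range.mp hi))
  have h2 : ∑ i ∈ Finset.range N, ga N α (N + i) = ∑ i ∈ Finset.range N, ar (cc i) :=
    Finset.sum_congr rfl (fun i hi => ga_up N α i (Finset.mem_range.mp hi))
  have h3 : ∑ i ∈ Finset.range m, ga N α (N + N + 1 + i) = 0 :=
    Finset.sum_eq_zero (fun i _ => ga_zero N α _ (by omega))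
  have h4 : ga N α (N + N) = α := by
    have := ga_pad N α hα
    rwa [two_mul] at this
  rw [h1, h2, h3, h4]; ring

lemma cover_KK (hN : N = 1000000) (n : ℕ) (hn : 2 * N ≤ n) :
    KK ⊆ ⋃ i : Fin n, Cyl (gP N i) (gQ N α i) (gR N i) (gW N i) := by
  intro p hp
  obtain ⟨x, y, z, rfl, h1, h2⟩ := KK_desc p hp
  rw [Set.mem_iUnion]
  rcases cover x y z h1 h2 with ⟨i, hi, hmem⟩ | ⟨i, hi, hmem⟩
  · rw [← hN] at hi
    refine ⟨⟨i, by omega⟩, ?_⟩
    simpa [gP, gQ, gR, gW, hi] using hmem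
  · rw [← hN] at hi
    refine ⟨⟨N + i, by omega⟩, ?_⟩
    have e1 : ¬ (N + i < N) := by omega
    have e2 : N + i < 2 * N := by omega
    have e3 : N + i - N = i := by omega
    simp only [gP, gQ, gR, gW, e1, e2, e3, if_true, if_false]
    exact hmem

end Crest.Agent.H17Main

namespace Crest.Agent.H17Main

open Crest.Agent.H17Area Crest.Agent.H17Cyl Crest.Agent.H17Cover Crest.Agent.H17Sum Crest.Agent.H17Proj

/-- the total area of the explicit covering -/
noncomputable def S0 : ℝ := 2 * ∑ i ∈ Finset.range 1000000, ar (cc i)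

lemma S0_le : S0 ≤ Real.sqrt 2 * (1 / 2 - 86 / 10000000000) := by
  have := sum_ar_le
  unfold S0; linarith

theorem main_cover (α : ℝ) (hα : 0 ≤ α) (n : ℕ) (hn : 2000001 ≤ n) :
    ∃ (u p q r : Fin n → E3), (∀ i, ‖u i‖ = 1) ∧
      (∀ i, inner ℝ (p i) (u i) = 0 ∧ inner ℝ (q i) (u i) = 0 ∧ inner ℝ (r i) (u i) = 0) ∧
      KK ⊆ ⋃ i, {x : E3 | ∃ b ∈ convexHull ℝ ({p i, q i, r i} : Set E3), ∃ t : ℝ, x = b + t • u i} ∧
      ∑ i, (μHE[2] (convexHull ℝ ({p i, q i, r i} : Set E3))).toReal = S0 + α := by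
  obtain ⟨N, hN⟩ : ∃ N : ℕ, N = 1000000 := ⟨_, rfl⟩
  refine ⟨fun i => ‖gW N i‖⁻¹ • gW N i, fun i => projAlong (gW N i) (gP N i),
    fun i => projAlong (gW N i) (gQ N α i), fun i => projAlong (gW N i) (gR N i), ?_, ?_, ?_, ?_⟩
  · intro i; exact unit_dir _ (gW_ne N i)
  · intro i
    exact ⟨inner_unit_dir _ _ (gW_ne N i), inner_unit_dir _ _ (gW_ne N i), inner_unit_dir _ _ (gW_ne N i)⟩
  · refine (cover_KK N α hN n (by omega)).trans ?_
    exact Set.iUnion_mono (fun i => cyl_subset _ _ _ _ (gW_ne N i))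
  · have h1 : ∀ i : Fin n, (μHE[2] (convexHull ℝ ({projAlong (gW N i) (gP N i), projAlong (gW N i) (gQ N α i),
        projAlong (gW N i) (gR N i)} : Set E3))).toReal = ga N α i := fun i => tri_area _ _ _ _ (gW_ne N i)
    simp only [h1]
    rw [Fin.sum_univ_eq_sum_range (fun i => ga N α i) n, sum_ga N α hα n (by omega), S0, hN]

end Crest.Agent.H17Main
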