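import Crest.Agent.H27QSpec

/-!
# rid 350, module RANDLB: `Spec.RandLB` (randomized lower bound, abstract form)
-/

set_option autoImplicit false

open Crest.Agent.QG Crest.Agent.QG.Spec

set_option linter.unusedSectionVars false
set_option linter.unusedVariables false

namespace Crest.Agent.H17QRandLB

/-! ## paths of decision trees -/

section Paths
variable {I : Type}

/-- positions read on input `x` -/
def path (x : I → Bool) : GT I → List I
  | GT.leaf _ => []
  | GT.node i t₀ t₁ => i :: (if x i then path x t₁ else path x t₀)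

theorem path_length (x : I → Bool) : ∀ T : GT I, (path x T).length ≤ T.depth
  | GT.leaf _ => by simp [path, GT.depth]
  | GT.node i t₀ t₁ => by
      have h0 := path_length x t₀
      have h1 := path_length x t₁
      simp only [path, GT.depth, List.length_cons]
      split_ifs <;> omega

theorem eval_congr (x y : I → Bool) : ∀ T : GT I, (∀ i ∈ path x T, x i = y i) →
    T.eval x = T.eval y
  | GT.leaf _ => fun _ => rfl
  | GT.node i t₀ t₁ => by
      intro h
      have hi : x i = y i := h i (by simp [path])
      by_cases hx : x i = true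
      · have hy : y i = true := by rw [← hi, hx]
        simp only [GT.eval, hx, hy, if_true]
        exact eval_congr x y t₁ (fun k hk => h k (by simp [path, hx, hk]))
      · have hx' : x i = false := by simpa using hx
        have hy : y i = false := by rw [← hi, hx']
        simp only [GT.eval, hx', hy]
        exact eval_congr x y t₀ (fun k hk => h k (by simp [path, hx', hk]))

end Paths

/-! ## product expectation -/

section Expect
variable {X Y : Type} [Fintype X] [DecidableEq X] [Fintype Y]

/-- expectation for the product weight -/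
def Ex (ν : Y → ℝ) (G : (X → Y) → ℝ) : ℝ := ∑ ω : X → Y, (∏ j, ν (ω j)) * G ω

theorem Ex_mono {ν : Y → ℝ} (hν : ∀ y, 0 ≤ ν y) {G H : (X → Y) → ℝ} (h : ∀ ω, G ω ≤ H ω) :
    Ex ν G ≤ Ex ν H :=
  Finset.sum_le_sum fun ω _ => mul_le_mul_of_nonneg_left (h ω) (Finset.prod_nonneg fun j _ => hν _)

theorem Ex_const [DecidableEq Y] {ν : Y → ℝ} (h1 : ∑ y, ν y = 1) (c : ℝ) :
    Ex ν (fun _ : X → Y => c) = c := by
  unfold Ex
  rw [← Finset.sum_mul]
  have h : (∑ ω : X → Y, ∏ j, ν (ω j)) = ∏ _j : X, ∑ y, ν y := by
    rw [Finset.prod_univ_sum, Fintype.piFinset_univ]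
  rw [h, h1, Finset.prod_const_one, one_mul]

theorem Ex_add {ν : Y → ℝ} (G H : (X → Y) → ℝ) :
    Ex ν (fun ω => G ω + H ω) = Ex ν G + Ex ν H := by
  unfold Ex
  rw [← Finset.sum_add_distrib]
  exact Finset.sum_congr rfl fun ω _ => by ring

theorem Ex_mul {ν : Y → ℝ} (c : ℝ) (G : (X → Y) → ℝ) :
    Ex ν (fun ω => c * G ω) = c * Ex ν G := by
  unfold Ex
  rw [Finset.mul_sum]
  exact Finset.sum_congr rfl fun ω _ => by ring

theorem Ex_sum {ι : Type} (s : Finset ι) {ν : Y → ℝ} (G : ι → (X → Y) → ℝ) :
    Ex ν (fun ω => ∑ i ∈ s, G i ω) = ∑ i ∈ s, Ex ν (G i) := by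
  unfold Ex
  rw [Finset.sum_comm]
  exact Finset.sum_congr rfl fun ω _ => by rw [Finset.mul_sum]

/-- swap the value at `b` with an extra sample -/
def swp (b : X) (p : (X → Y) × Y) : (X → Y) × Y := (Function.update p.1 b p.2, p.1 b)

theorem swp_invol (b : X) : Function.Involutive (swp (Y := Y) b) := by
  rintro ⟨ω, y⟩
  simp [swp]

theorem Ex_resample [DecidableEq Y] {ν : Y → ℝ} (h1 : ∑ y, ν y = 1) (b : X)
    (G : (X → Y) → ℝ) :
    Ex ν G = Ex ν (fun ω => ∑ y, ν y * G (Function.update ω b y)) := by
  have hw : ∀ p : (X → Y) × Y, (∏ j, ν ((swp b p).1 j)) * ν (swp b p).2 =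
      (∏ j, ν (p.1 j)) * ν p.2 := by
    rintro ⟨ω, y⟩
    simp only [swp]
    rw [← Finset.mul_prod_erase Finset.univ (fun j => ν (Function.update ω b y j))
      (Finset.mem_univ b), ← Finset.mul_prod_erase Finset.univ (fun j => ν (ω j))
      (Finset.mem_univ b)]
    have : ∏ j ∈ Finset.univ.erase b, ν (Function.update ω b y j) =
        ∏ j ∈ Finset.univ.erase b, ν (ω j) := by
      refine Finset.prod_congr rfl fun j hj => ?_
      rw [Function.update_of_ne (Finset.ne_of_mem_erase hj)]
    rw [this, Function.update_self]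
    ring
  have h2 : ∑ p : (X → Y) × Y, (∏ j, ν (p.1 j)) * ν p.2 * G p.1 =
      ∑ p : (X → Y) × Y, (∏ j, ν (p.1 j)) * ν p.2 * G (swp b p).1 := by
    rw [← Equiv.sum_comp (swp_invol b).toPerm
      (fun p : (X → Y) × Y => (∏ j, ν (p.1 j)) * ν p.2 * G (swp b p).1)]
    refine Finset.sum_congr rfl fun p _ => ?_
    show _ = (∏ j, ν ((swp b p).1 j)) * ν (swp b p).2 * G (swp b (swp b p)).1
    rw [hw p, swp_invol b p]
  have h3 : Ex ν G = ∑ p : (X → Y) × Y, (∏ j, ν (p.1 j)) * ν p.2 * G p.1 := by
    rw [Fintype.sum_prod_type]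
    unfold Ex
    refine Finset.sum_congr rfl fun ω _ => ?_
    have : ∀ y : Y, (∏ j, ν (ω j)) * ν y * G ω = ν y * ((∏ j, ν (ω j)) * G ω) := fun y => by ring
    simp only [this]
    rw [← Finset.sum_mul, h1, one_mul]
  rw [h3, h2, Fintype.sum_prod_type]
  unfold Ex
  refine Finset.sum_congr rfl fun ω _ => ?_
  rw [Finset.mul_sum]
  refine Finset.sum_congr rfl fun y _ => ?_
  show (∏ j, ν (ω j)) * ν y * G (Function.update ω b y) = _
  ring

end Expect

/-! ## the hidden zero in a column -/

section LemA
variable {X A KP SP : Type} [Fintype X] [DecidableEq X]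

/-- is the position in column `b`? -/
def inCol (b : X) : Pos X A KP SP → Bool
  | Sum.inl (_, j) => decide (j = b)
  | _ => false

open Classical in
theorem lemA (b : X) (x : X → (Pos X A KP SP → Bool))
    (hcol : ∀ z ρ, x z (Sum.inl (ρ, b)) = decide (ρ ≠ z))
    (hoth : ∀ z z' i, inCol b i = false → x z i = x z' i) :
    ∀ (T : GT (Pos X A KP SP)) (R : Finset X),
      (∑ z ∈ R, (if (Sum.inl (z, b) : Pos X A KP SP) ∈ path (x z) T then 1 else 0)) * (R.card + 1) ≤
        2 * ∑ z ∈ R, (path (x z) T).countP (inCol b)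
  | GT.leaf _, R => by simp [path]
  | GT.node i t₀ t₁, R => by

      by_cases hi : inCol b i = false
      · -- the value does not depend on `z`
        have hne : ∀ z, (Sum.inl (z, b) : Pos X A KP SP) ≠ i := by
          rintro z rfl
          simp [inCol] at hi
        rcases R.eq_empty_or_nonempty with rfl | ⟨z₀, hz₀⟩
        · simp
        by_cases hx : x z₀ i = true
        · have hx' : ∀ z, x z i = true := fun z => by rw [hoth z z₀ i hi, hx]
          have ih := lemA b x hcol hoth t₁ R
          simpa [path, hx', hne, List.countP_cons, hi] using ih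
        · have hx0 : x z₀ i = false := by simpa using hx
          have hx' : ∀ z, x z i = false := fun z => by rw [hoth z z₀ i hi, hx0]
          have ih := lemA b x hcol hoth t₀ R
          simpa [path, hx', hne, List.countP_cons, hi] using ih
      · have hi' : inCol b i = true := by simpa using hi
        obtain ⟨ρ, rfl⟩ : ∃ ρ, i = Sum.inl (ρ, b) := by
          rcases i with ⟨ρ, j⟩ | i
          · simp [inCol] at hi'
            exact ⟨ρ, by rw [hi']⟩
          · simp [inCol] at hi'
        by_cases hρ : ρ ∈ R
        · have ih := lemA b x hcol hoth t₁ (R.erase ρ)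
          have hcard : (R.erase ρ).card + 1 = R.card := Finset.card_erase_add_one hρ
          have e1 : (∑ z ∈ R, (if (Sum.inl (z, b) : Pos X A KP SP) ∈
              path (x z) (GT.node (Sum.inl (ρ, b)) t₀ t₁) then 1 else 0)) =
              1 + ∑ z ∈ R.erase ρ, (if (Sum.inl (z, b) : Pos X A KP SP) ∈ path (x z) t₁
                then 1 else 0) := by
            rw [← Finset.add_sum_erase R _ hρ]
            congr 1
            · simp [path]
            · refine Finset.sum_congr rfl fun z hz => ?_
              have hz' : z ≠ ρ := Finset.ne_of_mem_erase hz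
              have hx : x z (Sum.inl (ρ, b)) = true := by
                rw [hcol]; simpa using (Ne.symm hz')
              simp [path, hx, hz']
          have e2 : R.card + ∑ z ∈ R.erase ρ, (path (x z) t₁).countP (inCol b) ≤
              ∑ z ∈ R, (path (x z) (GT.node (Sum.inl (ρ, b)) t₀ t₁)).countP (inCol b) := by
            rw [← Finset.add_sum_erase R _ hρ]
            have h1 : 1 ≤ (path (x ρ) (GT.node (Sum.inl (ρ, b)) t₀ t₁)).countP (inCol b) := by
              simp only [path, List.countP_cons, hi', if_true]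
              omega
            have h2 : ∑ z ∈ R.erase ρ, (path (x z) (GT.node (Sum.inl (ρ, b)) t₀ t₁)).countP
                (inCol b) = ∑ z ∈ R.erase ρ, ((path (x z) t₁).countP (inCol b) + 1) := by
              refine Finset.sum_congr rfl fun z hz => ?_
              have hz' : z ≠ ρ := Finset.ne_of_mem_erase hz
              have hx : x z (Sum.inl (ρ, b)) = true := by
                rw [hcol]; simpa using (Ne.symm hz')
              simp [path, hx, List.countP_cons, hi']
            rw [h2, Finset.sum_add_distrib, Finset.sum_const, smul_eq_mul, mul_one]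
            omega
          have e3 : (∑ z ∈ R.erase ρ, (if (Sum.inl (z, b) : Pos X A KP SP) ∈ path (x z) t₁
                then 1 else 0)) ≤ (R.erase ρ).card := by
            refine (Finset.sum_le_sum (g := fun _ => 1) fun z _ => ?_).trans (by simp)
            split_ifs <;> omega
          rw [e1]
          set f' := ∑ z ∈ R.erase ρ, (if (Sum.inl (z, b) : Pos X A KP SP) ∈ path (x z) t₁
                then 1 else 0)
          set g' := ∑ z ∈ R.erase ρ, (path (x z) t₁).countP (inCol b)
          set g := ∑ z ∈ R, (path (x z) (GT.node (Sum.inl (ρ, b)) t₀ t₁)).countP (inCol b)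
          rw [hcard] at ih
          have : (1 + f') * (R.card + 1) = R.card + 1 + f' * R.card + f' := by ring
          rw [this]
          omega
        · have ih := lemA b x hcol hoth t₁ R
          have hx : ∀ z ∈ R, x z (Sum.inl (ρ, b)) = true := by
            intro z hz
            rw [hcol]
            have : ρ ≠ z := fun h => hρ (h ▸ hz)
            simpa using this
          have e1 : (∑ z ∈ R, (if (Sum.inl (z, b) : Pos X A KP SP) ∈
              path (x z) (GT.node (Sum.inl (ρ, b)) t₀ t₁) then 1 else 0)) =
              ∑ z ∈ R, (if (Sum.inl (z, b) : Pos X A KP SP) ∈ path (x z) t₁ then 1 else 0) := by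
            refine Finset.sum_congr rfl fun z hz => ?_
            have hz' : z ≠ ρ := fun h => hρ (h ▸ hz)
            simp [path, hx z hz, hz']
          have e2 : ∑ z ∈ R, (path (x z) t₁).countP (inCol b) ≤
              ∑ z ∈ R, (path (x z) (GT.node (Sum.inl (ρ, b)) t₀ t₁)).countP (inCol b) := by
            refine Finset.sum_le_sum fun z hz => ?_
            simp [path, hx z hz, List.countP_cons, hi']
          rw [e1]
          omega

end LemA

/-! ## the truncated key tree -/

section LemB
variable {X A KP SP : Type} [DecidableEq X] [DecidableEq A]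

/-- is the position in the key block of column `b`? -/
def inBlk (b : X) : Pos X A KP SP → Bool
  | Sum.inr (Sum.inl (j, _)) => decide (j = b)
  | _ => false

/-- run `T` on base input `y`, querying the key of column `b` at most `t` times; output whether
sheet `a` has been touched -/
def trunc (b : X) (a : A) (y : Pos X A KP SP → Bool) : ℕ → Bool → GT (Pos X A KP SP) → GT KP
  | _, fl, GT.leaf _ => GT.leaf fl
  | t, fl, GT.node (Sum.inl c) t₀ t₁ =>
      if y (Sum.inl c) then trunc b a y t fl t₁ else trunc b a y t fl t₀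
  | t, fl, GT.node (Sum.inr (Sum.inr (a', s))) t₀ t₁ =>
      if y (Sum.inr (Sum.inr (a', s))) then trunc b a y t (fl || decide (a' = a)) t₁
        else trunc b a y t (fl || decide (a' = a)) t₀
  | 0, fl, GT.node (Sum.inr (Sum.inl (j, k))) t₀ t₁ =>
      if j = b then GT.leaf fl
        else if y (Sum.inr (Sum.inl (j, k))) then trunc b a y 0 fl t₁ else trunc b a y 0 fl t₀
  | t + 1, fl, GT.node (Sum.inr (Sum.inl (j, k))) t₀ t₁ =>
      if j = b then GT.node k (trunc b a y t fl t₀) (trunc b a y t fl t₁)
        else if y (Sum.inr (Sum.inl (j, k))) then trunc b a y (t + 1) fl t₁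
          else trunc b a y (t + 1) fl t₀

theorem trunc_depth (b : X) (a : A) (y : Pos X A KP SP → Bool) :
    ∀ (T : GT (Pos X A KP SP)) (t : ℕ) (fl : Bool), (trunc b a y t fl T).depth ≤ t
  | GT.leaf _, t, fl => by cases t <;> simp [trunc, GT.depth]
  | GT.node (Sum.inl c) t₀ t₁, t, fl => by
      have h0 := trunc_depth b a y t₀ t fl
      have h1 := trunc_depth b a y t₁ t fl
      cases t <;> (simp only [trunc]; split_ifs <;> assumption)
  | GT.node (Sum.inr (Sum.inr (a', s))) t₀ t₁, t, fl => by
      have h0 := trunc_depth b a y t₀ t (fl || decide (a' = a))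
      have h1 := trunc_depth b a y t₁ t (fl || decide (a' = a))
      cases t <;> (simp only [trunc]; split_ifs <;> assumption)
  | GT.node (Sum.inr (Sum.inl (j, k))) t₀ t₁, 0, fl => by
      have h0 := trunc_depth b a y t₀ 0 fl
      have h1 := trunc_depth b a y t₁ 0 fl
      simp only [trunc]
      split_ifs
      · simp [GT.depth]
      · exact h1
      · exact h0
  | GT.node (Sum.inr (Sum.inl (j, k))) t₀ t₁, t + 1, fl => by
      have h0 := trunc_depth b a y t₀ t fl
      have h1 := trunc_depth b a y t₁ t fl
      have h0' := trunc_depth b a y t₀ (t + 1) fl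
      have h1' := trunc_depth b a y t₁ (t + 1) fl
      simp only [trunc]
      split_ifs
      · simp only [GT.depth]; omega
      · exact h1'
      · exact h0'

theorem trunc_fl (b : X) (a : A) (y : Pos X A KP SP → Bool) (κ : KP → Bool) :
    ∀ (T : GT (Pos X A KP SP)) (t : ℕ), (trunc b a y t true T).eval κ = true
  | GT.leaf _, t => by cases t <;> simp [trunc, GT.eval]
  | GT.node (Sum.inl c) t₀ t₁, t => by
      have h0 := trunc_fl b a y κ t₀ t
      have h1 := trunc_fl b a y κ t₁ t
      cases t <;> (simp only [trunc]; split_ifs <;> assumption)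
  | GT.node (Sum.inr (Sum.inr (a', s))) t₀ t₁, t => by
      have h0 := trunc_fl b a y κ t₀ t
      have h1 := trunc_fl b a y κ t₁ t
      cases t <;> (simp only [trunc, Bool.true_or]; split_ifs <;> assumption)
  | GT.node (Sum.inr (Sum.inl (j, k))) t₀ t₁, 0 => by
      have h0 := trunc_fl b a y κ t₀ 0
      have h1 := trunc_fl b a y κ t₁ 0
      simp only [trunc]
      split_ifs
      · simp [GT.eval]
      · exact h1
      · exact h0
  | GT.node (Sum.inr (Sum.inl (j, k))) t₀ t₁, t + 1 => by
      have h0 := trunc_fl b a y κ t₀ t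
      have h1 := trunc_fl b a y κ t₁ t
      have h0' := trunc_fl b a y κ t₀ (t + 1)
      have h1' := trunc_fl b a y κ t₁ (t + 1)
      simp only [trunc]
      split_ifs
      · simp only [GT.eval]; split_ifs <;> assumption
      · exact h1'
      · exact h0'

theorem trunc_of_touch (b : X) (a : A) (x y : Pos X A KP SP → Bool) (κ : KP → Bool)
    (hb : ∀ k, x (Sum.inr (Sum.inl (b, k))) = κ k) (ho : ∀ i, inBlk b i = false → x i = y i) :
    ∀ (T : GT (Pos X A KP SP)) (t : ℕ) (fl : Bool),
      (∃ s, (Sum.inr (Sum.inr (a, s)) : Pos X A KP SP) ∈ path x T) →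
      (path x T).countP (inBlk b) ≤ t → (trunc b a y t fl T).eval κ = true
  | GT.leaf _, t, fl => by
      rintro ⟨s, hs⟩
      simp [path] at hs
  | GT.node (Sum.inl c) t₀ t₁, t, fl => by
      rintro ⟨s, hs⟩ hc
      have hy : x (Sum.inl c) = y (Sum.inl c) := ho _ rfl
      have h0 := trunc_of_touch b a x y κ hb ho t₀ t fl
      have h1 := trunc_of_touch b a x y κ hb ho t₁ t fl
      by_cases hx : y (Sum.inl c) = true
      · rw [hx] at hy
        simp only [path, hy, if_true, List.mem_cons, reduceCtorEq, false_or,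
          List.countP_cons, inBlk] at hs hc
        have := h1 ⟨s, hs⟩ (by simpa using hc)
        cases t <;> simpa [trunc, hx] using this
      · have hx' : y (Sum.inl c) = false := by simpa using hx
        rw [hx'] at hy
        simp only [path, hy, List.mem_cons, reduceCtorEq, false_or,
          List.countP_cons, inBlk] at hs hc
        have := h0 ⟨s, by simpa using hs⟩ (by simpa using hc)
        cases t <;> simpa [trunc, hx'] using this
  | GT.node (Sum.inr (Sum.inr (a', s'))) t₀ t₁, t, fl => by
      rintro ⟨s, hs⟩ hc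
      have hy : x (Sum.inr (Sum.inr (a', s'))) = y (Sum.inr (Sum.inr (a', s'))) := ho _ rfl
      by_cases ha : a' = a
      · have h0 := trunc_fl b a y κ t₀ t
        have h1 := trunc_fl b a y κ t₁ t
        cases t <;> (simp only [trunc, ha, decide_true, Bool.or_true]; split_ifs <;> assumption)
      have h0 := trunc_of_touch b a x y κ hb ho t₀ t (fl || decide (a' = a))
      have h1 := trunc_of_touch b a x y κ hb ho t₁ t (fl || decide (a' = a))
      have hne : (Sum.inr (Sum.inr (a, s)) : Pos X A KP SP) ≠ Sum.inr (Sum.inr (a', s')) := by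
        intro h
        simp only [Sum.inr.injEq, Prod.mk.injEq] at h
        exact ha h.1.symm
      by_cases hx : y (Sum.inr (Sum.inr (a', s'))) = true
      · rw [hx] at hy
        simp only [path, hy, if_true, List.mem_cons, hne, false_or,
          List.countP_cons, inBlk] at hs hc
        have := h1 ⟨s, hs⟩ (by simpa using hc)
        cases t <;> simpa only [trunc, hx, if_true] using this
      · have hx' : y (Sum.inr (Sum.inr (a', s'))) = false := by simpa using hx
        rw [hx'] at hy
        simp only [path, hy, List.mem_cons, hne, false_or,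
          List.countP_cons, inBlk] at hs hc
        have := h0 ⟨s, by simpa using hs⟩ (by simpa using hc)
        cases t <;> simpa [trunc, hx'] using this
  | GT.node (Sum.inr (Sum.inl (j, k))) t₀ t₁, t, fl => by
      rintro ⟨s, hs⟩ hc
      by_cases hj : j = b
      · subst hj
        have hk := hb k
        cases t with
        | zero =>
            exfalso
            simp [path, List.countP_cons, inBlk] at hc
        | succ t =>
            have h0 := trunc_of_touch j a x y κ hb ho t₀ t fl
            have h1 := trunc_of_touch j a x y κ hb ho t₁ t fl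
            by_cases hx : κ k = true
            · rw [hx] at hk
              simp only [path, hk, if_true, List.mem_cons, Sum.inr.injEq, reduceCtorEq, false_or,
                List.countP_cons, inBlk, decide_true] at hs hc
              have := h1 ⟨s, hs⟩ (by omega)
              simp only [trunc, if_true, GT.eval, hx]
              exact this
            · have hx' : κ k = false := by simpa using hx
              rw [hx'] at hk
              simp only [path, hk, Bool.false_eq_true, if_false, List.mem_cons, Sum.inr.injEq,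
                reduceCtorEq, false_or, List.countP_cons, inBlk, decide_true, if_true] at hs hc
              have := h0 ⟨s, hs⟩ (by omega)
              simp only [trunc, if_true, GT.eval, hx', Bool.false_eq_true, if_false]
              exact this
      · have hnb : inBlk b (Sum.inr (Sum.inl (j, k)) : Pos X A KP SP) = false := by
          simp [inBlk, hj]
        have hy : x (Sum.inr (Sum.inl (j, k))) = y (Sum.inr (Sum.inl (j, k))) := ho _ hnb
        have h0 := trunc_of_touch b a x y κ hb ho t₀ t fl
        have h1 := trunc_of_touch b a x y κ hb ho t₁ t fl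
        by_cases hx : y (Sum.inr (Sum.inl (j, k))) = true
        · rw [hx] at hy
          simp only [path, hy, if_true, List.mem_cons, Sum.inr.injEq, reduceCtorEq, false_or,
            List.countP_cons, hnb, Bool.false_eq_true, if_false, add_zero] at hs hc
          have := h1 ⟨s, hs⟩ hc
          cases t <;> simpa [trunc, hj, hx] using this
        · have hx' : y (Sum.inr (Sum.inl (j, k))) = false := by simpa using hx
          rw [hx'] at hy
          simp only [path, hy, Bool.false_eq_true, if_false, List.mem_cons, Sum.inr.injEq,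
            reduceCtorEq, false_or, List.countP_cons, hnb, add_zero] at hs hc
          have := h0 ⟨s, hs⟩ hc
          cases t <;> simpa [trunc, hj, hx'] using this

theorem touch_of_trunc (b : X) (a : A) (x y : Pos X A KP SP → Bool) (κ : KP → Bool)
    (hb : ∀ k, x (Sum.inr (Sum.inl (b, k))) = κ k) (ho : ∀ i, inBlk b i = false → x i = y i) :
    ∀ (T : GT (Pos X A KP SP)) (t : ℕ) (fl : Bool), (trunc b a y t fl T).eval κ = true →
      fl = true ∨ ∃ s, (Sum.inr (Sum.inr (a, s)) : Pos X A KP SP) ∈ path x T
  | GT.leaf _, t, fl => by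
      intro h
      cases t <;> simp [trunc, GT.eval] at h <;> exact Or.inl h
  | GT.node (Sum.inl c) t₀ t₁, t, fl => by
      intro h
      have hy : x (Sum.inl c) = y (Sum.inl c) := ho _ rfl
      have h0 := touch_of_trunc b a x y κ hb ho t₀ t fl
      have h1 := touch_of_trunc b a x y κ hb ho t₁ t fl
      by_cases hx : y (Sum.inl c) = true
      · rw [hx] at hy
        have h' : (trunc b a y t fl t₁).eval κ = true := by
          cases t <;> simpa [trunc, hx] using h
        rcases h1 h' with h | ⟨s, hs⟩
        · exact Or.inl h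
        · exact Or.inr ⟨s, by simp [path, hy, hs]⟩
      · have hx' : y (Sum.inl c) = false := by simpa using hx
        rw [hx'] at hy
        have h' : (trunc b a y t fl t₀).eval κ = true := by
          cases t <;> simpa [trunc, hx'] using h
        rcases h0 h' with h | ⟨s, hs⟩
        · exact Or.inl h
        · exact Or.inr ⟨s, by simp [path, hy, hs]⟩
  | GT.node (Sum.inr (Sum.inr (a', s'))) t₀ t₁, t, fl => by
      intro h
      have hy : x (Sum.inr (Sum.inr (a', s'))) = y (Sum.inr (Sum.inr (a', s'))) := ho _ rfl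
      by_cases ha : a' = a
      · subst ha
        exact Or.inr ⟨s', by simp [path]⟩
      have h0 := touch_of_trunc b a x y κ hb ho t₀ t (fl || decide (a' = a))
      have h1 := touch_of_trunc b a x y κ hb ho t₁ t (fl || decide (a' = a))
      by_cases hx : y (Sum.inr (Sum.inr (a', s'))) = true
      · rw [hx] at hy
        have h' : (trunc b a y t (fl || decide (a' = a)) t₁).eval κ = true := by
          cases t <;> simpa only [trunc, hx, if_true] using h
        rcases h1 h' with h | ⟨s, hs⟩
        · exact Or.inl (by simpa [ha] using h)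
        · exact Or.inr ⟨s, by simp [path, hy, hs]⟩
      · have hx' : y (Sum.inr (Sum.inr (a', s'))) = false := by simpa using hx
        rw [hx'] at hy
        have h' : (trunc b a y t (fl || decide (a' = a)) t₀).eval κ = true := by
          cases t <;> simpa only [trunc, hx', Bool.false_eq_true, if_false] using h
        rcases h0 h' with h | ⟨s, hs⟩
        · exact Or.inl (by simpa [ha] using h)
        · exact Or.inr ⟨s, by simp [path, hy, hs]⟩
  | GT.node (Sum.inr (Sum.inl (j, k))) t₀ t₁, t, fl => by
      intro h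
      by_cases hj : j = b
      · subst hj
        have hk := hb k
        cases t with
        | zero =>
            left
            simpa [trunc, GT.eval] using h
        | succ t =>
            have h0 := touch_of_trunc j a x y κ hb ho t₀ t fl
            have h1 := touch_of_trunc j a x y κ hb ho t₁ t fl
            by_cases hx : κ k = true
            · rw [hx] at hk
              simp only [trunc, if_true, GT.eval, hx] at h
              rcases h1 h with h | ⟨s, hs⟩
              · exact Or.inl h
              · exact Or.inr ⟨s, by simp [path, hk, hs]⟩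
            · have hx' : κ k = false := by simpa using hx
              rw [hx'] at hk
              simp only [trunc, if_true, GT.eval, hx', Bool.false_eq_true, if_false] at h
              rcases h0 h with h | ⟨s, hs⟩
              · exact Or.inl h
              · exact Or.inr ⟨s, by simp [path, hk, hs]⟩
      · have hnb : inBlk b (Sum.inr (Sum.inl (j, k)) : Pos X A KP SP) = false := by
          simp [inBlk, hj]
        have hy : x (Sum.inr (Sum.inl (j, k))) = y (Sum.inr (Sum.inl (j, k))) := ho _ hnb
        have h0 := touch_of_trunc b a x y κ hb ho t₀ t fl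
        have h1 := touch_of_trunc b a x y κ hb ho t₁ t fl
        by_cases hx : y (Sum.inr (Sum.inl (j, k))) = true
        · rw [hx] at hy
          have h' : (trunc b a y t fl t₁).eval κ = true := by
            cases t <;> simpa [trunc, hj, hx] using h
          rcases h1 h' with h | ⟨s, hs⟩
          · exact Or.inl h
          · exact Or.inr ⟨s, by simp [path, hy, hs]⟩
        · have hx' : y (Sum.inr (Sum.inl (j, k))) = false := by simpa using hx
          rw [hx'] at hy
          have h' : (trunc b a y t fl t₀).eval κ = true := by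
            cases t <;> simpa [trunc, hj, hx'] using h
          rcases h0 h' with h | ⟨s, hs⟩
          · exact Or.inl h
          · exact Or.inr ⟨s, by simp [path, hy, hs]⟩

open Classical in
theorem card_touch [Fintype A] (l : List (Pos X A KP SP)) :
    (Finset.univ.filter fun a : A => ∃ s, (Sum.inr (Sum.inr (a, s)) : Pos X A KP SP) ∈ l).card ≤
      l.length := by
  induction l with
  | nil => simp
  | cons i l ih =>
      rcases i with c | c | ⟨a', s'⟩
      · simpa using ih.trans (Nat.le_succ _)
      · simpa using ih.trans (Nat.le_succ _)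
      · have hsub : (Finset.univ.filter fun a : A => ∃ s, (Sum.inr (Sum.inr (a, s)) :
            Pos X A KP SP) ∈ Sum.inr (Sum.inr (a', s')) :: l) ⊆
            insert a' (Finset.univ.filter fun a : A => ∃ s, (Sum.inr (Sum.inr (a, s)) :
              Pos X A KP SP) ∈ l) := by
          intro a
          simp only [Finset.mem_filter, Finset.mem_univ, true_and, Finset.mem_insert,
            List.mem_cons, Sum.inr.injEq, Prod.mk.injEq]
          rintro ⟨s, ⟨h, -⟩ | h⟩
          · exact Or.inl h
          · exact Or.inr ⟨s, h⟩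
        refine (Finset.card_le_card hsub).trans ((Finset.card_insert_le _ _).trans ?_)
        simpa using ih

theorem sum_countP {I : Type} [Fintype X] (P : X → I → Bool)
    (hP : ∀ i, ∑ b, (if P b i then 1 else 0) ≤ 1) (l : List I) :
    ∑ b, l.countP (P b) ≤ l.length := by
  induction l with
  | nil => simp
  | cons i l ih =>
      simp only [List.countP_cons, Finset.sum_add_distrib, List.length_cons]
      exact Nat.add_le_add ih (hP i)

end LemB

/-! ## the null input and the three estimates -/

section Main
variable {X A KP SP : Type} [Fintype X] [DecidableEq X] [Nonempty X] [Fintype A] [DecidableEq A]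
    [Nonempty A] [Fintype KP] [DecidableEq KP] [Fintype SP] [DecidableEq SP]

/-- sample space of one column: row of the zero, address, key -/
abbrev Smp (X A KP : Type) : Type := X × (A × (KP → Bool))

/-- weight of one column -/
noncomputable def nu (w : A → (KP → Bool) → ℝ) (y : Smp X A KP) : ℝ :=
  w y.2.1 y.2.2 / ((Fintype.card X : ℝ) * Fintype.card A)

/-- the null input -/
def x0 (ω : X → Smp X A KP) : Pos X A KP SP → Bool
  | Sum.inl (ρ, j) => decide (ρ ≠ (ω j).1)
  | Sum.inr (Sum.inl (j, i)) => (ω j).2.2 i
  | Sum.inr (Sum.inr _) => false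

theorem card_pos_X : (0 : ℝ) < Fintype.card X := by exact_mod_cast Fintype.card_pos

theorem nu_nonneg {w : A → (KP → Bool) → ℝ} (hw : ∀ a κ, 0 ≤ w a κ) (y : Smp X A KP) :
    0 ≤ nu w y := div_nonneg (hw _ _) (by positivity)

theorem nu_sum {w : A → (KP → Bool) → ℝ} (h1 : ∀ a, ∑ κ, w a κ = 1) :
    ∑ y : Smp X A KP, nu w y = 1 := by
  have hX : (0 : ℝ) < Fintype.card X := card_pos_X
  have hA : (0 : ℝ) < Fintype.card A := card_pos_X
  unfold nu
  rw [← Finset.sum_div]
  simp only [Fintype.sum_prod_type, h1, Finset.sum_const, Finset.card_univ, nsmul_eq_mul, mul_one]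
  field_simp

theorem sum_nu {w : A → (KP → Bool) → ℝ} (G : Smp X A KP → ℝ) :
    ∑ y : Smp X A KP, nu w y * G y =
      ∑ p : A × (KP → Bool), w p.1 p.2 / ((Fintype.card X : ℝ) * Fintype.card A) *
        ∑ z : X, G (z, p) := by
  rw [Fintype.sum_prod_type_right]
  refine Finset.sum_congr rfl fun p _ => ?_
  rw [Finset.mul_sum]
  rfl

open Classical in
/-- indicator of a proposition -/
noncomputable def I01 (P : Prop) : ℝ := if P then 1 else 0

theorem I01_nonneg (P : Prop) : 0 ≤ I01 P := by unfold I01; split_ifs <;> norm_num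

open Classical in
theorem sum_I01 {B : Type} [Fintype B] (P : B → Prop) :
    ∑ a, I01 (P a) = ((Finset.univ.filter P).card : ℝ) := by
  unfold I01
  rw [Finset.card_filter]
  push_cast
  rfl

theorem I01_le (P : Prop) : I01 P ≤ 1 := by unfold I01; split_ifs <;> norm_num

theorem x0_update_col (ω : X → Smp X A KP) (b : X) (p : A × (KP → Bool)) (z ρ : X) :
    x0 (SP := SP) (Function.update ω b (z, p)) (Sum.inl (ρ, b)) = decide (ρ ≠ z) := by
  simp [x0]

theorem x0_update_oth (ω : X → Smp X A KP) (b : X) (p : A × (KP → Bool)) (z z' : X)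
    (i : Pos X A KP SP) (hi : inCol b i = false) :
    x0 (Function.update ω b (z, p)) i = x0 (Function.update ω b (z', p)) i := by
  rcases i with ⟨ρ, j⟩ | ⟨j, k⟩ | i
  · have hj : j ≠ b := by simpa [inCol] using hi
    simp [x0, Function.update_of_ne hj]
  · by_cases hj : j = b
    · subst hj; simp [x0]
    · simp [x0, Function.update_of_ne hj]
  · rfl

theorem x0_update_blk (ω : X → Smp X A KP) (b : X) (z : X) (a a' : A) (κ κ' : KP → Bool)
    (i : Pos X A KP SP) (hi : inBlk b i = false) :
    x0 (Function.update ω b (z, (a, κ))) i = x0 (Function.update ω b (z, (a', κ'))) i := by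
  rcases i with ⟨ρ, j⟩ | ⟨j, k⟩ | i
  · by_cases hj : j = b
    · subst hj; simp [x0]
    · simp [x0, Function.update_of_ne hj]
  · have hj : j ≠ b := by simpa [inBlk] using hi
    simp [x0, Function.update_of_ne hj]
  · rfl

/-- the hidden zero of column `b` is found -/
def E1 (T : GT (Pos X A KP SP)) (b : X) (ω : X → Smp X A KP) : Prop :=
  (Sum.inl ((ω b).1, b) : Pos X A KP SP) ∈ path (x0 ω) T

/-- the sheet of column `b` is touched -/
def E2 (T : GT (Pos X A KP SP)) (b : X) (ω : X → Smp X A KP) : Prop :=
  ∃ s, (Sum.inr (Sum.inr ((ω b).2.1, s)) : Pos X A KP SP) ∈ path (x0 ω) T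

theorem est1 {w : A → (KP → Bool) → ℝ} (hw : ∀ a κ, 0 ≤ w a κ) (h1 : ∀ a, ∑ κ, w a κ = 1)
    (T : GT (Pos X A KP SP)) (b : X) :
    Ex (nu w) (fun ω : X → Smp X A KP => I01 (E1 T b ω)) * (Fintype.card X + 1) ≤
      2 * Ex (nu w) (fun ω : X → Smp X A KP => ((path (x0 (SP := SP) ω) T).countP (inCol b) : ℝ)) := by
  classical
  rw [Ex_resample (nu_sum h1) b, Ex_resample (nu_sum h1) b
    (fun ω : X → Smp X A KP => ((path (x0 (SP := SP) ω) T).countP (inCol b) : ℝ)), ← Ex_mul,
    mul_comm, ← Ex_mul]
  refine Ex_mono (nu_nonneg hw) fun ω => ?_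
  rw [sum_nu, sum_nu, Finset.mul_sum, Finset.mul_sum]
  refine Finset.sum_le_sum fun p _ => ?_
  have hc : 0 ≤ w p.1 p.2 / ((Fintype.card X : ℝ) * Fintype.card A) :=
    div_nonneg (hw _ _) (by positivity)
  have hA := lemA b (fun z => x0 (SP := SP) (Function.update ω b (z, p)))
    (x0_update_col ω b p) (fun z z' i hi => x0_update_oth ω b p z z' i hi) T Finset.univ
  have hA' : (∑ z : X, I01 (E1 T b (Function.update ω b (z, p)))) * (Fintype.card X + 1) ≤
      2 * ∑ z : X, ((path (x0 (SP := SP) (Function.update ω b (z, p))) T).countP (inCol b) : ℝ) := by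
    have e : ∀ z : X, I01 (E1 T b (Function.update ω b (z, p))) =
        ((if (Sum.inl (z, b) : Pos X A KP SP) ∈
          path (x0 (Function.update ω b (z, p))) T then 1 else 0 : ℕ) : ℝ) := by
      intro z
      unfold I01 E1
      simp only [Function.update_self]
      split_ifs <;> simp
    simp only [e]
    rw [← Finset.card_univ]
    exact_mod_cast hA
  calc (↑(Fintype.card X) + 1) * (w p.1 p.2 / ((Fintype.card X : ℝ) * Fintype.card A) *
        ∑ z : X, I01 (E1 T b (Function.update ω b (z, p))))
      = w p.1 p.2 / ((Fintype.card X : ℝ) * Fintype.card A) *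
        ((∑ z : X, I01 (E1 T b (Function.update ω b (z, p)))) * (Fintype.card X + 1)) := by ring
    _ ≤ w p.1 p.2 / ((Fintype.card X : ℝ) * Fintype.card A) *
        (2 * ∑ z : X, ((path (x0 (SP := SP) (Function.update ω b (z, p))) T).countP
          (inCol b) : ℝ)) := mul_le_mul_of_nonneg_left hA' hc
    _ = _ := by ring

theorem est2 {w : A → (KP → Bool) → ℝ} {w₀ : (KP → Bool) → ℝ} (hw : ∀ a κ, 0 ≤ w a κ)
    (h1 : ∀ a, ∑ κ, w a κ = 1) (hw₀ : ∀ κ, 0 ≤ w₀ κ) (h1₀ : ∑ κ, w₀ κ = 1) {t r : ℕ}
    (ht : 0 < t)
    (hind : ∀ a (T : GT KP), T.depth ≤ t →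
      ∑ κ, w a κ * T.ind κ ≤ ∑ κ, w₀ κ * T.ind κ + 1 / 100)
    (T : GT (Pos X A KP SP)) (hT : T.depth ≤ r) (b : X) :
    Ex (nu w) (fun ω : X → Smp X A KP => I01 (E2 T b ω)) ≤
      Ex (nu w) (fun ω : X → Smp X A KP => ((path (x0 (SP := SP) ω) T).countP (inBlk b) : ℝ)) / t
        + (r / (Fintype.card A : ℝ) + 1 / 100) := by
  classical
  have htR : (0 : ℝ) < t := by exact_mod_cast ht
  have hX : (0 : ℝ) < Fintype.card X := card_pos_X
  have hAc : (0 : ℝ) < Fintype.card A := card_pos_X
  let J : (X → Smp X A KP) → ℝ := fun ω =>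
    I01 (E2 T b ω ∧ (path (x0 (SP := SP) ω) T).countP (inBlk b) ≤ t)
  have s1 : Ex (nu w) (fun ω : X → Smp X A KP => I01 (E2 T b ω)) ≤
      Ex (nu w) (fun ω : X → Smp X A KP =>
        (1 / t : ℝ) * ((path (x0 (SP := SP) ω) T).countP (inBlk b) : ℝ) + J ω) := by
    refine Ex_mono (nu_nonneg hw) fun ω => ?_
    simp only [J]
    by_cases hc : (path (x0 (SP := SP) ω) T).countP (inBlk b) ≤ t
    · have : I01 (E2 T b ω) = I01 (E2 T b ω ∧ (path (x0 (SP := SP) ω) T).countP (inBlk b) ≤ t) := by
        unfold I01; simp [hc]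
      rw [this]
      have : (0 : ℝ) ≤ (1 / t : ℝ) * ((path (x0 (SP := SP) ω) T).countP (inBlk b) : ℝ) := by
        positivity
      linarith
    · have h2 := I01_le (E2 T b ω)
      have h3 := I01_nonneg (E2 T b ω ∧ (path (x0 (SP := SP) ω) T).countP (inBlk b) ≤ t)
      have h4 : (1 : ℝ) ≤ (1 / t : ℝ) * ((path (x0 (SP := SP) ω) T).countP (inBlk b) : ℝ) := by
        rw [one_div, inv_mul_eq_div, le_div_iff₀ htR, one_mul]
        exact_mod_cast (not_le.1 hc).le
      linarith
  rw [Ex_add, Ex_mul] at s1
  have s2 : Ex (nu w) J ≤ r / (Fintype.card A : ℝ) + 1 / 100 := by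
    rw [Ex_resample (nu_sum h1) b]
    have hcst : Ex (nu w) (fun _ : X → Smp X A KP => r / (Fintype.card A : ℝ) + 1 / 100) =
        r / (Fintype.card A : ℝ) + 1 / 100 := Ex_const (nu_sum h1) _
    rw [← hcst]
    refine Ex_mono (nu_nonneg hw) fun ω => ?_
    obtain ⟨a₀⟩ := ‹Nonempty A›
    let y : X → Pos X A KP SP → Bool := fun z =>
      x0 (Function.update ω b (z, (a₀, fun _ => false)))
    -- pointwise bound by the truncated tree
    have hpt : ∀ z a κ, J (Function.update ω b (z, (a, κ))) ≤
        (trunc b a (y z) t false T).ind κ := by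
      intro z a κ
      simp only [J]
      unfold I01
      split_ifs with h
      · obtain ⟨⟨s, hs⟩, hc⟩ := h
        rw [Function.update_self] at hs
        have := trunc_of_touch b a (x0 (SP := SP) (Function.update ω b (z, (a, κ)))) (y z) κ
          (fun k => by simp [x0]) (fun i hi => x0_update_blk ω b z a a₀ κ _ i hi) T t false
          ⟨s, hs⟩ hc
        unfold GT.ind
        rw [if_pos this]
      · unfold GT.ind; split_ifs <;> norm_num
    have hcount : ∀ z κ, ∑ a, (trunc b a (y z) t false T).ind κ ≤ r := by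
      intro z κ
      have hx : ∀ a, (trunc b a (y z) t false T).ind κ ≤
          I01 (∃ s, (Sum.inr (Sum.inr (a, s)) : Pos X A KP SP) ∈
            path (x0 (Function.update ω b (z, (a₀, κ)))) T) := by
        intro a
        unfold GT.ind
        split_ifs with h
        · rcases touch_of_trunc b a (x0 (SP := SP) (Function.update ω b (z, (a₀, κ)))) (y z) κ
            (fun k => by simp [x0]) (fun i hi => x0_update_blk ω b z a₀ a₀ κ _ i hi) T t false h with
            h' | h'
          · simp at h'
          · unfold I01; rw [if_pos h']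
        · exact I01_nonneg _
      refine (Finset.sum_le_sum fun a _ => hx a).trans ?_
      rw [sum_I01]
      have := (card_touch (path (x0 (SP := SP) (Function.update ω b (z, (a₀, κ)))) T)).trans
        ((path_length _ T).trans hT)
      exact_mod_cast this
    have hz : ∀ z, ∑ p : A × (KP → Bool), w p.1 p.2 * J (Function.update ω b (z, p)) ≤
        r + Fintype.card A / 100 := by
      intro z
      rw [Fintype.sum_prod_type]
      calc ∑ a, ∑ κ, w a κ * J (Function.update ω b (z, (a, κ)))
          ≤ ∑ a, ∑ κ, w a κ * (trunc b a (y z) t false T).ind κ :=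
            Finset.sum_le_sum fun a _ => Finset.sum_le_sum fun κ _ =>
              mul_le_mul_of_nonneg_left (hpt z a κ) (hw a κ)
        _ ≤ ∑ a, (∑ κ, w₀ κ * (trunc b a (y z) t false T).ind κ + 1 / 100) :=
            Finset.sum_le_sum fun a _ => hind a _ (trunc_depth b a (y z) T t false)
        _ = (∑ κ, w₀ κ * ∑ a, (trunc b a (y z) t false T).ind κ) + Fintype.card A / 100 := by
            rw [Finset.sum_add_distrib, Finset.sum_comm]
            simp only [Finset.mul_sum, Finset.sum_const, Finset.card_univ, nsmul_eq_mul]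
            ring
        _ ≤ (∑ κ, w₀ κ * (r : ℝ)) + Fintype.card A / 100 := by
            have := Finset.sum_le_sum (s := Finset.univ) fun κ (_ : κ ∈ Finset.univ) =>
              mul_le_mul_of_nonneg_left (hcount z κ) (hw₀ κ)
            linarith
        _ = r + Fintype.card A / 100 := by rw [← Finset.sum_mul, h1₀, one_mul]
    rw [Fintype.sum_prod_type]
    have e : ∀ z : X, ∑ p : A × (KP → Bool), nu w (z, p) * J (Function.update ω b (z, p)) =
        (∑ p : A × (KP → Bool), w p.1 p.2 * J (Function.update ω b (z, p))) /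
          ((Fintype.card X : ℝ) * Fintype.card A) := by
      intro z
      rw [Finset.sum_div]
      refine Finset.sum_congr rfl fun p _ => ?_
      unfold nu
      ring
    simp only [e]
    rw [← Finset.sum_div, div_le_iff₀ (by positivity)]
    calc ∑ z, ∑ p : A × (KP → Bool), w p.1 p.2 * J (Function.update ω b (z, p))
        ≤ ∑ _z : X, ((r : ℝ) + Fintype.card A / 100) := Finset.sum_le_sum fun z _ => hz z
      _ = _ := by
        rw [Finset.sum_const, Finset.card_univ, nsmul_eq_mul]
        field_simp
  have e3 : (1 / t : ℝ) * Ex (nu w) (fun ω : X → Smp X A KP =>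
      ((path (x0 (SP := SP) ω) T).countP (inBlk b) : ℝ)) =
      Ex (nu w) (fun ω : X → Smp X A KP =>
        ((path (x0 (SP := SP) ω) T).countP (inBlk b) : ℝ)) / t := by ring
  rw [e3] at s1
  linarith

theorem est3 {w : A → (KP → Bool) → ℝ} (hw : ∀ a κ, 0 ≤ w a κ) (h1 : ∀ a, ∑ κ, w a κ = 1)
    (Good : A → (KP → Bool) → Prop)
    (hg : ∀ a, ∑ κ, w a κ * I01 (¬ Good a κ) ≤ 1 / 100) (b : X) :
    Ex (nu w) (fun ω : X → Smp X A KP => I01 (¬ Good (ω b).2.1 (ω b).2.2)) ≤ 1 / 100 := by
  classical
  have hX : (0 : ℝ) < Fintype.card X := card_pos_X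
  have hAc : (0 : ℝ) < Fintype.card A := card_pos_X
  rw [Ex_resample (nu_sum h1) b]
  have hcst : Ex (nu w) (fun _ : X → Smp X A KP => (1 / 100 : ℝ)) = 1 / 100 :=
    Ex_const (nu_sum h1) _
  rw [← hcst]
  refine Ex_mono (nu_nonneg hw) fun ω => ?_
  simp only [Function.update_self]
  rw [Fintype.sum_prod_type]
  have e : ∀ z : X, ∑ p : A × (KP → Bool), nu w (z, p) * I01 (¬ Good p.1 p.2) ≤
      1 / 100 / Fintype.card X := by
    intro z
    rw [Fintype.sum_prod_type]
    calc ∑ a, ∑ κ, nu w (z, (a, κ)) * I01 (¬ Good a κ)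
        = ∑ a, (∑ κ, w a κ * I01 (¬ Good a κ)) / ((Fintype.card X : ℝ) * Fintype.card A) := by
          refine Finset.sum_congr rfl fun a _ => ?_
          rw [Finset.sum_div]
          refine Finset.sum_congr rfl fun κ _ => ?_
          unfold nu
          ring
      _ ≤ ∑ _a : A, (1 / 100 : ℝ) / ((Fintype.card X : ℝ) * Fintype.card A) :=
          Finset.sum_le_sum fun a _ => div_le_div_of_nonneg_right (hg a) (by positivity)
      _ = _ := by
          rw [Finset.sum_const, Finset.card_univ, nsmul_eq_mul]
          field_simp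
  refine (Finset.sum_le_sum fun z _ => e z).trans ?_
  rw [Finset.sum_const, Finset.card_univ, nsmul_eq_mul]
  field_simp
  exact le_refl _

end Main

theorem main : Crest.Agent.QG.Spec.RandLB := by
  classical
  intro X A KP SP _ _ _ _ _ _ _ _ _ _ F Good w w₀ t r ht hF0 hF1 hw h1 hw₀ h1₀ hgood hind s p T
    hp hp1 hdep hcor
  have hX : (0 : ℝ) < Fintype.card X := card_pos_X
  have hAc : (0 : ℝ) < Fintype.card A := card_pos_X
  have htR : (0 : ℝ) < t := by exact_mod_cast ht
  have hrR : (0 : ℝ) ≤ r := Nat.cast_nonneg r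
  -- the yes input
  let sg : X → (X → Smp X A KP) → (SP → Bool) := fun b ω =>
    if h : Good (ω b).2.1 (ω b).2.2 then
      (hF1 b (ω b).2.1 (fun j => (ω j).1) (ω b).2.2 h).choose
    else fun _ => false
  let x1 : X → (X → Smp X A KP) → (Pos X A KP SP → Bool) := fun b ω i =>
    match i with
    | Sum.inl (ρ, j) => if j = b then true else decide (ρ ≠ (ω j).1)
    | Sum.inr (Sum.inl (j, k)) => (ω j).2.2 k
    | Sum.inr (Sum.inr (a, u)) => if a = (ω b).2.1 then sg b ω u else false
  have hx0 : ∀ ω : X → Smp X A KP, F (x0 ω) = false := by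
    intro ω
    refine hF0 _ fun j => ⟨(ω j).1, ?_⟩
    simp [x0]
  have hx1 : ∀ b ω, Good (ω b).2.1 (ω b).2.2 → F (x1 b ω) = true := by
    intro b ω h
    refine (hF1 b (ω b).2.1 (fun j => (ω j).1) (ω b).2.2 h).choose_spec (x1 b ω) ?_ ?_ ?_ ?_
    · intro ρ; simp [x1]
    · intro j hj; simp [x1, hj]
    · intro i; simp [x1]
    · intro u
      simp only [x1, if_true, sg, dif_pos h]
  -- pointwise inequality
  have hpt : ∀ (b : X) (ω : X → Smp X A KP) (j : Fin s),
      ((if (T j).eval (x0 ω) = F (x0 ω) then (1 : ℝ) else 0) +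
        (if (T j).eval (x1 b ω) = F (x1 b ω) then (1 : ℝ) else 0)) ≤
        1 + (I01 (E1 (T j) b ω) + I01 (E2 (T j) b ω)) + I01 (¬ Good (ω b).2.1 (ω b).2.2) := by
    intro b ω j
    have n1 := I01_nonneg (E1 (T j) b ω)
    have n2 := I01_nonneg (E2 (T j) b ω)
    have n3 := I01_nonneg (¬ Good (ω b).2.1 (ω b).2.2)
    by_cases h1 : E1 (T j) b ω
    · have : I01 (E1 (T j) b ω) = 1 := by unfold I01; rw [if_pos h1]
      rw [this]; split_ifs <;> linarith
    by_cases h2 : E2 (T j) b ω
    · have : I01 (E2 (T j) b ω) = 1 := by unfold I01; rw [if_pos h2]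
      rw [this]; split_ifs <;> linarith
    by_cases h3 : Good (ω b).2.1 (ω b).2.2
    swap
    · have : I01 (¬ Good (ω b).2.1 (ω b).2.2) = 1 := by unfold I01; rw [if_pos h3]
      rw [this]; split_ifs <;> linarith
    have heq : (T j).eval (x0 ω) = (T j).eval (x1 b ω) := by
      refine eval_congr _ _ _ fun i hi => ?_
      rcases i with ⟨ρ, c⟩ | ⟨c, k⟩ | ⟨a, u⟩
      · by_cases hc : c = b
        · subst hc
          have hρ : ρ ≠ (ω c).1 := by
            rintro rfl
            exact h1 hi
          simp [x0, x1, hρ]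
        · simp [x0, x1, hc]
      · simp [x0, x1]
      · have ha : a ≠ (ω b).2.1 := by
          rintro rfl
          exact h2 ⟨u, hi⟩
        simp [x0, x1, ha]
    rw [hx0, hx1 b ω h3, ← heq]
    cases (T j).eval (x0 ω) <;> simp <;> linarith
  have hpt2 : ∀ (b : X) (ω : X → Smp X A KP), (4 / 3 : ℝ) ≤
      1 + (∑ j, p j * (I01 (E1 (T j) b ω) + I01 (E2 (T j) b ω))) +
        I01 (¬ Good (ω b).2.1 (ω b).2.2) := by
    intro b ω
    have c0 := hcor (x0 ω)
    have c1 := hcor (x1 b ω)
    have e : (∑ j, if (T j).eval (x0 ω) = F (x0 ω) then p j else 0) +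
        (∑ j, if (T j).eval (x1 b ω) = F (x1 b ω) then p j else 0) =
        ∑ j, p j * ((if (T j).eval (x0 ω) = F (x0 ω) then (1 : ℝ) else 0) +
          (if (T j).eval (x1 b ω) = F (x1 b ω) then (1 : ℝ) else 0)) := by
      rw [← Finset.sum_add_distrib]
      refine Finset.sum_congr rfl fun j _ => ?_
      split_ifs <;> ring
    have e2 : ∑ j, p j * (1 + (I01 (E1 (T j) b ω) + I01 (E2 (T j) b ω)) +
        I01 (¬ Good (ω b).2.1 (ω b).2.2)) =
        1 + (∑ j, p j * (I01 (E1 (T j) b ω) + I01 (E2 (T j) b ω))) +
        I01 (¬ Good (ω b).2.1 (ω b).2.2) := by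
      simp only [mul_add, Finset.sum_add_distrib, ← Finset.sum_mul, hp1, mul_one, one_mul]
    rw [← e2]
    have := Finset.sum_le_sum (s := Finset.univ) fun j (_ : j ∈ Finset.univ) =>
      mul_le_mul_of_nonneg_left (hpt b ω j) (hp j)
    linarith
  -- take expectations
  have hE : ∀ b : X, (4 / 3 : ℝ) ≤ 1 + (∑ j, p j *
      (Ex (nu w) (fun ω : X → Smp X A KP => I01 (E1 (T j) b ω)) +
        Ex (nu w) (fun ω : X → Smp X A KP => I01 (E2 (T j) b ω)))) + 1 / 100 := by
    intro b
    have h := Ex_mono (nu_nonneg hw) (hpt2 b)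
    rw [Ex_const (nu_sum h1), Ex_add, Ex_add, Ex_const (nu_sum h1), Ex_sum] at h
    have h3 := est3 hw h1 Good (fun a => by
      refine le_trans (le_of_eq ?_) (hgood a)
      refine Finset.sum_congr rfl fun κ _ => ?_
      unfold I01
      by_cases hh : Good a κ <;> simp [hh]) b
    have e : ∀ j, Ex (nu w) (fun ω : X → Smp X A KP =>
        p j * (I01 (E1 (T j) b ω) + I01 (E2 (T j) b ω))) = p j *
      (Ex (nu w) (fun ω : X → Smp X A KP => I01 (E1 (T j) b ω)) +
        Ex (nu w) (fun ω : X → Smp X A KP => I01 (E2 (T j) b ω))) := by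
      intro j
      rw [Ex_mul, Ex_add]
    simp only [e] at h
    linarith
  -- counting reads
  have hcol : ∀ j, ∑ b : X, Ex (nu w) (fun ω : X → Smp X A KP =>
      ((path (x0 (SP := SP) ω) (T j)).countP (inCol b) : ℝ)) ≤ r := by
    intro j
    rw [← Ex_sum]
    have hc : Ex (nu w) (fun _ : X → Smp X A KP => (r : ℝ)) = r := Ex_const (nu_sum h1) _
    rw [← hc]
    refine Ex_mono (nu_nonneg hw) fun ω => ?_
    have := (sum_countP (fun b : X => (inCol b : Pos X A KP SP → Bool)) (by
      rintro (⟨ρ, c⟩ | i)
      · simp [inCol]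
      · simp [inCol]) (path (x0 (SP := SP) ω) (T j))).trans ((path_length _ _).trans (hdep j))
    exact_mod_cast this
  have hblk : ∀ j, ∑ b : X, Ex (nu w) (fun ω : X → Smp X A KP =>
      ((path (x0 (SP := SP) ω) (T j)).countP (inBlk b) : ℝ)) ≤ r := by
    intro j
    rw [← Ex_sum]
    have hc : Ex (nu w) (fun _ : X → Smp X A KP => (r : ℝ)) = r := Ex_const (nu_sum h1) _
    rw [← hc]
    refine Ex_mono (nu_nonneg hw) fun ω => ?_
    have := (sum_countP (fun b : X => (inBlk b : Pos X A KP SP → Bool)) (by
      rintro (c | ⟨c, i⟩ | i)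
      · simp [inBlk]
      · simp [inBlk]
      · simp [inBlk]) (path (x0 (SP := SP) ω) (T j))).trans ((path_length _ _).trans (hdep j))
    exact_mod_cast this
  have hj : ∀ j, ∑ b : X, (Ex (nu w) (fun ω : X → Smp X A KP => I01 (E1 (T j) b ω)) +
        Ex (nu w) (fun ω : X → Smp X A KP => I01 (E2 (T j) b ω))) ≤
      2 * r / ((Fintype.card X : ℝ) + 1) + (r / t + Fintype.card X *
        (r / (Fintype.card A : ℝ) + 1 / 100)) := by
    intro j
    rw [Finset.sum_add_distrib]
    refine add_le_add ?_ ?_
    · rw [le_div_iff₀ (by positivity), Finset.sum_mul]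
      refine (Finset.sum_le_sum fun b _ => est1 hw h1 (T j) b).trans ?_
      rw [← Finset.mul_sum]
      have := hcol j
      linarith
    · refine (Finset.sum_le_sum fun b _ => est2 hw h1 hw₀ h1₀ ht hind (T j) (hdep j) b).trans ?_
      rw [Finset.sum_add_distrib, Finset.sum_const, Finset.card_univ, nsmul_eq_mul,
        ← Finset.sum_div]
      have := div_le_div_of_nonneg_right (hblk j) htR.le
      linarith
  have hsum := Finset.sum_le_sum (s := Finset.univ) fun b (_ : b ∈ Finset.univ) => hE b
  rw [Finset.sum_const, Finset.card_univ, nsmul_eq_mul, Finset.sum_add_distrib,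
    Finset.sum_add_distrib, Finset.sum_const, Finset.sum_const, Finset.card_univ, nsmul_eq_mul,
    nsmul_eq_mul, Finset.sum_comm] at hsum
  have hfin : ∑ j, ∑ b : X, p j * (Ex (nu w) (fun ω : X → Smp X A KP => I01 (E1 (T j) b ω)) +
        Ex (nu w) (fun ω : X → Smp X A KP => I01 (E2 (T j) b ω))) ≤
      2 * r / ((Fintype.card X : ℝ) + 1) + (r / t + Fintype.card X *
        (r / (Fintype.card A : ℝ) + 1 / 100)) := by
    calc ∑ j, ∑ b : X, p j * (Ex (nu w) (fun ω : X → Smp X A KP => I01 (E1 (T j) b ω)) +
        Ex (nu w) (fun ω : X → Smp X A KP => I01 (E2 (T j) b ω)))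
        ≤ ∑ j, p j * (2 * r / ((Fintype.card X : ℝ) + 1) + (r / t + Fintype.card X *
            (r / (Fintype.card A : ℝ) + 1 / 100))) := by
          refine Finset.sum_le_sum fun j _ => ?_
          rw [← Finset.mul_sum]
          exact mul_le_mul_of_nonneg_left (hj j) (hp j)
      _ = _ := by rw [← Finset.sum_mul, hp1, one_mul]
  have hkey : (Fintype.card X : ℝ) * (1 / 3 - 2 / 100) ≤
      2 * r / ((Fintype.card X : ℝ) + 1) + r / t + Fintype.card X * (r / (Fintype.card A : ℝ)) := by
    linarith
  have hdiv : (1 / 3 - 2 / 100 : ℝ) ≤ (2 * r / ((Fintype.card X : ℝ) + 1) + r / t +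
      Fintype.card X * (r / (Fintype.card A : ℝ))) / Fintype.card X := by
    rw [le_div_iff₀ hX]; linarith
  have e : (2 * r / ((Fintype.card X : ℝ) + 1) + r / t +
      Fintype.card X * (r / (Fintype.card A : ℝ))) / Fintype.card X =
      2 * r / ((Fintype.card X : ℝ) * (Fintype.card X + 1)) +
        r / ((Fintype.card X : ℝ) * t) + r / (Fintype.card A : ℝ) := by
    field_simp
  rw [e] at hdiv
  linarith

end Crest.Agent.H17QRandLB
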