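import Crest.Agent.LPCore2

/-! rid 254 (S0392): RFIN, main case of the extension step. -/
set_option autoImplicit false
set_option linter.unusedSectionVars false
open Set Filter Topology

namespace Crest.LP

section
variable {G : Type*} [NormedAddCommGroup G] [InnerProductSpace ℝ G]
variable {F : Type*} [NormedAddCommGroup F] [InnerProductSpace ℝ F]

/-- realization up to `th` of the configuration `s` -/
def RealS (D : ℝ) (A : Set (PT G) → (PT G → F) → Prop) (th : ℝ) (k : ℕ)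
    (s : Fin k → G × F) : Prop :=
  ∃ (τ η : ℝ) (N t : ℕ) (M : Set (PT G)) (a b : PT G) (lam : ℝ) (U : PT G ≃ₗᵢ[ℝ] PT G)
    (Ed : Edges G) (φ : PT G → F),
    Laid D A τ N M a b lam U Ed φ η ∧ τ ≤ th ∧ η ≤ th ∧ 1 / th ≤ cc * τ * N ∧ N < 3 * t ∧
    3 * (t : ℝ) + 3 / th ≤ 2 * N ∧
    (∀ j z w, (j, z, w) ∈ Ed → t ≤ j → z = 0 ∧ w = 0) ∧
    (∀ i, ∃ γ : ℕ → G, IsPath Ed t γ ∧ γ t = (s i).1 ∧ KE γ 0 t ≤ th) ∧
    ∃ w : F, ∀ i, ‖(1 / lam) • φ (a + lam • U (pt (t : ℝ) (s i).1)) - w - (s i).2‖ ≤ th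

theorem RealS.mono {D : ℝ} {A : Set (PT G) → (PT G → F) → Prop} {th th' : ℝ} {k : ℕ}
    {s : Fin k → G × F} (hth : 0 < th) (hle : th ≤ th') (h : RealS D A th k s) :
    RealS D A th' k s := by
  obtain ⟨τ, η, N, t, M, a, b, lam, U, Ed, φ, hL, h1, h2, h3, h4, h5, h6, h7, w, h8⟩ := h
  have h9 : 1 / th' ≤ 1 / th := one_div_le_one_div_of_le hth hle
  have h10 : 3 / th' ≤ 3 / th := div_le_div_of_nonneg_left (by norm_num) hth hle
  refine ⟨τ, η, N, t, M, a, b, lam, U, Ed, φ, hL, h1.trans hle, h2.trans hle, h9.trans h3, h4,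
    by linarith, h6, ?_, w, fun i => (h8 i).trans hle⟩
  intro i
  obtain ⟨γ, hγ, hγt, hk⟩ := h7 i
  exact ⟨γ, hγ, hγt, hk.trans hle⟩

theorem rf_pk_insert {X : Type*} [PseudoMetricSpace X] {ρ : ℝ} {K : ℕ} {T : Set X}
    (h : Pk ρ K T) (x : X) : Pk ρ (K + 1) (insert x T) := by
  classical
  intro A r hA hr h1 h2
  have h3 := h (A.erase x) r ?_ hr ?_ ?_
  · have := Finset.pred_card_le_card_erase (s := A) (a := x)
    omega
  · intro y hy
    rw [Finset.coe_erase] at hy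
    rcases hA hy.1 with h | h
    · exact absurd h hy.2
    · exact h
  · intro y hy z hz hyz
    exact h1 y (Finset.mem_of_mem_erase hy) z (Finset.mem_of_mem_erase hz) hyz
  · intro y hy z hz
    exact h2 y (Finset.mem_of_mem_erase hy) z (Finset.mem_of_mem_erase hz)

theorem rf_pk_mono {X : Type*} [PseudoMetricSpace X] {ρ : ℝ} {K : ℕ} {S T : Set X}
    (h : Pk ρ K T) (hST : S ⊆ T) : Pk ρ K S :=
  fun A r hA hr h1 h2 => h A r (hA.trans hST) hr h1 h2

theorem rf_sep {X : Type*} [MetricSpace X] {T : Set X} (hT : T.Finite) :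
    ∃ δ : ℝ, 0 < δ ∧ ∀ y ∈ T, ∀ z ∈ T, y ≠ z → δ ≤ dist y z := by
  classical
  by_cases hne : hT.toFinset.offDiag.Nonempty
  · obtain ⟨p, hp, hmin⟩ := Finset.exists_min_image hT.toFinset.offDiag
      (fun p => dist p.1 p.2) hne
    rw [Finset.mem_offDiag] at hp
    refine ⟨dist p.1 p.2, dist_pos.2 hp.2.2, ?_⟩
    intro y hy z hz hyz
    exact hmin (y, z) (by
      rw [Finset.mem_offDiag]
      exact ⟨hT.mem_toFinset.2 hy, hT.mem_toFinset.2 hz, hyz⟩)
  · refine ⟨1, one_pos, ?_⟩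
    intro y hy z hz hyz
    exact absurd ⟨(y, z), by
      rw [Finset.mem_offDiag]
      exact ⟨hT.mem_toFinset.2 hy, hT.mem_toFinset.2 hz, hyz⟩⟩ hne

theorem rf_dev_nonneg (f : PT G → F) (V : F) (γ : ℕ → G) (p q : ℕ) : 0 ≤ dev f V γ p q :=
  Finset.sum_nonneg fun _ _ => by positivity

theorem rf_dev_split (f : PT G → F) (V : F) (γ : ℕ → G) (t m : ℕ) :
    dev f V γ 0 (t + m) = dev f V γ 0 t + dev f V γ t (t + m) := by
  unfold dev
  rw [Finset.sum_Ico_consecutive _ (Nat.zero_le t) (Nat.le_add_right t m)]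

theorem rf_KE_split (γ : ℕ → G) (t m : ℕ) :
    KE γ 0 (t + m) = KE γ 0 t + KE γ t (t + m) := by
  unfold KE
  rw [Finset.sum_Ico_consecutive _ (Nat.zero_le t) (Nat.le_add_right t m)]

/-- drift along an arbitrary path -/
theorem rf_drift (f : PT G → F) (V : F) (γ : ℕ → G) (t m : ℕ) :
    ‖f (pt ((t + m : ℕ) : ℝ) (γ (t + m))) - f (pt (t : ℝ) (γ t)) - (m : ℝ) • V‖ ^ 2 ≤
      m * dev f V γ t (t + m) := by
  have h1 : f (pt ((t + m : ℕ) : ℝ) (γ (t + m))) - f (pt (t : ℝ) (γ t)) - (m : ℝ) • V =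
      ∑ j ∈ Finset.Ico t (t + m),
        (f (pt ((j : ℝ) + 1) (γ (j + 1))) - f (pt (j : ℝ) (γ j)) - V) := by
    induction m with
    | zero => simp
    | succ m ih =>
      rw [← add_assoc, Finset.sum_Ico_succ_top (Nat.le_add_right t m), ← ih]
      push_cast
      rw [add_smul, one_smul]
      abel
  rw [h1]
  unfold dev
  have h2 : ‖∑ j ∈ Finset.Ico t (t + m),
        (f (pt ((j : ℝ) + 1) (γ (j + 1))) - f (pt (j : ℝ) (γ j)) - V)‖ ≤
      ∑ j ∈ Finset.Ico t (t + m),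
        ‖f (pt ((j : ℝ) + 1) (γ (j + 1))) - f (pt (j : ℝ) (γ j)) - V‖ := norm_sum_le _ _
  have h3 := sq_sum_le_card_mul_sum_sq (s := Finset.Ico t (t + m))
    (f := fun j => ‖f (pt ((j : ℝ) + 1) (γ (j + 1))) - f (pt (j : ℝ) (γ j)) - V‖)
  have h4 : (Finset.Ico t (t + m)).card = m := by
    rw [Nat.card_Ico]; omega
  rw [h4] at h3
  refine le_trans ?_ h3
  exact pow_le_pow_left₀ (norm_nonneg _) h2 2

end

/-! ### the main case -/
section
variable {G : Type} [NormedAddCommGroup G] [InnerProductSpace ℝ G]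
variable {F : Type} [NormedAddCommGroup F] [InnerProductSpace ℝ F]

theorem rf_norm_seg {a b : G} {R s : ℝ} (ha : ‖a‖ ≤ R) (hb : ‖b‖ ≤ R) (h0 : 0 ≤ s) (h1 : s ≤ 1) :
    ‖a + s • (b - a)‖ ≤ R := by
  have h2 : a + s • (b - a) = (1 - s) • a + s • b := by
    rw [smul_sub, sub_smul, one_smul]; abel
  rw [h2]
  calc ‖(1 - s) • a + s • b‖ ≤ ‖(1 - s) • a‖ + ‖s • b‖ := norm_add_le _ _
    _ = (1 - s) * ‖a‖ + s * ‖b‖ := by
        rw [norm_smul, norm_smul, Real.norm_eq_abs, Real.norm_eq_abs, abs_of_nonneg h0,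
          abs_of_nonneg (by linarith)]
    _ ≤ (1 - s) * R + s * R := by
        have := mul_le_mul_of_nonneg_left ha (by linarith : (0:ℝ) ≤ 1 - s)
        have := mul_le_mul_of_nonneg_left hb h0
        linarith
    _ = R := by ring

/-- the script with the birth block: all properties needed -/
theorem rf_script (hAPP : APPEND) (hBL : BLOCKS) {τ : ℝ} {N t m : ℕ} {Ed : Edges G}
    (hH : Honest 5 τ N Ed) (hq : ∀ j z w, (j, z, w) ∈ Ed → t ≤ j → z = 0 ∧ w = 0)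
    {T : Set G} (hTf : T.Finite) (hT0 : (0 : G) ∈ T) (hTp : Pk 10 4 T) {x x₀ : G}
    (hx : x ∉ T) (hx₀ : x₀ ∈ T) (hnear : ∀ y ∈ T, dist x x₀ ≤ dist x y)
    (hsep : ∀ y ∈ T, ∀ z ∈ T, y ≠ z → τ ≤ dist y z) (hm : 1 ≤ m)
    (hm1 : dist x x₀ ≤ (m : ℝ) / 100) (hm2 : τ ≤ dist x x₀ / m)
    (hTv : ∀ y ∈ T, (t, y) ∈ Verts Ed) (hNt : N < 3 * t) (htm : 3 * (t + m) < 2 * N)
    (hTs : ∀ y ∈ T, ‖y‖ ≤ cc * τ * N) (hxs : ‖x‖ ≤ cc * τ * N) :
    Honest 5 τ N (Ed ∪ shiftE t (birthE T x₀ x m)) ∧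
    (∀ j z w, (j, z, w) ∈ Ed ∪ shiftE t (birthE T x₀ x m) → t + m ≤ j → z = 0 ∧ w = 0) := by
  have hB : Block 5 τ m (birthE T x₀ x m) :=
    (hBL G τ m hH.τpos hm).1 T x₀ x hTf hT0 hTp hx hx₀ hnear hsep hm1 hm2
  have hm0 : (0 : ℝ) < m := by exact_mod_cast hm
  refine ⟨hAPP G 5 τ N m t Ed _ hH hB hq ?_ hNt htm ?_, ?_⟩
  · intro z w h
    apply hTv
    rcases h with ⟨j, y, hj, hy, he⟩ | ⟨j, hj, he⟩
    · simp only [Prod.mk.injEq] at he
      rw [he.2.1]; exact hy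
    · simp only [Prod.mk.injEq] at he
      obtain ⟨rfl, rfl, rfl⟩ := he
      simpa using hx₀
  · intro j z w h
    rcases h with ⟨j, y, hj, hy, he⟩ | ⟨j, hj, he⟩
    · simp only [Prod.mk.injEq] at he
      obtain ⟨rfl, rfl, rfl⟩ := he
      exact ⟨hTs _ hy, hTs _ hy⟩
    · simp only [Prod.mk.injEq] at he
      obtain ⟨rfl, rfl, rfl⟩ := he
      have hj' : (j : ℝ) + 1 ≤ m := by exact_mod_cast hj
      constructor
      · refine rf_norm_seg (hTs _ hx₀) hxs (by positivity) ?_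
        rw [div_le_one hm0]; linarith
      · refine rf_norm_seg (hTs _ hx₀) hxs (by positivity) ?_
        rw [div_le_one hm0]; exact hj'
  · intro j z w h hj
    rcases h with h | ⟨i, z', w', h, he⟩
    · exact hq _ _ _ h (by omega)
    · simp only [Prod.mk.injEq] at he
      have := hB.lt _ _ _ h
      omega

/-- path extension by rest -/
theorem rf_path_rest {t m : ℕ} {Ed : Edges G} {T : Set G} {x x₀ y : G} {γ : ℕ → G} (hy : y ∈ T)
    (hγ : IsPath Ed t γ) (hγt : γ t = y) :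
    let γ' : ℕ → G := fun j => if j ≤ t then γ j else y
    IsPath (Ed ∪ shiftE t (birthE T x₀ x m)) (t + m) γ' ∧ γ' (t + m) = y ∧ γ' t = y ∧
      KE γ' 0 (t + m) = KE γ 0 t := by
  intro γ'
  have h0 : ∀ j, j ≤ t → γ' j = γ j := fun j hj => if_pos hj
  have h1 : ∀ j, t ≤ j → γ' j = y := by
    intro j hj
    rcases hj.eq_or_lt with rfl | h
    · rw [h0 _ le_rfl, hγt]
    · exact if_neg (by omega)
  refine ⟨?_, h1 _ (Nat.le_add_right _ _), h1 _ le_rfl, ?_⟩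
  · intro j hj
    rcases Nat.lt_or_ge j t with h | h
    · rw [h0 j h.le, h0 (j + 1) h]
      exact Or.inl (hγ j h)
    · rw [h1 j h, h1 (j + 1) (by omega)]
      refine Or.inr ⟨j - t, y, y, Or.inl ⟨j - t, y, by omega, hy, rfl⟩, ?_⟩
      rw [Nat.sub_add_cancel h]
  · rw [rf_KE_split]
    have h2 : KE γ' t (t + m) = 0 := by
      unfold KE
      refine Finset.sum_eq_zero ?_
      intro j hj
      rw [Finset.mem_Ico] at hj
      rw [h1 j hj.1, h1 (j + 1) (by omega), sub_self, norm_zero]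
      norm_num
    have h3 : KE γ' 0 t = KE γ 0 t := by
      unfold KE
      refine Finset.sum_congr rfl ?_
      intro j hj
      rw [Finset.mem_Ico] at hj
      rw [h0 j hj.2.le, h0 (j + 1) hj.2]
    rw [h2, h3, add_zero]

/-- path extension by birth -/
theorem rf_path_birth {t m : ℕ} {Ed : Edges G} {T : Set G} {x x₀ : G} {γ : ℕ → G} (hm : 1 ≤ m)
    (hγ : IsPath Ed t γ) (hγt : γ t = x₀) :
    ∃ γ' : ℕ → G,
    IsPath (Ed ∪ shiftE t (birthE T x₀ x m)) (t + m) γ' ∧ γ' (t + m) = x ∧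
      KE γ' 0 (t + m) = KE γ 0 t + dist x x₀ ^ 2 / m := by
  have hm0 : (0 : ℝ) < m := by exact_mod_cast hm
  let γ' : ℕ → G := fun j => if j ≤ t then γ j else x₀ + (((j - t : ℕ) : ℝ) / m) • (x - x₀)
  have h0 : ∀ j, j ≤ t → γ' j = γ j := fun j hj => if_pos hj
  have h1 : ∀ j, t ≤ j → γ' j = x₀ + (((j - t : ℕ) : ℝ) / m) • (x - x₀) := by
    intro j hj
    rcases hj.eq_or_lt with rfl | h
    · rw [h0 _ le_rfl, hγt]; simp
    · exact if_neg (by omega)
  refine ⟨γ', ?_, ?_, ?_⟩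
  · intro j hj
    rcases Nat.lt_or_ge j t with h | h
    · rw [h0 j h.le, h0 (j + 1) h]
      exact Or.inl (hγ j h)
    · rw [h1 j h, h1 (j + 1) (by omega)]
      refine Or.inr ⟨j - t, x₀ + (((j - t : ℕ) : ℝ) / m) • (x - x₀),
        x₀ + ((((j - t : ℕ) : ℝ) + 1) / m) • (x - x₀), Or.inr ⟨j - t, by omega, rfl⟩, ?_⟩
      have h2 : j + 1 - t = j - t + 1 := by omega
      rw [h2, Nat.sub_add_cancel h]
      push_cast
      rfl
  · rw [h1 _ (Nat.le_add_right _ _), Nat.add_sub_cancel_left, div_self hm0.ne', one_smul]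
    abel
  · rw [rf_KE_split]
    have h3 : KE γ' 0 t = KE γ 0 t := by
      unfold KE
      refine Finset.sum_congr rfl ?_
      intro j hj
      rw [Finset.mem_Ico] at hj
      rw [h0 j hj.2.le, h0 (j + 1) hj.2]
    have h2 : KE γ' t (t + m) = dist x x₀ ^ 2 / m := by
      unfold KE
      have h4 : ∀ j ∈ Finset.Ico t (t + m), ‖γ' (j + 1) - γ' j‖ ^ 2 = (dist x x₀ / m) ^ 2 := by
        intro j hj
        rw [Finset.mem_Ico] at hj
        rw [h1 j hj.1, h1 (j + 1) (by omega)]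
        have h5 : j + 1 - t = j - t + 1 := by omega
        rw [h5]
        push_cast
        have h6 : x₀ + ((((j - t : ℕ) : ℝ) + 1) / m) • (x - x₀) -
            (x₀ + (((j - t : ℕ) : ℝ) / m) • (x - x₀)) = (1 / (m : ℝ)) • (x - x₀) := by
          rw [add_sub_add_left_eq_sub, ← sub_smul]
          congr 1
          ring
        rw [h6, norm_smul, dist_eq_norm, Real.norm_eq_abs, abs_of_pos (by positivity)]
        congr 1
        ring
      rw [Finset.sum_congr rfl h4, Finset.sum_const, Nat.card_Ico, Nat.add_sub_cancel_left,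
        nsmul_eq_mul]
      field_simp
    rw [h2, h3]

end

end Crest.LP
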