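import Crest.Agent.H3RyDefs

/-!
# Module P of the Ryser project (S0045, S0046): product probability by finite sums, McDiarmid
-/

set_option autoImplicit false
set_option linter.unusedSectionVars false
set_option linter.unusedVariables false

namespace Crest.Agent.H23RyProb
open Finset Crest.Agent.H3Ry

variable {ι α : Type*} [Fintype ι] [DecidableEq ι] [Fintype α] [Nonempty α]

omit [DecidableEq ι] in
theorem card_pos' [DecidableEq ι] : (0 : ℝ) < (Fintype.card (ι → α) : ℝ) := by
  have : 0 < Fintype.card (ι → α) := Fintype.card_pos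
  exact_mod_cast this

theorem EE_const (c : ℝ) : EE (fun _ : ι → α => c) = c := by
  unfold EE
  rw [Finset.sum_const, Finset.card_univ, nsmul_eq_mul]
  have h := card_pos' (ι := ι) (α := α)
  field_simp

omit [Nonempty α] in
theorem EE_add (f g : (ι → α) → ℝ) : EE (fun ω => f ω + g ω) = EE f + EE g := by
  unfold EE
  rw [Finset.sum_add_distrib, add_div]

omit [Nonempty α] in
theorem EE_const_mul (c : ℝ) (f : (ι → α) → ℝ) : EE (fun ω => c * f ω) = c * EE f := by
  unfold EE
  rw [← Finset.mul_sum, mul_div_assoc]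

omit [Nonempty α] in
theorem EE_sum {κ : Type*} (K : Finset κ) (f : κ → (ι → α) → ℝ) :
    EE (fun ω => ∑ k ∈ K, f k ω) = ∑ k ∈ K, EE (f k) := by
  unfold EE
  rw [Finset.sum_comm, Finset.sum_div]

omit [Nonempty α] in
theorem EE_mono {f g : (ι → α) → ℝ} (h : ∀ ω, f ω ≤ g ω) : EE f ≤ EE g := by
  unfold EE
  apply div_le_div_of_nonneg_right (Finset.sum_le_sum fun ω _ => h ω) (Nat.cast_nonneg _)

omit [Nonempty α] in
theorem EE_nonneg {f : (ι → α) → ℝ} (h : ∀ ω, 0 ≤ f ω) : 0 ≤ EE f := by
  unfold EE
  exact div_nonneg (Finset.sum_nonneg fun ω _ => h ω) (Nat.cast_nonneg _)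

theorem EE_sub (f g : (ι → α) → ℝ) : EE (fun ω => f ω - g ω) = EE f - EE g := by
  unfold EE
  rw [Finset.sum_sub_distrib, sub_div]

theorem EE_neg (f : (ι → α) → ℝ) : EE (fun ω => - f ω) = - EE f := by
  unfold EE
  rw [Finset.sum_neg_distrib, neg_div]

/-- the involution of pairs -/
def mergeEquiv (s : Finset ι) : ((ι → α) × (ι → α)) ≃ ((ι → α) × (ι → α)) where
  toFun p := (merge s p.1 p.2, merge s p.2 p.1)
  invFun p := (merge s p.1 p.2, merge s p.2 p.1)
  left_inv p := by
    ext i <;> simp only [merge] <;> split_ifs <;> rfl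
  right_inv p := by
    ext i <;> simp only [merge] <;> split_ifs <;> rfl

theorem EE_merge (s : Finset ι) (f : (ι → α) → ℝ) :
    EE (fun a => EE (fun b => f (merge s a b))) = EE f := by
  unfold EE
  have h := card_pos' (ι := ι) (α := α)
  rw [← Finset.sum_div, div_div]
  have h1 : ∑ a : ι → α, ∑ b : ι → α, f (merge s a b)
      = (Fintype.card (ι → α) : ℝ) * ∑ a : ι → α, f a := by
    rw [← Fintype.sum_prod_type']
    have h2 : ∑ p : (ι → α) × (ι → α), f (merge s p.1 p.2)
        = ∑ p : (ι → α) × (ι → α), f p.1 :=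
      Equiv.sum_comp (mergeEquiv (α := α) s) (fun p => f p.1)
    rw [h2, Fintype.sum_prod_type]
    simp only [Finset.sum_const, Finset.card_univ, nsmul_eq_mul]
    rw [← Finset.mul_sum]
  rw [h1]
  field_simp

theorem EE_le_of_merge (s : Finset ι) (f : (ι → α) → ℝ) (B : ℝ)
    (h : ∀ a, EE (fun b => f (merge s a b)) ≤ B) : EE f ≤ B := by
  rw [← EE_merge s f]
  calc EE (fun a => EE (fun b => f (merge s a b))) ≤ EE (fun _ : ι → α => B) := EE_mono h
    _ = B := EE_const B

theorem le_EE_of_merge (s : Finset ι) (f : (ι → α) → ℝ) (B : ℝ)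
    (h : ∀ a, B ≤ EE (fun b => f (merge s a b))) : B ≤ EE f := by
  rw [← EE_merge s f]
  calc B = EE (fun _ : ι → α => B) := (EE_const B).symm
    _ ≤ EE (fun a => EE (fun b => f (merge s a b))) := EE_mono h

theorem EE_mul_of_dep {f g : (ι → α) → ℝ} {s t : Finset ι} (hf : DepOn f s) (hg : DepOn g t)
    (h : Disjoint s t) : EE (fun ω => f ω * g ω) = EE f * EE g := by
  rw [← EE_merge s]
  have h1 : ∀ a b : ι → α, f (merge s a b) * g (merge s a b) = f a * g b := by
    intro a b
    have e1 : f (merge s a b) = f a := hf _ _ (fun i hi => by simp [merge, hi])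
    have e2 : g (merge s a b) = g b := hg _ _ (fun i hi => by
      have : i ∉ s := fun hs => (Finset.disjoint_left.mp h) hs hi
      simp [merge, this])
    rw [e1, e2]
  simp only [h1]
  have h2 : ∀ a : ι → α, EE (fun b => f a * g b) = EE g * f a := by
    intro a
    rw [EE_const_mul, mul_comm]
  simp only [h2]
  rw [EE_const_mul, mul_comm]

omit [Fintype ι] [Fintype α] [Nonempty α] in
theorem DepOn.mono {β : Type*} {f : (ι → α) → β} {s t : Finset ι} (hf : DepOn f s)
    (h : s ⊆ t) : DepOn f t :=
  fun ω ω' hω => hf ω ω' (fun i hi => hω i (h hi))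

omit [Fintype ι] [Fintype α] [Nonempty α] in
theorem DepOn.comp {β γ : Type*} {f : (ι → α) → β} {s : Finset ι} (hf : DepOn f s)
    (g : β → γ) : DepOn (fun ω => g (f ω)) s :=
  fun ω ω' hω => congrArg g (hf ω ω' hω)

theorem depOn_univ {β : Type*} (f : (ι → α) → β) : DepOn f univ :=
  fun ω ω' hω => congrArg f (funext fun i => hω i (mem_univ i))

theorem EE_prod_of_dep {κ : Type*} (K : Finset κ) (f : κ → (ι → α) → ℝ) (s : κ → Finset ι)
    (hf : ∀ k ∈ K, DepOn (f k) (s k)) (hs : (K : Set κ).PairwiseDisjoint s) :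
    EE (fun ω => ∏ k ∈ K, f k ω) = ∏ k ∈ K, EE (f k) := by
  classical
  induction K using Finset.induction_on with
  | empty => simpa using EE_const (ι := ι) (α := α) 1
  | insert k K hk ih =>
    have hf' : ∀ k ∈ K, DepOn (f k) (s k) := fun k' hk' => hf k' (mem_insert_of_mem hk')
    have hs' : (K : Set κ).PairwiseDisjoint s := hs.subset (by simp)
    have ih' := ih hf' hs'
    simp only [Finset.prod_insert hk]
    rw [← ih']
    have hdep : DepOn (fun ω => ∏ k ∈ K, f k ω) (K.biUnion s) := by
      intro ω ω' hω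
      refine Finset.prod_congr rfl fun k' hk' => hf' k' hk' ω ω' fun i hi => hω i ?_
      exact mem_biUnion.mpr ⟨k', hk', hi⟩
    have hdisj : Disjoint (s k) (K.biUnion s) := by
      rw [Finset.disjoint_biUnion_right]
      intro k' hk'
      exact hs (by simp) (by simp [hk']) (fun e => hk (e ▸ hk'))
    exact EE_mul_of_dep (hf k (mem_insert_self k K)) hdep hdisj

/-- invariance under translations (more generally bijections of the value set, one per coordinate) -/
theorem EE_equiv (e : ι → Equiv.Perm α) (f : (ι → α) → ℝ) :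
    EE (fun ω => f (fun i => e i (ω i))) = EE f := by
  unfold EE
  congr 1
  exact Equiv.sum_comp (Equiv.piCongrRight e) f

/-- the involution `(ω, x) ↦ (update ω i x, ω i)` -/
def updEquiv (i : ι) : ((ι → α) × α) ≃ ((ι → α) × α) where
  toFun p := (Function.update p.1 i p.2, p.1 i)
  invFun p := (Function.update p.1 i p.2, p.1 i)
  left_inv p := by simp
  right_inv p := by simp

theorem EE_update (i : ι) (f : (ι → α) → ℝ) :
    EE (fun ω => (∑ x : α, f (Function.update ω i x)) / (Fintype.card α : ℝ)) = EE f := by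
  unfold EE
  have h := card_pos' (ι := ι) (α := α)
  have hα : (0 : ℝ) < (Fintype.card α : ℝ) := by
    have : 0 < Fintype.card α := Fintype.card_pos
    exact_mod_cast this
  rw [← Finset.sum_div, div_div]
  have h1 : ∑ a : ι → α, ∑ x : α, f (Function.update a i x)
      = (Fintype.card α : ℝ) * ∑ a : ι → α, f a := by
    rw [← Fintype.sum_prod_type']
    have h2 : ∑ p : (ι → α) × α, f (Function.update p.1 i p.2)
        = ∑ p : (ι → α) × α, f p.1 :=
      Equiv.sum_comp (updEquiv (α := α) i) (fun p => f p.1)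
    rw [h2, Fintype.sum_prod_type]
    simp only [Finset.sum_const, Finset.card_univ, nsmul_eq_mul]
    rw [← Finset.mul_sum]
  rw [h1]
  field_simp

theorem EE_coord (i : ι) (g : α → ℝ) :
    EE (fun ω : ι → α => g (ω i)) = (∑ x, g x) / (Fintype.card α : ℝ) := by
  rw [← EE_update i]
  simp only [Function.update_self]
  exact EE_const _

theorem PP_coord [DecidableEq α] (i : ι) (A : Finset α) :
    PP (fun ω : ι → α => ω i ∈ A) = A.card / (Fintype.card α : ℝ) := by
  classical
  have h := EE_coord i (fun x => if x ∈ A then (1 : ℝ) else 0)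
  have e : PP (fun ω : ι → α => ω i ∈ A)
      = EE (fun ω : ι → α => if ω i ∈ A then (1 : ℝ) else 0) := by
    unfold PP
    congr 1
    funext ω
    by_cases hω : ω i ∈ A <;> simp [hω]
  rw [e, h]
  congr 1
  simp

omit [Nonempty α] in
theorem PP_nonneg (p : (ι → α) → Prop) : 0 ≤ PP p := by
  unfold PP
  exact EE_nonneg (fun ω => by split_ifs <;> norm_num)

theorem PP_le_one (p : (ι → α) → Prop) : PP p ≤ 1 := by
  have h := EE_const (ι := ι) (α := α) 1
  refine le_trans ?_ h.le
  unfold PP
  exact EE_mono (fun ω => by split_ifs <;> norm_num)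

omit [Nonempty α] in
theorem PP_mono {p r : (ι → α) → Prop} (h : ∀ ω, p ω → r ω) : PP p ≤ PP r := by
  unfold PP
  refine EE_mono (fun ω => ?_)
  by_cases hp : p ω
  · simp [hp, h ω hp]
  · simp only [hp, if_false]
    split_ifs <;> norm_num

omit [Nonempty α] in
theorem PP_congr {p r : (ι → α) → Prop} (h : ∀ ω, p ω ↔ r ω) : PP p = PP r :=
  le_antisymm (PP_mono fun ω => (h ω).1) (PP_mono fun ω => (h ω).2)

theorem PP_true : PP (fun _ : ι → α => True) = 1 := by
  unfold PP
  simpa using EE_const (ι := ι) (α := α) 1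

theorem PP_false : PP (fun _ : ι → α => False) = 0 := by
  unfold PP
  simpa using EE_const (ι := ι) (α := α) 0

omit [Nonempty α] in
theorem PP_or_le (p r : (ι → α) → Prop) : PP (fun ω => p ω ∨ r ω) ≤ PP p + PP r := by
  unfold PP
  rw [← EE_add]
  refine EE_mono (fun ω => ?_)
  by_cases hp : p ω <;> by_cases hr : r ω <;> simp [hp, hr]

omit [Nonempty α] in
theorem PP_exists_le {κ : Type*} (K : Finset κ) (p : κ → (ι → α) → Prop) :
    PP (fun ω => ∃ k ∈ K, p k ω) ≤ ∑ k ∈ K, PP (p k) := by
  classical
  unfold PP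
  rw [← EE_sum]
  refine EE_mono (fun ω => ?_)
  by_cases h : ∃ k ∈ K, p k ω
  · rw [if_pos h]
    obtain ⟨k, hk, hp⟩ := h
    calc (1 : ℝ) = if p k ω then 1 else 0 := by rw [if_pos hp]
      _ ≤ ∑ k ∈ K, if p k ω then (1 : ℝ) else 0 :=
        Finset.single_le_sum (f := fun k => if p k ω then (1 : ℝ) else 0)
          (fun k _ => by split_ifs <;> norm_num) hk
  · rw [if_neg h]
    exact Finset.sum_nonneg (fun k _ => by split_ifs <;> norm_num)

theorem PP_not (p : (ι → α) → Prop) : PP (fun ω => ¬ p ω) = 1 - PP p := by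
  have h := EE_const (ι := ι) (α := α) 1
  have h2 := EE_sub (fun _ : ι → α => (1 : ℝ)) (fun ω => by
    classical
    exact if p ω then (1 : ℝ) else 0)
  rw [h] at h2
  unfold PP
  refine Eq.trans ?_ h2
  congr 1
  funext ω
  by_cases h : p ω <;> simp [h]

open Classical in
theorem PP_eq (p : (ι → α) → Prop) : PP p = EE (fun ω => if p ω then (1 : ℝ) else 0) := by
  unfold PP
  congr 1

theorem PP_merge (s : Finset ι) (p : (ι → α) → Prop) :
    EE (fun a => PP (fun b => p (merge s a b))) = PP p := by
  classical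
  have h := EE_merge s (fun ω : ι → α => if p ω then (1 : ℝ) else 0)
  rw [PP_eq p, ← h]
  congr 1

theorem PP_le_of_merge (s : Finset ι) (p : (ι → α) → Prop) (B : ℝ)
    (h : ∀ a, PP (fun b => p (merge s a b)) ≤ B) : PP p ≤ B := by
  rw [← PP_merge s p]
  exact (EE_mono h).trans (EE_const B).le

/-- independence of events -/
theorem PP_forall_of_dep {κ : Type*} (K : Finset κ) (p : κ → (ι → α) → Prop) (s : κ → Finset ι)
    (hf : ∀ k ∈ K, DepOn (p k) (s k)) (hs : (K : Set κ).PairwiseDisjoint s) :
    PP (fun ω => ∀ k ∈ K, p k ω) = ∏ k ∈ K, PP (p k) := by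
  classical
  have h0 := EE_prod_of_dep K (fun k ω => if p k ω then (1 : ℝ) else 0) s
    (fun k hk ω ω' hω => by
      have := hf k hk ω ω' hω
      simp only [this]) hs
  have h2 : PP (fun ω => ∀ k ∈ K, p k ω)
      = EE (fun ω => ∏ k ∈ K, (if p k ω then (1 : ℝ) else 0)) := by
    rw [PP_eq]
    congr 1
    funext ω
    by_cases h : ∀ k ∈ K, p k ω
    · rw [if_pos h]
      refine (Finset.prod_eq_one (fun k hk => ?_)).symm
      rw [if_pos (h k hk)]
    · rw [if_neg h]
      push Not at h
      obtain ⟨k, hk, hp⟩ := h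
      refine (Finset.prod_eq_zero hk ?_).symm
      rw [if_neg hp]
  rw [h2, h0]
  exact Finset.prod_congr rfl (fun k _ => (PP_eq (p k)).symm)

theorem PP_and_of_dep {p r : (ι → α) → Prop} {s t : Finset ι} (hp : DepOn p s) (hr : DepOn r t)
    (h : Disjoint s t) : PP (fun ω => p ω ∧ r ω) = PP p * PP r := by
  classical
  have h0 := EE_mul_of_dep (f := fun ω => if p ω then (1 : ℝ) else 0)
    (g := fun ω => if r ω then (1 : ℝ) else 0) (s := s) (t := t)
    (fun ω ω' hω => by simp only [hp ω ω' hω]) (fun ω ω' hω => by simp only [hr ω ω' hω]) h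
  rw [PP_eq p, PP_eq r, ← h0, PP_eq]
  congr 1
  funext ω
  by_cases h1 : p ω <;> by_cases h2 : r ω <;> simp [h1, h2]

/-- Markov inequality -/
theorem PP_le_EE (p : (ι → α) → Prop) (f : (ι → α) → ℝ) (h0 : ∀ ω, 0 ≤ f ω)
    (h1 : ∀ ω, p ω → 1 ≤ f ω) : PP p ≤ EE f := by
  unfold PP
  refine EE_mono (fun ω => ?_)
  by_cases h : p ω
  · rw [if_pos h]; exact h1 ω h
  · rw [if_neg h]; exact h0 ω

/-- Hoeffding's lemma for a finite average -/
theorem avg_exp_le (g : α → ℝ) (c l : ℝ) (hc : 0 < c) (hl : 0 ≤ l) (hg : ∀ x, |g x| ≤ c)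
    (h0 : ∑ x, g x = 0) :
    (∑ x, Real.exp (l * g x)) / (Fintype.card α : ℝ) ≤ Real.exp (l ^ 2 * c ^ 2 / 2) := by
  have hα : (0 : ℝ) < (Fintype.card α : ℝ) := by
    have : 0 < Fintype.card α := Fintype.card_pos
    exact_mod_cast this
  have key : ∀ x, Real.exp (l * g x)
      ≤ Real.cosh (l * c) + (Real.sinh (l * c) / c) * g x := by
    intro x
    have hx := abs_le.mp (hg x)
    have ha : 0 ≤ (c + g x) / (2 * c) := div_nonneg (by linarith) (by linarith)
    have hb : 0 ≤ (c - g x) / (2 * c) := div_nonneg (by linarith) (by linarith)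
    have hab : (c + g x) / (2 * c) + (c - g x) / (2 * c) = 1 := by field_simp; ring
    have hconv := (convexOn_exp.2 (Set.mem_univ (l * c)) (Set.mem_univ (-(l * c)))) ha hb hab
    have e1 : ((c + g x) / (2 * c)) • (l * c) + ((c - g x) / (2 * c)) • (-(l * c)) = l * g x := by
      simp only [smul_eq_mul]
      field_simp
      ring
    rw [e1] at hconv
    refine hconv.trans (le_of_eq ?_)
    rw [Real.cosh_eq, Real.sinh_eq]
    simp only [smul_eq_mul]
    field_simp
    ring
  have h1 : (∑ x, Real.exp (l * g x)) / (Fintype.card α : ℝ) ≤ Real.cosh (l * c) := by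
    rw [div_le_iff₀ hα]
    calc ∑ x, Real.exp (l * g x)
        ≤ ∑ x, (Real.cosh (l * c) + (Real.sinh (l * c) / c) * g x) :=
          Finset.sum_le_sum fun x _ => key x
      _ = Real.cosh (l * c) * (Fintype.card α : ℝ) := by
          rw [Finset.sum_add_distrib, ← Finset.mul_sum, h0, Finset.sum_const, Finset.card_univ,
            nsmul_eq_mul]
          ring
  refine h1.trans ((Real.cosh_le_exp_half_sq _).trans (le_of_eq ?_))
  congr 1
  ring

theorem mgf_le (s : Finset ι) (c l : ℝ) (hc : 0 < c) (hl : 0 ≤ l) :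
    ∀ f : (ι → α) → ℝ, DepOn f s →
      (∀ ω i x, |f (Function.update ω i x) - f ω| ≤ c) →
      EE (fun ω => Real.exp (l * f ω)) ≤ Real.exp (l * EE f + s.card * (l ^ 2 * c ^ 2 / 2)) := by
  classical
  have hα : (0 : ℝ) < (Fintype.card α : ℝ) := by
    have : 0 < Fintype.card α := Fintype.card_pos
    exact_mod_cast this
  induction s using Finset.induction_on with
  | empty =>
    intro f hf _
    obtain ⟨ω₀⟩ : Nonempty (ι → α) := inferInstance
    have h1 : f = fun _ => f ω₀ := by
      funext ω
      exact hf ω ω₀ (fun i hi => absurd hi (Finset.notMem_empty i))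
    rw [h1, EE_const, EE_const]
    simp
  | insert i s hi ih =>
    intro f hf hb
    set f' : (ι → α) → ℝ := fun ω => (∑ x : α, f (Function.update ω i x)) / (Fintype.card α : ℝ)
      with hf'
    have hdep : DepOn f' s := by
      intro ω ω' hω
      simp only [hf']
      congr 1
      refine Finset.sum_congr rfl fun x _ => hf _ _ fun j hj => ?_
      by_cases hji : j = i
      · subst hji; simp
      · rw [Function.update_of_ne hji, Function.update_of_ne hji]
        exact hω j (Finset.mem_of_mem_insert_of_ne hj hji)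
    have hb' : ∀ ω j x, |f' (Function.update ω j x) - f' ω| ≤ c := by
      intro ω j x
      simp only [hf']
      rw [← sub_div, ← Finset.sum_sub_distrib, abs_div, abs_of_pos hα, div_le_iff₀ hα]
      refine (Finset.abs_sum_le_sum_abs _ _).trans ?_
      calc ∑ y : α, |f (Function.update (Function.update ω j x) i y) - f (Function.update ω i y)|
          ≤ ∑ _y : α, c := by
            refine Finset.sum_le_sum fun y _ => ?_
            by_cases hji : j = i
            · subst hji; simp [hc.le]
            · rw [Function.update_comm hji]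
              exact hb _ _ _
        _ = c * (Fintype.card α : ℝ) := by
            rw [Finset.sum_const, Finset.card_univ, nsmul_eq_mul, mul_comm]
    have ih' := ih f' hdep hb'
    have hE : EE f' = EE f := EE_update i f
    rw [hE] at ih'
    have step : EE (fun ω => Real.exp (l * f ω))
        ≤ Real.exp (l ^ 2 * c ^ 2 / 2) * EE (fun ω => Real.exp (l * f' ω)) := by
      rw [← EE_update i, ← EE_const_mul]
      refine EE_mono fun ω => ?_
      have h1 := avg_exp_le (fun x : α => f (Function.update ω i x) - f' ω) c l hc hl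
        (fun x => by
          simp only [hf']
          have e : f (Function.update ω i x) - (∑ y : α, f (Function.update ω i y)) / (Fintype.card α : ℝ)
              = (∑ y : α, (f (Function.update ω i x) - f (Function.update ω i y)))
                / (Fintype.card α : ℝ) := by
            rw [Finset.sum_sub_distrib, Finset.sum_const, Finset.card_univ, nsmul_eq_mul]
            field_simp
          rw [e, abs_div, abs_of_pos hα, div_le_iff₀ hα]
          refine (Finset.abs_sum_le_sum_abs _ _).trans ?_
          calc ∑ y : α, |f (Function.update ω i x) - f (Function.update ω i y)|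
              ≤ ∑ _y : α, c := by
                refine Finset.sum_le_sum fun y _ => ?_
                have := hb (Function.update ω i y) i x
                simpa using this
            _ = c * (Fintype.card α : ℝ) := by
                rw [Finset.sum_const, Finset.card_univ, nsmul_eq_mul, mul_comm])
        (by
          rw [Finset.sum_sub_distrib, Finset.sum_const, Finset.card_univ, nsmul_eq_mul]
          simp only [hf']
          field_simp
          ring)
      have h2 : ∀ x : α, Real.exp (l * f (Function.update ω i x))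
          = Real.exp (l * f' ω) * Real.exp (l * (f (Function.update ω i x) - f' ω)) := by
        intro x
        rw [← Real.exp_add]
        congr 1
        ring
      simp only [h2]
      rw [← Finset.mul_sum, mul_div_assoc, mul_comm]
      exact mul_le_mul_of_nonneg_right h1 (Real.exp_nonneg _)
    refine step.trans ?_
    calc Real.exp (l ^ 2 * c ^ 2 / 2) * EE (fun ω => Real.exp (l * f' ω))
        ≤ Real.exp (l ^ 2 * c ^ 2 / 2) * Real.exp (l * EE f + s.card * (l ^ 2 * c ^ 2 / 2)) :=
          mul_le_mul_of_nonneg_left ih' (Real.exp_nonneg _)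
      _ = Real.exp (l * EE f + (insert i s).card * (l ^ 2 * c ^ 2 / 2)) := by
          rw [← Real.exp_add, Finset.card_insert_of_notMem hi]
          congr 1
          push_cast
          ring

/-- McDiarmid (with a non optimal constant) -/
theorem mcdiarmid_upper (f : (ι → α) → ℝ) (c : ℝ) (hc : 0 < c)
    (hf : ∀ ω i x, |f (Function.update ω i x) - f ω| ≤ c) (t : ℝ) (ht : 0 ≤ t) (n : ℝ)
    (hn : (Fintype.card ι : ℝ) ≤ n) (hn0 : 0 < n) :
    PP (fun ω => EE f + t ≤ f ω) ≤ Real.exp (-(t ^ 2 / (2 * n * c ^ 2))) := by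
  set l : ℝ := t / (n * c ^ 2) with hl
  have hl0 : 0 ≤ l := by positivity
  have h1 : PP (fun ω => EE f + t ≤ f ω)
      ≤ EE (fun ω => Real.exp (-(l * (EE f + t))) * Real.exp (l * f ω)) := by
    refine PP_le_EE _ _ (fun ω => by positivity) (fun ω h => ?_)
    rw [← Real.exp_add]
    refine Real.one_le_exp ?_
    have := mul_le_mul_of_nonneg_left h hl0
    linarith
  have h2 := mgf_le univ c l hc hl0 f (depOn_univ f) hf
  rw [Finset.card_univ] at h2
  refine h1.trans ?_
  rw [EE_const_mul]
  calc Real.exp (-(l * (EE f + t))) * EE (fun ω => Real.exp (l * f ω))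
      ≤ Real.exp (-(l * (EE f + t)))
        * Real.exp (l * EE f + (Fintype.card ι : ℝ) * (l ^ 2 * c ^ 2 / 2)) :=
        mul_le_mul_of_nonneg_left h2 (Real.exp_nonneg _)
    _ = Real.exp (-(l * t) + (Fintype.card ι : ℝ) * (l ^ 2 * c ^ 2 / 2)) := by
        rw [← Real.exp_add]
        congr 1
        ring
    _ ≤ Real.exp (-(t ^ 2 / (2 * n * c ^ 2))) := by
        refine Real.exp_le_exp.mpr ?_
        have h3 : (Fintype.card ι : ℝ) * (l ^ 2 * c ^ 2 / 2) ≤ n * (l ^ 2 * c ^ 2 / 2) :=
          mul_le_mul_of_nonneg_right hn (by positivity)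
        have h4 : -(l * t) + n * (l ^ 2 * c ^ 2 / 2) = -(t ^ 2 / (2 * n * c ^ 2)) := by
          rw [hl]
          field_simp
          ring
        linarith

theorem mcdiarmid_lower (f : (ι → α) → ℝ) (c : ℝ) (hc : 0 < c)
    (hf : ∀ ω i x, |f (Function.update ω i x) - f ω| ≤ c) (t : ℝ) (ht : 0 ≤ t) (n : ℝ)
    (hn : (Fintype.card ι : ℝ) ≤ n) (hn0 : 0 < n) :
    PP (fun ω => f ω ≤ EE f - t) ≤ Real.exp (-(t ^ 2 / (2 * n * c ^ 2))) := by
  have h := mcdiarmid_upper (fun ω => - f ω) c hc (fun ω i x => by
    have := hf ω i x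
    rw [abs_sub_comm] at this
    calc |-f (Function.update ω i x) - -f ω| = |f ω - f (Function.update ω i x)| := by
          congr 1; ring
      _ ≤ c := this) t ht n hn hn0
  rw [EE_neg] at h
  refine (PP_mono fun ω hω => ?_).trans h
  linarith

theorem exists_of_PP_lt {p r : (ι → α) → Prop} (h : PP p < PP r) : ∃ ω, r ω ∧ ¬ p ω := by
  by_contra hne
  push Not at hne
  exact absurd (PP_mono hne) (not_le.mpr h)

end Crest.Agent.H23RyProb
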