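import Crest.Agent.H3RyDefs

/-! # Asymptotics of `NN q` -/

set_option autoImplicit false

namespace Crest.Agent.H3Ry
open Filter Asymptotics

theorem NN_le_log {q : ℕ} (hq : 3 ≤ q) : (NN q : ℝ) ≤ 26 * Real.log q := by
  have hq' : (3 : ℝ) ≤ q := by exact_mod_cast hq
  have h1 : (1 : ℝ) ≤ Real.log q := by
    rw [Real.le_log_iff_exp_le (by linarith)]
    have := Real.exp_one_lt_d9
    linarith
  have h2 : ((Nat.log 2 q : ℕ) : ℝ) ≤ Real.log q / Real.log 2 := by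
    have := Real.natLog_le_logb q 2
    simpa [Real.logb] using this
  have h3 : (0.6931471803 : ℝ) < Real.log 2 := Real.log_two_gt_d9
  have h4 : Real.log q / Real.log 2 ≤ Real.log q * 1.5 := by
    rw [div_le_iff₀ (by linarith)]
    nlinarith
  have h5 : (NN q : ℝ) = 4 * ((Nat.log 2 q : ℕ) : ℝ) + 20 := by
    simp [NN]
  rw [h5]
  linarith

theorem log_le_NN {q : ℕ} (hq : 1 ≤ q) : Real.log q ≤ (NN q : ℝ) := by
  have h5 : (NN q : ℝ) = 4 * ((Nat.log 2 q : ℕ) : ℝ) + 20 := by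
    simp [NN]
  have h1 : q < 2 ^ (Nat.log 2 q + 1) := Nat.lt_pow_succ_log_self (by norm_num) q
  have h2 : (q : ℝ) ≤ 2 ^ (Nat.log 2 q + 1) := by exact_mod_cast h1.le
  have h3 : Real.log q ≤ ((Nat.log 2 q + 1 : ℕ) : ℝ) * Real.log 2 := by
    rw [← Real.log_pow]
    exact Real.log_le_log (by exact_mod_cast hq) h2
  have h4 : Real.log 2 < 0.6931471808 := Real.log_two_lt_d9
  have h6 : (0 : ℝ) ≤ ((Nat.log 2 q + 1 : ℕ) : ℝ) := Nat.cast_nonneg _
  rw [h5]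
  push_cast at h3 h6 ⊢
  nlinarith

theorem NN_pos (q : ℕ) : 0 < NN q := by unfold NN; omega

theorem twenty_le_NN (q : ℕ) : 20 ≤ NN q := by unfold NN; omega

/-- `C N^k ≤ q^ε` for large `q` -/
theorem NN_pow_le (k : ℕ) (C ε : ℝ) (hε : 0 < ε) :
    ∃ q₀ : ℕ, ∀ q : ℕ, q₀ ≤ q → C * (NN q : ℝ) ^ k ≤ (q : ℝ) ^ ε := by
  have h := isLittleO_log_rpow_rpow_atTop (s := ε) (k : ℝ) hε
  have h2 : ∀ᶠ x : ℝ in atTop, ‖Real.log x ^ (k : ℝ)‖ ≤ (1 / ((|C| + 1) * 26 ^ k)) * ‖x ^ ε‖ :=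
    h.def (by positivity)
  have h3 := tendsto_natCast_atTop_atTop (R := ℝ) |>.eventually h2
  obtain ⟨q₁, hq₁⟩ := eventually_atTop.1 h3
  refine ⟨max q₁ 3, fun q hq => ?_⟩
  have h4 := hq₁ q (le_trans (le_max_left _ _) hq)
  have hq3 : 3 ≤ q := le_trans (le_max_right _ _) hq
  have h5 := NN_le_log hq3
  have hlog : 0 ≤ Real.log q := Real.log_natCast_nonneg q
  have hqe : 0 ≤ (q : ℝ) ^ ε := by positivity
  rw [Real.norm_of_nonneg hqe, Real.rpow_natCast, Real.norm_of_nonneg (by positivity)] at h4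
  have h6 : (NN q : ℝ) ^ k ≤ (26 * Real.log q) ^ k := by gcongr
  have h7 : C ≤ |C| + 1 := by linarith [le_abs_self C]
  calc C * (NN q : ℝ) ^ k ≤ (|C| + 1) * (26 * Real.log q) ^ k := by gcongr
    _ = ((|C| + 1) * 26 ^ k) * Real.log q ^ k := by rw [mul_pow]; ring
    _ ≤ ((|C| + 1) * 26 ^ k) * ((1 / ((|C| + 1) * 26 ^ k)) * (q : ℝ) ^ ε) := by gcongr
    _ = (q : ℝ) ^ ε := by field_simp

/-- any real number is at most `q` for large `q` -/
theorem le_q (C : ℝ) : ∃ q₀ : ℕ, ∀ q : ℕ, q₀ ≤ q → C ≤ (q : ℝ) := by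
  obtain ⟨n, hn⟩ := exists_nat_ge C
  exact ⟨n, fun q hq => hn.trans (by exact_mod_cast hq)⟩

/-- any real number is at most `NN q` for large `q` -/
theorem le_NN (C : ℝ) : ∃ q₀ : ℕ, ∀ q : ℕ, q₀ ≤ q → C ≤ (NN q : ℝ) := by
  obtain ⟨n, hn⟩ := exists_nat_ge C
  refine ⟨2 ^ n, fun q hq => ?_⟩
  have h1 : n ≤ Nat.log 2 q := by
    apply Nat.le_log_of_pow_le (by norm_num) hq
  have : n ≤ NN q := by unfold NN; omega
  exact hn.trans (by exact_mod_cast this)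

/-- `C (1 + log N) ≤ log q` for large `q` -/
theorem log_NN_le (C : ℝ) :
    ∃ q₀ : ℕ, ∀ q : ℕ, q₀ ≤ q → C * (1 + Real.log (NN q)) ≤ Real.log q := by
  obtain ⟨k, hk⟩ := exists_nat_ge (max C 1)
  have hkC : C ≤ k := (le_max_left _ _).trans hk
  obtain ⟨q₀, hq₀⟩ := NN_pow_le k (Real.exp k) 1 one_pos
  refine ⟨max q₀ 1, fun q hq => ?_⟩
  have h1 := hq₀ q (le_trans (le_max_left _ _) hq)
  have hq1 : 1 ≤ q := le_trans (le_max_right _ _) hq
  have hN : (20 : ℝ) ≤ NN q := by exact_mod_cast twenty_le_NN q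
  rw [Real.rpow_one] at h1
  have h2 := Real.log_le_log (by positivity) h1
  rw [Real.log_mul (by positivity) (by positivity), Real.log_exp, Real.log_pow] at h2
  have h3 : 0 ≤ Real.log (NN q) := Real.log_nonneg (by linarith)
  nlinarith

end Crest.Agent.H3Ry
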