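import Crest.Agent.H3RyDefs2
import Crest.Agent.H3RyAsy
import Crest.Agent.H23RyProb

/-! # Ryser counterexample: `distinct_prob` and `moments_event` (module Q2) -/

set_option autoImplicit false

namespace Crest.Agent.H17Ry
open Finset Crest.Agent.H3Ry Crest.Agent.H23RyProb

section Dist
variable {F : Type*} [Field F] [Fintype F] [DecidableEq F]

theorem card_ge_two : (2 : ℝ) ≤ Fintype.card F := by
  have : 2 ≤ Fintype.card F := Fintype.one_lt_card
  exact_mod_cast this

/-- two different coordinates agree with probability `1/q` -/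
theorem PP_eq_coord {ι : Type*} [Fintype ι] [DecidableEq ι] {i j : ι} (hij : i ≠ j) :
    PP (fun ω : ι → F => ω i = ω j) = 1 / (Fintype.card F : ℝ) := by
  rw [← PP_merge {i}]
  have h : ∀ a : ι → F, PP (fun b : ι → F => merge {i} a b i = merge {i} a b j)
      = 1 / (Fintype.card F : ℝ) := by
    intro a
    have h1 : PP (fun b : ι → F => merge {i} a b i = merge {i} a b j)
        = PP (fun b : ι → F => b j ∈ ({a i} : Finset F)) := by
      refine PP_congr (fun b => ?_)
      have e1 : merge {i} a b i = a i := by simp [merge]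
      have e2 : merge {i} a b j = b j := by simp [merge, hij.symm]
      rw [e1, e2, mem_singleton]
      exact eq_comm
    rw [h1, PP_coord]
    simp
  simp only [h]
  exact EE_const _

theorem distinct_eq :
    PP (fun ω : Option F × Bool → F => ∀ d, ω (d, false) ≠ ω (d, true))
      = (1 - 1 / (Fintype.card F : ℝ)) ^ (Fintype.card F + 1) := by
  have h := PP_forall_of_dep (ι := Option F × Bool) (α := F) (univ : Finset (Option F))
    (fun d ω => ω (d, false) ≠ ω (d, true)) (fun d => {(d, false), (d, true)})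
    (fun d _ ω ω' hω => by
      have e1 : ω (d, false) = ω' (d, false) := hω _ (by simp)
      have e2 : ω (d, true) = ω' (d, true) := hω _ (by simp)
      simp only [e1, e2])
    (fun d _ d' _ hd => by
      simp only [Function.onFun]
      rw [Finset.disjoint_left]
      intro κ hκ hκ'
      simp only [mem_insert, mem_singleton] at hκ hκ'
      apply hd
      rcases hκ with rfl | rfl <;> rcases hκ' with h | h <;> simp [Prod.ext_iff] at h <;> exact h)
  have e : PP (fun ω : Option F × Bool → F => ∀ d, ω (d, false) ≠ ω (d, true))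
      = PP (fun ω : Option F × Bool → F => ∀ d ∈ (univ : Finset (Option F)),
          ω (d, false) ≠ ω (d, true)) := PP_congr (fun ω => by simp)
  rw [e, h]
  have h2 : ∀ d ∈ (univ : Finset (Option F)),
      PP (fun ω : Option F × Bool → F => ω (d, false) ≠ ω (d, true))
        = 1 - 1 / (Fintype.card F : ℝ) := by
    intro d _
    have h3 := PP_not (fun ω : Option F × Bool → F => ω (d, false) = ω (d, true))
    rw [PP_eq_coord (F := F) (i := ((d, false) : Option F × Bool)) (j := (d, true)) (by simp)] at h3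
    exact h3
  rw [Finset.prod_congr rfl h2]
  simp [Finset.card_univ, Fintype.card_option]

end Dist

theorem distinct_prob : ∃ q₀ : ℕ,
    ∀ (F : Type) [Field F] [Fintype F] [DecidableEq F], q₀ ≤ Fintype.card F →
    1 / 4 ≤ PP (fun ω : Option F × Bool → F => ∀ d, ω (d, false) ≠ ω (d, true)) := by
  refine ⟨9, fun F _ _ _ hq => ?_⟩
  rw [distinct_eq]
  set q := Fintype.card F with hqdef
  have hq' : (9 : ℝ) ≤ q := by exact_mod_cast hq
  have hx : (0 : ℝ) < 1 - 1 / (q : ℝ) := by
    have : 1 / (q : ℝ) < 1 := by rw [div_lt_one (by linarith)]; linarith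
    linarith
  have h1 : 1 - (1 - 1 / (q : ℝ))⁻¹ ≤ Real.log (1 - 1 / (q : ℝ)) := Real.one_sub_inv_le_log_of_pos hx
  have h2 : -(5 / 4 : ℝ) ≤ ((q + 1 : ℕ) : ℝ) * Real.log (1 - 1 / (q : ℝ)) := by
    have h3 : 1 - (1 - 1 / (q : ℝ))⁻¹ = - (1 / ((q : ℝ) - 1)) := by
      have hq0 : (q : ℝ) ≠ 0 := by linarith
      have hq1 : (q : ℝ) - 1 ≠ 0 := by intro h; linarith
      have : 1 - 1 / (q : ℝ) = (q - 1) / q := by field_simp
      rw [this, inv_div]
      field_simp
      ring
    rw [h3] at h1
    have h4 : ((q + 1 : ℕ) : ℝ) * (1 / ((q : ℝ) - 1)) ≤ 5 / 4 := by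
      rw [mul_one_div, div_le_iff₀ (by linarith)]
      push_cast
      linarith
    have h5 : (0 : ℝ) ≤ ((q + 1 : ℕ) : ℝ) := by positivity
    nlinarith
  have h3 : (1 - 1 / (q : ℝ)) ^ (q + 1)
      = Real.exp (((q + 1 : ℕ) : ℝ) * Real.log (1 - 1 / (q : ℝ))) := by
    rw [Real.exp_nat_mul, Real.exp_log hx]
  rw [h3]
  have h4 : (1 / 4 : ℝ) ≤ Real.exp (-(5 / 4 : ℝ)) := by
    rw [Real.exp_neg]
    have h5 : Real.exp (5 / 4) ≤ 4 := by
      have h6 : Real.exp (5 / 4) ^ 4 ≤ 4 ^ 4 := by
        rw [← Real.exp_nat_mul]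
        have h7 : ((4 : ℕ) : ℝ) * (5 / 4) = ((5 : ℕ) : ℝ) * 1 := by norm_num
        rw [h7, Real.exp_nat_mul]
        have h8 := Real.exp_one_lt_d9
        have h9 : Real.exp 1 ≤ 2.72 := by linarith
        calc Real.exp 1 ^ 5 ≤ 2.72 ^ 5 := by gcongr
          _ ≤ 4 ^ 4 := by norm_num
      exact le_of_pow_le_pow_left₀ (by norm_num) (by norm_num) h6
    rw [one_div]
    exact inv_anti₀ (Real.exp_pos _) h5
  exact h4.trans (Real.exp_le_exp.2 h2)

/-! ## Moments -/
section Mom
variable {F : Type*} [Field F] [Fintype F] [DecidableEq F] {N : ℕ}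

theorem acnt_cast (ω : Option F × Bool → F) (I : Finset (Option F)) (v : Bool) (P : F × F) :
    (acnt ω I v P : ℝ) = ∑ d ∈ I, if ω (d, v) ∈ ({pos d P} : Finset F) then (1 : ℝ) else 0 := by
  unfold acnt
  rw [Finset.card_filter]
  push_cast
  refine Finset.sum_congr rfl (fun d _ => ?_)
  simp

theorem EE_ind (κ : Option F × Bool) (c : F) :
    EE (fun ω : Option F × Bool → F => if ω κ ∈ ({c} : Finset F) then (1 : ℝ) else 0)
      = 1 / (Fintype.card F : ℝ) := by
  have h := PP_coord (ι := Option F × Bool) (α := F) κ {c}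
  rw [PP_eq] at h
  simp only [card_singleton, Nat.cast_one] at h
  rw [← h]
  congr 1
  funext ω
  by_cases h : ω κ ∈ ({c} : Finset F) <;> simp [h]

theorem EE_acnt (I : Finset (Option F)) (v : Bool) (P : F × F) :
    EE (fun ω : Option F × Bool → F => (acnt ω I v P : ℝ)) = (I.card : ℝ) / Fintype.card F := by
  simp only [acnt_cast]
  rw [EE_sum]
  simp only [EE_ind]
  rw [Finset.sum_const, nsmul_eq_mul, mul_one_div]

theorem EE_acnt_sq (I : Finset (Option F)) (v : Bool) (P : F × F) :
    EE (fun ω : Option F × Bool → F => (acnt ω I v P : ℝ) ^ 2)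
      ≤ (I.card : ℝ) / Fintype.card F + ((I.card : ℝ) / Fintype.card F) ^ 2 := by
  have hq : (0 : ℝ) < Fintype.card F := by have := card_ge_two (F := F); linarith
  have h1 : ∀ ω : Option F × Bool → F, (acnt ω I v P : ℝ) ^ 2
      = ∑ d ∈ I, ∑ e ∈ I, (if ω (d, v) ∈ ({pos d P} : Finset F) then (1 : ℝ) else 0)
        * (if ω (e, v) ∈ ({pos e P} : Finset F) then (1 : ℝ) else 0) := by
    intro ω
    rw [acnt_cast, sq, Finset.sum_mul_sum]
  simp only [h1]
  rw [EE_sum]
  have h2 : ∀ d ∈ I, EE (fun ω : Option F × Bool → F =>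
      ∑ e ∈ I, (if ω (d, v) ∈ ({pos d P} : Finset F) then (1 : ℝ) else 0)
        * (if ω (e, v) ∈ ({pos e P} : Finset F) then (1 : ℝ) else 0))
      ≤ 1 / (Fintype.card F : ℝ) + (I.card : ℝ) * (1 / (Fintype.card F : ℝ)) ^ 2 := by
    intro d hd
    rw [EE_sum]
    have h3 : ∀ e ∈ I, EE (fun ω : Option F × Bool → F =>
        (if ω (d, v) ∈ ({pos d P} : Finset F) then (1 : ℝ) else 0)
        * (if ω (e, v) ∈ ({pos e P} : Finset F) then (1 : ℝ) else 0))
        ≤ (if e = d then 1 / (Fintype.card F : ℝ) else 0) + (1 / (Fintype.card F : ℝ)) ^ 2 := by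
      intro e _
      by_cases hed : e = d
      · subst hed
        rw [if_pos rfl]
        have h4 : EE (fun ω : Option F × Bool → F =>
            (if ω (e, v) ∈ ({pos e P} : Finset F) then (1 : ℝ) else 0)
            * (if ω (e, v) ∈ ({pos e P} : Finset F) then (1 : ℝ) else 0))
            = 1 / (Fintype.card F : ℝ) := by
          rw [← EE_ind (F := F) (e, v) (pos e P)]
          congr 1
          funext ω
          split_ifs <;> norm_num
        rw [h4]
        have : 0 ≤ (1 / (Fintype.card F : ℝ)) ^ 2 := by positivity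
        linarith
      · rw [if_neg hed, zero_add]
        have h4 := EE_mul_of_dep (ι := Option F × Bool) (α := F)
          (f := fun ω => if ω (d, v) ∈ ({pos d P} : Finset F) then (1 : ℝ) else 0)
          (g := fun ω => if ω (e, v) ∈ ({pos e P} : Finset F) then (1 : ℝ) else 0)
          (s := {(d, v)}) (t := {(e, v)})
          (fun ω ω' hω => by simp only [hω (d, v) (by simp)])
          (fun ω ω' hω => by simp only [hω (e, v) (by simp)])
          (by
            rw [Finset.disjoint_singleton]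
            intro h
            exact hed (Prod.ext_iff.1 h).1.symm)
        rw [h4, EE_ind, EE_ind]
        exact le_of_eq (by ring)
    refine (Finset.sum_le_sum h3).trans ?_
    rw [Finset.sum_add_distrib, Finset.sum_ite_eq' I d, if_pos hd, Finset.sum_const, nsmul_eq_mul]
  refine (Finset.sum_le_sum h2).trans ?_
  rw [Finset.sum_const, nsmul_eq_mul]
  apply le_of_eq
  field_simp

theorem depOn_acnt (I : Finset (Option F)) (v : Bool) (P : F × F) :
    DepOn (fun ω : Option F × Bool → F => acnt ω I v P) (I ×ˢ {v}) := by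
  intro ω ω' hω
  have h : I.filter (fun d => ω (d, v) = pos d P) = I.filter (fun d => ω' (d, v) = pos d P) :=
    Finset.filter_congr (fun d hd => by rw [hω (d, v) (by simp [hd])])
  exact congrArg Finset.card h

/-- product of the loads of a cell pair -/
noncomputable def prd (Y : Sys F N) (P : F × F) (j : Fin N) (ω : Option F × Bool → F) : ℝ :=
  (acnt ω (Y.B j) false P : ℝ) * (acnt ω (Y.B j) true P : ℝ)

theorem prd_nonneg (Y : Sys F N) (P : F × F) (j : Fin N) (ω : Option F × Bool → F) :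
    0 ≤ prd Y P j ω := by unfold prd; positivity

theorem depOn_prd (Y : Sys F N) (P : F × F) (j : Fin N) :
    DepOn (prd Y P j) (Y.B j ×ˢ (univ : Finset Bool)) := by
  intro ω ω' hω
  unfold prd
  have h1 := depOn_acnt (Y.B j) false P ω ω' (fun i hi => hω i (by
    simp only [mem_product, mem_singleton] at hi ⊢
    exact ⟨hi.1, mem_univ _⟩))
  have h2 := depOn_acnt (Y.B j) true P ω ω' (fun i hi => hω i (by
    simp only [mem_product, mem_singleton] at hi ⊢
    exact ⟨hi.1, mem_univ _⟩))
  simp only at h1 h2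
  rw [h1, h2]

theorem disj_cell (I : Finset (Option F)) :
    Disjoint (I ×ˢ ({false} : Finset Bool)) (I ×ˢ ({true} : Finset Bool)) := by
  rw [Finset.disjoint_left]
  intro κ h1 h2
  simp only [mem_product, mem_singleton] at h1 h2
  rw [h1.2] at h2
  exact Bool.false_ne_true h2.2

theorem EE_prd (Y : Sys F N) (P : F × F) (j : Fin N) :
    EE (prd Y P j) = (((Y.B j).card : ℝ) / Fintype.card F) ^ 2 := by
  have h := EE_mul_of_dep (ι := Option F × Bool) (α := F)
    (f := fun ω => (acnt ω (Y.B j) false P : ℝ)) (g := fun ω => (acnt ω (Y.B j) true P : ℝ))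
    (DepOn.comp (depOn_acnt (Y.B j) false P) (fun n => (n : ℝ)))
    (DepOn.comp (depOn_acnt (Y.B j) true P) (fun n => (n : ℝ))) (disj_cell _)
  have e : prd Y P j = fun ω => (acnt ω (Y.B j) false P : ℝ) * (acnt ω (Y.B j) true P : ℝ) := rfl
  rw [e, h, EE_acnt, EE_acnt]
  ring

theorem EE_prd_sq (Y : Sys F N) (P : F × F) (j : Fin N) :
    EE (fun ω => prd Y P j ω ^ 2) ≤ (((Y.B j).card : ℝ) / Fintype.card F
      + (((Y.B j).card : ℝ) / Fintype.card F) ^ 2) ^ 2 := by
  have h := EE_mul_of_dep (ι := Option F × Bool) (α := F)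
    (f := fun ω => (acnt ω (Y.B j) false P : ℝ) ^ 2) (g := fun ω => (acnt ω (Y.B j) true P : ℝ) ^ 2)
    (DepOn.comp (depOn_acnt (Y.B j) false P) (fun n => (n : ℝ) ^ 2))
    (DepOn.comp (depOn_acnt (Y.B j) true P) (fun n => (n : ℝ) ^ 2)) (disj_cell _)
  have e : (fun ω => prd Y P j ω ^ 2) = fun ω => (acnt ω (Y.B j) false P : ℝ) ^ 2
      * (acnt ω (Y.B j) true P : ℝ) ^ 2 := by
    funext ω
    unfold prd
    ring
  rw [e, h, sq (_ + _)]
  exact mul_le_mul (EE_acnt_sq _ _ _) (EE_acnt_sq _ _ _) (EE_nonneg (fun ω => by positivity))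
    (by positivity)

theorem disj_grp (Y : Sys F N) {j k : Fin N} (h : j ≠ k) :
    Disjoint (Y.B j ×ˢ (univ : Finset Bool)) (Y.B k ×ˢ (univ : Finset Bool)) := by
  rw [Finset.disjoint_left]
  intro κ h1 h2
  simp only [mem_product, Sys.B, mem_filter, mem_univ, true_and, and_true] at h1 h2
  exact h (h1.symm.trans h2)

theorem second_moment (Y : Sys F N) (P : F × F) (J : Finset (Fin N)) (β : ℝ) (hβ : 0 ≤ β)
    (hb : ∀ j, ((Y.B j).card : ℝ) / Fintype.card F ≤ β) :
    EE (fun ω : Option F × Bool → F => (∑ j ∈ J, prd Y P j ω) ^ 2)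
      ≤ N * (β + β ^ 2) ^ 2 + N ^ 2 * β ^ 4 := by
  have hq : (0 : ℝ) < Fintype.card F := by have := card_ge_two (F := F); linarith
  have h1 : ∀ ω : Option F × Bool → F, (∑ j ∈ J, prd Y P j ω) ^ 2
      = ∑ j ∈ J, ∑ k ∈ J, prd Y P j ω * prd Y P k ω := by
    intro ω
    rw [sq, Finset.sum_mul_sum]
  simp only [h1]
  rw [EE_sum]
  have hJ : (J.card : ℝ) ≤ N := by
    have := Finset.card_le_univ J
    rw [Fintype.card_fin] at this
    exact_mod_cast this
  have h2 : ∀ j ∈ J, EE (fun ω : Option F × Bool → F => ∑ k ∈ J, prd Y P j ω * prd Y P k ω)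
      ≤ (β + β ^ 2) ^ 2 + N * β ^ 4 := by
    intro j hj
    rw [EE_sum]
    have h3 : ∀ k ∈ J, EE (fun ω : Option F × Bool → F => prd Y P j ω * prd Y P k ω)
        ≤ (if k = j then (β + β ^ 2) ^ 2 else 0) + β ^ 4 := by
      intro k _
      by_cases hkj : k = j
      · subst hkj
        rw [if_pos rfl]
        have h4 : EE (fun ω : Option F × Bool → F => prd Y P k ω * prd Y P k ω)
            ≤ (β + β ^ 2) ^ 2 := by
          have e : (fun ω : Option F × Bool → F => prd Y P k ω * prd Y P k ω)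
              = fun ω => prd Y P k ω ^ 2 := by funext ω; ring
          rw [e]
          refine (EE_prd_sq Y P k).trans ?_
          have := hb k
          have h0 : 0 ≤ ((Y.B k).card : ℝ) / Fintype.card F := by positivity
          gcongr
        have : 0 ≤ β ^ 4 := by positivity
        linarith
      · rw [if_neg hkj, zero_add]
        have h4 := EE_mul_of_dep (ι := Option F × Bool) (α := F)
          (f := prd Y P j) (g := prd Y P k) (depOn_prd Y P j) (depOn_prd Y P k)
          (disj_grp Y (fun h => hkj h.symm))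
        rw [h4, EE_prd, EE_prd]
        have hj' := hb j
        have hk' := hb k
        have h0 : 0 ≤ ((Y.B k).card : ℝ) / Fintype.card F := by positivity
        have h0' : 0 ≤ ((Y.B j).card : ℝ) / Fintype.card F := by positivity
        calc (((Y.B j).card : ℝ) / Fintype.card F) ^ 2 * (((Y.B k).card : ℝ) / Fintype.card F) ^ 2
            ≤ β ^ 2 * β ^ 2 := by gcongr
          _ = β ^ 4 := by ring
    refine (Finset.sum_le_sum h3).trans ?_
    rw [Finset.sum_add_distrib, Finset.sum_ite_eq' J j, if_pos hj, Finset.sum_const, nsmul_eq_mul]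
    have : 0 ≤ β ^ 4 := by positivity
    nlinarith
  refine (Finset.sum_le_sum h2).trans ?_
  rw [Finset.sum_const, nsmul_eq_mul]
  have h5 : 0 ≤ (β + β ^ 2) ^ 2 + N * β ^ 4 := by positivity
  calc (J.card : ℝ) * ((β + β ^ 2) ^ 2 + N * β ^ 4) ≤ N * ((β + β ^ 2) ^ 2 + N * β ^ 4) := by
        gcongr
    _ = N * (β + β ^ 2) ^ 2 + N ^ 2 * β ^ 4 := by ring

theorem rb_iff (Y : Sys F N) (ω : Option F × Bool → F) (P : F × F) (j : Fin N) :
    Y.rb j (hs ω P) ↔ 0 < acnt ω (Y.B j) false P ∧ 0 < acnt ω (Y.B j) true P := by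
  unfold Sys.rb acnt Sys.B hs
  simp only [Finset.card_pos, Finset.Nonempty, mem_filter, mem_univ, true_and]

theorem PP_rb (Y : Sys F N) (P : F × F) (j : Fin N) :
    PP (fun ω : Option F × Bool → F => Y.rb j (hs ω P))
      ≤ (((Y.B j).card : ℝ) / Fintype.card F) ^ 2 := by
  rw [← EE_prd Y P j]
  refine PP_le_EE _ _ (prd_nonneg Y P j) (fun ω h => ?_)
  rw [rb_iff] at h
  have h1 : (1 : ℝ) ≤ acnt ω (Y.B j) false P := by exact_mod_cast h.1
  have h2 : (1 : ℝ) ≤ acnt ω (Y.B j) true P := by exact_mod_cast h.2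
  unfold prd
  nlinarith

open Classical in
theorem mixed_moment (Y : Sys F N) (P : F × F) (β : ℝ) (hβ : 0 ≤ β)
    (hb : ∀ j, ((Y.B j).card : ℝ) / Fintype.card F ≤ β) :
    EE (fun ω : Option F × Bool → F => if ∃ j : Fin N, 2 * j.val < N ∧ Y.rb j (hs ω P) then
        (∑ j ∈ univ.filter (fun j : Fin N => N ≤ 2 * j.val), prd Y P j ω) ^ 2 else 0)
      ≤ (N * β ^ 2) * (N * (β + β ^ 2) ^ 2 + N ^ 2 * β ^ 4) := by
  have hq : (0 : ℝ) < Fintype.card F := by have := card_ge_two (F := F); linarith
  set s : Finset (Option F × Bool) := univ.filter (fun κ => 2 * (Y.grp κ.1).val < N) with hs'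
  set t : Finset (Option F × Bool) := univ.filter (fun κ => N ≤ 2 * (Y.grp κ.1).val) with ht
  have hst : Disjoint s t := by
    rw [Finset.disjoint_left]
    intro κ h1 h2
    simp only [hs', ht, mem_filter, mem_univ, true_and] at h1 h2
    omega
  have hf : DepOn (fun ω : Option F × Bool → F =>
      if ∃ j : Fin N, 2 * j.val < N ∧ Y.rb j (hs ω P) then (1 : ℝ) else 0) s := by
    intro ω ω' hω
    have : (∃ j : Fin N, 2 * j.val < N ∧ Y.rb j (hs ω P)) ↔
        (∃ j : Fin N, 2 * j.val < N ∧ Y.rb j (hs ω' P)) := by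
      refine exists_congr (fun j => and_congr_right (fun hj => ?_))
      rw [rb_iff, rb_iff]
      have h1 := depOn_acnt (Y.B j) false P ω ω' (fun i hi => hω i (by
        simp only [mem_product, mem_singleton, Sys.B, mem_filter, mem_univ, true_and] at hi
        simp only [hs', mem_filter, mem_univ, true_and]
        rw [hi.1]; exact hj))
      have h2 := depOn_acnt (Y.B j) true P ω ω' (fun i hi => hω i (by
        simp only [mem_product, mem_singleton, Sys.B, mem_filter, mem_univ, true_and] at hi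
        simp only [hs', mem_filter, mem_univ, true_and]
        rw [hi.1]; exact hj))
      simp only at h1 h2
      rw [h1, h2]
    simp only [this]
  have hg : DepOn (fun ω : Option F × Bool → F =>
      (∑ j ∈ univ.filter (fun j : Fin N => N ≤ 2 * j.val), prd Y P j ω) ^ 2) t := by
    intro ω ω' hω
    have : ∀ j ∈ univ.filter (fun j : Fin N => N ≤ 2 * j.val), prd Y P j ω = prd Y P j ω' := by
      intro j hj
      refine depOn_prd Y P j ω ω' (fun i hi => hω i ?_)
      simp only [mem_product, Sys.B, mem_filter, mem_univ, true_and, and_true] at hi hj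
      simp only [ht, mem_filter, mem_univ, true_and]
      rw [hi]; exact hj
    simp only
    rw [Finset.sum_congr rfl this]
  have h := EE_mul_of_dep hf hg hst
  have e : (fun ω : Option F × Bool → F => if ∃ j : Fin N, 2 * j.val < N ∧ Y.rb j (hs ω P) then
        (∑ j ∈ univ.filter (fun j : Fin N => N ≤ 2 * j.val), prd Y P j ω) ^ 2 else 0)
      = fun ω => (if ∃ j : Fin N, 2 * j.val < N ∧ Y.rb j (hs ω P) then (1 : ℝ) else 0)
        * (∑ j ∈ univ.filter (fun j : Fin N => N ≤ 2 * j.val), prd Y P j ω) ^ 2 := by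
    funext ω
    split_ifs <;> ring
  rw [e, h]
  have h1 : EE (fun ω : Option F × Bool → F =>
      if ∃ j : Fin N, 2 * j.val < N ∧ Y.rb j (hs ω P) then (1 : ℝ) else 0) ≤ N * β ^ 2 := by
    have h2 := PP_exists_le (ι := Option F × Bool) (α := F)
      (univ.filter (fun j : Fin N => 2 * j.val < N)) (fun j ω => Y.rb j (hs ω P))
    rw [PP_eq] at h2
    have h3 : ∑ j ∈ univ.filter (fun j : Fin N => 2 * j.val < N),
        PP (fun ω : Option F × Bool → F => Y.rb j (hs ω P)) ≤ N * β ^ 2 := by
      calc ∑ j ∈ univ.filter (fun j : Fin N => 2 * j.val < N),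
            PP (fun ω : Option F × Bool → F => Y.rb j (hs ω P))
          ≤ ∑ j ∈ univ.filter (fun j : Fin N => 2 * j.val < N), β ^ 2 := by
            refine Finset.sum_le_sum (fun j _ => (PP_rb Y P j).trans ?_)
            have := hb j
            have h0 : 0 ≤ ((Y.B j).card : ℝ) / Fintype.card F := by positivity
            gcongr
        _ ≤ N * β ^ 2 := by
            rw [Finset.sum_const, nsmul_eq_mul]
            have h4 : ((univ.filter (fun j : Fin N => 2 * j.val < N)).card : ℝ) ≤ N := by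
              have := Finset.card_le_univ (univ.filter (fun j : Fin N => 2 * j.val < N))
              rw [Fintype.card_fin] at this
              exact_mod_cast this
            gcongr
    refine le_trans (le_of_eq ?_) (h2.trans h3)
    congr 1
    funext ω
    congr 1
    simp only [mem_filter, mem_univ, true_and]
  refine mul_le_mul h1 (second_moment Y P _ β hβ hb) (EE_nonneg (fun ω => by positivity))
    (by positivity)

end Mom

open Classical in
/-- second moments (Markov) -/
theorem moments_event : ∃ (C : ℝ) (q₀ : ℕ), 0 < C ∧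
    ∀ (F : Type) [Field F] [Fintype F] [DecidableEq F], q₀ ≤ Fintype.card F →
    ∀ (N : ℕ), N = NN (Fintype.card F) → ∀ (Y : Sys F N), Y.Ok →
    PP (fun ω : Option F × Bool → F =>
      C * (Fintype.card F : ℝ) ^ 2 / N < ∑ P : F × F,
        ((∑ j : Fin N, acnt ω (Y.B j) false P * acnt ω (Y.B j) true P : ℕ) : ℝ) ^ 2 ∨
      C * (Fintype.card F : ℝ) ^ 2 / (N : ℝ) ^ 2 < ∑ P : F × F,
        (if ∃ j : Fin N, 2 * j.val < N ∧ Y.rb j (hs ω P) then
        ((∑ j ∈ univ.filter (fun j : Fin N => N ≤ 2 * j.val),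
          acnt ω (Y.B j) false P * acnt ω (Y.B j) true P : ℕ) : ℝ) ^ 2 else 0)) ≤ 1 / 50 := by
  obtain ⟨q₁, hq₁⟩ := NN_pow_le 1 2 1 one_pos
  refine ⟨2400, max q₁ 2, by norm_num, fun F _ _ _ hq N hN Y hY => ?_⟩
  have hq0 : (0 : ℝ) < Fintype.card F := by have := card_ge_two (F := F); linarith
  have hN20 : (20 : ℝ) ≤ N := by
    have := twenty_le_NN (Fintype.card F)
    rw [← hN] at this
    exact_mod_cast this
  have hN0 : (0 : ℝ) < N := by linarith
  have hNq : 2 * (N : ℝ) ≤ Fintype.card F := by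
    have := hq₁ (Fintype.card F) (le_trans (le_max_left _ _) hq)
    rw [← hN] at this
    simpa using this
  have hb : ∀ j, ((Y.B j).card : ℝ) / Fintype.card F ≤ 2 / N := by
    intro j
    have h1 := hY.hi j
    have h2 : (N : ℝ) * ((Y.B j).card : ℝ) ≤ Fintype.card F + 1 + N := by exact_mod_cast h1
    rw [div_le_div_iff₀ hq0 hN0]
    nlinarith
  set M : ℝ := N * (2 / N + (2 / N) ^ 2) ^ 2 + N ^ 2 * (2 / N) ^ 4 with hM
  have hMle : M ≤ 6 / N := by
    have e : M = (4 * (1 + 2 / N) ^ 2 + 16 / N) / N := by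
      rw [hM]
      field_simp
      ring
    rw [e]
    have h1 : (2 : ℝ) / N ≤ 1 / 10 := by rw [div_le_div_iff₀ hN0 (by norm_num)]; linarith
    have h2 : (16 : ℝ) / N ≤ 8 / 10 := by rw [div_le_div_iff₀ hN0 (by norm_num)]; linarith
    have h3 : 0 ≤ (2 : ℝ) / N := by positivity
    gcongr
    nlinarith
  have hM0 : 0 ≤ M := by rw [hM]; positivity
  have hcast : ∀ (ω : Option F × Bool → F) (P : F × F) (J : Finset (Fin N)),
      ((∑ j ∈ J, acnt ω (Y.B j) false P * acnt ω (Y.B j) true P : ℕ) : ℝ)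
        = ∑ j ∈ J, prd Y P j ω := by
    intro ω P J
    unfold prd
    push_cast
    rfl
  simp only [hcast]
  refine (PP_or_le _ _).trans ?_
  have hcardP : ((univ : Finset (F × F)).card : ℝ) = (Fintype.card F : ℝ) ^ 2 := by
    rw [Finset.card_univ, Fintype.card_prod]
    push_cast
    ring
  have hA : PP (fun ω : Option F × Bool → F =>
      2400 * (Fintype.card F : ℝ) ^ 2 / N < ∑ P : F × F, (∑ j : Fin N, prd Y P j ω) ^ 2)
      ≤ 1 / 100 := by
    have hT : 0 < 2400 * (Fintype.card F : ℝ) ^ 2 / N := by positivity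
    refine (PP_le_EE _ (fun ω => (2400 * (Fintype.card F : ℝ) ^ 2 / N)⁻¹
      * ∑ P : F × F, (∑ j : Fin N, prd Y P j ω) ^ 2) (fun ω => by positivity) (fun ω h => ?_)).trans ?_
    · rw [← div_eq_inv_mul, le_div_iff₀ hT]
      linarith
    · rw [EE_const_mul, EE_sum]
      have h1 : ∑ P : F × F, EE (fun ω : Option F × Bool → F => (∑ j : Fin N, prd Y P j ω) ^ 2)
          ≤ ∑ P : F × F, M :=
        Finset.sum_le_sum (fun P _ => second_moment Y P univ (2 / N) (by positivity) hb)
      rw [Finset.sum_const, nsmul_eq_mul, hcardP] at h1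
      rw [← div_eq_inv_mul, div_le_iff₀ hT]
      refine h1.trans ?_
      have h2 : (Fintype.card F : ℝ) ^ 2 * M ≤ (Fintype.card F : ℝ) ^ 2 * (6 / N) := by gcongr
      refine h2.trans ?_
      have h3 : 0 ≤ (Fintype.card F : ℝ) ^ 2 / N := by positivity
      have e1 : (Fintype.card F : ℝ) ^ 2 * (6 / N) = 6 * ((Fintype.card F : ℝ) ^ 2 / N) := by ring
      have e2 : 1 / 100 * (2400 * (Fintype.card F : ℝ) ^ 2 / N)
          = 24 * ((Fintype.card F : ℝ) ^ 2 / N) := by ring
      rw [e1, e2]
      nlinarith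
  have hB : PP (fun ω : Option F × Bool → F =>
      2400 * (Fintype.card F : ℝ) ^ 2 / (N : ℝ) ^ 2 < ∑ P : F × F,
        (if ∃ j : Fin N, 2 * j.val < N ∧ Y.rb j (hs ω P) then
        (∑ j ∈ univ.filter (fun j : Fin N => N ≤ 2 * j.val), prd Y P j ω) ^ 2 else 0))
      ≤ 1 / 100 := by
    have hT : 0 < 2400 * (Fintype.card F : ℝ) ^ 2 / (N : ℝ) ^ 2 := by positivity
    refine (PP_le_EE _ (fun ω => (2400 * (Fintype.card F : ℝ) ^ 2 / (N : ℝ) ^ 2)⁻¹
      * ∑ P : F × F, (if ∃ j : Fin N, 2 * j.val < N ∧ Y.rb j (hs ω P) then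
        (∑ j ∈ univ.filter (fun j : Fin N => N ≤ 2 * j.val), prd Y P j ω) ^ 2 else 0))
      (fun ω => ?_) (fun ω h => ?_)).trans ?_
    · refine mul_nonneg (by positivity) (Finset.sum_nonneg (fun P _ => ?_))
      split_ifs <;> positivity
    · rw [← div_eq_inv_mul, le_div_iff₀ hT]
      linarith
    · rw [EE_const_mul, EE_sum]
      have h1 : ∑ P : F × F, EE (fun ω : Option F × Bool → F =>
          (if ∃ j : Fin N, 2 * j.val < N ∧ Y.rb j (hs ω P) then
          (∑ j ∈ univ.filter (fun j : Fin N => N ≤ 2 * j.val), prd Y P j ω) ^ 2 else 0))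
          ≤ ∑ P : F × F, (N * (2 / N) ^ 2) * M :=
        Finset.sum_le_sum (fun P _ => mixed_moment Y P (2 / N) (by positivity) hb)
      rw [Finset.sum_const, nsmul_eq_mul, hcardP] at h1
      rw [← div_eq_inv_mul, div_le_iff₀ hT]
      refine h1.trans ?_
      have h2 : (Fintype.card F : ℝ) ^ 2 * (N * (2 / N) ^ 2 * M)
          ≤ (Fintype.card F : ℝ) ^ 2 * (N * (2 / N) ^ 2 * (6 / N)) := by gcongr
      refine h2.trans (le_of_eq ?_)
      field_simp
      norm_num
  linarith

end Crest.Agent.H17Ry
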