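import Crest.Agent.H17RyMom

/-! # Ryser counterexample: `p12_lo` (module Q2) -/

set_option autoImplicit false

namespace Crest.Agent.H17Ry
open Finset Crest.Agent.H3Ry Crest.Agent.H23RyProb

section P12
variable {F : Type*} [Field F] [Fintype F] [DecidableEq F] {N : ℕ}

theorem hs_zero (ω : Option F × Bool → F) : hs ω (0, 0) = zs ω := by
  unfold hs zs
  refine Finset.filter_congr (fun κ _ => ?_)
  obtain ⟨d, v⟩ := κ
  cases d <;> simp [pos]

open Classical in
/-- lower bound for a union of rainbow events -/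
theorem PP_rb_exists_ge (Y : Sys F N) (P : F × F) (J : Finset (Fin N)) (α β lam : ℝ)
    (hβ : 0 ≤ β) (hα : 0 ≤ α) (hlam : 0 ≤ lam)
    (hb : ∀ j, ((Y.B j).card : ℝ) / Fintype.card F ≤ β)
    (ha : ∀ j, α ≤ ((Y.B j).card : ℝ) / Fintype.card F) :
    2 * lam * (J.card * α ^ 2) - lam ^ 2 * (N * (β + β ^ 2) ^ 2 + N ^ 2 * β ^ 4)
      ≤ PP (fun ω : Option F × Bool → F => ∃ j ∈ J, Y.rb j (hs ω P)) := by
  have h1 : EE (fun ω : Option F × Bool → F => 2 * lam * (∑ j ∈ J, prd Y P j ω)
        - lam ^ 2 * (∑ j ∈ J, prd Y P j ω) ^ 2)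
      ≤ EE (fun ω : Option F × Bool → F => if ∃ j ∈ J, Y.rb j (hs ω P) then (1 : ℝ) else 0) := by
    refine EE_mono (fun ω => ?_)
    by_cases h : ∃ j ∈ J, Y.rb j (hs ω P)
    · rw [if_pos h]
      nlinarith [sq_nonneg (1 - lam * ∑ j ∈ J, prd Y P j ω)]
    · rw [if_neg h]
      have h0 : ∑ j ∈ J, prd Y P j ω = 0 := by
        refine Finset.sum_eq_zero (fun j hj => ?_)
        have h2 : ¬ Y.rb j (hs ω P) := fun h3 => h ⟨j, hj, h3⟩
        rw [rb_iff] at h2
        unfold prd
        rw [not_and_or, Nat.not_lt, Nat.not_lt, Nat.le_zero, Nat.le_zero] at h2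
        rcases h2 with h2 | h2 <;> rw [h2] <;> simp
      rw [h0]
      simp
  rw [PP_eq]
  refine le_trans ?_ (le_trans h1 (le_of_eq ?_))
  swap
  · congr 1
    funext ω
    by_cases h : ∃ j ∈ J, Y.rb j (hs ω P) <;> simp [h]
  rw [EE_sub, EE_const_mul, EE_const_mul, EE_sum]
  have h2 : (J.card : ℝ) * α ^ 2 ≤ ∑ j ∈ J, EE (prd Y P j) := by
    rw [← nsmul_eq_mul, ← Finset.sum_const]
    refine Finset.sum_le_sum (fun j _ => ?_)
    rw [EE_prd]
    have := ha j
    gcongr
  have h3 := second_moment Y P J β hβ hb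
  have h4 : 0 ≤ lam ^ 2 := by positivity
  have e : ∑ j ∈ J, EE (prd Y P j) = ∑ j ∈ J, EE (fun ω => prd Y P j ω) := rfl
  rw [← e]
  have h5 : 2 * lam * ((J.card : ℝ) * α ^ 2) ≤ 2 * lam * ∑ j ∈ J, EE (prd Y P j) := by gcongr
  have h6 := mul_le_mul_of_nonneg_left h3 h4
  linarith

theorem p12_eq (Y : Sys F N) :
    Y.p12 = PP (fun ω : Option F × Bool → F =>
        ∃ j ∈ univ.filter (fun j : Fin N => 2 * j.val < N), Y.rb j (hs ω (0, 0)))
      * PP (fun ω : Option F × Bool → F =>
        ∃ j ∈ univ.filter (fun j : Fin N => N ≤ 2 * j.val), Y.rb j (hs ω (0, 0))) := by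
  set s : Finset (Option F × Bool) := univ.filter (fun κ => 2 * (Y.grp κ.1).val < N) with hs'
  set t : Finset (Option F × Bool) := univ.filter (fun κ => N ≤ 2 * (Y.grp κ.1).val) with ht
  have hst : Disjoint s t := by
    rw [Finset.disjoint_left]
    intro κ h1 h2
    simp only [hs', ht, mem_filter, mem_univ, true_and] at h1 h2
    omega
  have key : ∀ (J : Finset (Fin N)) (u : Finset (Option F × Bool)),
      (∀ κ : Option F × Bool, Y.grp κ.1 ∈ J → κ ∈ u) →
      DepOn (fun ω : Option F × Bool → F => ∃ j ∈ J, Y.rb j (hs ω (0, 0))) u := by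
    intro J u hu ω ω' hω
    refine propext (exists_congr (fun j => and_congr_right (fun hj => ?_)))
    rw [rb_iff, rb_iff]
    have h1 := depOn_acnt (Y.B j) false (0, 0) ω ω' (fun i hi => hω i (by
      simp only [mem_product, mem_singleton, Sys.B, mem_filter, mem_univ, true_and] at hi
      exact hu i (hi.1 ▸ hj)))
    have h2 := depOn_acnt (Y.B j) true (0, 0) ω ω' (fun i hi => hω i (by
      simp only [mem_product, mem_singleton, Sys.B, mem_filter, mem_univ, true_and] at hi
      exact hu i (hi.1 ▸ hj)))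
    simp only at h1 h2
    rw [h1, h2]
  have h := PP_and_of_dep
    (key (univ.filter (fun j : Fin N => 2 * j.val < N)) s (fun κ hκ => by
      simp only [mem_filter, mem_univ, true_and] at hκ
      simp only [hs', mem_filter, mem_univ, true_and]
      exact hκ))
    (key (univ.filter (fun j : Fin N => N ≤ 2 * j.val)) t (fun κ hκ => by
      simp only [mem_filter, mem_univ, true_and] at hκ
      simp only [ht, mem_filter, mem_univ, true_and]
      exact hκ)) hst
  rw [← h]
  unfold Sys.p12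
  refine PP_congr (fun ω => ?_)
  unfold Sys.s12
  simp only [mem_filter, mem_univ, true_and, hs_zero]

end P12

theorem card_half_lo (N : ℕ) (hN : Even N) :
    2 * (univ.filter (fun j : Fin N => 2 * j.val < N)).card = N ∧
    2 * (univ.filter (fun j : Fin N => N ≤ 2 * j.val)).card = N := by
  obtain ⟨m, hm⟩ := hN
  have h1 : (univ.filter (fun j : Fin N => 2 * j.val < N)).card = m := by
    have e : (univ.filter (fun j : Fin N => 2 * j.val < N))
        = (univ.filter (fun j : Fin N => j.val < m)) := by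
      refine Finset.filter_congr (fun j _ => ?_)
      omega
    rw [e]
    rw [Fin.card_filter_val_lt]
    omega
  have h2 : (univ.filter (fun j : Fin N => 2 * j.val < N)).card
      + (univ.filter (fun j : Fin N => N ≤ 2 * j.val)).card = N := by
    have h3 := Finset.card_filter_add_card_filter_not (s := (univ : Finset (Fin N)))
      (fun j : Fin N => 2 * j.val < N)
    simp only [not_lt, Finset.card_univ, Fintype.card_fin] at h3
    exact h3
  constructor <;> omega

theorem p12_lo : ∃ q₀ : ℕ,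
    ∀ (F : Type) [Field F] [Fintype F] [DecidableEq F], q₀ ≤ Fintype.card F →
    ∀ (N : ℕ), N = NN (Fintype.card F) → ∀ (Y : Sys F N), Y.Ok →
      1 / (500 * (N : ℝ) ^ 2) ≤ Y.p12 := by
  obtain ⟨q₁, hq₁⟩ := NN_pow_le 1 100 1 one_pos
  refine ⟨max q₁ 2, fun F _ _ _ hq N hN Y hY => ?_⟩
  have hq0 : (0 : ℝ) < Fintype.card F := by have := card_ge_two (F := F); linarith
  have hN20 : (20 : ℝ) ≤ N := by
    have := twenty_le_NN (Fintype.card F)
    rw [← hN] at this
    exact_mod_cast this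
  have hN0 : (0 : ℝ) < N := by linarith
  have hNq : 100 * (N : ℝ) ≤ Fintype.card F := by
    have := hq₁ (Fintype.card F) (le_trans (le_max_left _ _) hq)
    rw [← hN] at this
    simpa using this
  have hb : ∀ j, ((Y.B j).card : ℝ) / Fintype.card F ≤ 1.1 / N := by
    intro j
    have h1 := hY.hi j
    have h2 : (N : ℝ) * ((Y.B j).card : ℝ) ≤ Fintype.card F + 1 + N := by exact_mod_cast h1
    rw [div_le_div_iff₀ hq0 hN0]
    nlinarith
  have ha : ∀ j, 0.9 / (N : ℝ) ≤ ((Y.B j).card : ℝ) / Fintype.card F := by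
    intro j
    have h1 := hY.lo j
    have h2 : (Fintype.card F : ℝ) + 1 ≤ N * (((Y.B j).card : ℝ) + 1) := by exact_mod_cast h1
    rw [div_le_div_iff₀ hN0 hq0]
    nlinarith
  have hev : Even N := by
    rw [hN]; unfold NN; exact ⟨2 * Nat.log 2 (Fintype.card F) + 10, by ring⟩
  obtain ⟨hc1, hc2⟩ := card_half_lo N hev
  have hhalf : ∀ J : Finset (Fin N), 2 * J.card = N →
      1 / (20 * (N : ℝ)) ≤ PP (fun ω : Option F × Bool → F => ∃ j ∈ J, Y.rb j (hs ω (0, 0))) := by
    intro J hJ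
    have hJ' : (J.card : ℝ) = N / 2 := by
      have : 2 * (J.card : ℝ) = N := by exact_mod_cast hJ
      linarith
    refine le_trans ?_ (PP_rb_exists_ge Y (0, 0) J (0.9 / N) (1.1 / N) 0.25 (by positivity)
      (by positivity) (by norm_num) hb ha)
    rw [hJ']
    have h1 : (1.1 : ℝ) / N ≤ 0.055 := by rw [div_le_iff₀ hN0]; nlinarith
    have e : 2 * 0.25 * ((N : ℝ) / 2 * (0.9 / N) ^ 2)
        - 0.25 ^ 2 * (N * (1.1 / N + (1.1 / N) ^ 2) ^ 2 + N ^ 2 * (1.1 / N) ^ 4)
        = (1 / N) * (0.2025 - 0.0625 * (1.21 * (1 + 1.1 / N) ^ 2 + 1.331 * (1.1 / N))) := by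
      field_simp
      ring
    rw [e]
    have e2 : 1 / (20 * (N : ℝ)) = (1 / N) * 0.05 := by
      field_simp
      norm_num
    rw [e2]
    have h2 : 0 ≤ (1.1 : ℝ) / N := by positivity
    have h3 : (0 : ℝ) ≤ 1 / N := by positivity
    refine mul_le_mul_of_nonneg_left ?_ h3
    nlinarith
  rw [p12_eq]
  have g1 := hhalf _ hc1
  have g2 := hhalf _ hc2
  calc 1 / (500 * (N : ℝ) ^ 2) ≤ 1 / (20 * (N : ℝ)) * (1 / (20 * (N : ℝ))) := by
        rw [← one_div_mul_one_div_rev, ← one_div_mul_one_div_rev]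
        have : 0 ≤ 1 / (N : ℝ) := by positivity
        have e : 1 / ((N : ℝ) ^ 2) = (1 / N) * (1 / N) := by
          field_simp
        rw [e]
        nlinarith [mul_nonneg this this]
    _ ≤ _ := mul_le_mul g1 g2 (by positivity) (PP_nonneg _)

end Crest.Agent.H17Ry
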