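import Mathlib
import Crest.Agent.H17Main

set_option autoImplicit false

open MeasureTheory MeasureTheory.Measure Module
open scoped ENNReal RealInnerProductSpace

namespace Crest.Agent.H17Tet

open Crest.Agent.H17Area Crest.Agent.H17Cyl Crest.Agent.H17Cover Crest.Agent.H17Sum Crest.Agent.H17Proj
  Crest.Agent.H17Main

/-- the parallelogram -/
def Par (c a b : E3) : Set E3 :=
  {x : E3 | ∃ s ∈ Set.Icc (0 : ℝ) 1, ∃ t ∈ Set.Icc (0 : ℝ) 1, x = c + s • a + t • b}

lemma parea_smul_left (r : ℝ) (a b : E3) (hr : 0 ≤ r) : parea (r • a) b = r * parea a b := by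
  unfold parea
  rw [norm_smul, inner_smul_left, Real.norm_eq_abs, abs_of_nonneg hr]
  have : (r * ‖a‖) ^ 2 * ‖b‖ ^ 2 - ((starRingEnd ℝ) r * inner ℝ a b) ^ 2 =
      r ^ 2 * (‖a‖ ^ 2 * ‖b‖ ^ 2 - inner ℝ a b ^ 2) := by
    simp only [conj_trivial]; ring
  rw [this, Real.sqrt_mul (sq_nonneg r), Real.sqrt_sq hr]

lemma parea_comm (a b : E3) : parea a b = parea b a := by
  unfold parea
  rw [real_inner_comm, mul_comm]

lemma parea_smul_right (r : ℝ) (a b : E3) (hr : 0 ≤ r) : parea a (r • b) = r * parea a b := by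
  rw [parea_comm, parea_smul_left r b a hr, parea_comm]

lemma parea_shear (a b : E3) : parea a (b - a) = parea a b := by
  unfold parea
  congr 1
  rw [@norm_sub_sq ℝ, inner_sub_right, real_inner_self_eq_norm_sq, real_inner_comm a b]
  simp only [RCLike.re_to_real]
  ring

/-- splitting a triangle in strips -/
lemma tri_sub_strips (p q r : E3) (M : ℕ) (hM : 0 < M) :
    convexHull ℝ ({p, q, r} : Set E3) ⊆ ⋃ k : Fin M,
      Par (p + ((k : ℕ) / M : ℝ) • (q - p)) ((1 / M : ℝ) • (q - p)) ((((k : ℕ) + 1) / M : ℝ) • (r - q)) := by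
  have hM' : (0 : ℝ) < M := by exact_mod_cast hM
  rw [convexHull_triple_eq_image]
  rintro z ⟨x, ⟨hx0, hx1, hx2⟩, rfl⟩
  rw [Set.mem_iUnion]
  set σ := x 0 + x 1 with hσ
  have hσ0 : 0 ≤ σ := by positivity
  -- choose k
  obtain ⟨k, hk, h1, h2⟩ : ∃ k < M, (k : ℝ) / M ≤ σ ∧ σ ≤ ((k : ℝ) + 1) / M := by
    by_cases hσ1 : σ = 1
    · refine ⟨M - 1, by omega, ?_, ?_⟩
      · rw [hσ1, div_le_one hM']
        have : ((M - 1 : ℕ) : ℝ) ≤ M := by exact_mod_cast Nat.sub_le _ _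
        exact this
      · rw [hσ1, le_div_iff₀ hM', one_mul]
        have : (M : ℝ) = ((M - 1 : ℕ) : ℝ) + 1 := by
          have h : M = (M - 1) + 1 := by omega
          exact_mod_cast h
        linarith
    · have hlt : σ < 1 := lt_of_le_of_ne hx2 hσ1
      refine ⟨⌊σ * M⌋₊, ?_, ?_, ?_⟩
      · rw [Nat.floor_lt (by positivity)]
        nlinarith
      · rw [div_le_iff₀ hM']
        exact Nat.floor_le (by positivity)
      · rw [le_div_iff₀ hM']
        exact (Nat.lt_floor_add_one _).le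
  refine ⟨⟨k, hk⟩, M * (σ - k / M), ⟨?_, ?_⟩, x 1 / ((k + 1) / M), ⟨?_, ?_⟩, ?_⟩
  · have : 0 ≤ σ - k / M := by linarith
    positivity
  · have h3 : σ - k / M ≤ 1 / M := by
      have : ((k : ℝ) + 1) / M = k / M + 1 / M := by ring
      linarith
    calc (M : ℝ) * (σ - k / M) ≤ M * (1 / M) := by gcongr
      _ = 1 := by field_simp
  · positivity
  · rw [div_le_one (by positivity)]
    linarith
  · simp only
    have e1 : (M : ℝ) * (σ - k / M) * (1 / M) = σ - k / M := by field_simp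
    have e2 : x 1 / (((k : ℝ) + 1) / M) * (((k : ℝ) + 1) / M) = x 1 := by field_simp
    rw [smul_smul, smul_smul, e1, e2, hσ]
    module

lemma strips_area (p q r : E3) (M : ℕ) (hM : 0 < M) :
    ∑ k : Fin M, parea ((1 / M : ℝ) • (q - p)) ((((k : ℕ) + 1) / M : ℝ) • (r - q)) =
      (1 + 1 / M) * (parea (q - p) (r - p) / 2) := by
  have hM' : (0 : ℝ) < M := by exact_mod_cast hM
  have h1 : ∀ k : Fin M, parea ((1 / M : ℝ) • (q - p)) ((((k : ℕ) + 1) / M : ℝ) • (r - q)) =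
      (1 / M ^ 2) * parea (q - p) (r - p) * (((k : ℕ) : ℝ) + 1) := by
    intro k
    rw [parea_smul_left _ _ _ (by positivity), parea_smul_right _ _ _ (by positivity)]
    have : r - q = (r - p) - (q - p) := by abel
    rw [this, parea_shear]
    field_simp
  simp only [h1]
  rw [← Finset.mul_sum, Fin.sum_univ_eq_sum_range (fun k => ((k : ℝ) + 1)) M]
  have h2 : ∀ m : ℕ, ∑ k ∈ Finset.range m, ((k : ℝ) + 1) = m * (m + 1) / 2 := by
    intro m
    induction m with
    | zero => simp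
    | succ m ih => rw [Finset.sum_range_succ, ih]; push_cast; ring
  rw [h2]
  field_simp

/-- cover of the standard tetrahedron by parallelogram cylinders -/
theorem std_par_cover : ∃ (k : ℕ) (u c a b : Fin k → E3), (∀ i, ‖u i‖ = 1) ∧
      (∀ i, inner ℝ (c i) (u i) = 0 ∧ inner ℝ (a i) (u i) = 0 ∧ inner ℝ (b i) (u i) = 0) ∧
      (∀ x ∈ KK, ∃ i, ∃ s ∈ Set.Icc (0 : ℝ) 1, ∃ t ∈ Set.Icc (0 : ℝ) 1, ∃ τ : ℝ,
        x = c i + s • a i + t • b i + τ • u i) ∧
      ∑ i, parea (a i) (b i) ≤ Real.sqrt 2 * (1 / 2 - 3 / 1000000000) := by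
  obtain ⟨n, hn⟩ : ∃ n : ℕ, 2000001 ≤ n := ⟨_, le_refl _⟩
  obtain ⟨u, p, q, r, hu, horth, hcov, hsum⟩ := main_cover 0 le_rfl n hn
  obtain ⟨M, hM⟩ : ∃ M : ℕ, M = 100000000 := ⟨_, rfl⟩
  have hM0 : 0 < M := by omega
  let E : Fin n × Fin M ≃ Fin (n * M) := finProdFinEquiv
  refine ⟨n * M, fun i => u (E.symm i).1,
    fun i => p (E.symm i).1 + (((E.symm i).2 : ℕ) / M : ℝ) • (q (E.symm i).1 - p (E.symm i).1),
    fun i => (1 / M : ℝ) • (q (E.symm i).1 - p (E.symm i).1),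
    fun i => ((((E.symm i).2 : ℕ) + 1) / M : ℝ) • (r (E.symm i).1 - q (E.symm i).1), ?_, ?_, ?_, ?_⟩
  · intro i; exact hu _
  · intro i
    obtain ⟨h1, h2, h3⟩ := horth (E.symm i).1
    refine ⟨?_, ?_, ?_⟩
    · rw [inner_add_left, inner_smul_left, inner_sub_left, h1, h2]; simp
    · rw [inner_smul_left, inner_sub_left, h1, h2]; simp
    · rw [inner_smul_left, inner_sub_left, h2, h3]; simp
  · intro x hx
    have h1 := hcov hx
    rw [Set.mem_iUnion] at h1
    obtain ⟨i, y, hy, τ, rfl⟩ := h1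
    have h2 := tri_sub_strips (p i) (q i) (r i) M hM0 hy
    rw [Set.mem_iUnion] at h2
    obtain ⟨k, s, hs, t, ht, rfl⟩ := h2
    refine ⟨E (i, k), s, hs, t, ht, τ, ?_⟩
    simp only [Equiv.symm_apply_apply]
  · rw [← E.sum_comp]
    simp only [Equiv.symm_apply_apply]
    rw [Fintype.sum_prod_type]
    simp only [strips_area _ _ _ M hM0]
    rw [← Finset.mul_sum]
    have h3 : ∑ i, parea (q i - p i) (r i - p i) / 2 = S0 := by
      rw [add_zero] at hsum
      rw [← hsum]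
      apply Finset.sum_congr rfl
      intro i _
      rw [euclideanHausdorff_triangle_toReal]
    rw [h3]
    have h4 := S0_le
    have hs : 0 < Real.sqrt 2 := by positivity
    have hMr : (M : ℝ) = 100000000 := by rw [hM]; norm_num
    rw [hMr]
    calc (1 + 1 / 100000000) * S0 ≤ (1 + 1 / 100000000) * (Real.sqrt 2 * (1 / 2 - 86 / 10000000000)) := by gcongr
      _ ≤ _ := by nlinarith

end Crest.Agent.H17Tet
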