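import Mathlib
import Crest.Agent.H17Tet

set_option autoImplicit false

open MeasureTheory MeasureTheory.Measure Module
open scoped ENNReal RealInnerProductSpace Pointwise

namespace Crest.Agent.H17Tet2

open Crest.Agent.H17Area Crest.Agent.H17Cyl Crest.Agent.H17Cover Crest.Agent.H17Sum Crest.Agent.H17Proj
  Crest.Agent.H17Main Crest.Agent.H17Tet

lemma exists_iso (w : Fin 4 → E3) (ℓ : ℝ) (hℓ : 0 < ℓ) (hw : ∀ i j, i ≠ j → dist (w i) (w j) = ℓ) :
    ∃ (O : E3) (U : E3 ≃ₗᵢ[ℝ] E3),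
      convexHull ℝ (Set.range w) = (fun x => O + (ℓ / 2) • U x) '' KK := by
  have hs : Real.sqrt 2 * Real.sqrt 2 = 2 := Real.mul_self_sqrt (by norm_num)
  have hs0 : 0 < Real.sqrt 2 := by positivity
  set a := w 0 - w 3 with ha
  set b := w 1 - w 3 with hb
  set c := w 2 - w 3 with hc
  have na : ‖a‖ ^ 2 = ℓ ^ 2 := by rw [ha, ← dist_eq_norm, hw 0 3 (by decide)]
  have nb : ‖b‖ ^ 2 = ℓ ^ 2 := by rw [hb, ← dist_eq_norm, hw 1 3 (by decide)]
  have nc : ‖c‖ ^ 2 = ℓ ^ 2 := by rw [hc, ← dist_eq_norm, hw 2 3 (by decide)]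
  have nab : ‖a - b‖ ^ 2 = ℓ ^ 2 := by
    have : a - b = w 0 - w 1 := by rw [ha, hb]; abel
    rw [this, ← dist_eq_norm, hw 0 1 (by decide)]
  have nac : ‖a - c‖ ^ 2 = ℓ ^ 2 := by
    have : a - c = w 0 - w 2 := by rw [ha, hc]; abel
    rw [this, ← dist_eq_norm, hw 0 2 (by decide)]
  have nbc : ‖b - c‖ ^ 2 = ℓ ^ 2 := by
    have : b - c = w 1 - w 2 := by rw [hb, hc]; abel
    rw [this, ← dist_eq_norm, hw 1 2 (by decide)]
  rw [@norm_sub_sq ℝ, na, nb] at nab
  rw [@norm_sub_sq ℝ, na, nc] at nac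
  rw [@norm_sub_sq ℝ, nb, nc] at nbc
  simp only [RCLike.re_to_real] at nab nac nbc
  have iab : inner ℝ a b = ℓ ^ 2 / 2 := by linarith
  have iac : inner ℝ a c = ℓ ^ 2 / 2 := by linarith
  have ibc : inner ℝ b c = ℓ ^ 2 / 2 := by linarith
  have iba : inner ℝ b a = ℓ ^ 2 / 2 := by rw [real_inner_comm]; exact iab
  have ica : inner ℝ c a = ℓ ^ 2 / 2 := by rw [real_inner_comm]; exact iac
  have icb : inner ℝ c b = ℓ ^ 2 / 2 := by rw [real_inner_comm]; exact ibc
  have iaa : inner ℝ a a = ℓ ^ 2 := by rw [real_inner_self_eq_norm_sq, na]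
  have ibb : inner ℝ b b = ℓ ^ 2 := by rw [real_inner_self_eq_norm_sq, nb]
  have icc : inner ℝ c c = ℓ ^ 2 := by rw [real_inner_self_eq_norm_sq, nc]
  let f : Fin 3 → E3 := ![(1 / ℓ) • (a - b), (1 / ℓ) • c, (Real.sqrt 2 / (2 * ℓ)) • (c - a - b)]
  have horth : Orthonormal ℝ f := by
    have hsq : Real.sqrt 2 ^ 2 = 2 := Real.sq_sqrt (by norm_num)
    rw [orthonormal_iff_ite]
    intro i j
    fin_cases i <;> fin_cases j <;>
      simp [f, inner_smul_left, inner_smul_right, inner_sub_left, inner_sub_right,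
        -inner_self_eq_norm_sq_to_K, iab, iac, ibc, iba, ica, icb, iaa, ibb, icc] <;> field_simp <;>
      (try rw [hsq]) <;> (try ring_nf) <;> (try simp)
  have hcard : Fintype.card (Fin 3) = finrank ℝ E3 := by simp
  let B : OrthonormalBasis (Fin 3) ℝ E3 := basisOfOrthonormalOfCardEqFinrank horth hcard |>.toOrthonormalBasis (by
    simpa using horth)
  have hB : ∀ i, B i = f i := by
    intro i; simp [B]
  have hU : ∀ x : E3, B.repr.symm x = x 0 • f 0 + x 1 • f 1 + x 2 • f 2 := by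
    intro x
    have := B.sum_repr_symm x
    rw [Fin.sum_univ_three] at this
    rw [← this, hB, hB, hB]
  refine ⟨(1 / 2 : ℝ) • (w 0 + w 1), B.repr.symm, ?_⟩
  have himg : (fun x => (1 / 2 : ℝ) • (w 0 + w 1) + (ℓ / 2) • B.repr.symm x) '' KK =
      convexHull ℝ ((fun x => (1 / 2 : ℝ) • (w 0 + w 1) + (ℓ / 2) • B.repr.symm x) ''
        {!₂[1, 0, 0], !₂[-1, 0, 0], !₂[0, 1, Real.sqrt 2], !₂[0, -1, Real.sqrt 2]}) := by
    let A : E3 →ᵃ[ℝ] E3 := AffineMap.const ℝ E3 ((1 / 2 : ℝ) • (w 0 + w 1)) +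
      ((ℓ / 2) • B.repr.symm.toLinearEquiv.toLinearMap).toAffineMap
    have hA : (A : E3 → E3) = fun x => (1 / 2 : ℝ) • (w 0 + w 1) + (ℓ / 2) • B.repr.symm x := by
      funext x; simp [A]
    rw [← hA, A.image_convexHull]
  rw [himg]
  congr 1
  have v0 : (1 / 2 : ℝ) • (w 0 + w 1) + (ℓ / 2) • B.repr.symm !₂[1, 0, 0] = w 0 := by
    rw [hU]; simp [f, ha, hb]
    rw [smul_smul]
    have : ℓ / 2 * ℓ⁻¹ = 1 / 2 := by field_simp
    rw [this]; module
  have v1 : (1 / 2 : ℝ) • (w 0 + w 1) + (ℓ / 2) • B.repr.symm !₂[-1, 0, 0] = w 1 := by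
    rw [hU]; simp [f, ha, hb]
    rw [smul_smul]
    have : ℓ / 2 * ℓ⁻¹ = 1 / 2 := by field_simp
    rw [this]; module
  have v2 : (1 / 2 : ℝ) • (w 0 + w 1) + (ℓ / 2) • B.repr.symm !₂[0, 1, Real.sqrt 2] = w 2 := by
    rw [hU]; simp [f, ha, hb, hc]
    rw [smul_smul, smul_smul, smul_smul]
    have h1 : ℓ / 2 * ℓ⁻¹ = 1 / 2 := by field_simp
    have h2 : ℓ / 2 * Real.sqrt 2 * (Real.sqrt 2 / (2 * ℓ)) = 1 / 2 := by
      field_simp
      nlinarith [hs]
    rw [h1, h2]; module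
  have v3 : (1 / 2 : ℝ) • (w 0 + w 1) + (ℓ / 2) • B.repr.symm !₂[0, -1, Real.sqrt 2] = w 3 := by
    rw [hU]; simp [f, ha, hb, hc]
    rw [smul_smul, smul_smul, smul_smul]
    have h1 : ℓ / 2 * ℓ⁻¹ = 1 / 2 := by field_simp
    have h2 : ℓ / 2 * Real.sqrt 2 * (Real.sqrt 2 / (2 * ℓ)) = 1 / 2 := by
      field_simp
      nlinarith [hs]
    rw [h1, h2]; module
  rw [Set.image_insert_eq, Set.image_insert_eq, Set.image_insert_eq, Set.image_singleton, v0, v1, v2, v3]
  ext x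
  constructor
  · rintro ⟨i, rfl⟩
    fin_cases i <;> simp
  · intro hx
    simp only [Set.mem_insert_iff, Set.mem_singleton_iff] at hx
    rcases hx with rfl | rfl | rfl | rfl
    exacts [⟨0, rfl⟩, ⟨1, rfl⟩, ⟨2, rfl⟩, ⟨3, rfl⟩]


lemma projAlong_iso (U : E3 ≃ₗᵢ[ℝ] E3) (v x : E3) :
    projAlong v (U x) = U (projAlong (U.symm v) x) := by
  have h1 : inner ℝ x (U.symm v) = inner ℝ (U x) v := by
    rw [← U.inner_map_map x (U.symm v), U.apply_symm_apply]
  simp only [projAlong, map_sub, map_smul, U.apply_symm_apply, h1, LinearIsometryEquiv.norm_map]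

lemma image_measure (O : E3) (U : E3 ≃ₗᵢ[ℝ] E3) (h : ℝ) (hh : 0 < h) (S : Set E3) :
    μHE[2] ((fun x => O + h • U x) '' S) = ENNReal.ofReal (h ^ 2) * μHE[2] S := by
  have h1 : (fun x => O + h • U x) '' S = (fun x => O + x) '' (h • (U '' S)) := by
    rw [← Set.image_smul, Set.image_image, Set.image_image]
  rw [h1]
  have h2 : μHE[2] ((fun x => O + x) '' (h • (U '' S))) = μHE[2] (h • (U '' S)) :=
    (IsometryEquiv.addLeft O).isometry.euclideanHausdorffMeasure_image _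
  rw [h2, euclideanHausdorffMeasure_smul₀ 2 hh.ne', U.isometry.euclideanHausdorffMeasure_image]
  rw [ENNReal.smul_def, smul_eq_mul]
  congr 1
  rw [ENNReal.ofReal_pow hh.le]
  push_cast
  congr 1
  have h3 : ‖h‖₊ = h.toNNReal := by
    ext
    rw [coe_nnnorm, Real.norm_eq_abs, abs_of_pos hh, Real.coe_toNNReal _ hh.le]
  rw [h3]; rfl

lemma projW_ge (w : Fin 4 → E3) (ℓ : ℝ) (hℓ : 0 < ℓ) (O : E3) (U : E3 ≃ₗᵢ[ℝ] E3)
    (hK : convexHull ℝ (Set.range w) = (fun x => O + (ℓ / 2) • U x) '' KK) (v : E3) (hv : ‖v‖ = 1) :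
    (ℓ / 2) ^ 2 * Real.sqrt 2 ≤ (μHE[2] (projAlong v '' (convexHull ℝ (Set.range w)))).toReal := by
  have hs : 0 ≤ Real.sqrt 2 := Real.sqrt_nonneg _
  have himg : projAlong v '' (convexHull ℝ (Set.range w)) =
      (fun x => projAlong v O + (ℓ / 2) • U x) '' (projAlong (U.symm v) '' KK) := by
    rw [hK, Set.image_image, Set.image_image]
    apply Set.image_congr
    intro x _
    rw [projAlong_add, projAlong_smul, projAlong_iso]
  rw [himg, image_measure _ _ _ (by positivity), ENNReal.toReal_mul, ENNReal.toReal_ofReal (by positivity)]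
  have hv' : ‖U.symm v‖ = 1 := by rw [LinearIsometryEquiv.norm_map, hv]
  have h1 := proj_ge _ hv'
  have h2 := proj_lt_top _ hv'
  have h3 := ENNReal.toReal_mono h2.ne h1
  rw [ENNReal.toReal_ofReal hs] at h3
  gcongr

lemma exists_frame_orth' (v : E3) (hv : ‖v‖ = 1) : ∃ e₁ e₂ : E3, ‖e₁‖ = 1 ∧ ‖e₂‖ = 1 ∧ inner ℝ e₁ e₂ = 0 ∧
    inner ℝ e₁ v = 0 ∧ inner ℝ e₂ v = 0 ∧ ∀ y : E3, inner ℝ y v = 0 → y = inner ℝ e₁ y • e₁ + inner ℝ e₂ y • e₂ := by
  have hfin : finrank ℝ E3 = Fintype.card (Fin 3) := by simp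
  let f : Fin 3 → E3 := ![v, 0, 0]
  let B := InnerProductSpace.gramSchmidtOrthonormalBasis hfin f
  have h10 : inner ℝ (B 1) v = 0 := by
    have := InnerProductSpace.gramSchmidtOrthonormalBasis_inv_triangular hfin f (i := 0) (j := 1) (by decide)
    simpa [f] using this
  have h20 : inner ℝ (B 2) v = 0 := by
    have := InnerProductSpace.gramSchmidtOrthonormalBasis_inv_triangular hfin f (i := 0) (j := 2) (by decide)
    simpa [f] using this
  refine ⟨B 1, B 2, B.orthonormal.1 1, B.orthonormal.1 2, B.orthonormal.2 (by decide), h10, h20, fun y hy => ?_⟩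
  have h1 := B.sum_repr' y
  have h2 := B.sum_repr' v
  rw [Fin.sum_univ_three] at h1 h2
  rw [h10, h20, zero_smul, zero_smul, add_zero, add_zero] at h2
  have h5 : inner ℝ (B 0) y = 0 := by
    have hc : inner ℝ (B 0) v ≠ 0 := by
      intro h0
      rw [h0, zero_smul] at h2
      rw [← h2] at hv
      simp at hv
    rw [← h2, inner_smul_right] at hy
    have := (mul_eq_zero.mp hy).resolve_left hc
    rw [real_inner_comm]; exact this
  rw [h5, zero_smul, zero_add] at h1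
  exact h1.symm

/-- compact subsets of the plane orthogonal to `v` have relatively open bounded neighbourhoods of almost the
same area -/
lemma open_enlarge (v : E3) (hv : ‖v‖ = 1) (B : Set E3) (hB : IsCompact B) (hBv : ∀ x ∈ B, inner ℝ x v = 0)
    (ε : ℝ) (hε : 0 < ε) : ∃ B' : Set E3, B ⊆ B' ∧ Bornology.IsBounded B' ∧
      (∃ O : Set E3, IsOpen O ∧ B' = O ∩ {x | inner ℝ x v = 0}) ∧
      (μHE[2] B').toReal ≤ (μHE[2] B).toReal + ε := by
  obtain ⟨e₁, e₂, h1, h2, h12, h1v, h2v, hexp⟩ := exists_frame_orth' v hv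
  let ι := planeIso e₁ e₂ h1 h2 h12
  let g : E3 → E2 := fun y => !₂[inner ℝ e₁ y, inner ℝ e₂ y]
  have hgc : Continuous g := by
    apply (PiLp.continuous_toLp 2 _).comp
    apply continuous_pi
    intro i
    fin_cases i
    · simp; fun_prop
    · simp; fun_prop
  have hιg : ∀ x, inner ℝ x v = 0 → ι (g x) = x := by
    intro x hx
    show (g x) 0 • e₁ + (g x) 1 • e₂ = x
    conv_rhs => rw [hexp x hx]
    simp [g]
  have hgι : ∀ p : E2, g (ι p) = p := by
    intro p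
    have : ι p = p 0 • e₁ + p 1 • e₂ := rfl
    ext i
    have h21 : inner ℝ e₂ e₁ = 0 := by rw [real_inner_comm]; exact h12
    fin_cases i
    · simp [g, this, inner_add_right, inner_smul_right, h12, h1]
    · simp [g, this, inner_add_right, inner_smul_right, h21, h2]
  have hιv : ∀ p : E2, inner ℝ (ι p) v = 0 := by
    intro p
    have : ι p = p 0 • e₁ + p 1 • e₂ := rfl
    rw [this, inner_add_left, inner_smul_left, inner_smul_left, h1v, h2v]; simp
  have hBimg : B = ι '' (g '' B) := by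
    rw [Set.image_image]
    ext x
    constructor
    · intro hx; exact ⟨x, hx, hιg x (hBv x hx)⟩
    · rintro ⟨y, hy, rfl⟩
      have := hιg y (hBv y hy)
      simp only
      rw [this]; exact hy
  have hgB : IsCompact (g '' B) := hB.image hgc
  have hmu : ∀ S : Set E2, μHE[2] (ι '' S) = volume S := by
    intro S
    rw [ι.isometry.euclideanHausdorffMeasure_image, EuclideanSpace.euclideanHausdorffMeasure_eq_volume]
  -- an open neighbourhood
  obtain ⟨S₁, hS₁, hS₁o, hS₁v⟩ := (g '' B).exists_isOpen_le_add (volume : Measure E2)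
    (ε := ENNReal.ofReal ε) (by positivity)
  obtain ⟨R, hR⟩ := hgB.isBounded.subset_ball 0
  let S : Set E2 := S₁ ∩ Metric.ball 0 R
  have hSo : IsOpen S := hS₁o.inter Metric.isOpen_ball
  have hSb : Bornology.IsBounded S := Metric.isBounded_ball.subset Set.inter_subset_right
  have hBS : g '' B ⊆ S := Set.subset_inter hS₁ hR
  refine ⟨ι '' S, ?_, ?_, ⟨g ⁻¹' S, hSo.preimage hgc, ?_⟩, ?_⟩
  · rw [hBimg]; exact Set.image_mono hBS
  · exact ι.isometry.lipschitz.isBounded_image hSb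
  · ext x
    constructor
    · rintro ⟨p, hp, rfl⟩
      refine ⟨?_, hιv p⟩
      show g (ι p) ∈ S
      rw [hgι]; exact hp
    · rintro ⟨hx1, hx2⟩
      exact ⟨g x, hx1, hιg x hx2⟩
  · have hlt : volume (g '' B) < ⊤ := hgB.measure_lt_top
    have h3 : μHE[2] (ι '' S) ≤ μHE[2] B + ENNReal.ofReal ε := by
      rw [hmu]
      conv_rhs => rw [hBimg, hmu]
      exact (measure_mono Set.inter_subset_left).trans hS₁v
    have h4 : μHE[2] B ≠ ⊤ := by
      rw [hBimg, hmu]; exact hlt.ne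
    have h5 := ENNReal.toReal_mono (ENNReal.add_ne_top.mpr ⟨h4, ENNReal.ofReal_ne_top⟩) h3
    rwa [ENNReal.toReal_add h4 ENNReal.ofReal_ne_top, ENNReal.toReal_ofReal hε.le] at h5

end Crest.Agent.H17Tet2
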