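import Crest.Prelude.Def_ProductShift

/-! rid 113 (S0151): norms of the powers and moments. -/

set_option autoImplicit false
open MeasureTheory Crest.AnalysisR.ProductShift
open scoped ENNReal

namespace Crest.R113.H17

/-- product of the weights -/
noncomputable def WW (θ c : ℕ → ℝ) (n : ℕ) (p : (ℕ → ℝ) × ℤ) : ℝ :=
  ∏ j ∈ Finset.range n, weight θ c (orbitPoint θ (p.2 - 1 - (j : ℤ)) p.1)

def sh (n : ℕ) (p : (ℕ → ℝ) × ℤ) : (ℕ → ℝ) × ℤ := (p.1, p.2 - (n : ℤ))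

theorem sh_mp (n : ℕ) : MeasurePreserving (sh n) pairMeasure pairMeasure := by
  have h1 : MeasurePreserving (fun k : ℤ => k - (n : ℤ)) Measure.count Measure.count :=
    measurePreserving_sub_right _ _
  exact (MeasurePreserving.id cubeMeasure).prod h1

theorem weight_nonneg (θ c : ℕ → ℝ) (x : ℕ → ℝ) : 0 ≤ weight θ c x := by
  unfold weight
  split_ifs
  · exact le_rfl
  · exact (Real.exp_pos _).le

theorem pow_apply (θ c : ℕ → ℝ) (T : pairSpace →L[ℂ] pairSpace) (hT : IsWeightedShift θ c T)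
    (n : ℕ) : ∀ g : pairSpace, ((T ^ n) g : (ℕ → ℝ) × ℤ → ℂ) =ᵐ[pairMeasure]
      fun p => (WW θ c n p : ℂ) * (g : (ℕ → ℝ) × ℤ → ℂ) (sh n p) := by
  induction n with
  | zero =>
    intro g
    filter_upwards with p
    simp [WW, sh]
  | succ n ih =>
    intro g
    have h1 := hT ((T ^ n) g)
    have h2 := (sh_mp 1).quasiMeasurePreserving.ae (ih g)
    have h3 : (T ^ (n + 1)) g = T ((T ^ n) g) := by
      rw [pow_succ']; rfl
    rw [h3]
    filter_upwards [h1, h2] with p hp1 hp2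
    rw [hp1]
    have h4 : ((p.1, p.2 - 1) : (ℕ → ℝ) × ℤ) = sh 1 p := by simp [sh]
    rw [h4, hp2]
    have h5 : WW θ c (n + 1) p = weight θ c (orbitPoint θ (p.2 - 1) p.1) * WW θ c n (sh 1 p) := by
      unfold WW
      rw [Finset.prod_range_succ', mul_comm]
      congr 1
      · simp
      · refine Finset.prod_congr rfl ?_
        intro j _
        congr 2
        simp only [sh]
        push_cast
        ring
    have h6 : sh n (sh 1 p) = sh (n + 1) p := by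
      simp only [sh, Prod.mk.injEq, true_and]
      push_cast
      ring
    rw [h5, h6]
    push_cast
    ring

theorem weight_le (θ c : ℕ → ℝ) (hc : ∀ i, 0 ≤ c i) (hθ : ∀ i, 0 < θ i ∧ θ i < 1)
    (M : ℕ) (y : ℕ → ℝ) (hy : ∀ i, 0 ≤ y i) :
    weight θ c y ≤ Real.exp (-(∑ i ∈ Finset.range M, c i * (⌊y i + θ i⌋ : ℝ))) := by
  unfold weight
  split_ifs with h
  · exact (Real.exp_pos _).le
  · apply Real.exp_le_exp.2
    have hnn : ∀ i, 0 ≤ c i * (⌊y i + θ i⌋ : ℝ) := by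
      intro i
      apply mul_nonneg (hc i)
      have : (0 : ℤ) ≤ ⌊y i + θ i⌋ := Int.floor_nonneg.2 (add_nonneg (hy i) (hθ i).1.le)
      exact_mod_cast this
    have h1 : ENNReal.ofReal (∑ i ∈ Finset.range M, c i * (⌊y i + θ i⌋ : ℝ)) ≤ dropCost θ c y := by
      rw [ENNReal.ofReal_sum_of_nonneg (fun i _ => hnn i)]
      exact ENNReal.sum_le_tsum _
    have h2 : (∑ i ∈ Finset.range M, c i * (⌊y i + θ i⌋ : ℝ)) ≤ (dropCost θ c y).toReal := by
      rw [← ENNReal.toReal_ofReal (Finset.sum_nonneg fun i _ => hnn i)]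
      exact ENNReal.toReal_mono h h1
    linarith

theorem floor_sum (θ x : ℝ) (k : ℤ) (n : ℕ) :
    (n : ℝ) * θ - 1 ≤ ∑ j ∈ Finset.range n,
      (⌊Int.fract (x + ((k - 1 - (j : ℤ) : ℤ) : ℝ) * θ) + θ⌋ : ℝ) := by
  have h1 : ∀ j ∈ Finset.range n,
      (⌊Int.fract (x + ((k - 1 - (j : ℤ) : ℤ) : ℝ) * θ) + θ⌋ : ℝ) =
      (⌊x + ((k : ℝ) - (j : ℕ)) * θ⌋ : ℝ) - (⌊x + ((k : ℝ) - ((j + 1 : ℕ) : ℝ)) * θ⌋ : ℝ) := by
    intro j _
    have h2 : Int.fract (x + ((k - 1 - (j : ℤ) : ℤ) : ℝ) * θ) + θ =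
        (x + ((k : ℝ) - (j : ℕ)) * θ) - (⌊x + ((k : ℝ) - ((j + 1 : ℕ) : ℝ)) * θ⌋ : ℝ) := by
      unfold Int.fract
      have h3 : x + ((k - 1 - (j : ℤ) : ℤ) : ℝ) * θ = x + ((k : ℝ) - ((j + 1 : ℕ) : ℝ)) * θ := by
        push_cast
        ring
      rw [h3]
      push_cast
      ring
    rw [h2, Int.floor_sub_intCast]
    push_cast
    ring
  rw [Finset.sum_congr rfl h1,
    Finset.sum_range_sub' (fun j : ℕ => (⌊x + ((k : ℝ) - (j : ℝ)) * θ⌋ : ℝ))]
  have h4 := Int.sub_one_lt_floor (x + ((k : ℝ) - ((0 : ℕ) : ℝ)) * θ)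
  have h5 := Int.floor_le (x + ((k : ℝ) - (n : ℝ)) * θ)
  push_cast at h4 h5 ⊢
  linarith

theorem WW_nonneg (θ c : ℕ → ℝ) (n : ℕ) (p : (ℕ → ℝ) × ℤ) : 0 ≤ WW θ c n p :=
  Finset.prod_nonneg fun _ _ => weight_nonneg _ _ _

theorem WW_le (θ c : ℕ → ℝ) (hc : ∀ i, 0 ≤ c i) (hθ : ∀ i, 0 < θ i ∧ θ i < 1) (M n : ℕ)
    (p : (ℕ → ℝ) × ℤ) :
    WW θ c n p ≤ Real.exp (-(∑ i ∈ Finset.range M, c i * ((n : ℝ) * θ i - 1))) := by
  have h1 : WW θ c n p ≤ ∏ j ∈ Finset.range n, Real.exp (-(∑ i ∈ Finset.range M,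
      c i * (⌊orbitPoint θ (p.2 - 1 - (j : ℤ)) p.1 i + θ i⌋ : ℝ))) := by
    apply Finset.prod_le_prod
    · intro j _; exact weight_nonneg _ _ _
    · intro j _
      exact weight_le θ c hc hθ M _ (fun i => Int.fract_nonneg _)
  rw [← Real.exp_sum] at h1
  refine h1.trans (Real.exp_le_exp.2 ?_)
  rw [Finset.sum_neg_distrib, neg_le_neg_iff, Finset.sum_comm]
  apply Finset.sum_le_sum
  intro i _
  rw [← Finset.mul_sum]
  apply mul_le_mul_of_nonneg_left _ (hc i)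
  exact floor_sum (θ i) (p.1 i) p.2 n

theorem norm_pow_le (θ c : ℕ → ℝ) (hc : ∀ i, 0 ≤ c i) (hθ : ∀ i, 0 < θ i ∧ θ i < 1)
    (T : pairSpace →L[ℂ] pairSpace) (hT : IsWeightedShift θ c T) (M n : ℕ) :
    ‖T ^ n‖ ≤ Real.exp (-(∑ i ∈ Finset.range M, c i * ((n : ℝ) * θ i - 1))) := by
  apply ContinuousLinearMap.opNorm_le_bound _ (Real.exp_pos _).le
  intro g
  have h1 := pow_apply θ c T hT n g
  have h2 := Lp.coeFn_compMeasurePreserving g (sh_mp n)
  have h3 : ‖(T ^ n) g‖ ≤ Real.exp (-(∑ i ∈ Finset.range M, c i * ((n : ℝ) * θ i - 1))) *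
      ‖Lp.compMeasurePreserving (sh n) (sh_mp n) g‖ := by
    apply Lp.norm_le_mul_norm_of_ae_le_mul
    filter_upwards [h1, h2] with p hp1 hp2
    rw [hp1, hp2, norm_mul, Function.comp_apply]
    apply mul_le_mul_of_nonneg_right _ (norm_nonneg _)
    rw [Complex.norm_real, Real.norm_eq_abs, abs_of_nonneg (WW_nonneg _ _ _ _)]
    exact WW_le θ c hc hθ M n p
  rwa [Lp.norm_compMeasurePreserving] at h3

theorem int_term (θ c : ℝ) (hc : 0 ≤ c) (hθ : 0 < θ ∧ θ < 1) (i : ℕ) :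
    ∫⁻ x, ENNReal.ofReal (c * (⌊x i + θ⌋ : ℝ)) ∂cubeMeasure ≤ ENNReal.ofReal (c * θ) := by
  have hmp : MeasurePreserving (fun x : ℕ → ℝ => x i) cubeMeasure unitLebesgue :=
    measurePreserving_eval_infinitePi _ i
  have hmeas : Measurable (fun t : ℝ => ENNReal.ofReal (c * (⌊t + θ⌋ : ℝ))) := by
    fun_prop
  have h1 : ∫⁻ x, ENNReal.ofReal (c * (⌊x i + θ⌋ : ℝ)) ∂cubeMeasure =
      ∫⁻ t, ENNReal.ofReal (c * (⌊t + θ⌋ : ℝ)) ∂unitLebesgue :=
    hmp.lintegral_comp hmeas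
  rw [h1]
  unfold unitLebesgue
  calc ∫⁻ t in Set.Ico (0:ℝ) 1, ENNReal.ofReal (c * (⌊t + θ⌋ : ℝ))
      ≤ ∫⁻ t in Set.Ico (0:ℝ) 1, (Set.Ico (1 - θ) 1).indicator (fun _ => ENNReal.ofReal c) t := by
        apply setLIntegral_mono' measurableSet_Ico
        intro t ht
        by_cases h : 1 - θ ≤ t
        · rw [Set.indicator_of_mem (show t ∈ Set.Ico (1 - θ) 1 from ⟨h, ht.2⟩)]
          apply ENNReal.ofReal_le_ofReal
          have : ⌊t + θ⌋ ≤ 1 := by
            have : ⌊t + θ⌋ < 2 := by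
              rw [Int.floor_lt]; push_cast; linarith [ht.2, hθ.2]
            omega
          have h2 : (⌊t + θ⌋ : ℝ) ≤ 1 := by exact_mod_cast this
          nlinarith
        · have h2 : ⌊t + θ⌋ = 0 := by
            rw [Int.floor_eq_zero_iff]
            exact ⟨by linarith [ht.1, hθ.1], by linarith⟩
          rw [h2]
          simp
    _ ≤ ∫⁻ t, (Set.Ico (1 - θ) 1).indicator (fun _ => ENNReal.ofReal c) t :=
        setLIntegral_le_lintegral _ _
    _ = ENNReal.ofReal (c * θ) := by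
        rw [lintegral_indicator measurableSet_Ico, setLIntegral_const, Real.volume_Ico,
          ← ENNReal.ofReal_mul hc]
        congr 1
        ring

theorem sum_unbounded (θ c : ℕ → ℝ) (hθ : ∀ i, 0 < θ i ∧ θ i < 1) (hc : ∀ i, 0 ≤ c i)
    (hlog : ∫⁻ x, ENNReal.ofReal (- Real.log (weight θ c x)) ∂cubeMeasure = ⊤) (R : ℝ) :
    ∃ M : ℕ, R ≤ ∑ i ∈ Finset.range M, c i * θ i := by
  have h1 : ∀ x : ℕ → ℝ, ENNReal.ofReal (- Real.log (weight θ c x)) ≤ dropCost θ c x := by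
    intro x
    unfold weight
    split_ifs with h
    · rw [h]; exact le_top
    · rw [Real.log_exp, neg_neg, ENNReal.ofReal_toReal h]
  have h2 : (⊤ : ℝ≥0∞) ≤ ∑' i, ENNReal.ofReal (c i * θ i) := by
    calc (⊤ : ℝ≥0∞) = ∫⁻ x, ENNReal.ofReal (- Real.log (weight θ c x)) ∂cubeMeasure := hlog.symm
      _ ≤ ∫⁻ x, dropCost θ c x ∂cubeMeasure := lintegral_mono h1
      _ = ∑' i, ∫⁻ x, ENNReal.ofReal (c i * (⌊x i + θ i⌋ : ℝ)) ∂cubeMeasure := by
          unfold dropCost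
          rw [lintegral_tsum]
          intro i
          have : Measurable (fun x : ℕ → ℝ => ENNReal.ofReal (c i * (⌊x i + θ i⌋ : ℝ))) := by
            fun_prop
          exact this.aemeasurable
      _ ≤ ∑' i, ENNReal.ofReal (c i * θ i) :=
          ENNReal.tsum_le_tsum fun i => int_term (θ i) (c i) (hc i) (hθ i) i
  by_contra hcon
  push Not at hcon
  have hnn : ∀ i, 0 ≤ c i * θ i := fun i => mul_nonneg (hc i) (hθ i).1.le
  have h3 : Summable (fun i => c i * θ i) :=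
    summable_of_sum_range_le hnn (fun n => (hcon n).le)
  rw [top_le_iff] at h2
  exact h3.tsum_ofReal_ne_top h2

theorem summable_pow (θ c : ℕ → ℝ) (hθ : ∀ i, 0 < θ i ∧ θ i < 1) (hc : ∀ i, 0 ≤ c i)
    (hlog : ∫⁻ x, ENNReal.ofReal (- Real.log (weight θ c x)) ∂cubeMeasure = ⊤)
    (T : pairSpace →L[ℂ] pairSpace) (hT : IsWeightedShift θ c T) (r : ℝ) (hr : 0 < r) :
    Summable (fun n : ℕ => r ^ n * ‖T ^ n‖) := by
  obtain ⟨M, hM⟩ := sum_unbounded θ c hθ hc hlog (Real.log r + 1)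
  have hle : ∀ n : ℕ, r ^ n * ‖T ^ n‖ ≤
      Real.exp (∑ i ∈ Finset.range M, c i) * Real.exp (-1) ^ n := by
    intro n
    have h1 := norm_pow_le θ c hc hθ T hT M n
    have h2 : r ^ n = Real.exp (n * Real.log r) := by
      rw [mul_comm, Real.exp_mul, Real.exp_log hr, Real.rpow_natCast]
    have h3 : Real.exp (-1) ^ n = Real.exp (n * (-1)) := by
      rw [← Real.exp_nat_mul]
    calc r ^ n * ‖T ^ n‖ ≤ Real.exp (n * Real.log r) *
          Real.exp (-(∑ i ∈ Finset.range M, c i * ((n : ℝ) * θ i - 1))) := by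
          rw [h2]
          exact mul_le_mul_of_nonneg_left h1 (Real.exp_pos _).le
      _ ≤ Real.exp (∑ i ∈ Finset.range M, c i) * Real.exp (-1) ^ n := by
          rw [h3, ← Real.exp_add, ← Real.exp_add]
          apply Real.exp_le_exp.2
          have h4 : ∑ i ∈ Finset.range M, c i * ((n : ℝ) * θ i - 1) =
              n * (∑ i ∈ Finset.range M, c i * θ i) - ∑ i ∈ Finset.range M, c i := by
            rw [Finset.mul_sum, ← Finset.sum_sub_distrib]
            refine Finset.sum_congr rfl ?_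
            intro i _; ring
          rw [h4]
          have h5 := mul_le_mul_of_nonneg_left hM (Nat.cast_nonneg (α := ℝ) n)
          linarith
  refine Summable.of_nonneg_of_le (fun n => by positivity) hle ?_
  apply Summable.mul_left
  apply summable_geometric_of_lt_one (Real.exp_pos _).le
  rw [Real.exp_lt_one_iff]
  norm_num

theorem vac_apply : (vacuumVector : (ℕ → ℝ) × ℤ → ℂ) =ᵐ[pairMeasure]
    (Set.univ ×ˢ {(0 : ℤ)} : Set ((ℕ → ℝ) × ℤ)).indicator (fun _ => (1 : ℂ)) := by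
  unfold vacuumVector
  exact indicatorConstLp_coeFn

theorem moments (θ c : ℕ → ℝ) (T : pairSpace →L[ℂ] pairSpace) (hT : IsWeightedShift θ c T)
    (n : ℕ) (hn : 1 ≤ n) : inner ℂ vacuumVector ((T ^ n) vacuumVector) = 0 := by
  rw [L2.inner_def]
  have h1 := pow_apply θ c T hT n vacuumVector
  have h2 := vac_apply
  have h3 := (sh_mp n).quasiMeasurePreserving.ae h2
  rw [← integral_zero ((ℕ → ℝ) × ℤ) ℂ (μ := pairMeasure)]
  apply integral_congr_ae
  filter_upwards [h1, h2, h3] with p hp1 hp2 hp3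
  rw [hp1, hp2, hp3]
  by_cases h0 : p.2 = 0
  · have h4 : sh n p ∉ (Set.univ ×ˢ {(0 : ℤ)} : Set ((ℕ → ℝ) × ℤ)) := by
      intro h
      have h5 : p.2 - (n : ℤ) = 0 := h.2
      omega
    rw [Set.indicator_of_notMem h4]
    simp
  · have h4 : p ∉ (Set.univ ×ˢ {(0 : ℤ)} : Set ((ℕ → ℝ) × ℤ)) := by
      intro h
      exact h0 h.2
    rw [Set.indicator_of_notMem h4]
    simp

theorem quasi (θ c : ℕ → ℝ) (hθ : ∀ i, 0 < θ i ∧ θ i < 1) (hc : ∀ i, 0 ≤ c i)
    (hlog : ∫⁻ x, ENNReal.ofReal (- Real.log (weight θ c x)) ∂cubeMeasure = ⊤)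
    (T : pairSpace →L[ℂ] pairSpace) (hT : IsWeightedShift θ c T) :
    (∀ r : ℝ, 0 < r → Summable (fun n : ℕ => r ^ n * ‖T ^ n‖)) ∧
    (∀ n : ℕ, 1 ≤ n → inner ℂ vacuumVector ((T ^ n) vacuumVector) = 0) :=
  ⟨summable_pow θ c hθ hc hlog T hT, moments θ c T hT⟩

end Crest.R113.H17
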