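import Mathlib
set_option autoImplicit false
open Set MeasureTheory
open scoped ContDiff NNReal

namespace Crest.Agent.H18Flow

abbrev I := Icc (-1:ℝ) 1
abbrev X := C(I, ℂ)

theorem neg_one_le_one' : (-1:ℝ) ≤ 1 := by norm_num

/-- extension of `f` to the line -/
noncomputable def ext (f : X) (r : ℝ) : ℂ := f (projIcc (-1) 1 neg_one_le_one' r)

theorem continuous_ext (f : X) : Continuous (ext f) :=
  f.continuous.comp continuous_projIcc

theorem norm_ext_le (f : X) (r : ℝ) : ‖ext f r‖ ≤ ‖f‖ := f.norm_coe_le_norm _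

noncomputable def Jfun (f : X) : X :=
  ⟨fun t => ∫ r in (0:ℝ)..t, ext f r,
    (intervalIntegral.continuous_primitive
      (fun a b => (continuous_ext f).intervalIntegrable a b) 0).comp continuous_subtype_val⟩

theorem Jfun_apply (f : X) (t : I) : Jfun f t = ∫ r in (0:ℝ)..t, ext f r := rfl

theorem norm_Jfun_le (f : X) : ‖Jfun f‖ ≤ ‖f‖ := by
  rw [ContinuousMap.norm_le _ (norm_nonneg _)]
  intro t
  rw [Jfun_apply]
  have h := intervalIntegral.norm_integral_le_of_norm_le_const (a := 0) (b := (t:ℝ)) (C := ‖f‖)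
    (f := ext f) (fun x _ => norm_ext_le f x)
  have ht : |(t:ℝ) - 0| ≤ 1 := by
    rw [sub_zero, abs_le]; exact t.2
  calc _ ≤ ‖f‖ * |(t:ℝ) - 0| := h
    _ ≤ ‖f‖ * 1 := by gcongr
    _ = ‖f‖ := mul_one _

noncomputable def J : X →L[ℝ] X :=
  LinearMap.mkContinuous
    { toFun := Jfun
      map_add' := by
        intro f g
        ext t
        simp only [Jfun_apply, ContinuousMap.add_apply]
        rw [← intervalIntegral.integral_add ((continuous_ext f).intervalIntegrable _ _)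
          ((continuous_ext g).intervalIntegrable _ _)]
        rfl
      map_smul' := by
        intro c f
        ext t
        simp only [Jfun_apply, ContinuousMap.smul_apply, RingHom.id_apply]
        rw [← intervalIntegral.integral_smul]
        rfl } 1 (fun f => by simpa using norm_Jfun_le f)

theorem J_apply (f : X) (t : I) : J f t = ∫ r in (0:ℝ)..t, ext f r := rfl

theorem norm_J_le (f : X) : ‖J f‖ ≤ ‖f‖ := norm_Jfun_le f

variable {n : ℕ}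

abbrev E (n : ℕ) := Fin n → ℂ
abbrev Y (n : ℕ) := Fin n → X

noncomputable def Jn : Y n →L[ℝ] Y n :=
  ContinuousLinearMap.pi (fun j => J.comp (ContinuousLinearMap.proj j))

theorem Jn_apply (u : Y n) (j : Fin n) : Jn u j = J (u j) := rfl

theorem norm_Jn_le (u : Y n) : ‖Jn u‖ ≤ ‖u‖ := by
  rw [pi_norm_le_iff_of_nonneg (norm_nonneg _)]
  intro j
  rw [Jn_apply]
  exact (norm_J_le _).trans (norm_le_pi_norm u j)

/-- the constant functions -/
noncomputable def cst : E n →L[ℝ] Y n :=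
  ContinuousLinearMap.pi (fun j => 
    ({ toFun := fun z : E n => ContinuousMap.const I (z j)
       map_add' := by intros; rfl
       map_smul' := by intros; rfl
       cont := by
        have : Continuous fun z : E n => z j := by fun_prop
        exact ContinuousMap.continuous_const'.comp this } : E n →L[ℝ] X))

theorem cst_apply (z : E n) (j : Fin n) (t : I) : cst z j t = z j := rfl

theorem norm_cst (z : E n) : ‖cst z‖ ≤ ‖z‖ := by
  rw [pi_norm_le_iff_of_nonneg (norm_nonneg _)]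
  intro j
  rw [ContinuousMap.norm_le _ (norm_nonneg _)]
  intro t
  rw [cst_apply]
  exact norm_le_pi_norm z j

noncomputable def ev (t : I) : Y n →L[ℝ] E n :=
  ContinuousLinearMap.pi (fun j => (ContinuousMap.evalCLM ℝ t : X →L[ℝ] ℂ).comp (ContinuousLinearMap.proj j))

theorem ev_apply (t : I) (u : Y n) (j : Fin n) : ev t u j = u j t := rfl

/-- Data of a vector field with a lift to paths. -/
structure VF (n : ℕ) where
  V : E n → E n
  N : Y n → Y n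
  compat : ∀ u j t, N u j t = V (ev t u) j
  smooth : ContDiff ℝ ∞ N
  L : ℝ
  M : ℝ
  hL : 0 ≤ L
  hM : 0 ≤ M
  lip : ∀ u v : Y n, ‖u‖ < 4 → ‖v‖ < 4 → ‖N u - N v‖ ≤ L * ‖u - v‖
  bdd : ∀ u : Y n, ‖u‖ < 4 → ‖N u‖ ≤ M

variable (F : VF n) (δ : ℝ)

noncomputable def Θ (p : ℝ × Y n) : ℝ × Y n := (p.1, p.2 - (p.1 * δ) • Jn (F.N p.2))

theorem contDiff_Θ : ContDiff ℝ ∞ (Θ F δ) := by
  have h1 : ContDiff ℝ ∞ (fun p : ℝ × Y n => Jn (F.N p.2)) :=
    (Jn (n := n)).contDiff.comp (F.smooth.comp contDiff_snd)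
  have h2 : ContDiff ℝ ∞ (fun p : ℝ × Y n => p.1 * δ) := by fun_prop
  exact contDiff_fst.prodMk (contDiff_snd.sub (h2.smul h1))

theorem approx_Θ (hδ : 0 < δ) (hδ' : δ * (4 * F.L + F.M) ≤ 1/5) :
    ApproximatesLinearOn (Θ F δ) (ContinuousLinearEquiv.refl ℝ (ℝ × Y n) : ℝ × Y n →L[ℝ] ℝ × Y n)
      (Metric.ball 0 4) (1/5) := by
  intro p hp q hq
  rw [mem_ball_zero_iff, Prod.norm_def, max_lt_iff] at hp hq
  have e : Θ F δ p - Θ F δ q - (ContinuousLinearEquiv.refl ℝ (ℝ × Y n) : ℝ × Y n →L[ℝ] ℝ × Y n) (p - q)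
      = (0, - ((p.1 * δ) • Jn (F.N p.2 - F.N q.2) + ((p.1 - q.1) * δ) • Jn (F.N q.2))) := by
    ext1
    · simp [Θ]
    · simp only [Θ, Prod.snd_sub, ContinuousLinearEquiv.coe_coe, ContinuousLinearEquiv.refl_apply, map_sub, Prod.mk_sub_mk]
      module
  rw [e, Prod.norm_def, norm_zero, norm_neg, max_eq_right (norm_nonneg _)]
  have h1 : ‖p.1 - q.1‖ ≤ ‖p - q‖ := norm_fst_le (p - q)
  have h2 : ‖p.2 - q.2‖ ≤ ‖p - q‖ := norm_snd_le (p - q)
  have h3 : ‖Jn (F.N p.2 - F.N q.2)‖ ≤ F.L * ‖p - q‖ :=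
    (norm_Jn_le _).trans ((F.lip _ _ hp.2 hq.2).trans (by have := F.hL; gcongr))
  have h4 : ‖Jn (F.N q.2)‖ ≤ F.M := (norm_Jn_le _).trans (F.bdd _ hq.2)
  have h5 : ‖p.1‖ ≤ 4 := hp.1.le
  calc ‖(p.1 * δ) • Jn (F.N p.2 - F.N q.2) + ((p.1 - q.1) * δ) • Jn (F.N q.2)‖
      ≤ ‖(p.1 * δ) • Jn (F.N p.2 - F.N q.2)‖ + ‖((p.1 - q.1) * δ) • Jn (F.N q.2)‖ := norm_add_le _ _
    _ = ‖p.1‖ * δ * ‖Jn (F.N p.2 - F.N q.2)‖ + ‖p.1 - q.1‖ * δ * ‖Jn (F.N q.2)‖ := by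
        rw [norm_smul, norm_smul, norm_mul, norm_mul, Real.norm_of_nonneg hδ.le]
    _ ≤ 4 * δ * (F.L * ‖p - q‖) + ‖p - q‖ * δ * F.M := by gcongr
    _ = (δ * (4 * F.L + F.M)) * ‖p - q‖ := by ring
    _ ≤ (1/5) * ‖p - q‖ := by gcongr
    _ = ((1/5 : ℝ≥0) : ℝ) * ‖p - q‖ := by simp

theorem hc_aux : Subsingleton (ℝ × Y n) ∨
    (1/5 : ℝ≥0) < ‖((ContinuousLinearEquiv.refl ℝ (ℝ × Y n)).symm : ℝ × Y n →L[ℝ] ℝ × Y n)‖₊⁻¹ := by
  right
  have : ‖((ContinuousLinearEquiv.refl ℝ (ℝ × Y n)).symm : ℝ × Y n →L[ℝ] ℝ × Y n)‖₊ = 1 := by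
    have h : ‖(ContinuousLinearMap.id ℝ (ℝ × Y n))‖ = 1 := ContinuousLinearMap.norm_id
    ext
    simp
  rw [this, inv_one]
  norm_num
  

theorem Θ_zero : Θ F δ 0 = 0 := by
  have : (0:ℝ) • Jn (F.N 0) = 0 := by
    ext j t
    simp
  simp only [Θ, Prod.fst_zero, Prod.snd_zero, zero_mul, this, sub_zero]
  rfl

theorem mem_image (hδ : 0 < δ) (hδ' : δ * (4 * F.L + F.M) ≤ 1/5) (q : ℝ × Y n) (hq : ‖q‖ ≤ 3) :
    ∃ p : ℝ × Y n, ‖p‖ < 4 ∧ Θ F δ p = q := by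
  have h := (approx_Θ F δ hδ hδ').closedBall_subset_target hc_aux Metric.isOpen_ball (ε := 3.9)
    (b := 0) (by norm_num) (Metric.closedBall_subset_ball (by norm_num))
  rw [Θ_zero, ApproximatesLinearOn.toOpenPartialHomeomorph_target] at h
  have : ‖((ContinuousLinearEquiv.refl ℝ (ℝ × Y n)).symm : ℝ × Y n →L[ℝ] ℝ × Y n)‖₊ = 1 := by
    have h : ‖(ContinuousLinearMap.id ℝ (ℝ × Y n))‖ = 1 := ContinuousLinearMap.norm_id
    ext
    simp
  rw [this] at h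
  obtain ⟨p, hp, hp'⟩ := h (show q ∈ _ by
    rw [mem_closedBall_zero_iff]
    refine hq.trans ?_
    norm_num)
  exact ⟨p, mem_ball_zero_iff.1 hp, hp'⟩

theorem injOn (hδ : 0 < δ) (hδ' : δ * (4 * F.L + F.M) ≤ 1/5) (p q : ℝ × Y n) (hp : ‖p‖ < 4) (hq : ‖q‖ < 4)
    (h : Θ F δ p = Θ F δ q) : p = q :=
  (approx_Θ F δ hδ hδ').injOn hc_aux (mem_ball_zero_iff.2 hp) (mem_ball_zero_iff.2 hq) h

variable {F δ}

theorem exists_equiv {W : Type*} [NormedAddCommGroup W] [NormedSpace ℝ W] [CompleteSpace W]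
    (A : W →L[ℝ] W) (h : ‖A - ContinuousLinearMap.id ℝ W‖ < 1) : ∃ e : W ≃L[ℝ] W, (e : W →L[ℝ] W) = A := by
  have hnorm' : ‖ContinuousLinearMap.id ℝ W - A‖ < 1 := by
    rw [norm_sub_rev]
    exact h
  let U := Units.oneSub (ContinuousLinearMap.id ℝ W - A) hnorm'
  refine ⟨ContinuousLinearEquiv.unitsEquiv ℝ W U, ?_⟩
  refine ContinuousLinearMap.ext fun x => ?_
  show x - (x - A x) = A x
  abel

/-- the inverse of `Θ` as a partial homeomorphism -/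
noncomputable def Θh (hδ : 0 < δ) (hδ' : δ * (4 * F.L + F.M) ≤ 1/5) :
    OpenPartialHomeomorph (ℝ × Y n) (ℝ × Y n) :=
  (approx_Θ F δ hδ hδ').toOpenPartialHomeomorph _ _ hc_aux Metric.isOpen_ball

theorem mem_target (hδ : 0 < δ) (hδ' : δ * (4 * F.L + F.M) ≤ 1/5) (q : ℝ × Y n) (hq : ‖q‖ ≤ 3) :
    q ∈ (Θh hδ hδ').target := by
  obtain ⟨p, hp, hp'⟩ := mem_image F δ hδ hδ' q hq
  exact ⟨p, mem_ball_zero_iff.2 hp, hp'⟩

theorem contDiffAt_symm (hδ : 0 < δ) (hδ' : δ * (4 * F.L + F.M) ≤ 1/5) (q : ℝ × Y n) (hq : ‖q‖ ≤ 3) :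
    ContDiffAt ℝ ∞ (Θh hδ hδ').symm q := by
  have hmem := mem_target hδ hδ' q hq
  set a := (Θh hδ hδ').symm q with ha
  have hsrc : a ∈ (Θh hδ hδ').source := (Θh hδ hδ').map_target hmem
  have hsrc' : a ∈ Metric.ball (0 : ℝ × Y n) 4 := hsrc
  have hcd : ContDiff ℝ ∞ (Θ F δ) := contDiff_Θ F δ
  have hd : DifferentiableAt ℝ (Θ F δ) a := hcd.contDiffAt.differentiableAt (by simp)
  set A := fderiv ℝ (Θ F δ) a with hA
  have hfd : HasFDerivAt (Θ F δ) A a := hd.hasFDerivAt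
  have hlip : LipschitzOnWith (1/5 : ℝ≥0) (Θ F δ - ⇑(ContinuousLinearEquiv.refl ℝ (ℝ × Y n) : ℝ × Y n →L[ℝ] ℝ × Y n)) 
      (Metric.ball 0 4) := (approx_Θ F δ hδ hδ').lipschitzOnWith
  have hfd2 : HasFDerivAt (Θ F δ - ⇑(ContinuousLinearEquiv.refl ℝ (ℝ × Y n) : ℝ × Y n →L[ℝ] ℝ × Y n)) 
      (A - ContinuousLinearMap.id ℝ (ℝ × Y n)) a :=
    hfd.sub (ContinuousLinearMap.hasFDerivAt _)
  have hnorm : ‖A - ContinuousLinearMap.id ℝ (ℝ × Y n)‖ ≤ (1/5 : ℝ≥0) :=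
    hfd2.le_of_lipschitzOn (Metric.isOpen_ball.mem_nhds hsrc') hlip
  obtain ⟨e, he⟩ := exists_equiv A (lt_of_le_of_lt hnorm (by norm_num))
  refine (Θh hδ hδ').contDiffAt_symm hmem (f₀' := e) ?_ ?_
  · rw [he]; exact hfd
  · exact hcd.contDiffAt

/-- The path solving the equation with parameter `σ` and initial condition `z`. -/
noncomputable def sol (hδ : 0 < δ) (hδ' : δ * (4 * F.L + F.M) ≤ 1/5) (σ : ℝ) (z : E n) : Y n :=
  ((Θh hδ hδ').symm (σ, cst z)).2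

theorem norm_pair_le {σ : ℝ} {z : E n} (hσ : |σ| ≤ 3) (hz : ‖z‖ ≤ 3) : ‖(σ, cst z)‖ ≤ 3 := by
  rw [Prod.norm_def]
  exact max_le hσ ((norm_cst z).trans hz)

section
variable (hδ : 0 < δ) (hδ' : δ * (4 * F.L + F.M) ≤ 1/5) {σ : ℝ} {z : E n}
  (hσ : |σ| ≤ 3) (hz : ‖z‖ ≤ 3)
include hσ hz

theorem symm_eq : (Θh hδ hδ').symm (σ, cst z) = (σ, sol hδ hδ' σ z) := by
  have hmem := mem_target hδ hδ' (σ, cst z) (norm_pair_le hσ hz)
  have h := (Θh hδ hδ').right_inv hmem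
  have h1 : ((Θh hδ hδ').symm (σ, cst z)).1 = σ := congrArg Prod.fst h
  exact Prod.ext h1 rfl

theorem norm_sol_lt : ‖sol hδ hδ' σ z‖ < 4 := by
  have hmem := mem_target hδ hδ' (σ, cst z) (norm_pair_le hσ hz)
  have h := (Θh hδ hδ').map_target hmem
  rw [symm_eq hδ hδ' hσ hz] at h
  have h' : (σ, sol hδ hδ' σ z) ∈ Metric.ball (0 : ℝ × Y n) 4 := h
  rw [mem_ball_zero_iff, Prod.norm_def, max_lt_iff] at h'
  exact h'.2

theorem sol_eq : sol hδ hδ' σ z = cst z + (σ * δ) • Jn (F.N (sol hδ hδ' σ z)) := by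
  have hmem := mem_target hδ hδ' (σ, cst z) (norm_pair_le hσ hz)
  have h := (Θh hδ hδ').right_inv hmem
  rw [symm_eq hδ hδ' hσ hz] at h
  have h2 : sol hδ hδ' σ z - (σ * δ) • Jn (F.N (sol hδ hδ' σ z)) = cst z := congrArg Prod.snd h
  rw [← h2]; abel

theorem sol_unique (u : Y n) (hu : ‖u‖ < 4) (h : u = cst z + (σ * δ) • Jn (F.N u)) :
    u = sol hδ hδ' σ z := by
  have h1 : Θ F δ (σ, u) = Θ F δ (σ, sol hδ hδ' σ z) := by
    have e1 : u - (σ * δ) • Jn (F.N u) = cst z := by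
      rw [sub_eq_iff_eq_add]; exact h
    have e2 : sol hδ hδ' σ z - (σ * δ) • Jn (F.N (sol hδ hδ' σ z)) = cst z := by
      rw [sub_eq_iff_eq_add]; exact sol_eq hδ hδ' hσ hz
    simp only [Θ, e1, e2]
  have hσ4 : ‖σ‖ < 4 := lt_of_le_of_lt hσ (by norm_num)
  have h2 := injOn F δ hδ hδ' (σ, u) (σ, sol hδ hδ' σ z)
    (by rw [Prod.norm_def]; exact max_lt hσ4 hu)
    (by rw [Prod.norm_def]; exact max_lt hσ4 (norm_sol_lt hδ hδ' hσ hz)) h1
  exact congrArg Prod.snd h2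

end

/-- the flow map -/
noncomputable def flow (hδ : 0 < δ) (hδ' : δ * (4 * F.L + F.M) ≤ 1/5) (p : ℝ × E n) : E n :=
  ev ⟨1, by norm_num⟩ (sol hδ hδ' p.1 p.2)

theorem contDiffAt_flow (hδ : 0 < δ) (hδ' : δ * (4 * F.L + F.M) ≤ 1/5) (p : ℝ × E n) 
    (hp : |p.1| ≤ 3) (hp' : ‖p.2‖ ≤ 3) : ContDiffAt ℝ ∞ (flow hδ hδ') p := by
  have h1 := contDiffAt_symm hδ hδ' (p.1, cst p.2) (norm_pair_le hp hp')
  have h2 : ContDiffAt ℝ ∞ (fun p : ℝ × E n => (p.1, (cst p.2 : Y n))) p :=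
    contDiffAt_fst.prodMk ((cst (n := n)).contDiff.contDiffAt.comp p contDiffAt_snd)
  have h3 : ContDiffAt ℝ ∞ (fun p : ℝ × E n => (Θh hδ hδ').symm (p.1, cst p.2)) p :=
    ContDiffAt.comp p h1 h2
  exact (ev (n := n) ⟨1, by norm_num⟩).contDiff.contDiffAt.comp p h3.snd

section paths
variable (hδ : 0 < δ) (hδ' : δ * (4 * F.L + F.M) ≤ 1/5) {σ : ℝ} {z : E n}
  (hσ : |σ| ≤ 3) (hz : ‖z‖ ≤ 3)

/-- the path as a map on the whole line -/
noncomputable def path (hδ : 0 < δ) (hδ' : δ * (4 * F.L + F.M) ≤ 1/5) (σ : ℝ) (z : E n) (t : ℝ) : E n :=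
  fun j => z j + (σ * δ : ℝ) • ∫ r in (0:ℝ)..t, ext (F.N (sol hδ hδ' σ z) j) r

theorem path_zero : path hδ hδ' σ z 0 = z := by
  ext j; simp [path]

include hσ hz in
theorem path_eq (t : I) : path hδ hδ' σ z t = ev t (sol hδ hδ' σ z) := by
  ext j
  have h := congrFun (sol_eq hδ hδ' hσ hz) j
  have h' := congrArg (fun f : X => f t) h
  rw [ev_apply]
  refine Eq.trans ?_ h'.symm
  rfl

include hσ hz in
theorem path_one : path hδ hδ' σ z 1 = flow hδ hδ' (σ, z) := by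
  have := path_eq hδ hδ' hσ hz ⟨1, by norm_num⟩
  exact this

include hσ hz in
theorem hasDerivAt_path (t : ℝ) (ht : t ∈ Icc (-1:ℝ) 1) :
    HasDerivAt (path hδ hδ' σ z) ((σ * δ) • F.V (path hδ hδ' σ z t)) t := by
  rw [hasDerivAt_pi]
  intro j
  have h1 : HasDerivAt (fun t : ℝ => ∫ r in (0:ℝ)..t, ext (F.N (sol hδ hδ' σ z) j) r)
      (ext (F.N (sol hδ hδ' σ z) j) t) t :=
    intervalIntegral.integral_hasDerivAt_right ((continuous_ext _).intervalIntegrable _ _)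
      ((continuous_ext _).stronglyMeasurableAtFilter _ _) (continuous_ext _).continuousAt
  have h2 : ext (F.N (sol hδ hδ' σ z) j) t = F.V (path hδ hδ' σ z t) j := by
    have e1 : projIcc (-1) 1 neg_one_le_one' t = ⟨t, ht⟩ := projIcc_of_mem _ ht
    show F.N (sol hδ hδ' σ z) j (projIcc (-1) 1 neg_one_le_one' t) = _
    rw [e1, F.compat]
    have := path_eq hδ hδ' hσ hz ⟨t, ht⟩
    rw [← this]
  rw [h2] at h1
  exact (h1.const_smul (σ * δ)).const_add (z j)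

include hσ hz in
theorem norm_path_lt (t : ℝ) (ht : t ∈ Icc (-1:ℝ) 1) : ‖path hδ hδ' σ z t‖ < 4 := by
  have := path_eq hδ hδ' hσ hz ⟨t, ht⟩
  have e : path hδ hδ' σ z t = ev ⟨t, ht⟩ (sol hδ hδ' σ z) := this
  rw [e]
  refine lt_of_le_of_lt ?_ (norm_sol_lt hδ hδ' hσ hz)
  rw [pi_norm_le_iff_of_nonneg (norm_nonneg _)]
  intro j
  rw [ev_apply]
  exact (ContinuousMap.norm_coe_le_norm _ _).trans (norm_le_pi_norm _ j)

include hσ hz in
/-- a priori estimate -/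
theorem norm_sol_sub_le : ‖sol hδ hδ' σ z - cst z‖ ≤ 2 * (|σ| * δ) * ‖F.V z‖ := by
  set u := sol hδ hδ' σ z with hu
  have h1 : u - cst z = (σ * δ) • Jn (F.N u) := by
    rw [sub_eq_iff_eq_add, add_comm]; exact sol_eq hδ hδ' hσ hz
  have h2 : ‖u - cst z‖ ≤ (|σ| * δ) * ‖F.N u‖ := by
    rw [h1, norm_smul, norm_mul, Real.norm_of_nonneg hδ.le]
    exact mul_le_mul_of_nonneg_left (norm_Jn_le _) (by positivity)
  have h3 : ‖F.N u‖ ≤ ‖F.N (cst z)‖ + F.L * ‖u - cst z‖ := by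
    have := F.lip u (cst z) (norm_sol_lt hδ hδ' hσ hz) (lt_of_le_of_lt ((norm_cst z).trans hz) (by norm_num))
    have h := norm_add_le (F.N (cst z)) (F.N u - F.N (cst z))
    have e : F.N (cst z) + (F.N u - F.N (cst z)) = F.N u := by abel
    rw [e] at h
    exact h.trans (by gcongr)
  have h4 : ‖F.N (cst z)‖ ≤ ‖F.V z‖ := by
    rw [pi_norm_le_iff_of_nonneg (norm_nonneg _)]
    intro j
    rw [ContinuousMap.norm_le _ (norm_nonneg _)]
    intro t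
    rw [F.compat]
    have : ev t (cst z) = z := by ext k; rfl
    rw [this]
    exact norm_le_pi_norm _ j
  have h5 : |σ| * δ * F.L ≤ 1/2 := by
    have : |σ| * δ * F.L ≤ 3 * δ * F.L := by have := F.hL; gcongr
    have h6 : 3 * δ * F.L ≤ δ * (4 * F.L + F.M) := by
      have := F.hL; have := F.hM
      nlinarith [mul_nonneg hδ.le F.hL, mul_nonneg hδ.le F.hM]
    linarith
  have h7 : ‖u - cst z‖ ≤ |σ| * δ * ‖F.V z‖ + (1/2) * ‖u - cst z‖ := by
    calc ‖u - cst z‖ ≤ (|σ| * δ) * ‖F.N u‖ := h2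
      _ ≤ (|σ| * δ) * (‖F.V z‖ + F.L * ‖u - cst z‖) := by
          gcongr
          exact h3.trans (by gcongr)
      _ = |σ| * δ * ‖F.V z‖ + (|σ| * δ * F.L) * ‖u - cst z‖ := by ring
      _ ≤ _ := by gcongr
  linarith

include hσ hz in
theorem norm_flow_sub_le : ‖flow hδ hδ' (σ, z) - z‖ ≤ 2 * (|σ| * δ) * ‖F.V z‖ := by
  refine le_trans ?_ (norm_sol_sub_le hδ hδ' hσ hz)
  rw [pi_norm_le_iff_of_nonneg (norm_nonneg _)]
  intro j
  have e : (flow hδ hδ' (σ, z) - z) j = (sol hδ hδ' σ z - cst z) j ⟨1, by norm_num⟩ := rfl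
  rw [e]
  exact (ContinuousMap.norm_coe_le_norm _ _).trans (norm_le_pi_norm _ j)

/-- equivariance -/
theorem sol_smul (hσ : |σ| ≤ 3) (hz : ‖z‖ ≤ 3) (c : ℂ) (hc : ‖c‖ = 1) (hV : ∀ w, F.V (c • w) = c • F.V w) :
    sol hδ hδ' σ (c • z) = c • sol hδ hδ' σ z := by
  have hn : ‖c • z‖ ≤ 3 := by rw [norm_smul, hc, one_mul]; exact hz
  symm
  apply sol_unique hδ hδ' hσ hn
  · rw [norm_smul, hc, one_mul]; exact norm_sol_lt hδ hδ' hσ hz
  · have hN : F.N (c • sol hδ hδ' σ z) = c • F.N (sol hδ hδ' σ z) := by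
      ext j t
      rw [F.compat]
      have e : ev t (c • sol hδ hδ' σ z) = c • ev t (sol hδ hδ' σ z) := by ext k; rfl
      rw [e, hV]
      simp only [Pi.smul_apply, ContinuousMap.smul_apply]
      rw [F.compat]
    have hJ : Jn (c • F.N (sol hδ hδ' σ z)) = c • Jn (F.N (sol hδ hδ' σ z)) := by
      ext j t
      simp only [Jn_apply, Pi.smul_apply, ContinuousMap.smul_apply, J_apply]
      rw [← intervalIntegral.integral_smul]
      rfl
    rw [hN, hJ]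
    conv_lhs => rw [sol_eq hδ hδ' hσ hz]
    ext j t
    simp only [Pi.smul_apply, Pi.add_apply, ContinuousMap.smul_apply, ContinuousMap.add_apply,
      cst_apply, smul_eq_mul, Complex.real_smul]
    ring

theorem flow_smul (hσ : |σ| ≤ 3) (hz : ‖z‖ ≤ 3) (c : ℂ) (hc : ‖c‖ = 1) (hV : ∀ w, F.V (c • w) = c • F.V w) :
    flow hδ hδ' (σ, c • z) = c • flow hδ hδ' (σ, z) := by
  unfold flow
  rw [sol_smul hδ hδ' hσ hz c hc hV]
  ext k; rfl

theorem flow_zero (hz : ‖z‖ ≤ 3) : flow hδ hδ' (0, z) = z := by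
  have h := norm_flow_sub_le hδ hδ' (σ := 0) (by simp) hz
  simp only [abs_zero, zero_mul, mul_zero] at h
  exact sub_eq_zero.1 (norm_le_zero_iff.1 h)

theorem sol_scale (hz : ‖z‖ ≤ 3) (s : ℝ) (hs : s ∈ Icc (-1:ℝ) 1) (t : I) (j : Fin n) :
    sol hδ hδ' s z j t = path hδ hδ' 1 z (s * t) j := by
  have h1 : |(1:ℝ)| ≤ 3 := by norm_num
  have hs3 : |s| ≤ 3 := (abs_le.2 hs).trans (by norm_num)
  have hmul : ∀ r : ℝ, r ∈ Icc (-1:ℝ) 1 → s * r ∈ Icc (-1:ℝ) 1 := by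
    intro r hr
    have : |s * r| ≤ 1 := by
      rw [abs_mul]
      exact mul_le_one₀ (abs_le.2 hs) (abs_nonneg _) (abs_le.2 hr)
    exact abs_le.1 this
  have hcont : ∀ j, Continuous (fun t : I => path hδ hδ' 1 z (s * t) j) := by
    intro j
    have : Continuous (fun t : I => (sol hδ hδ' 1 z) j ⟨s * t, hmul t t.2⟩) := by
      fun_prop
    convert! this using 2 with t
    exact congrFun (path_eq hδ hδ' h1 hz ⟨s * t, hmul t t.2⟩) j
  let v : Y n := fun j => ⟨fun t : I => path hδ hδ' 1 z (s * t) j, hcont j⟩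
  have hv : v = sol hδ hδ' s z := by
    apply sol_unique hδ hδ' hs3 hz
    · rw [pi_norm_lt_iff (by norm_num)]
      intro j
      refine lt_of_le_of_lt ?_ (norm_sol_lt hδ hδ' h1 hz)
      rw [ContinuousMap.norm_le _ (norm_nonneg _)]
      intro t
      have e : v j t = (sol hδ hδ' 1 z) j ⟨s * t, hmul t t.2⟩ :=
        congrFun (path_eq hδ hδ' h1 hz ⟨s * t, hmul t t.2⟩) j
      rw [e]
      exact (ContinuousMap.norm_coe_le_norm _ _).trans (norm_le_pi_norm _ j)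
    · ext j t
      have e1 : v j t = z j + (1 * δ : ℝ) • ∫ r in (0:ℝ)..(s * t), ext (F.N (sol hδ hδ' 1 z) j) r := rfl
      have e2 : (cst z + (s * δ) • Jn (F.N v)) j t
          = z j + (s * δ : ℝ) • ∫ r in (0:ℝ)..t, ext (F.N v j) r := rfl
      rw [e1, e2]
      have e3 : s • ∫ r in (0:ℝ)..t, ext (F.N (sol hδ hδ' 1 z) j) (s * r)
          = ∫ r in (0:ℝ)..(s * t), ext (F.N (sol hδ hδ' 1 z) j) r := by
        have := intervalIntegral.smul_integral_comp_mul_left (a := 0) (b := (t:ℝ))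
          (ext (F.N (sol hδ hδ' 1 z) j)) s
        rwa [mul_zero] at this
      have e4 : ∫ r in (0:ℝ)..t, ext (F.N (sol hδ hδ' 1 z) j) (s * r)
          = ∫ r in (0:ℝ)..t, ext (F.N v j) r := by
        apply intervalIntegral.integral_congr
        intro r hr
        have hr1 : r ∈ Icc (-1:ℝ) 1 := by
          have h0 : (0:ℝ) ∈ Icc (-1:ℝ) 1 := by norm_num
          exact (uIcc_subset_Icc h0 t.2) hr
        show F.N (sol hδ hδ' 1 z) j (projIcc (-1) 1 neg_one_le_one' (s * r))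
          = F.N v j (projIcc (-1) 1 neg_one_le_one' r)
        rw [projIcc_of_mem _ hr1, projIcc_of_mem _ (hmul r hr1), F.compat, F.compat]
        have e5 : ev ⟨r, hr1⟩ v = ev ⟨s * r, hmul r hr1⟩ (sol hδ hδ' 1 z) :=
          path_eq hδ hδ' h1 hz ⟨s * r, hmul r hr1⟩
        rw [e5]
      rw [← e3, e4, one_mul, smul_smul, mul_comm s δ]
  rw [← hv]
  rfl

theorem flow_eq_path (hz : ‖z‖ ≤ 3) (s : ℝ) (hs : s ∈ Icc (-1:ℝ) 1) :
    flow hδ hδ' (s, z) = path hδ hδ' 1 z s := by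
  ext j
  have := sol_scale hδ hδ' hz s hs ⟨1, by norm_num⟩ j
  rw [show s * ((⟨1, by norm_num⟩ : I) : ℝ) = s from mul_one s] at this
  exact this

theorem hasDerivAt_flow (hz : ‖z‖ ≤ 3) (s : ℝ) (hs : s ∈ Ioo (-1:ℝ) 1) :
    HasDerivAt (fun s => flow hδ hδ' (s, z)) (δ • F.V (flow hδ hδ' (s, z))) s := by
  have h1 : |(1:ℝ)| ≤ 3 := by norm_num
  have h := hasDerivAt_path hδ hδ' h1 hz s (Ioo_subset_Icc_self hs)
  rw [one_mul, ← flow_eq_path hδ hδ' hz s (Ioo_subset_Icc_self hs)] at h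
  refine h.congr_of_eventuallyEq ?_
  filter_upwards [Ioo_mem_nhds hs.1 hs.2] with r hr
  exact flow_eq_path hδ hδ' hz r (Ioo_subset_Icc_self hr)

end paths

end Crest.Agent.H18Flow
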