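import Crest.Agent.H27OTAbsC

/-!
Abstract measure-theoretic part of S0175: nearly optimal Monge plans.
-/

set_option autoImplicit false
set_option linter.unusedSectionVars false

open MeasureTheory Set
open scoped ENNReal
open Crest.AnalysisR.OT

namespace Crest.Agent.H27OTAbs

variable {E : Type*} [NormedAddCommGroup E] [MeasurableSpace E] [BorelSpace E]
  [SecondCountableTopology E]

variable {s : ℝ} {α μ : Measure E} {A B C B' C' : Set E}
    {b c b' c' ib ic ib' ic' : E → E} {v : E → ℝ≥0∞} {N : ℝ≥0∞}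

theorem cost_plan (h : Setup s α μ A B C B' C' b c b' c' ib ic ib' ic' v N) :
    ∫⁻ p, tripleCost s p ∂((2 : ℝ≥0∞)⁻¹ • (plan α b c + plan α b' c')) =
      (2 : ℝ≥0∞)⁻¹ * (∫⁻ x, tripleCost s (x, b x, c x) ∂α + ∫⁻ x, tripleCost s (x, b x, c x) ∂α +
        ∫⁻ x, tripleCost s (x, b x, c x) ∂α + (∫⁻ x, tripleCost s (x, b' x, c' x) ∂α +
        ∫⁻ x, tripleCost s (x, b' x, c' x) ∂α + ∫⁻ x, tripleCost s (x, b' x, c' x) ∂α)) := by
  rw [lintegral_smul_measure, lintegral_add_measure, lintegral_plan h.hb h.hc (measurable_tc s),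
    lintegral_plan h.hb' h.hc' (measurable_tc s), smul_eq_mul]
  simp only [tc_231 s _ (b _) (c _), tc_312 s _ (b _) (c _), tc_231 s _ (b' _) (c' _),
    tc_312 s _ (b' _) (c' _)]

theorem approx [IsFiniteMeasure α] [NullSingletonClass α] [CompleteSpace E]
    (h : Setup s α μ A B C B' C' b c b' c' ib ic ib' ic' v N)
    (hcont : ∀ ε : ℝ≥0∞, 0 < ε → ∃ δ : ℝ, 0 < δ ∧ ∀ x ∈ A, ∀ w ∈ A, dist x w ≤ δ →
      tripleCost s (x, b w, c w) ≤ tripleCost s (w, b w, c w) + ε)
    (hcont' : ∀ ε : ℝ≥0∞, 0 < ε → ∃ δ : ℝ, 0 < δ ∧ ∀ x ∈ A, ∀ w ∈ A, dist x w ≤ δ →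
      tripleCost s (x, b' w, c' w) ≤ tripleCost s (w, b' w, c' w) + ε)
    (ε : ℝ≥0∞) (hε : 0 < ε) :
    ∃ T₂ T₃ : E → E, Measurable T₂ ∧ Measurable T₃ ∧ μ.map T₂ = μ ∧ μ.map T₃ = μ ∧
      ∫⁻ x, tripleCost s (x, T₂ x, T₃ x) ∂μ <
        ∫⁻ p, tripleCost s p ∂((2 : ℝ≥0∞)⁻¹ • (plan α b c + plan α b' c')) + ε := by
  classical
  obtain ⟨η, hη, hηε⟩ := ENNReal.exists_nnreal_pos_mul_lt (measure_ne_top α univ) hε.ne'
  have hη' : (0 : ℝ≥0∞) < η := by exact_mod_cast hη
  obtain ⟨δ₁, hδ₁, H₁⟩ := hcont η hη'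
  obtain ⟨δ₂, hδ₂, H₂⟩ := hcont' η hη'
  obtain ⟨F, hF, hFmap, hFA⟩ := H27Atomless.exists_splitting α h.hAm h.hαA (lt_min hδ₁ hδ₂)
  have hb := h.hb
  have hc := h.hc
  have hb' := h.hb'
  have hc' := h.hc'
  have hib := h.hib
  have hic := h.hic
  have hib' := h.hib'
  have hic' := h.hic'
  have mt : Measurable (fun x : E => (x, true)) := measurable_id.prodMk measurable_const
  have mf : Measurable (fun x : E => (x, false)) := measurable_id.prodMk measurable_const
  have dBA := disjoint_right.1 h.hAB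
  have dCA := disjoint_right.1 h.hAC
  have dB'A := disjoint_right.1 h.hAB'
  have dC'A := disjoint_right.1 h.hAC'
  have dCB := disjoint_right.1 h.hBC
  have dB'B := disjoint_right.1 h.hBB'
  have dC'B := disjoint_right.1 h.hBC'
  have dB'C := disjoint_right.1 h.hCB'
  have dC'C := disjoint_right.1 h.hCC'
  have dC'B' := disjoint_right.1 h.hB'C'
  let g₂ : E × Bool → E := fun p => if p.2 = true then b p.1 else b' p.1
  let g₃ : E × Bool → E := fun p => if p.2 = true then c p.1 else c' p.1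
  have hset : MeasurableSet {p : E × Bool | p.2 = true} :=
    measurable_snd (measurableSet_singleton true)
  have hg₂ : Measurable g₂ := Measurable.ite hset (by fun_prop) (by fun_prop)
  have hg₃ : Measurable g₃ := Measurable.ite hset (by fun_prop) (by fun_prop)
  let T₂ : E → E := fun x => if x ∈ A then g₂ (F x) else if x ∈ B then c (ib x) else
    if x ∈ C then ic x else if x ∈ B' then c' (ib' x) else ic' x
  let T₃ : E → E := fun x => if x ∈ A then g₃ (F x) else if x ∈ B then ib x else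
    if x ∈ C then b (ic x) else if x ∈ B' then ib' x else b' (ic' x)
  have hT₂ : Measurable T₂ := Measurable.ite h.hAm (hg₂.comp hF) (Measurable.ite h.hBm
    (hc.comp hib) (Measurable.ite h.hCm hic (Measurable.ite h.hB'm (hc'.comp hib') hic')))
  have hT₃ : Measurable T₃ := Measurable.ite h.hAm (hg₃.comp hF) (Measurable.ite h.hBm
    hib (Measurable.ite h.hCm (hb.comp hic) (Measurable.ite h.hB'm hib' (hb'.comp hic'))))
  have T₂A : ∀ x ∈ A, T₂ x = g₂ (F x) := fun x hx => if_pos hx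
  have T₃A : ∀ x ∈ A, T₃ x = g₃ (F x) := fun x hx => if_pos hx
  have T₂b : ∀ x ∈ A, T₂ (b x) = c x := by
    intro x hx
    obtain ⟨h1, h2⟩ := h.hbB x hx
    simp only [T₂, if_neg (dBA h1), if_pos h1, h2]
  have T₃b : ∀ x ∈ A, T₃ (b x) = x := by
    intro x hx
    obtain ⟨h1, h2⟩ := h.hbB x hx
    simp only [T₃, if_neg (dBA h1), if_pos h1, h2]
  have T₂c : ∀ x ∈ A, T₂ (c x) = x := by
    intro x hx
    obtain ⟨h1, h2⟩ := h.hcC x hx
    simp only [T₂, if_neg (dCA h1), if_neg (dCB h1), if_pos h1, h2]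
  have T₃c : ∀ x ∈ A, T₃ (c x) = b x := by
    intro x hx
    obtain ⟨h1, h2⟩ := h.hcC x hx
    simp only [T₃, if_neg (dCA h1), if_neg (dCB h1), if_pos h1, h2]
  have T₂b' : ∀ x ∈ A, T₂ (b' x) = c' x := by
    intro x hx
    obtain ⟨h1, h2⟩ := h.hb'B' x hx
    simp only [T₂, if_neg (dB'A h1), if_neg (dB'B h1), if_neg (dB'C h1), if_pos h1, h2]
  have T₃b' : ∀ x ∈ A, T₃ (b' x) = x := by
    intro x hx
    obtain ⟨h1, h2⟩ := h.hb'B' x hx
    simp only [T₃, if_neg (dB'A h1), if_neg (dB'B h1), if_neg (dB'C h1), if_pos h1, h2]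
  have T₂c' : ∀ x ∈ A, T₂ (c' x) = x := by
    intro x hx
    obtain ⟨h1, h2⟩ := h.hc'C' x hx
    simp only [T₂, if_neg (dC'A h1), if_neg (dC'B h1), if_neg (dC'C h1), if_neg (dC'B' h1), h2]
  have T₃c' : ∀ x ∈ A, T₃ (c' x) = b' x := by
    intro x hx
    obtain ⟨h1, h2⟩ := h.hc'C' x hx
    simp only [T₃, if_neg (dC'A h1), if_neg (dC'B h1), if_neg (dC'C h1), if_neg (dC'B' h1), h2]
  have mapcongr : ∀ {f g : E → E}, (∀ x ∈ A, f x = g x) → α.map f = α.map g := by
    intro f g hfg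
    refine Measure.map_congr ?_
    filter_upwards [h.ae_A] with x hx using hfg x hx
  have mapF : ∀ {g : E × Bool → E}, Measurable g → α.map (fun x => g (F x)) =
      (2 : ℝ≥0∞)⁻¹ • (α.map (fun x => g (x, true)) + α.map (fun x => g (x, false))) := by
    intro g hg
    have : α.map (fun x => g (F x)) = (α.map F).map g := by
      rw [Measure.map_map hg hF]; rfl
    rw [this, hFmap, Measure.map_smul, Measure.map_add _ _ hg, Measure.map_map hg mt,
      Measure.map_map hg mf]
    rfl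
  have mapμ : ∀ {T : E → E}, Measurable T → μ.map T = α.map T + (2 : ℝ≥0∞)⁻¹ •
      (α.map (fun x => T (b x)) + α.map (fun x => T (c x)) + α.map (fun x => T (b' x)) +
        α.map (fun x => T (c' x))) := by
    intro T hT
    rw [h.hμ, Measure.map_add _ _ hT, Measure.map_smul, Measure.map_add _ _ hT,
      Measure.map_add _ _ hT, Measure.map_add _ _ hT, Measure.map_map hT hb,
      Measure.map_map hT hc, Measure.map_map hT hb', Measure.map_map hT hc']
    rfl
  have mapid : α.map (fun x => x) = α := Measure.map_id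
  refine ⟨T₂, T₃, hT₂, hT₃, ?_, ?_, ?_⟩
  · rw [mapμ hT₂, mapcongr T₂A, mapcongr T₂b, mapcongr T₂c, mapcongr T₂b', mapcongr T₂c', mapid,
      mapF hg₂, h.hμ, ← smul_add, ← half_add]
    congr 1
    have e1 : (fun x => g₂ (x, true)) = b := by funext x; simp [g₂]
    have e2 : (fun x => g₂ (x, false)) = b' := by funext x; simp [g₂]
    have e3 : α.map (fun x => c x) = α.map c := rfl
    have e4 : α.map (fun x => c' x) = α.map c' := rfl
    rw [e1, e2, e3, e4]
    abel
  · rw [mapμ hT₃, mapcongr T₃A, mapcongr T₃b, mapcongr T₃c, mapcongr T₃b', mapcongr T₃c', mapid,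
      mapF hg₃, h.hμ, ← smul_add, ← half_add]
    congr 1
    have e1 : (fun x => g₃ (x, true)) = c := by funext x; simp [g₃]
    have e2 : (fun x => g₃ (x, false)) = c' := by funext x; simp [g₃]
    have e3 : α.map (fun x => b x) = α.map b := rfl
    have e4 : α.map (fun x => b' x) = α.map b' := rfl
    rw [e1, e2, e3, e4]
    abel
  · have hG : Measurable (fun x => tripleCost s (x, T₂ x, T₃ x)) :=
      (measurable_tc s).comp (by fun_prop)
    rw [h.lint hG]
    have intcongr : ∀ {f g : E → ℝ≥0∞}, (∀ x ∈ A, f x = g x) →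
        ∫⁻ x, f x ∂α = ∫⁻ x, g x ∂α := by
      intro f g hfg
      refine lintegral_congr_ae ?_
      filter_upwards [h.ae_A] with x hx using hfg x hx
    have i1 : ∫⁻ x, tripleCost s (b x, T₂ (b x), T₃ (b x)) ∂α =
        ∫⁻ x, tripleCost s (x, b x, c x) ∂α := intcongr fun x hx => by
      rw [T₂b x hx, T₃b x hx, tc_231]
    have i2 : ∫⁻ x, tripleCost s (c x, T₂ (c x), T₃ (c x)) ∂α =
        ∫⁻ x, tripleCost s (x, b x, c x) ∂α := intcongr fun x hx => by
      rw [T₂c x hx, T₃c x hx, tc_312]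
    have i3 : ∫⁻ x, tripleCost s (b' x, T₂ (b' x), T₃ (b' x)) ∂α =
        ∫⁻ x, tripleCost s (x, b' x, c' x) ∂α := intcongr fun x hx => by
      rw [T₂b' x hx, T₃b' x hx, tc_231]
    have i4 : ∫⁻ x, tripleCost s (c' x, T₂ (c' x), T₃ (c' x)) ∂α =
        ∫⁻ x, tripleCost s (x, b' x, c' x) ∂α := intcongr fun x hx => by
      rw [T₂c' x hx, T₃c' x hx, tc_312]
    let g : E × Bool → ℝ≥0∞ := fun p => if p.2 = true then tripleCost s (p.1, b p.1, c p.1)
      else tripleCost s (p.1, b' p.1, c' p.1)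
    have hg : Measurable g := Measurable.ite hset ((measurable_tc s).comp (by fun_prop))
      ((measurable_tc s).comp (by fun_prop))
    have i5 : ∫⁻ x, tripleCost s (x, T₂ x, T₃ x) ∂α ≤ ∫⁻ x, (g (F x) + η) ∂α := by
      refine lintegral_mono_ae ?_
      filter_upwards [h.ae_A] with x hx
      rw [T₂A x hx, T₃A x hx]
      obtain ⟨hw, hd⟩ := hFA x hx
      cases hτ : (F x).2 with
      | true =>
        simp only [g₂, g₃, g, hτ, if_true]
        exact H₁ x hx _ hw (hd.trans (min_le_left _ _))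
      | false =>
        simp only [g₂, g₃, g, hτ, Bool.false_eq_true, if_false]
        exact H₂ x hx _ hw (hd.trans (min_le_right _ _))
    have i6 : ∫⁻ x, g (F x) ∂α = (2 : ℝ≥0∞)⁻¹ * (∫⁻ x, tripleCost s (x, b x, c x) ∂α +
        ∫⁻ x, tripleCost s (x, b' x, c' x) ∂α) := by
      rw [← lintegral_map hg hF, hFmap, lintegral_smul_measure, lintegral_add_measure,
        lintegral_map hg mt, lintegral_map hg mf, smul_eq_mul]
      simp only [g, if_true, Bool.false_eq_true, if_false]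
    rw [i1, i2, i3, i4, cost_plan h]
    have hcostne := h.cost_ne_top
    rw [cost_plan h] at hcostne
    have hgF : Measurable (fun x => g (F x)) := hg.comp hF
    rw [lintegral_add_left hgF, lintegral_const, i6] at i5
    refine (add_le_add_left i5 _).trans_lt ?_
    refine lt_of_eq_of_lt ?_ (ENNReal.add_lt_add_left hcostne hηε)
    ring

end Crest.Agent.H27OTAbs
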