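import Mathlib
import Crest.Prelude.Def_MultiMarginal
import Crest.Agent.H27OTAbsD

/-!
Abstract measure-theoretic part of S0175: a marginal `α + ½(b#α + c#α + b'#α + c'#α)` whose
contact set consists of the two graphs `x ↦ {x, b x, c x}` and `x ↦ {x, b' x, c' x}` has an optimal
three-marginal plan, no Monge minimiser, and Monge plans of nearly optimal cost.
-/

set_option autoImplicit false

open MeasureTheory
open scoped ENNReal
open Crest.AnalysisR.OT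

namespace Crest.Agent.H18OTAbs

/-- `p` is one of the six orderings of `(x, b x, c x)` for some `x ∈ A`. -/
def Contact {E : Type*} (A : Set E) (b c : E → E) (p : E × E × E) : Prop :=
  ∃ x ∈ A, p = (x, b x, c x) ∨ p = (x, c x, b x) ∨ p = (b x, x, c x) ∨ p = (b x, c x, x) ∨
    p = (c x, x, b x) ∨ p = (c x, b x, x)

theorem abstract_monge {E : Type*} [NormedAddCommGroup E] [MeasurableSpace E] [BorelSpace E]
    [SecondCountableTopology E] [CompleteSpace E] (s : ℝ)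
    (α : Measure E) [IsFiniteMeasure α] [NullSingletonClass α] (hα : α ≠ 0)
    (A B C B' C' : Set E) (hAm : MeasurableSet A) (hBm : MeasurableSet B) (hCm : MeasurableSet C)
    (hB'm : MeasurableSet B') (hC'm : MeasurableSet C')
    (hAB : Disjoint A B) (hAC : Disjoint A C) (hAB' : Disjoint A B') (hAC' : Disjoint A C')
    (hBC : Disjoint B C) (hBB' : Disjoint B B') (hBC' : Disjoint B C')
    (hCB' : Disjoint C B') (hCC' : Disjoint C C') (hB'C' : Disjoint B' C')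
    (hαA : α Aᶜ = 0)
    (b c b' c' ib ic ib' ic' : E → E)
    (hb : Measurable b) (hc : Measurable c) (hb' : Measurable b') (hc' : Measurable c')
    (hib : Measurable ib) (hic : Measurable ic) (hib' : Measurable ib') (hic' : Measurable ic')
    (hbB : ∀ x ∈ A, b x ∈ B ∧ ib (b x) = x) (hcC : ∀ x ∈ A, c x ∈ C ∧ ic (c x) = x)
    (hb'B' : ∀ x ∈ A, b' x ∈ B' ∧ ib' (b' x) = x) (hc'C' : ∀ x ∈ A, c' x ∈ C' ∧ ic' (c' x) = x)
    (μ : Measure E)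
    (hμ : μ = α + (2 : ℝ≥0∞)⁻¹ • (α.map b + α.map c + α.map b' + α.map c'))
    (v : E → ℝ≥0∞) (hv : Measurable v) (N : ℝ≥0∞) (hN : N ≠ ⊤)
    (hle : ∀ x ∈ A ∪ B ∪ C ∪ B' ∪ C', ∀ y ∈ A ∪ B ∪ C ∪ B' ∪ C', ∀ z ∈ A ∪ B ∪ C ∪ B' ∪ C',
      N ≤ tripleCost s (x, y, z) + (v x + v y + v z))
    (hcontact : ∀ x ∈ A ∪ B ∪ C ∪ B' ∪ C', ∀ y ∈ A ∪ B ∪ C ∪ B' ∪ C', ∀ z ∈ A ∪ B ∪ C ∪ B' ∪ C',
      tripleCost s (x, y, z) + (v x + v y + v z) = N →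
        Contact A b c (x, y, z) ∨ Contact A b' c' (x, y, z))
    (heq : ∀ x ∈ A, tripleCost s (x, b x, c x) + (v x + v (b x) + v (c x)) = N)
    (heq' : ∀ x ∈ A, tripleCost s (x, b' x, c' x) + (v x + v (b' x) + v (c' x)) = N)
    (hcont : ∀ ε : ℝ≥0∞, 0 < ε → ∃ δ : ℝ, 0 < δ ∧ ∀ x ∈ A, ∀ w ∈ A, dist x w ≤ δ →
      tripleCost s (x, b w, c w) ≤ tripleCost s (w, b w, c w) + ε)
    (hcont' : ∀ ε : ℝ≥0∞, 0 < ε → ∃ δ : ℝ, 0 < δ ∧ ∀ x ∈ A, ∀ w ∈ A, dist x w ≤ δ →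
      tripleCost s (x, b' w, c' w) ≤ tripleCost s (w, b' w, c' w) + ε) :
    ∃ π₀ : Measure (E × E × E),
      IsCoupling₃ μ π₀ ∧ ∫⁻ p, tripleCost s p ∂π₀ < ⊤ ∧
      (∀ π : Measure (E × E × E), IsCoupling₃ μ π →
        ∫⁻ p, tripleCost s p ∂π₀ ≤ ∫⁻ p, tripleCost s p ∂π) ∧
      (∀ T₂ T₃ : E → E, Measurable T₂ → Measurable T₃ → μ.map T₂ = μ → μ.map T₃ = μ →
        ∫⁻ p, tripleCost s p ∂π₀ < ∫⁻ x, tripleCost s (x, T₂ x, T₃ x) ∂μ) ∧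
      (∀ ε : ℝ≥0∞, 0 < ε → ∃ T₂ T₃ : E → E, Measurable T₂ ∧ Measurable T₃ ∧
        μ.map T₂ = μ ∧ μ.map T₃ = μ ∧
        ∫⁻ x, tripleCost s (x, T₂ x, T₃ x) ∂μ < ∫⁻ p, tripleCost s p ∂π₀ + ε) := by
  have h : H27OTAbs.Setup s α μ A B C B' C' b c b' c' ib ic ib' ic' v N :=
    ⟨hAm, hBm, hCm, hB'm, hC'm, hAB, hAC, hAB', hAC', hBC, hBB', hBC', hCB', hCC', hB'C', hαA,
      hb, hc, hb', hc', hib, hic, hib', hic', hbB, hcC, hb'B', hc'C', hμ, hv, hN, hle, hcontact,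
      heq, heq'⟩
  exact ⟨_, h.isCoupling, lt_top_iff_ne_top.2 h.cost_ne_top, fun π hπ => h.optimal hπ,
    fun T₂ T₃ h2 h3 m2 m3 => h.no_monge hα h2 h3 m2 m3,
    fun ε hε => H27OTAbs.approx h hcont hcont' ε hε⟩

end Crest.Agent.H18OTAbs
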