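import Mathlib

/-!
Push-forward of the density `h²` under a local diffeomorphism has a density `q²` with `q` smooth.
-/

set_option autoImplicit false

open scoped ContDiff Topology RealInnerProductSpace ENNReal
open Filter Set Metric MeasureTheory

namespace Crest.Agent.H18OT

variable {E : Type*} [NormedAddCommGroup E] [InnerProductSpace ℝ E] [FiniteDimensional ℝ E]

lemma contDiff_det {n : WithTop ℕ∞} : ContDiff ℝ n (fun A : E →L[ℝ] E => A.det) := by
  classical
  let b := Module.finBasis ℝ E
  have h : (fun A : E →L[ℝ] E => A.det) = fun A : E →L[ℝ] E =>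
      ∑ σ : Equiv.Perm (Fin (Module.finrank ℝ E)), ((Equiv.Perm.sign σ : ℤ) : ℝ) *
        ∏ i, b.repr (A (b i)) (σ i) := by
    funext A
    show LinearMap.det (A : E →ₗ[ℝ] E) = _
    rw [← LinearMap.det_toMatrix b, Matrix.det_apply']
    simp [LinearMap.toMatrix_apply]
  rw [h]
  apply ContDiff.sum
  intro σ _
  apply contDiff_const.mul
  apply contDiff_prod
  intro i _
  exact (((b.coord (σ i)).toContinuousLinearMap).comp
    (ContinuousLinearMap.apply ℝ E (b i))).contDiff

variable [MeasurableSpace E] [BorelSpace E]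

theorem exists_density (φ : OpenPartialHomeomorph E E)
    (hφ : ∀ x ∈ φ.source, ContDiffAt ℝ ω φ x) (hφs : ∀ y ∈ φ.target, ContDiffAt ℝ ω φ.symm y)
    (h : E → ℝ) (hh : ContDiff ℝ ∞ h) (h0 : ∀ x, 0 ≤ h x) (K : Set E) (hK : IsCompact K)
    (hKs : K ⊆ φ.source) (hsupp : ∀ x, x ∉ K → h x = 0) :
    ∃ q : E → ℝ, ContDiff ℝ ∞ q ∧ (∀ y, 0 ≤ q y) ∧ (∀ y, y ∉ φ '' K → q y = 0) ∧
      ∀ b : E → E, Measurable b → (∀ x ∈ K, b x = φ x) →
        (volume.withDensity (fun x => ENNReal.ofReal (h x ^ 2))).map b =
          volume.withDensity (fun y => ENNReal.ofReal (q y ^ 2)) := by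
  classical
  set D : E → ℝ := fun y => (fderiv ℝ φ.symm y).det with hD
  have hDne : ∀ y ∈ φ.target, D y ≠ 0 := by
    intro y hy
    have hx : φ.symm y ∈ φ.source := φ.map_target hy
    have d1 : HasFDerivAt φ.symm (fderiv ℝ φ.symm y) y :=
      ((hφs y hy).differentiableAt (by simp)).hasFDerivAt
    have d2 : HasFDerivAt φ (fderiv ℝ φ (φ.symm y)) (φ.symm y) :=
      ((hφ _ hx).differentiableAt (by simp)).hasFDerivAt
    have d3 := d2.comp y d1
    have d4 : HasFDerivAt (φ ∘ φ.symm) (ContinuousLinearMap.id ℝ E) y := by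
      apply (hasFDerivAt_id y).congr_of_eventuallyEq
      filter_upwards [φ.open_target.mem_nhds hy] with z hz
      exact φ.right_inv hz
    have d5 := d3.unique d4
    intro h0
    have d6 := congrArg ContinuousLinearMap.det d5
    have d7 : ((fderiv ℝ φ (φ.symm y)).comp (fderiv ℝ φ.symm y)).det =
        (fderiv ℝ φ (φ.symm y)).det * (fderiv ℝ φ.symm y).det := by
      show LinearMap.det _ = LinearMap.det _ * LinearMap.det _
      rw [← LinearMap.det_comp]; rfl
    rw [d7] at d6
    have d8 : (fderiv ℝ φ.symm y).det = 0 := h0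
    rw [d8, mul_zero] at d6
    have d9 : (ContinuousLinearMap.id ℝ E).det = 1 := by
      show LinearMap.det _ = _
      exact LinearMap.det_id
    rw [d9] at d6
    exact zero_ne_one d6
  have hDs : ∀ y ∈ φ.target, ContDiffAt ℝ ∞ D y := by
    intro y hy
    have d1 : ContDiffAt ℝ ∞ (fderiv ℝ φ.symm) y := by
      apply (hφs y hy).fderiv_right (m := ∞)
      exact le_top
    exact contDiff_det.contDiffAt.comp y d1
  set q : E → ℝ := fun y => if y ∈ φ.target then h (φ.symm y) * √|D y| else 0 with hq
  have hqK : ∀ y, y ∉ φ '' K → q y = 0 := by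
    intro y hy
    by_cases hyt : y ∈ φ.target
    · simp only [hq, if_pos hyt]
      have : φ.symm y ∉ K := by
        intro hk
        exact hy ⟨φ.symm y, hk, φ.right_inv hyt⟩
      rw [hsupp _ this, zero_mul]
    · simp only [hq, if_neg hyt]
  have hKc : IsCompact (φ '' K) := hK.image_of_continuousOn (φ.continuousOn.mono hKs)
  refine ⟨q, ?_, ?_, hqK, ?_⟩
  · rw [contDiff_iff_contDiffAt]
    intro y
    by_cases hyt : y ∈ φ.target
    · have e1 : q =ᶠ[𝓝 y] fun y => h (φ.symm y) * √|D y| := by
        filter_upwards [φ.open_target.mem_nhds hyt] with z hz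
        simp only [hq, if_pos hz]
      apply ContDiffAt.congr_of_eventuallyEq _ e1
      have k1 : ContDiffAt ℝ ∞ (fun y => h (φ.symm y)) y :=
        hh.contDiffAt.comp y ((hφs y hyt).of_le le_top)
      have k2 : ContDiffAt ℝ ∞ (fun y => √|D y|) y := by
        apply ContDiffAt.sqrt
        · exact (hDs y hyt).abs (hDne y hyt)
        · exact abs_ne_zero.2 (hDne y hyt)
      exact k1.mul k2
    · have hy : y ∉ φ '' K := by
        rintro ⟨x, hx, rfl⟩
        exact hyt (φ.map_source (hKs hx))
      have e1 : q =ᶠ[𝓝 y] fun _ => 0 := by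
        filter_upwards [hKc.isClosed.isOpen_compl.mem_nhds hy] with z hz
        exact hqK z hz
      exact contDiffAt_const.congr_of_eventuallyEq e1
  · intro y
    simp only [hq]
    split_ifs
    · exact mul_nonneg (h0 _) (Real.sqrt_nonneg _)
    · exact le_rfl
  · intro b hb hbK
    ext T hT
    rw [Measure.map_apply hb hT, withDensity_apply _ (hb hT), withDensity_apply _ hT]
    have hst : MeasurableSet (φ.target ∩ T) := φ.open_target.measurableSet.inter hT
    have hcv := lintegral_image_eq_lintegral_abs_det_fderiv_mul (volume : Measure E) hst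
      (f := φ.symm) (f' := fun y => fderiv ℝ φ.symm y)
      (fun y hy => ((hφs y hy.1).differentiableAt (by simp)).hasFDerivAt.hasFDerivWithinAt)
      (φ.symm.injOn.mono (by intro y hy; exact hy.1)) (fun x => ENNReal.ofReal (h x ^ 2))
    -- left side
    have hL : ∫⁻ x in b ⁻¹' T, ENNReal.ofReal (h x ^ 2) =
        ∫⁻ x in φ.symm '' (φ.target ∩ T), ENNReal.ofReal (h x ^ 2) := by
      have hms : MeasurableSet (φ.symm '' (φ.target ∩ T)) := by
        have hcont : ContinuousOn φ.symm (φ.target ∩ T) :=
          φ.symm.continuousOn.mono (by intro y hy; exact hy.1)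
        exact hst.image_of_continuousOn_injOn hcont
          (φ.symm.injOn.mono (by intro y hy; exact hy.1))
      rw [← lintegral_indicator (hb hT), ← lintegral_indicator hms]
      apply lintegral_congr
      intro x
      by_cases hxK : x ∈ K
      · have hxs := hKs hxK
        have : x ∈ b ⁻¹' T ↔ x ∈ φ.symm '' (φ.target ∩ T) := by
          constructor
          · intro hx
            refine ⟨φ x, ⟨φ.map_source hxs, ?_⟩, φ.left_inv hxs⟩
            have : b x ∈ T := hx
            rwa [hbK x hxK] at this
          · rintro ⟨y, ⟨hy1, hy2⟩, rfl⟩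
            show b (φ.symm y) ∈ T
            rw [hbK _ hxK, φ.right_inv hy1]; exact hy2
        by_cases hx : x ∈ b ⁻¹' T
        · rw [indicator_of_mem hx, indicator_of_mem (this.1 hx)]
        · rw [indicator_of_notMem hx, indicator_of_notMem (fun h => hx (this.2 h))]
      · have hz : ENNReal.ofReal (h x ^ 2) = 0 := by rw [hsupp x hxK]; simp
        simp only [indicator]
        split_ifs <;> simp [hz]
    have hR : ∫⁻ y in φ.target ∩ T, ENNReal.ofReal |(fderiv ℝ φ.symm y).det| *
        ENNReal.ofReal (h (φ.symm y) ^ 2) = ∫⁻ y in T, ENNReal.ofReal (q y ^ 2) := by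
      rw [← lintegral_indicator hst, ← lintegral_indicator hT]
      apply lintegral_congr
      intro y
      by_cases hyt : y ∈ φ.target
      · have hqy : q y ^ 2 = |(fderiv ℝ φ.symm y).det| * (h (φ.symm y) ^ 2) := by
          simp only [hq, if_pos hyt]
          rw [mul_pow, Real.sq_sqrt (abs_nonneg _)]
          ring
        by_cases hyT : y ∈ T
        · have hm : y ∈ φ.target ∩ T := ⟨hyt, hyT⟩
          rw [indicator_of_mem hm, indicator_of_mem hyT, hqy,
            ENNReal.ofReal_mul (abs_nonneg _)]
        · rw [indicator_of_notMem (fun h => hyT h.2), indicator_of_notMem hyT]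
      · have hqy : q y = 0 := by simp only [hq, if_neg hyt]
        rw [indicator_of_notMem (fun h => hyt h.1)]
        simp only [indicator, hqy]
        split_ifs <;> simp
    rw [hL, hcv, hR]

end Crest.Agent.H18OT
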