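import Mathlib

/-!
The power function `v ↦ ‖v‖ ^ (-s)`, its gradient and the derivative of its gradient.
-/

set_option autoImplicit false

open scoped ContDiff Topology RealInnerProductSpace
open Filter Set

namespace Crest.Agent.H18OT

variable {E : Type*} [NormedAddCommGroup E] [InnerProductSpace ℝ E]

/-- `v ↦ ‖v‖ ^ (-s)`. -/
noncomputable def fpow (s : ℝ) (v : E) : ℝ := ‖v‖ ^ (-s)

/-- The gradient of `fpow s` away from `0`. -/
noncomputable def gpow (s : ℝ) (v : E) : E := (-s * ‖v‖ ^ (-s - 2)) • v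

/-- The derivative of `gpow s` away from `0`. -/
noncomputable def dgpow (s : ℝ) (v : E) : E →L[ℝ] E :=
  (-s * ‖v‖ ^ (-s - 2)) • ContinuousLinearMap.id ℝ E +
    ((s * (s + 2) * ‖v‖ ^ (-s - 4)) • innerSL ℝ v).smulRight v

lemma contDiffAt_norm_rpow (p : ℝ) {v : E} (hv : v ≠ 0) :
    ContDiffAt ℝ ω (fun v : E => ‖v‖ ^ p) v :=
  (contDiffAt_norm ℝ hv).rpow_const_of_ne (norm_ne_zero_iff.2 hv)

lemma contDiffAt_fpow (s : ℝ) {v : E} (hv : v ≠ 0) : ContDiffAt ℝ ω (fpow s : E → ℝ) v :=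
  contDiffAt_norm_rpow (-s) hv

lemma contDiffAt_gpow (s : ℝ) {v : E} (hv : v ≠ 0) : ContDiffAt ℝ ω (gpow s : E → E) v := by
  unfold gpow
  exact (contDiffAt_const.mul (contDiffAt_norm_rpow (-s - 2) hv)).smul contDiffAt_id

lemma hasFDerivAt_norm_rpow (p : ℝ) {v : E} (hv : v ≠ 0) :
    HasFDerivAt (fun v : E => ‖v‖ ^ p) ((p * ‖v‖ ^ (p - 2)) • innerSL ℝ v) v := by
  have h1 : HasFDerivAt (fun v : E => ‖v‖ ^ 2) (2 • innerSL ℝ v) v :=
    (hasStrictFDerivAt_norm_sq v).hasFDerivAt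
  have hpos : 0 < ‖v‖ := norm_pos_iff.2 hv
  have h2 := h1.rpow_const (p := p / 2) (Or.inl (by positivity))
  have e1 : (fun v : E => (‖v‖ ^ 2) ^ (p / 2)) = fun v : E => ‖v‖ ^ p := by
    funext w
    rw [← Real.rpow_natCast, ← Real.rpow_mul (norm_nonneg _)]
    congr 1
    push_cast
    ring
  rw [e1] at h2
  convert h2 using 1
  have e2 : (‖v‖ ^ 2) ^ (p / 2 - 1) = ‖v‖ ^ (p - 2) := by
    rw [← Real.rpow_natCast, ← Real.rpow_mul (norm_nonneg _)]
    congr 1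
    push_cast
    ring
  rw [e2]
  ext w
  simp
  ring

lemma hasFDerivAt_fpow (s : ℝ) {v : E} (hv : v ≠ 0) :
    HasFDerivAt (fpow s : E → ℝ) (innerSL ℝ (gpow s v)) v := by
  have h := hasFDerivAt_norm_rpow (-s) hv
  have e : innerSL ℝ (gpow s v) = ((-s * ‖v‖ ^ (-s - 2)) • innerSL ℝ v) := by
    ext w
    simp [gpow]
  rw [e]
  exact h

lemma hasFDerivAt_gpow (s : ℝ) {v : E} (hv : v ≠ 0) :
    HasFDerivAt (gpow s : E → E) (dgpow s v) v := by
  have h1 := hasFDerivAt_norm_rpow (-s - 2) hv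
  have h2 := h1.const_mul (-s)
  have h3 := h2.smul (hasFDerivAt_id v)
  have e0 : (gpow s : E → E) = (fun y : E => -s * ‖y‖ ^ (-s - 2)) • id := rfl
  rw [e0]
  convert h3 using 1
  rw [show -s - 2 - 2 = -s - 4 by ring, dgpow, smul_smul]
  congr 3
  ring

lemma gpow_neg (s : ℝ) (v : E) : gpow s (-v) = -gpow s v := by
  simp [gpow]

/-- The Hessian of `fpow s` at the unit vector `e`. -/
noncomputable def Hop (s : ℝ) (e : E) : E →L[ℝ] E :=
  (-s) • ContinuousLinearMap.id ℝ E + ((s * (s + 2)) • innerSL ℝ e).smulRight e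

lemma Hop_apply (s : ℝ) (e w : E) : Hop s e w = (-s) • w + (s * (s + 2) * ⟪e, w⟫) • e := by
  simp [Hop]

lemma dgpow_unit (s : ℝ) {e : E} (he : ‖e‖ = 1) : dgpow s e = Hop s e := by
  simp [dgpow, Hop, he]

lemma dgpow_neg_unit (s : ℝ) {e : E} (he : ‖e‖ = 1) : dgpow s (-e) = Hop s e := by
  ext w
  simp [dgpow, Hop, he]

lemma dgpow_two_unit (s : ℝ) {e : E} (he : ‖e‖ = 1) :
    dgpow s (e + e) = ((2 : ℝ) ^ (-s - 2)) • Hop s e := by
  have h2 : ‖e + e‖ = 2 := by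
    rw [← two_smul ℝ e, norm_smul, he]; simp
  ext w
  have h4 : (2 : ℝ) ^ (-s - 4) = (2 : ℝ) ^ (-s - 2) / 4 := by
    rw [show -s - 4 = (-s - 2) - 2 by ring, Real.rpow_sub (by norm_num)]
    norm_num
  simp only [dgpow, Hop, add_apply, smul_apply,
    ContinuousLinearMap.id_apply, ContinuousLinearMap.smulRight_apply, h2, h4, innerSL_apply_apply,
    inner_add_left, smul_add, smul_smul, smul_eq_mul]
  simp only [← add_smul]
  congr 2
  · ring
  · ring

end Crest.Agent.H18OT
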