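import Mathlib
import Crest.Agent.H18OTGrad

/-!
The contact maps: near `x = 0` the critical point equations
`∇_x c(x, y, z) + K x = 0`, `∇_y c(x, y, z) - g + K (y - e) = 0`
are solved by smooth local diffeomorphisms `y = b x`, `z = c x` with `b 0 = e`, `c 0 = -e`.
-/

set_option autoImplicit false

open scoped ContDiff Topology RealInnerProductSpace
open Filter Set

namespace Crest.Agent.H18OT

variable {E : Type*} [NormedAddCommGroup E] [InnerProductSpace ℝ E]

/-- The map whose zero set (in the last two coordinates) is the contact graph. -/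
noncomputable def Phi (s K : ℝ) (e : E) (p : E × E × E) : E × E × E :=
  (p.1, gpow s (p.1 - p.2.1) + gpow s (p.1 - p.2.2) + K • p.1,
    gpow s (p.2.1 - p.1) + gpow s (p.2.1 - p.2.2) - (gpow s e + gpow s (e + e))
      + K • (p.2.1 - e))

/-- projections -/
noncomputable def P1 : E × E × E →L[ℝ] E := ContinuousLinearMap.fst ℝ E (E × E)
noncomputable def P2 : E × E × E →L[ℝ] E :=
  (ContinuousLinearMap.fst ℝ E E).comp (ContinuousLinearMap.snd ℝ E (E × E))
noncomputable def P3 : E × E × E →L[ℝ] E :=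
  (ContinuousLinearMap.snd ℝ E E).comp (ContinuousLinearMap.snd ℝ E (E × E))

@[simp] lemma P1_apply (p : E × E × E) : P1 p = p.1 := rfl
@[simp] lemma P2_apply (p : E × E × E) : P2 p = p.2.1 := rfl
@[simp] lemma P3_apply (p : E × E × E) : P3 p = p.2.2 := rfl

/-- The derivative of `Phi` at `(0, e, -e)`. -/
noncomputable def dPhi (s K : ℝ) (e : E) : E × E × E →L[ℝ] E × E × E :=
  (P1).prod (((Hop s e).comp (P1 - P2) + (Hop s e).comp (P1 - P3) + K • P1).prod
    ((Hop s e).comp (P2 - P1) + (((2 : ℝ) ^ (-s - 2)) • Hop s e).comp (P2 - P3) + K • P2))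

lemma hasFDerivAt_Phi (s K : ℝ) {e : E} (he : ‖e‖ = 1) :
    HasFDerivAt (Phi s K e) (dPhi s K e) (0, e, -e) := by
  have hne : e ≠ 0 := by
    intro h; simp [h] at he
  have h2ne : e + e ≠ 0 := by
    rw [← two_smul ℝ e]; exact smul_ne_zero two_ne_zero hne
  have g1 : HasFDerivAt (gpow s : E → E) (Hop s e) ((P1 - P2 : E × E × E →L[ℝ] E) (0, e, -e)) := by
    have := hasFDerivAt_gpow s (v := -e) (neg_ne_zero.2 hne)
    rw [dgpow_neg_unit s he] at this
    simpa using this
  have g2 : HasFDerivAt (gpow s : E → E) (Hop s e) ((P1 - P3 : E × E × E →L[ℝ] E) (0, e, -e)) := by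
    have := hasFDerivAt_gpow s (v := e) hne
    rw [dgpow_unit s he] at this
    simpa using this
  have g3 : HasFDerivAt (gpow s : E → E) (Hop s e) ((P2 - P1 : E × E × E →L[ℝ] E) (0, e, -e)) := by
    have := hasFDerivAt_gpow s (v := e) hne
    rw [dgpow_unit s he] at this
    simpa using this
  have g4 : HasFDerivAt (gpow s : E → E) (((2 : ℝ) ^ (-s - 2)) • Hop s e)
      ((P2 - P3 : E × E × E →L[ℝ] E) (0, e, -e)) := by
    have := hasFDerivAt_gpow s (v := e + e) h2ne
    rw [dgpow_two_unit s he] at this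
    simpa using this
  have k1 := g1.comp (0, e, -e) (P1 - P2 : E × E × E →L[ℝ] E).hasFDerivAt
  have k2 := g2.comp (0, e, -e) (P1 - P3 : E × E × E →L[ℝ] E).hasFDerivAt
  have k3 := g3.comp (0, e, -e) (P2 - P1 : E × E × E →L[ℝ] E).hasFDerivAt
  have k4 := g4.comp (0, e, -e) (P2 - P3 : E × E × E →L[ℝ] E).hasFDerivAt
  have j1 : HasFDerivAt (fun p : E × E × E => p.1) P1 (0, e, -e) :=
    (P1 : E × E × E →L[ℝ] E).hasFDerivAt
  have j2 : HasFDerivAt (fun p : E × E × E => K • p.1) (K • P1) (0, e, -e) :=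
    (K • P1 : E × E × E →L[ℝ] E).hasFDerivAt
  have j3 : HasFDerivAt (fun p : E × E × E => K • (p.2.1 - e)) (K • P2) (0, e, -e) := by
    have : HasFDerivAt (fun p : E × E × E => p.2.1 - e) P2 (0, e, -e) :=
      (P2 : E × E × E →L[ℝ] E).hasFDerivAt.sub_const e
    exact this.const_smul K
  exact j1.prodMk (((k1.add k2).add j2).prodMk (((k3.add k4).sub_const _).add j3))

lemma contDiffAt_Phi (s K : ℝ) {e : E} (he : ‖e‖ = 1) :
    ContDiffAt ℝ ω (Phi s K e) (0, e, -e) := by
  have hne : e ≠ 0 := by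
    intro h; simp [h] at he
  have h2ne : e + e ≠ 0 := by
    rw [← two_smul ℝ e]; exact smul_ne_zero two_ne_zero hne
  have g1 : ContDiffAt ℝ ω (gpow s : E → E) ((P1 - P2 : E × E × E →L[ℝ] E) (0, e, -e)) := by
    have := contDiffAt_gpow s (v := -e) (neg_ne_zero.2 hne)
    simpa using this
  have g2 : ContDiffAt ℝ ω (gpow s : E → E) ((P1 - P3 : E × E × E →L[ℝ] E) (0, e, -e)) := by
    have := contDiffAt_gpow s (v := e) hne
    simpa using this
  have g3 : ContDiffAt ℝ ω (gpow s : E → E) ((P2 - P1 : E × E × E →L[ℝ] E) (0, e, -e)) := by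
    have := contDiffAt_gpow s (v := e) hne
    simpa using this
  have g4 : ContDiffAt ℝ ω (gpow s : E → E) ((P2 - P3 : E × E × E →L[ℝ] E) (0, e, -e)) := by
    have := contDiffAt_gpow s (v := e + e) h2ne
    simpa using this
  have k1 := g1.comp (0, e, -e) (P1 - P2 : E × E × E →L[ℝ] E).contDiff.contDiffAt
  have k2 := g2.comp (0, e, -e) (P1 - P3 : E × E × E →L[ℝ] E).contDiff.contDiffAt
  have k3 := g3.comp (0, e, -e) (P2 - P1 : E × E × E →L[ℝ] E).contDiff.contDiffAt
  have k4 := g4.comp (0, e, -e) (P2 - P3 : E × E × E →L[ℝ] E).contDiff.contDiffAt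
  have j1 : ContDiffAt ℝ ω (fun p : E × E × E => p.1) (0, e, -e) :=
    (P1 : E × E × E →L[ℝ] E).contDiff.contDiffAt
  have j2 : ContDiffAt ℝ ω (fun p : E × E × E => K • p.1) (0, e, -e) :=
    (K • P1 : E × E × E →L[ℝ] E).contDiff.contDiffAt
  have j3 : ContDiffAt ℝ ω (fun p : E × E × E => K • (p.2.1 - e)) (0, e, -e) := by
    have : ContDiffAt ℝ ω (fun p : E × E × E => p.2.1 - e) (0, e, -e) :=
      (P2 : E × E × E →L[ℝ] E).contDiff.contDiffAt.sub contDiffAt_const
    exact this.const_smul K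
  exact j1.prodMk (((k1.add k2).add j2).prodMk (((k3.add k4).sub contDiffAt_const).add j3))

/-- Scalar operator equation `a H w + t w = 0` has only the zero solution. -/
lemma Hop_inj {s : ℝ} {e : E} (he : ‖e‖ = 1) (a t : ℝ) (h1 : a * (s * (s + 1)) + t ≠ 0)
    (h2 : t - a * s ≠ 0) {w : E} (hw : a • Hop s e w + t • w = 0) : w = 0 := by
  rw [Hop_apply] at hw
  have hee : ⟪e, e⟫ = (1 : ℝ) := by rw [real_inner_self_eq_norm_sq, he]; norm_num
  have hi : ⟪e, w⟫ = (0 : ℝ) := by
    have := congrArg (fun u => ⟪e, u⟫) hw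
    simp only [inner_add_right, inner_smul_right, inner_zero_right, hee] at this
    have h3 : (a * (s * (s + 1)) + t) * ⟪e, w⟫ = 0 := by linarith
    exact (mul_eq_zero.1 h3).resolve_left h1
  rw [hi] at hw
  have : (t - a * s) • w = 0 := by
    rw [← hw]
    simp only [mul_zero, zero_smul, add_zero, smul_smul, ← add_smul]
    congr 1; ring
  exact (smul_eq_zero.1 this).resolve_left h2

lemma dPhi_inj {s K : ℝ} (hs : 0 < s) (hK : 2 * s ≤ K) {e : E} (he : ‖e‖ = 1)
    {p : E × E × E} (hp : dPhi s K e p = 0) : p = 0 := by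
  obtain ⟨x, y, z⟩ := p
  simp only [dPhi, ContinuousLinearMap.prod_apply, Prod.mk_eq_zero, P1_apply] at hp
  obtain ⟨hx, h1, h2⟩ := hp
  subst hx
  simp only [add_apply, ContinuousLinearMap.comp_apply, sub_apply, smul_apply, P1_apply, P2_apply,
    P3_apply, zero_sub, smul_zero, add_zero, sub_zero, map_neg, map_sub] at h1 h2
  have hκ : 0 < (2 : ℝ) ^ (-s - 2) := by positivity
  have hκ' : (2 : ℝ) ^ (-s - 2) < 1 / 4 := by
    have : (2 : ℝ) ^ (-s - 2) < 2 ^ (-2 : ℝ) :=
      Real.rpow_lt_rpow_of_exponent_lt (by norm_num) (by linarith)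
    rw [Real.rpow_neg (by norm_num)] at this
    norm_num at this
    linarith
  set κ := (2 : ℝ) ^ (-s - 2)
  have hyz : y + z = 0 := by
    apply Hop_inj he 1 0 (w := y + z) (s := s)
    · have : 0 < 1 * (s * (s + 1)) + 0 := by rw [add_zero]; positivity
      exact this.ne'
    · nlinarith
    · rw [map_add, one_smul, zero_smul, add_zero]
      have : -(Hop s e y) + -(Hop s e z) = 0 := h1
      have h := congrArg Neg.neg this
      simpa [add_comm] using h
  have hz : z = -y := by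
    rw [eq_neg_iff_add_eq_zero, add_comm]; exact hyz
  subst hz
  have hK0 : 0 < K := by linarith
  have hy : y = 0 := by
    apply Hop_inj he (1 + 2 * κ) K (w := y) (s := s)
    · positivity
    · nlinarith
    · rw [map_neg] at h2
      rw [← h2]
      module
  subst hy
  simp

lemma dPhi_inj_b {s K : ℝ} (hs : 0 < s) (hK : 2 * s ≤ (2 : ℝ) ^ (-s - 2) * K) {e : E}
    (he : ‖e‖ = 1) {x z : E} (hp : dPhi s K e (x, 0, z) = (x, 0, 0)) : x = 0 := by
  simp only [dPhi, ContinuousLinearMap.prod_apply, Prod.mk.injEq, P1_apply, true_and] at hp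
  obtain ⟨h1, h2⟩ := hp
  simp only [add_apply, ContinuousLinearMap.comp_apply, sub_apply, smul_apply, P1_apply, P2_apply,
    P3_apply, zero_sub, smul_zero, add_zero, sub_zero, map_neg, map_sub] at h1 h2
  have hκ : 0 < (2 : ℝ) ^ (-s - 2) := by positivity
  have hκ' : (2 : ℝ) ^ (-s - 2) < 1 / 4 := by
    have : (2 : ℝ) ^ (-s - 2) < 2 ^ (-2 : ℝ) :=
      Real.rpow_lt_rpow_of_exponent_lt (by norm_num) (by linarith)
    rw [Real.rpow_neg (by norm_num)] at this
    norm_num at this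
    linarith
  set κ := (2 : ℝ) ^ (-s - 2)
  have hK0 : 0 < K := by
    by_contra h
    push Not at h
    nlinarith
  apply Hop_inj he (1 + 2 * κ) (κ * K) (w := x) (s := s)
  · positivity
  · nlinarith
  · -- h1 : H x + (H x - H z) + K x = 0 ; h2 : - H x - κ H z = 0
    have e1 : Hop s e z = (2 : ℝ) • Hop s e x + K • x := by
      have := congrArg (fun u => u + Hop s e z) h1
      simp only [zero_add] at this
      rw [← this]; module
    have e2 : Hop s e x + κ • Hop s e z = 0 := by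
      have := congrArg Neg.neg h2
      rw [neg_zero] at this
      rw [← this]; module
    rw [e1] at e2
    rw [← e2]; module

lemma dPhi_inj_c {s K : ℝ} (hs : 0 < s) (hK : 4 * s ≤ K) {e : E}
    (he : ‖e‖ = 1) {x y : E} (hp : dPhi s K e (x, y, 0) = (x, 0, 0)) : x = 0 := by
  simp only [dPhi, ContinuousLinearMap.prod_apply, Prod.mk.injEq, P1_apply, true_and] at hp
  obtain ⟨h1, h2⟩ := hp
  simp only [add_apply, ContinuousLinearMap.comp_apply, sub_apply, smul_apply, P1_apply, P2_apply,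
    P3_apply, zero_sub, smul_zero, add_zero, sub_zero, map_neg, map_sub] at h1 h2
  have hκ : 0 < (2 : ℝ) ^ (-s - 2) := by positivity
  have hκ' : (2 : ℝ) ^ (-s - 2) < 1 / 4 := by
    have : (2 : ℝ) ^ (-s - 2) < 2 ^ (-2 : ℝ) :=
      Real.rpow_lt_rpow_of_exponent_lt (by norm_num) (by linarith)
    rw [Real.rpow_neg (by norm_num)] at this
    norm_num at this
    linarith
  set κ := (2 : ℝ) ^ (-s - 2)
  have hee : ⟪e, e⟫ = (1 : ℝ) := by rw [real_inner_self_eq_norm_sq, he]; norm_num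
  rw [Hop_apply, Hop_apply] at h1 h2
  have i1 := congrArg (fun u => ⟪e, u⟫) h1
  have i2 := congrArg (fun u => ⟪e, u⟫) h2
  simp only [inner_add_right, inner_sub_right, inner_neg_right, inner_smul_right, inner_zero_right,
    hee, mul_one] at i1 i2
  set X := ⟪e, x⟫ with hX
  set Y := ⟪e, y⟫ with hY
  -- 2 h X - h Y + K X = 0, - h X + (1+κ) h Y + K Y = 0, h = s (s+1)
  have hK0 : 0 < K := by linarith
  have hXY : X = 0 ∧ Y = 0 := by
    set h := s * (s + 1) with hh
    have hh0 : 0 < h := by positivity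
    have a1 : (2 * h + K) * X = h * Y := by rw [hh]; nlinarith
    have a2 : ((1 + κ) * h + K) * Y = h * X := by rw [hh]; nlinarith
    have a3 : ((2 * h + K) * ((1 + κ) * h + K) - h * h) * X = 0 := by
      have : ((2 * h + K) * ((1 + κ) * h + K)) * X = h * h * X := by
        calc ((2 * h + K) * ((1 + κ) * h + K)) * X = ((1 + κ) * h + K) * ((2 * h + K) * X) := by ring
          _ = ((1 + κ) * h + K) * (h * Y) := by rw [a1]
          _ = h * (((1 + κ) * h + K) * Y) := by ring
          _ = h * h * X := by rw [a2]; ring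
      linarith
    have a4 : 0 < (2 * h + K) * ((1 + κ) * h + K) - h * h := by
      have : (2 * h) * (1 * h) ≤ (2 * h + K) * ((1 + κ) * h + K) := by
        apply mul_le_mul <;> nlinarith
      nlinarith
    have hX0 : X = 0 := (mul_eq_zero.1 a3).resolve_left a4.ne'
    refine ⟨hX0, ?_⟩
    rw [hX0, mul_zero] at a1
    exact (mul_eq_zero.1 a1.symm).resolve_left hh0.ne'
  rw [hXY.1, hXY.2] at h1 h2
  simp only [mul_zero, zero_smul, add_zero] at h1 h2
  -- (K - 2 s) x + s y = 0 ; s x + (K - (1+κ) s) y = 0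
  have b1 : (K - 2 * s) • x + s • y = 0 := by rw [← h1]; module
  have b2 : s • x + (K - (1 + κ) * s) • y = 0 := by rw [← h2]; module
  have b3 : ((K - 2 * s) * (K - (1 + κ) * s) - s * s) • x = 0 := by
    have c1 := congrArg (fun u => (K - (1 + κ) * s) • u) b1
    have c2 := congrArg (fun u => s • u) b2
    simp only [smul_add, smul_zero, smul_smul] at c1 c2
    have : ((K - 2 * s) * (K - (1 + κ) * s) - s * s) • x =
        (((K - (1 + κ) * s) * (K - 2 * s)) • x + ((K - (1 + κ) * s) * s) • y)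
        - ((s * s) • x + (s * (K - (1 + κ) * s)) • y) := by module
    rw [this, c1, c2, sub_zero]
  have b4 : 0 < (K - 2 * s) * (K - (1 + κ) * s) - s * s := by
    have q1 : 2 * s ≤ K - 2 * s := by linarith
    have q2 : s ≤ K - (1 + κ) * s := by nlinarith
    nlinarith
  exact (smul_eq_zero.1 b3).resolve_left b4.ne'

lemma exists_locDiffeo [FiniteDimensional ℝ E] {f : E → E} {a : E} {f' : E →L[ℝ] E}
    (hf : ContDiffAt ℝ ω f a) (hf' : HasFDerivAt f f' a) (hinj : ∀ x, f' x = 0 → x = 0) :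
    ∃ φ : OpenPartialHomeomorph E E, (φ : E → E) = f ∧ a ∈ φ.source ∧
      (∀ x ∈ φ.source, ContDiffAt ℝ ω f x) ∧ (∀ y ∈ φ.target, ContDiffAt ℝ ω φ.symm y) := by
  have : CompleteSpace E := FiniteDimensional.complete ℝ E
  have hker : Function.Injective (f' : E →ₗ[ℝ] E) := by
    rw [← LinearMap.ker_eq_bot, LinearMap.ker_eq_bot']
    intro x hx
    exact hinj x hx
  set L : E ≃L[ℝ] E := (LinearEquiv.ofInjectiveEndo (f' : E →ₗ[ℝ] E) hker).toContinuousLinearEquiv
    with hL
  have hLf : (L : E →L[ℝ] E) = f' := by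
    ext x; rfl
  have hfL : HasFDerivAt f (L : E →L[ℝ] E) a := by rw [hLf]; exact hf'
  have hω : (ω : WithTop ℕ∞) ≠ 0 := by simp
  set φ₀ := hf.toOpenPartialHomeomorph f hfL hω with hφ₀
  have hmem : a ∈ φ₀.source := hf.mem_toOpenPartialHomeomorph_source hfL hω
  have hcoe : (φ₀ : E → E) = f := hf.toOpenPartialHomeomorph_coe hfL hω
  have hsymm : ContDiffAt ℝ ω φ₀.symm (f a) := hf.to_localInverse hfL hω
  have h1 : ∀ᶠ x in 𝓝 a, ContDiffAt ℝ ω f x := hf.eventually (by simp)
  have h2 : ∀ᶠ y in 𝓝 (f a), ContDiffAt ℝ ω φ₀.symm y := hsymm.eventually (by simp)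
  have h3 : ∀ᶠ x in 𝓝 a, ContDiffAt ℝ ω φ₀.symm (f x) := hf.continuousAt.eventually h2
  obtain ⟨U, hU, hUo, haU⟩ := eventually_nhds_iff.1 (h1.and h3)
  refine ⟨φ₀.restrOpen U hUo, ?_, ?_, ?_, ?_⟩
  · rw [← hcoe]; rfl
  · exact ⟨hmem, haU⟩
  · intro x hx
    exact (hU x hx.2).1
  · intro y hy
    have hy' := (φ₀.restrOpen U hUo).map_target hy
    have h4 := (hU _ hy'.2).2
    have h5 : f ((φ₀.restrOpen U hUo).symm y) = y := by
      rw [← hcoe]
      exact (φ₀.restrOpen U hUo).right_inv hy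
    rw [h5] at h4
    exact h4

theorem exists_maps [FiniteDimensional ℝ E] {s K : ℝ} (hs : 0 < s) (hK : 4 * s ≤ K)
    (hK' : 2 * s ≤ (2 : ℝ) ^ (-s - 2) * K) {e : E} (he : ‖e‖ = 1) :
    ∃ φb φc : OpenPartialHomeomorph E E, (0 : E) ∈ φb.source ∧ (0 : E) ∈ φc.source ∧
      φb 0 = e ∧ φc 0 = -e ∧
      (∀ x ∈ φb.source, ContDiffAt ℝ ω φb x) ∧ (∀ y ∈ φb.target, ContDiffAt ℝ ω φb.symm y) ∧
      (∀ x ∈ φc.source, ContDiffAt ℝ ω φc x) ∧ (∀ y ∈ φc.target, ContDiffAt ℝ ω φc.symm y) ∧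
      ∀ᶠ x in 𝓝 (0 : E),
        gpow s (x - φb x) + gpow s (x - φc x) + K • x = 0 ∧
        gpow s (φb x - x) + gpow s (φb x - φc x) - (gpow s e + gpow s (e + e))
          + K • (φb x - e) = 0 := by
  have : CompleteSpace E := FiniteDimensional.complete ℝ E
  have hker : Function.Injective (dPhi s K e : E × E × E →ₗ[ℝ] E × E × E) := by
    rw [← LinearMap.ker_eq_bot, LinearMap.ker_eq_bot']
    intro x hx
    exact dPhi_inj hs (by linarith) he hx
  set L : (E × E × E) ≃L[ℝ] (E × E × E) :=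
    (LinearEquiv.ofInjectiveEndo (dPhi s K e : E × E × E →ₗ[ℝ] E × E × E)
      hker).toContinuousLinearEquiv with hL
  have hLf : (L : E × E × E →L[ℝ] E × E × E) = dPhi s K e := by
    ext x <;> rfl
  have hP := contDiffAt_Phi s K he
  have hP' : HasFDerivAt (Phi s K e) (L : E × E × E →L[ℝ] E × E × E) (0, e, -e) := by
    rw [hLf]; exact hasFDerivAt_Phi s K he
  have hω : (ω : WithTop ℕ∞) ≠ 0 := by simp
  have hP0 : Phi s K e (0, e, -e) = (0, 0, 0) := by
    simp [Phi, gpow_neg, sub_neg_eq_add]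
  set Ψ := hP.localInverse hP' hω with hΨ
  have hΨs : ContDiffAt ℝ ω Ψ (0, 0, 0) := by
    have := hP.to_localInverse hP' hω
    rwa [hP0] at this
  have hΨ0 : Ψ (0, 0, 0) = (0, e, -e) := by
    have := hP.localInverse_apply_image hP' hω
    rwa [hP0] at this
  have hright : ∀ᶠ y in 𝓝 ((0, 0, 0) : E × E × E), Phi s K e (Ψ y) = y := by
    have := (hP.hasStrictFDerivAt' hP' hω).eventually_right_inverse
    rwa [hP0] at this
  set ι : E →L[ℝ] E × E × E := ContinuousLinearMap.inl ℝ E (E × E) with hι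
  have hι0 : ι 0 = (0, 0, 0) := rfl
  set q : E → E × E × E := fun x => Ψ (ι x) with hq
  have hqs : ContDiffAt ℝ ω q 0 := by
    have : ContDiffAt ℝ ω Ψ (ι 0) := hΨs
    exact this.comp 0 ι.contDiff.contDiffAt
  have hq0 : q 0 = (0, e, -e) := hΨ0
  have hqr : ∀ᶠ x in 𝓝 (0 : E), Phi s K e (q x) = (x, 0, 0) := by
    have hι' : Tendsto ι (𝓝 0) (𝓝 (0, 0, 0)) := by
      have := ι.continuous.tendsto 0
      rwa [hι0] at this
    exact hι'.eventually hright
  have hqd : DifferentiableAt ℝ q 0 := hqs.differentiableAt (by simp)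
  have hqd' : HasFDerivAt q (fderiv ℝ q 0) 0 := hqd.hasFDerivAt
  set q' := fderiv ℝ q 0
  have hcomp : (dPhi s K e).comp q' = ι := by
    have h1 : HasFDerivAt (fun x => Phi s K e (q x)) ((dPhi s K e).comp q') 0 := by
      have : HasFDerivAt (Phi s K e) (dPhi s K e) (q 0) := by
        rw [hq0]; exact hasFDerivAt_Phi s K he
      exact this.comp 0 hqd'
    have h2 : HasFDerivAt (fun x => Phi s K e (q x)) ι 0 :=
      ι.hasFDerivAt.congr_of_eventuallyEq hqr
    exact h1.unique h2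
  have hfst : ∀ w, (q' w).1 = w := by
    intro w
    have := congrArg (fun T => T w) hcomp
    have h2 : dPhi s K e (q' w) = (w, 0, 0) := this
    have h3 := congrArg Prod.fst h2
    simpa [dPhi] using h3
  have hdq : ∀ w, dPhi s K e (q' w) = (w, 0, 0) := fun w => congrArg (fun T => T w) hcomp
  -- the two maps
  have hbs : ContDiffAt ℝ ω (fun x => (q x).2.1) 0 :=
    (P2 : E × E × E →L[ℝ] E).contDiff.contDiffAt.comp 0 hqs
  have hcs : ContDiffAt ℝ ω (fun x => (q x).2.2) 0 :=
    (P3 : E × E × E →L[ℝ] E).contDiff.contDiffAt.comp 0 hqs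
  have hbd : HasFDerivAt (fun x => (q x).2.1) (P2.comp q') 0 :=
    (P2 : E × E × E →L[ℝ] E).hasFDerivAt.comp 0 hqd'
  have hcd : HasFDerivAt (fun x => (q x).2.2) (P3.comp q') 0 :=
    (P3 : E × E × E →L[ℝ] E).hasFDerivAt.comp 0 hqd'
  obtain ⟨φb, hφb, hφb0, hφbs, hφbt⟩ := exists_locDiffeo hbs hbd (by
    intro w hw
    have h1 : (q' w).2.1 = 0 := hw
    apply dPhi_inj_b hs hK' he (x := w) (z := (q' w).2.2)
    have h2 : q' w = (w, 0, (q' w).2.2) := by
      ext
      · exact hfst w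
      · exact h1
      · rfl
    rw [← h2]
    exact hdq w)
  obtain ⟨φc, hφc, hφc0, hφcs, hφct⟩ := exists_locDiffeo hcs hcd (by
    intro w hw
    have h1 : (q' w).2.2 = 0 := hw
    apply dPhi_inj_c hs hK he (x := w) (y := (q' w).2.1)
    have h2 : q' w = (w, (q' w).2.1, 0) := by
      ext
      · exact hfst w
      · rfl
      · exact h1
    rw [← h2]
    exact hdq w)
  refine ⟨φb, φc, hφb0, hφc0, ?_, ?_, ?_, hφbt, ?_, hφct, ?_⟩
  · rw [hφb]; show (q 0).2.1 = e; rw [hq0]
  · rw [hφc]; show (q 0).2.2 = -e; rw [hq0]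
  · rw [hφb]; exact hφbs
  · rw [hφc]; exact hφcs
  · filter_upwards [hqr] with x hx
    rw [hφb, hφc]
    have h1 : (q x).1 = x := congrArg Prod.fst hx
    have h2 := congrArg (fun u => u.2.1) hx
    have h3 := congrArg (fun u => u.2.2) hx
    simp only [Phi, h1] at h2 h3
    exact ⟨h2, h3⟩

end Crest.Agent.H18OT
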