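import Mathlib
import Crest.Agent.H18OTMap

/-!
Local minimality: a critical point of `(x, y) ↦ c(x, y, z) - u_A x - u_B y` is the strict minimum on
a product of small balls.
-/

set_option autoImplicit false

open scoped ContDiff Topology RealInnerProductSpace
open Filter Set

namespace Crest.Agent.H18OT

variable {E : Type*} [NormedAddCommGroup E] [InnerProductSpace ℝ E]

/-- the functional to be minimised for fixed `z` -/
noncomputable def Fz (s K : ℝ) (e z x y : E) : ℝ :=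
  fpow s (x - y) + fpow s (x - z) + fpow s (y - z) + K / 2 * ‖x‖ ^ 2
    - ⟪gpow s e + gpow s (e + e), y - e⟫ + K / 2 * ‖y - e‖ ^ 2

lemma hasDerivAt_fpow_line (s : ℝ) (a δ : E) (t : ℝ) (h : a + t • δ ≠ 0) :
    HasDerivAt (fun t : ℝ => fpow s (a + t • δ)) ⟪gpow s (a + t • δ), δ⟫ t := by
  have h1 : HasDerivAt (fun t : ℝ => a + t • δ) δ t := by
    have := ((hasDerivAt_id t).smul_const δ).const_add a
    simpa using this
  have h2 := (hasFDerivAt_fpow s h).comp_hasDerivAt t h1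
  exact h2

lemma hasDerivAt_normsq_line (a δ : E) (t : ℝ) :
    HasDerivAt (fun t : ℝ => ‖a + t • δ‖ ^ 2) (2 * ⟪a + t • δ, δ⟫) t := by
  have h1 : HasDerivAt (fun t : ℝ => a + t • δ) δ t := by
    have := ((hasDerivAt_id t).smul_const δ).const_add a
    simpa using this
  exact h1.norm_sq

set_option maxHeartbeats 4000000 in
theorem local_min {s K Λ ρ r : ℝ} {e : E} (he : ‖e‖ = 1) (hρ : ρ < 1) (hr : 2 * r ≤ ρ)
    (hΛ : 0 ≤ Λ) (hK : 3 * Λ < K)
    (hLip : ∀ a : E, (a = e ∨ a = -e ∨ a = e + e) → ∀ v ∈ Metric.closedBall a ρ,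
      ∀ v' ∈ Metric.closedBall a ρ, ‖gpow s v - gpow s v'‖ ≤ Λ * ‖v - v'‖)
    {w y₀ z : E} (hw : w ∈ Metric.closedBall (0 : E) r) (hy₀ : y₀ ∈ Metric.closedBall e r)
    (hz : z ∈ Metric.closedBall (-e) r)
    (e1 : gpow s (w - y₀) + gpow s (w - z) + K • w = 0)
    (e2 : gpow s (y₀ - w) + gpow s (y₀ - z) - (gpow s e + gpow s (e + e)) + K • (y₀ - e) = 0)
    {x y : E} (hx : x ∈ Metric.closedBall (0 : E) r) (hy : y ∈ Metric.closedBall e r)
    (hne : ¬ (x = w ∧ y = y₀)) :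
    Fz s K e z w y₀ < Fz s K e z x y := by
  set dx := x - w with hdx
  set dy := y - y₀ with hdy
  set g := gpow s e + gpow s (e + e) with hg
  have h2e : ‖e + e‖ = 2 := by
    rw [← two_smul ℝ e, norm_smul, he]; simp
  -- membership along the segment
  have seg : ∀ {c p q : E} (t : ℝ), t ∈ Icc (0 : ℝ) 1 → p ∈ Metric.closedBall c r →
      q ∈ Metric.closedBall c r → p + t • (q - p) ∈ Metric.closedBall c r := by
    intro c p q t ht hp hq
    have := (convex_closedBall c r).add_smul_sub_mem hp hq ht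
    exact this
  have diffmem : ∀ {c c' p q : E}, p ∈ Metric.closedBall c r → q ∈ Metric.closedBall c' r →
      p - q ∈ Metric.closedBall (c - c') ρ := by
    intro c c' p q hp hq
    rw [mem_closedBall_iff_norm] at *
    have : p - q - (c - c') = (p - c) - (q - c') := by abel
    rw [this]
    exact (norm_sub_le _ _).trans (by linarith)
  have nz : ∀ a : E, (a = e ∨ a = -e ∨ a = e + e) → ∀ v ∈ Metric.closedBall a ρ, v ≠ 0 := by
    intro a ha v hv h0
    rw [h0, mem_closedBall_iff_norm, zero_sub, norm_neg] at hv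
    rcases ha with rfl | rfl | rfl
    · linarith
    · rw [norm_neg] at hv; linarith
    · linarith
  have m1 : ∀ t ∈ Icc (0 : ℝ) 1, (w - y₀) + t • (dx - dy) ∈ Metric.closedBall (-e) ρ := by
    intro t ht
    have := diffmem (seg t ht hw hx) (seg t ht hy₀ hy)
    rw [zero_sub] at this
    convert this using 1
    rw [hdx, hdy]; module
  have m2 : ∀ t ∈ Icc (0 : ℝ) 1, (w - z) + t • dx ∈ Metric.closedBall e ρ := by
    intro t ht
    have := diffmem (seg t ht hw hx) hz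
    rw [zero_sub, neg_neg] at this
    convert this using 1
    rw [hdx]; module
  have m3 : ∀ t ∈ Icc (0 : ℝ) 1, (y₀ - z) + t • dy ∈ Metric.closedBall (e + e) ρ := by
    intro t ht
    have := diffmem (seg t ht hy₀ hy) hz
    rw [sub_neg_eq_add] at this
    convert this using 1
    rw [hdy]; module
  set φ : ℝ → ℝ := fun t => fpow s ((w - y₀) + t • (dx - dy)) + fpow s ((w - z) + t • dx)
    + fpow s ((y₀ - z) + t • dy) + K / 2 * ‖w + t • dx‖ ^ 2
    - ⟪g, (y₀ - e) + t • dy⟫ + K / 2 * ‖(y₀ - e) + t • dy‖ ^ 2 with hφ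
  set φ' : ℝ → ℝ := fun t => ⟪gpow s ((w - y₀) + t • (dx - dy)), dx - dy⟫
    + ⟪gpow s ((w - z) + t • dx), dx⟫ + ⟪gpow s ((y₀ - z) + t • dy), dy⟫
    + K * ⟪w + t • dx, dx⟫ - ⟪g, dy⟫ + K * ⟪(y₀ - e) + t • dy, dy⟫ with hφ'
  have hderiv : ∀ t ∈ Icc (0 : ℝ) 1, HasDerivAt φ (φ' t) t := by
    intro t ht
    have d1 := hasDerivAt_fpow_line s (w - y₀) (dx - dy) t (nz _ (Or.inr (Or.inl rfl)) _ (m1 t ht))
    have d2 := hasDerivAt_fpow_line s (w - z) dx t (nz _ (Or.inl rfl) _ (m2 t ht))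
    have d3 := hasDerivAt_fpow_line s (y₀ - z) dy t (nz _ (Or.inr (Or.inr rfl)) _ (m3 t ht))
    have d4 := (hasDerivAt_normsq_line w dx t).const_mul (K / 2)
    have d5 : HasDerivAt (fun t : ℝ => ⟪g, (y₀ - e) + t • dy⟫) ⟪g, dy⟫ t := by
      have h1 : HasDerivAt (fun t : ℝ => (y₀ - e) + t • dy) dy t := by
        have := ((hasDerivAt_id t).smul_const dy).const_add (y₀ - e)
        simpa using this
      exact (innerSL ℝ g).hasFDerivAt.comp_hasDerivAt t h1
    have d6 := (hasDerivAt_normsq_line (y₀ - e) dy t).const_mul (K / 2)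
    have d := ((((d1.add d2).add d3).add d4).sub d5).add d6
    have hval : ⟪gpow s (w - y₀ + t • (dx - dy)), dx - dy⟫ + ⟪gpow s (w - z + t • dx), dx⟫
        + ⟪gpow s (y₀ - z + t • dy), dy⟫ + K / 2 * (2 * ⟪w + t • dx, dx⟫) - ⟪g, dy⟫
        + K / 2 * (2 * ⟪y₀ - e + t • dy, dy⟫) = φ' t := by
      simp only [hφ']; ring
    rw [← hval]
    exact d
  obtain ⟨t, ht, hslope⟩ := exists_hasDerivAt_eq_slope φ φ' (zero_lt_one)
    (fun t ht => (hderiv t ht).continuousAt.continuousWithinAt)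
    (fun t ht => hderiv t ⟨ht.1.le, ht.2.le⟩)
  have ht' : t ∈ Icc (0 : ℝ) 1 := ⟨ht.1.le, ht.2.le⟩
  have h0' : (0 : ℝ) ∈ Icc (0 : ℝ) 1 := ⟨le_rfl, zero_le_one⟩
  have hφ0 : φ 0 = Fz s K e z w y₀ := by
    simp only [hφ, Fz, zero_smul, add_zero, ← hg]
  have hφ1 : φ 1 = Fz s K e z x y := by
    have a1 : w - y₀ + (dx - dy) = x - y := by rw [hdx, hdy]; abel
    have a2 : w - z + dx = x - z := by rw [hdx]; abel
    have a3 : y₀ - z + dy = y - z := by rw [hdy]; abel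
    have a4 : w + dx = x := by rw [hdx]; abel
    have a5 : y₀ - e + dy = y - e := by rw [hdy]; abel
    simp only [hφ, Fz, one_smul, a1, a2, a3, a4, a5, ← hg]
  have hφ'0 : φ' 0 = 0 := by
    have e1' := congrArg (fun u => ⟪u, dx⟫) e1
    have e2' := congrArg (fun u => ⟪u, dy⟫) e2
    have hneg : gpow s (y₀ - w) = - gpow s (w - y₀) := by
      rw [← gpow_neg]; congr 1; abel
    rw [hneg] at e2'
    simp only [inner_add_left, inner_sub_left, inner_neg_left, inner_zero_left,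
      real_inner_smul_left, ← hg] at e1' e2'
    simp only [hφ', zero_smul, add_zero, inner_sub_right, inner_sub_left]
    simp only [hg, inner_add_left] at e2' ⊢
    linarith
  have hpos : 0 < φ' t := by
    have k1 := hLip (-e) (Or.inr (Or.inl rfl)) _ (m1 t ht') _ (m1 0 h0')
    have k2 := hLip e (Or.inl rfl) _ (m2 t ht') _ (m2 0 h0')
    have k3 := hLip (e + e) (Or.inr (Or.inr rfl)) _ (m3 t ht') _ (m3 0 h0')
    simp only [zero_smul, add_zero, add_sub_cancel_left, norm_smul, Real.norm_eq_abs,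
      abs_of_pos ht.1] at k1 k2 k3
    have c1 : -(Λ * (t * ‖dx - dy‖) * ‖dx - dy‖) ≤
        ⟪gpow s ((w - y₀) + t • (dx - dy)) - gpow s (w - y₀), dx - dy⟫ := by
      have := abs_real_inner_le_norm (gpow s ((w - y₀) + t • (dx - dy)) - gpow s (w - y₀)) (dx - dy)
      have h2 := mul_le_mul_of_nonneg_right k1 (norm_nonneg (dx - dy))
      have h3 := neg_abs_le ⟪gpow s ((w - y₀) + t • (dx - dy)) - gpow s (w - y₀), dx - dy⟫
      linarith
    have c2 : -(Λ * (t * ‖dx‖) * ‖dx‖) ≤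
        ⟪gpow s ((w - z) + t • dx) - gpow s (w - z), dx⟫ := by
      have := abs_real_inner_le_norm (gpow s ((w - z) + t • dx) - gpow s (w - z)) dx
      have h2 := mul_le_mul_of_nonneg_right k2 (norm_nonneg dx)
      have h3 := neg_abs_le ⟪gpow s ((w - z) + t • dx) - gpow s (w - z), dx⟫
      linarith
    have c3 : -(Λ * (t * ‖dy‖) * ‖dy‖) ≤
        ⟪gpow s ((y₀ - z) + t • dy) - gpow s (y₀ - z), dy⟫ := by
      have := abs_real_inner_le_norm (gpow s ((y₀ - z) + t • dy) - gpow s (y₀ - z)) dy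
      have h2 := mul_le_mul_of_nonneg_right k3 (norm_nonneg dy)
      have h3 := neg_abs_le ⟪gpow s ((y₀ - z) + t • dy) - gpow s (y₀ - z), dy⟫
      linarith
    have c4 : ‖dx - dy‖ ^ 2 ≤ 2 * ‖dx‖ ^ 2 + 2 * ‖dy‖ ^ 2 := by
      have := parallelogram_law_with_norm ℝ dx dy
      nlinarith [sq_nonneg ‖dx + dy‖]
    have c5 : 0 < ‖dx‖ ^ 2 + ‖dy‖ ^ 2 := by
      by_contra hcon
      push Not at hcon
      have q1 : ‖dx‖ ^ 2 = 0 := by nlinarith [sq_nonneg ‖dx‖, sq_nonneg ‖dy‖]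
      have q2 : ‖dy‖ ^ 2 = 0 := by nlinarith [sq_nonneg ‖dx‖, sq_nonneg ‖dy‖]
      apply hne
      constructor
      · exact sub_eq_zero.1 (norm_eq_zero.1 (pow_eq_zero_iff (two_ne_zero) |>.1 q1))
      · exact sub_eq_zero.1 (norm_eq_zero.1 (pow_eq_zero_iff (two_ne_zero) |>.1 q2))
    have hdiff : φ' t = φ' t - φ' 0 := by rw [hφ'0, sub_zero]
    have hexp : φ' t - φ' 0 =
        ⟪gpow s ((w - y₀) + t • (dx - dy)) - gpow s (w - y₀), dx - dy⟫
        + ⟪gpow s ((w - z) + t • dx) - gpow s (w - z), dx⟫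
        + ⟪gpow s ((y₀ - z) + t • dy) - gpow s (y₀ - z), dy⟫
        + K * t * (‖dx‖ ^ 2 + ‖dy‖ ^ 2) := by
      simp only [hφ', zero_smul, add_zero, inner_sub_left, inner_add_left, real_inner_smul_left,
        real_inner_self_eq_norm_sq]
      ring
    rw [hdiff, hexp]
    have ht0 := ht.1
    have f1 : Λ * (t * ‖dx - dy‖) * ‖dx - dy‖ ≤ Λ * t * (2 * ‖dx‖ ^ 2 + 2 * ‖dy‖ ^ 2) := by
      calc Λ * (t * ‖dx - dy‖) * ‖dx - dy‖ = Λ * t * ‖dx - dy‖ ^ 2 := by ring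
        _ ≤ _ := mul_le_mul_of_nonneg_left c4 (by positivity)
    have f2 : 0 < (K - 3 * Λ) * t * (‖dx‖ ^ 2 + ‖dy‖ ^ 2) :=
      mul_pos (mul_pos (by linarith) ht0) c5
    nlinarith
  have : φ 1 - φ 0 = φ' t := by
    rw [hslope]; simp
  rw [← hφ0, ← hφ1]
  linarith

/-- Common Lipschitz constant of `gpow` near `e`, `-e`, `2e`. -/
lemma exists_lip (s : ℝ) {e : E} (he : ‖e‖ = 1) :
    ∃ Λ ρ : ℝ, 0 ≤ Λ ∧ 0 < ρ ∧ ρ < 1 ∧ ∀ a : E, (a = e ∨ a = -e ∨ a = e + e) →
      ∀ v ∈ Metric.closedBall a ρ, ∀ v' ∈ Metric.closedBall a ρ,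
        ‖gpow s v - gpow s v'‖ ≤ Λ * ‖v - v'‖ := by
  have hne : e ≠ 0 := by
    intro h; simp [h] at he
  have h2ne : e + e ≠ 0 := by
    rw [← two_smul ℝ e]; exact smul_ne_zero two_ne_zero hne
  have key : ∀ a : E, a ≠ 0 → ∃ Λ ρ : ℝ, 0 ≤ Λ ∧ 0 < ρ ∧
      ∀ v ∈ Metric.closedBall a ρ, ∀ v' ∈ Metric.closedBall a ρ,
        ‖gpow s v - gpow s v'‖ ≤ Λ * ‖v - v'‖ := by
    intro a ha
    obtain ⟨C, t, ht, hC⟩ := ((contDiffAt_gpow s ha).of_le (m := 1)
      (by simp)).exists_lipschitzOnWith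
    obtain ⟨ε, hε, hεt⟩ := Metric.mem_nhds_iff.1 ht
    refine ⟨C, ε / 2, C.2, by positivity, ?_⟩
    intro v hv v' hv'
    have h1 : v ∈ t := hεt (Metric.closedBall_subset_ball (by linarith) hv)
    have h2 : v' ∈ t := hεt (Metric.closedBall_subset_ball (by linarith) hv')
    have := hC.dist_le_mul v h1 v' h2
    rwa [dist_eq_norm, dist_eq_norm] at this
  obtain ⟨Λ₁, ρ₁, hΛ₁, hρ₁, h₁⟩ := key e hne
  obtain ⟨Λ₂, ρ₂, hΛ₂, hρ₂, h₂⟩ := key (-e) (neg_ne_zero.2 hne)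
  obtain ⟨Λ₃, ρ₃, hΛ₃, hρ₃, h₃⟩ := key (e + e) h2ne
  refine ⟨max Λ₁ (max Λ₂ Λ₃), min (1 / 2) (min ρ₁ (min ρ₂ ρ₃)), le_max_of_le_left hΛ₁, by
    simp [hρ₁, hρ₂, hρ₃], (min_le_left _ _).trans_lt (by norm_num), ?_⟩
  rintro a (rfl | rfl | rfl) v hv v' hv'
  · have hm : min (1 / 2) (min ρ₁ (min ρ₂ ρ₃)) ≤ ρ₁ := (min_le_right _ _).trans (min_le_left _ _)
    exact (h₁ v (Metric.closedBall_subset_closedBall hm hv) v'
      (Metric.closedBall_subset_closedBall hm hv')).trans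
      (mul_le_mul_of_nonneg_right (le_max_left _ _) (norm_nonneg _))
  · have hm : min (1 / 2) (min ρ₁ (min ρ₂ ρ₃)) ≤ ρ₂ :=
      (min_le_right _ _).trans ((min_le_right _ _).trans (min_le_left _ _))
    exact (h₂ v (Metric.closedBall_subset_closedBall hm hv) v'
      (Metric.closedBall_subset_closedBall hm hv')).trans
      (mul_le_mul_of_nonneg_right ((le_max_left _ _).trans (le_max_right _ _)) (norm_nonneg _))
  · have hm : min (1 / 2) (min ρ₁ (min ρ₂ ρ₃)) ≤ ρ₃ :=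
      (min_le_right _ _).trans ((min_le_right _ _).trans (min_le_right _ _))
    exact (h₃ v (Metric.closedBall_subset_closedBall hm hv) v'
      (Metric.closedBall_subset_closedBall hm hv')).trans
      (mul_le_mul_of_nonneg_right ((le_max_right _ _).trans (le_max_right _ _)) (norm_nonneg _))

end Crest.Agent.H18OT
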