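import Mathlib
import Crest.Agent.H18OTLocal
import Crest.Agent.H18OTAbs

/-!
Existence of the geometric configuration.
-/

set_option autoImplicit false

open scoped ContDiff Topology RealInnerProductSpace
open Filter Set Metric

namespace Crest.Agent.H18OT

variable {E : Type*} [NormedAddCommGroup E] [InnerProductSpace ℝ E]

/-- potential on the central cluster -/
noncomputable def uA (s K : ℝ) (x : E) : ℝ := (2 + (2 : ℝ) ^ (-s) + 2) - K / 2 * ‖x‖ ^ 2

/-- potential on the cluster near `e` -/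
noncomputable def uB (s K : ℝ) (e y : E) : ℝ :=
  -1 + ⟪gpow s e + gpow s (e + e), y - e⟫ - K / 2 * ‖y - e‖ ^ 2

/-- real cost -/
noncomputable def rc (s : ℝ) (x y z : E) : ℝ := fpow s (x - y) + fpow s (x - z) + fpow s (y - z)

/-- potential on the cluster near `-e`, in terms of the parameter `x ∈ A` -/
noncomputable def Ct (s K : ℝ) (e : E) (b c : E → E) (x : E) : ℝ :=
  rc s x (b x) (c x) - uA s K x - uB s K e (b x)

lemma Fz_eq (s K : ℝ) (e z x y : E) :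
    Fz s K e z x y = rc s x y z - uA s K x - uB s K e y + (2 + (2 : ℝ) ^ (-s) + 1) := by
  simp only [Fz, rc, uA, uB]; ring

structure Geo (s : ℝ) (e e' : E) (S : E ≃ₗᵢ[ℝ] E) (K r r₁ η : ℝ)
    (b c : E → E) : Prop where
  hs : 0 < s
  he : ‖e‖ = 1
  he' : ‖e'‖ = 1
  horth : ⟪e, e'⟫ = (0 : ℝ)
  hS : S e = e'
  hSS : ∀ x, S (S x) = x
  hK : 0 ≤ K
  hr : 0 < r
  hrr₁ : r ≤ r₁
  hr₁ : r₁ ≤ 1 / 8
  hη : 0 < η
  hη2 : η ≤ 1 / 2
  gap : 2 + (2 : ℝ) ^ (-s) + 3 * η < 2 * (1 + 2 * r₁) ^ (-s) + (√2 + 2 * r₁) ^ (-s)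
  big : 3 * (2 + (2 : ℝ) ^ (-s) + 2 + η) < (2 * r₁) ^ (-s)
  mapb : ∀ x ∈ closedBall (0 : E) r, b x ∈ closedBall e r₁
  mapc : ∀ x ∈ closedBall (0 : E) r, c x ∈ closedBall (-e) r₁
  small_uA : K / 2 * r ^ 2 ≤ η
  small_uB : ∀ x ∈ closedBall (0 : E) r, |uB s K e (b x) + 1| ≤ η
  small_uC : ∀ x ∈ closedBall (0 : E) r, |Ct s K e b c x + 1| ≤ η
  loc : ∀ w ∈ closedBall (0 : E) r, ∀ x ∈ closedBall (0 : E) r, ∀ y ∈ closedBall e r₁,
    ¬ (x = w ∧ y = b w) → Fz s K e (c w) w (b w) < Fz s K e (c w) x y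

lemma exists_params {s ρ : ℝ} (hs : 0 < s) (hρ : 0 < ρ) :
    ∃ r₁ η : ℝ, 0 < r₁ ∧ 2 * r₁ ≤ ρ ∧ r₁ ≤ 1 / 8 ∧ 0 < η ∧ η ≤ 1 / 2 ∧
      2 + (2 : ℝ) ^ (-s) + 3 * η < 2 * (1 + 2 * r₁) ^ (-s) + (√2 + 2 * r₁) ^ (-s) ∧
      3 * (2 + (2 : ℝ) ^ (-s) + 2 + η) < (2 * r₁) ^ (-s) := by
  have hgap : 0 < (√2 : ℝ) ^ (-s) - (2 : ℝ) ^ (-s) := by
    have h1 : (√2 : ℝ) < 2 := by
      rw [Real.sqrt_lt' (by norm_num)]; norm_num
    have := Real.rpow_lt_rpow_of_neg (by positivity : (0 : ℝ) < √2) h1 (by linarith : -s < 0)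
    linarith
  set η := min (1 / 2) (((√2 : ℝ) ^ (-s) - (2 : ℝ) ^ (-s)) / 6) with hη
  have hη0 : 0 < η := by
    rw [hη]; exact lt_min (by norm_num) (by linarith)
  have hη1 : η ≤ 1 / 2 := min_le_left _ _
  have hη2 : η ≤ ((√2 : ℝ) ^ (-s) - (2 : ℝ) ^ (-s)) / 6 := min_le_right _ _
  have hc : Tendsto (fun t : ℝ => 2 * (1 + 2 * t) ^ (-s) + (√2 + 2 * t) ^ (-s)) (𝓝[>] 0)
      (𝓝 (2 * (1 + 2 * 0) ^ (-s) + (√2 + 2 * 0) ^ (-s))) := by
    apply Tendsto.mono_left _ nhdsWithin_le_nhds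
    have c1 : ContinuousAt (fun t : ℝ => (1 + 2 * t) ^ (-s)) 0 := by
      apply ContinuousAt.rpow_const
      · fun_prop
      · left; norm_num
    have c2 : ContinuousAt (fun t : ℝ => (√2 + 2 * t) ^ (-s)) 0 := by
      apply ContinuousAt.rpow_const
      · fun_prop
      · left; norm_num
    exact (continuousAt_const.mul c1).add c2
  have e1 : ∀ᶠ t in 𝓝[>] (0 : ℝ), 2 + (2 : ℝ) ^ (-s) + 3 * η <
      2 * (1 + 2 * t) ^ (-s) + (√2 + 2 * t) ^ (-s) := by
    apply hc.eventually_const_lt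
    simp only [mul_zero, add_zero, Real.one_rpow, mul_one]
    linarith
  have e2 : ∀ᶠ t in 𝓝[>] (0 : ℝ), 3 * (2 + (2 : ℝ) ^ (-s) + 2 + η) < (2 * t) ^ (-s) := by
    have h1 : Tendsto (fun t : ℝ => 2 * t) (𝓝[>] 0) (𝓝[>] 0) := by
      apply tendsto_nhdsWithin_of_tendsto_nhds_of_eventually_within
      · have : ContinuousAt (fun t : ℝ => 2 * t) 0 := by fun_prop
        have h2 := this.tendsto
        simp only [mul_zero] at h2
        exact h2.mono_left nhdsWithin_le_nhds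
      · filter_upwards [self_mem_nhdsWithin] with t ht
        have : (0 : ℝ) < t := ht
        show (0 : ℝ) < 2 * t
        positivity
    have h3 : Tendsto (fun t : ℝ => t ^ (-s)) (𝓝[>] 0) atTop := tendsto_rpow_neg_nhdsGT_zero (by linarith)
    exact (h3.comp h1).eventually_gt_atTop _
  have e3 : ∀ᶠ t in 𝓝[>] (0 : ℝ), t < min (ρ / 2) (1 / 8) := by
    have : Iio (min (ρ / 2) (1 / 8)) ∈ 𝓝 (0 : ℝ) := Iio_mem_nhds (by
      exact lt_min (by positivity) (by norm_num))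
    exact mem_nhdsWithin_of_mem_nhds this
  obtain ⟨t, ht1, ht2, ht3, ht4⟩ := (e1.and (e2.and (e3.and self_mem_nhdsWithin))).exists
  refine ⟨t, η, ht4, ?_, ?_, hη0, hη1, ht1, ht2⟩
  · have := ht3.le.trans (min_le_left _ _); linarith
  · exact ht3.le.trans (min_le_right _ _)

lemma fpow_unit (s : ℝ) {e : E} (he : ‖e‖ = 1) : fpow s e = 1 := by simp [fpow, he]

lemma fpow_neg (s : ℝ) (e : E) : fpow s (-e) = fpow s e := by simp [fpow]

lemma fpow_two_unit (s : ℝ) {e : E} (he : ‖e‖ = 1) : fpow s (e + e) = (2 : ℝ) ^ (-s) := by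
  have h2 : ‖e + e‖ = 2 := by
    rw [← two_smul ℝ e, norm_smul, he]; simp
  simp [fpow, h2]

theorem exists_geo [FiniteDimensional ℝ E] {s : ℝ} (hs : 0 < s) {e e' : E} (S : E ≃ₗᵢ[ℝ] E)
    (he : ‖e‖ = 1) (he' : ‖e'‖ = 1) (horth : ⟪e, e'⟫ = (0 : ℝ)) (hS : S e = e')
    (hSS : ∀ x, S (S x) = x) :
    ∃ (K r r₁ η : ℝ) (φb φc : OpenPartialHomeomorph E E),
      Geo s e e' S K r r₁ η φb φc ∧ closedBall (0 : E) r ⊆ φb.source ∧
      closedBall (0 : E) r ⊆ φc.source ∧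
      (∀ x ∈ φb.source, ContDiffAt ℝ ω φb x) ∧ (∀ y ∈ φb.target, ContDiffAt ℝ ω φb.symm y) ∧
      (∀ x ∈ φc.source, ContDiffAt ℝ ω φc x) ∧ (∀ y ∈ φc.target, ContDiffAt ℝ ω φc.symm y) := by
  have hne : e ≠ 0 := by
    intro h; simp [h] at he
  have h2ne : e + e ≠ 0 := by
    rw [← two_smul ℝ e]; exact smul_ne_zero two_ne_zero hne
  obtain ⟨Λ, ρ, hΛ, hρ, hρ1, hLip⟩ := exists_lip s he
  obtain ⟨r₁, η, hr₁, hr₁ρ, hr₁8, hη, hη2, gap, big⟩ := exists_params hs hρ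
  have hκ : 0 < (2 : ℝ) ^ (-s - 2) := by positivity
  set K := max (4 * s) (max (2 * s / (2 : ℝ) ^ (-s - 2)) (3 * Λ + 1)) with hK
  have hK1 : 4 * s ≤ K := le_max_left _ _
  have hK2 : 2 * s ≤ (2 : ℝ) ^ (-s - 2) * K := by
    have : 2 * s / (2 : ℝ) ^ (-s - 2) ≤ K := (le_max_left _ _).trans (le_max_right _ _)
    rw [div_le_iff₀ hκ] at this
    linarith
  have hK3 : 3 * Λ < K := by
    have : 3 * Λ + 1 ≤ K := (le_max_right _ _).trans (le_max_right _ _)
    linarith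
  have hK0 : 0 ≤ K := by linarith
  obtain ⟨φb, φc, hb0, hc0, hbe, hce, hbs, hbt, hcs, hct, heq⟩ := exists_maps hs hK1 hK2 he
  have cb : ContinuousAt φb 0 := (hbs 0 hb0).continuousAt
  have cc : ContinuousAt φc 0 := (hcs 0 hc0).continuousAt
  have ev1 : ∀ᶠ x in 𝓝 (0 : E), φb x ∈ closedBall e r₁ := by
    have : closedBall e r₁ ∈ 𝓝 (φb 0) := by rw [hbe]; exact closedBall_mem_nhds e hr₁
    exact cb.eventually this
  have ev2 : ∀ᶠ x in 𝓝 (0 : E), φc x ∈ closedBall (-e) r₁ := by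
    have : closedBall (-e) r₁ ∈ 𝓝 (φc 0) := by rw [hce]; exact closedBall_mem_nhds (-e) hr₁
    exact cc.eventually this
  have ev3 : ∀ᶠ x in 𝓝 (0 : E), K / 2 * ‖x‖ ^ 2 < η := by
    have hcont : ContinuousAt (fun x : E => K / 2 * ‖x‖ ^ 2) 0 := by fun_prop
    have h := hcont.tendsto
    simp only [norm_zero, ne_eq, OfNat.ofNat_ne_zero, not_false_eq_true, zero_pow, mul_zero] at h
    exact h.eventually_lt_const hη
  have hcuB : ContinuousAt (fun x => uB s K e (φb x)) 0 := by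
    unfold uB
    have h1 : ContinuousAt (fun x => φb x - e) 0 := cb.sub continuousAt_const
    have h2 : ContinuousAt (fun x => ⟪gpow s e + gpow s (e + e), φb x - e⟫) 0 :=
      continuousAt_const.inner h1
    exact (continuousAt_const.add h2).sub (continuousAt_const.mul (h1.norm.pow 2))
  have huB0 : uB s K e (φb 0) = -1 := by simp [uB, hbe]
  have ev4 : ∀ᶠ x in 𝓝 (0 : E), |uB s K e (φb x) + 1| < η := by
    have h : ContinuousAt (fun x => |uB s K e (φb x) + 1|) 0 :=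
      (hcuB.add continuousAt_const).abs
    have h' := h.tendsto
    rw [huB0] at h'
    simp only [neg_add_cancel, abs_zero] at h'
    exact h'.eventually_lt_const hη
  have cfp : ∀ {f : E → E} {a : E}, ContinuousAt f 0 → f 0 = a → a ≠ 0 →
      ContinuousAt (fun x => fpow s (f x)) 0 := by
    intro f a hf hfa ha
    have : ContinuousAt (fpow s : E → ℝ) (f 0) := by
      rw [hfa]; exact (contDiffAt_fpow s ha).continuousAt
    exact ContinuousAt.comp (f := f) this hf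
  have hcCt : ContinuousAt (fun x => Ct s K e φb φc x) 0 := by
    unfold Ct rc
    have k1 : ContinuousAt (fun x => fpow s (x - φb x)) 0 :=
      cfp (f := fun x => x - φb x) (a := -e) (continuousAt_id.sub cb) (by simp [hbe])
        (neg_ne_zero.2 hne)
    have k2 : ContinuousAt (fun x => fpow s (x - φc x)) 0 :=
      cfp (f := fun x => x - φc x) (a := e) (continuousAt_id.sub cc) (by simp [hce]) hne
    have k3 : ContinuousAt (fun x => fpow s (φb x - φc x)) 0 :=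
      cfp (f := fun x => φb x - φc x) (a := e + e) (cb.sub cc)
        (by simp [hce, hbe, sub_neg_eq_add]) h2ne
    have k4 : ContinuousAt (fun x : E => uA s K x) 0 := by unfold uA; fun_prop
    exact (((k1.add k2).add k3).sub k4).sub hcuB
  have hCt0 : Ct s K e φb φc 0 = -1 := by
    have h1 : uB s K e e = -1 := by simp [uB]
    simp only [Ct, rc, hbe, hce, zero_sub, zero_add, sub_neg_eq_add, fpow_neg, fpow_unit s he,
      fpow_two_unit s he, h1, uA, norm_zero]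
    ring
  have ev5 : ∀ᶠ x in 𝓝 (0 : E), |Ct s K e φb φc x + 1| < η := by
    have h : ContinuousAt (fun x => |Ct s K e φb φc x + 1|) 0 :=
      (hcCt.add continuousAt_const).abs
    have h' := h.tendsto
    rw [hCt0] at h'
    simp only [neg_add_cancel, abs_zero] at h'
    exact h'.eventually_lt_const hη
  have ev6 : ∀ᶠ x in 𝓝 (0 : E), x ∈ φb.source := φb.open_source.mem_nhds hb0
  have ev7 : ∀ᶠ x in 𝓝 (0 : E), x ∈ φc.source := φc.open_source.mem_nhds hc0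
  have hev := ev1.and (ev2.and (ev3.and (ev4.and (ev5.and (ev6.and (ev7.and heq))))))
  obtain ⟨ε, hε, hεs⟩ := Metric.eventually_nhds_iff_ball.1 hev
  set r := min r₁ (ε / 2) with hr
  have hr0 : 0 < r := lt_min hr₁ (by positivity)
  have hrr₁ : r ≤ r₁ := min_le_left _ _
  have hrε : r < ε := (min_le_right _ _).trans_lt (by linarith)
  have hall := fun x (hx : x ∈ closedBall (0 : E) r) => hεs x (closedBall_subset_ball hrε hx)
  refine ⟨K, r, r₁, η, φb, φc, ⟨hs, he, he', horth, hS, hSS, hK0, hr0, hrr₁, hr₁8, hη, hη2, gap,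
    big, fun x hx => (hall x hx).1, fun x hx => (hall x hx).2.1, ?_,
    fun x hx => (hall x hx).2.2.2.1.le, fun x hx => (hall x hx).2.2.2.2.1.le, ?_⟩,
    fun x hx => (hall x hx).2.2.2.2.2.1, fun x hx => (hall x hx).2.2.2.2.2.2.1,
    hbs, hbt, hcs, hct⟩
  · have h1 : r • e ∈ closedBall (0 : E) r := by
      rw [mem_closedBall_zero_iff, norm_smul, he, mul_one, Real.norm_eq_abs, abs_of_pos hr0]
    have h2 := (hall _ h1).2.2.1
    rw [norm_smul, he, mul_one, Real.norm_eq_abs, abs_of_pos hr0] at h2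
    exact h2.le
  · intro w hw x hx y hy hne'
    have hw' := hall w hw
    exact local_min he hρ1 hr₁ρ hΛ hK3 hLip (closedBall_subset_closedBall hrr₁ hw) hw'.1 hw'.2.1
      hw'.2.2.2.2.2.2.2.1 hw'.2.2.2.2.2.2.2.2 (closedBall_subset_closedBall hrr₁ hx) hy hne'

end Crest.Agent.H18OT
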