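import Mathlib
import Crest.Agent.H18OTGeo

/-!
The global potential inequality.
-/

set_option autoImplicit false

open scoped ContDiff Topology RealInnerProductSpace
open Filter Set Metric
open Crest.Agent.H18OTAbs

namespace Crest.Agent.H18OT

variable {E : Type*} [NormedAddCommGroup E] [InnerProductSpace ℝ E]

section

variable (s K : ℝ) (e : E) (S : E ≃ₗᵢ[ℝ] E) (r : ℝ) (b c ic : E → E)

open Classical in
/-- potential on `A ∪ B ∪ C` -/
noncomputable def u₁ (x : E) : ℝ :=
  if x ∈ closedBall (0 : E) r then uA s K x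
  else if x ∈ b '' closedBall (0 : E) r then uB s K e x
  else Ct s K e b c (ic x)

open Classical in
/-- potential on `A ∪ B ∪ C ∪ B' ∪ C'` -/
noncomputable def upot (x : E) : ℝ :=
  if x ∈ closedBall (0 : E) r ∪ b '' closedBall (0 : E) r ∪ c '' closedBall (0 : E) r then
    u₁ s K e r b c ic x
  else u₁ s K e r b c ic (S x)

/-- the total support -/
def Wset : Set E :=
  closedBall (0 : E) r ∪ b '' closedBall (0 : E) r ∪ c '' closedBall (0 : E) r
    ∪ S '' (b '' closedBall (0 : E) r) ∪ S '' (c '' closedBall (0 : E) r)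

/-- the outer part of the support -/
def Oset : Set E :=
  b '' closedBall (0 : E) r ∪ c '' closedBall (0 : E) r
    ∪ S '' (b '' closedBall (0 : E) r) ∪ S '' (c '' closedBall (0 : E) r)

/-- total contact set -/
def Gam (x y z : E) : Prop :=
  Contact (closedBall (0 : E) r) b c (x, y, z) ∨
    Contact (closedBall (0 : E) r) (fun x => S (b (S x))) (fun x => S (c (S x))) (x, y, z)

/-- the target property of a triple -/
def TT (x y z : E) : Prop :=
  upot s K e S r b c ic x + upot s K e S r b c ic y + upot s K e S r b c ic z ≤ rc s x y z ∧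
    (upot s K e S r b c ic x + upot s K e S r b c ic y + upot s K e S r b c ic z = rc s x y z →
      Gam S r b c x y z)

end

lemma contact_swap12 {A : Set E} {b c : E → E} {x y z : E} (h : Contact A b c (y, x, z)) :
    Contact A b c (x, y, z) := by
  obtain ⟨w, hw, h⟩ := h
  refine ⟨w, hw, ?_⟩
  simp only [Prod.mk.injEq] at h ⊢
  tauto

lemma contact_swap23 {A : Set E} {b c : E → E} {x y z : E} (h : Contact A b c (x, z, y)) :
    Contact A b c (x, y, z) := by
  obtain ⟨w, hw, h⟩ := h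
  refine ⟨w, hw, ?_⟩
  simp only [Prod.mk.injEq] at h ⊢
  tauto

section

variable {s K r r₁ η : ℝ} {e e' : E} {S : E ≃ₗᵢ[ℝ] E} {b c ic : E → E}

lemma fpow_comm (s : ℝ) (x y : E) : fpow s (x - y) = fpow s (y - x) := by
  rw [← fpow_neg s (x - y), neg_sub]

lemma rc_swap12 (s : ℝ) (x y z : E) : rc s y x z = rc s x y z := by
  simp only [rc]; rw [fpow_comm s y x]; ring

lemma rc_swap23 (s : ℝ) (x y z : E) : rc s x z y = rc s x y z := by
  simp only [rc]; rw [fpow_comm s z y]; ring

lemma TT_swap12 {x y z : E} (h : TT s K e S r b c ic y x z) : TT s K e S r b c ic x y z := by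
  obtain ⟨h1, h2⟩ := h
  rw [rc_swap12] at h1 h2
  refine ⟨by linarith, fun h3 => ?_⟩
  rcases h2 (by linarith) with h | h
  · exact Or.inl (contact_swap12 h)
  · exact Or.inr (contact_swap12 h)

lemma TT_swap23 {x y z : E} (h : TT s K e S r b c ic x z y) : TT s K e S r b c ic x y z := by
  obtain ⟨h1, h2⟩ := h
  rw [rc_swap23] at h1 h2
  refine ⟨by linarith, fun h3 => ?_⟩
  rcases h2 (by linarith) with h | h
  · exact Or.inl (contact_swap23 h)
  · exact Or.inr (contact_swap23 h)

lemma TT_of_lt {x y z : E}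
    (h : upot s K e S r b c ic x + upot s K e S r b c ic y + upot s K e S r b c ic z < rc s x y z) :
    TT s K e S r b c ic x y z := ⟨h.le, fun h' => absurd h' h.ne⟩

lemma fpow_nonneg (s : ℝ) (v : E) : 0 ≤ fpow s v := Real.rpow_nonneg (norm_nonneg _) _

lemma fpow_ge {s R : ℝ} (hs : 0 < s) {v : E} (hv : v ≠ 0) (h : ‖v‖ ≤ R) :
    R ^ (-s) ≤ fpow s v :=
  Real.rpow_le_rpow_of_nonpos (norm_pos_iff.2 hv) h (by linarith)

lemma norm_sub_le_centers {p q y z : E} {t : ℝ} (hy : y ∈ closedBall p t) (hz : z ∈ closedBall q t) :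
    ‖y - z‖ ≤ ‖p - q‖ + 2 * t := by
  rw [mem_closedBall_iff_norm] at hy hz
  have : y - z = (y - p) - (z - q) + (p - q) := by abel
  rw [this]
  have h1 := norm_add_le ((y - p) - (z - q)) (p - q)
  have h2 := norm_sub_le (y - p) (z - q)
  linarith

lemma ne_of_centers {p q y z : E} {t : ℝ} (hy : y ∈ closedBall p t) (hz : z ∈ closedBall q t)
    (h : 2 * t < ‖p - q‖) : y ≠ z := by
  rintro rfl
  rw [mem_closedBall_iff_norm] at hy hz
  have : p - q = (y - q) - (y - p) := by abel
  have h2 := norm_sub_le (y - q) (y - p)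
  rw [← this] at h2
  linarith

namespace Geo

variable (G : Geo s e e' S K r r₁ η b c)
include G

lemma n1 : ‖e - e'‖ = √2 := by
  have h := norm_sub_sq_real e e'
  rw [G.he, G.he', G.horth] at h
  rw [eq_comm, Real.sqrt_eq_iff_mul_self_eq_of_pos]
  · nlinarith
  · by_contra h0
    have : ‖e - e'‖ = 0 := le_antisymm (not_lt.1 h0) (norm_nonneg _)
    rw [this] at h; norm_num at h

lemma n2 : ‖e + e'‖ = √2 := by
  have h := norm_add_sq_real e e'
  rw [G.he, G.he', G.horth] at h
  rw [eq_comm, Real.sqrt_eq_iff_mul_self_eq_of_pos]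
  · nlinarith
  · by_contra h0
    have : ‖e + e'‖ = 0 := le_antisymm (not_lt.1 h0) (norm_nonneg _)
    rw [this] at h; norm_num at h

lemma hr₁0 : 0 < r₁ := G.hr.trans_le G.hrr₁

lemma A_sub {x : E} (hx : x ∈ closedBall (0 : E) r) : x ∈ closedBall (0 : E) r₁ :=
  closedBall_subset_closedBall G.hrr₁ hx

lemma B_sub {x : E} (hx : x ∈ b '' closedBall (0 : E) r) : x ∈ closedBall e r₁ := by
  obtain ⟨w, hw, rfl⟩ := hx; exact G.mapb w hw

lemma C_sub {x : E} (hx : x ∈ c '' closedBall (0 : E) r) : x ∈ closedBall (-e) r₁ := by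
  obtain ⟨w, hw, rfl⟩ := hx; exact G.mapc w hw

lemma B'_sub {x : E} (hx : x ∈ S '' (b '' closedBall (0 : E) r)) : x ∈ closedBall e' r₁ := by
  obtain ⟨w, hw, rfl⟩ := hx
  have := G.B_sub hw
  rw [mem_closedBall_iff_norm] at *
  rw [← G.hS, ← map_sub, S.norm_map]; exact this

lemma C'_sub {x : E} (hx : x ∈ S '' (c '' closedBall (0 : E) r)) : x ∈ closedBall (-e') r₁ := by
  obtain ⟨w, hw, rfl⟩ := hx
  have := G.C_sub hw
  rw [mem_closedBall_iff_norm] at *
  rw [← G.hS, ← map_neg, ← map_sub, S.norm_map]; exact this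

lemma hn0 : 2 * r₁ < 1 := by have := G.hr₁; linarith

lemma hsq : (1 : ℝ) < √2 := by rw [Real.lt_sqrt] <;> norm_num

lemma hee2 : ‖e - -e‖ = 2 := by
  rw [sub_neg_eq_add, ← two_smul ℝ e, norm_smul, G.he]; simp

lemma he'e2 : ‖e' - -e'‖ = 2 := by
  rw [sub_neg_eq_add, ← two_smul ℝ e', norm_smul, G.he']; simp

/-- centres -/
lemma disj_AB : Disjoint (closedBall (0 : E) r) (b '' closedBall (0 : E) r) := by
  rw [Set.disjoint_left]
  intro x hx hx'
  exact ne_of_centers (G.A_sub hx) (G.B_sub hx') (by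
    rw [zero_sub, norm_neg, G.he]; exact G.hn0) rfl

lemma disj_AC : Disjoint (closedBall (0 : E) r) (c '' closedBall (0 : E) r) := by
  rw [Set.disjoint_left]
  intro x hx hx'
  exact ne_of_centers (G.A_sub hx) (G.C_sub hx') (by
    rw [zero_sub, norm_neg, norm_neg, G.he]; exact G.hn0) rfl

lemma disj_AB' : Disjoint (closedBall (0 : E) r) (S '' (b '' closedBall (0 : E) r)) := by
  rw [Set.disjoint_left]
  intro x hx hx'
  exact ne_of_centers (G.A_sub hx) (G.B'_sub hx') (by
    rw [zero_sub, norm_neg, G.he']; exact G.hn0) rfl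

lemma disj_AC' : Disjoint (closedBall (0 : E) r) (S '' (c '' closedBall (0 : E) r)) := by
  rw [Set.disjoint_left]
  intro x hx hx'
  exact ne_of_centers (G.A_sub hx) (G.C'_sub hx') (by
    rw [zero_sub, norm_neg, norm_neg, G.he']; exact G.hn0) rfl

lemma disj_BC : Disjoint (b '' closedBall (0 : E) r) (c '' closedBall (0 : E) r) := by
  rw [Set.disjoint_left]
  intro x hx hx'
  exact ne_of_centers (G.B_sub hx) (G.C_sub hx') (by
    rw [G.hee2]; linarith [G.hn0]) rfl

lemma disj_BB' : Disjoint (b '' closedBall (0 : E) r) (S '' (b '' closedBall (0 : E) r)) := by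
  rw [Set.disjoint_left]
  intro x hx hx'
  exact ne_of_centers (G.B_sub hx) (G.B'_sub hx') (by
    rw [G.n1]; linarith [G.hn0, G.hsq]) rfl

lemma disj_BC' : Disjoint (b '' closedBall (0 : E) r) (S '' (c '' closedBall (0 : E) r)) := by
  rw [Set.disjoint_left]
  intro x hx hx'
  exact ne_of_centers (G.B_sub hx) (G.C'_sub hx') (by
    rw [sub_neg_eq_add, G.n2]; linarith [G.hn0, G.hsq]) rfl

lemma disj_CB' : Disjoint (c '' closedBall (0 : E) r) (S '' (b '' closedBall (0 : E) r)) := by
  rw [Set.disjoint_left]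
  intro x hx hx'
  exact ne_of_centers (G.C_sub hx) (G.B'_sub hx') (by
    rw [← norm_neg, neg_sub, sub_neg_eq_add, add_comm, G.n2]; linarith [G.hn0, G.hsq]) rfl

lemma disj_CC' : Disjoint (c '' closedBall (0 : E) r) (S '' (c '' closedBall (0 : E) r)) := by
  rw [Set.disjoint_left]
  intro x hx hx'
  exact ne_of_centers (G.C_sub hx) (G.C'_sub hx') (by
    rw [← norm_neg, neg_sub, neg_sub_neg, G.n1]
    linarith [G.hn0, G.hsq]) rfl

lemma disj_B'C' : Disjoint (S '' (b '' closedBall (0 : E) r)) (S '' (c '' closedBall (0 : E) r)) := by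
  rw [Set.disjoint_left]
  intro x hx hx'
  exact ne_of_centers (G.B'_sub hx) (G.C'_sub hx') (by
    rw [G.he'e2]; linarith [G.hn0]) rfl

end Geo

end

end Crest.Agent.H18OT
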