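import Mathlib
import Crest.Agent.H18OTPot

/-!
The global potential inequality, main part.
-/

set_option autoImplicit false

open scoped ContDiff Topology RealInnerProductSpace
open Filter Set Metric
open Crest.Agent.H18OTAbs

namespace Crest.Agent.H18OT

variable {E : Type*} [NormedAddCommGroup E] [InnerProductSpace ℝ E]

variable {s K r r₁ η : ℝ} {e e' : E} {S : E ≃ₗᵢ[ℝ] E} {b c ic : E → E}

namespace Geo

variable (G : Geo s e e' S K r r₁ η b c) (hic : ∀ x ∈ closedBall (0 : E) r, ic (c x) = x)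
include G

lemma upot_A {x : E} (hx : x ∈ closedBall (0 : E) r) : upot s K e S r b c ic x = uA s K x := by
  have hm : x ∈ closedBall (0 : E) r ∪ b '' closedBall (0 : E) r ∪ c '' closedBall (0 : E) r :=
    Or.inl (Or.inl hx)
  unfold upot u₁
  rw [if_pos hm, if_pos hx]

lemma upot_B {x : E} (hx : x ∈ b '' closedBall (0 : E) r) :
    upot s K e S r b c ic x = uB s K e x := by
  have hm : x ∈ closedBall (0 : E) r ∪ b '' closedBall (0 : E) r ∪ c '' closedBall (0 : E) r :=
    Or.inl (Or.inr hx)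
  unfold upot u₁
  rw [if_pos hm, if_neg (fun h => (Set.disjoint_left.1 G.disj_AB) h hx),
    if_pos hx]

lemma S_mem_A {x : E} (hx : x ∈ closedBall (0 : E) r) : S x ∈ closedBall (0 : E) r := by
  rw [mem_closedBall_zero_iff] at *
  rwa [S.norm_map]

lemma notABC_of_B' {x : E} (hx : x ∈ S '' (b '' closedBall (0 : E) r)) :
    x ∉ closedBall (0 : E) r ∪ b '' closedBall (0 : E) r ∪ c '' closedBall (0 : E) r := by
  rintro ((h | h) | h)
  · exact (Set.disjoint_left.1 G.disj_AB') h hx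
  · exact (Set.disjoint_left.1 G.disj_BB') h hx
  · exact (Set.disjoint_left.1 G.disj_CB') h hx

lemma notABC_of_C' {x : E} (hx : x ∈ S '' (c '' closedBall (0 : E) r)) :
    x ∉ closedBall (0 : E) r ∪ b '' closedBall (0 : E) r ∪ c '' closedBall (0 : E) r := by
  rintro ((h | h) | h)
  · exact (Set.disjoint_left.1 G.disj_AC') h hx
  · exact (Set.disjoint_left.1 G.disj_BC') h hx
  · exact (Set.disjoint_left.1 G.disj_CC') h hx

lemma upot_S {x : E}
    (hx : x ∈ closedBall (0 : E) r ∪ b '' closedBall (0 : E) r ∪ c '' closedBall (0 : E) r) :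
    upot s K e S r b c ic (S x) = upot s K e S r b c ic x := by
  have hx0 := hx
  rcases hx with (hx | hx) | hx
  · rw [G.upot_A hx, G.upot_A (G.S_mem_A hx), uA, uA, S.norm_map]
  · have h1 : S x ∈ S '' (b '' closedBall (0 : E) r) := ⟨x, hx, rfl⟩
    have h2 : upot s K e S r b c ic (S x) = u₁ s K e r b c ic (S (S x)) := by
      unfold upot
      rw [if_neg (G.notABC_of_B' h1)]
    have h3 : upot s K e S r b c ic x = u₁ s K e r b c ic x := by
      unfold upot
      rw [if_pos hx0]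
    rw [h2, h3, G.hSS]
  · have h1 : S x ∈ S '' (c '' closedBall (0 : E) r) := ⟨x, hx, rfl⟩
    have h2 : upot s K e S r b c ic (S x) = u₁ s K e r b c ic (S (S x)) := by
      unfold upot
      rw [if_neg (G.notABC_of_C' h1)]
    have h3 : upot s K e S r b c ic x = u₁ s K e r b c ic x := by
      unfold upot
      rw [if_pos hx0]
    rw [h2, h3, G.hSS]

lemma upot_A_le {x : E} (hx : x ∈ closedBall (0 : E) r) :
    upot s K e S r b c ic x ≤ 2 + (2 : ℝ) ^ (-s) + 2 := by
  rw [G.upot_A hx, uA]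
  have : 0 ≤ K / 2 * ‖x‖ ^ 2 := by have := G.hK; positivity
  linarith

lemma upot_B_le {x : E} (hx : x ∈ b '' closedBall (0 : E) r) :
    upot s K e S r b c ic x ≤ -1 + η := by
  rw [G.upot_B hx]
  obtain ⟨w, hw, rfl⟩ := hx
  have := (abs_le.1 (G.small_uB w hw)).2
  linarith

include hic

lemma upot_C {w : E} (hw : w ∈ closedBall (0 : E) r) :
    upot s K e S r b c ic (c w) = Ct s K e b c w := by
  have hx : c w ∈ c '' closedBall (0 : E) r := ⟨w, hw, rfl⟩
  have hm : c w ∈ closedBall (0 : E) r ∪ b '' closedBall (0 : E) r ∪ c '' closedBall (0 : E) r :=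
    Or.inr hx
  unfold upot u₁
  rw [if_pos hm, if_neg (fun h => (Set.disjoint_left.1 G.disj_AC) h hx),
    if_neg (fun h => (Set.disjoint_left.1 G.disj_BC) h hx), hic w hw]

lemma upot_C_le {x : E} (hx : x ∈ c '' closedBall (0 : E) r) :
    upot s K e S r b c ic x ≤ -1 + η := by
  obtain ⟨w, hw, rfl⟩ := hx
  rw [G.upot_C hic hw]
  have := (abs_le.1 (G.small_uC w hw)).2
  linarith

lemma upot_O_le {x : E} (hx : x ∈ Oset S r b c) : upot s K e S r b c ic x ≤ -1 + η := by
  rcases hx with ((hx | hx) | hx) | hx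
  · exact G.upot_B_le hx
  · exact G.upot_C_le hic hx
  · obtain ⟨y, hy, rfl⟩ := hx
    rw [G.upot_S (Or.inl (Or.inr hy))]
    exact G.upot_B_le hy
  · obtain ⟨y, hy, rfl⟩ := hx
    rw [G.upot_S (Or.inr hy)]
    exact G.upot_C_le hic hy

lemma upot_le {x : E} (hx : x ∈ Wset S r b c) :
    upot s K e S r b c ic x ≤ 2 + (2 : ℝ) ^ (-s) + 2 := by
  have h2 : (0 : ℝ) < (2 : ℝ) ^ (-s) := by positivity
  have hη2 := G.hη2
  rcases hx with (((hx | hx) | hx) | hx) | hx
  · exact G.upot_A_le hx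
  · have := G.upot_O_le hic (x := x) (Or.inl (Or.inl (Or.inl hx))); linarith
  · have := G.upot_O_le hic (x := x) (Or.inl (Or.inl (Or.inr hx))); linarith
  · have := G.upot_O_le hic (x := x) (Or.inl (Or.inr hx)); linarith
  · have := G.upot_O_le hic (x := x) (Or.inr hx); linarith

/-- two points in `A` -/
lemma TT_AA {x y z : E} (hx : x ∈ closedBall (0 : E) r) (hy : y ∈ closedBall (0 : E) r)
    (hz : z ∈ Wset S r b c) (hxy : x ≠ y) : TT s K e S r b c ic x y z := by
  apply TT_of_lt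
  have h1 := G.upot_le hic (x := x) (Or.inl (Or.inl (Or.inl (Or.inl hx))))
  have h2 := G.upot_le hic (x := y) (Or.inl (Or.inl (Or.inl (Or.inl hy))))
  have h3 := G.upot_le hic hz
  have h4 : (2 * r₁) ^ (-s) ≤ fpow s (x - y) := by
    apply fpow_ge G.hs (sub_ne_zero.2 hxy)
    have := norm_sub_le_centers (G.A_sub hx) (G.A_sub hy)
    simpa using this
  have h5 := G.big
  have h6 := G.hη
  have h7 := fpow_nonneg s (x - z)
  have h8 := fpow_nonneg s (y - z)
  unfold rc
  linarith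

/-- no point in `A` -/
lemma TT_OOO {x y z : E} (hx : x ∈ Oset S r b c) (hy : y ∈ Oset S r b c)
    (hz : z ∈ Oset S r b c) : TT s K e S r b c ic x y z := by
  apply TT_of_lt
  have h1 := G.upot_O_le hic hx
  have h2 := G.upot_O_le hic hy
  have h3 := G.upot_O_le hic hz
  have h6 := G.hη2
  have h7 := fpow_nonneg s (x - z)
  have h8 := fpow_nonneg s (y - z)
  have h9 := fpow_nonneg s (x - y)
  unfold rc
  linarith

omit hic in
lemma O_norm_sub {x y : E} (hx : x ∈ closedBall (0 : E) r) (hy : y ∈ Oset S r b c) :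
    ‖x - y‖ ≤ 1 + 2 * r₁ := by
  rcases hy with ((hy | hy) | hy) | hy
  · have := norm_sub_le_centers (G.A_sub hx) (G.B_sub hy)
    rwa [zero_sub, norm_neg, G.he] at this
  · have := norm_sub_le_centers (G.A_sub hx) (G.C_sub hy)
    rwa [zero_sub, norm_neg, norm_neg, G.he] at this
  · have := norm_sub_le_centers (G.A_sub hx) (G.B'_sub hy)
    rwa [zero_sub, norm_neg, G.he'] at this
  · have := norm_sub_le_centers (G.A_sub hx) (G.C'_sub hy)
    rwa [zero_sub, norm_neg, norm_neg, G.he'] at this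

/-- close outer pair -/
lemma TT_close {x y z : E} (hx : x ∈ closedBall (0 : E) r) (hy : y ∈ Oset S r b c)
    (hz : z ∈ Oset S r b c) (hxy : x ≠ y) (hxz : x ≠ z) (hyz : y ≠ z)
    (hclose : ‖y - z‖ ≤ √2 + 2 * r₁) : TT s K e S r b c ic x y z := by
  apply TT_of_lt
  have h1 := G.upot_A_le (ic := ic) hx
  have h2 := G.upot_O_le hic hy
  have h3 := G.upot_O_le hic hz
  have h4 := fpow_ge G.hs (sub_ne_zero.2 hxy) (G.O_norm_sub hx hy)
  have h5 := fpow_ge G.hs (sub_ne_zero.2 hxz) (G.O_norm_sub hx hz)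
  have h6 := fpow_ge G.hs (sub_ne_zero.2 hyz) hclose
  have h7 := G.gap
  have h8 := G.hη
  unfold rc
  linarith

/-- local case -/
lemma TT_ABC {x y z : E} (hx : x ∈ closedBall (0 : E) r) (hy : y ∈ b '' closedBall (0 : E) r)
    (hz : z ∈ c '' closedBall (0 : E) r) : TT s K e S r b c ic x y z := by
  obtain ⟨w, hw, rfl⟩ := hz
  have e1 : upot s K e S r b c ic x = uA s K x := G.upot_A hx
  have e2 : upot s K e S r b c ic y = uB s K e y := G.upot_B hy
  have e3 := G.upot_C hic hw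
  by_cases h : x = w ∧ y = b w
  · obtain ⟨rfl, rfl⟩ := h
    refine ⟨?_, fun _ => Or.inl ⟨x, hx, Or.inl rfl⟩⟩
    rw [e1, e2, e3, Ct]
    apply le_of_eq; ring
  · apply TT_of_lt
    have := G.loc w hw x hx y (G.B_sub hy) h
    rw [Fz_eq, Fz_eq] at this
    rw [e1, e2, e3, Ct]
    linarith

lemma TT_ABC' {x y z : E} (hx : x ∈ closedBall (0 : E) r)
    (hy : y ∈ S '' (b '' closedBall (0 : E) r))
    (hz : z ∈ S '' (c '' closedBall (0 : E) r)) : TT s K e S r b c ic x y z := by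
  obtain ⟨y, hy, rfl⟩ := hy
  obtain ⟨z, hz, rfl⟩ := hz
  have h := G.TT_ABC hic (G.S_mem_A hx) hy hz
  obtain ⟨h1, h2⟩ := h
  have ex : upot s K e S r b c ic (S x) = upot s K e S r b c ic x :=
    G.upot_S (Or.inl (Or.inl hx))
  have ey : upot s K e S r b c ic (S y) = upot s K e S r b c ic y :=
    G.upot_S (Or.inl (Or.inr hy))
  have ez : upot s K e S r b c ic (S z) = upot s K e S r b c ic z :=
    G.upot_S (Or.inr hz)
  have erc : rc s x (S y) (S z) = rc s (S x) y z := by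
    have n1 : ‖x - S y‖ = ‖S x - y‖ := by
      rw [← S.norm_map (x - S y), map_sub, G.hSS]
    have n2 : ‖x - S z‖ = ‖S x - z‖ := by
      rw [← S.norm_map (x - S z), map_sub, G.hSS]
    have n3 : ‖S y - S z‖ = ‖y - z‖ := by
      rw [← map_sub, S.norm_map]
    simp only [rc, fpow, n1, n2, n3]
  rw [ex] at h1 h2
  refine ⟨by rw [ey, ez, erc]; exact h1, fun h3 => ?_⟩
  rw [ey, ez, erc] at h3
  have h4 := h2 h3
  right
  -- the contact point is in the first family
  have key : ∀ w ∈ closedBall (0 : E) r, S x = w → y = b w → z = c w →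
      Contact (closedBall (0 : E) r) (fun x => S (b (S x))) (fun x => S (c (S x)))
        (x, S y, S z) := by
    intro w hw h5 h6 h7
    refine ⟨x, hx, Or.inl ?_⟩
    subst h5
    rw [h6, h7]
  rcases h4 with ⟨w, hw, h4⟩ | ⟨w, hw, h4⟩
  · simp only [Prod.mk.injEq] at h4
    have hbw : b w ∈ b '' closedBall (0 : E) r := ⟨w, hw, rfl⟩
    have hcw : c w ∈ c '' closedBall (0 : E) r := ⟨w, hw, rfl⟩
    rcases h4 with h4 | h4 | h4 | h4 | h4 | h4
    · exact key w hw h4.1 h4.2.1 h4.2.2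
    · exact absurd hy (by
        rw [h4.2.1]; exact fun h => (Set.disjoint_left.1 G.disj_BC) h hcw)
    · exact absurd (G.S_mem_A hx) (by
        rw [h4.1]; exact fun h => (Set.disjoint_left.1 G.disj_AB) h hbw)
    · exact absurd (G.S_mem_A hx) (by
        rw [h4.1]; exact fun h => (Set.disjoint_left.1 G.disj_AB) h hbw)
    · exact absurd (G.S_mem_A hx) (by
        rw [h4.1]; exact fun h => (Set.disjoint_left.1 G.disj_AC) h hcw)
    · exact absurd (G.S_mem_A hx) (by
        rw [h4.1]; exact fun h => (Set.disjoint_left.1 G.disj_AC) h hcw)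
  · exfalso
    simp only [Prod.mk.injEq] at h4
    have hbw : S (b (S w)) ∈ S '' (b '' closedBall (0 : E) r) := ⟨_, ⟨_, G.S_mem_A hw, rfl⟩, rfl⟩
    have hcw : S (c (S w)) ∈ S '' (c '' closedBall (0 : E) r) := ⟨_, ⟨_, G.S_mem_A hw, rfl⟩, rfl⟩
    rcases h4 with h4 | h4 | h4 | h4 | h4 | h4
    · rw [h4.2.1] at hy; exact (Set.disjoint_left.1 G.disj_BB') hy hbw
    · rw [h4.2.1] at hy; exact (Set.disjoint_left.1 G.disj_BC') hy hcw
    · rw [h4.2.1] at hy; exact (Set.disjoint_left.1 G.disj_AB) hw hy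
    · rw [h4.2.1] at hy; exact (Set.disjoint_left.1 G.disj_BC') hy hcw
    · rw [h4.2.1] at hy; exact (Set.disjoint_left.1 G.disj_AB) hw hy
    · rw [h4.2.1] at hy; exact (Set.disjoint_left.1 G.disj_BB') hy hbw

/-- exactly one point in `A` -/
lemma TT_AOO {x y z : E} (hx : x ∈ closedBall (0 : E) r) (hy : y ∈ Oset S r b c)
    (hz : z ∈ Oset S r b c) (hxy : x ≠ y) (hxz : x ≠ z) (hyz : y ≠ z) :
    TT s K e S r b c ic x y z := by
  have hs2 : 0 < √2 := by positivity
  have d0 : ∀ p : E, ‖p - p‖ + 2 * r₁ ≤ √2 + 2 * r₁ := fun p => by rw [sub_self, norm_zero]; linarith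
  have q1 : ‖e - e'‖ = √2 := G.n1
  have q2 : ‖e + e'‖ = √2 := G.n2
  have q3 : ‖e' - e‖ = √2 := by rw [norm_sub_rev]; exact q1
  have q4 : ‖e - -e'‖ = √2 := by rw [sub_neg_eq_add]; exact q2
  have q5 : ‖-e' - e‖ = √2 := by rw [norm_sub_rev]; exact q4
  have q6 : ‖-e - e'‖ = √2 := by rw [← norm_neg, neg_sub, sub_neg_eq_add, add_comm]; exact q2
  have q7 : ‖e' - -e‖ = √2 := by rw [norm_sub_rev]; exact q6
  have q8 : ‖-e - -e'‖ = √2 := by rw [neg_sub_neg]; exact q3
  have q9 : ‖-e' - -e‖ = √2 := by rw [norm_sub_rev]; exact q8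
  have hyO := hy
  have hzO := hz
  have fin := fun h => G.TT_close hic hx hyO hzO hxy hxz hyz h
  rcases hy with ((hy | hy) | hy) | hy <;> rcases hz with ((hz | hz) | hz) | hz
  · exact fin ((norm_sub_le_centers (G.B_sub hy) (G.B_sub hz)).trans (d0 _))
  · exact G.TT_ABC hic hx hy hz
  · exact fin ((norm_sub_le_centers (G.B_sub hy) (G.B'_sub hz)).trans (by rw [q1]))
  · exact fin ((norm_sub_le_centers (G.B_sub hy) (G.C'_sub hz)).trans (by rw [q4]))
  · exact TT_swap23 (G.TT_ABC hic hx hz hy)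
  · exact fin ((norm_sub_le_centers (G.C_sub hy) (G.C_sub hz)).trans (d0 _))
  · exact fin ((norm_sub_le_centers (G.C_sub hy) (G.B'_sub hz)).trans (by rw [q6]))
  · exact fin ((norm_sub_le_centers (G.C_sub hy) (G.C'_sub hz)).trans (by rw [q8]))
  · exact fin ((norm_sub_le_centers (G.B'_sub hy) (G.B_sub hz)).trans (by rw [q3]))
  · exact fin ((norm_sub_le_centers (G.B'_sub hy) (G.C_sub hz)).trans (by rw [q7]))
  · exact fin ((norm_sub_le_centers (G.B'_sub hy) (G.B'_sub hz)).trans (d0 _))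
  · exact G.TT_ABC' hic hx hy hz
  · exact fin ((norm_sub_le_centers (G.C'_sub hy) (G.B_sub hz)).trans (by rw [q5]))
  · exact fin ((norm_sub_le_centers (G.C'_sub hy) (G.C_sub hz)).trans (by rw [q9]))
  · exact TT_swap23 (G.TT_ABC' hic hx hz hy)
  · exact fin ((norm_sub_le_centers (G.C'_sub hy) (G.C'_sub hz)).trans (d0 _))

omit G hic in
lemma mem_W_iff {x : E} : x ∈ Wset S r b c ↔ x ∈ closedBall (0 : E) r ∨ x ∈ Oset S r b c := by
  simp only [Wset, Oset, Set.mem_union]; tauto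

theorem TT_all {x y z : E} (hx : x ∈ Wset S r b c) (hy : y ∈ Wset S r b c)
    (hz : z ∈ Wset S r b c) (hxy : x ≠ y) (hxz : x ≠ z) (hyz : y ≠ z) :
    TT s K e S r b c ic x y z := by
  have hx0 := hx
  have hy0 := hy
  have hz0 := hz
  rw [mem_W_iff] at hx hy hz
  rcases hx with hx | hx <;> rcases hy with hy | hy <;> rcases hz with hz | hz
  · exact G.TT_AA hic hx hy hz0 hxy
  · exact G.TT_AA hic hx hy hz0 hxy
  · exact TT_swap23 (G.TT_AA hic hx hz hy0 hxz)
  · exact G.TT_AOO hic hx hy hz hxy hxz hyz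
  · exact TT_swap12 (TT_swap23 (G.TT_AA hic hy hz hx0 hyz))
  · exact TT_swap12 (G.TT_AOO hic hy hx hz hxy.symm hyz hxz)
  · exact TT_swap23 (TT_swap12 (G.TT_AOO hic hz hx hy hxz.symm hyz.symm hxy))
  · exact G.TT_OOO hic hx hy hz

end Geo

end Crest.Agent.H18OT
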