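import Mathlib
import Crest.Agent.H18OTPot2
import Crest.Agent.H18OTDens
import Crest.Agent.H18OTAbs

/-!
Assembly of S0175.
-/

set_option autoImplicit false

open scoped ContDiff Topology RealInnerProductSpace ENNReal
open Filter Set Metric MeasureTheory
open Crest.Agent.H18OTAbs Crest.AnalysisR.OT

namespace Crest.Agent.H18OT

variable {E : Type*} [NormedAddCommGroup E] [InnerProductSpace ℝ E]

lemma pairCost_of_ne {s : ℝ} {x y : E} (h : x ≠ y) :
    pairCost s x y = ENNReal.ofReal (fpow s (x - y)) := by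
  unfold pairCost fpow
  rw [ENNReal.ofReal_rpow_of_pos (norm_pos_iff.2 (sub_ne_zero.2 h))]

lemma pairCost_self {s : ℝ} (hs : 0 < s) (x : E) : pairCost s x x = ⊤ := by
  unfold pairCost
  rw [sub_self, norm_zero, ENNReal.ofReal_zero, ENNReal.zero_rpow_of_neg (by linarith)]

lemma tripleCost_of_ne {s : ℝ} {x y z : E} (hxy : x ≠ y) (hxz : x ≠ z) (hyz : y ≠ z) :
    tripleCost s (x, y, z) = ENNReal.ofReal (rc s x y z) := by
  unfold tripleCost rc
  simp only
  rw [pairCost_of_ne hxy, pairCost_of_ne hxz, pairCost_of_ne hyz,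
    ENNReal.ofReal_add (add_nonneg (fpow_nonneg _ _) (fpow_nonneg _ _)) (fpow_nonneg _ _),
    ENNReal.ofReal_add (fpow_nonneg _ _) (fpow_nonneg _ _)]

lemma tripleCost_top {s : ℝ} (hs : 0 < s) {x y z : E} (h : x = y ∨ x = z ∨ y = z) :
    tripleCost s (x, y, z) = ⊤ := by
  unfold tripleCost
  simp only
  rcases h with rfl | rfl | rfl
  · rw [pairCost_self hs]; simp
  · rw [pairCost_self hs]; simp
  · rw [pairCost_self hs]; simp

lemma tripleCost_S (s : ℝ) (S : E ≃ₗᵢ[ℝ] E) (x y z : E) :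
    tripleCost s (S x, S y, S z) = tripleCost s (x, y, z) := by
  unfold tripleCost pairCost
  simp only [← map_sub, S.norm_map]

variable {s K r r₁ η : ℝ} {e e' : E} {S : E ≃ₗᵢ[ℝ] E} {b c ic : E → E}

lemma Geo.congr (G : Geo s e e' S K r r₁ η b c) {b₂ c₂ : E → E}
    (hb : ∀ x ∈ closedBall (0 : E) r, b₂ x = b x) (hc : ∀ x ∈ closedBall (0 : E) r, c₂ x = c x) :
    Geo s e e' S K r r₁ η b₂ c₂ := by
  refine ⟨G.hs, G.he, G.he', G.horth, G.hS, G.hSS, G.hK, G.hr, G.hrr₁, G.hr₁, G.hη, G.hη2, G.gap,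
    G.big, ?_, ?_, G.small_uA, ?_, ?_, ?_⟩
  · intro x hx; rw [hb x hx]; exact G.mapb x hx
  · intro x hx; rw [hc x hx]; exact G.mapc x hx
  · intro x hx; rw [hb x hx]; exact G.small_uB x hx
  · intro x hx
    have : Ct s K e b₂ c₂ x = Ct s K e b c x := by
      unfold Ct; rw [hb x hx, hc x hx]
    rw [this]; exact G.small_uC x hx
  · intro w hw x hx y hy hne
    rw [hb w hw] at hne ⊢
    rw [hc w hw]
    exact G.loc w hw x hx y hy hne

namespace Geo

variable (G : Geo s e e' S K r r₁ η b c) (hic : ∀ x ∈ closedBall (0 : E) r, ic (c x) = x)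
include G hic

lemma le_cost {x y z : E} (hx : x ∈ Wset S r b c) (hy : y ∈ Wset S r b c)
    (hz : z ∈ Wset S r b c) :
    ENNReal.ofReal (3 * (2 + (2 : ℝ) ^ (-s) + 2)) ≤ tripleCost s (x, y, z) +
      (ENNReal.ofReal (2 + (2 : ℝ) ^ (-s) + 2 - upot s K e S r b c ic x)
        + ENNReal.ofReal (2 + (2 : ℝ) ^ (-s) + 2 - upot s K e S r b c ic y)
        + ENNReal.ofReal (2 + (2 : ℝ) ^ (-s) + 2 - upot s K e S r b c ic z)) := by
  by_cases hd : x = y ∨ x = z ∨ y = z
  · rw [tripleCost_top G.hs hd]; simp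
  · push Not at hd
    obtain ⟨hxy, hxz, hyz⟩ := hd
    have h := (G.TT_all hic hx hy hz hxy hxz hyz).1
    have hx' := G.upot_le hic hx
    have hy' := G.upot_le hic hy
    have hz' := G.upot_le hic hz
    have hrc : 0 ≤ rc s x y z :=
      add_nonneg (add_nonneg (fpow_nonneg _ _) (fpow_nonneg _ _)) (fpow_nonneg _ _)
    rw [tripleCost_of_ne hxy hxz hyz, ← ENNReal.ofReal_add (by linarith) (by linarith),
      ← ENNReal.ofReal_add (by linarith) (by linarith), ← ENNReal.ofReal_add hrc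
        (by linarith)]
    apply ENNReal.ofReal_le_ofReal
    linarith

lemma contact_of_eq {x y z : E} (hx : x ∈ Wset S r b c) (hy : y ∈ Wset S r b c)
    (hz : z ∈ Wset S r b c) (heq : tripleCost s (x, y, z) +
      (ENNReal.ofReal (2 + (2 : ℝ) ^ (-s) + 2 - upot s K e S r b c ic x)
        + ENNReal.ofReal (2 + (2 : ℝ) ^ (-s) + 2 - upot s K e S r b c ic y)
        + ENNReal.ofReal (2 + (2 : ℝ) ^ (-s) + 2 - upot s K e S r b c ic z)) =
        ENNReal.ofReal (3 * (2 + (2 : ℝ) ^ (-s) + 2))) :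
    Gam S r b c x y z := by
  by_cases hd : x = y ∨ x = z ∨ y = z
  · rw [tripleCost_top G.hs hd, top_add] at heq
    exact absurd heq.symm ENNReal.ofReal_ne_top
  · push Not at hd
    obtain ⟨hxy, hxz, hyz⟩ := hd
    have h := (G.TT_all hic hx hy hz hxy hxz hyz)
    have hx' := G.upot_le hic hx
    have hy' := G.upot_le hic hy
    have hz' := G.upot_le hic hz
    have hrc : 0 ≤ rc s x y z :=
      add_nonneg (add_nonneg (fpow_nonneg _ _) (fpow_nonneg _ _)) (fpow_nonneg _ _)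
    rw [tripleCost_of_ne hxy hxz hyz, ← ENNReal.ofReal_add (by linarith) (by linarith),
      ← ENNReal.ofReal_add (by linarith) (by linarith), ← ENNReal.ofReal_add hrc
        (by linarith), ENNReal.ofReal_eq_ofReal_iff (by linarith) (by positivity)] at heq
    exact h.2 (by linarith)

lemma eq_cost {x : E} (hx : x ∈ closedBall (0 : E) r) :
    tripleCost s (x, b x, c x) +
      (ENNReal.ofReal (2 + (2 : ℝ) ^ (-s) + 2 - upot s K e S r b c ic x)
        + ENNReal.ofReal (2 + (2 : ℝ) ^ (-s) + 2 - upot s K e S r b c ic (b x))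
        + ENNReal.ofReal (2 + (2 : ℝ) ^ (-s) + 2 - upot s K e S r b c ic (c x))) =
        ENNReal.ofReal (3 * (2 + (2 : ℝ) ^ (-s) + 2)) := by
  have hbB : b x ∈ b '' closedBall (0 : E) r := ⟨x, hx, rfl⟩
  have hcC : c x ∈ c '' closedBall (0 : E) r := ⟨x, hx, rfl⟩
  have hxy : x ≠ b x := fun h => (Set.disjoint_left.1 G.disj_AB) hx (by rw [h]; exact hbB)
  have hxz : x ≠ c x := fun h => (Set.disjoint_left.1 G.disj_AC) hx (by rw [h]; exact hcC)
  have hyz : b x ≠ c x := fun h => (Set.disjoint_left.1 G.disj_BC) hbB (by rw [h]; exact hcC)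
  have hW1 : x ∈ Wset S r b c := Or.inl (Or.inl (Or.inl (Or.inl hx)))
  have hW2 : b x ∈ Wset S r b c := Or.inl (Or.inl (Or.inl (Or.inr hbB)))
  have hW3 : c x ∈ Wset S r b c := Or.inl (Or.inl (Or.inr hcC))
  have hx' := G.upot_le hic hW1
  have hy' := G.upot_le hic hW2
  have hz' := G.upot_le hic hW3
  have hrc : 0 ≤ rc s x (b x) (c x) :=
    add_nonneg (add_nonneg (fpow_nonneg _ _) (fpow_nonneg _ _)) (fpow_nonneg _ _)
  rw [tripleCost_of_ne hxy hxz hyz, ← ENNReal.ofReal_add (by linarith) (by linarith),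
      ← ENNReal.ofReal_add (by linarith) (by linarith), ← ENNReal.ofReal_add hrc
        (by linarith)]
  congr 1
  have h1 : upot s K e S r b c ic x = uA s K x := G.upot_A hx
  have h2 : upot s K e S r b c ic (b x) = uB s K e (b x) := G.upot_B hbB
  have h3 := G.upot_C hic hx
  rw [h1, h2, h3, Ct]
  ring

lemma eq_cost' {x : E} (hx : x ∈ closedBall (0 : E) r) :
    tripleCost s (x, S (b (S x)), S (c (S x))) +
      (ENNReal.ofReal (2 + (2 : ℝ) ^ (-s) + 2 - upot s K e S r b c ic x)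
        + ENNReal.ofReal (2 + (2 : ℝ) ^ (-s) + 2 - upot s K e S r b c ic (S (b (S x))))
        + ENNReal.ofReal (2 + (2 : ℝ) ^ (-s) + 2 - upot s K e S r b c ic (S (c (S x))))) =
        ENNReal.ofReal (3 * (2 + (2 : ℝ) ^ (-s) + 2)) := by
  have hSx := G.S_mem_A hx
  have h := G.eq_cost hic hSx
  have h1 : upot s K e S r b c ic (S x) = upot s K e S r b c ic x :=
    G.upot_S (Or.inl (Or.inl hx))
  have h2 : upot s K e S r b c ic (S (b (S x))) = upot s K e S r b c ic (b (S x)) :=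
    G.upot_S (Or.inl (Or.inr ⟨_, hSx, rfl⟩))
  have h3 : upot s K e S r b c ic (S (c (S x))) = upot s K e S r b c ic (c (S x)) :=
    G.upot_S (Or.inr ⟨_, hSx, rfl⟩)
  have h4 : tripleCost s (x, S (b (S x)), S (c (S x))) = tripleCost s (S x, b (S x), c (S x)) := by
    rw [← tripleCost_S s S x, G.hSS, G.hSS]
  rw [h2, h3, h4, ← h1]
  exact h

omit hic in
lemma unif [FiniteDimensional ℝ E] (ε : ℝ≥0∞) (hε : 0 < ε) : ∃ δ : ℝ, 0 < δ ∧
    ∀ x ∈ closedBall (0 : E) r, ∀ w ∈ closedBall (0 : E) r, dist x w ≤ δ →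
      tripleCost s (x, b w, c w) ≤ tripleCost s (w, b w, c w) + ε := by
  have hproper : ProperSpace E := FiniteDimensional.proper ℝ E
  obtain ⟨ε', hε'0, hε'⟩ : ∃ ε' : ℝ, 0 < ε' ∧ ENNReal.ofReal ε' ≤ ε := by
    obtain ⟨t, ht0, ht⟩ := ENNReal.lt_iff_exists_real_btwn.1 hε
    exact ⟨t, ENNReal.ofReal_pos.1 ht.1, ht.2.le⟩
  set Z : Set E := closedBall (0 : E) 2 \ ball (0 : E) (1 / 2) with hZ
  have hZc : IsCompact Z := (isCompact_closedBall 0 2).diff isOpen_ball
  have hcont : ContinuousOn (fpow s : E → ℝ) Z := by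
    intro v hv
    have hv0 : v ≠ 0 := by
      rintro rfl
      exact hv.2 (mem_ball_self (by norm_num))
    exact (contDiffAt_fpow s hv0).continuousAt.continuousWithinAt
  have huc := hZc.uniformContinuousOn_of_continuous hcont
  obtain ⟨δ, hδ, hδ'⟩ := Metric.uniformContinuousOn_iff.1 huc (ε' / 2) (by positivity)
  refine ⟨δ / 2, by positivity, ?_⟩
  intro x hx w hw hxw
  have hr₁ := G.hr₁
  have memZ : ∀ {y p : E}, y ∈ closedBall (0 : E) r → p ∈ Oset S r b c → y - p ∈ Z := by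
    intro y p hy hp
    have up := G.O_norm_sub hy hp
    have low : 1 / 2 ≤ ‖y - p‖ := by
      have h0 := G.A_sub hy
      rw [mem_closedBall_zero_iff] at h0
      have hp1 : 1 - r₁ ≤ ‖p‖ := by
        have key : ∀ a : E, ‖a‖ = 1 → p ∈ closedBall a r₁ → 1 - r₁ ≤ ‖p‖ := by
          intro a ha hpa
          rw [mem_closedBall_iff_norm] at hpa
          have := norm_sub_le p (p - a)
          have e1 : p - (p - a) = a := by abel
          rw [e1, ha] at this
          linarith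
        rcases hp with ((hp | hp) | hp) | hp
        · exact key e G.he (G.B_sub hp)
        · exact key (-e) (by rw [norm_neg, G.he]) (G.C_sub hp)
        · exact key e' G.he' (G.B'_sub hp)
        · exact key (-e') (by rw [norm_neg, G.he']) (G.C'_sub hp)
      have := norm_sub_norm_le p y
      rw [norm_sub_rev] at this
      linarith
    refine ⟨?_, ?_⟩
    · rw [mem_closedBall_zero_iff]; linarith
    · rw [mem_ball_zero_iff]; linarith
  have hbO : b w ∈ Oset S r b c := Or.inl (Or.inl (Or.inl ⟨w, hw, rfl⟩))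
  have hcO : c w ∈ Oset S r b c := Or.inl (Or.inl (Or.inr ⟨w, hw, rfl⟩))
  have neAO : ∀ {y p : E}, y ∈ closedBall (0 : E) r → p ∈ Oset S r b c → y ≠ p := by
    intro y p hy hp h
    have := (memZ hy hp).2
    rw [h, sub_self] at this
    exact this (mem_ball_self (by norm_num))
  have hbc : b w ≠ c w := by
    have hbB : b w ∈ b '' closedBall (0 : E) r := ⟨w, hw, rfl⟩
    have hcC : c w ∈ c '' closedBall (0 : E) r := ⟨w, hw, rfl⟩
    exact fun h => (Set.disjoint_left.1 G.disj_BC) hbB (by rw [h]; exact hcC)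
  rw [tripleCost_of_ne (neAO hx hbO) (neAO hx hcO) hbc,
    tripleCost_of_ne (neAO hw hbO) (neAO hw hcO) hbc]
  have k1 : dist (fpow s (x - b w)) (fpow s (w - b w)) < ε' / 2 := by
    apply hδ' _ (memZ hx hbO) _ (memZ hw hbO)
    rw [dist_sub_right]; linarith
  have k2 : dist (fpow s (x - c w)) (fpow s (w - c w)) < ε' / 2 := by
    apply hδ' _ (memZ hx hcO) _ (memZ hw hcO)
    rw [dist_sub_right]; linarith
  rw [Real.dist_eq, abs_lt] at k1 k2
  have hrc : rc s x (b w) (c w) ≤ rc s w (b w) (c w) + ε' := by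
    unfold rc; linarith
  have hrc0 : 0 ≤ rc s w (b w) (c w) :=
    add_nonneg (add_nonneg (fpow_nonneg _ _) (fpow_nonneg _ _)) (fpow_nonneg _ _)
  calc ENNReal.ofReal (rc s x (b w) (c w)) ≤ ENNReal.ofReal (rc s w (b w) (c w) + ε') :=
        ENNReal.ofReal_le_ofReal hrc
    _ = ENNReal.ofReal (rc s w (b w) (c w)) + ENNReal.ofReal ε' :=
        ENNReal.ofReal_add hrc0 hε'0.le
    _ ≤ _ := by gcongr

omit hic in
lemma unif' [FiniteDimensional ℝ E] (ε : ℝ≥0∞) (hε : 0 < ε) : ∃ δ : ℝ, 0 < δ ∧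
    ∀ x ∈ closedBall (0 : E) r, ∀ w ∈ closedBall (0 : E) r, dist x w ≤ δ →
      tripleCost s (x, S (b (S w)), S (c (S w))) ≤
        tripleCost s (w, S (b (S w)), S (c (S w))) + ε := by
  obtain ⟨δ, hδ, h⟩ := G.unif ε hε
  refine ⟨δ, hδ, ?_⟩
  intro x hx w hw hxw
  have e1 : ∀ y, tripleCost s (y, S (b (S w)), S (c (S w))) =
      tripleCost s (S y, b (S w), c (S w)) := by
    intro y
    rw [← tripleCost_S s S y, G.hSS, G.hSS]
  rw [e1, e1]
  apply h (S x) (G.S_mem_A hx) (S w) (G.S_mem_A hw)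
  rwa [S.dist_map]

end Geo

end Crest.Agent.H18OT
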