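import Mathlib
import Crest.Agent.H18OTAsm

/-!
Main theorem for S0175 in a general Euclidean space with two orthonormal vectors and a swap.
-/

set_option autoImplicit false

open scoped ContDiff Topology RealInnerProductSpace ENNReal
open Filter Set Metric MeasureTheory
open Crest.Agent.H18OTAbs Crest.AnalysisR.OT

namespace Crest.Agent.H18OT

lemma sqrt_five {a b c d f : ℝ} (ha : 0 ≤ a) (hb : 0 ≤ b) (hc : 0 ≤ c) (hd : 0 ≤ d) (hf : 0 ≤ f)
    (ab : a * b = 0) (ac : a * c = 0) (ad : a * d = 0) (af : a * f = 0) (bc : b * c = 0)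
    (bd : b * d = 0) (bf : b * f = 0) (cd : c * d = 0) (cf : c * f = 0) (df : d * f = 0) :
    √(a ^ 2 + 1 / 2 * (b ^ 2 + c ^ 2 + d ^ 2 + f ^ 2)) = a + √(1 / 2) * (b + c + d + f) := by
  have h2 : (√(1 / 2)) ^ 2 = 1 / 2 := Real.sq_sqrt (by norm_num)
  have h : a ^ 2 + 1 / 2 * (b ^ 2 + c ^ 2 + d ^ 2 + f ^ 2) =
      (a + √(1 / 2) * (b + c + d + f)) ^ 2 := by
    have e1 : (a + √(1 / 2) * (b + c + d + f)) ^ 2 = a ^ 2 + (√(1 / 2)) ^ 2 *
        (b ^ 2 + c ^ 2 + d ^ 2 + f ^ 2 + 2 * (b * c + b * d + b * f + c * d + c * f + d * f))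
        + 2 * √(1 / 2) * (a * b + a * c + a * d + a * f) := by ring
    rw [e1, ab, ac, ad, af, bc, bd, bf, cd, cf, df, h2]; ring
  rw [h, Real.sqrt_sq]
  positivity

variable {E : Type*} [NormedAddCommGroup E] [InnerProductSpace ℝ E] [FiniteDimensional ℝ E]
  [MeasurableSpace E] [BorelSpace E]

lemma map_withDensity_isom (S : E ≃ₗᵢ[ℝ] E) (hSS : ∀ x, S (S x) = x) (f : E → ℝ≥0∞) :
    ((volume : Measure E).withDensity f).map S = volume.withDensity (fun x => f (S x)) := by
  ext T hT
  have hSm : Measurable S := S.continuous.measurable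
  rw [Measure.map_apply hSm hT, withDensity_apply _ (hSm hT), withDensity_apply _ hT]
  have hmp : MeasurePreserving S (volume : Measure E) volume := S.measurePreserving
  have hme : MeasurableEmbedding S := S.toHomeomorph.measurableEmbedding
  have := hmp.setLIntegral_comp_preimage_emb hme (fun x => f (S x)) T
  rw [← this]
  apply lintegral_congr
  intro x
  rw [hSS]

/-- an invariant bump with prescribed mass -/
lemma exists_bump {r : ℝ} (hr : 0 < r) (e : E) :
    ∃ h : E → ℝ, ContDiff ℝ ∞ h ∧ (∀ x, 0 ≤ h x) ∧ (∀ x, x ∉ closedBall (0 : E) r → h x = 0) ∧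
      (∀ x y, ‖x‖ = ‖y‖ → h x = h y) ∧
      ∫⁻ x, ENNReal.ofReal (h x ^ 2) = ENNReal.ofReal (1 / 3) := by
  have hproper : ProperSpace E := FiniteDimensional.proper ℝ E
  set h₀ : E → ℝ := fun x => Real.smoothTransition (1 - ‖x‖ ^ 2 / r ^ 2) with hh₀
  have h₀s : ContDiff ℝ ∞ h₀ := by
    apply Real.smoothTransition.contDiff.comp
    exact contDiff_const.sub ((contDiff_norm_sq ℝ).div_const _)
  have h₀0 : ∀ x, 0 ≤ h₀ x := fun x => Real.smoothTransition.nonneg _
  have h₀z : ∀ x, x ∉ closedBall (0 : E) r → h₀ x = 0 := by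
    intro x hx
    rw [mem_closedBall_zero_iff, not_le] at hx
    apply Real.smoothTransition.zero_of_nonpos
    have : 1 ≤ ‖x‖ ^ 2 / r ^ 2 := by
      rw [one_le_div (by positivity)]
      exact pow_le_pow_left₀ hr.le hx.le 2
    linarith
  have hcs : HasCompactSupport (fun x => h₀ x ^ 2) := by
    apply HasCompactSupport.intro (isCompact_closedBall (0 : E) r)
    intro x hx
    rw [h₀z x hx]; norm_num
  have hcont : Continuous (fun x => h₀ x ^ 2) := h₀s.continuous.pow 2
  have hint : Integrable (fun x => h₀ x ^ 2) (volume : Measure E) :=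
    hcont.integrable_of_hasCompactSupport hcs
  set I := ∫ x, h₀ x ^ 2 with hI
  have hIpos : 0 < I := by
    rw [hI]
    apply (integral_pos_iff_support_of_nonneg (fun x => sq_nonneg _) hint).2
    have hopen : IsOpen (Function.support fun x => h₀ x ^ 2) := hcont.isOpen_support
    refine hopen.measure_pos (volume : Measure E) ⟨0, ?_⟩
    show h₀ 0 ^ 2 ≠ 0
    simp [hh₀]
  set k := √(1 / (3 * I)) with hk
  have hk0 : 0 ≤ k := Real.sqrt_nonneg _
  refine ⟨fun x => k * h₀ x, contDiff_const.mul h₀s, fun x => mul_nonneg hk0 (h₀0 x), ?_, ?_, ?_⟩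
  · intro x hx
    simp only [h₀z x hx, mul_zero]
  · intro x y hxy
    simp only [hh₀, hxy]
  · have e1 : ∀ x, (k * h₀ x) ^ 2 = k ^ 2 * h₀ x ^ 2 := fun x => by ring
    simp only [e1]
    rw [← ofReal_integral_eq_lintegral_ofReal (hint.const_mul _)
      (Eventually.of_forall fun x => by positivity), integral_const_mul, ← hI]
    congr 1
    rw [hk, Real.sq_sqrt (by positivity)]
    field_simp

theorem main {s : ℝ} (hs : 0 < s) {e e' : E} (S : E ≃ₗᵢ[ℝ] E)
    (he : ‖e‖ = 1) (he' : ‖e'‖ = 1) (horth : ⟪e, e'⟫ = (0 : ℝ)) (hS : S e = e')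
    (hSS : ∀ x, S (S x) = x) :
    ∃ ρ : E → ℝ, (∀ x, 0 ≤ ρ x) ∧ ContDiff ℝ ∞ ρ ∧ HasCompactSupport ρ ∧
      ContDiff ℝ ∞ (fun x => Real.sqrt (ρ x)) ∧ ∫ x, ρ x = 1 ∧
      ∃ π₀ : Measure (E × E × E),
        IsCoupling₃ (measOfDensity ρ) π₀ ∧ ∫⁻ p, tripleCost s p ∂π₀ < ⊤ ∧
        (∀ π : Measure (E × E × E), IsCoupling₃ (measOfDensity ρ) π →
          ∫⁻ p, tripleCost s p ∂π₀ ≤ ∫⁻ p, tripleCost s p ∂π) ∧
        (∀ T₂ T₃ : E → E, Measurable T₂ → Measurable T₃ →
          (measOfDensity ρ).map T₂ = measOfDensity ρ → (measOfDensity ρ).map T₃ = measOfDensity ρ →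
          ∫⁻ p, tripleCost s p ∂π₀ < ∫⁻ x, tripleCost s (x, T₂ x, T₃ x) ∂(measOfDensity ρ)) ∧
        (∀ ε : ℝ≥0∞, 0 < ε → ∃ T₂ T₃ : E → E, Measurable T₂ ∧ Measurable T₃ ∧
          (measOfDensity ρ).map T₂ = measOfDensity ρ ∧ (measOfDensity ρ).map T₃ = measOfDensity ρ ∧
          ∫⁻ x, tripleCost s (x, T₂ x, T₃ x) ∂(measOfDensity ρ) <
            ∫⁻ p, tripleCost s p ∂π₀ + ε) := by
  classical
  have hproper : ProperSpace E := FiniteDimensional.proper ℝ E
  have hcompl : CompleteSpace E := FiniteDimensional.complete ℝ E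
  obtain ⟨K, r, r₁, η, φb, φc, G₀, hAb, hAc, hbs, hbt, hcs, hct⟩ :=
    exists_geo hs S he he' horth hS hSS
  have hr : 0 < r := G₀.hr
  obtain ⟨h, hhs, hh0, hhz, hhr, hhm⟩ := exists_bump (E := E) hr e
  obtain ⟨qb, qbs, qb0, qbz, qbm⟩ := exists_density φb hbs hbt h hhs hh0 _
    (isCompact_closedBall (0 : E) r) hAb hhz
  obtain ⟨qc, qcs, qc0, qcz, qcm⟩ := exists_density φc hcs hct h hhs hh0 _
    (isCompact_closedBall (0 : E) r) hAc hhz
  -- measurable maps
  have pw : ∀ (φ : OpenPartialHomeomorph E E), Measurable (φ.source.piecewise φ 0) := by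
    intro φ
    exact φ.continuousOn.measurable_piecewise continuousOn_const φ.open_source.measurableSet
  set b : E → E := φb.source.piecewise φb 0 with hb_def
  set c : E → E := φc.source.piecewise φc 0 with hc_def
  set ib : E → E := φb.symm.source.piecewise φb.symm 0 with hib_def
  set ic : E → E := φc.symm.source.piecewise φc.symm 0 with hic_def
  have hbm : Measurable b := pw φb
  have hcm : Measurable c := pw φc
  have hibm : Measurable ib := pw φb.symm
  have hicm : Measurable ic := pw φc.symm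
  have hbA : ∀ x ∈ closedBall (0 : E) r, b x = φb x := fun x hx =>
    piecewise_eq_of_mem _ _ _ (hAb hx)
  have hcA : ∀ x ∈ closedBall (0 : E) r, c x = φc x := fun x hx =>
    piecewise_eq_of_mem _ _ _ (hAc hx)
  have hib : ∀ x ∈ closedBall (0 : E) r, ib (b x) = x := by
    intro x hx
    rw [hbA x hx, hib_def, piecewise_eq_of_mem _ _ _ (show φb x ∈ φb.symm.source from
      φb.map_source (hAb hx))]
    exact φb.left_inv (hAb hx)
  have hic : ∀ x ∈ closedBall (0 : E) r, ic (c x) = x := by
    intro x hx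
    rw [hcA x hx, hic_def, piecewise_eq_of_mem _ _ _ (show φc x ∈ φc.symm.source from
      φc.map_source (hAc hx))]
    exact φc.left_inv (hAc hx)
  have G : Geo s e e' S K r r₁ η b c := G₀.congr hbA hcA
  have himb : b '' closedBall (0 : E) r = φb '' closedBall (0 : E) r :=
    image_congr hbA
  have himc : c '' closedBall (0 : E) r = φc '' closedBall (0 : E) r :=
    image_congr hcA
  have hAcomp : IsCompact (closedBall (0 : E) r) := isCompact_closedBall _ _
  have hBcomp : IsCompact (b '' closedBall (0 : E) r) := by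
    rw [himb]; exact hAcomp.image_of_continuousOn (φb.continuousOn.mono hAb)
  have hCcomp : IsCompact (c '' closedBall (0 : E) r) := by
    rw [himc]; exact hAcomp.image_of_continuousOn (φc.continuousOn.mono hAc)
  have hB'comp : IsCompact (S '' (b '' closedBall (0 : E) r)) := hBcomp.image S.continuous
  have hC'comp : IsCompact (S '' (c '' closedBall (0 : E) r)) := hCcomp.image S.continuous
  have hWcomp : IsCompact (Wset S r b c) :=
    (((hAcomp.union hBcomp).union hCcomp).union hB'comp).union hC'comp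
  have qbz' : ∀ y, y ∉ b '' closedBall (0 : E) r → qb y = 0 := by rw [himb]; exact qbz
  have qcz' : ∀ y, y ∉ c '' closedBall (0 : E) r → qc y = 0 := by rw [himc]; exact qcz
  have qbSz : ∀ y, y ∉ S '' (b '' closedBall (0 : E) r) → qb (S y) = 0 := by
    intro y hy
    apply qbz'
    intro h1
    exact hy ⟨S y, h1, hSS y⟩
  have qcSz : ∀ y, y ∉ S '' (c '' closedBall (0 : E) r) → qc (S y) = 0 := by
    intro y hy
    apply qcz'
    intro h1
    exact hy ⟨S y, h1, hSS y⟩
  have prod0 : ∀ {P Q : Set E} {f g : E → ℝ}, Disjoint P Q → (∀ y, y ∉ P → f y = 0) →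
      (∀ y, y ∉ Q → g y = 0) → ∀ y, f y * g y = 0 := by
    intro P Q f g hPQ hf hg y
    by_cases hy : y ∈ P
    · rw [hg y (fun h => Set.disjoint_left.1 hPQ hy h), mul_zero]
    · rw [hf y hy, zero_mul]
  -- the density
  set ρ : E → ℝ := fun x => h x ^ 2 + 1 / 2 * (qb x ^ 2 + qc x ^ 2 + qb (S x) ^ 2 + qc (S x) ^ 2)
    with hρ
  have hρ0 : ∀ x, 0 ≤ ρ x := fun x => by simp only [hρ]; positivity
  have hSc : ContDiff ℝ ∞ S := S.contDiff
  have qbSs : ContDiff ℝ ∞ (fun x => qb (S x)) := qbs.comp hSc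
  have qcSs : ContDiff ℝ ∞ (fun x => qc (S x)) := qcs.comp hSc
  have hρs : ContDiff ℝ ∞ ρ :=
    (hhs.pow 2).add (contDiff_const.mul ((((qbs.pow 2).add (qcs.pow 2)).add (qbSs.pow 2)).add
      (qcSs.pow 2)))
  have hρc : HasCompactSupport ρ := by
    apply HasCompactSupport.intro hWcomp
    intro x hx
    simp only [Wset, mem_union, not_or] at hx
    obtain ⟨⟨⟨⟨x1, x2⟩, x3⟩, x4⟩, x5⟩ := hx
    simp only [hρ, hhz x x1, qbz' x x2, qcz' x x3, qbSz x x4, qcSz x x5]
    norm_num
  have hsqrt : (fun x => √(ρ x)) = fun x => h x + √(1 / 2) * (qb x + qc x + qb (S x) + qc (S x)) := by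
    funext x
    exact sqrt_five (hh0 x) (qb0 x) (qc0 x) (qb0 _) (qc0 _)
      (prod0 G.disj_AB hhz qbz' x) (prod0 G.disj_AC hhz qcz' x)
      (prod0 (g := fun y => qb (S y)) G.disj_AB' hhz qbSz x)
      (prod0 (g := fun y => qc (S y)) G.disj_AC' hhz qcSz x)
      (prod0 G.disj_BC qbz' qcz' x)
      (prod0 (g := fun y => qb (S y)) G.disj_BB' qbz' qbSz x)
      (prod0 (g := fun y => qc (S y)) G.disj_BC' qbz' qcSz x)
      (prod0 (g := fun y => qb (S y)) G.disj_CB' qcz' qbSz x)
      (prod0 (g := fun y => qc (S y)) G.disj_CC' qcz' qcSz x)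
      (prod0 (f := fun y => qb (S y)) (g := fun y => qc (S y)) G.disj_B'C' qbSz qcSz x)
  have hsqrts : ContDiff ℝ ∞ (fun x => √(ρ x)) := by
    rw [hsqrt]
    exact hhs.add (contDiff_const.mul (((qbs.add qcs).add qbSs).add qcSs))
  -- the measures
  set α : Measure E := volume.withDensity (fun x => ENNReal.ofReal (h x ^ 2)) with hα
  have hαu : α univ = ENNReal.ofReal (1 / 3) := by
    rw [hα, withDensity_apply _ MeasurableSet.univ, setLIntegral_univ, hhm]
  have hαfin : IsFiniteMeasure α := ⟨by rw [hαu]; exact ENNReal.ofReal_lt_top⟩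
  have hαS : α.map S = α := by
    rw [hα, map_withDensity_isom S hSS]
    congr 1
    funext x
    rw [hhr (S x) x (S.norm_map x)]
  have hSm : Measurable S := S.continuous.measurable
  set b' : E → E := fun x => S (b (S x)) with hb'
  set c' : E → E := fun x => S (c (S x)) with hc'
  have hb'm : Measurable b' := hSm.comp (hbm.comp hSm)
  have hc'm : Measurable c' := hSm.comp (hcm.comp hSm)
  have hαb : α.map b = volume.withDensity (fun y => ENNReal.ofReal (qb y ^ 2)) := qbm b hbm hbA
  have hαc : α.map c = volume.withDensity (fun y => ENNReal.ofReal (qc y ^ 2)) := qcm c hcm hcA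
  have hαb' : α.map b' = volume.withDensity (fun y => ENNReal.ofReal (qb (S y) ^ 2)) := by
    have : α.map b' = ((α.map S).map b).map S := by
      rw [Measure.map_map hSm hbm, Measure.map_map (hSm.comp hbm) hSm]; rfl
    rw [this, hαS, hαb, map_withDensity_isom S hSS]
  have hαc' : α.map c' = volume.withDensity (fun y => ENNReal.ofReal (qc (S y) ^ 2)) := by
    have : α.map c' = ((α.map S).map c).map S := by
      rw [Measure.map_map hSm hcm, Measure.map_map (hSm.comp hcm) hSm]; rfl
    rw [this, hαS, hαc, map_withDensity_isom S hSS]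
  have mh : Measurable fun x => ENNReal.ofReal (h x ^ 2) :=
    (hhs.continuous.measurable.pow_const 2).ennreal_ofReal
  have mqb : Measurable fun x => ENNReal.ofReal (qb x ^ 2) :=
    (qbs.continuous.measurable.pow_const 2).ennreal_ofReal
  have mqc : Measurable fun x => ENNReal.ofReal (qc x ^ 2) :=
    (qcs.continuous.measurable.pow_const 2).ennreal_ofReal
  have mqbS : Measurable fun x => ENNReal.ofReal (qb (S x) ^ 2) :=
    (qbSs.continuous.measurable.pow_const 2).ennreal_ofReal
  have mqcS : Measurable fun x => ENNReal.ofReal (qc (S x) ^ 2) :=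
    (qcSs.continuous.measurable.pow_const 2).ennreal_ofReal
  have hμ : measOfDensity ρ = α + (2 : ℝ≥0∞)⁻¹ • (α.map b + α.map c + α.map b' + α.map c') := by
    rw [hαb, hαc, hαb', hαc', ← withDensity_add_left mqb, ← withDensity_add_left (mqb.add mqc),
      ← withDensity_add_left ((mqb.add mqc).add mqbS), ← withDensity_smul' _ _ (by simp),
      hα, ← withDensity_add_left mh]
    unfold measOfDensity
    congr 1
    funext x
    simp only [hρ, Pi.add_apply, Pi.smul_apply, smul_eq_mul]
    rw [ENNReal.ofReal_add (by positivity) (by positivity), ENNReal.ofReal_mul (by norm_num),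
      ENNReal.ofReal_add (by positivity) (by positivity),
      ENNReal.ofReal_add (by positivity) (by positivity),
      ENNReal.ofReal_add (by positivity) (by positivity)]
    congr 2
    rw [one_div, ENNReal.ofReal_inv_of_pos (by norm_num)]
    norm_num
  have hμu : measOfDensity ρ univ = 1 := by
    rw [hμ]
    simp only [Measure.coe_add, Measure.coe_smul, Pi.add_apply, Pi.smul_apply, smul_eq_mul]
    rw [Measure.map_apply hbm MeasurableSet.univ, Measure.map_apply hcm MeasurableSet.univ,
      Measure.map_apply hb'm MeasurableSet.univ, Measure.map_apply hc'm MeasurableSet.univ]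
    simp only [preimage_univ, hαu]
    rw [show (2 : ℝ≥0∞)⁻¹ = ENNReal.ofReal (1 / 2) by
      rw [one_div, ENNReal.ofReal_inv_of_pos (by norm_num)]; norm_num,
      ← ENNReal.ofReal_add (by norm_num) (by norm_num),
      ← ENNReal.ofReal_add (by norm_num) (by norm_num),
      ← ENNReal.ofReal_add (by norm_num) (by norm_num),
      ← ENNReal.ofReal_mul (by norm_num),
      ← ENNReal.ofReal_add (by norm_num) (by norm_num)]
    norm_num
  have hρint : ∫ x, ρ x = 1 := by
    rw [integral_eq_lintegral_of_nonneg_ae (Eventually.of_forall hρ0)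
      hρs.continuous.aestronglyMeasurable]
    have : ∫⁻ x, ENNReal.ofReal (ρ x) = measOfDensity ρ univ := by
      unfold measOfDensity
      rw [withDensity_apply _ MeasurableSet.univ, setLIntegral_univ]
    rw [this, hμu]; simp
  refine ⟨ρ, hρ0, hρs, hρc, hsqrts, hρint, ?_⟩
  have hnull : NullSingletonClass α := by
    constructor
    intro x
    exact (withDensity_absolutelyContinuous _ _) (by
      have : Nontrivial E := ⟨e, 0, by
        intro h0; rw [h0, norm_zero] at he; exact zero_ne_one he⟩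
      exact measure_singleton x)
  have hαne : α ≠ 0 := by
    intro h0
    rw [h0, Measure.coe_zero, Pi.zero_apply] at hαu
    exact (ENNReal.ofReal_pos.2 (by norm_num : (0 : ℝ) < 1 / 3)).ne hαu
  have mU : Measurable (upot s K e S r b c ic) := by
    have mA : Measurable (uA s K : E → ℝ) := by
      unfold uA
      exact (measurable_const.sub (measurable_const.mul (measurable_norm.pow_const 2)))
    have mB : Measurable (uB s K e : E → ℝ) := by
      unfold uB
      have h1 : Continuous (fun y : E => -1 + ⟪gpow s e + gpow s (e + e), y - e⟫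
        - K / 2 * ‖y - e‖ ^ 2) := by fun_prop
      exact h1.measurable
    have mf : Measurable (fpow s : E → ℝ) := by
      unfold fpow
      exact measurable_norm.pow_const _
    have mC : Measurable (Ct s K e b c) := by
      unfold Ct rc
      exact ((((mf.comp (measurable_id.sub hbm)).add (mf.comp (measurable_id.sub hcm))).add
        (mf.comp (hbm.sub hcm))).sub mA).sub (mB.comp hbm)
    have mu1 : Measurable (u₁ s K e r b c ic) := by
      unfold u₁
      exact Measurable.ite hAcomp.measurableSet mA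
        (Measurable.ite hBcomp.measurableSet mB (mC.comp hicm))
    unfold upot
    exact Measurable.ite ((hAcomp.measurableSet.union hBcomp.measurableSet).union
      hCcomp.measurableSet) mu1 (mu1.comp hSm)
  exact abstract_monge s α hαne (closedBall (0 : E) r) (b '' closedBall (0 : E) r)
    (c '' closedBall (0 : E) r) (S '' (b '' closedBall (0 : E) r))
    (S '' (c '' closedBall (0 : E) r)) hAcomp.measurableSet hBcomp.measurableSet
    hCcomp.measurableSet hB'comp.measurableSet hC'comp.measurableSet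
    G.disj_AB G.disj_AC G.disj_AB' G.disj_AC' G.disj_BC G.disj_BB' G.disj_BC' G.disj_CB'
    G.disj_CC' G.disj_B'C'
    (by
      rw [hα, withDensity_apply _ hAcomp.measurableSet.compl]
      rw [setLIntegral_congr_fun hAcomp.measurableSet.compl (g := fun _ => 0)]
      · simp
      · intro x hx
        simp only [hhz x hx]; norm_num)
    b c b' c' ib ic (fun x => S (ib (S x))) (fun x => S (ic (S x))) hbm hcm hb'm hc'm hibm hicm
    (hSm.comp (hibm.comp hSm)) (hSm.comp (hicm.comp hSm))
    (fun x hx => ⟨⟨x, hx, rfl⟩, hib x hx⟩) (fun x hx => ⟨⟨x, hx, rfl⟩, hic x hx⟩)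
    (fun x hx => ⟨⟨_, ⟨S x, G.S_mem_A hx, rfl⟩, rfl⟩, by
      simp only [hb', hSS, hib _ (G.S_mem_A hx)]⟩)
    (fun x hx => ⟨⟨_, ⟨S x, G.S_mem_A hx, rfl⟩, rfl⟩, by
      simp only [hc', hSS, hic _ (G.S_mem_A hx)]⟩)
    (measOfDensity ρ) hμ
    (fun x => ENNReal.ofReal (2 + (2 : ℝ) ^ (-s) + 2 - upot s K e S r b c ic x))
    ((measurable_const.sub mU).ennreal_ofReal)
    (ENNReal.ofReal (3 * (2 + (2 : ℝ) ^ (-s) + 2))) ENNReal.ofReal_ne_top
    (fun x hx y hy z hz => G.le_cost hic hx hy hz)
    (fun x hx y hy z hz heq => G.contact_of_eq hic hx hy hz heq)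
    (fun x hx => G.eq_cost hic hx) (fun x hx => G.eq_cost' hic hx)
    (fun ε hε => G.unif ε hε) (fun ε hε => G.unif' ε hε)

end Crest.Agent.H18OT
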