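import Crest.Agent.H18PrBSD2
set_option autoImplicit false

namespace Crest.Agent.H18Pr
noncomputable section

theorem d3 (q0 q1 q2 q3 Q E : ℝ) (hs : q0 + q1 + q2 + q3 + Q = 16) (h10 : q1 ≤ q0) (h21 : q2 ≤ q1)
    (h32 : q3 ≤ q2) (h3 : 0 ≤ q3) (hQ : 0 ≤ Q) (hQ2 : Q ≤ 12 / 5) (h8 : q0 ≤ 8)
    (h2 : 7 / 5 ≤ q2) (h33 : q3 ≤ 23 / 20) (hsub : q2 ≤ 21 / 5 ∨ q3 ≤ 7 / 10)
    (h209 : 209 / 100 ≤ 16 - q0 - q1) (hreg : 3 / 10 * q2 ≤ q3 ∨ 1 / 2 * q2 ≤ 16 - q0 - q1 - q2)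
    (hE : ∀ e qb : ℝ, (∀ q, 0 ≤ q → q ≤ qb → E3 (17 / 20) q ≤ e * q) → (q3 ≤ qb ∨ 1 ≤ qb) → E ≤ e * Q) :
    4 * (17 / 20) + (T3 (17 / 20) q0 (Q / 16) + T3 (17 / 20) q1 (Q / 16) + T3 (17 / 20) q2 (Q / 16)
      + T3 (17 / 20) q3 (Q / 16)) + E ≤ 6 := by
  have hw : 0 ≤ Q / 16 := by linarith
  have hwW : Q / 16 ≤ 3 / 20 := by linarith
  have t0 := d3L q0 (Q / 16) (by linarith) hw hwW
  have t1 := d3L q1 (Q / 16) (by linarith) hw hwW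
  have fin : ∀ T : ℝ, T = 4 * (17 / 20) + T3 (17 / 20) q0 (Q / 16) + T3 (17 / 20) q1 (Q / 16) + T3 (17 / 20) q2 (Q / 16) →
      T + T3 (17 / 20) q3 (Q / 16) + E ≤ 6 := by
    intro T hT
    have g6 : 3 * q2 + q3 + Q ≤ 16 := by linarith
    have g7 : 209 / 100 ≤ q2 + q3 + Q := by linarith
    have hreg' : 3 / 10 * q2 ≤ q3 ∨ 1 / 2 * q2 ≤ q3 + Q := hreg.imp id (fun h => by linarith)
    rcases le_total q2 (17/10) with h' | h'
    · have t2 := d3a0 q2 (Q / 16) (by linarith) (by linarith) (by linarith) hw hwW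
      rcases hreg' with hr | hr
      · exact d3c_0_1_0 q2 q3 Q T E (by linarith) (by linarith) h3 h33 hQ hQ2 g6 g7 h32 hr (by rw [hT]; linarith) hE
      · exact d3c_0_2_0 q2 q3 Q T E (by linarith) (by linarith) h3 h33 hQ hQ2 g6 g7 h32 hr (by rw [hT]; linarith) hE
    replace h2 := h'
    clear h'
    rcases le_total q2 (21/10) with h' | h'
    · have t2 := d3a1 q2 (Q / 16) (by linarith) (by linarith) (by linarith) hw hwW
      rcases hreg' with hr | hr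
      · exact d3c_1_1_0 q2 q3 Q T E (by linarith) (by linarith) h3 h33 hQ hQ2 g6 g7 h32 hr (by rw [hT]; linarith) hE
      · exact d3c_1_2_0 q2 q3 Q T E (by linarith) (by linarith) h3 h33 hQ hQ2 g6 g7 h32 hr (by rw [hT]; linarith) hE
    replace h2 := h'
    clear h'
    rcases le_total q2 (27/10) with h' | h'
    · have t2 := d3a2 q2 (Q / 16) (by linarith) hw hwW
      rcases hreg' with hr | hr
      · exact d3c_2_1_0 q2 q3 Q T E (by linarith) (by linarith) h3 h33 hQ hQ2 g6 g7 h32 hr (by rw [hT]; linarith) hE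
      · exact d3c_2_2_0 q2 q3 Q T E (by linarith) (by linarith) h3 h33 hQ hQ2 g6 g7 h32 hr (by rw [hT]; linarith) hE
    replace h2 := h'
    clear h'
    rcases le_total q2 (7/2) with h' | h'
    · have t2 := d3a3 q2 (Q / 16) (by linarith) hw hwW
      rcases hreg' with hr | hr
      · exact d3c_3_1_0 q2 q3 Q T E (by linarith) (by linarith) h3 h33 hQ hQ2 g6 g7 h32 hr (by rw [hT]; linarith) hE
      · exact d3c_3_2_0 q2 q3 Q T E (by linarith) (by linarith) h3 h33 hQ hQ2 g6 g7 h32 hr (by rw [hT]; linarith) hE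
    replace h2 := h'
    clear h'
    have t2 := d3a4 q2 (Q / 16) (by linarith) hw hwW
    have hsub' : q2 ≤ 21 / 5 ∨ (21 / 5 ≤ q2 ∧ q3 ≤ 7 / 10) := by
      rcases le_total q2 (21 / 5) with a | a
      · exact Or.inl a
      · rcases hsub with b | b
        · exact Or.inl b
        · exact Or.inr ⟨a, b⟩
    rcases hreg' with hr | hr
    · rcases hsub' with a | a
      · exact d3c_4_1_1 q2 q3 Q T E (by linarith) (by linarith) h3 h33 hQ hQ2 g6 g7 h32 hr a (by rw [hT]; linarith) hE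
      · exact d3c_4_1_2 q2 q3 Q T E (by linarith) (by linarith) h3 h33 hQ hQ2 g6 g7 h32 hr a.1 a.2 (by rw [hT]; linarith) hE
    · rcases hsub' with a | a
      · exact d3c_4_2_1 q2 q3 Q T E (by linarith) (by linarith) h3 h33 hQ hQ2 g6 g7 h32 hr a (by rw [hT]; linarith) hE
      · exact d3c_4_2_2 q2 q3 Q T E (by linarith) (by linarith) h3 h33 hQ hQ2 g6 g7 h32 hr a.1 a.2 (by rw [hT]; linarith) hE
  have := fin _ rfl
  linarith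

theorem d2 (q0 q1 q2 q3 Q E : ℝ) (hs : q0 + q1 + q2 + q3 + Q = 16) (h10 : q1 ≤ q0) (h21 : q2 ≤ q1)
    (h32 : q3 ≤ q2) (hQ : 0 ≤ Q) (hQ2 : Q ≤ 12 / 5)
    (h3 : 23 / 20 ≤ q3) (h33 : q3 ≤ 16 / 9)
    (hE : ∀ e qb : ℝ, (∀ q, 0 ≤ q → q ≤ qb → E3 (9 / 10) q ≤ e * q) → (q3 ≤ qb ∨ 1 ≤ qb) → E ≤ e * Q) :
    4 * (9 / 10) + (T3 (9 / 10) q0 (Q / 16) + T3 (9 / 10) q1 (Q / 16) + T3 (9 / 10) q2 (Q / 16)
      + T3 (9 / 10) q3 (Q / 16)) + E ≤ 6 := by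
  have hw : 0 ≤ Q / 16 := by linarith
  have hwW : Q / 16 ≤ 3 / 20 := by linarith
  have t0 := d2L q0 (Q / 16) (by linarith) hw hwW
  have t1 := d2L q1 (Q / 16) (by linarith) hw hwW
  have t2 := d2L q2 (Q / 16) (by linarith) hw hwW
  have t3 := d2p q3 (Q / 16) (by linarith) h3 h33 hw hwW
  have e := hE _ _ eb16 (Or.inr le_rfl)
  linarith

theorem d2b (q0 q1 q2 q3 Q E : ℝ) (hs : q0 + q1 + q2 + q3 + Q = 16) (h10 : q1 ≤ q0) (h21 : q2 ≤ q1)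
    (h2 : 21 / 5 ≤ q2) (hQ : 0 ≤ Q) (hQ2 : Q ≤ 12 / 5) (h3 : 7 / 10 ≤ q3) (h33 : q3 ≤ 23 / 20)
    (hreg : 3 / 10 * q2 ≤ q3 ∨ 1 / 2 * q2 ≤ 16 - q0 - q1 - q2)
    (hE : ∀ e qb : ℝ, (∀ q, 0 ≤ q → q ≤ qb → E3 (9 / 10) q ≤ e * q) → (q3 ≤ qb ∨ 1 ≤ qb) → E ≤ e * Q) :
    4 * (9 / 10) + (T3 (9 / 10) q0 (Q / 16) + T3 (9 / 10) q1 (Q / 16) + T3 (9 / 10) q2 (Q / 16)
      + T3 (9 / 10) q3 (Q / 16)) + E ≤ 6 := by
  have hw : 0 ≤ Q / 16 := by linarith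
  have hwW : Q / 16 ≤ 3 / 20 := by linarith
  have t0 := d2bL q0 (Q / 16) (by linarith) hw hwW
  have t1 := d2bL q1 (Q / 16) (by linarith) hw hwW
  have t2 := d2bL q2 (Q / 16) (by linarith) hw hwW
  have hr : 1 / 2 * q2 ≤ q3 + Q := by
    rcases hreg with h | h
    · exfalso; linarith
    · linarith
  have := d2bc q2 q3 Q (4 * (9 / 10) + T3 (9 / 10) q0 (Q / 16) + T3 (9 / 10) q1 (Q / 16)
    + T3 (9 / 10) q2 (Q / 16)) E h2 h3 h33 hQ hQ2 (by linarith) hr (by linarith) hE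
  linarith

theorem d5 (q0 q1 q2 q3 Q E : ℝ) (hs : q0 + q1 + q2 + q3 + Q = 16) (h10 : q1 ≤ q0)
    (h32 : q3 ≤ q2) (h3 : 0 ≤ q3) (hQ : 0 ≤ Q) (hQ2 : Q ≤ 12 / 5) (h8 : q0 ≤ 8)
    (h2 : q2 ≤ 7 / 5) (h209 : 209 / 100 ≤ 16 - q0 - q1)
    (hE : ∀ e qb : ℝ, (∀ q, 0 ≤ q → q ≤ qb → E3 (4 / 5) q ≤ e * q) → (q3 ≤ qb ∨ 1 ≤ qb) → E ≤ e * Q) :
    4 * (4 / 5) + (T3 (4 / 5) q0 (Q / 16) + T3 (4 / 5) q1 (Q / 16) + T3 (4 / 5) q2 (Q / 16)
      + T3 (4 / 5) q3 (Q / 16)) + E ≤ 6 := by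
  have hw : 0 ≤ Q / 16 := by linarith
  have hwW : Q / 16 ≤ 3 / 20 := by linarith
  have t0 := d5L q0 (Q / 16) (by linarith) hw hwW
  have t1 := d5L q1 (Q / 16) (by linarith) hw hwW
  have fin : ∀ T : ℝ, T = 4 * (4 / 5) + T3 (4 / 5) q0 (Q / 16) + T3 (4 / 5) q1 (Q / 16) + T3 (4 / 5) q2 (Q / 16) →
      T + T3 (4 / 5) q3 (Q / 16) + E ≤ 6 := by
    intro T hT
    rcases le_total q2 (16 / 25) with h' | h'
    · have t2 := d5a0 q2 (Q / 16) (by linarith) (by linarith) h' hw hwW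
      exact d5c_0 q2 q3 Q T E (by linarith) h' h3 hQ hQ2 (by linarith) h32 (by rw [hT]; linarith) hE
    rcases le_total q2 1 with h'' | h''
    · have t2 := d5a1 q2 (Q / 16) (by linarith) h' h'' hw hwW
      exact d5c_1 q2 q3 Q T E h' h'' h3 hQ hQ2 (by linarith) h32 (by rw [hT]; linarith) hE
    · have t2 := d5a2 q2 (Q / 16) (by linarith) h'' h2 hw hwW
      exact d5c_2 q2 q3 Q T E h'' h2 h3 hQ hQ2 (by linarith) h32 (by rw [hT]; linarith) hE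
  have := fin _ rfl
  linarith

theorem bsd : Spec.BSD := by
  intro m q hq h4 h3 hQ2 h209 hreg
  have hs5 : ∑ i, q i = q 0 + q 1 + q 2 + q 3 + ∑ i : Fin (m + 1), q (t4 i) := by
    rw [show (∑ i, q i) = ∑ i : Fin (m + 1 + 4), q i from rfl]
    rw [Fin.sum_univ_succ, Fin.sum_univ_succ, Fin.sum_univ_succ, Fin.sum_univ_succ]
    have e : ∀ i : Fin (m + 1), (Fin.succ (Fin.succ (Fin.succ (Fin.succ i))) : Fin (m + 1 + 4)) = t4 i := by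
      intro i; ext; simp [t4]
    simp only [e]
    have e0 : ((0 : Fin (m + 1 + 4))) = (0 : Fin (m + 5)) := rfl
    have e1 : (Fin.succ (0 : Fin (m + 1 + 3))) = (1 : Fin (m + 5)) := rfl
    have e2 : (Fin.succ (Fin.succ (0 : Fin (m + 1 + 2)))) = (2 : Fin (m + 5)) := rfl
    have e3 : (Fin.succ (Fin.succ (Fin.succ (0 : Fin (m + 1 + 1))))) = (3 : Fin (m + 5)) := rfl
    rw [e1, e2, e3]
    ring
  have htot := hq.tot
  rw [hs5] at htot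
  set Q := ∑ i : Fin (m + 1), q (t4 i) with hQdef
  have h01 : q 1 ≤ q 0 := hq.srt 0 1 (Fin.zero_le _)
  have hle : ∀ (a b : ℕ) (ha : a < m + 5) (hb : b < m + 5), a ≤ b → q ⟨b, hb⟩ ≤ q ⟨a, ha⟩ :=
    fun a b ha hb hab => hq.srt _ _ (by exact hab)
  have e1 : (1 : Fin (m + 5)) = ⟨1, by omega⟩ := rfl
  have e2 : (2 : Fin (m + 5)) = ⟨2, by omega⟩ := rfl
  have e3 : (3 : Fin (m + 5)) = ⟨3, by omega⟩ := rfl
  have e4 : (4 : Fin (m + 5)) = ⟨4, by omega⟩ := rfl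
  have h21 : q 2 ≤ q 1 := by rw [e1, e2]; exact hle _ _ _ _ (by norm_num)
  have h32 : q 3 ≤ q 2 := by rw [e3, e2]; exact hle _ _ _ _ (by norm_num)
  have hn3 : 0 ≤ q 3 := hq.nn 3
  have hQ0 : 0 ≤ Q := Finset.sum_nonneg fun i _ => hq.nn _
  have ht3 : ∀ i : Fin (m + 1), q (t4 i) ≤ q 3 := by
    intro i; rw [e3]; exact hle _ _ _ _ (by omega)
  have ht4 : ∀ i : Fin (m + 1), q (t4 i) ≤ 1 := by
    intro i
    refine le_trans ?_ h4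
    rw [e4]; exact hle _ _ _ _ (by omega)
  have hE : ∀ β e qb : ℝ, (∀ x, 0 ≤ x → x ≤ qb → E3 β x ≤ e * x) → (q 3 ≤ qb ∨ 1 ≤ qb) →
      ∑ i : Fin (m + 1), E3 β (q (t4 i)) ≤ e * Q := by
    intro β e qb h h'
    refine sumE β e qb _ (fun i => hq.nn _) (fun i => ?_) h
    rcases h' with h' | h'
    · exact (ht3 i).trans h'
    · exact (ht4 i).trans h'
  have hQ2' : Q ≤ 12 / 5 := by norm_num at hQ2 ⊢; linarith
  have h209' : 209 / 100 ≤ 16 - q 0 - q 1 := by norm_num at h209 ⊢; linarith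
  have hreg' : 3 / 10 * q 2 ≤ q 3 ∨ 1 / 2 * q 2 ≤ 16 - q 0 - q 1 - q 2 := by
    norm_num at hreg ⊢
    exact hreg
  rcases le_total (q 2) (7 / 5) with hc | hc
  · exact ⟨4 / 5, by norm_num, d5 _ _ _ _ Q _ (by linarith) h01 h32 hn3 hQ0 hQ2' hq.top hc h209' (hE _)⟩
  rcases le_total (q 3) (23 / 20) with hd | hd
  swap
  · exact ⟨9 / 10, by norm_num, d2 _ _ _ _ Q _ (by linarith) h01 h21 h32 hQ0 hQ2' hd h3 (hE _)⟩
  rcases le_total (q 2) (21 / 5) with he | he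
  · exact ⟨17 / 20, by norm_num, d3 _ _ _ _ Q _ (by linarith) h01 h21 h32 hn3 hQ0 hQ2' hq.top hc hd (Or.inl he) h209' hreg' (hE _)⟩
  rcases le_total (q 3) (7 / 10) with hf | hf
  · exact ⟨17 / 20, by norm_num, d3 _ _ _ _ Q _ (by linarith) h01 h21 h32 hn3 hQ0 hQ2' hq.top hc hd (Or.inr hf) h209' hreg' (hE _)⟩
  · exact ⟨9 / 10, by norm_num, d2b _ _ _ _ Q _ (by linarith) h01 h21 he hQ0 hQ2' hf hd hreg' (hE _)⟩

end
end Crest.Agent.H18Pr
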