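import Crest.Agent.H18PrBSSpec
set_option autoImplicit false

/-! Generic majorant lemmas for `T3`, `E3`. -/

namespace Crest.Agent.H18Pr
noncomputable section

theorem sg_facts (β q w : ℝ) (hβ : 0 < β) (hq : 0 ≤ q) (hw : 0 ≤ w) :
    β ≤ sg β q w ∧ q ≤ sg β q w ^ 2 ∧ (sg β q w ^ 2 - β ^ 2) * (sg β q w ^ 2 - q) = β ^ 2 * w := by
  have hR0 : 0 ≤ (q - β ^ 2) ^ 2 + 4 * β ^ 2 * w := by positivity
  set R := √((q - β ^ 2) ^ 2 + 4 * β ^ 2 * w) with hR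
  have hRs : R ^ 2 = (q - β ^ 2) ^ 2 + 4 * β ^ 2 * w := Real.sq_sqrt hR0
  have hRnn : 0 ≤ R := Real.sqrt_nonneg _
  have hRa : |q - β ^ 2| ≤ R := by
    apply Real.abs_le_sqrt
    have : 0 ≤ 4 * β ^ 2 * w := by positivity
    linarith
  have h1 := (abs_le.mp hRa).1
  have h2 := (abs_le.mp hRa).2
  have hs2 : sg β q w ^ 2 = (β ^ 2 + q + R) / 2 := by
    unfold sg
    rw [Real.sq_sqrt]
    positivity
  have hsn : 0 ≤ sg β q w := Real.sqrt_nonneg _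
  refine ⟨?_, by rw [hs2]; linarith, ?_⟩
  · have : β ^ 2 ≤ sg β q w ^ 2 := by rw [hs2]; linarith
    exact (abs_le_of_sq_le_sq' this hsn).2
  · rw [hs2]
    nlinarith

theorem K3_le (β s t : ℝ) (hs : 0 < s) (h : (s - β) ^ 2 ≤ t * s) : K3 β s ≤ t := by
  unfold K3
  rw [div_le_iff₀ hs]
  exact h

/-- planar majorant on a strip `qa ≤ q ≤ qb`. -/
theorem maj3 (β α γ μ qa qb sm W : ℝ) (hβ : 0 < β) (hab : qa < qb)
    (hs1 : β ≤ sm) (hs2 : qb ≤ sm ^ 2) (hW : β ^ 2 * W ≤ (sm ^ 2 - β ^ 2) * (sm ^ 2 - qb))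
    (h1 : ∀ s, β ≤ s → qa ≤ s ^ 2 → s ≤ sm →
      0 ≤ (α + γ * qa) * β ^ 2 * s + μ * s * (s ^ 2 - β ^ 2) * (s ^ 2 - qa) - β ^ 2 * (s - β) ^ 2)
    (h2 : ∀ s, β ≤ s → qb ≤ s ^ 2 → s ≤ sm →
      0 ≤ (α + γ * qb) * β ^ 2 * s + μ * s * (s ^ 2 - β ^ 2) * (s ^ 2 - qb) - β ^ 2 * (s - β) ^ 2)
    (h3 : ∀ s, β ≤ s → qa ≤ s ^ 2 → s ^ 2 ≤ qb → 0 ≤ (α + γ * s ^ 2) * s - (s - β) ^ 2)
    (q w : ℝ) (hq : 0 ≤ q) (hqa : qa ≤ q) (hqb : q ≤ qb) (hw : 0 ≤ w) (hwW : w ≤ W) :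
    T3 β q w ≤ α + γ * q + μ * w := by
  obtain ⟨f1, f2, f3⟩ := sg_facts β q w hβ hq hw
  unfold T3
  set s := sg β q w with hs
  have hs0 : 0 < s := lt_of_lt_of_le hβ f1
  have hβ2 : 0 < β ^ 2 := by positivity
  have hsβ : β ^ 2 ≤ s ^ 2 := by nlinarith
  have hsm : s ≤ sm := by
    by_contra hc
    push Not at hc
    have hc2 : sm ^ 2 < s ^ 2 := by nlinarith
    have hsm2 : β ^ 2 ≤ sm ^ 2 := by nlinarith
    have : (sm ^ 2 - β ^ 2) * (sm ^ 2 - qb) < (s ^ 2 - β ^ 2) * (s ^ 2 - q) := by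
      apply mul_lt_mul'' <;> linarith
    have hww : β ^ 2 * w ≤ β ^ 2 * W := mul_le_mul_of_nonneg_left hwW hβ2.le
    linarith
  apply K3_le _ _ _ hs0
  have G1 := h1 s f1 (hqa.trans f2) hsm
  have key : 0 ≤ (α + γ * q) * β ^ 2 * s + μ * s * ((s ^ 2 - β ^ 2) * (s ^ 2 - q)) - β ^ 2 * (s - β) ^ 2 := by
    rcases le_total qb (s ^ 2) with hc | hc
    · have G2 := h2 s f1 hc hsm
      have e : (qb - qa) * ((α + γ * q) * β ^ 2 * s + μ * s * ((s ^ 2 - β ^ 2) * (s ^ 2 - q)) - β ^ 2 * (s - β) ^ 2)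
          = (qb - q) * ((α + γ * qa) * β ^ 2 * s + μ * s * (s ^ 2 - β ^ 2) * (s ^ 2 - qa) - β ^ 2 * (s - β) ^ 2)
          + (q - qa) * ((α + γ * qb) * β ^ 2 * s + μ * s * (s ^ 2 - β ^ 2) * (s ^ 2 - qb) - β ^ 2 * (s - β) ^ 2) := by
        ring
      have e1 := mul_nonneg (sub_nonneg.mpr hqb) G1
      have e2 := mul_nonneg (sub_nonneg.mpr hqa) G2
      have e3 : 0 < qb - qa := by linarith
      by_contra hneg
      push Not at hneg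
      have := mul_neg_of_pos_of_neg e3 hneg
      linarith
    · have G3 := h3 s f1 (hqa.trans f2) hc
      rcases eq_or_lt_of_le (hqa.trans f2) with heq | hlt
      · have hqq : q = qa := le_antisymm (by rw [heq]; exact f2) hqa
        rw [hqq]
        linarith
      · have e : (s ^ 2 - qa) * ((α + γ * q) * β ^ 2 * s + μ * s * ((s ^ 2 - β ^ 2) * (s ^ 2 - q)) - β ^ 2 * (s - β) ^ 2)
          = (s ^ 2 - q) * ((α + γ * qa) * β ^ 2 * s + μ * s * (s ^ 2 - β ^ 2) * (s ^ 2 - qa) - β ^ 2 * (s - β) ^ 2)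
          + (q - qa) * (β ^ 2 * ((α + γ * s ^ 2) * s - (s - β) ^ 2)) := by
          ring
        have e1 := mul_nonneg (sub_nonneg.mpr f2) G1
        have e2 := mul_nonneg (sub_nonneg.mpr hqa) (mul_nonneg hβ2.le G3)
        have e3 : 0 < s ^ 2 - qa := by linarith
        by_contra hneg
        push Not at hneg
        have := mul_neg_of_pos_of_neg e3 hneg
        linarith
  rw [f3] at key
  have : 0 ≤ β ^ 2 * ((α + γ * q + μ * w) * s - (s - β) ^ 2) := by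
    have e : β ^ 2 * ((α + γ * q + μ * w) * s - (s - β) ^ 2)
      = (α + γ * q) * β ^ 2 * s + μ * s * (β ^ 2 * w) - β ^ 2 * (s - β) ^ 2 := by ring
    rw [e]; exact key
  have := nonneg_of_mul_nonneg_right this hβ2
  linarith

/-- majorant for large `q` -/
theorem majL (β A B l qm W : ℝ) (hβ : 0 < β) (hqm : β ^ 2 < qm) (hW0 : 0 < W)
    (h0 : ∀ s, β ≤ s → qm ≤ s ^ 2 → 0 ≤ (A + B * s ^ 2) * s - (s - β) ^ 2)
    (hW : ∀ s, β ≤ s → qm ≤ s ^ 2 → 0 ≤ (A + B * s ^ 2 + l * W) * s * (s ^ 2 - β ^ 2)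
      - B * β ^ 2 * W * s - (s - β) ^ 2 * (s ^ 2 - β ^ 2))
    (q w : ℝ) (hq : qm ≤ q) (hw : 0 ≤ w) (hwW : w ≤ W) :
    T3 β q w ≤ A + B * q + l * w := by
  have hq0 : 0 ≤ q := le_trans (le_of_lt (lt_of_le_of_lt (sq_nonneg β) hqm)) hq
  obtain ⟨f1, f2, f3⟩ := sg_facts β q w hβ hq0 hw
  unfold T3
  set s := sg β q w with hs
  have hs0 : 0 < s := lt_of_lt_of_le hβ f1
  have hD : 0 < s ^ 2 - β ^ 2 := by linarith
  apply K3_le _ _ _ hs0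
  have G0 := h0 s f1 (hq.trans f2)
  have GW := hW s f1 (hq.trans f2)
  have e : W * ((s ^ 2 - β ^ 2) * ((A + B * q + l * w) * s - (s - β) ^ 2))
      = (W - w) * ((s ^ 2 - β ^ 2) * ((A + B * s ^ 2) * s - (s - β) ^ 2))
        + w * ((A + B * s ^ 2 + l * W) * s * (s ^ 2 - β ^ 2)
          - B * β ^ 2 * W * s - (s - β) ^ 2 * (s ^ 2 - β ^ 2))
        - W * B * s * ((s ^ 2 - β ^ 2) * (s ^ 2 - q) - β ^ 2 * w) := by ring
  have e1 := mul_nonneg (sub_nonneg.mpr hwW) (mul_nonneg hD.le G0)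
  have e2 := mul_nonneg hw GW
  have e3 : 0 ≤ W * ((s ^ 2 - β ^ 2) * ((A + B * q + l * w) * s - (s - β) ^ 2)) := by
    rw [e, f3]; linarith
  have e4 := nonneg_of_mul_nonneg_right e3 hW0
  have e5 := nonneg_of_mul_nonneg_right e4 hD
  linarith

/-- tail majorant -/
theorem majE (β e qb : ℝ) (hβ : 0 < β)
    (he : ∀ s, β ≤ s → s ^ 2 ≤ β ^ 2 + qb → 0 ≤ e * s * (s + β) - (s - β))
    (q : ℝ) (hq : 0 ≤ q) (hqb : q ≤ qb) : E3 β q ≤ e * q := by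
  unfold E3
  have h0 : 0 ≤ β ^ 2 + q := by positivity
  have hs2 : √(β ^ 2 + q) ^ 2 = β ^ 2 + q := Real.sq_sqrt h0
  set s := √(β ^ 2 + q) with hs
  have hβs : β ≤ s := by
    apply Real.le_sqrt_of_sq_le; linarith
  have hs0 : 0 < s := lt_of_lt_of_le hβ hβs
  apply K3_le _ _ _ hs0
  have := he s hβs (by linarith)
  have hq' : q = s ^ 2 - β ^ 2 := by linarith
  rw [hq']
  nlinarith [mul_nonneg (sub_nonneg.mpr hβs) this]

theorem sumE {n : ℕ} (β e qb : ℝ) (f : Fin n → ℝ) (hf : ∀ i, 0 ≤ f i) (hf' : ∀ i, f i ≤ qb)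
    (hE : ∀ q, 0 ≤ q → q ≤ qb → E3 β q ≤ e * q) :
    ∑ i, E3 β (f i) ≤ e * ∑ i, f i := by
  rw [Finset.mul_sum]
  exact Finset.sum_le_sum fun i _ => hE _ (hf i) (hf' i)

end
end Crest.Agent.H18Pr
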