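import Crest.Agent.H18PrBSD0
set_option autoImplicit false

namespace Crest.Agent.H18Pr
noncomputable section

theorem leSq (l s a : ℝ) (_ : 0 ≤ l) (hs : 0 ≤ s) (h : l ^ 2 ≤ a) (h2 : a ≤ s ^ 2) : l ≤ s :=
  (abs_le_of_sq_le_sq' (h.trans h2) hs).2

theorem geSq (u s a : ℝ) (hu : 0 ≤ u) (h : a ≤ u ^ 2) (h2 : s ^ 2 ≤ a) : s ≤ u :=
  (abs_le_of_sq_le_sq' (h2.trans h) hu).2

theorem d3L_a_0 (s : ℝ) (h1 : 236643/200000 ≤ s) (h2 : s ≤ 386643/200000) : 0 ≤ (-289/400) + (162121/100000)*s + -1*s^2 + (1877/10000)*s^3 := by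
  obtain ⟨t, ht⟩ : ∃ t, t = s - (236643/200000) := ⟨_, rfl⟩
  obtain ⟨r, hr⟩ : ∃ r, r = (386643/200000) - s := ⟨_, rfl⟩
  have h3 : 0 ≤ t := by linarith
  have h4 : 0 ≤ r := by linarith
  have key : (-289/400) + (162121/100000)*s + -1*s^2 + (1877/10000)*s^3 = (8533359109155430039/33750000000000000000)*t^0*r^3 + (1043970401613486671/1250000000000000000)*t^1*r^2 + (5252133617387330039/11250000000000000000)*t^2*r^1 + (2437434117753280039/33750000000000000000)*t^3*r^0 := by rw [ht, hr]; ring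
  rw [key]; positivity

theorem d3L_a_1 (s : ℝ) (h1 : 386643/200000 ≤ s) (h2 : s ≤ 424143/200000) : 0 ≤ (-289/400) + (162121/100000)*s + -1*s^2 + (1877/10000)*s^3 := by
  obtain ⟨t, ht⟩ : ∃ t, t = s - (386643/200000) := ⟨_, rfl⟩
  obtain ⟨r, hr⟩ : ∃ r, r = (424143/200000) - s := ⟨_, rfl⟩
  have h3 : 0 ≤ t := by linarith
  have h4 : 0 ≤ r := by linarith
  have key : (-289/400) + (162121/100000)*s + -1*s^2 + (1877/10000)*s^3 = (2437434117753280039/527343750000000000)*t^0*r^3 + (577919747614922513/58593750000000000)*t^1*r^2 + (1113140649030005039/175781250000000000)*t^2*r^1 + (674560758183992539/527343750000000000)*t^3*r^0 := by rw [ht, hr]; ring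
  rw [key]; positivity

theorem d3L_a_2 (s : ℝ) (h1 : 424143/200000 ≤ s) (h2 : s ≤ 442893/200000) : 0 ≤ (-289/400) + (162121/100000)*s + -1*s^2 + (1877/10000)*s^3 := by
  obtain ⟨t, ht⟩ : ∃ t, t = s - (424143/200000) := ⟨_, rfl⟩
  obtain ⟨r, hr⟩ : ∃ r, r = (442893/200000) - s := ⟨_, rfl⟩
  have h3 : 0 ≤ t := by linarith
  have h4 : 0 ≤ r := by linarith
  have key : (-289/400) + (162121/100000)*s + -1*s^2 + (1877/10000)*s^3 = (674560758183992539/65917968750000000)*t^0*r^3 + (455270812760986289/21972656250000000)*t^1*r^2 + (93830181026722513/7324218750000000)*t^2*r^1 + (165592751875911289/65917968750000000)*t^3*r^0 := by rw [ht, hr]; ring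
  rw [key]; positivity

theorem d3L_a_3 (s : ℝ) (h1 : 442893/200000 ≤ s) (h2 : s ≤ 113067/50000) : 0 ≤ (-289/400) + (162121/100000)*s + -1*s^2 + (1877/10000)*s^3 := by
  obtain ⟨t, ht⟩ : ∃ t, t = s - (442893/200000) := ⟨_, rfl⟩
  obtain ⟨r, hr⟩ : ∃ r, r = (113067/50000) - s := ⟨_, rfl⟩
  have h3 : 0 ≤ t := by linarith
  have h4 : 0 ≤ r := by linarith
  have key : (-289/400) + (162121/100000)*s + -1*s^2 + (1877/10000)*s^3 = (165592751875911289/8239746093750000)*t^0*r^3 + (2990107118716199/76293945312500)*t^1*r^2 + (4010348768174729/171661376953125)*t^2*r^1 + (2294032766796604/514984130859375)*t^3*r^0 := by rw [ht, hr]; ring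
  rw [key]; positivity

theorem d3L_a_4 (s : ℝ) (h1 : 113067/50000 ≤ s) (h2 : s ≤ 913911/400000) : 0 ≤ (-289/400) + (162121/100000)*s + -1*s^2 + (1877/10000)*s^3 := by
  obtain ⟨t, ht⟩ : ∃ t, t = s - (113067/50000) := ⟨_, rfl⟩
  obtain ⟨r, hr⟩ : ∃ r, r = (913911/400000) - s := ⟨_, rfl⟩
  have h3 : 0 ≤ t := by linarith
  have h4 : 0 ≤ r := by linarith
  have key : (-289/400) + (162121/100000)*s + -1*s^2 + (1877/10000)*s^3 = (18352262134372832/514984130859375)*t^0*r^3 + (11486998128860332/171661376953125)*t^1*r^2 + (4415924412310013/114440917968750)*t^2*r^1 + (61753441992787187/8239746093750000)*t^3*r^0 := by rw [ht, hr]; ring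
  rw [key]; positivity

theorem d3L_a_5 (s : ℝ) (h1 : 913911/400000 ≤ s) (h2 : s ≤ 461643/200000) : 0 ≤ (-289/400) + (162121/100000)*s + -1*s^2 + (1877/10000)*s^3 := by
  obtain ⟨t, ht⟩ : ∃ t, t = s - (913911/400000) := ⟨_, rfl⟩
  obtain ⟨r, hr⟩ : ∃ r, r = (461643/200000) - s := ⟨_, rfl⟩
  have h3 : 0 ≤ t := by linarith
  have h4 : 0 ≤ r := by linarith
  have key : (-289/400) + (162121/100000)*s + -1*s^2 + (1877/10000)*s^3 = (61753441992787187/8239746093750000)*t^0*r^3 + (8762349045067031/1373291015625000)*t^1*r^2 + (573082870929401/228881835937500)*t^2*r^1 + (3919616427205039/1029968261718750)*t^3*r^0 := by rw [ht, hr]; ring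
  rw [key]; positivity

theorem d3L_a_6 (s : ℝ) (h1 : 461643/200000 ≤ s) (h2 : s ≤ 536643/200000) : 0 ≤ (-289/400) + (162121/100000)*s + -1*s^2 + (1877/10000)*s^3 := by
  obtain ⟨t, ht⟩ : ∃ t, t = s - (461643/200000) := ⟨_, rfl⟩
  obtain ⟨r, hr⟩ : ∃ r, r = (536643/200000) - s := ⟨_, rfl⟩
  have h3 : 0 ≤ t := by linarith
  have h4 : 0 ≤ r := by linarith
  have key : (-289/400) + (162121/100000)*s + -1*s^2 + (1877/10000)*s^3 = (3919616427205039/4218750000000000000)*t^0*r^3 + (52879490360180039/1406250000000000000)*t^1*r^2 + (408641287889385013/468750000000000000)*t^2*r^1 + (4314912111351130039/4218750000000000000)*t^3*r^0 := by rw [ht, hr]; ring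
  rw [key]; positivity

theorem d3L_a_7 (s : ℝ) (h1 : 536643/200000 ≤ s) : 0 ≤ (-289/400) + (162121/100000)*s + -1*s^2 + (1877/10000)*s^3 := by
  obtain ⟨t, ht⟩ : ∃ t, t = s - (536643/200000) := ⟨_, rfl⟩
  have h3 : 0 ≤ t := by linarith
  have h4 : s = (536643/200000) + t := by linarith
  have key : (-289/400) + (162121/100000)*s + -1*s^2 + (1877/10000)*s^3 = (4314912111351130039/80000000000000000000)*t^0 + (123559529907319/400000000000000)*t^1 + (1021836733/2000000000)*t^2 + (1877/10000)*t^3 := by rw [h4]; ring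
  rw [key]; positivity

theorem d3L_a (s : ℝ) (h1 : 236643/200000 ≤ s) : 0 ≤ (-289/400) + (162121/100000)*s + -1*s^2 + (1877/10000)*s^3 := by
  rcases le_total s (386643/200000) with h | h
  · exact d3L_a_0 s (by linarith) (by linarith)
  rcases le_total s (424143/200000) with h | h
  · exact d3L_a_1 s (by linarith) (by linarith)
  rcases le_total s (442893/200000) with h | h
  · exact d3L_a_2 s (by linarith) (by linarith)
  rcases le_total s (113067/50000) with h | h
  · exact d3L_a_3 s (by linarith) (by linarith)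
  rcases le_total s (913911/400000) with h | h
  · exact d3L_a_4 s (by linarith) (by linarith)
  rcases le_total s (461643/200000) with h | h
  · exact d3L_a_5 s (by linarith) (by linarith)
  rcases le_total s (536643/200000) with h | h
  · exact d3L_a_6 s (by linarith) (by linarith)
  exact d3L_a_7 s (by linarith)

theorem d3L_b_0 (s : ℝ) (h1 : 236643/200000 ≤ s) (h2 : s ≤ 386643/200000) : 0 ≤ (83521/160000) + (-95593397/80000000)*s + (5960387/4000000)*s^3 + -1*s^4 + (1877/10000)*s^5 := by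
  obtain ⟨t, ht⟩ : ∃ t, t = s - (236643/200000) := ⟨_, rfl⟩
  obtain ⟨r, hr⟩ : ∃ r, r = (386643/200000) - s := ⟨_, rfl⟩
  have h3 : 0 ≤ t := by linarith
  have h4 : 0 ≤ r := by linarith
  have key : (83521/160000) + (-95593397/80000000)*s + (5960387/4000000)*s^3 + -1*s^4 + (1877/10000)*s^5 = (165776042955642933523554538511/759375000000000000000000000000)*t^0*r^5 + (298707018870379085131416088511/151875000000000000000000000000)*t^1*r^4 + (431381568620787412616777638511/75937500000000000000000000000)*t^2*r^3 + (480779079827601790979639188511/75937500000000000000000000000)*t^3*r^2 + (386244513805306095220000738511/151875000000000000000000000000)*t^4*r^1 + (252023093062134200337862288511/759375000000000000000000000000)*t^5*r^0 := by rw [ht, hr]; ring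
  rw [key]; positivity

theorem d3L_b_1 (s : ℝ) (h1 : 386643/200000 ≤ s) (h2 : s ≤ 424143/200000) : 0 ≤ (83521/160000) + (-95593397/80000000)*s + (5960387/4000000)*s^3 + -1*s^4 + (1877/10000)*s^5 := by
  obtain ⟨t, ht⟩ : ∃ t, t = s - (386643/200000) := ⟨_, rfl⟩
  obtain ⟨r, hr⟩ : ∃ r, r = (424143/200000) - s := ⟨_, rfl⟩
  have h3 : 0 ≤ t := by linarith
  have h4 : 0 ≤ r := by linarith
  have key : (83521/160000) + (-95593397/80000000)*s + (5960387/4000000)*s^3 + -1*s^4 + (1877/10000)*s^5 = (252023093062134200337862288511/741577148437500000000000000)*t^0*r^5 + (218467737876341226617327676011/148315429687500000000000000)*t^1*r^4 + (182431954270493490451636813511/74157714843750000000000000)*t^2*r^3 + (145544573846282146137664701011/74157714843750000000000000)*t^3*r^2 + (110078569850686433909786338511/148315429687500000000000000)*t^4*r^1 + (79090251206735398689876726011/741577148437500000000000000)*t^5*r^0 := by rw [ht, hr]; ring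
  rw [key]; positivity

theorem d3L_b_2 (s : ℝ) (h1 : 424143/200000 ≤ s) (h2 : s ≤ 442893/200000) : 0 ≤ (83521/160000) + (-95593397/80000000)*s + (5960387/4000000)*s^3 + -1*s^4 + (1877/10000)*s^5 := by
  obtain ⟨t, ht⟩ : ∃ t, t = s - (424143/200000) := ⟨_, rfl⟩
  obtain ⟨r, hr⟩ : ∃ r, r = (442893/200000) - s := ⟨_, rfl⟩
  have h3 : 0 ≤ t := by linarith
  have h4 : 0 ≤ r := by linarith
  have key : (83521/160000) + (-95593397/80000000)*s + (5960387/4000000)*s^3 + -1*s^4 + (1877/10000)*s^5 = (79090251206735398689876726011/23174285888671875000000000)*t^0*r^5 + (63596091884759881079921919761/4634857177734375000000000)*t^1*r^4 + (49221353900695532721959301011/2317428588867187500000000)*t^2*r^3 + (36348075869920984231223244761/2317428588867187500000000)*t^3*r^2 + (25407254887567979015916876011/4634857177734375000000000)*t^4*r^1 + (16883196341982676988149569761/23174285888671875000000000)*t^5*r^0 := by rw [ht, hr]; ring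
  rw [key]; positivity

theorem d3L_b_3 (s : ℝ) (h1 : 442893/200000 ≤ s) (h2 : s ≤ 113067/50000) : 0 ≤ (83521/160000) + (-95593397/80000000)*s + (5960387/4000000)*s^3 + -1*s^4 + (1877/10000)*s^5 := by
  obtain ⟨t, ht⟩ : ∃ t, t = s - (442893/200000) := ⟨_, rfl⟩
  obtain ⟨r, hr⟩ : ∃ r, r = (113067/50000) - s := ⟨_, rfl⟩
  have h3 : 0 ≤ t := by linarith
  have h4 : 0 ≤ r := by linarith
  have key : (83521/160000) + (-95593397/80000000)*s + (5960387/4000000)*s^3 + -1*s^4 + (1877/10000)*s^5 = (16883196341982676988149569761/724196434020996093750000)*t^0*r^5 + (3155291767297506493566479159/36209821701049804687500)*t^1*r^4 + (1120416050698662594658378642/9052455425262451171875)*t^2*r^3 + (746277315590471415770822392/9052455425262451171875)*t^3*r^2 + (231606710528913043842023696/9052455425262451171875)*t^4*r^1 + (139820786166971917259573696/45262277126312255859375)*t^5*r^0 := by rw [ht, hr]; ring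
  rw [key]; positivity

theorem d3L_b_4 (s : ℝ) (h1 : 113067/50000 ≤ s) (h2 : s ≤ 461643/200000) : 0 ≤ (83521/160000) + (-95593397/80000000)*s + (5960387/4000000)*s^3 + -1*s^4 + (1877/10000)*s^5 := by
  obtain ⟨t, ht⟩ : ∃ t, t = s - (113067/50000) := ⟨_, rfl⟩
  obtain ⟨r, hr⟩ : ∃ r, r = (461643/200000) - s := ⟨_, rfl⟩
  have h3 : 0 ≤ t := by linarith
  have h4 : 0 ≤ r := by linarith
  have key : (83521/160000) + (-95593397/80000000)*s + (5960387/4000000)*s^3 + -1*s^4 + (1877/10000)*s^5 = (139820786166971917259573696/45262277126312255859375)*t^0*r^5 + (48034861805030790677123696/9052455425262451171875)*t^1*r^4 + (11989920694942403111222392/9052455425262451171875)*t^2*r^3 + (35819368821803523911166142/9052455425262451171875)*t^3*r^2 + (352817471446866028865579159/36209821701049804687500)*t^4*r^1 + (3544473144728184076266163511/724196434020996093750000)*t^5*r^0 := by rw [ht, hr]; ring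
  rw [key]; positivity

theorem d3L_b_5 (s : ℝ) (h1 : 461643/200000 ≤ s) (h2 : s ≤ 536643/200000) : 0 ≤ (83521/160000) + (-95593397/80000000)*s + (5960387/4000000)*s^3 + -1*s^4 + (1877/10000)*s^5 := by
  obtain ⟨t, ht⟩ : ∃ t, t = s - (461643/200000) := ⟨_, rfl⟩
  obtain ⟨r, hr⟩ : ∃ r, r = (536643/200000) - s := ⟨_, rfl⟩
  have h3 : 0 ≤ t := by linarith
  have h4 : 0 ≤ r := by linarith
  have key : (83521/160000) + (-95593397/80000000)*s + (5960387/4000000)*s^3 + -1*s^4 + (1877/10000)*s^5 = (3544473144728184076266163511/23730468750000000000000000000)*t^0*r^5 + (20610099216253943762696938511/4746093750000000000000000000)*t^1*r^4 + (102218978006351481793502713511/2373046875000000000000000000)*t^2*r^3 + (286468503962143782543683488511/2373046875000000000000000000)*t^3*r^2 + (626216546839738205388239263511/4746093750000000000000000000)*t^4*r^1 + (1193535660688601484702170038511/23730468750000000000000000000)*t^5*r^0 := by rw [ht, hr]; ring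
  rw [key]; positivity

theorem d3L_b_6 (s : ℝ) (h1 : 536643/200000 ≤ s) : 0 ≤ (83521/160000) + (-95593397/80000000)*s + (5960387/4000000)*s^3 + -1*s^4 + (1877/10000)*s^5 := by
  obtain ⟨t, ht⟩ : ∃ t, t = s - (536643/200000) := ⟨_, rfl⟩
  have h3 : 0 ≤ t := by linarith
  have h4 : s = (536643/200000) + t := by linarith
  have key : (83521/160000) + (-95593397/80000000)*s + (5960387/4000000)*s^3 + -1*s^4 + (1877/10000)*s^5 = (1193535660688601484702170038511/3200000000000000000000000000000)*t^0 + (7564254851318177057519077/3200000000000000000000000)*t^1 + (40457079283781130039/8000000000000000000)*t^2 + (170838646635773/40000000000000)*t^3 + (607278911/400000000)*t^4 + (1877/10000)*t^5 := by rw [h4]; ring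
  rw [key]; positivity

theorem d3L_b (s : ℝ) (h1 : 236643/200000 ≤ s) : 0 ≤ (83521/160000) + (-95593397/80000000)*s + (5960387/4000000)*s^3 + -1*s^4 + (1877/10000)*s^5 := by
  rcases le_total s (386643/200000) with h | h
  · exact d3L_b_0 s (by linarith) (by linarith)
  rcases le_total s (424143/200000) with h | h
  · exact d3L_b_1 s (by linarith) (by linarith)
  rcases le_total s (442893/200000) with h | h
  · exact d3L_b_2 s (by linarith) (by linarith)
  rcases le_total s (113067/50000) with h | h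
  · exact d3L_b_3 s (by linarith) (by linarith)
  rcases le_total s (461643/200000) with h | h
  · exact d3L_b_4 s (by linarith) (by linarith)
  rcases le_total s (536643/200000) with h | h
  · exact d3L_b_5 s (by linarith) (by linarith)
  exact d3L_b_6 s (by linarith)

theorem d3L (q w : ℝ) (hq : 7/5 ≤ q) (hw : 0 ≤ w) (hwW : w ≤ 3/20) :
    T3 (17/20) q w ≤ ((-7879/100000)) + (1877/10000) * q + (3/100) * w := by
  refine majL (17/20) ((-7879/100000)) (1877/10000) (3/100) (7/5) (3/20) (by norm_num) (by norm_num) (by norm_num) ?_ ?_ q w hq hw hwW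
  · intro s h1 h2
    have := d3L_a s (leSq _ _ _ (by norm_num) (by linarith) (by norm_num) h2)
    linarith
  · intro s h1 h2
    have := d3L_b s (leSq _ _ _ (by norm_num) (by linarith) (by norm_num) h2)
    linarith

theorem d3a0_a_0 (s : ℝ) (h1 : 236643/200000 ≤ s) (h2 : s ≤ 7604933/6400000) : 0 ≤ (-83521/160000) + (302343419/200000000)*s + (-289/400)*s^2 + (-452517/1000000)*s^3 + (533/2500)*s^5 := by
  obtain ⟨t, ht⟩ : ∃ t, t = s - (236643/200000) := ⟨_, rfl⟩
  obtain ⟨r, hr⟩ : ∃ r, r = (7604933/6400000) - s := ⟨_, rfl⟩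
  have h3 : 0 ≤ t := by linarith
  have h4 : 0 ≤ r := by linarith
  have key : (-83521/160000) + (302343419/200000000)*s + (-289/400)*s^2 + (-452517/1000000)*s^3 + (533/2500)*s^5 = (9754896400481005942177324335104/1705210152201864209305625)*t^0*r^5 + (4929878340618986562087302725632/341042030440372841861125)*t^1*r^4 + (3384147102596330289794967846912/341042030440372841861125)*t^2*r^3 + (116750530986376090236324829696/341042030440372841861125)*t^3*r^2 + (45761798729511473032510551384/341042030440372841861125)*t^4*r^1 + (6685187650536823776536111895613/6820840608807456837222500)*t^5*r^0 := by rw [ht, hr]; ring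
  rw [key]; positivity

theorem d3a0_a_1 (s : ℝ) (h1 : 7604933/6400000 ≤ s) (h2 : s ≤ 763729/640000) : 0 ≤ (-83521/160000) + (302343419/200000000)*s + (-289/400)*s^2 + (-452517/1000000)*s^3 + (533/2500)*s^5 := by
  obtain ⟨t, ht⟩ : ∃ t, t = s - (7604933/6400000) := ⟨_, rfl⟩
  obtain ⟨r, hr⟩ : ∃ r, r = (763729/640000) - s := ⟨_, rfl⟩
  have h3 : 0 ≤ t := by linarith
  have h4 : 0 ≤ r := by linarith
  have key : (-83521/160000) + (302343419/200000000)*s + (-289/400)*s^2 + (-452517/1000000)*s^3 + (533/2500)*s^5 = (6685187650536823776536111895613/6820840608807456837222500)*t^0*r^5 + (1318732810615560166094218158569/136416812176149136744450)*t^1*r^4 + (40372404437612098027841428338/1049360093662685667265)*t^2*r^3 + (183670588127687568039897403844/2728336243522982734889)*t^3*r^2 + (144565354758984851638779513860/2728336243522982734889)*t^4*r^1 + (42162437598673551779099824360/2728336243522982734889)*t^5*r^0 := by rw [ht, hr]; ring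
  rw [key]; positivity

theorem d3a0_a_2 (s : ℝ) (h1 : 763729/640000 ≤ s) (h2 : s ≤ 1925501/1600000) : 0 ≤ (-83521/160000) + (302343419/200000000)*s + (-289/400)*s^2 + (-452517/1000000)*s^3 + (533/2500)*s^5 := by
  obtain ⟨t, ht⟩ : ∃ t, t = s - (763729/640000) := ⟨_, rfl⟩
  obtain ⟨r, hr⟩ : ∃ r, r = (1925501/1600000) - s := ⟨_, rfl⟩
  have h3 : 0 ≤ t := by linarith
  have h4 : 0 ≤ r := by linarith
  have key : (-83521/160000) + (302343419/200000000)*s + (-289/400)*s^2 + (-452517/1000000)*s^3 + (533/2500)*s^5 = (5270304699834193972387478045/10913344974091930939556)*t^0*r^5 + (21456615903883348338058646105/5456672487045965469778)*t^1*r^4 + (33116663192991671654620796098/2728336243522982734889)*t^2*r^3 + (241124218432174345910307798324/13641681217614913674445)*t^3*r^2 + (835634799136958815737119563556/68208406088074568372225)*t^4*r^1 + (428196167150640218519782909256/131170011707835708408125)*t^5*r^0 := by rw [ht, hr]; ring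
  rw [key]; positivity

theorem d3a0_a_3 (s : ℝ) (h1 : 1925501/1600000 ≤ s) (h2 : s ≤ 978929/800000) : 0 ≤ (-83521/160000) + (302343419/200000000)*s + (-289/400)*s^2 + (-452517/1000000)*s^3 + (533/2500)*s^5 := by
  obtain ⟨t, ht⟩ : ∃ t, t = s - (1925501/1600000) := ⟨_, rfl⟩
  obtain ⟨r, hr⟩ : ∃ r, r = (978929/800000) - s := ⟨_, rfl⟩
  have h3 : 0 ≤ t := by linarith
  have h4 : 0 ≤ r := by linarith
  have key : (-83521/160000) + (302343419/200000000)*s + (-289/400)*s^2 + (-452517/1000000)*s^3 + (533/2500)*s^5 = (53524520893830027314972863657/524680046831342833632500)*t^0*r^5 + (521456407969086272806271114089/682084060880745683722250)*t^1*r^4 + (751067158126005869881426030362/341042030440372841861125)*t^2*r^3 + (1038939100054903517734351886596/341042030440372841861125)*t^3*r^2 + (693656482953521296043974993684/341042030440372841861125)*t^4*r^1 + (899236741656154597150679132872/1705210152201864209305625)*t^5*r^0 := by rw [ht, hr]; ring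
  rw [key]; positivity

theorem d3a0_a_4 (s : ℝ) (h1 : 978929/800000 ≤ s) (h2 : s ≤ 505643/400000) : 0 ≤ (-83521/160000) + (302343419/200000000)*s + (-289/400)*s^2 + (-452517/1000000)*s^3 + (533/2500)*s^5 := by
  obtain ⟨t, ht⟩ : ∃ t, t = s - (978929/800000) := ⟨_, rfl⟩
  obtain ⟨r, hr⟩ : ∃ r, r = (505643/400000) - s := ⟨_, rfl⟩
  have h3 : 0 ≤ t := by linarith
  have h4 : 0 ≤ r := by linarith
  have key : (-83521/160000) + (302343419/200000000)*s + (-289/400)*s^2 + (-452517/1000000)*s^3 + (533/2500)*s^5 = (112404592707019324643834891609/6820840608807456837222500)*t^0*r^5 + (81899828691338824960255463203/682084060880745683722250)*t^1*r^4 + (115445692473308928581069752802/341042030440372841861125)*t^2*r^3 + (157411069606891498524144797868/341042030440372841861125)*t^3*r^2 + (8014966913033439344130130612/26234002341567141681625)*t^4*r^1 + (134497903678472925850852753304/1705210152201864209305625)*t^5*r^0 := by rw [ht, hr]; ring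
  rw [key]; positivity

theorem d3a0_a_5 (s : ℝ) (h1 : 505643/400000 ≤ s) (h2 : s ≤ 269/200) : 0 ≤ (-83521/160000) + (302343419/200000000)*s + (-289/400)*s^2 + (-452517/1000000)*s^3 + (533/2500)*s^5 := by
  obtain ⟨t, ht⟩ : ∃ t, t = s - (505643/400000) := ⟨_, rfl⟩
  obtain ⟨r, hr⟩ : ∃ r, r = (269/200) - s := ⟨_, rfl⟩
  have h3 : 0 ≤ t := by linarith
  have h4 : 0 ≤ r := by linarith
  have key : (-83521/160000) + (302343419/200000000)*s + (-289/400)*s^2 + (-452517/1000000)*s^3 + (533/2500)*s^5 = (16812237959809115731356594163/6820840608807456837222500)*t^0*r^5 + (48776142824137338651293716/2728336243522982734889)*t^1*r^4 + (137484216943411396010832000/2728336243522982734889)*t^2*r^3 + (188276554700052918752000000/2728336243522982734889)*t^3*r^2 + (125626003628643296000000000/2728336243522982734889)*t^4*r^1 + (32782999913075200000000000/2728336243522982734889)*t^5*r^0 := by rw [ht, hr]; ring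
  rw [key]; positivity

theorem d3a0_a (s : ℝ) (h1 : 236643/200000 ≤ s) (h2 : s ≤ 269/200) : 0 ≤ (-83521/160000) + (302343419/200000000)*s + (-289/400)*s^2 + (-452517/1000000)*s^3 + (533/2500)*s^5 := by
  rcases le_total s (7604933/6400000) with h | h
  · exact d3a0_a_0 s (by linarith) (by linarith)
  rcases le_total s (763729/640000) with h | h
  · exact d3a0_a_1 s (by linarith) (by linarith)
  rcases le_total s (1925501/1600000) with h | h
  · exact d3a0_a_2 s (by linarith) (by linarith)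
  rcases le_total s (978929/800000) with h | h
  · exact d3a0_a_3 s (by linarith) (by linarith)
  rcases le_total s (505643/400000) with h | h
  · exact d3a0_a_4 s (by linarith) (by linarith)
  exact d3a0_a_5 s (by linarith) (by linarith)

theorem d3a0_b (s : ℝ) (h1 : 8149/6250 ≤ s) (h2 : s ≤ 269/200) : 0 ≤ (-83521/160000) + (160426501/100000000)*s + (-289/400)*s^2 + (-516477/1000000)*s^3 + (533/2500)*s^5 := by
  obtain ⟨t, ht⟩ : ∃ t, t = s - (8149/6250) := ⟨_, rfl⟩
  obtain ⟨r, hr⟩ : ∃ r, r = (269/200) - s := ⟨_, rfl⟩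
  have h3 : 0 ≤ t := by linarith
  have h4 : 0 ≤ r := by linarith
  have key : (-83521/160000) + (160426501/100000000)*s + (-289/400)*s^2 + (-516477/1000000)*s^3 + (533/2500)*s^5 = (133560522715257319552/721035904322593125)*t^0*r^5 + (68162864442745543328/1153657446916149)*t^1*r^4 + (303320760198321140500/1153657446916149)*t^2*r^3 + (505238453849433296875/1153657446916149)*t^3*r^2 + (372136557469583984375/1153657446916149)*t^4*r^1 + (409079768687353515625/4614629787664596)*t^5*r^0 := by rw [ht, hr]; ring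
  rw [key]; positivity

theorem d3a0_c (s : ℝ) (h1 : 236643/200000 ≤ s) (h2 : s ≤ 1303841/1000000) : 0 ≤ (-289/400) + (149457/100000)*s + -1*s^2 + (10689/50000)*s^3 := by
  obtain ⟨t, ht⟩ : ∃ t, t = s - (236643/200000) := ⟨_, rfl⟩
  obtain ⟨r, hr⟩ : ∃ r, r = (1303841/1000000) - s := ⟨_, rfl⟩
  have h3 : 0 ≤ t := by linarith
  have h4 : 0 ≤ r := by linarith
  have key : (-289/400) + (149457/100000)*s + -1*s^2 + (10689/50000)*s^3 = (10446995325728123/702073808269750400)*t^0*r^3 + (6432766700300359803/3510369041348752000)*t^1*r^2 + (28454290769601726761/17551845206743760000)*t^2*r^1 + (1519328097704059169/87759226033718800000)*t^3*r^0 := by rw [ht, hr]; ring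
  rw [key]; positivity

theorem d3a0 (q w : ℝ) (hq : 0 ≤ q) (hqa : 7/5 ≤ q) (hqb : q ≤ 17/10) (hw : 0 ≤ w) (hwW : w ≤ 3/20) :
    T3 (17/20) q w ≤ ((-20543/100000)) + (10689/50000) * q + (533/2500) * w := by
  refine maj3 (17/20) ((-20543/100000)) (10689/50000) (533/2500) (7/5) (17/10) (269/200) (3/20) (by norm_num) (by norm_num) (by norm_num) (by norm_num) (by norm_num) ?_ ?_ ?_ q w hq hqa hqb hw hwW
  · intro s h1 h2 h3
    have := d3a0_a s (leSq _ _ _ (by norm_num) (by linarith) (by norm_num) h2) h3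
    linarith
  · intro s h1 h2 h3
    have := d3a0_b s (leSq _ _ _ (by norm_num) (by linarith) (by norm_num) h2) h3
    linarith
  · intro s h1 h2 h3
    have := d3a0_c s (leSq _ _ _ (by norm_num) (by linarith) (by norm_num) h2) (geSq _ _ _ (by norm_num) (by norm_num) h3)
    linarith

theorem d3a1_a_0 (s : ℝ) (h1 : 8149/6250 ≤ s) (h2 : s ≤ 1047351/800000) : 0 ≤ (-83521/160000) + (307735581/200000000)*s + (-289/400)*s^2 + (-774231/2000000)*s^3 + (799/5000)*s^5 := by
  obtain ⟨t, ht⟩ : ∃ t, t = s - (8149/6250) := ⟨_, rfl⟩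
  obtain ⟨r, hr⟩ : ∃ r, r = (1047351/800000) - s := ⟨_, rfl⟩
  have h3 : 0 ≤ t := by linarith
  have h4 : 0 ≤ r := by linarith
  have key : (-83521/160000) + (307735581/200000000)*s + (-289/400)*s^2 + (-774231/2000000)*s^3 + (799/5000)*s^5 = (4884884952018379095719018496/896584960742723374375)*t^0*r^5 + (2573124947232756915050119168/179316992148544674875)*t^1*r^4 + (2052318311059542392994725888/179316992148544674875)*t^2*r^3 + (502575941907833657918600704/179316992148544674875)*t^3*r^2 + (255846712856156067323287216/179316992148544674875)*t^4*r^1 + (8377646153345562073221439049/7172679685941786995000)*t^5*r^0 := by rw [ht, hr]; ring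
  rw [key]; positivity

theorem d3a1_a_1 (s : ℝ) (h1 : 1047351/800000 ≤ s) (h2 : s ≤ 105163/80000) : 0 ≤ (-83521/160000) + (307735581/200000000)*s + (-289/400)*s^2 + (-774231/2000000)*s^3 + (799/5000)*s^5 := by
  obtain ⟨t, ht⟩ : ∃ t, t = s - (1047351/800000) := ⟨_, rfl⟩
  obtain ⟨r, hr⟩ : ∃ r, r = (105163/80000) - s := ⟨_, rfl⟩
  have h3 : 0 ≤ t := by linarith
  have h4 : 0 ≤ r := by linarith
  have key : (-83521/160000) + (307735581/200000000)*s + (-289/400)*s^2 + (-774231/2000000)*s^3 + (799/5000)*s^5 = (8377646153345562073221439049/7172679685941786995000)*t^0*r^5 + (1470851860384187560785658037/143453593718835739900)*t^1*r^4 + (273337935696165887702149681/7172679685941786995)*t^2*r^3 + (92624868308246704681606906/1434535937188357399)*t^3*r^2 + (71703684009461769841536890/1434535937188357399)*t^4*r^1 + (20713413696514322269847140/1434535937188357399)*t^5*r^0 := by rw [ht, hr]; ring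
  rw [key]; positivity

theorem d3a1_a_2 (s : ℝ) (h1 : 105163/80000 ≤ s) (h2 : s ≤ 265047/200000) : 0 ≤ (-83521/160000) + (307735581/200000000)*s + (-289/400)*s^2 + (-774231/2000000)*s^3 + (799/5000)*s^5 := by
  obtain ⟨t, ht⟩ : ∃ t, t = s - (105163/80000) := ⟨_, rfl⟩
  obtain ⟨r, hr⟩ : ∃ r, r = (265047/200000) - s := ⟨_, rfl⟩
  have h3 : 0 ≤ t := by linarith
  have h4 : 0 ≤ r := by linarith
  have key : (-83521/160000) + (307735581/200000000)*s + (-289/400)*s^2 + (-774231/2000000)*s^3 + (799/5000)*s^5 = (5178353424128580567461785/11476287497506859192)*t^0*r^5 + (20911729678598911795579165/5738143748753429596)*t^1*r^4 + (16056821552881042087993277/1434535937188357399)*t^2*r^3 + (116527872971876846591742626/7172679685941786995)*t^3*r^2 + (402902104151156114777138794/35863398429708934975)*t^4*r^1 + (2679183195098190465917342372/896584960742723374375)*t^5*r^0 := by rw [ht, hr]; ring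
  rw [key]; positivity

theorem d3a1_a_3 (s : ℝ) (h1 : 265047/200000 ≤ s) (h2 : s ≤ 134663/100000) : 0 ≤ (-83521/160000) + (307735581/200000000)*s + (-289/400)*s^2 + (-774231/2000000)*s^3 + (799/5000)*s^5 := by
  obtain ⟨t, ht⟩ : ∃ t, t = s - (265047/200000) := ⟨_, rfl⟩
  obtain ⟨r, hr⟩ : ∃ r, r = (134663/100000) - s := ⟨_, rfl⟩
  have h3 : 0 ≤ t := by linarith
  have h4 : 0 ≤ r := by linarith
  have key : (-83521/160000) + (307735581/200000000)*s + (-289/400)*s^2 + (-774231/2000000)*s^3 + (799/5000)*s^5 = (669795798774547616479335593/7172679685941786995000)*t^0*r^5 + (501066067972876281247579897/717267968594178699500)*t^1*r^4 + (360307259713011852263430313/179316992148544674875)*t^2*r^3 + (497719387983940719514269554/179316992148544674875)*t^3*r^2 + (331867464555797279610307666/179316992148544674875)*t^4*r^1 + (429668714579341888984979428/896584960742723374375)*t^5*r^0 := by rw [ht, hr]; ring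
  rw [key]; positivity

theorem d3a1_a_4 (s : ℝ) (h1 : 134663/100000 ≤ s) (h2 : s ≤ 69471/50000) : 0 ≤ (-83521/160000) + (307735581/200000000)*s + (-289/400)*s^2 + (-774231/2000000)*s^3 + (799/5000)*s^5 := by
  obtain ⟨t, ht⟩ : ∃ t, t = s - (134663/100000) := ⟨_, rfl⟩
  obtain ⟨r, hr⟩ : ∃ r, r = (69471/50000) - s := ⟨_, rfl⟩
  have h3 : 0 ≤ t := by linarith
  have h4 : 0 ≤ r := by linarith
  have key : (-83521/160000) + (307735581/200000000)*s + (-289/400)*s^2 + (-774231/2000000)*s^3 + (799/5000)*s^5 = (107417178644835472246244857/7172679685941786995000)*t^0*r^5 + (78158901828303888466790369/717267968594178699500)*t^1*r^4 + (55002977032024442785603873/179316992148544674875)*t^2*r^3 + (74870759530503965365060082/179316992148544674875)*t^3*r^2 + (49468851400219204245114194/179316992148544674875)*t^4*r^1 + (63734007828199708462777796/896584960742723374375)*t^5*r^0 := by rw [ht, hr]; ring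
  rw [key]; positivity

theorem d3a1_a_5 (s : ℝ) (h1 : 69471/50000 ≤ s) (h2 : s ≤ 59/40) : 0 ≤ (-83521/160000) + (307735581/200000000)*s + (-289/400)*s^2 + (-774231/2000000)*s^3 + (799/5000)*s^5 := by
  obtain ⟨t, ht⟩ : ∃ t, t = s - (69471/50000) := ⟨_, rfl⟩
  obtain ⟨r, hr⟩ : ∃ r, r = (59/40) - s := ⟨_, rfl⟩
  have h3 : 0 ≤ t := by linarith
  have h4 : 0 ≤ r := by linarith
  have key : (-83521/160000) + (307735581/200000000)*s + (-289/400)*s^2 + (-774231/2000000)*s^3 + (799/5000)*s^5 = (15933501957049927115694449/7172679685941786995000)*t^0*r^5 + (92264320684160716898105/5738143748753429596)*t^1*r^4 + (64860686356087427976875/1434535937188357399)*t^2*r^3 + (88580999585264352343750/1434535937188357399)*t^3*r^2 + (58929367676824707031250/1434535937188357399)*t^4*r^1 + (15329903906860351562500/1434535937188357399)*t^5*r^0 := by rw [ht, hr]; ring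
  rw [key]; positivity

theorem d3a1_a (s : ℝ) (h1 : 8149/6250 ≤ s) (h2 : s ≤ 59/40) : 0 ≤ (-83521/160000) + (307735581/200000000)*s + (-289/400)*s^2 + (-774231/2000000)*s^3 + (799/5000)*s^5 := by
  rcases le_total s (1047351/800000) with h | h
  · exact d3a1_a_0 s (by linarith) (by linarith)
  rcases le_total s (105163/80000) with h | h
  · exact d3a1_a_1 s (by linarith) (by linarith)
  rcases le_total s (265047/200000) with h | h
  · exact d3a1_a_2 s (by linarith) (by linarith)
  rcases le_total s (134663/100000) with h | h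
  · exact d3a1_a_3 s (by linarith) (by linarith)
  rcases le_total s (69471/50000) with h | h
  · exact d3a1_a_4 s (by linarith) (by linarith)
  exact d3a1_a_5 s (by linarith) (by linarith)

theorem d3a1_b (s : ℝ) (h1 : 1449137/1000000 ≤ s) (h2 : s ≤ 59/40) : 0 ≤ (-83521/160000) + (329938873/200000000)*s + (-289/400)*s^2 + (-902071/2000000)*s^3 + (799/5000)*s^5 := by
  obtain ⟨t, ht⟩ : ∃ t, t = s - (1449137/1000000) := ⟨_, rfl⟩
  obtain ⟨r, hr⟩ : ∃ r, r = (59/40) - s := ⟨_, rfl⟩
  have h3 : 0 ≤ t := by linarith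
  have h4 : 0 ≤ r := by linarith
  have key : (-83521/160000) + (329938873/200000000)*s + (-289/400)*s^2 + (-902071/2000000)*s^3 + (799/5000)*s^5 = (124622353554708723773453396143/57858144714206276027715000)*t^0*r^5 + (6273649769399718419014522525/11571628942841255205543)*t^1*r^4 + (26303326052862335351977250000/11571628942841255205543)*t^2*r^3 + (41567575533002285618750000000/11571628942841255205543)*t^3*r^2 + (29195667681635546875000000000/11571628942841255205543)*t^4*r^1 + (7682694751953125000000000000/11571628942841255205543)*t^5*r^0 := by rw [ht, hr]; ring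
  rw [key]; positivity

theorem d3a1_c (s : ℝ) (h1 : 8149/6250 ≤ s) (h2 : s ≤ 724569/500000) : 0 ≤ (-289/400) + (73831/50000)*s + -1*s^2 + (11217/50000)*s^3 := by
  obtain ⟨t, ht⟩ : ∃ t, t = s - (8149/6250) := ⟨_, rfl⟩
  obtain ⟨r, hr⟩ : ∃ r, r = (724569/500000) - s := ⟨_, rfl⟩
  have h3 : 0 ≤ t := by linarith
  have h4 : 0 ≤ r := by linarith
  have key : (-289/400) + (73831/50000)*s + -1*s^2 + (11217/50000)*s^3 = (103124386414848/9585812519386225)*t^0*r^3 + (31226606204907504/47929062596931125)*t^1*r^2 + (102505144290206239/239645312984655625)*t^2*r^1 + (216980195281404953/19171625038772450000)*t^3*r^0 := by rw [ht, hr]; ring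
  rw [key]; positivity

theorem d3a1 (q w : ℝ) (hq : 0 ≤ q) (hqa : 17/10 ≤ q) (hqb : q ≤ 21/10) (hw : 0 ≤ w) (hwW : w ≤ 3/20) :
    T3 (17/20) q w ≤ ((-11169/50000)) + (11217/50000) * q + (799/5000) * w := by
  refine maj3 (17/20) ((-11169/50000)) (11217/50000) (799/5000) (17/10) (21/10) (59/40) (3/20) (by norm_num) (by norm_num) (by norm_num) (by norm_num) (by norm_num) ?_ ?_ ?_ q w hq hqa hqb hw hwW
  · intro s h1 h2 h3
    have := d3a1_a s (leSq _ _ _ (by norm_num) (by linarith) (by norm_num) h2) h3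
    linarith
  · intro s h1 h2 h3
    have := d3a1_b s (leSq _ _ _ (by norm_num) (by linarith) (by norm_num) h2) h3
    linarith
  · intro s h1 h2 h3
    have := d3a1_c s (leSq _ _ _ (by norm_num) (by linarith) (by norm_num) h2) (geSq _ _ _ (by norm_num) (by norm_num) h3)
    linarith

theorem d3a2_a_0 (s : ℝ) (h1 : 1449137/1000000 ≤ s) (h2 : s ≤ 1511637/1000000) : 0 ≤ (-289/400) + (18427/12500)*s + -1*s^2 + (22559/100000)*s^3 := by
  obtain ⟨t, ht⟩ : ∃ t, t = s - (1449137/1000000) := ⟨_, rfl⟩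
  obtain ⟨r, hr⟩ : ∃ r, r = (1511637/1000000) - s := ⟨_, rfl⟩
  have h3 : 0 ≤ t := by linarith
  have h4 : 0 ≤ r := by linarith
  have key : (-289/400) + (18427/12500)*s + -1*s^2 + (22559/100000)*s^3 = (27382920783865389327/24414062500000000000)*t^0*r^3 + (64034242091071980481/24414062500000000000)*t^1*r^2 + (38393334131329042981/24414062500000000000)*t^2*r^1 + (7249581183497451827/24414062500000000000)*t^3*r^0 := by rw [ht, hr]; ring
  rw [key]; positivity

theorem d3a2_a_1 (s : ℝ) (h1 : 1511637/1000000 ≤ s) (h2 : s ≤ 1542887/1000000) : 0 ≤ (-289/400) + (18427/12500)*s + -1*s^2 + (22559/100000)*s^3 := by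
  obtain ⟨t, ht⟩ : ∃ t, t = s - (1511637/1000000) := ⟨_, rfl⟩
  obtain ⟨r, hr⟩ : ∃ r, r = (1542887/1000000) - s := ⟨_, rfl⟩
  have h3 : 0 ≤ t := by linarith
  have h4 : 0 ≤ r := by linarith
  have key : (-289/400) + (18427/12500)*s + -1*s^2 + (22559/100000)*s^3 = (7249581183497451827/3051757812500000000)*t^0*r^3 + (13426448260074011731/3051757812500000000)*t^1*r^2 + (7353232314382230481/3051757812500000000)*t^2*r^1 + (1864811282727545577/3051757812500000000)*t^3*r^0 := by rw [ht, hr]; ring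
  rw [key]; positivity

theorem d3a2_a_2 (s : ℝ) (h1 : 1542887/1000000 ≤ s) (h2 : s ≤ 1574137/1000000) : 0 ≤ (-289/400) + (18427/12500)*s + -1*s^2 + (22559/100000)*s^3 := by
  obtain ⟨t, ht⟩ : ∃ t, t = s - (1542887/1000000) := ⟨_, rfl⟩
  obtain ⟨r, hr⟩ : ∃ r, r = (1574137/1000000) - s := ⟨_, rfl⟩
  have h3 : 0 ≤ t := by linarith
  have h4 : 0 ≤ r := by linarith
  have key : (-289/400) + (18427/12500)*s + -1*s^2 + (22559/100000)*s^3 = (1864811282727545577/3051757812500000000)*t^0*r^3 + (3835635381983042981/3051757812500000000)*t^1*r^2 + (6391254395275636731/3051757812500000000)*t^2*r^1 + (5108876340942014327/3051757812500000000)*t^3*r^0 := by rw [ht, hr]; ring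
  rw [key]; positivity

theorem d3a2_a_3 (s : ℝ) (h1 : 1574137/1000000 ≤ s) (h2 : s ≤ 1699137/1000000) : 0 ≤ (-289/400) + (18427/12500)*s + -1*s^2 + (22559/100000)*s^3 := by
  obtain ⟨t, ht⟩ : ∃ t, t = s - (1574137/1000000) := ⟨_, rfl⟩
  obtain ⟨r, hr⟩ : ∃ r, r = (1699137/1000000) - s := ⟨_, rfl⟩
  have h3 : 0 ≤ t := by linarith
  have h4 : 0 ≤ r := by linarith
  have key : (-289/400) + (18427/12500)*s + -1*s^2 + (22559/100000)*s^3 = (5108876340942014327/195312500000000000000)*t^0*r^3 + (51068127533027667981/195312500000000000000)*t^1*r^2 + (188885715871354292981/195312500000000000000)*t^2*r^1 + (186987011554268639327/195312500000000000000)*t^3*r^0 := by rw [ht, hr]; ring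
  rw [key]; positivity

theorem d3a2_a_4 (s : ℝ) (h1 : 1699137/1000000 ≤ s) (h2 : s ≤ 1949137/1000000) : 0 ≤ (-289/400) + (18427/12500)*s + -1*s^2 + (22559/100000)*s^3 := by
  obtain ⟨t, ht⟩ : ∃ t, t = s - (1699137/1000000) := ⟨_, rfl⟩
  obtain ⟨r, hr⟩ : ∃ r, r = (1949137/1000000) - s := ⟨_, rfl⟩
  have h3 : 0 ≤ t := by linarith
  have h4 : 0 ≤ r := by linarith
  have key : (-289/400) + (18427/12500)*s + -1*s^2 + (22559/100000)*s^3 = (186987011554268639327/1562500000000000000000)*t^0*r^3 + (1305111672245709167981/1562500000000000000000)*t^1*r^2 + (2986293231641112417981/1562500000000000000000)*t^2*r^1 + (2220652945949671889327/1562500000000000000000)*t^3*r^0 := by rw [ht, hr]; ring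
  rw [key]; positivity

theorem d3a2_a_5 (s : ℝ) (h1 : 1949137/1000000 ≤ s) : 0 ≤ (-289/400) + (18427/12500)*s + -1*s^2 + (22559/100000)*s^3 := by
  obtain ⟨t, ht⟩ : ∃ t, t = s - (1949137/1000000) := ⟨_, rfl⟩
  have h3 : 0 ≤ t := by linarith
  have h4 : s = (1949137/1000000) + t := by linarith
  have key : (-289/400) + (18427/12500)*s + -1*s^2 + (22559/100000)*s^3 = (2220652945949671889327/100000000000000000000000)*t^0 + (14702662424831613/100000000000000000)*t^1 + (31911744749/100000000000)*t^2 + (22559/100000)*t^3 := by rw [h4]; ring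
  rw [key]; positivity

theorem d3a2_a (s : ℝ) (h1 : 1449137/1000000 ≤ s) : 0 ≤ (-289/400) + (18427/12500)*s + -1*s^2 + (22559/100000)*s^3 := by
  rcases le_total s (1511637/1000000) with h | h
  · exact d3a2_a_0 s (by linarith) (by linarith)
  rcases le_total s (1542887/1000000) with h | h
  · exact d3a2_a_1 s (by linarith) (by linarith)
  rcases le_total s (1574137/1000000) with h | h
  · exact d3a2_a_2 s (by linarith) (by linarith)
  rcases le_total s (1699137/1000000) with h | h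
  · exact d3a2_a_3 s (by linarith) (by linarith)
  rcases le_total s (1949137/1000000) with h | h
  · exact d3a2_a_4 s (by linarith) (by linarith)
  exact d3a2_a_5 s (by linarith)

theorem d3a2_b (s : ℝ) (h1 : 1449137/1000000 ≤ s) : 0 ≤ (83521/160000) + (-881784373/800000000)*s + (53150049/40000000)*s^3 + -1*s^4 + (22559/100000)*s^5 := by
  obtain ⟨t, ht⟩ : ∃ t, t = s - (1449137/1000000) := ⟨_, rfl⟩
  have h3 : 0 ≤ t := by linarith
  have h4 : s = (1449137/1000000) + t := by linarith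
  have key : (83521/160000) + (-881784373/800000000)*s + (53150049/40000000)*s^3 + -1*s^4 + (22559/100000)*s^5 = (4114342534258419214033460780463/100000000000000000000000000000000000)*t^0 + (1408104562122166920193160799/20000000000000000000000000000)*t^1 + (417601637828615389327/10000000000000000000000)*t^2 + (2695888141943871/10000000000000000)*t^3 + (12691081583/20000000000)*t^4 + (22559/100000)*t^5 := by rw [h4]; ring
  rw [key]; positivity

theorem d3a2 (q w : ℝ) (hq : 21/10 ≤ q) (hw : 0 ≤ w) (hwW : w ≤ 3/20) :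
    T3 (17/20) q w ≤ ((-2823/12500)) + (22559/100000) * q + (293/2500) * w := by
  refine majL (17/20) ((-2823/12500)) (22559/100000) (293/2500) (21/10) (3/20) (by norm_num) (by norm_num) (by norm_num) ?_ ?_ q w hq hw hwW
  · intro s h1 h2
    have := d3a2_a s (leSq _ _ _ (by norm_num) (by linarith) (by norm_num) h2)
    linarith
  · intro s h1 h2
    have := d3a2_b s (leSq _ _ _ (by norm_num) (by linarith) (by norm_num) h2)
    linarith

theorem d3a3_a_0 (s : ℝ) (h1 : 1643167/1000000 ≤ s) (h2 : s ≤ 1705667/1000000) : 0 ≤ (-289/400) + (149587/100000)*s + -1*s^2 + (1089/5000)*s^3 := by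
  obtain ⟨t, ht⟩ : ∃ t, t = s - (1643167/1000000) := ⟨_, rfl⟩
  obtain ⟨r, hr⟩ : ∃ r, r = (1705667/1000000) - s := ⟨_, rfl⟩
  have h3 : 0 ≤ t := by linarith
  have h4 : 0 ≤ r := by linarith
  have key : (-289/400) + (149587/100000)*s + -1*s^2 + (1089/5000)*s^3 = (8732127312788386207/1220703125000000000)*t^0*r^3 + (17982180661325346121/1220703125000000000)*t^1*r^2 + (11206364497566783621/1220703125000000000)*t^2*r^1 + (2222180289654823707/1220703125000000000)*t^3*r^0 := by rw [ht, hr]; ring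
  rw [key]; positivity

theorem d3a3_a_1 (s : ℝ) (h1 : 1705667/1000000 ≤ s) (h2 : s ≤ 1736917/1000000) : 0 ≤ (-289/400) + (149587/100000)*s + -1*s^2 + (1089/5000)*s^3 := by
  obtain ⟨t, ht⟩ : ∃ t, t = s - (1705667/1000000) := ⟨_, rfl⟩
  obtain ⟨r, hr⟩ : ∃ r, r = (1736917/1000000) - s := ⟨_, rfl⟩
  have h3 : 0 ≤ t := by linarith
  have h4 : 0 ≤ r := by linarith
  have key : (-289/400) + (149587/100000)*s + -1*s^2 + (1089/5000)*s^3 = (2222180289654823707/152587890625000000)*t^0*r^3 + (4396629054663314871/152587890625000000)*t^1*r^2 + (2685715374151221121/152587890625000000)*t^2*r^1 + (544500251720854957/152587890625000000)*t^3*r^0 := by rw [ht, hr]; ring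
  rw [key]; positivity

theorem d3a3_a_2 (s : ℝ) (h1 : 1736917/1000000 ≤ s) (h2 : s ≤ 1768167/1000000) : 0 ≤ (-289/400) + (149587/100000)*s + -1*s^2 + (1089/5000)*s^3 := by
  obtain ⟨t, ht⟩ : ∃ t, t = s - (1736917/1000000) := ⟨_, rfl⟩
  obtain ⟨r, hr⟩ : ∃ r, r = (1768167/1000000) - s := ⟨_, rfl⟩
  have h3 : 0 ≤ t := by linarith
  have h4 : 0 ≤ r := by linarith
  have key : (-289/400) + (149587/100000)*s + -1*s^2 + (1089/5000)*s^3 = (544500251720854957/152587890625000000)*t^0*r^3 + (581286136173908621/152587890625000000)*t^1*r^2 + (187770578708689871/152587890625000000)*t^2*r^1 + (184218336833761207/152587890625000000)*t^3*r^0 := by rw [ht, hr]; ring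
  rw [key]; positivity

theorem d3a3_a_3 (s : ℝ) (h1 : 1768167/1000000 ≤ s) (h2 : s ≤ 1893167/1000000) : 0 ≤ (-289/400) + (149587/100000)*s + -1*s^2 + (1089/5000)*s^3 := by
  obtain ⟨t, ht⟩ : ∃ t, t = s - (1768167/1000000) := ⟨_, rfl⟩
  obtain ⟨r, hr⟩ : ∃ r, r = (1893167/1000000) - s := ⟨_, rfl⟩
  have h3 : 0 ≤ t := by linarith
  have h4 : 0 ≤ r := by linarith
  have key : (-289/400) + (149587/100000)*s + -1*s^2 + (1089/5000)*s^3 = (184218336833761207/9765625000000000000)*t^0*r^3 + (2012192737671658621/9765625000000000000)*t^1*r^2 + (15606130292967033621/9765625000000000000)*t^2*r^1 + (15905109017129136207/9765625000000000000)*t^3*r^0 := by rw [ht, hr]; ring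
  rw [key]; positivity

theorem d3a3_a_4 (s : ℝ) (h1 : 1893167/1000000 ≤ s) (h2 : s ≤ 2143167/1000000) : 0 ≤ (-289/400) + (149587/100000)*s + -1*s^2 + (1089/5000)*s^3 := by
  obtain ⟨t, ht⟩ : ∃ t, t = s - (1893167/1000000) := ⟨_, rfl⟩
  obtain ⟨r, hr⟩ : ∃ r, r = (2143167/1000000) - s := ⟨_, rfl⟩
  have h3 : 0 ≤ t := by linarith
  have h4 : 0 ≤ r := by linarith
  have key : (-289/400) + (149587/100000)*s + -1*s^2 + (1089/5000)*s^3 = (15905109017129136207/78125000000000000000)*t^0*r^3 + (111933720568228158621/78125000000000000000)*t^1*r^2 + (250213150897568908621/78125000000000000000)*t^2*r^1 + (171200164346469886207/78125000000000000000)*t^3*r^0 := by rw [ht, hr]; ring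
  rw [key]; positivity

theorem d3a3_a_5 (s : ℝ) (h1 : 2143167/1000000 ≤ s) : 0 ≤ (-289/400) + (149587/100000)*s + -1*s^2 + (1089/5000)*s^3 := by
  obtain ⟨t, ht⟩ : ∃ t, t = s - (2143167/1000000) := ⟨_, rfl⟩
  have h3 : 0 ≤ t := by linarith
  have h4 : s = (2143167/1000000) + t := by linarith
  have key : (-289/400) + (149587/100000)*s + -1*s^2 + (1089/5000)*s^3 = (171200164346469886207/5000000000000000000000)*t^0 + (1053549368567363/5000000000000000)*t^1 + (2001726589/5000000000)*t^2 + (1089/5000)*t^3 := by rw [h4]; ring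
  rw [key]; positivity

theorem d3a3_a (s : ℝ) (h1 : 1643167/1000000 ≤ s) : 0 ≤ (-289/400) + (149587/100000)*s + -1*s^2 + (1089/5000)*s^3 := by
  rcases le_total s (1705667/1000000) with h | h
  · exact d3a3_a_0 s (by linarith) (by linarith)
  rcases le_total s (1736917/1000000) with h | h
  · exact d3a3_a_1 s (by linarith) (by linarith)
  rcases le_total s (1768167/1000000) with h | h
  · exact d3a3_a_2 s (by linarith) (by linarith)
  rcases le_total s (1893167/1000000) with h | h
  · exact d3a3_a_3 s (by linarith) (by linarith)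
  rcases le_total s (2143167/1000000) with h | h
  · exact d3a3_a_4 s (by linarith) (by linarith)
  exact d3a3_a_5 s (by linarith)

theorem d3a3_b (s : ℝ) (h1 : 1643167/1000000 ≤ s) : 0 ≤ (83521/160000) + (-44489527/40000000)*s + (2698799/2000000)*s^3 + -1*s^4 + (1089/5000)*s^5 := by
  obtain ⟨t, ht⟩ : ∃ t, t = s - (1643167/1000000) := ⟨_, rfl⟩
  have h3 : 0 ≤ t := by linarith
  have h4 : s = (1643167/1000000) + t := by linarith
  have key : (83521/160000) + (-44489527/40000000)*s + (2698799/2000000)*s^3 + -1*s^4 + (1089/5000)*s^5 = (268180523957825640639471661023/5000000000000000000000000000000000)*t^0 + (10496757584383833698597569/1000000000000000000000000000)*t^1 + (57339697965538386207/500000000000000000000)*t^2 + (328663343189121/500000000000000)*t^3 + (789408863/1000000000)*t^4 + (1089/5000)*t^5 := by rw [h4]; ring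
  rw [key]; positivity

theorem d3a3 (q w : ℝ) (hq : 27/10 ≤ q) (hw : 0 ≤ w) (hwW : w ≤ 3/20) :
    T3 (17/20) q w ≤ ((-20413/100000)) + (1089/5000) * q + (363/5000) * w := by
  refine majL (17/20) ((-20413/100000)) (1089/5000) (363/5000) (27/10) (3/20) (by norm_num) (by norm_num) (by norm_num) ?_ ?_ q w hq hw hwW
  · intro s h1 h2
    have := d3a3_a s (leSq _ _ _ (by norm_num) (by linarith) (by norm_num) h2)
    linarith
  · intro s h1 h2
    have := d3a3_b s (leSq _ _ _ (by norm_num) (by linarith) (by norm_num) h2)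
    linarith

theorem d3a4_a_0 (s : ℝ) (h1 : 467707/250000 ≤ s) (h2 : s ≤ 498957/250000) : 0 ≤ (-289/400) + (77383/50000)*s + -1*s^2 + (10171/50000)*s^3 := by
  obtain ⟨t, ht⟩ : ∃ t, t = s - (467707/250000) := ⟨_, rfl⟩
  obtain ⟨r, hr⟩ : ∃ r, r = (498957/250000) - s := ⟨_, rfl⟩
  have h3 : 0 ≤ t := by linarith
  have h4 : 0 ≤ r := by linarith
  have key : (-289/400) + (77383/50000)*s + -1*s^2 + (10171/50000)*s^3 = (3813031808676453553/1525878906250000000)*t^0*r^3 + (5766479872483641909/1525878906250000000)*t^1*r^2 + (1823496829680110659/1525878906250000000)*t^2*r^1 + (180443052982297303/1525878906250000000)*t^3*r^0 := by rw [ht, hr]; ring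
  rw [key]; positivity

theorem d3a4_a_1 (s : ℝ) (h1 : 498957/250000 ≤ s) (h2 : s ≤ 1013539/500000) : 0 ≤ (-289/400) + (77383/50000)*s + -1*s^2 + (10171/50000)*s^3 := by
  obtain ⟨t, ht⟩ : ∃ t, t = s - (498957/250000) := ⟨_, rfl⟩
  obtain ⟨r, hr⟩ : ∃ r, r = (1013539/500000) - s := ⟨_, rfl⟩
  have h3 : 0 ≤ t := by linarith
  have h4 : 0 ≤ r := by linarith
  have key : (-289/400) + (77383/50000)*s + -1*s^2 + (10171/50000)*s^3 = (180443052982297303/23841857910156250)*t^0*r^3 + (441574482527174443/47683715820312500)*t^1*r^2 + (266185137338708261/95367431640625000)*t^2*r^1 + (248416054315769049/190734863281250000)*t^3*r^0 := by rw [ht, hr]; ring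
  rw [key]; positivity

theorem d3a4_a_2 (s : ℝ) (h1 : 1013539/500000 ≤ s) (h2 : s ≤ 257291/125000) : 0 ≤ (-289/400) + (77383/50000)*s + -1*s^2 + (10171/50000)*s^3 := by
  obtain ⟨t, ht⟩ : ∃ t, t = s - (1013539/500000) := ⟨_, rfl⟩
  obtain ⟨r, hr⟩ : ∃ r, r = (257291/125000) - s := ⟨_, rfl⟩
  have h3 : 0 ≤ t := by linarith
  have h4 : 0 ≤ r := by linarith
  have key : (-289/400) + (77383/50000)*s + -1*s^2 + (10171/50000)*s^3 = (248416054315769049/190734863281250000)*t^0*r^3 + (239531512804299443/47683715820312500)*t^1*r^2 + (163613092699266267/11920928955078125)*t^2*r^1 + (121681173260968964/11920928955078125)*t^3*r^0 := by rw [ht, hr]; ring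
  rw [key]; positivity

theorem d3a4_a_3 (s : ℝ) (h1 : 257291/125000 ≤ s) (h2 : s ≤ 530207/250000) : 0 ≤ (-289/400) + (77383/50000)*s + -1*s^2 + (10171/50000)*s^3 := by
  obtain ⟨t, ht⟩ : ∃ t, t = s - (257291/125000) := ⟨_, rfl⟩
  obtain ⟨r, hr⟩ : ∃ r, r = (530207/250000) - s := ⟨_, rfl⟩
  have h3 : 0 ≤ t := by linarith
  have h4 : 0 ≤ r := by linarith
  have key : (-289/400) + (77383/50000)*s + -1*s^2 + (10171/50000)*s^3 = (30420293315242241/23841857910156250)*t^0*r^3 + (383952186975094071/47683715820312500)*t^1*r^2 + (1561566078459266267/95367431640625000)*t^2*r^1 + (1869485041428766053/190734863281250000)*t^3*r^0 := by rw [ht, hr]; ring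
  rw [key]; positivity

theorem d3a4_a_4 (s : ℝ) (h1 : 530207/250000 ≤ s) (h2 : s ≤ 592707/250000) : 0 ≤ (-289/400) + (77383/50000)*s + -1*s^2 + (10171/50000)*s^3 := by
  obtain ⟨t, ht⟩ : ∃ t, t = s - (530207/250000) := ⟨_, rfl⟩
  obtain ⟨r, hr⟩ : ∃ r, r = (592707/250000) - s := ⟨_, rfl⟩
  have h3 : 0 ≤ t := by linarith
  have h4 : 0 ≤ r := by linarith
  have key : (-289/400) + (77383/50000)*s + -1*s^2 + (10171/50000)*s^3 = (1869485041428766053/12207031250000000000)*t^0*r^3 + (15549746993757360659/12207031250000000000)*t^1*r^2 + (39859031796822173159/12207031250000000000)*t^2*r^1 + (28661924141368578553/12207031250000000000)*t^3*r^0 := by rw [ht, hr]; ring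
  rw [key]; positivity

theorem d3a4_a_5 (s : ℝ) (h1 : 592707/250000 ≤ s) : 0 ≤ (-289/400) + (77383/50000)*s + -1*s^2 + (10171/50000)*s^3 := by
  obtain ⟨t, ht⟩ : ∃ t, t = s - (592707/250000) := ⟨_, rfl⟩
  have h3 : 0 ≤ t := by linarith
  have h4 : s = (592707/250000) + t := by linarith
  have key : (-289/400) + (77383/50000)*s + -1*s^2 + (10171/50000)*s^3 = (28661924141368578553/781250000000000000000)*t^0 + (738027850036537/3125000000000000)*t^1 + (5585268691/12500000000)*t^2 + (10171/50000)*t^3 := by rw [h4]; ring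
  rw [key]; positivity

theorem d3a4_a (s : ℝ) (h1 : 467707/250000 ≤ s) : 0 ≤ (-289/400) + (77383/50000)*s + -1*s^2 + (10171/50000)*s^3 := by
  rcases le_total s (498957/250000) with h | h
  · exact d3a4_a_0 s (by linarith) (by linarith)
  rcases le_total s (1013539/500000) with h | h
  · exact d3a4_a_1 s (by linarith) (by linarith)
  rcases le_total s (257291/125000) with h | h
  · exact d3a4_a_2 s (by linarith) (by linarith)
  rcases le_total s (530207/250000) with h | h
  · exact d3a4_a_3 s (by linarith) (by linarith)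
  rcases le_total s (592707/250000) with h | h
  · exact d3a4_a_4 s (by linarith) (by linarith)
  exact d3a4_a_5 s (by linarith)

theorem d3a4_b_0 (s : ℝ) (h1 : 467707/250000 ≤ s) (h2 : s ≤ 120833/62500) : 0 ≤ (83521/160000) + (-28626317/25000000)*s + (28147281/20000000)*s^3 + -1*s^4 + (10171/50000)*s^5 := by
  obtain ⟨t, ht⟩ : ∃ t, t = s - (467707/250000) := ⟨_, rfl⟩
  obtain ⟨r, hr⟩ : ∃ r, r = (120833/62500) - s := ⟨_, rfl⟩
  have h3 : 0 ≤ t := by linarith
  have h4 : 0 ≤ r := by linarith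
  have key : (83521/160000) + (-28626317/25000000)*s + (28147281/20000000)*s^3 + -1*s^4 + (10171/50000)*s^5 = (341662143455185337848598677497/46566128730773925781250000)*t^0*r^5 + (70178541617002091906145649843/2328306436538696289062500)*t^1*r^4 + (27991832763051680978568129609/582076609134674072265625)*t^2*r^3 + (21570984184566785926792926484/582076609134674072265625)*t^3*r^2 + (7999535889665395173959056992/582076609134674072265625)*t^4*r^1 + (5733221315567070738525556992/2910383045673370361328125)*t^5*r^0 := by rw [ht, hr]; ring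
  rw [key]; positivity

theorem d3a4_b_1 (s : ℝ) (h1 : 120833/62500 ≤ s) (h2 : s ≤ 498957/250000) : 0 ≤ (83521/160000) + (-28626317/25000000)*s + (28147281/20000000)*s^3 + -1*s^4 + (10171/50000)*s^5 := by
  obtain ⟨t, ht⟩ : ∃ t, t = s - (120833/62500) := ⟨_, rfl⟩
  obtain ⟨r, hr⟩ : ∃ r, r = (498957/250000) - s := ⟨_, rfl⟩
  have h3 : 0 ≤ t := by linarith
  have h4 : 0 ≤ r := by linarith
  have key : (83521/160000) + (-28626317/25000000)*s + (28147281/20000000)*s^3 + -1*s^4 + (10171/50000)*s^5 = (5733221315567070738525556992/2910383045673370361328125)*t^0*r^5 + (3466906741468746303092056992/582076609134674072265625)*t^1*r^4 + (3440467591780190443324926484/582076609134674072265625)*t^2*r^3 + (1176752041452682223580973359/582076609134674072265625)*t^3*r^2 + (702028586502865733992399843/2328306436538696289062500)*t^4*r^1 + (9526289969737813860391021247/46566128730773925781250000)*t^5*r^0 := by rw [ht, hr]; ring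
  rw [key]; positivity

theorem d3a4_b_2 (s : ℝ) (h1 : 498957/250000 ≤ s) (h2 : s ≤ 530207/250000) : 0 ≤ (83521/160000) + (-28626317/25000000)*s + (28147281/20000000)*s^3 + -1*s^4 + (10171/50000)*s^5 := by
  obtain ⟨t, ht⟩ : ∃ t, t = s - (498957/250000) := ⟨_, rfl⟩
  obtain ⟨r, hr⟩ : ∃ r, r = (530207/250000) - s := ⟨_, rfl⟩
  have h3 : 0 ≤ t := by linarith
  have h4 : 0 ≤ r := by linarith
  have key : (83521/160000) + (-28626317/25000000)*s + (28147281/20000000)*s^3 + -1*s^4 + (10171/50000)*s^5 = (9526289969737813860391021247/1490116119384765625000000000)*t^0*r^5 + (22962641217190515709233864997/298023223876953125000000000)*t^1*r^4 + (89695302901988600666475146247/149011611938476562500000000)*t^2*r^3 + (224286316562742267706724239997/149011611938476562500000000)*t^3*r^2 + (443753331769334603988184271247/298023223876953125000000000)*t^4*r^1 + (767872725543926833876089614997/1490116119384765625000000000)*t^5*r^0 := by rw [ht, hr]; ring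
  rw [key]; positivity

theorem d3a4_b_3 (s : ℝ) (h1 : 530207/250000 ≤ s) (h2 : s ≤ 592707/250000) : 0 ≤ (83521/160000) + (-28626317/25000000)*s + (28147281/20000000)*s^3 + -1*s^4 + (10171/50000)*s^5 := by
  obtain ⟨t, ht⟩ : ∃ t, t = s - (530207/250000) := ⟨_, rfl⟩
  obtain ⟨r, hr⟩ : ∃ r, r = (592707/250000) - s := ⟨_, rfl⟩
  have h3 : 0 ≤ t := by linarith
  have h4 : 0 ≤ r := by linarith
  have key : (83521/160000) + (-28626317/25000000)*s + (28147281/20000000)*s^3 + -1*s^4 + (10171/50000)*s^5 = (767872725543926833876089614997/47683715820312500000000000000)*t^0*r^5 + (1416111513093111293651900302497/9536743164062500000000000000)*t^1*r^4 + (2482959814914295327853492239997/4768371582031250000000000000)*t^2*r^3 + (4126628647184768731402740427497/4768371582031250000000000000)*t^3*r^2 + (6549468665318271494534019864997/9536743164062500000000000000)*t^4*r^1 + (10007669985437161771544205552497/47683715820312500000000000000)*t^5*r^0 := by rw [ht, hr]; ring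
  rw [key]; positivity

theorem d3a4_b_4 (s : ℝ) (h1 : 592707/250000 ≤ s) : 0 ≤ (83521/160000) + (-28626317/25000000)*s + (28147281/20000000)*s^3 + -1*s^4 + (10171/50000)*s^5 := by
  obtain ⟨t, ht⟩ : ∃ t, t = s - (592707/250000) := ⟨_, rfl⟩
  have h3 : 0 ≤ t := by linarith
  have h4 : s = (592707/250000) + t := by linarith
  have key : (83521/160000) + (-28626317/25000000)*s + (28147281/20000000)*s^3 + -1*s^4 + (10171/50000)*s^5 = (10007669985437161771544205552497/48828125000000000000000000000000)*t^0 + (55331221121902244432162971/39062500000000000000000000)*t^1 + (265052493308259203553/78125000000000000000)*t^2 + (1049354715637179/312500000000000)*t^3 + (3528422897/2500000000)*t^4 + (10171/50000)*t^5 := by rw [h4]; ring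
  rw [key]; positivity

theorem d3a4_b (s : ℝ) (h1 : 467707/250000 ≤ s) : 0 ≤ (83521/160000) + (-28626317/25000000)*s + (28147281/20000000)*s^3 + -1*s^4 + (10171/50000)*s^5 := by
  rcases le_total s (120833/62500) with h | h
  · exact d3a4_b_0 s (by linarith) (by linarith)
  rcases le_total s (498957/250000) with h | h
  · exact d3a4_b_1 s (by linarith) (by linarith)
  rcases le_total s (530207/250000) with h | h
  · exact d3a4_b_2 s (by linarith) (by linarith)
  rcases le_total s (592707/250000) with h | h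
  · exact d3a4_b_3 s (by linarith) (by linarith)
  exact d3a4_b_4 s (by linarith)

theorem d3a4 (q w : ℝ) (hq : 7/2 ≤ q) (hw : 0 ≤ w) (hwW : w ≤ 3/20) :
    T3 (17/20) q w ≤ ((-7617/50000)) + (10171/50000) * q + (89/2000) * w := by
  refine majL (17/20) ((-7617/50000)) (10171/50000) (89/2000) (7/2) (3/20) (by norm_num) (by norm_num) (by norm_num) ?_ ?_ q w hq hw hwW
  · intro s h1 h2
    have := d3a4_a s (leSq _ _ _ (by norm_num) (by linarith) (by norm_num) h2)
    linarith
  · intro s h1 h2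
    have := d3a4_b s (leSq _ _ _ (by norm_num) (by linarith) (by norm_num) h2)
    linarith

theorem eb1_a (s : ℝ) (h1 : 17/20 ≤ s) (h2 : s ≤ 276417/250000) : 0 ≤ (17/20) + (-179889/200000)*s + (1183/10000)*s^2 := by
  obtain ⟨t, ht⟩ : ∃ t, t = s - (17/20) := ⟨_, rfl⟩
  obtain ⟨r, hr⟩ : ∃ r, r = (276417/250000) - s := ⟨_, rfl⟩
  have h3 : 0 ≤ t := by linarith
  have h4 : 0 ≤ r := by linarith
  have key : (17/20) + (-179889/200000)*s + (1183/10000)*s^2 = (1526281250/583626127)*t^0*r^2 + (5833753115/2334504508)*t^1*r^1 + (11999995741/5836261270000)*t^2*r^0 := by rw [ht, hr]; ring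
  rw [key]; positivity

theorem eb1 (q : ℝ) (hq : 0 ≤ q) (hqb : q ≤ 1/2) : E3 (17/20) q ≤ (1183/10000) * q := by
  refine majE (17/20) (1183/10000) (1/2) (by norm_num) ?_ q hq hqb
  intro s h1 h2
  have := eb1_a s h1 (geSq _ _ _ (by norm_num) (by norm_num) h2)
  linarith

theorem eb2_a (s : ℝ) (h1 : 17/20 ≤ s) (h2 : s ≤ 601041/500000) : 0 ≤ (17/20) + (-43931/50000)*s + (357/2500)*s^2 := by
  obtain ⟨t, ht⟩ : ∃ t, t = s - (17/20) := ⟨_, rfl⟩
  obtain ⟨r, hr⟩ : ∃ r, r = (601041/500000) - s := ⟨_, rfl⟩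
  have h3 : 0 ≤ t := by linarith
  have h4 : 0 ≤ r := by linarith
  have key : (17/20) + (-43931/50000)*s + (357/2500)*s^2 = (51586500000/30990433681)*t^0*r^2 + (47204284870/30990433681)*t^1*r^1 + (108046999117/77476084202500)*t^2*r^0 := by rw [ht, hr]; ring
  rw [key]; positivity

theorem eb2 (q : ℝ) (hq : 0 ≤ q) (hqb : q ≤ 289/400) : E3 (17/20) q ≤ (357/2500) * q := by
  refine majE (17/20) (357/2500) (289/400) (by norm_num) ?_ q hq hqb
  intro s h1 h2
  have := eb2_a s h1 (geSq _ _ _ (by norm_num) (by norm_num) h2)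
  linarith

theorem eb3_a (s : ℝ) (h1 : 17/20 ≤ s) (h2 : s ≤ 1285497/1000000) : 0 ≤ (17/20) + (-173021/200000)*s + (1587/10000)*s^2 := by
  obtain ⟨t, ht⟩ : ∃ t, t = s - (17/20) := ⟨_, rfl⟩
  obtain ⟨r, hr⟩ : ∃ r, r = (1285497/1000000) - s := ⟨_, rfl⟩
  have h3 : 0 ≤ t := by linarith
  have h4 : 0 ≤ r := by linarith
  have key : (17/20) + (-173021/200000)*s + (1587/10000)*s^2 = (229321500000/189657637009)*t^0*r^2 + (199385103445/189657637009)*t^1*r^1 + (1622704383283/1896576370090000)*t^2*r^0 := by rw [ht, hr]; ring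
  rw [key]; positivity

theorem eb3 (q : ℝ) (hq : 0 ≤ q) (hqb : q ≤ 93/100) : E3 (17/20) q ≤ (1587/10000) * q := by
  refine majE (17/20) (1587/10000) (93/100) (by norm_num) ?_ q hq hqb
  intro s h1 h2
  have := eb3_a s h1 (geSq _ _ _ (by norm_num) (by norm_num) h2)
  linarith

theorem eb4_a (s : ℝ) (h1 : 17/20 ≤ s) (h2 : s ≤ 1312441/1000000) : 0 ≤ (17/20) + (-17229/20000)*s + (163/1000)*s^2 := by
  obtain ⟨t, ht⟩ : ∃ t, t = s - (17/20) := ⟨_, rfl⟩
  obtain ⟨r, hr⟩ : ∃ r, r = (1312441/1000000) - s := ⟨_, rfl⟩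
  have h3 : 0 ≤ t := by linarith
  have h4 : 0 ≤ r := by linarith
  have key : (17/20) + (-17229/20000)*s + (163/1000)*s^2 = (235535000000/213851678481)*t^0*r^2 + (200842601650/213851678481)*t^1*r^1 + (165425242403/213851678481000)*t^2*r^0 := by rw [ht, hr]; ring
  rw [key]; positivity

theorem eb4 (q : ℝ) (hq : 0 ≤ q) (hqb : q ≤ 1) : E3 (17/20) q ≤ (163/1000) * q := by
  refine majE (17/20) (163/1000) 1 (by norm_num) ?_ q hq hqb
  intro s h1 h2
  have := eb4_a s h1 (geSq _ _ _ (by norm_num) (by norm_num) h2)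
  linarith

theorem eb5_a (s : ℝ) (h1 : 17/20 ≤ s) (h2 : s ≤ 467039/500000) : 0 ≤ (17/20) + (-38283/40000)*s + (101/2000)*s^2 := by
  obtain ⟨t, ht⟩ : ∃ t, t = s - (17/20) := ⟨_, rfl⟩
  obtain ⟨r, hr⟩ : ∃ r, r = (467039/500000) - s := ⟨_, rfl⟩
  have h3 : 0 ≤ t := by linarith
  have h4 : 0 ≤ r := by linarith
  have key : (17/20) + (-38283/40000)*s + (101/2000)*s^2 = (18243125000/1767277521)*t^0*r^2 + (36347072225/3534555042)*t^1*r^1 + (39317254621/3534555042000)*t^2*r^0 := by rw [ht, hr]; ring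
  rw [key]; positivity

theorem eb5 (q : ℝ) (hq : 0 ≤ q) (hqb : q ≤ 3/20) : E3 (17/20) q ≤ (101/2000) * q := by
  refine majE (17/20) (101/2000) (3/20) (by norm_num) ?_ q hq hqb
  intro s h1 h2
  have := eb5_a s h1 (geSq _ _ _ (by norm_num) (by norm_num) h2)
  linarith

theorem eb6_a (s : ℝ) (h1 : 17/20 ≤ s) (h2 : s ≤ 973397/1000000) : 0 ≤ (17/20) + (-23521/25000)*s + (87/1250)*s^2 := by
  obtain ⟨t, ht⟩ : ∃ t, t = s - (17/20) := ⟨_, rfl⟩
  obtain ⟨r, hr⟩ : ∃ r, r = (973397/1000000) - s := ⟨_, rfl⟩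
  have h3 : 0 ≤ t := by linarith
  have h4 : 0 ≤ r := by linarith
  have key : (17/20) + (-23521/25000)*s + (87/1250)*s^2 = (100572000000/15226819609)*t^0*r^2 + (99647499560/15226819609)*t^1*r^1 + (169107755983/19033524511250)*t^2*r^0 := by rw [ht, hr]; ring
  rw [key]; positivity

theorem eb6 (q : ℝ) (hq : 0 ≤ q) (hqb : q ≤ 9/40) : E3 (17/20) q ≤ (87/1250) * q := by
  refine majE (17/20) (87/1250) (9/40) (by norm_num) ?_ q hq hqb
  intro s h1 h2
  have := eb6_a s h1 (geSq _ _ _ (by norm_num) (by norm_num) h2)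
  linarith

theorem eb7_a (s : ℝ) (h1 : 17/20 ≤ s) (h2 : s ≤ 252797/250000) : 0 ≤ (17/20) + (-185431/200000)*s + (857/10000)*s^2 := by
  obtain ⟨t, ht⟩ : ∃ t, t = s - (17/20) := ⟨_, rfl⟩
  obtain ⟨r, hr⟩ : ∃ r, r = (252797/250000) - s := ⟨_, rfl⟩
  have h3 : 0 ≤ t := by linarith
  have h4 : 0 ≤ r := by linarith
  have key : (17/20) + (-185431/200000)*s + (857/10000)*s^2 = (7739781250/1623848209)*t^0*r^2 + (30427554895/6495392836)*t^1*r^1 + (62712652613/16238482090000)*t^2*r^0 := by rw [ht, hr]; ring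
  rw [key]; positivity

theorem eb7 (q : ℝ) (hq : 0 ≤ q) (hqb : q ≤ 3/10) : E3 (17/20) q ≤ (857/10000) * q := by
  refine majE (17/20) (857/10000) (3/10) (by norm_num) ?_ q hq hqb
  intro s h1 h2
  have := eb7_a s h1 (geSq _ _ _ (by norm_num) (by norm_num) h2)
  linarith

theorem eb8_a (s : ℝ) (h1 : 17/20 ≤ s) (h2 : s ≤ 529741/500000) : 0 ≤ (17/20) + (-45597/50000)*s + (259/2500)*s^2 := by
  obtain ⟨t, ht⟩ : ∃ t, t = s - (17/20) := ⟨_, rfl⟩
  obtain ⟨r, hr⟩ : ∃ r, r = (529741/500000) - s := ⟨_, rfl⟩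
  have h3 : 0 ≤ t := by linarith
  have h4 : 0 ≤ r := by linarith
  have key : (17/20) + (-45597/50000)*s + (259/2500)*s^2 = (5346500000/1567239583)*t^0*r^2 + (5187962670/1567239583)*t^1*r^1 + (1367389571/559728422500)*t^2*r^0 := by rw [ht, hr]; ring
  rw [key]; positivity

theorem eb8 (q : ℝ) (hq : 0 ≤ q) (hqb : q ≤ 2/5) : E3 (17/20) q ≤ (259/2500) * q := by
  refine majE (17/20) (259/2500) (2/5) (by norm_num) ?_ q hq hqb
  intro s h1 h2
  have := eb8_a s h1 (geSq _ _ _ (by norm_num) (by norm_num) h2)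
  linarith

theorem eb9_a (s : ℝ) (h1 : 17/20 ≤ s) (h2 : s ≤ 1154773/1000000) : 0 ≤ (17/20) + (-177611/200000)*s + (1317/10000)*s^2 := by
  obtain ⟨t, ht⟩ : ∃ t, t = s - (17/20) := ⟨_, rfl⟩
  obtain ⟨r, hr⟩ : ∃ r, r = (1154773/1000000) - s := ⟨_, rfl⟩
  have h3 : 0 ≤ t := by linarith
  have h4 : 0 ≤ r := by linarith
  have key : (17/20) + (-177611/200000)*s + (1317/10000)*s^2 = (63435500000/30962193843)*t^0*r^2 + (59397813485/30962193843)*t^1*r^1 + (133448047077/103207312810000)*t^2*r^0 := by rw [ht, hr]; ring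
  rw [key]; positivity

theorem eb9 (q : ℝ) (hq : 0 ≤ q) (hqb : q ≤ 611/1000) : E3 (17/20) q ≤ (1317/10000) * q := by
  refine majE (17/20) (1317/10000) (611/1000) (by norm_num) ?_ q hq hqb
  intro s h1 h2
  have := eb9_a s h1 (geSq _ _ _ (by norm_num) (by norm_num) h2)
  linarith

theorem eb10_a (s : ℝ) (h1 : 17/20 ≤ s) (h2 : s ≤ 282677/250000) : 0 ≤ (17/20) + (-89341/100000)*s + (627/5000)*s^2 := by
  obtain ⟨t, ht⟩ : ∃ t, t = s - (17/20) := ⟨_, rfl⟩
  obtain ⟨r, hr⟩ : ∃ r, r = (282677/250000) - s := ⟨_, rfl⟩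
  have h3 : 0 ≤ t := by linarith
  have h4 : 0 ≤ r := by linarith
  have key : (17/20) + (-89341/100000)*s + (627/5000)*s^2 = (11325187500/4924811329)*t^0*r^2 + (21432499645/9849622658)*t^1*r^1 + (43168315783/24624056645000)*t^2*r^0 := by rw [ht, hr]; ring
  rw [key]; positivity

theorem eb10 (q : ℝ) (hq : 0 ≤ q) (hqb : q ≤ 139/250) : E3 (17/20) q ≤ (627/5000) * q := by
  refine majE (17/20) (627/5000) (139/250) (by norm_num) ?_ q hq hqb
  intro s h1 h2
  have := eb10_a s h1 (geSq _ _ _ (by norm_num) (by norm_num) h2)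
  linarith

theorem eb11_a (s : ℝ) (h1 : 17/20 ≤ s) (h2 : s ≤ 1143023/1000000) : 0 ≤ (17/20) + (-178121/200000)*s + (1287/10000)*s^2 := by
  obtain ⟨t, ht⟩ : ∃ t, t = s - (17/20) := ⟨_, rfl⟩
  obtain ⟨r, hr⟩ : ∃ r, r = (1143023/1000000) - s := ⟨_, rfl⟩
  have h3 : 0 ≤ t := by linarith
  have h4 : 0 ≤ r := by linarith
  have key : (17/20) + (-178121/200000)*s + (1287/10000)*s^2 = (185971500000/85862478529)*t^0*r^2 + (175085753255/85862478529)*t^1*r^1 + (1647542416823/858624785290000)*t^2*r^0 := by rw [ht, hr]; ring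
  rw [key]; positivity

theorem eb11 (q : ℝ) (hq : 0 ≤ q) (hqb : q ≤ 73/125) : E3 (17/20) q ≤ (1287/10000) * q := by
  refine majE (17/20) (1287/10000) (73/125) (by norm_num) ?_ q hq hqb
  intro s h1 h2
  have := eb11_a s h1 (geSq _ _ _ (by norm_num) (by norm_num) h2)
  linarith

theorem eb12_a (s : ℝ) (h1 : 17/20 ≤ s) (h2 : s ≤ 1178771/1000000) : 0 ≤ (17/20) + (-1413/1600)*s + (11/80)*s^2 := by
  obtain ⟨t, ht⟩ : ∃ t, t = s - (17/20) := ⟨_, rfl⟩
  obtain ⟨r, hr⟩ : ∃ r, r = (1178771/1000000) - s := ⟨_, rfl⟩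
  have h3 : 0 ≤ t := by linarith
  have h4 : 0 ≤ r := by linarith
  have key : (17/20) + (-1413/1600)*s + (11/80)*s^2 = (198687500000/108090370441)*t^0*r^2 + (183879331875/108090370441)*t^1*r^1 + (4340624851/8647229635280)*t^2*r^0 := by rw [ht, hr]; ring
  rw [key]; positivity

theorem eb12 (q : ℝ) (hq : 0 ≤ q) (hqb : q ≤ 667/1000) : E3 (17/20) q ≤ (11/80) * q := by
  refine majE (17/20) (11/80) (667/1000) (by norm_num) ?_ q hq hqb
  intro s h1 h2
  have := eb12_a s h1 (geSq _ _ _ (by norm_num) (by norm_num) h2)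
  linarith

theorem eb13_a (s : ℝ) (h1 : 17/20 ≤ s) (h2 : s ≤ 311097/250000) : 0 ≤ (17/20) + (-87131/100000)*s + (757/5000)*s^2 := by
  obtain ⟨t, ht⟩ : ∃ t, t = s - (17/20) := ⟨_, rfl⟩
  obtain ⟨r, hr⟩ : ∃ r, r = (311097/250000) - s := ⟨_, rfl⟩
  have h3 : 0 ≤ t := by linarith
  have h4 : 0 ≤ r := by linarith
  have key : (17/20) + (-87131/100000)*s + (757/5000)*s^2 = (13673312500/9721368409)*t^0*r^2 + (24427421895/19442736818)*t^1*r^1 + (61068123113/48606842045000)*t^2*r^0 := by rw [ht, hr]; ring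
  rw [key]; positivity

theorem eb13 (q : ℝ) (hq : 0 ≤ q) (hqb : q ≤ 413/500) : E3 (17/20) q ≤ (757/5000) * q := by
  refine majE (17/20) (757/5000) (413/500) (by norm_num) ?_ q hq hqb
  intro s h1 h2
  have := eb13_a s h1 (geSq _ _ _ (by norm_num) (by norm_num) h2)
  linarith

theorem eb14_a (s : ℝ) (h1 : 17/20 ≤ s) (h2 : s ≤ 305829/250000) : 0 ≤ (17/20) + (-2734/3125)*s + (92/625)*s^2 := by
  obtain ⟨t, ht⟩ : ∃ t, t = s - (17/20) := ⟨_, rfl⟩
  obtain ⟨r, hr⟩ : ∃ r, r = (305829/250000) - s := ⟨_, rfl⟩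
  have h3 : 0 ≤ t := by linarith
  have h4 : 0 ≤ r := by linarith
  have key : (17/20) + (-2734/3125)*s + (92/625)*s^2 = (13294000000/8710302241)*t^0*r^2 + (12013743360/8710302241)*t^1*r^1 + (1187406172/5443938900625)*t^2*r^0 := by rw [ht, hr]; ring
  rw [key]; positivity

theorem eb14 (q : ℝ) (hq : 0 ≤ q) (hqb : q ≤ 387/500) : E3 (17/20) q ≤ (92/625) * q := by
  refine majE (17/20) (92/625) (387/500) (by norm_num) ?_ q hq hqb
  intro s h1 h2
  have := eb14_a s h1 (geSq _ _ _ (by norm_num) (by norm_num) h2)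
  linarith

theorem eb15_a (s : ℝ) (h1 : 17/20 ≤ s) (h2 : s ≤ 1265109/1000000) : 0 ≤ (17/20) + (-10851/12500)*s + (97/625)*s^2 := by
  obtain ⟨t, ht⟩ : ∃ t, t = s - (17/20) := ⟨_, rfl⟩
  obtain ⟨r, hr⟩ : ∃ r, r = (1265109/1000000) - s := ⟨_, rfl⟩
  have h3 : 0 ≤ t := by linarith
  have h4 : 0 ≤ r := by linarith
  have key : (17/20) + (-10851/12500)*s + (97/625)*s^2 = (224264000000/172315481881)*t^0*r^2 + (197702537840/172315481881)*t^1*r^1 + (113687892457/107697176175625)*t^2*r^0 := by rw [ht, hr]; ring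
  rw [key]; positivity

theorem eb15 (q : ℝ) (hq : 0 ≤ q) (hqb : q ≤ 439/500) : E3 (17/20) q ≤ (97/625) * q := by
  refine majE (17/20) (97/625) (439/500) (by norm_num) ?_ q hq hqb
  intro s h1 h2
  have := eb15_a s h1 (geSq _ _ _ (by norm_num) (by norm_num) h2)
  linarith

theorem d3b0_0_a (s : ℝ) (h1 : 17/20 ≤ s) (h2 : s ≤ 19/20) : 0 ≤ (-83521/160000) + (4913/4000)*s + (-289/400)*s^2 + (-203167/4000000)*s^3 + (703/10000)*s^5 := by
  obtain ⟨t, ht⟩ : ∃ t, t = s - (17/20) := ⟨_, rfl⟩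
  obtain ⟨r, hr⟩ : ∃ r, r = (19/20) - s := ⟨_, rfl⟩
  have h3 : 0 ≤ t := by linarith
  have h4 : 0 ≤ r := by linarith
  have key : (-83521/160000) + (4913/4000)*s + (-289/400)*s^2 + (-203167/4000000)*s^3 + (703/10000)*s^5 = (58715263/80000)*t^1*r^4 + (8049517/3200)*t^2*r^3 + (255079203/80000)*t^3*r^2 + (141544703/80000)*t^4*r^1 + (14496893/40000)*t^5*r^0 := by rw [ht, hr]; ring
  rw [key]; positivity

theorem d3b0_0_b (s : ℝ) (h1 : 17/20 ≤ s) (h2 : s ≤ 19/20) : 0 ≤ (-83521/160000) + (49739501/40000000)*s + (-289/400)*s^2 + (-287527/4000000)*s^3 + (703/10000)*s^5 := by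
  obtain ⟨t, ht⟩ : ∃ t, t = s - (17/20) := ⟨_, rfl⟩
  obtain ⟨r, hr⟩ : ∃ r, r = (19/20) - s := ⟨_, rfl⟩
  have h3 : 0 ≤ t := by linarith
  have h4 : 0 ≤ r := by linarith
  have key : (-83521/160000) + (49739501/40000000)*s + (-289/400)*s^2 + (-287527/4000000)*s^3 + (703/10000)*s^5 = (34335223/80000)*t^1*r^4 + (19883081/16000)*t^2*r^3 + (95723163/80000)*t^3*r^2 + (30780023/80000)*t^4*r^1 + (71333/40000)*t^5*r^0 := by rw [ht, hr]; ring
  rw [key]; positivity

theorem d3b0_0 (q w : ℝ) (hq : 0 ≤ q) (hqa : 0 ≤ q) (hqb : q ≤ 3/10) (hw : 0 ≤ w) (hwW : w ≤ 3/20) :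
    T3 (17/20) q w ≤ 0 + 0 * q + (703/10000) * w := by
  refine maj3 (17/20) 0 0 (703/10000) 0 (3/10) (19/20) (3/20) (by norm_num) (by norm_num) (by norm_num) (by norm_num) (by norm_num) ?_ ?_ ?_ q w hq hqa hqb hw hwW
  · intro s h1 h2 h3
    have := d3b0_0_a s h1 h3
    linarith
  · intro s h1 h2 h3
    have := d3b0_0_b s h1 h3
    linarith
  · intro s h1 h2 h3
    exfalso
    nlinarith

theorem d3b0_2_a (s : ℝ) (h1 : 17/20 ≤ s) (h2 : s ≤ 19/20) : 0 ≤ (-83521/160000) + (24565289/20000000)*s + (-289/400)*s^2 + (-1677067/40000000)*s^3 + (5803/100000)*s^5 := by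
  obtain ⟨t, ht⟩ : ∃ t, t = s - (17/20) := ⟨_, rfl⟩
  obtain ⟨r, hr⟩ : ∃ r, r = (19/20) - s := ⟨_, rfl⟩
  have h3 : 0 ≤ t := by linarith
  have h4 : 0 ≤ r := by linarith
  have key : (-83521/160000) + (24565289/20000000)*s + (-289/400)*s^2 + (-1677067/40000000)*s^3 + (5803/100000)*s^5 = (4913/4000)*t^0*r^5 + (489700963/800000)*t^1*r^4 + (62821953/32000)*t^2*r^3 + (1813453903/800000)*t^3*r^2 + (871125203/800000)*t^4*r^1 + (69774093/400000)*t^5*r^0 := by rw [ht, hr]; ring
  rw [key]; positivity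

theorem d3b0_2_b (s : ℝ) (h1 : 17/20 ≤ s) (h2 : s ≤ 19/20) : 0 ≤ (-83521/160000) + (248490581/200000000)*s + (-289/400)*s^2 + (-2373427/40000000)*s^3 + (5803/100000)*s^5 := by
  obtain ⟨t, ht⟩ : ∃ t, t = s - (17/20) := ⟨_, rfl⟩
  obtain ⟨r, hr⟩ : ∃ r, r = (19/20) - s := ⟨_, rfl⟩
  have h3 : 0 ≤ t := by linarith
  have h4 : 0 ≤ r := by linarith
  have key : (-83521/160000) + (248490581/200000000)*s + (-289/400)*s^2 + (-2373427/40000000)*s^3 + (5803/100000)*s^5 = (11049337/80000)*t^0*r^5 + (848890393/800000)*t^1*r^4 + (375336897/160000)*t^2*r^3 + (1670439283/800000)*t^3*r^2 + (555892853/800000)*t^4*r^1 + (371679/12500)*t^5*r^0 := by rw [ht, hr]; ring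
  rw [key]; positivity

theorem d3b0_2 (q w : ℝ) (hq : 0 ≤ q) (hqa : 0 ≤ q) (hqb : q ≤ 3/10) (hw : 0 ≤ w) (hwW : w ≤ 3/20) :
    T3 (17/20) q w ≤ (1/50000) + (743/100000) * q + (5803/100000) * w := by
  refine maj3 (17/20) (1/50000) (743/100000) (5803/100000) 0 (3/10) (19/20) (3/20) (by norm_num) (by norm_num) (by norm_num) (by norm_num) (by norm_num) ?_ ?_ ?_ q w hq hqa hqb hw hwW
  · intro s h1 h2 h3
    have := d3b0_2_a s h1 h3
    linarith
  · intro s h1 h2 h3
    have := d3b0_2_b s h1 h3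
    linarith
  · intro s h1 h2 h3
    exfalso
    nlinarith

theorem d3b1_0_a (s : ℝ) (h1 : 17/20 ≤ s) (h2 : s ≤ 49/50) : 0 ≤ (-83521/160000) + (50117513/40000000)*s + (-289/400)*s^2 + (-465851/4000000)*s^3 + (1139/10000)*s^5 := by
  obtain ⟨t, ht⟩ : ∃ t, t = s - (17/20) := ⟨_, rfl⟩
  obtain ⟨r, hr⟩ : ∃ r, r = (49/50) - s := ⟨_, rfl⟩
  have h3 : 0 ≤ t := by linarith
  have h4 : 0 ≤ r := by linarith
  have key : (-83521/160000) + (50117513/40000000)*s + (-289/400)*s^2 + (-465851/4000000)*s^3 + (1139/10000)*s^5 = (329171/1352)*t^1*r^4 + (145569589/175760)*t^2*r^3 + (468256551/439400)*t^3*r^2 + (137149829/219700)*t^4*r^1 + (393978451/2746250)*t^5*r^0 := by rw [ht, hr]; ring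
  rw [key]; positivity

theorem d3b1_0_b (s : ℝ) (h1 : 17/20 ≤ s) (h2 : s ≤ 49/50) : 0 ≤ (-83521/160000) + (10155171/8000000)*s + (-289/400)*s^2 + (-556971/4000000)*s^3 + (1139/10000)*s^5 := by
  obtain ⟨t, ht⟩ : ∃ t, t = s - (17/20) := ⟨_, rfl⟩
  obtain ⟨r, hr⟩ : ∃ r, r = (49/50) - s := ⟨_, rfl⟩
  have h3 : 0 ≤ t := by linarith
  have h4 : 0 ≤ r := by linarith
  have key : (-83521/160000) + (10155171/8000000)*s + (-289/400)*s^2 + (-556971/4000000)*s^3 + (1139/10000)*s^5 = (29296219/228488)*t^1*r^4 + (778644897/2284880)*t^2*r^3 + (1676489323/5712200)*t^3*r^2 + (232017037/2856100)*t^4*r^1 + (15013363/35701250)*t^5*r^0 := by rw [ht, hr]; ring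
  rw [key]; positivity

theorem d3b1_0 (q w : ℝ) (hq : 0 ≤ q) (hqa : 3/10 ≤ q) (hqb : q ≤ 1/2) (hw : 0 ≤ w) (hwW : w ≤ 3/20) :
    T3 (17/20) q w ≤ 0 + 0 * q + (1139/10000) * w := by
  refine maj3 (17/20) 0 0 (1139/10000) (3/10) (1/2) (49/50) (3/20) (by norm_num) (by norm_num) (by norm_num) (by norm_num) (by norm_num) ?_ ?_ ?_ q w hq hqa hqb hw hwW
  · intro s h1 h2 h3
    have := d3b1_0_a s h1 h3
    linarith
  · intro s h1 h2 h3
    have := d3b1_0_b s h1 h3
    linarith
  · intro s h1 h2 h3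
    exfalso
    nlinarith

theorem d3b1_2_a (s : ℝ) (h1 : 17/20 ≤ s) (h2 : s ≤ 49/50) : 0 ≤ (-83521/160000) + (25007459/20000000)*s + (-289/400)*s^2 + (-4170573/40000000)*s^3 + (10197/100000)*s^5 := by
  obtain ⟨t, ht⟩ : ∃ t, t = s - (17/20) := ⟨_, rfl⟩
  obtain ⟨r, hr⟩ : ∃ r, r = (49/50) - s := ⟨_, rfl⟩
  have h3 : 0 ≤ t := by linarith
  have h4 : 0 ≤ r := by linarith
  have key : (-83521/160000) + (25007459/20000000)*s + (-289/400)*s^2 + (-4170573/40000000)*s^3 + (10197/100000)*s^5 = (712385/1485172)*t^0*r^5 + (6547829361/29703440)*t^1*r^4 + (211525620843/297034400)*t^2*r^3 + (635620361737/742586000)*t^3*r^2 + (170138025573/371293000)*t^4*r^1 + (438787009287/4641162500)*t^5*r^0 := by rw [ht, hr]; ring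
  rw [key]; positivity

theorem d3b1_2_b (s : ℝ) (h1 : 17/20 ≤ s) (h2 : s ≤ 49/50) : 0 ≤ (-83521/160000) + (25355993/20000000)*s + (-289/400)*s^2 + (-4986333/40000000)*s^3 + (10197/100000)*s^5 := by
  obtain ⟨t, ht⟩ : ∃ t, t = s - (17/20) := ⟨_, rfl⟩
  obtain ⟨r, hr⟩ : ∃ r, r = (49/50) - s := ⟨_, rfl⟩
  have h3 : 0 ≤ t := by linarith
  have h4 : 0 ≤ r := by linarith
  have key : (-83521/160000) + (25355993/20000000)*s + (-289/400)*s^2 + (-4986333/40000000)*s^3 + (10197/100000)*s^5 = (92241575/1485172)*t^0*r^5 + (12915909681/29703440)*t^1*r^4 + (276159418203/297034400)*t^2*r^3 + (621911631577/742586000)*t^3*r^2 + (118045083813/371293000)*t^4*r^1 + (174224053287/4641162500)*t^5*r^0 := by rw [ht, hr]; ring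
  rw [key]; positivity

theorem d3b1_2 (q w : ℝ) (hq : 0 ≤ q) (hqa : 3/10 ≤ q) (hqb : q ≤ 1/2) (hw : 0 ≤ w) (hwW : w ≤ 3/20) :
    T3 (17/20) q w ≤ ((-139/25000)) + (1863/100000) * q + (10197/100000) * w := by
  refine maj3 (17/20) ((-139/25000)) (1863/100000) (10197/100000) (3/10) (1/2) (49/50) (3/20) (by norm_num) (by norm_num) (by norm_num) (by norm_num) (by norm_num) ?_ ?_ ?_ q w hq hqa hqb hw hwW
  · intro s h1 h2 h3
    have := d3b1_2_a s h1 h3
    linarith
  · intro s h1 h2 h3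
    have := d3b1_2_b s h1 h3
    linarith
  · intro s h1 h2 h3
    exfalso
    nlinarith

theorem d3b2_0_a (s : ℝ) (h1 : 17/20 ≤ s) (h2 : s ≤ 103/100) : 0 ≤ (-83521/160000) + (10676527/8000000)*s + (-289/400)*s^2 + (-1439127/4000000)*s^3 + (2943/10000)*s^5 := by
  obtain ⟨t, ht⟩ : ∃ t, t = s - (17/20) := ⟨_, rfl⟩
  obtain ⟨r, hr⟩ : ∃ r, r = (103/100) - s := ⟨_, rfl⟩
  have h3 : 0 ≤ t := by linarith
  have h4 : 0 ≤ r := by linarith
  have key : (-83521/160000) + (10676527/8000000)*s + (-289/400)*s^2 + (-1439127/4000000)*s^3 + (2943/10000)*s^5 = (2803589/31104)*t^1*r^4 + (181609453/466560)*t^2*r^3 + (529905773/777600)*t^3*r^2 + (437526529/777600)*t^4*r^1 + (5266586263/29160000)*t^5*r^0 := by rw [ht, hr]; ring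
  rw [key]; positivity

theorem d3b2_0_b (s : ℝ) (h1 : 17/20 ≤ s) (h2 : s ≤ 103/100) : 0 ≤ (-83521/160000) + (2211002303/1600000000)*s + (-289/400)*s^2 + (-850527/2000000)*s^3 + (2943/10000)*s^5 := by
  obtain ⟨t, ht⟩ : ∃ t, t = s - (17/20) := ⟨_, rfl⟩
  obtain ⟨r, hr⟩ : ∃ r, r = (103/100) - s := ⟨_, rfl⟩
  have h3 : 0 ≤ t := by linarith
  have h4 : 0 ≤ r := by linarith
  have key : (-83521/160000) + (2211002303/1600000000)*s + (-289/400)*s^2 + (-850527/2000000)*s^3 + (2943/10000)*s^5 = (8959/116640)*t^2*r^3 + (10251119/194400)*t^3*r^2 + (545207/4860)*t^4*r^1 + (218049461/3645000)*t^5*r^0 := by rw [ht, hr]; ring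
  rw [key]; positivity

theorem d3b2_0 (q w : ℝ) (hq : 0 ≤ q) (hqa : 1/2 ≤ q) (hqb : q ≤ 289/400) (hw : 0 ≤ w) (hwW : w ≤ 3/20) :
    T3 (17/20) q w ≤ 0 + 0 * q + (2943/10000) * w := by
  refine maj3 (17/20) 0 0 (2943/10000) (1/2) (289/400) (103/100) (3/20) (by norm_num) (by norm_num) (by norm_num) (by norm_num) (by norm_num) ?_ ?_ ?_ q w hq hqa hqb hw hwW
  · intro s h1 h2 h3
    have := d3b2_0_a s h1 h3
    linarith
  · intro s h1 h2 h3
    have := d3b2_0_b s h1 h3
    linarith
  · intro s h1 h2 h3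
    have : s = 17/20 := le_antisymm (geSq _ _ _ (by norm_num) (by norm_num) h3) h1
    rw [this]
    norm_num

theorem d3b2_1_a (s : ℝ) (h1 : 17/20 ≤ s) (h2 : s ≤ 103/100) : 0 ≤ (-83521/160000) + (10285221/8000000)*s + (-289/400)*s^2 + (-3815667/20000000)*s^3 + (7803/50000)*s^5 := by
  obtain ⟨t, ht⟩ : ∃ t, t = s - (17/20) := ⟨_, rfl⟩
  obtain ⟨r, hr⟩ : ∃ r, r = (103/100) - s := ⟨_, rfl⟩
  have h3 : 0 ≤ t := by linarith
  have h4 : 0 ≤ r := by linarith
  have key : (-83521/160000) + (10285221/8000000)*s + (-289/400)*s^2 + (-3815667/20000000)*s^3 + (7803/50000)*s^5 = (8720575/1889568)*t^0*r^5 + (2715300367/37791360)*t^1*r^4 + (37466184553/188956800)*t^2*r^3 + (225616222619/944784000)*t^3*r^2 + (142449568987/944784000)*t^4*r^1 + (509868630613/11809800000)*t^5*r^0 := by rw [ht, hr]; ring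
  rw [key]; positivity

theorem d3b2_1_b (s : ℝ) (h1 : 17/20 ≤ s) (h2 : s ≤ 103/100) : 0 ≤ (-83521/160000) + (10516735721/8000000000)*s + (-289/400)*s^2 + (-2255067/10000000)*s^3 + (7803/50000)*s^5 := by
  obtain ⟨t, ht⟩ : ∃ t, t = s - (17/20) := ⟨_, rfl⟩
  obtain ⟨r, hr⟩ : ∃ r, r = (103/100) - s := ⟨_, rfl⟩
  have h3 : 0 ≤ t := by linarith
  have h4 : 0 ≤ r := by linarith
  have key : (-83521/160000) + (10516735721/8000000000)*s + (-289/400)*s^2 + (-2255067/10000000)*s^3 + (7803/50000)*s^5 = (331681543/15116544)*t^0*r^5 + (8643230797/75582720)*t^1*r^4 + (33984024131/188956800)*t^2*r^3 + (95122118053/944784000)*t^3*r^2 + (4990489859/377913600)*t^4*r^1 + (5569085777/47239200000)*t^5*r^0 := by rw [ht, hr]; ring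
  rw [key]; positivity

theorem d3b2_1 (q w : ℝ) (hq : 0 ≤ q) (hqa : 1/2 ≤ q) (hqb : q ≤ 289/400) (hw : 0 ≤ w) (hwW : w ≤ 3/20) :
    T3 (17/20) q w ≤ ((-33/3125)) + (599/25000) * q + (7803/50000) * w := by
  refine maj3 (17/20) ((-33/3125)) (599/25000) (7803/50000) (1/2) (289/400) (103/100) (3/20) (by norm_num) (by norm_num) (by norm_num) (by norm_num) (by norm_num) ?_ ?_ ?_ q w hq hqa hqb hw hwW
  · intro s h1 h2 h3
    have := d3b2_1_a s h1 h3
    linarith
  · intro s h1 h2 h3
    have := d3b2_1_b s h1 h3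
    linarith
  · intro s h1 h2 h3
    have : s = 17/20 := le_antisymm (geSq _ _ _ (by norm_num) (by norm_num) h3) h1
    rw [this]
    norm_num

theorem d3b2_2_a (s : ℝ) (h1 : 17/20 ≤ s) (h2 : s ≤ 103/100) : 0 ≤ (-83521/160000) + (4115649/3200000)*s + (-289/400)*s^2 + (-7834269/40000000)*s^3 + (16021/100000)*s^5 := by
  obtain ⟨t, ht⟩ : ∃ t, t = s - (17/20) := ⟨_, rfl⟩
  obtain ⟨r, hr⟩ : ∃ r, r = (103/100) - s := ⟨_, rfl⟩
  have h3 : 0 ≤ t := by linarith
  have h4 : 0 ≤ r := by linarith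
  have key : (-83521/160000) + (4115649/3200000)*s + (-289/400)*s^2 + (-7834269/40000000)*s^3 + (16021/100000)*s^5 = (122825/1889568)*t^0*r^5 + (3734290669/75582720)*t^1*r^4 + (59014848271/377913600)*t^2*r^3 + (382391415533/1889568000)*t^3*r^2 + (259522786009/1889568000)*t^4*r^1 + (990923722441/23619600000)*t^5*r^0 := by rw [ht, hr]; ring
  rw [key]; positivity

theorem d3b2_2_b (s : ℝ) (h1 : 17/20 ≤ s) (h2 : s ≤ 103/100) : 0 ≤ (-83521/160000) + (21101950281/16000000000)*s + (-289/400)*s^2 + (-4630069/20000000)*s^3 + (16021/100000)*s^5 := by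
  obtain ⟨t, ht⟩ : ∃ t, t = s - (17/20) := ⟨_, rfl⟩
  obtain ⟨r, hr⟩ : ∃ r, r = (103/100) - s := ⟨_, rfl⟩
  have h3 : 0 ≤ t := by linarith
  have h4 : 0 ≤ r := by linarith
  have key : (-83521/160000) + (21101950281/16000000000)*s + (-289/400)*s^2 + (-4630069/20000000)*s^3 + (16021/100000)*s^5 = (158468815/5038848)*t^0*r^5 + (825902177/5038848)*t^1*r^4 + (17933910317/62985600)*t^2*r^3 + (67339201891/314928000)*t^3*r^2 + (9526031243/125971200)*t^4*r^1 + (224064864569/15746400000)*t^5*r^0 := by rw [ht, hr]; ring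
  rw [key]; positivity

theorem d3b2_2 (q w : ℝ) (hq : 0 ≤ q) (hqa : 1/2 ≤ q) (hqb : q ≤ 289/400) (hw : 0 ≤ w) (hwW : w ≤ 3/20) :
    T3 (17/20) q w ≤ ((-271/12500)) + (217/5000) * q + (16021/100000) * w := by
  refine maj3 (17/20) ((-271/12500)) (217/5000) (16021/100000) (1/2) (289/400) (103/100) (3/20) (by norm_num) (by norm_num) (by norm_num) (by norm_num) (by norm_num) ?_ ?_ ?_ q w hq hqa hqb hw hwW
  · intro s h1 h2 h3
    have := d3b2_2_a s h1 h3
    linarith
  · intro s h1 h2 h3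
    have := d3b2_2_b s h1 h3
    linarith
  · intro s h1 h2 h3
    have : s = 17/20 := le_antisymm (geSq _ _ _ (by norm_num) (by norm_num) h3) h1
    rw [this]
    norm_num

theorem d3b2_3_a (s : ℝ) (h1 : 17/20 ≤ s) (h2 : s ≤ 103/100) : 0 ≤ (-83521/160000) + (25683719/20000000)*s + (-289/400)*s^2 + (-189243/1000000)*s^3 + (387/2500)*s^5 := by
  obtain ⟨t, ht⟩ : ∃ t, t = s - (17/20) := ⟨_, rfl⟩
  obtain ⟨r, hr⟩ : ∃ r, r = (103/100) - s := ⟨_, rfl⟩
  have h3 : 0 ≤ t := by linarith
  have h4 : 0 ≤ r := by linarith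
  have key : (-83521/160000) + (25683719/20000000)*s + (-289/400)*s^2 + (-189243/1000000)*s^3 + (387/2500)*s^5 = (122825/1889568)*t^0*r^5 + (45113189/944784)*t^1*r^4 + (1386251587/9447840)*t^2*r^3 + (8645278001/47239200)*t^3*r^2 + (1419181537/11809800)*t^4*r^1 + (42935747129/1180980000)*t^5*r^0 := by rw [ht, hr]; ring
  rw [key]; positivity

theorem d3b2_3_b (s : ℝ) (h1 : 17/20 ≤ s) (h2 : s ≤ 103/100) : 0 ≤ (-83521/160000) + (10540703069/8000000000)*s + (-289/400)*s^2 + (-111843/500000)*s^3 + (387/2500)*s^5 := by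
  obtain ⟨t, ht⟩ : ∃ t, t = s - (17/20) := ⟨_, rfl⟩
  obtain ⟨r, hr⟩ : ∃ r, r = (103/100) - s := ⟨_, rfl⟩
  have h3 : 0 ≤ t := by linarith
  have h4 : 0 ≤ r := by linarith
  have key : (-83521/160000) + (10540703069/8000000000)*s + (-289/400)*s^2 + (-111843/500000)*s^3 + (387/2500)*s^5 = (1160258993/30233088)*t^0*r^5 + (30234984347/151165440)*t^1*r^4 + (27028143821/75582720)*t^2*r^3 + (107366060251/377913600)*t^3*r^2 + (16209957521/151165440)*t^4*r^1 + (363691511339/18895680000)*t^5*r^0 := by rw [ht, hr]; ring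
  rw [key]; positivity

theorem d3b2_3 (q w : ℝ) (hq : 0 ≤ q) (hqa : 1/2 ≤ q) (hqb : q ≤ 289/400) (hw : 0 ≤ w) (hwW : w ≤ 3/20) :
    T3 (17/20) q w ≤ ((-2647/100000)) + (2649/50000) * q + (387/2500) * w := by
  refine maj3 (17/20) ((-2647/100000)) (2649/50000) (387/2500) (1/2) (289/400) (103/100) (3/20) (by norm_num) (by norm_num) (by norm_num) (by norm_num) (by norm_num) ?_ ?_ ?_ q w hq hqa hqb hw hwW
  · intro s h1 h2 h3
    have := d3b2_3_a s h1 h3
    linarith
  · intro s h1 h2 h3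
    have := d3b2_3_b s h1 h3
    linarith
  · intro s h1 h2 h3
    have : s = 17/20 := le_antisymm (geSq _ _ _ (by norm_num) (by norm_num) h3) h1
    rw [this]
    norm_num

theorem d3b3_1_a_0 (s : ℝ) (h1 : 17/20 ≤ s) (h2 : s ≤ 1407/1600) : 0 ≤ (-83521/160000) + (10945941759/8000000000)*s + (-289/400)*s^2 + (-1937167/5000000)*s^3 + (6703/25000)*s^5 := by
  obtain ⟨t, ht⟩ : ∃ t, t = s - (17/20) := ⟨_, rfl⟩
  obtain ⟨r, hr⟩ : ∃ r, r = (1407/1600) - s := ⟨_, rfl⟩
  have h3 : 0 ≤ t := by linarith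
  have h4 : 0 ≤ r := by linarith
  have key : (-83521/160000) + (10945941759/8000000000)*s + (-289/400)*s^2 + (-1937167/5000000)*s^3 + (6703/25000)*s^5 = (288814596096/229345007)*t^0*r^5 + (7270270365696/1146725035)*t^1*r^4 + (58755795744768/5733625175)*t^2*r^3 + (203301983734016/28668125875)*t^3*r^2 + (72897034365374/28668125875)*t^4*r^1 + (3545356244541521/5733625175000)*t^5*r^0 := by rw [ht, hr]; ring
  rw [key]; positivity

theorem d3b3_1_a_1 (s : ℝ) (h1 : 1407/1600 ≤ s) (h2 : s ≤ 727/800) : 0 ≤ (-83521/160000) + (10945941759/8000000000)*s + (-289/400)*s^2 + (-1937167/5000000)*s^3 + (6703/25000)*s^5 := by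
  obtain ⟨t, ht⟩ : ∃ t, t = s - (1407/1600) := ⟨_, rfl⟩
  obtain ⟨r, hr⟩ : ∃ r, r = (727/800) - s := ⟨_, rfl⟩
  have h3 : 0 ≤ t := by linarith
  have h4 : 0 ≤ r := by linarith
  have key : (-83521/160000) + (10945941759/8000000000)*s + (-289/400)*s^2 + (-1937167/5000000)*s^3 + (6703/25000)*s^5 = (3545356244541521/5733625175000)*t^0*r^5 + (2087415557234041/573362517500)*t^1*r^4 + (1645984788596641/143340629375)*t^2*r^3 + (2973232983639442/143340629375)*t^3*r^2 + (2658510235899362/143340629375)*t^4*r^1 + (4490402450755684/716703146875)*t^5*r^0 := by rw [ht, hr]; ring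
  rw [key]; positivity

theorem d3b3_1_a_2 (s : ℝ) (h1 : 727/800 ≤ s) (h2 : s ≤ 387/400) : 0 ≤ (-83521/160000) + (10945941759/8000000000)*s + (-289/400)*s^2 + (-1937167/5000000)*s^3 + (6703/25000)*s^5 := by
  obtain ⟨t, ht⟩ : ∃ t, t = s - (727/800) := ⟨_, rfl⟩
  obtain ⟨r, hr⟩ : ∃ r, r = (387/400) - s := ⟨_, rfl⟩
  have h3 : 0 ≤ t := by linarith
  have h4 : 0 ≤ r := by linarith
  have key : (-83521/160000) + (10945941759/8000000000)*s + (-289/400)*s^2 + (-1937167/5000000)*s^3 + (6703/25000)*s^5 = (1122600612688921/5733625175000)*t^0*r^5 + (1019273360058541/573362517500)*t^1*r^4 + (903622824580481/143340629375)*t^2*r^3 + (1538472998935082/143340629375)*t^3*r^2 + (1247998192697042/143340629375)*t^4*r^1 + (1932165630672884/716703146875)*t^5*r^0 := by rw [ht, hr]; ring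
  rw [key]; positivity

theorem d3b3_1_a_3 (s : ℝ) (h1 : 387/400 ≤ s) (h2 : s ≤ 217/200) : 0 ≤ (-83521/160000) + (10945941759/8000000000)*s + (-289/400)*s^2 + (-1937167/5000000)*s^3 + (6703/25000)*s^5 := by
  obtain ⟨t, ht⟩ : ∃ t, t = s - (387/400) := ⟨_, rfl⟩
  obtain ⟨r, hr⟩ : ∃ r, r = (217/200) - s := ⟨_, rfl⟩
  have h3 : 0 ≤ t := by linarith
  have h4 : 0 ≤ r := by linarith
  have key : (-83521/160000) + (10945941759/8000000000)*s + (-289/400)*s^2 + (-1937167/5000000)*s^3 + (6703/25000)*s^5 = (483041407668221/5733625175000)*t^0*r^5 + (412562563328071/573362517500)*t^1*r^4 + (343153647597601/143340629375)*t^2*r^3 + (553412019064822/143340629375)*t^3*r^2 + (431127756478202/143340629375)*t^4*r^1 + (649216059301084/716703146875)*t^5*r^0 := by rw [ht, hr]; ring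
  rw [key]; positivity

theorem d3b3_1_a (s : ℝ) (h1 : 17/20 ≤ s) (h2 : s ≤ 217/200) : 0 ≤ (-83521/160000) + (10945941759/8000000000)*s + (-289/400)*s^2 + (-1937167/5000000)*s^3 + (6703/25000)*s^5 := by
  rcases le_total s (1407/1600) with h | h
  · exact d3b3_1_a_0 s (by linarith) (by linarith)
  rcases le_total s (727/800) with h | h
  · exact d3b3_1_a_1 s (by linarith) (by linarith)
  rcases le_total s (387/400) with h | h
  · exact d3b3_1_a_2 s (by linarith) (by linarith)
  exact d3b3_1_a_3 s (by linarith) (by linarith)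

theorem d3b3_1_b_0 (s : ℝ) (h1 : 192873/200000 ≤ s) (h2 : s ≤ 409873/400000) : 0 ≤ (-83521/160000) + (2840103283/2000000000)*s + (-289/400)*s^2 + (-4430683/10000000)*s^3 + (6703/25000)*s^5 := by
  obtain ⟨t, ht⟩ : ∃ t, t = s - (192873/200000) := ⟨_, rfl⟩
  obtain ⟨r, hr⟩ : ∃ r, r = (409873/400000) - s := ⟨_, rfl⟩
  have h3 : 0 ≤ t := by linarith
  have h4 : 0 ≤ r := by linarith
  have key : (-83521/160000) + (2840103283/2000000000)*s + (-289/400)*s^2 + (-4430683/10000000)*s^3 + (6703/25000)*s^5 = (56969485038459178191284239516/25548572696551485279396875)*t^0*r^5 + (37617094270965773415232501758/5109714539310297055879375)*t^1*r^4 + (45850663619021557892280883758/5109714539310297055879375)*t^2*r^3 + (28668170497052293724393632879/5109714539310297055879375)*t^3*r^2 + (53571049259810392503375823879/20438858157241188223517500)*t^4*r^1 + (174137127612408175744087014879/204388581572411882235175000)*t^5*r^0 := by rw [ht, hr]; ring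
  rw [key]; positivity

theorem d3b3_1_b_1 (s : ℝ) (h1 : 409873/400000 ≤ s) (h2 : s ≤ 217/200) : 0 ≤ (-83521/160000) + (2840103283/2000000000)*s + (-289/400)*s^2 + (-4430683/10000000)*s^3 + (6703/25000)*s^5 := by
  obtain ⟨t, ht⟩ : ∃ t, t = s - (409873/400000) := ⟨_, rfl⟩
  obtain ⟨r, hr⟩ : ∃ r, r = (217/200) - s := ⟨_, rfl⟩
  have h3 : 0 ≤ t := by linarith
  have h4 : 0 ≤ r := by linarith
  have key : (-83521/160000) + (2840103283/2000000000)*s + (-289/400)*s^2 + (-4430683/10000000)*s^3 + (6703/25000)*s^5 = (174137127612408175744087014879/204388581572411882235175000)*t^0*r^5 + (241132156705195566481422382/40877716314482376447035)*t^1*r^4 + (153061119343743495138766400/8175543262896475289407)*t^2*r^3 + (244810110446793921475200000/8175543262896475289407)*t^3*r^2 + (188701355049344444800000000/8175543262896475289407)*t^4*r^1 + (55693609736410880000000000/8175543262896475289407)*t^5*r^0 := by rw [ht, hr]; ring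
  rw [key]; positivity

theorem d3b3_1_b (s : ℝ) (h1 : 192873/200000 ≤ s) (h2 : s ≤ 217/200) : 0 ≤ (-83521/160000) + (2840103283/2000000000)*s + (-289/400)*s^2 + (-4430683/10000000)*s^3 + (6703/25000)*s^5 := by
  rcases le_total s (409873/400000) with h | h
  · exact d3b3_1_b_0 s (by linarith) (by linarith)
  exact d3b3_1_b_1 s (by linarith) (by linarith)

theorem d3b3_1_c (s : ℝ) (h1 : 17/20 ≤ s) (h2 : s ≤ 482183/500000) : 0 ≤ (-289/400) + (20551/12500)*s + -1*s^2 + (3873/50000)*s^3 := by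
  obtain ⟨t, ht⟩ : ∃ t, t = s - (17/20) := ⟨_, rfl⟩
  obtain ⟨r, hr⟩ : ∃ r, r = (482183/500000) - s := ⟨_, rfl⟩
  have h3 : 0 ≤ t := by linarith
  have h4 : 0 ≤ r := by linarith
  have key : (-289/400) + (20551/12500)*s + -1*s^2 + (3873/50000)*s^3 = (1588437500000/62327477915829)*t^0*r^3 + (59816892987500/6925275323981)*t^1*r^2 + (423068516147083/41551651943886)*t^2*r^1 + (5133353063624230717/3116373895791450000)*t^3*r^0 := by rw [ht, hr]; ring
  rw [key]; positivity

theorem d3b3_1 (q w : ℝ) (hq : 0 ≤ q) (hqa : 289/400 ≤ q) (hqb : q ≤ 93/100) (hw : 0 ≤ w) (hwW : w ≤ 3/20) :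
    T3 (17/20) q w ≤ ((-699/12500)) + (3873/50000) * q + (6703/25000) * w := by
  refine maj3 (17/20) ((-699/12500)) (3873/50000) (6703/25000) (289/400) (93/100) (217/200) (3/20) (by norm_num) (by norm_num) (by norm_num) (by norm_num) (by norm_num) ?_ ?_ ?_ q w hq hqa hqb hw hwW
  · intro s h1 h2 h3
    have := d3b3_1_a s h1 h3
    linarith
  · intro s h1 h2 h3
    have := d3b3_1_b s (leSq _ _ _ (by norm_num) (by linarith) (by norm_num) h2) h3
    linarith
  · intro s h1 h2 h3
    have := d3b3_1_c s h1 (geSq _ _ _ (by norm_num) (by norm_num) h3)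
    linarith

theorem d3b3_2_a_0 (s : ℝ) (h1 : 17/20 ≤ s) (h2 : s ≤ 727/800) : 0 ≤ (-83521/160000) + (5359109937/4000000000)*s + (-289/400)*s^2 + (-3066579/10000000)*s^3 + (10611/50000)*s^5 := by
  obtain ⟨t, ht⟩ : ∃ t, t = s - (17/20) := ⟨_, rfl⟩
  obtain ⟨r, hr⟩ : ∃ r, r = (727/800) - s := ⟨_, rfl⟩
  have h3 : 0 ≤ t := by linarith
  have h4 : 0 ≤ r := by linarith
  have key : (-83521/160000) + (5359109937/4000000000)*s + (-289/400)*s^2 + (-3066579/10000000)*s^3 + (10611/50000)*s^5 = (208148953088/229345007)*t^0*r^5 + (5275657656576/1146725035)*t^1*r^4 + (47787465731456/5733625175)*t^2*r^3 + (195837734653984/28668125875)*t^3*r^2 + (145552537644003/57336251750)*t^4*r^1 + (4003649798628277/11467250350000)*t^5*r^0 := by rw [ht, hr]; ring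
  rw [key]; positivity

theorem d3b3_2_a_1 (s : ℝ) (h1 : 727/800 ≤ s) (h2 : s ≤ 1501/1600) : 0 ≤ (-83521/160000) + (5359109937/4000000000)*s + (-289/400)*s^2 + (-3066579/10000000)*s^3 + (10611/50000)*s^5 := by
  obtain ⟨t, ht⟩ : ∃ t, t = s - (727/800) := ⟨_, rfl⟩
  obtain ⟨r, hr⟩ : ∃ r, r = (1501/1600) - s := ⟨_, rfl⟩
  have h3 : 0 ≤ t := by linarith
  have h4 : 0 ≤ r := by linarith
  have key : (-83521/160000) + (5359109937/4000000000)*s + (-289/400)*s^2 + (-3066579/10000000)*s^3 + (10611/50000)*s^5 = (8007299597256554/716703146875)*t^0*r^5 + (6188847890124711/143340629375)*t^1*r^4 + (8933748539253133/143340629375)*t^2*r^3 + (11845895236583279/286681258750)*t^3*r^2 + (14379575477060517/1146725035000)*t^4*r^1 + (17671224373521911/11467250350000)*t^5*r^0 := by rw [ht, hr]; ring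
  rw [key]; positivity

theorem d3b3_2_a_2 (s : ℝ) (h1 : 1501/1600 ≤ s) (h2 : s ≤ 387/400) : 0 ≤ (-83521/160000) + (5359109937/4000000000)*s + (-289/400)*s^2 + (-3066579/10000000)*s^3 + (10611/50000)*s^5 := by
  obtain ⟨t, ht⟩ : ∃ t, t = s - (1501/1600) := ⟨_, rfl⟩
  obtain ⟨r, hr⟩ : ∃ r, r = (387/400) - s := ⟨_, rfl⟩
  have h3 : 0 ≤ t := by linarith
  have h4 : 0 ≤ r := by linarith
  have key : (-83521/160000) + (5359109937/4000000000)*s + (-289/400)*s^2 + (-3066579/10000000)*s^3 + (10611/50000)*s^5 = (17671224373521911/11467250350000)*t^0*r^5 + (1645824448230697/573362517500)*t^1*r^4 + (378984327992078/143340629375)*t^2*r^3 + (1136435112837064/143340629375)*t^3*r^2 + (1682147617891696/143340629375)*t^4*r^1 + (3670807227032128/716703146875)*t^5*r^0 := by rw [ht, hr]; ring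
  rw [key]; positivity

theorem d3b3_2_a_3 (s : ℝ) (h1 : 387/400 ≤ s) (h2 : s ≤ 217/200) : 0 ≤ (-83521/160000) + (5359109937/4000000000)*s + (-289/400)*s^2 + (-3066579/10000000)*s^3 + (10611/50000)*s^5 := by
  obtain ⟨t, ht⟩ : ∃ t, t = s - (387/400) := ⟨_, rfl⟩
  obtain ⟨r, hr⟩ : ∃ r, r = (217/200) - s := ⟨_, rfl⟩
  have h3 : 0 ≤ t := by linarith
  have h4 : 0 ≤ r := by linarith
  have key : (-83521/160000) + (5359109937/4000000000)*s + (-289/400)*s^2 + (-3066579/10000000)*s^3 + (10611/50000)*s^5 = (57356362922377/11467250350000)*t^0*r^5 + (90823794246827/1146725035000)*t^1*r^4 + (131155300245437/286681258750)*t^2*r^3 + (153225259875407/143340629375)*t^3*r^2 + (152797081335937/143340629375)*t^4*r^1 + (272719357936454/716703146875)*t^5*r^0 := by rw [ht, hr]; ring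
  rw [key]; positivity

theorem d3b3_2_a (s : ℝ) (h1 : 17/20 ≤ s) (h2 : s ≤ 217/200) : 0 ≤ (-83521/160000) + (5359109937/4000000000)*s + (-289/400)*s^2 + (-3066579/10000000)*s^3 + (10611/50000)*s^5 := by
  rcases le_total s (727/800) with h | h
  · exact d3b3_2_a_0 s (by linarith) (by linarith)
  rcases le_total s (1501/1600) with h | h
  · exact d3b3_2_a_1 s (by linarith) (by linarith)
  rcases le_total s (387/400) with h | h
  · exact d3b3_2_a_2 s (by linarith) (by linarith)
  exact d3b3_2_a_3 s (by linarith) (by linarith)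

theorem d3b3_2_b_0 (s : ℝ) (h1 : 192873/200000 ≤ s) (h2 : s ≤ 409873/400000) : 0 ≤ (-83521/160000) + (1384735119/1000000000)*s + (-289/400)*s^2 + (-7013871/20000000)*s^3 + (10611/50000)*s^5 := by
  obtain ⟨t, ht⟩ : ∃ t, t = s - (192873/200000) := ⟨_, rfl⟩
  obtain ⟨r, hr⟩ : ∃ r, r = (409873/400000) - s := ⟨_, rfl⟩
  have h3 : 0 ≤ t := by linarith
  have h4 : 0 ≤ r := by linarith
  have key : (-83521/160000) + (1384735119/1000000000)*s + (-289/400)*s^2 + (-7013871/20000000)*s^3 + (10611/50000)*s^5 = (126221282569207514529890874646/25548572696551485279396875)*t^0*r^5 + (99406706259008791713339704323/5109714539310297055879375)*t^1*r^4 + (149054725035223273966506971323/5109714539310297055879375)*t^2*r^3 + (210891754377384041281447238323/10219429078620594111758750)*t^3*r^2 + (281758465256119873915160505323/40877716314482376447035000)*t^4*r^1 + (373383251359878495124646772323/408777163144823764470350000)*t^5*r^0 := by rw [ht, hr]; ring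
  rw [key]; positivity

theorem d3b3_2_b_1 (s : ℝ) (h1 : 409873/400000 ≤ s) (h2 : s ≤ 217/200) : 0 ≤ (-83521/160000) + (1384735119/1000000000)*s + (-289/400)*s^2 + (-7013871/20000000)*s^3 + (10611/50000)*s^5 := by
  obtain ⟨t, ht⟩ : ∃ t, t = s - (409873/400000) := ⟨_, rfl⟩
  obtain ⟨r, hr⟩ : ∃ r, r = (217/200) - s := ⟨_, rfl⟩
  have h3 : 0 ≤ t := by linarith
  have h4 : 0 ≤ r := by linarith
  have key : (-83521/160000) + (1384735119/1000000000)*s + (-289/400)*s^2 + (-7013871/20000000)*s^3 + (10611/50000)*s^5 = (373383251359878495124646772323/408777163144823764470350000)*t^0*r^5 + (91624786103758621209486267/40877716314482376447035)*t^1*r^4 + (16606460180018230860618400/8175543262896475289407)*t^2*r^3 + (18765429901516357211200000/8175543262896475289407)*t^3*r^2 + (23820356348510308800000000/8175543262896475289407)*t^4*r^1 + (10805829447249280000000000/8175543262896475289407)*t^5*r^0 := by rw [ht, hr]; ring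
  rw [key]; positivity

theorem d3b3_2_b (s : ℝ) (h1 : 192873/200000 ≤ s) (h2 : s ≤ 217/200) : 0 ≤ (-83521/160000) + (1384735119/1000000000)*s + (-289/400)*s^2 + (-7013871/20000000)*s^3 + (10611/50000)*s^5 := by
  rcases le_total s (409873/400000) with h | h
  · exact d3b3_2_b_0 s (by linarith) (by linarith)
  exact d3b3_2_b_1 s (by linarith) (by linarith)

theorem d3b3_2_c (s : ℝ) (h1 : 17/20 ≤ s) (h2 : s ≤ 482183/500000) : 0 ≤ (-289/400) + (16377/10000)*s + -1*s^2 + (4383/50000)*s^3 := by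
  obtain ⟨t, ht⟩ : ∃ t, t = s - (17/20) := ⟨_, rfl⟩
  obtain ⟨r, hr⟩ : ∃ r, r = (482183/500000) - s := ⟨_, rfl⟩
  have h3 : 0 ≤ t := by linarith
  have h4 : 0 ≤ r := by linarith
  have key : (-289/400) + (16377/10000)*s + -1*s^2 + (4383/50000)*s^3 = (109899687500000/186982433747487)*t^0*r^3 + (718436646512500/62327477915829)*t^1*r^2 + (602541743610293/41551651943886)*t^2*r^1 + (34120923717556160521/9349121687374350000)*t^3*r^0 := by rw [ht, hr]; ring
  rw [key]; positivity

theorem d3b3_2 (q w : ℝ) (hq : 0 ≤ q) (hqa : 289/400 ≤ q) (hqb : q ≤ 93/100) (hw : 0 ≤ w) (hwW : w ≤ 3/20) :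
    T3 (17/20) q w ≤ ((-623/10000)) + (4383/50000) * q + (10611/50000) * w := by
  refine maj3 (17/20) ((-623/10000)) (4383/50000) (10611/50000) (289/400) (93/100) (217/200) (3/20) (by norm_num) (by norm_num) (by norm_num) (by norm_num) (by norm_num) ?_ ?_ ?_ q w hq hqa hqb hw hwW
  · intro s h1 h2 h3
    have := d3b3_2_a s h1 h3
    linarith
  · intro s h1 h2 h3
    have := d3b3_2_b s (leSq _ _ _ (by norm_num) (by linarith) (by norm_num) h2) h3
    linarith
  · intro s h1 h2 h3
    have := d3b3_2_c s h1 (geSq _ _ _ (by norm_num) (by norm_num) h3)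
    linarith

theorem d3b3_3_a_0 (s : ℝ) (h1 : 17/20 ≤ s) (h2 : s ≤ 387/400) : 0 ≤ (-83521/160000) + (21271059209/16000000000)*s + (-289/400)*s^2 + (-5508629/20000000)*s^3 + (19061/100000)*s^5 := by
  obtain ⟨t, ht⟩ : ∃ t, t = s - (17/20) := ⟨_, rfl⟩
  obtain ⟨r, hr⟩ : ∃ r, r = (387/400) - s := ⟨_, rfl⟩
  have h3 : 0 ≤ t := by linarith
  have h4 : 0 ≤ r := by linarith
  have key : (-83521/160000) + (21271059209/16000000000)*s + (-289/400)*s^2 + (-5508629/20000000)*s^3 + (19061/100000)*s^5 = (14723592832/229345007)*t^0*r^5 + (378266421728/1146725035)*t^1*r^4 + (2985750585256/5733625175)*t^2*r^3 + (8738476114308/28668125875)*t^3*r^2 + (2420383602561/45869001400)*t^4*r^1 + (73815644676527/22934500700000)*t^5*r^0 := by rw [ht, hr]; ring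
  rw [key]; positivity

theorem d3b3_3_a_1 (s : ℝ) (h1 : 387/400 ≤ s) (h2 : s ≤ 319/320) : 0 ≤ (-83521/160000) + (21271059209/16000000000)*s + (-289/400)*s^2 + (-5508629/20000000)*s^3 + (19061/100000)*s^5 := by
  obtain ⟨t, ht⟩ : ∃ t, t = s - (387/400) := ⟨_, rfl⟩
  obtain ⟨r, hr⟩ : ∃ r, r = (319/320) - s := ⟨_, rfl⟩
  have h3 : 0 ≤ t := by linarith
  have h4 : 0 ≤ r := by linarith
  have key : (-83521/160000) + (21271059209/16000000000)*s + (-289/400)*s^2 + (-5508629/20000000)*s^3 + (19061/100000)*s^5 = (2362100629648864/716703146875)*t^0*r^5 + (203263781002456/28668125875)*t^1*r^4 + (99268482797452/28668125875)*t^2*r^3 + (14637986737023/5733625175)*t^3*r^2 + (12166995474143/1834760056)*t^4*r^1 + (27497871874763/7339040224)*t^5*r^0 := by rw [ht, hr]; ring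
  rw [key]; positivity

theorem d3b3_3_a_2 (s : ℝ) (h1 : 319/320 ≤ s) (h2 : s ≤ 821/800) : 0 ≤ (-83521/160000) + (21271059209/16000000000)*s + (-289/400)*s^2 + (-5508629/20000000)*s^3 + (19061/100000)*s^5 := by
  obtain ⟨t, ht⟩ : ∃ t, t = s - (319/320) := ⟨_, rfl⟩
  obtain ⟨r, hr⟩ : ∃ r, r = (821/800) - s := ⟨_, rfl⟩
  have h3 : 0 ≤ t := by linarith
  have h4 : 0 ≤ r := by linarith
  have key : (-83521/160000) + (21271059209/16000000000)*s + (-289/400)*s^2 + (-5508629/20000000)*s^3 + (19061/100000)*s^5 = (27497871874763/7339040224)*t^0*r^5 + (113155368425529/3669520112)*t^1*r^4 + (2279086383879167/22934500700)*t^2*r^3 + (8740665554746101/57336251750)*t^3*r^2 + (6388112555651931/57336251750)*t^4*r^1 + (22399354772992361/716703146875)*t^5*r^0 := by rw [ht, hr]; ring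
  rw [key]; positivity

theorem d3b3_3_a_3 (s : ℝ) (h1 : 821/800 ≤ s) (h2 : s ≤ 217/200) : 0 ≤ (-83521/160000) + (21271059209/16000000000)*s + (-289/400)*s^2 + (-5508629/20000000)*s^3 + (19061/100000)*s^5 := by
  obtain ⟨t, ht⟩ : ∃ t, t = s - (821/800) := ⟨_, rfl⟩
  obtain ⟨r, hr⟩ : ∃ r, r = (217/200) - s := ⟨_, rfl⟩
  have h3 : 0 ≤ t := by linarith
  have h4 : 0 ≤ r := by linarith
  have key : (-83521/160000) + (21271059209/16000000000)*s + (-289/400)*s^2 + (-5508629/20000000)*s^3 + (19061/100000)*s^5 = (22399354772992361/22934500700000)*t^0*r^5 + (8814375385179357/1146725035000)*t^1*r^4 + (3353384003818989/143340629375)*t^2*r^3 + (4921260889023652/143340629375)*t^3*r^2 + (3491963951374728/143340629375)*t^4*r^1 + (4811567162556064/716703146875)*t^5*r^0 := by rw [ht, hr]; ring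
  rw [key]; positivity

theorem d3b3_3_a (s : ℝ) (h1 : 17/20 ≤ s) (h2 : s ≤ 217/200) : 0 ≤ (-83521/160000) + (21271059209/16000000000)*s + (-289/400)*s^2 + (-5508629/20000000)*s^3 + (19061/100000)*s^5 := by
  rcases le_total s (387/400) with h | h
  · exact d3b3_3_a_0 s (by linarith) (by linarith)
  rcases le_total s (319/320) with h | h
  · exact d3b3_3_a_1 s (by linarith) (by linarith)
  rcases le_total s (821/800) with h | h
  · exact d3b3_3_a_2 s (by linarith) (by linarith)
  exact d3b3_3_a_3 s (by linarith) (by linarith)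

theorem d3b3_3_b_0 (s : ℝ) (h1 : 192873/200000 ≤ s) (h2 : s ≤ 409873/400000) : 0 ≤ (-83521/160000) + (5487646733/4000000000)*s + (-289/400)*s^2 + (-12599321/40000000)*s^3 + (19061/100000)*s^5 := by
  obtain ⟨t, ht⟩ : ∃ t, t = s - (192873/200000) := ⟨_, rfl⟩
  obtain ⟨r, hr⟩ : ∃ r, r = (409873/400000) - s := ⟨_, rfl⟩
  have h3 : 0 ≤ t := by linarith
  have h4 : 0 ≤ r := by linarith
  have key : (-83521/160000) + (5487646733/4000000000)*s + (-289/400)*s^2 + (-12599321/40000000)*s^3 + (19061/100000)*s^5 = (178585967493174876753098198173/25548572696551485279396875)*t^0*r^5 + (298413573463008038719062115173/10219429078620594111758750)*t^1*r^4 + (482836985504686457928149032173/10219429078620594111758750)*t^2*r^3 + (752935850169462901787358949173/20438858157241188223517500)*t^3*r^2 + (1128503768786171930703691866173/81755432628964752894070000)*t^4*r^1 + (1636383438229206898084147783173/817554326289647528940700000)*t^5*r^0 := by rw [ht, hr]; ring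
  rw [key]; positivity

theorem d3b3_3_b_1 (s : ℝ) (h1 : 409873/400000 ≤ s) (h2 : s ≤ 217/200) : 0 ≤ (-83521/160000) + (5487646733/4000000000)*s + (-289/400)*s^2 + (-12599321/40000000)*s^3 + (19061/100000)*s^5 := by
  obtain ⟨t, ht⟩ : ∃ t, t = s - (409873/400000) := ⟨_, rfl⟩
  obtain ⟨r, hr⟩ : ∃ r, r = (217/200) - s := ⟨_, rfl⟩
  have h3 : 0 ≤ t := by linarith
  have h4 : 0 ≤ r := by linarith
  have key : (-83521/160000) + (5487646733/4000000000)*s + (-289/400)*s^2 + (-12599321/40000000)*s^3 + (19061/100000)*s^5 = (1636383438229206898084147783173/817554326289647528940700000)*t^0*r^5 + (507879669443034967380455917/81755432628964752894070)*t^1*r^4 + (52924700330530375385649200/8175543262896475289407)*t^2*r^3 + (21474157499514682725600000/8175543262896475289407)*t^3*r^2 + (5639276436447034400000000/8175543262896475289407)*t^4*r^1 + (2667245045752640000000000/8175543262896475289407)*t^5*r^0 := by rw [ht, hr]; ring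
  rw [key]; positivity

theorem d3b3_3_b (s : ℝ) (h1 : 192873/200000 ≤ s) (h2 : s ≤ 217/200) : 0 ≤ (-83521/160000) + (5487646733/4000000000)*s + (-289/400)*s^2 + (-12599321/40000000)*s^3 + (19061/100000)*s^5 := by
  rcases le_total s (409873/400000) with h | h
  · exact d3b3_3_b_0 s (by linarith) (by linarith)
  exact d3b3_3_b_1 s (by linarith) (by linarith)

theorem d3b3_3_c (s : ℝ) (h1 : 17/20 ≤ s) (h2 : s ≤ 482183/500000) : 0 ≤ (-289/400) + (81769/50000)*s + -1*s^2 + (2317/25000)*s^3 := by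
  obtain ⟨t, ht⟩ : ∃ t, t = s - (17/20) := ⟨_, rfl⟩
  obtain ⟨r, hr⟩ : ∃ r, r = (482183/500000) - s := ⟨_, rfl⟩
  have h3 : 0 ≤ t := by linarith
  have h4 : 0 ≤ r := by linarith
  have key : (-289/400) + (81769/50000)*s + -1*s^2 + (2317/25000)*s^3 = (248763125000000/186982433747487)*t^0*r^3 + (898094674475000/62327477915829)*t^1*r^2 + (1131241555866221/62327477915829)*t^2*r^1 + (24138332528334502379/4674560843687175000)*t^3*r^0 := by rw [ht, hr]; ring
  rw [key]; positivity

theorem d3b3_3 (q w : ℝ) (hq : 0 ≤ q) (hqa : 289/400 ≤ q) (hqb : q ≤ 93/100) (hw : 0 ≤ w) (hwW : w ≤ 3/20) :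
    T3 (17/20) q w ≤ ((-3231/50000)) + (2317/25000) * q + (19061/100000) * w := by
  refine maj3 (17/20) ((-3231/50000)) (2317/25000) (19061/100000) (289/400) (93/100) (217/200) (3/20) (by norm_num) (by norm_num) (by norm_num) (by norm_num) (by norm_num) ?_ ?_ ?_ q w hq hqa hqb hw hwW
  · intro s h1 h2 h3
    have := d3b3_3_a s h1 h3
    linarith
  · intro s h1 h2 h3
    have := d3b3_3_b s (leSq _ _ _ (by norm_num) (by linarith) (by norm_num) h2) h3
    linarith
  · intro s h1 h2 h3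
    have := d3b3_3_c s h1 (geSq _ _ _ (by norm_num) (by norm_num) h3)
    linarith

theorem d3b4_1_a_0 (s : ℝ) (h1 : 192873/200000 ≤ s) (h2 : s ≤ 809619/800000) : 0 ≤ (-83521/160000) + (5689146203/4000000000)*s + (-289/400)*s^2 + (-17991759/40000000)*s^3 + (27219/100000)*s^5 := by
  obtain ⟨t, ht⟩ : ∃ t, t = s - (192873/200000) := ⟨_, rfl⟩
  obtain ⟨r, hr⟩ : ∃ r, r = (809619/800000) - s := ⟨_, rfl⟩
  have h3 : 0 ≤ t := by linarith
  have h4 : 0 ≤ r := by linarith
  have key : (-83521/160000) + (5689146203/4000000000)*s + (-289/400)*s^2 + (-17991759/40000000)*s^3 + (27219/100000)*s^5 = (1329440839276973070193723067744/251775341540597000498146875)*t^0*r^5 + (850584430316782897492304692808/50355068308119400099629375)*t^1*r^4 + (937603144209454547238467627212/50355068308119400099629375)*t^2*r^3 + (414332165718382238136977661409/50355068308119400099629375)*t^3*r^2 + (721107888188607909142670807227/402840546464955200797035000)*t^4*r^1 + (4596305311888448209644296890681/8056810929299104015940700000)*t^5*r^0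 := by rw [ht, hr]; ring
  rw [key]; positivity

theorem d3b4_1_a_1 (s : ℝ) (h1 : 809619/800000 ≤ s) (h2 : s ≤ 423873/400000) : 0 ≤ (-83521/160000) + (5689146203/4000000000)*s + (-289/400)*s^2 + (-17991759/40000000)*s^3 + (27219/100000)*s^5 := by
  obtain ⟨t, ht⟩ : ∃ t, t = s - (809619/800000) := ⟨_, rfl⟩
  obtain ⟨r, hr⟩ : ∃ r, r = (423873/400000) - s := ⟨_, rfl⟩
  have h3 : 0 ≤ t := by linarith
  have h4 : 0 ≤ r := by linarith
  have key : (-83521/160000) + (5689146203/4000000000)*s + (-289/400)*s^2 + (-17991759/40000000)*s^3 + (27219/100000)*s^5 = (4596305311888448209644296890681/8056810929299104015940700000)*t^0*r^5 + (3154089535511232391358955276227/805681092929910401594070000)*t^1*r^4 + (3369202422007545525621524307409/201420273232477600398517500)*t^2*r^3 + (3366437682958478517955068729803/100710136616238800199258750)*t^3*r^2 + (2971757890578688068867262674601/100710136616238800199258750)*t^4*r^1 + (2382853638439423603656666590867/251775341540597000498146875)*t^5*r^0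 := by rw [ht, hr]; ring
  rw [key]; positivity

theorem d3b4_1_a_2 (s : ℝ) (h1 : 423873/400000 ≤ s) (h2 : s ≤ 231/200) : 0 ≤ (-83521/160000) + (5689146203/4000000000)*s + (-289/400)*s^2 + (-17991759/40000000)*s^3 + (27219/100000)*s^5 := by
  obtain ⟨t, ht⟩ : ∃ t, t = s - (423873/400000) := ⟨_, rfl⟩
  obtain ⟨r, hr⟩ : ∃ r, r = (231/200) - s := ⟨_, rfl⟩
  have h3 : 0 ≤ t := by linarith
  have h4 : 0 ≤ r := by linarith
  have key : (-83521/160000) + (5689146203/4000000000)*s + (-289/400)*s^2 + (-17991759/40000000)*s^3 + (27219/100000)*s^5 = (2382853638439423603656666590867/8056810929299104015940700000)*t^0*r^5 + (2088401512369791371051368549/805681092929910401594070)*t^1*r^4 + (698157308544116253766149200/80568109292991040159407)*t^2*r^3 + (1102832191685862057528800000/80568109292991040159407)*t^3*r^2 + (828629394113676325600000000/80568109292991040159407)*t^4*r^1 + (238964825953014080000000000/80568109292991040159407)*t^5*r^0 := by rw [ht, hr]; ring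
  rw [key]; positivity

theorem d3b4_1_a (s : ℝ) (h1 : 192873/200000 ≤ s) (h2 : s ≤ 231/200) : 0 ≤ (-83521/160000) + (5689146203/4000000000)*s + (-289/400)*s^2 + (-17991759/40000000)*s^3 + (27219/100000)*s^5 := by
  rcases le_total s (809619/800000) with h | h
  · exact d3b4_1_a_0 s (by linarith) (by linarith)
  rcases le_total s (423873/400000) with h | h
  · exact d3b4_1_a_1 s (by linarith) (by linarith)
  exact d3b4_1_a_2 s (by linarith) (by linarith)

theorem d3b4_1_b_0 (s : ℝ) (h1 : 53619/50000 ≤ s) (h2 : s ≤ 433083/400000) : 0 ≤ (-83521/160000) + (1190268753/800000000)*s + (-289/400)*s^2 + (-20387031/40000000)*s^3 + (27219/100000)*s^5 := by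
  obtain ⟨t, ht⟩ : ∃ t, t = s - (53619/50000) := ⟨_, rfl⟩
  obtain ⟨r, hr⟩ : ∃ r, r = (433083/400000) - s := ⟨_, rfl⟩
  have h3 : 0 ≤ t := by linarith
  have h4 : 0 ≤ r := by linarith
  have key : (-83521/160000) + (1190268753/800000000)*s + (-289/400)*s^2 + (-20387031/40000000)*s^3 + (27219/100000)*s^5 = (225708415604838526097810432/221144974841527509375)*t^0*r^5 + (146859675399800736369408128/44228994968305501875)*t^1*r^4 + (175956200317714541451656224/44228994968305501875)*t^2*r^3 + (99214060189620755502492196/44228994968305501875)*t^3*r^2 + (129184222990070549506311593/176915979873222007500)*t^4*r^1 + (68896147157350895049133553/416272893819345900000)*t^5*r^0 := by rw [ht, hr]; ring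
  rw [key]; positivity

theorem d3b4_1_b_1 (s : ℝ) (h1 : 433083/400000 ≤ s) (h2 : s ≤ 218607/200000) : 0 ≤ (-83521/160000) + (1190268753/800000000)*s + (-289/400)*s^2 + (-20387031/40000000)*s^3 + (27219/100000)*s^5 := by
  obtain ⟨t, ht⟩ : ∃ t, t = s - (433083/400000) := ⟨_, rfl⟩
  obtain ⟨r, hr⟩ : ∃ r, r = (218607/200000) - s := ⟨_, rfl⟩
  have h3 : 0 ≤ t := by linarith
  have h4 : 0 ≤ r := by linarith
  have key : (-83521/160000) + (1190268753/800000000)*s + (-289/400)*s^2 + (-20387031/40000000)*s^3 + (27219/100000)*s^5 = (68896147157350895049133553/416272893819345900000)*t^0*r^5 + (654497609714683017810024029/707663919492888030000)*t^1*r^4 + (534616958512883841794746441/176915979873222007500)*t^2*r^3 + (459680147434138604886125189/88457989936611003750)*t^3*r^2 + (371494126642619696919664081/88457989936611003750)*t^4*r^1 + (279876781497262454371872749/221144974841527509375)*t^5*r^0 := by rw [ht, hr]; ring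
  rw [key]; positivity

theorem d3b4_1_b_2 (s : ℝ) (h1 : 218607/200000 ≤ s) (h2 : s ≤ 111369/100000) : 0 ≤ (-83521/160000) + (1190268753/800000000)*s + (-289/400)*s^2 + (-20387031/40000000)*s^3 + (27219/100000)*s^5 := by
  obtain ⟨t, ht⟩ : ∃ t, t = s - (218607/200000) := ⟨_, rfl⟩
  obtain ⟨r, hr⟩ : ∃ r, r = (111369/100000) - s := ⟨_, rfl⟩
  have h3 : 0 ≤ t := by linarith
  have h4 : 0 ≤ r := by linarith
  have key : (-83521/160000) + (1190268753/800000000)*s + (-289/400)*s^2 + (-20387031/40000000)*s^3 + (27219/100000)*s^5 = (279876781497262454371872749/7076639194928880300000)*t^0*r^5 + (234068108924583833097977083/707663919492888030000)*t^1*r^4 + (187401605263445628178748861/176915979873222007500)*t^2*r^3 + (141104506183714756673751787/88457989936611003750)*t^3*r^2 + (100654730804930819807612429/88457989936611003750)*t^4*r^1 + (68727493708654899029463643/221144974841527509375)*t^5*r^0 := by rw [ht, hr]; ring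
  rw [key]; positivity

theorem d3b4_1_b_3 (s : ℝ) (h1 : 111369/100000 ≤ s) (h2 : s ≤ 231/200) : 0 ≤ (-83521/160000) + (1190268753/800000000)*s + (-289/400)*s^2 + (-20387031/40000000)*s^3 + (27219/100000)*s^5 := by
  obtain ⟨t, ht⟩ : ∃ t, t = s - (111369/100000) := ⟨_, rfl⟩
  obtain ⟨r, hr⟩ : ∃ r, r = (231/200) - s := ⟨_, rfl⟩
  have h3 : 0 ≤ t := by linarith
  have h4 : 0 ≤ r := by linarith
  have key : (-83521/160000) + (1190268753/800000000)*s + (-289/400)*s^2 + (-20387031/40000000)*s^3 + (27219/100000)*s^5 = (68727493708654899029463643/7076639194928880300000)*t^0*r^5 + (211055500642067754561557/2830655677971552120)*t^1*r^4 + (15572356473202392909325/70766391949288803)*t^2*r^3 + (22050354879053732087500/70766391949288803)*t^3*r^2 + (15055412157617571875000/70766391949288803)*t^4*r^1 + (3988320434705312500000/70766391949288803)*t^5*r^0 := by rw [ht, hr]; ring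
  rw [key]; positivity

theorem d3b4_1_b (s : ℝ) (h1 : 53619/50000 ≤ s) (h2 : s ≤ 231/200) : 0 ≤ (-83521/160000) + (1190268753/800000000)*s + (-289/400)*s^2 + (-20387031/40000000)*s^3 + (27219/100000)*s^5 := by
  rcases le_total s (433083/400000) with h | h
  · exact d3b4_1_b_0 s (by linarith) (by linarith)
  rcases le_total s (218607/200000) with h | h
  · exact d3b4_1_b_1 s (by linarith) (by linarith)
  rcases le_total s (111369/100000) with h | h
  · exact d3b4_1_b_2 s (by linarith) (by linarith)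
  exact d3b4_1_b_3 s (by linarith) (by linarith)

theorem d3b4_1_c (s : ℝ) (h1 : 192873/200000 ≤ s) (h2 : s ≤ 1072381/1000000) : 0 ≤ (-289/400) + (19813/12500)*s + -1*s^2 + (701/5000)*s^3 := by
  obtain ⟨t, ht⟩ : ∃ t, t = s - (192873/200000) := ⟨_, rfl⟩
  obtain ⟨r, hr⟩ : ∃ r, r = (1072381/1000000) - s := ⟨_, rfl⟩
  have h3 : 0 ≤ t := by linarith
  have h4 : 0 ≤ r := by linarith
  have key : (-289/400) + (19813/12500)*s + -1*s^2 + (701/5000)*s^3 = (71876856817474517/50410878197923840)*t^0*r^3 + (2103612216219566347/252054390989619200)*t^1*r^2 + (8710360966729789959/1260271954948096000)*t^2*r^1 + (829557170762721041/6301359774740480000)*t^3*r^0 := by rw [ht, hr]; ring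
  rw [key]; positivity

theorem d3b4_1 (q w : ℝ) (hq : 0 ≤ q) (hqa : 93/100 ≤ q) (hqb : q ≤ 23/20) (hw : 0 ≤ w) (hwW : w ≤ 3/20) :
    T3 (17/20) q w ≤ ((-1437/12500)) + (701/5000) * q + (27219/100000) * w := by
  refine maj3 (17/20) ((-1437/12500)) (701/5000) (27219/100000) (93/100) (23/20) (231/200) (3/20) (by norm_num) (by norm_num) (by norm_num) (by norm_num) (by norm_num) ?_ ?_ ?_ q w hq hqa hqb hw hwW
  · intro s h1 h2 h3
    have := d3b4_1_a s (leSq _ _ _ (by norm_num) (by linarith) (by norm_num) h2) h3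
    linarith
  · intro s h1 h2 h3
    have := d3b4_1_b s (leSq _ _ _ (by norm_num) (by linarith) (by norm_num) h2) h3
    linarith
  · intro s h1 h2 h3
    have := d3b4_1_c s (leSq _ _ _ (by norm_num) (by linarith) (by norm_num) h2) (geSq _ _ _ (by norm_num) (by norm_num) h3)
    linarith

theorem d3b4_2_a_0 (s : ℝ) (h1 : 192873/200000 ≤ s) (h2 : s ≤ 809619/800000) : 0 ≤ (-83521/160000) + (1112160723/800000000)*s + (-289/400)*s^2 + (-2928891/8000000)*s^3 + (4431/20000)*s^5 := by
  obtain ⟨t, ht⟩ : ∃ t, t = s - (192873/200000) := ⟨_, rfl⟩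
  obtain ⟨r, hr⟩ : ∃ r, r = (809619/800000) - s := ⟨_, rfl⟩
  have h3 : 0 ≤ t := by linarith
  have h4 : 0 ≤ r := by linarith
  have key : (-83521/160000) + (1112160723/800000000)*s + (-289/400)*s^2 + (-2928891/8000000)*s^3 + (4431/20000)*s^5 = (649167673078472825380373522656/50355068308119400099629375)*t^0*r^5 + (519031891560742890289444949992/10071013661623880019925875)*t^1*r^4 + (796891959532402740248122636988/10071013661623880019925875)*t^2*r^3 + (582332281321263713185089386741/10071013661623880019925875)*t^3*r^2 + (1609394559366937287534853387223/80568109292991040159407000)*t^4*r^1 + (4246059587205535289942094842669/1611362185859820803188140000)*t^5*r^0 := by rw [ht, hr]; ring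
  rw [key]; positivity

theorem d3b4_2_a_1 (s : ℝ) (h1 : 809619/800000 ≤ s) (h2 : s ≤ 331473/320000) : 0 ≤ (-83521/160000) + (1112160723/800000000)*s + (-289/400)*s^2 + (-2928891/8000000)*s^3 + (4431/20000)*s^5 := by
  obtain ⟨t, ht⟩ : ∃ t, t = s - (809619/800000) := ⟨_, rfl⟩
  obtain ⟨r, hr⟩ : ∃ r, r = (331473/320000) - s := ⟨_, rfl⟩
  have h3 : 0 ≤ t := by linarith
  have h4 : 0 ≤ r := by linarith
  have key : (-83521/160000) + (1112160723/800000000)*s + (-289/400)*s^2 + (-2928891/8000000)*s^3 + (4431/20000)*s^5 = (4246059587205535289942094842669/50355068308119400099629375)*t^0*r^5 + (1260120104829771343937374195823/4028405464649552007970350)*t^1*r^4 + (356255334447341684784152099141/805681092929910401594070)*t^2*r^3 + (95476588805310053034842435447/322272437171964160637628)*t^3*r^2 + (123305858227405958590343529745/1289089748687856642550512)*t^4*r^1 + (33738031213362274525628377915/2578179497375713285101024)*t^5*r^0 := by rw [ht, hr]; ring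
  rw [key]; positivity

theorem d3b4_2_a_2 (s : ℝ) (h1 : 331473/320000 ≤ s) (h2 : s ≤ 423873/400000) : 0 ≤ (-83521/160000) + (1112160723/800000000)*s + (-289/400)*s^2 + (-2928891/8000000)*s^3 + (4431/20000)*s^5 := by
  obtain ⟨t, ht⟩ : ∃ t, t = s - (331473/320000) := ⟨_, rfl⟩
  obtain ⟨r, hr⟩ : ∃ r, r = (423873/400000) - s := ⟨_, rfl⟩
  have h3 : 0 ≤ t := by linarith
  have h4 : 0 ≤ r := by linarith
  have key : (-83521/160000) + (1112160723/800000000)*s + (-289/400)*s^2 + (-2928891/8000000)*s^3 + (4431/20000)*s^5 = (33738031213362274525628377915/2578179497375713285101024)*t^0*r^5 + (22692148919702707018899179915/644544874343928321275256)*t^1*r^4 + (4388757104327377120574316383/80568109292991040159407)*t^2*r^3 + (34878202277638297512020467132/402840546464955200797035)*t^3*r^2 + (171584907804567030074945897464/2014202732324776003985175)*t^4*r^1 + (1558953544563590865560309682656/50355068308119400099629375)*t^5*r^0 := by rw [ht, hr]; ring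
  rw [key]; positivity

theorem d3b4_2_a_3 (s : ℝ) (h1 : 423873/400000 ≤ s) (h2 : s ≤ 231/200) : 0 ≤ (-83521/160000) + (1112160723/800000000)*s + (-289/400)*s^2 + (-2928891/8000000)*s^3 + (4431/20000)*s^5 := by
  obtain ⟨t, ht⟩ : ∃ t, t = s - (423873/400000) := ⟨_, rfl⟩
  obtain ⟨r, hr⟩ : ∃ r, r = (231/200) - s := ⟨_, rfl⟩
  have h3 : 0 ≤ t := by linarith
  have h4 : 0 ≤ r := by linarith
  have key : (-83521/160000) + (1112160723/800000000)*s + (-289/400)*s^2 + (-2928891/8000000)*s^3 + (4431/20000)*s^5 = (48717298267612214548759677583/1611362185859820803188140000)*t^0*r^5 + (68172961980103339473478601/161136218585982080318814)*t^1*r^4 + (181757773573500392600354000/80568109292991040159407)*t^2*r^3 + (383928277800057767756000000/80568109292991040159407)*t^3*r^2 + (347742054440184172000000000/80568109292991040159407)*t^4*r^1 + (113938784001569600000000000/80568109292991040159407)*t^5*r^0 := by rw [ht, hr]; ring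
  rw [key]; positivity

theorem d3b4_2_a (s : ℝ) (h1 : 192873/200000 ≤ s) (h2 : s ≤ 231/200) : 0 ≤ (-83521/160000) + (1112160723/800000000)*s + (-289/400)*s^2 + (-2928891/8000000)*s^3 + (4431/20000)*s^5 := by
  rcases le_total s (809619/800000) with h | h
  · exact d3b4_2_a_0 s (by linarith) (by linarith)
  rcases le_total s (331473/320000) with h | h
  · exact d3b4_2_a_1 s (by linarith) (by linarith)
  rcases le_total s (423873/400000) with h | h
  · exact d3b4_2_a_2 s (by linarith) (by linarith)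
  exact d3b4_2_a_3 s (by linarith) (by linarith)

theorem d3b4_2_b_0 (s : ℝ) (h1 : 53619/50000 ≤ s) (h2 : s ≤ 111369/100000) : 0 ≤ (-83521/160000) + (231535529/160000000)*s + (-289/400)*s^2 + (-3318819/8000000)*s^3 + (4431/20000)*s^5 := by
  obtain ⟨t, ht⟩ : ∃ t, t = s - (53619/50000) := ⟨_, rfl⟩
  obtain ⟨r, hr⟩ : ∃ r, r = (111369/100000) - s := ⟨_, rfl⟩
  have h3 : 0 ≤ t := by linarith
  have h4 : 0 ≤ r := by linarith
  have key : (-83521/160000) + (231535529/160000000)*s + (-289/400)*s^2 + (-3318819/8000000)*s^3 + (4431/20000)*s^5 = (571067601754039554930157/44228994968305501875)*t^0*r^5 + (724571035383939479028407/17691597987322200750)*t^1*r^4 + (783434571421722179814157/17691597987322200750)*t^2*r^3 + (618521184113698329162407/35383195974644401500)*t^3*r^2 + (199001243417807505198157/141532783898577606000)*t^4*r^1 + (232724774664751004796407/1415327838985776060000)*t^5*r^0 := by rw [ht, hr]; ring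
  rw [key]; positivity

theorem d3b4_2_b_1 (s : ℝ) (h1 : 111369/100000 ≤ s) (h2 : s ≤ 231/200) : 0 ≤ (-83521/160000) + (231535529/160000000)*s + (-289/400)*s^2 + (-3318819/8000000)*s^3 + (4431/20000)*s^5 := by
  obtain ⟨t, ht⟩ : ∃ t, t = s - (111369/100000) := ⟨_, rfl⟩
  obtain ⟨r, hr⟩ : ∃ r, r = (231/200) - s := ⟨_, rfl⟩
  have h3 : 0 ≤ t := by linarith
  have h4 : 0 ≤ r := by linarith
  have key : (-83521/160000) + (231535529/160000000)*s + (-289/400)*s^2 + (-3318819/8000000)*s^3 + (4431/20000)*s^5 = (232724774664751004796407/1415327838985776060000)*t^0*r^5 + (134894124987773998393/566131135594310424)*t^1*r^4 + (906486943885668647125/70766391949288803)*t^2*r^3 + (2831400101322805187500/70766391949288803)*t^3*r^2 + (2954718621491046875000/70766391949288803)*t^4*r^1 + (1024595615457812500000/70766391949288803)*t^5*r^0 := by rw [ht, hr]; ring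
  rw [key]; positivity

theorem d3b4_2_b (s : ℝ) (h1 : 53619/50000 ≤ s) (h2 : s ≤ 231/200) : 0 ≤ (-83521/160000) + (231535529/160000000)*s + (-289/400)*s^2 + (-3318819/8000000)*s^3 + (4431/20000)*s^5 := by
  rcases le_total s (111369/100000) with h | h
  · exact d3b4_2_b_0 s (by linarith) (by linarith)
  exact d3b4_2_b_1 s (by linarith) (by linarith)

theorem d3b4_2_c (s : ℝ) (h1 : 192873/200000 ≤ s) (h2 : s ≤ 1072381/1000000) : 0 ≤ (-289/400) + (79563/50000)*s + -1*s^2 + (341/2500)*s^3 := by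
  obtain ⟨t, ht⟩ : ∃ t, t = s - (192873/200000) := ⟨_, rfl⟩
  obtain ⟨r, hr⟩ : ∃ r, r = (1072381/1000000) - s := ⟨_, rfl⟩
  have h3 : 0 ≤ t := by linarith
  have h4 : 0 ≤ r := by linarith
  have key : (-289/400) + (79563/50000)*s + -1*s^2 + (341/2500)*s^3 = (87744126966132397/25205439098961920)*t^0*r^3 + (1781558993344325427/126027195494809600)*t^1*r^2 + (7703147331127472719/630135977474048000)*t^2*r^1 + (5374530429433078281/3150679887370240000)*t^3*r^0 := by rw [ht, hr]; ring
  rw [key]; positivity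

theorem d3b4_2 (q w : ℝ) (hq : 0 ≤ q) (hqa : 93/100 ≤ q) (hqb : q ≤ 23/20) (hw : 0 ≤ w) (hwW : w ≤ 3/20) :
    T3 (17/20) q w ≤ ((-5437/50000)) + (341/2500) * q + (4431/20000) * w := by
  refine maj3 (17/20) ((-5437/50000)) (341/2500) (4431/20000) (93/100) (23/20) (231/200) (3/20) (by norm_num) (by norm_num) (by norm_num) (by norm_num) (by norm_num) ?_ ?_ ?_ q w hq hqa hqb hw hwW
  · intro s h1 h2 h3
    have := d3b4_2_a s (leSq _ _ _ (by norm_num) (by linarith) (by norm_num) h2) h3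
    linarith
  · intro s h1 h2 h3
    have := d3b4_2_b s (leSq _ _ _ (by norm_num) (by linarith) (by norm_num) h2) h3
    linarith
  · intro s h1 h2 h3
    have := d3b4_2_c s (leSq _ _ _ (by norm_num) (by linarith) (by norm_num) h2) (geSq _ _ _ (by norm_num) (by norm_num) h3)
    linarith

theorem d3b4_3_a_0 (s : ℝ) (h1 : 192873/200000 ≤ s) (h2 : s ≤ 423873/400000) : 0 ≤ (-83521/160000) + (550578813/400000000)*s + (-289/400)*s^2 + (-13133409/40000000)*s^3 + (19869/100000)*s^5 := by
  obtain ⟨t, ht⟩ : ∃ t, t = s - (192873/200000) := ⟨_, rfl⟩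
  obtain ⟨r, hr⟩ : ∃ r, r = (423873/400000) - s := ⟨_, rfl⟩
  have h3 : 0 ≤ t := by linarith
  have h4 : 0 ≤ r := by linarith
  have key : (-83521/160000) + (550578813/400000000)*s + (-289/400)*s^2 + (-13133409/40000000)*s^3 + (19869/100000)*s^5 = (151003431331658695042616237317/251775341540597000498146875)*t^0*r^5 + (211867446181521280394370936317/100710136616238800199258750)*t^1*r^4 + (256197723629005897281048635317/100710136616238800199258750)*t^2*r^3 + (236490737832508926463649334317/201420273232477600398517500)*t^3*r^2 + (114981915994461605703173033317/805681092929910401594070000)*t^4*r^1 + (70322452819649029760619732317/8056810929299104015940700000)*t^5*r^0 := by rw [ht, hr]; ring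
  rw [key]; positivity

theorem d3b4_3_a_1 (s : ℝ) (h1 : 423873/400000 ≤ s) (h2 : s ≤ 1733619/1600000) : 0 ≤ (-83521/160000) + (550578813/400000000)*s + (-289/400)*s^2 + (-13133409/40000000)*s^3 + (19869/100000)*s^5 := by
  obtain ⟨t, ht⟩ : ∃ t, t = s - (423873/400000) := ⟨_, rfl⟩
  obtain ⟨r, hr⟩ : ∃ r, r = (1733619/1600000) - s := ⟨_, rfl⟩
  have h3 : 0 ≤ t := by linarith
  have h4 : 0 ≤ r := by linarith
  have key : (-83521/160000) + (550578813/400000000)*s + (-289/400)*s^2 + (-13133409/40000000)*s^3 + (19869/100000)*s^5 = (2250318490228768952339831434144/251775341540597000498146875)*t^0*r^5 + (973187456874575499174020759608/50355068308119400099629375)*t^1*r^4 + (1617543807728117343226519915412/50355068308119400099629375)*t^2*r^3 + (3682881684205376274172082518559/50355068308119400099629375)*t^3*r^2 + (33262303075587790696746053301677/402840546464955200797035000)*t^4*r^1 + (251093800670546454029639261143031/8056810929299104015940700000)*t^5*r^0 := by rw [ht,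 hr]; ring
  rw [key]; positivity

theorem d3b4_3_a_2 (s : ℝ) (h1 : 1733619/1600000 ≤ s) (h2 : s ≤ 885873/800000) : 0 ≤ (-83521/160000) + (550578813/400000000)*s + (-289/400)*s^2 + (-13133409/40000000)*s^3 + (19869/100000)*s^5 := by
  obtain ⟨t, ht⟩ : ∃ t, t = s - (1733619/1600000) := ⟨_, rfl⟩
  obtain ⟨r, hr⟩ : ∃ r, r = (885873/800000) - s := ⟨_, rfl⟩
  have h3 : 0 ≤ t := by linarith
  have h4 : 0 ≤ r := by linarith
  have key : (-83521/160000) + (550578813/400000000)*s + (-289/400)*s^2 + (-13133409/40000000)*s^3 + (19869/100000)*s^5 = (251093800670546454029639261143031/8056810929299104015940700000)*t^0*r^5 + (184569194519370872636147154539677/805681092929910401594070000)*t^1*r^4 + (132776115105016796339343378010559/201420273232477600398517500)*t^2*r^3 + (92479474812027990452774891724853/100710136616238800199258750)*t^3*r^2 + (62390560938697371288336697370951/100710136616238800199258750)*t^4*r^1 + (40916717206838237203932006722317/251775341540597000498146875)*t^5*r^0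 := by rw [ht, hr]; ring
  rw [key]; positivity

theorem d3b4_3_a_3 (s : ℝ) (h1 : 885873/800000 ≤ s) (h2 : s ≤ 231/200) : 0 ≤ (-83521/160000) + (550578813/400000000)*s + (-289/400)*s^2 + (-13133409/40000000)*s^3 + (19869/100000)*s^5 := by
  obtain ⟨t, ht⟩ : ∃ t, t = s - (885873/800000) := ⟨_, rfl⟩
  obtain ⟨r, hr⟩ : ∃ r, r = (231/200) - s := ⟨_, rfl⟩
  have h3 : 0 ≤ t := by linarith
  have h4 : 0 ≤ r := by linarith
  have key : (-83521/160000) + (550578813/400000000)*s + (-289/400)*s^2 + (-13133409/40000000)*s^3 + (19869/100000)*s^5 = (40916717206838237203932006722317/8056810929299104015940700000)*t^0*r^5 + (15089897670454335080864830699/402840546464955200797035)*t^1*r^4 + (8638656404138789755814276800/80568109292991040159407)*t^2*r^3 + (11974537744303849745670400000/80568109292991040159407)*t^3*r^2 + (8061048274163095769600000000/80568109292991040159407)*t^4*r^1 + (2116370580053186560000000000/80568109292991040159407)*t^5*r^0 := by rw [ht, hr]; ring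
  rw [key]; positivity

theorem d3b4_3_a (s : ℝ) (h1 : 192873/200000 ≤ s) (h2 : s ≤ 231/200) : 0 ≤ (-83521/160000) + (550578813/400000000)*s + (-289/400)*s^2 + (-13133409/40000000)*s^3 + (19869/100000)*s^5 := by
  rcases le_total s (423873/400000) with h | h
  · exact d3b4_3_a_0 s (by linarith) (by linarith)
  rcases le_total s (1733619/1600000) with h | h
  · exact d3b4_3_a_1 s (by linarith) (by linarith)
  rcases le_total s (885873/800000) with h | h
  · exact d3b4_3_a_2 s (by linarith) (by linarith)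
  exact d3b4_3_a_3 s (by linarith) (by linarith)

theorem d3b4_3_b_0 (s : ℝ) (h1 : 53619/50000 ≤ s) (h2 : s ≤ 111369/100000) : 0 ≤ (-83521/160000) + (22872327/16000000)*s + (-289/400)*s^2 + (-14881881/40000000)*s^3 + (19869/100000)*s^5 := by
  obtain ⟨t, ht⟩ : ∃ t, t = s - (53619/50000) := ⟨_, rfl⟩
  obtain ⟨r, hr⟩ : ∃ r, r = (111369/100000) - s := ⟨_, rfl⟩
  have h3 : 0 ≤ t := by linarith
  have h4 : 0 ≤ r := by linarith
  have key : (-83521/160000) + (22872327/16000000)*s + (-289/400)*s^2 + (-14881881/40000000)*s^3 + (19869/100000)*s^5 = (5649035455231658918281943/221144974841527509375)*t^0*r^5 + (8570559904143652619908693/88457989936611003750)*t^1*r^4 + (12352252428726178738597943/88457989936611003750)*t^2*r^3 + (16657389858776675039974693/176915979873222007500)*t^3*r^2 + (20696660385561028508413943/707663919492888030000)*t^4*r^1 + (23976952096000098784540693/7076639194928880300000)*t^5*r^0 := by rw [ht, hr]; ring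
  rw [key]; positivity

theorem d3b4_3_b_1 (s : ℝ) (h1 : 111369/100000 ≤ s) (h2 : s ≤ 226869/200000) : 0 ≤ (-83521/160000) + (22872327/16000000)*s + (-289/400)*s^2 + (-14881881/40000000)*s^3 + (19869/100000)*s^5 := by
  obtain ⟨t, ht⟩ : ∃ t, t = s - (111369/100000) := ⟨_, rfl⟩
  obtain ⟨r, hr⟩ : ∃ r, r = (226869/200000) - s := ⟨_, rfl⟩
  have h3 : 0 ≤ t := by linarith
  have h4 : 0 ≤ r := by linarith
  have key : (-83521/160000) + (22872327/16000000)*s + (-289/400)*s^2 + (-14881881/40000000)*s^3 + (19869/100000)*s^5 = (23976952096000098784540693/221144974841527509375)*t^0*r^5 + (1796325618639896431576129/5203411172741823750)*t^1*r^4 + (34062203672375247119797693/88457989936611003750)*t^2*r^3 + (30606061257857999258551193/176915979873222007500)*t^3*r^2 + (20963411299172935378054693/707663919492888030000)*t^4*r^1 + (34628988246614807603308193/7076639194928880300000)*t^5*r^0 := by rw [ht, hr]; ring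
  rw [key]; positivity

theorem d3b4_3_b_2 (s : ℝ) (h1 : 226869/200000 ≤ s) (h2 : s ≤ 231/200) : 0 ≤ (-83521/160000) + (22872327/16000000)*s + (-289/400)*s^2 + (-14881881/40000000)*s^3 + (19869/100000)*s^5 := by
  obtain ⟨t, ht⟩ : ∃ t, t = s - (226869/200000) := ⟨_, rfl⟩
  obtain ⟨r, hr⟩ : ∃ r, r = (231/200) - s := ⟨_, rfl⟩
  have h3 : 0 ≤ t := by linarith
  have h4 : 0 ≤ r := by linarith
  have key : (-83521/160000) + (22872327/16000000)*s + (-289/400)*s^2 + (-14881881/40000000)*s^3 + (19869/100000)*s^5 = (34628988246614807603308193/7076639194928880300000)*t^0*r^5 + (27331153894883744450507/1415327838985776060)*t^1*r^4 + (9323290762450774442300/70766391949288803)*t^2*r^3 + (23595787560235801700000/70766391949288803)*t^3*r^2 + (22960345139558650000000/70766391949288803)*t^4*r^1 + (7667594590070000000000/70766391949288803)*t^5*r^0 := by rw [ht, hr]; ring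
  rw [key]; positivity

theorem d3b4_3_b (s : ℝ) (h1 : 53619/50000 ≤ s) (h2 : s ≤ 231/200) : 0 ≤ (-83521/160000) + (22872327/16000000)*s + (-289/400)*s^2 + (-14881881/40000000)*s^3 + (19869/100000)*s^5 := by
  rcases le_total s (111369/100000) with h | h
  · exact d3b4_3_b_0 s (by linarith) (by linarith)
  rcases le_total s (226869/200000) with h | h
  · exact d3b4_3_b_1 s (by linarith) (by linarith)
  exact d3b4_3_b_2 s (by linarith) (by linarith)

theorem d3b4_3_c (s : ℝ) (h1 : 192873/200000 ≤ s) (h2 : s ≤ 1072381/1000000) : 0 ≤ (-289/400) + (159459/100000)*s + -1*s^2 + (13521/100000)*s^3 := by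
  obtain ⟨t, ht⟩ : ∃ t, t = s - (192873/200000) := ⟨_, rfl⟩
  obtain ⟨r, hr⟩ : ∃ r, r = (1072381/1000000) - s := ⟨_, rfl⟩
  have h3 : 0 ≤ t := by linarith
  have h4 : 0 ≤ r := by linarith
  have key : (-289/400) + (159459/100000)*s + -1*s^2 + (13521/100000)*s^3 = (5225023376995824457/1008217563958476800)*t^0*r^3 + (96995511869026756887/5041087819792384000)*t^1*r^2 + (436009671808651198339/25205439098961920000)*t^2*r^1 + (425328621544918332661/126027195494809600000)*t^3*r^0 := by rw [ht, hr]; ring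
  rw [key]; positivity

theorem d3b4_3 (q w : ℝ) (hq : 0 ≤ q) (hqa : 93/100 ≤ q) (hqb : q ≤ 23/20) (hw : 0 ≤ w) (hwW : w ≤ 3/20) :
    T3 (17/20) q w ≤ ((-10541/100000)) + (13521/100000) * q + (19869/100000) * w := by
  refine maj3 (17/20) ((-10541/100000)) (13521/100000) (19869/100000) (93/100) (23/20) (231/200) (3/20) (by norm_num) (by norm_num) (by norm_num) (by norm_num) (by norm_num) ?_ ?_ ?_ q w hq hqa hqb hw hwW
  · intro s h1 h2 h3
    have := d3b4_3_a s (leSq _ _ _ (by norm_num) (by linarith) (by norm_num) h2) h3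
    linarith
  · intro s h1 h2 h3
    have := d3b4_3_b s (leSq _ _ _ (by norm_num) (by linarith) (by norm_num) h2) h3
    linarith
  · intro s h1 h2 h3
    have := d3b4_3_c s (leSq _ _ _ (by norm_num) (by linarith) (by norm_num) h2) (geSq _ _ _ (by norm_num) (by norm_num) h3)
    linarith

theorem d2L_a_0 (s : ℝ) (h1 : 53619/50000 ≤ s) (h2 : s ≤ 91119/50000) : 0 ≤ (-81/100) + (83359/50000)*s + -1*s^2 + (582/3125)*s^3 := by
  obtain ⟨t, ht⟩ : ∃ t, t = s - (53619/50000) := ⟨_, rfl⟩
  obtain ⟨r, hr⟩ : ∃ r, r = (91119/50000) - s := ⟨_, rfl⟩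
  have h3 : 0 ≤ t := by linarith
  have h4 : 0 ≤ r := by linarith
  have key : (-81/100) + (83359/50000)*s + -1*s^2 + (582/3125)*s^3 = (3745407296738923/27465820312500000)*t^0*r^3 + (19290292472129269/27465820312500000)*t^1*r^2 + (12665169460291769/27465820312500000)*t^2*r^1 + (2235518659901423/27465820312500000)*t^3*r^0 := by rw [ht, hr]; ring
  rw [key]; positivity

theorem d2L_a_1 (s : ℝ) (h1 : 91119/50000 ≤ s) (h2 : s ≤ 109869/50000) : 0 ≤ (-81/100) + (83359/50000)*s + -1*s^2 + (582/3125)*s^3 := by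
  obtain ⟨t, ht⟩ : ∃ t, t = s - (91119/50000) := ⟨_, rfl⟩
  obtain ⟨r, hr⟩ : ∃ r, r = (109869/50000) - s := ⟨_, rfl⟩
  have h3 : 0 ≤ t := by linarith
  have h4 : 0 ≤ r := by linarith
  have key : (-81/100) + (83359/50000)*s + -1*s^2 + (582/3125)*s^3 = (2235518659901423/3433227539062500)*t^0*r^3 + (3727249239410519/3433227539062500)*t^1*r^2 + (914569881929269/3433227539062500)*t^2*r^1 + (62243599295173/3433227539062500)*t^3*r^0 := by rw [ht, hr]; ring
  rw [key]; positivity

theorem d2L_a_2 (s : ℝ) (h1 : 109869/50000 ≤ s) (h2 : s ≤ 448851/200000) : 0 ≤ (-81/100) + (83359/50000)*s + -1*s^2 + (582/3125)*s^3 := by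
  obtain ⟨t, ht⟩ : ∃ t, t = s - (109869/50000) := ⟨_, rfl⟩
  obtain ⟨r, hr⟩ : ∃ r, r = (448851/200000) - s := ⟨_, rfl⟩
  have h3 : 0 ≤ t := by linarith
  have h4 : 0 ≤ r := by linarith
  have key : (-81/100) + (83359/50000)*s + -1*s^2 + (582/3125)*s^3 = (7967180709782144/858306884765625)*t^0*r^3 + (12256116784646432/858306884765625)*t^1*r^2 + (4780371986821432/858306884765625)*t^2*r^1 + (651286986175894/858306884765625)*t^3*r^0 := by rw [ht, hr]; ring
  rw [key]; positivity

theorem d2L_a_3 (s : ℝ) (h1 : 448851/200000 ≤ s) (h2 : s ≤ 907077/400000) : 0 ≤ (-81/100) + (83359/50000)*s + -1*s^2 + (582/3125)*s^3 := by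
  obtain ⟨t, ht⟩ : ∃ t, t = s - (448851/200000) := ⟨_, rfl⟩
  obtain ⟨r, hr⟩ : ∃ r, r = (907077/400000) - s := ⟨_, rfl⟩
  have h3 : 0 ≤ t := by linarith
  have h4 : 0 ≤ r := by linarith
  have key : (-81/100) + (83359/50000)*s + -1*s^2 + (582/3125)*s^3 = (5210295889407152/858306884765625)*t^0*r^3 + (4324843555046456/858306884765625)*t^1*r^2 + (2317266980933956/858306884765625)*t^2*r^1 + (3362570389513402/858306884765625)*t^3*r^0 := by rw [ht, hr]; ring
  rw [key]; positivity

theorem d2L_a_4 (s : ℝ) (h1 : 907077/400000 ≤ s) (h2 : s ≤ 229113/100000) : 0 ≤ (-81/100) + (83359/50000)*s + -1*s^2 + (582/3125)*s^3 := by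
  obtain ⟨t, ht⟩ : ∃ t, t = s - (907077/400000) := ⟨_, rfl⟩
  obtain ⟨r, hr⟩ : ∃ r, r = (229113/100000) - s := ⟨_, rfl⟩
  have h3 : 0 ≤ t := by linarith
  have h4 : 0 ≤ r := by linarith
  have key : (-81/100) + (83359/50000)*s + -1*s^2 + (582/3125)*s^3 = (3362570389513402/858306884765625)*t^0*r^3 + (17858155356146456/858306884765625)*t^1*r^2 + (35406620305471456/858306884765625)*t^2*r^1 + (7023628804352384/286102294921875)*t^3*r^0 := by rw [ht, hr]; ring
  rw [key]; positivity

theorem d2L_a_5 (s : ℝ) (h1 : 229113/100000 ≤ s) (h2 : s ≤ 29811/12500) : 0 ≤ (-81/100) + (83359/50000)*s + -1*s^2 + (582/3125)*s^3 := by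
  obtain ⟨t, ht⟩ : ∃ t, t = s - (229113/100000) := ⟨_, rfl⟩
  obtain ⟨r, hr⟩ : ∃ r, r = (29811/12500) - s := ⟨_, rfl⟩
  have h3 : 0 ≤ t := by linarith
  have h4 : 0 ≤ r := by linarith
  have key : (-81/100) + (83359/50000)*s + -1*s^2 + (582/3125)*s^3 = (109744200068006/286102294921875)*t^0*r^3 + (2725575233968304/858306884765625)*t^1*r^2 + (7027846163418304/858306884765625)*t^2*r^1 + (4791354603872768/858306884765625)*t^3*r^0 := by rw [ht, hr]; ring
  rw [key]; positivity

theorem d2L_a_6 (s : ℝ) (h1 : 29811/12500 ≤ s) (h2 : s ≤ 128619/50000) : 0 ≤ (-81/100) + (83359/50000)*s + -1*s^2 + (582/3125)*s^3 := by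
  obtain ⟨t, ht⟩ : ∃ t, t = s - (29811/12500) := ⟨_, rfl⟩
  obtain ⟨r, hr⟩ : ∃ r, r = (128619/50000) - s := ⟨_, rfl⟩
  have h3 : 0 ≤ t := by linarith
  have h4 : 0 ≤ r := by linarith
  have key : (-81/100) + (83359/50000)*s + -1*s^2 + (582/3125)*s^3 = (598919325484096/858306884765625)*t^0*r^3 + (3633312388502288/858306884765625)*t^1*r^2 + (6991840159927288/858306884765625)*t^2*r^1 + (1372432723709282/286102294921875)*t^3*r^0 := by rw [ht, hr]; ring
  rw [key]; positivity

theorem d2L_a_7 (s : ℝ) (h1 : 128619/50000 ≤ s) : 0 ≤ (-81/100) + (83359/50000)*s + -1*s^2 + (582/3125)*s^3 := by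
  obtain ⟨t, ht⟩ : ∃ t, t = s - (128619/50000) := ⟨_, rfl⟩
  have h3 : 0 ≤ t := by linarith
  have h4 : s = (128619/50000) + t := by linarith
  have key : (-81/100) + (83359/50000)*s + -1*s^2 + (582/3125)*s^3 = (6175947256691769/195312500000000000)*t^0 + (857608696553/3906250000000)*t^1 + (34159387/78125000)*t^2 + (582/3125)*t^3 := by rw [h4]; ring
  rw [key]; positivity

theorem d2L_a (s : ℝ) (h1 : 53619/50000 ≤ s) : 0 ≤ (-81/100) + (83359/50000)*s + -1*s^2 + (582/3125)*s^3 := by
  rcases le_total s (91119/50000) with h | h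
  · exact d2L_a_0 s (by linarith) (by linarith)
  rcases le_total s (109869/50000) with h | h
  · exact d2L_a_1 s (by linarith) (by linarith)
  rcases le_total s (448851/200000) with h | h
  · exact d2L_a_2 s (by linarith) (by linarith)
  rcases le_total s (907077/400000) with h | h
  · exact d2L_a_3 s (by linarith) (by linarith)
  rcases le_total s (229113/100000) with h | h
  · exact d2L_a_4 s (by linarith) (by linarith)
  rcases le_total s (29811/12500) with h | h
  · exact d2L_a_5 s (by linarith) (by linarith)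
  rcases le_total s (128619/50000) with h | h
  · exact d2L_a_6 s (by linarith) (by linarith)
  exact d2L_a_7 s (by linarith)

theorem d2L_b_0 (s : ℝ) (h1 : 53619/50000 ≤ s) (h2 : s ≤ 91119/50000) : 0 ≤ (6561/10000) + (-69175863/50000000)*s + (3823139/2500000)*s^3 + -1*s^4 + (582/3125)*s^5 := by
  obtain ⟨t, ht⟩ : ∃ t, t = s - (53619/50000) := ⟨_, rfl⟩
  obtain ⟨r, hr⟩ : ∃ r, r = (91119/50000) - s := ⟨_, rfl⟩
  have h3 : 0 ≤ t := by linarith
  have h4 : 0 ≤ r := by linarith
  have key : (6561/10000) + (-69175863/50000000)*s + (3823139/2500000)*s^3 + -1*s^4 + (582/3125)*s^5 = (150910104767005945567/4291534423828125000000000)*t^0*r^5 + (518205893637424296933067/858306884765625000000000)*t^1*r^4 + (1358337797095108619170567/429153442382812500000000)*t^2*r^3 + (2048663598214148097658067/429153442382812500000000)*t^3*r^2 + (2115698394848058357395567/858306884765625000000000)*t^4*r^1 + (1883610776061292523383067/4291534423828125000000000)*t^5*r^0 := by rw [ht, hr]; ring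
  rw [key]; positivity

theorem d2L_b_1 (s : ℝ) (h1 : 91119/50000 ≤ s) (h2 : s ≤ 128619/50000) : 0 ≤ (6561/10000) + (-69175863/50000000)*s + (3823139/2500000)*s^3 + -1*s^4 + (582/3125)*s^5 := by
  obtain ⟨t, ht⟩ : ∃ t, t = s - (91119/50000) := ⟨_, rfl⟩
  obtain ⟨r, hr⟩ : ∃ r, r = (128619/50000) - s := ⟨_, rfl⟩
  have h3 : 0 ≤ t := by linarith
  have h4 : 0 ≤ r := by linarith
  have key : (6561/10000) + (-69175863/50000000)*s + (3823139/2500000)*s^3 + -1*s^4 + (582/3125)*s^5 = (1883610776061292523383067/4291534423828125000000000)*t^0*r^5 + (1651523157274526689370567/858306884765625000000000)*t^1*r^4 + (1120313123067084761608067/429153442382812500000000)*t^2*r^3 + (68238806944824429455063/47683715820312500000000)*t^3*r^2 + (139428183984324736092563/95367431640625000000000)*t^4*r^1 + (640128582857074573980063/476837158203125000000000)*t^5*r^0 := by rw [ht, hr]; ring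
  rw [key]; positivity

theorem d2L_b_2 (s : ℝ) (h1 : 128619/50000 ≤ s) : 0 ≤ (6561/10000) + (-69175863/50000000)*s + (3823139/2500000)*s^3 + -1*s^4 + (582/3125)*s^5 := by
  obtain ⟨t, ht⟩ : ∃ t, t = s - (128619/50000) := ⟨_, rfl⟩
  have h3 : 0 ≤ t := by linarith
  have h4 : s = (128619/50000) + t := by linarith
  have key : (6561/10000) + (-69175863/50000000)*s + (3823139/2500000)*s^3 + -1*s^4 + (582/3125)*s^5 = (155551245634269121477155309/488281250000000000000000000)*t^0 + (3244538584695418949511/1953125000000000000000)*t^1 + (74219504572785519/19531250000000000)*t^2 + (1391990242601/390625000000)*t^3 + (21803129/15625000)*t^4 + (582/3125)*t^5 := by rw [h4]; ring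
  rw [key]; positivity

theorem d2L_b (s : ℝ) (h1 : 53619/50000 ≤ s) : 0 ≤ (6561/10000) + (-69175863/50000000)*s + (3823139/2500000)*s^3 + -1*s^4 + (582/3125)*s^5 := by
  rcases le_total s (91119/50000) with h | h
  · exact d2L_b_0 s (by linarith) (by linarith)
  rcases le_total s (128619/50000) with h | h
  · exact d2L_b_1 s (by linarith) (by linarith)
  exact d2L_b_2 s (by linarith)

theorem d2L (q w : ℝ) (hq : 23/20 ≤ q) (hw : 0 ≤ w) (hwW : w ≤ 3/20) :
    T3 (9/10) q w ≤ ((-6641/50000)) + (582/3125) * q + (431/5000) * w := by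
  refine majL (9/10) ((-6641/50000)) (582/3125) (431/5000) (23/20) (3/20) (by norm_num) (by norm_num) (by norm_num) ?_ ?_ q w hq hw hwW
  · intro s h1 h2
    have := d2L_a s (leSq _ _ _ (by norm_num) (by linarith) (by norm_num) h2)
    linarith
  · intro s h1 h2
    have := d2L_b s (leSq _ _ _ (by norm_num) (by linarith) (by norm_num) h2)
    linarith

theorem d2p_a_0 (s : ℝ) (h1 : 53619/50000 ≤ s) (h2 : s ≤ 6878363/6400000) : 0 ≤ (-6561/10000) + (35576253/20000000)*s + (-81/100)*s^2 + (-156947/250000)*s^3 + (3203/10000)*s^5 := by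
  obtain ⟨t, ht⟩ : ∃ t, t = s - (53619/50000) := ⟨_, rfl⟩
  obtain ⟨r, hr⟩ : ∃ r, r = (6878363/6400000) - s := ⟨_, rfl⟩
  have h3 : 0 ≤ t := by linarith
  have h4 : 0 ≤ r := by linarith
  have key : (-6561/10000) + (35576253/20000000)*s + (-81/100)*s^2 + (-156947/250000)*s^3 + (3203/10000)*s^5 = (61671919670779432952388026105856/495699149425514727906875)*t^0*r^5 + (41586053757588877615326931451904/99139829885102945581375)*t^1*r^4 + (51405566356654928154710641999872/99139829885102945581375)*t^2*r^3 + (28098413165963667362261926709248/99139829885102945581375)*t^3*r^2 + (6652494638726796866183436153416/99139829885102945581375)*t^4*r^1 + (56638243019164331678503894641729/7931186390808235646510000)*t^5*r^0 := by rw [ht, hr]; ring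
  rw [key]; positivity

theorem d2p_a_1 (s : ℝ) (h1 : 6878363/6400000 ≤ s) (h2 : s ≤ 3446747/3200000) : 0 ≤ (-6561/10000) + (35576253/20000000)*s + (-81/100)*s^2 + (-156947/250000)*s^3 + (3203/10000)*s^5 := by
  obtain ⟨t, ht⟩ : ∃ t, t = s - (6878363/6400000) := ⟨_, rfl⟩
  obtain ⟨r, hr⟩ : ∃ r, r = (3446747/3200000) - s := ⟨_, rfl⟩
  have h3 : 0 ≤ t := by linarith
  have h4 : 0 ≤ r := by linarith
  have key : (-6561/10000) + (35576253/20000000)*s + (-81/100)*s^2 + (-156947/250000)*s^3 + (3203/10000)*s^5 = (56638243019164331678503894641729/7931186390808235646510000)*t^0*r^5 + (3418285909349956749036405414401/793118639080823564651000)*t^1*r^4 + (6395155131462916544092769605569/198279659770205891162750)*t^2*r^3 + (14163284328848282908962345215361/99139829885102945581375)*t^3*r^2 + (16903160902440005304261421695809/99139829885102945581375)*t^4*r^1 + (31090732350742388659478413795842/495699149425514727906875)*t^5*r^0 := by rw [ht, hr]; ring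
  rw [key]; positivity

theorem d2p_a_2 (s : ℝ) (h1 : 3446747/3200000 ≤ s) (h2 : s ≤ 1730939/1600000) : 0 ≤ (-6561/10000) + (35576253/20000000)*s + (-81/100)*s^2 + (-156947/250000)*s^3 + (3203/10000)*s^5 := by
  obtain ⟨t, ht⟩ : ∃ t, t = s - (3446747/3200000) := ⟨_, rfl⟩
  obtain ⟨r, hr⟩ : ∃ r, r = (1730939/1600000) - s := ⟨_, rfl⟩
  have h3 : 0 ≤ t := by linarith
  have h4 : 0 ≤ r := by linarith
  have key : (-6561/10000) + (35576253/20000000)*s + (-81/100)*s^2 + (-156947/250000)*s^3 + (3203/10000)*s^5 = (15545366175371194329739206897921/7931186390808235646510000)*t^0*r^5 + (14866468811836788842478099498977/793118639080823564651000)*t^1*r^4 + (13163153623137250012761669280449/198279659770205891162750)*t^2*r^3 + (10551743274664216665558567223713/99139829885102945581375)*t^3*r^2 + (7820441301946775197033251710081/99139829885102945581375)*t^4*r^1 + (10931416731591061869329851225794/495699149425514727906875)*t^5*r^0 := by rw [ht, hr]; ring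
  rw [key]; positivity

theorem d2p_a_3 (s : ℝ) (h1 : 1730939/1600000 ≤ s) (h2 : s ≤ 174607/160000) : 0 ≤ (-6561/10000) + (35576253/20000000)*s + (-81/100)*s^2 + (-156947/250000)*s^3 + (3203/10000)*s^5 := by
  obtain ⟨t, ht⟩ : ∃ t, t = s - (1730939/1600000) := ⟨_, rfl⟩
  obtain ⟨r, hr⟩ : ∃ r, r = (174607/160000) - s := ⟨_, rfl⟩
  have h3 : 0 ≤ t := by linarith
  have h4 : 0 ≤ r := by linarith
  have key : (-6561/10000) + (35576253/20000000)*s + (-81/100)*s^2 + (-156947/250000)*s^3 + (3203/10000)*s^5 = (5465708365795530934664925612897/7931186390808235646510000)*t^0*r^5 + (857668379543981760696152512861/158623727816164712930200)*t^1*r^4 + (128204707551433438953433874793/7931186390808235646510)*t^2*r^3 + (18224746572757104893320631109/793118639080823564651)*t^3*r^2 + (12408739592621886528884244085/793118639080823564651)*t^4*r^1 + (3262692967903669918480518210/793118639080823564651)*t^5*r^0 := by rw [ht, hr]; ring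
  rw [key]; positivity

theorem d2p_a_4 (s : ℝ) (h1 : 174607/160000 ≤ s) (h2 : s ≤ 444083/400000) : 0 ≤ (-6561/10000) + (35576253/20000000)*s + (-81/100)*s^2 + (-156947/250000)*s^3 + (3203/10000)*s^5 := by
  obtain ⟨t, ht⟩ : ∃ t, t = s - (174607/160000) := ⟨_, rfl⟩
  obtain ⟨r, hr⟩ : ∃ r, r = (444083/400000) - s := ⟨_, rfl⟩
  have h3 : 0 ≤ t := by linarith
  have h4 : 0 ≤ r := by linarith
  have key : (-6561/10000) + (35576253/20000000)*s + (-81/100)*s^2 + (-156947/250000)*s^3 + (3203/10000)*s^5 = (1631346483951834959240259105/12689898225293177034416)*t^0*r^5 + (6030728833327818929859821245/6344949112646588517208)*t^1*r^4 + (4295725198714589721456706581/1586237278161647129302)*t^2*r^3 + (14735989985771274666724558689/3965593195404117823255)*t^3*r^2 + (48911253100831397737071026941/19827965977020589116275)*t^4*r^1 + (315770644595755158233818079058/495699149425514727906875)*t^5*r^0 := by rw [ht, hr]; ring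
  rw [key]; positivity

theorem d2p_a_5 (s : ℝ) (h1 : 444083/400000 ≤ s) (h2 : s ≤ 229607/200000) : 0 ≤ (-6561/10000) + (35576253/20000000)*s + (-81/100)*s^2 + (-156947/250000)*s^3 + (3203/10000)*s^5 := by
  obtain ⟨t, ht⟩ : ∃ t, t = s - (444083/400000) := ⟨_, rfl⟩
  obtain ⟨r, hr⟩ : ∃ r, r = (229607/200000) - s := ⟨_, rfl⟩
  have h3 : 0 ≤ t := by linarith
  have h4 : 0 ≤ r := by linarith
  have key : (-6561/10000) + (35576253/20000000)*s + (-81/100)*s^2 + (-156947/250000)*s^3 + (3203/10000)*s^5 = (157885322297877579116909039529/7931186390808235646510000)*t^0*r^5 + (114549850694737874332685991941/793118639080823564651000)*t^1*r^4 + (80507514325059536652041128689/198279659770205891162750)*t^2*r^3 + (54814578798708628310361601581/99139829885102945581375)*t^3*r^2 + (36279638660277669661053104249/99139829885102945581375)*t^4*r^1 + (46868419852337786612805753642/495699149425514727906875)*t^5*r^0 := by rw [ht, hr]; ring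
  rw [key]; positivity

theorem d2p_a_6 (s : ℝ) (h1 : 229607/200000 ≤ s) (h2 : s ≤ 122369/100000) : 0 ≤ (-6561/10000) + (35576253/20000000)*s + (-81/100)*s^2 + (-156947/250000)*s^3 + (3203/10000)*s^5 := by
  obtain ⟨t, ht⟩ : ∃ t, t = s - (229607/200000) := ⟨_, rfl⟩
  obtain ⟨r, hr⟩ : ∃ r, r = (122369/100000) - s := ⟨_, rfl⟩
  have h3 : 0 ≤ t := by linarith
  have h4 : 0 ≤ r := by linarith
  have key : (-6561/10000) + (35576253/20000000)*s + (-81/100)*s^2 + (-156947/250000)*s^3 + (3203/10000)*s^5 = (23434209926168893306402876821/7931186390808235646510000)*t^0*r^5 + (17011495559114505129077763107/793118639080823564651000)*t^1*r^4 + (12011159043140662525417216869/198279659770205891162750)*t^2*r^3 + (8249639880297644570707143123/99139829885102945581375)*t^3*r^2 + (5526060164623837355788543541/99139829885102945581375)*t^4*r^1 + (7242611197859171357293970694/495699149425514727906875)*t^5*r^0 := by rw [ht, hr]; ring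
  rw [key]; positivity

theorem d2p_a_7 (s : ℝ) (h1 : 122369/100000 ≤ s) (h2 : s ≤ 11/8) : 0 ≤ (-6561/10000) + (35576253/20000000)*s + (-81/100)*s^2 + (-156947/250000)*s^3 + (3203/10000)*s^5 := by
  obtain ⟨t, ht⟩ : ∃ t, t = s - (122369/100000) := ⟨_, rfl⟩
  obtain ⟨r, hr⟩ : ∃ r, r = (11/8) - s := ⟨_, rfl⟩
  have h3 : 0 ≤ t := by linarith
  have h4 : 0 ≤ r := by linarith
  have key : (-6561/10000) + (35576253/20000000)*s + (-81/100)*s^2 + (-156947/250000)*s^3 + (3203/10000)*s^5 = (3621305598929585678646985347/7931186390808235646510000)*t^0*r^5 + (10675713264329839360304825/3172474556323294258604)*t^1*r^4 + (7685029282920891543798750/793118639080823564651)*t^2*r^3 + (10807226605793343328125000/793118639080823564651)*t^3*r^2 + (7434698155710683593750000/793118639080823564651)*t^4*r^1 + (2005957112548828125000000/793118639080823564651)*t^5*r^0 := by rw [ht, hr]; ring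
  rw [key]; positivity

theorem d2p_a (s : ℝ) (h1 : 53619/50000 ≤ s) (h2 : s ≤ 11/8) : 0 ≤ (-6561/10000) + (35576253/20000000)*s + (-81/100)*s^2 + (-156947/250000)*s^3 + (3203/10000)*s^5 := by
  rcases le_total s (6878363/6400000) with h | h
  · exact d2p_a_0 s (by linarith) (by linarith)
  rcases le_total s (3446747/3200000) with h | h
  · exact d2p_a_1 s (by linarith) (by linarith)
  rcases le_total s (1730939/1600000) with h | h
  · exact d2p_a_2 s (by linarith) (by linarith)
  rcases le_total s (174607/160000) with h | h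
  · exact d2p_a_3 s (by linarith) (by linarith)
  rcases le_total s (444083/400000) with h | h
  · exact d2p_a_4 s (by linarith) (by linarith)
  rcases le_total s (229607/200000) with h | h
  · exact d2p_a_5 s (by linarith) (by linarith)
  rcases le_total s (122369/100000) with h | h
  · exact d2p_a_6 s (by linarith) (by linarith)
  exact d2p_a_7 s (by linarith) (by linarith)

theorem d2p_b (s : ℝ) (h1 : 1333333/1000000 ≤ s) (h2 : s ≤ 11/8) : 0 ≤ (-6561/10000) + (20333169/10000000)*s + (-81/100)*s^2 + (-7459787/9000000)*s^3 + (3203/10000)*s^5 := by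
  obtain ⟨t, ht⟩ : ∃ t, t = s - (1333333/1000000) := ⟨_, rfl⟩
  obtain ⟨r, hr⟩ : ∃ r, r = (11/8) - s := ⟨_, rfl⟩
  have h3 : 0 ≤ t := by linarith
  have h4 : 0 ≤ r := by linarith
  have key : (-6561/10000) + (20333169/10000000)*s + (-81/100)*s^2 + (-7459787/9000000)*s^3 + (3203/10000)*s^5 = (1172573037297967485849409629511/11303258832465335648379630000)*t^0*r^5 + (386848859265676604229302267125/2260651766493067129675926)*t^1*r^4 + (826695239424717443266990375000/1130325883246533564837963)*t^2*r^3 + (1323879337812807896453125000000/1130325883246533564837963)*t^3*r^2 + (940842315827138867187500000000/1130325883246533564837963)*t^4*r^1 + (250351407153320312500000000000/1130325883246533564837963)*t^5*r^0 := by rw [ht, hr]; ring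
  rw [key]; positivity

theorem d2p_c (s : ℝ) (h1 : 53619/50000 ≤ s) (h2 : s ≤ 666667/500000) : 0 ≤ (-81/100) + (162049/100000)*s + -1*s^2 + (901/5000)*s^3 := by
  obtain ⟨t, ht⟩ : ∃ t, t = s - (53619/50000) := ⟨_, rfl⟩
  obtain ⟨r, hr⟩ : ∃ r, r = (666667/500000) - s := ⟨_, rfl⟩
  have h3 : 0 ≤ t := by linarith
  have h4 : 0 ≤ r := by linarith
  have key : (-81/100) + (162049/100000)*s + -1*s^2 + (901/5000)*s^3 = (7056095868759/11106363724206665)*t^0*r^3 + (159099048369442061/111063637242066650)*t^1*r^2 + (1391163172058103573/1110636372420666500)*t^2*r^1 + (10149722607629663/11106363724206665000)*t^3*r^0 := by rw [ht, hr]; ring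
  rw [key]; positivity

theorem d2p (q w : ℝ) (hq : 0 ≤ q) (hqa : 23/20 ≤ q) (hqb : q ≤ 16/9) (hw : 0 ≤ w) (hwW : w ≤ 3/20) :
    T3 (9/10) q w ≤ ((-17951/100000)) + (901/5000) * q + (3203/10000) * w := by
  refine maj3 (9/10) ((-17951/100000)) (901/5000) (3203/10000) (23/20) (16/9) (11/8) (3/20) (by norm_num) (by norm_num) (by norm_num) (by norm_num) (by norm_num) ?_ ?_ ?_ q w hq hqa hqb hw hwW
  · intro s h1 h2 h3
    have := d2p_a s (leSq _ _ _ (by norm_num) (by linarith) (by norm_num) h2) h3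
    linarith
  · intro s h1 h2 h3
    have := d2p_b s (leSq _ _ _ (by norm_num) (by linarith) (by norm_num) h2) h3
    linarith
  · intro s h1 h2 h3
    have := d2p_c s (leSq _ _ _ (by norm_num) (by linarith) (by norm_num) h2) (geSq _ _ _ (by norm_num) (by norm_num) h3)
    linarith

theorem eb16_a (s : ℝ) (h1 : 9/10 ≤ s) (h2 : s ≤ 1345363/1000000) : 0 ≤ (9/10) + (-3469/4000)*s + (59/400)*s^2 := by
  obtain ⟨t, ht⟩ : ∃ t, t = s - (9/10) := ⟨_, rfl⟩
  obtain ⟨r, hr⟩ : ∃ r, r = (1345363/1000000) - s := ⟨_, rfl⟩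
  have h3 : 0 ≤ t := by linarith
  have h4 : 0 ≤ r := by linarith
  have key : (9/10) + (-3469/4000)*s + (59/400)*s^2 = (238950000000/198348201769)*t^0*r^2 + (209902814750/198348201769)*t^1*r^1 + (83669804371/79339280707600)*t^2*r^0 := by rw [ht, hr]; ring
  rw [key]; positivity

theorem eb16 (q : ℝ) (hq : 0 ≤ q) (hqb : q ≤ 1) : E3 (9/10) q ≤ (59/400) * q := by
  refine majE (9/10) (59/400) 1 (by norm_num) ?_ q hq hqb
  intro s h1 h2
  have := eb16_a s h1 (geSq _ _ _ (by norm_num) (by norm_num) h2)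
  linarith

theorem d2bL_a_0 (s : ℝ) (h1 : 204939/100000 ≤ s) (h2 : s ≤ 217439/100000) : 0 ≤ (-81/100) + (165001/100000)*s + -1*s^2 + (18971/100000)*s^3 := by
  obtain ⟨t, ht⟩ : ∃ t, t = s - (204939/100000) := ⟨_, rfl⟩
  obtain ⟨r, hr⟩ : ∃ r, r = (217439/100000) - s := ⟨_, rfl⟩
  have h3 : 0 ≤ t := by linarith
  have h4 : 0 ≤ r := by linarith
  have key : (-81/100) + (165001/100000)*s + -1*s^2 + (18971/100000)*s^3 = (443144065889908449/195312500000000000)*t^0*r^3 + (599127730710637847/195312500000000000)*t^1*r^2 + (128775342970300347/195312500000000000)*t^2*r^1 + (9844412524570949/195312500000000000)*t^3*r^0 := by rw [ht, hr]; ring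
  rw [key]; positivity

theorem d2bL_a_1 (s : ℝ) (h1 : 217439/100000 ≤ s) (h2 : s ≤ 55141/25000) : 0 ≤ (-81/100) + (165001/100000)*s + -1*s^2 + (18971/100000)*s^3 := by
  obtain ⟨t, ht⟩ : ∃ t, t = s - (217439/100000) := ⟨_, rfl⟩
  obtain ⟨r, hr⟩ : ∃ r, r = (55141/25000) - s := ⟨_, rfl⟩
  have h3 : 0 ≤ t := by linarith
  have h4 : 0 ≤ r := by linarith
  have key : (-81/100) + (165001/100000)*s + -1*s^2 + (18971/100000)*s^3 = (9844412524570949/3051757812500000)*t^0*r^3 + (1180677806141493/762939453125000)*t^1*r^2 + (194161095118967/190734863281250)*t^2*r^1 + (275225868641182/95367431640625)*t^3*r^0 := by rw [ht, hr]; ring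
  rw [key]; positivity

theorem d2bL_a_2 (s : ℝ) (h1 : 55141/25000 ≤ s) (h2 : s ≤ 223689/100000) : 0 ≤ (-81/100) + (165001/100000)*s + -1*s^2 + (18971/100000)*s^3 := by
  obtain ⟨t, ht⟩ : ∃ t, t = s - (55141/25000) := ⟨_, rfl⟩
  obtain ⟨r, hr⟩ : ∃ r, r = (223689/100000) - s := ⟨_, rfl⟩
  have h3 : 0 ≤ t := by linarith
  have h4 : 0 ≤ r := by linarith
  have key : (-81/100) + (165001/100000)*s + -1*s^2 + (18971/100000)*s^3 = (275225868641182/95367431640625)*t^0*r^3 + (3108549328575217/190734863281250)*t^1*r^2 + (24495783673791493/762939453125000)*t^2*r^1 + (57632522209089699/3051757812500000)*t^3*r^0 := by rw [ht, hr]; ring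
  rw [key]; positivity

theorem d2bL_a_3 (s : ℝ) (h1 : 223689/100000 ≤ s) (h2 : s ≤ 229939/100000) : 0 ≤ (-81/100) + (165001/100000)*s + -1*s^2 + (18971/100000)*s^3 := by
  obtain ⟨t, ht⟩ : ∃ t, t = s - (223689/100000) := ⟨_, rfl⟩
  obtain ⟨r, hr⟩ : ∃ r, r = (229939/100000) - s := ⟨_, rfl⟩
  have h3 : 0 ≤ t := by linarith
  have h4 : 0 ≤ r := by linarith
  have key : (-81/100) + (165001/100000)*s + -1*s^2 + (18971/100000)*s^3 = (57632522209089699/24414062500000000)*t^0*r^3 + (322726430491475347/24414062500000000)*t^1*r^2 + (579227640332244097/24414062500000000)*t^2*r^1 + (318765323846733449/24414062500000000)*t^3*r^0 := by rw [ht, hr]; ring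
  rw [key]; positivity

theorem d2bL_a_4 (s : ℝ) (h1 : 229939/100000 ≤ s) (h2 : s ≤ 254939/100000) : 0 ≤ (-81/100) + (165001/100000)*s + -1*s^2 + (18971/100000)*s^3 := by
  obtain ⟨t, ht⟩ : ∃ t, t = s - (229939/100000) := ⟨_, rfl⟩
  obtain ⟨r, hr⟩ : ∃ r, r = (254939/100000) - s := ⟨_, rfl⟩
  have h3 : 0 ≤ t := by linarith
  have h4 : 0 ≤ r := by linarith
  have key : (-81/100) + (165001/100000)*s + -1*s^2 + (18971/100000)*s^3 = (318765323846733449/1562500000000000000)*t^0*r^3 + (2464569296372025347/1562500000000000000)*t^1*r^2 + (5901916563078850347/1562500000000000000)*t^2*r^1 + (4052534465553558449/1562500000000000000)*t^3*r^0 := by rw [ht, hr]; ring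
  rw [key]; positivity

theorem d2bL_a_5 (s : ℝ) (h1 : 254939/100000 ≤ s) : 0 ≤ (-81/100) + (165001/100000)*s + -1*s^2 + (18971/100000)*s^3 := by
  obtain ⟨t, ht⟩ : ∃ t, t = s - (254939/100000) := ⟨_, rfl⟩
  have h3 : 0 ≤ t := by linarith
  have h4 : s = (254939/100000) + t := by linarith
  have key : (-81/100) + (165001/100000)*s + -1*s^2 + (18971/100000)*s^3 = (4052534465553558449/100000000000000000000)*t^0 + (250227473343273/1000000000000000)*t^1 + (4509343307/10000000000)*t^2 + (18971/100000)*t^3 := by rw [h4]; ring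
  rw [key]; positivity

theorem d2bL_a (s : ℝ) (h1 : 204939/100000 ≤ s) : 0 ≤ (-81/100) + (165001/100000)*s + -1*s^2 + (18971/100000)*s^3 := by
  rcases le_total s (217439/100000) with h | h
  · exact d2bL_a_0 s (by linarith) (by linarith)
  rcases le_total s (55141/25000) with h | h
  · exact d2bL_a_1 s (by linarith) (by linarith)
  rcases le_total s (223689/100000) with h | h
  · exact d2bL_a_2 s (by linarith) (by linarith)
  rcases le_total s (229939/100000) with h | h
  · exact d2bL_a_3 s (by linarith) (by linarith)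
  rcases le_total s (254939/100000) with h | h
  · exact d2bL_a_4 s (by linarith) (by linarith)
  exact d2bL_a_5 s (by linarith)

theorem d2bL_b_0 (s : ℝ) (h1 : 204939/100000 ≤ s) (h2 : s ≤ 211189/100000) : 0 ≤ (6561/10000) + (-272864133/200000000)*s + (15022249/10000000)*s^3 + -1*s^4 + (18971/100000)*s^5 := by
  obtain ⟨t, ht⟩ : ∃ t, t = s - (204939/100000) := ⟨_, rfl⟩
  obtain ⟨r, hr⟩ : ∃ r, r = (211189/100000) - s := ⟨_, rfl⟩
  have h3 : 0 ≤ t := by linarith
  have h4 : 0 ≤ r := by linarith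
  have key : (6561/10000) + (-272864133/200000000)*s + (15022249/10000000)*s^3 + -1*s^4 + (18971/100000)*s^5 = (8635516339361858418364848729/953674316406250000000000)*t^0*r^5 + (6965271208275306466049917479/190734863281250000000000)*t^1*r^4 + (5437645616025469687524048729/95367431640625000000000)*t^2*r^3 + (4083706059409489440209117479/95367431640625000000000)*t^3*r^2 + (2937399738607380616683248729/190734863281250000000000)*t^4*r^1 + (2035735478736597074368317479/953674316406250000000000)*t^5*r^0 := by rw [ht, hr]; ring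
  rw [key]; positivity

theorem d2bL_b_1 (s : ℝ) (h1 : 211189/100000 ≤ s) (h2 : s ≤ 217439/100000) : 0 ≤ (6561/10000) + (-272864133/200000000)*s + (15022249/10000000)*s^3 + -1*s^4 + (18971/100000)*s^5 := by
  obtain ⟨t, ht⟩ : ∃ t, t = s - (211189/100000) := ⟨_, rfl⟩
  obtain ⟨r, hr⟩ : ∃ r, r = (217439/100000) - s := ⟨_, rfl⟩
  have h3 : 0 ≤ t := by linarith
  have h4 : 0 ≤ r := by linarith
  have key : (6561/10000) + (-272864133/200000000)*s + (15022249/10000000)*s^3 + -1*s^4 + (18971/100000)*s^5 = (2035735478736597074368317479/953674316406250000000000)*t^0*r^5 + (1134071218865813532053386229/190734863281250000000000)*t^1*r^4 + (477049019926355270949392479/95367431640625000000000)*t^2*r^3 + (101677707035676148478211229/95367431640625000000000)*t^3*r^2 + (48027730248668986905467479/190734863281250000000000)*t^4*r^1 + (359412086112231003028036229/953674316406250000000000)*t^5*r^0 := by rw [ht, hr]; ring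
  rw [key]; positivity

theorem d2bL_b_2 (s : ℝ) (h1 : 217439/100000 ≤ s) (h2 : s ≤ 229939/100000) : 0 ≤ (6561/10000) + (-272864133/200000000)*s + (15022249/10000000)*s^3 + -1*s^4 + (18971/100000)*s^5 := by
  obtain ⟨t, ht⟩ : ∃ t, t = s - (217439/100000) := ⟨_, rfl⟩
  obtain ⟨r, hr⟩ : ∃ r, r = (229939/100000) - s := ⟨_, rfl⟩
  have h3 : 0 ≤ t := by linarith
  have h4 : 0 ≤ r := by linarith
  have key : (6561/10000) + (-272864133/200000000)*s + (15022249/10000000)*s^3 + -1*s^4 + (18971/100000)*s^5 = (359412086112231003028036229/30517578125000000000000000)*t^0*r^5 + (982180797839355035273173729/6103515625000000000000000)*t^1*r^4 + (3065086840168755778299561229/3051757812500000000000000)*t^2*r^3 + (6954634185475610966482198729/3051757812500000000000000)*t^3*r^2 + (13049207550007168646696086229/6103515625000000000000000)*t^4*r^1 + (21804861883628840928316223729/30517578125000000000000000)*t^5*r^0 := by rw [ht, hr]; ring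
  rw [key]; positivity

theorem d2bL_b_3 (s : ℝ) (h1 : 229939/100000 ≤ s) (h2 : s ≤ 254939/100000) : 0 ≤ (6561/10000) + (-272864133/200000000)*s + (15022249/10000000)*s^3 + -1*s^4 + (18971/100000)*s^5 := by
  obtain ⟨t, ht⟩ : ∃ t, t = s - (229939/100000) := ⟨_, rfl⟩
  obtain ⟨r, hr⟩ : ∃ r, r = (254939/100000) - s := ⟨_, rfl⟩
  have h3 : 0 ≤ t := by linarith
  have h4 : 0 ≤ r := by linarith
  have key : (6561/10000) + (-272864133/200000000)*s + (15022249/10000000)*s^3 + -1*s^4 + (18971/100000)*s^5 = (21804861883628840928316223729/976562500000000000000000000)*t^0*r^5 + (39316170550872185491556498729/195312500000000000000000000)*t^1*r^4 + (67471803094475988460421773729/97656250000000000000000000)*t^2*r^3 + (109920199113363546709912048729/97656250000000000000000000)*t^3*r^2 + (171232521944348782115027323729/195312500000000000000000000)*t^4*r^1 + (257087922334011241550767598729/976562500000000000000000000)*t^5*r^0 := by rw [ht, hr]; ring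
  rw [key]; positivity

theorem d2bL_b_4 (s : ℝ) (h1 : 254939/100000 ≤ s) : 0 ≤ (6561/10000) + (-272864133/200000000)*s + (15022249/10000000)*s^3 + -1*s^4 + (18971/100000)*s^5 := by
  obtain ⟨t, ht⟩ : ∃ t, t = s - (254939/100000) := ⟨_, rfl⟩
  have h3 : 0 ≤ t := by linarith
  have h4 : s = (254939/100000) + t := by linarith
  have key : (6561/10000) + (-272864133/200000000)*s + (15022249/10000000)*s^3 + -1*s^4 + (18971/100000)*s^5 = (257087922334011241550767598729/1000000000000000000000000000000)*t^0 + (3434216015586498377429611/2000000000000000000000000)*t^1 + (39268924093883558449/10000000000000000000)*t^2 + (363465647781091/100000000000000)*t^3 + (2836447769/2000000000)*t^4 + (18971/100000)*t^5 := by rw [h4]; ring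
  rw [key]; positivity

theorem d2bL_b (s : ℝ) (h1 : 204939/100000 ≤ s) : 0 ≤ (6561/10000) + (-272864133/200000000)*s + (15022249/10000000)*s^3 + -1*s^4 + (18971/100000)*s^5 := by
  rcases le_total s (211189/100000) with h | h
  · exact d2bL_b_0 s (by linarith) (by linarith)
  rcases le_total s (217439/100000) with h | h
  · exact d2bL_b_1 s (by linarith) (by linarith)
  rcases le_total s (229939/100000) with h | h
  · exact d2bL_b_2 s (by linarith) (by linarith)
  rcases le_total s (254939/100000) with h | h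
  · exact d2bL_b_3 s (by linarith) (by linarith)
  exact d2bL_b_4 s (by linarith)

theorem d2bL (q w : ℝ) (hq : 21/5 ≤ q) (hw : 0 ≤ w) (hwW : w ≤ 3/20) :
    T3 (9/10) q w ≤ ((-14999/100000)) + (18971/100000) * q + (49/1250) * w := by
  refine majL (9/10) ((-14999/100000)) (18971/100000) (49/1250) (21/5) (3/20) (by norm_num) (by norm_num) (by norm_num) ?_ ?_ q w hq hw hwW
  · intro s h1 h2
    have := d2bL_a s (leSq _ _ _ (by norm_num) (by linarith) (by norm_num) h2)
    linarith
  · intro s h1 h2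
    have := d2bL_b s (leSq _ _ _ (by norm_num) (by linarith) (by norm_num) h2)
    linarith

theorem eb17_a (s : ℝ) (h1 : 9/10 ≤ s) (h2 : s ≤ 1251/1000) : 0 ≤ (9/10) + (-17651/20000)*s + (261/2000)*s^2 := by
  obtain ⟨t, ht⟩ : ∃ t, t = s - (9/10) := ⟨_, rfl⟩
  obtain ⟨r, hr⟩ : ∃ r, r = (1251/1000) - s := ⟨_, rfl⟩
  have h3 : 0 ≤ t := by linarith
  have h4 : 0 ≤ r := by linarith
  have key : (9/10) + (-17651/20000)*s + (261/2000)*s^2 = (290/169)*t^0*r^2 + (144811/91260)*t^1*r^1 + (12043/9126000)*t^2*r^0 := by rw [ht, hr]; ring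
  rw [key]; positivity

theorem eb17 (q : ℝ) (hq : 0 ≤ q) (hqb : q ≤ 151/200) : E3 (9/10) q ≤ (261/2000) * q := by
  refine majE (9/10) (261/2000) (151/200) (by norm_num) ?_ q hq hqb
  intro s h1 h2
  have := eb17_a s h1 (geSq _ _ _ (by norm_num) (by norm_num) h2)
  linarith

theorem eb18_a (s : ℝ) (h1 : 9/10 ≤ s) (h2 : s ≤ 1272793/1000000) : 0 ≤ (9/10) + (-87859/100000)*s + (1349/10000)*s^2 := by
  obtain ⟨t, ht⟩ : ∃ t, t = s - (9/10) := ⟨_, rfl⟩
  obtain ⟨r, hr⟩ : ∃ r, r = (1272793/1000000) - s := ⟨_, rfl⟩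
  have h3 : 0 ≤ t := by linarith
  have h4 : 0 ≤ r := by linarith
  have key : (9/10) + (-87859/100000)*s + (1349/10000)*s^2 = (218538000000/138974620849)*t^0*r^2 + (200065394390/138974620849)*t^1*r^1 + (2750707425301/1389746208490000)*t^2*r^0 := by rw [ht, hr]; ring
  rw [key]; positivity

theorem eb18 (q : ℝ) (hq : 0 ≤ q) (hqb : q ≤ 81/100) : E3 (9/10) q ≤ (1349/10000) * q := by
  refine majE (9/10) (1349/10000) (81/100) (by norm_num) ?_ q hq hqb
  intro s h1 h2
  have := eb18_a s h1 (geSq _ _ _ (by norm_num) (by norm_num) h2)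
  linarith

theorem eb19_a (s : ℝ) (h1 : 9/10 ≤ s) (h2 : s ≤ 1305757/1000000) : 0 ≤ (9/10) + (-87319/100000)*s + (1409/10000)*s^2 := by
  obtain ⟨t, ht⟩ : ∃ t, t = s - (9/10) := ⟨_, rfl⟩
  obtain ⟨r, hr⟩ : ∃ r, r = (1305757/1000000) - s := ⟨_, rfl⟩
  have h3 : 0 ≤ t := by linarith
  have h4 : 0 ≤ r := by linarith
  have key : (9/10) + (-87319/100000)*s + (1409/10000)*s^2 = (228258000000/164638743049)*t^0*r^2 + (205121135510/164638743049)*t^1*r^1 + (607344056041/1646387430490000)*t^2*r^0 := by rw [ht, hr]; ring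
  rw [key]; positivity

theorem eb19 (q : ℝ) (hq : 0 ≤ q) (hqb : q ≤ 179/200) : E3 (9/10) q ≤ (1409/10000) * q := by
  refine majE (9/10) (1409/10000) (179/200) (by norm_num) ?_ q hq hqb
  intro s h1 h2
  have := eb19_a s h1 (geSq _ _ _ (by norm_num) (by norm_num) h2)
  linarith

theorem eb20_a (s : ℝ) (h1 : 9/10 ≤ s) (h2 : s ≤ 1337909/1000000) : 0 ≤ (9/10) + (-86833/100000)*s + (1463/10000)*s^2 := by
  obtain ⟨t, ht⟩ : ∃ t, t = s - (9/10) := ⟨_, rfl⟩
  obtain ⟨r, hr⟩ : ∃ r, r = (1337909/1000000) - s := ⟨_, rfl⟩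
  have h3 : 0 ≤ t := by linarith
  have h4 : 0 ≤ r := by linarith
  have key : (9/10) + (-86833/100000)*s + (1463/10000)*s^2 = (237006000000/191764292281)*t^0*r^2 + (209081434090/191764292281)*t^1*r^1 + (1305500507103/1917642922810000)*t^2*r^0 := by rw [ht, hr]; ring
  rw [key]; positivity

theorem eb20 (q : ℝ) (hq : 0 ≤ q) (hqb : q ≤ 49/50) : E3 (9/10) q ≤ (1463/10000) * q := by
  refine majE (9/10) (1463/10000) (49/50) (by norm_num) ?_ q hq hqb
  intro s h1 h2
  have := eb20_a s h1 (geSq _ _ _ (by norm_num) (by norm_num) h2)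
  linarith

theorem d2b0_3_a (s : ℝ) (h1 : 9/10 ≤ s) (h2 : s ≤ 27/25) : 0 ≤ (-6561/10000) + (154935423/100000000)*s + (-81/100)*s^2 + (-2432459/10000000)*s^3 + (16109/100000)*s^5 := by
  obtain ⟨t, ht⟩ : ∃ t, t = s - (9/10) := ⟨_, rfl⟩
  obtain ⟨r, hr⟩ : ∃ r, r = (27/25) - s := ⟨_, rfl⟩
  have h3 : 0 ≤ t := by linarith
  have h4 : 0 ≤ r := by linarith
  have key : (-6561/10000) + (154935423/100000000)*s + (-81/100)*s^2 + (-2432459/10000000)*s^3 + (16109/100000)*s^5 = (25/324)*t^0*r^5 + (59933/2160)*t^1*r^4 + (3892873/64800)*t^2*r^3 + (7659613/162000)*t^3*r^2 + (4692493/162000)*t^4*r^1 + (9619517/675000)*t^5*r^0 := by rw [ht, hr]; ring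
  rw [key]; positivity

theorem d2b0_3_b (s : ℝ) (h1 : 9/10 ≤ s) (h2 : s ≤ 27/25) : 0 ≤ (-6561/10000) + (1568777139/1000000000)*s + (-81/100)*s^2 + (-1304829/5000000)*s^3 + (16109/100000)*s^5 := by
  obtain ⟨t, ht⟩ : ∃ t, t = s - (9/10) := ⟨_, rfl⟩
  obtain ⟨r, hr⟩ : ∃ r, r = (27/25) - s := ⟨_, rfl⟩
  have h3 : 0 ≤ t := by linarith
  have h4 : 0 ≤ r := by linarith
  have key : (-6561/10000) + (1568777139/1000000000)*s + (-81/100)*s^2 + (-1304829/5000000)*s^3 + (16109/100000)*s^5 = (10465/432)*t^0*r^5 + (27209/216)*t^1*r^4 + (182953/900)*t^2*r^3 + (3469531/27000)*t^3*r^2 + (3664861/108000)*t^4*r^1 + (3209353/450000)*t^5*r^0 := by rw [ht, hr]; ring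
  rw [key]; positivity

theorem d2b0_3 (q w : ℝ) (hq : 0 ≤ q) (hqa : 7/10 ≤ q) (hqb : q ≤ 81/100) (hw : 0 ≤ w) (hwW : w ≤ 3/20) :
    T3 (9/10) q w ≤ ((-3981/100000)) + (569/10000) * q + (16109/100000) * w := by
  refine maj3 (9/10) ((-3981/100000)) (569/10000) (16109/100000) (7/10) (81/100) (27/25) (3/20) (by norm_num) (by norm_num) (by norm_num) (by norm_num) (by norm_num) ?_ ?_ ?_ q w hq hqa hqb hw hwW
  · intro s h1 h2 h3
    have := d2b0_3_a s h1 h3
    linarith
  · intro s h1 h2 h3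
    have := d2b0_3_b s h1 h3
    linarith
  · intro s h1 h2 h3
    have : s = 9/10 := le_antisymm (geSq _ _ _ (by norm_num) (by norm_num) h3) h1
    rw [this]
    norm_num

theorem d2b1_2_a_0 (s : ℝ) (h1 : 9/10 ≤ s) (h2 : s ≤ 191/200) : 0 ≤ (-6561/10000) + (1591059267/1000000000)*s + (-81/100)*s^2 + (-1632231/5000000)*s^3 + (20151/100000)*s^5 := by
  obtain ⟨t, ht⟩ : ∃ t, t = s - (9/10) := ⟨_, rfl⟩
  obtain ⟨r, hr⟩ : ∃ r, r = (191/200) - s := ⟨_, rfl⟩
  have h3 : 0 ≤ t := by linarith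
  have h4 : 0 ≤ r := by linarith
  have key : (-6561/10000) + (1591059267/1000000000)*s + (-81/100)*s^2 + (-1632231/5000000)*s^3 + (20151/100000)*s^5 = (244384128/161051)*t^0*r^5 + (6184276128/805255)*t^1*r^4 + (57207487032/4026275)*t^2*r^3 + (244641044124/20131375)*t^3*r^2 + (777513801663/161051000)*t^4*r^1 + (11624628573801/16105100000)*t^5*r^0 := by rw [ht, hr]; ring
  rw [key]; positivity

theorem d2b1_2_a_1 (s : ℝ) (h1 : 191/200 ≤ s) (h2 : s ≤ 393/400) : 0 ≤ (-6561/10000) + (1591059267/1000000000)*s + (-81/100)*s^2 + (-1632231/5000000)*s^3 + (20151/100000)*s^5 := by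
  obtain ⟨t, ht⟩ : ∃ t, t = s - (191/200) := ⟨_, rfl⟩
  obtain ⟨r, hr⟩ : ∃ r, r = (393/400) - s := ⟨_, rfl⟩
  have h3 : 0 ≤ t := by linarith
  have h4 : 0 ≤ r := by linarith
  have key : (-6561/10000) + (1591059267/1000000000)*s + (-81/100)*s^2 + (-1632231/5000000)*s^3 + (20151/100000)*s^5 = (11624628573801/503284375)*t^0*r^5 + (19323609688143/201313750)*t^1*r^4 + (30891284494569/201313750)*t^2*r^3 + (47266075551087/402627500)*t^3*r^2 + (69155580259881/1610510000)*t^4*r^1 + (98318124769743/16105100000)*t^5*r^0 := by rw [ht, hr]; ring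
  rw [key]; positivity

theorem d2b1_2_a_2 (s : ℝ) (h1 : 393/400 ≤ s) (h2 : s ≤ 101/100) : 0 ≤ (-6561/10000) + (1591059267/1000000000)*s + (-81/100)*s^2 + (-1632231/5000000)*s^3 + (20151/100000)*s^5 := by
  obtain ⟨t, ht⟩ : ∃ t, t = s - (393/400) := ⟨_, rfl⟩
  obtain ⟨r, hr⟩ : ∃ r, r = (101/100) - s := ⟨_, rfl⟩
  have h3 : 0 ≤ t := by linarith
  have h4 : 0 ≤ r := by linarith
  have key : (-6561/10000) + (1591059267/1000000000)*s + (-81/100)*s^2 + (-1632231/5000000)*s^3 + (20151/100000)*s^5 = (98318124769743/16105100000)*t^0*r^5 + (14581272254931/805255000)*t^1*r^4 + (1818259950267/100656875)*t^2*r^3 + (879163074396/100656875)*t^3*r^2 + (525364373304/100656875)*t^4*r^1 + (1281553902432/503284375)*t^5*r^0 := by rw [ht, hr]; ring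
  rw [key]; positivity

theorem d2b1_2_a_3 (s : ℝ) (h1 : 101/100 ≤ s) (h2 : s ≤ 28/25) : 0 ≤ (-6561/10000) + (1591059267/1000000000)*s + (-81/100)*s^2 + (-1632231/5000000)*s^3 + (20151/100000)*s^5 := by
  obtain ⟨t, ht⟩ : ∃ t, t = s - (101/100) := ⟨_, rfl⟩
  obtain ⟨r, hr⟩ : ∃ r, r = (28/25) - s := ⟨_, rfl⟩
  have h3 : 0 ≤ t := by linarith
  have h4 : 0 ≤ r := by linarith
  have key : (-6561/10000) + (1591059267/1000000000)*s + (-81/100)*s^2 + (-1632231/5000000)*s^3 + (20151/100000)*s^5 = (40048559451/16105100000)*t^0*r^5 + (4205382831/100656875)*t^1*r^4 + (141074822061/402627500)*t^2*r^3 + (97461281898/100656875)*t^3*r^2 + (211235304051/201313750)*t^4*r^1 + (197451398376/503284375)*t^5*r^0 := by rw [ht, hr]; ring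
  rw [key]; positivity

theorem d2b1_2_a (s : ℝ) (h1 : 9/10 ≤ s) (h2 : s ≤ 28/25) : 0 ≤ (-6561/10000) + (1591059267/1000000000)*s + (-81/100)*s^2 + (-1632231/5000000)*s^3 + (20151/100000)*s^5 := by
  rcases le_total s (191/200) with h | h
  · exact d2b1_2_a_0 s (by linarith) (by linarith)
  rcases le_total s (393/400) with h | h
  · exact d2b1_2_a_1 s (by linarith) (by linarith)
  rcases le_total s (101/100) with h | h
  · exact d2b1_2_a_2 s (by linarith) (by linarith)
  exact d2b1_2_a_3 s (by linarith) (by linarith)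

theorem d2b1_2_b_0 (s : ℝ) (h1 : 989949/1000000 ≤ s) (h2 : s ≤ 2109949/2000000) : 0 ≤ (-6561/10000) + (814564593/500000000)*s + (-81/100)*s^2 + (-3607029/10000000)*s^3 + (20151/100000)*s^5 := by
  obtain ⟨t, ht⟩ : ∃ t, t = s - (989949/1000000) := ⟨_, rfl⟩
  obtain ⟨r, hr⟩ : ∃ r, r = (2109949/2000000) - s := ⟨_, rfl⟩
  have h3 : 0 ≤ t := by linarith
  have h4 : 0 ≤ r := by linarith
  have key : (-6561/10000) + (814564593/500000000)*s + (-81/100)*s^2 + (-3607029/10000000)*s^3 + (20151/100000)*s^5 = (450467336950049503033284883617099/116256836613726302267735159375)*t^0*r^5 + (725614032703202901910438876737099/46502734645490520907094063750)*t^1*r^4 + (1113054382714031463051897469857099/46502734645490520907094063750)*t^2*r^3 + (1610199977503403021945660662977099/93005469290981041814188127500)*t^3*r^2 + (2186172716433419654079728456097099/372021877163924167256752510000)*t^4*r^1 + (2864660508750617674942100849217099/3720218771639241672567525100000)*t^5*r^0 := by rw [ht,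 hr]; ring
  rw [key]; positivity

theorem d2b1_2_b_1 (s : ℝ) (h1 : 2109949/2000000 ≤ s) (h2 : s ≤ 28/25) : 0 ≤ (-6561/10000) + (814564593/500000000)*s + (-81/100)*s^2 + (-3607029/10000000)*s^3 + (20151/100000)*s^5 := by
  obtain ⟨t, ht⟩ : ∃ t, t = s - (2109949/2000000) := ⟨_, rfl⟩
  obtain ⟨r, hr⟩ : ∃ r, r = (28/25) - s := ⟨_, rfl⟩
  have h3 : 0 ≤ t := by linarith
  have h4 : 0 ≤ r := by linarith
  have key : (-6561/10000) + (814564593/500000000)*s + (-81/100)*s^2 + (-3607029/10000000)*s^3 + (20151/100000)*s^5 = (2864660508750617674942100849217099/3720218771639241672567525100000)*t^0*r^5 + (67848779231719802086237239312/37202187716392416725675251)*t^1*r^4 + (41006021354872555491321840000/37202187716392416725675251)*t^2*r^3 + (18950327397229052390400000000/37202187716392416725675251)*t^3*r^2 + (43652807907547392000000000000/37202187716392416725675251)*t^4*r^1 + (26513824333824000000000000000/37202187716392416725675251)*t^5*r^0 := by rw [ht, hr]; ring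
  rw [key]; positivity

theorem d2b1_2_b (s : ℝ) (h1 : 989949/1000000 ≤ s) (h2 : s ≤ 28/25) : 0 ≤ (-6561/10000) + (814564593/500000000)*s + (-81/100)*s^2 + (-3607029/10000000)*s^3 + (20151/100000)*s^5 := by
  rcases le_total s (2109949/2000000) with h | h
  · exact d2b1_2_b_0 s (by linarith) (by linarith)
  exact d2b1_2_b_1 s (by linarith) (by linarith)

theorem d2b1_2_c (s : ℝ) (h1 : 9/10 ≤ s) (h2 : s ≤ 19799/20000) : 0 ≤ (-81/100) + (174033/100000)*s + -1*s^2 + (937/12500)*s^3 := by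
  obtain ⟨t, ht⟩ : ∃ t, t = s - (9/10) := ⟨_, rfl⟩
  obtain ⟨r, hr⟩ : ∃ r, r = (19799/20000) - s := ⟨_, rfl⟩
  have h3 : 0 ≤ t := by linarith
  have h4 : 0 ≤ r := by linarith
  have key : (-81/100) + (174033/100000)*s + -1*s^2 + (937/12500)*s^3 = (7542720000/5822285399)*t^0*r^3 + (110766782880/5822285399)*t^1*r^2 + (3681945479596/145557134975)*t^2*r^1 + (556127435216863/72778567487500)*t^3*r^0 := by rw [ht, hr]; ring
  rw [key]; positivity

theorem d2b1_2 (q w : ℝ) (hq : 0 ≤ q) (hqa : 81/100 ≤ q) (hqb : q ≤ 49/50) (hw : 0 ≤ w) (hwW : w ≤ 3/20) :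
    T3 (9/10) q w ≤ ((-5967/100000)) + (937/12500) * q + (20151/100000) * w := by
  refine maj3 (9/10) ((-5967/100000)) (937/12500) (20151/100000) (81/100) (49/50) (28/25) (3/20) (by norm_num) (by norm_num) (by norm_num) (by norm_num) (by norm_num) ?_ ?_ ?_ q w hq hqa hqb hw hwW
  · intro s h1 h2 h3
    have := d2b1_2_a s h1 h3
    linarith
  · intro s h1 h2 h3
    have := d2b1_2_b s (leSq _ _ _ (by norm_num) (by linarith) (by norm_num) h2) h3
    linarith
  · intro s h1 h2 h3
    have := d2b1_2_c s h1 (geSq _ _ _ (by norm_num) (by norm_num) h3)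
    linarith

theorem d2b1_3_a_0 (s : ℝ) (h1 : 9/10 ≤ s) (h2 : s ≤ 101/100) : 0 ≤ (-6561/10000) + (789722379/500000000)*s + (-81/100)*s^2 + (-1476549/5000000)*s^3 + (18229/100000)*s^5 := by
  obtain ⟨t, ht⟩ : ∃ t, t = s - (9/10) := ⟨_, rfl⟩
  obtain ⟨r, hr⟩ : ∃ r, r = (101/100) - s := ⟨_, rfl⟩
  have h3 : 0 ≤ t := by linarith
  have h4 : 0 ≤ r := by linarith
  have key : (-6561/10000) + (789722379/500000000)*s + (-81/100)*s^2 + (-1476549/5000000)*s^3 + (18229/100000)*s^5 = (16598601/161051)*t^0*r^5 + (850217229/1610510)*t^1*r^4 + (3510233901/4026275)*t^2*r^3 + (11600754309/20131375)*t^3*r^2 + (45357791949/322102000)*t^4*r^1 + (188845362929/16105100000)*t^5*r^0 := by rw [ht, hr]; ring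
  rw [key]; positivity

theorem d2b1_3_a_1 (s : ℝ) (h1 : 101/100 ≤ s) (h2 : s ≤ 83/80) : 0 ≤ (-6561/10000) + (789722379/500000000)*s + (-81/100)*s^2 + (-1476549/5000000)*s^3 + (18229/100000)*s^5 := by
  obtain ⟨t, ht⟩ : ∃ t, t = s - (101/100) := ⟨_, rfl⟩
  obtain ⟨r, hr⟩ : ∃ r, r = (83/80) - s := ⟨_, rfl⟩
  have h3 : 0 ≤ t := by linarith
  have h4 : 0 ≤ r := by linarith
  have key : (-6561/10000) + (789722379/500000000)*s + (-81/100)*s^2 + (-1476549/5000000)*s^3 + (18229/100000)*s^5 = (6043051613728/503284375)*t^0*r^5 + (785038232248/20131375)*t^1*r^4 + (890732178436/20131375)*t^2*r^3 + (84165520591/4026275)*t^3*r^2 + (32536056349/6442040)*t^4*r^1 + (7236416927/5153632)*t^5*r^0 := by rw [ht, hr]; ring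
  rw [key]; positivity

theorem d2b1_3_a_2 (s : ℝ) (h1 : 83/80 ≤ s) (h2 : s ≤ 213/200) : 0 ≤ (-6561/10000) + (789722379/500000000)*s + (-81/100)*s^2 + (-1476549/5000000)*s^3 + (18229/100000)*s^5 := by
  obtain ⟨t, ht⟩ : ∃ t, t = s - (83/80) := ⟨_, rfl⟩
  obtain ⟨r, hr⟩ : ∃ r, r = (213/200) - s := ⟨_, rfl⟩
  have h3 : 0 ≤ t := by linarith
  have h4 : 0 ≤ r := by linarith
  have key : (-6561/10000) + (789722379/500000000)*s + (-81/100)*s^2 + (-1476549/5000000)*s^3 + (18229/100000)*s^5 = (7236416927/5153632)*t^0*r^5 + (115838310477/12884080)*t^1*r^4 + (590493071259/16105100)*t^2*r^3 + (2910819005613/40262750)*t^3*r^2 + (2559630817503/40262750)*t^4*r^1 + (10244895206697/503284375)*t^5*r^0 := by rw [ht, hr]; ring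
  rw [key]; positivity

theorem d2b1_3_a_3 (s : ℝ) (h1 : 213/200 ≤ s) (h2 : s ≤ 28/25) : 0 ≤ (-6561/10000) + (789722379/500000000)*s + (-81/100)*s^2 + (-1476549/5000000)*s^3 + (18229/100000)*s^5 := by
  obtain ⟨t, ht⟩ : ∃ t, t = s - (213/200) := ⟨_, rfl⟩
  obtain ⟨r, hr⟩ : ∃ r, r = (28/25) - s := ⟨_, rfl⟩
  have h3 : 0 ≤ t := by linarith
  have h4 : 0 ≤ r := by linarith
  have key : (-6561/10000) + (789722379/500000000)*s + (-81/100)*s^2 + (-1476549/5000000)*s^3 + (18229/100000)*s^5 = (10244895206697/16105100000)*t^0*r^5 + (560516610393/100656875)*t^1*r^4 + (1873076710203/100656875)*t^2*r^3 + (2955408668064/100656875)*t^3*r^2 + (2215277163696/100656875)*t^4*r^1 + (3182387696128/503284375)*t^5*r^0 := by rw [ht, hr]; ring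
  rw [key]; positivity

theorem d2b1_3_a (s : ℝ) (h1 : 9/10 ≤ s) (h2 : s ≤ 28/25) : 0 ≤ (-6561/10000) + (789722379/500000000)*s + (-81/100)*s^2 + (-1476549/5000000)*s^3 + (18229/100000)*s^5 := by
  rcases le_total s (101/100) with h | h
  · exact d2b1_3_a_0 s (by linarith) (by linarith)
  rcases le_total s (83/80) with h | h
  · exact d2b1_3_a_1 s (by linarith) (by linarith)
  rcases le_total s (213/200) with h | h
  · exact d2b1_3_a_2 s (by linarith) (by linarith)
  exact d2b1_3_a_3 s (by linarith) (by linarith)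

theorem d2b1_3_b_0 (s : ℝ) (h1 : 989949/1000000 ≤ s) (h2 : s ≤ 2109949/2000000) : 0 ≤ (-6561/10000) + (403907391/250000000)*s + (-81/100)*s^2 + (-3262991/10000000)*s^3 + (18229/100000)*s^5 := by
  obtain ⟨t, ht⟩ : ∃ t, t = s - (989949/1000000) := ⟨_, rfl⟩
  obtain ⟨r, hr⟩ : ∃ r, r = (2109949/2000000) - s := ⟨_, rfl⟩
  have h3 : 0 ≤ t := by linarith
  have h4 : 0 ≤ r := by linarith
  have key : (-6561/10000) + (403907391/250000000)*s + (-81/100)*s^2 + (-3262991/10000000)*s^3 + (18229/100000)*s^5 = (624422877302340498773944228249521/116256836613726302267735159375)*t^0*r^5 + (1061438676037272686165718340729521/46502734645490520907094063750)*t^1*r^4 + (1746274838040927603591535853209521/46502734645490520907094063750)*t^2*r^3 + (2767885004268412629003396765689521/93005469290981041814188127500)*t^3*r^2 + (4212917665500652100353301078169521/372021877163924167256752510000)*t^4*r^1 + (6182879676917187315593248790649521/3720218771639241672567525100000)*t^5*r^0 := by rw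 [ht, hr]; ring
  rw [key]; positivity

theorem d2b1_3_b_1 (s : ℝ) (h1 : 2109949/2000000 ≤ s) (h2 : s ≤ 28/25) : 0 ≤ (-6561/10000) + (403907391/250000000)*s + (-81/100)*s^2 + (-3262991/10000000)*s^3 + (18229/100000)*s^5 := by
  obtain ⟨t, ht⟩ : ∃ t, t = s - (2109949/2000000) := ⟨_, rfl⟩
  obtain ⟨r, hr⟩ : ∃ r, r = (28/25) - s := ⟨_, rfl⟩
  have h3 : 0 ≤ t := by linarith
  have h4 : 0 ≤ r := by linarith
  have key : (-6561/10000) + (403907391/250000000)*s + (-81/100)*s^2 + (-3262991/10000000)*s^3 + (18229/100000)*s^5 = (6182879676917187315593248790649521/3720218771639241672567525100000)*t^0*r^5 + (196996201141653521523994771248/37202187716392416725675251)*t^1*r^4 + (209971740073718297556017360000/37202187716392416725675251)*t^2*r^3 + (81205484143633038361600000000/37202187716392416725675251)*t^3*r^2 + (11886691518893568000000000000/37202187716392416725675251)*t^4*r^1 + (5492324663296000000000000000/37202187716392416725675251)*t^5*r^0 := by rw [ht, hr]; ring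
  rw [key]; positivity

theorem d2b1_3_b (s : ℝ) (h1 : 989949/1000000 ≤ s) (h2 : s ≤ 28/25) : 0 ≤ (-6561/10000) + (403907391/250000000)*s + (-81/100)*s^2 + (-3262991/10000000)*s^3 + (18229/100000)*s^5 := by
  rcases le_total s (2109949/2000000) with h | h
  · exact d2b1_3_b_0 s (by linarith) (by linarith)
  exact d2b1_3_b_1 s (by linarith) (by linarith)

theorem d2b1_3_c (s : ℝ) (h1 : 9/10 ≤ s) (h2 : s ≤ 19799/20000) : 0 ≤ (-81/100) + (43427/25000)*s + -1*s^2 + (8049/100000)*s^3 := by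
  obtain ⟨t, ht⟩ : ∃ t, t = s - (9/10) := ⟨_, rfl⟩
  obtain ⟨r, hr⟩ : ∃ r, r = (19799/20000) - s := ⟨_, rfl⟩
  have h3 : 0 ≤ t := by linarith
  have h4 : 0 ≤ r := by linarith
  have key : (-81/100) + (43427/25000)*s + -1*s^2 + (8049/100000)*s^3 = (16393680000/5822285399)*t^0*r^3 + (144650875720/5822285399)*t^1*r^2 + (9472978946523/291114269950)*t^2*r^1 + (6167101896222551/582228539900000)*t^3*r^0 := by rw [ht, hr]; ring
  rw [key]; positivity

theorem d2b1_3 (q w : ℝ) (hq : 0 ≤ q) (hqa : 81/100 ≤ q) (hqb : q ≤ 49/50) (hw : 0 ≤ w) (hwW : w ≤ 3/20) :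
    T3 (9/10) q w ≤ ((-1573/25000)) + (8049/100000) * q + (18229/100000) * w := by
  refine maj3 (9/10) ((-1573/25000)) (8049/100000) (18229/100000) (81/100) (49/50) (28/25) (3/20) (by norm_num) (by norm_num) (by norm_num) (by norm_num) (by norm_num) ?_ ?_ ?_ q w hq hqa hqb hw hwW
  · intro s h1 h2 h3
    have := d2b1_3_a s h1 h3
    linarith
  · intro s h1 h2 h3
    have := d2b1_3_b s (leSq _ _ _ (by norm_num) (by linarith) (by norm_num) h2) h3
    linarith
  · intro s h1 h2 h3
    have := d2b1_3_c s h1 (geSq _ _ _ (by norm_num) (by norm_num) h3)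
    linarith

theorem d2b2_2_a_0 (s : ℝ) (h1 : 989949/1000000 ≤ s) (h2 : s ≤ 4139847/4000000) : 0 ≤ (-6561/10000) + (2562759/1562500)*s + (-81/100)*s^2 + (-1941971/5000000)*s^3 + (10849/50000)*s^5 := by
  obtain ⟨t, ht⟩ : ∃ t, t = s - (989949/1000000) := ⟨_, rfl⟩
  obtain ⟨r, hr⟩ : ∃ r, r = (4139847/4000000) - s := ⟨_, rfl⟩
  have h3 : 0 ≤ t := by linarith
  have h4 : 0 ≤ r := by linarith
  have key : (-6561/10000) + (2562759/1562500)*s + (-81/100)*s^2 + (-1941971/5000000)*s^3 + (10849/50000)*s^5 = (387989020918661316942489561130432/21901000061725117248370978125)*t^0*r^5 + (320243381095455058756826287487824/4380200012345023449674195625)*t^1*r^4 + (511794120553988569734847706191736/4380200012345023449674195625)*t^2*r^3 + (43739711711112411241260465095978/486688890260558161074910625)*t^3*r^2 + (64453983707557856519009132013967/1946755561042232644299642500)*t^4*r^1 + (182342684444959368765633799151901/38935111220844652885992850000)*t^5*r^0 := by rw [ht, hr]; ring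
  rw [key]; positivity

theorem d2b2_2_a_1 (s : ℝ) (h1 : 4139847/4000000 ≤ s) (h2 : s ≤ 1691949/1600000) : 0 ≤ (-6561/10000) + (2562759/1562500)*s + (-81/100)*s^2 + (-1941971/5000000)*s^3 + (10849/50000)*s^5 := by
  obtain ⟨t, ht⟩ : ∃ t, t = s - (4139847/4000000) := ⟨_, rfl⟩
  obtain ⟨r, hr⟩ : ∃ r, r = (1691949/1600000) - s := ⟨_, rfl⟩
  have h3 : 0 ≤ t := by linarith
  have h4 : 0 ≤ r := by linarith
  have key : (-6561/10000) + (2562759/1562500)*s + (-81/100)*s^2 + (-1941971/5000000)*s^3 + (10849/50000)*s^5 = (364685368889918737531267598303802/2433444451302790805374553125)*t^0*r^5 + (57842423700929336044172973879967/97337778052111632214982125)*t^1*r^4 + (17764249788485802094582749791989/19467555610422326442996425)*t^2*r^3 + (47271843045982592000241092871967/70083200197520375194787130)*t^3*r^2 + (13411817540063786937318501455989/56066560158016300155829704)*t^4*r^1 + (3681019013854953214355053762663/112133120316032600311659408)*t^5*r^0 := by rw [ht, hr]; ring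
  rw [key]; positivity

theorem d2b2_2_a_2 (s : ℝ) (h1 : 1691949/1600000 ≤ s) (h2 : s ≤ 2159949/2000000) : 0 ≤ (-6561/10000) + (2562759/1562500)*s + (-81/100)*s^2 + (-1941971/5000000)*s^3 + (10849/50000)*s^5 := by
  obtain ⟨t, ht⟩ : ∃ t, t = s - (1691949/1600000) := ⟨_, rfl⟩
  obtain ⟨r, hr⟩ : ∃ r, r = (2159949/2000000) - s := ⟨_, rfl⟩
  have h3 : 0 ≤ t := by linarith
  have h4 : 0 ≤ r := by linarith
  have key : (-6561/10000) + (2562759/1562500)*s + (-81/100)*s^2 + (-1941971/5000000)*s^3 + (10849/50000)*s^5 = (3681019013854953214355053762663/112133120316032600311659408)*t^0*r^5 + (2496638764605489567228383678663/28033280079008150077914852)*t^1*r^4 + (2589571495859276492966211189326/35041600098760187597393565)*t^2*r^3 + (3440458820451792647865756085304/175208000493800937986967825)*t^3*r^2 + (8521421905760737721483606826608/876040002469004689934839125)*t^4*r^1 + (169915123374092388555239893930432/21901000061725117248370978125)*t^5*r^0 := by rw [ht, hr]; ring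
  rw [key]; positivity

theorem d2b2_2_a_3 (s : ℝ) (h1 : 2159949/2000000 ≤ s) (h2 : s ≤ 117/100) : 0 ≤ (-6561/10000) + (2562759/1562500)*s + (-81/100)*s^2 + (-1941971/5000000)*s^3 + (10849/50000)*s^5 := by
  obtain ⟨t, ht⟩ : ∃ t, t = s - (2159949/2000000) := ⟨_, rfl⟩
  obtain ⟨r, hr⟩ : ∃ r, r = (117/100) - s := ⟨_, rfl⟩
  have h3 : 0 ≤ t := by linarith
  have h4 : 0 ≤ r := by linarith
  have key : (-6561/10000) + (2562759/1562500)*s + (-81/100)*s^2 + (-1941971/5000000)*s^3 + (10849/50000)*s^5 = (2654923802720193571175623342663/350416000987601875973935650000)*t^0*r^5 + (1061167466805073731791448958/7008320019752037519478713)*t^1*r^4 + (10099017085282877184866960000/7008320019752037519478713)*t^2*r^3 + (2923731958693997902400000000/778702224416893057719857)*t^3*r^2 + (2933390378512432000000000000/778702224416893057719857)*t^4*r^1 + (1019932726464000000000000000/778702224416893057719857)*t^5*r^0 := by rw [ht, hr]; ring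
  rw [key]; positivity

theorem d2b2_2_a (s : ℝ) (h1 : 989949/1000000 ≤ s) (h2 : s ≤ 117/100) : 0 ≤ (-6561/10000) + (2562759/1562500)*s + (-81/100)*s^2 + (-1941971/5000000)*s^3 + (10849/50000)*s^5 := by
  rcases le_total s (4139847/4000000) with h | h
  · exact d2b2_2_a_0 s (by linarith) (by linarith)
  rcases le_total s (1691949/1600000) with h | h
  · exact d2b2_2_a_1 s (by linarith) (by linarith)
  rcases le_total s (2159949/2000000) with h | h
  · exact d2b2_2_a_2 s (by linarith) (by linarith)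
  exact d2b2_2_a_3 s (by linarith) (by linarith)

theorem d2b2_2_b_0 (s : ℝ) (h1 : 53619/50000 ≤ s) (h2 : s ≤ 112119/100000) : 0 ≤ (-6561/10000) + (4213053/2500000)*s + (-81/100)*s^2 + (-531601/1250000)*s^3 + (10849/50000)*s^5 := by
  obtain ⟨t, ht⟩ : ∃ t, t = s - (53619/50000) := ⟨_, rfl⟩
  obtain ⟨r, hr⟩ : ∃ r, r = (112119/100000) - s := ⟨_, rfl⟩
  have h3 : 0 ≤ t := by linarith
  have h4 : 0 ≤ r := by linarith
  have key : (-6561/10000) + (4213053/2500000)*s + (-81/100)*s^2 + (-531601/1250000)*s^3 + (10849/50000)*s^5 = (3301216899405138844042226/320649299737788009375)*t^0*r^5 + (2346774693793962921700613/64129859947557601875)*t^1*r^4 + (3059132065458807485630113/64129859947557601875)*t^2*r^3 + (3509803441861611988809613/128259719895115203750)*t^3*r^2 + (3358541658641447806239113/513038879580460815000)*t^4*r^1 + (3002452227380698812918613/5130388795804608150000)*t^5*r^0 := by rw [ht, hr]; ring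
  rw [key]; positivity

theorem d2b2_2_b_1 (s : ℝ) (h1 : 112119/100000 ≤ s) (h2 : s ≤ 229119/200000) : 0 ≤ (-6561/10000) + (4213053/2500000)*s + (-81/100)*s^2 + (-531601/1250000)*s^3 + (10849/50000)*s^5 := by
  obtain ⟨t, ht⟩ : ∃ t, t = s - (112119/100000) := ⟨_, rfl⟩
  obtain ⟨r, hr⟩ : ∃ r, r = (229119/200000) - s := ⟨_, rfl⟩
  have h3 : 0 ≤ t := by linarith
  have h4 : 0 ≤ r := by linarith
  have key : (-6561/10000) + (4213053/2500000)*s + (-81/100)*s^2 + (-531601/1250000)*s^3 + (10849/50000)*s^5 = (6004904454761397625837226/320649299737788009375)*t^0*r^5 + (2290273364859200826277613/64129859947557601875)*t^1*r^4 + (758783910175363596636613/64129859947557601875)*t^2*r^3 + (1584827955988258123995613/128259719895115203750)*t^3*r^2 + (19742892410049955408354613/513038879580460815000)*t^4*r^1 + (107596233954205526449713613/5130388795804608150000)*t^5*r^0 := by rw [ht, hr]; ring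
  rw [key]; positivity

theorem d2b2_2_b_2 (s : ℝ) (h1 : 229119/200000 ≤ s) (h2 : s ≤ 117/100) : 0 ≤ (-6561/10000) + (4213053/2500000)*s + (-81/100)*s^2 + (-531601/1250000)*s^3 + (10849/50000)*s^5 := by
  obtain ⟨t, ht⟩ : ∃ t, t = s - (229119/200000) := ⟨_, rfl⟩
  obtain ⟨r, hr⟩ : ∃ r, r = (117/100) - s := ⟨_, rfl⟩
  have h3 : 0 ≤ t := by linarith
  have h4 : 0 ≤ r := by linarith
  have key : (-6561/10000) + (4213053/2500000)*s + (-81/100)*s^2 + (-531601/1250000)*s^3 + (10849/50000)*s^5 = (107596233954205526449713613/5130388795804608150000)*t^0*r^5 + (87853341544155571041359/513038879580460815)*t^1*r^4 + (55756221672075099005600/102607775916092163)*t^2*r^3 + (9309023410105790400000/11400863990676907)*t^3*r^2 + (6646892404283200000000/11400863990676907)*t^4*r^1 + (1819813472640000000000/11400863990676907)*t^5*r^0 := by rw [ht, hr]; ring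
  rw [key]; positivity

theorem d2b2_2_b (s : ℝ) (h1 : 53619/50000 ≤ s) (h2 : s ≤ 117/100) : 0 ≤ (-6561/10000) + (4213053/2500000)*s + (-81/100)*s^2 + (-531601/1250000)*s^3 + (10849/50000)*s^5 := by
  rcases le_total s (112119/100000) with h | h
  · exact d2b2_2_b_0 s (by linarith) (by linarith)
  rcases le_total s (229119/200000) with h | h
  · exact d2b2_2_b_1 s (by linarith) (by linarith)
  exact d2b2_2_b_2 s (by linarith) (by linarith)

theorem d2b2_2_c (s : ℝ) (h1 : 989949/1000000 ≤ s) (h2 : s ≤ 1072381/1000000) : 0 ≤ (-81/100) + (21303/12500)*s + -1*s^2 + (5511/50000)*s^3 := by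
  obtain ⟨t, ht⟩ : ∃ t, t = s - (989949/1000000) := ⟨_, rfl⟩
  obtain ⟨r, hr⟩ : ∃ r, r = (1072381/1000000) - s := ⟨_, rfl⟩
  have h3 : 0 ≤ t := by linarith
  have h4 : 0 ≤ r := by linarith
  have key : (-81/100) + (21303/12500)*s + -1*s^2 + (5511/50000)*s^3 = (202074485863278630339/28006414706278400000)*t^0*r^3 + (805661403623313324873/28006414706278400000)*t^1*r^2 + (776560773363317470537/28006414706278400000)*t^2*r^1 + (176060722632208781251/28006414706278400000)*t^3*r^0 := by rw [ht, hr]; ring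
  rw [key]; positivity

theorem d2b2_2 (q w : ℝ) (hq : 0 ≤ q) (hqa : 49/50 ≤ q) (hqb : q ≤ 23/20) (hw : 0 ≤ w) (hwW : w ≤ 3/20) :
    T3 (9/10) q w ≤ ((-1197/12500)) + (5511/50000) * q + (10849/50000) * w := by
  refine maj3 (9/10) ((-1197/12500)) (5511/50000) (10849/50000) (49/50) (23/20) (117/100) (3/20) (by norm_num) (by norm_num) (by norm_num) (by norm_num) (by norm_num) ?_ ?_ ?_ q w hq hqa hqb hw hwW
  · intro s h1 h2 h3
    have := d2b2_2_a s (leSq _ _ _ (by norm_num) (by linarith) (by norm_num) h2) h3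
    linarith
  · intro s h1 h2 h3
    have := d2b2_2_b s (leSq _ _ _ (by norm_num) (by linarith) (by norm_num) h2) h3
    linarith
  · intro s h1 h2 h3
    have := d2b2_2_c s (leSq _ _ _ (by norm_num) (by linarith) (by norm_num) h2) (geSq _ _ _ (by norm_num) (by norm_num) h3)
    linarith

theorem d5L_a_0 (s : ℝ) (h1 : 41833/25000 ≤ s) (h2 : s ≤ 54333/25000) : 0 ≤ (-16/25) + (163401/100000)*s + -1*s^2 + (561/3125)*s^3 := by
  obtain ⟨t, ht⟩ : ∃ t, t = s - (41833/25000) := ⟨_, rfl⟩
  obtain ⟨r, hr⟩ : ∃ r, r = (54333/25000) - s := ⟨_, rfl⟩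
  have h3 : 0 ≤ t := by linarith
  have h4 : 0 ≤ r := by linarith
  have key : (-16/25) + (163401/100000)*s + -1*s^2 + (561/3125)*s^3 = (6607718523923507/6103515625000000)*t^0*r^3 + (14826522377233021/6103515625000000)*t^1*r^2 + (8623629651445521/6103515625000000)*t^2*r^1 + (1500528923136007/6103515625000000)*t^3*r^0 := by rw [ht, hr]; ring
  rw [key]; positivity

theorem d5L_a_1 (s : ℝ) (h1 : 54333/25000 ≤ s) (h2 : s ≤ 60583/25000) : 0 ≤ (-16/25) + (163401/100000)*s + -1*s^2 + (561/3125)*s^3 := by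
  obtain ⟨t, ht⟩ : ∃ t, t = s - (54333/25000) := ⟨_, rfl⟩
  obtain ⟨r, hr⟩ : ∃ r, r = (60583/25000) - s := ⟨_, rfl⟩
  have h3 : 0 ≤ t := by linarith
  have h4 : 0 ≤ r := by linarith
  have key : (-16/25) + (163401/100000)*s + -1*s^2 + (561/3125)*s^3 = (1500528923136007/762939453125000)*t^0*r^3 + (2440565328389271/762939453125000)*t^1*r^2 + (899756348308021/762939453125000)*t^2*r^1 + (96682833679757/762939453125000)*t^3*r^0 := by rw [ht, hr]; ring
  rw [key]; positivity

theorem d5L_a_2 (s : ℝ) (h1 : 60583/25000 ≤ s) (h2 : s ≤ 124291/50000) : 0 ≤ (-16/25) + (163401/100000)*s + -1*s^2 + (561/3125)*s^3 := by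
  obtain ⟨t, ht⟩ : ∃ t, t = s - (60583/25000) := ⟨_, rfl⟩
  obtain ⟨r, hr⟩ : ∃ r, r = (124291/50000) - s := ⟨_, rfl⟩
  have h3 : 0 ≤ t := by linarith
  have h4 : 0 ≤ r := by linarith
  have key : (-16/25) + (163401/100000)*s + -1*s^2 + (561/3125)*s^3 = (773462669438056/95367431640625)*t^0*r^3 + (1100972313776668/95367431640625)*t^1*r^2 + (347107185645418/95367431640625)*t^2*r^1 + (36717902634931/95367431640625)*t^3*r^0 := by rw [ht, hr]; ring
  rw [key]; positivity

theorem d5L_a_3 (s : ℝ) (h1 : 124291/50000 ≤ s) (h2 : s ≤ 500289/200000) : 0 ≤ (-16/25) + (163401/100000)*s + -1*s^2 + (561/3125)*s^3 := by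
  obtain ⟨t, ht⟩ : ∃ t, t = s - (124291/50000) := ⟨_, rfl⟩
  obtain ⟨r, hr⟩ : ∃ r, r = (500289/200000) - s := ⟨_, rfl⟩
  have h3 : 0 ≤ t := by linarith
  have h4 : 0 ≤ r := by linarith
  have key : (-16/25) + (163401/100000)*s + -1*s^2 + (561/3125)*s^3 = (2349945768635584/95367431640625)*t^0*r^3 + (3258581662056752/95367431640625)*t^1*r^2 + (1534972619769252/95367431640625)*t^2*r^1 + (643457087676209/95367431640625)*t^3*r^0 := by rw [ht, hr]; ring
  rw [key]; positivity

theorem d5L_a_4 (s : ℝ) (h1 : 500289/200000 ≤ s) (h2 : s ≤ 251707/100000) : 0 ≤ (-16/25) + (163401/100000)*s + -1*s^2 + (561/3125)*s^3 := by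
  obtain ⟨t, ht⟩ : ∃ t, t = s - (500289/200000) := ⟨_, rfl⟩
  obtain ⟨r, hr⟩ : ∃ r, r = (251707/100000) - s := ⟨_, rfl⟩
  have h3 : 0 ≤ t := by linarith
  have h4 : 0 ≤ r := by linarith
  have key : (-16/25) + (163401/100000)*s + -1*s^2 + (561/3125)*s^3 = (643457087676209/95367431640625)*t^0*r^3 + (2325769906288002/95367431640625)*t^1*r^2 + (4840176235094252/95367431640625)*t^2*r^1 + (3174983777810584/95367431640625)*t^3*r^0 := by rw [ht, hr]; ring
  rw [key]; positivity

theorem d5L_a_5 (s : ℝ) (h1 : 251707/100000 ≤ s) (h2 : s ≤ 15927/6250) : 0 ≤ (-16/25) + (163401/100000)*s + -1*s^2 + (561/3125)*s^3 := by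
  obtain ⟨t, ht⟩ : ∃ t, t = s - (251707/100000) := ⟨_, rfl⟩
  obtain ⟨r, hr⟩ : ∃ r, r = (15927/6250) - s := ⟨_, rfl⟩
  have h3 : 0 ≤ t := by linarith
  have h4 : 0 ≤ r := by linarith
  have key : (-16/25) + (163401/100000)*s + -1*s^2 + (561/3125)*s^3 = (396872972226323/95367431640625)*t^0*r^3 + (2361812691263344/95367431640625)*t^1*r^2 + (4618190850613344/95367431640625)*t^2*r^1 + (2670371492904448/95367431640625)*t^3*r^0 := by rw [ht, hr]; ring
  rw [key]; positivity

theorem d5L_a_6 (s : ℝ) (h1 : 15927/6250 ≤ s) (h2 : s ≤ 66833/25000) : 0 ≤ (-16/25) + (163401/100000)*s + -1*s^2 + (561/3125)*s^3 := by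
  obtain ⟨t, ht⟩ : ∃ t, t = s - (15927/6250) := ⟨_, rfl⟩
  obtain ⟨r, hr⟩ : ∃ r, r = (66833/25000) - s := ⟨_, rfl⟩
  have h3 : 0 ≤ t := by linarith
  have h4 : 0 ≤ r := by linarith
  have key : (-16/25) + (163401/100000)*s + -1*s^2 + (561/3125)*s^3 = (41724554576632/95367431640625)*t^0*r^3 + (337231390486146/95367431640625)*t^1*r^2 + (833425484429896/95367431640625)*t^2*r^1 + (555039009848507/95367431640625)*t^3*r^0 := by rw [ht, hr]; ring
  rw [key]; positivity

theorem d5L_a_7 (s : ℝ) (h1 : 66833/25000 ≤ s) : 0 ≤ (-16/25) + (163401/100000)*s + -1*s^2 + (561/3125)*s^3 := by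
  obtain ⟨t, ht⟩ : ∃ t, t = s - (66833/25000) := ⟨_, rfl⟩
  have h3 : 0 ≤ t := by linarith
  have h4 : s = (66833/25000) + t := by linarith
  have key : (-16/25) + (163401/100000)*s + -1*s^2 + (561/3125)*s^3 = (555039009848507/48828125000000000)*t^0 + (266141294437/1953125000000)*t^1 + (34354939/78125000)*t^2 + (561/3125)*t^3 := by rw [h4]; ring
  rw [key]; positivity

theorem d5L_a (s : ℝ) (h1 : 41833/25000 ≤ s) : 0 ≤ (-16/25) + (163401/100000)*s + -1*s^2 + (561/3125)*s^3 := by
  rcases le_total s (54333/25000) with h | h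
  · exact d5L_a_0 s (by linarith) (by linarith)
  rcases le_total s (60583/25000) with h | h
  · exact d5L_a_1 s (by linarith) (by linarith)
  rcases le_total s (124291/50000) with h | h
  · exact d5L_a_2 s (by linarith) (by linarith)
  rcases le_total s (500289/200000) with h | h
  · exact d5L_a_3 s (by linarith) (by linarith)
  rcases le_total s (251707/100000) with h | h
  · exact d5L_a_4 s (by linarith) (by linarith)
  rcases le_total s (15927/6250) with h | h
  · exact d5L_a_5 s (by linarith) (by linarith)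
  rcases le_total s (66833/25000) with h | h
  · exact d5L_a_6 s (by linarith) (by linarith)
  exact d5L_a_7 s (by linarith)

theorem d5L_b_0 (s : ℝ) (h1 : 41833/25000 ≤ s) (h2 : s ≤ 54333/25000) : 0 ≤ (256/625) + (-1664043/1562500)*s + (7611111/5000000)*s^3 + -1*s^4 + (561/3125)*s^5 := by
  obtain ⟨t, ht⟩ : ∃ t, t = s - (41833/25000) := ⟨_, rfl⟩
  obtain ⟨r, hr⟩ : ∃ r, r = (54333/25000) - s := ⟨_, rfl⟩
  have h3 : 0 ≤ t := by linarith
  have h4 : 0 ≤ r := by linarith
  have key : (256/625) + (-1664043/1562500)*s + (7611111/5000000)*s^3 + -1*s^4 + (561/3125)*s^5 = (130981949522037239739357/14901161193847656250000)*t^0*r^5 + (1054599387744867922142981/23841857910156250000000)*t^1*r^4 + (990059692604943190042981/11920928955078125000000)*t^2*r^3 + (211836575880445627669339/2980232238769531250000)*t^3*r^2 + (321752452492138742804303/11920928955078125000000)*t^4*r^1 + (440917524865108778899231/119209289550781250000000)*t^5*r^0 := by rw [ht, hr]; ring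
  rw [key]; positivity

theorem d5L_b_1 (s : ℝ) (h1 : 54333/25000 ≤ s) (h2 : s ≤ 60583/25000) : 0 ≤ (256/625) + (-1664043/1562500)*s + (7611111/5000000)*s^3 + -1*s^4 + (561/3125)*s^5 := by
  obtain ⟨t, ht⟩ : ∃ t, t = s - (54333/25000) := ⟨_, rfl⟩
  obtain ⟨r, hr⟩ : ∃ r, r = (60583/25000) - s := ⟨_, rfl⟩
  have h3 : 0 ≤ t := by linarith
  have h4 : 0 ≤ r := by linarith
  have key : (256/625) + (-1664043/1562500)*s + (7611111/5000000)*s^3 + -1*s^4 + (561/3125)*s^5 = (440917524865108778899231/3725290298461914062500)*t^0*r^5 + (679247669611048851089087/1490116119384765625000)*t^1*r^4 + (954574597402096607118799/1490116119384765625000)*t^2*r^3 + (583098887936772162450049/1490116119384765625000)*t^3*r^2 + (143296655304205982914087/1490116119384765625000)*t^4*r^1 + (15199013437846301473053/1862645149230957031250)*t^5*r^0 := by rw [ht, hr]; ring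
  rw [key]; positivity

theorem d5L_b_2 (s : ℝ) (h1 : 60583/25000 ≤ s) (h2 : s ≤ 124291/50000) : 0 ≤ (256/625) + (-1664043/1562500)*s + (7611111/5000000)*s^3 + -1*s^4 + (561/3125)*s^5 := by
  obtain ⟨t, ht⟩ : ∃ t, t = s - (60583/25000) := ⟨_, rfl⟩
  obtain ⟨r, hr⟩ : ∃ r, r = (124291/50000) - s := ⟨_, rfl⟩
  have h3 : 0 ≤ t := by linarith
  have h4 : 0 ≤ r := by linarith
  have key : (256/625) + (-1664043/1562500)*s + (7611111/5000000)*s^3 + -1*s^4 + (561/3125)*s^5 = (7781894880177306354203136/931322574615478515625)*t^0*r^5 + (5141875630487041489503136/186264514923095703125)*t^1*r^4 + (6055747755375302390231272/186264514923095703125)*t^2*r^3 + (2992847727729779731143772/186264514923095703125)*t^3*r^2 + (607562116680378594621886/186264514923095703125)*t^4*r^1 + (424994640400200145937511/931322574615478515625)*t^5*r^0 := by rw [ht, hr]; ring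
  rw [key]; positivity

theorem d5L_b_3 (s : ℝ) (h1 : 124291/50000 ≤ s) (h2 : s ≤ 15927/6250) : 0 ≤ (256/625) + (-1664043/1562500)*s + (7611111/5000000)*s^3 + -1*s^4 + (561/3125)*s^5 := by
  obtain ⟨t, ht⟩ : ∃ t, t = s - (124291/50000) := ⟨_, rfl⟩
  obtain ⟨r, hr⟩ : ∃ r, r = (15927/6250) - s := ⟨_, rfl⟩
  have h3 : 0 ≤ t := by linarith
  have h4 : 0 ≤ r := by linarith
  have key : (256/625) + (-1664043/1562500)*s + (7611111/5000000)*s^3 + -1*s^4 + (561/3125)*s^5 = (424994640400200145937511/931322574615478515625)*t^0*r^5 + (242427164120021697253136/186264514923095703125)*t^1*r^4 + (1532307917488352141668772/186264514923095703125)*t^2*r^3 + (4119762057077492060706272/186264514923095703125)*t^3*r^2 + (4190983854374276009403136/186264514923095703125)*t^4*r^1 + (7230674584754367082203136/931322574615478515625)*t^5*r^0 := by rw [ht, hr]; ring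
  rw [key]; positivity

theorem d5L_b_4 (s : ℝ) (h1 : 15927/6250 ≤ s) (h2 : s ≤ 66833/25000) : 0 ≤ (256/625) + (-1664043/1562500)*s + (7611111/5000000)*s^3 + -1*s^4 + (561/3125)*s^5 := by
  obtain ⟨t, ht⟩ : ∃ t, t = s - (15927/6250) := ⟨_, rfl⟩
  obtain ⟨r, hr⟩ : ∃ r, r = (66833/25000) - s := ⟨_, rfl⟩
  have h3 : 0 ≤ t := by linarith
  have h4 : 0 ≤ r := by linarith
  have key : (256/625) + (-1664043/1562500)*s + (7611111/5000000)*s^3 + -1*s^4 + (561/3125)*s^5 = (225958580773573971318848/931322574615478515625)*t^0*r^5 + (415939251422329663368848/186264514923095703125)*t^1*r^4 + (1438986820278310984275196/186264514923095703125)*t^2*r^3 + (2308848188099903452359571/186264514923095703125)*t^3*r^2 + (1740452674097146954362598/186264514923095703125)*t^4*r^1 + (2499386046068293056568848/931322574615478515625)*t^5*r^0 := by rw [ht, hr]; ring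
  rw [key]; positivity

theorem d5L_b_5 (s : ℝ) (h1 : 66833/25000 ≤ s) : 0 ≤ (256/625) + (-1664043/1562500)*s + (7611111/5000000)*s^3 + -1*s^4 + (561/3125)*s^5 := by
  obtain ⟨t, ht⟩ : ∃ t, t = s - (66833/25000) := ⟨_, rfl⟩
  have h3 : 0 ≤ t := by linarith
  have h4 : s = (66833/25000) + t := by linarith
  have key : (256/625) + (-1664043/1562500)*s + (7611111/5000000)*s^3 + -1*s^4 + (561/3125)*s^5 = (156211627879268316035553/1907348632812500000000000)*t^0 + (121429339515383376353/122070312500000000000)*t^1 + (35410901386025139/9765625000000000)*t^2 + (1429136722333/390625000000)*t^3 + (21868313/15625000)*t^4 + (561/3125)*t^5 := by rw [h4]; ring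
  rw [key]; positivity

theorem d5L_b (s : ℝ) (h1 : 41833/25000 ≤ s) : 0 ≤ (256/625) + (-1664043/1562500)*s + (7611111/5000000)*s^3 + -1*s^4 + (561/3125)*s^5 := by
  rcases le_total s (54333/25000) with h | h
  · exact d5L_b_0 s (by linarith) (by linarith)
  rcases le_total s (60583/25000) with h | h
  · exact d5L_b_1 s (by linarith) (by linarith)
  rcases le_total s (124291/50000) with h | h
  · exact d5L_b_2 s (by linarith) (by linarith)
  rcases le_total s (15927/6250) with h | h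
  · exact d5L_b_3 s (by linarith) (by linarith)
  rcases le_total s (66833/25000) with h | h
  · exact d5L_b_4 s (by linarith) (by linarith)
  exact d5L_b_5 s (by linarith)

theorem d5L (q w : ℝ) (hq : 14/5 ≤ q) (hw : 0 ≤ w) (hwW : w ≤ 3/20) :
    T3 (4/5) q w ≤ (3401/100000) + (561/3125) * q + (207/10000) * w := by
  refine majL (4/5) (3401/100000) (561/3125) (207/10000) (14/5) (3/20) (by norm_num) (by norm_num) (by norm_num) ?_ ?_ q w hq hw hwW
  · intro s h1 h2
    have := d5L_a s (leSq _ _ _ (by norm_num) (by linarith) (by norm_num) h2)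
    linarith
  · intro s h1 h2
    have := d5L_b s (leSq _ _ _ (by norm_num) (by linarith) (by norm_num) h2)
    linarith

theorem d5a0_a (s : ℝ) (h1 : 4/5 ≤ s) (h2 : s ≤ 39/40) : 0 ≤ (-256/625) + (128/125)*s + (-16/25)*s^2 + (-3126/15625)*s^3 + (1563/5000)*s^5 := by
  obtain ⟨t, ht⟩ : ∃ t, t = s - (4/5) := ⟨_, rfl⟩
  obtain ⟨r, hr⟩ : ∃ r, r = (39/40) - s := ⟨_, rfl⟩
  have h3 : 0 ≤ t := by linarith
  have h4 : 0 ≤ r := by linarith
  have key : (-256/625) + (128/125)*s + (-16/25)*s^2 + (-3126/15625)*s^3 + (1563/5000)*s^5 = (409731072/1500625)*t^1*r^4 + (354684928/300125)*t^2*r^3 + (2950115712/1500625)*t^3*r^2 + (2229603972/1500625)*t^4*r^1 + (5149207387/12005000)*t^5*r^0 := by rw [ht, hr]; ring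
  rw [key]; positivity

theorem d5a0_b (s : ℝ) (h1 : 4/5 ≤ s) (h2 : s ≤ 39/40) : 0 ≤ (-256/625) + (450016/390625)*s + (-16/25)*s^2 + (-6252/15625)*s^3 + (1563/5000)*s^5 := by
  obtain ⟨t, ht⟩ : ∃ t, t = s - (4/5) := ⟨_, rfl⟩
  obtain ⟨r, hr⟩ : ∃ r, r = (39/40) - s := ⟨_, rfl⟩
  have h3 : 0 ≤ t := by linarith
  have h4 : 0 ≤ r := by linarith
  have key : (-256/625) + (450016/390625)*s + (-16/25)*s^2 + (-6252/15625)*s^3 + (1563/5000)*s^5 = (8192/214375)*t^2*r^3 + (2245632/42875)*t^3*r^2 + (23963484/214375)*t^4*r^1 + (102484237/1715000)*t^5*r^0 := by rw [ht, hr]; ring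
  rw [key]; positivity

theorem d5a0 (q w : ℝ) (hq : 0 ≤ q) (hqa : 0 ≤ q) (hqb : q ≤ 16/25) (hw : 0 ≤ w) (hwW : w ≤ 3/20) :
    T3 (4/5) q w ≤ 0 + 0 * q + (1563/5000) * w := by
  refine maj3 (4/5) 0 0 (1563/5000) 0 (16/25) (39/40) (3/20) (by norm_num) (by norm_num) (by norm_num) (by norm_num) (by norm_num) ?_ ?_ ?_ q w hq hqa hqb hw hwW
  · intro s h1 h2 h3
    have := d5a0_a s h1 h3
    linarith
  · intro s h1 h2 h3
    have := d5a0_b s h1 h3
    linarith
  · intro s h1 h2 h3
    have : s = 4/5 := le_antisymm (geSq _ _ _ (by norm_num) (by norm_num) h3) h1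
    rw [this]
    norm_num

theorem d5a1_a_0 (s : ℝ) (h1 : 4/5 ≤ s) (h2 : s ≤ 189/200) : 0 ≤ (-256/625) + (4496851/3906250)*s + (-16/25)*s^2 + (-1242/3125)*s^3 + (621/2000)*s^5 := by
  obtain ⟨t, ht⟩ : ∃ t, t = s - (4/5) := ⟨_, rfl⟩
  obtain ⟨r, hr⟩ : ∃ r, r = (189/200) - s := ⟨_, rfl⟩
  have h3 : 0 ≤ t := by linarith
  have h4 : 0 ≤ r := by linarith
  have key : (-256/625) + (4496851/3906250)*s + (-16/25)*s^2 + (-1242/3125)*s^3 + (621/2000)*s^5 = (3342336/20511149)*t^0*r^5 + (86587392/102555745)*t^1*r^4 + (41443328/102555745)*t^2*r^3 + (1505290752/20511149)*t^3*r^2 + (16069811706/102555745)*t^4*r^1 + (3418707648329/41022298000)*t^5*r^0 := by rw [ht, hr]; ring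
  rw [key]; positivity

theorem d5a1_a_1 (s : ℝ) (h1 : 189/200 ≤ s) (h2 : s ≤ 109/100) : 0 ≤ (-256/625) + (4496851/3906250)*s + (-16/25)*s^2 + (-1242/3125)*s^3 + (621/2000)*s^5 := by
  obtain ⟨t, ht⟩ : ∃ t, t = s - (189/200) := ⟨_, rfl⟩
  obtain ⟨r, hr⟩ : ∃ r, r = (109/100) - s := ⟨_, rfl⟩
  have h3 : 0 ≤ t := by linarith
  have h4 : 0 ≤ r := by linarith
  have key : (-256/625) + (4496851/3906250)*s + (-16/25)*s^2 + (-1242/3125)*s^3 + (621/2000)*s^5 = (3418707648329/41022298000)*t^0*r^5 + (2775915180089/4102229800)*t^1*r^4 + (2208387249449/1025557450)*t^2*r^3 + (1715916639769/512778725)*t^3*r^2 + (1298729071369/512778725)*t^4*r^1 + (1914548611058/2563893625)*t^5*r^0 := by rw [ht, hr]; ring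
  rw [key]; positivity

theorem d5a1_a (s : ℝ) (h1 : 4/5 ≤ s) (h2 : s ≤ 109/100) : 0 ≤ (-256/625) + (4496851/3906250)*s + (-16/25)*s^2 + (-1242/3125)*s^3 + (621/2000)*s^5 := by
  rcases le_total s (189/200) with h | h
  · exact d5a1_a_0 s (by linarith) (by linarith)
  exact d5a1_a_1 s (by linarith) (by linarith)

theorem d5a1_b_0 (s : ℝ) (h1 : 1 ≤ s) (h2 : s ≤ 3209/3200) : 0 ≤ (-256/625) + (97526/78125)*s + (-16/25)*s^2 + (-25461/50000)*s^3 + (621/2000)*s^5 := by
  obtain ⟨t, ht⟩ : ∃ t, t = s - 1 := ⟨_, rfl⟩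
  obtain ⟨r, hr⟩ : ∃ r, r = (3209/3200) - s := ⟨_, rfl⟩
  have h3 : 0 ≤ t := by linarith
  have h4 : 0 ≤ r := by linarith
  have key : (-256/625) + (97526/78125)*s + (-16/25)*s^2 + (-25461/50000)*s^3 + (621/2000)*s^5 = (4294967296000/59049)*t^0*r^5 + (15031882219520/59049)*t^1*r^4 + (19665751244800/59049)*t^2*r^3 + (58875053855744/295245)*t^3*r^2 + (16027464005128/295245)*t^4*r^1 + (718636738983029/118098000)*t^5*r^0 := by rw [ht, hr]; ring
  rw [key]; positivity

theorem d5a1_b_1 (s : ℝ) (h1 : 3209/3200 ≤ s) (h2 : s ≤ 1609/1600) : 0 ≤ (-256/625) + (97526/78125)*s + (-16/25)*s^2 + (-25461/50000)*s^3 + (621/2000)*s^5 := by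
  obtain ⟨t, ht⟩ : ∃ t, t = s - (3209/3200) := ⟨_, rfl⟩
  obtain ⟨r, hr⟩ : ∃ r, r = (1609/1600) - s := ⟨_, rfl⟩
  have h3 : 0 ≤ t := by linarith
  have h4 : 0 ≤ r := by linarith
  have key : (-256/625) + (97526/78125)*s + (-16/25)*s^2 + (-25461/50000)*s^3 + (621/2000)*s^5 = (718636738983029/118098000)*t^0*r^5 + (77538178777909/11809800)*t^1*r^4 + (25190157130229/2952450)*t^2*r^3 + (69948892919989/1476225)*t^3*r^2 + (95967660515189/1476225)*t^4*r^1 + (189522667543658/7381125)*t^5*r^0 := by rw [ht, hr]; ring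
  rw [key]; positivity

theorem d5a1_b_2 (s : ℝ) (h1 : 1609/1600 ≤ s) (h2 : s ≤ 809/800) : 0 ≤ (-256/625) + (97526/78125)*s + (-16/25)*s^2 + (-25461/50000)*s^3 + (621/2000)*s^5 := by
  obtain ⟨t, ht⟩ : ∃ t, t = s - (1609/1600) := ⟨_, rfl⟩
  obtain ⟨r, hr⟩ : ∃ r, r = (809/800) - s := ⟨_, rfl⟩
  have h3 : 0 ≤ t := by linarith
  have h4 : 0 ≤ r := by linarith
  have key : (-256/625) + (97526/78125)*s + (-16/25)*s^2 + (-25461/50000)*s^3 + (621/2000)*s^5 = (94761333771829/118098000)*t^0*r^5 + (94158170400149/11809800)*t^1*r^4 + (86748733443829/2952450)*t^2*r^3 + (71472382134869/1476225)*t^3*r^2 + (53978575673269/1476225)*t^4*r^1 + (76476530454058/7381125)*t^5*r^0 := by rw [ht, hr]; ring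
  rw [key]; positivity

theorem d5a1_b_3 (s : ℝ) (h1 : 809/800 ≤ s) (h2 : s ≤ 409/400) : 0 ≤ (-256/625) + (97526/78125)*s + (-16/25)*s^2 + (-25461/50000)*s^3 + (621/2000)*s^5 := by
  obtain ⟨t, ht⟩ : ∃ t, t = s - (809/800) := ⟨_, rfl⟩
  obtain ⟨r, hr⟩ : ∃ r, r = (409/400) - s := ⟨_, rfl⟩
  have h3 : 0 ≤ t := by linarith
  have h4 : 0 ≤ r := by linarith
  have key : (-256/625) + (97526/78125)*s + (-16/25)*s^2 + (-25461/50000)*s^3 + (621/2000)*s^5 = (38238265227029/118098000)*t^0*r^5 + (30368110003909/11809800)*t^1*r^4 + (22936328784629/2952450)*t^2*r^3 + (16439290465189/1476225)*t^3*r^2 + (11268457189589/1476225)*t^4*r^1 + (14896480699658/7381125)*t^5*r^0 := by rw [ht, hr]; ring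
  rw [key]; positivity

theorem d5a1_b_4 (s : ℝ) (h1 : 409/400 ≤ s) (h2 : s ≤ 209/200) : 0 ≤ (-256/625) + (97526/78125)*s + (-16/25)*s^2 + (-25461/50000)*s^3 + (621/2000)*s^5 := by
  obtain ⟨t, ht⟩ : ∃ t, t = s - (409/400) := ⟨_, rfl⟩
  obtain ⟨r, hr⟩ : ∃ r, r = (209/200) - s := ⟨_, rfl⟩
  have h3 : 0 ≤ t := by linarith
  have h4 : 0 ≤ r := by linarith
  have key : (-256/625) + (97526/78125)*s + (-16/25)*s^2 + (-25461/50000)*s^3 + (621/2000)*s^5 = (7448240349829/118098000)*t^0*r^5 + (5538131929949/11809800)*t^1*r^4 + (3965677619029/2952450)*t^2*r^3 + (2733928841069/1476225)*t^3*r^2 + (1822996348069/1476225)*t^4*r^1 + (2363716440058/7381125)*t^5*r^0 := by rw [ht, hr]; ring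
  rw [key]; positivity

theorem d5a1_b_5 (s : ℝ) (h1 : 209/200 ≤ s) (h2 : s ≤ 109/100) : 0 ≤ (-256/625) + (97526/78125)*s + (-16/25)*s^2 + (-25461/50000)*s^3 + (621/2000)*s^5 := by
  obtain ⟨t, ht⟩ : ∃ t, t = s - (209/200) := ⟨_, rfl⟩
  obtain ⟨r, hr⟩ : ∃ r, r = (109/100) - s := ⟨_, rfl⟩
  have h3 : 0 ≤ t := by linarith
  have h4 : 0 ≤ r := by linarith
  have key : (-256/625) + (97526/78125)*s + (-16/25)*s^2 + (-25461/50000)*s^3 + (621/2000)*s^5 = (1181858220029/118098000)*t^0*r^5 + (861289156009/11809800)*t^1*r^4 + (608168683229/2952450)*t^2*r^3 + (416119061689/1476225)*t^3*r^2 + (276816759389/1476225)*t^4*r^1 + (359472904658/7381125)*t^5*r^0 := by rw [ht, hr]; ring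
  rw [key]; positivity

theorem d5a1_b (s : ℝ) (h1 : 1 ≤ s) (h2 : s ≤ 109/100) : 0 ≤ (-256/625) + (97526/78125)*s + (-16/25)*s^2 + (-25461/50000)*s^3 + (621/2000)*s^5 := by
  rcases le_total s (3209/3200) with h | h
  · exact d5a1_b_0 s (by linarith) (by linarith)
  rcases le_total s (1609/1600) with h | h
  · exact d5a1_b_1 s (by linarith) (by linarith)
  rcases le_total s (809/800) with h | h
  · exact d5a1_b_2 s (by linarith) (by linarith)
  rcases le_total s (409/400) with h | h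
  · exact d5a1_b_3 s (by linarith) (by linarith)
  rcases le_total s (209/200) with h | h
  · exact d5a1_b_4 s (by linarith) (by linarith)
  exact d5a1_b_5 s (by linarith) (by linarith)

theorem d5a1_c (s : ℝ) (h1 : 4/5 ≤ s) (h2 : s ≤ 1) : 0 ≤ (-16/25) + (152891/100000)*s + -1*s^2 + (11111/100000)*s^3 := by
  obtain ⟨t, ht⟩ : ∃ t, t = s - (4/5) := ⟨_, rfl⟩
  obtain ⟨r, hr⟩ : ∃ r, r = 1 - s := ⟨_, rfl⟩
  have h3 : 0 ≤ t := by linarith
  have h4 : 0 ≤ r := by linarith
  have key : (-16/25) + (152891/100000)*s + -1*s^2 + (11111/100000)*s^3 = (51/25000)*t^0*r^3 + (71243/20000)*t^1*r^2 + (6903/2000)*t^2*r^1 + (1/400)*t^3*r^0 := by rw [ht, hr]; ring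
  rw [key]; positivity

theorem d5a1 (q w : ℝ) (hq : 0 ≤ q) (hqa : 16/25 ≤ q) (hqb : q ≤ 1) (hw : 0 ≤ w) (hwW : w ≤ 3/20) :
    T3 (4/5) q w ≤ ((-7109/100000)) + (11111/100000) * q + (621/2000) * w := by
  refine maj3 (4/5) ((-7109/100000)) (11111/100000) (621/2000) (16/25) 1 (109/100) (3/20) (by norm_num) (by norm_num) (by norm_num) (by norm_num) (by norm_num) ?_ ?_ ?_ q w hq hqa hqb hw hwW
  · intro s h1 h2 h3
    have := d5a1_a s h1 h3
    linarith
  · intro s h1 h2 h3
    have := d5a1_b s (leSq _ _ _ (by norm_num) (by linarith) (by norm_num) h2) h3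
    linarith
  · intro s h1 h2 h3
    have := d5a1_c s h1 (geSq _ _ _ (by norm_num) (by norm_num) h3)
    linarith

theorem d5a2_a_0 (s : ℝ) (h1 : 1 ≤ s) (h2 : s ≤ 6423/6400) : 0 ≤ (-256/625) + (97526/78125)*s + (-16/25)*s^2 + (-25461/50000)*s^3 + (621/2000)*s^5 := by
  obtain ⟨t, ht⟩ : ∃ t, t = s - 1 := ⟨_, rfl⟩
  obtain ⟨r, hr⟩ : ∃ r, r = (6423/6400) - s := ⟨_, rfl⟩
  have h3 : 0 ≤ t := by linarith
  have h4 : 0 ≤ r := by linarith
  have key : (-256/625) + (97526/78125)*s + (-16/25)*s^2 + (-25461/50000)*s^3 + (621/2000)*s^5 = (137438953472000/6436343)*t^0*r^5 + (423749526487040/6436343)*t^1*r^4 + (450593423360000/6436343)*t^2*r^3 + (924831398146048/32181715)*t^3*r^2 + (129792041333776/32181715)*t^4*r^1 + (10549961961980203/12872686000)*t^5*r^0 := by rw [ht, hr]; ring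
  rw [key]; positivity

theorem d5a2_a_1 (s : ℝ) (h1 : 6423/6400 ≤ s) (h2 : s ≤ 3223/3200) : 0 ≤ (-256/625) + (97526/78125)*s + (-16/25)*s^2 + (-25461/50000)*s^3 + (621/2000)*s^5 := by
  obtain ⟨t, ht⟩ : ∃ t, t = s - (6423/6400) := ⟨_, rfl⟩
  obtain ⟨r, hr⟩ : ∃ r, r = (3223/3200) - s := ⟨_, rfl⟩
  have h3 : 0 ≤ t := by linarith
  have h4 : 0 ≤ r := by linarith
  have key : (-256/625) + (97526/78125)*s + (-16/25)*s^2 + (-25461/50000)*s^3 + (621/2000)*s^5 = (10549961961980203/12872686000)*t^0*r^5 + (5358280308629163/1287268600)*t^1*r^4 + (9414912636738603/321817150)*t^2*r^3 + (11455023362308523/160908575)*t^3*r^2 + (10807515063514923/160908575)*t^4*r^1 + (17610187777419606/804542875)*t^5*r^0 := by rw [ht, hr]; ring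
  rw [key]; positivity

theorem d5a2_a_2 (s : ℝ) (h1 : 3223/3200 ≤ s) (h2 : s ≤ 1623/1600) : 0 ≤ (-256/625) + (97526/78125)*s + (-16/25)*s^2 + (-25461/50000)*s^3 + (621/2000)*s^5 := by
  obtain ⟨t, ht⟩ : ∃ t, t = s - (3223/3200) := ⟨_, rfl⟩
  obtain ⟨r, hr⟩ : ∃ r, r = (1623/1600) - s := ⟨_, rfl⟩
  have h3 : 0 ≤ t := by linarith
  have h4 : 0 ≤ r := by linarith
  have key : (-256/625) + (97526/78125)*s + (-16/25)*s^2 + (-25461/50000)*s^3 + (621/2000)*s^5 = (8805093888709803/12872686000)*t^0*r^5 + (7803883301307243/1287268600)*t^1*r^4 + (6463944494901803/321817150)*t^2*r^3 + (4951865738037483/160908575)*t^3*r^2 + (3559473022394283/160908575)*t^4*r^1 + (4870789213576406/804542875)*t^5*r^0 := by rw [ht, hr]; ring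
  rw [key]; positivity

theorem d5a2_a_3 (s : ℝ) (h1 : 1623/1600 ≤ s) (h2 : s ≤ 823/800) : 0 ≤ (-256/625) + (97526/78125)*s + (-16/25)*s^2 + (-25461/50000)*s^3 + (621/2000)*s^5 := by
  obtain ⟨t, ht⟩ : ∃ t, t = s - (1623/1600) := ⟨_, rfl⟩
  obtain ⟨r, hr⟩ : ∃ r, r = (823/800) - s := ⟨_, rfl⟩
  have h3 : 0 ≤ t := by linarith
  have h4 : 0 ≤ r := by linarith
  have key : (-256/625) + (97526/78125)*s + (-16/25)*s^2 + (-25461/50000)*s^3 + (621/2000)*s^5 = (2435394606788203/12872686000)*t^0*r^5 + (1873355398985163/1287268600)*t^1*r^4 + (1378394766191403/321817150)*t^2*r^3 + (969091240758923/160908575)*t^3*r^2 + (655073496735723/160908575)*t^4*r^1 + (857263483731606/804542875)*t^5*r^0 := by rw [ht, hr]; ring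
  rw [key]; positivity

theorem d5a2_a_4 (s : ℝ) (h1 : 823/800 ≤ s) (h2 : s ≤ 423/400) : 0 ≤ (-256/625) + (97526/78125)*s + (-16/25)*s^2 + (-25461/50000)*s^3 + (621/2000)*s^5 := by
  obtain ⟨t, ht⟩ : ∃ t, t = s - (823/800) := ⟨_, rfl⟩
  obtain ⟨r, hr⟩ : ∃ r, r = (423/400) - s := ⟨_, rfl⟩
  have h3 : 0 ≤ t := by linarith
  have h4 : 0 ≤ r := by linarith
  have key : (-256/625) + (97526/78125)*s + (-16/25)*s^2 + (-25461/50000)*s^3 + (621/2000)*s^5 = (428631741865803/12872686000)*t^0*r^5 + (315410864430843/1287268600)*t^1*r^4 + (224083984284203/321817150)*t^2*r^3 + (153687377393883/160908575)*t^3*r^2 + (102173665583883/160908575)*t^4*r^1 + (132299345068406/804542875)*t^5*r^0 := by rw [ht, hr]; ring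
  rw [key]; positivity

theorem d5a2_a_5 (s : ℝ) (h1 : 423/400 ≤ s) (h2 : s ≤ 223/200) : 0 ≤ (-256/625) + (97526/78125)*s + (-16/25)*s^2 + (-25461/50000)*s^3 + (621/2000)*s^5 := by
  obtain ⟨t, ht⟩ : ∃ t, t = s - (423/400) := ⟨_, rfl⟩
  obtain ⟨r, hr⟩ : ∃ r, r = (223/200) - s := ⟨_, rfl⟩
  have h3 : 0 ≤ t := by linarith
  have h4 : 0 ≤ r := by linarith
  have key : (-256/625) + (97526/78125)*s + (-16/25)*s^2 + (-25461/50000)*s^3 + (621/2000)*s^5 = (66149672534203/12872686000)*t^0*r^5 + (48137676009363/1287268600)*t^1*r^4 + (33998109174603/321817150)*t^2*r^3 + (23306824989923/160908575)*t^3*r^2 + (15555564031323/160908575)*t^4*r^1 + (20287524981606/804542875)*t^5*r^0 := by rw [ht, hr]; ring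
  rw [key]; positivity

theorem d5a2_a_6 (s : ℝ) (h1 : 223/200 ≤ s) (h2 : s ≤ 123/100) : 0 ≤ (-256/625) + (97526/78125)*s + (-16/25)*s^2 + (-25461/50000)*s^3 + (621/2000)*s^5 := by
  obtain ⟨t, ht⟩ : ∃ t, t = s - (223/200) := ⟨_, rfl⟩
  obtain ⟨r, hr⟩ : ∃ r, r = (123/100) - s := ⟨_, rfl⟩
  have h3 : 0 ≤ t := by linarith
  have h4 : 0 ≤ r := by linarith
  have key : (-256/625) + (97526/78125)*s + (-16/25)*s^2 + (-25461/50000)*s^3 + (621/2000)*s^5 = (10143762490803/12872686000)*t^0*r^5 + (7437861720543/1287268600)*t^1*r^4 + (5316825804803/321817150)*t^2*r^3 + (3705584267583/160908575)*t^3*r^2 + (2523297608883/160908575)*t^4*r^1 + (3366202609406/804542875)*t^5*r^0 := by rw [ht, hr]; ring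
  rw [key]; positivity

theorem d5a2_a (s : ℝ) (h1 : 1 ≤ s) (h2 : s ≤ 123/100) : 0 ≤ (-256/625) + (97526/78125)*s + (-16/25)*s^2 + (-25461/50000)*s^3 + (621/2000)*s^5 := by
  rcases le_total s (6423/6400) with h | h
  · exact d5a2_a_0 s (by linarith) (by linarith)
  rcases le_total s (3223/3200) with h | h
  · exact d5a2_a_1 s (by linarith) (by linarith)
  rcases le_total s (1623/1600) with h | h
  · exact d5a2_a_2 s (by linarith) (by linarith)
  rcases le_total s (823/800) with h | h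
  · exact d5a2_a_3 s (by linarith) (by linarith)
  rcases le_total s (423/400) with h | h
  · exact d5a2_a_4 s (by linarith) (by linarith)
  rcases le_total s (223/200) with h | h
  · exact d5a2_a_5 s (by linarith) (by linarith)
  exact d5a2_a_6 s (by linarith) (by linarith)

theorem d5a2_b (s : ℝ) (h1 : 236643/200000 ≤ s) (h2 : s ≤ 123/100) : 0 ≤ (-256/625) + (539709/390625)*s + (-16/25)*s^2 + (-31671/50000)*s^3 + (621/2000)*s^5 := by
  obtain ⟨t, ht⟩ : ∃ t, t = s - (236643/200000) := ⟨_, rfl⟩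
  obtain ⟨r, hr⟩ : ∃ r, r = (123/100) - s := ⟨_, rfl⟩
  have h3 : 0 ≤ t := by linarith
  have h4 : 0 ≤ r := by linarith
  have key : (-256/625) + (539709/390625)*s + (-16/25)*s^2 + (-31671/50000)*s^3 + (621/2000)*s^5 = (10179949679842225828486103/143454158764622877114000)*t^0*r^5 + (3763313886613487544275915/71727079382311438557)*t^1*r^4 + (16581827829362886343660000/71727079382311438557)*t^2*r^3 + (27338191864445188120000000/71727079382311438557)*t^3*r^2 + (19961522166845720000000000/71727079382311438557)*t^4*r^1 + (5446956491248000000000000/71727079382311438557)*t^5*r^0 := by rw [ht, hr]; ring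
  rw [key]; positivity

theorem d5a2_c (s : ℝ) (h1 : 1 ≤ s) (h2 : s ≤ 73951/62500) : 0 ≤ (-16/25) + (142973/100000)*s + -1*s^2 + (21029/100000)*s^3 := by
  obtain ⟨t, ht⟩ : ∃ t, t = s - 1 := ⟨_, rfl⟩
  obtain ⟨r, hr⟩ : ∃ r, r = (73951/62500) - s := ⟨_, rfl⟩
  have h3 : 0 ≤ t := by linarith
  have h4 : 0 ≤ r := by linarith
  have key : (-16/25) + (142973/100000)*s + -1*s^2 + (21029/100000)*s^3 = (4882812500/1501516966851)*t^0*r^3 + (908438281250/500505655617)*t^1*r^2 + (6428896788145/4004045244936)*t^2*r^1 + (615826726347179/150151696685100000)*t^3*r^0 := by rw [ht, hr]; ring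
  rw [key]; positivity

theorem d5a2 (q w : ℝ) (hq : 0 ≤ q) (hqa : 1 ≤ q) (hqb : q ≤ 7/5) (hw : 0 ≤ w) (hwW : w ≤ 3/20) :
    T3 (4/5) q w ≤ ((-17027/100000)) + (21029/100000) * q + (621/2000) * w := by
  refine maj3 (4/5) ((-17027/100000)) (21029/100000) (621/2000) 1 (7/5) (123/100) (3/20) (by norm_num) (by norm_num) (by norm_num) (by norm_num) (by norm_num) ?_ ?_ ?_ q w hq hqa hqb hw hwW
  · intro s h1 h2 h3
    have := d5a2_a s (leSq _ _ _ (by norm_num) (by linarith) (by norm_num) h2) h3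
    linarith
  · intro s h1 h2 h3
    have := d5a2_b s (leSq _ _ _ (by norm_num) (by linarith) (by norm_num) h2) h3
    linarith
  · intro s h1 h2 h3
    have := d5a2_c s (leSq _ _ _ (by norm_num) (by linarith) (by norm_num) h2) (geSq _ _ _ (by norm_num) (by norm_num) h3)
    linarith

theorem eb21_a (s : ℝ) (h1 : 4/5 ≤ s) (h2 : s ≤ 223607/250000) : 0 ≤ (4/5) + (-2969/3125)*s + (39/625)*s^2 := by
  obtain ⟨t, ht⟩ : ∃ t, t = s - (4/5) := ⟨_, rfl⟩
  obtain ⟨r, hr⟩ : ∃ r, r = (223607/250000) - s := ⟨_, rfl⟩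
  have h3 : 0 ≤ t := by linarith
  have h4 : 0 ≤ r := by linarith
  have key : (4/5) + (-2969/3125)*s + (39/625)*s^2 = (1664000000/185763483)*t^0*r^2 + (1655365360/185763483)*t^1*r^1 + (1848125837/116102176875)*t^2*r^0 := by rw [ht, hr]; ring
  rw [key]; positivity

theorem eb21 (q : ℝ) (hq : 0 ≤ q) (hqb : q ≤ 4/25) : E3 (4/5) q ≤ (39/625) * q := by
  refine majE (4/5) (39/625) (4/25) (by norm_num) ?_ q hq hqb
  intro s h1 h2
  have := eb21_a s h1 (geSq _ _ _ (by norm_num) (by norm_num) h2)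
  linarith

theorem eb22_a (s : ℝ) (h1 : 4/5 ≤ s) (h2 : s ≤ 234521/250000) : 0 ≤ (4/5) + (-11653/12500)*s + (847/10000)*s^2 := by
  obtain ⟨t, ht⟩ : ∃ t, t = s - (4/5) := ⟨_, rfl⟩
  obtain ⟨r, hr⟩ : ∃ r, r = (234521/250000) - s := ⟨_, rfl⟩
  have h3 : 0 ≤ t := by linarith
  have h4 : 0 ≤ r := by linarith
  have key : (4/5) + (-11653/12500)*s + (847/10000)*s^2 = (6776000000/1191699441)*t^0*r^2 + (6676107220/1191699441)*t^1*r^1 + (10441626527/11916994410000)*t^2*r^0 := by rw [ht, hr]; ring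
  rw [key]; positivity

theorem eb22 (q : ℝ) (hq : 0 ≤ q) (hqb : q ≤ 6/25) : E3 (4/5) q ≤ (847/10000) * q := by
  refine majE (4/5) (847/10000) (6/25) (by norm_num) ?_ q hq hqb
  intro s h1 h2
  have := eb22_a s h1 (geSq _ _ _ (by norm_num) (by norm_num) h2)
  linarith

theorem eb23_a (s : ℝ) (h1 : 4/5 ≤ s) (h2 : s ≤ 244949/250000) : 0 ≤ (4/5) + (-2867/3125)*s + (129/1250)*s^2 := by
  obtain ⟨t, ht⟩ : ∃ t, t = s - (4/5) := ⟨_, rfl⟩
  obtain ⟨r, hr⟩ : ∃ r, r = (244949/250000) - s := ⟨_, rfl⟩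
  have h3 : 0 ≤ t := by linarith
  have h4 : 0 ≤ r := by linarith
  have key : (4/5) + (-2867/3125)*s + (129/1250)*s^2 = (2752000000/673470867)*t^0*r^2 + (2685997360/673470867)*t^1*r^1 + (1458147281/280612861250)*t^2*r^0 := by rw [ht, hr]; ring
  rw [key]; positivity

theorem eb23 (q : ℝ) (hq : 0 ≤ q) (hqb : q ≤ 8/25) : E3 (4/5) q ≤ (129/1250) * q := by
  refine majE (4/5) (129/1250) (8/25) (by norm_num) ?_ q hq hqb
  intro s h1 h2
  have := eb23_a s h1 (geSq _ _ _ (by norm_num) (by norm_num) h2)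
  linarith

theorem eb24_a (s : ℝ) (h1 : 4/5 ≤ s) (h2 : s ≤ 254951/250000) : 0 ≤ (4/5) + (-2263/2500)*s + (237/2000)*s^2 := by
  obtain ⟨t, ht⟩ : ∃ t, t = s - (4/5) := ⟨_, rfl⟩
  obtain ⟨r, hr⟩ : ∃ r, r = (254951/250000) - s := ⟨_, rfl⟩
  have h3 : 0 ≤ t := by linarith
  have h4 : 0 ≤ r := by linarith
  have key : (4/5) + (-2263/2500)*s + (237/2000)*s^2 = (3160000000/1006537467)*t^0*r^2 + (1014362900/335512489)*t^1*r^1 + (4726779679/2013074934000)*t^2*r^0 := by rw [ht, hr]; ring
  rw [key]; positivity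

theorem eb24 (q : ℝ) (hq : 0 ≤ q) (hqb : q ≤ 2/5) : E3 (4/5) q ≤ (237/2000) * q := by
  refine majE (4/5) (237/2000) (2/5) (by norm_num) ?_ q hq hqb
  intro s h1 h2
  have := eb24_a s h1 (geSq _ _ _ (by norm_num) (by norm_num) h2)
  linarith

theorem eb25_a (s : ℝ) (h1 : 4/5 ≤ s) (h2 : s ≤ 1058301/1000000) : 0 ≤ (4/5) + (-5593/6250)*s + (657/5000)*s^2 := by
  obtain ⟨t, ht⟩ : ∃ t, t = s - (4/5) := ⟨_, rfl⟩
  obtain ⟨r, hr⟩ : ∃ r, r = (1058301/1000000) - s := ⟨_, rfl⟩
  have h3 : 0 ≤ t := by linarith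
  have h4 : 0 ≤ r := by linarith
  have key : (4/5) + (-5593/6250)*s + (657/5000)*s^2 = (168192000000/66719406601)*t^0*r^2 + (159540803360/66719406601)*t^1*r^1 + (578666936857/333597033005000)*t^2*r^0 := by rw [ht, hr]; ring
  rw [key]; positivity

theorem eb25 (q : ℝ) (hq : 0 ≤ q) (hqb : q ≤ 12/25) : E3 (4/5) q ≤ (657/5000) * q := by
  refine majE (4/5) (657/5000) (12/25) (by norm_num) ?_ q hq hqb
  intro s h1 h2
  have := eb25_a s h1 (geSq _ _ _ (by norm_num) (by norm_num) h2)
  linarith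

theorem eb26_a (s : ℝ) (h1 : 4/5 ≤ s) (h2 : s ≤ 1131371/1000000) : 0 ≤ (4/5) + (-10983/12500)*s + (1517/10000)*s^2 := by
  obtain ⟨t, ht⟩ : ∃ t, t = s - (4/5) := ⟨_, rfl⟩
  obtain ⟨r, hr⟩ : ∃ r, r = (1131371/1000000) - s := ⟨_, rfl⟩
  have h3 : 0 ≤ t := by linarith
  have h4 : 0 ≤ r := by linarith
  have key : (4/5) + (-10983/12500)*s + (1517/10000)*s^2 = (194176000000/109806739641)*t^0*r^2 + (177626553680/109806739641)*t^1*r^1 + (1082360835397/1098067396410000)*t^2*r^0 := by rw [ht, hr]; ring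
  rw [key]; positivity

theorem eb26 (q : ℝ) (hq : 0 ≤ q) (hqb : q ≤ 16/25) : E3 (4/5) q ≤ (1517/10000) * q := by
  refine majE (4/5) (1517/10000) (16/25) (by norm_num) ?_ q hq hqb
  intro s h1 h2
  have := eb26_a s h1 (geSq _ _ _ (by norm_num) (by norm_num) h2)
  linarith

theorem eb27_a (s : ℝ) (h1 : 4/5 ≤ s) (h2 : s ≤ 303109/250000) : 0 ≤ (4/5) + (-10809/12500)*s + (1691/10000)*s^2 := by
  obtain ⟨t, ht⟩ : ∃ t, t = s - (4/5) := ⟨_, rfl⟩
  obtain ⟨r, hr⟩ : ∃ r, r = (303109/250000) - s := ⟨_, rfl⟩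
  have h3 : 0 ≤ t := by linarith
  have h4 : 0 ≤ r := by linarith
  have key : (4/5) + (-10809/12500)*s + (1691/10000)*s^2 = (13528000000/10631465881)*t^0*r^2 + (11740189140/10631465881)*t^1*r^1 + (99700204771/106314658810000)*t^2*r^0 := by rw [ht, hr]; ring
  rw [key]; positivity

theorem eb27 (q : ℝ) (hq : 0 ≤ q) (hqb : q ≤ 83/100) : E3 (4/5) q ≤ (1691/10000) * q := by
  refine majE (4/5) (1691/10000) (83/100) (by norm_num) ?_ q hq hqb
  intro s h1 h2
  have := eb27_a s h1 (geSq _ _ _ (by norm_num) (by norm_num) h2)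
  linarith

theorem eb28_a (s : ℝ) (h1 : 4/5 ≤ s) (h2 : s ≤ 2049/1600) : 0 ≤ (4/5) + (-2674/3125)*s + (451/2500)*s^2 := by
  obtain ⟨t, ht⟩ : ∃ t, t = s - (4/5) := ⟨_, rfl⟩
  obtain ⟨r, hr⟩ : ∃ r, r = (2049/1600) - s := ⟨_, rfl⟩
  have h3 : 0 ≤ t := by linarith
  have h4 : 0 ≤ r := by linarith
  have key : (4/5) + (-2674/3125)*s + (451/2500)*s^2 = (14778368/14784025)*t^0*r^2 + (60572928/73920125)*t^1*r^1 + (325571/1478402500)*t^2*r^0 := by rw [ht, hr]; ring
  rw [key]; positivity

theorem eb28 (q : ℝ) (hq : 0 ≤ q) (hqb : q ≤ 1) : E3 (4/5) q ≤ (451/2500) * q := by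
  refine majE (4/5) (451/2500) 1 (by norm_num) ?_ q hq hqb
  intro s h1 h2
  have := eb28_a s h1 (geSq _ _ _ (by norm_num) (by norm_num) h2)
  linarith

theorem d5b0_1_a (s : ℝ) (h1 : 4/5 ≤ s) (h2 : s ≤ 39/40) : 0 ≤ (-256/625) + (16071/15625)*s + (-16/25)*s^2 + (-873/15625)*s^3 + (873/10000)*s^5 := by
  obtain ⟨t, ht⟩ : ∃ t, t = s - (4/5) := ⟨_, rfl⟩
  obtain ⟨r, hr⟩ : ∃ r, r = (39/40) - s := ⟨_, rfl⟩
  have h3 : 0 ≤ t := by linarith
  have h4 : 0 ≤ r := by linarith
  have key : (-256/625) + (16071/15625)*s + (-16/25)*s^2 + (-873/15625)*s^3 + (873/10000)*s^5 = (9306112/420175)*t^0*r^5 + (2015137792/10504375)*t^1*r^4 + (1018574848/2100875)*t^2*r^3 + (5686800832/10504375)*t^3*r^2 + (3013226842/10504375)*t^4*r^1 + (10203716639/168070000)*t^5*r^0 := by rw [ht, hr]; ring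
  rw [key]; positivity

theorem d5b0_1_b (s : ℝ) (h1 : 4/5 ≤ s) (h2 : s ≤ 39/40) : 0 ≤ (-256/625) + (2092683/1953125)*s + (-16/25)*s^2 + (-1746/15625)*s^3 + (873/10000)*s^5 := by
  obtain ⟨t, ht⟩ : ∃ t, t = s - (4/5) := ⟨_, rfl⟩
  obtain ⟨r, hr⟩ : ∃ r, r = (39/40) - s := ⟨_, rfl⟩
  have h3 : 0 ≤ t := by linarith
  have h4 : 0 ≤ r := by linarith
  have key : (-256/625) + (2092683/1953125)*s + (-16/25)*s^2 + (-1746/15625)*s^3 + (873/10000)*s^5 = (2994077696/52521875)*t^0*r^5 + (15625342976/52521875)*t^1*r^4 + (28040740864/52521875)*t^2*r^3 + (21077505536/52521875)*t^3*r^2 + (5668575554/52521875)*t^4*r^1 + (82092187/840350000)*t^5*r^0 := by rw [ht, hr]; ring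
  rw [key]; positivity

theorem d5b0_1 (q w : ℝ) (hq : 0 ≤ q) (hqa : 0 ≤ q) (hqb : q ≤ 16/25) (hw : 0 ≤ w) (hwW : w ≤ 3/20) :
    T3 (4/5) q w ≤ (71/10000) + (873/50000) * q + (873/10000) * w := by
  refine maj3 (4/5) (71/10000) (873/50000) (873/10000) 0 (16/25) (39/40) (3/20) (by norm_num) (by norm_num) (by norm_num) (by norm_num) (by norm_num) ?_ ?_ ?_ q w hq hqa hqb hw hwW
  · intro s h1 h2 h3
    have := d5b0_1_a s h1 h3
    linarith
  · intro s h1 h2 h3
    have := d5b0_1_b s h1 h3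
    linarith
  · intro s h1 h2 h3
    have : s = 4/5 := le_antisymm (geSq _ _ _ (by norm_num) (by norm_num) h3) h1
    rw [this]
    norm_num

theorem d5b0_2_a (s : ℝ) (h1 : 4/5 ≤ s) (h2 : s ≤ 39/40) : 0 ≤ (-256/625) + (80001/78125)*s + (-16/25)*s^2 + (-433/6250)*s^3 + (433/4000)*s^5 := by
  obtain ⟨t, ht⟩ : ∃ t, t = s - (4/5) := ⟨_, rfl⟩
  obtain ⟨r, hr⟩ : ∃ r, r = (39/40) - s := ⟨_, rfl⟩
  have h3 : 0 ≤ t := by linarith
  have h4 : 0 ≤ r := by linarith
  have key : (-256/625) + (80001/78125)*s + (-16/25)*s^2 + (-433/6250)*s^3 + (433/4000)*s^5 = (131072/2100875)*t^0*r^5 + (199323648/2100875)*t^1*r^4 + (697187328/2100875)*t^2*r^3 + (939704288/2100875)*t^3*r^2 + (589683989/2100875)*t^4*r^1 + (4742459927/67228000)*t^5*r^0 := by rw [ht, hr]; ring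
  rw [key]; positivity

theorem d5b0_2_b (s : ℝ) (h1 : 4/5 ≤ s) (h2 : s ≤ 39/40) : 0 ≤ (-256/625) + (2110281/1953125)*s + (-16/25)*s^2 + (-433/3125)*s^3 + (433/4000)*s^5 := by
  obtain ⟨t, ht⟩ : ∃ t, t = s - (4/5) := ⟨_, rfl⟩
  obtain ⟨r, hr⟩ : ∃ r, r = (39/40) - s := ⟨_, rfl⟩
  have h3 : 0 ≤ t := by linarith
  have h4 : 0 ≤ r := by linarith
  have key : (-256/625) + (2110281/1953125)*s + (-16/25)*s^2 + (-433/3125)*s^3 + (433/4000)*s^5 = (443416576/7503125)*t^0*r^5 + (2314080256/7503125)*t^1*r^4 + (4236529664/7503125)*t^2*r^3 + (3395062016/7503125)*t^3*r^2 + (1138338059/7503125)*t^4*r^1 + (3518535689/240100000)*t^5*r^0 := by rw [ht, hr]; ring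
  rw [key]; positivity

theorem d5b0_2 (q w : ℝ) (hq : 0 ≤ q) (hqa : 0 ≤ q) (hqb : q ≤ 16/25) (hw : 0 ≤ w) (hwW : w ≤ 3/20) :
    T3 (4/5) q w ≤ (1/50000) + (2957/100000) * q + (433/4000) * w := by
  refine maj3 (4/5) (1/50000) (2957/100000) (433/4000) 0 (16/25) (39/40) (3/20) (by norm_num) (by norm_num) (by norm_num) (by norm_num) (by norm_num) ?_ ?_ ?_ q w hq hqa hqb hw hwW
  · intro s h1 h2 h3
    have := d5b0_2_a s h1 h3
    linarith
  · intro s h1 h2 h3
    have := d5b0_2_b s h1 h3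
    linarith
  · intro s h1 h2 h3
    have : s = 4/5 := le_antisymm (geSq _ _ _ (by norm_num) (by norm_num) h3) h1
    rw [this]
    norm_num

theorem d5b1_2_a_0 (s : ℝ) (h1 : 4/5 ≤ s) (h2 : s ≤ 203/200) : 0 ≤ (-256/625) + (2172626/1953125)*s + (-16/25)*s^2 + (-20864/78125)*s^3 + (652/3125)*s^5 := by
  obtain ⟨t, ht⟩ : ∃ t, t = s - (4/5) := ⟨_, rfl⟩
  obtain ⟨r, hr⟩ : ∃ r, r = (203/200) - s := ⟨_, rfl⟩
  have h3 : 0 ≤ t := by linarith
  have h4 : 0 ≤ r := by linarith
  have key : (-256/625) + (2172626/1953125)*s + (-16/25)*s^2 + (-20864/78125)*s^3 + (652/3125)*s^5 = (748945408/147008443)*t^0*r^5 + (19730030592/735042215)*t^1*r^4 + (128705847296/3675211075)*t^2*r^3 + (331926396928/18376055375)*t^3*r^2 + (61901425536/3675211075)*t^4*r^1 + (5632783965636/459401384375)*t^5*r^0 := by rw [ht, hr]; ring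
  rw [key]; positivity

theorem d5b1_2_a_1 (s : ℝ) (h1 : 203/200 ≤ s) (h2 : s ≤ 123/100) : 0 ≤ (-256/625) + (2172626/1953125)*s + (-16/25)*s^2 + (-20864/78125)*s^3 + (652/3125)*s^5 := by
  obtain ⟨t, ht⟩ : ∃ t, t = s - (203/200) := ⟨_, rfl⟩
  obtain ⟨r, hr⟩ : ∃ r, r = (123/100) - s := ⟨_, rfl⟩
  have h3 : 0 ≤ t := by linarith
  have h4 : 0 ≤ r := by linarith
  have key : (-256/625) + (2172626/1953125)*s + (-16/25)*s^2 + (-20864/78125)*s^3 + (652/3125)*s^5 = (5632783965636/459401384375)*t^0*r^5 + (9718032292872/91880276875)*t^1*r^4 + (34341618602528/91880276875)*t^2*r^3 + (59723833854016/91880276875)*t^3*r^2 + (50114655931456/91880276875)*t^4*r^1 + (80800675405952/459401384375)*t^5*r^0 := by rw [ht, hr]; ring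
  rw [key]; positivity

theorem d5b1_2_a (s : ℝ) (h1 : 4/5 ≤ s) (h2 : s ≤ 123/100) : 0 ≤ (-256/625) + (2172626/1953125)*s + (-16/25)*s^2 + (-20864/78125)*s^3 + (652/3125)*s^5 := by
  rcases le_total s (203/200) with h | h
  · exact d5b1_2_a_0 s (by linarith) (by linarith)
  exact d5b1_2_a_1 s (by linarith) (by linarith)

theorem d5b1_2_b (s : ℝ) (h1 : 236643/200000 ≤ s) (h2 : s ≤ 123/100) : 0 ≤ (-256/625) + (1008119/781250)*s + (-16/25)*s^2 + (-33252/78125)*s^3 + (652/3125)*s^5 := by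
  obtain ⟨t, ht⟩ : ∃ t, t = s - (236643/200000) := ⟨_, rfl⟩
  obtain ⟨r, hr⟩ : ∃ r, r = (123/100) - s := ⟨_, rfl⟩
  have h3 : 0 ≤ t := by linarith
  have h4 : 0 ≤ r := by linarith
  have key : (-256/625) + (1008119/781250)*s + (-16/25)*s^2 + (-33252/78125)*s^3 + (652/3125)*s^5 = (20657071203492964960020836/224147123069723245490625)*t^0*r^5 + (2629357257988832870172736/358635396911557192785)*t^1*r^4 + (2951650134155396221388800/71727079382311438557)*t^2*r^3 + (5847595038783079321600000/71727079382311438557)*t^3*r^2 + (4912566544991129600000000/71727079382311438557)*t^4*r^1 + (1497375416688640000000000/71727079382311438557)*t^5*r^0 := by rw [ht, hr]; ring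
  rw [key]; positivity

theorem d5b1_2_c (s : ℝ) (h1 : 4/5 ≤ s) (h2 : s ≤ 73951/62500) : 0 ≤ (-16/25) + (37597/25000)*s + -1*s^2 + (15733/100000)*s^3 := by
  obtain ⟨t, ht⟩ : ∃ t, t = s - (4/5) := ⟨_, rfl⟩
  obtain ⟨r, hr⟩ : ∃ r, r = (73951/62500) - s := ⟨_, rfl⟩
  have h3 : 0 ≤ t := by linarith
  have h4 : 0 ≤ r := by linarith
  have key : (-16/25) + (37597/25000)*s + -1*s^2 + (15733/100000)*s^3 = (892812500000/13739500754351)*t^0*r^3 + (21947166693750/13739500754351)*t^1*r^2 + (37801216926799/27479001508702)*t^2*r^1 + (788992333154283/1373950075435100000)*t^3*r^0 := by rw [ht, hr]; ring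
  rw [key]; positivity

theorem d5b1_2 (q w : ℝ) (hq : 0 ≤ q) (hqa : 16/25 ≤ q) (hqb : q ≤ 7/5) (hw : 0 ≤ w) (hwW : w ≤ 3/20) :
    T3 (4/5) q w ≤ ((-2403/25000)) + (15733/100000) * q + (652/3125) * w := by
  refine maj3 (4/5) ((-2403/25000)) (15733/100000) (652/3125) (16/25) (7/5) (123/100) (3/20) (by norm_num) (by norm_num) (by norm_num) (by norm_num) (by norm_num) ?_ ?_ ?_ q w hq hqa hqb hw hwW
  · intro s h1 h2 h3
    have := d5b1_2_a s h1 h3
    linarith
  · intro s h1 h2 h3
    have := d5b1_2_b s (leSq _ _ _ (by norm_num) (by linarith) (by norm_num) h2) h3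
    linarith
  · intro s h1 h2 h3
    have := d5b1_2_c s h1 (geSq _ _ _ (by norm_num) (by norm_num) h3)
    linarith

end
end Crest.Agent.H18Pr
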