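import Crest.Agent.H18PrBSD0
set_option autoImplicit false

namespace Crest.Agent.H18Pr
noncomputable section

theorem b1L (q w : ℝ) (hq : 16 / 9 ≤ q) (hw : 0 ≤ w) : T3 1 q w ≤ -(1 / 4) + 3 / 16 * q + 1 / 4 * w := by
  have hq0 : 0 ≤ q := by linarith
  obtain ⟨f1, f2, f3⟩ := sg_facts 1 q w one_pos hq0 hw
  unfold T3
  set s := sg 1 q w with hs
  have hs0 : 0 < s := by linarith
  have hs43 : 4 / 3 ≤ s := by nlinarith
  have hD : 0 < s ^ 2 - 1 := by nlinarith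
  apply K3_le _ _ _ hs0
  have h1 : 0 ≤ (s - 2) ^ 2 * (3 * s - 4) := mul_nonneg (sq_nonneg _) (by linarith)
  -- q = s^2 - w/(s^2-1)
  have h2 : 3 / 4 * w ≤ w * (s ^ 2 - 1) - 0 + 0 := by nlinarith
  have h3 : s ^ 2 - q ≤ 4 / 3 * w := by
    have : (s ^ 2 - 1) * (s ^ 2 - q) = w := by simpa using f3
    nlinarith [mul_nonneg (sub_nonneg.mpr f2) (by nlinarith : (0:ℝ) ≤ (s ^ 2 - 1) - 3 / 4)]
  nlinarith [mul_nonneg hs0.le (by linarith : (0:ℝ) ≤ 4 / 3 * w - (s ^ 2 - q))]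

theorem b1E (q : ℝ) (hq : 0 ≤ q) (hqb : q ≤ 1) : E3 1 q ≤ 1 / 8 * q := by
  refine majE 1 (1 / 8) 1 one_pos ?_ q hq hqb
  intro s h1 h2
  have hu : s ≤ 1.4143 := by nlinarith
  nlinarith

theorem bsd1 : Spec.BSD1 := by
  intro m q hq h4 h3
  have hs5 : ∑ i, q i = q 0 + q 1 + q 2 + q 3 + ∑ i : Fin (m + 1), q (t4 i) := by
    rw [show (∑ i, q i) = ∑ i : Fin (m + 1 + 4), q i from rfl]
    rw [Fin.sum_univ_succ, Fin.sum_univ_succ, Fin.sum_univ_succ, Fin.sum_univ_succ]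
    have e : ∀ i : Fin (m + 1), (Fin.succ (Fin.succ (Fin.succ (Fin.succ i))) : Fin (m + 1 + 4)) = t4 i := by
      intro i; ext; simp [t4]
    simp only [e]
    have e1 : (Fin.succ (0 : Fin (m + 1 + 3))) = (1 : Fin (m + 5)) := rfl
    have e2 : (Fin.succ (Fin.succ (0 : Fin (m + 1 + 2)))) = (2 : Fin (m + 5)) := rfl
    have e3 : (Fin.succ (Fin.succ (Fin.succ (0 : Fin (m + 1 + 1))))) = (3 : Fin (m + 5)) := rfl
    rw [e1, e2, e3]
    ring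
  have htot := hq.tot
  rw [hs5] at htot
  set Q := ∑ i : Fin (m + 1), q (t4 i) with hQdef
  have h01 : q 1 ≤ q 0 := hq.srt 0 1 (Fin.zero_le _)
  have hle : ∀ (a b : ℕ) (ha : a < m + 5) (hb : b < m + 5), a ≤ b → q ⟨b, hb⟩ ≤ q ⟨a, ha⟩ :=
    fun a b ha hb hab => hq.srt _ _ (by exact hab)
  have e1 : (1 : Fin (m + 5)) = ⟨1, by omega⟩ := rfl
  have e2 : (2 : Fin (m + 5)) = ⟨2, by omega⟩ := rfl
  have e3 : (3 : Fin (m + 5)) = ⟨3, by omega⟩ := rfl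
  have e4 : (4 : Fin (m + 5)) = ⟨4, by omega⟩ := rfl
  have h21 : q 2 ≤ q 1 := by rw [e1, e2]; exact hle _ _ _ _ (by norm_num)
  have h32 : q 3 ≤ q 2 := by rw [e3, e2]; exact hle _ _ _ _ (by norm_num)
  have hQ0 : 0 ≤ Q := Finset.sum_nonneg fun i _ => hq.nn _
  have ht4 : ∀ i : Fin (m + 1), q (t4 i) ≤ 1 := by
    intro i
    refine le_trans ?_ h4
    rw [e4]; exact hle _ _ _ _ (by omega)
  have hE := sumE 1 (1 / 8) 1 (fun i : Fin (m + 1) => q (t4 i)) (fun i => hq.nn _) ht4 b1E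
  have hw : 0 ≤ Q / 16 := by linarith
  have t0 := b1L (q 0) (Q / 16) (by linarith) hw
  have t1 := b1L (q 1) (Q / 16) (by linarith) hw
  have t2 := b1L (q 2) (Q / 16) (by linarith) hw
  have t3 := b1L (q 3) (Q / 16) (by linarith) hw
  linarith

end
end Crest.Agent.H18Pr
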