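import Crest.Agent.H18PrBSD1
set_option autoImplicit false

namespace Crest.Agent.H18Pr
noncomputable section

theorem d3c_0_1_0 (q2 q3 Q T E : ℝ)
    (g0 : 7/5 ≤ q2)
    (g1 : q2 ≤ 17/10)
    (g2 : 0 ≤ q3)
    (g3 : q3 ≤ 23/20)
    (g4 : 0 ≤ Q)
    (g5 : Q ≤ 12/5)
    (g6 : 3 * q2 + q3 + Q ≤ 16)
    (g7 : 209/100 ≤ q2 + q3 + Q)
    (g8 : q3 ≤ q2)
    (g9 : 3/10 * q2 ≤ q3)
    (hT : T ≤ (604019/100000) + (163/6250) * q2 + ((-1877/10000)) * q3 + ((-273/1600)) * Q)
    (hE : ∀ e qb : ℝ, (∀ q, 0 ≤ q → q ≤ qb → E3 (17/20) q ≤ e * q) → (q3 ≤ qb ∨ 1 ≤ qb) → E ≤ e * Q) :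
    T + T3 (17/20) q3 (Q / 16) + E ≤ 6 := by
  have hw : 0 ≤ Q / 16 := by linarith
  have hwW : Q / 16 ≤ 3 / 20 := by linarith
  have hq3 : 0 ≤ q3 := by linarith
  have h : 0 ≤ q3 := by linarith
  have htop : q3 ≤ 23/20 := by linarith
  rcases le_total q3 (3/10) with h' | h'
  · linarith
  clear h
  have h := h'
  clear h'
  rcases le_total q3 (1/2) with h' | h'
  · have p := d3b1_0 q3 (Q / 16) hq3 (by linarith) (by linarith) hw hwW
    have ee := hE _ _ eb1 (Or.inl h')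
    linarith
  clear h
  have h := h'
  clear h'
  rcases le_total q3 (289/400) with h' | h'
  · have p := d3b2_0 q3 (Q / 16) hq3 (by linarith) (by linarith) hw hwW
    have ee := hE _ _ eb2 (Or.inl h')
    linarith
  clear h
  have h := h'
  clear h'
  rcases le_total q3 (93/100) with h' | h'
  · have p := d3b3_3 q3 (Q / 16) hq3 (by linarith) (by linarith) hw hwW
    have ee := hE _ _ eb3 (Or.inl h')
    linarith
  clear h
  have h := h'
  clear h'
  have h' := htop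
  have p := d3b4_3 q3 (Q / 16) hq3 (by linarith) (by linarith) hw hwW
  have ee := hE _ _ eb4 (Or.inr (by norm_num))
  linarith

theorem d3c_0_2_0 (q2 q3 Q T E : ℝ)
    (g0 : 7/5 ≤ q2)
    (g1 : q2 ≤ 17/10)
    (g2 : 0 ≤ q3)
    (g3 : q3 ≤ 23/20)
    (g4 : 0 ≤ Q)
    (g5 : Q ≤ 12/5)
    (g6 : 3 * q2 + q3 + Q ≤ 16)
    (g7 : 209/100 ≤ q2 + q3 + Q)
    (g8 : q3 ≤ q2)
    (g9 : 1/2 * q2 ≤ q3 + Q)
    (hT : T ≤ (604019/100000) + (163/6250) * q2 + ((-1877/10000)) * q3 + ((-273/1600)) * Q)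
    (hE : ∀ e qb : ℝ, (∀ q, 0 ≤ q → q ≤ qb → E3 (17/20) q ≤ e * q) → (q3 ≤ qb ∨ 1 ≤ qb) → E ≤ e * Q) :
    T + T3 (17/20) q3 (Q / 16) + E ≤ 6 := by
  have hw : 0 ≤ Q / 16 := by linarith
  have hwW : Q / 16 ≤ 3 / 20 := by linarith
  have hq3 : 0 ≤ q3 := by linarith
  have h : 0 ≤ q3 := by linarith
  have htop : q3 ≤ 23/20 := by linarith
  rcases le_total q3 (3/20) with h' | h'
  · have p := d3b0_2 q3 (Q / 16) hq3 (by linarith) (by linarith) hw hwW
    have ee := hE _ _ eb5 (Or.inl h')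
    linarith
  clear h
  have h := h'
  clear h'
  rcases le_total q3 (9/40) with h' | h'
  · have p := d3b0_0 q3 (Q / 16) hq3 (by linarith) (by linarith) hw hwW
    have ee := hE _ _ eb6 (Or.inl h')
    linarith
  clear h
  have h := h'
  clear h'
  rcases le_total q3 (3/10) with h' | h'
  · have p := d3b0_0 q3 (Q / 16) hq3 (by linarith) (by linarith) hw hwW
    have ee := hE _ _ eb7 (Or.inl h')
    linarith
  clear h
  have h := h'
  clear h'
  rcases le_total q3 (2/5) with h' | h'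
  · have p := d3b1_2 q3 (Q / 16) hq3 (by linarith) (by linarith) hw hwW
    have ee := hE _ _ eb8 (Or.inl h')
    linarith
  clear h
  have h := h'
  clear h'
  rcases le_total q3 (1/2) with h' | h'
  · have p := d3b1_0 q3 (Q / 16) hq3 (by linarith) (by linarith) hw hwW
    have ee := hE _ _ eb1 (Or.inl h')
    linarith
  clear h
  have h := h'
  clear h'
  rcases le_total q3 (289/400) with h' | h'
  · have p := d3b2_3 q3 (Q / 16) hq3 (by linarith) (by linarith) hw hwW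
    have ee := hE _ _ eb2 (Or.inl h')
    linarith
  clear h
  have h := h'
  clear h'
  rcases le_total q3 (93/100) with h' | h'
  · have p := d3b3_3 q3 (Q / 16) hq3 (by linarith) (by linarith) hw hwW
    have ee := hE _ _ eb3 (Or.inl h')
    linarith
  clear h
  have h := h'
  clear h'
  have h' := htop
  have p := d3b4_3 q3 (Q / 16) hq3 (by linarith) (by linarith) hw hwW
  have ee := hE _ _ eb4 (Or.inr (by norm_num))
  linarith

theorem d3c_1_1_0 (q2 q3 Q T E : ℝ)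
    (g0 : 17/10 ≤ q2)
    (g1 : q2 ≤ 21/10)
    (g2 : 0 ≤ q3)
    (g3 : q3 ≤ 23/20)
    (g4 : 0 ≤ Q)
    (g5 : Q ≤ 12/5)
    (g6 : 3 * q2 + q3 + Q ≤ 16)
    (g7 : 209/100 ≤ q2 + q3 + Q)
    (g8 : q3 ≤ q2)
    (g9 : 3/10 * q2 ≤ q3)
    (hT : T ≤ (37639/6250) + (229/6250) * q2 + ((-1877/10000)) * q3 + ((-13917/80000)) * Q)
    (hE : ∀ e qb : ℝ, (∀ q, 0 ≤ q → q ≤ qb → E3 (17/20) q ≤ e * q) → (q3 ≤ qb ∨ 1 ≤ qb) → E ≤ e * Q) :
    T + T3 (17/20) q3 (Q / 16) + E ≤ 6 := by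
  have hw : 0 ≤ Q / 16 := by linarith
  have hwW : Q / 16 ≤ 3 / 20 := by linarith
  have hq3 : 0 ≤ q3 := by linarith
  have h : 0 ≤ q3 := by linarith
  have htop : q3 ≤ 23/20 := by linarith
  rcases le_total q3 (3/10) with h' | h'
  · linarith
  clear h
  have h := h'
  clear h'
  rcases le_total q3 (1/2) with h' | h'
  · linarith
  clear h
  have h := h'
  clear h'
  rcases le_total q3 (289/400) with h' | h'
  · have p := d3b2_0 q3 (Q / 16) hq3 (by linarith) (by linarith) hw hwW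
    have ee := hE _ _ eb2 (Or.inl h')
    linarith
  clear h
  have h := h'
  clear h'
  rcases le_total q3 (93/100) with h' | h'
  · have p := d3b3_2 q3 (Q / 16) hq3 (by linarith) (by linarith) hw hwW
    have ee := hE _ _ eb3 (Or.inl h')
    linarith
  clear h
  have h := h'
  clear h'
  have h' := htop
  have p := d3b4_3 q3 (Q / 16) hq3 (by linarith) (by linarith) hw hwW
  have ee := hE _ _ eb4 (Or.inr (by norm_num))
  linarith

theorem d3c_1_2_0 (q2 q3 Q T E : ℝ)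
    (g0 : 17/10 ≤ q2)
    (g1 : q2 ≤ 21/10)
    (g2 : 0 ≤ q3)
    (g3 : q3 ≤ 23/20)
    (g4 : 0 ≤ Q)
    (g5 : Q ≤ 12/5)
    (g6 : 3 * q2 + q3 + Q ≤ 16)
    (g7 : 209/100 ≤ q2 + q3 + Q)
    (g8 : q3 ≤ q2)
    (g9 : 1/2 * q2 ≤ q3 + Q)
    (hT : T ≤ (37639/6250) + (229/6250) * q2 + ((-1877/10000)) * q3 + ((-13917/80000)) * Q)
    (hE : ∀ e qb : ℝ, (∀ q, 0 ≤ q → q ≤ qb → E3 (17/20) q ≤ e * q) → (q3 ≤ qb ∨ 1 ≤ qb) → E ≤ e * Q) :
    T + T3 (17/20) q3 (Q / 16) + E ≤ 6 := by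
  have hw : 0 ≤ Q / 16 := by linarith
  have hwW : Q / 16 ≤ 3 / 20 := by linarith
  have hq3 : 0 ≤ q3 := by linarith
  have h : 0 ≤ q3 := by linarith
  have htop : q3 ≤ 23/20 := by linarith
  rcases le_total q3 (3/20) with h' | h'
  · have p := d3b0_2 q3 (Q / 16) hq3 (by linarith) (by linarith) hw hwW
    have ee := hE _ _ eb5 (Or.inl h')
    linarith
  clear h
  have h := h'
  clear h'
  rcases le_total q3 (3/10) with h' | h'
  · have p := d3b0_0 q3 (Q / 16) hq3 (by linarith) (by linarith) hw hwW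
    have ee := hE _ _ eb7 (Or.inl h')
    linarith
  clear h
  have h := h'
  clear h'
  rcases le_total q3 (2/5) with h' | h'
  · have p := d3b1_2 q3 (Q / 16) hq3 (by linarith) (by linarith) hw hwW
    have ee := hE _ _ eb8 (Or.inl h')
    linarith
  clear h
  have h := h'
  clear h'
  rcases le_total q3 (1/2) with h' | h'
  · have p := d3b1_0 q3 (Q / 16) hq3 (by linarith) (by linarith) hw hwW
    have ee := hE _ _ eb1 (Or.inl h')
    linarith
  clear h
  have h := h'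
  clear h'
  rcases le_total q3 (289/400) with h' | h'
  · have p := d3b2_3 q3 (Q / 16) hq3 (by linarith) (by linarith) hw hwW
    have ee := hE _ _ eb2 (Or.inl h')
    linarith
  clear h
  have h := h'
  clear h'
  rcases le_total q3 (93/100) with h' | h'
  · have p := d3b3_2 q3 (Q / 16) hq3 (by linarith) (by linarith) hw hwW
    have ee := hE _ _ eb3 (Or.inl h')
    linarith
  clear h
  have h := h'
  clear h'
  have h' := htop
  have p := d3b4_3 q3 (Q / 16) hq3 (by linarith) (by linarith) hw hwW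
  have ee := hE _ _ eb4 (Or.inr (by norm_num))
  linarith

theorem d3c_2_1_0 (q2 q3 Q T E : ℝ)
    (g0 : 21/10 ≤ q2)
    (g1 : q2 ≤ 27/10)
    (g2 : 0 ≤ q3)
    (g3 : q3 ≤ 23/20)
    (g4 : 0 ≤ Q)
    (g5 : Q ≤ 12/5)
    (g6 : 3 * q2 + q3 + Q ≤ 16)
    (g7 : 209/100 ≤ q2 + q3 + Q)
    (g8 : q3 ≤ q2)
    (g9 : 3/10 * q2 ≤ q3)
    (hT : T ≤ (300989/50000) + (3789/100000) * q2 + ((-1877/10000)) * q3 + ((-1413/8000)) * Q)
    (hE : ∀ e qb : ℝ, (∀ q, 0 ≤ q → q ≤ qb → E3 (17/20) q ≤ e * q) → (q3 ≤ qb ∨ 1 ≤ qb) → E ≤ e * Q) :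
    T + T3 (17/20) q3 (Q / 16) + E ≤ 6 := by
  have hw : 0 ≤ Q / 16 := by linarith
  have hwW : Q / 16 ≤ 3 / 20 := by linarith
  have hq3 : 0 ≤ q3 := by linarith
  have h : 0 ≤ q3 := by linarith
  have htop : q3 ≤ 23/20 := by linarith
  rcases le_total q3 (3/10) with h' | h'
  · linarith
  clear h
  have h := h'
  clear h'
  rcases le_total q3 (1/2) with h' | h'
  · linarith
  clear h
  have h := h'
  clear h'
  rcases le_total q3 (289/400) with h' | h'
  · have p := d3b2_0 q3 (Q / 16) hq3 (by linarith) (by linarith) hw hwW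
    have ee := hE _ _ eb2 (Or.inl h')
    linarith
  clear h
  have h := h'
  clear h'
  rcases le_total q3 (93/100) with h' | h'
  · have p := d3b3_1 q3 (Q / 16) hq3 (by linarith) (by linarith) hw hwW
    have ee := hE _ _ eb3 (Or.inl h')
    linarith
  clear h
  have h := h'
  clear h'
  have h' := htop
  have p := d3b4_2 q3 (Q / 16) hq3 (by linarith) (by linarith) hw hwW
  have ee := hE _ _ eb4 (Or.inr (by norm_num))
  linarith

theorem d3c_2_2_0 (q2 q3 Q T E : ℝ)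
    (g0 : 21/10 ≤ q2)
    (g1 : q2 ≤ 27/10)
    (g2 : 0 ≤ q3)
    (g3 : q3 ≤ 23/20)
    (g4 : 0 ≤ Q)
    (g5 : Q ≤ 12/5)
    (g6 : 3 * q2 + q3 + Q ≤ 16)
    (g7 : 209/100 ≤ q2 + q3 + Q)
    (g8 : q3 ≤ q2)
    (g9 : 1/2 * q2 ≤ q3 + Q)
    (hT : T ≤ (300989/50000) + (3789/100000) * q2 + ((-1877/10000)) * q3 + ((-1413/8000)) * Q)
    (hE : ∀ e qb : ℝ, (∀ q, 0 ≤ q → q ≤ qb → E3 (17/20) q ≤ e * q) → (q3 ≤ qb ∨ 1 ≤ qb) → E ≤ e * Q) :
    T + T3 (17/20) q3 (Q / 16) + E ≤ 6 := by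
  have hw : 0 ≤ Q / 16 := by linarith
  have hwW : Q / 16 ≤ 3 / 20 := by linarith
  have hq3 : 0 ≤ q3 := by linarith
  have h : 0 ≤ q3 := by linarith
  have htop : q3 ≤ 23/20 := by linarith
  rcases le_total q3 (3/20) with h' | h'
  · have p := d3b0_2 q3 (Q / 16) hq3 (by linarith) (by linarith) hw hwW
    have ee := hE _ _ eb5 (Or.inl h')
    linarith
  clear h
  have h := h'
  clear h'
  rcases le_total q3 (3/10) with h' | h'
  · have p := d3b0_0 q3 (Q / 16) hq3 (by linarith) (by linarith) hw hwW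
    have ee := hE _ _ eb7 (Or.inl h')
    linarith
  clear h
  have h := h'
  clear h'
  rcases le_total q3 (2/5) with h' | h'
  · have p := d3b1_2 q3 (Q / 16) hq3 (by linarith) (by linarith) hw hwW
    have ee := hE _ _ eb8 (Or.inl h')
    linarith
  clear h
  have h := h'
  clear h'
  rcases le_total q3 (1/2) with h' | h'
  · have p := d3b1_0 q3 (Q / 16) hq3 (by linarith) (by linarith) hw hwW
    have ee := hE _ _ eb1 (Or.inl h')
    linarith
  clear h
  have h := h'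
  clear h'
  rcases le_total q3 (611/1000) with h' | h'
  · have p := d3b2_3 q3 (Q / 16) hq3 (by linarith) (by linarith) hw hwW
    have ee := hE _ _ eb9 (Or.inl h')
    linarith
  clear h
  have h := h'
  clear h'
  rcases le_total q3 (289/400) with h' | h'
  · have p := d3b2_1 q3 (Q / 16) hq3 (by linarith) (by linarith) hw hwW
    have ee := hE _ _ eb2 (Or.inl h')
    linarith
  clear h
  have h := h'
  clear h'
  rcases le_total q3 (93/100) with h' | h'
  · have p := d3b3_2 q3 (Q / 16) hq3 (by linarith) (by linarith) hw hwW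
    have ee := hE _ _ eb3 (Or.inl h')
    linarith
  clear h
  have h := h'
  clear h'
  have h' := htop
  have p := d3b4_2 q3 (Q / 16) hq3 (by linarith) (by linarith) hw hwW
  have ee := hE _ _ eb4 (Or.inr (by norm_num))
  linarith

theorem d3c_3_1_0 (q2 q3 Q T E : ℝ)
    (g0 : 27/10 ≤ q2)
    (g1 : q2 ≤ 7/2)
    (g2 : 0 ≤ q3)
    (g3 : q3 ≤ 23/20)
    (g4 : 0 ≤ Q)
    (g5 : Q ≤ 12/5)
    (g6 : 3 * q2 + q3 + Q ≤ 16)
    (g7 : 209/100 ≤ q2 + q3 + Q)
    (g8 : q3 ≤ q2)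
    (g9 : 3/10 * q2 ≤ q3)
    (hT : T ≤ (604149/100000) + (301/10000) * q2 + ((-1877/10000)) * q3 + ((-14353/80000)) * Q)
    (hE : ∀ e qb : ℝ, (∀ q, 0 ≤ q → q ≤ qb → E3 (17/20) q ≤ e * q) → (q3 ≤ qb ∨ 1 ≤ qb) → E ≤ e * Q) :
    T + T3 (17/20) q3 (Q / 16) + E ≤ 6 := by
  have hw : 0 ≤ Q / 16 := by linarith
  have hwW : Q / 16 ≤ 3 / 20 := by linarith
  have hq3 : 0 ≤ q3 := by linarith
  have h : 0 ≤ q3 := by linarith
  have htop : q3 ≤ 23/20 := by linarith
  rcases le_total q3 (3/10) with h' | h'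
  · linarith
  clear h
  have h := h'
  clear h'
  rcases le_total q3 (1/2) with h' | h'
  · linarith
  clear h
  have h := h'
  clear h'
  rcases le_total q3 (289/400) with h' | h'
  · linarith
  clear h
  have h := h'
  clear h'
  rcases le_total q3 (93/100) with h' | h'
  · have p := d3b3_1 q3 (Q / 16) hq3 (by linarith) (by linarith) hw hwW
    have ee := hE _ _ eb3 (Or.inl h')
    linarith
  clear h
  have h := h'
  clear h'
  have h' := htop
  have p := d3b4_1 q3 (Q / 16) hq3 (by linarith) (by linarith) hw hwW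
  have ee := hE _ _ eb4 (Or.inr (by norm_num))
  linarith

theorem d3c_3_2_0 (q2 q3 Q T E : ℝ)
    (g0 : 27/10 ≤ q2)
    (g1 : q2 ≤ 7/2)
    (g2 : 0 ≤ q3)
    (g3 : q3 ≤ 23/20)
    (g4 : 0 ≤ Q)
    (g5 : Q ≤ 12/5)
    (g6 : 3 * q2 + q3 + Q ≤ 16)
    (g7 : 209/100 ≤ q2 + q3 + Q)
    (g8 : q3 ≤ q2)
    (g9 : 1/2 * q2 ≤ q3 + Q)
    (hT : T ≤ (604149/100000) + (301/10000) * q2 + ((-1877/10000)) * q3 + ((-14353/80000)) * Q)
    (hE : ∀ e qb : ℝ, (∀ q, 0 ≤ q → q ≤ qb → E3 (17/20) q ≤ e * q) → (q3 ≤ qb ∨ 1 ≤ qb) → E ≤ e * Q) :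
    T + T3 (17/20) q3 (Q / 16) + E ≤ 6 := by
  have hw : 0 ≤ Q / 16 := by linarith
  have hwW : Q / 16 ≤ 3 / 20 := by linarith
  have hq3 : 0 ≤ q3 := by linarith
  have h : 0 ≤ q3 := by linarith
  have htop : q3 ≤ 23/20 := by linarith
  rcases le_total q3 (3/20) with h' | h'
  · have p := d3b0_2 q3 (Q / 16) hq3 (by linarith) (by linarith) hw hwW
    have ee := hE _ _ eb5 (Or.inl h')
    linarith
  clear h
  have h := h'
  clear h'
  rcases le_total q3 (3/10) with h' | h'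
  · have p := d3b0_0 q3 (Q / 16) hq3 (by linarith) (by linarith) hw hwW
    have ee := hE _ _ eb7 (Or.inl h')
    linarith
  clear h
  have h := h'
  clear h'
  rcases le_total q3 (2/5) with h' | h'
  · have p := d3b1_2 q3 (Q / 16) hq3 (by linarith) (by linarith) hw hwW
    have ee := hE _ _ eb8 (Or.inl h')
    linarith
  clear h
  have h := h'
  clear h'
  rcases le_total q3 (1/2) with h' | h'
  · have p := d3b1_0 q3 (Q / 16) hq3 (by linarith) (by linarith) hw hwW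
    have ee := hE _ _ eb1 (Or.inl h')
    linarith
  clear h
  have h := h'
  clear h'
  rcases le_total q3 (139/250) with h' | h'
  · have p := d3b2_3 q3 (Q / 16) hq3 (by linarith) (by linarith) hw hwW
    have ee := hE _ _ eb10 (Or.inl h')
    linarith
  clear h
  have h := h'
  clear h'
  rcases le_total q3 (73/125) with h' | h'
  · have p := d3b2_2 q3 (Q / 16) hq3 (by linarith) (by linarith) hw hwW
    have ee := hE _ _ eb11 (Or.inl h')
    linarith
  clear h
  have h := h'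
  clear h'
  rcases le_total q3 (611/1000) with h' | h'
  · have p := d3b2_1 q3 (Q / 16) hq3 (by linarith) (by linarith) hw hwW
    have ee := hE _ _ eb9 (Or.inl h')
    linarith
  clear h
  have h := h'
  clear h'
  rcases le_total q3 (667/1000) with h' | h'
  · have p := d3b2_1 q3 (Q / 16) hq3 (by linarith) (by linarith) hw hwW
    have ee := hE _ _ eb12 (Or.inl h')
    linarith
  clear h
  have h := h'
  clear h'
  rcases le_total q3 (289/400) with h' | h'
  · have p := d3b2_1 q3 (Q / 16) hq3 (by linarith) (by linarith) hw hwW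
    have ee := hE _ _ eb2 (Or.inl h')
    linarith
  clear h
  have h := h'
  clear h'
  rcases le_total q3 (413/500) with h' | h'
  · have p := d3b3_3 q3 (Q / 16) hq3 (by linarith) (by linarith) hw hwW
    have ee := hE _ _ eb13 (Or.inl h')
    linarith
  clear h
  have h := h'
  clear h'
  rcases le_total q3 (93/100) with h' | h'
  · have p := d3b3_2 q3 (Q / 16) hq3 (by linarith) (by linarith) hw hwW
    have ee := hE _ _ eb3 (Or.inl h')
    linarith
  clear h
  have h := h'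
  clear h'
  have h' := htop
  have p := d3b4_2 q3 (Q / 16) hq3 (by linarith) (by linarith) hw hwW
  have ee := hE _ _ eb4 (Or.inr (by norm_num))
  linarith

theorem d3c_4_1_1 (q2 q3 Q T E : ℝ)
    (g0 : 7/2 ≤ q2)
    (g1 : q2 ≤ 8)
    (g2 : 0 ≤ q3)
    (g3 : q3 ≤ 23/20)
    (g4 : 0 ≤ Q)
    (g5 : Q ≤ 12/5)
    (g6 : 3 * q2 + q3 + Q ≤ 16)
    (g7 : 209/100 ≤ q2 + q3 + Q)
    (g8 : q3 ≤ q2)
    (g9 : 3/10 * q2 ≤ q3)
    (g10 : q2 ≤ 21/5)
    (hT : T ≤ (38083/6250) + (393/25000) * q2 + ((-1877/10000)) * q3 + ((-28987/160000)) * Q)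
    (hE : ∀ e qb : ℝ, (∀ q, 0 ≤ q → q ≤ qb → E3 (17/20) q ≤ e * q) → (q3 ≤ qb ∨ 1 ≤ qb) → E ≤ e * Q) :
    T + T3 (17/20) q3 (Q / 16) + E ≤ 6 := by
  have hw : 0 ≤ Q / 16 := by linarith
  have hwW : Q / 16 ≤ 3 / 20 := by linarith
  have hq3 : 0 ≤ q3 := by linarith
  have h : 0 ≤ q3 := by linarith
  have htop : q3 ≤ 23/20 := by linarith
  rcases le_total q3 (3/10) with h' | h'
  · linarith
  clear h
  have h := h'
  clear h'
  rcases le_total q3 (1/2) with h' | h'
  · linarith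
  clear h
  have h := h'
  clear h'
  rcases le_total q3 (289/400) with h' | h'
  · linarith
  clear h
  have h := h'
  clear h'
  rcases le_total q3 (93/100) with h' | h'
  · linarith
  clear h
  have h := h'
  clear h'
  have h' := htop
  have p := d3b4_1 q3 (Q / 16) hq3 (by linarith) (by linarith) hw hwW
  have ee := hE _ _ eb4 (Or.inr (by norm_num))
  linarith

theorem d3c_4_1_2 (q2 q3 Q T E : ℝ)
    (g0 : 7/2 ≤ q2)
    (g1 : q2 ≤ 8)
    (g2 : 0 ≤ q3)
    (g3 : q3 ≤ 23/20)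
    (g4 : 0 ≤ Q)
    (g5 : Q ≤ 12/5)
    (g6 : 3 * q2 + q3 + Q ≤ 16)
    (g7 : 209/100 ≤ q2 + q3 + Q)
    (g8 : q3 ≤ q2)
    (g9 : 3/10 * q2 ≤ q3)
    (g10 : 21/5 ≤ q2)
    (g11 : q3 ≤ 7/10)
    (hT : T ≤ (38083/6250) + (393/25000) * q2 + ((-1877/10000)) * q3 + ((-28987/160000)) * Q)
    (hE : ∀ e qb : ℝ, (∀ q, 0 ≤ q → q ≤ qb → E3 (17/20) q ≤ e * q) → (q3 ≤ qb ∨ 1 ≤ qb) → E ≤ e * Q) :
    T + T3 (17/20) q3 (Q / 16) + E ≤ 6 := by
  have hw : 0 ≤ Q / 16 := by linarith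
  have hwW : Q / 16 ≤ 3 / 20 := by linarith
  have hq3 : 0 ≤ q3 := by linarith
  have h : 0 ≤ q3 := by linarith
  have htop : q3 ≤ 23/20 := by linarith
  rcases le_total q3 (3/10) with h' | h'
  · linarith
  clear h
  have h := h'
  clear h'
  rcases le_total q3 (1/2) with h' | h'
  · linarith
  clear h
  have h := h'
  clear h'
  rcases le_total q3 (289/400) with h' | h'
  · linarith
  clear h
  have h := h'
  clear h'
  rcases le_total q3 (93/100) with h' | h'
  · linarith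
  clear h
  have h := h'
  clear h'
  have h' := htop
  linarith

theorem d3c_4_2_1 (q2 q3 Q T E : ℝ)
    (g0 : 7/2 ≤ q2)
    (g1 : q2 ≤ 8)
    (g2 : 0 ≤ q3)
    (g3 : q3 ≤ 23/20)
    (g4 : 0 ≤ Q)
    (g5 : Q ≤ 12/5)
    (g6 : 3 * q2 + q3 + Q ≤ 16)
    (g7 : 209/100 ≤ q2 + q3 + Q)
    (g8 : q3 ≤ q2)
    (g9 : 1/2 * q2 ≤ q3 + Q)
    (g10 : q2 ≤ 21/5)
    (hT : T ≤ (38083/6250) + (393/25000) * q2 + ((-1877/10000)) * q3 + ((-28987/160000)) * Q)
    (hE : ∀ e qb : ℝ, (∀ q, 0 ≤ q → q ≤ qb → E3 (17/20) q ≤ e * q) → (q3 ≤ qb ∨ 1 ≤ qb) → E ≤ e * Q) :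
    T + T3 (17/20) q3 (Q / 16) + E ≤ 6 := by
  have hw : 0 ≤ Q / 16 := by linarith
  have hwW : Q / 16 ≤ 3 / 20 := by linarith
  have hq3 : 0 ≤ q3 := by linarith
  have h : 0 ≤ q3 := by linarith
  have htop : q3 ≤ 23/20 := by linarith
  rcases le_total q3 (3/10) with h' | h'
  · have p := d3b0_2 q3 (Q / 16) hq3 (by linarith) (by linarith) hw hwW
    have ee := hE _ _ eb7 (Or.inl h')
    linarith
  clear h
  have h := h'
  clear h'
  rcases le_total q3 (2/5) with h' | h'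
  · have p := d3b1_2 q3 (Q / 16) hq3 (by linarith) (by linarith) hw hwW
    have ee := hE _ _ eb8 (Or.inl h')
    linarith
  clear h
  have h := h'
  clear h'
  rcases le_total q3 (1/2) with h' | h'
  · have p := d3b1_0 q3 (Q / 16) hq3 (by linarith) (by linarith) hw hwW
    have ee := hE _ _ eb1 (Or.inl h')
    linarith
  clear h
  have h := h'
  clear h'
  rcases le_total q3 (139/250) with h' | h'
  · have p := d3b2_3 q3 (Q / 16) hq3 (by linarith) (by linarith) hw hwW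
    have ee := hE _ _ eb10 (Or.inl h')
    linarith
  clear h
  have h := h'
  clear h'
  rcases le_total q3 (611/1000) with h' | h'
  · have p := d3b2_2 q3 (Q / 16) hq3 (by linarith) (by linarith) hw hwW
    have ee := hE _ _ eb9 (Or.inl h')
    linarith
  clear h
  have h := h'
  clear h'
  rcases le_total q3 (667/1000) with h' | h'
  · have p := d3b2_1 q3 (Q / 16) hq3 (by linarith) (by linarith) hw hwW
    have ee := hE _ _ eb12 (Or.inl h')
    linarith
  clear h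
  have h := h'
  clear h'
  rcases le_total q3 (289/400) with h' | h'
  · have p := d3b2_1 q3 (Q / 16) hq3 (by linarith) (by linarith) hw hwW
    have ee := hE _ _ eb2 (Or.inl h')
    linarith
  clear h
  have h := h'
  clear h'
  rcases le_total q3 (387/500) with h' | h'
  · have p := d3b3_3 q3 (Q / 16) hq3 (by linarith) (by linarith) hw hwW
    have ee := hE _ _ eb14 (Or.inl h')
    linarith
  clear h
  have h := h'
  clear h'
  rcases le_total q3 (413/500) with h' | h'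
  · have p := d3b3_3 q3 (Q / 16) hq3 (by linarith) (by linarith) hw hwW
    have ee := hE _ _ eb13 (Or.inl h')
    linarith
  clear h
  have h := h'
  clear h'
  rcases le_total q3 (439/500) with h' | h'
  · have p := d3b3_2 q3 (Q / 16) hq3 (by linarith) (by linarith) hw hwW
    have ee := hE _ _ eb15 (Or.inl h')
    linarith
  clear h
  have h := h'
  clear h'
  rcases le_total q3 (93/100) with h' | h'
  · have p := d3b3_2 q3 (Q / 16) hq3 (by linarith) (by linarith) hw hwW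
    have ee := hE _ _ eb3 (Or.inl h')
    linarith
  clear h
  have h := h'
  clear h'
  have h' := htop
  have p := d3b4_2 q3 (Q / 16) hq3 (by linarith) (by linarith) hw hwW
  have ee := hE _ _ eb4 (Or.inr (by norm_num))
  linarith

theorem d3c_4_2_2 (q2 q3 Q T E : ℝ)
    (g0 : 7/2 ≤ q2)
    (g1 : q2 ≤ 8)
    (g2 : 0 ≤ q3)
    (g3 : q3 ≤ 23/20)
    (g4 : 0 ≤ Q)
    (g5 : Q ≤ 12/5)
    (g6 : 3 * q2 + q3 + Q ≤ 16)
    (g7 : 209/100 ≤ q2 + q3 + Q)
    (g8 : q3 ≤ q2)
    (g9 : 1/2 * q2 ≤ q3 + Q)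
    (g10 : 21/5 ≤ q2)
    (g11 : q3 ≤ 7/10)
    (hT : T ≤ (38083/6250) + (393/25000) * q2 + ((-1877/10000)) * q3 + ((-28987/160000)) * Q)
    (hE : ∀ e qb : ℝ, (∀ q, 0 ≤ q → q ≤ qb → E3 (17/20) q ≤ e * q) → (q3 ≤ qb ∨ 1 ≤ qb) → E ≤ e * Q) :
    T + T3 (17/20) q3 (Q / 16) + E ≤ 6 := by
  have hw : 0 ≤ Q / 16 := by linarith
  have hwW : Q / 16 ≤ 3 / 20 := by linarith
  have hq3 : 0 ≤ q3 := by linarith
  have h : 0 ≤ q3 := by linarith
  have htop : q3 ≤ 23/20 := by linarith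
  rcases le_total q3 (3/10) with h' | h'
  · have p := d3b0_2 q3 (Q / 16) hq3 (by linarith) (by linarith) hw hwW
    have ee := hE _ _ eb7 (Or.inl h')
    linarith
  clear h
  have h := h'
  clear h'
  rcases le_total q3 (2/5) with h' | h'
  · have p := d3b1_2 q3 (Q / 16) hq3 (by linarith) (by linarith) hw hwW
    have ee := hE _ _ eb8 (Or.inl h')
    linarith
  clear h
  have h := h'
  clear h'
  rcases le_total q3 (1/2) with h' | h'
  · have p := d3b1_0 q3 (Q / 16) hq3 (by linarith) (by linarith) hw hwW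
    have ee := hE _ _ eb1 (Or.inl h')
    linarith
  clear h
  have h := h'
  clear h'
  rcases le_total q3 (139/250) with h' | h'
  · have p := d3b2_3 q3 (Q / 16) hq3 (by linarith) (by linarith) hw hwW
    have ee := hE _ _ eb10 (Or.inl h')
    linarith
  clear h
  have h := h'
  clear h'
  rcases le_total q3 (611/1000) with h' | h'
  · have p := d3b2_1 q3 (Q / 16) hq3 (by linarith) (by linarith) hw hwW
    have ee := hE _ _ eb9 (Or.inl h')
    linarith
  clear h
  have h := h'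
  clear h'
  rcases le_total q3 (667/1000) with h' | h'
  · have p := d3b2_1 q3 (Q / 16) hq3 (by linarith) (by linarith) hw hwW
    have ee := hE _ _ eb12 (Or.inl h')
    linarith
  clear h
  have h := h'
  clear h'
  rcases le_total q3 (289/400) with h' | h'
  · have p := d3b2_1 q3 (Q / 16) hq3 (by linarith) (by linarith) hw hwW
    have ee := hE _ _ eb2 (Or.inl h')
    linarith
  clear h
  have h := h'
  clear h'
  rcases le_total q3 (93/100) with h' | h'
  · linarith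
  clear h
  have h := h'
  clear h'
  have h' := htop
  linarith

theorem d2bc (q2 q3 Q T E : ℝ)
    (g0 : 21/5 ≤ q2)
    (g1 : 7/10 ≤ q3)
    (g2 : q3 ≤ 23/20)
    (g3 : 0 ≤ Q)
    (g4 : Q ≤ 12/5)
    (g5 : 3 * q2 + q3 + Q ≤ 16)
    (g6 : 1/2 * q2 ≤ q3 + Q)
    (hT : T ≤ (618539/100000) + 0 * q2 + ((-18971/100000)) * q3 + ((-4559/25000)) * Q)
    (hE : ∀ e qb : ℝ, (∀ q, 0 ≤ q → q ≤ qb → E3 (9/10) q ≤ e * q) → (q3 ≤ qb ∨ 1 ≤ qb) → E ≤ e * Q) :
    T + T3 (9/10) q3 (Q / 16) + E ≤ 6 := by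
  have hw : 0 ≤ Q / 16 := by linarith
  have hwW : Q / 16 ≤ 3 / 20 := by linarith
  have hq3 : 0 ≤ q3 := by linarith
  have h : 7/10 ≤ q3 := by linarith
  have htop : q3 ≤ 23/20 := by linarith
  rcases le_total q3 (151/200) with h' | h'
  · have p := d2b0_3 q3 (Q / 16) hq3 (by linarith) (by linarith) hw hwW
    have ee := hE _ _ eb17 (Or.inl h')
    linarith
  clear h
  have h := h'
  clear h'
  rcases le_total q3 (81/100) with h' | h'
  · have p := d2b0_3 q3 (Q / 16) hq3 (by linarith) (by linarith) hw hwW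
    have ee := hE _ _ eb18 (Or.inl h')
    linarith
  clear h
  have h := h'
  clear h'
  rcases le_total q3 (179/200) with h' | h'
  · have p := d2b1_3 q3 (Q / 16) hq3 (by linarith) (by linarith) hw hwW
    have ee := hE _ _ eb19 (Or.inl h')
    linarith
  clear h
  have h := h'
  clear h'
  rcases le_total q3 (49/50) with h' | h'
  · have p := d2b1_2 q3 (Q / 16) hq3 (by linarith) (by linarith) hw hwW
    have ee := hE _ _ eb20 (Or.inl h')
    linarith
  clear h
  have h := h'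
  clear h'
  have h' := htop
  have p := d2b2_2 q3 (Q / 16) hq3 (by linarith) (by linarith) hw hwW
  have ee := hE _ _ eb16 (Or.inr (by norm_num))
  linarith

theorem d5c_0 (q2 q3 Q T E : ℝ)
    (g0 : 0 ≤ q2)
    (g1 : q2 ≤ 16/25)
    (g2 : 0 ≤ q3)
    (g3 : 0 ≤ Q)
    (g4 : Q ≤ 12/5)
    (g5 : 209/100 ≤ q2 + q3 + Q)
    (g6 : q3 ≤ q2)
    (hT : T ≤ (307017/50000) + ((-561/3125)) * q2 + ((-561/3125)) * q3 + ((-31479/200000)) * Q)
    (hE : ∀ e qb : ℝ, (∀ q, 0 ≤ q → q ≤ qb → E3 (4/5) q ≤ e * q) → (q3 ≤ qb ∨ 1 ≤ qb) → E ≤ e * Q) :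
    T + T3 (4/5) q3 (Q / 16) + E ≤ 6 := by
  have hw : 0 ≤ Q / 16 := by linarith
  have hwW : Q / 16 ≤ 3 / 20 := by linarith
  have hq3 : 0 ≤ q3 := by linarith
  have h : 0 ≤ q3 := by linarith
  have htop : q3 ≤ 7/5 := by linarith
  rcases le_total q3 (4/25) with h' | h'
  · have p := d5b0_2 q3 (Q / 16) hq3 (by linarith) (by linarith) hw hwW
    have ee := hE _ _ eb21 (Or.inl h')
    linarith
  clear h
  have h := h'
  clear h'
  rcases le_total q3 (6/25) with h' | h'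
  · have p := d5b0_2 q3 (Q / 16) hq3 (by linarith) (by linarith) hw hwW
    have ee := hE _ _ eb22 (Or.inl h')
    linarith
  clear h
  have h := h'
  clear h'
  rcases le_total q3 (8/25) with h' | h'
  · have p := d5b0_2 q3 (Q / 16) hq3 (by linarith) (by linarith) hw hwW
    have ee := hE _ _ eb23 (Or.inl h')
    linarith
  clear h
  have h := h'
  clear h'
  rcases le_total q3 (2/5) with h' | h'
  · have p := d5b0_2 q3 (Q / 16) hq3 (by linarith) (by linarith) hw hwW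
    have ee := hE _ _ eb24 (Or.inl h')
    linarith
  clear h
  have h := h'
  clear h'
  rcases le_total q3 (12/25) with h' | h'
  · have p := d5b0_2 q3 (Q / 16) hq3 (by linarith) (by linarith) hw hwW
    have ee := hE _ _ eb25 (Or.inl h')
    linarith
  clear h
  have h := h'
  clear h'
  rcases le_total q3 (16/25) with h' | h'
  · have p := d5b0_1 q3 (Q / 16) hq3 (by linarith) (by linarith) hw hwW
    have ee := hE _ _ eb26 (Or.inl h')
    linarith
  clear h
  have h := h'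
  clear h'
  rcases le_total q3 (83/100) with h' | h'
  · have p := d5b1_2 q3 (Q / 16) hq3 (by linarith) (by linarith) hw hwW
    have ee := hE _ _ eb27 (Or.inl h')
    linarith
  clear h
  have h := h'
  clear h'
  rcases le_total q3 (51/50) with h' | h'
  · linarith
  clear h
  have h := h'
  clear h'
  have h' := htop
  linarith

theorem d5c_1 (q2 q3 Q T E : ℝ)
    (g0 : 16/25 ≤ q2)
    (g1 : q2 ≤ 1)
    (g2 : 0 ≤ q3)
    (g3 : 0 ≤ Q)
    (g4 : Q ≤ 12/5)
    (g5 : 209/100 ≤ q2 + q3 + Q)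
    (g6 : q3 ≤ q2)
    (hT : T ≤ (24277/4000) + ((-6841/100000)) * q2 + ((-561/3125)) * q3 + ((-126021/800000)) * Q)
    (hE : ∀ e qb : ℝ, (∀ q, 0 ≤ q → q ≤ qb → E3 (4/5) q ≤ e * q) → (q3 ≤ qb ∨ 1 ≤ qb) → E ≤ e * Q) :
    T + T3 (4/5) q3 (Q / 16) + E ≤ 6 := by
  have hw : 0 ≤ Q / 16 := by linarith
  have hwW : Q / 16 ≤ 3 / 20 := by linarith
  have hq3 : 0 ≤ q3 := by linarith
  have h : 0 ≤ q3 := by linarith
  have htop : q3 ≤ 7/5 := by linarith
  rcases le_total q3 (8/25) with h' | h'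
  · have p := d5b0_2 q3 (Q / 16) hq3 (by linarith) (by linarith) hw hwW
    have ee := hE _ _ eb23 (Or.inl h')
    linarith
  clear h
  have h := h'
  clear h'
  rcases le_total q3 (16/25) with h' | h'
  · have p := d5b0_2 q3 (Q / 16) hq3 (by linarith) (by linarith) hw hwW
    have ee := hE _ _ eb26 (Or.inl h')
    linarith
  clear h
  have h := h'
  clear h'
  rcases le_total q3 (83/100) with h' | h'
  · have p := d5b1_2 q3 (Q / 16) hq3 (by linarith) (by linarith) hw hwW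
    have ee := hE _ _ eb27 (Or.inl h')
    linarith
  clear h
  have h := h'
  clear h'
  rcases le_total q3 (51/50) with h' | h'
  · have p := d5b1_2 q3 (Q / 16) hq3 (by linarith) (by linarith) hw hwW
    have ee := hE _ _ eb28 (Or.inr (by norm_num))
    linarith
  clear h
  have h := h'
  clear h'
  have h' := htop
  linarith

theorem d5c_2 (q2 q3 Q T E : ℝ)
    (g0 : 1 ≤ q2)
    (g1 : q2 ≤ 7/5)
    (g2 : 0 ≤ q3)
    (g3 : 0 ≤ Q)
    (g4 : Q ≤ 12/5)
    (g5 : 209/100 ≤ q2 + q3 + Q)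
    (g6 : q3 ≤ q2)
    (hT : T ≤ (597007/100000) + (3077/100000) * q2 + ((-561/3125)) * q3 + ((-126021/800000)) * Q)
    (hE : ∀ e qb : ℝ, (∀ q, 0 ≤ q → q ≤ qb → E3 (4/5) q ≤ e * q) → (q3 ≤ qb ∨ 1 ≤ qb) → E ≤ e * Q) :
    T + T3 (4/5) q3 (Q / 16) + E ≤ 6 := by
  have hw : 0 ≤ Q / 16 := by linarith
  have hwW : Q / 16 ≤ 3 / 20 := by linarith
  have hq3 : 0 ≤ q3 := by linarith
  have h : 0 ≤ q3 := by linarith
  have htop : q3 ≤ 7/5 := by linarith
  rcases le_total q3 (8/25) with h' | h'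
  · have p := d5b0_2 q3 (Q / 16) hq3 (by linarith) (by linarith) hw hwW
    have ee := hE _ _ eb23 (Or.inl h')
    linarith
  clear h
  have h := h'
  clear h'
  rcases le_total q3 (16/25) with h' | h'
  · have p := d5b0_2 q3 (Q / 16) hq3 (by linarith) (by linarith) hw hwW
    have ee := hE _ _ eb26 (Or.inl h')
    linarith
  clear h
  have h := h'
  clear h'
  have h' := htop
  have p := d5b1_2 q3 (Q / 16) hq3 (by linarith) (by linarith) hw hwW
  have ee := hE _ _ eb28 (Or.inr (by norm_num))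
  linarith

end
end Crest.Agent.H18Pr
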