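import Crest.Agent.H18PrBSSpec

/-! Module BSC (case C of the scalar part) of rid 215, by helper25. -/

set_option autoImplicit false
set_option linter.all false
set_option maxHeartbeats 1000000

namespace Crest.Agent.H25PrBSC

open Crest.Agent.H18Pr

theorem kle (s R : ℝ) (hs : 0 < s)
    (h : (s^6 - 2.35*0.77*s^5 + 1.5*0.77^2*s^4 - 0.125*0.77^4*s^2 - 0.025*0.77^6) ≤ R * s^5) :
    K4 0.77 s ≤ R := by
  have e : K4 0.77 s
      = (s^6 - 2.35*0.77*s^5 + 1.5*0.77^2*s^4 - 0.125*0.77^4*s^2 - 0.025*0.77^6) / s^5 := by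
    unfold K4
    field_simp
  rw [e, div_le_iff₀ (pow_pos hs 5)]
  exact h

theorem c_iii (s : ℝ) (h1 : 1 ≤ s) (h2 : s ≤ (4/3)) : K4 0.77 s ≤ -0.16097 + 0.19177*s^2 := by
  apply kle s _ (by linarith)
  have hp : ∀ u v : ℝ, 0 ≤ u → 0 ≤ v → 0 ≤ (8910778604643/40000000000000)*u^0*v^7 + (3431014539132501/40000000000000)*u^1*v^6 + (22540386732247503/40000000000000)*u^2*v^5 + (12076341365082501/8000000000000)*u^3*v^4 + (16684368702132501/8000000000000)*u^4*v^3 + (61984317165697503/40000000000000)*u^5*v^2 + (23092796024382501/40000000000000)*u^6*v^1 + (3274569315654643/40000000000000)*u^7*v^0 := by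
    intro u v hu hv; positivity
  have h := hp (s-1) ((4/3)-s) (by linarith) (by linarith)
  have key : (-0.16097 + 0.19177*s^2)*s^5 - (s^6 - 2.35*0.77*s^5 + 1.5*0.77^2*s^4 - 0.125*0.77^4*s^2 - 0.025*0.77^6) = ((8910778604643/40000000000000)*(s-1)^0*((4/3)-s)^7 + (3431014539132501/40000000000000)*(s-1)^1*((4/3)-s)^6 + (22540386732247503/40000000000000)*(s-1)^2*((4/3)-s)^5 + (12076341365082501/8000000000000)*(s-1)^3*((4/3)-s)^4 + (16684368702132501/8000000000000)*(s-1)^4*((4/3)-s)^3 + (61984317165697503/40000000000000)*(s-1)^5*((4/3)-s)^2 + (23092796024382501/40000000000000)*(s-1)^6*((4/3)-s)^1 + (3274569315654643/40000000000000)*(s-1)^7*((4/3)-s)^0) := by ring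
  linarith

theorem c_iv (s : ℝ) (h1 : (77/100) ≤ s) (h2 : s ≤ 1) : K4 0.77 s ≤ 0.0308*s^2 := by
  apply kle s _ (by linarith)
  have hp : ∀ u v : ℝ, 0 ≤ u → 0 ≤ v → 0 ≤ (1235736291547681/8512063617500)*u^0*v^7 + (112339662867971/85120636175)*u^1*v^6 + (33620262953277/6809650894)*u^2*v^5 + (66039153382125/6809650894)*u^3*v^4 + (35898026668350/3404825447)*u^4*v^3 + (20498110918285/3404825447)*u^5*v^2 + (9637805338115/6809650894)*u^6*v^1 + (20372150445/6809650894)*u^7*v^0 := by
    intro u v hu hv; positivity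
  have h := hp (s-(77/100)) (1-s) (by linarith) (by linarith)
  have key : (0.0308*s^2)*s^5 - (s^6 - 2.35*0.77*s^5 + 1.5*0.77^2*s^4 - 0.125*0.77^4*s^2 - 0.025*0.77^6) = ((1235736291547681/8512063617500)*(s-(77/100))^0*(1-s)^7 + (112339662867971/85120636175)*(s-(77/100))^1*(1-s)^6 + (33620262953277/6809650894)*(s-(77/100))^2*(1-s)^5 + (66039153382125/6809650894)*(s-(77/100))^3*(1-s)^4 + (35898026668350/3404825447)*(s-(77/100))^4*(1-s)^3 + (20498110918285/3404825447)*(s-(77/100))^5*(1-s)^2 + (9637805338115/6809650894)*(s-(77/100))^6*(1-s)^1 + (20372150445/6809650894)*(s-(77/100))^7*(1-s)^0) := by ring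
  linarith

theorem c_v (s : ℝ) (h1 : (77/100) ≤ s) (h2 : s ≤ (8661/10000)) : K4 0.77 s ≤ 0.0069*s^2 := by
  apply kle s _ (by linarith)
  have hp : ∀ u v : ℝ, 0 ≤ u → 0 ≤ v → 0 ≤ (11073481054128570000000000/756943935220796320321)*u^0*v^7 + (87188563099825040700000000/756943935220796320321)*u^1*v^6 + (282036231765340798053000000/756943935220796320321)*u^2*v^5 + (480548623920732135457150000/756943935220796320321)*u^3*v^4 + (455723660981367319594399500/756943935220796320321)*u^4*v^3 + (228732897708174006735316421/756943935220796320321)*u^5*v^2 + (4791757686034889375296595551/75694393522079632032100)*u^6*v^1 + (2808711553675515313936447249/7569439352207963203210000)*u^7*v^0 := by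
    intro u v hu hv; positivity
  have h := hp (s-(77/100)) ((8661/10000)-s) (by linarith) (by linarith)
  have key : (0.0069*s^2)*s^5 - (s^6 - 2.35*0.77*s^5 + 1.5*0.77^2*s^4 - 0.125*0.77^4*s^2 - 0.025*0.77^6) = ((11073481054128570000000000/756943935220796320321)*(s-(77/100))^0*((8661/10000)-s)^7 + (87188563099825040700000000/756943935220796320321)*(s-(77/100))^1*((8661/10000)-s)^6 + (282036231765340798053000000/756943935220796320321)*(s-(77/100))^2*((8661/10000)-s)^5 + (480548623920732135457150000/756943935220796320321)*(s-(77/100))^3*((8661/10000)-s)^4 + (455723660981367319594399500/756943935220796320321)*(s-(77/100))^4*((8661/10000)-s)^3 + (228732897708174006735316421/756943935220796320321)*(s-(77/100))^5*((8661/10000)-s)^2 + (4791757686034889375296595551/75694393522079632032100)*(s-(77/100))^6*((8661/10000)-s)^1 + (2808711553675515313936447249/7569439352207963203210000)*(s-(77/100))^7*((8661/10000)-s)^0) := by ring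
  linarith

theorem c_vi (s : ℝ) (h1 : (77/100) ≤ s) (h2 : s ≤ (6311/5000)) : K4 0.77 s ≤ 0.069*(s^2-0.77^2) + 0.0655*(s^2-0.77^2)^2 := by
  apply kle s _ (by linarith)
  have hp : ∀ u v : ℝ, 0 ≤ u → 0 ≤ v → 0 ≤ (488489953333593750000000000/58501240277754397393507847)*u^0*v^8 + (4874833023983099220312500000/58501240277754397393507847)*u^1*v^7 + (19593169325380085540875000000/58501240277754397393507847)*u^2*v^6 + (40943585934162503577045156250/58501240277754397393507847)*u^3*v^5 + (2052617813022400354005515625/2543532185989321625804689)*u^4*v^4 + (28723453366358412765896066875/58501240277754397393507847)*u^5*v^3 + (14953412382327857501226302655/117002480555508794787015694)*u^6*v^2 + (12120665408914576353752266541/2340049611110175895740313880)*u^7*v^1 + (160291243144513403023587700007/117002480555508794787015694000)*u^8*v^0 := by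
    intro u v hu hv; positivity
  have h := hp (s-(77/100)) ((6311/5000)-s) (by linarith) (by linarith)
  have key : (0.069*(s^2-0.77^2) + 0.0655*(s^2-0.77^2)^2)*s^5 - (s^6 - 2.35*0.77*s^5 + 1.5*0.77^2*s^4 - 0.125*0.77^4*s^2 - 0.025*0.77^6) = (s-77/100)*((488489953333593750000000000/58501240277754397393507847)*(s-(77/100))^0*((6311/5000)-s)^8 + (4874833023983099220312500000/58501240277754397393507847)*(s-(77/100))^1*((6311/5000)-s)^7 + (19593169325380085540875000000/58501240277754397393507847)*(s-(77/100))^2*((6311/5000)-s)^6 + (40943585934162503577045156250/58501240277754397393507847)*(s-(77/100))^3*((6311/5000)-s)^5 + (2052617813022400354005515625/2543532185989321625804689)*(s-(77/100))^4*((6311/5000)-s)^4 + (28723453366358412765896066875/58501240277754397393507847)*(s-(77/100))^5*((6311/5000)-s)^3 + (14953412382327857501226302655/117002480555508794787015694)*(s-(77/100))^6*((6311/5000)-s)^2 + (12120665408914576353752266541/2340049611110175895740313880)*(s-(77/100))^7*((6311/5000)-s)^1 + (160291243144513403023587700007/117002480555508794787015694000)*(s-(77/100))^8*((6311/5000)-s)^0)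 := by ring
  have h3 : 0 ≤ (s-77/100) := by linarith
  have h4 := mul_nonneg h3 h
  linarith

theorem c_viia (s : ℝ) (h1 : (77/100) ≤ s) (h2 : s ≤ (193/200)) : K4 0.77 s ≤ 0.009*(s^2-0.77^2) + 0.17*(s^2-0.77^2)^2 := by
  apply kle s _ (by linarith)
  have hp : ∀ u v : ℝ, 0 ≤ u → 0 ≤ v → 0 ≤ (1067122586055680/594667695609)*u^0*v^8 + (657342936928033664/44600077170675)*u^1*v^7 + (2188570251903550592/44600077170675)*u^2*v^6 + (425239518240571496/4955564130075)*u^3*v^5 + (757023704642214548/8920015434135)*u^4*v^4 + (428437810781630348/8920015434135)*u^5*v^3 + (242044406759383726/14866692390225)*u^6*v^2 + (401918016981021793/89200154341350)*u^7*v^1 + (191192224632033077/178400308682700)*u^8*v^0 := by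
    intro u v hu hv; positivity
  have h := hp (s-(77/100)) ((193/200)-s) (by linarith) (by linarith)
  have key : (0.009*(s^2-0.77^2) + 0.17*(s^2-0.77^2)^2)*s^5 - (s^6 - 2.35*0.77*s^5 + 1.5*0.77^2*s^4 - 0.125*0.77^4*s^2 - 0.025*0.77^6) = (s-77/100)*((1067122586055680/594667695609)*(s-(77/100))^0*((193/200)-s)^8 + (657342936928033664/44600077170675)*(s-(77/100))^1*((193/200)-s)^7 + (2188570251903550592/44600077170675)*(s-(77/100))^2*((193/200)-s)^6 + (425239518240571496/4955564130075)*(s-(77/100))^3*((193/200)-s)^5 + (757023704642214548/8920015434135)*(s-(77/100))^4*((193/200)-s)^4 + (428437810781630348/8920015434135)*(s-(77/100))^5*((193/200)-s)^3 + (242044406759383726/14866692390225)*(s-(77/100))^6*((193/200)-s)^2 + (401918016981021793/89200154341350)*(s-(77/100))^7*((193/200)-s)^1 + (191192224632033077/178400308682700)*(s-(77/100))^8*((193/200)-s)^0) := by ring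
  have h3 : 0 ≤ (s-77/100) := by linarith
  have h4 := mul_nonneg h3 h
  linarith

theorem c_viib (s : ℝ) (h1 : (193/200) ≤ s) (h2 : s ≤ (1159/1000)) : K4 0.77 s ≤ 0.009*(s^2-0.77^2) + 0.17*(s^2-0.77^2)^2 := by
  apply kle s _ (by linarith)
  have hp : ∀ u v : ℝ, 0 ≤ u → 0 ≤ v → 0 ≤ (8962135529626550484375/8025532000642008064)*u^0*v^8 + (26384976710712168265625/2006383000160502016)*u^1*v^7 + (1191228393313738243125/15674867188753922)*u^2*v^6 + (517227988927246388852625/2006383000160502016)*u^3*v^5 + (2156811651352557504278875/4012766000321004032)*u^4*v^4 + (1395497843238985976210035/2006383000160502016)*u^5*v^3 + (546404030711914438300255/1003191500080251008)*u^6*v^2 + (2373568591088960760190031/10031915000802510080)*u^7*v^1 + (8789321285317395117059267/200638300016050201600)*u^8*v^0 := by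
    intro u v hu hv; positivity
  have h := hp (s-(193/200)) ((1159/1000)-s) (by linarith) (by linarith)
  have key : (0.009*(s^2-0.77^2) + 0.17*(s^2-0.77^2)^2)*s^5 - (s^6 - 2.35*0.77*s^5 + 1.5*0.77^2*s^4 - 0.125*0.77^4*s^2 - 0.025*0.77^6) = (s-77/100)*((8962135529626550484375/8025532000642008064)*(s-(193/200))^0*((1159/1000)-s)^8 + (26384976710712168265625/2006383000160502016)*(s-(193/200))^1*((1159/1000)-s)^7 + (1191228393313738243125/15674867188753922)*(s-(193/200))^2*((1159/1000)-s)^6 + (517227988927246388852625/2006383000160502016)*(s-(193/200))^3*((1159/1000)-s)^5 + (2156811651352557504278875/4012766000321004032)*(s-(193/200))^4*((1159/1000)-s)^4 + (1395497843238985976210035/2006383000160502016)*(s-(193/200))^5*((1159/1000)-s)^3 + (546404030711914438300255/1003191500080251008)*(s-(193/200))^6*((1159/1000)-s)^2 + (2373568591088960760190031/10031915000802510080)*(s-(193/200))^7*((1159/1000)-s)^1 + (8789321285317395117059267/200638300016050201600)*(s-(193/200))^8*((1159/1000)-s)^0) := by ring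
  have h3 : 0 ≤ (s-77/100) := by linarith
  have h4 := mul_nonneg h3 h
  linarith

theorem c_viii (s : ℝ) (h1 : (77/100) ≤ s) (h2 : s ≤ (1159/1000)) : K4 0.77 s ≤ 0.1152*(s^2-0.77^2) := by
  apply kle s _ (by linarith)
  have hp : ∀ u v : ℝ, 0 ≤ u → 0 ≤ v → 0 ≤ (48020516372505600/3464955073649161)*u^0*v^6 + (370272034454174160/3464955073649161)*u^1*v^5 + (1111543378985023600/3464955073649161)*u^2*v^4 + (1630960776509037512/3464955073649161)*u^3*v^3 + (5864796905340388708/17324775368245805)*u^4*v^2 + (41574543938301870984/433119384206145125)*u^5*v^1 + (1065655542815051012/2165596921030725625)*u^6*v^0 := by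
    intro u v hu hv; positivity
  have h := hp (s-(77/100)) ((1159/1000)-s) (by linarith) (by linarith)
  have key : (0.1152*(s^2-0.77^2))*s^5 - (s^6 - 2.35*0.77*s^5 + 1.5*0.77^2*s^4 - 0.125*0.77^4*s^2 - 0.025*0.77^6) = (s-77/100)*((48020516372505600/3464955073649161)*(s-(77/100))^0*((1159/1000)-s)^6 + (370272034454174160/3464955073649161)*(s-(77/100))^1*((1159/1000)-s)^5 + (1111543378985023600/3464955073649161)*(s-(77/100))^2*((1159/1000)-s)^4 + (1630960776509037512/3464955073649161)*(s-(77/100))^3*((1159/1000)-s)^3 + (5864796905340388708/17324775368245805)*(s-(77/100))^4*((1159/1000)-s)^2 + (41574543938301870984/433119384206145125)*(s-(77/100))^5*((1159/1000)-s)^1 + (1065655542815051012/2165596921030725625)*(s-(77/100))^6*((1159/1000)-s)^0) := by ring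
  have h3 : 0 ≤ (s-77/100) := by linarith
  have h4 := mul_nonneg h3 h
  linarith

theorem c_i (s : ℝ) (h1 : (433/500) ≤ s) (h2 : s ≤ (283/100)) : K4 0.77 s ≤ -0.1365 + 0.19177*s^2 := by
  apply kle s _ (by linarith)
  have hp : ∀ u v : ℝ, 0 ≤ u → 0 ≤ v → 0 ≤ (3162691339613684562333/146109152478469120000000000)*u^0*v^5 + (149532933993326541408153/29221830495693824000000000)*u^1*v^4 + (1076716096607538876018453/14610915247846912000000000)*u^2*v^3 + (5713148083896297201446033/14610915247846912000000000)*u^3*v^2 + (26443139998677705359895693/29221830495693824000000000)*u^4*v^1 + (113126230312669947665124233/146109152478469120000000000)*u^5*v^0 := by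
    intro u v hu hv; positivity
  have h := hp (s-(433/500)) ((283/100)-s) (by linarith) (by linarith)
  have key : (-0.1365 + 0.19177*s^2)*s^5 - (s^6 - 2.35*0.77*s^5 + 1.5*0.77^2*s^4 - 0.125*0.77^4*s^2 - 0.025*0.77^6) = (s-(20993/10000))^2*((3162691339613684562333/146109152478469120000000000)*(s-(433/500))^0*((283/100)-s)^5 + (149532933993326541408153/29221830495693824000000000)*(s-(433/500))^1*((283/100)-s)^4 + (1076716096607538876018453/14610915247846912000000000)*(s-(433/500))^2*((283/100)-s)^3 + (5713148083896297201446033/14610915247846912000000000)*(s-(433/500))^3*((283/100)-s)^2 + (26443139998677705359895693/29221830495693824000000000)*(s-(433/500))^4*((283/100)-s)^1 + (113126230312669947665124233/146109152478469120000000000)*(s-(433/500))^5*((283/100)-s)^0) + ((2500974692231058396718335729983/982000000000000000000000000000000)*(s-(433/500)) + (57602818079123020585010119963/982000000000000000000000000000000)*((283/100)-s)) := by ring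
  have h4 := mul_nonneg (sq_nonneg (s-(20993/10000))) h
  have h5 : 0 ≤ (2500974692231058396718335729983/982000000000000000000000000000000)*(s-(433/500)) := mul_nonneg (by norm_num) (by linarith)
  have h6 : 0 ≤ (57602818079123020585010119963/982000000000000000000000000000000)*((283/100)-s) := mul_nonneg (by norm_num) (by linarith)
  linarith

theorem c_ii (s : ℝ) (h1 : (433/500) ≤ s) (h2 : s ≤ (283/100)) : K4 0.77 s ≤ -0.0618 + 0.17703*s^2 := by
  apply kle s _ (by linarith)
  have hp : ∀ u v : ℝ, 0 ≤ u → 0 ≤ v → 0 ≤ (4769202287744163383/46754928793110118400000)*u^0*v^5 + (85710858112397417067/9350985758622023680000)*u^1*v^4 + (471151383273737383711/4675492879311011840000)*u^2*v^3 + (10722262074897940865311/23377464396555059200000)*u^3*v^2 + (360827776308783721759/374039430344880947200)*u^4*v^1 + (36223701677509498664763/46754928793110118400000)*u^5*v^0 := by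
    intro u v hu hv; positivity
  have h := hp (s-(433/500)) ((283/100)-s) (by linarith) (by linarith)
  have key : (-0.0618 + 0.17703*s^2)*s^5 - (s^6 - 2.35*0.77*s^5 + 1.5*0.77^2*s^4 - 0.125*0.77^4*s^2 - 0.025*0.77^6) = (s-(4797/2000))^2*((4769202287744163383/46754928793110118400000)*(s-(433/500))^0*((283/100)-s)^5 + (85710858112397417067/9350985758622023680000)*(s-(433/500))^1*((283/100)-s)^4 + (471151383273737383711/4675492879311011840000)*(s-(433/500))^2*((283/100)-s)^3 + (10722262074897940865311/23377464396555059200000)*(s-(433/500))^3*((283/100)-s)^2 + (360827776308783721759/374039430344880947200)*(s-(433/500))^4*((283/100)-s)^1 + (36223701677509498664763/46754928793110118400000)*(s-(433/500))^5*((283/100)-s)^0) + ((3360848213518000783125253/12569600000000000000000000000)*(s-(433/500)) + (160490247336061135178739577/12569600000000000000000000000)*((283/100)-s)) := by ring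
  have h4 := mul_nonneg (sq_nonneg (s-(4797/2000))) h
  have h5 : 0 ≤ (3360848213518000783125253/12569600000000000000000000000)*(s-(433/500)) := mul_nonneg (by norm_num) (by linarith)
  have h6 : 0 ≤ (160490247336061135178739577/12569600000000000000000000000)*((283/100)-s) := mul_nonneg (by norm_num) (by linarith)
  linarith

theorem sg0 (q : ℝ) : sg 0.77 q 0 ^ 2 = max (0.77 ^ 2) q ∧ 0.77 ≤ sg 0.77 q 0 := by
  have h1 : sg 0.77 q 0 = √(max (0.77 ^ 2) q) := by
    unfold sg
    congr 1
    rw [mul_zero, add_zero, Real.sqrt_sq_eq_abs]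
    rcases le_total q (0.77 ^ 2) with h | h
    · rw [abs_of_nonpos (by linarith), max_eq_left h]; ring
    · rw [abs_of_nonneg (by linarith), max_eq_right h]; ring
  rw [h1]
  constructor
  · rw [Real.sq_sqrt]
    exact le_trans (by norm_num) (le_max_left _ _)
  · apply Real.le_sqrt_of_sq_le
    exact le_max_left _ _

theorem T_small (q : ℝ) (h : q ≤ 0.5929) : T4 0.77 q 0 = 0 := by
  obtain ⟨h1, h2⟩ := sg0 q
  have h3 : sg 0.77 q 0 = 0.77 := by
    rw [max_eq_left (by norm_num at h ⊢; linarith)] at h1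
    nlinarith
  unfold T4
  rw [h3]
  unfold K4
  norm_num

theorem T_big (q : ℝ) (h : 0.5929 ≤ q) : ∃ s, T4 0.77 q 0 = K4 0.77 s ∧ s ^ 2 = q ∧ 0.77 ≤ s := by
  obtain ⟨h1, h2⟩ := sg0 q
  refine ⟨sg 0.77 q 0, rfl, ?_, h2⟩
  rw [h1, max_eq_right (by norm_num at h ⊢; linarith)]

theorem T_i (q : ℝ) (h1 : 0.75 ≤ q) (h2 : q ≤ 8) : T4 0.77 q 0 ≤ -0.1365 + 0.19177 * q := by
  obtain ⟨s, e, hq, hs⟩ := T_big q (by norm_num at h1 ⊢; linarith)
  rw [e, ← hq]
  apply c_i
  · by_contra hc
    push Not at hc
    nlinarith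
  · by_contra hc
    push Not at hc
    nlinarith

theorem T_ii (q : ℝ) (h1 : 0.75 ≤ q) (h2 : q ≤ 8) : T4 0.77 q 0 ≤ -0.0618 + 0.17703 * q := by
  obtain ⟨s, e, hq, hs⟩ := T_big q (by norm_num at h1 ⊢; linarith)
  rw [e, ← hq]
  apply c_ii
  · by_contra hc
    push Not at hc
    nlinarith
  · by_contra hc
    push Not at hc
    nlinarith

theorem T_iii (q : ℝ) (h1 : 1 ≤ q) (h2 : q ≤ 16 / 9) : T4 0.77 q 0 ≤ -0.16097 + 0.19177 * q := by
  obtain ⟨s, e, hq, hs⟩ := T_big q (by norm_num at h1 ⊢; linarith)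
  rw [e, ← hq]
  apply c_iii
  · by_contra hc
    push Not at hc
    nlinarith
  · by_contra hc
    push Not at hc
    nlinarith

theorem T_iv (q : ℝ) (h1 : 0 ≤ q) (h2 : q ≤ 1) : T4 0.77 q 0 ≤ 0.0308 * q := by
  rcases le_total q 0.5929 with h | h
  · rw [T_small q h]; positivity
  obtain ⟨s, e, hq, hs⟩ := T_big q h
  rw [e, ← hq]
  apply c_iv
  · norm_num at hs ⊢; linarith
  · by_contra hc
    push Not at hc
    nlinarith

theorem T_v (q : ℝ) (h1 : 0 ≤ q) (h2 : q ≤ 0.75) : T4 0.77 q 0 ≤ 0.0069 * q := by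
  rcases le_total q 0.5929 with h | h
  · rw [T_small q h]; positivity
  obtain ⟨s, e, hq, hs⟩ := T_big q h
  rw [e, ← hq]
  apply c_v
  · norm_num at hs ⊢; linarith
  · by_contra hc
    push Not at hc
    nlinarith

theorem E_s (q : ℝ) (h : 0 ≤ q) : ∃ s, E4 0.77 q = K4 0.77 s ∧ q = s ^ 2 - 0.77 ^ 2 ∧ 0.77 ≤ s := by
  refine ⟨√(0.77 ^ 2 + q), rfl, ?_, ?_⟩
  · rw [Real.sq_sqrt (by positivity)]; ring
  · apply Real.le_sqrt_of_sq_le; linarith

theorem E_vi (q : ℝ) (h1 : 0 ≤ q) (h2 : q ≤ 1) : E4 0.77 q ≤ 0.069 * q + 0.0655 * q ^ 2 := by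
  obtain ⟨s, e, hq, hs⟩ := E_s q h1
  rw [e, hq]
  apply c_vi
  · norm_num at hs ⊢; linarith
  · by_contra hc
    push Not at hc
    nlinarith

theorem E_vii (q : ℝ) (h1 : 0 ≤ q) (h2 : q ≤ 0.75) : E4 0.77 q ≤ 0.009 * q + 0.17 * q ^ 2 := by
  obtain ⟨s, e, hq, hs⟩ := E_s q h1
  rw [e, hq]
  rcases le_total s (193 / 200) with h | h
  · apply c_viia _ _ h
    norm_num at hs ⊢; linarith
  · apply c_viib _ h
    by_contra hc
    push Not at hc
    nlinarith

theorem E_viii (q : ℝ) (h1 : 0 ≤ q) (h2 : q ≤ 0.75) : E4 0.77 q ≤ 0.1152 * q := by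
  obtain ⟨s, e, hq, hs⟩ := E_s q h1
  rw [e, hq]
  apply c_viii
  · norm_num at hs ⊢; linarith
  · by_contra hc
    push Not at hc
    nlinarith

theorem sum4 {m : ℕ} (f : Fin (m + 5) → ℝ) :
    ∑ i, f i = f 0 + f 1 + f 2 + f 3 + ∑ i : Fin (m + 1), f (t4 i) := by
  rw [Fin.sum_univ_succ, Fin.sum_univ_succ, Fin.sum_univ_succ, Fin.sum_univ_succ]
  have e : ∀ i : Fin (m + 1), i.succ.succ.succ.succ = t4 i := by
    intro i
    ext
    simp [t4]
  simp only [e]
  have e1 : (Fin.succ (0 : Fin (m + 4))) = 1 := rfl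
  have e2 : (Fin.succ (Fin.succ (0 : Fin (m + 3)))) = 2 := rfl
  have e3 : (Fin.succ (Fin.succ (Fin.succ (0 : Fin (m + 2))))) = 3 := rfl
  rw [e1, e2, e3]
  ring

theorem main : Spec.BSC := by
  intro m q hq h41 h39 hQ
  have hpi : Real.pi < 3.1416 := by
    have := Real.pi_lt_d4
    norm_num at this ⊢
    linarith
  have hsum := sum4 q
  rw [hq.tot] at hsum
  have n0 := hq.nn 0
  have n1 := hq.nn 1
  have n2 := hq.nn 2
  have n3 := hq.nn 3
  have v1 : ((1 : Fin (m + 5)) : ℕ) = 1 := rfl
  have v2 : ((2 : Fin (m + 5)) : ℕ) = 2 := rfl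
  have v3 : ((3 : Fin (m + 5)) : ℕ) = 3 := rfl
  have v4 : ((4 : Fin (m + 5)) : ℕ) = 4 := rfl
  have s1 : q 1 ≤ q 0 := hq.srt _ _ (Fin.zero_le _)
  have s2 : q 2 ≤ q 1 := hq.srt _ _ (by rw [Fin.le_def, v1, v2]; norm_num)
  have s3 : q 3 ≤ q 2 := hq.srt _ _ (by rw [Fin.le_def, v2, v3]; norm_num)
  have st : ∀ i : Fin (m + 1), q (t4 i) ≤ q 3 := fun i => hq.srt _ _ (by
    rw [Fin.le_def, v3]; simp only [t4]; omega)
  have st4 : ∀ i : Fin (m + 1), q (t4 i) ≤ 1 := fun i => (hq.srt _ _ (by
    rw [Fin.le_def, v4]; simp only [t4]; omega)).trans h41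
  have nt : ∀ i : Fin (m + 1), 0 ≤ q (t4 i) := fun i => hq.nn _
  have top := hq.top
  set Q := ∑ i : Fin (m + 1), q (t4 i) with hQdef
  -- bound of the tail by a multiple of Q
  have tail : ∀ e : ℝ, (∀ i : Fin (m + 1), E4 0.77 (q (t4 i)) ≤ e * q (t4 i)) →
      ∑ i : Fin (m + 1), E4 0.77 (q (t4 i)) ≤ e * Q := by
    intro e h
    rw [hQdef, Finset.mul_sum]
    exact Finset.sum_le_sum fun i _ => h i
  rcases le_total 0.75 (q 2) with h2 | h2
  · -- case C1
    have a0 := T_i (q 0) (by linarith) top
    have a1 := T_i (q 1) (by linarith) (by linarith)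
    have a2 := T_i (q 2) h2 (by linarith)
    rcases le_total (q 3) 1 with h3 | h3
    · have a3 := T_iv (q 3) n3 h3
      have at' := tail (0.069 + 0.0655 * q 3) (fun i => by
        have := E_vi (q (t4 i)) (nt i) (st4 i)
        have := st i
        have := nt i
        nlinarith)
      nlinarith
    · have a3 := T_iii (q 3) h3 h39
      have at' := tail 0.1345 (fun i => by
        have := E_vi (q (t4 i)) (nt i) (st4 i)
        have := st4 i
        have := nt i
        nlinarith)
      nlinarith
  · rcases le_total 0.75 (q 1) with h1 | h1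
    · -- case C2
      have a0 := T_ii (q 0) (by linarith) top
      have a1 := T_ii (q 1) h1 (by linarith)
      have a2 := T_v (q 2) n2 h2
      have a3 := T_v (q 3) n3 (by linarith)
      have at' := tail (0.009 + 0.17 * q 3) (fun i => by
        have := E_vii (q (t4 i)) (nt i) ((st i).trans (by linarith))
        have := st i
        have := nt i
        nlinarith)
      nlinarith
    · -- case C3
      have a0 : T4 0.77 (q 0) 0 ≤ 0.17703 * q 0 := by
        rcases le_total 0.75 (q 0) with h | h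
        · have := T_ii (q 0) h top
          linarith
        · have := T_v (q 0) n0 h
          linarith
      have a1 := T_v (q 1) n1 h1
      have a2 := T_v (q 2) n2 h2
      have a3 := T_v (q 3) n3 (by linarith)
      have at' := tail 0.1152 (fun i => E_viii (q (t4 i)) (nt i) ((st i).trans (by linarith)))
      nlinarith

end Crest.Agent.H25PrBSC
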