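import Crest.Agent.H25PrV3

/-! Module M7 (Spec.P1) of rid 215, by helper25, together with the calculus of `ex`, `mx`. -/

set_option autoImplicit false
set_option linter.all false

open MeasureTheory ProbabilityTheory
open scoped InnerProductSpace

namespace Crest.Agent.H25PrP1

open Crest.Agent.H18Pr

/-- continuity of `mx`. -/
theorem cont_mx {N : ℕ} {ι : Type} [Fintype ι] [Nonempty ι] (y : ι → Eu N) : Continuous (mx y) := by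
  unfold mx
  apply Continuous.finset_sup'_apply
  intro i _
  fun_prop

theorem abs_mx_le {N : ℕ} {ι : Type} [Fintype ι] [Nonempty ι] (y : ι → Eu N) (x : Eu N) :
    |mx y x| ≤ (∑ i, ‖y i‖) * (1 + ‖x‖) := by
  have hb : ∀ i, |⟪y i, x⟫_ℝ| ≤ (∑ i, ‖y i‖) * (1 + ‖x‖) := by
    intro i
    refine (abs_real_inner_le_norm _ _).trans ?_
    have h1 : ‖y i‖ ≤ ∑ i, ‖y i‖ :=
      Finset.single_le_sum (f := fun i => ‖y i‖) (fun j _ => norm_nonneg _) (Finset.mem_univ i)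
    have hx := norm_nonneg x
    have h0 : 0 ≤ ∑ i, ‖y i‖ := Finset.sum_nonneg fun j _ => norm_nonneg _
    apply mul_le_mul h1 (by linarith) hx h0
  rw [abs_le]
  constructor
  · obtain ⟨i⟩ := (inferInstance : Nonempty ι)
    exact ((abs_le.1 (hb i)).1).trans (Finset.le_sup' (fun i => ⟪y i, x⟫_ℝ) (Finset.mem_univ i))
  · unfold mx
    apply Finset.sup'_le
    intro i _
    exact (abs_le.1 (hb i)).2

theorem int_mx (hI : Spec.Int) {N : ℕ} {ι : Type} [Fintype ι] [Nonempty ι] (y : ι → Eu N) :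
    Integrable (mx y) (stdGaussian (Eu N)) :=
  hI N _ _ (cont_mx y) (abs_mx_le y)

theorem int_inner (hI : Spec.Int) {N : ℕ} (v : Eu N) :
    Integrable (fun x => ⟪v, x⟫_ℝ) (stdGaussian (Eu N)) := by
  apply hI N _ ‖v‖ (by fun_prop)
  intro x
  have := norm_nonneg x
  have := norm_nonneg v
  exact (abs_real_inner_le_norm _ _).trans (by nlinarith)

theorem int_abs' (hI : Spec.Int) {N : ℕ} (v : Eu N) :
    Integrable (fun x => |⟪v, x⟫_ℝ|) (stdGaussian (Eu N)) := (int_inner hI v).abs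

theorem int_gain (hI : Spec.Int) {N : ℕ} (v b : Eu N) :
    Integrable (fun x => max 0 (⟪v, x⟫_ℝ - |⟪b, x⟫_ℝ|)) (stdGaussian (Eu N)) := by
  have h : Integrable (fun x : Eu N => ⟪v, x⟫_ℝ - |⟪b, x⟫_ℝ|) (stdGaussian (Eu N)) :=
    (int_inner hI v).sub (int_abs' hI b)
  have := h.pos_part
  refine this.congr ?_
  filter_upwards with x
  exact max_comm _ _

theorem sc_nonneg : (0 : ℝ) ≤ √(2 * Real.pi) := Real.sqrt_nonneg _

theorem ex_mono {N : ℕ} {f g : Eu N → ℝ} (hf : Integrable f (stdGaussian (Eu N)))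
    (hg : Integrable g (stdGaussian (Eu N))) (h : ∀ x, f x ≤ g x) : ex f ≤ ex g := by
  unfold ex
  exact mul_le_mul_of_nonneg_left (integral_mono hf hg h) sc_nonneg

theorem ex_add {N : ℕ} {f g : Eu N → ℝ} (hf : Integrable f (stdGaussian (Eu N)))
    (hg : Integrable g (stdGaussian (Eu N))) : ex (fun x => f x + g x) = ex f + ex g := by
  unfold ex
  rw [integral_add hf hg]; ring

theorem ex_sub {N : ℕ} {f g : Eu N → ℝ} (hf : Integrable f (stdGaussian (Eu N)))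
    (hg : Integrable g (stdGaussian (Eu N))) : ex (fun x => f x - g x) = ex f - ex g := by
  unfold ex
  rw [integral_sub hf hg]; ring

theorem ex_smul {N : ℕ} (c : ℝ) (f : Eu N → ℝ) : ex (fun x => c * f x) = c * ex f := by
  unfold ex
  rw [integral_const_mul]; ring

theorem ex_sum {N : ℕ} {κ : Type} (s : Finset κ) (f : κ → Eu N → ℝ)
    (hf : ∀ j ∈ s, Integrable (f j) (stdGaussian (Eu N))) :
    ex (fun x => ∑ j ∈ s, f j x) = ∑ j ∈ s, ex (f j) := by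
  unfold ex
  rw [integral_finsetSum s hf, Finset.mul_sum]

/-- pointwise bound for the maximum -/
theorem pt {N m : ℕ} (y : Fin (m + 2) → Eu N) (c b : Eu N) (h0 : y 0 = c + b) (h1 : y 1 = c - b)
    (x : Eu N) :
    mx y x ≤ ⟪c, x⟫_ℝ + |⟪b, x⟫_ℝ|
      + (2 / 3 * ∑ j : Fin m, max 0 (⟪(3 / 2 : ℝ) • y j.succ.succ, x⟫_ℝ - |⟪b, x⟫_ℝ|)
        + 1 / 3 * max 0 (⟪(-3 : ℝ) • c, x⟫_ℝ - |⟪b, x⟫_ℝ|)) := by
  unfold mx
  have hS : 0 ≤ ∑ j : Fin m, max 0 (⟪(3 / 2 : ℝ) • y j.succ.succ, x⟫_ℝ - |⟪b, x⟫_ℝ|) :=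
    Finset.sum_nonneg fun j _ => le_max_left _ _
  have hM : 0 ≤ max 0 (⟪(-3 : ℝ) • c, x⟫_ℝ - |⟪b, x⟫_ℝ|) := le_max_left _ _
  apply Finset.sup'_le
  intro i _
  refine Fin.cases ?_ (fun i => ?_) i
  · change ⟪y 0, x⟫_ℝ ≤ _
    rw [h0, inner_add_left]
    have := le_abs_self ⟪b, x⟫_ℝ
    linarith
  · refine Fin.cases ?_ (fun j => ?_) i
    · change ⟪y 1, x⟫_ℝ ≤ _
      rw [h1, inner_sub_left]
      have := neg_abs_le ⟪b, x⟫_ℝ
      linarith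
    · have hj : max 0 (⟪(3 / 2 : ℝ) • y j.succ.succ, x⟫_ℝ - |⟪b, x⟫_ℝ|)
          ≤ ∑ j : Fin m, max 0 (⟪(3 / 2 : ℝ) • y j.succ.succ, x⟫_ℝ - |⟪b, x⟫_ℝ|) :=
        Finset.single_le_sum
          (f := fun j : Fin m => max 0 (⟪(3 / 2 : ℝ) • y j.succ.succ, x⟫_ℝ - |⟪b, x⟫_ℝ|))
          (fun j _ => le_max_left _ _) (Finset.mem_univ j)
      have e1 := le_max_right 0 (⟪(3 / 2 : ℝ) • y j.succ.succ, x⟫_ℝ - |⟪b, x⟫_ℝ|)
      have e2 := le_max_right 0 (⟪(-3 : ℝ) • c, x⟫_ℝ - |⟪b, x⟫_ℝ|)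
      rw [real_inner_smul_left] at e1 e2
      rw [real_inner_smul_left] at hj
      rw [real_inner_smul_left] at *
      linarith

/-- bound for one gain -/
theorem gain_le (hSeg : Spec.Seg) {N : ℕ} (v b : Eu N) (hb : 0 < ‖b‖) :
    ex (fun x => max 0 (⟪v, x⟫_ℝ - |⟪b, x⟫_ℝ|)) ≤ ‖v‖ ^ 2 / (2 * ‖b‖) := by
  refine (hSeg N v b).trans ?_
  rw [sub_le_iff_le_add]
  apply Real.sqrt_le_iff.2
  constructor
  · positivity
  · have h1 : (‖v‖ ^ 2 / (2 * ‖b‖) + ‖b‖) ^ 2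
        = (‖v‖ ^ 2 / (2 * ‖b‖)) ^ 2 + ‖v‖ ^ 2 + ‖b‖ ^ 2 := by
      field_simp
      ring
    rw [h1]
    have := sq_nonneg (‖v‖ ^ 2 / (2 * ‖b‖))
    linarith

/-- obtuse vectors: the norm square of the sum is at most the sum of the norm squares -/
theorem norm_sum_sq_le {N : ℕ} {κ : Type} (s : Finset κ) (r : κ → Eu N)
    (h : ∀ i ∈ s, ∀ j ∈ s, i ≠ j → ⟪r i, r j⟫_ℝ ≤ 0) : ‖∑ j ∈ s, r j‖ ^ 2 ≤ ∑ j ∈ s, ‖r j‖ ^ 2 := by
  classical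
  rw [← real_inner_self_eq_norm_sq, sum_inner]
  apply Finset.sum_le_sum
  intro i hi
  rw [inner_sum, ← Finset.add_sum_erase s _ hi, real_inner_self_eq_norm_sq]
  have : ∑ x ∈ s.erase i, ⟪r i, r x⟫_ℝ ≤ 0 := by
    apply Finset.sum_nonpos
    intro j hj
    exact h i hi j (Finset.mem_of_mem_erase hj) (Finset.ne_of_mem_erase hj).symm
  linarith

theorem p1 (hSeg : Spec.Seg) (hLin : Spec.Lin) (hI : Spec.Int) : Spec.P1 := by
  intro N m y hy hQ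
  set c : Eu N := (1 / 2 : ℝ) • (y 0 + y 1) with hc
  set b : Eu N := (1 / 2 : ℝ) • (y 0 - y 1) with hb
  have h0 : y 0 = c + b := by
    rw [hc, hb, ← smul_add]
    rw [show y 0 + y 1 + (y 0 - y 1) = (2 : ℝ) • y 0 by rw [two_smul]; abel, smul_smul]
    norm_num
  have h1 : y 1 = c - b := by
    rw [hc, hb, ← smul_sub]
    rw [show y 0 + y 1 - (y 0 - y 1) = (2 : ℝ) • y 1 by rw [two_smul]; abel, smul_smul]
    norm_num
  -- squares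
  have hsum : ‖y 0‖ ^ 2 + ‖y 1‖ ^ 2 + ∑ j : Fin (m + 3), ‖y j.succ.succ‖ ^ 2 = 16 := by
    have := hy.tot
    rw [Fin.sum_univ_succ, Fin.sum_univ_succ] at this
    rw [← this, add_assoc]
    rfl
  set Q := ∑ j : Fin (m + 3), ‖y j.succ.succ‖ ^ 2 with hQdef
  have hv : c + c = - ∑ j : Fin (m + 3), y j.succ.succ := by
    have := hy.sum0
    rw [Fin.sum_univ_succ, Fin.sum_univ_succ] at this
    have e : y 0 + (y 1 + ∑ j : Fin (m + 3), y j.succ.succ) = 0 := this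
    rw [h0, h1] at e
    rw [← sub_eq_zero]
    rw [← e]; abel
  have hcc : 4 * ‖c‖ ^ 2 ≤ Q := by
    have e1 : ‖c + c‖ ^ 2 = 4 * ‖c‖ ^ 2 := by
      rw [← two_smul ℝ c, norm_smul]; norm_num; ring
    rw [← e1, hv, norm_neg]
    apply norm_sum_sq_le
    intro i _ j _ hij
    exact hy.obt _ _ (by
      intro h
      exact hij (Fin.succ_injective _ (Fin.succ_injective _ h)))
  have hcb : ‖c‖ ^ 2 + ‖b‖ ^ 2 = (16 - Q) / 2 := by
    have e1 : ‖y 0‖ ^ 2 + ‖y 1‖ ^ 2 = 2 * (‖c‖ ^ 2 + ‖b‖ ^ 2) := by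
      rw [h0, h1]
      have := parallelogram_law_with_norm ℝ c b
      nlinarith [this]
    linarith
  have hQ' : Q ≤ 2.09 := by linarith
  have hb2 : 6.43125 ≤ ‖b‖ ^ 2 := by norm_num at hQ' ⊢; linarith
  have hbn := norm_nonneg b
  have hbpos : 0 < ‖b‖ := by
    rcases hbn.lt_or_eq with h | h
    · exact h
    · rw [← h] at hb2; norm_num at hb2
  have hb3 : 2.5359 ≤ ‖b‖ := by
    by_contra hcon
    push Not at hcon
    nlinarith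
  have hb4 : ‖b‖ ≤ 3 := by
    have hQ0 : 0 ≤ Q := Finset.sum_nonneg fun j _ => sq_nonneg _
    have := sq_nonneg ‖c‖
    by_contra hcon
    push Not at hcon
    nlinarith
  -- integrability
  have i1 := int_inner hI c
  have i2 := int_abs' hI b
  have i3 : ∀ j ∈ (Finset.univ : Finset (Fin (m + 3))),
      Integrable (fun x => max 0 (⟪(3 / 2 : ℝ) • y j.succ.succ, x⟫_ℝ - |⟪b, x⟫_ℝ|))
        (stdGaussian (Eu N)) := fun j _ => int_gain hI _ b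
  have i3' : Integrable (fun x => ∑ j : Fin (m + 3), max 0 (⟪(3 / 2 : ℝ) • y j.succ.succ, x⟫_ℝ - |⟪b, x⟫_ℝ|))
        (stdGaussian (Eu N)) := integrable_finsetSum _ i3
  have i4 := int_gain hI ((-3 : ℝ) • c) b
  have key : ex (mx y) ≤ ex (fun x => ⟪c, x⟫_ℝ + |⟪b, x⟫_ℝ|
      + (2 / 3 * ∑ j : Fin (m + 3), max 0 (⟪(3 / 2 : ℝ) • y j.succ.succ, x⟫_ℝ - |⟪b, x⟫_ℝ|)
        + 1 / 3 * max 0 (⟪(-3 : ℝ) • c, x⟫_ℝ - |⟪b, x⟫_ℝ|))) := by
    apply ex_mono (int_mx hI y)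
    · exact (i1.add i2).add ((i3'.const_mul _).add (i4.const_mul _))
    · intro x
      exact pt (m := m + 3) y c b h0 h1 x
  have key2 : ex (fun x => ⟪c, x⟫_ℝ + |⟪b, x⟫_ℝ|
      + (2 / 3 * ∑ j : Fin (m + 3), max 0 (⟪(3 / 2 : ℝ) • y j.succ.succ, x⟫_ℝ - |⟪b, x⟫_ℝ|)
        + 1 / 3 * max 0 (⟪(-3 : ℝ) • c, x⟫_ℝ - |⟪b, x⟫_ℝ|)))
      = 2 * ‖b‖ + (2 / 3 * ∑ j : Fin (m + 3),
          ex (fun x => max 0 (⟪(3 / 2 : ℝ) • y j.succ.succ, x⟫_ℝ - |⟪b, x⟫_ℝ|))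
        + 1 / 3 * ex (fun x => max 0 (⟪(-3 : ℝ) • c, x⟫_ℝ - |⟪b, x⟫_ℝ|))) := by
    rw [← ex_sum _ _ i3]
    have e1 := ex_add (f := fun x => ⟪c, x⟫_ℝ + |⟪b, x⟫_ℝ|)
      (g := fun x => 2 / 3 * ∑ j : Fin (m + 3), max 0 (⟪(3 / 2 : ℝ) • y j.succ.succ, x⟫_ℝ - |⟪b, x⟫_ℝ|)
        + 1 / 3 * max 0 (⟪(-3 : ℝ) • c, x⟫_ℝ - |⟪b, x⟫_ℝ|)) (i1.add i2)
      ((i3'.const_mul _).add (i4.const_mul _))
    have e2 := ex_add i1 i2
    have e3 := ex_add (f := fun x => 2 / 3 * ∑ j : Fin (m + 3),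
        max 0 (⟪(3 / 2 : ℝ) • y j.succ.succ, x⟫_ℝ - |⟪b, x⟫_ℝ|))
      (g := fun x => 1 / 3 * max 0 (⟪(-3 : ℝ) • c, x⟫_ℝ - |⟪b, x⟫_ℝ|))
      (i3'.const_mul _) (i4.const_mul _)
    rw [e1, e2, e3, ex_smul, ex_smul, (hLin N c).1, (hLin N b).2.1, zero_add]
  rw [key2] at key
  have g1 : ∑ j : Fin (m + 3), ex (fun x => max 0 (⟪(3 / 2 : ℝ) • y j.succ.succ, x⟫_ℝ - |⟪b, x⟫_ℝ|))
      ≤ 9 / 4 * Q / (2 * ‖b‖) := by
    rw [hQdef, Finset.mul_sum, Finset.sum_div]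
    apply Finset.sum_le_sum
    intro j _
    refine (gain_le hSeg _ b hbpos).trans (le_of_eq ?_)
    rw [norm_smul, mul_pow]
    norm_num
  have g2 : ex (fun x => max 0 (⟪(-3 : ℝ) • c, x⟫_ℝ - |⟪b, x⟫_ℝ|)) ≤ 9 * ‖c‖ ^ 2 / (2 * ‖b‖) := by
    refine (gain_le hSeg _ b hbpos).trans (le_of_eq ?_)
    rw [norm_smul, mul_pow]
    norm_num
  have hfin : 2 * ‖b‖ + (2 / 3 * (9 / 4 * Q / (2 * ‖b‖)) + 1 / 3 * (9 * ‖c‖ ^ 2 / (2 * ‖b‖))) ≤ 6 := by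
    have e : 2 * ‖b‖ + (2 / 3 * (9 / 4 * Q / (2 * ‖b‖)) + 1 / 3 * (9 * ‖c‖ ^ 2 / (2 * ‖b‖)))
        = (2 * ‖b‖ ^ 2 + 3 / 4 * Q + 3 / 2 * ‖c‖ ^ 2) / ‖b‖ := by
      field_simp
      ring
    rw [e, div_le_iff₀ hbpos]
    nlinarith
  linarith

end Crest.Agent.H25PrP1
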