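import Crest.Agent.H18PrSpec

/-! Module M3 (Spec.V3, Spec.Seg) of rid 215, by helper25. -/

set_option autoImplicit false
set_option linter.all false

open MeasureTheory ProbabilityTheory
open scoped InnerProductSpace

namespace Crest.Agent.H25PrV3

open Crest.Agent.H18Pr

/-- maximum of three numbers -/
theorem sup3 (f : Fin 3 → ℝ) :
    Finset.univ.sup' Finset.univ_nonempty f = max (max (f 0) (f 1)) (f 2) := by
  apply le_antisymm
  · apply Finset.sup'_le
    intro i _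
    fin_cases i
    · exact le_trans (le_max_left _ _) (le_max_left _ _)
    · exact le_trans (le_max_right _ _) (le_max_left _ _)
    · exact le_max_right _ _
  · apply max_le
    · apply max_le
      · exact Finset.le_sup' f (Finset.mem_univ 0)
      · exact Finset.le_sup' f (Finset.mem_univ 1)
    · exact Finset.le_sup' f (Finset.mem_univ 2)

theorem max3_abs (A B C : ℝ) :
    max (max A B) C + max (max (-A) (-B)) (-C) = (|A - B| + |B - C| + |A - C|) / 2 := by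
  rcases le_total A B with h1 | h1 <;> rcases le_total B C with h2 | h2 <;>
    rcases le_total A C with h3 | h3 <;>
    simp only [max_def, abs_of_nonneg, abs_of_nonpos, sub_nonneg, sub_nonpos, h1, h2, h3] <;>
    split_ifs <;> (first | linarith | skip)

theorem mx3 {N : ℕ} (a : Fin 3 → Eu N) (x : Eu N) :
    mx a x = max (max ⟪a 0, x⟫_ℝ ⟪a 1, x⟫_ℝ) ⟪a 2, x⟫_ℝ := by
  unfold mx
  rw [sup3]

theorem abs_mx3_le {N : ℕ} (a : Fin 3 → Eu N) (x : Eu N) :
    |mx a x| ≤ (‖a 0‖ + ‖a 1‖ + ‖a 2‖) * (1 + ‖x‖) := by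
  rw [mx3]
  have h : ∀ i, |⟪a i, x⟫_ℝ| ≤ ‖a i‖ * ‖x‖ := fun i => abs_real_inner_le_norm _ _
  have hb : ∀ i, |⟪a i, x⟫_ℝ| ≤ (‖a 0‖ + ‖a 1‖ + ‖a 2‖) * (1 + ‖x‖) := by
    intro i
    refine (h i).trans ?_
    have h0 := norm_nonneg (a 0)
    have h1 := norm_nonneg (a 1)
    have h2 := norm_nonneg (a 2)
    have hx := norm_nonneg x
    apply mul_le_mul _ (by linarith) hx (by positivity)
    fin_cases i
    · change ‖a 0‖ ≤ _; linarith
    · change ‖a 1‖ ≤ _; linarith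
    · change ‖a 2‖ ≤ _; linarith
  rw [abs_le]
  constructor
  · have := (abs_le.1 (hb 0)).1
    exact this.trans ((le_max_left _ _).trans (le_max_left _ _))
  · apply max_le (max_le _ _)
    · exact (abs_le.1 (hb 2)).2
    · exact (abs_le.1 (hb 0)).2
    · exact (abs_le.1 (hb 1)).2

theorem cont_mx3 {N : ℕ} (a : Fin 3 → Eu N) : Continuous (mx a) := by
  have : mx a = fun x => max (max ⟪a 0, x⟫_ℝ ⟪a 1, x⟫_ℝ) ⟪a 2, x⟫_ℝ := by
    funext x; exact mx3 a x
  rw [this]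
  fun_prop

theorem int_mx3 (hI : Spec.Int) {N : ℕ} (a : Fin 3 → Eu N) :
    Integrable (mx a) (stdGaussian (Eu N)) :=
  hI N (mx a) _ (cont_mx3 a) (abs_mx3_le a)

theorem int_abs (hI : Spec.Int) {N : ℕ} (a : Eu N) :
    Integrable (fun x => |⟪a, x⟫_ℝ|) (stdGaussian (Eu N)) := by
  apply hI N _ ‖a‖ (by fun_prop)
  intro x
  rw [abs_abs]
  refine (abs_real_inner_le_norm _ _).trans ?_
  have := norm_nonneg a
  nlinarith [norm_nonneg x]

theorem v3 (hI : Spec.Int) (hLaw : Spec.Law) (hLin : Spec.Lin) : Spec.V3 := by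
  intro N a
  have hsym : ∫ x, mx a x ∂(stdGaussian (Eu N)) = ∫ x, mx (fun i => - a i) x ∂(stdGaussian (Eu N)) := by
    have := hLaw N N (Fin 3) inferInstance a (fun i => - a i) (by intro i j; simp)
      (fun f => Finset.univ.sup' Finset.univ_nonempty f) (by
        have : (fun f : Fin 3 → ℝ => Finset.univ.sup' Finset.univ_nonempty f)
            = fun f : Fin 3 → ℝ => max (max (f 0) (f 1)) (f 2) := by
          funext f; exact sup3 f
        rw [this]
        fun_prop)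
    exact this
  have hpt : ∀ x : Eu N, mx a x + mx (fun i => - a i) x
      = (|⟪a 0 - a 1, x⟫_ℝ| + |⟪a 1 - a 2, x⟫_ℝ| + |⟪a 0 - a 2, x⟫_ℝ|) / 2 := by
    intro x
    rw [mx3, mx3]
    simp only [inner_neg_left, inner_sub_left]
    exact max3_abs _ _ _
  have h1 : 2 * ∫ x, mx a x ∂(stdGaussian (Eu N))
      = (∫ x, |⟪a 0 - a 1, x⟫_ℝ| ∂(stdGaussian (Eu N)) + ∫ x, |⟪a 1 - a 2, x⟫_ℝ| ∂(stdGaussian (Eu N))
        + ∫ x, |⟪a 0 - a 2, x⟫_ℝ| ∂(stdGaussian (Eu N))) / 2 := by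
    calc 2 * ∫ x, mx a x ∂(stdGaussian (Eu N))
        = ∫ x, mx a x ∂(stdGaussian (Eu N)) + ∫ x, mx (fun i => - a i) x ∂(stdGaussian (Eu N)) := by
          rw [← hsym]; ring
      _ = ∫ x, (mx a x + mx (fun i => - a i) x) ∂(stdGaussian (Eu N)) := by
          rw [integral_add (int_mx3 hI a) (int_mx3 hI _)]
      _ = ∫ x, (|⟪a 0 - a 1, x⟫_ℝ| + |⟪a 1 - a 2, x⟫_ℝ| + |⟪a 0 - a 2, x⟫_ℝ|) / 2
            ∂(stdGaussian (Eu N)) := by simp_rw [hpt]
      _ = _ := by
          rw [integral_div, integral_add, integral_add]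
          · exact int_abs hI _
          · exact int_abs hI _
          · exact (int_abs hI _).add (int_abs hI _)
          · exact int_abs hI _
  have e1 := (hLin N (a 0 - a 1)).2.1
  have e2 := (hLin N (a 1 - a 2)).2.1
  have e3 := (hLin N (a 0 - a 2)).2.1
  unfold ex at e1 e2 e3 ⊢
  have : √(2 * Real.pi) * ∫ x, mx a x ∂(stdGaussian (Eu N))
      = √(2 * Real.pi) * (2 * ∫ x, mx a x ∂(stdGaussian (Eu N))) / 2 := by ring
  rw [this, h1]
  linarith

theorem seg_pt (V B : ℝ) : max 0 (V - |B|) = max (max V B) (-B) - |B| := by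
  have hB : |B| = max B (-B) := rfl
  rcases le_total V |B| with h | h
  · rw [max_eq_left (by linarith), max_assoc, ← hB, max_eq_right h, sub_self]
  · rw [max_eq_right (by linarith), max_assoc, ← hB, max_eq_left h]

theorem seg (hI : Spec.Int) (hLaw : Spec.Law) (hLin : Spec.Lin) : Spec.Seg := by
  intro N v b
  have hV := v3 hI hLaw hLin N ![v, b, -b]
  have e1 := (hLin N b).2.1
  have hpt : ∀ x : Eu N, max 0 (⟪v, x⟫_ℝ - |⟪b, x⟫_ℝ|) = mx ![v, b, -b] x - |⟪b, x⟫_ℝ| := by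
    intro x
    rw [mx3]
    simp only [Matrix.cons_val_zero, Matrix.cons_val_one, Matrix.cons_val]
    rw [inner_neg_left]
    exact seg_pt _ _
  have h1 : ex (fun x => max 0 (⟪v, x⟫_ℝ - |⟪b, x⟫_ℝ|)) = ex (mx ![v, b, -b]) - ex (fun x => |⟪b, x⟫_ℝ|) := by
    unfold ex
    simp_rw [hpt]
    rw [integral_sub (int_mx3 hI _) (int_abs hI _)]
    ring
  rw [h1, hV, e1]
  simp only [Matrix.cons_val_zero, Matrix.cons_val_one, Matrix.cons_val, sub_neg_eq_add]
  have h2 : ‖b + b‖ = 2 * ‖b‖ := by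
    rw [← two_smul ℝ b, norm_smul]; norm_num
  rw [h2]
  have h3 : (‖v - b‖ + ‖v + b‖) / 2 ≤ √(‖b‖ ^ 2 + ‖v‖ ^ 2) := by
    apply Real.le_sqrt_of_sq_le
    have h4 : ‖v - b‖ ^ 2 + ‖v + b‖ ^ 2 = 2 * (‖b‖ ^ 2 + ‖v‖ ^ 2) := by
      have := parallelogram_law_with_norm ℝ v b
      nlinarith [this]
    nlinarith [sq_nonneg (‖v - b‖ - ‖v + b‖)]
  linarith

end Crest.Agent.H25PrV3
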