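import Mathlib
set_option autoImplicit false
open MeasureTheory ProbabilityTheory
open scoped InnerProductSpace

/-! Gaussian integrals used for S0334 -/

namespace Crest.Agent.H28PrG1
noncomputable section

/-- `∫ u 1(u > h) dγ = exp (-h²/2) / √(2π)` -/
lemma int_Ioi (h : ℝ) :
    √(2 * Real.pi) * ∫ u, (Set.Ioi h).indicator (fun u => u) u ∂(gaussianReal 0 1)
      = Real.exp (-(1/2) * h ^ 2) := by
  rw [integral_gaussianReal_eq_integral_smul (by norm_num)]
  have h1 : ∀ u : ℝ, gaussianPDFReal 0 1 u • (Set.Ioi h).indicator (fun u => u) u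
      = (√(2 * Real.pi))⁻¹ * (Set.Ioi h).indicator (fun u => u * Real.exp (-(1/2) * u ^ 2)) u := by
    intro u
    by_cases hu : u ∈ Set.Ioi h
    · simp only [Set.indicator_of_mem hu, smul_eq_mul, gaussianPDFReal_def]
      simp only [NNReal.coe_one, mul_one, sub_zero]
      rw [show -u ^ 2 / 2 = -(1/2) * u ^ 2 by ring]
      try ring
    · simp only [Set.indicator_of_notMem hu, smul_zero, mul_zero]
  simp_rw [h1]
  rw [integral_const_mul, integral_indicator measurableSet_Ioi, ← mul_assoc,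
    mul_inv_cancel₀ (by positivity), one_mul]
  have hd : ∀ x ∈ Set.Ici h, HasDerivAt (fun u : ℝ => -Real.exp (-(1/2) * u ^ 2))
      (x * Real.exp (-(1/2) * x ^ 2)) x := by
    intro x _
    have h2 : HasDerivAt (fun u : ℝ => -(1/2) * u ^ 2) (-(1/2) * (2 * x)) x := by
      have := (hasDerivAt_pow 2 x).const_mul (-(1/2) : ℝ)
      simpa using this
    have h3 : HasDerivAt (fun u : ℝ => -Real.exp (-(1/2) * u ^ 2))
        (-(Real.exp (-(1/2) * x ^ 2) * (-(1/2) * (2 * x)))) x := h2.exp.neg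
    rw [show x * Real.exp (-(1/2) * x ^ 2) = -(Real.exp (-(1/2) * x ^ 2) * (-(1/2) * (2 * x))) by ring]
    exact h3
  have hint : IntegrableOn (fun u : ℝ => u * Real.exp (-(1/2) * u ^ 2)) (Set.Ioi h) :=
    (integrable_mul_exp_neg_mul_sq (by norm_num : (0:ℝ) < 1/2)).integrableOn
  have htend : Filter.Tendsto (fun u : ℝ => -Real.exp (-(1/2) * u ^ 2)) Filter.atTop (nhds 0) := by
    rw [← neg_zero]
    apply Filter.Tendsto.neg
    apply Real.tendsto_exp_atBot.comp
    have : Filter.Tendsto (fun u : ℝ => (1/2) * u ^ 2) Filter.atTop Filter.atTop := by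
      apply Filter.Tendsto.const_mul_atTop (by norm_num)
      exact Filter.tendsto_pow_atTop (by norm_num)
    have h5 := Filter.tendsto_neg_atTop_atBot.comp this
    refine h5.congr (fun u => ?_)
    simp only [Function.comp]
    ring
  rw [integral_Ioi_of_hasDerivAt_of_tendsto' hd hint htend]
  ring

/-- `∫ exp (-a u²/2) dγ = 1/√(1+a)` -/
lemma int_exp (a : ℝ) (ha : 0 ≤ a) :
    ∫ u, Real.exp (-(1/2) * (a * u ^ 2)) ∂(gaussianReal 0 1) = 1 / √(1 + a) := by
  rw [integral_gaussianReal_eq_integral_smul (by norm_num)]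
  have h1 : ∀ u : ℝ, gaussianPDFReal 0 1 u • Real.exp (-(1/2) * (a * u ^ 2))
      = (√(2 * Real.pi))⁻¹ * Real.exp (-((1 + a)/2) * u ^ 2) := by
    intro u
    simp only [smul_eq_mul, gaussianPDFReal_def]
    simp only [NNReal.coe_one, mul_one, sub_zero]
    rw [mul_assoc, ← Real.exp_add]
    ring_nf
  simp_rw [h1]
  rw [integral_const_mul, integral_gaussian]
  rw [show Real.pi / ((1 + a) / 2) = (2 * Real.pi) / (1 + a) by field_simp]
  rw [Real.sqrt_div (by positivity)]
  have : √(2 * Real.pi) ≠ 0 := by positivity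
  field_simp

/-- Gaussian measure on `Fin n → ℝ`. -/
abbrev gam (n : ℕ) : Measure (Fin n → ℝ) := Measure.pi (fun _ => gaussianReal 0 1)

lemma int_prod {n : ℕ} (α : Fin n → ℝ) (hα : ∀ i, 0 ≤ α i) :
    ∫ r, Real.exp (-(1/2) * ∑ i, α i * r i ^ 2) ∂(gam n) = ∏ i, 1 / √(1 + α i) := by
  have h := integral_fintype_prod_eq_prod (μ := fun _ : Fin n => gaussianReal 0 1)
    (fun i (u : ℝ) => Real.exp (-(1/2) * (α i * u ^ 2)))
  rw [show (∏ i, 1 / √(1 + α i)) = ∏ i, ∫ u, Real.exp (-(1/2) * (α i * u ^ 2)) ∂(gaussianReal 0 1) from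
    Finset.prod_congr rfl (fun i _ => (int_exp _ (hα i)).symm)]
  rw [← h]
  apply integral_congr_ae
  filter_upwards with r
  rw [← Real.exp_sum, Finset.mul_sum]

/-- the main Gaussian integral -/
lemma int_cone {n : ℕ} (α : Fin n → ℝ) (hα : ∀ i, 0 ≤ α i) :
    √(2 * Real.pi) * ∫ x, ({x : Fin (n+1) → ℝ | √(∑ i, α i * x i.succ ^ 2) < x 0}).indicator
      (fun x => x 0) x ∂(gam (n+1)) = ∏ i, 1 / √(1 + α i) := by
  rw [← int_prod α hα]
  have hmp := measurePreserving_piFinSuccAbove (fun _ : Fin (n+1) => gaussianReal 0 1) 0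
  have hm : Measurable fun r : Fin n → ℝ => √(∑ i, α i * r i ^ 2) := by fun_prop
  -- the function on the product space
  set G : ℝ × (Fin n → ℝ) → ℝ := fun p => ({p : ℝ × (Fin n → ℝ) | √(∑ i, α i * p.2 i ^ 2) < p.1}).indicator
      (fun p => p.1) p with hG
  have hset : MeasurableSet {p : ℝ × (Fin n → ℝ) | √(∑ i, α i * p.2 i ^ 2) < p.1} :=
    measurableSet_lt (hm.comp measurable_snd) measurable_fst
  have e1 : ∫ x, ({x : Fin (n+1) → ℝ | √(∑ i, α i * x i.succ ^ 2) < x 0}).indicator
      (fun x => x 0) x ∂(gam (n+1)) = ∫ p, G p ∂((gaussianReal 0 1).prod (gam n)) := by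
    rw [← hmp.integral_comp (MeasurableEquiv.measurableEmbedding _)]
    apply integral_congr_ae
    filter_upwards with x
    simp only [hG, Set.indicator, Set.mem_ofPred_eq, MeasurableEquiv.piFinSuccAbove_apply]
    rfl
  have hGi : Integrable G ((gaussianReal 0 1).prod (gam n)) := by
    have h0 : Integrable (fun p : ℝ × (Fin n → ℝ) => p.1) ((gaussianReal 0 1).prod (gam n)) := by
      have : Integrable (fun x : ℝ => x) (gaussianReal 0 1) := by
        have h7 := memLp_id_gaussianReal (μ := 0) (v := 1) 1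
        exact memLp_one_iff_integrable.1 h7
      exact this.comp_fst _
    exact h0.indicator hset
  rw [e1, integral_prod_symm _ hGi, ← integral_const_mul]
  apply integral_congr_ae
  filter_upwards with r
  have h2 := int_Ioi (√(∑ i, α i * r i ^ 2))
  rw [Real.sq_sqrt (Finset.sum_nonneg fun i _ => mul_nonneg (hα i) (sq_nonneg _))] at h2
  rw [← h2]
  rfl

end
end Crest.Agent.H28PrG1
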