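import Mathlib
import Crest.Agent.H28PrG1
set_option autoImplicit false
open MeasureTheory ProbabilityTheory
open scoped InnerProductSpace

/-! scalar algebra of the confocal ellipse, used for S0334 -/

namespace Crest.Agent.H28PrG2
noncomputable section

/-- scalar data: `S = σ²`, `m = μ₊`, `u = -μ₋`, `r = √D`. -/
structure Dat (β R t S m u r κ c d : ℝ) : Prop where
  hβ : 0 < β
  hR : 0 ≤ R
  ht : 0 < t
  hm : 0 < m
  hu : 0 ≤ u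
  hr : 0 < r
  hS : S = m + β ^ 2
  hmu : m + u = r
  hq : S - u = R ^ 2 + t ^ 2
  hprod : m * u = β ^ 2 * t ^ 2
  hκ : 0 < κ
  hκ2 : κ ^ 2 * r = S * m
  hc : S * c = R * κ
  hd : m * d = t * κ

lemma exists_dat (β R t : ℝ) (hβ : 0 < β) (hR : 0 ≤ R) (ht : 0 < t) :
    Dat β R t ((β ^ 2 + (R ^ 2 + t ^ 2) + √((R ^ 2 + t ^ 2 - β ^ 2) ^ 2 + 4 * β ^ 2 * t ^ 2)) / 2)
      ((R ^ 2 + t ^ 2 - β ^ 2 + √((R ^ 2 + t ^ 2 - β ^ 2) ^ 2 + 4 * β ^ 2 * t ^ 2)) / 2)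
      ((β ^ 2 - (R ^ 2 + t ^ 2) + √((R ^ 2 + t ^ 2 - β ^ 2) ^ 2 + 4 * β ^ 2 * t ^ 2)) / 2)
      (√((R ^ 2 + t ^ 2 - β ^ 2) ^ 2 + 4 * β ^ 2 * t ^ 2))
      (√(((β ^ 2 + (R ^ 2 + t ^ 2) + √((R ^ 2 + t ^ 2 - β ^ 2) ^ 2 + 4 * β ^ 2 * t ^ 2)) / 2) *
        ((R ^ 2 + t ^ 2 - β ^ 2 + √((R ^ 2 + t ^ 2 - β ^ 2) ^ 2 + 4 * β ^ 2 * t ^ 2)) / 2) /
        √((R ^ 2 + t ^ 2 - β ^ 2) ^ 2 + 4 * β ^ 2 * t ^ 2)))
      (R * √(((β ^ 2 + (R ^ 2 + t ^ 2) + √((R ^ 2 + t ^ 2 - β ^ 2) ^ 2 + 4 * β ^ 2 * t ^ 2)) / 2) *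
        ((R ^ 2 + t ^ 2 - β ^ 2 + √((R ^ 2 + t ^ 2 - β ^ 2) ^ 2 + 4 * β ^ 2 * t ^ 2)) / 2) /
        √((R ^ 2 + t ^ 2 - β ^ 2) ^ 2 + 4 * β ^ 2 * t ^ 2)) /
        ((β ^ 2 + (R ^ 2 + t ^ 2) + √((R ^ 2 + t ^ 2 - β ^ 2) ^ 2 + 4 * β ^ 2 * t ^ 2)) / 2))
      (t * √(((β ^ 2 + (R ^ 2 + t ^ 2) + √((R ^ 2 + t ^ 2 - β ^ 2) ^ 2 + 4 * β ^ 2 * t ^ 2)) / 2) *
        ((R ^ 2 + t ^ 2 - β ^ 2 + √((R ^ 2 + t ^ 2 - β ^ 2) ^ 2 + 4 * β ^ 2 * t ^ 2)) / 2) /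
        √((R ^ 2 + t ^ 2 - β ^ 2) ^ 2 + 4 * β ^ 2 * t ^ 2)) /
        ((R ^ 2 + t ^ 2 - β ^ 2 + √((R ^ 2 + t ^ 2 - β ^ 2) ^ 2 + 4 * β ^ 2 * t ^ 2)) / 2)) := by
  set D := (R ^ 2 + t ^ 2 - β ^ 2) ^ 2 + 4 * β ^ 2 * t ^ 2 with hD
  have hD0 : 0 < D := by positivity
  set r := √D with hr
  have hr0 : 0 < r := Real.sqrt_pos.2 hD0
  have hr2 : r ^ 2 = D := Real.sq_sqrt hD0.le
  have hlt : |R ^ 2 + t ^ 2 - β ^ 2| < r := by
    apply Real.lt_sqrt_of_sq_lt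
    rw [sq_abs]
    have : 0 < 4 * β ^ 2 * t ^ 2 := by positivity
    linarith
  have h1 := abs_lt.1 hlt
  have hm : 0 < (R ^ 2 + t ^ 2 - β ^ 2 + r) / 2 := by linarith
  have hu : 0 < (β ^ 2 - (R ^ 2 + t ^ 2) + r) / 2 := by linarith
  have hS : 0 < (β ^ 2 + (R ^ 2 + t ^ 2) + r) / 2 := by positivity
  refine ⟨hβ, hR, ht, hm, hu.le, hr0, by ring, by ring, by ring, by nlinarith, ?_, ?_, ?_, ?_⟩
  · positivity
  · rw [Real.sq_sqrt (by positivity)]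
    field_simp
  · rw [mul_div_cancel₀ _ hS.ne']
  · rw [mul_div_cancel₀ _ hm.ne']

variable {β R t S m u r κ c d : ℝ}

lemma Dat.S0 (h : Dat β R t S m u r κ c d) : 0 < S := by
  rw [h.hS]; have := h.hm; positivity

lemma Dat.ell (h : Dat β R t S m u r κ c d) : R ^ 2 * m + t ^ 2 * S = S * m := by
  have h1 := h.hS
  have h2 := h.hq
  have h3 := h.hprod
  have : R ^ 2 = S - u - t ^ 2 := by linarith
  rw [this]
  subst h1
  nlinarith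

lemma Dat.kap (h : Dat β R t S m u r κ c d) : R * c + t * d = κ := by
  have hS := h.S0
  have hm := h.hm
  have e := h.ell
  have : S * m * (R * c + t * d) = S * m * κ := by
    calc S * m * (R * c + t * d) = R * m * (S * c) + t * S * (m * d) := by ring
      _ = (R ^ 2 * m + t ^ 2 * S) * κ := by rw [h.hc, h.hd]; ring
      _ = S * m * κ := by rw [e]
  exact mul_left_cancel₀ (by positivity) this

lemma Dat.unit (h : Dat β R t S m u r κ c d) : c ^ 2 + d ^ 2 = 1 := by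
  have hS := h.S0
  have hm := h.hm
  have hr := h.hr
  have e := h.ell
  -- S² m² r (c²+d²) = r κ² (R² m² + t² S²) = S m (S² m²·...)
  have h1 : S ^ 2 * m ^ 2 * r * (c ^ 2 + d ^ 2) = S ^ 2 * m ^ 2 * r * 1 := by
    have h2 : R ^ 2 * m ^ 2 + t ^ 2 * S ^ 2 = S * m * r := by
      have : R ^ 2 * m ^ 2 = m * (S * m - t ^ 2 * S) := by
        rw [← e]; ring
      rw [this, ← h.hmu]
      have h3 : m * u = β ^ 2 * t ^ 2 := h.hprod
      have h4 : β ^ 2 = S - m := by rw [h.hS]; ring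
      rw [h4] at h3
      linear_combination -S * h3
    calc S ^ 2 * m ^ 2 * r * (c ^ 2 + d ^ 2) = r * ((S * c) ^ 2 * m ^ 2 + (m * d) ^ 2 * S ^ 2) := by ring
      _ = κ ^ 2 * r * (R ^ 2 * m ^ 2 + t ^ 2 * S ^ 2) := by rw [h.hc, h.hd]; ring
      _ = S ^ 2 * m ^ 2 * r * 1 := by rw [h2, h.hκ2]; ring
  exact mul_left_cancel₀ (by positivity) h1

lemma Dat.kl (h : Dat β R t S m u r κ c d) : κ * (t * c - R * d) = -β ^ 2 * c * d := by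
  have h1 := h.hc
  have h2 := h.hd
  have h4 : β ^ 2 = S - m := by rw [h.hS]; ring
  rw [h4]
  linear_combination -c * h2 + d * h1

lemma Dat.kk (h : Dat β R t S m u r κ c d) : κ ^ 2 = m + β ^ 2 * c ^ 2 := by
  have h1 := h.hc
  have h2 := h.hd
  have h3 := h.kap
  have h4 : β ^ 2 = S - m := by rw [h.hS]; ring
  have h5 := h.unit
  rw [h4]
  have : κ ^ 2 = κ * (R * c + t * d) := by rw [h3]; ring
  rw [this]
  linear_combination -c * h1 - d * h2 + m * h5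

lemma Dat.ll (h : Dat β R t S m u r κ c d) : (t * c - R * d) ^ 2 = β ^ 2 * d ^ 2 - u := by
  have h3 := h.kap
  have h5 := h.unit
  have h6 := h.kk
  have h7 := h.hq
  have h8 : (t * c - R * d) ^ 2 + κ ^ 2 = (R ^ 2 + t ^ 2) * (c ^ 2 + d ^ 2) := by
    rw [← h3]; ring
  rw [h5] at h8
  have h4 : S = m + β ^ 2 := h.hS
  linear_combination h8 - h6 - h7 + h4 - β ^ 2 * h5

lemma Dat.quad (h : Dat β R t S m u r κ c d) (U V : ℝ) :
    (κ * U + (t * c - R * d) * V) ^ 2 - β ^ 2 * (c * U - d * V) ^ 2 = m * U ^ 2 - u * V ^ 2 := by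
  have h1 := h.kk
  have h2 := h.kl
  have h3 := h.ll
  linear_combination U ^ 2 * h1 + 2 * U * V * h2 + V ^ 2 * h3

lemma Dat.lm (h : Dat β R t S m u r κ c d) : (t * c - R * d) ^ 2 * m ≤ κ ^ 2 * u := by
  have hS := h.S0
  have hm := h.hm
  have hκ := h.hκ
  have h1 : β ^ 2 * R ^ 2 ≤ S ^ 2 := by
    have ha : β ^ 2 ≤ S := by rw [h.hS]; linarith
    have hb : R ^ 2 ≤ S := by
      have e := h.ell
      have : R ^ 2 * m ≤ S * m := by nlinarith [sq_nonneg t]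
      exact le_of_mul_le_mul_right this hm
    nlinarith [sq_nonneg R, sq_nonneg β]
  have h2 : κ ^ 2 * (t * c - R * d) ^ 2 = β ^ 4 * (c * d) ^ 2 := by
    have h9 : (κ * (t * c - R * d)) ^ 2 = (-β ^ 2 * c * d) ^ 2 := by rw [h.kl]
    calc κ ^ 2 * (t * c - R * d) ^ 2 = (κ * (t * c - R * d)) ^ 2 := by ring
      _ = (-β ^ 2 * c * d) ^ 2 := h9
      _ = β ^ 4 * (c * d) ^ 2 := by ring
  have h3 : S ^ 2 * m ^ 2 * (c * d) ^ 2 = R ^ 2 * t ^ 2 * κ ^ 4 := by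
    calc S ^ 2 * m ^ 2 * (c * d) ^ 2 = (S * c) ^ 2 * (m * d) ^ 2 := by ring
      _ = R ^ 2 * t ^ 2 * κ ^ 4 := by rw [h.hc, h.hd]; ring
  -- multiply by κ² S² m
  have h4 : (κ ^ 2 * S ^ 2 * m) * ((t * c - R * d) ^ 2 * m) ≤ (κ ^ 2 * S ^ 2 * m) * (κ ^ 2 * u) := by
    calc (κ ^ 2 * S ^ 2 * m) * ((t * c - R * d) ^ 2 * m)
        = (κ ^ 2 * (t * c - R * d) ^ 2) * (S ^ 2 * m ^ 2) := by ring
      _ = β ^ 4 * (S ^ 2 * m ^ 2 * (c * d) ^ 2) := by rw [h2]; ring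
      _ = κ ^ 4 * (β ^ 2 * t ^ 2) * (β ^ 2 * R ^ 2) := by rw [h3]; ring
      _ ≤ κ ^ 4 * (β ^ 2 * t ^ 2) * S ^ 2 := by
          apply mul_le_mul_of_nonneg_left h1; positivity
      _ = (κ ^ 2 * S ^ 2 * m) * (κ ^ 2 * u) := by rw [← h.hprod]; ring
  exact le_of_mul_le_mul_left h4 (by positivity)

/-- the cone in rotated coordinates -/
lemma Dat.cone (h : Dat β R t S m u r κ c d) (U V ρ : ℝ) (hρ : 0 ≤ ρ) :
    β * √((c * U - d * V) ^ 2 + ρ) < κ * U + (t * c - R * d) * V ↔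
      √(u / m * V ^ 2 + β ^ 2 / m * ρ) < U := by
  have hβ := h.hβ
  have hm := h.hm
  have hu := h.hu
  have hκ := h.hκ
  have hq := h.quad U V
  have hl := h.lm
  set X := κ * U + (t * c - R * d) * V with hX
  set l := t * c - R * d with hll
  have e1 : β * √((c * U - d * V) ^ 2 + ρ) = √(β ^ 2 * ((c * U - d * V) ^ 2 + ρ)) := by
    rw [Real.sqrt_mul (by positivity), Real.sqrt_sq hβ.le]
  have e2 : u / m * V ^ 2 + β ^ 2 / m * ρ = (u * V ^ 2 + β ^ 2 * ρ) / m := by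
    field_simp
  rw [e1, e2]
  constructor
  · intro h1
    have hX0 : 0 < X := lt_of_le_of_lt (Real.sqrt_nonneg _) h1
    have h2 := (Real.sqrt_lt' hX0).1 h1
    have h3 : u * V ^ 2 + β ^ 2 * ρ < m * U ^ 2 := by nlinarith
    have hU : 0 < U := by
      by_contra hU
      push Not at hU
      have h4 : 0 ≤ κ * (-U) := mul_nonneg hκ.le (by linarith)
      have h5 : κ * (-U) < l * V := by linarith
      have h6 : (κ * (-U)) ^ 2 < (l * V) ^ 2 := by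
        apply pow_lt_pow_left₀ h5 h4 (by norm_num)
      have h7 : m * (κ * (-U)) ^ 2 < m * (l * V) ^ 2 := mul_lt_mul_of_pos_left h6 hm
      have h8 : l ^ 2 * m * V ^ 2 ≤ κ ^ 2 * u * V ^ 2 := mul_le_mul_of_nonneg_right hl (sq_nonneg V)
      have h9 : κ ^ 2 * (m * U ^ 2) < κ ^ 2 * (u * V ^ 2) := by nlinarith
      have h10 := lt_of_mul_lt_mul_left h9 (by positivity)
      have : 0 ≤ β ^ 2 * ρ := by positivity
      linarith
    rw [Real.sqrt_lt' hU, div_lt_iff₀ hm]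
    linarith
  · intro h1
    have hU : 0 < U := lt_of_le_of_lt (Real.sqrt_nonneg _) h1
    rw [Real.sqrt_lt' hU, div_lt_iff₀ hm] at h1
    have hβρ : 0 ≤ β ^ 2 * ρ := by positivity
    have hX0 : 0 < X := by
      by_contra hX0
      push Not at hX0
      have h4 : 0 < κ * U := mul_pos hκ hU
      have h5 : κ * U ≤ -(l * V) := by linarith
      have h6 : (κ * U) ^ 2 ≤ (-(l * V)) ^ 2 := pow_le_pow_left₀ h4.le h5 2
      have h7 : m * (κ * U) ^ 2 ≤ m * (-(l * V)) ^ 2 := mul_le_mul_of_nonneg_left h6 hm.le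
      have h8 : l ^ 2 * m * V ^ 2 ≤ κ ^ 2 * u * V ^ 2 := mul_le_mul_of_nonneg_right hl (sq_nonneg V)
      have h9 : κ ^ 2 * (m * U ^ 2) ≤ κ ^ 2 * (u * V ^ 2) := by nlinarith
      have h10 := le_of_mul_le_mul_left h9 (by positivity)
      linarith
    rw [Real.sqrt_lt' hX0]
    nlinarith

end
end Crest.Agent.H28PrG2
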