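import Mathlib
import Crest.Agent.H28PrG1
import Crest.Agent.H28PrG2
import Crest.Agent.H18PrSpec
set_option autoImplicit false
set_option linter.unusedSimpArgs false
open MeasureTheory ProbabilityTheory
open scoped InnerProductSpace

/-! the Gaussian integral over the rotated cone, used for S0334 -/

namespace Crest.Agent.H28PrG3
noncomputable section
open Crest.Agent.H18Pr Crest.Agent.H28PrG1 Crest.Agent.H28PrG2

lemma integrable_coord {n : ℕ} (i : Fin n) : Integrable (fun x : Fin n → ℝ => x i) (gam n) := by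
  have h7 := memLp_id_gaussianReal (μ := 0) (v := 1) 1
  have h8 : Integrable (fun x : ℝ => x) (gaussianReal 0 1) := memLp_one_iff_integrable.1 h7
  have h9 := (measurePreserving_eval (fun _ : Fin n => gaussianReal 0 1) i)
  exact h9.integrable_comp_of_integrable h8

/-- the odd part vanishes -/
lemma int_odd {n : ℕ} (j : Fin n) (C : Set (Fin n → ℝ)) (hC : MeasurableSet C)
    (hsymm : ∀ x, (fun i => if i = j then -x i else x i) ∈ C ↔ x ∈ C) :
    ∫ x, C.indicator (fun x => x j) x ∂(gam n) = 0 := by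
  have hmp : MeasurePreserving (fun (a : Fin n → ℝ) i => (fun y : ℝ => if i = j then -y else y) (a i))
      (gam n) (gam n) := by
    refine measurePreserving_pi (fun _ : Fin n => gaussianReal 0 1) (fun _ : Fin n => gaussianReal 0 1)
      (f := fun (i : Fin n) (y : ℝ) => if i = j then -y else y) ?_
    intro i
    by_cases hi : i = j
    · simp only [hi, if_true]
      refine ⟨measurable_neg, ?_⟩
      have := gaussianReal_map_neg (μ := 0) (v := 1)
      simpa using this
    · simp only [hi, if_false]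
      exact MeasurePreserving.id _
  have hi : AEStronglyMeasurable (C.indicator (fun x : Fin n → ℝ => x j)) (gam n) :=
    ((integrable_coord j).indicator hC).aestronglyMeasurable
  have h1 : ∫ x, C.indicator (fun x => x j) x ∂(gam n)
      = ∫ x, C.indicator (fun x : Fin n → ℝ => x j)
        (fun i => if i = j then -x i else x i) ∂(gam n) := by
    conv_lhs => rw [← hmp.map_eq]
    rw [integral_map hmp.measurable.aemeasurable (by rw [hmp.map_eq]; exact hi)]
  have h2 : ∀ x : Fin n → ℝ, C.indicator (fun x : Fin n → ℝ => x j)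
        (fun i => if i = j then -x i else x i) = -C.indicator (fun x => x j) x := by
    intro x
    by_cases hx : x ∈ C
    · rw [Set.indicator_of_mem hx, Set.indicator_of_mem ((hsymm x).2 hx)]
      simp
    · rw [Set.indicator_of_notMem hx, Set.indicator_of_notMem (fun h => hx ((hsymm x).1 h))]
      simp
  simp_rw [h2] at h1
  rw [integral_neg] at h1
  linarith

/-- the rotated family -/
def fam {N k : ℕ} (e : Fin (k+1) → Eu N) (f : Eu N) (c d : ℝ) : Fin (k+2) → Eu N :=
  Fin.cons (c • e 0 + d • f) (Fin.cons (c • f - d • e 0) (fun i => e i.succ))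

lemma fam_orthonormal {N k : ℕ} (e : Fin (k+1) → Eu N) (f : Eu N) (c d : ℝ) (he : Orthonormal ℝ e)
    (hf : ‖f‖ = 1) (hef : ∀ i, ⟪e i, f⟫_ℝ = 0) (hcd : c ^ 2 + d ^ 2 = 1) :
    Orthonormal ℝ (fam e f c d) := by
  have he' := orthonormal_iff_ite.1 he
  have hef' : ∀ i, ⟪f, e i⟫_ℝ = 0 := fun i => by rw [real_inner_comm]; exact hef i
  have hff : ⟪f, f⟫_ℝ = 1 := by rw [real_inner_self_eq_norm_sq, hf]; norm_num
  have h00 : ⟪e 0, e 0⟫_ℝ = 1 := by rw [he']; simp
  have h0s : ∀ i : Fin k, ⟪e 0, e i.succ⟫_ℝ = 0 := fun i => by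
    rw [he', if_neg]; exact (Fin.succ_ne_zero i).symm
  have hs0 : ∀ i : Fin k, ⟪e i.succ, e 0⟫_ℝ = 0 := fun i => by
    rw [he', if_neg]; exact (Fin.succ_ne_zero i)
  rw [orthonormal_iff_ite]
  intro i j
  refine Fin.cases ?_ (fun i => Fin.cases ?_ (fun i => ?_) i) i <;>
  refine Fin.cases ?_ (fun j => Fin.cases ?_ (fun j => ?_) j) j
  · simp only [fam, Fin.cons_zero, inner_add_left, inner_add_right, inner_smul_left, inner_smul_right,
      hef, hef', hff, h00, if_true]
    simp; linarith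
  · simp only [fam, Fin.cons_zero, Fin.cons_succ, inner_add_left, inner_sub_right, inner_smul_left, inner_smul_right,
      hef, hef', hff, h00]
    rw [if_neg (Fin.succ_ne_zero _).symm]
    simp; ring
  · simp only [fam, Fin.cons_zero, Fin.cons_succ, inner_add_left, inner_sub_right, inner_smul_left, inner_smul_right,
      hef, hef', hff, h00, h0s]
    rw [if_neg (Fin.succ_ne_zero _).symm]
    simp
  · simp only [fam, Fin.cons_zero, Fin.cons_succ, inner_sub_left, inner_add_right, inner_smul_left, inner_smul_right,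
      hef, hef', hff, h00]
    rw [if_neg (Fin.succ_ne_zero _)]
    simp; ring
  · simp only [fam, Fin.cons_zero, Fin.cons_succ, inner_sub_left, inner_sub_right, inner_smul_left, inner_smul_right,
      hef, hef', hff, h00, if_true]
    simp; linarith
  · simp only [fam, Fin.cons_zero, Fin.cons_succ, inner_sub_left, inner_sub_right, inner_smul_left, inner_smul_right,
      hef, hef', hff, h00, h0s]
    rw [if_neg (fun h => (Fin.succ_ne_zero _ (Fin.succ_injective _ h).symm))]
    simp
  · simp only [fam, Fin.cons_zero, Fin.cons_succ, inner_sub_left, inner_add_right, inner_smul_left, inner_smul_right,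
      hef, hef', hff, h00, hs0]
    rw [if_neg (Fin.succ_ne_zero _)]
    simp
  · simp only [fam, Fin.cons_zero, Fin.cons_succ, inner_sub_left, inner_sub_right, inner_smul_left, inner_smul_right,
      hef, hef', hff, h00, hs0]
    rw [if_neg (fun h => (Fin.succ_ne_zero _ (Fin.succ_injective _ h)))]
    simp
  · simp only [fam, Fin.cons_succ, he']
    simp [Fin.ext_iff]

lemma fam_zero {N k : ℕ} (e : Fin (k+1) → Eu N) (f : Eu N) (c d : ℝ) :
    fam e f c d 0 = c • e 0 + d • f := rfl

lemma fam_one {N k : ℕ} (e : Fin (k+1) → Eu N) (f : Eu N) (c d : ℝ) :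
    fam e f c d 1 = c • f - d • e 0 := rfl

lemma fam_succ {N k : ℕ} (e : Fin (k+1) → Eu N) (f : Eu N) (c d : ℝ) (i : Fin k) :
    fam e f c d i.succ.succ = e i.succ := rfl

/-- weights -/
def wt {k : ℕ} (a b : ℝ) : Fin (k+1) → ℝ := Fin.cons a (fun _ => b)

lemma main_int {N k : ℕ} (hPi : Spec.Pi) (e : Fin (k+1) → Eu N) (f : Eu N) (he : Orthonormal ℝ e)
    (hf : ‖f‖ = 1) (hef : ∀ i, ⟪e i, f⟫_ℝ = 0) {β R t S m u r κ c d : ℝ}
    (h : Dat β R t S m u r κ c d) :
    √(2 * Real.pi) * ∫ x, ({x : Eu N | β * nrm e x < ⟪R • e 0 + t • f, x⟫_ℝ}).indicator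
      (fun x => ⟪R • e 0 + t • f, x⟫_ℝ) x ∂(stdGaussian (Eu N))
      = κ * (1 / √(1 + u / m) * (1 / √(1 + β ^ 2 / m)) ^ k) := by
  have hcd := h.unit
  have hb := fam_orthonormal e f c d he hf hef hcd
  have hmap := hPi N (Fin (k+2)) inferInstance (fam e f c d) hb
  set α : Fin (k+1) → ℝ := wt (u / m) (β ^ 2 / m) with hα
  have hm := h.hm
  have hu := h.hu
  have hα0 : ∀ i, 0 ≤ α i := by
    intro i
    refine Fin.cases ?_ (fun i => ?_) i
    · simp only [hα, wt, Fin.cons_zero]; positivity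
    · simp only [hα, wt, Fin.cons_succ]; positivity
  set l := t * c - R * d with hl
  set C : Set (Fin (k+2) → ℝ) := {x | √(∑ i, α i * x i.succ ^ 2) < x 0} with hC
  have hCm : MeasurableSet C := measurableSet_lt (by fun_prop) (by fun_prop)
  have hU : Integrable (C.indicator (fun x : Fin (k+2) → ℝ => x 0)) (gam (k+2)) :=
    (integrable_coord 0).indicator hCm
  have hV : Integrable (C.indicator (fun x : Fin (k+2) → ℝ => x 1)) (gam (k+2)) :=
    (integrable_coord 1).indicator hCm
  set G : (Fin (k+2) → ℝ) → ℝ := fun x => κ * C.indicator (fun x => x 0) x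
    + l * C.indicator (fun x => x 1) x with hG
  have hGi : Integrable G (gam (k+2)) := (hU.const_mul κ).add (hV.const_mul l)
  -- pointwise identity
  have hpt : ∀ x : Eu N, ({x : Eu N | β * nrm e x < ⟪R • e 0 + t • f, x⟫_ℝ}).indicator
      (fun x => ⟪R • e 0 + t • f, x⟫_ℝ) x = G (fun i => ⟪fam e f c d i, x⟫_ℝ) := by
    intro x
    set U := ⟪fam e f c d 0, x⟫_ℝ with hU
    set V := ⟪fam e f c d 1, x⟫_ℝ with hV
    have hU' : U = c * ⟪e 0, x⟫_ℝ + d * ⟪f, x⟫_ℝ := by
      rw [hU, fam_zero, inner_add_left, inner_smul_left, inner_smul_left]; simp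
    have hV' : V = c * ⟪f, x⟫_ℝ - d * ⟪e 0, x⟫_ℝ := by
      rw [hV, fam_one, inner_sub_left, inner_smul_left, inner_smul_left]; simp
    have he0 : ⟪e 0, x⟫_ℝ = c * U - d * V := by
      rw [hU', hV']; linear_combination -⟪e 0, x⟫_ℝ * hcd
    have hf0 : ⟪f, x⟫_ℝ = d * U + c * V := by
      rw [hU', hV']; linear_combination -⟪f, x⟫_ℝ * hcd
    have hX : ⟪R • e 0 + t • f, x⟫_ℝ = κ * U + l * V := by
      rw [inner_add_left, inner_smul_left, inner_smul_left, he0, hf0, ← h.kap, hl]
      simp; ring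
    have hn : nrm e x = √((c * U - d * V) ^ 2 + ∑ i : Fin k, ⟪e i.succ, x⟫_ℝ ^ 2) := by
      rw [nrm, Fin.sum_univ_succ, he0]
    have hsum : ∑ i, α i * ⟪fam e f c d i.succ, x⟫_ℝ ^ 2
        = u / m * V ^ 2 + β ^ 2 / m * ∑ i : Fin k, ⟪e i.succ, x⟫_ℝ ^ 2 := by
      rw [Fin.sum_univ_succ, Finset.mul_sum]
      rfl
    have hiff : β * nrm e x < ⟪R • e 0 + t • f, x⟫_ℝ ↔ (fun i => ⟪fam e f c d i, x⟫_ℝ) ∈ C := by
      rw [hn, hX, h.cone U V _ (Finset.sum_nonneg fun i _ => sq_nonneg _)]
      simp only [hC, Set.mem_ofPred_eq]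
      rw [hsum]
    by_cases hx : β * nrm e x < ⟪R • e 0 + t • f, x⟫_ℝ
    · have hx' := hiff.1 hx
      rw [Set.indicator_of_mem (show x ∈ {x : Eu N | β * nrm e x < ⟪R • e 0 + t • f, x⟫_ℝ} from hx)]
      simp only [hG]
      rw [Set.indicator_of_mem hx', Set.indicator_of_mem hx', hX]
    · have hx' := fun h => hx (hiff.2 h)
      rw [Set.indicator_of_notMem (show x ∉ {x : Eu N | β * nrm e x < ⟪R • e 0 + t • f, x⟫_ℝ} from hx)]
      simp only [hG]
      rw [Set.indicator_of_notMem hx', Set.indicator_of_notMem hx']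
      ring
  simp_rw [hpt]
  have hmeas : Measurable (fun (x : Eu N) (i : Fin (k+2)) => ⟪fam e f c d i, x⟫_ℝ) := by fun_prop
  have h1 : ∫ x, G (fun i => ⟪fam e f c d i, x⟫_ℝ) ∂(stdGaussian (Eu N)) = ∫ r, G r ∂(gam (k+2)) := by
    rw [← integral_map hmeas.aemeasurable (by rw [hmap]; exact hGi.aestronglyMeasurable), hmap]
  rw [h1]
  have hodd : ∫ x, C.indicator (fun x : Fin (k+2) → ℝ => x 1) x ∂(gam (k+2)) = 0 := by
    apply int_odd 1 C hCm
    intro x
    simp only [hC, Set.mem_ofPred_eq]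
    have h0 : ((0 : Fin (k+2)) = 1) = False := by simp
    simp only [h0, if_false]
    have : ∀ i : Fin (k+1), (if i.succ = 1 then -x i.succ else x i.succ) ^ 2 = x i.succ ^ 2 := by
      intro i
      split_ifs <;> ring
    simp_rw [this]
  have h2 : ∫ r, G r ∂(gam (k+2)) = κ * ∫ x, C.indicator (fun x => x 0) x ∂(gam (k+2)) := by
    simp only [hG]
    rw [integral_add (hU.const_mul κ) (hV.const_mul l), integral_const_mul, integral_const_mul, hodd]
    ring
  rw [h2]
  have h3 := int_cone α hα0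
  rw [← mul_assoc, mul_comm (√(2 * Real.pi)) κ, mul_assoc]
  congr 1
  rw [hC]
  rw [h3, Fin.prod_univ_succ]
  simp only [hα, wt, Fin.cons_zero, Fin.cons_succ, Finset.prod_const, Finset.card_univ, Fintype.card_fin]

/-- simplified value -/
lemma main_int' {N k : ℕ} (hPi : Spec.Pi) (e : Fin (k+1) → Eu N) (f : Eu N) (he : Orthonormal ℝ e)
    (hf : ‖f‖ = 1) (hef : ∀ i, ⟪e i, f⟫_ℝ = 0) {β R t S m u r κ c d : ℝ}
    (h : Dat β R t S m u r κ c d) :
    √(2 * Real.pi) * ∫ x, ({x : Eu N | β * nrm e x < ⟪R • e 0 + t • f, x⟫_ℝ}).indicator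
      (fun x => ⟪R • e 0 + t • f, x⟫_ℝ) x ∂(stdGaussian (Eu N))
      = √S * m / r * (√(m / S)) ^ k := by
  rw [main_int hPi e f he hf hef h]
  have hm := h.hm
  have hu := h.hu
  have hr := h.hr
  have hS := h.S0
  have hκ := h.hκ
  have e1 : 1 / √(1 + β ^ 2 / m) = √(m / S) := by
    rw [show 1 + β ^ 2 / m = S / m by rw [h.hS]; field_simp]
    rw [one_div, ← Real.sqrt_inv, inv_div]
  have e2 : κ * (1 / √(1 + u / m)) = √S * m / r := by
    rw [show 1 + u / m = r / m by rw [← h.hmu]; field_simp]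
    rw [one_div, ← Real.sqrt_inv, inv_div]
    have hk : κ = √(S * m / r) := by
      rw [← Real.sqrt_sq hκ.le]
      congr 1
      have := h.hκ2
      field_simp
      linarith
    rw [hk, ← Real.sqrt_mul (by positivity)]
    rw [show S * m / r * (m / r) = S * (m / r) ^ 2 by ring]
    rw [Real.sqrt_mul hS.le, Real.sqrt_sq (by positivity)]
    ring
  rw [e1, ← mul_assoc, e2]

end
end Crest.Agent.H28PrG3
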