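import Mathlib
import Crest.Agent.H28PrG3
set_option autoImplicit false
open MeasureTheory ProbabilityTheory
open scoped InnerProductSpace

/-! the derivative argument, used for S0334 -/

namespace Crest.Agent.H28PrG4
noncomputable section
open Crest.Agent.H18Pr Crest.Agent.H28PrG1 Crest.Agent.H28PrG2 Crest.Agent.H28PrG3

lemma slope_bd {Ω : Type*} [MeasurableSpace Ω] {μ : Measure Ω} (X Y : Ω → ℝ)
    (hX : Integrable X μ) (hY : Integrable Y μ) (hXm : Measurable X) (hYm : Measurable Y)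
    {s t : ℝ} (_hst : s < t) :
    ∫ ω, max 0 (t * X ω - Y ω) ∂μ - ∫ ω, max 0 (s * X ω - Y ω) ∂μ
      ≤ (t - s) * ∫ ω, ({ω | Y ω < t * X ω}).indicator X ω ∂μ := by
  have hi : ∀ a : ℝ, Integrable (fun ω => max 0 (a * X ω - Y ω)) μ := fun a => by
    have h1 : Integrable (fun ω => a * X ω - Y ω) μ := (hX.const_mul a).sub hY
    have := h1.pos_part
    simpa [max_comm] using this
  have hm : MeasurableSet {ω | Y ω < t * X ω} := measurableSet_lt hYm (hXm.const_mul t)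
  rw [← integral_sub (hi t) (hi s), ← integral_const_mul]
  apply integral_mono ((hi t).sub (hi s)) ((hX.indicator hm).const_mul _)
  intro ω
  show max 0 (t * X ω - Y ω) - max 0 (s * X ω - Y ω)
    ≤ (t - s) * ({ω | Y ω < t * X ω}).indicator X ω
  by_cases h : Y ω < t * X ω
  · rw [Set.indicator_of_mem (show ω ∈ {ω | Y ω < t * X ω} from h), max_eq_right (by linarith)]
    have := le_max_right 0 (s * X ω - Y ω)
    linarith
  · rw [Set.indicator_of_notMem (show ω ∉ {ω | Y ω < t * X ω} from h),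
      max_eq_left (by linarith [not_lt.1 h])]
    have := le_max_left 0 (s * X ω - Y ω)
    linarith

lemma nrm_le {N n : ℕ} (e : Fin n → Eu N) (he : Orthonormal ℝ e) (x : Eu N) : nrm e x ≤ ‖x‖ := by
  unfold nrm
  rw [Real.sqrt_le_iff]
  refine ⟨norm_nonneg _, ?_⟩
  have := he.sum_inner_products_le x (s := Finset.univ)
  simpa [Real.norm_eq_abs, sq_abs] using this

lemma nrm_cont {N n : ℕ} (e : Fin n → Eu N) : Continuous (nrm e) := by
  unfold nrm
  fun_prop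

lemma nrm_nonneg {N n : ℕ} (e : Fin n → Eu N) (x : Eu N) : 0 ≤ nrm e x := Real.sqrt_nonneg _

lemma nrm_integrable {N n : ℕ} (hInt : Spec.Int) (e : Fin n → Eu N) (he : Orthonormal ℝ e) :
    Integrable (nrm e) (stdGaussian (Eu N)) := by
  apply hInt N (nrm e) 1 (nrm_cont e)
  intro x
  rw [abs_of_nonneg (nrm_nonneg e x)]
  have := nrm_le e he x
  linarith

lemma inner_integrable {N : ℕ} (hInt : Spec.Int) (y : Eu N) :
    Integrable (fun x => ⟪y, x⟫_ℝ) (stdGaussian (Eu N)) := by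
  apply hInt N _ ‖y‖ (by fun_prop)
  intro x
  have := abs_real_inner_le_norm y x
  have h2 := norm_nonneg y
  nlinarith

/-- the discriminant along the ray -/
def Dd (β q τ s : ℝ) : ℝ := (s ^ 2 * q - β ^ 2) ^ 2 + 4 * β ^ 2 * (s ^ 2 * τ ^ 2)
def Dd' (β q τ s : ℝ) : ℝ := 2 * (s ^ 2 * q - β ^ 2) * (2 * s * q) + 4 * β ^ 2 * (2 * s * τ ^ 2)
/-- `σ²` along the ray -/
def Ss (β q τ s : ℝ) : ℝ := (β ^ 2 + s ^ 2 * q + √(Dd β q τ s)) / 2
def Ss' (β q τ s : ℝ) : ℝ := (2 * s * q + Dd' β q τ s / (2 * √(Dd β q τ s))) / 2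

lemma Dd_pos {β q τ s : ℝ} (hβ : 0 < β) (hτ : 0 < τ) : 0 < Dd β q τ s := by
  unfold Dd
  by_cases hs : s = 0
  · subst hs
    have : (0:ℝ) < (0 ^ 2 * q - β ^ 2) ^ 2 := by
      have : (0:ℝ) ^ 2 * q - β ^ 2 = -β ^ 2 := by ring
      rw [this, neg_sq]; positivity
    have h2 : (0:ℝ) ≤ 4 * β ^ 2 * (0 ^ 2 * τ ^ 2) := by positivity
    linarith
  · have : 0 < 4 * β ^ 2 * (s ^ 2 * τ ^ 2) := by positivity
    have h2 : 0 ≤ (s ^ 2 * q - β ^ 2) ^ 2 := sq_nonneg _
    linarith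

lemma Ss_pos {β q τ s : ℝ} (hβ : 0 < β) (hτ : 0 < τ) (hq : 0 ≤ q) : 0 < Ss β q τ s := by
  have := Dd_pos (q := q) (s := s) hβ hτ
  unfold Ss
  positivity

lemma hasDeriv_Dd (β q τ s : ℝ) : HasDerivAt (Dd β q τ) (Dd' β q τ s) s := by
  have h1 : HasDerivAt (fun s : ℝ => s ^ 2) (2 * s) s := by simpa using hasDerivAt_pow 2 s
  have h2 : HasDerivAt (fun s : ℝ => s ^ 2 * q - β ^ 2) (2 * s * q) s := (h1.mul_const q).sub_const _
  have h3 : HasDerivAt (fun s : ℝ => (s ^ 2 * q - β ^ 2) ^ 2) (2 * (s ^ 2 * q - β ^ 2) * (2 * s * q)) s := by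
    have h5 : HasDerivAt (fun s : ℝ => (s ^ 2 * q - β ^ 2) ^ 2)
      (((2:ℕ):ℝ) * (s ^ 2 * q - β ^ 2) ^ (2-1) * (2 * s * q)) s := h2.pow 2
    have h6 : ((2:ℕ):ℝ) * (s ^ 2 * q - β ^ 2) ^ (2-1) * (2 * s * q)
      = 2 * (s ^ 2 * q - β ^ 2) * (2 * s * q) := by norm_num
    rw [h6] at h5
    exact h5
  have h4 : HasDerivAt (fun s : ℝ => 4 * β ^ 2 * (s ^ 2 * τ ^ 2)) (4 * β ^ 2 * (2 * s * τ ^ 2)) s :=
    (h1.mul_const (τ ^ 2)).const_mul _
  exact h3.add h4

lemma hasDeriv_Ss {β q τ : ℝ} (hβ : 0 < β) (hτ : 0 < τ) (s : ℝ) :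
    HasDerivAt (Ss β q τ) (Ss' β q τ s) s := by
  have h1 : HasDerivAt (fun s : ℝ => s ^ 2) (2 * s) s := by simpa using hasDerivAt_pow 2 s
  have h2 : HasDerivAt (fun s : ℝ => β ^ 2 + s ^ 2 * q) (2 * s * q) s := (h1.mul_const q).const_add _
  have h3 := (hasDeriv_Dd β q τ s).sqrt (Dd_pos hβ hτ).ne'
  exact (h2.add h3).div_const 2

lemma cont_Dd' (β q τ : ℝ) : Continuous (Dd' β q τ) := by unfold Dd'; fun_prop
lemma cont_Dd (β q τ : ℝ) : Continuous (Dd β q τ) := by unfold Dd; fun_prop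

lemma cont_Ss' {β q τ : ℝ} (hβ : 0 < β) (hτ : 0 < τ) : Continuous (Ss' β q τ) := by
  unfold Ss'
  apply Continuous.div_const
  apply Continuous.add (by fun_prop)
  apply Continuous.div (cont_Dd' _ _ _) (continuous_const.mul (cont_Dd _ _ _).sqrt)
  intro s
  have := Real.sqrt_pos.2 (Dd_pos (q := q) (s := s) hβ hτ)
  exact (mul_pos two_pos this).ne'

lemma cont_Ss {β q τ : ℝ} : Continuous (Ss β q τ) := by
  unfold Ss
  apply Continuous.div_const
  apply Continuous.add (by fun_prop) (cont_Dd _ _ _).sqrt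

/-- the data at parameter `s`, with the derivative identity -/
lemma dat_at (β R τ s : ℝ) (hβ : 0 < β) (hR : 0 ≤ R) (hτ : 0 < τ) (hs : 0 < s) :
    ∃ m u r κ c d : ℝ, Dat β (s * R) (s * τ) (Ss β (R ^ 2 + τ ^ 2) τ s) m u r κ c d ∧
      Ss' β (R ^ 2 + τ ^ 2) τ s * (s * r) = 2 * Ss β (R ^ 2 + τ ^ 2) τ s * m := by
  set q := R ^ 2 + τ ^ 2 with hq
  have h := exists_dat β (s * R) (s * τ) hβ (by positivity) (by positivity)
  have e1 : (s * R) ^ 2 + (s * τ) ^ 2 = s ^ 2 * q := by rw [hq]; ring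
  have e2 : (s * R) ^ 2 + (s * τ) ^ 2 - β ^ 2 = s ^ 2 * q - β ^ 2 := by rw [hq]; ring
  have e3 : (s ^ 2 * q - β ^ 2) ^ 2 + 4 * β ^ 2 * (s * τ) ^ 2 = Dd β q τ s := by
    unfold Dd; ring
  simp only [e1, e3] at h
  rw [show (β ^ 2 + s ^ 2 * q + √(Dd β q τ s)) / 2 = Ss β q τ s from rfl] at h
  refine ⟨_, _, _, _, _, _, h, ?_⟩
  have hD := Dd_pos (q := q) (s := s) hβ hτ
  have hr : 0 < √(Dd β q τ s) := Real.sqrt_pos.2 hD
  have hr2 : √(Dd β q τ s) ^ 2 = Dd β q τ s := Real.sq_sqrt hD.le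
  set r := √(Dd β q τ s) with hrdef
  have hS : Ss β q τ s = (β ^ 2 + s ^ 2 * q + r) / 2 := rfl
  have hS' : Ss' β q τ s = (2 * s * q + Dd' β q τ s / (2 * r)) / 2 := rfl
  rw [hS', hS]
  have hm2 : r ^ 2 = (s ^ 2 * q - β ^ 2) ^ 2 + 4 * β ^ 2 * (s ^ 2 * τ ^ 2) := hr2
  unfold Dd'
  field_simp
  linear_combination -hm2

/-- the main estimate for `τ > 0` -/
theorem core {N k : ℕ} (hInt : Spec.Int) (hPi : Spec.Pi) (e : Fin (k+1) → Eu N) (f : Eu N)
    (he : Orthonormal ℝ e) (hf : ‖f‖ = 1) (hef : ∀ i, ⟪e i, f⟫_ℝ = 0) (β R τ : ℝ)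
    (hβ : 0 < β) (hR : 0 ≤ R) (hτ : 0 < τ) (K K' : ℝ → ℝ)
    (hK : ∀ x, 0 < x → HasDerivAt K (K' x) x) (hKc : ContinuousOn K' (Set.Ioi 0))
    (hK' : ∀ x, β ≤ x → (√((x ^ 2 - β ^ 2) / x ^ 2)) ^ k ≤ K' x) (hK0 : 0 ≤ K β) :
    ex (fun x => max 0 (⟪R • e 0 + τ • f, x⟫_ℝ - β * nrm e x)) ≤ K (sg β (R ^ 2 + τ ^ 2) (τ ^ 2)) := by
  set q := R ^ 2 + τ ^ 2 with hq
  have hq0 : 0 ≤ q := by positivity
  set y : Eu N := R • e 0 + τ • f with hy
  set P := stdGaussian (Eu N) with hP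
  have hX : Integrable (fun x => ⟪y, x⟫_ℝ) P := inner_integrable hInt y
  have hY : Integrable (fun x => β * nrm e x) P := (nrm_integrable hInt e he).const_mul β
  have hXm : Measurable (fun x : Eu N => ⟪y, x⟫_ℝ) := by fun_prop
  have hYm : Measurable (fun x : Eu N => β * nrm e x) := ((nrm_cont e).measurable).const_mul β
  have hY0 : ∀ x : Eu N, 0 ≤ β * nrm e x := fun x => mul_nonneg hβ.le (nrm_nonneg e x)
  have hpi : 0 < √(2 * Real.pi) := by positivity
  set g : ℝ → ℝ := fun s => √(2 * Real.pi) * ∫ x, max 0 (s * ⟪y, x⟫_ℝ - β * nrm e x) ∂P with hg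
  set B : ℝ → ℝ := fun s => K (√(Ss β q τ s)) with hB
  set B' : ℝ → ℝ := fun s => K' (√(Ss β q τ s)) * (Ss' β q τ s / (2 * √(Ss β q τ s))) with hB'
  have hSpos : ∀ s, 0 < Ss β q τ s := fun s => Ss_pos hβ hτ hq0
  have hBd : ∀ s, HasDerivAt B (B' s) s := by
    intro s
    have h1 := (hasDeriv_Ss hβ hτ (q := q) s).sqrt (hSpos s).ne'
    exact (hK _ (Real.sqrt_pos.2 (hSpos s))).comp s h1
  have hB'c : Continuous B' := by
    apply Continuous.mul
    · have : Continuous fun s => √(Ss β q τ s) := cont_Ss.sqrt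
      exact hKc.comp_continuous this (fun s => Real.sqrt_pos.2 (hSpos s))
    · apply (cont_Ss' hβ hτ).div (continuous_const.mul cont_Ss.sqrt)
      intro s
      have := Real.sqrt_pos.2 (hSpos s)
      exact (mul_pos two_pos this).ne'
  -- slopes
  have hslope : ∀ s z : ℝ, 0 ≤ s → s < z → slope g s z ≤ B' z := by
    intro s z hs hsz
    have hz : 0 < z := lt_of_le_of_lt hs hsz
    obtain ⟨m, u, r, κ, c, d, hdat, hder⟩ := dat_at β R τ z hβ hR hτ hz
    have h1 := slope_bd (μ := P) _ _ hX hY hXm hYm hsz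
    have h2 := main_int' hPi e f he hf hef hdat
    have hm := hdat.hm
    have hr := hdat.hr
    have hS := hSpos z
    have hsS : 0 < √(Ss β q τ z) := Real.sqrt_pos.2 hS
    have hyz : ∀ x : Eu N, ⟪(z * R) • e 0 + (z * τ) • f, x⟫_ℝ = z * ⟪y, x⟫_ℝ := by
      intro x
      rw [hy, inner_add_left, inner_add_left, inner_smul_left, inner_smul_left, inner_smul_left,
        inner_smul_left]
      simp; ring
    have h3 : √(2 * Real.pi) * ∫ x, ({x : Eu N | β * nrm e x < z * ⟪y, x⟫_ℝ}).indicator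
        (fun x => ⟪y, x⟫_ℝ) x ∂P = 1 / z * (√(Ss β q τ z) * m / r * (√(m / Ss β q τ z)) ^ k) := by
      rw [← hq] at h2
      rw [← h2, hP]
      simp_rw [hyz]
      have hpt : ∀ x : Eu N, ({x : Eu N | β * nrm e x < z * ⟪y, x⟫_ℝ}).indicator
        (fun x => ⟪y, x⟫_ℝ) x = 1 / z * ({x : Eu N | β * nrm e x < z * ⟪y, x⟫_ℝ}).indicator
        (fun x => z * ⟪y, x⟫_ℝ) x := by
        intro x
        by_cases hx : x ∈ {x : Eu N | β * nrm e x < z * ⟪y, x⟫_ℝ}
        · rw [Set.indicator_of_mem hx, Set.indicator_of_mem hx]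
          field_simp
        · rw [Set.indicator_of_notMem hx, Set.indicator_of_notMem hx]
          ring
      simp_rw [hpt]
      rw [integral_const_mul]
      ring
    have h4 : slope g s z ≤ √(2 * Real.pi) * ∫ x, ({x : Eu N | β * nrm e x < z * ⟪y, x⟫_ℝ}).indicator
        (fun x => ⟪y, x⟫_ℝ) x ∂P := by
      rw [slope_def_field, div_le_iff₀ (by linarith)]
      simp only [hg]
      rw [← mul_sub]
      calc _ ≤ √(2 * Real.pi) * ((z - s) * ∫ x, ({x : Eu N | β * nrm e x < z * ⟪y, x⟫_ℝ}).indicator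
        (fun x => ⟪y, x⟫_ℝ) x ∂P) := mul_le_mul_of_nonneg_left h1 hpi.le
        _ = _ := by ring
    refine h4.trans ?_
    rw [h3]
    have h5 : Ss' β q τ z / (2 * √(Ss β q τ z)) = 1 / z * (√(Ss β q τ z) * m / r) := by
      have h6 : √(Ss β q τ z) ^ 2 = Ss β q τ z := Real.sq_sqrt hS.le
      rw [← hq] at hder
      field_simp
      rw [h6]
      linarith
    simp only [hB']
    rw [h5]
    have h7 : (√(m / Ss β q τ z)) ^ k ≤ K' (√(Ss β q τ z)) := by
      have h8 := hdat.hS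
      rw [← hq] at h8
      have := hK' (√(Ss β q τ z)) (by
        apply Real.le_sqrt_of_sq_le
        linarith)
      rw [Real.sq_sqrt hS.le] at this
      rwa [show Ss β q τ z - β ^ 2 = m by linarith] at this
    calc 1 / z * (√(Ss β q τ z) * m / r * (√(m / Ss β q τ z)) ^ k)
        = (√(m / Ss β q τ z)) ^ k * (1 / z * (√(Ss β q τ z) * m / r)) := by ring
      _ ≤ K' (√(Ss β q τ z)) * (1 / z * (√(Ss β q τ z) * m / r)) :=
          mul_le_mul_of_nonneg_right h7 (by positivity)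
  -- continuity of g
  have hgc : ContinuousOn g (Set.Icc 0 1) := by
    apply ContinuousOn.mul continuousOn_const
    apply continuousOn_of_dominated (bound := fun x => |⟪y, x⟫_ℝ| + |β * nrm e x|)
    · intro s _
      exact (measurable_const.max ((hXm.const_mul s).sub hYm)).aestronglyMeasurable
    · intro s hs
      filter_upwards with x
      rw [Real.norm_eq_abs, abs_of_nonneg (le_max_left _ _)]
      apply max_le (by positivity)
      have h1 : s * ⟪y, x⟫_ℝ ≤ |⟪y, x⟫_ℝ| := by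
        have h2 := le_abs_self ⟪y, x⟫_ℝ
        have h3 := abs_nonneg ⟪y, x⟫_ℝ
        nlinarith [hs.1, hs.2]
      have h2 := hY0 x
      have h3 := abs_nonneg (β * nrm e x)
      linarith
    · exact hX.abs.add hY.abs
    · filter_upwards with x
      fun_prop
  have hmain := image_le_of_liminf_slope_right_le_deriv_boundary (f := g) (a := 0) (b := 1) hgc
    (B := B) (B' := B') ?_ ?_ ?_ ?_ (x := 1) ⟨by norm_num, le_refl _⟩
  · have e1 : g 1 = ex (fun x => max 0 (⟪y, x⟫_ℝ - β * nrm e x)) := by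
      simp only [hg, ex, one_mul]
      rfl
    have e2 : B 1 = K (sg β q (τ ^ 2)) := by
      simp only [hB, Ss, Dd, sg, one_pow, one_mul]
    rw [← e1, ← e2]
    exact hmain
  · -- g 0 ≤ B 0
    have e1 : g 0 = 0 := by
      simp only [hg, zero_mul, zero_sub]
      have : ∀ x : Eu N, max 0 (-(β * nrm e x)) = 0 := fun x => max_eq_left (by linarith [hY0 x])
      simp_rw [this]
      simp
    have e2 : B 0 = K β := by
      simp only [hB, Ss, Dd]
      congr 1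
      rw [show ((0:ℝ) ^ 2 * q - β ^ 2) ^ 2 + 4 * β ^ 2 * (0 ^ 2 * τ ^ 2) = (β ^ 2) ^ 2 by ring,
        Real.sqrt_sq (by positivity)]
      rw [show (β ^ 2 + 0 ^ 2 * q + β ^ 2) / 2 = β ^ 2 by ring, Real.sqrt_sq hβ.le]
    rw [e1, e2]
    exact hK0
  · exact fun s _ => (hBd s).continuousAt.continuousWithinAt
  · exact fun s _ => (hBd s).hasDerivWithinAt
  · intro s hs r hr
    have h1 : Filter.Tendsto B' (nhdsWithin s (Set.Ioi s)) (nhds (B' s)) :=
      hB'c.continuousAt.continuousWithinAt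
    have h2 : ∀ᶠ z in nhdsWithin s (Set.Ioi s), B' z < r := h1.eventually_lt_const hr
    have h3 : ∀ᶠ z in nhdsWithin s (Set.Ioi s), slope g s z < r := by
      filter_upwards [h2, self_mem_nhdsWithin] with z hz1 hz2
      exact lt_of_le_of_lt (hslope s z hs.1 hz2) hz1
    exact h3.frequently

end
end Crest.Agent.H28PrG4
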