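import Mathlib
import Crest.Agent.H28PrG4
set_option autoImplicit false
open MeasureTheory ProbabilityTheory
open scoped InnerProductSpace

/-! the general Gaussian lemma, used for S0334 -/

namespace Crest.Agent.H28PrG5
noncomputable section
open Crest.Agent.H18Pr Crest.Agent.H28PrG4

/-- the norm of the projection only depends on the span -/
lemma nrm_basis {N n : ℕ} (S : Submodule ℝ (Eu N)) (b : OrthonormalBasis (Fin n) ℝ S) (x : Eu N) :
    nrm (fun i => (b i : Eu N)) x = ‖S.orthogonalProjectionOnto x‖ := by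
  unfold nrm
  have h1 : ∀ i, ⟪(b i : Eu N), x⟫_ℝ = ⟪b i, S.orthogonalProjectionOnto x⟫_ℝ := by
    intro i
    have := Submodule.inner_orthogonalProjectionOnto_eq_of_mem_left (K := S) (b i) x
    exact this.symm
  simp_rw [h1]
  have h2 := b.sum_sq_norm_inner_right (S.orthogonalProjectionOnto x)
  simp only [Real.norm_eq_abs, sq_abs] at h2
  rw [h2, Real.sqrt_sq (norm_nonneg _)]

/-- rotated frame -/
lemma exists_frame {N k : ℕ} (e : Fin (k+1) → Eu N) (he : Orthonormal ℝ e) (y : Eu N) :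
    ∃ e' : Fin (k+1) → Eu N, Orthonormal ℝ e' ∧ (∀ x, nrm e' x = nrm e x) ∧
      ⟪e' 0, y⟫_ℝ = nrm e y ∧ ∀ i : Fin k, ⟪e' i.succ, y⟫_ℝ = 0 := by
  set S : Submodule ℝ (Eu N) := Submodule.span ℝ (Set.range e) with hS
  have hcard : Module.finrank ℝ S = Fintype.card (Fin (k+1)) := by
    rw [hS, finrank_span_eq_card he.linearIndependent]
  -- e as a basis of S
  set e0 : Fin (k+1) → S := fun i => ⟨e i, Submodule.subset_span ⟨i, rfl⟩⟩ with he0
  have he0o : Orthonormal ℝ e0 := by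
    rw [orthonormal_iff_ite] at he ⊢
    intro i j
    exact he i j
  obtain ⟨b0, hb0⟩ := Orthonormal.exists_orthonormalBasis_extension_of_card_eq hcard
    (v := e0) (s := Set.univ) (by
      exact he0o.comp (fun i : (Set.univ : Set (Fin (k+1))) => (i : Fin (k+1))) Subtype.val_injective)
  have hb0' : ∀ i, (b0 i : Eu N) = e i := fun i => by rw [hb0 i (Set.mem_univ _)]
  have hn0 : ∀ x, nrm e x = ‖S.orthogonalProjectionOnto x‖ := by
    intro x
    rw [← nrm_basis S b0 x]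
    congr 1
    ext1 i
    rw [hb0']
  set p := S.orthogonalProjectionOnto y with hp
  by_cases hp0 : p = 0
  · refine ⟨e, he, fun x => rfl, ?_, ?_⟩
    · have h1 : nrm e y = 0 := by rw [hn0, ← hp, hp0, norm_zero]
      have h2 : ∀ i, ⟪e i, y⟫_ℝ = 0 := by
        intro i
        have := Submodule.inner_orthogonalProjectionOnto_eq_of_mem_left (K := S) (e0 i) y
        rw [← hp, hp0] at this
        simpa using this.symm
      rw [h1, h2]
    · intro i
      have := Submodule.inner_orthogonalProjectionOnto_eq_of_mem_left (K := S) (e0 i.succ) y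
      rw [← hp, hp0] at this
      simpa using this.symm
  · have hpn : 0 < ‖p‖ := norm_pos_iff.2 hp0
    obtain ⟨b, hb⟩ := Orthonormal.exists_orthonormalBasis_extension_of_card_eq hcard
      (v := fun _ => (‖p‖⁻¹ : ℝ) • p) (s := {0}) (by
        rw [orthonormal_iff_ite]
        rintro ⟨i, hi⟩ ⟨j, hj⟩
        simp only [Set.mem_singleton_iff] at hi hj
        subst hi; subst hj
        simp only [if_true]
        show ⟪(‖p‖⁻¹ : ℝ) • p, (‖p‖⁻¹ : ℝ) • p⟫_ℝ = 1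
        rw [real_inner_self_eq_norm_sq, norm_smul, norm_inv, norm_norm]
        field_simp)
    have hb0 : b 0 = (‖p‖⁻¹ : ℝ) • p := hb 0 rfl
    have hin : ∀ i, ⟪(b i : Eu N), y⟫_ℝ = ⟪b i, p⟫_ℝ := by
      intro i
      have := Submodule.inner_orthogonalProjectionOnto_eq_of_mem_left (K := S) (b i) y
      exact this.symm
    have hinv : ∀ a b : S, ⟪a, b⟫_ℝ = ⟪(a : Eu N), (b : Eu N)⟫_ℝ := fun a b => rfl
    have hpp : ⟪(p : Eu N), (p : Eu N)⟫_ℝ = ‖p‖ ^ 2 := real_inner_self_eq_norm_sq (p : Eu N)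
    refine ⟨fun i => (b i : Eu N), ?_, ?_, ?_, ?_⟩
    · have := b.orthonormal
      rw [orthonormal_iff_ite] at this ⊢
      intro i j
      exact this i j
    · intro x
      rw [nrm_basis, hn0]
    · rw [hin, hn0, ← hp, hb0, hinv]
      show ⟪(‖p‖⁻¹ : ℝ) • (p : Eu N), (p : Eu N)⟫_ℝ = ‖p‖
      rw [inner_smul_left, hpp]
      simp only [conj_trivial]
      field_simp
    · intro i
      rw [hin]
      have h1 : p = ‖p‖ • b 0 := by rw [hb0, smul_smul, mul_inv_cancel₀ hpn.ne', one_smul]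
      have h2 := orthonormal_iff_ite.1 b.orthonormal i.succ 0
      rw [if_neg (Fin.succ_ne_zero i), hinv] at h2
      rw [hinv, h1]
      show ⟪(b i.succ : Eu N), ‖p‖ • (b 0 : Eu N)⟫_ℝ = 0
      rw [inner_smul_right, h2, mul_zero]

/-- model vectors -/
def me (k : ℕ) (i : Fin (k+1)) : Eu (k+2) := EuclideanSpace.single i.castSucc 1
def mf (k : ℕ) : Eu (k+2) := EuclideanSpace.single (Fin.last (k+1)) 1

lemma me_orth (k : ℕ) : Orthonormal ℝ (me k) := by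
  rw [orthonormal_iff_ite]
  intro i j
  simp [me, EuclideanSpace.inner_single_left]

lemma mf_norm (k : ℕ) : ‖mf k‖ = 1 := by simp [mf]

lemma me_mf (k : ℕ) (i : Fin (k+1)) : ⟪me k i, mf k⟫_ℝ = 0 := by
  simp [me, mf, EuclideanSpace.inner_single_left]

/-- the model functional -/
def Gm (k : ℕ) (β R τ : ℝ) : ℝ :=
  ex (fun x => max 0 (⟪R • me k 0 + τ • mf k, x⟫_ℝ - β * nrm (me k) x))

lemma to_model {N k : ℕ} (hLaw : Spec.Law) (e : Fin (k+1) → Eu N) (he : Orthonormal ℝ e) (y : Eu N)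
    (β τ : ℝ) (hτ : τ ^ 2 = ‖y‖ ^ 2 - nrm e y ^ 2) :
    ex (fun x => max 0 (⟪y, x⟫_ℝ - β * nrm e x)) = Gm k β (nrm e y) τ := by
  obtain ⟨e', he', hn, h0, hs⟩ := exists_frame e he y
  set R := nrm e y with hR
  set F : (Option (Fin (k+1)) → ℝ) → ℝ := fun a => max 0 (a none - β * √(∑ i, a (some i) ^ 2)) with hF
  have hFc : Continuous F := by
    simp only [hF]
    fun_prop
  have hL := hLaw N (k+2) (Option (Fin (k+1))) inferInstance
    (fun o => o.elim y e') (fun o => o.elim (R • me k 0 + τ • mf k) (me k)) ?_ F hFc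
  · unfold ex Gm ex
    congr 1
    calc ∫ x, max 0 (⟪y, x⟫_ℝ - β * nrm e x) ∂stdGaussian (Eu N)
        = ∫ x, F (fun i => ⟪Option.elim i y e', x⟫_ℝ) ∂stdGaussian (Eu N) := by
          apply integral_congr_ae
          filter_upwards with x
          rw [← hn x]
          rfl
      _ = _ := hL
  · have hm := orthonormal_iff_ite.1 (me_orth k)
    have he'' := orthonormal_iff_ite.1 he'
    have hyi : ∀ i : Fin (k+1), ⟪e' i, y⟫_ℝ = ⟪me k i, R • me k 0 + τ • mf k⟫_ℝ := by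
      intro i
      rw [inner_add_right, inner_smul_right, inner_smul_right, me_mf, hm]
      refine Fin.cases ?_ (fun i => ?_) i
      · rw [h0]; simp
      · rw [hs, if_neg (Fin.succ_ne_zero i)]; simp
    intro i j
    cases i with
    | none =>
      cases j with
      | none =>
        show ⟪y, y⟫_ℝ = ⟪R • me k 0 + τ • mf k, R • me k 0 + τ • mf k⟫_ℝ
        have h5 : ⟪mf k, me k 0⟫_ℝ = 0 := by rw [real_inner_comm, me_mf]
        have h6 : ⟪mf k, mf k⟫_ℝ = 1 := by rw [real_inner_self_eq_norm_sq, mf_norm]; norm_num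
        have h7 : ⟪me k 0, me k 0⟫_ℝ = 1 := by rw [hm]; simp
        rw [inner_add_right, inner_add_left, inner_add_left, inner_smul_right, inner_smul_right,
          inner_smul_left, inner_smul_left, inner_smul_right, inner_smul_right, inner_smul_left,
          inner_smul_left, real_inner_self_eq_norm_sq,
          h5, h6, h7, me_mf]
        simp only [conj_trivial]
        linarith
      | some j =>
        show ⟪y, e' j⟫_ℝ = ⟪R • me k 0 + τ • mf k, me k j⟫_ℝ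
        rw [real_inner_comm, hyi j, real_inner_comm]
    | some i =>
      cases j with
      | none => exact hyi i
      | some j =>
        show ⟪e' i, e' j⟫_ℝ = ⟪me k i, me k j⟫_ℝ
        rw [hm, he'']

lemma gain_integrable {N n : ℕ} (hInt : Spec.Int) (e : Fin n → Eu N) (he : Orthonormal ℝ e) (y : Eu N)
    (β : ℝ) : Integrable (fun x => max 0 (⟪y, x⟫_ℝ - β * nrm e x)) (stdGaussian (Eu N)) := by
  have h1 : Integrable (fun x => ⟪y, x⟫_ℝ - β * nrm e x) (stdGaussian (Eu N)) :=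
    (inner_integrable hInt y).sub ((nrm_integrable hInt e he).const_mul β)
  have := h1.pos_part
  simpa [max_comm] using this

lemma Gm_zero_le {k : ℕ} (hInt : Spec.Int) (β R ε : ℝ) (hε : 0 < ε) :
    Gm k β R 0 ≤ Gm k β R ε + ε * ex (fun x : Eu (k+2) => |⟪mf k, x⟫_ℝ|) := by
  have hab : Integrable (fun x : Eu (k+2) => |⟪mf k, x⟫_ℝ|) (stdGaussian (Eu (k+2))) :=
    (inner_integrable hInt (mf k)).abs
  have h1 := gain_integrable hInt (me k) (me_orth k) (R • me k 0 + ε • mf k) β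
  have h0 := gain_integrable hInt (me k) (me_orth k) (R • me k 0 + (0:ℝ) • mf k) β
  unfold Gm ex
  have : √(2 * Real.pi) * ∫ x, max 0 (⟪R • me k 0 + ε • mf k, x⟫_ℝ - β * nrm (me k) x) ∂stdGaussian (Eu (k+2))
      + ε * (√(2 * Real.pi) * ∫ x : Eu (k+2), |⟪mf k, x⟫_ℝ| ∂stdGaussian (Eu (k+2)))
      = √(2 * Real.pi) * ∫ x, (max 0 (⟪R • me k 0 + ε • mf k, x⟫_ℝ - β * nrm (me k) x)
        + ε * |⟪mf k, x⟫_ℝ|) ∂stdGaussian (Eu (k+2)) := by
    rw [integral_add h1 (hab.const_mul ε), integral_const_mul]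
    ring
  rw [this]
  apply mul_le_mul_of_nonneg_left _ (Real.sqrt_nonneg _)
  apply integral_mono h0 (h1.add (hab.const_mul ε))
  intro x
  show max 0 (⟪R • me k 0 + (0:ℝ) • mf k, x⟫_ℝ - β * nrm (me k) x) ≤
    max 0 (⟪R • me k 0 + ε • mf k, x⟫_ℝ - β * nrm (me k) x) + ε * |⟪mf k, x⟫_ℝ|
  have e1 : ⟪R • me k 0 + ε • mf k, x⟫_ℝ = ⟪R • me k 0 + (0:ℝ) • mf k, x⟫_ℝ + ε * ⟪mf k, x⟫_ℝ := by
    simp only [inner_add_left, inner_smul_left]
    simp
  rw [e1]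
  have h2 := neg_abs_le ⟪mf k, x⟫_ℝ
  have h3 := abs_nonneg ⟪mf k, x⟫_ℝ
  have h4 : 0 ≤ ε * |⟪mf k, x⟫_ℝ| := by positivity
  have h5 : -(ε * |⟪mf k, x⟫_ℝ|) ≤ ε * ⟪mf k, x⟫_ℝ := by nlinarith
  apply max_le
  · have := le_max_left 0 (⟪R • me k 0 + (0:ℝ) • mf k, x⟫_ℝ + ε * ⟪mf k, x⟫_ℝ - β * nrm (me k) x)
    linarith
  · have := le_max_right 0 (⟪R • me k 0 + (0:ℝ) • mf k, x⟫_ℝ + ε * ⟪mf k, x⟫_ℝ - β * nrm (me k) x)
    linarith

lemma le_sg {β q w : ℝ} (hβ : 0 < β) (hw : 0 ≤ w) : β ≤ sg β q w := by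
  unfold sg
  apply Real.le_sqrt_of_sq_le
  have h1 : |q - β ^ 2| ≤ √((q - β ^ 2) ^ 2 + 4 * β ^ 2 * w) := by
    apply Real.le_sqrt_of_sq_le
    rw [sq_abs]
    have : 0 ≤ 4 * β ^ 2 * w := by positivity
    linarith
  have h2 := neg_abs_le (q - β ^ 2)
  linarith

lemma sg_mono {β q w w' : ℝ} (h : w ≤ w') : sg β q w ≤ sg β q w' := by
  unfold sg
  apply Real.sqrt_le_sqrt
  have : √((q - β ^ 2) ^ 2 + 4 * β ^ 2 * w) ≤ √((q - β ^ 2) ^ 2 + 4 * β ^ 2 * w') := by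
    apply Real.sqrt_le_sqrt
    nlinarith [sq_nonneg β]
  linarith

/-- general form -/
theorem gen {N k : ℕ} (hInt : Spec.Int) (hPi : Spec.Pi) (hLaw : Spec.Law) (e : Fin (k+1) → Eu N)
    (he : Orthonormal ℝ e) (y : Eu N) (β w : ℝ)
    (hβ : 0 < β) (hw : ‖y‖ ^ 2 - nrm e y ^ 2 ≤ w) (K K' : ℝ → ℝ)
    (hK : ∀ x, 0 < x → HasDerivAt K (K' x) x) (hKc : ContinuousOn K' (Set.Ioi 0))
    (hK' : ∀ x, β ≤ x → (√((x ^ 2 - β ^ 2) / x ^ 2)) ^ k ≤ K' x) (hK0 : 0 ≤ K β) :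
    ex (fun x => max 0 (⟪y, x⟫_ℝ - β * nrm e x)) ≤ K (sg β (‖y‖ ^ 2) w) := by
  have hKm : MonotoneOn K (Set.Ici β) := by
    apply monotoneOn_of_deriv_nonneg (convex_Ici β)
    · intro x hx
      exact (hK x (lt_of_lt_of_le hβ hx)).continuousAt.continuousWithinAt
    · intro x hx
      rw [interior_Ici] at hx
      exact (hK x (lt_trans hβ hx)).differentiableAt.differentiableWithinAt
    · intro x hx
      rw [interior_Ici] at hx
      rw [(hK x (lt_trans hβ hx)).deriv]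
      exact le_trans (by positivity) (hK' x (le_of_lt hx))
  have hn : nrm e y ^ 2 ≤ ‖y‖ ^ 2 := pow_le_pow_left₀ (nrm_nonneg e y) (nrm_le e he y) 2
  set τ := √(‖y‖ ^ 2 - nrm e y ^ 2) with hτ
  have hτ2 : τ ^ 2 = ‖y‖ ^ 2 - nrm e y ^ 2 := Real.sq_sqrt (by linarith)
  have hτ0 : 0 ≤ τ := Real.sqrt_nonneg _
  rw [to_model hLaw e he y β τ hτ2]
  set R := nrm e y with hR
  have hR0 : 0 ≤ R := nrm_nonneg e y
  have hq : R ^ 2 + τ ^ 2 = ‖y‖ ^ 2 := by rw [hτ2]; ring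
  have hcore : ∀ τ, 0 < τ → Gm k β R τ ≤ K (sg β (R ^ 2 + τ ^ 2) (τ ^ 2)) := fun τ hτ =>
    core hInt hPi (me k) (mf k) (me_orth k) (mf_norm k) (me_mf k) β R τ hβ hR0 hτ K K' hK hKc hK' hK0
  have hmain : Gm k β R τ ≤ K (sg β (R ^ 2 + τ ^ 2) (τ ^ 2)) := by
    rcases hτ0.lt_or_eq with h | h
    · exact hcore τ h
    · rw [← h]
      set C := ex (fun x : Eu (k+2) => |⟪mf k, x⟫_ℝ|) with hC
      have h1 : ∀ ε, 0 < ε → Gm k β R 0 ≤ K (sg β (R ^ 2 + ε ^ 2) (ε ^ 2)) + ε * C := fun ε hε =>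
        (Gm_zero_le hInt β R ε hε).trans (by linarith [hcore ε hε])
      have h2 : Filter.Tendsto (fun ε : ℝ => K (sg β (R ^ 2 + ε ^ 2) (ε ^ 2)) + ε * C)
          (nhdsWithin 0 (Set.Ioi 0)) (nhds (K (sg β (R ^ 2 + 0 ^ 2) (0 ^ 2)) + 0 * C)) := by
        have hsgc : Continuous fun ε : ℝ => sg β (R ^ 2 + ε ^ 2) (ε ^ 2) := by
          unfold sg
          fun_prop
        have h3 : ContinuousAt K (sg β (R ^ 2 + 0 ^ 2) (0 ^ 2)) :=
          (hK _ (lt_of_lt_of_le hβ (le_sg hβ (by positivity)))).continuousAt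
        have h4 : ContinuousAt (fun ε : ℝ => K (sg β (R ^ 2 + ε ^ 2) (ε ^ 2))) 0 :=
          ContinuousAt.comp (f := fun ε : ℝ => sg β (R ^ 2 + ε ^ 2) (ε ^ 2)) h3 hsgc.continuousAt
        have h5 : ContinuousAt (fun ε : ℝ => K (sg β (R ^ 2 + ε ^ 2) (ε ^ 2)) + ε * C) 0 :=
          h4.add (by fun_prop)
        exact h5.continuousWithinAt.tendsto
      have h6 : Gm k β R 0 ≤ K (sg β (R ^ 2 + 0 ^ 2) (0 ^ 2)) + 0 * C := by
        apply ge_of_tendsto h2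
        filter_upwards [self_mem_nhdsWithin] with ε hε
        exact h1 ε hε
      linarith
  rw [hq] at hmain
  refine hmain.trans (hKm (le_sg hβ (sq_nonneg _)) (le_sg hβ ?_) (sg_mono ?_))
  · linarith
  · rw [hτ2]; exact hw

/-! ### the two kernels -/

lemma K3_deriv (β x : ℝ) (hx : 0 < x) : HasDerivAt (K3 β) (1 - β ^ 2 / x ^ 2) x := by
  have h1 : HasDerivAt (fun s : ℝ => (s - β) ^ 2) (((2:ℕ):ℝ) * (x - β) ^ (2-1) * 1) x :=
    ((hasDerivAt_id x).sub_const β).pow 2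
  have h2 := h1.div (hasDerivAt_id x) hx.ne'
  have h3 : (((2:ℕ):ℝ) * (x - β) ^ (2-1) * 1 * id x - (x - β) ^ 2 * 1) / id x ^ 2
      = 1 - β ^ 2 / x ^ 2 := by
    simp only [id]
    norm_num
    field_simp
    ring
  rw [h3] at h2
  exact h2

lemma K4_deriv (β x : ℝ) (hx : 0 < x) : HasDerivAt (K4 β)
    (1 - 1.5 * (β ^ 2 / x ^ 2) + 0.375 * (β ^ 2 / x ^ 2) ^ 2 + 0.125 * (β ^ 2 / x ^ 2) ^ 3) x := by
  have e1 : K4 β = fun s => s - 2.35 * β + 1.5 * β ^ 2 * s⁻¹ - 0.125 * β ^ 4 * (s ^ 3)⁻¹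
      - 0.025 * β ^ 6 * (s ^ 5)⁻¹ := by
    ext s
    simp only [K4, div_eq_mul_inv]
  rw [e1]
  have h0 : HasDerivAt (fun s : ℝ => s - 2.35 * β) 1 x := (hasDerivAt_id x).sub_const _
  have h1 : HasDerivAt (fun s : ℝ => 1.5 * β ^ 2 * s⁻¹) (1.5 * β ^ 2 * (-(x ^ 2)⁻¹)) x :=
    (hasDerivAt_inv hx.ne').const_mul _
  have h3 : HasDerivAt (fun s : ℝ => 0.125 * β ^ 4 * (s ^ 3)⁻¹)
      (0.125 * β ^ 4 * (-(((3:ℕ):ℝ) * x ^ (3-1)) / (x ^ 3) ^ 2)) x :=
    ((hasDerivAt_pow 3 x).inv (by positivity)).const_mul _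
  have h5 : HasDerivAt (fun s : ℝ => 0.025 * β ^ 6 * (s ^ 5)⁻¹)
      (0.025 * β ^ 6 * (-(((5:ℕ):ℝ) * x ^ (5-1)) / (x ^ 5) ^ 2)) x :=
    ((hasDerivAt_pow 5 x).inv (by positivity)).const_mul _
  have h := ((h0.add h1).sub h3).sub h5
  have e2 : 1 + 1.5 * β ^ 2 * (-(x ^ 2)⁻¹) - 0.125 * β ^ 4 * (-(((3:ℕ):ℝ) * x ^ (3-1)) / (x ^ 3) ^ 2)
      - 0.025 * β ^ 6 * (-(((5:ℕ):ℝ) * x ^ (5-1)) / (x ^ 5) ^ 2)
      = 1 - 1.5 * (β ^ 2 / x ^ 2) + 0.375 * (β ^ 2 / x ^ 2) ^ 2 + 0.125 * (β ^ 2 / x ^ 2) ^ 3 := by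
    norm_num
    field_simp
    ring
  rw [e2] at h
  exact h

lemma cont_quot (β : ℝ) : ContinuousOn (fun x : ℝ => β ^ 2 / x ^ 2) (Set.Ioi 0) := by
  apply ContinuousOn.div continuousOn_const (by fun_prop)
  intro x hx
  have : (0:ℝ) < x := hx
  positivity

theorem gl3 (hInt : Spec.Int) (hPi : Spec.Pi) (hLaw : Spec.Law) : Spec.GL3 := by
  intro N e he y β w hβ hw
  refine gen hInt hPi hLaw e he y β w hβ hw (K3 β) (fun x => 1 - β ^ 2 / x ^ 2)
    (fun x hx => K3_deriv β x hx) (continuousOn_const.sub (cont_quot β)) ?_ ?_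
  · intro x hx
    have hx0 : 0 < x := lt_of_lt_of_le hβ hx
    rw [Real.sq_sqrt]
    · apply le_of_eq; field_simp
    · apply div_nonneg _ (by positivity)
      nlinarith
  · simp [K3]

theorem gl4 (hInt : Spec.Int) (hPi : Spec.Pi) (hLaw : Spec.Law) : Spec.GL4 := by
  intro N e he y β w hβ hw
  refine gen hInt hPi hLaw e he y β w hβ hw (K4 β)
    (fun x => 1 - 1.5 * (β ^ 2 / x ^ 2) + 0.375 * (β ^ 2 / x ^ 2) ^ 2 + 0.125 * (β ^ 2 / x ^ 2) ^ 3)
    (fun x hx => K4_deriv β x hx) ?_ ?_ ?_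
  · have h := cont_quot β
    exact ((continuousOn_const.sub (continuousOn_const.mul h)).add
      (continuousOn_const.mul (h.pow 2))).add (continuousOn_const.mul (h.pow 3))
  · intro x hx
    have hx0 : 0 < x := lt_of_lt_of_le hβ hx
    have e1 : (x ^ 2 - β ^ 2) / x ^ 2 = 1 - β ^ 2 / x ^ 2 := by field_simp
    rw [e1]
    set t := β ^ 2 / x ^ 2 with ht
    have ht0 : 0 ≤ t := by positivity
    have ht1 : t ≤ 1 := by
      rw [ht, div_le_one (by positivity)]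
      nlinarith
    have h1 : √(1 - t) ≤ 1 - t / 2 - t ^ 2 / 8 := by
      apply Real.sqrt_le_iff.2
      constructor
      · nlinarith
      · nlinarith [pow_nonneg ht0 3, pow_nonneg ht0 4]
    have h2 : √(1 - t) ^ 2 = 1 - t := Real.sq_sqrt (by linarith)
    calc √(1 - t) ^ 3 = √(1 - t) ^ 2 * √(1 - t) := by ring
      _ = (1 - t) * √(1 - t) := by rw [h2]
      _ ≤ (1 - t) * (1 - t / 2 - t ^ 2 / 8) := mul_le_mul_of_nonneg_left h1 (by linarith)
      _ = 1 - 1.5 * t + 0.375 * t ^ 2 + 0.125 * t ^ 3 := by ring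
  · simp only [K4]
    apply le_of_eq
    field_simp
    ring

end
end Crest.Agent.H28PrG5
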