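import Mathlib
import Crest.Agent.H18PrSpec
set_option autoImplicit false
open MeasureTheory ProbabilityTheory
open scoped InnerProductSpace

/-! Module M6a of S0334: ball majorants `Spec.B3b`, `Spec.B4a`, `Spec.B4b`. -/

namespace Crest.Agent.H2Pr
open Crest.Agent.H18Pr
noncomputable section

lemma exists_on {N n : ℕ} (hn : n ≤ N) (f : Fin n → Eu N) :
    ∃ e : Fin n → Eu N, Orthonormal ℝ e ∧ ∀ i, f i = ∑ k, ⟪e k, f i⟫_ℝ • e k := by
  classical
  set F : Fin N → Eu N := fun j => if h : j.val < n then f ⟨j, h⟩ else 0 with hF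
  have hfr : Module.finrank ℝ (Eu N) = Fintype.card (Fin N) := by simp
  set b := InnerProductSpace.gramSchmidtOrthonormalBasis hfr F with hb
  refine ⟨fun k => b (Fin.castLE hn k), b.orthonormal.comp _ (Fin.castLE_injective hn), fun i => ?_⟩
  have h1 : ∑ j, ⟪b j, f i⟫_ℝ • b j = f i := b.sum_repr' (f i)
  have hFi : F (Fin.castLE hn i) = f i := by
    simp [hF]
  have h2 : ∑ j, ⟪b j, f i⟫_ℝ • b j = ∑ j ∈ Finset.univ.map (Fin.castLEEmb hn), ⟪b j, f i⟫_ℝ • b j := by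
    symm
    apply Finset.sum_subset (Finset.subset_univ _)
    intro j _ hj
    have hlt : Fin.castLE hn i < j := by
      by_contra hcon
      apply hj
      have hjn : j.val < n := by
        have : j.val ≤ i.val := by simpa [Fin.lt_def] using hcon
        exact lt_of_le_of_lt this i.isLt
      simp only [Finset.mem_map, Finset.mem_univ, true_and]
      exact ⟨⟨j.val, hjn⟩, by ext; simp⟩
    have := InnerProductSpace.gramSchmidtOrthonormalBasis_inv_triangular hfr F hlt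
    rw [hFi] at this
    rw [← hb] at this
    rw [this, zero_smul]
  rw [Finset.sum_map] at h2
  exact h1.symm.trans h2

/-- the part of `x` orthogonal to the span of `e` -/
def R {N n : ℕ} (e : Fin n → Eu N) (x : Eu N) : Eu N := x - ∑ k, ⟪e k, x⟫_ℝ • e k

lemma R_add {N n : ℕ} (e : Fin n → Eu N) (x y : Eu N) : R e (x + y) = R e x + R e y := by
  simp only [R, inner_add_right, add_smul, Finset.sum_add_distrib]
  abel

lemma R_zero {N n : ℕ} (e : Fin n → Eu N) : R e 0 = 0 := by simp [R]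

lemma R_sum {N n : ℕ} (e : Fin n → Eu N) {ι : Type} (s : Finset ι) (z : ι → Eu N) :
    R e (∑ i ∈ s, z i) = ∑ i ∈ s, R e (z i) := by
  classical
  induction s using Finset.induction_on with
  | empty => simp [R_zero]
  | insert a s ha ih => rw [Finset.sum_insert ha, Finset.sum_insert ha, R_add, ih]

lemma nrm_sq {N n : ℕ} (e : Fin n → Eu N) (x : Eu N) : nrm e x ^ 2 = ∑ i, ⟪e i, x⟫_ℝ ^ 2 := by
  rw [nrm, Real.sq_sqrt (Finset.sum_nonneg fun i _ => sq_nonneg _)]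

lemma norm_R {N n : ℕ} {e : Fin n → Eu N} (he : Orthonormal ℝ e) (x : Eu N) :
    ‖R e x‖ ^ 2 = ‖x‖ ^ 2 - nrm e x ^ 2 := by
  rw [nrm_sq, R, norm_sub_sq_real]
  have h1 : ⟪x, ∑ k, ⟪e k, x⟫_ℝ • e k⟫_ℝ = ∑ k, ⟪e k, x⟫_ℝ ^ 2 := by
    rw [inner_sum]
    refine Finset.sum_congr rfl fun k _ => ?_
    rw [inner_smul_right, real_inner_comm x (e k)]; ring
  have h2 : ‖∑ k, ⟪e k, x⟫_ℝ • e k‖ ^ 2 = ∑ k, ⟪e k, x⟫_ℝ ^ 2 := by
    rw [← real_inner_self_eq_norm_sq, he.inner_sum]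
    refine Finset.sum_congr rfl fun k _ => ?_
    simp; ring
  rw [h1, h2]; ring

lemma norm_R_le {N n : ℕ} {e : Fin n → Eu N} (he : Orthonormal ℝ e) (x : Eu N) :
    ‖R e x‖ ^ 2 ≤ ‖x‖ ^ 2 := by
  rw [norm_R he]; nlinarith [sq_nonneg (nrm e x)]

lemma nrm_le {N n : ℕ} {e : Fin n → Eu N} (he : Orthonormal ℝ e) (x : Eu N) : nrm e x ≤ ‖x‖ := by
  have h := norm_R he x
  have h2 : nrm e x ^ 2 ≤ ‖x‖ ^ 2 := by nlinarith [sq_nonneg ‖R e x‖]
  exact le_of_sq_le_sq h2 (norm_nonneg _) |> fun h => h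

lemma nrm_nonneg {N n : ℕ} (e : Fin n → Eu N) (x : Eu N) : 0 ≤ nrm e x := Real.sqrt_nonneg _

lemma nrm_cont {N n : ℕ} (e : Fin n → Eu N) : Continuous (nrm e) := by
  unfold nrm
  fun_prop

lemma obt_sum {N : ℕ} {ι : Type} [Fintype ι] (z : ι → Eu N) (h : ∀ i j, i ≠ j → ⟪z i, z j⟫_ℝ ≤ 0) :
    ‖∑ i, z i‖ ^ 2 ≤ ∑ i, ‖z i‖ ^ 2 := by
  classical
  rw [← real_inner_self_eq_norm_sq, sum_inner]
  refine Finset.sum_le_sum fun i _ => ?_
  rw [inner_sum, ← Finset.add_sum_erase _ _ (Finset.mem_univ i), real_inner_self_eq_norm_sq]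
  have : ∑ x ∈ Finset.univ.erase i, ⟪z i, z x⟫_ℝ ≤ 0 :=
    Finset.sum_nonpos fun j hj => h i j (Finset.ne_of_mem_erase hj).symm
  linarith

/-- common height bound -/
lemma height {N n : ℕ} {κ : Type} [Fintype κ] {e : Fin n → Eu N} (he : Orthonormal ℝ e)
    (a : Fin (n + 1) → Eu N) (z : κ → Eu N) (hsum : ∑ i, a i + ∑ j, z j = 0)
    (hobt : ∀ i j, i ≠ j → ⟪z i, z j⟫_ℝ ≤ 0)
    (hspan : ∀ i : Fin n, a i.succ - a 0 = ∑ k, ⟪e k, a i.succ - a 0⟫_ℝ • e k) (i : Fin (n + 1)) :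
    ‖a i‖ ^ 2 - nrm e (a i) ^ 2 ≤ (∑ j, ‖z j‖ ^ 2) / ((n : ℝ) + 1) ^ 2 := by
  rw [← norm_R he]
  have hc : ∀ i : Fin (n + 1), R e (a i) = R e (a 0) := by
    intro i
    refine Fin.cases rfl (fun i => ?_) i
    have h0 : R e (a i.succ - a 0) = 0 := by
      rw [R, ← hspan i, sub_self]
    have h1 : R e (a i.succ) = R e (a i.succ - a 0) + R e (a 0) := by
      rw [← R_add]; congr 1; abel
    rw [h1, h0, zero_add]
  have hs : ((n : ℝ) + 1) • R e (a 0) = - R e (∑ j, z j) := by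
    have h1 : R e (∑ i, a i) + R e (∑ j, z j) = 0 := by rw [← R_add, hsum, R_zero]
    have h2 : R e (∑ i, a i) = ((n : ℝ) + 1) • R e (a 0) := by
      rw [R_sum, Finset.sum_congr rfl (fun i _ => hc i)]
      simp only [Finset.sum_const, Finset.card_univ, Fintype.card_fin]
      rw [← Nat.cast_smul_eq_nsmul ℝ]
      push_cast
      rfl
    rw [← h2]; exact eq_neg_of_add_eq_zero_left h1
  have hn : (0 : ℝ) < (n : ℝ) + 1 := by positivity
  rw [hc i, le_div_iff₀ (by positivity)]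
  have h3 : ‖R e (a 0)‖ ^ 2 * ((n : ℝ) + 1) ^ 2 = ‖R e (∑ j, z j)‖ ^ 2 := by
    rw [← norm_neg (R e (∑ j, z j)), ← hs, norm_smul, Real.norm_of_nonneg hn.le]; ring
  rw [h3]
  exact (norm_R_le he _).trans (obt_sum z hobt)

section Ball
variable {N n : ℕ} {ι : Type} [Fintype ι] [Nonempty ι]

lemma mx_cont (y : ι → Eu N) : Continuous (mx y) := by
  unfold mx
  exact Continuous.finset_sup'_apply _ fun i _ => by fun_prop

lemma inner_abs_le (y : ι → Eu N) (i : ι) (x : Eu N) : |⟪y i, x⟫_ℝ| ≤ (∑ j, ‖y j‖) * ‖x‖ :=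
  (abs_real_inner_le_norm _ _).trans (mul_le_mul_of_nonneg_right
    (Finset.single_le_sum (f := fun j => ‖y j‖) (fun j _ => norm_nonneg _) (Finset.mem_univ i))
    (norm_nonneg _))

lemma mx_abs_le (y : ι → Eu N) (x : Eu N) : |mx y x| ≤ (∑ j, ‖y j‖) * ‖x‖ := by
  obtain ⟨i, _, hi⟩ := Finset.exists_mem_eq_sup' (Finset.univ_nonempty (α := ι)) (fun i => ⟪y i, x⟫_ℝ)
  rw [mx, hi]
  exact inner_abs_le y i x

lemma gain_cont (e : Fin n → Eu N) (v : Eu N) (β : ℝ) :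
    Continuous (fun x => max 0 (⟪v, x⟫_ℝ - β * nrm e x)) := by
  have := nrm_cont e
  fun_prop

lemma gain_abs_le {e : Fin n → Eu N} (v : Eu N) {β : ℝ} (hβ : 0 < β) (x : Eu N) :
    |max 0 (⟪v, x⟫_ℝ - β * nrm e x)| ≤ ‖v‖ * (1 + ‖x‖) := by
  rw [abs_of_nonneg (le_max_left _ _)]
  apply max_le
  · positivity
  · have h1 := real_inner_le_norm v x
    have h2 := nrm_nonneg e x
    have h3 := norm_nonneg v
    nlinarith [mul_nonneg hβ.le h2]

lemma ball (hI : Spec.Int) (y : ι → Eu N) {e : Fin n → Eu N} (he : Orthonormal ℝ e) {β : ℝ}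
    (hβ : 0 < β) : ex (mx y) ≤ β * ex (nrm e) + ∑ i, ex (fun x => max 0 (⟪y i, x⟫_ℝ - β * nrm e x)) := by
  have hsq : 0 ≤ √(2 * Real.pi) := Real.sqrt_nonneg _
  have i1 : Integrable (mx y) (stdGaussian (Eu N)) := by
    refine hI N _ (∑ j, ‖y j‖) (mx_cont y) fun x => (mx_abs_le y x).trans ?_
    have : 0 ≤ ∑ j, ‖y j‖ := Finset.sum_nonneg fun j _ => norm_nonneg _
    nlinarith [norm_nonneg x]
  have i2 : Integrable (nrm e) (stdGaussian (Eu N)) := by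
    refine hI N _ 1 (nrm_cont e) fun x => ?_
    rw [abs_of_nonneg (nrm_nonneg e x)]
    linarith [nrm_le he x]
  have i3 : ∀ i, Integrable (fun x => max 0 (⟪y i, x⟫_ℝ - β * nrm e x)) (stdGaussian (Eu N)) :=
    fun i => hI N _ (‖y i‖) (gain_cont e (y i) β) (fun x => gain_abs_le (y i) hβ x)
  have key : ∫ x, mx y x ∂(stdGaussian (Eu N)) ≤ β * ∫ x, nrm e x ∂(stdGaussian (Eu N))
      + ∑ i, ∫ x, max 0 (⟪y i, x⟫_ℝ - β * nrm e x) ∂(stdGaussian (Eu N)) := by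
    rw [← integral_const_mul, ← integral_finset_sum _ (fun i _ => i3 i),
      ← integral_add (i2.const_mul β) (integrable_finset_sum _ (fun i _ => i3 i))]
    refine integral_mono i1 ((i2.const_mul β).add (integrable_finset_sum _ (fun i _ => i3 i))) fun x => ?_
    obtain ⟨i, _, hi⟩ := Finset.exists_mem_eq_sup' (Finset.univ_nonempty (α := ι)) (fun i => ⟪y i, x⟫_ℝ)
    have h1 : mx y x = ⟪y i, x⟫_ℝ := hi
    have h2 : max 0 (⟪y i, x⟫_ℝ - β * nrm e x) ≤ ∑ i, max 0 (⟪y i, x⟫_ℝ - β * nrm e x) :=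
      Finset.single_le_sum (f := fun i => max 0 (⟪y i, x⟫_ℝ - β * nrm e x))
        (fun j _ => le_max_left _ _) (Finset.mem_univ i)
    have h3 := le_max_right 0 (⟪y i, x⟫_ℝ - β * nrm e x)
    simp only [Pi.add_apply]
    rw [h1]
    linarith
  simp only [ex]
  rw [← Finset.mul_sum]
  nlinarith [mul_le_mul_of_nonneg_left key hsq]

end Ball

lemma sg_self (β q : ℝ) (hq : 0 ≤ q) : sg β q q = √(β ^ 2 + q) := by
  unfold sg
  have h1 : (q - β ^ 2) ^ 2 + 4 * β ^ 2 * q = (q + β ^ 2) ^ 2 := by ring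
  rw [h1, Real.sqrt_sq (by positivity)]
  congr 1; ring

lemma E3_bd (h3 : Spec.GL3) {N : ℕ} {e : Fin 3 → Eu N} (he : Orthonormal ℝ e) (v : Eu N) {β : ℝ}
    (hβ : 0 < β) : ex (fun x => max 0 (⟪v, x⟫_ℝ - β * nrm e x)) ≤ E3 β (‖v‖ ^ 2) := by
  have h := h3 N e he v β (‖v‖ ^ 2) hβ (by nlinarith [sq_nonneg (nrm e v)])
  rwa [sg_self β _ (sq_nonneg _)] at h

lemma E4_bd (h4 : Spec.GL4) {N : ℕ} {e : Fin 4 → Eu N} (he : Orthonormal ℝ e) (v : Eu N) {β : ℝ}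
    (hβ : 0 < β) : ex (fun x => max 0 (⟪v, x⟫_ℝ - β * nrm e x)) ≤ E4 β (‖v‖ ^ 2) := by
  have h := h4 N e he v β (‖v‖ ^ 2) hβ (by nlinarith [sq_nonneg (nrm e v)])
  rwa [sg_self β _ (sq_nonneg _)] at h

lemma sum4 {M : Type*} [AddCommMonoid M] {m : ℕ} (f : Fin (m + 5) → M) :
    ∑ i, f i = (f 0 + f 1 + f 2 + f 3) + ∑ i : Fin (m + 1), f (t4 i) := by
  rw [Fin.sum_univ_succ, Fin.sum_univ_succ, Fin.sum_univ_succ, Fin.sum_univ_succ]
  simp only [add_assoc]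
  rfl

lemma sum5 {M : Type*} [AddCommMonoid M] {m : ℕ} (f : Fin (m + 5) → M) :
    ∑ i, f i = (f 0 + f 1 + f 2 + f 3 + f 4) + ∑ i : Fin m, f (t5 i) := by
  rw [Fin.sum_univ_succ, Fin.sum_univ_succ, Fin.sum_univ_succ, Fin.sum_univ_succ, Fin.sum_univ_succ]
  simp only [add_assoc]
  rfl

lemma t4_inj {m : ℕ} {i j : Fin (m + 1)} (h : i ≠ j) : (t4 i) ≠ t4 j := by
  intro hc
  apply h
  have : i.val + 4 = j.val + 4 := congrArg Fin.val hc
  exact Fin.ext (by omega)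

lemma t5_inj {m : ℕ} {i j : Fin m} (h : i ≠ j) : (t5 i) ≠ t5 j := by
  intro hc
  apply h
  have : i.val + 5 = j.val + 5 := congrArg Fin.val hc
  exact Fin.ext (by omega)

theorem B3b (hI : Spec.Int) (h3 : Spec.GL3) (hc : Spec.C3) : Spec.B3b := by
  intro N m y hN hy β hβ
  set a : Fin 4 → Eu N := ![y 0, y 1, y 2, y 3] with ha
  obtain ⟨e, he, hsp⟩ := exists_on (N := N) (n := 3) (by omega) (fun i : Fin 3 => a i.succ - a 0)
  have hsum : ∑ i, a i + ∑ j : Fin (m + 1), y (t4 j) = 0 := by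
    have := hy.sum0
    rw [sum4] at this
    rw [← this]
    simp [ha, Fin.sum_univ_four]
  have hh := height he a (fun j : Fin (m + 1) => y (t4 j)) hsum
    (fun i j hij => hy.obt _ _ (t4_inj hij)) hsp
  have hw : ((3 : ℕ) : ℝ) + 1 = 4 := by norm_num
  rw [hw] at hh
  have hw2 : (4 : ℝ) ^ 2 = 16 := by norm_num
  rw [hw2] at hh
  have hb := ball hI y he hβ
  rw [hc N e he, sum4] at hb
  have g0 := h3 N e he (y 0) β _ hβ (hh 0)
  have g1 := h3 N e he (y 1) β _ hβ (hh 1)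
  have g2 := h3 N e he (y 2) β _ hβ (hh 2)
  have g3 := h3 N e he (y 3) β _ hβ (hh 3)
  have g4 : ∑ i : Fin (m + 1), ex (fun x => max 0 (⟪y (t4 i), x⟫_ℝ - β * nrm e x))
      ≤ ∑ i : Fin (m + 1), E3 β (‖y (t4 i)‖ ^ 2) :=
    Finset.sum_le_sum fun i _ => E3_bd h3 he _ hβ
  simp only [T3]
  linarith

theorem B4a (hI : Spec.Int) (h4 : Spec.GL4) (hc : Spec.C4) : Spec.B4a := by
  intro N m y hN hy β hβ
  set a : Fin 4 → Eu N := ![y 0, y 1, y 2, y 3] with ha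
  obtain ⟨e, he, hsp⟩ := exists_on (N := N) (n := 4) (by omega) a
  have hh : ∀ i, ‖a i‖ ^ 2 - nrm e (a i) ^ 2 ≤ 0 := by
    intro i
    rw [← norm_R he, R, ← hsp i, sub_self]
    simp
  have hb := ball hI y he hβ
  rw [hc N e he, sum4] at hb
  have g0 := h4 N e he (y 0) β _ hβ (hh 0)
  have g1 := h4 N e he (y 1) β _ hβ (hh 1)
  have g2 := h4 N e he (y 2) β _ hβ (hh 2)
  have g3 := h4 N e he (y 3) β _ hβ (hh 3)
  have g4 : ∑ i : Fin (m + 1), ex (fun x => max 0 (⟪y (t4 i), x⟫_ℝ - β * nrm e x))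
      ≤ ∑ i : Fin (m + 1), E4 β (‖y (t4 i)‖ ^ 2) :=
    Finset.sum_le_sum fun i _ => E4_bd h4 he _ hβ
  simp only [T4]
  linarith

theorem B4b (hI : Spec.Int) (h4 : Spec.GL4) (hc : Spec.C4) : Spec.B4b := by
  intro N m y hN hy β hβ
  set a : Fin 5 → Eu N := ![y 0, y 1, y 2, y 3, y 4] with ha
  obtain ⟨e, he, hsp⟩ := exists_on (N := N) (n := 4) (by omega) (fun i : Fin 4 => a i.succ - a 0)
  have hsum : ∑ i, a i + ∑ j : Fin m, y (t5 j) = 0 := by
    have := hy.sum0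
    rw [sum5] at this
    rw [← this]
    simp [ha, Fin.sum_univ_five]
  have hh := height he a (fun j : Fin m => y (t5 j)) hsum
    (fun i j hij => hy.obt _ _ (t5_inj hij)) hsp
  have hw : ((4 : ℕ) : ℝ) + 1 = 5 := by norm_num
  rw [hw] at hh
  have hw2 : (5 : ℝ) ^ 2 = 25 := by norm_num
  rw [hw2] at hh
  have hb := ball hI y he hβ
  rw [hc N e he, sum5] at hb
  have g0 := h4 N e he (y 0) β _ hβ (hh 0)
  have g1 := h4 N e he (y 1) β _ hβ (hh 1)
  have g2 := h4 N e he (y 2) β _ hβ (hh 2)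
  have g3 := h4 N e he (y 3) β _ hβ (hh 3)
  have g3' := h4 N e he (y 4) β _ hβ (hh 4)
  have g4 : ∑ i : Fin m, ex (fun x => max 0 (⟪y (t5 i), x⟫_ℝ - β * nrm e x))
      ≤ ∑ i : Fin m, E4 β (‖y (t5 i)‖ ^ 2) :=
    Finset.sum_le_sum fun i _ => E4_bd h4 he _ hβ
  simp only [T4]
  linarith

end
end Crest.Agent.H2Pr
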