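import Mathlib
import Crest.Agent.H18PrSpec
import Crest.Agent.H3PrGauss
set_option autoImplicit false
open MeasureTheory ProbabilityTheory Set
open scoped InnerProductSpace

namespace Crest.Agent.H3PrNPR
open H18Pr

/-- ∫_0^R r (e^{-r²/2} - e^{-R²/2}) dr -/
theorem radial (R : ℝ) :
    ∫ r in (0:ℝ)..R, r * (Real.exp (-r ^ 2 / 2) - Real.exp (-R ^ 2 / 2)) =
      1 - Real.exp (-R ^ 2 / 2) - R ^ 2 / 2 * Real.exp (-R ^ 2 / 2) := by
  have h : ∀ r ∈ Set.uIcc (0:ℝ) R, HasDerivAt (fun r : ℝ => - Real.exp (-r ^ 2 / 2) - r ^ 2 / 2 * Real.exp (-R ^ 2 / 2))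
      (r * (Real.exp (-r ^ 2 / 2) - Real.exp (-R ^ 2 / 2))) r := by
    intro r _
    have h1 : HasDerivAt (fun r : ℝ => -r ^ 2 / 2) (-r) r := by
      have := ((hasDerivAt_pow 2 r).neg).div_const 2
      convert! this using 1
      norm_num
      ring
    have h2 : HasDerivAt (fun r : ℝ => r ^ 2 / 2 * Real.exp (-R ^ 2 / 2)) (r * Real.exp (-R ^ 2 / 2)) r := by
      have := ((hasDerivAt_pow 2 r).div_const 2).mul_const (Real.exp (-R ^ 2 / 2))
      convert! this using 1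
      norm_num
    have := h1.exp.neg.sub h2
    convert! this using 1
    ring
  rw [intervalIntegral.integral_eq_sub_of_hasDerivAt h]
  · simp
    ring
  · apply Continuous.intervalIntegrable
    fun_prop

theorem lint_radial (R : ℝ) (hR : 0 ≤ R) :
    ∫⁻ r in Ioi (0:ℝ), ENNReal.ofReal (r * max 0 (Real.exp (-r ^ 2 / 2) - Real.exp (-R ^ 2 / 2))) =
      ENNReal.ofReal (1 - Real.exp (-R ^ 2 / 2) - R ^ 2 / 2 * Real.exp (-R ^ 2 / 2)) := by
  rw [← radial R, intervalIntegral.integral_of_le hR, ofReal_integral_eq_lintegral_ofReal]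
  · rw [← lintegral_indicator measurableSet_Ioi, ← lintegral_indicator measurableSet_Ioc]
    apply lintegral_congr
    intro r
    by_cases h0 : r ∈ Ioi (0:ℝ)
    · rw [indicator_of_mem h0]
      by_cases h1 : r ≤ R
      · rw [indicator_of_mem (show r ∈ Ioc 0 R from ⟨h0, h1⟩), max_eq_right]
        rw [sub_nonneg]
        apply Real.exp_le_exp.2
        have : r ^ 2 ≤ R ^ 2 := pow_le_pow_left₀ (le_of_lt h0) h1 2
        linarith
      · rw [indicator_of_notMem (fun hc : r ∈ Ioc 0 R => h1 hc.2)]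
        have : R ^ 2 ≤ r ^ 2 := pow_le_pow_left₀ hR (not_le.1 h1).le 2
        rw [max_eq_left]
        · simp
        · rw [sub_nonpos]
          apply Real.exp_le_exp.2
          linarith
    · rw [indicator_of_notMem h0, indicator_of_notMem (fun hc : r ∈ Ioc 0 R => h0 hc.1)]
  · apply (Continuous.integrableOn_Icc (by fun_prop)).mono_set Ioc_subset_Icc_self
  · rw [Filter.EventuallyLE, ae_restrict_iff' measurableSet_Ioc]
    refine Filter.Eventually.of_forall (fun r hr => ?_)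
    simp only [Pi.zero_apply]
    apply mul_nonneg hr.1.le
    rw [sub_nonneg]
    apply Real.exp_le_exp.2
    have : r ^ 2 ≤ R ^ 2 := pow_le_pow_left₀ hr.1.le hr.2 2
    linarith

theorem plane_int (R : ℝ) (hR : 0 ≤ R) :
    ∫⁻ z : ℝ × ℝ, ENNReal.ofReal (max 0 ((2 * Real.pi)⁻¹ * (Real.exp (-(z.1 ^ 2 + z.2 ^ 2) / 2)
        - Real.exp (-R ^ 2 / 2)))) =
      ENNReal.ofReal (1 - Real.exp (-R ^ 2 / 2) - R ^ 2 / 2 * Real.exp (-R ^ 2 / 2)) := by
  rw [← lintegral_comp_polarCoord_symm]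
  have h1 : ∀ p : ℝ × ℝ, p ∈ polarCoord.target → ENNReal.ofReal p.1 • ENNReal.ofReal (max 0 ((2 * Real.pi)⁻¹ *
      (Real.exp (-((polarCoord.symm p).1 ^ 2 + (polarCoord.symm p).2 ^ 2) / 2)
        - Real.exp (-R ^ 2 / 2)))) =
      ENNReal.ofReal (p.1 * max 0 (Real.exp (-p.1 ^ 2 / 2) - Real.exp (-R ^ 2 / 2))) *
        ENNReal.ofReal ((2 * Real.pi)⁻¹) := by
    intro p hp
    have hp1 : 0 < p.1 := hp.1
    rw [smul_eq_mul, ← ENNReal.ofReal_mul hp1.le, ← ENNReal.ofReal_mul (by positivity)]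
    congr 1
    have h2 : (polarCoord.symm p).1 ^ 2 + (polarCoord.symm p).2 ^ 2 = p.1 ^ 2 := by
      simp only [polarCoord_symm_apply]
      nlinarith [Real.sin_sq_add_cos_sq p.2]
    rw [h2]
    have h3 : max 0 ((2 * Real.pi)⁻¹ * (Real.exp (-p.1 ^ 2 / 2) - Real.exp (-R ^ 2 / 2)))
        = (2 * Real.pi)⁻¹ * max 0 (Real.exp (-p.1 ^ 2 / 2) - Real.exp (-R ^ 2 / 2)) := by
      rw [mul_max_of_nonneg _ _ (by positivity), mul_zero]
    rw [h3]
    ring
  have hms : MeasurableSet polarCoord.target := polarCoord.open_target.measurableSet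
  rw [setLIntegral_congr_fun hms (fun p hp => h1 p hp), lintegral_mul_const _ (by fun_prop)]
  have h4 : (volume : Measure (ℝ × ℝ)).restrict polarCoord.target
      = (volume.restrict (Ioi (0:ℝ))).prod (volume.restrict (Ioo (-Real.pi) Real.pi)) := by
    rw [Measure.prod_restrict]
    rfl
  rw [h4, lintegral_prod _ (by fun_prop)]
  simp only [lintegral_const, Measure.restrict_apply MeasurableSet.univ, univ_inter, Real.volume_Ioo]
  rw [lintegral_mul_const _ (by fun_prop), lint_radial R hR, mul_assoc, ← ENNReal.ofReal_mul (by linarith [Real.pi_pos])]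
  have : (Real.pi - -Real.pi) * (2 * Real.pi)⁻¹ = 1 := by
    field_simp; ring
  rw [this]
  simp

theorem gprod : (gaussianReal 0 1).prod (gaussianReal 0 1) =
    (volume : Measure (ℝ × ℝ)).withDensity
      (fun z => ENNReal.ofReal ((2 * Real.pi)⁻¹ * Real.exp (-(z.1 ^ 2 + z.2 ^ 2) / 2))) := by
  rw [gaussianReal_of_var_ne_zero 0 (by norm_num : (1:NNReal) ≠ 0),
    prod_withDensity (measurable_gaussianPDF 0 1) (measurable_gaussianPDF 0 1)]
  congr 1
  funext z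
  rw [gaussianPDF, gaussianPDF, ← ENNReal.ofReal_mul (gaussianPDFReal_nonneg _ _ _)]
  congr 1
  simp only [gaussianPDFReal_def]
  have h : Real.exp (-(z.1 ^ 2 + z.2 ^ 2) / 2) = Real.exp (-z.1 ^ 2 / 2) * Real.exp (-z.2 ^ 2 / 2) := by
    rw [← Real.exp_add]; congr 1; ring
  rw [h]
  have h2 : (2 * Real.pi)⁻¹ = (√(2 * Real.pi))⁻¹ * (√(2 * Real.pi))⁻¹ := by
    rw [← mul_inv, Real.mul_self_sqrt (by positivity)]
  rw [h2]
  norm_num
  ring

/-- the bathtub principle in the plane -/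
theorem bath (T : Set (ℝ × ℝ)) (hT : MeasurableSet T) (R : ℝ) (hR : 0 ≤ R)
    (hA : volume T ≤ ENNReal.ofReal (Real.pi * R ^ 2)) :
    (gaussianReal 0 1).prod (gaussianReal 0 1) T ≤ ENNReal.ofReal (1 - Real.exp (-R ^ 2 / 2)) := by
  rw [gprod, withDensity_apply _ hT]
  have h1 : ∀ z : ℝ × ℝ, ENNReal.ofReal ((2 * Real.pi)⁻¹ * Real.exp (-(z.1 ^ 2 + z.2 ^ 2) / 2)) ≤
      ENNReal.ofReal ((2 * Real.pi)⁻¹ * Real.exp (-R ^ 2 / 2)) +
      ENNReal.ofReal (max 0 ((2 * Real.pi)⁻¹ * (Real.exp (-(z.1 ^ 2 + z.2 ^ 2) / 2)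
        - Real.exp (-R ^ 2 / 2)))) := by
    intro z
    rw [← ENNReal.ofReal_add (by positivity) (le_max_left _ _)]
    apply ENNReal.ofReal_le_ofReal
    have := le_max_right 0 ((2 * Real.pi)⁻¹ * (Real.exp (-(z.1 ^ 2 + z.2 ^ 2) / 2)
        - Real.exp (-R ^ 2 / 2)))
    linarith
  calc ∫⁻ z in T, ENNReal.ofReal ((2 * Real.pi)⁻¹ * Real.exp (-(z.1 ^ 2 + z.2 ^ 2) / 2))
      ≤ ∫⁻ z in T, (ENNReal.ofReal ((2 * Real.pi)⁻¹ * Real.exp (-R ^ 2 / 2)) +
      ENNReal.ofReal (max 0 ((2 * Real.pi)⁻¹ * (Real.exp (-(z.1 ^ 2 + z.2 ^ 2) / 2)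
        - Real.exp (-R ^ 2 / 2))))) := lintegral_mono (fun z => h1 z)
    _ = ENNReal.ofReal ((2 * Real.pi)⁻¹ * Real.exp (-R ^ 2 / 2)) * volume T +
        ∫⁻ z in T, ENNReal.ofReal (max 0 ((2 * Real.pi)⁻¹ * (Real.exp (-(z.1 ^ 2 + z.2 ^ 2) / 2)
        - Real.exp (-R ^ 2 / 2)))) := by
        rw [lintegral_add_left (by fun_prop)]
        simp
    _ ≤ ENNReal.ofReal ((2 * Real.pi)⁻¹ * Real.exp (-R ^ 2 / 2)) * ENNReal.ofReal (Real.pi * R ^ 2) +
        ∫⁻ z : ℝ × ℝ, ENNReal.ofReal (max 0 ((2 * Real.pi)⁻¹ * (Real.exp (-(z.1 ^ 2 + z.2 ^ 2) / 2)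
        - Real.exp (-R ^ 2 / 2)))) := by
        apply add_le_add (by gcongr)
        exact setLIntegral_le_lintegral _ _
    _ = ENNReal.ofReal (1 - Real.exp (-R ^ 2 / 2)) := by
        rw [plane_int R hR, ← ENNReal.ofReal_mul (by positivity), ← ENNReal.ofReal_add (by positivity)]
        · congr 1
          field_simp
          ring
        · have := Real.add_one_le_exp (R ^ 2 / 2)
          have h2 : Real.exp (-R ^ 2 / 2) * Real.exp (R ^ 2 / 2) = 1 := by
            rw [← Real.exp_add]; simp [neg_div]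
          nlinarith [Real.exp_pos (-R ^ 2 / 2)]

end Crest.Agent.H3PrNPR
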