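import Mathlib
import Crest.Agent.H3PrNPRa
set_option autoImplicit false
open MeasureTheory ProbabilityTheory Set
open scoped InnerProductSpace

namespace Crest.Agent.H3PrNPR
open H18Pr

/-- the maximum of the three linear forms in coordinates -/
def MM (α0 α1 β0 β1 δ g p q : ℝ) : ℝ :=
  max (max (α0 * g + β0 * p) (α1 * g + β1 * p + δ * q)) (-(α0 * g + β0 * p) - (α1 * g + β1 * p + δ * q))

theorem MM_nonneg (α0 α1 β0 β1 δ g p q : ℝ) : 0 ≤ MM α0 α1 β0 β1 δ g p q := by
  unfold MM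
  by_contra hc
  push Not at hc
  have h1 := lt_of_le_of_lt (le_max_left _ _) hc
  have h2 := lt_of_le_of_lt (le_max_left _ _) h1
  have h3 := lt_of_le_of_lt (le_max_right _ _) h1
  have h4 := lt_of_le_of_lt (le_max_right _ _) hc
  linarith

theorem MM_cont (α0 α1 β0 β1 δ : ℝ) : Continuous (fun y : ℝ × ℝ × ℝ => MM α0 α1 β0 β1 δ y.1 y.2.1 y.2.2) := by
  unfold MM
  fun_prop

theorem tri_eq (α0 α1 β0 β1 δ g s : ℝ) (hβ : 0 < β0) (hδ : 0 < δ) :
    {z : ℝ × ℝ | MM α0 α1 β0 β1 δ g z.1 z.2 < s} =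
      regionBetween (fun p => (-s - (α0 * g + β0 * p) - (α1 * g + β1 * p)) / δ)
        (fun p => (s - (α1 * g + β1 * p)) / δ) (Ioo ((-2 * s - α0 * g) / β0) ((s - α0 * g) / β0)) := by
  ext ⟨p, q⟩
  simp only [MM, mem_ofPred_eq, regionBetween, mem_Ioo, max_lt_iff, div_lt_iff₀ hβ, lt_div_iff₀ hβ,
    div_lt_iff₀ hδ, lt_div_iff₀ hδ]
  constructor
  · rintro ⟨⟨h1, h2⟩, h3⟩
    refine ⟨⟨?_, ?_⟩, ?_, ?_⟩ <;> linarith
  · rintro ⟨⟨h1, h2⟩, h3, h4⟩
    refine ⟨⟨?_, ?_⟩, ?_⟩ <;> linarith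

theorem tri_int (α β δ g s : ℝ) (hβ : 0 < β) (hδ : 0 < δ) :
    ∫ p in ((-2 * s - α * g) / β)..((s - α * g) / β), (2 * s + (α * g + β * p)) / δ =
      9 * s ^ 2 / (2 * (β * δ)) := by
  have h : ∀ p ∈ Set.uIcc ((-2 * s - α * g) / β) ((s - α * g) / β),
      HasDerivAt (fun p : ℝ => (2 * s + (α * g + β * p)) ^ 2 / (2 * (β * δ)))
      ((2 * s + (α * g + β * p)) / δ) p := by
    intro p _
    have h1 : HasDerivAt (fun p : ℝ => 2 * s + (α * g + β * p)) β p := by
      have := (((hasDerivAt_id p).const_mul β).const_add (α * g)).const_add (2 * s)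
      simpa using this
    have := (h1.pow 2).div_const (2 * (β * δ))
    convert! this using 1
    field_simp
    norm_num
  rw [intervalIntegral.integral_eq_sub_of_hasDerivAt h]
  · field_simp
    ring
  · apply Continuous.intervalIntegrable
    fun_prop

theorem tri_vol (α0 α1 β0 β1 δ g s : ℝ) (hβ : 0 < β0) (hδ : 0 < δ) (hs : 0 < s) :
    volume {z : ℝ × ℝ | MM α0 α1 β0 β1 δ g z.1 z.2 < s} = ENNReal.ofReal (9 * s ^ 2 / (2 * (β0 * δ))) := by
  rw [tri_eq _ _ _ _ _ _ _ hβ hδ, Measure.volume_eq_prod, volume_regionBetween_eq_integral]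
  · congr 1
    rw [← tri_int α0 β0 δ g s hβ hδ, ← integral_Ioc_eq_integral_Ioo, intervalIntegral.integral_of_le]
    · apply setIntegral_congr_fun measurableSet_Ioc
      intro p _
      simp only [Pi.sub_apply]
      field_simp
      ring
    · rw [div_le_div_iff_of_pos_right hβ]
      linarith
  · apply (Continuous.integrableOn_Icc (by fun_prop)).mono_set Ioo_subset_Icc_self
  · apply (Continuous.integrableOn_Icc (by fun_prop)).mono_set Ioo_subset_Icc_self
  · exact measurableSet_Ioo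
  · intro p hp
    have h1 : -2 * s - α0 * g < p * β0 := (div_lt_iff₀ hβ).1 hp.1
    rw [div_le_div_iff_of_pos_right hδ]
    linarith

theorem slice (α0 α1 β0 β1 δ g ρ u : ℝ) (hβ : 0 < β0) (hδ : 0 < δ) (hρ : 0 < ρ)
    (h : 9 * ρ ^ 2 ≤ 2 * Real.pi * (β0 * δ)) (hg : 0 < g) (hu : 0 < u) :
    (gaussianReal 0 1).prod (gaussianReal 0 1) {z : ℝ × ℝ | MM α0 α1 β0 β1 δ g z.1 z.2 < u * g}
      ≤ ENNReal.ofReal (1 - Real.exp (-(u * g / ρ) ^ 2 / 2)) := by
  apply bath
  · have : Continuous (fun z : ℝ × ℝ => MM α0 α1 β0 β1 δ g z.1 z.2) := by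
      unfold MM; fun_prop
    exact measurableSet_lt this.measurable measurable_const
  · positivity
  · rw [tri_vol _ _ _ _ _ _ _ hβ hδ (by positivity)]
    apply ENNReal.ofReal_le_ofReal
    rw [div_pow, mul_div_assoc', div_le_div_iff₀ (by positivity) (by positivity)]
    have : 0 < (u * g) ^ 2 := by positivity
    nlinarith

/-- one dimensional integral over the height -/
theorem lint_height (k : ℝ) :
    ∫⁻ g in Ioi (0:ℝ), ENNReal.ofReal g * ENNReal.ofReal (1 - Real.exp (-(k * g) ^ 2 / 2)) ∂(gaussianReal 0 1)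
      = ENNReal.ofReal ((√(2 * Real.pi))⁻¹ * (1 - 1 / (1 + k ^ 2))) := by
  have hint : ∀ c : ℝ, 0 < c → IntegrableOn (fun g : ℝ => g * Real.exp (- c * g ^ 2)) (Ioi 0) := by
    intro c hc
    exact (integrable_mul_exp_neg_mul_sq hc).integrableOn
  have hval : ∀ c : ℝ, 0 < c → ∫ g in Ioi (0:ℝ), g * Real.exp (- c * g ^ 2) = 1 / (2 * c) := by
    intro c hc
    have h2 := integral_rpow_mul_exp_neg_mul_rpow (p := 2) (q := 1) (b := c) (by norm_num) (by norm_num) hc
    have : ∀ x : ℝ, x ^ (1:ℝ) * Real.exp (- c * x ^ (2:ℝ)) = x * Real.exp (- c * x ^ (2:ℕ)) := by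
      intro x; rw [Real.rpow_one, Real.rpow_two]
    simp only [this] at h2
    rw [h2]
    norm_num
    exact Real.rpow_neg_one c
  rw [gaussianReal_of_var_ne_zero 0 (by norm_num : (1:NNReal) ≠ 0),
    setLIntegral_withDensity_eq_setLIntegral_mul _ (measurable_gaussianPDF 0 1) (by fun_prop) measurableSet_Ioi]
  have h1 : ∀ g ∈ Ioi (0:ℝ), (gaussianPDF 0 1 * fun g => ENNReal.ofReal g * ENNReal.ofReal (1 - Real.exp (-(k * g) ^ 2 / 2))) g
      = ENNReal.ofReal ((√(2 * Real.pi))⁻¹ * (g * Real.exp (-(1/2) * g ^ 2) - g * Real.exp (-((1 + k ^ 2)/2) * g ^ 2))) := by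
    intro g hg
    have hg' : 0 < g := hg
    rw [Pi.mul_apply, gaussianPDF, ← ENNReal.ofReal_mul hg'.le, ← ENNReal.ofReal_mul (gaussianPDFReal_nonneg _ _ _)]
    congr 1
    simp only [gaussianPDFReal_def]
    have h2 : Real.exp (-((1 + k ^ 2)/2) * g ^ 2) = Real.exp (-(1/2) * g ^ 2) * Real.exp (-(k * g) ^ 2 / 2) := by
      rw [← Real.exp_add]; congr 1; ring
    rw [h2]
    norm_num
    have h3 : Real.exp (-g ^ 2 / 2) = Real.exp (-(1/2) * g ^ 2) := by congr 1; ring
    rw [h3]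
    ring_nf
  rw [setLIntegral_congr_fun measurableSet_Ioi h1, ← ofReal_integral_eq_lintegral_ofReal]
  · congr 1
    rw [integral_const_mul, integral_sub (hint _ (by norm_num)) (hint _ (by positivity)), hval _ (by norm_num), hval _ (by positivity)]
    field_simp
  · apply Integrable.const_mul
    exact (hint _ (by norm_num)).sub (hint _ (by positivity))
  · rw [Filter.EventuallyLE, ae_restrict_iff' measurableSet_Ioi]
    refine Filter.Eventually.of_forall (fun g hg => ?_)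
    have hg' : 0 < g := hg
    simp only [Pi.zero_apply]
    apply mul_nonneg (by positivity)
    rw [← mul_sub]
    apply mul_nonneg hg'.le
    rw [sub_nonneg]
    apply Real.exp_le_exp.2
    have : 0 < g ^ 2 := by positivity
    nlinarith [mul_nonneg (sq_nonneg k) this.le]

/-- the last integral -/
theorem last_int (b ρ : ℝ) (hb : 0 ≤ b) (hρ : 0 < ρ) :
    ∫⁻ u in Ioc 0 b, ENNReal.ofReal ((√(2 * Real.pi))⁻¹ * (1 - 1 / (1 + (u / ρ) ^ 2))) =
      ENNReal.ofReal ((√(2 * Real.pi))⁻¹ * (b - ρ * Real.arctan (b / ρ))) := by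
  have h : ∀ u ∈ Set.uIcc 0 b, HasDerivAt (fun u : ℝ => (√(2 * Real.pi))⁻¹ * (u - ρ * Real.arctan (u / ρ)))
      ((√(2 * Real.pi))⁻¹ * (1 - 1 / (1 + (u / ρ) ^ 2))) u := by
    intro u _
    have h1 : HasDerivAt (fun u : ℝ => u / ρ) (1 / ρ) u := (hasDerivAt_id u).div_const ρ
    have h2 := (h1.arctan).const_mul ρ
    have h3 := ((hasDerivAt_id u).sub h2).const_mul (√(2 * Real.pi))⁻¹
    convert! h3 using 2
    field_simp
  have hc : Continuous (fun u : ℝ => (√(2 * Real.pi))⁻¹ * (1 - 1 / (1 + (u / ρ) ^ 2))) := by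
    apply Continuous.mul continuous_const
    apply Continuous.sub continuous_const
    apply Continuous.div continuous_const (by fun_prop)
    intro u
    positivity
  rw [← ofReal_integral_eq_lintegral_ofReal]
  · congr 1
    rw [← intervalIntegral.integral_of_le hb, intervalIntegral.integral_eq_sub_of_hasDerivAt h]
    · simp
    · exact hc.intervalIntegrable _ _
  · exact (hc.integrableOn_Icc).mono_set Ioc_subset_Icc_self
  · refine Filter.Eventually.of_forall (fun u => ?_)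
    simp only [Pi.zero_apply]
    apply mul_nonneg (by positivity)
    rw [sub_nonneg, div_le_one (by positivity)]
    nlinarith [sq_nonneg (u / ρ)]

end Crest.Agent.H3PrNPR
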