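import Mathlib
import Crest.Agent.H3PrNPRb
set_option autoImplicit false
open MeasureTheory ProbabilityTheory Set
open scoped InnerProductSpace

namespace Crest.Agent.H3PrNPR
open H18Pr

theorem main3 (b α0 α1 β0 β1 δ ρ : ℝ) (hb : 0 < b) (hβ : 0 < β0) (hδ : 0 < δ) (hρ : 0 < ρ)
    (h : 9 * ρ ^ 2 ≤ 2 * Real.pi * (β0 * δ)) :
    ∫⁻ y : ℝ × ℝ × ℝ, ENNReal.ofReal (max 0 (b * y.1 - MM α0 α1 β0 β1 δ y.1 y.2.1 y.2.2))
      ∂((gaussianReal 0 1).prod ((gaussianReal 0 1).prod (gaussianReal 0 1))) ≤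
      ENNReal.ofReal ((√(2 * Real.pi))⁻¹ * (b - ρ * Real.arctan (b / ρ))) := by
  have hMc := MM_cont α0 α1 β0 β1 δ
  set M : ℝ × ℝ × ℝ → ℝ := fun y => MM α0 α1 β0 β1 δ y.1 y.2.1 y.2.2 with hM
  have hM0 : ∀ y, 0 ≤ M y := fun y => MM_nonneg _ _ _ _ _ _ _ _
  set S : Set ((ℝ × ℝ × ℝ) × ℝ) := {p | M p.1 < p.2 * p.1.1} with hS
  have hSm : MeasurableSet S := measurableSet_lt (by fun_prop) (by fun_prop)
  have hpt : ∀ y : ℝ × ℝ × ℝ, ENNReal.ofReal (max 0 (b * y.1 - M y)) ≤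
      ∫⁻ u in Ioc 0 b, S.indicator (fun p => ENNReal.ofReal p.1.1) (y, u) := by
    intro y
    rcases le_or_gt y.1 0 with hg | hg
    · have : max 0 (b * y.1 - M y) = 0 := by
        apply max_eq_left
        have := hM0 y
        nlinarith
      rw [this]; simp
    · have h1 : ∀ u, S.indicator (fun p => ENNReal.ofReal p.1.1) (y, u) =
          (Ioi (M y / y.1)).indicator (fun _ => ENNReal.ofReal y.1) u := by
        intro u
        by_cases hu : u ∈ Ioi (M y / y.1)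
        · rw [indicator_of_mem hu, indicator_of_mem]
          exact (div_lt_iff₀ hg).1 hu
        · rw [indicator_of_notMem hu, indicator_of_notMem]
          intro hc
          exact hu ((div_lt_iff₀ hg).2 hc)
      simp only [h1]
      rw [lintegral_indicator_const measurableSet_Ioi, Measure.restrict_apply measurableSet_Ioi]
      have hm : 0 ≤ M y / y.1 := div_nonneg (hM0 y) hg.le
      have h2 : Ioi (M y / y.1) ∩ Ioc 0 b = Ioc (M y / y.1) b := by
        ext u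
        simp only [mem_inter_iff, mem_Ioi, mem_Ioc]
        constructor
        · rintro ⟨h1, h2, h3⟩; exact ⟨h1, h3⟩
        · rintro ⟨h1, h2⟩; exact ⟨h1, lt_of_le_of_lt hm h1, h2⟩
      rw [h2, Real.volume_Ioc, ← ENNReal.ofReal_mul hg.le]
      rcases le_total 0 (b * y.1 - M y) with h3 | h3
      · apply ENNReal.ofReal_le_ofReal
        rw [max_eq_right h3]
        apply le_of_eq
        field_simp
      · rw [max_eq_left h3]; simp
  calc ∫⁻ y : ℝ × ℝ × ℝ, ENNReal.ofReal (max 0 (b * y.1 - M y))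
      ∂((gaussianReal 0 1).prod ((gaussianReal 0 1).prod (gaussianReal 0 1)))
      ≤ ∫⁻ y : ℝ × ℝ × ℝ, (∫⁻ u in Ioc 0 b, S.indicator (fun p => ENNReal.ofReal p.1.1) (y, u))
        ∂((gaussianReal 0 1).prod ((gaussianReal 0 1).prod (gaussianReal 0 1))) := lintegral_mono hpt
    _ = ∫⁻ u in Ioc 0 b, ∫⁻ y : ℝ × ℝ × ℝ, S.indicator (fun p => ENNReal.ofReal p.1.1) (y, u)
        ∂((gaussianReal 0 1).prod ((gaussianReal 0 1).prod (gaussianReal 0 1))) := by
        apply lintegral_lintegral_swap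
        apply Measurable.aemeasurable
        have : Measurable (S.indicator (fun p => ENNReal.ofReal p.1.1)) := by
          apply Measurable.indicator _ hSm
          fun_prop
        exact this
    _ ≤ ∫⁻ u in Ioc 0 b, ENNReal.ofReal ((√(2 * Real.pi))⁻¹ * (1 - 1 / (1 + (u / ρ) ^ 2))) := by
        apply setLIntegral_mono' measurableSet_Ioc
        intro u hu
        have hu0 : 0 < u := hu.1
        rw [lintegral_prod _ (by
          apply Measurable.aemeasurable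
          have h1 : Measurable (S.indicator (fun p => ENNReal.ofReal p.1.1)) := by
            apply Measurable.indicator _ hSm
            fun_prop
          exact h1.comp (measurable_id.prodMk measurable_const))]
        have h2 : ∀ g : ℝ, ∫⁻ z : ℝ × ℝ, S.indicator (fun p => ENNReal.ofReal p.1.1) ((g, z), u)
            ∂((gaussianReal 0 1).prod (gaussianReal 0 1)) =
            ENNReal.ofReal g * (gaussianReal 0 1).prod (gaussianReal 0 1)
              {z : ℝ × ℝ | MM α0 α1 β0 β1 δ g z.1 z.2 < u * g} := by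
          intro g
          have h3 : ∀ z : ℝ × ℝ, S.indicator (fun p => ENNReal.ofReal p.1.1) ((g, z), u) =
            {z : ℝ × ℝ | MM α0 α1 β0 β1 δ g z.1 z.2 < u * g}.indicator (fun _ => ENNReal.ofReal g) z := by
            intro z
            by_cases hz : z ∈ {z : ℝ × ℝ | MM α0 α1 β0 β1 δ g z.1 z.2 < u * g}
            · rw [indicator_of_mem hz, indicator_of_mem]
              exact hz
            · rw [indicator_of_notMem hz, indicator_of_notMem]
              exact hz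
          simp only [h3]
          rw [lintegral_indicator_const]
          have : Continuous (fun z : ℝ × ℝ => MM α0 α1 β0 β1 δ g z.1 z.2) := by
            unfold MM; fun_prop
          exact measurableSet_lt this.measurable measurable_const
        simp only [h2]
        rw [← lint_height (u / ρ), ← lintegral_indicator measurableSet_Ioi]
        apply lintegral_mono
        intro g
        rcases le_or_gt g 0 with hg | hg
        · simp only [ENNReal.ofReal_of_nonpos hg, zero_mul]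
          exact zero_le
        · rw [indicator_of_mem (show g ∈ Ioi (0:ℝ) from hg)]
          simp only
          gcongr
          have := slice α0 α1 β0 β1 δ g ρ u hβ hδ hρ h hg hu0
          have h4 : u / ρ * g = u * g / ρ := by ring
          rw [h4]
          exact this
    _ = ENNReal.ofReal ((√(2 * Real.pi))⁻¹ * (b - ρ * Real.arctan (b / ρ))) := last_int b ρ hb.le hρ

theorem arctan_le {x : ℝ} (hx : 0 ≤ x) : Real.arctan x ≤ x := by
  have h1 : 0 ≤ Real.arctan x := by simpa using hx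
  have := Real.le_tan h1 (Real.arctan_lt_pi_div_two x)
  rwa [Real.tan_arctan] at this

theorem mp3 : MeasurePreserving (fun y : Fin 3 → ℝ => (y 0, y 1, y 2))
    (Measure.pi (fun _ : Fin 3 => gaussianReal 0 1))
    ((gaussianReal 0 1).prod ((gaussianReal 0 1).prod (gaussianReal 0 1))) := by
  have h1 := measurePreserving_piFinSuccAbove (fun _ : Fin 3 => gaussianReal 0 1) 0
  have h2 := measurePreserving_finTwoArrow (gaussianReal 0 1)
  have h3 := (MeasurePreserving.id (gaussianReal 0 1)).prod h2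
  exact h3.comp h1

theorem mx_eq {N : ℕ} (a : Fin 3 → Eu N) (ha : a 0 + a 1 + a 2 = 0) (x : Eu N) :
    mx a x = max (max ⟪a 0, x⟫_ℝ ⟪a 1, x⟫_ℝ) (-⟪a 0, x⟫_ℝ - ⟪a 1, x⟫_ℝ) := by
  have h2 : ⟪a 2, x⟫_ℝ = -⟪a 0, x⟫_ℝ - ⟪a 1, x⟫_ℝ := by
    have : ⟪a 0 + a 1 + a 2, x⟫_ℝ = 0 := by rw [ha, inner_zero_left]
    rw [inner_add_left, inner_add_left] at this
    linarith
  rw [← h2]
  unfold mx
  apply le_antisymm
  · apply Finset.sup'_le
    intro i _
    fin_cases i
    · exact le_trans (le_max_left _ _) (le_max_left _ _)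
    · exact le_trans (le_max_right _ _) (le_max_left _ _)
    · exact le_max_right _ _
  · apply max_le (max_le _ _) _
    · exact Finset.le_sup' (fun i => ⟪a i, x⟫_ℝ) (Finset.mem_univ 0)
    · exact Finset.le_sup' (fun i => ⟪a i, x⟫_ℝ) (Finset.mem_univ 1)
    · exact Finset.le_sup' (fun i => ⟪a i, x⟫_ℝ) (Finset.mem_univ 2)

theorem coord (b α0 α1 β0 β1 δ ρ : ℝ) (hb : 0 < b) (hβ : 0 < β0) (hδ : 0 < δ) (hρ : 0 < ρ)
    (h : 9 * ρ ^ 2 ≤ 2 * Real.pi * (β0 * δ)) :
    √(2 * Real.pi) * ∫ y : Eu 3, max 0 (b * y 0 - MM α0 α1 β0 β1 δ (y 0) (y 1) (y 2))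
      ∂(stdGaussian (Eu 3)) ≤ b - ρ * Real.arctan (b / ρ) := by
  have hMc := MM_cont α0 α1 β0 β1 δ
  have hc : Continuous (fun y : ℝ × ℝ × ℝ => max 0 (b * y.1 - MM α0 α1 β0 β1 δ y.1 y.2.1 y.2.2)) := by
    fun_prop
  have h1 : ∫ y : Eu 3, max 0 (b * y 0 - MM α0 α1 β0 β1 δ (y 0) (y 1) (y 2)) ∂(stdGaussian (Eu 3)) =
      ∫ y : ℝ × ℝ × ℝ, max 0 (b * y.1 - MM α0 α1 β0 β1 δ y.1 y.2.1 y.2.2)
      ∂((gaussianReal 0 1).prod ((gaussianReal 0 1).prod (gaussianReal 0 1))) := by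
    rw [← mp3.map_eq, integral_map mp3.measurable.aemeasurable hc.aestronglyMeasurable,
      ← map_pi_eq_stdGaussian, integral_map (by fun_prop)]
    apply Continuous.aestronglyMeasurable
    have : Continuous (fun y : Eu 3 => (y 0, y 1, y 2)) := by fun_prop
    exact hc.comp this
  have hR : 0 ≤ b - ρ * Real.arctan (b / ρ) := by
    have := arctan_le (div_nonneg hb.le hρ.le)
    have h2 : ρ * Real.arctan (b / ρ) ≤ ρ * (b / ρ) := mul_le_mul_of_nonneg_left this hρ.le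
    have h3 : ρ * (b / ρ) = b := by field_simp
    linarith
  have hnn : 0 ≤ᵐ[(gaussianReal 0 1).prod ((gaussianReal 0 1).prod (gaussianReal 0 1))]
      (fun y : ℝ × ℝ × ℝ => max 0 (b * y.1 - MM α0 α1 β0 β1 δ y.1 y.2.1 y.2.2)) :=
    Filter.Eventually.of_forall (fun y => le_max_left _ _)
  rw [h1, integral_eq_lintegral_of_nonneg_ae hnn hc.aestronglyMeasurable]
  have h2 := ENNReal.toReal_le_of_le_ofReal (mul_nonneg (by positivity) hR)
    (main3 b α0 α1 β0 β1 δ ρ hb hβ hδ hρ h)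
  calc √(2 * Real.pi) * _ ≤ √(2 * Real.pi) * ((√(2 * Real.pi))⁻¹ * (b - ρ * Real.arctan (b / ρ))) :=
        mul_le_mul_of_nonneg_left h2 (by positivity)
    _ = b - ρ * Real.arctan (b / ρ) := by
        have : √(2 * Real.pi) ≠ 0 := by positivity
        field_simp

theorem in3 (x1 x2 x3 y1 y2 y3 : ℝ) : ⟪(!₂[x1, x2, x3] : Eu 3), !₂[y1, y2, y3]⟫_ℝ = x1 * y1 + x2 * y2 + x3 * y3 := by
  rw [PiLp.inner_apply, Fin.sum_univ_three]
  simp
  ring

theorem main : Spec.NPR := by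
  intro N a v ρ ha hρ h
  by_cases hv : v = 0
  · subst hv
    have h1 : ∀ x : Eu N, max 0 (⟪(0 : Eu N), x⟫_ℝ - mx a x) = 0 := by
      intro x
      rw [mx_eq a ha, inner_zero_left]
      apply max_eq_left
      by_contra hc
      push Not at hc
      have hc' : max (max ⟪a 0, x⟫_ℝ ⟪a 1, x⟫_ℝ) (-⟪a 0, x⟫_ℝ - ⟪a 1, x⟫_ℝ) < 0 := by linarith
      have h1 := lt_of_le_of_lt (le_max_left _ _) hc'
      have h2 := lt_of_le_of_lt (le_max_left _ _) h1
      have h3 := lt_of_le_of_lt (le_max_right _ _) h1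
      have h4 := lt_of_le_of_lt (le_max_right _ _) hc'
      linarith
    unfold ex
    simp only [h1]
    simp
  have hb : 0 < ‖v‖ := norm_pos_iff.2 hv
  set b := ‖v‖ with hbd
  set G := gram3 (a 0) (a 1) v with hG
  have hGpos : 0 < G := by
    by_contra hc
    push Not at hc
    have h1 : 0 < 81 * ρ ^ 4 * b ^ 2 := by positivity
    have h2 : 4 * Real.pi ^ 2 * G ≤ 0 := mul_nonpos_of_nonneg_of_nonpos (by positivity) hc
    linarith
  set A := ‖a 0‖ ^ 2 with hA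
  set B := ‖a 1‖ ^ 2 with hB
  set C := ⟪a 0, a 1⟫_ℝ with hC
  set P := ⟪a 0, v⟫_ℝ with hP
  set Q := ⟪a 1, v⟫_ℝ with hQ
  have hGe : G = A * B * b ^ 2 + 2 * C * Q * P - A * Q ^ 2 - B * P ^ 2 - b ^ 2 * C ^ 2 := by
    rw [hG, gram3]
  have hb0 : b ≠ 0 := hb.ne'
  have hCS : P ^ 2 ≤ A * b ^ 2 := by
    have := abs_real_inner_le_norm (a 0) v
    have h2 : P ^ 2 ≤ (‖a 0‖ * ‖v‖) ^ 2 := by
      rw [← sq_abs P]
      exact pow_le_pow_left₀ (abs_nonneg _) this 2
    rw [mul_pow] at h2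
    exact h2
  have hW : 0 < A - P ^ 2 / b ^ 2 := by
    rw [sub_pos, div_lt_iff₀ (by positivity)]
    rcases hCS.lt_or_eq with h1 | h1
    · exact h1
    · exfalso
      have h2 : G * b ^ 2 = - (b ^ 2 * C - P * Q) ^ 2 := by
        rw [hGe]
        linear_combination (Q ^ 2 - b ^ 2 * B) * h1
      have h3 : 0 < G * b ^ 2 := by positivity
      nlinarith [sq_nonneg (b ^ 2 * C - P * Q)]
  set β0 := √(A - P ^ 2 / b ^ 2) with hβ0
  have hβ : 0 < β0 := Real.sqrt_pos.2 hW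
  have hβsq : β0 ^ 2 = A - P ^ 2 / b ^ 2 := Real.sq_sqrt hW.le
  have hδ' : 0 < G / (b ^ 2 * β0 ^ 2) := by positivity
  set δ := √(G / (b ^ 2 * β0 ^ 2)) with hδd
  have hδ : 0 < δ := Real.sqrt_pos.2 hδ'
  have hδsq : δ ^ 2 = G / (b ^ 2 * β0 ^ 2) := Real.sq_sqrt hδ'.le
  set α0 := P / b with hα0
  set α1 := Q / b with hα1
  set β1 := (C - α0 * α1) / β0 with hβ1
  have hAe : A = α0 ^ 2 + β0 ^ 2 := by rw [hβsq, hα0]; field_simp; ring
  have hCe : C = α0 * α1 + β0 * β1 := by rw [hβ1]; field_simp; ring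
  have hPe : P = b * α0 := by rw [hα0]; field_simp
  have hQe : Q = b * α1 := by rw [hα1]; field_simp
  have hBe : B = α1 ^ 2 + β1 ^ 2 + δ ^ 2 := by
    have h1 : δ ^ 2 * (b ^ 2 * β0 ^ 2) = G := by rw [hδsq]; field_simp
    have h2 : (B - (α1 ^ 2 + β1 ^ 2 + δ ^ 2)) * (b ^ 2 * β0 ^ 2) = 0 := by
      have h3 : G = (α0 ^ 2 + β0 ^ 2) * B * b ^ 2 + 2 * (α0 * α1 + β0 * β1) * (b * α1) * (b * α0)
        - (α0 ^ 2 + β0 ^ 2) * (b * α1) ^ 2 - B * (b * α0) ^ 2 - b ^ 2 * (α0 * α1 + β0 * β1) ^ 2 := by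
        rw [hGe, ← hAe, ← hCe, ← hPe, ← hQe]
      linear_combination (-1) * h1 - h3
    have h4 : b ^ 2 * β0 ^ 2 ≠ 0 := by positivity
    have := (mul_eq_zero.1 h2).resolve_right h4
    linarith
  have hcond : 9 * ρ ^ 2 ≤ 2 * Real.pi * (β0 * δ) := by
    have h1 : (9 * ρ ^ 2) ^ 2 ≤ (2 * Real.pi * (β0 * δ)) ^ 2 := by
      have h2 : (2 * Real.pi * (β0 * δ)) ^ 2 * b ^ 2 = 4 * Real.pi ^ 2 * G := by
        have h3 : δ ^ 2 * (b ^ 2 * β0 ^ 2) = G := by rw [hδsq]; field_simp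
        rw [← h3]; ring
      have h4 : (9 * ρ ^ 2) ^ 2 * b ^ 2 ≤ (2 * Real.pi * (β0 * δ)) ^ 2 * b ^ 2 := by
        rw [h2]; linarith [h]
      exact le_of_mul_le_mul_right h4 (by positivity)
    exact (pow_le_pow_iff_left₀ (by positivity) (by positivity) (by norm_num)).1 h1
  have e1 : ⟪v, v⟫_ℝ = b ^ 2 := real_inner_self_eq_norm_sq v
  have e2 : ⟪a 0, a 0⟫_ℝ = A := real_inner_self_eq_norm_sq _
  have e3 : ⟪a 1, a 1⟫_ℝ = B := real_inner_self_eq_norm_sq _
  have e4 : ⟪v, a 0⟫_ℝ = P := real_inner_comm _ _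
  have e5 : ⟪v, a 1⟫_ℝ = Q := real_inner_comm _ _
  have e6 : ⟪a 1, a 0⟫_ℝ = C := real_inner_comm _ _
  have e4' : ⟪a 0, v⟫_ℝ = P := rfl
  have e5' : ⟪a 1, v⟫_ℝ = Q := rfl
  have e6' : ⟪a 0, a 1⟫_ℝ = C := rfl
  clear_value A B C P Q α0 α1 β1 β0 δ b
  have key := coord b α0 α1 β0 β1 δ ρ hb hβ hδ hρ hcond
  have htr := H3PrGauss.law N 3 (Fin 3) inferInstance ![v, a 0, a 1]
    ![!₂[b, 0, 0], !₂[α0, β0, 0], !₂[α1, β1, δ]] (by
      intro i j
      have f1 : ⟪(!₂[b, 0, 0] : Eu 3), !₂[b, 0, 0]⟫_ℝ = b ^ 2 := by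
        rw [in3]; ring
      have f2 : ⟪(!₂[b, 0, 0] : Eu 3), !₂[α0, β0, 0]⟫_ℝ = P := by
        rw [in3, hPe]; ring
      have f3 : ⟪(!₂[b, 0, 0] : Eu 3), !₂[α1, β1, δ]⟫_ℝ = Q := by
        rw [in3, hQe]; ring
      have f4 : ⟪(!₂[α0, β0, 0] : Eu 3), !₂[α0, β0, 0]⟫_ℝ = A := by
        rw [in3, hAe]; ring
      have f5 : ⟪(!₂[α0, β0, 0] : Eu 3), !₂[α1, β1, δ]⟫_ℝ = C := by
        rw [in3, hCe]; ring
      have f6 : ⟪(!₂[α1, β1, δ] : Eu 3), !₂[α1, β1, δ]⟫_ℝ = B := by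
        rw [in3, hBe]; ring
      have f2' := (real_inner_comm (!₂[b, 0, 0] : Eu 3) !₂[α0, β0, 0]).trans f2
      have f3' := (real_inner_comm (!₂[b, 0, 0] : Eu 3) !₂[α1, β1, δ]).trans f3
      have f5' := (real_inner_comm (!₂[α0, β0, 0] : Eu 3) !₂[α1, β1, δ]).trans f5
      fin_cases i <;> fin_cases j
      · exact e1.trans f1.symm
      · exact e4.trans f2.symm
      · exact e5.trans f3.symm
      · exact e4'.trans f2'.symm
      · exact e2.trans f4.symm
      · exact e6'.trans f5.symm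
      · exact e5'.trans f3'.symm
      · exact e6.trans f5'.symm
      · exact e3.trans f6.symm)
    (fun t => max 0 (t 0 - max (max (t 1) (t 2)) (-t 1 - t 2))) (by fun_prop)
  unfold ex
  have h5 : ∀ x : Eu N, max 0 (⟪v, x⟫_ℝ - mx a x) = (fun t : Fin 3 → ℝ => max 0 (t 0 - max (max (t 1) (t 2)) (-t 1 - t 2)))
      (fun i => ⟪(![v, a 0, a 1] : Fin 3 → Eu N) i, x⟫_ℝ) := by
    intro x
    rw [mx_eq a ha]
    simp
  simp only [h5]
  rw [htr]
  refine le_trans (le_of_eq ?_) key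
  congr 1
  apply integral_congr_ae
  refine Filter.Eventually.of_forall (fun y => ?_)
  simp [PiLp.inner_apply, Fin.sum_univ_three, MM]
  ring_nf

end Crest.Agent.H3PrNPR
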