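import Crest.Agent.H25PrP1

/-! Module M5a (Spec.NP) of rid 215, by helper6. -/

set_option autoImplicit false
set_option linter.all false

open MeasureTheory ProbabilityTheory
open scoped InnerProductSpace

namespace Crest.Agent.H6PrNP

open Crest.Agent.H18Pr Crest.Agent.H25PrP1

/-- integrability of the gain over `mx a` -/
theorem int_gainM (hI : Spec.Int) {N : ℕ} (v : Eu N) (a : Fin 3 → Eu N) :
    Integrable (fun x => max 0 (⟪v, x⟫_ℝ - mx a x)) (stdGaussian (Eu N)) := by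
  have h : Integrable (fun x : Eu N => ⟪v, x⟫_ℝ - mx a x) (stdGaussian (Eu N)) :=
    (int_inner hI v).sub (int_mx hI a)
  have := h.pos_part
  refine this.congr ?_
  filter_upwards with x
  exact max_comm _ _

/-- the centred triangle -/
noncomputable def tri {N : ℕ} (y0 y1 y2 Y : Eu N) : Fin 3 → Eu N :=
  ![y0 + (1 / 3 : ℝ) • Y, y1 + (1 / 3 : ℝ) • Y, y2 + (1 / 3 : ℝ) • Y]

/-- pointwise bound for the maximum -/
theorem pt {N m : ℕ} (y : Fin (m + 3) → Eu N) (Y : Eu N) (x : Eu N) :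
    mx y x ≤ ⟪(-(1 / 3) : ℝ) • Y, x⟫_ℝ + mx (tri (y 0) (y 1) (y 2) Y) x
      + (3 / 4 * ∑ j : Fin m, max 0 (⟪(4 / 3 : ℝ) • y j.succ.succ.succ, x⟫_ℝ
            - mx (tri (y 0) (y 1) (y 2) Y) x)
        + 1 / 4 * max 0 (⟪(4 / 3 : ℝ) • Y, x⟫_ℝ - mx (tri (y 0) (y 1) (y 2) Y) x)) := by
  set M := mx (tri (y 0) (y 1) (y 2) Y) x with hM
  have hM0 : ⟪y 0, x⟫_ℝ + 1 / 3 * ⟪Y, x⟫_ℝ ≤ M := by
    have := Finset.le_sup' (fun i => ⟪tri (y 0) (y 1) (y 2) Y i, x⟫_ℝ) (Finset.mem_univ (0 : Fin 3))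
    have e : ⟪tri (y 0) (y 1) (y 2) Y 0, x⟫_ℝ = ⟪y 0, x⟫_ℝ + 1 / 3 * ⟪Y, x⟫_ℝ := by
      simp [tri, inner_add_left, real_inner_smul_left]
    rw [← e]; exact this
  have hM1 : ⟪y 1, x⟫_ℝ + 1 / 3 * ⟪Y, x⟫_ℝ ≤ M := by
    have := Finset.le_sup' (fun i => ⟪tri (y 0) (y 1) (y 2) Y i, x⟫_ℝ) (Finset.mem_univ (1 : Fin 3))
    have e : ⟪tri (y 0) (y 1) (y 2) Y 1, x⟫_ℝ = ⟪y 1, x⟫_ℝ + 1 / 3 * ⟪Y, x⟫_ℝ := by
      simp [tri, inner_add_left, real_inner_smul_left]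
    rw [← e]; exact this
  have hM2 : ⟪y 2, x⟫_ℝ + 1 / 3 * ⟪Y, x⟫_ℝ ≤ M := by
    have := Finset.le_sup' (fun i => ⟪tri (y 0) (y 1) (y 2) Y i, x⟫_ℝ) (Finset.mem_univ (2 : Fin 3))
    have e : ⟪tri (y 0) (y 1) (y 2) Y 2, x⟫_ℝ = ⟪y 2, x⟫_ℝ + 1 / 3 * ⟪Y, x⟫_ℝ := by
      simp [tri, inner_add_left, real_inner_smul_left]
    rw [← e]; exact this
  have hS : 0 ≤ ∑ j : Fin m, max 0 (⟪(4 / 3 : ℝ) • y j.succ.succ.succ, x⟫_ℝ - M) :=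
    Finset.sum_nonneg fun j _ => le_max_left _ _
  have hM' : 0 ≤ max 0 (⟪(4 / 3 : ℝ) • Y, x⟫_ℝ - M) := le_max_left _ _
  have hc : ⟪(-(1 / 3) : ℝ) • Y, x⟫_ℝ = -(1 / 3) * ⟪Y, x⟫_ℝ := real_inner_smul_left _ _ _
  rw [hc]
  unfold mx
  apply Finset.sup'_le
  intro i _
  refine Fin.cases ?_ (fun i => ?_) i
  · change ⟪y 0, x⟫_ℝ ≤ _
    linarith
  · refine Fin.cases ?_ (fun i => ?_) i
    · change ⟪y 1, x⟫_ℝ ≤ _
      linarith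
    · refine Fin.cases ?_ (fun j => ?_) i
      · change ⟪y 2, x⟫_ℝ ≤ _
        linarith
      · have hj : max 0 (⟪(4 / 3 : ℝ) • y j.succ.succ.succ, x⟫_ℝ - M)
            ≤ ∑ j : Fin m, max 0 (⟪(4 / 3 : ℝ) • y j.succ.succ.succ, x⟫_ℝ - M) :=
          Finset.single_le_sum
            (f := fun j : Fin m => max 0 (⟪(4 / 3 : ℝ) • y j.succ.succ.succ, x⟫_ℝ - M))
            (fun j _ => le_max_left _ _) (Finset.mem_univ j)
        have e1 := le_max_right 0 (⟪(4 / 3 : ℝ) • y j.succ.succ.succ, x⟫_ℝ - M)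
        have e2 := le_max_right 0 (⟪(4 / 3 : ℝ) • Y, x⟫_ℝ - M)
        have f1 : ⟪(4 / 3 : ℝ) • y j.succ.succ.succ, x⟫_ℝ = 4 / 3 * ⟪y j.succ.succ.succ, x⟫_ℝ :=
          real_inner_smul_left _ _ _
        have f2 : ⟪(4 / 3 : ℝ) • Y, x⟫_ℝ = 4 / 3 * ⟪Y, x⟫_ℝ := real_inner_smul_left _ _ _
        linarith

/-- lower bound for the Gram determinant -/
theorem gram_lower {N : ℕ} (a0 a1 a2 v : Eu N) (h0 : a0 + a1 + a2 = 0) (μ L : ℝ) (hL : 0 ≤ L)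
    (h01 : ‖a0 - a1‖ ≤ L) (h02 : ‖a0 - a2‖ ≤ L) (h12 : ‖a1 - a2‖ ≤ L)
    (p0 : ⟪v, a0⟫_ℝ ≤ μ) (p1 : ⟪v, a1⟫_ℝ ≤ μ) (p2 : ⟪v, a2⟫_ℝ ≤ μ) :
    ‖v‖ ^ 2 * (‖a0‖ ^ 2 * ‖a1‖ ^ 2 - ⟪a0, a1⟫_ℝ ^ 2) - μ ^ 2 * L ^ 2 ≤ gram3 a0 a1 v := by
  set P0 := ⟪v, a0⟫_ℝ with hP0
  set P1 := ⟪v, a1⟫_ℝ with hP1
  set P2 := ⟪v, a2⟫_ℝ with hP2
  have hsum : P0 + P1 + P2 = 0 := by
    rw [hP0, hP1, hP2, ← inner_add_right, ← inner_add_right, h0, inner_zero_right]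
  have ha2 : a2 = -a0 - a1 := by
    have : a2 = -(a0 + a1) := by
      rw [eq_neg_iff_add_eq_zero, add_comm]; exact h0
    rw [this]; abel
  have hw : P1 • a0 - P0 • a1 = ((μ - P2) / 3) • (a0 - a1) - ((μ - P1) / 3) • (a0 - a2)
      + ((μ - P0) / 3) • (a1 - a2) := by
    have hp2 : P2 = -P0 - P1 := by linarith
    rw [ha2, hp2]
    module
  have hn : ‖P1 • a0 - P0 • a1‖ ≤ μ * L := by
    rw [hw]
    have t1 : ‖((μ - P2) / 3) • (a0 - a1)‖ ≤ (μ - P2) / 3 * L := by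
      rw [norm_smul, Real.norm_of_nonneg (by linarith)]
      exact mul_le_mul_of_nonneg_left h01 (by linarith)
    have t2 : ‖((μ - P1) / 3) • (a0 - a2)‖ ≤ (μ - P1) / 3 * L := by
      rw [norm_smul, Real.norm_of_nonneg (by linarith)]
      exact mul_le_mul_of_nonneg_left h02 (by linarith)
    have t3 : ‖((μ - P0) / 3) • (a1 - a2)‖ ≤ (μ - P0) / 3 * L := by
      rw [norm_smul, Real.norm_of_nonneg (by linarith)]
      exact mul_le_mul_of_nonneg_left h12 (by linarith)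
    have := norm_add_le (((μ - P2) / 3) • (a0 - a1) - ((μ - P1) / 3) • (a0 - a2))
      (((μ - P0) / 3) • (a1 - a2))
    have h2 := norm_sub_le (((μ - P2) / 3) • (a0 - a1)) (((μ - P1) / 3) • (a0 - a2))
    have e : (μ - P2) / 3 * L + (μ - P1) / 3 * L + (μ - P0) / 3 * L = μ * L := by
      have : μ - P2 + (μ - P1) + (μ - P0) = 3 * μ := by linarith
      calc (μ - P2) / 3 * L + (μ - P1) / 3 * L + (μ - P0) / 3 * L
          = (μ - P2 + (μ - P1) + (μ - P0)) / 3 * L := by ring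
        _ = μ * L := by rw [this]; ring
    linarith
  have hsq : ‖P1 • a0 - P0 • a1‖ ^ 2 ≤ μ ^ 2 * L ^ 2 := by
    rw [← mul_pow]
    exact pow_le_pow_left₀ (norm_nonneg _) hn 2
  have hexp : ‖P1 • a0 - P0 • a1‖ ^ 2
      = P1 ^ 2 * ‖a0‖ ^ 2 - 2 * (P0 * P1 * ⟪a0, a1⟫_ℝ) + P0 ^ 2 * ‖a1‖ ^ 2 := by
    rw [norm_sub_sq_real, norm_smul, norm_smul, mul_pow, mul_pow, Real.norm_eq_abs,
      Real.norm_eq_abs, sq_abs, sq_abs, real_inner_smul_left, real_inner_smul_right]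
    ring
  have hg : gram3 a0 a1 v = ‖v‖ ^ 2 * (‖a0‖ ^ 2 * ‖a1‖ ^ 2 - ⟪a0, a1⟫_ℝ ^ 2)
      - ‖P1 • a0 - P0 • a1‖ ^ 2 := by
    rw [hexp]
    unfold gram3
    rw [real_inner_comm v a1, real_inner_comm v a0]
    ring
  rw [hg]
  linarith


/-- gain of a vector over the triangle -/
theorem gain (hNPR : Spec.NPR) {N : ℕ} (a : Fin 3 → Eu N) (h0 : a 0 + a 1 + a 2 = 0) (v : Eu N)
    (D ρ0 r q2 : ℝ) (hD : 0 < D) (hq2 : 0 < q2) (hρ0 : 0 < ρ0)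
    (hρ : ρ0 ^ 2 = 2 * Real.pi / 27 * √D) (hr : 0 < r)
    (hG : ‖a 0‖ ^ 2 * ‖a 1‖ ^ 2 - ⟪a 0, a 1⟫_ℝ ^ 2 = D / 9)
    (h01 : 3 / 2 * q2 * ‖a 0 - a 1‖ ^ 2 ≤ D) (h02 : 3 / 2 * q2 * ‖a 0 - a 2‖ ^ 2 ≤ D)
    (h12 : 3 / 2 * q2 * ‖a 1 - a 2‖ ^ 2 ≤ D)
    (p0 : ⟪v, a 0⟫_ℝ ≤ ‖v‖ ^ 2 / 4) (p1 : ⟪v, a 1⟫_ℝ ≤ ‖v‖ ^ 2 / 4)
    (p2 : ⟪v, a 2⟫_ℝ ≤ ‖v‖ ^ 2 / 4) (hκ : 3 / 8 * ‖v‖ ^ 2 ≤ (1 - r ^ 4) * q2) :
    ex (fun x => max 0 (⟪v, x⟫_ℝ - mx a x)) ≤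
      ‖v‖ - (r * ρ0) * Real.arctan (‖v‖ / (r * ρ0)) := by
  apply hNPR N a v (r * ρ0) h0 (by positivity)
  set L := √(2 / 3 * D / q2) with hL
  have hL0 : 0 ≤ L := Real.sqrt_nonneg _
  have hL2 : L ^ 2 = 2 / 3 * D / q2 := Real.sq_sqrt (by positivity)
  have side : ∀ w : Eu N, 3 / 2 * q2 * ‖w‖ ^ 2 ≤ D → ‖w‖ ≤ L := by
    intro w hw
    apply Real.le_sqrt_of_sq_le
    rw [le_div_iff₀ hq2]
    linarith
  have hg := gram_lower (a 0) (a 1) (a 2) v h0 (‖v‖ ^ 2 / 4) L hL0 (side _ h01) (side _ h02)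
    (side _ h12) p0 p1 p2
  rw [hG, hL2] at hg
  have hρ4 : ρ0 ^ 4 = 4 * Real.pi ^ 2 / 729 * D := by
    have : ρ0 ^ 4 = (ρ0 ^ 2) ^ 2 := by ring
    rw [this, hρ, mul_pow, Real.sq_sqrt hD.le]
    ring
  have hv := sq_nonneg ‖v‖
  have hmain : r ^ 4 * (D / 9) * ‖v‖ ^ 2 ≤ gram3 (a 0) (a 1) v := by
    refine le_trans ?_ hg
    have e1 : (‖v‖ ^ 2 / 4) ^ 2 * (2 / 3 * D / q2) = ‖v‖ ^ 2 * (D / 9) * (3 / 8 * ‖v‖ ^ 2 / q2) := by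
      ring
    rw [e1]
    have e2 : 3 / 8 * ‖v‖ ^ 2 / q2 ≤ 1 - r ^ 4 := by
      rw [div_le_iff₀ hq2]; exact hκ
    have e3 : ‖v‖ ^ 2 * (D / 9) * (3 / 8 * ‖v‖ ^ 2 / q2) ≤ ‖v‖ ^ 2 * (D / 9) * (1 - r ^ 4) :=
      mul_le_mul_of_nonneg_left e2 (by positivity)
    linarith
  have e4 : 81 * (r * ρ0) ^ 4 * ‖v‖ ^ 2 = 4 * Real.pi ^ 2 * (r ^ 4 * (D / 9) * ‖v‖ ^ 2) := by
    rw [mul_pow, hρ4]; ring
  rw [e4]
  exact mul_le_mul_of_nonneg_left hmain (by positivity)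

/-- arctan estimate -/
theorem arc_le (c V ρ : ℝ) (hρ : 0 < ρ) (h : V / ρ - Real.arctan (V / ρ) ≤ c * (V / ρ) ^ 2) :
    V - ρ * Real.arctan (V / ρ) ≤ c * V ^ 2 / ρ := by
  have h1 : ρ * (V / ρ - Real.arctan (V / ρ)) ≤ ρ * (c * (V / ρ) ^ 2) :=
    mul_le_mul_of_nonneg_left h hρ.le
  have e1 : ρ * (V / ρ - Real.arctan (V / ρ)) = V - ρ * Real.arctan (V / ρ) := by
    field_simp
  have e2 : ρ * (c * (V / ρ) ^ 2) = c * V ^ 2 / ρ := by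
    field_simp
  rw [← e1, ← e2]; exact h1

theorem sc1 (t q : ℝ) (h : t ≤ 0.3 * q) (hq : 0 ≤ q) :
    3 / 8 * (16 / 9 * t) ≤ (1 - (0.9457 : ℝ) ^ 4) * q := by
  norm_num at h ⊢
  linarith

theorem sc2 (t q : ℝ) (h : t ≤ 0.5 * q) (hq : 0 ≤ q) :
    3 / 8 * (16 / 9 * t) ≤ (1 - (0.9036 : ℝ) ^ 4) * q := by
  norm_num at h ⊢
  linarith

theorem sc3 (q D : ℝ) (h : 5.65 * q ^ 2 ≤ D) : (2.3769 : ℝ) * q ≤ √D := by
  apply Real.le_sqrt_of_sq_le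
  refine le_trans ?_ h
  have := sq_nonneg q
  norm_num at this ⊢
  nlinarith

theorem sc4 (t q D : ℝ) (ht : t ≤ 0.3 * q) (hq : 0 ≤ q) (hD : 5.65 * q ^ 2 ≤ D) (hD0 : 0 < D) :
    16 / 9 * t / ((0.9457 : ℝ) ^ 2 * (2 * Real.pi / 27 * √D)) ≤ 1.08 := by
  have hsq := sc3 q D hD
  have hsD : 0 < √D := Real.sqrt_pos.2 hD0
  have hpi2 : (3.1415 : ℝ) < Real.pi := Real.pi_gt_d4
  have hpi := Real.pi_pos
  rw [div_le_iff₀ (by positivity)]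
  have h4 : (3.1415 : ℝ) * (2.3769 * q) ≤ Real.pi * √D := by
    apply mul_le_mul hpi2.le hsq (by positivity) hpi.le
  have e : 1.08 * ((0.9457 : ℝ) ^ 2 * (2 * Real.pi / 27 * √D))
      = (1.08 * 0.9457 ^ 2 * 2 / 27) * (Real.pi * √D) := by ring
  rw [e]
  have h5 : (1.08 * (0.9457 : ℝ) ^ 2 * 2 / 27) * ((3.1415 : ℝ) * (2.3769 * q)) ≤
      (1.08 * 0.9457 ^ 2 * 2 / 27) * (Real.pi * √D) :=
    mul_le_mul_of_nonneg_left h4 (by positivity)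
  refine le_trans ?_ h5
  norm_num at ht ⊢
  linarith

theorem sc5 (Q η ρ0 : ℝ) (hρ : 0 < ρ0) (hη : 0 ≤ η) (hQ : η ≤ Q) :
    3 / 4 * (0.2173 * (16 / 9 * Q) / (0.9457 * ρ0))
      + 1 / 4 * (0.2299 * (16 / 9 * η) / (0.9036 * ρ0))
      ≤ 4 / 3 * 0.236 * (Q + η / 3) / ρ0 := by
  rw [le_div_iff₀ hρ]
  have : (3 / 4 * (0.2173 * (16 / 9 * Q) / (0.9457 * ρ0))
      + 1 / 4 * (0.2299 * (16 / 9 * η) / (0.9036 * ρ0))) * ρ0
      = 3 / 4 * (0.2173 * (16 / 9 * Q) / 0.9457)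
      + 1 / 4 * (0.2299 * (16 / 9 * η) / 0.9036) := by
    field_simp
  rw [this]
  norm_num
  linarith

theorem sc6 (ξ q l D : ℝ) (h : ξ ≤ 2 / 3 * q) (hl : 3 / 2 * q * l ^ 2 ≤ D) :
    ξ * l ^ 2 ≤ 4 / 9 * D := by
  have := mul_le_mul_of_nonneg_right h (sq_nonneg l)
  linarith

set_option maxHeartbeats 2000000 in
theorem np (hV : Spec.V3) (hNPR : Spec.NPR) (hH : Spec.HLem) (hN6 : Spec.N6) (hArc : Spec.Arc)
    (hI : Spec.Int) (hLin : Spec.Lin) : Spec.NP := by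
  intro N m y hy hq2 hq3 hQ
  set Y : Eu N := ∑ j : Fin (m + 2), y j.succ.succ.succ with hY
  set a : Fin 3 → Eu N := tri (y 0) (y 1) (y 2) Y with ha
  have a0 : a 0 = y 0 + (1 / 3 : ℝ) • Y := rfl
  have a1 : a 1 = y 1 + (1 / 3 : ℝ) • Y := rfl
  have a2 : a 2 = y 2 + (1 / 3 : ℝ) • Y := rfl
  -- sums
  have hsum : y 0 + y 1 + y 2 + Y = 0 := by
    have := hy.sum0
    rw [Fin.sum_univ_succ, Fin.sum_univ_succ, Fin.sum_univ_succ] at this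
    have e : y 0 + (y 1 + (y 2 + Y)) = 0 := this
    rw [← e]; abel
  set QS := ∑ j : Fin (m + 2), ‖y j.succ.succ.succ‖ ^ 2 with hQS
  have htot : ‖y 0‖ ^ 2 + ‖y 1‖ ^ 2 + ‖y 2‖ ^ 2 + QS = 16 := by
    have := hy.tot
    rw [Fin.sum_univ_succ, Fin.sum_univ_succ, Fin.sum_univ_succ] at this
    have e : ‖y 0‖ ^ 2 + (‖y 1‖ ^ 2 + (‖y 2‖ ^ 2 + QS)) = 16 := this
    linarith
  have hcent : a 0 + a 1 + a 2 = 0 := by
    rw [a0, a1, a2]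
    have : y 0 + (1 / 3 : ℝ) • Y + (y 1 + (1 / 3 : ℝ) • Y) + (y 2 + (1 / 3 : ℝ) • Y)
        = y 0 + y 1 + y 2 + Y := by module
    rw [this, hsum]
  -- scalars
  obtain ⟨X, hX⟩ : ∃ X, X = -⟪y 0, y 1⟫_ℝ := ⟨_, rfl⟩
  obtain ⟨W, hW⟩ : ∃ W, W = -⟪y 0, y 2⟫_ℝ := ⟨_, rfl⟩
  obtain ⟨Z, hZ⟩ : ∃ Z, Z = -⟪y 1, y 2⟫_ℝ := ⟨_, rfl⟩
  obtain ⟨s1, hs1⟩ : ∃ s, s = -⟪y 0, Y⟫_ℝ := ⟨_, rfl⟩
  obtain ⟨s2, hs2⟩ : ∃ s, s = -⟪y 1, Y⟫_ℝ := ⟨_, rfl⟩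
  obtain ⟨s3, hs3⟩ : ∃ s, s = -⟪y 2, Y⟫_ℝ := ⟨_, rfl⟩
  have v1 : ((1 : Fin (m + 5)) : ℕ) = 1 := Nat.mod_eq_of_lt (show 1 < m + 5 by omega)
  have v2 : ((2 : Fin (m + 5)) : ℕ) = 2 := Nat.mod_eq_of_lt (show 2 < m + 5 by omega)
  have v3 : ((3 : Fin (m + 5)) : ℕ) = 3 := Nat.mod_eq_of_lt (show 3 < m + 5 by omega)
  have n01 : (0 : Fin (m + 5)) ≠ 1 := by intro h; exact absurd (congrArg Fin.val h) (by simp)
  have n02 : (0 : Fin (m + 5)) ≠ 2 := by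
    intro h; exact absurd (congrArg Fin.val h) (by rw [v2]; simp)
  have n12 : (1 : Fin (m + 5)) ≠ 2 := by
    intro h; exact absurd (congrArg Fin.val h) (by rw [v1, v2]; simp)
  have hX0 : 0 ≤ X := by have := hy.obt 0 1 n01; linarith
  have hW0 : 0 ≤ W := by have := hy.obt 0 2 n02; linarith
  have hZ0 : 0 ≤ Z := by have := hy.obt 1 2 n12; linarith
  have hS : ∀ i : Fin (m + 5), (∀ j : Fin (m + 2), i ≠ j.succ.succ.succ) → ⟪y i, Y⟫_ℝ ≤ 0 := by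
    intro i hi
    rw [hY, inner_sum]
    apply Finset.sum_nonpos
    intro j _
    exact hy.obt _ _ (hi j)
  have hs10 : 0 ≤ s1 := by
    have := hS 0 (fun j h => absurd (congrArg Fin.val h) (by simp))
    linarith
  have hs20 : 0 ≤ s2 := by
    have := hS 1 (fun j h => absurd (congrArg Fin.val h) (by simp))
    linarith
  have hs30 : 0 ≤ s3 := by
    have := hS 2 (fun j h => absurd (congrArg Fin.val h) (by rw [v2]; simp))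
    linarith
  have c10 : ⟪y 1, y 0⟫_ℝ = -X := by rw [hX, neg_neg, real_inner_comm]
  have c20 : ⟪y 2, y 0⟫_ℝ = -W := by rw [hW, neg_neg, real_inner_comm]
  have c21 : ⟪y 2, y 1⟫_ℝ = -Z := by rw [hZ, neg_neg, real_inner_comm]
  have c01 : ⟪y 0, y 1⟫_ℝ = -X := by rw [hX, neg_neg]
  have c02 : ⟪y 0, y 2⟫_ℝ = -W := by rw [hW, neg_neg]
  have c12 : ⟪y 1, y 2⟫_ℝ = -Z := by rw [hZ, neg_neg]
  have d0 : ⟪y 0, Y⟫_ℝ = -s1 := by rw [hs1, neg_neg]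
  have d1 : ⟪y 1, Y⟫_ℝ = -s2 := by rw [hs2, neg_neg]
  have d2 : ⟪y 2, Y⟫_ℝ = -s3 := by rw [hs3, neg_neg]
  have e0 : ⟪Y, y 0⟫_ℝ = -s1 := by rw [real_inner_comm, d0]
  have e1 : ⟪Y, y 1⟫_ℝ = -s2 := by rw [real_inner_comm, d1]
  have e2 : ⟪Y, y 2⟫_ℝ = -s3 := by rw [real_inner_comm, d2]
  have q0e : ‖y 0‖ ^ 2 = X + W + s1 := by
    have : ⟪y 0, y 0 + y 1 + y 2 + Y⟫_ℝ = 0 := by rw [hsum, inner_zero_right]
    rw [inner_add_right, inner_add_right, inner_add_right, real_inner_self_eq_norm_sq, c01, c02,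
      d0] at this
    linarith
  have q1e : ‖y 1‖ ^ 2 = X + Z + s2 := by
    have : ⟪y 1, y 0 + y 1 + y 2 + Y⟫_ℝ = 0 := by rw [hsum, inner_zero_right]
    rw [inner_add_right, inner_add_right, inner_add_right, real_inner_self_eq_norm_sq, c10, c12,
      d1] at this
    linarith
  have q2e : ‖y 2‖ ^ 2 = W + Z + s3 := by
    have : ⟪y 2, y 0 + y 1 + y 2 + Y⟫_ℝ = 0 := by rw [hsum, inner_zero_right]
    rw [inner_add_right, inner_add_right, inner_add_right, real_inner_self_eq_norm_sq, c20, c21,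
      d2] at this
    linarith
  have ηe : ‖Y‖ ^ 2 = s1 + s2 + s3 := by
    have : ⟪Y, y 0 + y 1 + y 2 + Y⟫_ℝ = 0 := by rw [hsum, inner_zero_right]
    rw [inner_add_right, inner_add_right, inner_add_right, real_inner_self_eq_norm_sq, e0, e1,
      e2] at this
    linarith
  have ηQ : ‖Y‖ ^ 2 ≤ QS := by
    apply norm_sum_sq_le
    intro i _ j _ hij
    exact hy.obt _ _ (by
      intro h
      exact hij (Fin.succ_injective _ (Fin.succ_injective _ (Fin.succ_injective _ h))))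
  have hQS2 : QS ≤ 0.5 * ‖y 2‖ ^ 2 := by linarith
  have hq2' : 0 < ‖y 2‖ ^ 2 := by positivity
  have hs01 : ‖y 1‖ ≤ ‖y 0‖ := hy.sorted 0 1 (Fin.zero_le _)
  have hs12 : ‖y 2‖ ≤ ‖y 1‖ := hy.sorted 1 2 (by
    rw [Fin.le_def, v1, v2]; norm_num)
  have hs01' : ‖y 1‖ ^ 2 ≤ ‖y 0‖ ^ 2 := pow_le_pow_left₀ (norm_nonneg _) hs01 2
  have hs12' : ‖y 2‖ ^ 2 ≤ ‖y 1‖ ^ 2 := pow_le_pow_left₀ (norm_nonneg _) hs12 2
  obtain ⟨D, hD⟩ : ∃ D, D = 9 * (X * W + W * Z + Z * X) + s1 * (X + W + 4 * Z)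
      + s2 * (X + 4 * W + Z) + s3 * (4 * X + W + Z) + (s1 * s2 + s1 * s3 + s2 * s3) := ⟨_, rfl⟩
  obtain ⟨k01, k02, k12, kD⟩ := hH X W Z s1 s2 s3 D hX0 hW0 hZ0 hs10 hs20 hs30
    (by linarith) (by linarith) (by linarith) hD
  have l01 : ‖a 0 - a 1‖ ^ 2 = 4 * X + W + Z + s1 + s2 := by
    have : a 0 - a 1 = y 0 - y 1 := by rw [a0, a1]; abel
    rw [this, norm_sub_sq_real, c01, q0e, q1e]; ring
  have l02 : ‖a 0 - a 2‖ ^ 2 = X + 4 * W + Z + s1 + s3 := by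
    have : a 0 - a 2 = y 0 - y 2 := by rw [a0, a2]; abel
    rw [this, norm_sub_sq_real, c02, q0e, q2e]; ring
  have l12 : ‖a 1 - a 2‖ ^ 2 = X + W + 4 * Z + s2 + s3 := by
    have : a 1 - a 2 = y 1 - y 2 := by rw [a1, a2]; abel
    rw [this, norm_sub_sq_real, c12, q1e, q2e]; ring
  rw [← q2e, ← l01] at k01
  rw [← q2e, ← l02] at k02
  rw [← q2e, ← l12] at k12
  rw [← q2e] at kD
  have hDpos : 0 < D := lt_of_lt_of_le (by positivity) kD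
  have na0 : ‖a 0‖ ^ 2 = ‖y 0‖ ^ 2 - 2 / 3 * s1 + 1 / 9 * ‖Y‖ ^ 2 := by
    rw [a0, norm_add_sq_real, norm_smul, real_inner_smul_right, d0, mul_pow,
      Real.norm_of_nonneg (by norm_num)]
    ring
  have na1 : ‖a 1‖ ^ 2 = ‖y 1‖ ^ 2 - 2 / 3 * s2 + 1 / 9 * ‖Y‖ ^ 2 := by
    rw [a1, norm_add_sq_real, norm_smul, real_inner_smul_right, d1, mul_pow,
      Real.norm_of_nonneg (by norm_num)]
    ring
  have ia01 : ⟪a 0, a 1⟫_ℝ = -X - 1 / 3 * s1 - 1 / 3 * s2 + 1 / 9 * ‖Y‖ ^ 2 := by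
    rw [a0, a1, inner_add_left, inner_add_right, inner_add_right, real_inner_smul_left,
      real_inner_smul_left, real_inner_smul_right, real_inner_smul_right, c01, d0, e1,
      real_inner_self_eq_norm_sq]
    ring
  have hG : ‖a 0‖ ^ 2 * ‖a 1‖ ^ 2 - ⟪a 0, a 1⟫_ℝ ^ 2 = D / 9 := by
    rw [na0, na1, ia01, q0e, q1e, ηe, hD]; ring
  set ρ0 := √(2 * Real.pi / 27 * √D) with hρ0
  have hsD : 0 < √D := Real.sqrt_pos.2 hDpos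
  have hpi := Real.pi_pos
  have hρ0pos : 0 < ρ0 := Real.sqrt_pos.2 (by positivity)
  have hρ02 : ρ0 ^ 2 = 2 * Real.pi / 27 * √D := Real.sq_sqrt (by positivity)
  -- inner products of the fresh vectors with the triangle
  have hin : ∀ j : Fin (m + 2), ⟪y j.succ.succ.succ, Y⟫_ℝ ≤ ‖y j.succ.succ.succ‖ ^ 2 := by
    intro j
    rw [hY, inner_sum, ← Finset.add_sum_erase Finset.univ _ (Finset.mem_univ j),
      real_inner_self_eq_norm_sq]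
    have : ∑ x ∈ Finset.univ.erase j, ⟪y j.succ.succ.succ, y x.succ.succ.succ⟫_ℝ ≤ 0 := by
      apply Finset.sum_nonpos
      intro i hi
      exact hy.obt _ _ (by
        intro h
        exact (Finset.ne_of_mem_erase hi).symm
          (Fin.succ_injective _ (Fin.succ_injective _ (Fin.succ_injective _ h))))
    linarith
  have hsortS : ∀ j : Fin (m + 2), ‖y j.succ.succ.succ‖ ^ 2 ≤ 0.3 * ‖y 2‖ ^ 2 := by
    intro j
    refine le_trans ?_ hq3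
    apply pow_le_pow_left₀ (norm_nonneg _)
    apply hy.sorted
    rw [Fin.le_def, v3]
    simp only [Fin.val_succ]
    omega
  have gS : ∀ j : Fin (m + 2),
      ex (fun x => max 0 (⟪(4 / 3 : ℝ) • y j.succ.succ.succ, x⟫_ℝ - mx a x)) ≤
        0.2173 * (16 / 9 * ‖y j.succ.succ.succ‖ ^ 2) / (0.9457 * ρ0) := by
    intro j
    have nv : ‖(4 / 3 : ℝ) • y j.succ.succ.succ‖ ^ 2 = 16 / 9 * ‖y j.succ.succ.succ‖ ^ 2 := by
      rw [norm_smul, mul_pow, Real.norm_of_nonneg (by norm_num)]; norm_num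
    have hp : ∀ i : Fin (m + 5), (∀ j : Fin (m + 2), i ≠ j.succ.succ.succ) →
        ⟪(4 / 3 : ℝ) • y j.succ.succ.succ, y i + (1 / 3 : ℝ) • Y⟫_ℝ ≤
          ‖(4 / 3 : ℝ) • y j.succ.succ.succ‖ ^ 2 / 4 := by
      intro i hi
      rw [nv, real_inner_smul_left, inner_add_right, real_inner_smul_right]
      have h1 := hin j
      have h2 := hy.obt j.succ.succ.succ i (fun h => hi j h.symm)
      linarith
    have hg := gain hNPR a hcent ((4 / 3 : ℝ) • y j.succ.succ.succ) D ρ0 0.9457 (‖y 2‖ ^ 2)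
      hDpos hq2' hρ0pos hρ02 (by norm_num) hG k01 k02 k12
      (by rw [a0]; exact hp 0 (fun j h => absurd (congrArg Fin.val h) (by simp)))
      (by rw [a1]; exact hp 1 (fun j h => absurd (congrArg Fin.val h) (by simp)))
      (by rw [a2]; exact hp 2 (fun j h => absurd (congrArg Fin.val h) (by rw [v2]; simp)))
      (by rw [nv]; exact sc1 _ _ (hsortS j) hq2'.le)
    refine hg.trans ?_
    rw [← nv]
    apply arc_le _ _ _ (by positivity)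
    apply hArc.1 _ (by positivity)
    rw [div_pow, nv, mul_pow, hρ02]
    exact sc4 _ _ _ (hsortS j) hq2'.le kD hDpos
  have gY : ex (fun x => max 0 (⟪(4 / 3 : ℝ) • Y, x⟫_ℝ - mx a x)) ≤
        0.2299 * (16 / 9 * ‖Y‖ ^ 2) / (0.9036 * ρ0) := by
    have nv : ‖(4 / 3 : ℝ) • Y‖ ^ 2 = 16 / 9 * ‖Y‖ ^ 2 := by
      rw [norm_smul, mul_pow, Real.norm_of_nonneg (by norm_num)]; norm_num
    have hp : ∀ (w : Eu N), ⟪Y, w⟫_ℝ ≤ 0 → ⟪(4 / 3 : ℝ) • Y, w + (1 / 3 : ℝ) • Y⟫_ℝ ≤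
          ‖(4 / 3 : ℝ) • Y‖ ^ 2 / 4 := by
      intro w hw
      rw [nv, real_inner_smul_left, inner_add_right, real_inner_smul_right,
        real_inner_self_eq_norm_sq]
      linarith
    have hg := gain hNPR a hcent ((4 / 3 : ℝ) • Y) D ρ0 0.9036 (‖y 2‖ ^ 2)
      hDpos hq2' hρ0pos hρ02 (by norm_num) hG k01 k02 k12
      (by rw [a0]; exact hp _ (by linarith)) (by rw [a1]; exact hp _ (by linarith))
      (by rw [a2]; exact hp _ (by linarith))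
      (by rw [nv]; exact sc2 _ _ (ηQ.trans hQS2) hq2'.le)
    refine hg.trans ?_
    rw [← nv]
    apply arc_le _ _ _ (by positivity)
    apply hArc.2 _ (by positivity)
  -- expectation
  have i1 := int_inner hI ((-(1 / 3) : ℝ) • Y)
  have i2 := int_mx hI a
  have i3 : ∀ j ∈ (Finset.univ : Finset (Fin (m + 2))),
      Integrable (fun x => max 0 (⟪(4 / 3 : ℝ) • y j.succ.succ.succ, x⟫_ℝ - mx a x))
        (stdGaussian (Eu N)) := fun j _ => int_gainM hI _ a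
  have i3' : Integrable (fun x => ∑ j : Fin (m + 2),
      max 0 (⟪(4 / 3 : ℝ) • y j.succ.succ.succ, x⟫_ℝ - mx a x)) (stdGaussian (Eu N)) :=
    integrable_finsetSum _ i3
  have i4 := int_gainM hI ((4 / 3 : ℝ) • Y) a
  have key : ex (mx y) ≤ ex (fun x => ⟪(-(1 / 3) : ℝ) • Y, x⟫_ℝ + mx a x
      + (3 / 4 * ∑ j : Fin (m + 2), max 0 (⟪(4 / 3 : ℝ) • y j.succ.succ.succ, x⟫_ℝ - mx a x)
        + 1 / 4 * max 0 (⟪(4 / 3 : ℝ) • Y, x⟫_ℝ - mx a x))) := by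
    apply ex_mono (int_mx hI y)
    · exact (i1.add i2).add ((i3'.const_mul _).add (i4.const_mul _))
    · intro x
      exact pt (m := m + 2) y Y x
  have key2 : ex (fun x => ⟪(-(1 / 3) : ℝ) • Y, x⟫_ℝ + mx a x
      + (3 / 4 * ∑ j : Fin (m + 2), max 0 (⟪(4 / 3 : ℝ) • y j.succ.succ.succ, x⟫_ℝ - mx a x)
        + 1 / 4 * max 0 (⟪(4 / 3 : ℝ) • Y, x⟫_ℝ - mx a x)))
      = (‖a 0 - a 1‖ + ‖a 1 - a 2‖ + ‖a 0 - a 2‖) / 2 + (3 / 4 * ∑ j : Fin (m + 2),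
          ex (fun x => max 0 (⟪(4 / 3 : ℝ) • y j.succ.succ.succ, x⟫_ℝ - mx a x))
        + 1 / 4 * ex (fun x => max 0 (⟪(4 / 3 : ℝ) • Y, x⟫_ℝ - mx a x))) := by
    rw [← ex_sum _ _ i3]
    have e1 := ex_add (f := fun x => ⟪(-(1 / 3) : ℝ) • Y, x⟫_ℝ + mx a x)
      (g := fun x => 3 / 4 * ∑ j : Fin (m + 2),
          max 0 (⟪(4 / 3 : ℝ) • y j.succ.succ.succ, x⟫_ℝ - mx a x)
        + 1 / 4 * max 0 (⟪(4 / 3 : ℝ) • Y, x⟫_ℝ - mx a x)) (i1.add i2)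
      ((i3'.const_mul _).add (i4.const_mul _))
    have e2 := ex_add i1 i2
    have e3 := ex_add (f := fun x => 3 / 4 * ∑ j : Fin (m + 2),
        max 0 (⟪(4 / 3 : ℝ) • y j.succ.succ.succ, x⟫_ℝ - mx a x))
      (g := fun x => 1 / 4 * max 0 (⟪(4 / 3 : ℝ) • Y, x⟫_ℝ - mx a x))
      (i3'.const_mul _) (i4.const_mul _)
    rw [e1, e2, e3, ex_smul, ex_smul, (hLin N _).1, zero_add]
    congr 1
    exact hV N a
  rw [key2] at key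
  have g1 : ∑ j : Fin (m + 2),
      ex (fun x => max 0 (⟪(4 / 3 : ℝ) • y j.succ.succ.succ, x⟫_ℝ - mx a x))
      ≤ 0.2173 * (16 / 9 * QS) / (0.9457 * ρ0) := by
    rw [hQS, Finset.mul_sum, Finset.mul_sum, Finset.sum_div]
    exact Finset.sum_le_sum fun j _ => gS j
  -- scalar inequality
  have hη0 : 0 ≤ ‖Y‖ ^ 2 := sq_nonneg _
  have hQS0 : 0 ≤ QS := hη0.trans ηQ
  have pos : ∀ w : Eu N, 0 < ‖w‖ ^ 2 → 0 < ‖w‖ := by
    intro w hw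
    rcases (norm_nonneg w).lt_or_eq with h | h
    · exact h
    · rw [← h] at hw; norm_num at hw
  have hξ : QS + ‖Y‖ ^ 2 / 3 ≤ 2 / 3 * ‖y 2‖ ^ 2 := by linarith only [ηQ, hQS2]
  have fin := hN6 ‖a 0 - a 1‖ ‖a 1 - a 2‖ ‖a 0 - a 2‖ D ρ0 (QS + ‖Y‖ ^ 2 / 3)
    (pos _ (by rw [l01]; linarith only [q0e, q1e, hq2', hs01', hs12', hX0]))
    (pos _ (by rw [l12]; linarith only [q1e, q2e, hq2', hs01', hs12', hZ0]))
    (pos _ (by rw [l02]; linarith only [q0e, q2e, hq2', hs01', hs12', hW0]))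
    hDpos
    (by
      have h4 : ∀ t : ℝ, t ^ 4 = (t ^ 2) ^ 2 := fun t => by ring
      rw [h4, h4, h4, l01, l12, l02, hD]; ring)
    hρ0pos hρ02 (by linarith only [hQS0, hη0])
    (by rw [l01, l12, l02]; linarith only [hξ, q0e, q1e, q2e, ηe, hs01', hs12', ηQ, hQS2])
    (sc6 _ _ _ _ hξ k01) (sc6 _ _ _ _ hξ k12) (sc6 _ _ _ _ hξ k02)
    (by rw [l01, l12, l02]; linarith only [htot, q0e, q1e, q2e, ηe])
  have hfin := sc5 QS (‖Y‖ ^ 2) ρ0 hρ0pos hη0 ηQ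
  have hfin2 : 3 / 4 * ∑ j : Fin (m + 2),
      ex (fun x => max 0 (⟪(4 / 3 : ℝ) • y j.succ.succ.succ, x⟫_ℝ - mx a x))
      ≤ 3 / 4 * (0.2173 * (16 / 9 * QS) / (0.9457 * ρ0)) :=
    mul_le_mul_of_nonneg_left g1 (by norm_num)
  have hfin3 : 1 / 4 * ex (fun x => max 0 (⟪(4 / 3 : ℝ) • Y, x⟫_ℝ - mx a x))
      ≤ 1 / 4 * (0.2299 * (16 / 9 * ‖Y‖ ^ 2) / (0.9036 * ρ0)) :=
    mul_le_mul_of_nonneg_left gY (by norm_num)
  linarith only [key, hfin2, hfin3, hfin, fin]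

end Crest.Agent.H6PrNP
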