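import Crest.Agent.H18PrBSD
import Crest.Agent.H18PrBSD1x
import Crest.Agent.H25PrBSC
import Crest.Agent.H13PrBSA
import Crest.Agent.H25PrP1
import Crest.Agent.H25PrV3
import Crest.Agent.H2PrBall
import Crest.Agent.H13PrChi
import Crest.Agent.H28PrG5
import Crest.Agent.H3PrGauss
import Crest.Agent.H3PrNPR
import Crest.Agent.H6PrNP
import Crest.Agent.H15PrHLem
import Crest.Agent.H15PrN6
import Crest.Agent.H15PrArc
set_option autoImplicit false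
open MeasureTheory ProbabilityTheory
open scoped InnerProductSpace

/-! Assembly of the core inequality. -/

namespace Crest.Agent.H18Pr
noncomputable section

theorem bs : Spec.BS := Spec.bs_of H13PrBSA.main bsd1 H25PrBSC.main bsd

theorem cfg_q0 {N m : ℕ} (y : Fin (m + 5) → Eu N) (hy : Cfg y) : ‖y 0‖ ^ 2 ≤ 8 := by
  classical
  have h0 : y 0 = - ∑ i ∈ Finset.univ.erase 0, y i := by
    have := hy.sum0
    rw [← Finset.add_sum_erase _ _ (Finset.mem_univ (0 : Fin (m + 5)))] at this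
    exact eq_neg_of_add_eq_zero_left this
  have h1 : ‖y 0‖ ^ 2 ≤ ∑ i ∈ Finset.univ.erase 0, ‖y i‖ ^ 2 := by
    rw [h0, norm_neg]
    exact H25PrP1.norm_sum_sq_le _ _ (fun i _ j _ hij => hy.obt i j hij)
  have h2 := hy.tot
  rw [← Finset.add_sum_erase _ _ (Finset.mem_univ (0 : Fin (m + 5)))] at h2
  linarith

theorem core_of (hP1 : Spec.P1) (hNP : Spec.NP) (hB3 : Spec.B3b) (hB4a : Spec.B4a) (hB4b : Spec.B4b)
    (hBS : Spec.BS) : Spec.Core := by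
  intro N m y hN hy
  by_cases hp : 16 - ‖y 0‖ ^ 2 - ‖y 1‖ ^ 2 ≤ 2.09
  · exact hP1 N m y hy hp
  push Not at hp
  by_cases hn : ‖y 3‖ ^ 2 ≤ 0.3 * ‖y 2‖ ^ 2 ∧ 16 - ‖y 0‖ ^ 2 - ‖y 1‖ ^ 2 - ‖y 2‖ ^ 2 ≤ 0.5 * ‖y 2‖ ^ 2
  · refine hNP N m y hy ?_ hn.1 hn.2
    by_contra h
    have h0 : ‖y 2‖ = 0 := le_antisymm (not_lt.mp h) (norm_nonneg _)
    rw [h0] at hn
    norm_num at hn hp
    linarith [hn.2]
  · have hreg : 0.3 * ‖y 2‖ ^ 2 ≤ ‖y 3‖ ^ 2 ∨ 0.5 * ‖y 2‖ ^ 2 ≤ 16 - ‖y 0‖ ^ 2 - ‖y 1‖ ^ 2 - ‖y 2‖ ^ 2 := by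
      by_contra hc
      push Not at hc
      exact hn ⟨hc.1.le, hc.2.le⟩
    rcases hBS m (fun i => ‖y i‖ ^ 2) (fun i => sq_nonneg _)
      (fun i j hij => pow_le_pow_left₀ (norm_nonneg _) (hy.sorted i j hij) 2) hy.tot (cfg_q0 y hy) hp.le hreg with
      ⟨β, hβ, h⟩ | ⟨β, hβ, h⟩ | ⟨β, hβ, h⟩
    · exact (hB3 N m y hN hy β hβ).trans h
    · exact (hB4a N m y hN hy β hβ).trans h
    · exact (hB4b N m y hN hy β hβ).trans h

theorem core : Spec.Core := by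
  have hInt := H3PrGauss.int
  have hLaw := H3PrGauss.law
  have hPi := H3PrGauss.pi
  have hLin := H3PrGauss.lin
  have hV3 := H25PrV3.v3 hInt hLaw hLin
  have hSeg := H25PrV3.seg hInt hLaw hLin
  have hG3 := H28PrG5.gl3 hInt hPi hLaw
  have hG4 := H28PrG5.gl4 hInt hPi hLaw
  have hP1 := H25PrP1.p1 hSeg hLin hInt
  have hNP := H6PrNP.np hV3 H3PrNPR.main H15PrHLem.main H15PrN6.main H15PrArc.main hInt hLin
  exact core_of hP1 hNP (H2Pr.B3b hInt hG3 H13PrChi.c3) (H2Pr.B4a hInt hG4 H13PrChi.c4)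
    (H2Pr.B4b hInt hG4 H13PrChi.c4) bs

end
end Crest.Agent.H18Pr
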