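import Mathlib
import Crest.Prelude.Def_QuadricHamiltonian
import Crest.Agent.H18Flow
set_option autoImplicit false
open Set
open scoped ContDiff

namespace Crest.Agent.H18Quadric
open Crest.Agent.H18Flow Crest.GeometryTopology.Quadric

section generic
variable {A : Type*} [CommRing A] [StarRing A] [Algebra ℂ A]

/-- `Im (conj u_j u_k)` in a star algebra -/
noncomputable def p (u : Fin 5 → A) (j k : Fin 5) : A :=
  (-(Complex.I) / 2 : ℂ) • (star (u j) * u k - u j * star (u k))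

/-- the vector field -/
noncomputable def G (u : Fin 5 → A) : Fin 5 → A :=
  ![4 * p u 0 2 * u 1 - (2 - 4 * p u 0 1) * u 2 - 4 * p u 0 3 * u 3,
    -(4 * p u 0 2 * u 0) + 4 * p u 2 3 * u 3 + 4 * p u 1 2 * u 2,
    (2 - 4 * p u 0 1) * u 0 + 4 * p u 1 3 * u 3 - 4 * p u 1 2 * u 1,
    4 * p u 0 3 * u 0 - 4 * p u 1 3 * u 2 - 4 * p u 2 3 * u 1,
    0]
end generic

/-- the vector field on `ℂ⁵` -/
noncomputable def V (z : E 5) : E 5 := G z
/-- its lift to paths -/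
noncomputable def N (u : Y 5) : Y 5 := G u

theorem p_apply (u : Y 5) (j k : Fin 5) (t : I) : p u j k t = p (ev t u) j k := rfl

theorem compat (u : Y 5) (j : Fin 5) (t : I) : N u j t = V (ev t u) j := by
  have h4 : (4 : X) t = 4 := rfl
  have h2 : (2 : X) t = 2 := rfl
  fin_cases j <;> simp [N, V, G, p_apply, ev_apply, h4, h2]

theorem smooth_p (j k : Fin 5) : ContDiff ℝ ∞ (fun u : Y 5 => p u j k) := by
  have h : ∀ j, ContDiff ℝ ∞ (fun u : Y 5 => star (u j)) := fun j =>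
    (starL' ℝ : X ≃L[ℝ] X).contDiff.comp (contDiff_apply ℝ X j)
  have h' : ∀ j, ContDiff ℝ ∞ (fun u : Y 5 => u j) := fun j => contDiff_apply ℝ X j
  exact (((h j).mul (h' k)).sub ((h' j).mul (h k))).const_smul _

theorem smooth_N : ContDiff ℝ ∞ N := by
  have h' : ∀ j, ContDiff ℝ ∞ (fun u : Y 5 => u j) := fun j => contDiff_apply ℝ X j
  have hp := smooth_p
  rw [contDiff_pi]
  intro j
  fin_cases j
  · show ContDiff ℝ ∞ (fun u : Y 5 => 4 * p u 0 2 * u 1 - (2 - 4 * p u 0 1) * u 2 - 4 * p u 0 3 * u 3)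
    fun_prop
  · show ContDiff ℝ ∞ (fun u : Y 5 => -(4 * p u 0 2 * u 0) + 4 * p u 2 3 * u 3 + 4 * p u 1 2 * u 2)
    fun_prop
  · show ContDiff ℝ ∞ (fun u : Y 5 => (2 - 4 * p u 0 1) * u 0 + 4 * p u 1 3 * u 3 - 4 * p u 1 2 * u 1)
    fun_prop
  · show ContDiff ℝ ∞ (fun u : Y 5 => 4 * p u 0 3 * u 0 - 4 * p u 1 3 * u 2 - 4 * p u 2 3 * u 1)
    fun_prop
  · exact contDiff_const

/-- bounded and Lipschitz on the ball of radius 4 -/
def LB (g : Y 5 → X) : Prop := ∃ C : ℝ, 0 ≤ C ∧ (∀ u, ‖u‖ < 4 → ‖g u‖ ≤ C) ∧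
  ∀ u v, ‖u‖ < 4 → ‖v‖ < 4 → ‖g u - g v‖ ≤ C * ‖u - v‖

theorem LB.add {f g : Y 5 → X} (hf : LB f) (hg : LB g) : LB (fun u => f u + g u) := by
  obtain ⟨C, hC, h1, h2⟩ := hf
  obtain ⟨D, hD, h3, h4⟩ := hg
  refine ⟨C + D, by positivity, fun u hu => (norm_add_le _ _).trans (add_le_add (h1 u hu) (h3 u hu)), fun u v hu hv => ?_⟩
  have e : f u + g u - (f v + g v) = (f u - f v) + (g u - g v) := by abel
  rw [e, add_mul]
  exact (norm_add_le _ _).trans (add_le_add (h2 u v hu hv) (h4 u v hu hv))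

theorem LB.smul {f : Y 5 → X} (hf : LB f) (c : ℂ) : LB (fun u => c • f u) := by
  obtain ⟨C, hC, h1, h2⟩ := hf
  refine ⟨‖c‖ * C, by positivity, fun u hu => ?_, fun u v hu hv => ?_⟩
  · rw [norm_smul]; exact mul_le_mul_of_nonneg_left (h1 u hu) (norm_nonneg _)
  · have e : c • f u - c • f v = c • (f u - f v) := by ext t; simp [mul_sub]
    show ‖c • f u - c • f v‖ ≤ _
    rw [e, norm_smul, mul_assoc]; exact mul_le_mul_of_nonneg_left (h2 u v hu hv) (norm_nonneg _)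

theorem LB.neg {f : Y 5 → X} (hf : LB f) : LB (fun u => - f u) := by
  obtain ⟨C, hC, h1, h2⟩ := hf
  refine ⟨C, hC, fun u hu => by rw [norm_neg]; exact h1 u hu, fun u v hu hv => ?_⟩
  have e : -f u - -f v = -(f u - f v) := by abel
  rw [e, norm_neg]; exact h2 u v hu hv

theorem LB.sub {f g : Y 5 → X} (hf : LB f) (hg : LB g) : LB (fun u => f u - g u) := by
  simpa only [sub_eq_add_neg] using hf.add hg.neg

theorem LB.const (c : X) : LB (fun _ => c) :=
  ⟨‖c‖, norm_nonneg _, fun _ _ => le_rfl, fun u v _ _ => by simp; positivity⟩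

theorem LB.mul {f g : Y 5 → X} (hf : LB f) (hg : LB g) : LB (fun u => f u * g u) := by
  obtain ⟨C, hC, h1, h2⟩ := hf
  obtain ⟨D, hD, h3, h4⟩ := hg
  refine ⟨C * D + (C * D + C * D), by positivity, fun u hu => ?_, fun u v hu hv => ?_⟩
  · calc _ ≤ ‖f u‖ * ‖g u‖ := norm_mul_le _ _
      _ ≤ C * D := by gcongr; exacts [h1 u hu, h3 u hu]
      _ ≤ _ := by nlinarith [mul_nonneg hC hD]
  · have e : f u * g u - f v * g v = (f u - f v) * g u + f v * (g u - g v) := by ring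
    rw [e]
    calc _ ≤ ‖(f u - f v) * g u‖ + ‖f v * (g u - g v)‖ := norm_add_le _ _
      _ ≤ ‖f u - f v‖ * ‖g u‖ + ‖f v‖ * ‖g u - g v‖ := add_le_add (norm_mul_le _ _) (norm_mul_le _ _)
      _ ≤ (C * ‖u - v‖) * D + C * (D * ‖u - v‖) := by
          gcongr
          exacts [h2 u v hu hv, h3 u hu, h1 v hv, h4 u v hu hv]
      _ = (C * D + C * D) * ‖u - v‖ := by ring
      _ ≤ _ := by gcongr; nlinarith [mul_nonneg hC hD]

theorem LB.coord (j : Fin 5) : LB (fun u => u j) := by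
  refine ⟨4, by norm_num, fun u hu => (norm_le_pi_norm u j).trans hu.le, fun u v _ _ => ?_⟩
  have := norm_le_pi_norm (u - v) j
  calc ‖u j - v j‖ ≤ ‖u - v‖ := this
    _ ≤ 4 * ‖u - v‖ := by nlinarith [norm_nonneg (u - v)]

theorem LB.starcoord (j : Fin 5) : LB (fun u => star (u j)) := by
  have hs : ∀ f : X, ‖star f‖ = ‖f‖ := fun f => norm_star f
  refine ⟨4, by norm_num, fun u hu => ?_, fun u v _ _ => ?_⟩
  · show ‖star (u j)‖ ≤ 4
    rw [hs]; exact (norm_le_pi_norm u j).trans hu.le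
  have := norm_le_pi_norm (u - v) j
  have e : star (u j) - star (v j) = star (u j - v j) := by ext t; simp
  calc ‖star (u j) - star (v j)‖ = ‖u j - v j‖ := by rw [e, hs]
    _ ≤ ‖u - v‖ := this
    _ ≤ 4 * ‖u - v‖ := by nlinarith [norm_nonneg (u - v)]

theorem LB.p (j k : Fin 5) : LB (fun u => p u j k) :=
  (((LB.starcoord j).mul (LB.coord k)).sub ((LB.coord j).mul (LB.starcoord k))).smul _

theorem LB.N (j : Fin 5) : LB (fun u => N u j) := by
  have h4 := LB.const 4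
  have h2 := LB.const 2
  have hc := LB.coord
  have hp := LB.p
  fin_cases j
  · exact (((h4.mul (hp 0 2)).mul (hc 1)).sub ((h2.sub (h4.mul (hp 0 1))).mul (hc 2))).sub ((h4.mul (hp 0 3)).mul (hc 3))
  · exact (((h4.mul (hp 0 2)).mul (hc 0)).neg.add ((h4.mul (hp 2 3)).mul (hc 3))).add ((h4.mul (hp 1 2)).mul (hc 2))
  · exact (((h2.sub (h4.mul (hp 0 1))).mul (hc 0)).add ((h4.mul (hp 1 3)).mul (hc 3))).sub ((h4.mul (hp 1 2)).mul (hc 1))
  · exact (((h4.mul (hp 0 3)).mul (hc 0)).sub ((h4.mul (hp 1 3)).mul (hc 2))).sub ((h4.mul (hp 2 3)).mul (hc 1))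
  · exact LB.const 0

theorem exists_bounds : ∃ C : ℝ, 0 ≤ C ∧ (∀ u : Y 5, ‖u‖ < 4 → ‖N u‖ ≤ C) ∧
    ∀ u v : Y 5, ‖u‖ < 4 → ‖v‖ < 4 → ‖N u - N v‖ ≤ C * ‖u - v‖ := by
  choose C hC h1 h2 using LB.N
  have hle : ∀ j, C j ≤ ∑ i, C i := fun j => Finset.single_le_sum (fun i _ => hC i) (Finset.mem_univ j)
  have h0 : 0 ≤ ∑ i, C i := Finset.sum_nonneg fun i _ => hC i
  refine ⟨∑ j, C j, h0, fun u hu => ?_, fun u v hu hv => ?_⟩
  · rw [pi_norm_le_iff_of_nonneg h0]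
    exact fun j => (h1 j u hu).trans (hle j)
  · rw [pi_norm_le_iff_of_nonneg (by positivity)]
    exact fun j => (h2 j u v hu hv).trans (by gcongr; exact hle j)

noncomputable def bnd : ℝ := Classical.choose exists_bounds

noncomputable def vf : VF 5 where
  V := V
  N := N
  compat := compat
  smooth := smooth_N
  L := bnd
  M := bnd
  hL := (Classical.choose_spec exists_bounds).1
  hM := (Classical.choose_spec exists_bounds).1
  lip := (Classical.choose_spec exists_bounds).2.2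
  bdd := (Classical.choose_spec exists_bounds).2.1

/-- `Im (conj z_j z_k)` -/
def q (z : E 5) (j k : Fin 5) : ℝ := (starRingEnd ℂ (z j) * z k).im

theorem q_eq (z : E 5) (j k : Fin 5) : q z j k = (z j).re * (z k).im - (z j).im * (z k).re := by
  simp [q, Complex.mul_im]; ring

theorem p_eq (z : E 5) (j k : Fin 5) : p z j k = ((q z j k : ℝ) : ℂ) := by
  rw [q_eq]
  apply Complex.ext <;> (simp [p, Complex.mul_re, Complex.mul_im]; try ring)

theorem V_eq (z : E 5) : V z =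
    ![((4 * q z 0 2 : ℝ) : ℂ) * z 1 - ((2 - 4 * q z 0 1 : ℝ) : ℂ) * z 2 - ((4 * q z 0 3 : ℝ) : ℂ) * z 3,
    -(((4 * q z 0 2 : ℝ) : ℂ) * z 0) + ((4 * q z 2 3 : ℝ) : ℂ) * z 3 + ((4 * q z 1 2 : ℝ) : ℂ) * z 2,
    ((2 - 4 * q z 0 1 : ℝ) : ℂ) * z 0 + ((4 * q z 1 3 : ℝ) : ℂ) * z 3 - ((4 * q z 1 2 : ℝ) : ℂ) * z 1,
    ((4 * q z 0 3 : ℝ) : ℂ) * z 0 - ((4 * q z 1 3 : ℝ) : ℂ) * z 2 - ((4 * q z 2 3 : ℝ) : ℂ) * z 1,
    0] := by
  ext j
  fin_cases j <;> simp [V, G, p_eq]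

theorem q_smul (c : ℂ) (hc : ‖c‖ = 1) (z : E 5) (j k : Fin 5) : q (c • z) j k = q z j k := by
  have h : c.re * c.re + c.im * c.im = 1 := by
    have := Complex.normSq_eq_norm_sq c
    rw [hc, Complex.normSq_apply] at this
    linarith
  have h' : q (c • z) j k = (c.re * c.re + c.im * c.im) * q z j k := by
    rw [q_eq, q_eq]
    simp only [Pi.smul_apply, smul_eq_mul, Complex.mul_re, Complex.mul_im]
    ring
  rw [h', h, one_mul]

theorem V_smul (c : ℂ) (hc : ‖c‖ = 1) (z : E 5) : V (c • z) = c • V z := by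
  rw [V_eq, V_eq]
  ext j
  simp only [q_smul c hc]
  fin_cases j <;> simp <;> ring

theorem V_four (z : E 5) : V z 4 = 0 := rfl

theorem sum_mul_V (z : E 5) : ∑ j, z j * V z j = 0 := by
  rw [V_eq]
  simp [Fin.sum_univ_succ]
  ring

theorem herm_V_re (z : E 5) : (herm z (V z)).re = 0 := by
  rw [V_eq]
  simp [herm, Fin.sum_univ_succ, Complex.mul_re, Complex.mul_im]
  ring

/-- derivative of `q` -/
def dq (z w : E 5) (j k : Fin 5) : ℝ := 
  (w j).re * (z k).im + (z j).re * (w k).im - ((w j).im * (z k).re + (z j).im * (w k).re)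

theorem hasDerivAt_q {γ : ℝ → E 5} {γ' : E 5} {t : ℝ} (h : HasDerivAt γ γ' t) (j k : Fin 5) :
    HasDerivAt (fun s => q (γ s) j k) (dq (γ t) γ' j k) t := by
  have h1 := fun j => hasDerivAt_pi.1 h j
  have hre : ∀ j, HasDerivAt (fun s => (γ s j).re) (γ' j).re t := fun j =>
    Complex.reCLM.hasFDerivAt.comp_hasDerivAt t (h1 j)
  have him : ∀ j, HasDerivAt (fun s => (γ s j).im) (γ' j).im t := fun j =>
    Complex.imCLM.hasFDerivAt.comp_hasDerivAt t (h1 j)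
  have := ((hre j).mul (him k)).sub ((him j).mul (hre k))
  simp only [q_eq]
  exact this

/-- the Hamiltonian -/
def F (z : E 5) : ℝ := 4 * q z 0 2 - 8 * (q z 0 1 * q z 0 2 + q z 1 3 * q z 2 3) + 4 * (q z 0 3 ^ 2 - q z 1 2 ^ 2)

def dF (z w : E 5) : ℝ := 4 * dq z w 0 2 
  - 8 * ((dq z w 0 1 * q z 0 2 + q z 0 1 * dq z w 0 2) + (dq z w 1 3 * q z 2 3 + q z 1 3 * dq z w 2 3))
  + 4 * (2 * q z 0 3 * dq z w 0 3 - 2 * q z 1 2 * dq z w 1 2)

theorem hasDerivAt_F {γ : ℝ → E 5} {γ' : E 5} {t : ℝ} (h : HasDerivAt γ γ' t) :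
    HasDerivAt (fun s => F (γ s)) (dF (γ t) γ') t := by
  have hq := fun j k => hasDerivAt_q h j k
  have h1 := (((hq 0 2).const_mul 4).sub ((((hq 0 1).mul (hq 0 2)).add ((hq 1 3).mul (hq 2 3))).const_mul 8)).add
    ((((hq 0 3).pow 2).sub ((hq 1 2).pow 2)).const_mul 4)
  refine h1.congr_deriv ?_
  simp [dF]

theorem ham_V (z w : E 5) : 2 * (herm (V z) w).im = dF z w := by
  rw [V_eq]
  simp [herm, Fin.sum_univ_succ, Complex.mul_re, Complex.mul_im, dF, dq, q_eq]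
  ring

/-- the two moment vectors -/
def Mom (z : E 5) : Fin 6 → ℝ :=
  ![2 * (q z 0 1 + q z 2 3), 2 * (q z 0 2 - q z 1 3), 2 * (q z 0 3 + q z 1 2),
    2 * (q z 0 1 - q z 2 3), 2 * (q z 0 2 + q z 1 3), 2 * (q z 0 3 - q z 1 2)]

def dMom (z w : E 5) : Fin 6 → ℝ :=
  ![2 * (dq z w 0 1 + dq z w 2 3), 2 * (dq z w 0 2 - dq z w 1 3), 2 * (dq z w 0 3 + dq z w 1 2),
    2 * (dq z w 0 1 - dq z w 2 3), 2 * (dq z w 0 2 + dq z w 1 3), 2 * (dq z w 0 3 - dq z w 1 2)]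

theorem hasDerivAt_Mom {γ : ℝ → E 5} {γ' : E 5} {t : ℝ} (h : HasDerivAt γ γ' t) :
    HasDerivAt (fun s => Mom (γ s)) (dMom (γ t) γ') t := by
  have hq := fun j k => hasDerivAt_q h j k
  rw [hasDerivAt_pi]
  intro j
  fin_cases j
  · exact ((hq 0 1).add (hq 2 3)).const_mul 2
  · exact ((hq 0 2).sub (hq 1 3)).const_mul 2
  · exact ((hq 0 3).add (hq 1 2)).const_mul 2
  · exact ((hq 0 1).sub (hq 2 3)).const_mul 2
  · exact ((hq 0 2).add (hq 1 3)).const_mul 2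
  · exact ((hq 0 3).sub (hq 1 2)).const_mul 2

/-- the reduced vector field -/
def W (m : Fin 6 → ℝ) : Fin 6 → ℝ :=
  ![2 * ((1 - m 3) * m 2 - m 5 * m 1), 2 * (m 5 * m 0 + m 4 * m 2), 2 * (-(m 4 * m 1) - (1 - m 3) * m 0),
    -(2 * ((1 - m 0) * m 5 - m 2 * m 4)), -(2 * (m 2 * m 3 + m 1 * m 5)), -(2 * (-(m 1 * m 4) - (1 - m 0) * m 3))]

theorem dMom_V (z : E 5) : dMom z (V z) = W (Mom z) := by
  rw [V_eq]
  ext j
  fin_cases j <;> (simp [dMom, W, Mom, dq, q_eq]; ring)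

theorem dq_smul (z w : E 5) (r : ℝ) (j k : Fin 5) : dq z (r • w) j k = r * dq z w j k := by
  simp [dq]; ring

theorem dMom_smul (z w : E 5) (r : ℝ) : dMom z (r • w) = r • dMom z w := by
  ext j
  fin_cases j <;> (simp [dMom, dq_smul]; ring)

theorem W_lip (m m' : Fin 6 → ℝ) (hm : ‖m‖ ≤ 4) (hm' : ‖m'‖ ≤ 4) : ‖W m - W m'‖ ≤ 34 * ‖m - m'‖ := by
  set D := ‖m - m'‖ with hD
  have hD0 : 0 ≤ D := norm_nonneg _
  have h1 : ∀ j, |m j - m' j| ≤ D := fun j => norm_le_pi_norm (m - m') j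
  have h2 : ∀ j, |m j| ≤ 4 := fun j => (norm_le_pi_norm m j).trans hm
  have h3 : ∀ j, |m' j| ≤ 4 := fun j => (norm_le_pi_norm m' j).trans hm'
  have h4 : ∀ j k, |m j * m k - m' j * m' k| ≤ 8 * D := by
    intro j k
    have e : m j * m k - m' j * m' k = (m j - m' j) * m k + m' j * (m k - m' k) := by ring
    rw [e]
    calc _ ≤ |(m j - m' j) * m k| + |m' j * (m k - m' k)| := abs_add_le _ _
      _ = |m j - m' j| * |m k| + |m' j| * |m k - m' k| := by rw [abs_mul, abs_mul]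
      _ ≤ D * 4 + 4 * D := by gcongr; exacts [h1 j, h2 k, h3 j, h1 k]
      _ = 8 * D := by ring
  rw [pi_norm_le_iff_of_nonneg (by positivity)]
  intro j
  rw [Real.norm_eq_abs, abs_le]
  have a := fun j => abs_le.1 (h1 j)
  have b := fun j k => abs_le.1 (h4 j k)
  fin_cases j
  · have := b 3 2; have := b 5 1; have := a 2
    simp only [W, Pi.sub_apply]
    constructor <;> (simp; nlinarith)
  · have := b 5 0; have := b 4 2
    simp only [W, Pi.sub_apply]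
    constructor <;> (simp; nlinarith)
  · have := b 4 1; have := b 3 0; have := a 0
    simp only [W, Pi.sub_apply]
    constructor <;> (simp; nlinarith)
  · have := b 0 5; have := b 2 4; have := a 5
    simp only [W, Pi.sub_apply]
    constructor <;> (simp; nlinarith)
  · have := b 2 3; have := b 1 5
    simp only [W, Pi.sub_apply]
    constructor <;> (simp; nlinarith)
  · have := b 1 4; have := b 0 3; have := a 3
    simp only [W, Pi.sub_apply]
    constructor <;> (simp; nlinarith)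

theorem orbit (w : ℝ → (Fin 6 → ℝ)) (κ : ℝ) (hκ : 0 < κ) (hκ' : κ * 34 ≤ 1 / 8)
    (hd : ∀ t ∈ Icc (0:ℝ) 1, HasDerivAt w (κ • W (w t)) t) (hb : ∀ t ∈ Icc (0:ℝ) 1, ‖w t‖ ≤ 4) :
    (∀ t ∈ Icc (0:ℝ) 1, ‖w t - w 0‖ ≤ 2 * (κ * ‖W (w 0)‖)) ∧
      ‖w 1 - w 0 - κ • W (w 0)‖ ≤ (1/4) * (κ * ‖W (w 0)‖) := by
  have h0 : (0:ℝ) ∈ Icc (0:ℝ) 1 := by norm_num
  have hW0 : 0 ≤ ‖W (w 0)‖ := norm_nonneg _
  have first : ∀ t ∈ Icc (0:ℝ) 1, ‖w t - w 0‖ ≤ 2 * (κ * ‖W (w 0)‖) := by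
    intro t ht
    have hg := norm_le_gronwallBound_of_norm_deriv_right_le (f := fun t => w t - w 0)
      (f' := fun t => κ • W (w t)) (δ := 0) (K := κ * 34) (ε := κ * ‖W (w 0)‖) (a := 0) (b := 1)
      (fun s hs => ((hd s hs).continuousAt.sub continuousAt_const).continuousWithinAt)
      (fun s hs => ((hd s (Ico_subset_Icc_self hs)).sub_const _).hasDerivWithinAt)
      (by simp)
      (by
        intro s hs
        have hs' := Ico_subset_Icc_self hs
        have hl := W_lip (w s) (w 0) (hb s hs') (hb 0 h0)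
        have h1 : ‖W (w s)‖ ≤ 34 * ‖w s - w 0‖ + ‖W (w 0)‖ := by
          calc ‖W (w s)‖ = ‖(W (w s) - W (w 0)) + W (w 0)‖ := by rw [sub_add_cancel]
            _ ≤ _ := (norm_add_le _ _).trans (by gcongr)
        rw [norm_smul, Real.norm_of_nonneg hκ.le]
        calc κ * ‖W (w s)‖ ≤ κ * (34 * ‖w s - w 0‖ + ‖W (w 0)‖) := by gcongr
          _ = κ * 34 * ‖w s - w 0‖ + κ * ‖W (w 0)‖ := by ring)
      t ht
    refine hg.trans ?_
    rw [sub_zero, gronwallBound_of_K_ne_0 (by positivity)]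
    simp only [zero_mul, zero_add]
    have hx : |κ * 34 * t| ≤ 1 := by
      rw [abs_of_nonneg (by have := ht.1; positivity)]
      calc κ * 34 * t ≤ (1/8) * 1 := by
            have := ht.1
            have := ht.2
            gcongr
        _ ≤ 1 := by norm_num
    have he := Real.abs_exp_sub_one_le hx
    rw [abs_of_nonneg (show 0 ≤ κ * 34 * t by have := ht.1; positivity)] at he
    have he' : Real.exp (κ * 34 * t) - 1 ≤ 2 * (κ * 34 * t) := (le_abs_self _).trans he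
    have ht1 := ht.2
    have ht0 := ht.1
    calc κ * ‖W (w 0)‖ / (κ * 34) * (Real.exp (κ * 34 * t) - 1) 
        ≤ κ * ‖W (w 0)‖ / (κ * 34) * (2 * (κ * 34 * t)) := by gcongr
      _ = 2 * (κ * ‖W (w 0)‖) * t := by field_simp
      _ ≤ 2 * (κ * ‖W (w 0)‖) * 1 := by gcongr
      _ = _ := by ring
  refine ⟨first, ?_⟩
  have hm := norm_image_sub_le_of_norm_deriv_le_segment' (f := fun t => w t - t • (κ • W (w 0)))
    (f' := fun t => κ • W (w t) - κ • W (w 0)) (a := 0) (b := 1) (C := (1/4) * (κ * ‖W (w 0)‖))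
    (fun s hs => (by
      have h1 := (hd s hs).hasDerivWithinAt (s := Icc 0 1)
      have h2 : HasDerivWithinAt (fun t : ℝ => t • (κ • W (w 0))) (κ • W (w 0)) (Icc 0 1) s := by
        have := (hasDerivAt_id s).smul_const (κ • W (w 0))
        rw [one_smul] at this
        exact this.hasDerivWithinAt
      exact h1.sub h2))
    (by
      intro s hs
      have hs' := Ico_subset_Icc_self hs
      have hl := W_lip (w s) (w 0) (hb s hs') (hb 0 h0)
      have hf := first s hs'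
      rw [← smul_sub, norm_smul, Real.norm_of_nonneg hκ.le]
      calc κ * ‖W (w s) - W (w 0)‖ ≤ κ * (34 * (2 * (κ * ‖W (w 0)‖))) := by
            gcongr
            exact hl.trans (by gcongr)
        _ = (κ * 34) * (2 * (κ * ‖W (w 0)‖)) := by ring
        _ ≤ (1/8) * (2 * (κ * ‖W (w 0)‖)) := by gcongr
        _ = _ := by ring)
    1 (by norm_num)
  simp only [one_smul, zero_smul, sub_zero, mul_one] at hm
  have e : w 1 - w 0 - κ • W (w 0) = w 1 - κ • W (w 0) - w 0 := by abel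
  rw [e]
  exact hm

theorem orbit_closed (w : ℝ → (Fin 6 → ℝ)) (κ : ℝ) (hκ : 0 < κ) (hκ' : κ * 34 ≤ 1 / 8)
    (hd : ∀ t ∈ Icc (0:ℝ) 1, HasDerivAt w (κ • W (w t)) t) (hb : ∀ t ∈ Icc (0:ℝ) 1, ‖w t‖ ≤ 4)
    (h : w 1 = w 0) : W (w 0) = 0 := by
  have h1 := (orbit w κ hκ hκ' hd hb).2
  rw [h, sub_self, zero_sub, norm_neg, norm_smul, Real.norm_of_nonneg hκ.le] at h1
  have h2 : κ * ‖W (w 0)‖ ≤ 0 := by nlinarith [mul_nonneg hκ.le (norm_nonneg (W (w 0)))]
  have h3 : ‖W (w 0)‖ ≤ 0 := by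
    by_contra hc
    push Not at hc
    nlinarith [mul_pos hκ hc]
  exact norm_le_zero_iff.1 h3

theorem orbit_const (w : ℝ → (Fin 6 → ℝ)) (κ : ℝ) (hκ : 0 < κ) (hκ' : κ * 34 ≤ 1 / 8)
    (hd : ∀ t ∈ Icc (0:ℝ) 1, HasDerivAt w (κ • W (w t)) t) (hb : ∀ t ∈ Icc (0:ℝ) 1, ‖w t‖ ≤ 4)
    (h : W (w 0) = 0) : w 1 = w 0 := by
  have h1 := (orbit w κ hκ hκ' hd hb).1 1 (by norm_num)
  rw [h, norm_zero, mul_zero, mul_zero] at h1
  exact sub_eq_zero.1 (norm_le_zero_iff.1 h1)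

/-- classification of the zeros of `W` on the product of spheres -/
theorem critical (m : Fin 6 → ℝ) (h : W m = 0) (hx : m 0 ^ 2 + m 1 ^ 2 + m 2 ^ 2 = 1)
    (hy : m 3 ^ 2 + m 4 ^ 2 + m 5 ^ 2 = 1) :
    m 2 = 0 ∧ m 5 = 0 ∧ m 3 = m 0 ∧ m 4 = m 1 ∧
      ((m 0 = 1 ∧ m 1 = 0) ∨ (m 0 = -1/2 ∧ m 1 = Real.sqrt 3 / 2) ∨ (m 0 = -1/2 ∧ m 1 = -(Real.sqrt 3 / 2))) := by
  have e1 : 2 * ((1 - m 3) * m 2 - m 5 * m 1) = 0 := congrFun h 0
  have e2 : 2 * (m 5 * m 0 + m 4 * m 2) = 0 := congrFun h 1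
  have e3 : 2 * (-(m 4 * m 1) - (1 - m 3) * m 0) = 0 := congrFun h 2
  have e4 : -(2 * ((1 - m 0) * m 5 - m 2 * m 4)) = 0 := congrFun h 3
  have e5 : -(2 * (m 2 * m 3 + m 1 * m 5)) = 0 := congrFun h 4
  have e6 : -(2 * (-(m 1 * m 4) - (1 - m 0) * m 3)) = 0 := congrFun h 5
  have h5 : m 5 = 0 := by nlinarith
  have h2 : m 2 = 0 := by nlinarith
  have h3 : m 3 = m 0 := by nlinarith
  rw [h2] at hx
  rw [h5, h3] at hy
  rw [h3] at e3
  have h14 : (m 4 - m 1) * (m 4 + m 1) = 0 := by nlinarith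
  rcases mul_eq_zero.1 h14 with h4 | h4
  · have h4' : m 4 = m 1 := by linarith
    refine ⟨h2, h5, h3, h4', ?_⟩
    rw [h4'] at e3
    have hq : (2 * m 0 + 1) * (m 0 - 1) = 0 := by nlinarith
    rcases mul_eq_zero.1 hq with h0 | h0
    · right
      have h0' : m 0 = -1/2 := by linarith
      rw [h0'] at hx
      have hs : Real.sqrt 3 ^ 2 = 3 := Real.sq_sqrt (by norm_num)
      have : (m 1 - Real.sqrt 3 / 2) * (m 1 + Real.sqrt 3 / 2) = 0 := by nlinarith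
      rcases mul_eq_zero.1 this with h1 | h1
      · left; exact ⟨h0', by linarith⟩
      · right; exact ⟨h0', by linarith⟩
    · left
      have h0' : m 0 = 1 := by linarith
      refine ⟨h0', ?_⟩
      rw [h0'] at hx
      have : m 1 ^ 2 = 0 := by linarith
      exact pow_eq_zero_iff (two_ne_zero) |>.1 this
  · have h4' : m 4 = -m 1 := by linarith
    rw [h4'] at e3
    have h0 : m 0 = 1 := by nlinarith
    have h1 : m 1 = 0 := by
      rw [h0] at hx
      have : m 1 ^ 2 = 0 := by linarith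
      exact pow_eq_zero_iff (two_ne_zero) |>.1 this
    refine ⟨h2, h5, h3, by rw [h4', h1, neg_zero], Or.inl ⟨h0, h1⟩⟩

/-! ### the cone -/

theorem aux_cplx (A B : ℝ) : ((A : ℂ) + ((2 * B : ℝ) : ℂ) * Complex.I = 0) ↔ (A = 0 ∧ B = 0) := by
  constructor
  · intro h
    have h1 := congrArg Complex.re h
    have h2 := congrArg Complex.im h
    simp at h1 h2
    exact ⟨h1, h2⟩
  · rintro ⟨rfl, rfl⟩
    simp

theorem cone_iff (z : E 5) : z ∈ unitCone ↔
    (∑ j, ((z j).re ^ 2 + (z j).im ^ 2) = 1) ∧ (∑ j, ((z j).re ^ 2 - (z j).im ^ 2) = 0) ∧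
      (∑ j, (z j).re * (z j).im = 0) := by
  have h1 : herm z z = ((∑ j, ((z j).re ^ 2 + (z j).im ^ 2) : ℝ) : ℂ) := by
    unfold herm
    push_cast
    refine Finset.sum_congr rfl fun j _ => ?_
    apply Complex.ext
    · simp [Complex.mul_re, pow_two]
    · simp [Complex.mul_im, pow_two]; ring
  have h2 : ∑ j, z j ^ 2 = ((∑ j, ((z j).re ^ 2 - (z j).im ^ 2) : ℝ) : ℂ) +
      ((2 * ∑ j, (z j).re * (z j).im : ℝ) : ℂ) * Complex.I := by
    push_cast
    rw [Finset.mul_sum, Finset.sum_mul, ← Finset.sum_add_distrib]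
    refine Finset.sum_congr rfl fun j _ => ?_
    apply Complex.ext
    · simp [Complex.mul_re, pow_two]
    · simp [Complex.mul_im, pow_two]; ring
  unfold unitCone
  rw [mem_ofPred_eq, h1, h2, aux_cplx]
  norm_cast

theorem norm_le_one {z : E 5} (hz : z ∈ unitCone) : ‖z‖ ≤ 1 := by
  rw [pi_norm_le_iff_of_nonneg (by norm_num)]
  intro j
  have h := ((cone_iff z).1 hz).1
  have h2 : (z j).re ^ 2 + (z j).im ^ 2 ≤ 1 := by
    rw [← h]
    exact Finset.single_le_sum (f := fun j => (z j).re ^ 2 + (z j).im ^ 2) (fun i _ => by positivity) (Finset.mem_univ j)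
  have h3 : ‖z j‖ ^ 2 ≤ 1 := by
    rw [← Complex.normSq_eq_norm_sq, Complex.normSq_apply]; nlinarith
  exact (sq_le_one_iff₀ (norm_nonneg _)).1 h3

/-- sphere relations for the moment vectors over the quadric surface -/
theorem mom_sphere {z : E 5} (hz : z ∈ unitCone) (h4 : z 4 = 0) :
    Mom z 0 ^ 2 + Mom z 1 ^ 2 + Mom z 2 ^ 2 = 1 ∧ Mom z 3 ^ 2 + Mom z 4 ^ 2 + Mom z 5 ^ 2 = 1 := by
  obtain ⟨h1, h2, h3⟩ := (cone_iff z).1 hz
  rw [Fin.sum_univ_five, h4] at h1 h2 h3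
  simp only [Complex.zero_re, Complex.zero_im] at h1 h2 h3
  simp only [Mom, q_eq, Matrix.cons_val]
  constructor
  · linear_combination ((z 0).re ^ 2 + (z 0).im ^ 2 + ((z 1).re ^ 2 + (z 1).im ^ 2) + ((z 2).re ^ 2 + (z 2).im ^ 2) + ((z 3).re ^ 2 + (z 3).im ^ 2) + 1) * h1
      - ((z 0).re ^ 2 - (z 0).im ^ 2 + ((z 1).re ^ 2 - (z 1).im ^ 2) + ((z 2).re ^ 2 - (z 2).im ^ 2) + ((z 3).re ^ 2 - (z 3).im ^ 2)) * h2
      - 4 * ((z 0).re * (z 0).im + (z 1).re * (z 1).im + (z 2).re * (z 2).im + (z 3).re * (z 3).im) * h3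
  · linear_combination ((z 0).re ^ 2 + (z 0).im ^ 2 + ((z 1).re ^ 2 + (z 1).im ^ 2) + ((z 2).re ^ 2 + (z 2).im ^ 2) + ((z 3).re ^ 2 + (z 3).im ^ 2) + 1) * h1
      - ((z 0).re ^ 2 - (z 0).im ^ 2 + ((z 1).re ^ 2 - (z 1).im ^ 2) + ((z 2).re ^ 2 - (z 2).im ^ 2) + ((z 3).re ^ 2 - (z 3).im ^ 2)) * h2
      - 4 * ((z 0).re * (z 0).im + (z 1).re * (z 1).im + (z 2).re * (z 2).im + (z 3).re * (z 3).im) * h3

/-- direction vector of a line -/
noncomputable def ee (a b : ℝ) : E 5 := ![1, Complex.I * a, Complex.I * b, 0, 0]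

theorem eq_smul_of_mom {z : E 5} (hz : z ∈ unitCone) (h4 : z 4 = 0) (a b : ℝ)
    (h0 : Mom z 0 = a) (h1 : Mom z 1 = b) (h2 : Mom z 2 = 0) (h3 : Mom z 3 = a) (h4' : Mom z 4 = b)
    (h5 : Mom z 5 = 0) : z = z 0 • ee a b := by
  obtain ⟨c1, c2, c3⟩ := (cone_iff z).1 hz
  rw [Fin.sum_univ_five, h4] at c1 c2 c3
  simp only [Complex.zero_re, Complex.zero_im] at c1 c2 c3
  simp only [Mom, q_eq, Matrix.cons_val] at h0 h1 h2 h3 h4' h5
  have q01 : (z 0).re * (z 1).im - (z 0).im * (z 1).re = a / 2 := by linarith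
  have q23 : (z 2).re * (z 3).im - (z 2).im * (z 3).re = 0 := by linarith
  have q02 : (z 0).re * (z 2).im - (z 0).im * (z 2).re = b / 2 := by linarith
  have q13 : (z 1).re * (z 3).im - (z 1).im * (z 3).re = 0 := by linarith
  have q03 : (z 0).re * (z 3).im - (z 0).im * (z 3).re = 0 := by linarith
  have q12 : (z 1).re * (z 2).im - (z 1).im * (z 2).re = 0 := by linarith
  ext j
  fin_cases j
  · simp [ee]
  · apply Complex.ext
    · simp [ee, Complex.mul_re, Complex.mul_im]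
      linear_combination (-(z 1).re) * c1 + (z 1).re * c2 + 2 * (z 1).im * c3 - 2 * (z 0).im * q01 + 2 * (z 2).im * q12 + 2 * (z 3).im * q13
    · simp [ee, Complex.mul_re, Complex.mul_im]
      linear_combination (-(z 1).im) * c1 - (z 1).im * c2 + 2 * (z 1).re * c3 + 2 * (z 0).re * q01 - 2 * (z 2).re * q12 - 2 * (z 3).re * q13
  · apply Complex.ext
    · simp [ee, Complex.mul_re, Complex.mul_im]
      linear_combination (-(z 2).re) * c1 + (z 2).re * c2 + 2 * (z 2).im * c3 - 2 * (z 0).im * q02 - 2 * (z 1).im * q12 + 2 * (z 3).im * q23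
    · simp [ee, Complex.mul_re, Complex.mul_im]
      linear_combination (-(z 2).im) * c1 - (z 2).im * c2 + 2 * (z 2).re * c3 + 2 * (z 0).re * q02 + 2 * (z 1).re * q12 - 2 * (z 3).re * q23
  · apply Complex.ext
    · simp [ee, Complex.mul_re, Complex.mul_im]
      linear_combination (-(z 3).re) * c1 + (z 3).re * c2 + 2 * (z 3).im * c3 - 2 * (z 0).im * q03 - 2 * (z 1).im * q13 - 2 * (z 2).im * q23
    · simp [ee, Complex.mul_re, Complex.mul_im]
      linear_combination (-(z 3).im) * c1 - (z 3).im * c2 + 2 * (z 3).re * c3 + 2 * (z 0).re * q03 + 2 * (z 1).re * q13 + 2 * (z 2).re * q23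
  · simp [ee, h4]

/-- unit vectors on the three lines -/
noncomputable def uu (a b : ℝ) : E 5 := ((1 / Real.sqrt 2 : ℝ) : ℂ) • ee a b

theorem uu_mem (a b : ℝ) (h : a ^ 2 + b ^ 2 = 1) : uu a b ∈ unitCone := by
  have hs : Real.sqrt 2 * Real.sqrt 2 = 2 := Real.mul_self_sqrt (by norm_num)
  rw [cone_iff]
  simp [Fin.sum_univ_five, uu, ee, Complex.mul_re, Complex.mul_im] 
  refine ⟨?_, ?_⟩
  · linear_combination ((1 + a ^ 2 + b ^ 2) / 4) * hs + (1 / 2) * h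
  · linear_combination ((1 - a ^ 2 - b ^ 2) / 4) * hs - (1 / 2) * h

theorem Mom_uu (a b : ℝ) : Mom (uu a b) = ![a, b, 0, a, b, 0] := by
  have hs : Real.sqrt 2 * Real.sqrt 2 = 2 := Real.mul_self_sqrt (by norm_num)
  ext j
  fin_cases j
  · simp [Mom, q_eq, uu, ee, Complex.mul_re, Complex.mul_im]; linear_combination (a / 2) * hs
  · simp [Mom, q_eq, uu, ee, Complex.mul_re, Complex.mul_im]; linear_combination (b / 2) * hs
  · simp [Mom, q_eq, uu, ee, Complex.mul_re, Complex.mul_im]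
  · simp [Mom, q_eq, uu, ee, Complex.mul_re, Complex.mul_im]; linear_combination (a / 2) * hs
  · simp [Mom, q_eq, uu, ee, Complex.mul_re, Complex.mul_im]; linear_combination (b / 2) * hs
  · simp [Mom, q_eq, uu, ee, Complex.mul_re, Complex.mul_im]

end Crest.Agent.H18Quadric
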