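import Mathlib

/-!
Scales and amplitudes of the Kac pieces, arithmetic (rid 149).
-/

set_option autoImplicit false

namespace Crest.Agent.H19Pots

/-- the scales -/
noncomputable def Rs (R0 : ℝ) (j : ℕ) : ℝ := R0 ^ (2 ^ j)

/-- the amplitudes -/
noncomputable def as (K R0 : ℝ) : ℕ → ℝ
  | 0 => K
  | (j + 1) => (Rs R0 (j + 1)) ^ (-(1 / 32) : ℝ)

/-- range of the `j`-th potential -/
noncomputable def Rp (R0 : ℝ) : ℕ → ℝ
  | 0 => 2
  | (j + 1) => Rs R0 j + 1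

theorem Rs_succ (R0 : ℝ) (j : ℕ) : Rs R0 (j + 1) = Rs R0 j ^ 2 := by
  unfold Rs
  rw [pow_succ, pow_mul]

theorem Rs_zero (R0 : ℝ) : Rs R0 0 = R0 := by simp [Rs]

theorem Rs_pos {R0 : ℝ} (h : 0 < R0) (j : ℕ) : 0 < Rs R0 j := pow_pos h _

theorem one_le_Rs {R0 : ℝ} (h : 1 ≤ R0) (j : ℕ) : 1 ≤ Rs R0 j := one_le_pow₀ h

theorem le_Rs {R0 : ℝ} (h : 1 ≤ R0) (j : ℕ) : R0 ≤ Rs R0 j := by
  unfold Rs
  exact le_self_pow₀ h (by positivity)

theorem pow_le_Rs {R0 : ℝ} (h : 1 ≤ R0) (j : ℕ) : R0 ^ (j + 1) ≤ Rs R0 j := by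
  unfold Rs
  exact pow_le_pow_right₀ h (Nat.lt_two_pow_self)

/-- the small parameter -/
noncomputable def ee (R0 : ℝ) : ℝ := R0 ^ (-(1 / 32) : ℝ)

theorem ee_pos {R0 : ℝ} (h : 0 < R0) : 0 < ee R0 := Real.rpow_pos_of_pos h _

theorem ee_pow {R0 : ℝ} (h : 0 < R0) : ee R0 ^ 32 = R0⁻¹ := by
  unfold ee
  rw [← Real.rpow_natCast, ← Real.rpow_mul h.le, ← Real.rpow_neg_one]
  norm_num

theorem rpow_Rs {R0 : ℝ} (h : 0 < R0) (j : ℕ) : (Rs R0 j) ^ (-(1 / 32) : ℝ) = ee R0 ^ (2 ^ j) := by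
  unfold Rs ee
  rw [← Real.rpow_natCast, ← Real.rpow_natCast, ← Real.rpow_mul h.le, ← Real.rpow_mul h.le, mul_comm]

theorem as_succ {R0 : ℝ} (h : 0 < R0) (K : ℝ) (j : ℕ) : as K R0 (j + 1) = ee R0 ^ (2 ^ (j + 1)) := by
  show (Rs R0 (j + 1)) ^ (-(1 / 32) : ℝ) = _
  exact rpow_Rs h (j + 1)

theorem as_zero (K R0 : ℝ) : as K R0 0 = K := rfl

theorem as_pos {K R0 : ℝ} (hK : 0 < K) (h : 0 < R0) (j : ℕ) : 0 < as K R0 j := by
  cases j with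
  | zero => exact hK
  | succ j => rw [as_succ h]; exact pow_pos (ee_pos h) _

theorem Rs_eq_ee {R0 : ℝ} (h : 0 < R0) (j : ℕ) : (Rs R0 j)⁻¹ = (ee R0 ^ (2 ^ j)) ^ 32 := by
  unfold Rs
  rw [← pow_mul, mul_comm, pow_mul, ee_pow h, inv_pow]

theorem ee_le {R0 t : ℝ} (ht : 0 < t) (hR : t ^ (-32 : ℝ) ≤ R0) : ee R0 ≤ t := by
  have h1 : 0 < t ^ (-32 : ℝ) := Real.rpow_pos_of_pos ht _
  unfold ee
  have h2 : (t ^ (-32 : ℝ)) ^ (-(1 / 32) : ℝ) = t := by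
    rw [← Real.rpow_mul ht.le]
    norm_num
  calc R0 ^ (-(1 / 32) : ℝ) ≤ (t ^ (-32 : ℝ)) ^ (-(1 / 32) : ℝ) :=
        Real.rpow_le_rpow_of_nonpos h1 hR (by norm_num)
    _ = t := h2

theorem ee_pow_le {R0 t : ℝ} (h : 0 < R0) (ht1 : t ≤ 1) (he : ee R0 ≤ t) (j : ℕ) :
    ee R0 ^ (2 ^ j) ≤ t ^ (j + 1) := by
  have h0 := (ee_pos h).le
  calc ee R0 ^ (2 ^ j) ≤ ee R0 ^ (j + 1) :=
        pow_le_pow_of_le_one h0 (he.trans ht1) Nat.lt_two_pow_self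
    _ ≤ t ^ (j + 1) := pow_le_pow_left₀ h0 he _

theorem sqrt_le {R0 : ℝ} (h : 1 ≤ R0) (j : ℕ) :
    Real.sqrt (Rp R0 j / Rs R0 j) ≤ 2 * (ee R0 ^ (2 ^ j)) ^ 8 := by
  have h0 : 0 < R0 := by linarith
  have he := ee_pos h0
  have he1 : ee R0 ≤ 1 := Real.rpow_le_one_of_one_le_of_nonpos h (by norm_num)
  cases j with
  | zero =>
    simp only [Rp, pow_zero, pow_one]
    rw [Real.sqrt_le_left (by positivity), Rs_zero, div_eq_mul_inv, ← ee_pow h0]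
    have h1 : ee R0 ^ 32 ≤ ee R0 ^ 16 := pow_le_pow_of_le_one he.le he1 (by norm_num)
    calc 2 * ee R0 ^ 32 ≤ 4 * ee R0 ^ 16 := by nlinarith [pow_pos he 16]
      _ = (2 * ee R0 ^ 8) ^ 2 := by ring
  | succ j =>
    set x : ℝ := ee R0 ^ (2 ^ j) with hx
    have hx0 : 0 < x := pow_pos he _
    have hx1 : x ≤ 1 := pow_le_one₀ he.le he1
    have h1 : (Rs R0 j)⁻¹ = x ^ 32 := Rs_eq_ee h0 j
    have h2 : Rs R0 j = (x ^ 32)⁻¹ := by rw [← h1, inv_inv]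
    have h3 : ee R0 ^ (2 ^ (j + 1)) = x ^ 2 := by rw [hx, pow_succ, pow_mul]
    rw [h3]
    simp only [Rp]
    rw [Real.sqrt_le_left (by positivity), Rs_succ, h2]
    have h4 : ((x ^ 32)⁻¹ + 1) / ((x ^ 32)⁻¹) ^ 2 = x ^ 32 + x ^ 64 := by
      field_simp
    rw [h4]
    have h5 : x ^ 64 ≤ x ^ 32 := pow_le_pow_of_le_one hx0.le hx1 (by norm_num)
    calc x ^ 32 + x ^ 64 ≤ 4 * x ^ 32 := by nlinarith [pow_pos hx0 32]
      _ = (2 * (x ^ 2) ^ 8) ^ 2 := by ring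

/-- (h) -/
theorem arith (K : ℝ) (hK : 1 ≤ K) (δ : ℝ) (hδ : 0 < δ) (Ce : ℝ) (hCe : 0 < Ce) :
    ∃ R00 : ℝ, 1 ≤ R00 ∧ ∀ R0 : ℝ, R00 ≤ R0 →
      (∀ j, as K R0 (j + 1) ≤ δ / 2 ^ j) ∧
      (∀ j, Ce * Real.sqrt (Rp R0 j / Rs R0 j) / as K R0 j ≤ as K R0 (j + 1) * (δ / 2 ^ j) ^ 4) ∧
      (∀ j, Real.sqrt (Rp R0 j / Rs R0 j) ≤ 1 / 100) ∧
      (∀ j, 1 ≤ Rs R0 j) := by
  set t : ℝ := min (min (1 / 2) δ) (δ ^ 4 / (2 * Ce)) with ht
  have ht0 : 0 < t := by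
    apply lt_min
    · exact lt_min (by norm_num) hδ
    · positivity
  have ht1 : t ≤ 1 / 2 := (min_le_left _ _).trans (min_le_left _ _)
  have ht2 : t ≤ δ := (min_le_left _ _).trans (min_le_right _ _)
  have ht3 : t ≤ δ ^ 4 / (2 * Ce) := min_le_right _ _
  refine ⟨max 1 (t ^ (-32 : ℝ)), le_max_left _ _, ?_⟩
  intro R0 hR0
  have h1 : 1 ≤ R0 := (le_max_left _ _).trans hR0
  have h0 : 0 < R0 := by linarith
  have he := ee_pos h0
  have het : ee R0 ≤ t := ee_le ht0 ((le_max_right _ _).trans hR0)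
  have hpow := fun j => ee_pow_le h0 (by linarith : t ≤ 1) het j
  refine ⟨?_, ?_, ?_, fun j => one_le_Rs h1 j⟩
  · intro j
    rw [as_succ h0]
    have h2 : ee R0 ^ (2 ^ (j + 1)) ≤ t ^ (j + 1) := by
      refine (hpow (j + 1)).trans ?_
      exact pow_le_pow_of_le_one ht0.le (by linarith) (by omega)
    refine h2.trans ?_
    rw [pow_succ, mul_comm, div_eq_mul_inv, ← inv_pow]
    apply mul_le_mul ht2 _ (by positivity) hδ.le
    apply pow_le_pow_left₀ ht0.le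
    rw [← one_div]
    exact ht1
  · intro j
    set x : ℝ := ee R0 ^ (2 ^ j) with hx
    have hx0 : 0 < x := pow_pos he _
    have hx1 : x ≤ t ^ (j + 1) := hpow j
    have hxle1 : x ≤ 1 := hx1.trans (pow_le_one₀ ht0.le (by linarith))
    have h2 : as K R0 (j + 1) = x ^ 2 := by rw [as_succ h0, hx, pow_succ, pow_mul]
    have h3 : x ≤ as K R0 j := by
      cases j with
      | zero => rw [as_zero]; linarith
      | succ j => rw [as_succ h0]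
    have h4 := sqrt_le h1 j
    rw [← hx] at h4
    rw [h2, div_le_iff₀ (as_pos (by linarith) h0 j)]
    have h5 : x ^ 5 ≤ t * (1 / 16) ^ j := by
      have e1 : x ^ 5 ≤ (t ^ (j + 1)) ^ 5 := pow_le_pow_left₀ hx0.le hx1 5
      have e2 : (t ^ (j + 1)) ^ 5 = t ^ 5 * (t ^ 5) ^ j := by ring
      have e3 : t ^ 5 ≤ 1 / 16 := by
        calc t ^ 5 ≤ (1 / 2) ^ 5 := pow_le_pow_left₀ ht0.le ht1 5
          _ ≤ 1 / 16 := by norm_num
      have e4 : t ^ 5 ≤ t := by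
        calc t ^ 5 ≤ t ^ 1 := pow_le_pow_of_le_one ht0.le (by linarith) (by norm_num)
          _ = t := pow_one t
      rw [e2] at e1
      refine e1.trans ?_
      apply mul_le_mul e4 _ (by positivity) ht0.le
      exact pow_le_pow_left₀ (by positivity) e3 j
    have h6 : 2 * Ce * x ^ 5 ≤ (δ / 2 ^ j) ^ 4 := by
      have e1 : 2 * Ce * t ≤ δ ^ 4 := by
        rw [le_div_iff₀ (by positivity)] at ht3
        linarith
      have e2 : (δ / 2 ^ j) ^ 4 = δ ^ 4 * (1 / 16) ^ j := by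
        rw [div_pow, ← pow_mul, mul_comm j 4, pow_mul, one_div, inv_pow]
        norm_num
        rfl
      rw [e2]
      calc 2 * Ce * x ^ 5 ≤ 2 * Ce * (t * (1 / 16) ^ j) := by
            apply mul_le_mul_of_nonneg_left h5; positivity
        _ = (2 * Ce * t) * (1 / 16) ^ j := by ring
        _ ≤ δ ^ 4 * (1 / 16) ^ j := mul_le_mul_of_nonneg_right e1 (by positivity)
    calc Ce * Real.sqrt (Rp R0 j / Rs R0 j) ≤ Ce * (2 * x ^ 8) :=
          mul_le_mul_of_nonneg_left h4 hCe.le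
      _ = x ^ 2 * (2 * Ce * x ^ 5) * x := by ring
      _ ≤ x ^ 2 * (δ / 2 ^ j) ^ 4 * as K R0 j := by
          apply mul_le_mul _ h3 hx0.le (by positivity)
          exact mul_le_mul_of_nonneg_left h6 (by positivity)
  · intro j
    refine (sqrt_le h1 j).trans ?_
    have e1 : ee R0 ^ (2 ^ j) ≤ 1 / 2 := by
      refine (hpow j).trans ?_
      calc t ^ (j + 1) ≤ t ^ 1 := pow_le_pow_of_le_one ht0.le (by linarith) (by omega)
        _ = t := pow_one t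
        _ ≤ 1 / 2 := ht1
    calc 2 * (ee R0 ^ (2 ^ j)) ^ 8 ≤ 2 * (1 / 2) ^ 8 := by
          apply mul_le_mul_of_nonneg_left _ (by norm_num)
          exact pow_le_pow_left₀ (pow_nonneg he.le _) e1 8
      _ ≤ 1 / 100 := by norm_num

end Crest.Agent.H19Pots
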