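import Mathlib
import Crest.Prelude.Def_PairPotential
import Crest.Prelude.Def_UnitPacking

set_option autoImplicit false

open MeasureTheory Filter Topology
open Crest.ProbabilityR.Continuum

namespace Crest.Agent.H25Packing

/-- cell index of a point for side `1/2` -/
noncomputable def cellIdx (x : Pt) : Fin 3 → ℤ := fun k => ⌊2 * x k⌋

lemma dist_lt_one_of_cell_eq {x y : Pt} (h : cellIdx x = cellIdx y) : dist x y < 1 := by
  have hk : ∀ k : Fin 3, |x k - y k| < 1 / 2 := by
    intro k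
    have h1 := congrFun h k
    unfold cellIdx at h1
    have h2 : |2 * x k - 2 * y k| < 1 := Int.abs_sub_lt_one_of_floor_eq_floor h1
    have h3 : 2 * x k - 2 * y k = 2 * (x k - y k) := by ring
    rw [h3, abs_mul, abs_of_pos (by norm_num : (0 : ℝ) < 2)] at h2
    linarith
  rw [EuclideanSpace.dist_eq]
  rw [Real.sqrt_lt' one_pos]
  have h4 : ∀ k : Fin 3, dist (x k) (y k) ^ 2 < 1 / 4 := by
    intro k
    rw [Real.dist_eq]
    have := hk k
    have h0 := abs_nonneg (x k - y k)
    nlinarith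
  rw [Fin.sum_univ_three]
  have a := h4 0
  have b := h4 1
  have c := h4 2
  linarith

lemma packingSet_bdd (L : ℝ) : ∀ n ∈ packingSet L, n ≤ (⌊2 * L⌋ + 1).toNat ^ 3 := by
  rintro n ⟨X, rfl, hX, hsep⟩
  classical
  let T : Finset (Fin 3 → ℤ) := Fintype.piFinset (fun _ => Finset.Icc (0 : ℤ) ⌊2 * L⌋)
  have hT : T.card = (⌊2 * L⌋ + 1).toNat ^ 3 := by
    simp [T, Fintype.card_piFinset]
  rw [← hT]
  apply Finset.card_le_card_of_injOn cellIdx
  · intro x hx
    have hx' := hX x hx
    simp only [T, Finset.mem_coe, Fintype.mem_piFinset, Finset.mem_Icc, cellIdx]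
    intro k
    obtain ⟨h0, h1⟩ := hx' k
    constructor
    · apply Int.floor_nonneg.mpr; linarith
    · apply Int.floor_le_floor; linarith
  · intro x hx y hy hxy
    by_contra hne
    have := hsep x hx y hy hne
    have := dist_lt_one_of_cell_eq hxy
    linarith

lemma packingSet_bddAbove (L : ℝ) : BddAbove (packingSet L) :=
  ⟨_, packingSet_bdd L⟩

lemma zero_mem_packingSet (L : ℝ) : 0 ∈ packingSet L :=
  ⟨∅, by simp⟩

lemma packingNumber_mem (L : ℝ) : packingNumber L ∈ packingSet L :=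
  Nat.sSup_mem ⟨0, zero_mem_packingSet L⟩ (packingSet_bddAbove L)

lemma le_packingNumber {L : ℝ} {n : ℕ} (h : n ∈ packingSet L) : n ≤ packingNumber L :=
  le_csSup (packingSet_bddAbove L) h

lemma packingNumber_mono {L M : ℝ} (h : L ≤ M) : packingNumber L ≤ packingNumber M := by
  obtain ⟨X, hc, hX, hs⟩ := packingNumber_mem L
  apply le_packingNumber
  exact ⟨X, hc, fun x hx k => ⟨(hX x hx k).1, (hX x hx k).2.trans h⟩, hs⟩

lemma packingNumber_zero : 1 ≤ packingNumber 0 := by
  apply le_packingNumber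
  refine ⟨{0}, by simp, ?_, ?_⟩
  · intro x hx k
    simp at hx
    subst hx
    simp
  · intro x hx y hy hne
    simp at hx hy
    subst hx; subst hy
    exact absurd rfl hne

lemma one_le_packingNumber {L : ℝ} (h : 0 ≤ L) : 1 ≤ packingNumber L :=
  packingNumber_zero.trans (packingNumber_mono h)

/-- translate of a point by `s` times an integer vector -/
noncomputable def shift (s : ℝ) (a : Fin 3 → ℕ) (x : Pt) : Pt :=
  WithLp.toLp 2 (fun k => x k + s * (a k : ℝ))

lemma shift_apply (s : ℝ) (a : Fin 3 → ℕ) (x : Pt) (k : Fin 3) :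
    shift s a x k = x k + s * (a k : ℝ) := rfl

lemma dist_shift_same (s : ℝ) (a : Fin 3 → ℕ) (x y : Pt) :
    dist (shift s a x) (shift s a y) = dist x y := by
  rw [EuclideanSpace.dist_eq, EuclideanSpace.dist_eq]
  congr 1
  apply Finset.sum_congr rfl
  intro k _
  rw [shift_apply, shift_apply, Real.dist_eq, Real.dist_eq]
  congr 2
  ring

lemma abs_coord_le_dist (x y : Pt) (k : Fin 3) : |x k - y k| ≤ dist x y := by
  rw [EuclideanSpace.dist_eq]
  apply Real.le_sqrt_of_sq_le
  rw [← Real.dist_eq]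
  exact Finset.single_le_sum (f := fun i => dist (x i) (y i) ^ 2)
    (fun i _ => sq_nonneg _) (Finset.mem_univ k)

lemma one_le_dist_shift {L : ℝ} (hL : 0 ≤ L) {a b : Fin 3 → ℕ} (hab : a ≠ b) {x y : Pt}
    (hx : x ∈ cube L) (hy : y ∈ cube L) :
    1 ≤ dist (shift (L + 1) a x) (shift (L + 1) b y) := by
  obtain ⟨k, hk⟩ := Function.ne_iff.mp hab
  refine le_trans ?_ (abs_coord_le_dist _ _ k)
  rw [shift_apply, shift_apply]
  obtain ⟨hx0, hx1⟩ := hx k
  obtain ⟨hy0, hy1⟩ := hy k
  rcases lt_or_gt_of_ne hk with h | h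
  · have h' : (a k : ℝ) + 1 ≤ b k := by exact_mod_cast h
    rw [abs_sub_comm]
    refine le_trans ?_ (le_abs_self _)
    nlinarith
  · have h' : (b k : ℝ) + 1 ≤ a k := by exact_mod_cast h
    refine le_trans ?_ (le_abs_self _)
    nlinarith

lemma superadd {L : ℝ} (hL : 0 ≤ L) (k : ℕ) :
    k ^ 3 * packingNumber L ≤ packingNumber (k * (L + 1)) := by
  classical
  obtain ⟨X, hc, hX, hs⟩ := packingNumber_mem L
  let A : Finset (Fin 3 → ℕ) := Fintype.piFinset (fun _ => Finset.range k)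
  have hA : A.card = k ^ 3 := by simp [A, Fintype.card_piFinset]
  apply le_packingNumber
  refine ⟨(A ×ˢ X).image (fun p => shift (L + 1) p.1 p.2), ?_, ?_, ?_⟩
  · rw [Finset.card_image_of_injOn, Finset.card_product, hA, hc]
    rintro ⟨a, x⟩ hax ⟨b, y⟩ hby h
    simp only [Finset.coe_product, Set.mem_prod, Finset.mem_coe] at hax hby
    simp only at h
    by_cases hab : a = b
    · subst hab
      have : dist x y = 0 := by
        rw [← dist_shift_same (L + 1) a x y, h, dist_self]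
      rw [dist_eq_zero] at this
      rw [this]
    · exfalso
      have := one_le_dist_shift hL hab (hX x hax.2) (hX y hby.2)
      rw [h, dist_self] at this
      linarith
  · intro z hz
    simp only [Finset.mem_image, Finset.mem_product] at hz
    obtain ⟨⟨a, x⟩, ⟨ha, hx⟩, rfl⟩ := hz
    intro j
    have hx' := hX x hx j
    have haj : (a j : ℝ) + 1 ≤ k := by
      have : a j < k := by
        simp only [A, Fintype.mem_piFinset, Finset.mem_range] at ha
        exact ha j
      exact_mod_cast this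
    rw [shift_apply]
    constructor
    · have : (0 : ℝ) ≤ (a j : ℝ) := by positivity
      have := hx'.1
      positivity
    · nlinarith [hx'.2]
  · intro z hz w hw hne
    simp only [Finset.mem_image, Finset.mem_product] at hz hw
    obtain ⟨⟨a, x⟩, ⟨ha, hx⟩, rfl⟩ := hz
    obtain ⟨⟨b, y⟩, ⟨hb, hy⟩, rfl⟩ := hw
    simp only at hne ⊢
    by_cases hab : a = b
    · subst hab
      rw [dist_shift_same]
      apply hs x hx y hy
      rintro rfl
      exact hne rfl
    · exact one_le_dist_shift hL hab (hX x hx) (hX y hy)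

/-- the packing density -/
noncomputable def packDens : ℝ := ⨆ L : Set.Ici (0 : ℝ), (packingNumber L : ℝ) / ((L : ℝ) + 1) ^ 3

lemma ratio_le (L : ℝ) (hL : 0 ≤ L) : (packingNumber L : ℝ) / (L + 1) ^ 3 ≤ 8 := by
  rw [div_le_iff₀ (by positivity)]
  have h1 := packingSet_bdd L _ (packingNumber_mem L)
  have h2 : ((packingNumber L : ℕ) : ℝ) ≤ (((⌊2 * L⌋ + 1).toNat : ℕ) : ℝ) ^ 3 := by
    exact_mod_cast h1
  have h3 : (((⌊2 * L⌋ + 1).toNat : ℕ) : ℝ) ≤ 2 * (L + 1) := by
    have h4 : (0 : ℤ) ≤ ⌊2 * L⌋ + 1 := by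
      have := Int.floor_nonneg.mpr (by linarith : (0 : ℝ) ≤ 2 * L)
      linarith
    have h5 : (((⌊2 * L⌋ + 1).toNat : ℕ) : ℝ) = ((⌊2 * L⌋ + 1 : ℤ) : ℝ) := by
      have : (((⌊2 * L⌋ + 1).toNat : ℕ) : ℤ) = ⌊2 * L⌋ + 1 := Int.toNat_of_nonneg h4
      exact_mod_cast this
    rw [h5]
    push_cast
    have := Int.floor_le (2 * L)
    linarith
  calc (packingNumber L : ℝ) ≤ (((⌊2 * L⌋ + 1).toNat : ℕ) : ℝ) ^ 3 := h2
    _ ≤ (2 * (L + 1)) ^ 3 := by
        apply pow_le_pow_left₀ (by positivity) h3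
    _ = 8 * (L + 1) ^ 3 := by ring

lemma bdd_ratio : BddAbove (Set.range fun L : Set.Ici (0 : ℝ) =>
    (packingNumber L : ℝ) / ((L : ℝ) + 1) ^ 3) := by
  refine ⟨8, ?_⟩
  rintro _ ⟨L, rfl⟩
  exact ratio_le L L.2

lemma ratio_le_packDens {L : ℝ} (hL : 0 ≤ L) :
    (packingNumber L : ℝ) / (L + 1) ^ 3 ≤ packDens :=
  le_ciSup bdd_ratio (⟨L, hL⟩ : Set.Ici (0 : ℝ))

/-- upper bound for the packing number in terms of the density -/
lemma packingNumber_le {L : ℝ} (hL : 0 ≤ L) :
    (packingNumber L : ℝ) ≤ packDens * (L + 1) ^ 3 := by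
  have := ratio_le_packDens hL
  rwa [div_le_iff₀ (by positivity)] at this

lemma packDens_le : packDens ≤ 8 := by
  have : Nonempty (Set.Ici (0 : ℝ)) := ⟨⟨0, by simp⟩⟩
  apply ciSup_le
  intro L
  exact ratio_le L L.2

lemma one_le_packDens : 1 ≤ packDens := by
  have h := ratio_le_packDens (le_refl (0 : ℝ))
  have h1 : (1 : ℝ) ≤ packingNumber 0 := by exact_mod_cast packingNumber_zero
  norm_num at h
  linarith

lemma packDens_pos : 0 < packDens := lt_of_lt_of_le one_pos one_le_packDens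

/-- lower bound: for every `M ≥ 0`, `L ≥ 0` -/
lemma packingNumber_ge {L : ℝ} (hL : 0 ≤ L) {M : ℝ} (hM : 0 ≤ M) :
    (packingNumber L : ℝ) / (L + 1) ^ 3 * max (M - (L + 1)) 0 ^ 3 ≤ packingNumber M := by
  set k : ℕ := ⌊M / (L + 1)⌋₊ with hk
  have hL1 : 0 < L + 1 := by linarith
  have h1 : (k : ℝ) * (L + 1) ≤ M := by
    have := Nat.floor_le (show 0 ≤ M / (L + 1) by positivity)
    rwa [← hk, le_div_iff₀ hL1] at this
  have h2 : M < (k + 1) * (L + 1) := by
    have := Nat.lt_floor_add_one (M / (L + 1))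
    rwa [← hk, div_lt_iff₀ hL1] at this
  have h3 : k ^ 3 * packingNumber L ≤ packingNumber M :=
    (superadd hL k).trans (packingNumber_mono h1)
  have h4 : ((k : ℝ)) ^ 3 * packingNumber L ≤ packingNumber M := by exact_mod_cast h3
  refine le_trans ?_ h4
  rw [div_mul_eq_mul_div, div_le_iff₀ (by positivity)]
  have h5 : max (M - (L + 1)) 0 ≤ k * (L + 1) := by
    apply max_le
    · linarith
    · positivity
  have h6 : max (M - (L + 1)) 0 ^ 3 ≤ (k * (L + 1)) ^ 3 :=
    pow_le_pow_left₀ (le_max_right _ _) h5 3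
  calc (packingNumber L : ℝ) * max (M - (L + 1)) 0 ^ 3
      ≤ (packingNumber L : ℝ) * (k * (L + 1)) ^ 3 :=
        mul_le_mul_of_nonneg_left h6 (by positivity)
    _ = (k : ℝ) ^ 3 * packingNumber L * (L + 1) ^ 3 := by ring

theorem tendsto_packing :
    Tendsto (fun L : ℝ => (packingNumber L : ℝ) / L ^ 3) atTop (𝓝 packDens) := by
  have hinv : Tendsto (fun M : ℝ => M⁻¹) atTop (𝓝 0) := tendsto_inv_atTop_zero
  rw [tendsto_order]
  constructor
  · intro a ha
    have : Nonempty (Set.Ici (0 : ℝ)) := ⟨⟨0, by simp⟩⟩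
    obtain ⟨⟨L, hL⟩, hL'⟩ := exists_lt_of_lt_ciSup ha
    simp only at hL'
    have hL : 0 ≤ L := hL
    set c := (packingNumber L : ℝ) / (L + 1) ^ 3 with hc
    have ht : Tendsto (fun M : ℝ => c * (1 - (L + 1) * M⁻¹) ^ 3) atTop (𝓝 (c * (1 - (L + 1) * 0) ^ 3)) := by
      apply Tendsto.const_mul
      apply Tendsto.pow
      apply Tendsto.sub tendsto_const_nhds
      exact Tendsto.const_mul _ hinv
    have hlim : c * (1 - (L + 1) * 0) ^ 3 = c := by ring
    rw [hlim] at ht
    have hev := (tendsto_order.mp ht).1 a hL'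
    filter_upwards [hev, eventually_ge_atTop (L + 1), eventually_gt_atTop (0 : ℝ)] with M h1 h2 h3
    refine lt_of_lt_of_le h1 ?_
    rw [le_div_iff₀ (by positivity)]
    have h4 := packingNumber_ge hL h3.le
    rw [max_eq_left (by linarith)] at h4
    refine le_trans (le_of_eq ?_) h4
    rw [← hc]
    have : (1 - (L + 1) * M⁻¹) ^ 3 * M ^ 3 = (M - (L + 1)) ^ 3 := by
      rw [← mul_pow]
      congr 1
      field_simp
    rw [mul_assoc, this]
  · intro a ha
    have ht : Tendsto (fun M : ℝ => packDens * (1 + M⁻¹) ^ 3) atTop (𝓝 (packDens * (1 + 0) ^ 3)) := by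
      apply Tendsto.const_mul
      apply Tendsto.pow
      exact Tendsto.add tendsto_const_nhds hinv
    have hlim : packDens * (1 + 0) ^ 3 = packDens := by ring
    rw [hlim] at ht
    have hev := (tendsto_order.mp ht).2 a ha
    filter_upwards [hev, eventually_gt_atTop (0 : ℝ)] with M h1 h3
    refine lt_of_le_of_lt ?_ h1
    rw [div_le_iff₀ (by positivity)]
    refine (packingNumber_le h3.le).trans (le_of_eq ?_)
    have : (1 + M⁻¹) ^ 3 * M ^ 3 = (M + 1) ^ 3 := by
      rw [← mul_pow]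
      congr 1
      field_simp
    rw [mul_assoc, this]

end Crest.Agent.H25Packing
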