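import Mathlib
import Crest.Agent.H13Cube
import Crest.Agent.H19Count
import Crest.Agent.H25Packing

/-!
Greedy representatives and the high-temperature-free upper bound (rid 149, task T3a).
-/

set_option autoImplicit false

open MeasureTheory
open scoped ENNReal

namespace Crest.Agent.H19Reps

open Crest.Agent.H13Conf Crest.Agent.H13Energy Crest.Agent.H13Basic
open Crest.Agent.H19Pair Crest.Agent.H19Count

/-! ### pairwise versions -/

theorem pairSum_mono_pairwise {u w : Pt → Pt → ℝ} {l : List Pt}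
    (h : l.Pairwise fun x y => u x y ≤ w x y) : pairSum u l ≤ pairSum w l := by
  induction l with
  | nil => simp
  | cons a t ih =>
    rw [List.pairwise_cons] at h
    simp only [pairSum_cons]
    have h1 := sum_map_le_sum_map t (f := u a) (g := w a) fun y hy => h.1 y hy
    have h2 := ih h.2
    linarith

theorem sum_map_sublist_le {α : Type*} {f : α → ℝ} (hf : ∀ x, 0 ≤ f x) {l l' : List α}
    (h : l.Sublist l') : (l.map f).sum ≤ (l'.map f).sum := by
  induction h with
  | slnil => simp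
  | cons a _ ih =>
    simp only [List.map_cons, List.sum_cons]
    have := hf a
    linarith
  | cons_cons a _ ih =>
    simp only [List.map_cons, List.sum_cons]
    linarith

theorem pairSum_sublist_le {u : Pt → Pt → ℝ} (hu : ∀ x y, 0 ≤ u x y) {l l' : List Pt}
    (h : l.Sublist l') : pairSum u l ≤ pairSum u l' := by
  induction h with
  | slnil => simp
  | @cons l₁ l₂ a _ ih =>
    rw [pairSum_cons]
    have : 0 ≤ (l₂.map (u a)).sum := by
      apply List.sum_nonneg
      intro y hy
      obtain ⟨x, _, rfl⟩ := List.mem_map.1 hy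
      exact hu a x
    linarith
  | cons_cons a hs ih =>
    rw [pairSum_cons, pairSum_cons]
    have := sum_map_sublist_le (f := u a) (fun x => hu a x) hs
    linarith

/-! ### greedy representatives -/

open Classical in
/-- new representatives in `l`, given the list `A` of previous ones. -/
noncomputable def reps (δ : ℝ) : List Pt → List Pt → List Pt
  | [], _ => []
  | x :: t, A => if ∃ y ∈ A, dist x y < δ then reps δ t A else x :: reps δ t (x :: A)

theorem reps_nil (δ : ℝ) (A : List Pt) : reps δ [] A = [] := rfl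

theorem reps_cons_near {δ : ℝ} {x : Pt} {t A : List Pt} (h : ∃ y ∈ A, dist x y < δ) :
    reps δ (x :: t) A = reps δ t A := by simp only [reps, if_pos h]

theorem reps_cons_far {δ : ℝ} {x : Pt} {t A : List Pt} (h : ¬ ∃ y ∈ A, dist x y < δ) :
    reps δ (x :: t) A = x :: reps δ t (x :: A) := by simp only [reps, if_neg h]

theorem reps_sublist (δ : ℝ) (l : List Pt) : ∀ A, (reps δ l A).Sublist l := by
  induction l with
  | nil => intro A; simp [reps_nil]
  | cons x t ih =>
    intro A
    by_cases h : ∃ y ∈ A, dist x y < δ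
    · rw [reps_cons_near h]; exact (ih A).cons x
    · rw [reps_cons_far h]; exact (ih _).cons_cons x

theorem reps_far (δ : ℝ) (l : List Pt) : ∀ A, ∀ x ∈ reps δ l A, ∀ y ∈ A, δ ≤ dist x y := by
  induction l with
  | nil => intro A x hx; simp [reps_nil] at hx
  | cons a t ih =>
    intro A
    by_cases h : ∃ y ∈ A, dist a y < δ
    · rw [reps_cons_near h]; exact ih A
    · rw [reps_cons_far h]
      intro x hx y hy
      rcases List.mem_cons.1 hx with rfl | hx
      · by_contra hlt
        exact h ⟨y, hy, not_le.1 hlt⟩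
      · exact ih (a :: A) x hx y (by simp [hy])

theorem reps_pairwise (δ : ℝ) (l : List Pt) : ∀ A, (reps δ l A).Pairwise fun x y => δ ≤ dist x y := by
  induction l with
  | nil => intro A; simp [reps_nil]
  | cons a t ih =>
    intro A
    by_cases h : ∃ y ∈ A, dist a y < δ
    · rw [reps_cons_near h]; exact ih A
    · rw [reps_cons_far h, List.pairwise_cons]
      refine ⟨fun y hy => ?_, ih _⟩
      rw [dist_comm]
      exact reps_far δ t (a :: A) y hy a (by simp)

/-! ### the separated sublist -/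

open Classical in
/-- keep the points having no later point within distance `1` -/
noncomputable def sep : List Pt → List Pt
  | [] => []
  | x :: t => if ∃ y ∈ t, dist x y < 1 then sep t else x :: sep t

theorem sep_cons_near {x : Pt} {t : List Pt} (h : ∃ y ∈ t, dist x y < 1) :
    sep (x :: t) = sep t := by simp only [sep, if_pos h]

theorem sep_cons_far {x : Pt} {t : List Pt} (h : ¬ ∃ y ∈ t, dist x y < 1) :
    sep (x :: t) = x :: sep t := by simp only [sep, if_neg h]

theorem sep_sublist (l : List Pt) : (sep l).Sublist l := by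
  induction l with
  | nil => simp [sep]
  | cons x t ih =>
    by_cases h : ∃ y ∈ t, dist x y < 1
    · rw [sep_cons_near h]; exact ih.cons x
    · rw [sep_cons_far h]; exact ih.cons_cons x

theorem sep_pairwise (l : List Pt) : (sep l).Pairwise fun x y => 1 ≤ dist x y := by
  induction l with
  | nil => simp [sep]
  | cons x t ih =>
    by_cases h : ∃ y ∈ t, dist x y < 1
    · rw [sep_cons_near h]; exact ih
    · rw [sep_cons_far h, List.pairwise_cons]
      refine ⟨fun y hy => ?_, ih⟩
      by_contra hlt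
      exact h ⟨y, (sep_sublist t).subset hy, not_le.1 hlt⟩

theorem length_le_sep (l : List Pt) :
    (l.length : ℝ) ≤ (sep l).length + pairSum (fun x y => if dist x y < 1 then 1 else 0) l := by
  induction l with
  | nil => simp [sep]
  | cons x t ih =>
    rw [pairSum_cons, List.length_cons]
    have h0 : 0 ≤ (t.map fun y => if dist x y < 1 then (1 : ℝ) else 0).sum := by
      apply List.sum_nonneg
      intro z hz
      obtain ⟨y, _, rfl⟩ := List.mem_map.1 hz
      split_ifs <;> norm_num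
    by_cases h : ∃ y ∈ t, dist x y < 1
    · rw [sep_cons_near h]
      have h1 : 1 ≤ (t.map fun y => if dist x y < 1 then (1 : ℝ) else 0).sum := by
        obtain ⟨y, hy, hd⟩ := h
        have h2 : (fun y => if dist x y < 1 then (1 : ℝ) else 0) y ≤
            (t.map fun y => if dist x y < 1 then (1 : ℝ) else 0).sum := by
          apply List.single_le_sum
          · intro z hz
            obtain ⟨y, _, rfl⟩ := List.mem_map.1 hz
            split_ifs <;> norm_num
          · exact List.mem_map.2 ⟨y, hy, rfl⟩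
        simpa [hd] using h2
      push_cast
      linarith
    · rw [sep_cons_far h, List.length_cons]
      push_cast
      linarith

theorem length_le_of_pairwise {Λ : Set Pt} {Np : ℕ}
    (hNp : ∀ X : Finset Pt, (∀ x ∈ X, x ∈ Λ) → (∀ x ∈ X, ∀ y ∈ X, x ≠ y → 1 ≤ dist x y) →
      X.card ≤ Np) {l : List Pt} (hl : ∀ x ∈ l, x ∈ Λ)
    (hp : l.Pairwise fun x y => 1 ≤ dist x y) : l.length ≤ Np := by
  classical
  have hnd : l.Nodup := by
    refine hp.imp ?_
    rintro x y h rfl
    rw [dist_self] at h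
    norm_num at h
  have h1 := hNp l.toFinset (fun x hx => hl x (List.mem_toFinset.1 hx)) ?_
  · rwa [List.toFinset_card_of_nodup hnd] at h1
  · intro x hx y hy hxy
    haveI : Std.Symm (fun x y : Pt => 1 ≤ dist x y) := ⟨fun a b h => by rwa [dist_comm]⟩
    exact hp.forall (List.mem_toFinset.1 hx) (List.mem_toFinset.1 hy) hxy

/-! ### energy lower bound -/

theorem energy_ge {s U : ℝ} (hU : 0 ≤ U) {φ : ℝ → ℝ}
    (h0 : ∀ r, 0 ≤ r → 0 ≤ φ r) (h2 : ∀ r, 4 * s ≤ r → r < 1 → U ≤ φ r)
    {Λ : Set Pt} {Np : ℕ}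
    (hNp : ∀ X : Finset Pt, (∀ x ∈ X, x ∈ Λ) → (∀ x ∈ X, ∀ y ∈ X, x ≠ y → 1 ≤ dist x y) →
      X.card ≤ Np) {l : List Pt} (hl : ∀ x ∈ l, x ∈ Λ) :
    U * max 0 (((reps (4 * s) l []).length : ℝ) - Np) ≤ E φ l := by
  set r := reps (4 * s) l [] with hr
  have hsub : r.Sublist l := reps_sublist _ _ _
  have h3 : E φ r ≤ E φ l := pairSum_sublist_le (fun _ _ => h0 _ dist_nonneg) hsub
  have h4 : U * pairSum (fun x y => if dist x y < 1 then 1 else 0) r ≤ E φ r := by
    rw [← pairSum_const_mul]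
    apply pairSum_mono_pairwise
    refine (reps_pairwise (4 * s) l []).imp ?_
    intro x y hxy
    split_ifs with h
    · simpa using h2 _ hxy h
    · simpa using h0 _ dist_nonneg
  have h5 := length_le_sep r
  have h6 : ((sep r).length : ℝ) ≤ Np := by
    have := length_le_of_pairwise hNp (l := sep r)
      (fun x hx => hl x (hsub.subset ((sep_sublist r).subset hx))) (sep_pairwise r)
    exact_mod_cast this
  have h7 : 0 ≤ pairSum (fun x y => if dist x y < 1 then (1 : ℝ) else 0) r :=
    pairSum_nonneg r fun x _ y _ => by split_ifs <;> norm_num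
  have h8 : max 0 ((r.length : ℝ) - Np) ≤ pairSum (fun x y => if dist x y < 1 then 1 else 0) r :=
    max_le h7 (by linarith)
  calc U * max 0 ((r.length : ℝ) - Np)
      ≤ U * pairSum (fun x y => if dist x y < 1 then 1 else 0) r := mul_le_mul_of_nonneg_left h8 hU
    _ ≤ E φ r := h4
    _ ≤ E φ l := h3

/-! ### the integral of the entropy factor -/

theorem J_const_mul' (Λ : Set Pt) (n : ℕ) {c : ℝ≥0∞} (hc : c ≠ ⊤) : ∀ (F : List Pt → ℝ≥0∞),
    J Λ n (fun l => c * F l) = c * J Λ n F := by
  induction n with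
  | zero => intro F; rfl
  | succ n ih =>
    intro F
    simp only [J]
    rw [← lintegral_const_mul' _ _ hc]
    refine lintegral_congr fun x => ?_
    exact ih _

open Classical in
theorem J_reps_le {Λ : Set Pt} (hΛ : MeasurableSet Λ) {V K δ : ℝ} (hV : 0 ≤ V)
    (hvol : volume Λ ≤ ENNReal.ofReal V) (hδ : 0 ≤ δ)
    (hK : Real.exp K * (4 / 3 * Real.pi * δ ^ 3) ≤ 1) (n : ℕ) : ∀ A : List Pt,
    J Λ n (fun l => ENNReal.ofReal (Real.exp (K * ((l.length : ℝ) - (reps δ l A).length)))) ≤
      ENNReal.ofReal ((V + A.length + n) ^ n) := by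
  induction n with
  | zero => intro A; simp [J, reps_nil]
  | succ n ih =>
    intro A
    simp only [J]
    set near : Set Pt := ⋃ y ∈ A.toFinset, Metric.ball y δ with hnear
    have hnm : MeasurableSet near := by
      refine Finset.measurableSet_biUnion _ fun y _ => Metric.isOpen_ball.measurableSet
    have hmem : ∀ x, x ∈ near ↔ ∃ y ∈ A, dist x y < δ := by
      intro x
      simp [hnear]
    set C1 : ℝ≥0∞ := ENNReal.ofReal ((V + A.length + n) ^ n) with hC1
    set C2 : ℝ≥0∞ := ENNReal.ofReal ((V + A.length + n + 1) ^ n) with hC2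
    have hA0 : (0 : ℝ) ≤ A.length := by positivity
    have hn0 : (0 : ℝ) ≤ n := by positivity
    have hC12 : C1 ≤ C2 := by
      apply ENNReal.ofReal_le_ofReal
      apply pow_le_pow_left₀ (by positivity)
      linarith
    have hpt : ∀ x, J Λ n (fun l => ENNReal.ofReal (Real.exp (K * (((x :: l).length : ℝ) - (reps δ (x :: l) A).length)))) ≤
        near.indicator (fun _ => ENNReal.ofReal (Real.exp K) * C2) x + C2 := by
      intro x
      by_cases hx : ∃ y ∈ A, dist x y < δ
      · have h1 : (fun l => ENNReal.ofReal (Real.exp (K * (((x :: l).length : ℝ) - (reps δ (x :: l) A).length)))) =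
            fun l => ENNReal.ofReal (Real.exp K) * ENNReal.ofReal (Real.exp (K * ((l.length : ℝ) - (reps δ l A).length))) := by
          funext l
          rw [reps_cons_near hx, ← ENNReal.ofReal_mul (Real.exp_pos _).le, ← Real.exp_add, List.length_cons]
          congr 2
          push_cast
          ring
        rw [h1, J_const_mul' _ _ ENNReal.ofReal_ne_top, Set.indicator_of_mem ((hmem x).2 hx)]
        calc ENNReal.ofReal (Real.exp K) * J Λ n _ ≤ ENNReal.ofReal (Real.exp K) * C1 :=
              mul_le_mul_right (ih A) _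
          _ ≤ ENNReal.ofReal (Real.exp K) * C2 := mul_le_mul_right hC12 _
          _ ≤ _ := le_self_add
      · have h1 : (fun l => ENNReal.ofReal (Real.exp (K * (((x :: l).length : ℝ) - (reps δ (x :: l) A).length)))) =
            fun l => ENNReal.ofReal (Real.exp (K * ((l.length : ℝ) - (reps δ l (x :: A)).length))) := by
          funext l
          rw [reps_cons_far hx, List.length_cons, List.length_cons]
          congr 2
          push_cast
          ring
        rw [h1]
        have h2 := ih (x :: A)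
        refine h2.trans ?_
        rw [List.length_cons]
        have h3 : ENNReal.ofReal ((V + ((A.length + 1 : ℕ) : ℝ) + n) ^ n) = C2 := by
          rw [hC2]
          congr 2
          push_cast
          ring
        rw [h3]
        exact le_add_self
    refine (lintegral_mono hpt).trans ?_
    rw [lintegral_add_right _ measurable_const, lintegral_const, Measure.restrict_apply_univ,
      lintegral_indicator_const hnm]
    have hv1 : (volume.restrict Λ) near ≤ A.length * ENNReal.ofReal (4 / 3 * Real.pi * δ ^ 3) := by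
      refine (Measure.restrict_apply_le _ _).trans ?_
      refine (measure_biUnion_finset_le _ _).trans ?_
      simp only [volume_ball_real _ hδ]
      rw [Finset.sum_const, nsmul_eq_mul]
      gcongr
      exact List.toFinset_card_le A
    have hv2 : ENNReal.ofReal (Real.exp K) * C2 * (volume.restrict Λ) near ≤ C2 * A.length := by
      calc ENNReal.ofReal (Real.exp K) * C2 * (volume.restrict Λ) near
          ≤ ENNReal.ofReal (Real.exp K) * C2 * (A.length * ENNReal.ofReal (4 / 3 * Real.pi * δ ^ 3)) :=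
            mul_le_mul_right hv1 _
        _ = C2 * A.length * (ENNReal.ofReal (Real.exp K) * ENNReal.ofReal (4 / 3 * Real.pi * δ ^ 3)) := by ring
        _ ≤ C2 * A.length * 1 := by
            gcongr
            rw [← ENNReal.ofReal_mul (Real.exp_pos _).le]
            exact ENNReal.ofReal_le_one.2 hK
        _ = C2 * A.length := mul_one _
    calc ENNReal.ofReal (Real.exp K) * C2 * (volume.restrict Λ) near + C2 * volume Λ
        ≤ C2 * A.length + C2 * ENNReal.ofReal V := add_le_add hv2 (mul_le_mul_right hvol _)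
      _ = ENNReal.ofReal ((V + A.length + n + 1) ^ n * (A.length + V)) := by
          rw [ENNReal.ofReal_mul (by positivity), ENNReal.ofReal_add hA0 hV, ENNReal.ofReal_natCast,
            mul_add]
      _ ≤ ENNReal.ofReal ((V + A.length + ((n + 1 : ℕ) : ℝ)) ^ (n + 1)) := by
          apply ENNReal.ofReal_le_ofReal
          push_cast
          rw [pow_succ, ← add_assoc]
          apply mul_le_mul_of_nonneg_left
          · linarith
          · positivity

/-- (3a) -/
theorem J_bw_le {s U K b V : ℝ} (hs : 0 ≤ s) (hK0 : 0 ≤ K) (hb : 0 ≤ b) (hU : 0 ≤ U)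
    (hbU : K ≤ b * U) (hK : Real.exp K * (4 / 3 * Real.pi * (4 * s) ^ 3) ≤ 1) {φ : ℝ → ℝ}
    (h0 : ∀ r, 0 ≤ r → 0 ≤ φ r) (h2 : ∀ r, 4 * s ≤ r → r < 1 → U ≤ φ r)
    {Λ : Set Pt} (hΛ : MeasurableSet Λ) (hV : 0 ≤ V) (hvol : volume Λ ≤ ENNReal.ofReal V) {Np : ℕ}
    (hNp : ∀ X : Finset Pt, (∀ x ∈ X, x ∈ Λ) → (∀ x ∈ X, ∀ y ∈ X, x ≠ y → 1 ≤ dist x y) →
      X.card ≤ Np) (n : ℕ) :
    J Λ n (bw φ b 0) ≤ ENNReal.ofReal (Real.exp (-K * ((n : ℝ) - Np)) * (V + n) ^ n) := by
  have h1 : J Λ n (bw φ b 0) ≤ J Λ n (fun l => ENNReal.ofReal (Real.exp (-K * ((n : ℝ) - Np))) *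
      ENNReal.ofReal (Real.exp (K * ((l.length : ℝ) - (reps (4 * s) l []).length)))) := by
    apply J_mono hΛ
    intro l hl hl2
    unfold bw
    rw [← ENNReal.ofReal_mul (Real.exp_pos _).le, ← Real.exp_add]
    apply ENNReal.ofReal_le_ofReal
    apply Real.exp_le_exp.2
    have h3 := energy_ge (s := s) hU h0 h2 hNp hl2
    set R : ℝ := ((reps (4 * s) l []).length : ℝ) with hR
    have h4 : K * (R - Np) ≤ b * E φ l := by
      calc K * (R - Np) ≤ K * max 0 (R - Np) := mul_le_mul_of_nonneg_left (le_max_right _ _) hK0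
        _ ≤ (b * U) * max 0 (R - Np) := mul_le_mul_of_nonneg_right hbU (le_max_left _ _)
        _ = b * (U * max 0 (R - Np)) := by ring
        _ ≤ b * E φ l := mul_le_mul_of_nonneg_left h3 hb
    rw [hl]
    linarith
  refine h1.trans ?_
  rw [J_const_mul' _ _ ENNReal.ofReal_ne_top, ENNReal.ofReal_mul (Real.exp_pos _).le]
  gcongr
  have h5 := J_reps_le hΛ hV hvol (show 0 ≤ 4 * s by positivity) hK n []
  simpa using h5

theorem Zc_le {s U K b V : ℝ} (hs : 0 ≤ s) (hK0 : 0 ≤ K) (hb : 0 ≤ b) (hU : 0 ≤ U)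
    (hbU : K ≤ b * U) (hK : Real.exp K * (4 / 3 * Real.pi * (4 * s) ^ 3) ≤ 1) {φ : ℝ → ℝ}
    (h0 : ∀ r, 0 ≤ r → 0 ≤ φ r) (h2 : ∀ r, 4 * s ≤ r → r < 1 → U ≤ φ r)
    {Λ : Set Pt} (hΛ : MeasurableSet Λ) (hV : 0 ≤ V) (hvol : volume Λ ≤ ENNReal.ofReal V) {Np : ℕ}
    (hNp : ∀ X : Finset Pt, (∀ x ∈ X, x ∈ Λ) → (∀ x ∈ X, ∀ y ∈ X, x ≠ y → 1 ≤ dist x y) →
      X.card ≤ Np) (n : ℕ) :
    Zc φ Λ n b ≤ ENNReal.ofReal (Real.exp (-K * ((n : ℝ) - Np)) * Real.exp (V + n)) := by
  unfold Zc
  have h1 := J_bw_le hs hK0 hb hU hbU hK h0 h2 hΛ hV hvol hNp n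
  have h3 : ((n.factorial : ℝ≥0∞))⁻¹ = ENNReal.ofReal ((n.factorial : ℝ)⁻¹) := by
    rw [ENNReal.ofReal_inv_of_pos (by positivity), ENNReal.ofReal_natCast]
  rw [h3]
  calc ENNReal.ofReal ((n.factorial : ℝ)⁻¹) * J Λ n (bw φ b 0)
      ≤ ENNReal.ofReal ((n.factorial : ℝ)⁻¹) *
        ENNReal.ofReal (Real.exp (-K * ((n : ℝ) - Np)) * (V + n) ^ n) := mul_le_mul_right h1 _
    _ = ENNReal.ofReal (Real.exp (-K * ((n : ℝ) - Np)) * ((V + n) ^ n / n.factorial)) := by
        rw [← ENNReal.ofReal_mul (by positivity)]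
        congr 1
        ring
    _ ≤ _ := by
        apply ENNReal.ofReal_le_ofReal
        apply mul_le_mul_of_nonneg_left _ (Real.exp_pos _).le
        exact Real.pow_div_factorial_le_exp _ (by positivity) n

theorem Xi_eq (φ : ℝ → ℝ) {Λ : Set Pt} (hΛ : MeasurableSet Λ) (b h : ℝ) :
    Xi φ Λ b h = ∑' n : ℕ, ENNReal.ofReal (Real.exp (h * n)) * Zc φ Λ n b := by
  unfold Xi G Zc
  refine tsum_congr fun n => ?_
  have : J Λ n (bw φ b h) = ENNReal.ofReal (Real.exp (h * n)) * J Λ n (bw φ b 0) := by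
    rw [← J_const_mul' _ _ ENNReal.ofReal_ne_top]
    apply J_congr hΛ
    intro l hl _
    unfold bw
    rw [← ENNReal.ofReal_mul (Real.exp_pos _).le, ← Real.exp_add, hl]
    congr 2
    ring
  rw [this]
  ring

theorem tsum_exp_neg_le : ∑' n : ℕ, ENNReal.ofReal (Real.exp (-(n : ℝ))) ≤ 2 := by
  have h1 : ∀ n : ℕ, ENNReal.ofReal (Real.exp (-(n : ℝ))) = (ENNReal.ofReal (Real.exp (-1))) ^ n := by
    intro n
    rw [← ENNReal.ofReal_pow (Real.exp_pos _).le, ← Real.exp_nat_mul]
    congr 2
    ring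
  simp_rw [h1]
  rw [ENNReal.tsum_geometric]
  have h2 : Real.exp (-1) ≤ 1 / 2 := by
    rw [Real.exp_neg]
    have := Real.add_one_le_exp (1 : ℝ)
    rw [inv_eq_one_div]
    apply one_div_le_one_div_of_le (by norm_num)
    linarith
  have h3 : ENNReal.ofReal (Real.exp (-1)) ≤ 1 / 2 := by
    have : (1 / 2 : ℝ≥0∞) = ENNReal.ofReal (1 / 2) := by
      rw [ENNReal.ofReal_div_of_pos (by norm_num)]
      simp
    rw [this]
    exact ENNReal.ofReal_le_ofReal h2
  have h4 : (1 / 2 : ℝ≥0∞) ≤ 1 - ENNReal.ofReal (Real.exp (-1)) := by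
    apply ENNReal.le_sub_of_add_le_left (ne_top_of_le_ne_top (by simp) h3)
    calc ENNReal.ofReal (Real.exp (-1)) + 1 / 2 ≤ 1 / 2 + 1 / 2 := add_le_add_left h3 _
      _ = 1 := ENNReal.add_halves 1
  calc (1 - ENNReal.ofReal (Real.exp (-1)))⁻¹ ≤ (1 / 2)⁻¹ := ENNReal.inv_le_inv.2 h4
    _ = 2 := by simp

theorem Xi_le {s U K b V : ℝ} (hs : 0 ≤ s) (hK0 : 0 ≤ K) (hb : 0 ≤ b) (hU : 0 ≤ U)
    (hbU : K ≤ b * U) (hK : Real.exp K * (4 / 3 * Real.pi * (4 * s) ^ 3) ≤ 1) {φ : ℝ → ℝ}
    (h0 : ∀ r, 0 ≤ r → 0 ≤ φ r) (h2 : ∀ r, 4 * s ≤ r → r < 1 → U ≤ φ r)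
    {Λ : Set Pt} (hΛ : MeasurableSet Λ) (hV : 0 ≤ V) (hvol : volume Λ ≤ ENNReal.ofReal V) {Np : ℕ}
    (hNp : ∀ X : Finset Pt, (∀ x ∈ X, x ∈ Λ) → (∀ x ∈ X, ∀ y ∈ X, x ≠ y → 1 ≤ dist x y) →
      X.card ≤ Np) :
    Xi φ Λ b (K - 2) ≤ ENNReal.ofReal (2 * Real.exp (K * Np + V)) := by
  rw [Xi_eq φ hΛ]
  have h1 : ∀ n : ℕ, ENNReal.ofReal (Real.exp ((K - 2) * n)) * Zc φ Λ n b ≤
      ENNReal.ofReal (Real.exp (K * Np + V)) * ENNReal.ofReal (Real.exp (-(n : ℝ))) := by
    intro n
    refine (mul_le_mul_right (Zc_le hs hK0 hb hU hbU hK h0 h2 hΛ hV hvol hNp n) _).trans (le_of_eq ?_)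
    rw [← ENNReal.ofReal_mul (Real.exp_pos _).le, ← ENNReal.ofReal_mul (Real.exp_pos _).le,
      ← Real.exp_add, ← Real.exp_add, ← Real.exp_add]
    congr 2
    ring
  refine (ENNReal.tsum_le_tsum h1).trans ?_
  rw [ENNReal.tsum_mul_left, mul_comm 2, ENNReal.ofReal_mul (Real.exp_pos _).le]
  gcongr
  simpa using tsum_exp_neg_le

/-- `Xi ≥ 1`. -/
theorem one_le_Xi (φ : ℝ → ℝ) (Λ : Set Pt) (b h : ℝ) : 1 ≤ Xi φ Λ b h := by
  unfold Xi G
  refine le_trans ?_ (ENNReal.le_tsum 0)
  simp [J, bw, E]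

/-- crude upper bound for nonnegative potentials -/
theorem J_bw_le_pow {φ : ℝ → ℝ} (h0 : ∀ r, 0 ≤ r → 0 ≤ φ r) {b h : ℝ} (hb : 0 ≤ b)
    (Λ : Set Pt) (n : ℕ) :
    J Λ n (bw φ b h) ≤ (ENNReal.ofReal (Real.exp h) * volume Λ) ^ n := by
  have key : ∀ n : ℕ, ∀ c : ℝ≥0∞, J Λ n (fun l => c * ENNReal.ofReal (Real.exp (h * l.length))) =
      c * (ENNReal.ofReal (Real.exp h) * volume Λ) ^ n := by
    intro n
    induction n with
    | zero => intro c; simp [J]
    | succ n ih =>
      intro c
      simp only [J]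
      have : ∀ x : Pt, J Λ n (fun l => c * ENNReal.ofReal (Real.exp (h * ((x :: l).length : ℕ)))) =
          (c * ENNReal.ofReal (Real.exp h)) * (ENNReal.ofReal (Real.exp h) * volume Λ) ^ n := by
        intro x
        rw [← ih]
        congr 1
        funext l
        rw [mul_assoc, ← ENNReal.ofReal_mul (Real.exp_pos _).le, ← Real.exp_add, List.length_cons]
        congr 3
        push_cast
        ring
      rw [lintegral_congr this, lintegral_const, Measure.restrict_apply_univ, pow_succ]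
      ring
  calc J Λ n (bw φ b h) ≤ J Λ n (fun l => 1 * ENNReal.ofReal (Real.exp (h * l.length))) := by
        -- no measurability of `Λ` is needed since the bound holds for all lists
        have : ∀ n : ℕ, ∀ F F' : List Pt → ℝ≥0∞, (∀ l, F l ≤ F' l) → J Λ n F ≤ J Λ n F' := by
          intro n
          induction n with
          | zero => intro F F' h; exact h []
          | succ n ih => intro F F' h; exact lintegral_mono fun x => ih _ _ fun l => h (x :: l)
        apply this
        intro l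
        rw [one_mul]
        unfold bw
        apply ENNReal.ofReal_le_ofReal
        apply Real.exp_le_exp.2
        have h3 : 0 ≤ E φ l := E_nonneg h0 l
        nlinarith
    _ = _ := by rw [key, one_mul]

theorem Xi_le_exp {φ : ℝ → ℝ} (h0 : ∀ r, 0 ≤ r → 0 ≤ φ r) {b h : ℝ} (hb : 0 ≤ b)
    {Λ : Set Pt} {V : ℝ} (hV : 0 ≤ V) (hvol : volume Λ ≤ ENNReal.ofReal V) :
    Xi φ Λ b h ≤ ENNReal.ofReal (Real.exp (Real.exp h * V)) := by
  unfold Xi G
  have h1 : ∀ n : ℕ, ((n.factorial : ℝ≥0∞))⁻¹ * J Λ n (bw φ b h) ≤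
      ENNReal.ofReal ((Real.exp h * V) ^ n / n.factorial) := by
    intro n
    have h3 : ((n.factorial : ℝ≥0∞))⁻¹ = ENNReal.ofReal ((n.factorial : ℝ)⁻¹) := by
      rw [ENNReal.ofReal_inv_of_pos (by positivity), ENNReal.ofReal_natCast]
    calc ((n.factorial : ℝ≥0∞))⁻¹ * J Λ n (bw φ b h)
        ≤ ENNReal.ofReal ((n.factorial : ℝ)⁻¹) * (ENNReal.ofReal (Real.exp h) * ENNReal.ofReal V) ^ n := by
          rw [h3]
          gcongr
          refine (J_bw_le_pow h0 hb Λ n).trans ?_
          gcongr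
      _ = _ := by
          rw [← ENNReal.ofReal_mul (Real.exp_pos _).le, ← ENNReal.ofReal_pow (by positivity),
            ← ENNReal.ofReal_mul (by positivity)]
          congr 1
          ring
  refine (ENNReal.tsum_le_tsum h1).trans ?_
  rw [← ENNReal.ofReal_tsum_of_nonneg (fun n => by positivity) (Real.summable_pow_div_factorial _)]
  apply ENNReal.ofReal_le_ofReal
  rw [Real.exp_eq_exp_ℝ, NormedSpace.exp_eq_tsum_div]

end Crest.Agent.H19Reps
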