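import Mathlib
import Crest.Agent.H13Super
import Crest.Agent.H13AbsSpec
import Crest.Agent.H19Reps

/-!
Base case bounds for the grand pressure (rid 149, task T3).
-/

set_option autoImplicit false

open MeasureTheory
open scoped ENNReal

namespace Crest.Agent.H19Base

open Crest.Agent.H13Conf Crest.Agent.H13Energy Crest.Agent.H13Basic Crest.Agent.H13Cube
open Crest.Agent.H13Super Crest.Agent.H19Pair Crest.Agent.H25Packing
open Crest.Agent.H13AbsSpec

/-- the base potentials -/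
structure BasePot (r₀ s U : ℝ) (φ : ℝ → ℝ) : Prop where
  pos : 0 < r₀
  meas : Measurable φ
  nonneg : ∀ r, 0 ≤ r → 0 ≤ φ r
  far : ∀ r, r₀ ≤ r → φ r = 0
  wall : ∀ r, 4 * s ≤ r → r < 1 → U ≤ φ r
  well : ∀ r, 5 / 2 * s ≤ r → r ≤ 7 / 2 * s → φ r = 0

theorem BasePot.pot {r₀ s U : ℝ} {φ : ℝ → ℝ} (h : BasePot r₀ s U φ) : Pot r₀ 0 φ where
  pos := h.pos
  meas := h.meas
  neg := fun r hr => (h.far r hr).le
  stab := fun l => by simpa using E_nonneg h.nonneg l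

/-- value of the press quotient -/
theorem press_eq (r₀ : ℝ) (v : ℝ → ℝ) (b h : ℝ) :
    press r₀ v b h = ⨆ L : Set.Ioi (0 : ℝ), lx v L b h / ((L : ℝ) + r₀) ^ 3 := rfl

theorem lx_le {r₀ : ℝ} {v : ℝ → ℝ} (hv : Pot r₀ 0 v) {L : ℝ} (hL : 0 ≤ L) {b : ℝ} (hb : 0 ≤ b) (h : ℝ) :
    lx v L b h ≤ L ^ 3 * Real.exp h := by
  apply exp_le_of_ofReal
  rw [ofReal_exp_lx hv hL hb h]
  have := H13Super.Xi_le_exp hv hL hb h
  simpa using this

theorem ratio_le_exp {r₀ : ℝ} {v : ℝ → ℝ} (hv : Pot r₀ 0 v) {L : ℝ} (hL : 0 < L) {b : ℝ} (hb : 0 ≤ b)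
    (h : ℝ) : lx v L b h / (L + r₀) ^ 3 ≤ Real.exp h := by
  have hr := hv.pos
  rw [div_le_iff₀ (by positivity)]
  refine (lx_le hv hL.le hb h).trans ?_
  rw [mul_comm]
  apply mul_le_mul_of_nonneg_left _ (Real.exp_pos _).le
  apply pow_le_pow_left₀ hL.le
  linarith

theorem bdd {r₀ : ℝ} {v : ℝ → ℝ} (hv : Pot r₀ 0 v) {b : ℝ} (hb : 0 ≤ b) (h : ℝ) :
    BddAbove (Set.range fun L : Set.Ioi (0 : ℝ) => lx v L b h / ((L : ℝ) + r₀) ^ 3) := by
  refine ⟨Real.exp h, ?_⟩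
  rintro _ ⟨L, rfl⟩
  exact ratio_le_exp hv L.2 hb h

theorem ratio_le_press {r₀ : ℝ} {v : ℝ → ℝ} (hv : Pot r₀ 0 v) {b : ℝ} (hb : 0 ≤ b) (h : ℝ) {L : ℝ}
    (hL : 0 < L) : lx v L b h / (L + r₀) ^ 3 ≤ press r₀ v b h := by
  rw [press_eq]
  exact le_ciSup (bdd hv hb h) (⟨L, hL⟩ : Set.Ioi (0 : ℝ))

instance : Nonempty (Set.Ioi (0 : ℝ)) := ⟨⟨1, by simp⟩⟩

theorem press_le {r₀ : ℝ} {v : ℝ → ℝ} {b h c : ℝ}
    (H : ∀ L : ℝ, 0 < L → lx v L b h / (L + r₀) ^ 3 ≤ c) : press r₀ v b h ≤ c := by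
  rw [press_eq]
  exact ciSup_le fun L => H L L.2

/-- (3b) value at `h = 0`. -/
theorem press_zero_le {r₀ : ℝ} {v : ℝ → ℝ} (hv : Pot r₀ 0 v) {b : ℝ} (hb : 0 ≤ b) :
    press r₀ v b 0 ≤ 1 := by
  refine press_le fun L hL => ?_
  simpa using ratio_le_exp hv hL hb 0

/-- (3b) antitone -/
theorem lx_anti {r₀ : ℝ} {v : ℝ → ℝ} (hv : Pot r₀ 0 v) (h0 : ∀ l, 0 ≤ E v l) {L : ℝ} (hL : 0 ≤ L)
    {b b' : ℝ} (hb : 0 ≤ b) (hbb : b ≤ b') (h : ℝ) : lx v L b' h ≤ lx v L b h := by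
  apply exp_le_of_ofReal
  rw [ofReal_exp_lx hv hL hb h, ofReal_exp_lx hv hL (hb.trans hbb) h]
  apply G_mono (measurableSet_cube L)
  intro l _
  unfold bw
  apply ENNReal.ofReal_le_ofReal
  apply Real.exp_le_exp.2
  have := h0 l
  nlinarith

theorem press_anti {r₀ : ℝ} {v : ℝ → ℝ} (hv : Pot r₀ 0 v) (h0 : ∀ l, 0 ≤ E v l)
    {b b' : ℝ} (hb : 0 ≤ b) (hbb : b ≤ b') (h : ℝ) : press r₀ v b' h ≤ press r₀ v b h := by
  refine press_le fun L hL => ?_
  refine le_trans ?_ (ratio_le_press hv hb h hL)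
  have hr := hv.pos
  gcongr
  exact lx_anti hv h0 hL.le hb hbb h

/-! ### upper bound at `K - 2` -/

theorem packing_bound {L : ℝ} (X : Finset Pt) (hX : ∀ x ∈ X, x ∈ cube L)
    (hs : ∀ x ∈ X, ∀ y ∈ X, x ≠ y → 1 ≤ dist x y) :
    X.card ≤ Crest.ProbabilityR.Continuum.packingNumber L :=
  le_packingNumber ⟨X, rfl, hX, hs⟩

theorem lx_at_K_le {r₀ s U K b : ℝ} {φ : ℝ → ℝ} (h : BasePot r₀ s U φ) (hs : 0 ≤ s) (hK0 : 0 ≤ K)
    (hb : 0 ≤ b) (hU : 0 ≤ U) (hbU : K ≤ b * U)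
    (hK : Real.exp K * (4 / 3 * Real.pi * (4 * s) ^ 3) ≤ 1) {L : ℝ} (hL : 0 ≤ L) :
    lx φ L b (K - 2) ≤ K * (packDens * (L + 1) ^ 3) + L ^ 3 + Real.log 2 := by
  apply exp_le_of_ofReal
  rw [ofReal_exp_lx h.pot hL hb]
  have h1 := H19Reps.Xi_le hs hK0 hb hU hbU hK h.nonneg h.wall (measurableSet_cube L)
    (show 0 ≤ L ^ 3 by positivity) (volume_cube hL).le (fun X hX hsep => packing_bound X hX hsep)
  refine h1.trans (ENNReal.ofReal_le_ofReal ?_)
  rw [Real.exp_add (K * (packDens * (L + 1) ^ 3) + L ^ 3), Real.exp_log (by norm_num), mul_comm]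
  apply mul_le_mul_of_nonneg_right _ (by norm_num)
  apply Real.exp_le_exp.2
  have := packingNumber_le hL
  have := mul_le_mul_of_nonneg_left this hK0
  linarith

theorem press_at_K_le {r₀ s U K b : ℝ} {φ : ℝ → ℝ} (h : BasePot r₀ s U φ) (hr : 1 ≤ r₀) (hs : 0 ≤ s)
    (hK0 : 0 ≤ K) (hb : 0 ≤ b) (hU : 0 ≤ U) (hbU : K ≤ b * U)
    (hK : Real.exp K * (4 / 3 * Real.pi * (4 * s) ^ 3) ≤ 1) :
    press r₀ φ b (K - 2) ≤ K * packDens + 1 := by
  refine press_le fun L hL => ?_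
  set c : ℝ := lx φ L b (K - 2) / (L + r₀) ^ 3 with hc
  have hLr : 0 < L + r₀ := by linarith
  -- for every `M ≥ 1`: `c ≤ bound(M (L + r₀)) / (M (L + r₀))^3`
  have key : ∀ M : ℕ, 0 < M →
      c * ((M : ℝ) * (L + r₀)) ^ 3 ≤
        K * (packDens * ((M : ℝ) * (L + r₀) + 1) ^ 3) + ((M : ℝ) * (L + r₀)) ^ 3 + Real.log 2 := by
    intro M hM
    have h1 := lx_superadd h.pot hL M (b := b) (h := K - 2) hb
    have h2 := lx_at_K_le h hs hK0 hb hU hbU hK (L := (M : ℝ) * (L + r₀)) (by positivity)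
    have h3 : c * ((M : ℝ) * (L + r₀)) ^ 3 = (M : ℝ) ^ 3 * lx φ L b (K - 2) := by
      rw [hc]
      field_simp
    rw [h3]
    exact h1.trans h2
  -- limit
  have hlim : Filter.Tendsto (fun M : ℕ => K * (packDens * (1 + ((M : ℝ) * (L + r₀))⁻¹) ^ 3) + 1 +
      Real.log 2 * (((M : ℝ) * (L + r₀))⁻¹) ^ 3) Filter.atTop
      (nhds (K * (packDens * (1 + 0) ^ 3) + 1 + Real.log 2 * 0 ^ 3)) := by
    have h4 : Filter.Tendsto (fun M : ℕ => ((M : ℝ) * (L + r₀))⁻¹) Filter.atTop (nhds 0) := by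
      apply Filter.Tendsto.inv_tendsto_atTop
      exact Filter.Tendsto.atTop_mul_const hLr tendsto_natCast_atTop_atTop
    refine Filter.Tendsto.add (Filter.Tendsto.add ?_ tendsto_const_nhds) ?_
    · exact ((((tendsto_const_nhds.add h4).pow 3).const_mul _).const_mul _)
    · exact (h4.pow 3).const_mul _
  have h5 : K * (packDens * (1 + 0) ^ 3) + 1 + Real.log 2 * 0 ^ 3 = K * packDens + 1 := by ring
  rw [h5] at hlim
  refine ge_of_tendsto hlim ?_
  filter_upwards [Filter.eventually_gt_atTop 0] with M hM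
  have hMpos : (0 : ℝ) < M := by exact_mod_cast hM
  set m : ℝ := (M : ℝ) * (L + r₀) with hm
  have hmpos : 0 < m := by positivity
  have h6 := key M hM
  have h7 : c ≤ (K * (packDens * (m + 1) ^ 3) + m ^ 3 + Real.log 2) / m ^ 3 := by
    rw [le_div_iff₀ (by positivity)]
    exact h6
  refine h7.trans (le_of_eq ?_)
  field_simp

/-! ### lower bounds -/

open Classical in
theorem prod_Xi_le {r₀ B : ℝ} {v : ℝ → ℝ} (hv : Pot r₀ B v) {ι : Type} (s : Finset ι)
    (Λ : ι → Set Pt) (hΛ : ∀ i ∈ s, MeasurableSet (Λ i))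
    (hsep : ∀ i ∈ s, ∀ j ∈ s, i ≠ j → ∀ x ∈ Λ i, ∀ y ∈ Λ j, r₀ ≤ dist x y) {b h : ℝ} (hb : 0 ≤ b) :
    ∏ i ∈ s, Xi v (Λ i) b h ≤ Xi v (⋃ i ∈ s, Λ i) b h := by
  rcases s.eq_empty_or_nonempty with rfl | ⟨i0, hi0⟩
  · simpa using H13Super.one_le_Xi v ∅ b h
  set bm : Pt → ι := fun y => if H : ∃ i ∈ s, y ∈ Λ i then H.choose else i0 with hbm
  have hbm1 : ∀ i ∈ s, ∀ x ∈ Λ i, bm x = i := by
    intro i hi x hx
    have H : ∃ i ∈ s, x ∈ Λ i := ⟨i, hi, hx⟩
    have h1 : bm x = H.choose := by rw [hbm]; exact dif_pos H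
    rw [h1]
    by_contra hne
    have h2 := hsep _ H.choose_spec.1 i hi hne x H.choose_spec.2 x hx
    rw [dist_self] at h2
    linarith [hv.pos]
  have h1 := G_blocks_eq bm s Λ hΛ hbm1 (F := fun _ => bw v b h) (fun _ _ => MF1_bw hv.meas b h)
  have h2 : ∏ i ∈ s, Xi v (Λ i) b h = ∏ i ∈ s, G (Λ i) (bw v b h) := rfl
  rw [h2, ← h1]
  refine G_mono (s.measurableSet_biUnion hΛ) ?_
  intro l hl
  have hl' : ∀ x ∈ l, bm x ∈ s ∧ x ∈ Λ (bm x) := by
    intro x hx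
    have := hl x hx
    simp only [Set.mem_iUnion, exists_prop] at this
    obtain ⟨i, hi, hxi⟩ := this
    rw [hbm1 i hi x hxi]
    exact ⟨hi, hxi⟩
  unfold bw
  rw [prod_ofReal_exp]
  refine ENNReal.ofReal_le_ofReal (Real.exp_le_exp.2 ?_)
  rw [Finset.sum_add_distrib, ← Finset.mul_sum, ← Finset.mul_sum,
    sum_length_filter bm s l (fun x hx => (hl' x hx).1)]
  have h3 : E v l ≤ ∑ i ∈ s, E v (l.filter (fun x => decide (bm x = i))) := by
    refine pairSum_le_block bm s l (fun x hx => (hl' x hx).1) ?_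
    intro x hx y hy hxy
    exact hv.neg _ (hsep _ (hl' x hx).1 _ (hl' y hy).1 hxy x (hl' x hx).2 y (hl' y hy).2)
  nlinarith

theorem Zc_one {v : ℝ → ℝ} {w : ℝ} (hw : 0 ≤ w) (b : ℝ) :
    Zc v (cube w) 1 b = ENNReal.ofReal (w ^ 3) := by
  unfold Zc
  simp [J, bw, E, volume_cube hw]

theorem lz_one {v : ℝ → ℝ} {w : ℝ} (hw : 0 ≤ w) (b : ℝ) : lz v w 1 b = Real.log (w ^ 3) := by
  unfold lz
  rw [Zc_one hw, ENNReal.toReal_ofReal (by positivity)]

theorem annulus_volume (x : Pt) {s : ℝ} (hs : 0 ≤ s) :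
    volume (Metric.closedBall x (7 / 2 * s) \ Metric.ball x (5 / 2 * s)) =
      ENNReal.ofReal (4 / 3 * Real.pi * s ^ 3 * (109 / 4)) := by
  rw [measure_sdiff (Metric.ball_subset_closedBall.trans (Metric.closedBall_subset_closedBall (by linarith)))
    Metric.isOpen_ball.measurableSet.nullMeasurableSet]
  · rw [H19Count.volume_closedBall_real _ (by positivity), H19Count.volume_ball_real _ (by positivity),
      ← ENNReal.ofReal_sub _ (by positivity)]
    congr 1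
    ring
  · rw [H19Count.volume_ball_real _ (by positivity)]
    exact ENNReal.ofReal_ne_top

theorem Zc_two_ge {r₀ s U w b : ℝ} {φ : ℝ → ℝ} (h : BasePot r₀ s U φ) (hs : 0 < s)
    (hsw : 14 * s ≤ w) :
    ENNReal.ofReal (w ^ 3 * (109 / 4096) * (4 / 3 * Real.pi * (4 * s) ^ 3)) ≤
      Zc φ (cube w) 2 b := by
  have hw : 0 < w := by linarith
  set inner : Set Pt := box (fun _ => w / 4) (w / 2) with hinner
  have hin_m : MeasurableSet inner := measurableSet_box _ _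
  have hin_sub : inner ⊆ cube w := by
    intro x hx k
    obtain ⟨h1, h2⟩ := hx k
    simp only at h1 h2
    constructor <;> linarith
  have hin_vol : volume inner = ENNReal.ofReal ((w / 2) ^ 3) := by
    rw [hinner, box_eq]
    rw [(measurePreserving_sub_right (volume : Measure Pt) _).measure_preimage
      (measurableSet_cube _).nullMeasurableSet]
    exact volume_cube (by linarith)
  have h1 : ∀ x ∈ inner, ENNReal.ofReal (4 / 3 * Real.pi * s ^ 3 * (109 / 4)) ≤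
      ∫⁻ y in cube w, bw φ b 0 [x, y] := by
    intro x hx
    rw [← annulus_volume x hs.le]
    set A := Metric.closedBall x (7 / 2 * s) \ Metric.ball x (5 / 2 * s) with hA
    have hAm : MeasurableSet A := Metric.isClosed_closedBall.measurableSet.diff Metric.isOpen_ball.measurableSet
    have hAsub : A ⊆ cube w := by
      intro y hy k
      have h2 : dist y x ≤ 7 / 2 * s := Metric.mem_closedBall.1 hy.1
      have h3 := H13Cube.abs_coord_le_dist y x k
      obtain ⟨h4, h5⟩ := hx k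
      simp only at h4 h5
      have h6 := abs_le.1 (h3.trans h2)
      constructor <;> linarith [h6.1, h6.2]
    calc volume A = ∫⁻ y in A, 1 := by rw [lintegral_one, Measure.restrict_apply_univ]
      _ ≤ ∫⁻ y in A, bw φ b 0 [x, y] := by
          refine lintegral_mono_ae ?_
          refine (ae_restrict_iff' hAm).2 (Filter.Eventually.of_forall ?_)
          intro y hy
          have h2 : dist y x ≤ 7 / 2 * s := Metric.mem_closedBall.1 hy.1
          have h3 : 5 / 2 * s ≤ dist y x := by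
            by_contra hlt
            exact hy.2 (Metric.mem_ball.2 (not_le.1 hlt))
          rw [dist_comm] at h2 h3
          have h4 : φ (dist x y) = 0 := h.well _ h3 h2
          simp [bw, E, h4]
      _ ≤ _ := lintegral_mono_set hAsub
  have h2 : ENNReal.ofReal (4 / 3 * Real.pi * s ^ 3 * (109 / 4)) * ENNReal.ofReal ((w / 2) ^ 3) ≤
      J (cube w) 2 (bw φ b 0) := by
    rw [← hin_vol]
    calc ENNReal.ofReal (4 / 3 * Real.pi * s ^ 3 * (109 / 4)) * volume inner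
        = ∫⁻ x in inner, ENNReal.ofReal (4 / 3 * Real.pi * s ^ 3 * (109 / 4)) := by
          rw [lintegral_const, Measure.restrict_apply_univ]
      _ ≤ ∫⁻ x in inner, (∫⁻ y in cube w, bw φ b 0 [x, y]) := by
          refine lintegral_mono_ae ?_
          exact (ae_restrict_iff' hin_m).2 (Filter.Eventually.of_forall h1)
      _ ≤ ∫⁻ x in cube w, (∫⁻ y in cube w, bw φ b 0 [x, y]) := lintegral_mono_set hin_sub
      _ = _ := rfl
  unfold Zc
  have h3 : (((2 : ℕ).factorial : ℝ≥0∞))⁻¹ = ENNReal.ofReal (1 / 2) := by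
    rw [ENNReal.ofReal_div_of_pos (by norm_num)]
    simp [Nat.factorial]
  rw [h3]
  refine le_trans (le_of_eq ?_) (mul_le_mul_right h2 _)
  rw [← ENNReal.ofReal_mul (by positivity), ← ENNReal.ofReal_mul (by norm_num)]
  congr 1
  ring

theorem lz_two_ge {r₀ s U w b K : ℝ} {φ : ℝ → ℝ} (h : BasePot r₀ s U φ) (hs : 0 < s)
    (hsw : 14 * s ≤ w) (hb : 0 ≤ b) (hK : Real.exp (-K) ≤ 4 / 3 * Real.pi * (4 * s) ^ 3) :
    Real.log (w ^ 3 * (109 / 4096)) - K ≤ lz φ w 2 b := by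
  have hw : 0 < w := by linarith
  apply exp_le_of_ofReal
  rw [ofReal_exp_lz h.pot hw 2 hb]
  refine le_trans (ENNReal.ofReal_le_ofReal ?_) (Zc_two_ge h hs hsw)
  rw [sub_eq_add_neg, Real.exp_add, Real.exp_log (by positivity)]
  exact mul_le_mul_of_nonneg_left hK (by positivity)

/-- many tiny boxes -/
theorem lx_ge_tiny {r₀ η w L₀ b h : ℝ} {v : ℝ → ℝ} {B : ℝ} (hv : Pot r₀ B v) (hη : 0 ≤ η)
    (hw : 0 ≤ w) (hr : r₀ + 2 * w ≤ 1 + 2 * η) (hL₀ : 0 ≤ L₀) (hb : 0 ≤ b) :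
    (Crest.ProbabilityR.Continuum.packingNumber L₀ : ℝ) * lx v w b h ≤
      lx v ((1 + 2 * η) * L₀ + w) b h := by
  classical
  obtain ⟨X, hc, hX, hs⟩ := packingNumber_mem L₀
  apply exp_le_of_ofReal
  rw [ofReal_exp_lx hv (by positivity) hb h, Real.exp_nat_mul, ENNReal.ofReal_pow (Real.exp_pos _).le,
    ofReal_exp_lx hv hw hb h, ← hc]
  set Λ : Pt → Set Pt := fun x => box (fun k => (1 + 2 * η) * x k) w with hΛ
  have h1 : ∀ x, Xi v (Λ x) b h = Xi v (cube w) b h := fun x =>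
    G_box _ w (MF1_bw hv.meas b h) (TI_bw v b h)
  have h2 := prod_Xi_le hv X Λ (fun x _ => measurableSet_box _ _) ?_ (b := b) (h := h) hb
  · rw [Finset.prod_congr rfl fun x _ => h1 x, Finset.prod_const] at h2
    refine h2.trans (Xi_mono_set ?_ b h)
    refine Set.iUnion₂_subset fun x hx => ?_
    intro y hy k
    obtain ⟨h3, h4⟩ := hy k
    obtain ⟨h5, h6⟩ := hX x hx k
    simp only at h3 h4
    have h7 : 0 ≤ (1 + 2 * η) * x k := by positivity
    have h8 : (1 + 2 * η) * x k ≤ (1 + 2 * η) * L₀ := mul_le_mul_of_nonneg_left h6 (by positivity)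
    constructor <;> linarith
  · intro x hx y hy hxy a ha c hc'
    have h3 : 1 ≤ dist x y := hs x hx y hy hxy
    have h4 : dist ((1 + 2 * η) • x) ((1 + 2 * η) • y) = (1 + 2 * η) * dist x y := by
      rw [dist_smul₀, Real.norm_of_nonneg (by positivity)]
    have h5 : dist (a + (1 + 2 * η) • y) (c + (1 + 2 * η) • x) ≤ 2 * w := by
      apply H13Cube.dist_le_of_coord hw
      intro k
      obtain ⟨h6, h7⟩ := ha k
      obtain ⟨h8, h9⟩ := hc' k
      have h10 : (a + (1 + 2 * η) • y) k = a k + (1 + 2 * η) * y k := rfl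
      have h11 : (c + (1 + 2 * η) • x) k = c k + (1 + 2 * η) * x k := rfl
      simp only at h6 h7 h8 h9
      rw [h10, h11, abs_le]
      constructor <;> linarith
    have h6 : dist ((1 + 2 * η) • x) ((1 + 2 * η) • y) ≤
        dist a c + dist (a + (1 + 2 * η) • y) (c + (1 + 2 * η) • x) := by
      rw [dist_eq_norm, dist_eq_norm, dist_eq_norm]
      have : (1 + 2 * η) • x - (1 + 2 * η) • y =
          (a - c) - (a + (1 + 2 * η) • y - (c + (1 + 2 * η) • x)) := by abel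
      rw [this]
      exact norm_sub_le _ _
    rw [h4] at h6
    nlinarith

/-- the density of tiny boxes -/
theorem exists_density {ε₀ η c : ℝ} (hη : 0 ≤ η) (hε : (1 - ε₀) * (1 + 2 * η) ^ 3 < 1) (hc : 0 ≤ c) :
    ∃ L₀ : ℝ, 0 < L₀ ∧
      (1 - ε₀) * packDens * ((1 + 2 * η) * L₀ + c) ^ 3 ≤
        Crest.ProbabilityR.Continuum.packingNumber L₀ := by
  have h1 := tendsto_packing
  have h2 : Filter.Tendsto (fun L : ℝ => (1 - ε₀) * packDens * ((1 + 2 * η) + c * L⁻¹) ^ 3)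
      Filter.atTop (nhds ((1 - ε₀) * packDens * ((1 + 2 * η) + c * 0) ^ 3)) :=
    ((tendsto_const_nhds.add (tendsto_inv_atTop_zero.const_mul c)).pow 3).const_mul _
  have h3 : (1 - ε₀) * packDens * ((1 + 2 * η) + c * 0) ^ 3 < packDens := by
    have : (1 - ε₀) * packDens * ((1 + 2 * η) + c * 0) ^ 3 =
        ((1 - ε₀) * (1 + 2 * η) ^ 3) * packDens := by ring
    rw [this]
    calc ((1 - ε₀) * (1 + 2 * η) ^ 3) * packDens < 1 * packDens :=
          mul_lt_mul_of_pos_right hε packDens_pos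
      _ = packDens := one_mul _
  have h4 := (h2.eventually_lt h1 h3).and (Filter.eventually_gt_atTop (0 : ℝ))
  obtain ⟨L, hL, hL0⟩ := h4.exists
  refine ⟨L, hL0, ?_⟩
  have h5 := hL.le
  rw [le_div_iff₀ (by positivity)] at h5
  refine le_trans (le_of_eq ?_) h5
  rw [mul_assoc ((1 - ε₀) * packDens), ← mul_pow]
  congr 2
  field_simp

/-- The base-case theorem. -/
theorem base_bounds (ε₀ : ℝ) (hε : 0 < ε₀) (hε1 : ε₀ < 1) :
    ∃ r₀ C₁ s₀ : ℝ, 1 < r₀ ∧ r₀ ≤ 2 ∧ 0 ≤ C₁ ∧ 0 < s₀ ∧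
      ∀ (s U K β₀ : ℝ) (φ : ℝ → ℝ), BasePot r₀ s U φ → 0 < s → s ≤ s₀ → 0 ≤ K → 0 < β₀ →
        K ≤ β₀ * U → Real.exp (-K) = 4 / 3 * Real.pi * (4 * s) ^ 3 →
        Base packDens ((1 - ε₀) * packDens) K C₁ β₀ (press r₀ φ) := by
  set η : ℝ := ε₀ / 12 with hη
  have hη0 : 0 < η := by positivity
  set w : ℝ := η / 2 with hw
  have hw0 : 0 < w := by positivity
  have hεη : (1 - ε₀) * (1 + 2 * η) ^ 3 < 1 := by
    rw [hη]
    nlinarith [mul_pos hε hε, mul_pos hε (mul_pos hε hε), mul_pos (mul_pos hε hε) (mul_pos hε hε)]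
  obtain ⟨L₀, hL₀, hL₀2⟩ := exists_density (c := w + (1 + η)) hη0.le hεη (by positivity)
  set p' : ℝ := (1 - ε₀) * packDens with hp'
  have hp'0 : 0 ≤ p' := mul_nonneg (by linarith) packDens_pos.le
  set Ca : ℝ := |Real.log (w ^ 3)| with hCa
  set Cb : ℝ := |Real.log (w ^ 3 * (109 / 4096))| with hCb
  refine ⟨1 + η, p' * (Ca + Cb), w / 14, by linarith, by linarith, by positivity, by positivity, ?_⟩
  intro s U K β₀ φ hφ hs hs₀ hK0 hβ hβU hK
  have hpot := hφ.pot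
  have hE0 : ∀ l, 0 ≤ E φ l := fun l => E_nonneg hφ.nonneg l
  have hU : 0 ≤ U := by
    by_contra hneg
    push Not at hneg
    have : β₀ * U < 0 := mul_neg_of_pos_of_neg hβ hneg
    linarith
  have hKexp : Real.exp K * (4 / 3 * Real.pi * (4 * s) ^ 3) ≤ 1 := by
    rw [← hK, ← Real.exp_add]
    simp
  have low : ∀ b h : ℝ, 0 < b → p' * lx φ w b h ≤ press (1 + η) φ b h := by
    intro b h hb
    have h1 := lx_ge_tiny (η := η) (w := w) (L₀ := L₀) (b := b) (h := h) hpot hη0.le hw0.le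
      (by rw [hw]; linarith) hL₀.le hb.le
    set L₁ : ℝ := (1 + 2 * η) * L₀ + w with hL₁
    have hL₁0 : 0 < L₁ := by positivity
    have h2 := ratio_le_press hpot hb.le h hL₁0
    refine le_trans ?_ h2
    rw [le_div_iff₀ (by positivity)]
    have h3 : L₁ + (1 + η) = (1 + 2 * η) * L₀ + (w + (1 + η)) := by rw [hL₁]; ring
    rw [h3]
    have h4 := lx_nonneg hpot hw0.le hb.le h
    calc p' * lx φ w b h * ((1 + 2 * η) * L₀ + (w + (1 + η))) ^ 3
        = (p' * ((1 + 2 * η) * L₀ + (w + (1 + η))) ^ 3) * lx φ w b h := by ring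
      _ ≤ (Crest.ProbabilityR.Continuum.packingNumber L₀ : ℝ) * lx φ w b h :=
          mul_le_mul_of_nonneg_right hL₀2 h4
      _ ≤ _ := h1
  refine ⟨?_, ?_, ?_, ?_, ?_⟩
  · intro h b hb b' hb' hbb
    exact press_anti hpot hE0 (le_of_lt hb) hbb h
  · intro b hb
    exact press_zero_le hpot hb.le
  · intro b hb
    have hb0 : 0 ≤ b := hβ.le.trans hb
    refine press_at_K_le hφ (by linarith) hs.le hK0 hb0 hU ?_ hKexp
    exact hβU.trans (mul_le_mul_of_nonneg_right hb hU)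
  · intro b h hb
    refine le_trans ?_ (low b h hb)
    have h1 := lz_add_le_lx hpot hw0 1 hb.le h
    rw [lz_one hw0.le] at h1
    have h2 : -Ca ≤ Real.log (w ^ 3) := neg_abs_le _
    have h3 : h - Ca - Cb ≤ lx φ w b h := by
      have : 0 ≤ Cb := abs_nonneg _
      push_cast at h1
      linarith
    have h4 := mul_le_mul_of_nonneg_left h3 hp'0
    linarith
  · intro b h hb
    refine le_trans ?_ (low b h hb)
    have h1 := lz_add_le_lx hpot hw0 2 hb.le h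
    have h5 := lz_two_ge (w := w) hφ hs (by linarith) hb.le hK.le
    have h2 : -Cb ≤ Real.log (w ^ 3 * (109 / 4096)) := neg_abs_le _
    have h3 : 2 * h - K - Ca - Cb ≤ lx φ w b h := by
      have : 0 ≤ Ca := abs_nonneg _
      push_cast at h1
      linarith
    have h4 := mul_le_mul_of_nonneg_left h3 hp'0
    linarith

end Crest.Agent.H19Base
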