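import Mathlib
import Crest.Agent.H19Base

/-!
Construction of the base potentials (rid 149).
-/

set_option autoImplicit false

open MeasureTheory

namespace Crest.Agent.H19Pots

open Crest.Agent.H19Base

/-- clamp to `[0,1]` -/
noncomputable def clamp (x : ℝ) : ℝ := max 0 (min 1 x)

theorem clamp_nonneg (x : ℝ) : 0 ≤ clamp x := le_max_left _ _

theorem clamp_le_one (x : ℝ) : clamp x ≤ 1 := max_le (by norm_num) (min_le_left _ _)

theorem clamp_of_one_le {x : ℝ} (h : 1 ≤ x) : clamp x = 1 := by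
  unfold clamp
  rw [min_eq_left h]
  norm_num

theorem clamp_of_nonpos {x : ℝ} (h : x ≤ 0) : clamp x = 0 := by
  unfold clamp
  exact max_eq_left ((min_le_right _ _).trans h)

theorem continuous_clamp : Continuous clamp := by
  unfold clamp
  fun_prop

/-- the base potential -/
noncomputable def phi0 (r₀ s U r : ℝ) : ℝ :=
  U * (clamp ((5 / 2 * s - r) * (2 / s)) +
    min (clamp ((r - 7 / 2 * s) * (2 / s))) (clamp ((r₀ - r) / (r₀ - 1))))

theorem continuous_phi0 (r₀ s U : ℝ) : Continuous (phi0 r₀ s U) := by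
  unfold phi0
  have := continuous_clamp
  fun_prop

theorem phi0_nonneg {r₀ s U : ℝ} (hU : 0 ≤ U) (r : ℝ) : 0 ≤ phi0 r₀ s U r := by
  unfold phi0
  have h1 := clamp_nonneg ((5 / 2 * s - r) * (2 / s))
  have h2 : 0 ≤ min (clamp ((r - 7 / 2 * s) * (2 / s))) (clamp ((r₀ - r) / (r₀ - 1))) :=
    le_min (clamp_nonneg _) (clamp_nonneg _)
  positivity

theorem phi0_le {r₀ s U : ℝ} (hU : 0 ≤ U) (r : ℝ) : phi0 r₀ s U r ≤ 2 * U := by
  unfold phi0
  have h1 := clamp_le_one ((5 / 2 * s - r) * (2 / s))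
  have h2 : min (clamp ((r - 7 / 2 * s) * (2 / s))) (clamp ((r₀ - r) / (r₀ - 1))) ≤ 1 :=
    (min_le_left _ _).trans (clamp_le_one _)
  nlinarith

theorem basePot_phi0 {r₀ s U : ℝ} (hs : 0 < s) (h4s : 4 * s < 1) (hr : 1 < r₀) (hU : 0 ≤ U) :
    BasePot r₀ s U (phi0 r₀ s U) where
  pos := by linarith
  meas := (continuous_phi0 r₀ s U).measurable
  nonneg := fun r _ => phi0_nonneg hU r
  far := fun r h => by
    unfold phi0
    have h1 : clamp ((5 / 2 * s - r) * (2 / s)) = 0 :=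
      clamp_of_nonpos (mul_nonpos_of_nonpos_of_nonneg (by linarith) (by positivity))
    have h2 : clamp ((r₀ - r) / (r₀ - 1)) = 0 :=
      clamp_of_nonpos (div_nonpos_of_nonpos_of_nonneg (by linarith) (by linarith))
    rw [h1, h2, min_eq_right (clamp_nonneg _)]
    ring
  wall := fun r h1 h2 => by
    unfold phi0
    have e1 : clamp ((r - 7 / 2 * s) * (2 / s)) = 1 := by
      apply clamp_of_one_le
      have : (r - 7 / 2 * s) * (2 / s) = (2 * r - 7 * s) / s := by field_simp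
      rw [this, le_div_iff₀ hs]
      linarith
    have e2 : clamp ((r₀ - r) / (r₀ - 1)) = 1 := by
      apply clamp_of_one_le
      rw [le_div_iff₀ (by linarith)]
      linarith
    rw [e1, e2, min_self]
    have := clamp_nonneg ((5 / 2 * s - r) * (2 / s))
    nlinarith
  well := fun r h1 h2 => by
    unfold phi0
    have e1 : clamp ((5 / 2 * s - r) * (2 / s)) = 0 :=
      clamp_of_nonpos (mul_nonpos_of_nonpos_of_nonneg (by linarith) (by positivity))
    have e2 : clamp ((r - 7 / 2 * s) * (2 / s)) = 0 :=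
      clamp_of_nonpos (mul_nonpos_of_nonpos_of_nonneg (by linarith) (by positivity))
    rw [e1, e2, min_eq_left (clamp_nonneg _)]
    ring

theorem core_phi0 {r₀ s U : ℝ} (hs : 0 < s) (hU : 0 ≤ U) :
    ∀ r, 0 ≤ r → r < 2 * s → U ≤ phi0 r₀ s U r := by
  intro r _ h2
  unfold phi0
  have e1 : clamp ((5 / 2 * s - r) * (2 / s)) = 1 := by
    apply clamp_of_one_le
    have : (5 / 2 * s - r) * (2 / s) = (5 * s - 2 * r) / s := by field_simp
    rw [this, le_div_iff₀ hs]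
    linarith
  rw [e1]
  have h3 : 0 ≤ min (clamp ((r - 7 / 2 * s) * (2 / s))) (clamp ((r₀ - r) / (r₀ - 1))) :=
    le_min (clamp_nonneg _) (clamp_nonneg _)
  nlinarith

/-- (g), continuous version -/
theorem exists_phi {r₀ s U : ℝ} (hs : 0 < s) (h4s : 4 * s < 1) (hr : 1 < r₀) (hU : 0 ≤ U) :
    ∃ φ : ℝ → ℝ, BasePot r₀ s U φ ∧ (∀ r, 0 ≤ r → r < 2 * s → U ≤ φ r) ∧ Continuous φ ∧
      ∃ M : ℝ, ∀ r, |φ r| ≤ M :=
  ⟨phi0 r₀ s U, basePot_phi0 hs h4s hr hU, core_phi0 hs hU, continuous_phi0 r₀ s U, 2 * U,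
    fun r => by rw [abs_of_nonneg (phi0_nonneg hU r)]; exact phi0_le hU r⟩

/-- the divergent part -/
noncomputable def gdiv (s r : ℝ) : ℝ := if 0 < r then max 0 (s / r - 1) else 0

theorem gdiv_nonneg (s r : ℝ) : 0 ≤ gdiv s r := by
  unfold gdiv
  split_ifs
  · exact le_max_left _ _
  · exact le_rfl

theorem gdiv_eq_zero {s r : ℝ} (hs : 0 < s) (h : s ≤ r) : gdiv s r = 0 := by
  unfold gdiv
  have hr : 0 < r := by linarith
  rw [if_pos hr]
  apply max_eq_left
  rw [sub_nonpos, div_le_one hr]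
  exact h

theorem measurable_gdiv (s : ℝ) : Measurable (gdiv s) := by
  unfold gdiv
  refine Measurable.ite measurableSet_Ioi ?_ measurable_const
  fun_prop

theorem gdiv_le {s a r : ℝ} (hs : 0 < s) (ha : 0 < a) (h : a ≤ r) : gdiv s r ≤ s / a := by
  unfold gdiv
  have hr : 0 < r := by linarith
  rw [if_pos hr]
  apply max_le (by positivity)
  have : s / r ≤ s / a := div_le_div_of_nonneg_left hs.le ha h
  linarith

theorem tendsto_gdiv {s : ℝ} (hs : 0 < s) :
    Filter.Tendsto (gdiv s) (nhdsWithin 0 (Set.Ioi 0)) Filter.atTop := by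
  have h1 : Filter.Tendsto (fun r : ℝ => s * r⁻¹ + (-1)) (nhdsWithin 0 (Set.Ioi 0)) Filter.atTop :=
    Filter.tendsto_atTop_add_const_right _ _
      (tendsto_inv_nhdsGT_zero.const_mul_atTop hs)
  refine Filter.tendsto_atTop_mono' _ ?_ h1
  filter_upwards [self_mem_nhdsWithin] with r hr
  unfold gdiv
  rw [if_pos (show 0 < r from hr)]
  refine le_trans (le_of_eq ?_) (le_max_right _ _)
  ring

/-- (g), divergent version -/
theorem exists_phi_div {r₀ s U : ℝ} (hs : 0 < s) (h4s : 4 * s < 1) (hr : 1 < r₀) (hU : 0 ≤ U) :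
    ∃ φ : ℝ → ℝ, BasePot r₀ s U φ ∧ (∀ r, 0 ≤ r → r < 2 * s → U ≤ φ r) ∧
      (∀ a b : ℝ, 0 < a → a ≤ b → ∃ M : ℝ, ∀ r : ℝ, a ≤ r → r ≤ b → |φ r| ≤ M) ∧
      (∃ M : ℝ, ∀ r : ℝ, 1 ≤ r → |φ r| ≤ M) ∧
      Filter.Tendsto φ (nhdsWithin 0 (Set.Ioi 0)) Filter.atTop := by
  have hb := basePot_phi0 (s := s) (U := U) hs h4s hr hU
  have hnn : ∀ r, 0 ≤ phi0 r₀ s U r + gdiv s r := fun r =>
    add_nonneg (phi0_nonneg hU r) (gdiv_nonneg s r)
  refine ⟨fun r => phi0 r₀ s U r + gdiv s r, ⟨hb.pos, hb.meas.add (measurable_gdiv s), ?_, ?_, ?_, ?_⟩,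
    ?_, ?_, ?_, ?_⟩
  · exact fun r _ => hnn r
  · intro r h
    simp only [hb.far r h, gdiv_eq_zero hs (by linarith : s ≤ r), add_zero]
  · intro r h1 h2
    exact le_add_of_le_of_nonneg (hb.wall r h1 h2) (gdiv_nonneg s r)
  · intro r h1 h2
    simp only [hb.well r h1 h2, gdiv_eq_zero hs (by linarith : s ≤ r), add_zero]
  · intro r h1 h2
    exact le_add_of_le_of_nonneg (core_phi0 hs hU r h1 h2) (gdiv_nonneg s r)
  · intro a b ha _
    refine ⟨2 * U + s / a, fun r h1 _ => ?_⟩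
    rw [abs_of_nonneg (hnn r)]
    exact add_le_add (phi0_le hU r) (gdiv_le hs ha h1)
  · refine ⟨2 * U + s / 1, fun r h1 => ?_⟩
    rw [abs_of_nonneg (hnn r)]
    exact add_le_add (phi0_le hU r) (gdiv_le hs one_pos h1)
  · refine Filter.tendsto_atTop_mono (fun r => ?_) (tendsto_gdiv hs)
    exact le_add_of_nonneg_left (phi0_nonneg hU r)

end Crest.Agent.H19Pots
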