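import Mathlib
import Crest.Agent.H13Dec
import Crest.Agent.H19Base
import Crest.Agent.H19Phi
import Crest.Agent.H19Arith

/-!
The sequence of potentials and its limit (rid 149).
Constants: `D = 11680`, `M = 40`, `U = 2*D*M*K`, `B = D*M*K`.
-/

set_option autoImplicit false

open MeasureTheory Filter Topology

namespace Crest.Agent.H19Pots

open Crest.Agent.H13Conf Crest.Agent.H13Energy Crest.Agent.H13Basic Crest.Agent.H13Cube
open Crest.Agent.H13Super Crest.Agent.H19Pair Crest.Agent.H19Base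
open Crest.Agent.H13Dec

/-- the `j`-th potential -/
noncomputable def vv (φ : ℝ → ℝ) (K R0 : ℝ) (j : ℕ) (r : ℝ) : ℝ :=
  φ r - ∑ i ∈ Finset.range j, as K R0 i * kac (Rs R0 i) r

/-- the limit potential -/
noncomputable def vinf (φ : ℝ → ℝ) (K R0 : ℝ) (r : ℝ) : ℝ :=
  φ r - ∑' i, as K R0 i * kac (Rs R0 i) r

/-- standing assumptions -/
structure Setup (r₀ s K R0 : ℝ) (φ : ℝ → ℝ) : Prop where
  base : BasePot r₀ s (2 * 11680 * 40 * K) φ
  core : ∀ r, 0 ≤ r → r < 2 * s → 2 * 11680 * 40 * K ≤ φ r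
  r₀_gt : 1 < r₀
  r₀_le : r₀ ≤ 2
  s_pos : 0 < s
  s_lt : 4 * s < 1
  K_ge : 1 ≤ K
  R0_ge : 2 ^ 32 ≤ R0

variable {r₀ s K R0 : ℝ} {φ : ℝ → ℝ}

theorem Setup.R0_one (H : Setup r₀ s K R0 φ) : 1 ≤ R0 := le_trans (by norm_num) H.R0_ge

theorem Setup.R0_pos (H : Setup r₀ s K R0 φ) : 0 < R0 := by linarith [H.R0_one]

theorem Setup.K_pos (H : Setup r₀ s K R0 φ) : 0 < K := by linarith [H.K_ge]

theorem Setup.one_le_Rs (H : Setup r₀ s K R0 φ) (i : ℕ) : 1 ≤ Rs R0 i := H19Pots.one_le_Rs H.R0_one i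

theorem Setup.Rs_pos (H : Setup r₀ s K R0 φ) (i : ℕ) : 0 < Rs R0 i := H19Pots.Rs_pos H.R0_pos i

theorem Setup.as_pos (H : Setup r₀ s K R0 φ) (i : ℕ) : 0 < as K R0 i :=
  H19Pots.as_pos H.K_pos H.R0_pos i

theorem ee_half (hR : 2 ^ 32 ≤ R0) : ee R0 ≤ 1 / 2 := by
  apply ee_le (by norm_num)
  refine le_trans (le_of_eq ?_) hR
  rw [one_div, Real.inv_rpow (by norm_num), Real.rpow_neg (by norm_num), inv_inv]
  norm_cast

theorem Setup.as_le (H : Setup r₀ s K R0 φ) (i : ℕ) : as K R0 i ≤ K * (1 / 2) ^ i := by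
  cases i with
  | zero => simp [as_zero]
  | succ i =>
    rw [as_succ H.R0_pos]
    refine (ee_pow_le H.R0_pos (by norm_num) (ee_half H.R0_ge) (i + 1)).trans ?_
    have h1 : ((1 / 2 : ℝ)) ^ (i + 1 + 1) ≤ (1 / 2) ^ (i + 1) :=
      pow_le_pow_of_le_one (by norm_num) (by norm_num) (by omega)
    have h2 : ((1 / 2 : ℝ)) ^ (i + 1) ≤ K * (1 / 2) ^ (i + 1) :=
      le_mul_of_one_le_left (by positivity) H.K_ge
    exact h1.trans h2

theorem sum_half_le (j : ℕ) : ∑ i ∈ Finset.range j, (1 / 2 : ℝ) ^ i ≤ 2 := by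
  have h := sum_geometric_two_le j
  simpa using h

theorem Setup.sum_as_le (H : Setup r₀ s K R0 φ) (j : ℕ) :
    ∑ i ∈ Finset.range j, as K R0 i ≤ 2 * K := by
  calc ∑ i ∈ Finset.range j, as K R0 i ≤ ∑ i ∈ Finset.range j, K * (1 / 2) ^ i :=
        Finset.sum_le_sum fun i _ => H.as_le i
    _ = K * ∑ i ∈ Finset.range j, (1 / 2) ^ i := by rw [Finset.mul_sum]
    _ ≤ K * 2 := mul_le_mul_of_nonneg_left (sum_half_le j) H.K_pos.le
    _ = 2 * K := by ring

/-! ### the kernel -/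

theorem continuous_kac (R : ℝ) : Continuous (kac R) := by
  unfold kac
  fun_prop

theorem kac_nonneg' (H : Setup r₀ s K R0 φ) (i : ℕ) (r : ℝ) : 0 ≤ kac (Rs R0 i) r :=
  H19Count.kac_nonneg (H.Rs_pos i).le r

theorem kac_le_inv {R : ℝ} (hR : 0 < R) (r : ℝ) : kac R r ≤ (4 / 3 * Real.pi * R ^ 3)⁻¹ := by
  refine (H19Count.kac_le hR r).trans ?_
  have h : 0 ≤ (4 / 3 * Real.pi * R ^ 3)⁻¹ := by have := Real.pi_pos; positivity
  split_ifs
  · linarith
  · linarith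

theorem inv_ball_le {R : ℝ} (hR : 0 < R) : (4 / 3 * Real.pi * R ^ 3)⁻¹ ≤ (R ^ 3)⁻¹ := by
  apply inv_anti₀ (by positivity)
  have h1 : 1 ≤ 4 / 3 * Real.pi := by linarith [Real.pi_gt_three]
  exact le_mul_of_one_le_left (by positivity) h1

theorem kac_le_one (H : Setup r₀ s K R0 φ) (i : ℕ) (r : ℝ) : kac (Rs R0 i) r ≤ 1 := by
  refine (kac_le_inv (H.Rs_pos i) r).trans ((inv_ball_le (H.Rs_pos i)).trans ?_)
  exact inv_le_one_of_one_le₀ (one_le_pow₀ (H.one_le_Rs i))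

theorem kac_eq_zero {R r : ℝ} (h : R + 1 ≤ r) : kac R r = 0 := by
  unfold kac
  rw [max_eq_left ((min_le_right _ _).trans (by linarith)), zero_div]

theorem term_nonneg (H : Setup r₀ s K R0 φ) (i : ℕ) (r : ℝ) :
    0 ≤ as K R0 i * kac (Rs R0 i) r := mul_nonneg (H.as_pos i).le (kac_nonneg' H i r)

theorem term_le (H : Setup r₀ s K R0 φ) (i : ℕ) (r : ℝ) :
    as K R0 i * kac (Rs R0 i) r ≤ K * (1 / 2) ^ i := by
  calc as K R0 i * kac (Rs R0 i) r ≤ as K R0 i * 1 :=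
        mul_le_mul_of_nonneg_left (kac_le_one H i r) (H.as_pos i).le
    _ = as K R0 i := mul_one _
    _ ≤ _ := H.as_le i

theorem summable_bound (K : ℝ) : Summable fun i : ℕ => K * (1 / 2 : ℝ) ^ i :=
  summable_geometric_two.mul_left K

theorem summable_term (H : Setup r₀ s K R0 φ) (r : ℝ) :
    Summable fun i => as K R0 i * kac (Rs R0 i) r :=
  Summable.of_nonneg_of_le (fun i => term_nonneg H i r) (fun i => term_le H i r) (summable_bound K)

theorem tsum_term_le (H : Setup r₀ s K R0 φ) (r : ℝ) :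
    ∑' i, as K R0 i * kac (Rs R0 i) r ≤ 2 * K := by
  calc ∑' i, as K R0 i * kac (Rs R0 i) r ≤ ∑' i : ℕ, K * (1 / 2 : ℝ) ^ i :=
        (summable_term H r).tsum_le_tsum (fun i => term_le H i r) (summable_bound K)
    _ = 2 * K := by rw [tsum_mul_left, tsum_geometric_two]; ring

theorem tsum_term_nonneg (H : Setup r₀ s K R0 φ) (r : ℝ) :
    0 ≤ ∑' i, as K R0 i * kac (Rs R0 i) r := tsum_nonneg fun i => term_nonneg H i r

/-! ### (e) -/

theorem vv_zero (φ : ℝ → ℝ) (K R0 : ℝ) : vv φ K R0 0 = φ := by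
  funext r; simp [vv]

theorem vv_succ (φ : ℝ → ℝ) (K R0 : ℝ) (j : ℕ) (r : ℝ) :
    vv φ K R0 (j + 1) r = vv φ K R0 j r - as K R0 j * kac (Rs R0 j) r := by
  unfold vv
  rw [Finset.sum_range_succ]
  ring

theorem vv_succ_fun (φ : ℝ → ℝ) (K R0 : ℝ) (j : ℕ) :
    vv φ K R0 (j + 1) = fun r => vv φ K R0 j r - as K R0 j * kac (Rs R0 j) r := by
  funext r; exact vv_succ φ K R0 j r

theorem vv_anti (H : Setup r₀ s K R0 φ) (j : ℕ) (r : ℝ) : vv φ K R0 (j + 1) r ≤ vv φ K R0 j r := by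
  rw [vv_succ]
  linarith [term_nonneg H j r]

theorem tendsto_vv (H : Setup r₀ s K R0 φ) (r : ℝ) :
    Tendsto (fun j => vv φ K R0 j r) atTop (𝓝 (vinf φ K R0 r)) :=
  tendsto_const_nhds.sub (summable_term H r).hasSum.tendsto_sum_nat

theorem measurable_vv (H : Setup r₀ s K R0 φ) (j : ℕ) : Measurable (vv φ K R0 j) := by
  unfold vv
  refine H.base.meas.sub ?_
  exact Finset.measurable_fun_sum _ fun i _ => ((continuous_kac _).measurable.const_mul _)

theorem measurable_vinf (H : Setup r₀ s K R0 φ) : Measurable (vinf φ K R0) := by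
  refine measurable_of_tendsto_metrizable (f := fun j => vv φ K R0 j) (measurable_vv H) ?_
  rw [tendsto_pi_nhds]
  exact tendsto_vv H

/-! ### energies -/

theorem tendsto_E {v : ℕ → ℝ → ℝ} {w : ℝ → ℝ} (h : ∀ r, Tendsto (fun j => v j r) atTop (𝓝 (w r)))
    (l : List Pt) : Tendsto (fun j => E (v j) l) atTop (𝓝 (E w l)) := by
  induction l with
  | nil => simp [E]
  | cons a t ih =>
    simp only [E_cons]
    refine Tendsto.add ?_ ih
    clear ih
    induction t with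
    | nil => simp
    | cons c t ih =>
      simp only [List.map_cons, List.sum_cons]
      exact (h _).add ih

theorem Q_nonneg (l : List Pt) : 0 ≤ Q l := by
  unfold Q
  have : 0 ≤ pairSum (fun x y => if cell x = cell y then (1 : ℝ) else 0) l :=
    pairSum_nonneg l fun x _ y _ => by split_ifs <;> norm_num
  positivity

/-- total attraction energy -/
theorem attr_le (H : Setup r₀ s K R0 φ) (j : ℕ) (l : List Pt) :
    pairSum (fun x y => ∑ i ∈ Finset.range j, as K R0 i * kac (Rs R0 i) (dist x y)) l ≤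
      320 * K * Q l := by
  rw [pairSum_finset_sum (Finset.range j) (fun i x y => as K R0 i * kac (Rs R0 i) (dist x y)) l]
  have h1 : ∀ i ∈ Finset.range j, pairSum (fun x y => as K R0 i * kac (Rs R0 i) (dist x y)) l ≤
      as K R0 i * (160 * Q l) := by
    intro i _
    rw [pairSum_const_mul]
    apply mul_le_mul_of_nonneg_left _ (H.as_pos i).le
    have := H19Count.kac_attraction (H.one_le_Rs i) l
    linarith
  refine (Finset.sum_le_sum h1).trans ?_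
  rw [← Finset.sum_mul]
  have h2 := mul_le_mul_of_nonneg_right (H.sum_as_le j)
    (mul_nonneg (by norm_num : (0 : ℝ) ≤ 160) (Q_nonneg l))
  linarith

theorem E_phi_ge (H : Setup r₀ s K R0 φ) (l : List Pt) :
    640 * K * Q l - 11680 * 40 * K * l.length ≤ E φ l := by
  have hK := H.K_pos
  have h := H19Count.base_superstable H.s_pos (by positivity : 0 ≤ 2 * 11680 * 40 * K) H.s_lt
    H.base.nonneg H.core H.base.wall l
  refine le_trans (le_of_eq ?_) h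
  ring

theorem E_vv (j : ℕ) (l : List Pt) : E (vv φ K R0 j) l =
    E φ l - pairSum (fun x y => ∑ i ∈ Finset.range j, as K R0 i * kac (Rs R0 i) (dist x y)) l := by
  unfold E vv
  rw [← pairSum_sub]

/-- (c) -/
theorem superstable (H : Setup r₀ s K R0 φ) (j : ℕ) (l : List Pt) :
    8 * (40 * K) * Q l - 11680 * 40 * K * l.length ≤ E (vv φ K R0 j) l := by
  rw [E_vv]
  have h1 := attr_le H j l
  have h2 := E_phi_ge H l
  linarith

/-- (b) -/
theorem Am_le (H : Setup r₀ s K R0 φ) (j : ℕ) (l : List Pt) :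
    Am (vv φ K R0 j) l ≤ E (vv φ K R0 j) l + 11680 * 40 * K * l.length := by
  have h0 : Am (vv φ K R0 j) l ≤
      pairSum (fun x y => ∑ i ∈ Finset.range j, as K R0 i * kac (Rs R0 i) (dist x y)) l := by
    unfold Am E
    refine pairSum_mono l fun x _ y _ => ?_
    have h1 : 0 ≤ ∑ i ∈ Finset.range j, as K R0 i * kac (Rs R0 i) (dist x y) :=
      Finset.sum_nonneg fun i _ => term_nonneg H i _
    have h2 := H.base.nonneg (dist x y) dist_nonneg
    refine max_le h1 ?_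
    unfold vv
    linarith
  rw [E_vv]
  have h1 := attr_le H j l
  have h2 := E_phi_ge H l
  linarith

theorem stab_vv (H : Setup r₀ s K R0 φ) (j : ℕ) (l : List Pt) :
    -(11680 * 40 * K) * l.length ≤ E (vv φ K R0 j) l := by
  have h1 := superstable H j l
  have h2 := Q_nonneg l
  have hK := H.K_pos
  have h3 : 0 ≤ 8 * (40 * K) * Q l := by positivity
  linarith

theorem stab_vinf (H : Setup r₀ s K R0 φ) (l : List Pt) :
    -(11680 * 40 * K) * l.length ≤ E (vinf φ K R0) l :=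
  ge_of_tendsto' (tendsto_E (tendsto_vv H) l) fun j => stab_vv H j l

theorem superstable_vinf (H : Setup r₀ s K R0 φ) (l : List Pt) :
    8 * (40 * K) * Q l - 11680 * 40 * K * l.length ≤ E (vinf φ K R0) l :=
  ge_of_tendsto' (tendsto_E (tendsto_vv H) l) fun j => superstable H j l

/-- (a) -/
theorem pot_vv (H : Setup r₀ s K R0 φ) (j : ℕ) : Pot r₀ (11680 * 40 * K) (vv φ K R0 j) where
  pos := H.base.pos
  meas := measurable_vv H j
  neg := fun r hr => by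
    unfold vv
    rw [H.base.far r hr]
    have : 0 ≤ ∑ i ∈ Finset.range j, as K R0 i * kac (Rs R0 i) r :=
      Finset.sum_nonneg fun i _ => term_nonneg H i _
    linarith
  stab := stab_vv H j

theorem pot_vinf (H : Setup r₀ s K R0 φ) : Pot r₀ (11680 * 40 * K) (vinf φ K R0) where
  pos := H.base.pos
  meas := measurable_vinf H
  neg := fun r hr => by
    unfold vinf
    rw [H.base.far r hr]
    linarith [tsum_term_nonneg H r]
  stab := stab_vinf H

/-! ### (d) range -/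

theorem Rs_mono (h : 1 ≤ R0) {i j : ℕ} (hij : i ≤ j) : Rs R0 i ≤ Rs R0 j := by
  unfold Rs
  exact pow_le_pow_right₀ h (Nat.pow_le_pow_right (by norm_num) hij)

theorem range_zero (H : Setup r₀ s K R0 φ) : ∀ r, 2 < r → vv φ K R0 0 r = 0 := by
  intro r hr
  rw [vv_zero]
  exact H.base.far r (H.r₀_le.trans hr.le)

theorem range_succ (H : Setup r₀ s K R0 φ) (j : ℕ) :
    ∀ r, Rs R0 j + 1 < r → vv φ K R0 (j + 1) r = 0 := by
  intro r hr
  unfold vv
  have h1 : φ r = 0 := H.base.far r (by linarith [H.one_le_Rs j, H.r₀_le])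
  rw [h1, Finset.sum_eq_zero]
  · ring
  · intro i hi
    have hi' : i ≤ j := Nat.lt_succ_iff.1 (Finset.mem_range.1 hi)
    rw [kac_eq_zero, mul_zero]
    have := Rs_mono H.R0_one hi'
    linarith

theorem range_all (H : Setup r₀ s K R0 φ) (j : ℕ) : ∀ r, Rp R0 j < r → vv φ K R0 j r = 0 := by
  cases j with
  | zero => exact range_zero H
  | succ j => exact range_succ H j

/-! ### (f) properties of the limit -/

theorem vinf_le (H : Setup r₀ s K R0 φ) (r : ℝ) : vinf φ K R0 r ≤ φ r := by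
  unfold vinf; linarith [tsum_term_nonneg H r]

theorem vinf_ge (H : Setup r₀ s K R0 φ) (r : ℝ) : φ r - 2 * K ≤ vinf φ K R0 r := by
  unfold vinf; linarith [tsum_term_le H r]

theorem abs_vinf_le (H : Setup r₀ s K R0 φ) (r : ℝ) : |vinf φ K R0 r| ≤ |φ r| + 2 * K := by
  have h1 := vinf_le H r
  have h2 := vinf_ge H r
  have h3 := abs_le.1 (le_refl |φ r|)
  have hK := H.K_pos
  rw [abs_le]
  constructor <;> linarith [h3.1, h3.2]

theorem continuous_vinf (H : Setup r₀ s K R0 φ) (hφ : Continuous φ) : Continuous (vinf φ K R0) := by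
  unfold vinf
  refine hφ.sub (continuous_tsum (u := fun i : ℕ => K * (1 / 2 : ℝ) ^ i)
    (fun i => (continuous_kac _).const_mul _) (summable_bound K) ?_)
  intro i r
  rw [Real.norm_of_nonneg (term_nonneg H i r)]
  exact term_le H i r

theorem bounded_vinf (H : Setup r₀ s K R0 φ) (hφ : ∃ M : ℝ, ∀ r, |φ r| ≤ M) :
    ∃ M : ℝ, ∀ r, |vinf φ K R0 r| ≤ M := by
  obtain ⟨M, hM⟩ := hφ
  exact ⟨M + 2 * K, fun r => (abs_vinf_le H r).trans (by linarith [hM r])⟩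

theorem locally_bounded_vinf (H : Setup r₀ s K R0 φ)
    (hφ : ∀ a b : ℝ, 0 < a → a ≤ b → ∃ M : ℝ, ∀ r : ℝ, a ≤ r → r ≤ b → |φ r| ≤ M) :
    ∀ a b : ℝ, 0 < a → a ≤ b → ∃ M : ℝ, ∀ r : ℝ, a ≤ r → r ≤ b → |vinf φ K R0 r| ≤ M := by
  intro a b ha hab
  obtain ⟨M, hM⟩ := hφ a b ha hab
  exact ⟨M + 2 * K, fun r h1 h2 => (abs_vinf_le H r).trans (by linarith [hM r h1 h2])⟩

theorem tendsto_vinf_zero (H : Setup r₀ s K R0 φ) (hφ : Tendsto φ (𝓝[>] 0) atTop) :
    Tendsto (vinf φ K R0) (𝓝[>] 0) atTop := by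
  refine tendsto_atTop_mono (vinf_ge H) ?_
  simpa [sub_eq_add_neg] using tendsto_atTop_add_const_right _ (-(2 * K)) hφ

theorem vinf_neg (H : Setup r₀ s K R0 φ) : ∃ r₁ r₂ a : ℝ, 0 < r₁ ∧ r₁ < r₂ ∧ 0 < a ∧
    ∀ r : ℝ, r₁ ≤ r → r ≤ r₂ → vinf φ K R0 r ≤ -a := by
  have hR := H.R0_pos
  have hK := H.K_pos
  refine ⟨2, 3, K * (4 / 3 * Real.pi * R0 ^ 3)⁻¹, by norm_num, by norm_num, ?_, ?_⟩
  · have := Real.pi_pos; positivity
  · intro r h1 h2
    unfold vinf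
    rw [H.base.far r (H.r₀_le.trans h1)]
    have h3 : as K R0 0 * kac (Rs R0 0) r ≤ ∑' i, as K R0 i * kac (Rs R0 i) r :=
      (summable_term H r).le_tsum 0 fun i _ => term_nonneg H i r
    rw [as_zero, Rs_zero] at h3
    have h4 : (4 / 3 * Real.pi * R0 ^ 3)⁻¹ ≤ kac R0 r := by
      apply H19Count.le_kac hR
      have := H.R0_ge
      have : (3 : ℝ) ≤ 2 ^ 32 := by norm_num
      linarith
    have h5 := mul_le_mul_of_nonneg_left h4 hK.le
    linarith

/-- growth of the scales -/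
theorem Rs_add_ge (h : 2 ≤ R0) (i k : ℕ) : Rs R0 i * 2 ^ k ≤ Rs R0 (k + i) := by
  induction k with
  | zero => simp
  | succ k ih =>
    have h1 : 2 ≤ Rs R0 (k + i) := h.trans (le_Rs (by linarith) _)
    have h2 : k + 1 + i = (k + i) + 1 := by ring
    rw [h2, Rs_succ, pow_succ]
    nlinarith

/-- amplitude bound -/
theorem as_le_rpow (H : Setup r₀ s K R0 φ) (i : ℕ) :
    as K R0 i ≤ (K * R0 ^ ((1 / 32 : ℝ))) * (Rs R0 i) ^ (-(1 / 32) : ℝ) := by
  have hR := H.R0_pos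
  have hK := H.K_pos
  have h1 : 1 ≤ R0 ^ ((1 / 32 : ℝ)) := Real.one_le_rpow H.R0_one (by norm_num)
  cases i with
  | zero =>
    rw [as_zero, Rs_zero, mul_assoc, ← Real.rpow_add hR]
    norm_num
  | succ i =>
    show (Rs R0 (i + 1)) ^ (-(1 / 32) : ℝ) ≤ _
    apply le_mul_of_one_le_left
    · exact (Real.rpow_pos_of_pos (H.Rs_pos _) _).le
    · nlinarith [H.K_ge]

theorem term_le_rpow (H : Setup r₀ s K R0 φ) (i : ℕ) (r : ℝ) :
    as K R0 i * kac (Rs R0 i) r ≤ (K * R0 ^ ((1 / 32 : ℝ))) * (Rs R0 i) ^ (-(3 + 1 / 32) : ℝ) := by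
  have hRs := H.Rs_pos i
  have hK := H.K_pos
  have hR := H.R0_pos
  have h1 := as_le_rpow H i
  have h2 := (kac_le_inv hRs r).trans (inv_ball_le hRs)
  have h3 : (Rs R0 i) ^ (-(3 + 1 / 32) : ℝ) = (Rs R0 i) ^ (-(1 / 32) : ℝ) * (Rs R0 i ^ 3)⁻¹ := by
    rw [← Real.rpow_natCast, ← Real.rpow_neg hRs.le, ← Real.rpow_add hRs]
    norm_num
  rw [h3, ← mul_assoc]
  exact mul_le_mul h1 h2 (kac_nonneg' H i r) (by positivity)

theorem tsum_term_decay (H : Setup r₀ s K R0 φ) {r : ℝ} (hr : 1 ≤ r) :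
    ∑' i, as K R0 i * kac (Rs R0 i) r ≤
      (2 * (K * R0 ^ ((1 / 32 : ℝ))) * 2 ^ ((3 + 1 / 32) : ℝ)) * r ^ (-(3 + 1 / 32) : ℝ) := by
  have hK := H.K_pos
  have hR := H.R0_pos
  set C0 : ℝ := K * R0 ^ ((1 / 32 : ℝ)) with hC0
  have hC0pos : 0 < C0 := by positivity
  have hR2 : 2 ≤ R0 := le_trans (by norm_num) H.R0_ge
  -- first index with `r ≤ 2 Rs i`
  have hex : ∃ i, r ≤ 2 * Rs R0 i := by
    obtain ⟨n, hn⟩ := pow_unbounded_of_one_lt r (by norm_num : (1 : ℝ) < 2)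
    refine ⟨n, ?_⟩
    have h1 := Rs_add_ge hR2 0 n
    have h2 : 1 ≤ Rs R0 0 := H.one_le_Rs 0
    have h3 : (0 : ℝ) < 2 ^ n := by positivity
    simp only [add_zero] at h1
    nlinarith
  classical
  set i0 := Nat.find hex with hi0
  have hi0s : r ≤ 2 * Rs R0 i0 := Nat.find_spec hex
  have hlt : ∀ i, i < i0 → 2 * Rs R0 i < r := fun i hi => not_le.1 (Nat.find_min hex hi)
  have hzero : ∑ i ∈ Finset.range i0, as K R0 i * kac (Rs R0 i) r = 0 := by
    apply Finset.sum_eq_zero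
    intro i hi
    have h1 := hlt i (Finset.mem_range.1 hi)
    rw [kac_eq_zero, mul_zero]
    linarith [H.one_le_Rs i]
  rw [← (summable_term H r).sum_add_tsum_nat_add i0, hzero, zero_add]
  have hx0 : 0 < Rs R0 i0 := H.Rs_pos i0
  have hbound : ∀ k : ℕ, as K R0 (k + i0) * kac (Rs R0 (k + i0)) r ≤
      (C0 * (Rs R0 i0) ^ (-(3 + 1 / 32) : ℝ)) * (1 / 2) ^ k := by
    intro k
    refine (term_le_rpow H (k + i0) r).trans ?_
    rw [← hC0, mul_assoc C0]
    apply mul_le_mul_of_nonneg_left _ hC0pos.le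
    have h1 : (Rs R0 (k + i0)) ^ (-(3 + 1 / 32) : ℝ) ≤ (Rs R0 i0 * 2 ^ k) ^ (-(3 + 1 / 32) : ℝ) :=
      Real.rpow_le_rpow_of_nonpos (by positivity) (Rs_add_ge hR2 i0 k) (by norm_num)
    refine h1.trans ?_
    rw [Real.mul_rpow hx0.le (by positivity)]
    apply mul_le_mul_of_nonneg_left _ (Real.rpow_pos_of_pos hx0 _).le
    have h2 : ((2 : ℝ) ^ k) ^ (-(3 + 1 / 32) : ℝ) ≤ ((2 : ℝ) ^ k) ^ (-1 : ℝ) :=
      Real.rpow_le_rpow_of_exponent_le (one_le_pow₀ (by norm_num)) (by norm_num)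
    refine h2.trans (le_of_eq ?_)
    rw [Real.rpow_neg_one, one_div, inv_pow]
  have hs1 : Summable fun k => as K R0 (k + i0) * kac (Rs R0 (k + i0)) r :=
    (summable_nat_add_iff i0).2 (summable_term H r)
  have hs2 : Summable fun k : ℕ => (C0 * (Rs R0 i0) ^ (-(3 + 1 / 32) : ℝ)) * (1 / 2 : ℝ) ^ k :=
    summable_geometric_two.mul_left _
  refine (hs1.tsum_le_tsum hbound hs2).trans ?_
  rw [tsum_mul_left, tsum_geometric_two]
  have h3 : (Rs R0 i0) ^ (-(3 + 1 / 32) : ℝ) ≤ (r / 2) ^ (-(3 + 1 / 32) : ℝ) :=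
    Real.rpow_le_rpow_of_nonpos (by linarith) (by linarith) (by norm_num)
  have h4 : (r / 2) ^ (-(3 + 1 / 32) : ℝ) = 2 ^ ((3 + 1 / 32) : ℝ) * r ^ (-(3 + 1 / 32) : ℝ) := by
    rw [div_eq_mul_inv, Real.mul_rpow (by linarith) (by norm_num), ← Real.rpow_neg_one (2 : ℝ),
      ← Real.rpow_mul (by norm_num)]
    norm_num
    ring
  rw [h4] at h3
  calc C0 * Rs R0 i0 ^ (-(3 + 1 / 32) : ℝ) * 2
      ≤ C0 * (2 ^ ((3 + 1 / 32) : ℝ) * r ^ (-(3 + 1 / 32) : ℝ)) * 2 := by gcongr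
    _ = _ := by ring

/-- (f) decay -/
theorem decay_vinf (H : Setup r₀ s K R0 φ) (hφ : ∃ M : ℝ, ∀ r : ℝ, 1 ≤ r → |φ r| ≤ M) :
    ∃ C : ℝ, ∀ r : ℝ, 1 ≤ r → |vinf φ K R0 r| ≤ C * r ^ (-(3 + 1 / 32 : ℝ)) := by
  obtain ⟨M, hM⟩ := hφ
  have hM0 : 0 ≤ M := (abs_nonneg _).trans (hM 1 le_rfl)
  have hK := H.K_pos
  have hR := H.R0_pos
  refine ⟨M * 16 + 2 * (K * R0 ^ ((1 / 32 : ℝ))) * 2 ^ ((3 + 1 / 32) : ℝ), fun r hr => ?_⟩
  have hr0 : 0 < r := by linarith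
  have h1 : |vinf φ K R0 r| ≤ |φ r| + ∑' i, as K R0 i * kac (Rs R0 i) r := by
    unfold vinf
    refine (abs_sub _ _).trans ?_
    rw [abs_of_nonneg (tsum_term_nonneg H r)]
  have h2 : |φ r| ≤ M * 16 * r ^ (-(3 + 1 / 32) : ℝ) := by
    rcases le_or_gt r 2 with h | h
    · have h3 : (2 : ℝ) ^ (-(3 + 1 / 32) : ℝ) ≤ r ^ (-(3 + 1 / 32) : ℝ) :=
        Real.rpow_le_rpow_of_nonpos hr0 h (by norm_num)
      have h4 : (2 : ℝ) ^ (-4 : ℝ) ≤ (2 : ℝ) ^ (-(3 + 1 / 32) : ℝ) :=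
        Real.rpow_le_rpow_of_exponent_le (by norm_num) (by norm_num)
      have h5 : (2 : ℝ) ^ (-4 : ℝ) = 1 / 16 := by
        rw [Real.rpow_neg (by norm_num)]
        norm_num
      rw [h5] at h4
      have h6 := hM r hr
      have h7 : 1 / 16 ≤ r ^ (-(3 + 1 / 32) : ℝ) := h4.trans h3
      calc |φ r| ≤ M := h6
        _ = M * 16 * (1 / 16) := by ring
        _ ≤ _ := mul_le_mul_of_nonneg_left h7 (by positivity)
    · rw [H.base.far r (H.r₀_le.trans h.le), abs_zero]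
      positivity
  have h3 := tsum_term_decay H hr
  calc |vinf φ K R0 r| ≤ _ := h1
    _ ≤ M * 16 * r ^ (-(3 + 1 / 32) : ℝ) +
        (2 * (K * R0 ^ ((1 / 32 : ℝ))) * 2 ^ ((3 + 1 / 32) : ℝ)) * r ^ (-(3 + 1 / 32) : ℝ) :=
        add_le_add h2 h3
    _ = _ := by ring

theorem integrable_vinf (H : Setup r₀ s K R0 φ) (hφ : ∃ M : ℝ, ∀ r : ℝ, 1 ≤ r → |φ r| ≤ M) :
    ∃ R : ℝ, 0 < R ∧ IntegrableOn (fun r : ℝ => r ^ 2 * |vinf φ K R0 r|) (Set.Ioi R) := by
  obtain ⟨C, hC⟩ := decay_vinf H hφ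
  refine ⟨1, one_pos, ?_⟩
  have hint : IntegrableOn (fun r : ℝ => C * r ^ (-(1 + 1 / 32) : ℝ)) (Set.Ioi 1) :=
    (integrableOn_Ioi_rpow_of_lt (by norm_num) one_pos).const_mul C
  refine hint.mono' ?_ ?_
  · exact ((measurable_id.pow_const 2).mul (measurable_vinf H).abs).aestronglyMeasurable
  · refine (ae_restrict_iff' measurableSet_Ioi).2 (Eventually.of_forall fun r hr => ?_)
    have hr1 : (1 : ℝ) < r := hr
    have hr0 : 0 < r := by linarith
    rw [Real.norm_of_nonneg (by positivity)]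
    calc r ^ 2 * |vinf φ K R0 r| ≤ r ^ 2 * (C * r ^ (-(3 + 1 / 32 : ℝ))) :=
          mul_le_mul_of_nonneg_left (hC r hr1.le) (by positivity)
      _ = C * (r ^ (2 : ℝ) * r ^ (-(3 + 1 / 32 : ℝ))) := by
          rw [Real.rpow_two]; ring
      _ = C * r ^ (-(1 + 1 / 32) : ℝ) := by
          rw [← Real.rpow_add hr0]
          norm_num

theorem tendsto_cube_vinf (H : Setup r₀ s K R0 φ) (hφ : ∃ M : ℝ, ∀ r : ℝ, 1 ≤ r → |φ r| ≤ M) :
    Tendsto (fun r : ℝ => r ^ 3 * vinf φ K R0 r) atTop (𝓝 0) := by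
  obtain ⟨C, hC⟩ := decay_vinf H hφ
  have h1 : Tendsto (fun r : ℝ => C * r ^ (-(1 / 32) : ℝ)) atTop (𝓝 (C * 0)) :=
    (tendsto_rpow_neg_atTop (by norm_num : (0 : ℝ) < 1 / 32)).const_mul C
  rw [mul_zero] at h1
  refine squeeze_zero_norm' ?_ h1
  filter_upwards [eventually_ge_atTop (1 : ℝ)] with r hr
  have hr0 : 0 < r := by linarith
  rw [norm_mul, Real.norm_of_nonneg (by positivity : (0 : ℝ) ≤ r ^ 3), Real.norm_eq_abs]
  calc r ^ 3 * |vinf φ K R0 r| ≤ r ^ 3 * (C * r ^ (-(3 + 1 / 32 : ℝ))) :=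
        mul_le_mul_of_nonneg_left (hC r hr) (by positivity)
    _ = C * (r ^ (3 : ℝ) * r ^ (-(3 + 1 / 32 : ℝ))) := by
        have : r ^ (3 : ℝ) = r ^ 3 := by exact_mod_cast Real.rpow_natCast r 3
        rw [this]; ring
    _ = C * r ^ (-(1 / 32) : ℝ) := by
        rw [← Real.rpow_add hr0]
        norm_num

end Crest.Agent.H19Pots
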