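import Mathlib
import Crest.Agent.H13AbsSpec

set_option autoImplicit false

open Filter Topology Set
open Crest.Agent.H13AbsSpec

namespace Crest.Agent.H25Abs

/-- The set of points of `R` carrying a subgradient in `N` -/
def carry (G : ℝ → ℝ → ℝ) (R N : Set (ℝ × ℝ)) : Set (ℝ × ℝ) :=
  {x | x ∈ R ∧ ∃ y ∈ N, Sub G x.1 x.2 y.1 y.2}

lemma isCompact_carry {G : ℝ → ℝ → ℝ}
    (hc : ConvexOn ℝ {x : ℝ × ℝ | 0 < x.1} (fun x => G x.1 x.2)) {R N : Set (ℝ × ℝ)}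
    (hR : IsCompact R) (hpos : ∀ x ∈ R, 0 < x.1) (hN : IsCompact N) :
    IsCompact (carry G R N) := by
  have hopen : IsOpen {x : ℝ × ℝ | 0 < x.1} := isOpen_lt continuous_const continuous_fst
  have hcont : ContinuousOn (fun x : ℝ × ℝ => G x.1 x.2) {x : ℝ × ℝ | 0 < x.1} :=
    hc.continuousOn hopen
  set C : Set ((ℝ × ℝ) × (ℝ × ℝ)) :=
    {z | z ∈ R ×ˢ N ∧ Sub G z.1.1 z.1.2 z.2.1 z.2.2} with hC
  have hRN : IsCompact (R ×ˢ N) := hR.prod hN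
  have hCclosed : IsClosed C := by
    have : C = ⋂ b' : ℝ, ⋂ h' : ℝ, ⋂ _ : 0 < b', ((R ×ˢ N) ∩
        (fun z : (ℝ × ℝ) × (ℝ × ℝ) =>
          G z.1.1 z.1.2 + z.2.1 * (b' - z.1.1) + z.2.2 * (h' - z.1.2)) ⁻¹' (Iic (G b' h'))) := by
      ext z
      simp only [hC, mem_ofPred_eq, mem_iInter, mem_inter_iff, mem_preimage, mem_Iic]
      constructor
      · rintro ⟨h1, h2⟩ b' h' hb'
        exact ⟨h1, h2 b' h' hb'⟩
      · intro h
        exact ⟨(h 1 0 one_pos).1, fun b' h' hb' => (h b' h' hb').2⟩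
    rw [this]
    apply isClosed_iInter
    intro b'
    apply isClosed_iInter
    intro h'
    apply isClosed_iInter
    intro _
    apply ContinuousOn.preimage_isClosed_of_isClosed _ hRN.isClosed isClosed_Iic
    have h1 : ContinuousOn (fun z : (ℝ × ℝ) × (ℝ × ℝ) => G z.1.1 z.1.2) (R ×ˢ N) := by
      have : (fun z : (ℝ × ℝ) × (ℝ × ℝ) => G z.1.1 z.1.2) =
          (fun x : ℝ × ℝ => G x.1 x.2) ∘ (Prod.fst : (ℝ × ℝ) × (ℝ × ℝ) → ℝ × ℝ) := rfl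
      rw [this]
      apply hcont.comp continuous_fst.continuousOn
      intro z hz
      exact hpos z.1 hz.1
    apply ContinuousOn.add
    · apply h1.add
      apply Continuous.continuousOn
      fun_prop
    · apply Continuous.continuousOn
      fun_prop
  have hCcomp : IsCompact C := hRN.of_isClosed_subset hCclosed (fun z hz => hz.1)
  have himg : carry G R N = Prod.fst '' C := by
    ext x
    simp only [carry, mem_ofPred_eq, mem_image, hC]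
    constructor
    · rintro ⟨hx, y, hy, hs⟩
      exact ⟨(x, y), ⟨⟨hx, hy⟩, hs⟩, rfl⟩
    · rintro ⟨⟨x', y⟩, ⟨⟨hx, hy⟩, hs⟩, rfl⟩
      exact ⟨hx, y, hy, hs⟩
  rw [himg]
  exact hCcomp.image continuous_fst

lemma slope_mono {G : ℝ → ℝ → ℝ} {b h h' e r e' r' : ℝ} (hb : 0 < b) (h1 : Sub G b h e r)
    (h2 : Sub G b h' e' r') (hh : h < h') : r ≤ r' := by
  have a1 := h1 b h' hb
  have a2 := h2 b h hb
  have : (r - r') * (h' - h) ≤ 0 := by nlinarith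
  have h3 : 0 < h' - h := by linarith
  by_contra hcon
  push Not at hcon
  have : 0 < (r - r') * (h' - h) := mul_pos (by linarith) h3
  linarith

theorem top_lemma {G : ℝ → ℝ → ℝ}
    (hc : ConvexOn ℝ {x : ℝ × ℝ | 0 < x.1} (fun x => G x.1 x.2))
    {b₁ b₂ H₁ : ℝ} {U : ℝ → ℝ} (hb₁ : 0 < b₁) (hb : b₁ ≤ b₂) (hU : Continuous U)
    (hHU : ∀ b ∈ Icc b₁ b₂, -H₁ ≤ U b)
    {N₀ N₁ N₂ : Set (ℝ × ℝ)} (hN₀ : IsCompact N₀) (hN₁ : IsCompact N₁) (hN₂ : IsCompact N₂)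
    (h01 : ∀ y ∈ N₀, ∀ z ∈ N₁, y.2 < z.2) (h12 : ∀ y ∈ N₁, ∀ z ∈ N₂, y.2 < z.2)
    (cover : ∀ b h, b ∈ Icc b₁ b₂ → h ∈ Icc (-H₁) (U b) →
      ∃ y, (y ∈ N₀ ∨ y ∈ N₁ ∨ y ∈ N₂) ∧ Sub G b h y.1 y.2)
    (D0 : ∀ b ∈ Icc b₁ b₂, ∀ y : ℝ × ℝ, Sub G b (-H₁) y.1 y.2 → y ∉ N₁ ∧ y ∉ N₂)
    (D1 : ∀ b ∈ Icc b₁ b₂, ∀ y : ℝ × ℝ, Sub G b (U b) y.1 y.2 → y ∉ N₀)
    (D2 : ∀ y : ℝ × ℝ, Sub G b₁ (U b₁) y.1 y.2 → y ∉ N₂)
    (D3 : ∀ h ∈ Icc (-H₁) (U b₂), ∀ y : ℝ × ℝ, Sub G b₂ h y.1 y.2 → y ∉ N₁) :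
    ∃ bc h, bc ∈ Icc b₁ b₂ ∧ h ∈ Icc (-H₁) (U bc) ∧ ∃ y₀ ∈ N₀, ∃ y₁ ∈ N₁, ∃ y₂ ∈ N₂,
      Sub G bc h y₀.1 y₀.2 ∧ Sub G bc h y₁.1 y₁.2 ∧ Sub G bc h y₂.1 y₂.2 := by
  set R : Set (ℝ × ℝ) := {x | x.1 ∈ Icc b₁ b₂ ∧ x.2 ∈ Icc (-H₁) (U x.1)} with hRdef
  have hRclosed : IsClosed R := by
    have : R = {x : ℝ × ℝ | b₁ ≤ x.1} ∩ {x | x.1 ≤ b₂} ∩ {x | -H₁ ≤ x.2} ∩ {x | x.2 ≤ U x.1} := by
      ext x
      simp only [hRdef, mem_ofPred_eq, mem_Icc, mem_inter_iff]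
      tauto
    rw [this]
    refine ((IsClosed.inter ?_ ?_).inter ?_).inter ?_
    · exact isClosed_le continuous_const continuous_fst
    · exact isClosed_le continuous_fst continuous_const
    · exact isClosed_le continuous_const continuous_snd
    · exact isClosed_le continuous_snd (hU.comp continuous_fst)
  obtain ⟨Umax, hUmax⟩ : ∃ m, ∀ b ∈ Icc b₁ b₂, U b ≤ m := by
    obtain ⟨m, hm⟩ := (isCompact_Icc.image hU).bddAbove (s := U '' Icc b₁ b₂)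
    exact ⟨m, fun b hb => hm ⟨b, hb, rfl⟩⟩
  have hRcomp : IsCompact R := by
    apply (isCompact_Icc (a := b₁) (b := b₂)).prod (isCompact_Icc (a := -H₁) (b := Umax))
      |>.of_isClosed_subset hRclosed
    rintro x ⟨h1, h2⟩
    exact ⟨h1, h2.1, h2.2.trans (hUmax _ h1)⟩
  have hRpos : ∀ x ∈ R, 0 < x.1 := fun x hx => lt_of_lt_of_le hb₁ hx.1.1
  have hA0 := isCompact_carry hc hRcomp hRpos hN₀
  have hA1 := isCompact_carry hc hRcomp hRpos hN₁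
  have hA2 := isCompact_carry hc hRcomp hRpos hN₂
  -- the set of `b` carrying an `N₁` subgradient
  set T : Set ℝ := Prod.fst '' (carry G R N₁) with hT
  have hTcomp : IsCompact T := hA1.image continuous_fst
  have hb₁mem : b₁ ∈ Icc b₁ b₂ := ⟨le_rfl, hb⟩
  have hTne : T.Nonempty := by
    refine ⟨b₁, (b₁, U b₁), ?_, rfl⟩
    obtain ⟨y, hy, hs⟩ := cover b₁ (U b₁) hb₁mem ⟨hHU _ hb₁mem, le_rfl⟩
    have hy1 : y ∈ N₁ := by
      rcases hy with hy | hy | hy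
      · exact absurd hy (D1 b₁ hb₁mem y hs)
      · exact hy
      · exact absurd hy (D2 y hs)
    exact ⟨⟨hb₁mem, hHU _ hb₁mem, le_rfl⟩, y, hy1, hs⟩
  obtain ⟨bc, ⟨⟨bc', h1⟩, hmem1, hbceq⟩, hbmax⟩ := hTcomp.exists_isGreatest hTne
  simp only at hbceq
  subst hbceq
  have hbcIcc : bc' ∈ Icc b₁ b₂ := hmem1.1.1
  have hbclt : bc' < b₂ := by
    rcases lt_or_eq_of_le hbcIcc.2 with h | h
    · exact h
    · exfalso
      obtain ⟨⟨_, h2⟩, y, hy, hs⟩ := hmem1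
      simp only at h2 hs
      rw [h] at h2 hs
      exact D3 h1 h2 y hs hy
  -- the set carrying both `N₀` and `N₂` subgradients
  have hA02 : IsCompact (carry G R N₀ ∩ carry G R N₂) := hA0.inter hA2
  have hT02 : IsCompact (Prod.fst '' (carry G R N₀ ∩ carry G R N₂)) := hA02.image continuous_fst
  have hsub : Ioc bc' b₂ ⊆ Prod.fst '' (carry G R N₀ ∩ carry G R N₂) := by
    intro b hbb
    have hbIcc : b ∈ Icc b₁ b₂ := ⟨hbcIcc.1.trans hbb.1.le, hbb.2⟩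
    have hsec : ∀ N : Set (ℝ × ℝ), IsCompact N →
        IsClosed {h : ℝ | (b, h) ∈ carry G R N} := by
      intro N hN
      have hcl := (isCompact_carry hc hRcomp hRpos hN).isClosed
      exact hcl.preimage (by fun_prop : Continuous fun h : ℝ => ((b, h) : ℝ × ℝ))
    have hconn := isPreconnected_closed_iff.mp (isPreconnected_Icc (a := -H₁) (b := U b))
      {h : ℝ | (b, h) ∈ carry G R N₀} {h : ℝ | (b, h) ∈ carry G R N₂} (hsec _ hN₀) (hsec _ hN₂)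
    have hcov : Icc (-H₁) (U b) ⊆ {h : ℝ | (b, h) ∈ carry G R N₀} ∪
        {h : ℝ | (b, h) ∈ carry G R N₂} := by
      intro h hh
      obtain ⟨y, hy, hs⟩ := cover b h hbIcc hh
      have hmemR : ((b, h) : ℝ × ℝ) ∈ R := ⟨hbIcc, hh⟩
      rcases hy with hy | hy | hy
      · left; exact ⟨hmemR, y, hy, hs⟩
      · exfalso
        have : b ∈ T := ⟨(b, h), ⟨hmemR, y, hy, hs⟩, rfl⟩
        have := hbmax this
        linarith [hbb.1]
      · right; exact ⟨hmemR, y, hy, hs⟩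
    have hlow : -H₁ ∈ Icc (-H₁) (U b) := ⟨le_rfl, hHU b hbIcc⟩
    have hupp : U b ∈ Icc (-H₁) (U b) := ⟨hHU b hbIcc, le_rfl⟩
    have hne0 : (Icc (-H₁) (U b) ∩ {h : ℝ | (b, h) ∈ carry G R N₀}).Nonempty := by
      refine ⟨-H₁, hlow, ?_⟩
      rcases hcov hlow with h | h
      · exact h
      · exfalso
        obtain ⟨_, y, hy, hs⟩ := h
        exact (D0 b hbIcc y hs).2 hy
    have hne2 : (Icc (-H₁) (U b) ∩ {h : ℝ | (b, h) ∈ carry G R N₂}).Nonempty := by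
      refine ⟨U b, hupp, ?_⟩
      rcases hcov hupp with h | h
      · exfalso
        obtain ⟨_, y, hy, hs⟩ := h
        exact D1 b hbIcc y hs hy
      · exact h
    obtain ⟨h, _, hh0, hh2⟩ := hconn hcov hne0 hne2
    exact ⟨(b, h), ⟨hh0, hh2⟩, rfl⟩
  have hbcmem : bc' ∈ Prod.fst '' (carry G R N₀ ∩ carry G R N₂) := by
    have h2 : closure (Ioc bc' b₂) ⊆ Prod.fst '' (carry G R N₀ ∩ carry G R N₂) :=
      hT02.isClosed.closure_subset_iff.mpr hsub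
    rw [closure_Ioc hbclt.ne] at h2
    exact h2 ⟨le_rfl, hbclt.le⟩
  obtain ⟨⟨bc'', hcc⟩, ⟨⟨_, y₀, hy₀, hs₀⟩, ⟨_, y₂, hy₂, hs₂⟩⟩, heq⟩ := hbcmem
  simp only at heq
  subst heq
  obtain ⟨hmemR, y₁, hy₁, hs₁⟩ := hmem1
  simp only at hs₀ hs₁ hs₂
  have hbpos : 0 < bc'' := lt_of_lt_of_le hb₁ hbcIcc.1
  have hh : h1 = hcc := by
    rcases lt_trichotomy h1 hcc with hlt | heq | hgt
    · exfalso
      have := slope_mono hbpos hs₁ hs₀ hlt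
      have := h01 _ hy₀ _ hy₁
      linarith
    · exact heq
    · exfalso
      have := slope_mono hbpos hs₂ hs₁ hgt
      have := h12 _ hy₁ _ hy₂
      linarith
  subst hh
  exact ⟨bc'', h1, hbcIcc, hmemR.2, y₀, hy₀, y₁, hy₁, y₂, hy₂, hs₀, hs₁, hs₂⟩

end Crest.Agent.H25Abs
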