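import Mathlib
import Crest.Agent.H13AbsSpec

set_option autoImplicit false

open Filter Topology
open Crest.Agent.H13AbsSpec

namespace Crest.Agent.H25Abs

lemma conv_section {g : ℝ → ℝ → ℝ}
    (hc : ConvexOn ℝ {x : ℝ × ℝ | 0 < x.1} (fun x => g x.1 x.2)) {b : ℝ} (hb : 0 < b) :
    ConvexOn ℝ Set.univ (g b) := by
  refine ⟨convex_univ, ?_⟩
  intro x _ y _ α β hα hβ hαβ
  have h := hc.2 (show ((b, x) : ℝ × ℝ) ∈ {x : ℝ × ℝ | 0 < x.1} from hb)
    (show ((b, y) : ℝ × ℝ) ∈ {x : ℝ × ℝ | 0 < x.1} from hb) hα hβ hαβ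
  simp only [Prod.smul_mk, Prod.mk_add_mk, smul_eq_mul] at h ⊢
  have hbb : α * b + β * b = b := by rw [← add_mul, hαβ, one_mul]
  rwa [hbb] at h

lemma conv_cont {g : ℝ → ℝ → ℝ}
    (hc : ConvexOn ℝ {x : ℝ × ℝ | 0 < x.1} (fun x => g x.1 x.2)) {b : ℝ} (hb : 0 < b) :
    Continuous (g b) := by
  rw [← continuousOn_univ]
  exact (conv_section hc hb).continuousOn isOpen_univ

/-- joint convexity in an explicit form -/
lemma conv_ineq {g : ℝ → ℝ → ℝ}
    (hc : ConvexOn ℝ {x : ℝ × ℝ | 0 < x.1} (fun x => g x.1 x.2)) {b₁ h₁ b₂ h₂ α β : ℝ}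
    (hb₁ : 0 < b₁) (hb₂ : 0 < b₂) (hα : 0 ≤ α) (hβ : 0 ≤ β) (hαβ : α + β = 1) :
    g (α * b₁ + β * b₂) (α * h₁ + β * h₂) ≤ α * g b₁ h₁ + β * g b₂ h₂ := by
  have h := hc.2 (show ((b₁, h₁) : ℝ × ℝ) ∈ {x : ℝ × ℝ | 0 < x.1} from hb₁)
    (show ((b₂, h₂) : ℝ × ℝ) ∈ {x : ℝ × ℝ | 0 < x.1} from hb₂) hα hβ hαβ
  simpa only [Prod.smul_mk, Prod.mk_add_mk, smul_eq_mul] using h

/-- the value to be maximised is bounded above by a quadratic -/
lemma upper_quad {B κ : ℝ} {g : ℝ → ℝ → ℝ} (hg : Bnd B κ g) {a b : ℝ} (ha : 0 < a)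
    (haκ : 4 * a ≤ κ) (hb : 0 < b) (h t : ℝ) :
    g b (h + t) - t ^ 2 / (2 * b * a) ≤
      1 + (h + b * B) ^ 2 / (8 * b * a) - 3 * t ^ 2 / (8 * b * a) := by
  have h1 := hg.upper b (h + t) hb
  have hκ : 0 < κ := by linarith
  set c := h + b * B with hc
  have h2 : (max (h + t + b * B) 0) ^ 2 ≤ 2 * t ^ 2 + 2 * c ^ 2 := by
    have h3 : (max (h + t + b * B) 0) ^ 2 ≤ (h + t + b * B) ^ 2 := by
      rcases le_total (h + t + b * B) 0 with h4 | h4
      · rw [max_eq_right h4]; nlinarith [sq_nonneg (h + t + b * B)]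
      · rw [max_eq_left h4]
    have h5 : h + t + b * B = t + c := by rw [hc]; ring
    rw [h5] at h3 ⊢
    nlinarith [sq_nonneg (t - c)]
  have h6 : (max (h + t + b * B) 0) ^ 2 / (4 * b * κ) ≤ (2 * t ^ 2 + 2 * c ^ 2) / (4 * b * (4 * a)) := by
    apply div_le_div₀ (by positivity) h2 (by positivity)
    apply mul_le_mul_of_nonneg_left haκ (by positivity)
  have h7 : (2 * t ^ 2 + 2 * c ^ 2) / (4 * b * (4 * a)) = t ^ 2 / (8 * b * a) + c ^ 2 / (8 * b * a) := by
    field_simp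
    ring
  have h8 : t ^ 2 / (2 * b * a) = 4 * t ^ 2 / (8 * b * a) := by
    field_simp
    ring
  have h9 : t ^ 2 / (8 * b * a) - 4 * t ^ 2 / (8 * b * a) = - (3 * t ^ 2 / (8 * b * a)) := by
    ring
  rw [h8]
  rw [h7] at h6
  linarith

lemma bddAbove_supConv {B κ : ℝ} {g : ℝ → ℝ → ℝ} (hg : Bnd B κ g) {a b : ℝ} (ha : 0 < a)
    (haκ : 4 * a ≤ κ) (hb : 0 < b) (h : ℝ) :
    BddAbove (Set.range fun t : ℝ => (g b (h + t) - t ^ 2 / (2 * b * a))) := by
  refine ⟨1 + (h + b * B) ^ 2 / (8 * b * a), ?_⟩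
  rintro _ ⟨t, rfl⟩
  have h1 := upper_quad hg ha haκ hb h t
  have h2 : 0 ≤ 3 * t ^ 2 / (8 * b * a) := by positivity
  simp only
  linarith

lemma le_supConv {B κ : ℝ} {g : ℝ → ℝ → ℝ} (hg : Bnd B κ g) {a b : ℝ} (ha : 0 < a)
    (haκ : 4 * a ≤ κ) (hb : 0 < b) (h t : ℝ) :
    g b (h + t) - t ^ 2 / (2 * b * a) ≤ supConv a g b h :=
  le_ciSup (bddAbove_supConv hg ha haκ hb h) t

/-- version with `t = b a r` -/
lemma le_supConv' {B κ : ℝ} {g : ℝ → ℝ → ℝ} (hg : Bnd B κ g) {a b : ℝ} (ha : 0 < a)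
    (haκ : 4 * a ≤ κ) (hb : 0 < b) (h r : ℝ) :
    g b (h + b * a * r) - b * a * r ^ 2 / 2 ≤ supConv a g b h := by
  have h1 := le_supConv hg ha haκ hb h (b * a * r)
  have h2 : (b * a * r) ^ 2 / (2 * b * a) = b * a * r ^ 2 / 2 := by
    field_simp
  rwa [h2] at h1

lemma supConv_ge {B κ : ℝ} {g : ℝ → ℝ → ℝ} (hg : Bnd B κ g) {a b : ℝ} (ha : 0 < a)
    (haκ : 4 * a ≤ κ) (hb : 0 < b) (h : ℝ) : g b h ≤ supConv a g b h := by
  have h1 := le_supConv hg ha haκ hb h 0
  simpa using h1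

/-- The maximum is attained, with a bound on the maximiser. -/
lemma exists_max {B κ : ℝ} {g : ℝ → ℝ → ℝ} (hg : Bnd B κ g) {a b : ℝ} (ha : 0 < a)
    (haκ : 4 * a ≤ κ) (hb : 0 < b) (h : ℝ) :
    ∃ t : ℝ, (∀ s : ℝ, g b (h + s) - s ^ 2 / (2 * b * a) ≤ g b (h + t) - t ^ 2 / (2 * b * a)) ∧
      3 * t ^ 2 ≤ 8 * b * a + (h + b * B) ^ 2 := by
  set F : ℝ → ℝ := fun t => g b (h + t) - t ^ 2 / (2 * b * a) with hF
  have hFc : Continuous F := by
    have h1 := conv_cont hg.conv hb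
    rw [hF]
    exact (h1.comp (continuous_const.add continuous_id)).sub
      ((continuous_id.pow 2).div_const _)
  have hba : 0 < 8 * b * a := by positivity
  have hout : ∀ t : ℝ, 8 * b * a + (h + b * B) ^ 2 < 3 * t ^ 2 → F t < 0 := by
    intro t ht
    have h1 := upper_quad hg ha haκ hb h t
    have h2 : 1 + (h + b * B) ^ 2 / (8 * b * a) - 3 * t ^ 2 / (8 * b * a) < 0 := by
      have h3 : 1 + (h + b * B) ^ 2 / (8 * b * a) - 3 * t ^ 2 / (8 * b * a) =
          (8 * b * a + (h + b * B) ^ 2 - 3 * t ^ 2) / (8 * b * a) := by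
        field_simp
      rw [h3]
      apply div_neg_of_neg_of_pos _ hba
      linarith
    simp only [hF]
    linarith
  set T : ℝ := 8 * b * a + (h + b * B) ^ 2 + 1 with hT
  have hTpos : 0 < T := by positivity
  obtain ⟨t, htm, ht⟩ := (isCompact_Icc (a := -T) (b := T)).exists_isMaxOn
    ⟨0, by constructor <;> linarith⟩ hFc.continuousOn
  have hF0 : 0 ≤ F 0 := by
    simp only [hF]
    have := hg.nonneg b (h + 0) hb
    simpa using this
  have hFt : F 0 ≤ F t := ht (show (0 : ℝ) ∈ Set.Icc (-T) T from by constructor <;> linarith)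
  have hall : ∀ s, F s ≤ F t := by
    intro s
    by_cases hs : s ∈ Set.Icc (-T) T
    · exact ht hs
    · have h1 : 8 * b * a + (h + b * B) ^ 2 < 3 * s ^ 2 := by
        have h2 : T < |s| := by
          rw [Set.mem_Icc, not_and_or, not_le, not_le] at hs
          rcases hs with hs | hs
          · rw [lt_abs]; right; linarith
          · rw [lt_abs]; left; exact hs
        have h3 : T ^ 2 < s ^ 2 := by
          rw [← sq_abs s]
          exact pow_lt_pow_left₀ h2 hTpos.le (by norm_num)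
        have h4 : 1 ≤ T := by rw [hT]; nlinarith [sq_nonneg (h + b * B)]
        nlinarith
      linarith [hout s h1]
  refine ⟨t, hall, ?_⟩
  by_contra hcon
  push Not at hcon
  have := hout t hcon
  linarith

/-- All the data attached to a maximiser of the sup-convolution. -/
structure MaxData (a : ℝ) (g : ℝ → ℝ → ℝ) (b h e r : ℝ) : Prop where
  r_nonneg : 0 ≤ r
  val : supConv a g b h = g b (h + b * a * r) - b * a * r ^ 2 / 2
  sub : Sub g b (h + b * a * r) e r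
  upper : ∀ w : ℝ, g b (h + b * a * r + w) ≤ g b (h + b * a * r) + r * w + w ^ 2 / (2 * b * a)

/-- one-variable subgradient from a quadratic upper bound and convexity -/
lemma slope_of_upper {f : ℝ → ℝ} (hf : ConvexOn ℝ Set.univ f) {x r c : ℝ}
    (hu : ∀ w, f (x + w) ≤ f x + r * w + c * w ^ 2) (w : ℝ) : f x + r * w ≤ f (x + w) := by
  have key : ∀ l : ℝ, 0 < l → f x + r * w ≤ f (x + w) + l * (c * w ^ 2) := by
    intro l hl
    have h1 : (l / (1 + l)) * (x + w) + (1 / (1 + l)) * (x - l * w) = x := by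
      field_simp
      ring
    have h2 := hf.2 (Set.mem_univ (x + w)) (Set.mem_univ (x - l * w))
      (show 0 ≤ l / (1 + l) by positivity) (show 0 ≤ 1 / (1 + l) by positivity)
      (by field_simp; ring)
    simp only [smul_eq_mul] at h2
    rw [h1] at h2
    have h3 := hu (-(l * w))
    have h4 : x + -(l * w) = x - l * w := by ring
    rw [h4] at h3
    have h5 : (1 + l) * f x ≤ l * f (x + w) + f (x - l * w) := by
      have h6 : l / (1 + l) * f (x + w) + 1 / (1 + l) * f (x - l * w) =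
          (l * f (x + w) + f (x - l * w)) / (1 + l) := by
        field_simp
      rw [h6, le_div_iff₀ (by positivity)] at h2
      linarith
    have h7 : l * (f x + r * w) ≤ l * (f (x + w) + l * (c * w ^ 2)) := by
      nlinarith
    exact le_of_mul_le_mul_left h7 hl
  have ht : Tendsto (fun l : ℝ => f (x + w) + l * (c * w ^ 2)) (𝓝[>] 0)
      (𝓝 (f (x + w) + 0 * (c * w ^ 2))) := by
    apply Tendsto.mono_left _ nhdsWithin_le_nhds
    apply Continuous.tendsto
    fun_prop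
  rw [zero_mul, add_zero] at ht
  apply ge_of_tendsto ht
  filter_upwards [self_mem_nhdsWithin] with l hl
  exact key l hl

/-- extension of an `h`-slope to a two-variable subgradient -/
lemma exists_sub {g : ℝ → ℝ → ℝ}
    (hc : ConvexOn ℝ {x : ℝ × ℝ | 0 < x.1} (fun x => g x.1 x.2)) {b h r : ℝ} (hb : 0 < b)
    (hr : ∀ h', g b h + r * (h' - h) ≤ g b h') : ∃ e, Sub g b h e r := by
  -- difference quotients
  have cross : ∀ b₁ h₁ b₂ h₂ : ℝ, 0 < b₁ → b₁ < b → b < b₂ →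
      (g b h - (g b₁ h₁ - r * (h₁ - h))) / (b - b₁) ≤
        ((g b₂ h₂ - r * (h₂ - h)) - g b h) / (b₂ - b) := by
    intro b₁ h₁ b₂ h₂ hb₁ hlt₁ hlt₂
    have hpos : 0 < b₂ - b₁ := by linarith
    have hpos1 : 0 < b - b₁ := by linarith
    have hpos2 : 0 < b₂ - b := by linarith
    set α := (b₂ - b) / (b₂ - b₁) with hα
    set β := (b - b₁) / (b₂ - b₁) with hβ
    have hαβ : α + β = 1 := by rw [hα, hβ]; field_simp; ring
    have hbb : α * b₁ + β * b₂ = b := by rw [hα, hβ]; field_simp; ring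
    have h1 := conv_ineq hc (h₁ := h₁) (h₂ := h₂) hb₁ (by linarith : 0 < b₂)
      (show 0 ≤ α by rw [hα]; positivity) (show 0 ≤ β by rw [hβ]; positivity) hαβ
    rw [hbb] at h1
    have h2 := hr (α * h₁ + β * h₂)
    have h3 : g b h ≤ α * (g b₁ h₁ - r * (h₁ - h)) + β * (g b₂ h₂ - r * (h₂ - h)) := by
      have h4 : r * (α * h₁ + β * h₂ - h) = α * (r * (h₁ - h)) + β * (r * (h₂ - h)) := by
        have : h = (α + β) * h := by rw [hαβ, one_mul]
        nth_rewrite 1 [this]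
        ring
      rw [h4] at h2
      linarith
    rw [div_le_div_iff₀ hpos1 hpos2]
    have h5 : (b₂ - b₁) * g b h ≤ (b₂ - b) * (g b₁ h₁ - r * (h₁ - h)) +
        (b - b₁) * (g b₂ h₂ - r * (h₂ - h)) := by
      have h6 : (b₂ - b₁) * α = b₂ - b := by rw [hα]; field_simp
      have h7 : (b₂ - b₁) * β = b - b₁ := by rw [hβ]; field_simp
      calc (b₂ - b₁) * g b h ≤ (b₂ - b₁) * (α * (g b₁ h₁ - r * (h₁ - h)) + β * (g b₂ h₂ - r * (h₂ - h))) :=
            mul_le_mul_of_nonneg_left h3 hpos.le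
        _ = ((b₂ - b₁) * α) * (g b₁ h₁ - r * (h₁ - h)) + ((b₂ - b₁) * β) * (g b₂ h₂ - r * (h₂ - h)) := by
            ring
        _ = _ := by rw [h6, h7]
    nlinarith
  -- the set of left quotients
  set S : Set ℝ := {q | ∃ b₁ h₁ : ℝ, 0 < b₁ ∧ b₁ < b ∧
    q = (g b h - (g b₁ h₁ - r * (h₁ - h))) / (b - b₁)} with hS
  have hne : S.Nonempty := ⟨_, b / 2, h, by linarith, by linarith, rfl⟩
  have hbdd : BddAbove S := by
    refine ⟨((g (b + 1) h - r * (h - h)) - g b h) / ((b + 1) - b), ?_⟩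
    rintro q ⟨b₁, h₁, hb₁, hlt, rfl⟩
    exact cross b₁ h₁ (b + 1) h hb₁ hlt (by linarith)
  refine ⟨sSup S, ?_⟩
  intro b' h' hb'
  rcases lt_trichotomy b' b with hlt | heq | hgt
  · have h1 : (g b h - (g b' h' - r * (h' - h))) / (b - b') ≤ sSup S :=
      le_csSup hbdd ⟨b', h', hb', hlt, rfl⟩
    rw [div_le_iff₀ (by linarith)] at h1
    linarith
  · subst heq
    have := hr h'
    linarith
  · have h1 : sSup S ≤ ((g b' h' - r * (h' - h)) - g b h) / (b' - b) := by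
      apply csSup_le hne
      rintro q ⟨b₁, h₁, hb₁, hlt, rfl⟩
      exact cross b₁ h₁ b' h' hb₁ hlt hgt
    rw [le_div_iff₀ (by linarith)] at h1
    linarith

theorem exists_maxData {B κ : ℝ} {g : ℝ → ℝ → ℝ} (hg : Bnd B κ g) {a b : ℝ} (ha : 0 < a)
    (haκ : 4 * a ≤ κ) (hb : 0 < b) (h : ℝ) :
    ∃ e r : ℝ, MaxData a g b h e r ∧ 3 * (b * a * r) ^ 2 ≤ 8 * b * a + (h + b * B) ^ 2 := by
  obtain ⟨t, ht, htb⟩ := exists_max hg ha haκ hb h
  set r := t / (b * a) with hr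
  have hba : 0 < b * a := by positivity
  have htr : b * a * r = t := by rw [hr]; field_simp
  have hr0 : 0 ≤ r := by
    by_contra hneg
    push Not at hneg
    have ht0 : t < 0 := by rw [← htr]; exact mul_neg_of_pos_of_neg hba hneg
    have h1 := ht 0
    have h2 : g b (h + t) ≤ g b (h + 0) := hg.mono b hb (by linarith)
    have h3 : 0 < t ^ 2 / (2 * b * a) := by
      have : t ^ 2 > 0 := by nlinarith
      positivity
    have h4 : (0 : ℝ) ^ 2 / (2 * b * a) = 0 := by simp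
    rw [h4] at h1
    linarith
  have hsq : (b * a * r) ^ 2 / (2 * b * a) = b * a * r ^ 2 / 2 := by field_simp
  have hupper : ∀ w : ℝ, g b (h + b * a * r + w) ≤
      g b (h + b * a * r) + r * w + w ^ 2 / (2 * b * a) := by
    intro w
    have h1 := ht (b * a * r + w)
    rw [← htr] at h1
    have h2 : (b * a * r + w) ^ 2 / (2 * b * a) =
        (b * a * r) ^ 2 / (2 * b * a) + r * w + w ^ 2 / (2 * b * a) := by
      field_simp
      ring
    rw [h2] at h1
    have h3 : h + (b * a * r + w) = h + b * a * r + w := by ring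
    rw [h3] at h1
    linarith
  have hslope : ∀ h', g b (h + b * a * r) + r * (h' - (h + b * a * r)) ≤ g b h' := by
    intro h'
    have h1 := slope_of_upper (conv_section hg.conv hb) (x := h + b * a * r) (r := r)
      (c := 1 / (2 * b * a)) (fun w => by
        have := hupper w
        have h2 : 1 / (2 * b * a) * w ^ 2 = w ^ 2 / (2 * b * a) := by ring
        rw [h2]; exact this) (h' - (h + b * a * r))
    have h2 : h + b * a * r + (h' - (h + b * a * r)) = h' := by ring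
    rwa [h2] at h1
  obtain ⟨e, he⟩ := exists_sub hg.conv hb hslope
  refine ⟨e, r, ⟨hr0, ?_, he, hupper⟩, by rw [htr]; exact htb⟩
  apply le_antisymm
  · apply ciSup_le
    intro s
    rw [← hsq, htr]
    exact ht s
  · exact le_supConv' hg ha haκ hb h r

/-- the subgradient of the sup-convolution -/
theorem MaxData.sub_supConv {B κ : ℝ} {g : ℝ → ℝ → ℝ} (hg : Bnd B κ g) {a b : ℝ} (ha : 0 < a)
    (haκ : 4 * a ≤ κ) {h e r : ℝ} (m : MaxData a g b h e r) :
    Sub (supConv a g) b h (e + a * r ^ 2 / 2) r := by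
  intro b' h' hb'
  have h1 := le_supConv' hg ha haκ hb' h' r
  have h2 := m.sub b' (h' + b' * a * r) hb'
  rw [m.val]
  refine le_trans ?_ h1
  nlinarith

lemma conv_supConv {B κ : ℝ} {g : ℝ → ℝ → ℝ} (hg : Bnd B κ g) {a : ℝ} (ha : 0 < a)
    (haκ : 4 * a ≤ κ) {b h : ℝ} (hb : 0 < b) : ∃ e r, 0 ≤ r ∧ Sub (supConv a g) b h e r := by
  obtain ⟨e, r, m, _⟩ := exists_maxData hg ha haκ hb h
  exact ⟨_, r, m.r_nonneg, m.sub_supConv hg ha haκ⟩

end Crest.Agent.H25Abs
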