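import Mathlib
import Crest.Agent.H25AbsA

set_option autoImplicit false

open Filter Topology Set
open Crest.Agent.H13AbsSpec

namespace Crest.Agent.H25Abs

/-- local comparison between a subgradient of `f` at a nearby inverse temperature and the
maximiser data of `g` -/
lemma step_local {g f : ℝ → ℝ → ℝ} {a b h e₀ r ε : ℝ} (ha : 0 < a) (hb : 0 < b)
    (m : MaxData a g b h e₀ r) {bh eh rh : ℝ} (hbh : 0 < bh)
    (hs : Sub f bh (h + b * a * r) eh rh)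
    (c1 : |g bh (h + b * a * r) - f bh (h + b * a * r)| ≤ ε)
    (c2 : |g b (h + b * a * r) - f b (h + b * a * r)| ≤ ε)
    (c3 : |g b (h + b * a * rh) - f b (h + b * a * rh)| ≤ ε) :
    0 ≤ 2 * ε + (e₀ - eh) * (b - bh) ∧
      b * a * (rh - r) ^ 2 / 2 ≤ 2 * ε + (e₀ - eh) * (b - bh) := by
  have h1 := abs_le.mp c1
  have h2 := abs_le.mp c2
  have h3 := abs_le.mp c3
  have h4 := m.sub bh (h + b * a * r) hbh
  constructor
  · have h5 := hs b (h + b * a * r) hb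
    linarith
  · have h5 := hs b (h + b * a * rh) hb
    have h6 := m.upper (b * a * (rh - r))
    have h7 : h + b * a * r + b * a * (rh - r) = h + b * a * rh := by ring
    have h8 : (b * a * (rh - r)) ^ 2 / (2 * b * a) = b * a * (rh - r) ^ 2 / 2 := by
      field_simp
    rw [h7, h8] at h6
    have h9 : h + b * a * rh - (h + b * a * r) = b * a * (rh - r) := by ring
    rw [h9] at h5
    have h10 : rh * (b * a * (rh - r)) - r * (b * a * (rh - r)) = b * a * (rh - r) ^ 2 := by ring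
    linarith

/-- parameters of a cell in the `(e, r)` plane -/
structure CellP where
  l : ℝ
  u : ℝ
  A : ℝ
  c : ℝ
  C : ℝ

/-- the `η`-enlargement of a cell -/
def InCell (P : CellP) (Λ η e r : ℝ) : Prop :=
  P.l - η ≤ r ∧ r ≤ P.u + η ∧ P.A * r + P.c - Λ * η ≤ e ∧ e ≤ P.C + Λ * η

lemma InCell.mono {P : CellP} {Λ η η' e r : ℝ} (h : InCell P Λ η e r) (hΛ : 0 ≤ Λ)
    (hη : η ≤ η') : InCell P Λ η' e r := by
  obtain ⟨h1, h2, h3, h4⟩ := h
  have h5 : Λ * η ≤ Λ * η' := mul_le_mul_of_nonneg_left hη hΛ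
  exact ⟨by linarith, by linarith, by linarith, by linarith⟩

/-- elementary bound on the maximiser slope -/
lemma maxData_ar2 {B κ : ℝ} {g : ℝ → ℝ → ℝ} (hg : Bnd B κ g) {a b h e r : ℝ} (ha : 0 < a)
    (haκ : 4 * a ≤ κ) (hb : 0 < b) (m : MaxData a g b h e r) :
    3 * (b * a * r ^ 2) ≤ 8 + 4 * (h + b * B) ^ 2 / (b * κ) := by
  have hκ : 0 < κ := by linarith
  have h1 : 0 ≤ supConv a g b h := (hg.nonneg b h hb).trans (supConv_ge hg ha haκ hb h)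
  rw [m.val] at h1
  have h2 := hg.upper b (h + b * a * r) hb
  set c := h + b * B with hc
  set t := b * a * r with ht
  have h3 : (max (h + t + b * B) 0) ^ 2 ≤ 2 * t ^ 2 + 2 * c ^ 2 := by
    have h3 : (max (h + t + b * B) 0) ^ 2 ≤ (h + t + b * B) ^ 2 := by
      rcases le_total (h + t + b * B) 0 with h4 | h4
      · rw [max_eq_right h4]; nlinarith [sq_nonneg (h + t + b * B)]
      · rw [max_eq_left h4]
    have h5 : h + t + b * B = t + c := by rw [hc]; ring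
    rw [h5] at h3 ⊢
    nlinarith [sq_nonneg (t - c)]
  have h4 : (max (h + t + b * B) 0) ^ 2 / (4 * b * κ) ≤ (2 * t ^ 2 + 2 * c ^ 2) / (4 * b * κ) :=
    div_le_div_of_nonneg_right h3 (by positivity)
  have h5 : (2 * t ^ 2 + 2 * c ^ 2) / (4 * b * κ) = t ^ 2 / (2 * b * κ) + c ^ 2 / (2 * b * κ) := by
    field_simp
    ring
  have h6 : t ^ 2 / (2 * b * κ) ≤ b * a * r ^ 2 / 8 := by
    rw [div_le_div_iff₀ (by positivity) (by norm_num)]
    have : t ^ 2 = b * a * (b * a * r ^ 2) := by rw [ht]; ring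
    rw [this]
    have h7 : 0 ≤ b * a * r ^ 2 := by positivity
    have h8 : b * (4 * a) ≤ b * κ := mul_le_mul_of_nonneg_left haκ hb.le
    nlinarith
  have h7 : 4 * c ^ 2 / (b * κ) = 8 * (c ^ 2 / (2 * b * κ)) := by
    field_simp
    ring
  rw [h7]
  have h8 : b * a * r ^ 2 / 2 ≤ 1 + (b * a * r ^ 2 / 8 + c ^ 2 / (2 * b * κ)) := by
    linarith
  linarith

/-- uniform bound on slopes of maximisers for small `a` -/
lemma exists_G {B κ β₁ β₂ H : ℝ} (hB : 0 ≤ B) (hκ : 0 < κ) (hβ₁ : 0 < β₁) (hβ₂ : β₁ ≤ β₂)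
    (hH : 0 ≤ H) :
    ∃ G : ℝ, 1 ≤ G ∧ ∀ g : ℝ → ℝ → ℝ, Bnd B κ g →
      (∀ a b h e r : ℝ, 0 < a → a ≤ 1 → 4 * a ≤ κ → β₁ ≤ b → b ≤ β₂ → |h| ≤ H →
        MaxData a g b h e r → r ≤ G) := by
  -- a bound for t = b a r
  set c := H + β₂ * B with hc
  set V := 8 + 4 * c ^ 2 / (β₁ * κ) with hV
  set T := β₂ * V + 1 with hT
  have hβ₂pos : 0 < β₂ := lt_of_lt_of_le hβ₁ hβ₂
  have hcpos : 0 ≤ c := by positivity
  have hVpos : 0 < V := by positivity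
  refine ⟨1 + (H + T + 1 + β₂ * B) ^ 2 / (4 * β₁ * κ), ?_, ?_⟩
  · have : 0 ≤ (H + T + 1 + β₂ * B) ^ 2 / (4 * β₁ * κ) := by positivity
    linarith
  intro g hg a b h e r ha ha1 haκ hb1 hb2 hh m
  have hb : 0 < b := lt_of_lt_of_le hβ₁ hb1
  have hr := m.r_nonneg
  have h1 := maxData_ar2 hg ha haκ hb m
  have habs := abs_le.mp hh
  have h2 : 4 * (h + b * B) ^ 2 / (b * κ) ≤ 4 * c ^ 2 / (β₁ * κ) := by
    apply div_le_div₀ (by positivity) _ (by positivity)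
    · exact mul_le_mul_of_nonneg_right hb1 hκ.le
    · apply mul_le_mul_of_nonneg_left _ (by norm_num)
      have h3 : b * B ≤ β₂ * B := mul_le_mul_of_nonneg_right hb2 hB
      have h4 : 0 ≤ b * B := by positivity
      apply sq_le_sq'
      · rw [hc]; nlinarith
      · rw [hc]; nlinarith
  have h3 : 3 * (b * a * r ^ 2) ≤ V := by rw [hV]; linarith
  have h4 : b * a * r ≤ T := by
    -- (b a r)^2 = b a (b a r^2) ≤ β₂ V ≤ (T)^2
    have h5 : (b * a * r) ^ 2 ≤ β₂ * V := by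
      have h6 : (b * a * r) ^ 2 = (b * a) * (b * a * r ^ 2) := by ring
      rw [h6]
      have h7 : b * a ≤ β₂ := by nlinarith
      have h8 : 0 ≤ b * a * r ^ 2 := by positivity
      have h9 : b * a * r ^ 2 ≤ V := by linarith
      exact mul_le_mul h7 h9 h8 hβ₂pos.le
    have h6 : β₂ * V ≤ T ^ 2 := by
      rw [hT]
      have : 0 < β₂ * V := by positivity
      nlinarith
    have h7 : 0 ≤ T := by rw [hT]; positivity
    exact abs_le_of_sq_le_sq' (h5.trans h6) h7 |>.2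
  have h5 := m.sub b (h + b * a * r + 1) hb
  have h6 := hg.nonneg b (h + b * a * r) hb
  have h7 := hg.upper b (h + b * a * r + 1) hb
  have h8 : (max (h + b * a * r + 1 + b * B) 0) ^ 2 / (4 * b * κ) ≤
      (H + T + 1 + β₂ * B) ^ 2 / (4 * β₁ * κ) := by
    apply div_le_div₀ (by positivity) _ (by positivity)
    · apply mul_le_mul_of_nonneg_right _ hκ.le
      linarith
    · have h9 : b * B ≤ β₂ * B := mul_le_mul_of_nonneg_right hb2 hB
      apply pow_le_pow_left₀ (le_max_right _ _)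
      apply max_le
      · linarith
      · have : 0 ≤ T := by rw [hT]; positivity
        positivity
  have h9 : r * (h + b * a * r + 1 - (h + b * a * r)) = r := by ring
  rw [h9] at h5
  linarith

/-- combination of the two local comparisons -/
lemma step_two {g f : ℝ → ℝ → ℝ} {a b h e₀ r ε θ E β₁ : ℝ}
    (ha : 0 < a) (hβ₁ : 0 < β₁) (hb : β₁ ≤ b) (hθ : 0 < θ) (hθ1 : θ ≤ 1) (hε : ε ≤ a * θ ^ 4)
    (hw : a * θ ^ 2 < b)
    (m : MaxData a g b h e₀ r) {e₁ r₁ e₂ r₂ : ℝ}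
    (hs₁ : Sub f (b - a * θ ^ 2) (h + b * a * r) e₁ r₁)
    (hs₂ : Sub f (b + a * θ ^ 2) (h + b * a * r) e₂ r₂)
    (c11 : |g (b - a * θ ^ 2) (h + b * a * r) - f (b - a * θ ^ 2) (h + b * a * r)| ≤ ε)
    (c12 : |g (b + a * θ ^ 2) (h + b * a * r) - f (b + a * θ ^ 2) (h + b * a * r)| ≤ ε)
    (c2 : |g b (h + b * a * r) - f b (h + b * a * r)| ≤ ε)
    (c31 : |g b (h + b * a * r₁) - f b (h + b * a * r₁)| ≤ ε)
    (c32 : |g b (h + b * a * r₂) - f b (h + b * a * r₂)| ≤ ε)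
    (hE : 0 ≤ E) (hE₁ : |e₁| ≤ E) (hE₂ : |e₂| ≤ E) :
    e₁ - 2 * θ ^ 2 ≤ e₀ ∧ e₀ ≤ e₂ + 2 * θ ^ 2 ∧
      |r₁ - r| ≤ ((4 * E + 8) / β₁ + 1) * θ ∧ |r₂ - r| ≤ ((4 * E + 8) / β₁ + 1) * θ := by
  have hbpos : 0 < b := lt_of_lt_of_le hβ₁ hb
  have hw0 : 0 < a * θ ^ 2 := by positivity
  obtain ⟨p1, p2⟩ := step_local ha hbpos m (by linarith : 0 < b - a * θ ^ 2) hs₁ c11 c2 c31
  obtain ⟨q1, q2⟩ := step_local ha hbpos m (by linarith : 0 < b + a * θ ^ 2) hs₂ c12 c2 c32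
  have e11 : b - (b - a * θ ^ 2) = a * θ ^ 2 := by ring
  have e12 : b - (b + a * θ ^ 2) = - (a * θ ^ 2) := by ring
  rw [e11] at p1 p2
  rw [e12] at q1 q2
  have hεw : ε ≤ (a * θ ^ 2) * θ ^ 2 := by
    have : a * θ ^ 4 = (a * θ ^ 2) * θ ^ 2 := by ring
    linarith
  have A1 : e₁ - 2 * θ ^ 2 ≤ e₀ := by
    by_contra hcon
    push Not at hcon
    have : (e₀ - e₁) * (a * θ ^ 2) < - (2 * θ ^ 2) * (a * θ ^ 2) :=
      mul_lt_mul_of_pos_right (by linarith) hw0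
    nlinarith
  have A2 : e₀ ≤ e₂ + 2 * θ ^ 2 := by
    by_contra hcon
    push Not at hcon
    have : (2 * θ ^ 2) * (a * θ ^ 2) < (e₀ - e₂) * (a * θ ^ 2) :=
      mul_lt_mul_of_pos_right (by linarith) hw0
    nlinarith
  have hθ2 : θ ^ 2 ≤ 1 := by nlinarith
  have hE1' := abs_le.mp hE₁
  have hE2' := abs_le.mp hE₂
  have D1 : (e₀ - e₁) ≤ 2 * E + 2 := by linarith
  have D2 : -(e₀ - e₂) ≤ 2 * E + 2 := by linarith
  have hX : 0 ≤ (4 * E + 8) / β₁ := by positivity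
  have fin : ∀ x : ℝ, b * a * x ^ 2 / 2 ≤ 2 * ε + (2 * E + 2) * (a * θ ^ 2) →
      |x| ≤ ((4 * E + 8) / β₁ + 1) * θ := by
    intro x hx
    have h1 : b * a * x ^ 2 / 2 ≤ (2 * E + 4) * (a * θ ^ 2) := by
      have : (a * θ ^ 2) * θ ^ 2 ≤ (a * θ ^ 2) * 1 := mul_le_mul_of_nonneg_left hθ2 hw0.le
      have h2 : (2 * E + 4) * (a * θ ^ 2) = (2 * E + 2) * (a * θ ^ 2) + 2 * (a * θ ^ 2) := by ring
      linarith
    have h2 : β₁ * x ^ 2 ≤ (4 * E + 8) * θ ^ 2 := by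
      have h3 : a * (b * x ^ 2) ≤ a * ((4 * E + 8) * θ ^ 2) := by
        have h31 : a * (b * x ^ 2) = 2 * (b * a * x ^ 2 / 2) := by ring
        have h32 : a * ((4 * E + 8) * θ ^ 2) = 2 * ((2 * E + 4) * (a * θ ^ 2)) := by ring
        rw [h31, h32]
        linarith
      have h4 : b * x ^ 2 ≤ (4 * E + 8) * θ ^ 2 := le_of_mul_le_mul_left h3 ha
      have h5 : β₁ * x ^ 2 ≤ b * x ^ 2 := mul_le_mul_of_nonneg_right hb (sq_nonneg x)
      linarith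
    have h3 : x ^ 2 ≤ ((4 * E + 8) / β₁) * θ ^ 2 := by
      rw [div_mul_eq_mul_div, le_div_iff₀ hβ₁]
      linarith
    have h4 : x ^ 2 ≤ (((4 * E + 8) / β₁ + 1) * θ) ^ 2 := by
      have h5 : (4 * E + 8) / β₁ ≤ ((4 * E + 8) / β₁ + 1) ^ 2 := by nlinarith
      have h6 : ((4 * E + 8) / β₁) * θ ^ 2 ≤ ((4 * E + 8) / β₁ + 1) ^ 2 * θ ^ 2 :=
        mul_le_mul_of_nonneg_right h5 (sq_nonneg θ)
      rw [mul_pow]
      linarith
    exact abs_le_of_sq_le_sq h4 (by positivity)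
  refine ⟨A1, A2, fin _ ?_, fin _ ?_⟩
  · have : (e₀ - e₁) * (a * θ ^ 2) ≤ (2 * E + 2) * (a * θ ^ 2) :=
      mul_le_mul_of_nonneg_right D1 hw0.le
    linarith
  · have : (-(e₀ - e₂)) * (a * θ ^ 2) ≤ (2 * E + 2) * (a * θ ^ 2) :=
      mul_le_mul_of_nonneg_right D2 hw0.le
    linarith

/-- transfer of the cell membership -/
lemma cell_transfer {P : CellP} {Λ η d e₀ e₁ e₂ r r₁ r₂ ρ σ α x : ℝ}
    (h1 : InCell P Λ η e₁ r₁) (h2 : InCell P Λ η e₂ r₂)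
    (hr1 : |r₁ - r| ≤ ρ) (hr2 : |r₂ - r| ≤ ρ) (he1 : e₁ - σ ≤ e₀) (he2 : e₀ ≤ e₂ + σ)
    (hx0 : 0 ≤ x) (hx : x ≤ α) (hρ : ρ ≤ d) (hσ : σ + α ≤ d) (hA : |P.A| + 1 ≤ Λ) :
    InCell P Λ (η + d) (e₀ + x) r := by
  obtain ⟨a1, a2, a3, a4⟩ := h1
  obtain ⟨b1, b2, b3, b4⟩ := h2
  have hr1' := abs_le.mp hr1
  have hr2' := abs_le.mp hr2
  have hρ0 : 0 ≤ ρ := (abs_nonneg _).trans hr1
  have hd : 0 ≤ d := hρ0.trans hρ
  have hAd : |P.A| * d + d ≤ Λ * d := by nlinarith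
  have hA1 : P.A * r - P.A * r₁ ≤ |P.A| * d := by
    have h5 : P.A * r - P.A * r₁ = - (P.A * (r₁ - r)) := by ring
    rw [h5]
    calc - (P.A * (r₁ - r)) ≤ |P.A * (r₁ - r)| := neg_le_abs _
      _ = |P.A| * |r₁ - r| := abs_mul _ _
      _ ≤ |P.A| * d := mul_le_mul_of_nonneg_left (hr1.trans hρ) (abs_nonneg _)
  have hAn : 0 ≤ |P.A| * d := mul_nonneg (abs_nonneg _) hd
  refine ⟨by linarith, by linarith, ?_, ?_⟩
  · rw [mul_add]
    linarith
  · rw [mul_add]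
    linarith

end Crest.Agent.H25Abs
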