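import Mathlib
import Crest.Agent.H25AbsB

set_option autoImplicit false

open Filter Topology Set
open Crest.Agent.H13AbsSpec

namespace Crest.Agent.H25Abs

/-- Smallness assumptions on the parameters -/
structure Params (p L M K C s s₀ ν ε₀ : ℝ) : Prop where
  p_pos : 0 < p
  L_ge : 2 * p + 1 ≤ L
  L3 : 3 ≤ L
  M4 : 4 ≤ M
  C0 : 0 ≤ C
  s_pos : 0 < s
  s0_pos : 0 < s₀
  ε_pos : 0 < ε₀
  s0_le : 1024 * L * s₀ ≤ p
  s_le : 32 * (p + L) * s ≤ p * (p * s₀)
  s_le' : 1024 * s ≤ p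
  ν_eq : ν = p ^ 2 / 32
  ε_s : 4 * (ε₀ * p) ≤ s
  ε_s2 : 16 * L * (ε₀ * p) ≤ s ^ 2
  ε_s0 : 64 * ε₀ ≤ s₀
  s0_le1 : s₀ ≤ 1 / 64
  K1 : 2 ≤ K
  K2 : 16 * L * (2 + 4 * p + C) ≤ K * s ^ 2
  K3 : 1024 * L ≤ K * p ^ 2
  K4 : 1024 * (p + 1) ≤ K * p
  K5 : 1024 * (C + 4 * L + 8) ≤ K * (p * s₀)

section
variable {p L M K C s s₀ ν ε₀ : ℝ}

/-- the basic relations available at a maximiser of the first sup-convolution -/
structure Rel (p L M K C s s₀ ε₀ b h f e₀ r : ℝ) (g : ℝ → ℝ → ℝ) : Prop where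
  b1 : 1 / (2 * L) ≤ b
  b2 : b * p ≤ 5 / 2
  hup : h + K * b * p / 2 ≤ K * s₀
  r0 : 0 ≤ r
  e0 : e₀ ≤ 0
  star : ∀ b' h' : ℝ, 0 < b' → f - b * K * r ^ 2 / 2 - r * h + e₀ * (b' - b) + r * h' ≤ g b' h'
  f0 : 0 ≤ f
  f1 : h * ((1 - ε₀) * p) + b * K * ((1 - ε₀) * p) ^ 2 / 2 - C ≤ f
  f2 : 2 * ((1 - ε₀) * p) * h + 2 * b * K * ((1 - ε₀) * p) ^ 2 - K * ((1 - ε₀) * p) - C ≤ f

lemma mk_rel (P : Params p L M K C s s₀ ν ε₀) {C₁ B : ℝ} (hC : C₁ ≤ C) {g : ℝ → ℝ → ℝ}
    (hg : Bnd B (M * K) g) (hb : Base p ((1 - ε₀) * p) K C₁ (1 / (4 * L)) g) {b h e₀ r : ℝ}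
    (hb1 : 1 / (2 * L) ≤ b) (hb2 : b * p ≤ 5 / 2) (hup : h + K * b * p / 2 ≤ K * s₀)
    (m : MaxData K g b h e₀ r) :
    Rel p L M K C s s₀ ε₀ b h (supConv K g b h) e₀ r g := by
  have hL : 0 < L := by linarith [P.L3]
  have hK : 0 < K := by linarith [P.K1]
  have hbpos : 0 < b := lt_of_lt_of_le (by positivity) hb1
  have hκ : 4 * K ≤ M * K := mul_le_mul_of_nonneg_right P.M4 hK.le
  set q := (1 - ε₀) * p with hq
  refine ⟨hb1, hb2, hup, m.r_nonneg, ?_, ?_, ?_, ?_, ?_⟩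
  · have h1 := m.sub (b + 1) (h + b * K * r) (by linarith)
    have h2 := hb.anti (h + b * K * r) (show b ∈ Ioi (0 : ℝ) from hbpos)
      (show b + 1 ∈ Ioi (0 : ℝ) from by simp; linarith) (by linarith)
    simp only at h2
    linarith
  · intro b' h' hb'
    have h1 := m.sub b' h' hb'
    rw [m.val]
    nlinarith
  · exact (hg.nonneg b h hbpos).trans (supConv_ge hg hK hκ hbpos h)
  · have h1 := le_supConv' hg hK hκ hbpos h q
    have h2 := hb.low1 b (h + b * K * q) hbpos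
    nlinarith
  · have h1 := le_supConv' hg hK hκ hbpos h (2 * q)
    have h2 := hb.low2 b (h + b * K * (2 * q)) hbpos
    nlinarith

lemma q_facts (P : Params p L M K C s s₀ ν ε₀) : (1 - ε₀) * p ≤ p ∧ p - s / 4 ≤ (1 - ε₀) * p ∧
    ε₀ ≤ 1 / 4096 ∧ p / 2 ≤ (1 - ε₀) * p := by
  have h1 := P.ε_pos
  have h2 := P.p_pos
  have h3 := P.ε_s
  have h4 := P.ε_s0
  have h5 := P.s0_le1
  have h6 : 0 < ε₀ * p := by positivity
  refine ⟨by linarith, by linarith, by linarith, by nlinarith⟩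

lemma b_pos (P : Params p L M K C s s₀ ν ε₀) {b h f e₀ r : ℝ} {g : ℝ → ℝ → ℝ}
    (R : Rel p L M K C s s₀ ε₀ b h f e₀ r g) : 0 < b ∧ 1 ≤ 2 * L * b := by
  have hL : 0 < L := by linarith [P.L3]
  have h1 := R.b1
  rw [div_le_iff₀ (by positivity)] at h1
  refine ⟨lt_of_lt_of_le (by positivity) R.b1, by linarith⟩

/-- `b p / 2` dominates `s₀` -/
lemma s0_bp (P : Params p L M K C s s₀ ν ε₀) {b h f e₀ r : ℝ} {g : ℝ → ℝ → ℝ}
    (R : Rel p L M K C s s₀ ε₀ b h f e₀ r g) : 512 * s₀ ≤ b * p := by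
  obtain ⟨hb, hb2⟩ := b_pos P R
  have hL : 0 < L := by linarith [P.L3]
  have h1 := P.s0_le
  have h2 : L * (512 * s₀) ≤ L * (b * p) := by
    have : (1024 * L * s₀) ≤ (2 * L * b) * p := by
      have := mul_le_mul_of_nonneg_right hb2 P.p_pos.le
      linarith
    linarith
  exact le_of_mul_le_mul_left h2 hL

lemma rel_U1 {b h f e₀ r : ℝ} {g : ℝ → ℝ → ℝ} {C₁ β₀ q : ℝ}
    (hbase : Base p q K C₁ β₀ g) (hb : 0 < b)
    (R : Rel p L M K C s s₀ ε₀ b h f e₀ r g) : f ≤ 1 + b * K * r ^ 2 / 2 + r * h := by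
  have h1 := R.star b 0 hb
  have h2 := hbase.at_zero b hb
  linarith

lemma rel_U2 {b h f e₀ r : ℝ} {g : ℝ → ℝ → ℝ} {C₁ β₀ q : ℝ}
    (hbase : Base p q K C₁ β₀ g) (hb : 0 < b) (hb0 : β₀ ≤ b)
    (R : Rel p L M K C s s₀ ε₀ b h f e₀ r g) :
    f ≤ 1 + K * p - r * (K - 2) + b * K * r ^ 2 / 2 + r * h := by
  have h1 := R.star b (K - 2) hb
  have h2 := hbase.at_K b hb0
  linarith

/-- `h` is negative in the region -/
lemma rel_h (P : Params p L M K C s s₀ ν ε₀) {b h f e₀ r : ℝ} {g : ℝ → ℝ → ℝ}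
    (R : Rel p L M K C s s₀ ε₀ b h f e₀ r g) : h ≤ 0 := by
  have h1 := s0_bp P R
  have h2 := R.hup
  have hK : 0 < K := by linarith [P.K1]
  have h4 := P.s0_pos
  nlinarith

lemma rel_le_L (P : Params p L M K C s s₀ ν ε₀) {D : ℝ} (hD : L = 2 * D + 1) {b h f e₀ r : ℝ}
    {g : ℝ → ℝ → ℝ} (hg : Bnd (D * M * K) (M * K) g)
    (R : Rel p L M K C s s₀ ε₀ b h f e₀ r g) : r ≤ L := by
  by_contra hcon
  push Not at hcon
  obtain ⟨hb, hb2⟩ := b_pos P R
  have hK : 0 < K := by linarith [P.K1]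
  have hM : 0 < M := by linarith [P.M4]
  have hL : 0 < L := by linarith [P.L3]
  have hh := rel_h P R
  have h1 := R.star b (2 * b * (M * K) * r - b * (D * M * K)) hb
  have h2 := hg.upper b (2 * b * (M * K) * r - b * (D * M * K)) hb
  have h3 : max (2 * b * (M * K) * r - b * (D * M * K) + b * (D * M * K)) 0 = 2 * b * (M * K) * r := by
    have : 2 * b * (M * K) * r - b * (D * M * K) + b * (D * M * K) = 2 * b * (M * K) * r := by ring
    rw [this, max_eq_left]
    have := R.r0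
    positivity
  rw [h3] at h2
  have h4 : (2 * b * (M * K) * r) ^ 2 / (4 * b * (M * K)) = b * (M * K) * r ^ 2 := by
    field_simp
    ring
  rw [h4] at h2
  have hrpos : 0 < r := by linarith
  have hf := R.f0
  have h5 : r * h ≤ 0 := mul_nonpos_of_nonneg_of_nonpos hrpos.le hh
  have h6 : 0 ≤ 1 + b * K * r * (r / 2 - M * r + D * M) := by
    have : 1 + b * K * r * (r / 2 - M * r + D * M) =
      1 + b * (M * K) * r ^ 2 - (r * (2 * b * (M * K) * r - b * (D * M * K)))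
        + b * K * r ^ 2 / 2 := by ring
    rw [this]
    linarith
  have h7 : r / 2 - M * r + D * M ≤ -2 := by
    have hDr : D ≤ (r - 1) / 2 := by linarith
    have h8 : D * M ≤ (r - 1) / 2 * M := mul_le_mul_of_nonneg_right hDr hM.le
    have h9 := P.M4
    nlinarith
  have h8 : L * (b * K * r) ≥ L * (K / 2) := by
    have h9 : 1 * (K * r) ≤ (2 * L * b) * (K * r) := mul_le_mul_of_nonneg_right hb2 (by positivity)
    have h10 : K * L ≤ K * r := mul_le_mul_of_nonneg_left hcon.le hK.le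
    nlinarith
  have h9 : b * K * r ≥ K / 2 := le_of_mul_le_mul_left h8 hL
  have h10 : b * K * r * (r / 2 - M * r + D * M) ≤ b * K * r * (-2) :=
    mul_le_mul_of_nonneg_left h7 (by positivity)
  have := P.K1
  nlinarith

/-- gap between `0` and `p` -/
lemma rel_gap1 (P : Params p L M K C s s₀ ν ε₀) {b h f e₀ r : ℝ} {g : ℝ → ℝ → ℝ} {C₁ β₀ q : ℝ}
    (hbase : Base p q K C₁ β₀ g)
    (R : Rel p L M K C s s₀ ε₀ b h f e₀ r g) : r ≤ s ∨ p - s ≤ r := by
  by_contra hcon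
  push Not at hcon
  obtain ⟨hr1, hr2⟩ := hcon
  obtain ⟨hb, hb2⟩ := b_pos P R
  obtain ⟨q1, q2, q3, q4⟩ := q_facts P
  have hK : 0 < K := by linarith [P.K1]
  have hL : 0 < L := by linarith [P.L3]
  have hs := P.s_pos
  have hC0 := P.C0
  have hU := rel_U1 hbase hb R
  have hf0 := R.f0
  have hf1 := R.f1
  have hp := P.p_pos
  set t := (1 - ε₀) * p with ht
  have hrt : 3 * s / 4 ≤ t - r := by linarith
  have htpos : 0 < t := by linarith
  have hr : 0 < r := by linarith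
  -- t f ≥ r * low
  have h1 : r * (h * t + b * K * t ^ 2 / 2 - C) ≤ t * f := by
    have h2 : r * (h * t + b * K * t ^ 2 / 2 - C) ≤ r * f := mul_le_mul_of_nonneg_left hf1 hr.le
    have h3 : r * f ≤ t * f := mul_le_mul_of_nonneg_right (by linarith) hf0
    linarith
  have h2 : t * f ≤ t * (1 + b * K * r ^ 2 / 2 + r * h) := mul_le_mul_of_nonneg_left hU htpos.le
  have h3 : t * (b * K * r * (t - r) / 2) ≤ t * (1 + C) := by
    have h4 : r * C ≤ t * C := mul_le_mul_of_nonneg_right (by linarith) hC0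
    nlinarith
  have h4 : b * K * r * (t - r) / 2 ≤ 1 + C := le_of_mul_le_mul_left h3 htpos
  have h5 : s * (3 * s / 4) ≤ r * (t - r) := mul_le_mul hr1.le hrt (by positivity) hr.le
  have h6 : K * (s * (3 * s / 4)) ≤ 2 * L * (2 * (1 + C)) := by
    have h7 : K * (s * (3 * s / 4)) ≤ K * (r * (t - r)) := mul_le_mul_of_nonneg_left h5 hK.le
    have h8 : 1 * (K * (r * (t - r))) ≤ (2 * L * b) * (K * (r * (t - r))) := by
      apply mul_le_mul_of_nonneg_right hb2
      have : 0 ≤ t - r := by linarith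
      positivity
    have h9 : (2 * L) * (b * K * r * (t - r) / 2) ≤ (2 * L) * (1 + C) :=
      mul_le_mul_of_nonneg_left h4 (by positivity)
    nlinarith
  have h7 := P.K2
  have h8 : L * (1 + C) ≤ L * (2 + 4 * p + C) := mul_le_mul_of_nonneg_left (by linarith) hL.le
  have h9 : 0 < L * (2 + 4 * p + C) := by positivity
  nlinarith

/-- gap between `p` and `2p` -/
lemma rel_gap2 (P : Params p L M K C s s₀ ν ε₀) {b h f e₀ r : ℝ} {g : ℝ → ℝ → ℝ} {C₁ β₀ q : ℝ}
    (hbase : Base p q K C₁ β₀ g) (hb0 : β₀ ≤ b)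
    (R : Rel p L M K C s s₀ ε₀ b h f e₀ r g) : r ≤ p + s ∨ 2 * p - s ≤ r := by
  by_contra hcon
  push Not at hcon
  obtain ⟨hr1, hr2⟩ := hcon
  obtain ⟨hb, hb2⟩ := b_pos P R
  obtain ⟨q1, q2, q3, q4⟩ := q_facts P
  have hK : 0 < K := by linarith [P.K1]
  have hL : 0 < L := by linarith [P.L3]
  have hs := P.s_pos
  have hC0 := P.C0
  have hU := rel_U2 hbase hb hb0 R
  have hf1 := R.f1
  have hf2 := R.f2
  have hp := P.p_pos
  have hε : p - (1 - ε₀) * p = ε₀ * p := by ring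
  set t := (1 - ε₀) * p with ht
  have hrt : s ≤ r - t := by linarith
  have hrt2 : s / 2 ≤ 2 * t - r := by linarith
  have htpos : 0 < t := by linarith
  have hr : 0 < r := by linarith
  have h1 : (2 * t - r) * (h * t + b * K * t ^ 2 / 2 - C) +
      (r - t) * (2 * t * h + 2 * b * K * t ^ 2 - K * t - C) ≤ t * f := by
    have h2 : (2 * t - r) * (h * t + b * K * t ^ 2 / 2 - C) ≤ (2 * t - r) * f :=
      mul_le_mul_of_nonneg_left hf1 (by linarith)
    have h3 : (r - t) * (2 * t * h + 2 * b * K * t ^ 2 - K * t - C) ≤ (r - t) * f :=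
      mul_le_mul_of_nonneg_left hf2 (by linarith)
    have h4 : t * f = (2 * t - r) * f + (r - t) * f := by ring
    linarith
  have h1' : t * (r * h + b * K * t * (3 * r - 2 * t) / 2 - (r - t) * K - C) ≤ t * f := by
    refine le_trans (le_of_eq ?_) h1
    ring
  have h2 : r * h + b * K * t * (3 * r - 2 * t) / 2 - (r - t) * K - C ≤ f :=
    le_of_mul_le_mul_left h1' htpos
  have h3 : b * K * ((r - t) * (2 * t - r)) / 2 ≤ K * (ε₀ * p) + 1 + 2 * r + C := by
    have h4 : b * K * ((r - t) * (2 * t - r)) / 2 =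
      b * K * t * (3 * r - 2 * t) / 2 - b * K * r ^ 2 / 2 := by ring
    rw [h4]
    have h5 : K * (ε₀ * p) = K * p - K * t := by rw [← hε]; ring
    rw [h5]
    linarith
  have h5 : s * (s / 2) ≤ (r - t) * (2 * t - r) := mul_le_mul hrt hrt2 (by positivity) (by linarith)
  have h6 : K * (s * (s / 2)) ≤ 2 * L * (2 * (K * (ε₀ * p) + 1 + 2 * r + C)) := by
    have h7 : K * (s * (s / 2)) ≤ K * ((r - t) * (2 * t - r)) := mul_le_mul_of_nonneg_left h5 hK.le
    have h8 : 1 * (K * ((r - t) * (2 * t - r))) ≤ (2 * L * b) * (K * ((r - t) * (2 * t - r))) := by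
      apply mul_le_mul_of_nonneg_right hb2
      have : 0 ≤ (r - t) * (2 * t - r) := le_trans (by positivity) h5
      positivity
    have h9 : (2 * L) * (b * K * ((r - t) * (2 * t - r)) / 2) ≤ (2 * L) * (K * (ε₀ * p) + 1 + 2 * r + C) :=
      mul_le_mul_of_nonneg_left h3 (by positivity)
    nlinarith
  have h7 := P.K2
  have h8 := P.ε_s2
  have h9 : K * (16 * L * (ε₀ * p)) ≤ K * s ^ 2 := mul_le_mul_of_nonneg_left h8 hK.le
  have h10 : L * (1 + 2 * r + C) ≤ L * (1 + 4 * p + C) := by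
    apply mul_le_mul_of_nonneg_left _ hL.le
    linarith
  nlinarith

/-- the three cells -/
noncomputable def cells (p L K s ν : ℝ) : Fin 3 → CellP
  | 0 => ⟨0, s, 0, -(K * ν), K * ν⟩
  | 1 => ⟨p - s, p + s, 0, K * p ^ 2 / 2 - K * ν, K * p ^ 2 / 2 + K * ν⟩
  | 2 => ⟨2 * p - s, L, 5 / 8 * K * p, 0, K * L ^ 2 / 2⟩

/-- lower bound for `e₀` from a point `(b', h')` with `b' < b` -/
lemma rel_low {b h f e₀ r : ℝ} {g : ℝ → ℝ → ℝ}
    (R : Rel p L M K C s s₀ ε₀ b h f e₀ r g) {b' h' : ℝ} (hb' : 0 < b') :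
    K * r * (b * p / 2 - s₀) - b * K * r ^ 2 / 2 + r * h' - g b' h' ≤ e₀ * (b - b') := by
  have h1 := R.star b' h' hb'
  have h2 := R.f0
  have h3 : r * (h + K * b * p / 2) ≤ r * (K * s₀) := mul_le_mul_of_nonneg_left R.hup R.r0
  nlinarith

lemma rel_cell0 (P : Params p L M K C s s₀ ν ε₀) {b h f e₀ r : ℝ} {g : ℝ → ℝ → ℝ} {C₁ β₀ q : ℝ}
    (hbase : Base p q K C₁ β₀ g) 
    (R : Rel p L M K C s s₀ ε₀ b h f e₀ r g) (hr : r ≤ s) (Λ : ℝ) :
    InCell (cells p L K s ν 0) Λ 0 (e₀ + K * r ^ 2 / 2) r := by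
  obtain ⟨hb, hb2⟩ := b_pos P R
  have hK : 0 < K := by linarith [P.K1]
  have hL : 0 < L := by linarith [P.L3]
  have hs := P.s_pos
  have hp := P.p_pos
  have hr0 := R.r0
  have he0 := R.e0
  have hbp := s0_bp P R
  have hs0 := P.s0_pos
  have h1 := rel_low R (show 0 < b / 2 by positivity) (h' := 0)
  have h2 := hbase.at_zero (b / 2) (by positivity)
  have hrs : r ^ 2 ≤ s ^ 2 := pow_le_pow_left₀ hr0 hr 2
  have hKr : K * r ^ 2 ≤ K * s ^ 2 := mul_le_mul_of_nonneg_left hrs hK.le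
  -- e₀ (b/2) ≥ - b K s^2/2 - 1
  have h3 : - (b * K * s ^ 2 / 2) - 1 ≤ e₀ * (b / 2) := by
    have h4 : e₀ * (b - b / 2) = e₀ * (b / 2) := by ring
    rw [h4] at h1
    have h5 : 0 ≤ K * r * (b * p / 2 - s₀) := by
      apply mul_nonneg (by positivity)
      linarith
    have h6 : b * (K * r ^ 2) ≤ b * (K * s ^ 2) := mul_le_mul_of_nonneg_left hKr hb.le
    linarith
  have h4 : - (K * s ^ 2) - 4 * L ≤ e₀ := by
    by_contra hcon
    push Not at hcon
    have h5 : e₀ * (b / 2) < (- (K * s ^ 2) - 4 * L) * (b / 2) :=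
      mul_lt_mul_of_pos_right hcon (by positivity)
    nlinarith
  have hν := P.ν_eq
  have hs' := P.s_le'
  have hK3 := P.K3
  have h5 : K * s ^ 2 ≤ K * p ^ 2 / 1024 := by
    have h6 : s ^ 2 ≤ p ^ 2 / 1024 := by nlinarith
    nlinarith
  simp only [InCell, cells]
  have h6 : K * ν = K * p ^ 2 / 32 := by rw [hν]; ring
  rw [h6]
  have h7 : 0 ≤ K * r ^ 2 := by positivity
  have h8 : 0 ≤ K * p ^ 2 := by positivity
  refine ⟨by linarith, by linarith, by linarith, by linarith⟩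

lemma rel_cell1 (P : Params p L M K C s s₀ ν ε₀) {b h f e₀ r : ℝ} {g : ℝ → ℝ → ℝ} {C₁ β₀ q : ℝ}
    (hbase : Base p q K C₁ β₀ g) 
    (R : Rel p L M K C s s₀ ε₀ b h f e₀ r g) (hr1 : p - s ≤ r) (hr2 : r ≤ p + s) (Λ : ℝ) :
    InCell (cells p L K s ν 1) Λ 0 (e₀ + K * r ^ 2 / 2) r := by
  obtain ⟨hb, hb2⟩ := b_pos P R
  have hK : 0 < K := by linarith [P.K1]
  have hL : 0 < L := by linarith [P.L3]
  have hs := P.s_pos
  have hp := P.p_pos
  have hr0 := R.r0
  have he0 := R.e0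
  have hbp := s0_bp P R
  have hs0 := P.s0_pos
  have h1 := rel_low R (show 0 < b / 2 by positivity) (h' := 0)
  have h2 := hbase.at_zero (b / 2) (by positivity)
  -- e₀ (b/2) ≥ -K r (b s/2 + s₀) - 1
  have h3 : - (K * r * (b * s / 2 + s₀)) - 1 ≤ e₀ * (b / 2) := by
    have h4 : e₀ * (b - b / 2) = e₀ * (b / 2) := by ring
    rw [h4] at h1
    have h5 : K * r * (b * p / 2 - s₀) - b * K * r ^ 2 / 2 + K * r * (b * s / 2 + s₀) =
      (K * r * b / 2) * (p + s - r) := by ring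
    have h6 : 0 ≤ (K * r * b / 2) * (p + s - r) := mul_nonneg (by positivity) (by linarith)
    linarith
  have hs' := P.s_le'
  have hs0L := P.s0_le
  have h4 : - (K * r * (s + 4 * L * s₀)) - 4 * L ≤ e₀ := by
    by_contra hcon
    push Not at hcon
    have h5 : e₀ * (b / 2) < (- (K * r * (s + 4 * L * s₀)) - 4 * L) * (b / 2) :=
      mul_lt_mul_of_pos_right hcon (by positivity)
    have h6 : 1 * (K * r * s₀) ≤ (2 * L * b) * (K * r * s₀) :=
      mul_le_mul_of_nonneg_right hb2 (by positivity)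
    nlinarith
  have h5 : K * r * (s + 4 * L * s₀) ≤ K * p ^ 2 / 128 := by
    have h6 : s + 4 * L * s₀ ≤ 5 * p / 1024 := by linarith
    have h7 : r ≤ 1025 * p / 1024 := by linarith
    have h8 : r * (s + 4 * L * s₀) ≤ (1025 * p / 1024) * (5 * p / 1024) := by
      apply mul_le_mul h7 h6 (by positivity) (by positivity)
    have h9 : r * (s + 4 * L * s₀) ≤ p ^ 2 / 128 := by nlinarith
    have h10 : K * (r * (s + 4 * L * s₀)) ≤ K * (p ^ 2 / 128) := mul_le_mul_of_nonneg_left h9 hK.le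
    linarith
  have hν := P.ν_eq
  have hK3 := P.K3
  have h6 : K * ν = K * p ^ 2 / 32 := by rw [hν]; ring
  have h7 : K * r ^ 2 ≤ K * p ^ 2 + K * p ^ 2 / 64 := by
    have h8 : r ^ 2 ≤ (1025 * p / 1024) ^ 2 := pow_le_pow_left₀ hr0 (by linarith) 2
    have h9 : r ^ 2 ≤ p ^ 2 + p ^ 2 / 64 := by nlinarith
    have := mul_le_mul_of_nonneg_left h9 hK.le
    linarith
  have h8 : K * p ^ 2 - K * p ^ 2 / 64 ≤ K * r ^ 2 := by
    have h8 : (1023 * p / 1024) ^ 2 ≤ r ^ 2 := pow_le_pow_left₀ (by positivity) (by linarith) 2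
    have h9 : p ^ 2 - p ^ 2 / 64 ≤ r ^ 2 := by nlinarith
    have := mul_le_mul_of_nonneg_left h9 hK.le
    linarith
  simp only [InCell, cells]
  rw [h6]
  have h9 : 0 < K * p ^ 2 := by positivity
  refine ⟨by linarith, by linarith, by linarith, by linarith⟩

lemma rel_cell2 (P : Params p L M K C s s₀ ν ε₀) {b h f e₀ r : ℝ} {g : ℝ → ℝ → ℝ} {C₁ q : ℝ}
    (hbase : Base p q K C₁ (1 / (4 * L)) g) 
    (R : Rel p L M K C s s₀ ε₀ b h f e₀ r g) (hr1 : 2 * p - s ≤ r) (hr2 : r ≤ L) (Λ : ℝ) :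
    InCell (cells p L K s ν 2) Λ 0 (e₀ + K * r ^ 2 / 2) r := by
  obtain ⟨hb, hb2⟩ := b_pos P R
  have hK : 0 < K := by linarith [P.K1]
  have hL : 0 < L := by linarith [P.L3]
  have hs := P.s_pos
  have hp := P.p_pos
  have hr0 := R.r0
  have he0 := R.e0
  have hs0 := P.s0_pos
  set β := 1 / (4 * L) with hβ
  have hβpos : 0 < β := by positivity
  have hβL : β * L = 1 / 4 := by rw [hβ]; field_simp
  have h1 := rel_low R hβpos (h' := K - 2)
  have h2 := hbase.at_K β le_rfl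
  have hbβ : β < b := by
    have : β * (2 * L) < b * (2 * L) := by nlinarith
    exact lt_of_mul_lt_mul_right this (by positivity)
  have hpr : p ≤ r := by
    have := P.s_le'
    linarith
  have hr : 0 < r := by linarith
  -- key inequality
  have key : 5 / 8 * K * p * r * (b - β) ≤
      (e₀ + K * r ^ 2 / 2) * (b - β) := by
    have h3 : (e₀ + K * r ^ 2 / 2) * (b - β) = e₀ * (b - β) + b * K * r ^ 2 / 2 - β * K * r ^ 2 / 2 := by
      ring
    rw [h3]
    have h4 : β * K * r ^ 2 / 2 ≤ K * r / 8 := by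
      have h5 : β * r ≤ β * L := mul_le_mul_of_nonneg_left hr2 hβpos.le
      have h6 : (K * r) * (β * r) ≤ (K * r) * (1 / 4) := by
        apply mul_le_mul_of_nonneg_left _ (by positivity)
        linarith
      nlinarith
    have h5 : K * p + 1 ≤ K * (r / 2 + s / 2) + 1 := by
      have : K * p ≤ K * (r / 2 + s / 2) := mul_le_mul_of_nonneg_left (by linarith) hK.le
      linarith
    have hs' := P.s_le'
    have h6 : K * s ≤ K * r / 1024 := by
      have : K * (1024 * s) ≤ K * r := mul_le_mul_of_nonneg_left (by linarith) hK.le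
      linarith
    have hK4 := P.K4
    -- 2 r ≤ K r/512 ; 1 ≤ K r/1024
    have h7 : 1 ≤ K * r / 1024 := by
      have h8 : K * p ≤ K * r := mul_le_mul_of_nonneg_left hpr hK.le
      linarith
    have hK1024 : 1024 ≤ K := by
      have h8 : 1024 * p ≤ K * p := by linarith
      exact le_of_mul_le_mul_right h8 hp
    have h8 : 2 * r ≤ K * r / 512 := by
      have : 1024 * r ≤ K * r := mul_le_mul_of_nonneg_right hK1024 hr.le
      linarith
    have h9 : K * r * s₀ ≤ K * r / 64 := by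
      have := mul_le_mul_of_nonneg_left P.s0_le1 (show 0 ≤ K * r by positivity)
      linarith
    have hKr : 0 < K * r := by positivity
    have h10 : K * r * (b * p) ≤ K * r * (5 / 2) := mul_le_mul_of_nonneg_left R.b2 hKr.le
    have h11 : 0 ≤ 5 / 8 * K * p * r * β := by positivity
    nlinarith
  have h3 : 5 / 8 * K * p * r ≤ e₀ + K * r ^ 2 / 2 :=
    le_of_mul_le_mul_right key (by linarith)
  have h4 : K * r ^ 2 ≤ K * L ^ 2 := by
    apply mul_le_mul_of_nonneg_left _ hK.le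
    exact pow_le_pow_left₀ hr0 hr2 2
  simp only [InCell, cells]
  refine ⟨by linarith, by linarith, by linarith, by linarith⟩

/-- the base case: every point of the region carries a subgradient in one of the cells -/
theorem base_cover (P : Params p L M K C s s₀ ν ε₀) {D C₁ : ℝ} (hD : L = 2 * D + 1) (hC : C₁ ≤ C)
    {g : ℝ → ℝ → ℝ} (hg : Bnd (D * M * K) (M * K) g)
    (hbase : Base p ((1 - ε₀) * p) K C₁ (1 / (4 * L)) g) {b h : ℝ}
    (hb1 : 1 / (2 * L) ≤ b) (hb2 : b * p ≤ 5 / 2) (hup : h + K * b * p / 2 ≤ K * s₀) (Λ : ℝ) :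
    ∃ k : Fin 3, ∃ e r : ℝ, InCell (cells p L K s ν k) Λ 0 e r ∧ Sub (supConv K g) b h e r := by
  have hL : 0 < L := by linarith [P.L3]
  have hK : 0 < K := by linarith [P.K1]
  have hbpos : 0 < b := lt_of_lt_of_le (by positivity) hb1
  have hκ : 4 * K ≤ M * K := mul_le_mul_of_nonneg_right P.M4 hK.le
  obtain ⟨e₀, r, m, _⟩ := exists_maxData hg hK hκ hbpos h
  have R := mk_rel P hC hg hbase hb1 hb2 hup m
  have hrL := rel_le_L P hD hg R
  have hβb : 1 / (4 * L) ≤ b := by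
    refine le_trans ?_ hb1
    apply one_div_le_one_div_of_le (by positivity)
    linarith
  have hsub := m.sub_supConv hg hK hκ
  rcases rel_gap1 P hbase R with h1 | h1
  · exact ⟨0, _, r, rel_cell0 P hbase R h1 Λ, hsub⟩
  · rcases rel_gap2 P hbase hβb R with h2 | h2
    · exact ⟨1, _, r, rel_cell1 P hbase R h1 h2 Λ, hsub⟩
    · exact ⟨2, _, r, rel_cell2 P hbase R h2 hrL Λ, hsub⟩

/-- upper bound for `f₁` far to the left -/
theorem f1_left (P : Params p L M K C s s₀ ν ε₀) {D C₁ : ℝ} (hD : L = 2 * D + 1) (hC : C₁ ≤ C)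
    {g : ℝ → ℝ → ℝ} (hg : Bnd (D * M * K) (M * K) g)
    (hbase : Base p ((1 - ε₀) * p) K C₁ (1 / (4 * L)) g) {b h : ℝ}
    (hb1 : 1 / (2 * L) ≤ b) (hb2 : b * p ≤ 5 / 2) (hup : h + K * b * p / 2 ≤ K * s₀)
    (hh : h ≤ - (b * K * L / 2)) : supConv K g b h ≤ 1 := by
  have hL : 0 < L := by linarith [P.L3]
  have hK : 0 < K := by linarith [P.K1]
  have hbpos : 0 < b := lt_of_lt_of_le (by positivity) hb1
  have hκ : 4 * K ≤ M * K := mul_le_mul_of_nonneg_right P.M4 hK.le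
  obtain ⟨e₀, r, m, _⟩ := exists_maxData hg hK hκ hbpos h
  have R := mk_rel P hC hg hbase hb1 hb2 hup m
  have hrL := rel_le_L P hD hg R
  have hU := rel_U1 hbase hbpos R
  have hr0 := R.r0
  have h1 : b * K * r ^ 2 / 2 + r * h ≤ 0 := by
    have h2 : b * K * r ^ 2 / 2 + r * h = r * (b * K * r / 2 + h) := by ring
    rw [h2]
    apply mul_nonpos_of_nonneg_of_nonpos hr0
    have : b * K * r ≤ b * K * L := mul_le_mul_of_nonneg_left hrL (by positivity)
    linarith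
  linarith

/-- upper bound for `f₁` at the left end of the `b` interval -/
theorem f1_corner (P : Params p L M K C s s₀ ν ε₀) {D C₁ : ℝ} (hD : L = 2 * D + 1) (hC : C₁ ≤ C)
    {g : ℝ → ℝ → ℝ} (hg : Bnd (D * M * K) (M * K) g)
    (hbase : Base p ((1 - ε₀) * p) K C₁ (1 / (4 * L)) g) :
    supConv K g (1 / L) (K * (-(p / (2 * L)) + s₀)) ≤ K * (s₀ * p) + 2 * L + 1 := by
  have hL : 0 < L := by linarith [P.L3]
  have hK : 0 < K := by linarith [P.K1]
  have hκ : 4 * K ≤ M * K := mul_le_mul_of_nonneg_right P.M4 hK.le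
  set b := 1 / L with hb
  have hbpos : 0 < b := by positivity
  have hbL : b * L = 1 := by rw [hb]; field_simp
  set h := K * (-(p / (2 * L)) + s₀) with hh
  have hh' : h = - (K * b * p / 2) + K * s₀ := by
    rw [hh, hb]; field_simp
  have hup : h + K * b * p / 2 ≤ K * s₀ := by rw [hh']; linarith
  have hb1 : 1 / (2 * L) ≤ b := by
    rw [hb]
    apply one_div_le_one_div_of_le (by positivity)
    linarith
  have hb2 : b * p ≤ 5 / 2 := by
    have h1 := P.L_ge
    have h2 := P.p_pos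
    have h3 : b * p ≤ b * L := mul_le_mul_of_nonneg_left (by linarith) hbpos.le
    linarith
  obtain ⟨e₀, r, m, _⟩ := exists_maxData hg hK hκ hbpos h
  have R := mk_rel P hC hg hbase hb1 hb2 hup m
  have hrL := rel_le_L P hD hg R
  have hr0 := R.r0
  have hβb : 1 / (4 * L) ≤ b := by
    refine le_trans ?_ hb1
    apply one_div_le_one_div_of_le (by positivity)
    linarith
  have hbr : b * r ≤ 1 := by
    have := mul_le_mul_of_nonneg_left hrL hbpos.le
    linarith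
  have hs0 := P.s0_pos
  have hs01 := P.s0_le1
  rcases le_total r p with hrp | hrp
  · have hU := rel_U1 hbase hbpos R
    rw [hh'] at hU
    have h1 : b * K * r ^ 2 / 2 + r * (-(K * b * p / 2) + K * s₀) =
      K * (r * s₀) - K * b * r * (p - r) / 2 := by ring
    have h2 : 0 ≤ K * b * r * (p - r) / 2 := by
      have : 0 ≤ p - r := by linarith
      positivity
    have h3 : K * (r * s₀) ≤ K * (s₀ * p) := by
      apply mul_le_mul_of_nonneg_left _ hK.le
      nlinarith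
    rw [← hh'] at hU h1
    linarith
  · have hU := rel_U2 hbase hbpos hβb R
    rw [hh'] at hU
    have h1 : 1 + K * p - r * (K - 2) + b * K * r ^ 2 / 2 + r * (-(K * b * p / 2) + K * s₀) =
      1 + 2 * r + K * (s₀ * p) + K * ((r - p) * (b * r / 2 - (1 - s₀))) := by ring
    have h2 : K * ((r - p) * (b * r / 2 - (1 - s₀))) ≤ 0 := by
      apply mul_nonpos_of_nonneg_of_nonpos hK.le
      apply mul_nonpos_of_nonneg_of_nonpos (by linarith)
      linarith
    rw [h1] at hU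
    rw [← hh'] at hU
    linarith

end

end Crest.Agent.H25Abs
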