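import Mathlib
import Crest.Agent.H25AbsC

set_option autoImplicit false
set_option maxHeartbeats 4000000

open Filter Topology Set
open Crest.Agent.H13AbsSpec

namespace Crest.Agent.H25Abs

section
variable {p L M K C s s₀ ν ε₀ : ℝ}

/-- the regions -/
def Reg (p L K s₀ τ b h : ℝ) : Prop :=
  1 / L - τ ≤ b ∧ b ≤ 2 / p + τ ∧ -(K * (1 + L / p)) - τ ≤ h ∧ h + K * b * p / 2 ≤ K * s₀ / 2 + τ

lemma cell_bounds (P : Params p L M K C s s₀ ν ε₀) {Λ η e r : ℝ} (hΛ : 0 ≤ Λ) (hη0 : 0 ≤ η)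
    (hη1 : η ≤ 1) (hηs : η ≤ s) {k : Fin 3} (h : InCell (cells p L K s ν k) Λ η e r) :
    |e| ≤ K * L ^ 2 + K * p ^ 2 + Λ ∧ -1 ≤ r ∧ r ≤ L + 1 := by
  have hK : 0 < K := by linarith [P.K1]
  have hL : 0 < L := by linarith [P.L3]
  have hs := P.s_pos
  have hp := P.p_pos
  have hs' := P.s_le'
  have hLp := P.L_ge
  have hΛη : Λ * η ≤ Λ := by nlinarith
  have hΛη0 : 0 ≤ Λ * η := mul_nonneg hΛ hη0
  have h6 : K * ν = K * p ^ 2 / 32 := by rw [P.ν_eq]; ring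
  have h7 : 0 < K * p ^ 2 := by positivity
  have h8 : 0 < K * L ^ 2 := by positivity
  have hL3 := P.L3
  fin_cases k
  · obtain ⟨h1, h2, h3, h4⟩ := h
    simp only [cells] at h1 h2 h3 h4
    rw [h6] at h3 h4
    refine ⟨?_, by linarith, by linarith⟩
    rw [abs_le]
    constructor <;> linarith
  · obtain ⟨h1, h2, h3, h4⟩ := h
    simp only [cells] at h1 h2 h3 h4
    rw [h6] at h3 h4
    refine ⟨?_, by linarith, by linarith⟩
    rw [abs_le]
    constructor <;> linarith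
  · obtain ⟨h1, h2, h3, h4⟩ := h
    simp only [cells] at h1 h2 h3 h4
    have hr0 : 0 ≤ r := by linarith
    have h9 : 0 ≤ 5 / 8 * K * p * r := by positivity
    refine ⟨?_, by linarith, by linarith⟩
    rw [abs_le]
    constructor <;> linarith

lemma cell_sep (P : Params p L M K C s s₀ ν ε₀) {Λ η e₁ r₁ e₂ r₂ : ℝ}
    (hηs : η ≤ s) {k l : Fin 3} (h : InCell (cells p L K s ν k) Λ η e₁ r₁)
    (h' : InCell (cells p L K s ν l) Λ η e₂ r₂) (hr : |r₁ - r₂| ≤ p / 4) : k = l := by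
  have hs := P.s_pos
  have hp := P.p_pos
  have hs' := P.s_le'
  have hr' := abs_le.mp hr
  fin_cases k <;> fin_cases l <;> first
    | rfl
    | (exfalso
       obtain ⟨h1, h2, _, _⟩ := h
       obtain ⟨h3, h4, _, _⟩ := h'
       simp only [cells] at h1 h2 h3 h4
       linarith)

/-- the constant of the induction step -/
noncomputable def stepC (p L K Λ G : ℝ) : ℝ :=
  ((4 * (K * L ^ 2 + K * p ^ 2 + Λ) + 8) / (1 / (2 * L)) + 1) + 2 + G ^ 2 + (5 / (2 * p)) * G +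
    (5 / (2 * p)) * (L + 1) + K * p / 2 + 1

theorem step_cells (P : Params p L M K C s s₀ ν ε₀) {D Λ G a ε θ τ₁ τ₂ η₁ η₂ : ℝ}
    {f g : ℝ → ℝ → ℝ} (hg : Bnd (D * M * K) (M * K) g)
    (ha : 0 < a) (haθ : a ≤ θ) (hθ1 : θ ≤ 1) (hε : ε ≤ a * θ ^ 4) (haκ : 4 * a ≤ M * K)
    (hΛ : Λ = K * p + 1) (hG1 : 1 ≤ G)
    (hG : ∀ a b h e r : ℝ, 0 < a → a ≤ 1 → 4 * a ≤ M * K → 1 / (2 * L) ≤ b → b ≤ 5 / (2 * p) →
      |h| ≤ K * (1 + L / p) + K + 2 → MaxData a g b h e r → r ≤ G)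
    (hclose : ∀ b h : ℝ, 1 / (2 * L) ≤ b → b ≤ 5 / (2 * p) → |h| ≤ K * (1 + L / p) + K + 2 →
      |g b h - f b h| ≤ ε)
    (hτ : stepC p L K Λ G * θ ≤ τ₁ - τ₂) (hη : stepC p L K Λ G * θ ≤ η₂ - η₁)
    (hτ₂ : 0 ≤ τ₂) (hτ₁ : τ₁ ≤ 1) (hτL : τ₁ ≤ 1 / (2 * L)) (hτp : τ₁ ≤ 1 / (2 * p))
    (hη₁ : 0 ≤ η₁) (hη₂ : η₂ ≤ s) (hη₂1 : η₂ ≤ 1)
    (Q : ∀ b h, Reg p L K s₀ τ₁ b h → ∃ k : Fin 3, ∃ e r : ℝ,
      InCell (cells p L K s ν k) Λ η₁ e r ∧ Sub f b h e r) :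
    ∀ b h, Reg p L K s₀ τ₂ b h → ∃ k : Fin 3, ∃ e r : ℝ,
      InCell (cells p L K s ν k) Λ η₂ e r ∧ Sub (supConv a g) b h e r := by
  intro b h hR
  obtain ⟨R1, R2, R3, R4⟩ := hR
  have hK : 0 < K := by linarith [P.K1]
  have hL : 0 < L := by linarith [P.L3]
  have hs := P.s_pos
  have hp := P.p_pos
  have hs' := P.s_le'
  have hθ : 0 < θ := lt_of_lt_of_le ha haθ
  have hΛpos : 0 < Λ := by rw [hΛ]; positivity
  set E := K * L ^ 2 + K * p ^ 2 + Λ with hE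
  have hEpos : 0 < E := by rw [hE]; positivity
  set β₁ := 1 / (2 * L) with hβ₁
  set β₂ := 5 / (2 * p) with hβ₂
  have hβ₁pos : 0 < β₁ := by positivity
  have hβ₂pos : 0 < β₂ := by positivity
  set Cr := (4 * E + 8) / β₁ + 1 with hCr
  have hCrpos : 0 < Cr := by positivity
  have hCdef : stepC p L K Λ G = Cr + 2 + G ^ 2 + β₂ * G + β₂ * (L + 1) + K * p / 2 + 1 := rfl
  rw [hCdef] at hτ hη
  have hGpos : 0 < G := by linarith
  have hT : (Cr + 2 + G ^ 2 + β₂ * G + β₂ * (L + 1) + K * p / 2 + 1) * θ =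
    Cr * θ + 2 * θ + G ^ 2 * θ + β₂ * G * θ + β₂ * (L + 1) * θ + K * p / 2 * θ + θ := by ring
  rw [hT] at hτ hη
  have t1 : 0 < Cr * θ := by positivity
  have t2 : 0 < G ^ 2 * θ := by positivity
  have t3 : 0 < β₂ * G * θ := by positivity
  have t4 : 0 < β₂ * (L + 1) * θ := by positivity
  have t5 : 0 < K * p / 2 * θ := by positivity
  -- bounds on b
  have hLL : 1 / L = 2 * β₁ := by rw [hβ₁]; field_simp
  have hpp : 2 / p = 4 / 5 * β₂ := by rw [hβ₂]; field_simp; norm_num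
  have hpp' : 1 / (2 * p) = 1 / 5 * β₂ := by rw [hβ₂]; field_simp
  have hw0 : 0 < a * θ ^ 2 := by positivity
  have hwθ : a * θ ^ 2 ≤ θ := by
    have h1 : θ ^ 2 ≤ 1 := pow_le_one₀ hθ.le hθ1
    have h2 : a * θ ^ 2 ≤ a * 1 := mul_le_mul_of_nonneg_left h1 ha.le
    linarith
  have hb1 : β₁ ≤ b - a * θ ^ 2 := by
    rw [hLL] at R1
    linarith
  have hb2 : b + a * θ ^ 2 ≤ β₂ := by
    rw [hpp] at R2
    rw [hpp'] at hτp
    linarith
  have hbpos : 0 < b := by linarith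
  have hbβ₂ : b ≤ β₂ := by linarith
  have hbβ₁ : β₁ ≤ b := by linarith
  have hH1 : K ≤ K * (1 + L / p) :=
    le_mul_of_one_le_right hK.le (by have : 0 < L / p := by positivity
                                     linarith only [this])
  have hs01 := P.s0_le1
  have hs0 := P.s0_pos
  have hKs : K * s₀ ≤ K := mul_le_of_le_one_right hK.le (by linarith only [hs01])
  have hh1 : -(K * (1 + L / p)) - 1 ≤ h := by linarith
  have hh2 : h ≤ K + 1 := by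
    have : 0 ≤ K * b * p / 2 := by positivity
    linarith
  have hhabs : |h| ≤ K * (1 + L / p) + K + 2 := by
    rw [abs_le]; constructor <;> linarith
  obtain ⟨e₀, r, m, _⟩ := exists_maxData hg ha haκ hbpos h
  have hrG : r ≤ G := hG a b h e₀ r ha (haθ.trans hθ1) haκ hbβ₁ hbβ₂ hhabs m
  have hr0 := m.r_nonneg
  have hbar0 : 0 ≤ b * a * r := by positivity
  have hbar : b * a * r ≤ β₂ * G * θ := by
    have h1 : b * a ≤ β₂ * θ := mul_le_mul hbβ₂ haθ ha.le hβ₂pos.le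
    have h2 : b * a * r ≤ β₂ * θ * G := mul_le_mul h1 hrG hr0 (by positivity)
    linarith
  have hbox : ∀ x : ℝ, |x - h| ≤ 1 → |x| ≤ K * (1 + L / p) + K + 2 := by
    intro x hx
    have := abs_le.mp hx
    rw [abs_le]
    constructor <;> linarith
  have hstar_box : |h + b * a * r| ≤ K * (1 + L / p) + K + 2 := by
    apply hbox
    rw [abs_le]
    constructor <;> linarith
  -- regions
  have hKpw : K * (a * θ ^ 2) * p / 2 ≤ K * p / 2 * θ := by
    have : K * p / 2 * (a * θ ^ 2) ≤ K * p / 2 * θ := mul_le_mul_of_nonneg_left hwθ (by positivity)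
    linarith
  have hKpw0 : 0 ≤ K * (a * θ ^ 2) * p / 2 := by positivity
  have hReg1 : Reg p L K s₀ τ₁ (b - a * θ ^ 2) (h + b * a * r) := by
    refine ⟨by linarith, by linarith, by linarith, ?_⟩
    have : K * (b - a * θ ^ 2) * p / 2 = K * b * p / 2 - K * (a * θ ^ 2) * p / 2 := by ring
    rw [this]
    linarith
  have hReg2 : Reg p L K s₀ τ₁ (b + a * θ ^ 2) (h + b * a * r) := by
    refine ⟨by linarith, by linarith, by linarith, ?_⟩
    have : K * (b + a * θ ^ 2) * p / 2 = K * b * p / 2 + K * (a * θ ^ 2) * p / 2 := by ring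
    rw [this]
    linarith
  obtain ⟨k₁, e₁, r₁, hc₁, hs₁⟩ := Q _ _ hReg1
  obtain ⟨k₂, e₂, r₂, hc₂, hs₂⟩ := Q _ _ hReg2
  have hη₁s : η₁ ≤ s := by linarith
  have hη₁1 : η₁ ≤ 1 := by linarith
  obtain ⟨hE₁, hr₁l, hr₁u⟩ := cell_bounds P hΛpos.le hη₁ hη₁1 hη₁s hc₁
  obtain ⟨hE₂, hr₂l, hr₂u⟩ := cell_bounds P hΛpos.le hη₁ hη₁1 hη₁s hc₂
  have hbr : ∀ x : ℝ, -1 ≤ x → x ≤ L + 1 → |h + b * a * x| ≤ K * (1 + L / p) + K + 2 := by
    intro x hx1 hx2
    apply hbox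
    have h1 : h + b * a * x - h = (b * a) * x := by ring
    rw [h1, abs_mul, abs_of_pos (by positivity : 0 < b * a)]
    have h2 : b * a ≤ β₂ * θ := mul_le_mul hbβ₂ haθ ha.le hβ₂pos.le
    have h3 : |x| ≤ L + 1 := by rw [abs_le]; constructor <;> linarith
    have h4 : b * a * |x| ≤ β₂ * θ * (L + 1) := mul_le_mul h2 h3 (abs_nonneg _) (by positivity)
    linarith
  obtain ⟨A1, A2, A3, A4⟩ := step_two (E := E) ha hβ₁pos hbβ₁ hθ hθ1 hε (by linarith) m hs₁ hs₂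
    (hclose _ _ hb1 (by linarith) hstar_box) (hclose _ _ (by linarith) hb2 hstar_box)
    (hclose _ _ hbβ₁ hbβ₂ hstar_box)
    (hclose _ _ hbβ₁ hbβ₂ (hbr r₁ hr₁l hr₁u)) (hclose _ _ hbβ₁ hbβ₂ (hbr r₂ hr₂l hr₂u))
    hEpos.le hE₁ hE₂
  -- same cell
  have hkk : k₁ = k₂ := by
    apply cell_sep P hη₁s hc₁ hc₂
    have h1 : r₁ - r₂ = (r₁ - r) - (r₂ - r) := by ring
    rw [h1]
    calc |(r₁ - r) - (r₂ - r)| ≤ |r₁ - r| + |r₂ - r| := abs_sub _ _
      _ ≤ Cr * θ + Cr * θ := add_le_add A3 A4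
      _ ≤ p / 4 := by linarith
  subst hkk
  refine ⟨k₁, _, r, ?_, m.sub_supConv hg ha haκ⟩
  have hθ2 : θ ^ 2 ≤ θ := by
    have : θ * θ ≤ θ * 1 := mul_le_mul_of_nonneg_left hθ1 hθ.le
    linarith only [this]
  have hfin := cell_transfer (Λ := Λ) (η := η₁) (d := η₂ - η₁) (ρ := Cr * θ) (σ := 2 * θ ^ 2)
    (α := G ^ 2 * θ) (x := a * r ^ 2 / 2) hc₁ hc₂ A3 A4 A1 A2 (by positivity) (by
      have h1 : r ^ 2 ≤ G ^ 2 := pow_le_pow_left₀ hr0 hrG 2
      have h2 : a * r ^ 2 ≤ θ * G ^ 2 := mul_le_mul haθ h1 (sq_nonneg r) hθ.le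
      linarith only [h2, t2]) (by linarith) (by linarith) (by
      rw [hΛ]
      fin_cases k₁
      · simp only [cells]
        have : 0 < K * p := by positivity
        simp
        linarith
      · simp only [cells]
        have : 0 < K * p := by positivity
        simp
        linarith
      · simp only [cells]
        have : 0 < K * p := by positivity
        rw [abs_of_pos (by positivity)]
        linarith)
  have : η₁ + (η₂ - η₁) = η₂ := by ring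
  rw [this] at hfin
  exact hfin

end

end Crest.Agent.H25Abs
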