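import Mathlib
import Crest.Agent.H25AbsD
import Crest.Agent.H25AbsE

set_option autoImplicit false
set_option maxHeartbeats 4000000

open Filter Topology Set
open Crest.Agent.H13AbsSpec

namespace Crest.Agent.H25Abs

section
variable {p L M K C s s₀ ν ε₀ : ℝ}

/-- the compact sets of subgradients -/
def cellSet (p L K s ν Λ η : ℝ) (k : Fin 3) : Set (ℝ × ℝ) :=
  {y | InCell (cells p L K s ν k) Λ η y.1 y.2}

lemma isCompact_cellSet (P : Params p L M K C s s₀ ν ε₀) {Λ η : ℝ} (hΛ : 0 ≤ Λ) (hη0 : 0 ≤ η)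
    (hη1 : η ≤ 1) (hηs : η ≤ s) (k : Fin 3) : IsCompact (cellSet p L K s ν Λ η k) := by
  set E := K * L ^ 2 + K * p ^ 2 + Λ with hE
  have h1 : IsCompact (Icc (-E) E ×ˢ Icc (-1 : ℝ) (L + 1)) := isCompact_Icc.prod isCompact_Icc
  apply h1.of_isClosed_subset
  · have : cellSet p L K s ν Λ η k =
        {y : ℝ × ℝ | (cells p L K s ν k).l - η ≤ y.2} ∩ {y | y.2 ≤ (cells p L K s ν k).u + η} ∩
        {y | (cells p L K s ν k).A * y.2 + (cells p L K s ν k).c - Λ * η ≤ y.1} ∩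
        {y | y.1 ≤ (cells p L K s ν k).C + Λ * η} := by
      ext y
      constructor
      · rintro ⟨h1, h2, h3, h4⟩
        exact ⟨⟨⟨h1, h2⟩, h3⟩, h4⟩
      · rintro ⟨⟨⟨h1, h2⟩, h3⟩, h4⟩
        exact ⟨h1, h2, h3, h4⟩
    rw [this]
    refine ((IsClosed.inter ?_ ?_).inter ?_).inter ?_
    · exact isClosed_le continuous_const continuous_snd
    · exact isClosed_le continuous_snd continuous_const
    · exact isClosed_le (by fun_prop) continuous_fst
    · exact isClosed_le continuous_fst continuous_const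
  · intro y hy
    obtain ⟨h2, h3, h4⟩ := cell_bounds P hΛ hη0 hη1 hηs hy
    exact ⟨abs_le.mp h2, h3, h4⟩

theorem limit_cells (P : Params p L M K C s s₀ ν ε₀) {Λ η : ℝ} (hΛ : 0 ≤ Λ) (hη0 : 0 ≤ η)
    (hη1 : η ≤ 1) (hηs : η ≤ s) {f : ℕ → ℝ → ℝ → ℝ} {F : ℝ → ℝ → ℝ}
    (hlim : ∀ b h, 0 < b → Tendsto (fun j => f j b h) atTop (𝓝 (F b h))) {b h : ℝ} (hb : 0 < b)
    (Q : ∀ j, ∃ k : Fin 3, ∃ e r : ℝ, InCell (cells p L K s ν k) Λ η e r ∧ Sub (f j) b h e r) :
    ∃ k : Fin 3, ∃ e r : ℝ, InCell (cells p L K s ν k) Λ η e r ∧ Sub F b h e r := by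
  have hcomp : IsCompact (⋃ k, cellSet p L K s ν Λ η k) :=
    isCompact_iUnion (fun k => isCompact_cellSet P hΛ hη0 hη1 hηs k)
  choose k e r hQ using Q
  have hmem : ∀ j, ((e j, r j) : ℝ × ℝ) ∈ ⋃ k, cellSet p L K s ν Λ η k := fun j =>
    mem_iUnion.mpr ⟨k j, (hQ j).1⟩
  obtain ⟨y, hy, φ, hφ, hconv⟩ := hcomp.tendsto_subseq hmem
  obtain ⟨k', hk'⟩ := mem_iUnion.mp hy
  refine ⟨k', y.1, y.2, hk', ?_⟩
  intro b' h' hb'
  have he : Tendsto (fun j => e (φ j)) atTop (𝓝 y.1) :=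
    (continuous_fst.tendsto y).comp hconv
  have hr : Tendsto (fun j => r (φ j)) atTop (𝓝 y.2) :=
    (continuous_snd.tendsto y).comp hconv
  have h1 : Tendsto (fun j => f (φ j) b h + e (φ j) * (b' - b) + r (φ j) * (h' - h)) atTop
      (𝓝 (F b h + y.1 * (b' - b) + y.2 * (h' - h))) :=
    (((hlim b h hb).comp hφ.tendsto_atTop).add (he.mul_const _)).add (hr.mul_const _)
  have h2 : Tendsto (fun j => f (φ j) b' h') atTop (𝓝 (F b' h')) :=
    (hlim b' h' hb').comp hφ.tendsto_atTop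
  exact le_of_tendsto_of_tendsto' h1 h2 (fun j => (hQ (φ j)).2 b' h' hb')

/-- the sup-convolution is close to the function for small `a` -/
lemma supConv_le_add {B κ β₂ G a b h : ℝ} {g : ℝ → ℝ → ℝ} (hg : Bnd B κ g) (ha : 0 < a)
    (haκ : 4 * a ≤ κ) (hb : 0 < b) (hb2 : b ≤ β₂)
    (hG : ∀ e r : ℝ, MaxData a g b h e r → r ≤ G) :
    supConv a g b h ≤ g b h + β₂ * G ^ 2 * a / 2 := by
  obtain ⟨e, r, m, _⟩ := exists_maxData hg ha haκ hb h
  have hr := hG e r m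
  have hr0 := m.r_nonneg
  rw [m.val]
  have h1 := m.sub b h hb
  have h2 : b * a * r ^ 2 ≤ β₂ * G ^ 2 * a := by
    have h3 : r ^ 2 ≤ G ^ 2 := pow_le_pow_left₀ hr0 hr 2
    have h4 : b * r ^ 2 ≤ β₂ * G ^ 2 := mul_le_mul hb2 h3 (sq_nonneg r) (by linarith)
    nlinarith
  nlinarith

lemma f1_low1 (P : Params p L M K C s s₀ ν ε₀) {B C₁ β₀ : ℝ} (hC : C₁ ≤ C)
    {g : ℝ → ℝ → ℝ} (hg : Bnd B (M * K) g)
    (hbase : Base p ((1 - ε₀) * p) K C₁ β₀ g) {b : ℝ} (hb : 0 < b) (h : ℝ) :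
    h * ((1 - ε₀) * p) + b * K * ((1 - ε₀) * p) ^ 2 / 2 - C ≤ supConv K g b h := by
  have hK : 0 < K := by linarith [P.K1]
  have hκ : 4 * K ≤ M * K := mul_le_mul_of_nonneg_right P.M4 hK.le
  set q := (1 - ε₀) * p with hq
  have h1 := le_supConv' hg hK hκ hb h q
  have h2 := hbase.low1 b (h + b * K * q) hb
  nlinarith

lemma f1_low2 (P : Params p L M K C s s₀ ν ε₀) {B C₁ β₀ : ℝ} (hC : C₁ ≤ C)
    {g : ℝ → ℝ → ℝ} (hg : Bnd B (M * K) g)
    (hbase : Base p ((1 - ε₀) * p) K C₁ β₀ g) {b : ℝ} (hb : 0 < b) (h : ℝ) :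
    2 * ((1 - ε₀) * p) * h + 2 * b * K * ((1 - ε₀) * p) ^ 2 - K * ((1 - ε₀) * p) - C
      ≤ supConv K g b h := by
  have hK : 0 < K := by linarith [P.K1]
  have hκ : 4 * K ≤ M * K := mul_le_mul_of_nonneg_right P.M4 hK.le
  set q := (1 - ε₀) * p with hq
  have h1 := le_supConv' hg hK hκ hb h (2 * q)
  have h2 := hbase.low2 b (h + b * K * (2 * q)) hb
  nlinarith

/-- The facts about the limit function used in the topological step. -/
structure FinalFacts (p L K C s₀ ε₀ : ℝ) (F : ℝ → ℝ → ℝ) : Prop where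
  nonneg : ∀ b h, 0 < b → 0 ≤ F b h
  mono : ∀ b, 0 < b → Monotone (F b)
  conv : ConvexOn ℝ {x : ℝ × ℝ | 0 < x.1} (fun x => F x.1 x.2)
  low1 : ∀ b h, 1 / L ≤ b → b ≤ 2 / p → |h| ≤ K * (1 + L / p) + K + 2 →
    h * ((1 - ε₀) * p) + b * K * ((1 - ε₀) * p) ^ 2 / 2 - C - 1 ≤ F b h
  low2 : ∀ b h, 1 / L ≤ b → b ≤ 2 / p → |h| ≤ K * (1 + L / p) + K + 2 →
    2 * ((1 - ε₀) * p) * h + 2 * b * K * ((1 - ε₀) * p) ^ 2 - K * ((1 - ε₀) * p) - C - 1 ≤ F b h
  left : ∀ b, 1 / L ≤ b → b ≤ 2 / p → F b (-(K * (L / p))) ≤ 2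
  corner : F (1 / L) (K * (-(p / (2 * L)) + s₀)) ≤ K * (s₀ * p) + 2 * L + 2

/-- upper edge of the region -/
noncomputable def Ued (p K s₀ b : ℝ) : ℝ := -(K * b * p / 2) + K * s₀ / 2

lemma K_facts (P : Params p L M K C s s₀ ν ε₀) : 8192 ≤ K * s₀ ∧ 1024 ≤ K ∧
    1024 * (C + 4 * L + 8) ≤ K * (p * s₀) ∧ 0 < K ∧ 0 < L ∧ 0 < p := by
  have hK : 0 < K := by linarith [P.K1]
  have hL : 0 < L := by linarith [P.L3]
  have hp := P.p_pos
  have h5 := P.K5
  have hC := P.C0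
  have hLp := P.L_ge
  have hs := P.s0_pos
  have h6 : 8192 * p ≤ (K * s₀) * p := by nlinarith
  have h7 : 8192 ≤ K * s₀ := le_of_mul_le_mul_right h6 hp
  have h8 : K * s₀ ≤ K * 1 := mul_le_mul_of_nonneg_left (by linarith [P.s0_le1]) hK.le
  exact ⟨h7, by linarith, h5, hK, hL, hp⟩

lemma Ued_bounds (P : Params p L M K C s s₀ ν ε₀) {b : ℝ} (hb1 : 1 / L ≤ b) (hb2 : b ≤ 2 / p) :
    -K ≤ Ued p K s₀ b ∧ Ued p K s₀ b ≤ K * s₀ / 2 := by
  obtain ⟨h1, h2, h3, hK, hL, hp⟩ := K_facts P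
  have hb : 0 < b := lt_of_lt_of_le (by positivity) hb1
  have hbp : b * p ≤ 2 := by rwa [le_div_iff₀ hp] at hb2
  unfold Ued
  constructor
  · have h4 : K * (b * p) ≤ K * 2 := mul_le_mul_of_nonneg_left hbp hK.le
    have h5 : K * b * p / 2 = K * (b * p) / 2 := by ring
    rw [h5]
    linarith
  · have : 0 ≤ K * b * p / 2 := by positivity
    linarith

lemma final_U_low (P : Params p L M K C s s₀ ν ε₀) {F : ℝ → ℝ → ℝ}
    (FF : FinalFacts p L K C s₀ ε₀ F) {b : ℝ} (hb1 : 1 / L ≤ b) (hb2 : b ≤ 2 / p) :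
    6 / 25 * (K * (p * s₀)) - C - 1 ≤ F b (Ued p K s₀ b) := by
  obtain ⟨h1, h2, h3, hK, hL, hp⟩ := K_facts P
  obtain ⟨q1, q2, q3, q4⟩ := q_facts P
  obtain ⟨u1, u2⟩ := Ued_bounds P hb1 hb2
  have hs0 := P.s0_pos
  have hs01 := P.s0_le1
  have hKL : 0 < K * (1 + L / p) := by positivity
  have habs : |Ued p K s₀ b| ≤ K * (1 + L / p) + K + 2 := by
    rw [abs_le]
    have h4 : K * s₀ ≤ K * (1 / 64) := mul_le_mul_of_nonneg_left hs01 hK.le
    constructor <;> linarith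
  have h4 := FF.low1 b _ hb1 hb2 habs
  refine le_trans ?_ h4
  have hbp : b * p ≤ 2 := by rwa [le_div_iff₀ hp] at hb2
  set q := (1 - ε₀) * p with hq
  have hpq : p - q = ε₀ * p := by rw [hq]; ring
  have hqpos : 0 < q := by linarith
  have h5 : Ued p K s₀ b * q + b * K * q ^ 2 / 2 = K * q * (s₀ / 2) - K * q * (ε₀ * (b * p)) / 2 := by
    have : Ued p K s₀ b * q + b * K * q ^ 2 / 2 = K * q * (s₀ / 2) - K * q * (b * (p - q)) / 2 := by
      unfold Ued; ring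
    rw [this, hpq]; ring
  have h6 : K * q * (ε₀ * (b * p)) ≤ K * q * (s₀ / 32) := by
    apply mul_le_mul_of_nonneg_left _ (by positivity)
    have h7 : ε₀ * (b * p) ≤ ε₀ * 2 := mul_le_mul_of_nonneg_left hbp P.ε_pos.le
    have h8 := P.ε_s0
    linarith
  have h7 : K * s₀ * (p * (1 - 1 / 4096)) ≤ K * s₀ * q := by
    apply mul_le_mul_of_nonneg_left _ (by positivity)
    rw [hq]
    nlinarith
  have h8 : 0 < K * s₀ * p := by positivity
  linarith

lemma final_D0 (P : Params p L M K C s s₀ ν ε₀) {F : ℝ → ℝ → ℝ}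
    (FF : FinalFacts p L K C s₀ ε₀ F) {b e r : ℝ} (hb1 : 1 / L ≤ b) (hb2 : b ≤ 2 / p)
    (hs : Sub F b (-(K * (1 + L / p))) e r) : r < p / 2 := by
  obtain ⟨h1, h2, h3, hK, hL, hp⟩ := K_facts P
  by_contra hcon
  push Not at hcon
  have hb : 0 < b := lt_of_lt_of_le (by positivity) hb1
  have h4 := hs b (-(K * (L / p))) hb
  have h5 := FF.left b hb1 hb2
  have h6 := FF.nonneg b (-(K * (1 + L / p))) hb
  have h7 : -(K * (L / p)) - -(K * (1 + L / p)) = K := by ring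
  rw [h7] at h4
  have h8 : p / 2 * K ≤ r * K := mul_le_mul_of_nonneg_right hcon hK.le
  have h9 := P.K4
  linarith

lemma final_D1 (P : Params p L M K C s s₀ ν ε₀) {F : ℝ → ℝ → ℝ}
    (FF : FinalFacts p L K C s₀ ε₀ F) {b e r : ℝ} (hb1 : 1 / L ≤ b) (hb2 : b ≤ 2 / p)
    (hs : Sub F b (Ued p K s₀ b) e r) : 2 * s < r := by
  obtain ⟨h1, h2, h3, hK, hL, hp⟩ := K_facts P
  by_contra hcon
  push Not at hcon
  have hb : 0 < b := lt_of_lt_of_le (by positivity) hb1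
  have h4 := hs b (-(K * (L / p))) hb
  have h5 := FF.left b hb1 hb2
  have h6 := final_U_low P FF hb1 hb2
  obtain ⟨u1, u2⟩ := Ued_bounds P hb1 hb2
  have hs0 := P.s0_pos
  have hs01 := P.s0_le1
  have hLp : 1 ≤ L / p := by
    rw [le_div_iff₀ hp]
    linarith [P.L_ge]
  have hKLp : K ≤ K * (L / p) := by nlinarith
  have h7 : 0 ≤ Ued p K s₀ b + K * (L / p) := by linarith
  have h8 : Ued p K s₀ b + K * (L / p) ≤ K * ((p + L) / p) := by
    have h9 : K * ((p + L) / p) = K + K * (L / p) := by field_simp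
    rw [h9]
    have h10 : K * s₀ ≤ K * (1 / 64) := mul_le_mul_of_nonneg_left hs01 hK.le
    linarith
  have h9 : r * (Ued p K s₀ b + K * (L / p)) ≤ K * (p * s₀) / 16 := by
    have h10 : r * (Ued p K s₀ b + K * (L / p)) ≤ (2 * s) * (Ued p K s₀ b + K * (L / p)) :=
      mul_le_mul_of_nonneg_right hcon h7
    have h11 : (2 * s) * (Ued p K s₀ b + K * (L / p)) ≤ (2 * s) * (K * ((p + L) / p)) :=
      mul_le_mul_of_nonneg_left h8 (by linarith [P.s_pos])
    have h12 : (2 * s) * (K * ((p + L) / p)) ≤ K * (p * s₀) / 16 := by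
      have h13 := P.s_le
      have h14 : (2 * s) * (K * ((p + L) / p)) = K * (32 * (p + L) * s) / (16 * p) := by
        field_simp; ring
      rw [h14, div_le_iff₀ (by positivity)]
      have h15 : K * (32 * (p + L) * s) ≤ K * (p * (p * s₀)) := mul_le_mul_of_nonneg_left h13 hK.le
      linarith
    linarith
  have h10 : r * (-(K * (L / p)) - Ued p K s₀ b) = - (r * (Ued p K s₀ b + K * (L / p))) := by ring
  rw [h10] at h4
  have hC := P.C0
  linarith

lemma final_D2 (P : Params p L M K C s s₀ ν ε₀) {F : ℝ → ℝ → ℝ}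
    (FF : FinalFacts p L K C s₀ ε₀ F) {e r : ℝ}
    (hs : Sub F (1 / L) (Ued p K s₀ (1 / L)) e r) : r < 2 * p - 2 * s := by
  obtain ⟨h1, h2, h3, hK, hL, hp⟩ := K_facts P
  by_contra hcon
  push Not at hcon
  have hb : 0 < 1 / L := by positivity
  have hb2 : 1 / L ≤ 2 / p := by
    rw [div_le_div_iff₀ hL hp]
    linarith [P.L_ge]
  have h4 := hs (1 / L) (K * (-(p / (2 * L)) + s₀)) hb
  have h5 := FF.corner
  have h6 := final_U_low P FF le_rfl hb2
  have h7 : K * (-(p / (2 * L)) + s₀) - Ued p K s₀ (1 / L) = K * s₀ / 2 := by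
    unfold Ued
    field_simp
    ring
  rw [h7] at h4
  have h8 : (2 * p - 2 * s) * (K * s₀ / 2) ≤ r * (K * s₀ / 2) :=
    mul_le_mul_of_nonneg_right hcon (by linarith)
  have h9 : s * (K * s₀) ≤ p / 1024 * (K * s₀) := by
    apply mul_le_mul_of_nonneg_right _ (by linarith)
    linarith [P.s_le']
  have hC := P.C0
  linarith

lemma final_D3 (P : Params p L M K C s s₀ ν ε₀) {F : ℝ → ℝ → ℝ}
    (FF : FinalFacts p L K C s₀ ε₀ F) {h e r x : ℝ} (hh1 : -(K * (1 + L / p)) ≤ h)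
    (hh2 : h ≤ Ued p K s₀ (2 / p)) (hx : x ≤ p / 2)
    (hr1 : p - 2 * s ≤ r) (hr2 : r ≤ p + 2 * s) (he : e ≤ K * p ^ 2 / 2 + K * ν + x) :
    ¬ Sub F (2 / p) h e r := by
  intro hs
  obtain ⟨h1, h2, h3, hK, hL, hp⟩ := K_facts P
  obtain ⟨q1, q2, q3, q4⟩ := q_facts P
  have hb2 : 1 / L ≤ 2 / p := by
    rw [div_le_div_iff₀ hL hp]
    linarith [P.L_ge]
  have hC := P.C0
  have hs0 := P.s0_pos
  have hspos := P.s_pos
  have hs01 := P.s0_le1
  obtain ⟨u1, u2⟩ := Ued_bounds P hb2 le_rfl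
  have hKs0 : K * s₀ ≤ K * (1 / 64) := mul_le_mul_of_nonneg_left hs01 hK.le
  -- upper bound for F (2/p) h
  set h'' := K * (-(p / (2 * L)) + s₀) with hh''
  have h4 := hs (1 / L) h'' (by positivity)
  have h5 := FF.corner
  rw [← hh''] at h5
  have h6 : e * (2 / p - 1 / L) ≤ K * p - K * p ^ 2 / (2 * L) + K * p / 16 + 1 := by
    have h7 : 0 ≤ 2 / p - 1 / L := by linarith
    have h8 : e * (2 / p - 1 / L) ≤ (K * p ^ 2 / 2 + K * ν + p / 2) * (2 / p - 1 / L) :=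
      mul_le_mul_of_nonneg_right (by linarith) h7
    have h9 : (K * p ^ 2 / 2 + K * ν + p / 2) * (2 / p - 1 / L) =
      K * p - K * p ^ 2 / (2 * L) + K * p / 16 + 1 - (K * ν + p / 2) * (1 / L) := by
      rw [P.ν_eq]
      field_simp
      ring
    have h10 : 0 ≤ (K * ν + p / 2) * (1 / L) := by
      rw [P.ν_eq]
      positivity
    linarith
  have hpL : K * (p / (2 * L)) ≤ K := by
    have : p / (2 * L) ≤ 1 := by
      rw [div_le_one (by positivity)]
      linarith [P.L_ge]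
    nlinarith
  have h7 : r * (h - h'') ≤ p * h + K * p ^ 2 / (2 * L) - K * (s₀ * p) + K * (p * s₀) / 8 := by
    have h8 : r * (h - h'') = p * (h - h'') + (r - p) * (h - h'') := by ring
    have h9 : p * (h - h'') = p * h + K * p ^ 2 / (2 * L) - K * (s₀ * p) := by
      rw [hh'']
      field_simp
      ring
    have h10 : (r - p) * (h - h'') ≤ K * (p * s₀) / 8 := by
      have h11 : |h - h''| ≤ 2 * (K * (1 + L / p)) := by
        rw [abs_le, hh'']
        have h12 : K ≤ K * (1 + L / p) := by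
          have : 0 < L / p := by positivity
          nlinarith
        have h13 : 0 ≤ K * (p / (2 * L)) := by positivity
        constructor <;> nlinarith
      have h12 : |r - p| ≤ 2 * s := by rw [abs_le]; constructor <;> linarith
      calc (r - p) * (h - h'') ≤ |(r - p) * (h - h'')| := le_abs_self _
        _ = |r - p| * |h - h''| := abs_mul _ _
        _ ≤ (2 * s) * (2 * (K * (1 + L / p))) :=
            mul_le_mul h12 h11 (abs_nonneg _) (by positivity)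
        _ ≤ K * (p * s₀) / 8 := by
            have h13 := P.s_le
            have h14 : (2 * s) * (2 * (K * (1 + L / p))) = K * (32 * (p + L) * s) / (8 * p) := by
              field_simp; ring
            rw [h14, div_le_iff₀ (by positivity)]
            have h15 : K * (32 * (p + L) * s) ≤ K * (p * (p * s₀)) := mul_le_mul_of_nonneg_left h13 hK.le
            linarith
    linarith
  have h8 : F (2 / p) h ≤ K * p + p * h + K * p / 16 + K * (p * s₀) / 8 + 2 * L + 3 := by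
    have h9 : e * (1 / L - 2 / p) = - (e * (2 / p - 1 / L)) := by ring
    have h10 : r * (h'' - h) = - (r * (h - h'')) := by ring
    rw [h9, h10] at h4
    linarith
  have h9 : K * (p * s₀) ≤ K * p / 64 := by
    have := mul_le_mul_of_nonneg_left hs01 (show 0 ≤ K * p by positivity)
    linarith
  have h10 : F (2 / p) h ≤ K * p + p * h + K * p / 8 := by linarith
  have h11 := FF.nonneg (2 / p) h (by positivity)
  have hneg : h ≤ 0 := by
    have h12 : Ued p K s₀ (2 / p) = -K + K * s₀ / 2 := by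
      unfold Ued
      field_simp
    rw [h12] at hh2
    linarith
  have habs : |h| ≤ K * (1 + L / p) + K + 2 := by
    rw [abs_le]
    have : 0 < K * (1 + L / p) := by positivity
    constructor <;> linarith
  have h12 := FF.low2 (2 / p) h hb2 le_rfl habs
  set q := (1 - ε₀) * p with hq
  have hpq : p - q = ε₀ * p := by rw [hq]; ring
  have h13 : 2 * p * h ≤ 2 * q * h := by nlinarith
  have h14 : 2 * (2 / p) * K * q ^ 2 ≥ 4 * K * p - 8 * (K * (ε₀ * p)) := by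
    have h15 : 2 * (2 / p) * K * q ^ 2 = 4 * K * p - 8 * (K * (ε₀ * p)) + 4 * K * p * ε₀ ^ 2 := by
      rw [hq]
      field_simp
      ring
    have h16 : 0 ≤ 4 * K * p * ε₀ ^ 2 := by positivity
    linarith
  have h15 : K * q ≤ K * p := mul_le_mul_of_nonneg_left q1 hK.le
  have h16 : K * (ε₀ * p) ≤ K * p / 4096 := by
    have := mul_le_mul_of_nonneg_left q3 (show 0 ≤ K * p by positivity)
    linarith
  have h17 : 0 < K * p := by positivity
  linarith

lemma final_strict (P : Params p L M K C s s₀ ν ε₀) {Λ τ : ℝ} (hΛ : 0 ≤ Λ) (hτ0 : 0 ≤ τ)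
    (hτs : τ ≤ s) (hΛτ : Λ * τ ≤ p / 2) {y₀ y₁ y₂ : ℝ × ℝ}
    (h0 : y₀ ∈ cellSet p L K s ν Λ τ 0) (h1 : y₁ ∈ cellSet p L K s ν Λ τ 1)
    (h2 : y₂ ∈ cellSet p L K s ν Λ τ 2) (hr0 : 0 ≤ y₀.2) :
    (y₂.2 - y₀.2) * y₁.1 < (y₂.2 - y₁.2) * y₀.1 + (y₁.2 - y₀.2) * y₂.1 := by
  obtain ⟨k1, k2, k3, hK, hL, hp⟩ := K_facts P
  obtain ⟨a1, a2, a3, a4⟩ := h0
  obtain ⟨b1, b2, b3, b4⟩ := h1
  obtain ⟨c1, c2, c3, c4⟩ := h2
  simp only [cells] at a1 a2 a3 a4 b1 b2 b3 b4 c1 c2 c3 c4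
  have hs' := P.s_le'
  have hs := P.s_pos
  have hK4 := P.K4
  obtain ⟨e₀, r₀⟩ := y₀
  obtain ⟨e₁, r₁⟩ := y₁
  obtain ⟨e₂, r₂⟩ := y₂
  simp only at *
  have hKν : K * ν = K * p ^ 2 / 32 := by rw [P.ν_eq]; ring
  rw [hKν] at a3 a4 b3 b4
  have hX : 512 * p ≤ K * p ^ 2 / 2 := by nlinarith
  set X := K * p ^ 2 with hXdef
  have hXpos : 0 < X := by positivity
  have hx : Λ * τ ≤ X / 1024 * (1 / 2) := by linarith
  have hx0 : 0 ≤ Λ * τ := mul_nonneg hΛ hτ0
  -- bounds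
  have g0 : -(X / 32 + X / 2048) ≤ e₀ := by linarith
  have g1 : e₁ ≤ X / 2 + X / 32 + X / 2048 := by linarith
  have g2 : 5 / 8 * K * p * r₂ - X / 2048 ≤ e₂ := by linarith
  have d1 : 255 / 256 * p ≤ r₁ - r₀ := by linarith
  have d2 : 0 < r₂ - r₁ := by linarith
  have d3 : 0 < r₂ - r₀ := by linarith
  have d4 : p ≤ r₂ := by linarith
  have l1 : (r₂ - r₀) * e₁ ≤ r₂ * (X / 2 + X / 32 + X / 2048) := by
    have t1 : (r₂ - r₀) * e₁ ≤ (r₂ - r₀) * (X / 2 + X / 32 + X / 2048) :=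
      mul_le_mul_of_nonneg_left g1 d3.le
    have t2 : (r₂ - r₀) * (X / 2 + X / 32 + X / 2048) ≤ r₂ * (X / 2 + X / 32 + X / 2048) :=
      mul_le_mul_of_nonneg_right (by linarith) (by positivity)
    linarith
  have l2 : -(r₂ * (X / 32 + X / 2048)) ≤ (r₂ - r₁) * e₀ := by
    have t1 : (r₂ - r₁) * (-(X / 32 + X / 2048)) ≤ (r₂ - r₁) * e₀ :=
      mul_le_mul_of_nonneg_left g0 d2.le
    have t2 : (r₂ - r₁) * (X / 32 + X / 2048) ≤ r₂ * (X / 32 + X / 2048) :=
      mul_le_mul_of_nonneg_right (by linarith) (by positivity)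
    linarith
  have l3 : 255 / 256 * (5 / 8 * (X * r₂)) - r₂ * (X / 1024) ≤ (r₁ - r₀) * e₂ := by
    have t0 : 0 ≤ 5 / 8 * K * p * r₂ - X / 2048 := by
      have : X ≤ K * p * r₂ := by
        rw [hXdef]
        have := mul_le_mul_of_nonneg_left d4 (show 0 ≤ K * p by positivity)
        linarith
      linarith
    have t1 : (255 / 256 * p) * (5 / 8 * K * p * r₂ - X / 2048) ≤ (r₁ - r₀) * e₂ :=
      mul_le_mul d1 g2 t0 (by linarith)
    have t2 : (255 / 256 * p) * (5 / 8 * K * p * r₂ - X / 2048) =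
      255 / 256 * (5 / 8 * (X * r₂)) - 255 / 256 * p * (X / 2048) := by
      rw [hXdef]; ring
    have t3 : p * X ≤ r₂ * X := mul_le_mul_of_nonneg_right d4 hXpos.le
    have t4 : 0 < p * X := by positivity
    linarith
  have l4 : 0 < X * r₂ := by
    have : 0 < r₂ := by linarith
    positivity
  linarith

end

end Crest.Agent.H25Abs
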