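import Mathlib
import Crest.Agent.H25AbsF

set_option autoImplicit false
set_option maxHeartbeats 4000000

open Filter Topology Set
open Crest.Agent.H13AbsSpec

namespace Crest.Agent.H25Abs

theorem exists_params (p D M : ℝ) (hp : 0 < p) (hpD : p ≤ D) (hD : 1 ≤ D) (hM : 4 ≤ M) :
    ∃ s s₀ ε₀ : ℝ, 0 < ε₀ ∧ ε₀ < 1 ∧ ∀ C₁ : ℝ, ∃ K₀ : ℝ, ∀ K : ℝ, K₀ ≤ K →
      Params p (2 * D + 1) M K (max C₁ 0) s s₀ (p ^ 2 / 32) ε₀ := by
  set L := 2 * D + 1 with hL
  have hL3 : 3 ≤ L := by linarith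
  have hL0 : 0 < L := by linarith
  have hLp : 2 * p + 1 ≤ L := by linarith
  set s₀ := p / (1024 * L) with hs₀
  have hs₀pos : 0 < s₀ := by positivity
  have hs₀1 : 1024 * L * s₀ = p := by rw [hs₀]; field_simp
  have hs₀2 : s₀ ≤ 1 / 1024 := by
    rw [hs₀, div_le_div_iff₀ (by positivity) (by norm_num)]
    linarith
  set s := p * (p * s₀) / (32 * (p + L)) with hs
  have hspos : 0 < s := by positivity
  have hs1 : 32 * (p + L) * s = p * (p * s₀) := by rw [hs]; field_simp
  have hs2 : 1024 * s ≤ p := by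
    have h1 : (p + L) * (1024 * s) ≤ (p + L) * p := by
      have h2 : p * s₀ ≤ p * (1 / 1024) := mul_le_mul_of_nonneg_left hs₀2 hp.le
      nlinarith
    exact le_of_mul_le_mul_left h1 (by positivity)
  set ε₀ := min (s / (4 * p)) (min (s ^ 2 / (16 * L * p)) (s₀ / 64)) with hε₀
  have hε1 : ε₀ ≤ s / (4 * p) := min_le_left _ _
  have hε2 : ε₀ ≤ s ^ 2 / (16 * L * p) := (min_le_right _ _).trans (min_le_left _ _)
  have hε3 : ε₀ ≤ s₀ / 64 := (min_le_right _ _).trans (min_le_right _ _)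
  have hεpos : 0 < ε₀ := by
    rw [hε₀]
    refine lt_min (by positivity) (lt_min (by positivity) (by positivity))
  rw [le_div_iff₀ (by positivity)] at hε1 hε2
  refine ⟨s, s₀, ε₀, hεpos, by linarith, ?_⟩
  intro C₁
  set C := max C₁ 0 with hC
  have hC0 : 0 ≤ C := le_max_right _ _
  refine ⟨2 + 16 * L * (2 + 4 * p + C) / s ^ 2 + 1024 * L / p ^ 2 + 1024 * (p + 1) / p +
    1024 * (C + 4 * L + 8) / (p * s₀), ?_⟩
  intro K hK
  have t1 : 0 < 16 * L * (2 + 4 * p + C) / s ^ 2 := by positivity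
  have t2 : 0 < 1024 * L / p ^ 2 := by positivity
  have t3 : 0 < 1024 * (p + 1) / p := by positivity
  have t4 : 0 < 1024 * (C + 4 * L + 8) / (p * s₀) := by positivity
  refine ⟨hp, hLp, hL3, hM, hC0, hspos, hs₀pos, hεpos, hs₀1.le, hs1.le, hs2, rfl, by linarith,
    by linarith, by linarith, by linarith, by linarith, ?_, ?_, ?_, ?_⟩
  · have : 16 * L * (2 + 4 * p + C) / s ^ 2 ≤ K := by linarith
    rwa [div_le_iff₀ (by positivity)] at this
  · have : 1024 * L / p ^ 2 ≤ K := by linarith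
    rwa [div_le_iff₀ (by positivity)] at this
  · have : 1024 * (p + 1) / p ≤ K := by linarith
    rwa [div_le_iff₀ (by positivity)] at this
  · have : 1024 * (C + 4 * L + 8) / (p * s₀) ≤ K := by linarith
    rwa [div_le_iff₀ (by positivity)] at this

section
variable {p L M K C s s₀ ν ε₀ : ℝ}

/-- convexity passes to pointwise limits -/
lemma conv_lim {g : ℕ → ℝ → ℝ → ℝ} {F : ℝ → ℝ → ℝ}
    (hg : ∀ j, ConvexOn ℝ {x : ℝ × ℝ | 0 < x.1} (fun x => g j x.1 x.2))
    (hlim : ∀ b h, 0 < b → Tendsto (fun j => g j b h) atTop (𝓝 (F b h))) :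
    ConvexOn ℝ {x : ℝ × ℝ | 0 < x.1} (fun x => F x.1 x.2) := by
  refine ⟨(hg 0).1, ?_⟩
  intro x hx y hy α β hα hβ hαβ
  have hxy := (hg 0).1 hx hy hα hβ hαβ
  have h1 := hlim _ (α • x + β • y).2 hxy
  have h2 := ((hlim _ x.2 hx).const_mul α).add ((hlim _ y.2 hy).const_mul β)
  refine le_of_tendsto_of_tendsto' h1 h2 (fun j => ?_)
  exact (hg j).2 hx hy hα hβ hαβ

lemma geom_bound {u : ℕ → ℝ} {c : ℝ} (hc : 0 ≤ c) (hu : ∀ j, |u (j + 2) - u (j + 1)| ≤ c / 2 ^ (j + 1)) :
    ∀ n, |u (n + 1) - u 1| ≤ c := by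
  have key : ∀ n, |u (n + 1) - u 1| ≤ c * (1 - 1 / 2 ^ n) := by
    intro n
    induction n with
    | zero => simp
    | succ n ih =>
      have h1 : u (n + 1 + 1) - u 1 = (u (n + 2) - u (n + 1)) + (u (n + 1) - u 1) := by ring
      rw [h1]
      refine (abs_add_le _ _).trans ?_
      have h2 := hu n
      have h3 : c * (1 - 1 / 2 ^ (n + 1)) = c / 2 ^ (n + 1) + c * (1 - 1 / 2 ^ n) := by
        rw [pow_succ]
        field_simp
        ring
      rw [h3]
      linarith
  intro n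
  refine (key n).trans ?_
  have : 0 ≤ c * (1 / 2 ^ n) := by positivity
  linarith

/-- `AbstractKink` with location information for the slopes `r₀`, `r₂`. -/
def AbstractKink' : Prop :=
  ∀ p D M : ℝ, 0 < p → p ≤ D → 1 ≤ D → 4 ≤ M →
    ∃ ε₀ : ℝ, 0 < ε₀ ∧ ε₀ < 1 ∧
      ∀ C₁ : ℝ, ∃ K₀ : ℝ, ∀ K : ℝ, K₀ ≤ K →
        ∃ β₁ β₂ H δ : ℝ, 0 < β₁ ∧ β₁ < β₂ ∧ 0 < H ∧ 0 < δ ∧
          ∀ (a ε : ℕ → ℝ) (g : ℕ → ℝ → ℝ → ℝ) (ginf : ℝ → ℝ → ℝ),
            a 0 = K →
            (∀ j, 0 < a j) → (∀ j, 0 ≤ ε j) →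
            (∀ j, a (j + 1) ≤ δ / 2 ^ j) →
            (∀ j, ε j ≤ a (j + 1) * (δ / 2 ^ j) ^ 4) →
            (∀ j, Bnd (D * M * K) (M * K) (g j)) →
            Base p ((1 - ε₀) * p) K C₁ (1 / (4 * (2 * D + 1))) (g 0) →
            (∀ j, ∀ b h : ℝ, β₁ ≤ b → b ≤ β₂ → |h| ≤ H →
              |g (j + 1) b h - supConv (a j) (g j) b h| ≤ ε j) →
            (∀ b h : ℝ, 0 < b → Filter.Tendsto (fun j => g j b h) Filter.atTop (nhds (ginf b h))) →
            ∃ bc hc r₀ r₁ r₂ e₀ e₁ e₂ : ℝ, β₁ ≤ bc ∧ bc ≤ β₂ ∧ |hc| ≤ H ∧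
              1 / (2 * D + 1) ≤ bc ∧ bc ≤ 2 / p ∧ 0 < bc ∧ 0 ≤ r₀ ∧ r₀ < r₁ ∧ r₁ < r₂ ∧
              Sub ginf bc hc e₀ r₀ ∧ Sub ginf bc hc e₁ r₁ ∧ Sub ginf bc hc e₂ r₂ ∧
              (r₂ - r₀) * e₁ < (r₂ - r₁) * e₀ + (r₁ - r₀) * e₂ ∧
              r₀ ≤ p / 512 ∧ |r₁ - p| ≤ p / 512 ∧ 2 * p - p / 512 ≤ r₂ ∧ r₂ ≤ 2 * D + 2 ∧
              r₀ < 5 * p / 3 ∧ 5 * p / 3 < r₂

theorem abstractKink' : AbstractKink' := by
  intro p D M hp hpD hD hM
  obtain ⟨s, s₀, ε₀, hε₀, hε₀1, hpar⟩ := exists_params p D M hp hpD hD hM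
  refine ⟨ε₀, hε₀, hε₀1, ?_⟩
  intro C₁
  obtain ⟨K₀, hK₀⟩ := hpar C₁
  refine ⟨K₀, ?_⟩
  intro K hKK
  have P := hK₀ K hKK
  set L := 2 * D + 1 with hLdef
  set C := max C₁ 0 with hCdef
  have hCC : C₁ ≤ C := le_max_left _ _
  obtain ⟨kf1, kf2, kf3, hK, hL, _⟩ := K_facts P
  have hM0 : 0 < M := by linarith
  have hκ : 4 * K ≤ M * K := mul_le_mul_of_nonneg_right hM hK.le
  have hκpos : 0 < M * K := by positivity
  set β₁ := 1 / (2 * L) with hβ₁
  set β₂ := 5 / (2 * p) with hβ₂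
  set H := K * (1 + L / p) + K + 2 with hH
  have hβ₁pos : 0 < β₁ := by positivity
  have hβ₂pos : 0 < β₂ := by positivity
  have hβ12 : β₁ < β₂ := by
    rw [hβ₁, hβ₂, div_lt_div_iff₀ (by positivity) (by positivity)]
    linarith [P.L_ge]
  have hHpos : 0 < H := by positivity
  have hB : 0 ≤ D * M * K := by positivity
  obtain ⟨G, hG1, hG⟩ := exists_G (B := D * M * K) (κ := M * K) (β₁ := β₁) (β₂ := β₂) (H := H)
    hB hκpos hβ₁pos hβ12.le hHpos.le
  set Λ := K * p + 1 with hΛ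
  have hΛpos : 0 < Λ := by positivity
  set St := stepC p L K Λ G with hSt
  have hStpos : 0 < St := by
    rw [hSt]; unfold stepC
    have : 0 < G := by linarith
    positivity
  set τ := min s (min 1 (min (1 / (2 * L)) (min (1 / (2 * p)) (p / (2 * Λ))))) with hτ
  have hτs : τ ≤ s := min_le_left _ _
  have hτ1 : τ ≤ 1 := (min_le_right _ _).trans (min_le_left _ _)
  have hτL : τ ≤ 1 / (2 * L) :=
    (min_le_right _ _).trans ((min_le_right _ _).trans (min_le_left _ _))
  have hτp : τ ≤ 1 / (2 * p) :=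
    (min_le_right _ _).trans ((min_le_right _ _).trans ((min_le_right _ _).trans (min_le_left _ _)))
  have hτΛ : τ ≤ p / (2 * Λ) :=
    (min_le_right _ _).trans ((min_le_right _ _).trans ((min_le_right _ _).trans (min_le_right _ _)))
  have hspos := P.s_pos
  have hτpos : 0 < τ := by
    rw [hτ]
    refine lt_min hspos (lt_min one_pos (lt_min (by positivity) (lt_min (by positivity) (by positivity))))
  have hΛτ : Λ * τ ≤ p / 2 := by
    rw [le_div_iff₀ (by positivity)] at hτΛ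
    linarith
  set δ := min (τ / (2 * St)) (min 1 (1 / (2 + β₂ * G ^ 2))) with hδ
  have hδ1 : δ ≤ τ / (2 * St) := min_le_left _ _
  have hδ2 : δ ≤ 1 := (min_le_right _ _).trans (min_le_left _ _)
  have hδ3 : δ ≤ 1 / (2 + β₂ * G ^ 2) := (min_le_right _ _).trans (min_le_right _ _)
  have hδpos : 0 < δ := by
    rw [hδ]
    exact lt_min (by positivity) (lt_min one_pos (by positivity))
  rw [le_div_iff₀ (by positivity)] at hδ1 hδ3
  refine ⟨β₁, β₂, H, δ, hβ₁pos, hβ12, hHpos, hδpos, ?_⟩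
  intro a ε g F ha0 hapos hεnn haδ hεδ hBnd hBase hclose hlim
  have hpow : ∀ j : ℕ, (0 : ℝ) < 2 ^ j := fun j => by positivity
  have hpow1 : ∀ j : ℕ, (1 : ℝ) ≤ 2 ^ j := fun j => one_le_pow₀ (by norm_num)
  have hθle : ∀ j : ℕ, δ / 2 ^ j ≤ δ := fun j => div_le_self hδpos.le (hpow1 j)
  have ha1 : ∀ j, a (j + 1) ≤ 1 := fun j => (haδ j).trans ((hθle j).trans hδ2)
  have haκ : ∀ j, 4 * a j ≤ M * K := by
    intro j
    cases j with
    | zero => rw [ha0]; exact hκ
    | succ j =>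
      have := ha1 j
      linarith
  set f : ℕ → ℝ → ℝ → ℝ := fun j => supConv (a j) (g j) with hf
  have hHle : ∀ b h : ℝ, β₁ ≤ b → b ≤ β₂ → |h| ≤ H → 0 < b := fun b _ hb _ _ =>
    lt_of_lt_of_le hβ₁pos hb
  -- region membership consequences
  have hLL : 1 / L = 2 * β₁ := by rw [hβ₁]; field_simp
  have hpp : 2 / p = 4 / 5 * β₂ := by rw [hβ₂]; field_simp; norm_num
  have hpp' : 1 / (2 * p) = 1 / 5 * β₂ := by rw [hβ₂]; field_simp
  have hβ₂p : β₂ * p = 5 / 2 := by rw [hβ₂]; field_simp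
  -- induction
  have Q : ∀ i : ℕ, ∀ b h, Reg p L K s₀ (τ / 2 ^ i) b h → ∃ k : Fin 3, ∃ e r : ℝ,
      InCell (cells p L K s (p ^ 2 / 32) k) Λ (τ - τ / 2 ^ i) e r ∧ Sub (f i) b h e r := by
    intro i
    induction i with
    | zero =>
      intro b h hR
      obtain ⟨R1, R2, R3, R4⟩ := hR
      simp only [pow_zero, div_one] at R1 R2 R3 R4 ⊢
      rw [sub_self]
      have hb1 : β₁ ≤ b := by
        rw [hLL] at R1
        linarith
      have hb2 : b ≤ β₂ := by
        rw [hpp] at R2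
        rw [hpp'] at hτp
        linarith
      have hb2' : b * p ≤ 5 / 2 := by
        rw [← hβ₂p]
        exact mul_le_mul_of_nonneg_right hb2 hp.le
      have := base_cover P (D := D) (C₁ := C₁) rfl hCC (hBnd 0) hBase (b := b) (h := h) hb1 hb2'
        (by linarith) Λ
      simp only [hf, ha0]
      exact this
    | succ i ih =>
      have h2i := hpow i
      have hτi : τ / 2 ^ i ≤ τ := div_le_self hτpos.le (hpow1 i)
      have hτi1 : τ / 2 ^ (i + 1) ≤ τ := div_le_self hτpos.le (hpow1 (i + 1))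
      have hdiff : τ / 2 ^ i - τ / 2 ^ (i + 1) = τ / (2 * 2 ^ i) := by
        rw [pow_succ]
        field_simp
        ring
      have hstep : St * (δ / 2 ^ i) ≤ τ / (2 * 2 ^ i) := by
        rw [mul_div_assoc', div_le_div_iff₀ h2i (by positivity)]
        nlinarith
      have hdiff' : (τ - τ / 2 ^ (i + 1)) - (τ - τ / 2 ^ i) = τ / (2 * 2 ^ i) := by
        rw [← hdiff]; ring
      have hpos1 : 0 < τ / 2 ^ (i + 1) := by positivity
      refine step_cells P (D := D) (Λ := Λ) (G := G) (a := a (i + 1)) (ε := ε i) (θ := δ / 2 ^ i)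
        (τ₁ := τ / 2 ^ i) (τ₂ := τ / 2 ^ (i + 1)) (η₁ := τ - τ / 2 ^ i)
        (η₂ := τ - τ / 2 ^ (i + 1)) (f := f i) (g := g (i + 1)) (hBnd (i + 1)) (hapos _) (haδ i)
        ((hθle i).trans hδ2) (hεδ i) (haκ (i + 1)) hΛ hG1 (hG (g (i + 1)) (hBnd (i + 1))) ?_ ?_ ?_
        hpos1.le (hτi.trans hτ1) (hτi.trans hτL) (hτi.trans hτp) (by linarith) (by linarith)
        (by linarith) ih
      · intro b h hb1 hb2 hh
        exact hclose i b h hb1 hb2 hh
      · rw [hdiff]; exact hstep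
      · rw [hdiff']; exact hstep
  -- closeness of f j and g j
  have hfg : ∀ j b h, 0 < b → g j b h ≤ f j b h := fun j b h hb =>
    supConv_ge (hBnd j) (hapos j) (haκ j) hb h
  -- limit of f
  have hlimf : ∀ b h, 0 < b → Tendsto (fun j => f j b h) atTop (𝓝 (F b h)) := by
    intro b h hb
    obtain ⟨G', hG'1, hG'⟩ := exists_G (B := D * M * K) (κ := M * K) (β₁ := b) (β₂ := b)
      (H := |h|) hB hκpos hb le_rfl (abs_nonneg h)
    rw [← tendsto_add_atTop_iff_nat 1]
    have hg1 : Tendsto (fun j => g (j + 1) b h) atTop (𝓝 (F b h)) :=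
      (hlim b h hb).comp (tendsto_add_atTop_nat 1)
    have hatend : Tendsto (fun j => a (j + 1)) atTop (𝓝 0) := by
      apply squeeze_zero (fun j => (hapos (j + 1)).le) haδ
      have h1 : Tendsto (fun j : ℕ => δ * (1 / 2 : ℝ) ^ j) atTop (𝓝 (δ * 0)) :=
        (tendsto_pow_atTop_nhds_zero_of_lt_one (by norm_num) (by norm_num)).const_mul δ
      rw [mul_zero] at h1
      refine h1.congr (fun j => ?_)
      rw [one_div, inv_pow]
      rfl
    have hg2 : Tendsto (fun j => g (j + 1) b h + b * G' ^ 2 * a (j + 1) / 2) atTop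
        (𝓝 (F b h + b * G' ^ 2 * 0 / 2)) :=
      hg1.add ((hatend.const_mul _).div_const 2)
    rw [mul_zero, zero_div, add_zero] at hg2
    apply tendsto_of_tendsto_of_tendsto_of_le_of_le hg1 hg2
    · intro j
      exact hfg (j + 1) b h hb
    · intro j
      exact supConv_le_add (hBnd (j + 1)) (hapos _) (haκ _) hb le_rfl (fun e r m =>
        hG' (g (j + 1)) (hBnd (j + 1)) (a (j + 1)) b h e r (hapos _) (ha1 j) (haκ _) le_rfl le_rfl
          le_rfl m)
  -- cover for the limit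
  have cover : ∀ b h, Reg p L K s₀ 0 b h → ∃ k : Fin 3, ∃ e r : ℝ,
      InCell (cells p L K s (p ^ 2 / 32) k) Λ τ e r ∧ Sub F b h e r := by
    intro b h hR
    have hb : 0 < b := by
      obtain ⟨R1, _, _, _⟩ := hR
      rw [hLL] at R1
      linarith
    apply limit_cells P hΛpos.le hτpos.le hτ1 hτs hlimf hb
    intro j
    have hpj : 0 < τ / 2 ^ j := by
      have := hpow j
      positivity
    obtain ⟨k, e, r, hc, hs⟩ := Q j b h (by
      obtain ⟨R1, R2, R3, R4⟩ := hR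
      refine ⟨by linarith, by linarith, by linarith, by linarith⟩)
    exact ⟨k, e, r, hc.mono hΛpos.le (by linarith), hs⟩
  -- closeness of F and f 0
  have hF0 : ∀ b h : ℝ, β₁ ≤ b → b ≤ β₂ → |h| ≤ H → |F b h - f 0 b h| ≤ 1 := by
    intro b h hb1 hb2 hh
    have hb := hHle b h hb1 hb2 hh
    have hε1 : ∀ j, ε j ≤ δ / 2 ^ j := by
      intro j
      refine (hεδ j).trans ?_
      have h1 := ha1 j
      have h2 : 0 < δ / 2 ^ j := by
        have := hpow j
        positivity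
      have h3 : δ / 2 ^ j ≤ 1 := (hθle j).trans hδ2
      have h4 : (δ / 2 ^ j) ^ 4 ≤ δ / 2 ^ j := by
        calc (δ / 2 ^ j) ^ 4 ≤ (δ / 2 ^ j) ^ 1 := pow_le_pow_of_le_one h2.le h3 (by norm_num)
          _ = δ / 2 ^ j := pow_one _
      have h5 : a (j + 1) * (δ / 2 ^ j) ^ 4 ≤ 1 * (δ / 2 ^ j) ^ 4 :=
        mul_le_mul_of_nonneg_right h1 (by positivity)
      linarith
    have hgj : ∀ j, |g (j + 2) b h - g (j + 1) b h| ≤ ((1 + β₂ * G ^ 2) * δ) / 2 ^ (j + 1) := by
      intro j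
      have h1 := abs_le.mp (hclose (j + 1) b h hb1 hb2 hh)
      have h2 := hfg (j + 1) b h hb
      have h3 : f (j + 1) b h ≤ g (j + 1) b h + β₂ * G ^ 2 * a (j + 1) / 2 :=
        supConv_le_add (hBnd (j + 1)) (hapos _) (haκ _) hb hb2 (fun e r m =>
          hG (g (j + 1)) (hBnd (j + 1)) (a (j + 1)) b h e r (hapos _) (ha1 j) (haκ _) hb1 hb2
            hh m)
      have h4 := hε1 (j + 1)
      have h5 := haδ j
      have h6 : δ / 2 ^ j = 2 * (δ / 2 ^ (j + 1)) := by
        rw [pow_succ]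
        field_simp
      have h7 : β₂ * G ^ 2 * a (j + 1) ≤ β₂ * G ^ 2 * (2 * (δ / 2 ^ (j + 1))) := by
        rw [← h6]
        exact mul_le_mul_of_nonneg_left h5 (by positivity)
      have h8 : ((1 + β₂ * G ^ 2) * δ) / 2 ^ (j + 1) =
          δ / 2 ^ (j + 1) + β₂ * G ^ 2 * (δ / 2 ^ (j + 1)) := by ring
      rw [h8]
      have h9 : 0 ≤ β₂ * G ^ 2 * a (j + 1) := by
        have := hapos (j + 1)
        positivity
      simp only [hf] at h2 h3
      have h10 : j + 1 + 1 = j + 2 := rfl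
      rw [h10] at h1
      rw [abs_le]
      constructor <;> linarith
    have hgn := geom_bound (u := fun j => g j b h) (c := (1 + β₂ * G ^ 2) * δ) (by positivity) hgj
    have h01 := hclose 0 b h hb1 hb2 hh
    have hε0 := hε1 0
    simp only [pow_zero, div_one] at hε0
    have hall : ∀ n, |g (n + 1) b h - f 0 b h| ≤ 1 := by
      intro n
      have h1 := hgn n
      have h2 : g (n + 1) b h - f 0 b h = (g (n + 1) b h - g 1 b h) + (g (0 + 1) b h - f 0 b h) := by
        simp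
      rw [h2]
      refine (abs_add_le _ _).trans ?_
      have h3 : |g (0 + 1) b h - f 0 b h| ≤ ε 0 := h01
      have h4 : (1 + β₂ * G ^ 2) * δ + δ ≤ 1 := by linarith
      linarith
    have ht : Tendsto (fun n => |g (n + 1) b h - f 0 b h|) atTop (𝓝 (|F b h - f 0 b h|)) :=
      (((hlim b h hb).comp (tendsto_add_atTop_nat 1)).sub_const _).abs
    exact le_of_tendsto' ht hall
  -- final facts
  have hf0 : f 0 = supConv K (g 0) := by simp only [hf, ha0]
  have hbL : β₁ ≤ 1 / L := by rw [hLL]; linarith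
  have hbp : 2 / p ≤ β₂ := by rw [hpp]; linarith
  have FF : FinalFacts p L K C s₀ ε₀ F := by
    refine ⟨?_, ?_, ?_, ?_, ?_, ?_, ?_⟩
    · intro b h hb
      exact ge_of_tendsto' (hlim b h hb) (fun j => (hBnd j).nonneg b h hb)
    · intro b hb x y hxy
      exact le_of_tendsto_of_tendsto' (hlim b x hb) (hlim b y hb) (fun j => (hBnd j).mono b hb hxy)
    · exact conv_lim (fun j => (hBnd j).conv) hlim
    · intro b h hb1 hb2 hh
      have h1 := abs_le.mp (hF0 b h (hbL.trans hb1) (hb2.trans hbp) hh)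
      rw [hf0] at h1
      have hb : 0 < b := lt_of_lt_of_le (by positivity) hb1
      have h2 := f1_low1 P hCC (hBnd 0) hBase hb h
      linarith
    · intro b h hb1 hb2 hh
      have h1 := abs_le.mp (hF0 b h (hbL.trans hb1) (hb2.trans hbp) hh)
      rw [hf0] at h1
      have hb : 0 < b := lt_of_lt_of_le (by positivity) hb1
      have h2 := f1_low2 P hCC (hBnd 0) hBase hb h
      linarith
    · intro b hb1 hb2
      have hb : 0 < b := lt_of_lt_of_le (by positivity) hb1
      have hbp2 : b * p ≤ 2 := by rwa [le_div_iff₀ hp] at hb2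
      have hKLp : 0 < K * (L / p) := by positivity
      have hh : |(-(K * (L / p)))| ≤ H := by
        rw [abs_neg, abs_of_pos hKLp, hH]
        have : K * (1 + L / p) = K + K * (L / p) := by ring
        rw [this]
        linarith
      have h1 := abs_le.mp (hF0 b _ (hbL.trans hb1) (hb2.trans hbp) hh)
      rw [hf0] at h1
      have hLp1 : 1 ≤ L / p := by
        rw [le_div_iff₀ hp]
        linarith [P.L_ge]
      have h2 := f1_left P (D := D) (C₁ := C₁) rfl hCC (hBnd 0) hBase (b := b)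
        (h := -(K * (L / p))) (hbL.trans hb1) (by linarith) (by
          have h3 : K * b * p / 2 = K * (b * p) / 2 := by ring
          rw [h3]
          have h4 : K * (b * p) ≤ K * 2 := mul_le_mul_of_nonneg_left hbp2 hK.le
          have h5 : K * 1 ≤ K * (L / p) := mul_le_mul_of_nonneg_left hLp1 hK.le
          have h6 : 0 < K * s₀ := by linarith
          linarith) (by
          have h3 : b * (K * L) ≤ (2 / p) * (K * L) := mul_le_mul_of_nonneg_right hb2 (by positivity)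
          have h4 : (2 / p) * (K * L) = 2 * (K * (L / p)) := by ring
          rw [h4] at h3
          linarith)
      linarith
    · have hh : |K * (-(p / (2 * L)) + s₀)| ≤ H := by
        have hpL : p / (2 * L) ≤ 1 := by
          rw [div_le_one (by positivity)]
          linarith [P.L_ge]
        have hpL0 : 0 < p / (2 * L) := by positivity
        have hs01 := P.s0_le1
        have hs00 := P.s0_pos
        have hKLp : 0 < K * (1 + L / p) := by positivity
        have h1 : |(-(p / (2 * L)) + s₀)| ≤ 1 := by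
          rw [abs_le]; constructor <;> linarith
        rw [abs_mul, abs_of_pos hK, hH]
        have : K * |(-(p / (2 * L)) + s₀)| ≤ K * 1 := mul_le_mul_of_nonneg_left h1 hK.le
        linarith
      have hb2 : 1 / L ≤ 2 / p := by
        rw [div_le_div_iff₀ hL hp]
        linarith [P.L_ge]
      have h1 := abs_le.mp (hF0 (1 / L) _ hbL (hb2.trans hbp) hh)
      rw [hf0] at h1
      have h2 := f1_corner P (D := D) (C₁ := C₁) rfl hCC (hBnd 0) hBase
      linarith
  -- topological lemma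
  have hb12 : 1 / L ≤ 2 / p := by
    rw [div_le_div_iff₀ hL hp]
    linarith [P.L_ge]
  have hs1024 := P.s_le'
  have htop := top_lemma (G := F) FF.conv (b₁ := 1 / L) (b₂ := 2 / p) (H₁ := K * (1 + L / p))
    (U := Ued p K s₀) (by positivity) hb12 (by unfold Ued; fun_prop)
    (by
      intro b hb
      have h1 := (Ued_bounds P hb.1 hb.2).1
      have h2 : K * (1 + L / p) = K + K * (L / p) := by ring
      have h3 : 0 < K * (L / p) := by positivity
      rw [h2]; linarith)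
    (N₀ := cellSet p L K s (p ^ 2 / 32) Λ τ 0) (N₁ := cellSet p L K s (p ^ 2 / 32) Λ τ 1)
    (N₂ := cellSet p L K s (p ^ 2 / 32) Λ τ 2)
    (isCompact_cellSet P hΛpos.le hτpos.le hτ1 hτs 0)
    (isCompact_cellSet P hΛpos.le hτpos.le hτ1 hτs 1)
    (isCompact_cellSet P hΛpos.le hτpos.le hτ1 hτs 2)
    (by
      intro y hy z hz
      have h1 := hy.2.1
      have h2 := hz.1
      simp only [cells] at h1 h2
      linarith)
    (by
      intro y hy z hz
      have h1 := hy.2.1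
      have h2 := hz.1
      simp only [cells] at h1 h2
      linarith)
    (by
      intro b h hb hh
      obtain ⟨k, e, r, hc, hs⟩ := cover b h ⟨by linarith [hb.1], by linarith [hb.2], by linarith [hh.1], by
        have := hh.2
        unfold Ued at this
        linarith⟩
      refine ⟨(e, r), ?_, hs⟩
      fin_cases k
      · left; exact hc
      · right; left; exact hc
      · right; right; exact hc)
    (by
      intro b hb y hs
      have h1 := final_D0 P FF hb.1 hb.2 hs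
      constructor
      · intro hy
        have h2 := hy.1
        simp only [cells] at h2
        linarith
      · intro hy
        have h2 := hy.1
        simp only [cells] at h2
        linarith)
    (by
      intro b hb y hs hy
      have h1 := final_D1 P FF hb.1 hb.2 hs
      have h2 := hy.2.1
      simp only [cells] at h2
      linarith)
    (by
      intro y hs hy
      have h1 := final_D2 P FF hs
      have h2 := hy.1
      simp only [cells] at h2
      linarith)
    (by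
      intro h hh y hs hy
      obtain ⟨h1, h2, h3, h4⟩ := hy
      simp only [cells] at h1 h2 h3 h4
      exact final_D3 P FF (x := Λ * τ) hh.1 hh.2 hΛτ (by linarith) (by linarith) (by linarith) hs)
  obtain ⟨bc, hc, hbc, hhc, y₀, hy₀, y₁, hy₁, y₂, hy₂, hs₀, hs₁, hs₂⟩ := htop
  have hbcpos : 0 < bc := lt_of_lt_of_le (by positivity) hbc.1
  have hr0 : 0 ≤ y₀.2 := by
    have h1 := hs₀ bc (hc - 1) hbcpos
    have h2 := FF.mono bc hbcpos (show hc - 1 ≤ hc by linarith)
    linarith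
  obtain ⟨u1, u2⟩ := Ued_bounds P hbc.1 hbc.2
  have g0 := hy₀.2.1
  have g1 := hy₁.1
  have g1' := hy₁.2.1
  have g2 := hy₂.1
  have g2' := hy₂.2.1
  simp only [cells] at g0 g1 g1' g2 g2'
  refine ⟨bc, hc, y₀.2, y₁.2, y₂.2, y₀.1, y₁.1, y₂.1, hbL.trans hbc.1, hbc.2.trans hbp, ?_,
    hbc.1, hbc.2, hbcpos, hr0, by linarith, by linarith, hs₀, hs₁, hs₂, ?_, by linarith, ?_,
    by linarith, by linarith, by linarith, by linarith⟩
  · have hs01 := P.s0_le1
    have hKs0 : K * s₀ ≤ K * (1 / 64) := mul_le_mul_of_nonneg_left hs01 hK.le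
    have hKLp : 0 < K * (1 + L / p) := by positivity
    have := hhc.1
    have := hhc.2
    rw [abs_le, hH]
    constructor <;> linarith
  · exact final_strict P hΛpos.le hτpos.le hτs hΛτ hy₀ hy₁ hy₂ hr0
  · rw [abs_le]; constructor <;> linarith

theorem abstractKink : AbstractKink := by
  intro p D M hp hpD hD hM
  obtain ⟨ε₀, h1, h2, h3⟩ := abstractKink' p D M hp hpD hD hM
  refine ⟨ε₀, h1, h2, ?_⟩
  intro C₁
  obtain ⟨K₀, h4⟩ := h3 C₁
  refine ⟨K₀, ?_⟩
  intro K hK
  obtain ⟨β₁, β₂, H, δ, h5, h6, h7, h8, h9⟩ := h4 K hK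
  refine ⟨β₁, β₂, H, δ, h5, h6, h7, h8, ?_⟩
  intro a ε g ginf i1 i2 i3 i4 i5 i6 i7 i8 i9
  obtain ⟨bc, hc, r₀, r₁, r₂, e₀, e₁, e₂, _, _, _, _, _, j1, j2, j3, j4, j5, j6, j7, j8, _⟩ :=
    h9 a ε g ginf i1 i2 i3 i4 i5 i6 i7 i8 i9
  exact ⟨bc, hc, r₀, r₁, r₂, e₀, e₁, e₂, j1, j2, j3, j4, j5, j6, j7, j8⟩

end

end Crest.Agent.H25Abs
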