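import Mathlib
import Crest.Agent.H13Press
import Crest.Agent.H13AbsSpec
import Crest.Agent.H19Count

/-!
The quadratic upper bound for the grand pressure from superstability.
-/

set_option autoImplicit false

open MeasureTheory Filter Topology
open scoped ENNReal

namespace Crest.Agent.H25Bnd

open Crest.Agent.H13Conf Crest.Agent.H13Energy Crest.Agent.H13Basic Crest.Agent.H13Cube
open Crest.Agent.H19Pair Crest.Agent.H13Super Crest.Agent.H13Press

/-- Cauchy–Schwarz: many particles in a cube force many pairs in the same cell -/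
theorem sq_len_le_Q {L : ℝ} (hL : 0 ≤ L) (l : List Pt) (hl : ∀ y ∈ l, y ∈ cube L) :
    (l.length : ℝ) ^ 2 ≤ (2 * L + 1) ^ 3 * Q l := by
  classical
  set m : ℤ := ⌊2 * L⌋ with hm
  have hm0 : 0 ≤ m := Int.floor_nonneg.2 (by linarith)
  set S : Finset (Fin 3 → ℤ) := Fintype.piFinset (fun _ => Finset.Icc (0 : ℤ) m) with hS
  have hcard : (S.card : ℝ) ≤ (2 * L + 1) ^ 3 := by
    have h1 : S.card = (m + 1).toNat ^ 3 := by
      simp [hS, Fintype.card_piFinset]
    have h2 : (((m + 1).toNat : ℕ) : ℝ) = (m : ℝ) + 1 := by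
      have h3 : (((m + 1).toNat : ℕ) : ℤ) = m + 1 := Int.toNat_of_nonneg (by omega)
      exact_mod_cast h3
    rw [h1]
    push_cast
    rw [h2]
    have h3 : (m : ℝ) ≤ 2 * L := Int.floor_le _
    have h4 : (0 : ℝ) ≤ m := by exact_mod_cast hm0
    exact pow_le_pow_left₀ (by linarith) (by linarith) 3
  have hmem : ∀ x ∈ l, cell x ∈ S := by
    intro x hx
    have hx' := hl x hx
    simp only [hS, Fintype.mem_piFinset, Finset.mem_Icc, cell]
    intro k
    obtain ⟨h0, h1⟩ := hx' k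
    exact ⟨Int.floor_nonneg.mpr (by linarith), Int.floor_le_floor (by linarith)⟩
  have h1 := sum_length_filter cell S l hmem
  have h2 := sum_sq_length_filter cell S l hmem
  have hQ : (l.length : ℝ) + 2 * pairSum (fun x y => if cell x = cell y then 1 else 0) l = Q l := by
    unfold Q
    congr 2
  rw [hQ] at h2
  have h3 := sq_sum_le_card_mul_sum_sq (s := S)
    (f := fun i => ((l.filter fun x => decide (cell x = i)).length : ℝ))
  rw [h1, h2] at h3
  have hQ0 : 0 ≤ Q l := by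
    rw [← h2]
    exact Finset.sum_nonneg fun i _ => sq_nonneg _
  exact h3.trans (mul_le_mul_of_nonneg_right hcard hQ0)

theorem lx_upper {r₀ B κ' : ℝ} {v : ℝ → ℝ} (hv : Pot r₀ B v) (hκ' : 0 < κ')
    (hss : ∀ l, κ' * Q l - B * l.length ≤ E v l) {L : ℝ} (hL : 0 ≤ L) {b : ℝ} (hb : 0 < b)
    (h : ℝ) : lx v L b h ≤ L ^ 3 + (2 * L + 1) ^ 3 * ((max (h + b * B) 0) ^ 2 / (4 * b * κ')) := by
  set x := max (h + b * B) 0 with hx
  set Nc := (2 * L + 1) ^ 3 with hNc
  have hNc0 : 0 < Nc := by positivity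
  apply exp_le_of_ofReal
  rw [ofReal_exp_lx hv hL hb.le]
  have key : ∀ l : List Pt, (∀ y ∈ l, y ∈ cube L) →
      -b * E v l + h * l.length ≤ Nc * (x ^ 2 / (4 * b * κ')) := by
    intro l hl
    have h1 := hss l
    have h2 := sq_len_le_Q hL l hl
    rw [← hNc] at h2
    have hn : (0 : ℝ) ≤ l.length := Nat.cast_nonneg _
    set n : ℝ := (l.length : ℝ) with hn'
    have h3 : -b * E v l + h * n ≤ x * n - b * κ' * Q l := by
      have h4 : h + b * B ≤ x := le_max_left _ _
      have h5 : (h + b * B) * n ≤ x * n := mul_le_mul_of_nonneg_right h4 hn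
      have h6 : b * (κ' * Q l - B * n) ≤ b * E v l := mul_le_mul_of_nonneg_left h1 hb.le
      linarith
    have h4 : n ^ 2 / Nc ≤ Q l := by
      rw [div_le_iff₀ hNc0]
      linarith
    have h5 : b * κ' * (n ^ 2 / Nc) ≤ b * κ' * Q l := mul_le_mul_of_nonneg_left h4 (by positivity)
    have h6 : x * n - b * κ' * (n ^ 2 / Nc) ≤ Nc * (x ^ 2 / (4 * b * κ')) := by
      have h7 : Nc * (x ^ 2 / (4 * b * κ')) - (x * n - b * κ' * (n ^ 2 / Nc)) =
          (Nc * x - 2 * b * κ' * n) ^ 2 / (4 * b * κ' * Nc) := by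
        field_simp
        ring
      have h8 : 0 ≤ (Nc * x - 2 * b * κ' * n) ^ 2 / (4 * b * κ' * Nc) := by positivity
      linarith
    linarith
  have h1 : Xi v (cube L) b h ≤
      G (cube L) (fun _ => ENNReal.ofReal (Real.exp (Nc * (x ^ 2 / (4 * b * κ')))) * 1) := by
    refine G_mono (measurableSet_cube L) fun l hl => ?_
    rw [mul_one]
    exact ENNReal.ofReal_le_ofReal (Real.exp_le_exp.2 (key l hl))
  refine h1.trans ?_
  rw [G_const_mul _ _ (MF1.const 1)]
  have h2 : G (cube L) (fun _ => (1 : ℝ≥0∞)) ≤ ENNReal.ofReal (Real.exp (L ^ 3 * Real.exp 0)) := by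
    refine G_pow_cube hL 0 _ fun l _ => ?_
    simp
  rw [Real.exp_zero, mul_one] at h2
  rw [Real.exp_add, mul_comm (Real.exp (L ^ 3)), ENNReal.ofReal_mul (Real.exp_pos _).le]
  gcongr

theorem bnd_press {r₀ B κ' : ℝ} {v : ℝ → ℝ} (hv : Pot r₀ B v) (hr : 1 ≤ r₀) (hκ' : 0 < κ')
    (hss : ∀ l, κ' * Q l - B * l.length ≤ E v l) :
    H13AbsSpec.Bnd B (κ' / 8) (press r₀ v) := by
  refine ⟨fun b h hb => press_nonneg hv hb.le h, press_convex hv, fun b hb => press_mono hv hb.le, ?_⟩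
  intro b h hb
  refine press_le_of_forall fun L hL => ?_
  have h1 := lx_upper hv hκ' hss hL.le hb h
  rw [div_le_iff₀ (by positivity)]
  refine h1.trans ?_
  set y := (max (h + b * B) 0) ^ 2 / (4 * b * κ') with hy
  have hy0 : 0 ≤ y := by positivity
  have h2 : (max (h + b * B) 0) ^ 2 / (4 * b * (κ' / 8)) = 8 * y := by
    rw [hy]; field_simp
  rw [h2]
  have h3 : L ^ 3 ≤ (L + r₀) ^ 3 := pow_le_pow_left₀ hL.le (by linarith) 3
  have h4 : (2 * L + 1) ^ 3 ≤ (2 * (L + r₀)) ^ 3 := pow_le_pow_left₀ (by positivity) (by linarith) 3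
  have h5 : (2 * L + 1) ^ 3 * y ≤ (2 * (L + r₀)) ^ 3 * y := mul_le_mul_of_nonneg_right h4 hy0
  have h6 : (2 * (L + r₀)) ^ 3 * y = 8 * y * (L + r₀) ^ 3 := by ring
  linarith

end Crest.Agent.H25Bnd
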