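import Mathlib
import Crest.Agent.H13Lip
import Crest.Agent.H13Canon
import Crest.Agent.H19Count

/-!
The lower half of the Kac step.
-/

set_option autoImplicit false
set_option maxHeartbeats 4000000

open MeasureTheory Filter Topology
open scoped ENNReal

namespace Crest.Agent.H25KacLow

open Crest.Agent.H13Conf Crest.Agent.H13Energy Crest.Agent.H13Basic Crest.Agent.H13Cube
open Crest.Agent.H19Pair Crest.Agent.H13Super Crest.Agent.H13Press Crest.Agent.H13Canon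
open Crest.Agent.H13Dec Crest.Agent.H13Lip Crest.Agent.H13AbsSpec

/-- the ball volume -/
noncomputable def vB (R : ℝ) : ℝ := 4 / 3 * Real.pi * R ^ 3

theorem vB_pos {R : ℝ} (hR : 0 < R) : 0 < vB R := by
  unfold vB
  have := Real.pi_pos
  positivity

/-- counting pairs in boxes at given nonzero offsets -/
theorem count_pairs {x ℓ : ℝ} (M n k : ℕ) (hk : 2 * k ≤ M)
    (D : Finset (Fin 3 → ℤ)) (hD : ∀ d ∈ D, -d ∈ D) (hD0 : (0 : Fin 3 → ℤ) ∉ D)
    (hDk : ∀ d ∈ D, ∀ j, |d j| ≤ k) {l : List Pt} (hl : InBoxes x ℓ M l)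
    (hn : ∀ i ∈ idx M, (l.filter (fun y => decide (bmap x 0 y = i))).length = n) :
    ((M : ℝ) - 2 * k) ^ 3 * D.card * (n : ℝ) ^ 2 ≤
      2 * pairSum (fun y z => if bmap x 0 y - bmap x 0 z ∈ D then (1 : ℝ) else 0) l := by
  classical
  set c := bmap x 0 with hc
  set u : Pt → Pt → ℝ := fun y z => if c y - c z ∈ D then (1 : ℝ) else 0 with hu
  have hsym : ∀ y z, u y z = u z y := by
    intro y z
    have : c y - c z ∈ D ↔ c z - c y ∈ D := by
      constructor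
      · intro h; have := hD _ h; rwa [neg_sub] at this
      · intro h; have := hD _ h; rwa [neg_sub] at this
    simp only [hu, this]
  have hdbl := H19Count.dbl_eq hsym l
  have hdiag : (l.map fun y => u y y).sum = 0 := by
    have : (l.map fun y => u y y) = l.map fun _ => (0 : ℝ) := by
      refine List.map_congr_left fun y _ => ?_
      simp [hu, hD0]
    rw [this, sum_map_zero']
  rw [hdiag, add_zero] at hdbl
  rw [← hdbl]
  -- compute dbl
  have hinner : ∀ y : Pt, (l.map (u y)).sum =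
      ∑ d ∈ D, (l.map fun z => if c z = c y - d then (1 : ℝ) else 0).sum := by
    intro y
    rw [← sum_map_finset_sum]
    congr 1
    refine List.map_congr_left fun z _ => ?_
    simp only [hu]
    by_cases h : c y - c z ∈ D
    · rw [if_pos h, Finset.sum_eq_single (c y - c z)]
      · simp
      · intro d _ hne
        rw [if_neg]
        intro h2
        apply hne
        rw [h2]; abel
      · intro h2; exact absurd h h2
    · rw [if_neg h]
      symm
      apply Finset.sum_eq_zero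
      intro d hd
      rw [if_neg]
      intro h2
      apply h
      rw [h2]
      simpa using hd
  have hmem : ∀ y ∈ l, c y ∈ idx M := fun y hy => (hl y hy).1
  have hsum : H19Count.dbl u l = ∑ i ∈ idx M, (n : ℝ) * ∑ d ∈ D,
      (l.map fun z => if c z = i - d then (1 : ℝ) else 0).sum := by
    unfold H19Count.dbl
    have h1 : (l.map fun y => (l.map (u y)).sum) = l.map fun y => (fun i => ∑ d ∈ D,
        (l.map fun z => if c z = i - d then (1 : ℝ) else 0).sum) (c y) := by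
      refine List.map_congr_left fun y _ => hinner y
    rw [h1]
    refine (H19Count.sum_map_group c (fun i => ∑ d ∈ D,
        (l.map fun z => if c z = i - d then (1 : ℝ) else 0).sum) (idx M) l hmem).trans ?_
    refine Finset.sum_congr rfl fun i hi => ?_
    rw [hn i hi]
  rw [hsum]
  -- inner boxes
  set I : Finset (Fin 3 → ℤ) := Fintype.piFinset (fun _ => Finset.Ico (k : ℤ) ((M : ℤ) - k)) with hI
  have hIsub : I ⊆ idx M := by
    intro i hi
    rw [hI, Fintype.mem_piFinset] at hi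
    rw [mem_idx]
    intro j
    have := Finset.mem_Ico.1 (hi j)
    constructor <;> omega
  have hIcard : (I.card : ℝ) = ((M : ℝ) - 2 * k) ^ 3 := by
    rw [hI, Fintype.card_piFinset]
    simp only [Int.card_Ico, Finset.prod_const, Finset.card_univ, Fintype.card_fin]
    have h1 : ((M : ℤ) - k - k).toNat = M - 2 * k := by omega
    rw [h1]
    push_cast [Nat.cast_sub hk]
    ring
  have hnn : ∀ i ∈ idx M, 0 ≤ (n : ℝ) * ∑ d ∈ D,
      (l.map fun z => if c z = i - d then (1 : ℝ) else 0).sum := by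
    intro i _
    apply mul_nonneg (Nat.cast_nonneg _)
    apply Finset.sum_nonneg
    intro d _
    apply List.sum_nonneg
    intro y hy
    obtain ⟨z, _, rfl⟩ := List.mem_map.1 hy
    split_ifs <;> norm_num
  refine le_trans ?_ (Finset.sum_le_sum_of_subset_of_nonneg hIsub fun i hi _ => hnn i hi)
  have h2 : ∀ i ∈ I, (n : ℝ) * ∑ d ∈ D,
      (l.map fun z => if c z = i - d then (1 : ℝ) else 0).sum = D.card * (n : ℝ) ^ 2 := by
    intro i hi
    have h3 : ∀ d ∈ D, (l.map fun z => if c z = i - d then (1 : ℝ) else 0).sum = n := by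
      intro d hd
      rw [H19Count.count_eq, hn]
      rw [hI, Fintype.mem_piFinset] at hi
      rw [mem_idx]
      intro j
      have h4 := Finset.mem_Ico.1 (hi j)
      have h5 := abs_le.1 (hDk d hd j)
      simp only [Pi.sub_apply]
      constructor <;> omega
    rw [Finset.sum_congr rfl h3, Finset.sum_const, nsmul_eq_mul]
    ring
  rw [Finset.sum_congr rfl h2, Finset.sum_const, nsmul_eq_mul, hIcard]
  apply le_of_eq
  ring

/-- energy bound for `n` particles in each separated box -/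
theorem E_kac_boxes {r₀ B ℓ R a : ℝ} {v : ℝ → ℝ} (hv : Pot r₀ B v) (hℓ : 0 < ℓ) (ha : 0 ≤ a)
    (hR : 4 * (ℓ + r₀) ≤ R) (D : Finset (Fin 3 → ℤ)) (hD : ∀ d ∈ D, -d ∈ D)
    (hD0 : (0 : Fin 3 → ℤ) ∉ D)
    (hDR : ∀ d ∈ D, ∀ (i : Fin 3 → ℤ) (x y : Pt),
        (∀ k, (ℓ + r₀) * i k ≤ x k ∧ x k ≤ (ℓ + r₀) * i k + (ℓ + r₀)) →
        (∀ k, (ℓ + r₀) * (i k + d k) ≤ y k ∧ y k ≤ (ℓ + r₀) * (i k + d k) + (ℓ + r₀)) → dist x y ≤ R)
    (M n k : ℕ) (hk : 2 * k ≤ M) (hDk : ∀ d ∈ D, ∀ j, |d j| ≤ k)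
    {l : List Pt} (hl : InBoxes (ℓ + r₀) ℓ M l)
    (hn : ∀ i ∈ idx M, (l.filter (fun y => decide (bmap (ℓ + r₀) 0 y = i))).length = n) :
    E (fun r => v r - a * kac R r) l ≤
      ∑ i ∈ idx M, E v (l.filter (fun x => decide (bmap (ℓ + r₀) 0 x = i))) -
        a * (((M : ℝ) - 2 * k) ^ 3 * D.card * (n : ℝ) ^ 2) / (2 * vB R) := by
  classical
  have hr := hv.pos
  have hx : 0 < ℓ + r₀ := by linarith
  have hRpos : 0 < R := by linarith
  have h1 := E_le_blocks hv hℓ hl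
  have h2 := count_pairs M n k hk D hD hD0 hDk hl hn
  have hvB := vB_pos hRpos
  have h3 : pairSum (fun y z => (vB R)⁻¹ * (if bmap (ℓ + r₀) 0 y - bmap (ℓ + r₀) 0 z ∈ D then (1 : ℝ)
      else 0)) l ≤ pairSum (fun y z => kac R (dist y z)) l := by
    refine pairSum_mono l fun y hy z hz => ?_
    split_ifs with h
    · rw [mul_one]
      have h4 := (hl y hy).2
      have h5 := (hl z hz).2
      rw [mem_sbox] at h4 h5
      have h6 := hDR _ h (bmap (ℓ + r₀) 0 z) z y (fun j => ⟨(h5 j).1, (h5 j).2.trans (by linarith)⟩)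
        (fun j => by
          have h7 : ((bmap (ℓ + r₀) 0 z j : ℤ) : ℝ) + (((bmap (ℓ + r₀) 0 y - bmap (ℓ + r₀) 0 z) j : ℤ) : ℝ) =
              ((bmap (ℓ + r₀) 0 y j : ℤ) : ℝ) := by
            simp only [Pi.sub_apply]
            push_cast
            ring
          rw [h7]
          exact ⟨(h4 j).1, (h4 j).2.trans (by linarith)⟩)
      rw [dist_comm] at h6
      exact H19Count.le_kac hRpos h6
    · rw [mul_zero]
      exact H19Count.kac_nonneg hRpos.le _
  rw [pairSum_const_mul] at h3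
  have h4 : E (fun r => v r - a * kac R r) l = E v l - a * pairSum (fun y z => kac R (dist y z)) l := by
    rw [E_sub, E_const_mul]
    rfl
  rw [h4]
  have h5 : a * ((vB R)⁻¹ * (((M : ℝ) - 2 * k) ^ 3 * D.card * (n : ℝ) ^ 2 / 2)) ≤
      a * pairSum (fun y z => kac R (dist y z)) l := by
    apply mul_le_mul_of_nonneg_left _ ha
    refine le_trans ?_ h3
    apply mul_le_mul_of_nonneg_left _ (inv_nonneg.2 hvB.le)
    linarith
  have h6 : a * ((vB R)⁻¹ * (((M : ℝ) - 2 * k) ^ 3 * D.card * (n : ℝ) ^ 2 / 2)) =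
      a * (((M : ℝ) - 2 * k) ^ 3 * D.card * (n : ℝ) ^ 2) / (2 * vB R) := by
    field_simp
  rw [h6] at h5
  linarith

/-- Claim (i) -/
theorem kac_term {r₀ B ℓ R a : ℝ} {v : ℝ → ℝ} (hv : Pot r₀ B v)
    (hw : Pot r₀ B (fun r => v r - a * kac R r)) (hℓ : 0 < ℓ) (ha : 0 ≤ a)
    (hR : 4 * (ℓ + r₀) ≤ R) {b : ℝ} (hb : 0 < b) (h : ℝ) :
    ∃ D : ℝ, vB (R - 4 * (ℓ + r₀)) ≤ (D + 1) * (ℓ + r₀) ^ 3 ∧ 0 ≤ D ∧
      ∀ n : ℕ, lz v ℓ n b + h * n + b * a * D * (n : ℝ) ^ 2 / (2 * vB R) ≤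
        (ℓ + r₀) ^ 3 * press r₀ (fun r => v r - a * kac R r) b h := by
  classical
  have hr := hv.pos
  set x := ℓ + r₀ with hx
  have hxpos : 0 < x := by linarith
  have hRpos : 0 < R := by linarith
  obtain ⟨D₀, hD1, hD2, hD3, hD4⟩ := H19Count.exists_innerOffsets hxpos hR
  set D := D₀.erase 0 with hD
  have hDneg : ∀ d ∈ D, -d ∈ D := by
    intro d hd
    rw [hD, Finset.mem_erase] at hd ⊢
    exact ⟨neg_ne_zero.2 hd.1, hD1 d hd.2⟩
  have hD0 : (0 : Fin 3 → ℤ) ∉ D := by simp [hD]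
  have hcard : (D₀.card : ℝ) ≤ D.card + 1 := by
    have := Finset.pred_card_le_card_erase (s := D₀) (a := (0 : Fin 3 → ℤ))
    have h2 : D₀.card ≤ D.card + 1 := by rw [hD]; omega
    exact_mod_cast h2
  refine ⟨D.card, ?_, Nat.cast_nonneg _, ?_⟩
  · unfold vB
    refine hD2.trans ?_
    exact mul_le_mul_of_nonneg_right hcard (by positivity)
  intro n
  set k : ℕ := ⌈R / x⌉₊ with hk
  have hDk : ∀ d ∈ D, ∀ j, |d j| ≤ k := by
    intro d hd j
    rw [hD, Finset.mem_erase] at hd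
    have h1 := hD3 d hd.2 j
    rw [← le_div_iff₀ hxpos] at h1
    have h2 : ((|d j| : ℤ) : ℝ) ≤ ((k : ℤ) : ℝ) := by
      rw [Int.cast_abs]
      refine h1.trans ?_
      push_cast
      exact Nat.le_ceil _
    exact_mod_cast h2
  set w := fun r => v r - a * kac R r with hwdef
  set Pw := press r₀ w b h with hPw
  -- inequality for each M
  have key : ∀ M : ℕ, 2 * k < M → (M : ℝ) ^ 3 * lz v ℓ n b + h * ((M : ℝ) ^ 3 * n) +
      b * (a * (((M : ℝ) - 2 * k) ^ 3 * D.card * (n : ℝ) ^ 2) / (2 * vB R)) ≤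
      (M * x + r₀) ^ 3 * Pw := by
    intro M hM
    have hM0 : 0 < M := by omega
    have hL : 0 < (M : ℝ) * x := mul_pos (by exact_mod_cast hM0) hxpos
    have h1 := Zc_blocks_gen (lam := x) (ℓ := ℓ) hxpos (by linarith) M hv.meas hw.meas hb.le
      (fun _ => n) (a * (((M : ℝ) - 2 * k) ^ 3 * D.card * (n : ℝ) ^ 2) / (2 * vB R))
      (fun l hl hlen => E_kac_boxes hv hℓ ha hR D hDneg hD0
        (fun d hd => hD4 d (Finset.mem_of_mem_erase hd)) M n k hM.le hDk hl hlen)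
    simp only [Finset.prod_const, Finset.sum_const, card_idx, smul_eq_mul] at h1
    rw [← ofReal_exp_lz hv hℓ n hb.le, ← ENNReal.ofReal_pow (Real.exp_pos _).le,
      ← Real.exp_nat_mul, ← ENNReal.ofReal_mul (Real.exp_pos _).le, ← Real.exp_add,
      ← ofReal_exp_lz hw hL _ hb.le] at h1
    have h2 := exp_le_of_ofReal h1
    have h3 := lz_add_le_lx hw hL (M ^ 3 * n) hb.le h
    have h4 := lx_le_press hw hb.le h hL
    push_cast at h2 h3
    linarith
  -- limit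
  have t1 : Tendsto (fun M : ℕ => ((M : ℝ) - 2 * k) / M) atTop (𝓝 1) := by
    have h1 : Tendsto (fun M : ℕ => 1 - (2 * (k : ℝ)) / M) atTop (𝓝 (1 - 0)) :=
      tendsto_const_nhds.sub (tendsto_const_div_atTop_nhds_zero_nat _)
    rw [sub_zero] at h1
    refine h1.congr' ?_
    filter_upwards [eventually_gt_atTop 0] with M hM
    have : (M : ℝ) ≠ 0 := by positivity
    field_simp
  have t2 : Tendsto (fun M : ℕ => ((M : ℝ) * x + r₀) / M) atTop (𝓝 x) := by
    have h1 : Tendsto (fun M : ℕ => x + r₀ / M) atTop (𝓝 (x + 0)) :=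
      tendsto_const_nhds.add (tendsto_const_div_atTop_nhds_zero_nat _)
    rw [add_zero] at h1
    refine h1.congr' ?_
    filter_upwards [eventually_gt_atTop 0] with M hM
    have : (M : ℝ) ≠ 0 := by positivity
    field_simp
  have l1 : Tendsto (fun M : ℕ => lz v ℓ n b + h * n +
      b * a * D.card * (n : ℝ) ^ 2 / (2 * vB R) * (((M : ℝ) - 2 * k) / M) ^ 3) atTop
      (𝓝 (lz v ℓ n b + h * n + b * a * D.card * (n : ℝ) ^ 2 / (2 * vB R) * 1 ^ 3)) :=
    tendsto_const_nhds.add ((t1.pow 3).const_mul _)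
  have l2 : Tendsto (fun M : ℕ => (((M : ℝ) * x + r₀) / M) ^ 3 * Pw) atTop (𝓝 (x ^ 3 * Pw)) :=
    (t2.pow 3).mul_const _
  rw [one_pow, mul_one] at l1
  refine le_of_tendsto_of_tendsto l1 l2 ?_
  filter_upwards [eventually_gt_atTop (2 * k)] with M hM
  have hM0 : (0 : ℝ) < M := by
    have : 0 < M := by omega
    exact_mod_cast this
  have h1 := key M hM
  have hM3 : (0 : ℝ) < (M : ℝ) ^ 3 := by positivity
  have e1 : (M : ℝ) ^ 3 * (lz v ℓ n b + h * n +
      b * a * D.card * (n : ℝ) ^ 2 / (2 * vB R) * (((M : ℝ) - 2 * k) / M) ^ 3) =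
      (M : ℝ) ^ 3 * lz v ℓ n b + h * ((M : ℝ) ^ 3 * n) +
      b * (a * (((M : ℝ) - 2 * k) ^ 3 * D.card * (n : ℝ) ^ 2) / (2 * vB R)) := by
    field_simp
  have e2 : (M : ℝ) ^ 3 * ((((M : ℝ) * x + r₀) / M) ^ 3 * Pw) = (M * x + r₀) ^ 3 * Pw := by
    field_simp
  refine le_of_mul_le_mul_left ?_ hM3
  rw [e1, e2]
  exact h1

/-- elementary geometry of the scales -/
theorem scale_D {τ R x D : ℝ} (hτ : 0 < τ) (hτ1 : τ ≤ 1 / 100) (hR : 0 < R) (hx : 0 < x)
    (hxR : x ≤ 102 / 100 * (τ * R)) (hD : vB (R - 4 * x) ≤ (D + 1) * x ^ 3) :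
    (1 - 13 * τ) * vB R ≤ D * x ^ 3 := by
  have hpi := Real.pi_gt_three
  have h1 : vB (R - 4 * x) = 4 / 3 * Real.pi * (R - 4 * x) ^ 3 := rfl
  have h2 : vB R = 4 / 3 * Real.pi * R ^ 3 := rfl
  -- (R - 4x)^3 ≥ R^3 - 12 x R^2
  have hx4 : 4 * x ≤ R := by nlinarith
  have h3 : R ^ 3 - 12 * x * R ^ 2 ≤ (R - 4 * x) ^ 3 := by
    have : (R - 4 * x) ^ 3 - (R ^ 3 - 12 * x * R ^ 2) = 16 * x ^ 2 * (3 * R - 4 * x) := by ring
    have h4 : 0 ≤ 16 * x ^ 2 * (3 * R - 4 * x) := by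
      apply mul_nonneg (by positivity)
      linarith
    linarith
  have h4 : 12 * x * R ^ 2 ≤ 1224 / 100 * τ * R ^ 3 := by
    have : x * (12 * R ^ 2) ≤ 102 / 100 * (τ * R) * (12 * R ^ 2) :=
      mul_le_mul_of_nonneg_right hxR (by positivity)
    nlinarith
  have h5 : (1 - 1224 / 100 * τ) * R ^ 3 ≤ (R - 4 * x) ^ 3 := by linarith
  have h6 : (1 - 1224 / 100 * τ) * vB R ≤ vB (R - 4 * x) := by
    rw [h1, h2]
    have := mul_le_mul_of_nonneg_left h5 (show 0 ≤ 4 / 3 * Real.pi by positivity)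
    linarith
  have h7 : x ^ 3 ≤ 1 / 10 * τ * vB R := by
    have h8 : x ^ 3 ≤ (102 / 100 * (τ * R)) ^ 3 := pow_le_pow_left₀ hx.le hxR 3
    have h9 : (102 / 100 * (τ * R)) ^ 3 ≤ 2 * (τ ^ 3 * R ^ 3) := by
      have : (102 / 100 * (τ * R)) ^ 3 = (102 / 100) ^ 3 * (τ ^ 3 * R ^ 3) := by ring
      rw [this]
      have h10 : 0 ≤ τ ^ 3 * R ^ 3 := by positivity
      nlinarith
    have h10 : 2 * (τ ^ 3 * R ^ 3) ≤ 1 / 10 * τ * (4 * R ^ 3) := by
      have h11 : τ ^ 2 ≤ 1 / 10000 := by nlinarith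
      have h12 : τ ^ 3 * R ^ 3 = τ ^ 2 * (τ * R ^ 3) := by ring
      rw [h12]
      have h13 : 0 ≤ τ * R ^ 3 := by positivity
      nlinarith
    have h11 : 4 * R ^ 3 ≤ vB R := by
      rw [h2]
      have : 0 ≤ R ^ 3 := by positivity
      nlinarith
    have h12 : 1 / 10 * τ * (4 * R ^ 3) ≤ 1 / 10 * τ * vB R :=
      mul_le_mul_of_nonneg_left h11 (by positivity)
    linarith
  have h8 : 0 < τ * vB R := mul_pos hτ (vB_pos hR)
  linarith

theorem log_bound {ℓ E₀ e τ : ℝ} (hℓ : 1 ≤ ℓ) (hE : 1 ≤ E₀) (he0 : 0 ≤ e) (he : e ≤ E₀)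
    (hτℓ : 1 ≤ τ * ℓ) :
    Real.log ((⌈ℓ ^ 3 * e⌉₊ : ℕ) + 1) / ℓ ^ 3 ≤ (E₀ + 5) * τ := by
  have hℓ0 : 0 < ℓ := by linarith
  have h1 : ((⌈ℓ ^ 3 * e⌉₊ : ℕ) : ℝ) + 1 ≤ ℓ ^ 3 * (E₀ + 2) := by
    have h2 := (Nat.ceil_lt_add_one (show 0 ≤ ℓ ^ 3 * e by positivity)).le
    have h3 : ℓ ^ 3 * e ≤ ℓ ^ 3 * E₀ := mul_le_mul_of_nonneg_left he (by positivity)
    have h4 : 1 ≤ ℓ ^ 3 := one_le_pow₀ hℓ
    linarith
  have h2 : Real.log ((⌈ℓ ^ 3 * e⌉₊ : ℕ) + 1) ≤ Real.log (ℓ ^ 3 * (E₀ + 2)) :=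
    Real.log_le_log (by positivity) h1
  rw [Real.log_mul (by positivity) (by positivity), Real.log_pow] at h2
  have h3 := Real.log_le_sub_one_of_pos hℓ0
  have h4 := Real.log_le_sub_one_of_pos (show 0 < E₀ + 2 by linarith)
  rw [div_le_iff₀ (by positivity)]
  have h5 : (1 : ℝ) * ℓ ^ 2 ≤ (τ * ℓ) * ℓ ^ 2 := mul_le_mul_of_nonneg_right hτℓ (by positivity)
  have h6 : (E₀ + 5) * (1 * ℓ ^ 2) ≤ (E₀ + 5) * ((τ * ℓ) * ℓ ^ 2) :=
    mul_le_mul_of_nonneg_left h5 (by linarith)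
  have h7 : ℓ ≤ ℓ ^ 2 := by nlinarith
  have h8 : 1 ≤ ℓ ^ 2 := one_le_pow₀ hℓ
  have h9 : (E₀ + 2) * 1 ≤ (E₀ + 2) * ℓ ^ 2 := mul_le_mul_of_nonneg_left h8 (by linarith)
  have h10 : (E₀ + 5) * τ * ℓ ^ 3 = (E₀ + 5) * ((τ * ℓ) * ℓ ^ 2) := by ring
  rw [h10]
  push_cast at h2
  nlinarith

/-- finite-volume bound of the grand potential at shifted field -/
theorem lx_shift {r₀ B R a τ : ℝ} {v : ℝ → ℝ} (hv : Pot r₀ B v)
    (hw : Pot r₀ B (fun r => v r - a * kac R r)) (ha : 0 < a) (hr2 : r₀ ≤ 2)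
    (hτ : 0 < τ) (hτ1 : τ ≤ 1 / 100) (hR : 1 ≤ τ ^ 2 * R) {b : ℝ} (hb : 0 < b) (h t : ℝ) :
    lx v (τ * R) b (h + t) ≤ (τ * R + r₀) ^ 3 *
      (press r₀ (fun r => v r - a * kac R r) b h + t ^ 2 / (2 * b * a * (1 - 13 * τ))) +
      Real.log ((⌈(τ * R) ^ 3 * Real.exp (h + t + 1 + b * B)⌉₊ : ℕ) + 1) := by
  have hr := hv.pos
  have hRpos : 0 < R := by
    by_contra hcon
    push Not at hcon
    have : τ ^ 2 * R ≤ 0 := mul_nonpos_of_nonneg_of_nonpos (by positivity) hcon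
    linarith
  set ℓ := τ * R with hℓ
  have hℓpos : 0 < ℓ := by positivity
  have hτℓ : 1 ≤ τ * ℓ := by rw [hℓ]; linarith [hR, show τ * (τ * R) = τ ^ 2 * R by ring]
  set x := ℓ + r₀ with hx
  have hxpos : 0 < x := by positivity
  have hxℓ : x ≤ 102 / 100 * ℓ := by
    have h1 : 100 ≤ ℓ := by
      by_contra hcon
      push Not at hcon
      have : τ * ℓ < 1 / 100 * 100 := mul_lt_mul' hτ1 hcon hℓpos.le (by norm_num)
      linarith only [this, hτℓ]
    linarith only [h1, hr2, hx]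
  have h4x : 4 * x ≤ R := by
    have h1 : τ * R ≤ 1 / 100 * R := mul_le_mul_of_nonneg_right hτ1 hRpos.le
    linarith only [h1, hxℓ, hℓ, hRpos]
  obtain ⟨D, hD1, hD0, hD2⟩ := kac_term hv hw hℓpos ha.le h4x hb h
  have hDx := scale_D hτ hτ1 hRpos hxpos (by rw [← hℓ]; exact hxℓ) hD1
  have hvB := vB_pos hRpos
  set Pw := press r₀ (fun r => v r - a * kac R r) b h with hPw
  have hPw0 : 0 ≤ Pw := press_nonneg hw hb.le h
  have h13 : 0 < 1 - 13 * τ := by linarith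
  have hDpos : 0 < D := by
    by_contra hcon
    push Not at hcon
    have h1 : D * x ^ 3 ≤ 0 := mul_nonpos_of_nonpos_of_nonneg hcon (by positivity)
    have h2 : 0 < (1 - 13 * τ) * vB R := mul_pos h13 hvB
    linarith
  apply lx_le_of_terms hv hℓpos hb.le
  · have : 0 ≤ t ^ 2 / (2 * b * a * (1 - 13 * τ)) := by positivity
    positivity
  · exact Nat.le_ceil _
  · intro n _
    have h1 := hD2 n
    -- complete the square
    have h2 : t * n - b * a * D * (n : ℝ) ^ 2 / (2 * vB R) ≤ x ^ 3 * (t ^ 2 / (2 * b * a * (1 - 13 * τ))) := by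
      have h3 : b * a * (1 - 13 * τ) * (n : ℝ) ^ 2 / (2 * x ^ 3) ≤ b * a * D * (n : ℝ) ^ 2 / (2 * vB R) := by
        rw [div_le_div_iff₀ (by positivity) (by positivity)]
        have h4 : 0 ≤ b * a * (n : ℝ) ^ 2 := by positivity
        have h5 := mul_le_mul_of_nonneg_left hDx h4
        nlinarith
      have h4 : x ^ 3 * (t ^ 2 / (2 * b * a * (1 - 13 * τ))) -
          (t * n - b * a * (1 - 13 * τ) * (n : ℝ) ^ 2 / (2 * x ^ 3)) =
          (x ^ 3 * t - b * a * (1 - 13 * τ) * n) ^ 2 / (2 * b * a * (1 - 13 * τ) * x ^ 3) := by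
        field_simp
        ring
      have h5 : 0 ≤ (x ^ 3 * t - b * a * (1 - 13 * τ) * n) ^ 2 / (2 * b * a * (1 - 13 * τ) * x ^ 3) := by
        positivity
      linarith
    have h3 : (h + t) * n = h * n + t * n := by ring
    rw [h3]
    linarith

/-- **Lower half of the Kac step.** -/
theorem kac_lower {r₀ B κ K β₁ β₂ H : ℝ} (hr : 0 < r₀) (hr2 : r₀ ≤ 2) (hB : 0 ≤ B) (hK : 0 < K)
    (hκ : 4 * K ≤ κ) (hβ₁ : 0 < β₁) (hβ : β₁ < β₂) (hH : 0 < H) :
    ∃ C : ℝ, 0 < C ∧ ∀ (v : ℝ → ℝ) (R' R a τ : ℝ), Pot r₀ B v →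
      Pot r₀ B (fun r => v r - a * kac R r) → (∀ r, R' < r → v r = 0) →
      (∀ l : List Pt, Am v l ≤ E v l + B * l.length) → Bnd B κ (press r₀ v) →
      Bnd B κ (press r₀ (fun r => v r - a * kac R r)) → 1 ≤ R' → 0 < a → a ≤ K → 0 < τ →
      τ ≤ 1 / 100 → R' = τ ^ 2 * R → ∀ b h : ℝ, β₁ ≤ b → b ≤ β₂ → |h| ≤ H →
      supConv a (press r₀ v) b h ≤ press r₀ (fun r => v r - a * kac R r) b h + C * τ / a := by
  have hβ₂ : 0 < β₂ := by linarith
  have hκ0 : 0 < κ := by linarith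
  obtain ⟨T, hT1, hT⟩ := quad hB hK hκ hβ₁ hβ.le hH.le
  obtain ⟨Λ, hΛ, hlip⟩ := lip (B := B) (κ := κ) (β₁ := β₁) (β₂ := 2 * β₂) (H := H + T + β₂ * B) hB hκ0 hβ₁
    (by linarith) (by positivity)
  set Pm := 1 + (H + β₂ * B) ^ 2 / (4 * β₁ * κ) with hPm
  have hPm0 : 0 < Pm := by positivity
  set E₀ := Real.exp (H + T + 1 + β₂ * B) with hE₀
  have hE₀1 : 1 ≤ E₀ := by
    rw [hE₀, ← Real.exp_zero]
    apply Real.exp_le_exp.2
    positivity
  set X := 7 * Pm + (E₀ + 5) + 6 * β₂ * (1 + B) * Λ with hX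
  have hX0 : 0 < X := by positivity
  refine ⟨12 * T ^ 2 / β₁ + K * X, by positivity, ?_⟩
  intro v R' R a τ hv hw hvR hAm hbv hbw hR' ha haK hτ hτ1 hRR b h hb1 hb2 hh
  have hb : 0 < b := by linarith
  have hhabs := abs_le.1 hh
  have hR1 : 1 ≤ τ ^ 2 * R := by rw [← hRR]; exact hR'
  have hRpos : 0 < R := by
    by_contra hcon
    push Not at hcon
    have : τ ^ 2 * R ≤ 0 := mul_nonpos_of_nonneg_of_nonpos (by positivity) hcon
    linarith
  set w := fun r => v r - a * kac R r with hwdef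
  set Pw := press r₀ w b h with hPw
  have hPw0 : 0 ≤ Pw := press_nonneg hw hb.le h
  have hPwm : Pw ≤ Pm := bound_on hbw hB hκ0 hβ₁ hb1 hb2 hh
  have hCτ : 0 ≤ (12 * T ^ 2 / β₁ + K * X) * τ / a := by positivity
  set ℓ := τ * R with hℓ
  have hℓpos : 0 < ℓ := by positivity
  have hτℓ : 1 ≤ τ * ℓ := by rw [hℓ]; linarith [hR1, show τ * (τ * R) = τ ^ 2 * R by ring]
  have hℓ100 : 100 ≤ ℓ := by
    by_contra hcon
    push Not at hcon
    have : τ * ℓ < 1 / 100 * 100 := mul_lt_mul' hτ1 hcon hℓpos.le (by norm_num)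
    linarith only [this, hτℓ]
  refine ciSup_le fun t => ?_
  rcases le_total T |t| with htT | htT
  · -- large t
    have h1 := hT (press r₀ v) hbv b h t hb1 hb2 hh htT
    have h2 : t ^ 2 / (5 * b * K) ≤ t ^ 2 / (2 * b * a) := by
      apply div_le_div_of_nonneg_left (sq_nonneg t) (by positivity)
      have h21 : b * a ≤ b * K := mul_le_mul_of_nonneg_left haK hb.le
      have h22 : 0 < b * K := mul_pos hb hK
      have e21 : 2 * b * a = 2 * (b * a) := by ring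
      have e22 : 5 * b * K = 5 * (b * K) := by ring
      rw [e21, e22]
      linarith only [h21, h22]
    linarith only [h1, h2, hCτ, hPw0]
  · -- small t
    have htabs := abs_le.1 htT
    -- decoupling
    set q : ℕ := ⌈1 / τ⌉₊ with hq
    have hq1 : 1 / τ ≤ (q : ℝ) := Nat.le_ceil _
    have hqpos : 0 < q := by
      have : (0 : ℝ) < q := lt_of_lt_of_le (by positivity) hq1
      exact_mod_cast this
    have hqR : (0 : ℝ) < q := by exact_mod_cast hqpos
    set θ := 3 * (R' / ℓ + 1 / q) with hθ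
    have hθ1 : R' / ℓ = τ := by
      rw [hRR, hℓ]; field_simp
    have hθ2 : 1 / (q : ℝ) ≤ τ := by
      rw [div_le_iff₀ hqR]
      rw [div_le_iff₀ hτ] at hq1
      linarith
    have hθ0 : 0 ≤ θ := by
      rw [hθ, hθ1]; positivity
    have hθ6 : θ ≤ 6 * τ := by
      rw [hθ, hθ1]; linarith
    have h1θ : 0 < 1 + θ := by linarith
    have hdec := press_le_lx (h := h + t - b * (θ * B)) (b := b * (1 + θ)) hv hℓpos hqpos hvR hAm hθ hθ0
      (by positivity)
    have e1 : b * (1 + θ) / (1 + θ) = b := by field_simp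
    rw [e1] at hdec
    have e2 : h + t - b * (θ * B) + b * (θ * B) = h + t := by ring
    rw [e2] at hdec
    -- Lipschitz
    have hbθB : b * (θ * B) ≤ β₂ * B := by
      have h1 : θ * B ≤ 1 * B := mul_le_mul_of_nonneg_right (by linarith) hB
      have h2 : b * (θ * B) ≤ β₂ * (1 * B) := mul_le_mul hb2 h1 (by positivity) hβ₂.le
      linarith
    have hbθB0 : 0 ≤ b * (θ * B) := by positivity
    have hL := hlip (press r₀ v) hbv (b * (1 + θ)) b (h + t - b * (θ * B)) (h + t)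
      (by
        have := mul_nonneg hb.le hθ0
        have e : b * (1 + θ) = b + b * θ := by ring
        rw [e]; linarith only [this, hb1])
      (by
        have h1 : θ ≤ 1 := by linarith only [hθ6, hτ1]
        have := mul_le_mul_of_nonneg_left h1 hb.le
        have e : b * (1 + θ) = b + b * θ := by ring
        rw [e]; linarith only [this, hb2]) hb1 (by linarith only [hb2, hβ₂])
      (by
        rw [abs_le]; constructor <;> linarith only [hbθB, hbθB0, hhabs.1, hhabs.2, htabs.1, htabs.2]) (by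
        have : 0 ≤ β₂ * B := by positivity
        rw [abs_le]; constructor <;> linarith only [this, hhabs.1, hhabs.2, htabs.1, htabs.2])
    have e3 : |b - b * (1 + θ)| = b * θ := by
      have : b - b * (1 + θ) = -(b * θ) := by ring
      rw [this, abs_neg, abs_of_nonneg (by positivity)]
    have e4 : |h + t - (h + t - b * (θ * B))| = b * (θ * B) := by
      have : h + t - (h + t - b * (θ * B)) = b * (θ * B) := by ring
      rw [this, abs_of_nonneg hbθB0]
    rw [e3, e4] at hL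
    have hLip2 : Λ * (b * θ + b * (θ * B)) ≤ 6 * β₂ * (1 + B) * Λ * τ := by
      have h1 : b * θ ≤ β₂ * (6 * τ) := mul_le_mul hb2 hθ6 hθ0 hβ₂.le
      have h2 : b * θ * (1 + B) ≤ β₂ * (6 * τ) * (1 + B) := mul_le_mul_of_nonneg_right h1 (by positivity)
      have h3 : Λ * (b * θ * (1 + B)) ≤ Λ * (β₂ * (6 * τ) * (1 + B)) := mul_le_mul_of_nonneg_left h2 hΛ.le
      have h4 : b * θ + b * (θ * B) = b * θ * (1 + B) := by ring
      rw [h4]
      linarith
    -- finite volume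
    have hlx := lx_shift hv hw ha hr2 hτ hτ1 hR1 hb h t
    rw [← hwdef, ← hPw, ← hℓ] at hlx
    set lg := Real.log ((⌈ℓ ^ 3 * Real.exp (h + t + 1 + b * B)⌉₊ : ℕ) + 1) with hlg
    have hlgb : lg / ℓ ^ 3 ≤ (E₀ + 5) * τ := by
      apply log_bound (by linarith) hE₀1 (Real.exp_pos _).le _ hτℓ
      apply Real.exp_le_exp.2
      have : b * B ≤ β₂ * B := mul_le_mul_of_nonneg_right hb2 hB
      linarith
    set Y := t ^ 2 / (2 * b * a) with hY
    have hY0 : 0 ≤ Y := by positivity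
    have h13 : 0 < 1 - 13 * τ := by linarith
    have eY : t ^ 2 / (2 * b * a * (1 - 13 * τ)) = Y / (1 - 13 * τ) := by
      rw [hY]; field_simp
    rw [eY] at hlx
    -- ratio g = (x/ℓ)^3
    have hg : (ℓ + r₀) ^ 3 ≤ (1 + 7 * τ) * ℓ ^ 3 := by
      have h1 : r₀ ≤ 2 * τ * ℓ := by linarith
      have h2 : ℓ + r₀ ≤ (1 + 2 * τ) * ℓ := by linarith
      have h3 : (ℓ + r₀) ^ 3 ≤ ((1 + 2 * τ) * ℓ) ^ 3 := pow_le_pow_left₀ (by positivity) h2 3
      have h4 : (1 + 2 * τ) ^ 3 ≤ 1 + 7 * τ := by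
        have h41 : τ * τ ≤ 1 / 100 * τ := mul_le_mul_of_nonneg_right hτ1 hτ.le
        have h42 : τ * τ * τ ≤ 1 / 100 * τ * τ := mul_le_mul_of_nonneg_right h41 hτ.le
        have e41 : (1 + 2 * τ) ^ 3 = 1 + 6 * τ + 12 * (τ * τ) + 8 * (τ * τ * τ) := by ring
        rw [e41]
        linarith only [h41, h42, hτ]
      have h5 : ((1 + 2 * τ) * ℓ) ^ 3 = (1 + 2 * τ) ^ 3 * ℓ ^ 3 := by ring
      have h6 : (1 + 2 * τ) ^ 3 * ℓ ^ 3 ≤ (1 + 7 * τ) * ℓ ^ 3 := mul_le_mul_of_nonneg_right h4 (by positivity)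
      linarith
    have hsumnn : 0 ≤ Pw + Y / (1 - 13 * τ) := by positivity
    have hA : lx v ℓ b (h + t) / ℓ ^ 3 ≤ (1 + 7 * τ) * (Pw + Y / (1 - 13 * τ)) + (E₀ + 5) * τ := by
      have h1 : lx v ℓ b (h + t) / ℓ ^ 3 ≤
          ((ℓ + r₀) ^ 3 * (Pw + Y / (1 - 13 * τ)) + lg) / ℓ ^ 3 :=
        div_le_div_of_nonneg_right hlx (by positivity)
      have h2 : ((ℓ + r₀) ^ 3 * (Pw + Y / (1 - 13 * τ)) + lg) / ℓ ^ 3 =
          (ℓ + r₀) ^ 3 * (Pw + Y / (1 - 13 * τ)) / ℓ ^ 3 + lg / ℓ ^ 3 := by ring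
      have h3 : (ℓ + r₀) ^ 3 * (Pw + Y / (1 - 13 * τ)) / ℓ ^ 3 ≤ (1 + 7 * τ) * (Pw + Y / (1 - 13 * τ)) := by
        rw [div_le_iff₀ (by positivity)]
        have := mul_le_mul_of_nonneg_right hg hsumnn
        linarith only [this]
      linarith only [h1, h2, h3, hlgb]
    have hYb : (1 + 7 * τ) * (Y / (1 - 13 * τ)) ≤ (1 + 24 * τ) * Y := by
      rw [← mul_div_assoc, div_le_iff₀ h13]
      have h1 : 1 + 7 * τ ≤ (1 + 24 * τ) * (1 - 13 * τ) := by
        have h41 : τ * τ ≤ 1 / 100 * τ := mul_le_mul_of_nonneg_right hτ1 hτ.le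
        have e41 : (1 + 24 * τ) * (1 - 13 * τ) = 1 + 11 * τ - 312 * (τ * τ) := by ring
        rw [e41]
        linarith only [h41, hτ]
      have h2 := mul_le_mul_of_nonneg_right h1 hY0
      linarith
    have hPb : 7 * τ * Pw ≤ 7 * τ * Pm := mul_le_mul_of_nonneg_left hPwm (by positivity)
    have hfin : press r₀ v b (h + t) - Y ≤ Pw + 24 * τ * Y + X * τ := by
      have e5 : (1 + 7 * τ) * (Pw + Y / (1 - 13 * τ)) = Pw + 7 * τ * Pw + (1 + 7 * τ) * (Y / (1 - 13 * τ)) := by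
        ring
      have e6 : X * τ = 7 * τ * Pm + (E₀ + 5) * τ + 6 * β₂ * (1 + B) * Λ * τ := by rw [hX]; ring
      rw [e5] at hA
      rw [e6]
      linarith only [hA, hdec, hL, hLip2, hYb, hPb]
    have hY24 : 24 * τ * Y ≤ 12 * T ^ 2 / β₁ * τ / a := by
      have h1 : t ^ 2 ≤ T ^ 2 := sq_le_sq' (by linarith) (by linarith)
      have h2 : Y ≤ T ^ 2 / (2 * β₁ * a) := by
        rw [hY]
        apply div_le_div₀ (by positivity) h1 (by positivity)
        have h21 : β₁ * a ≤ b * a := mul_le_mul_of_nonneg_right hb1 ha.le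
        linarith only [h21]
      have h3 : 24 * τ * Y ≤ 24 * τ * (T ^ 2 / (2 * β₁ * a)) := mul_le_mul_of_nonneg_left h2 (by positivity)
      have h4 : 24 * τ * (T ^ 2 / (2 * β₁ * a)) = 12 * T ^ 2 / β₁ * τ / a := by
        field_simp
        ring
      linarith
    have hXb : X * τ ≤ K * X * τ / a := by
      rw [le_div_iff₀ ha]
      have h1 : 0 ≤ X * τ := by positivity
      have h2 : X * τ * a ≤ X * τ * K := mul_le_mul_of_nonneg_left haK h1
      linarith only [h2]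
    have e7 : (12 * T ^ 2 / β₁ + K * X) * τ / a = 12 * T ^ 2 / β₁ * τ / a + K * X * τ / a := by ring
    rw [e7]
    linarith only [hfin, hY24, hXb]

end Crest.Agent.H25KacLow
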