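import Mathlib
import Crest.Agent.H13Press

/-!
Convergence of the grand pressure along a decreasing sequence of potentials.
-/

set_option autoImplicit false

open MeasureTheory Filter Topology
open scoped ENNReal

namespace Crest.Agent.H25Lim

open Crest.Agent.H13Conf Crest.Agent.H13Energy Crest.Agent.H13Basic Crest.Agent.H13Cube
open Crest.Agent.H19Pair Crest.Agent.H13Super Crest.Agent.H13Press

theorem tendsto_sum_map {u : ℕ → Pt → ℝ} {w : Pt → ℝ}
    (h : ∀ y, Tendsto (fun j => u j y) atTop (𝓝 (w y))) (l : List Pt) :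
    Tendsto (fun j => (l.map (u j)).sum) atTop (𝓝 (l.map w).sum) := by
  induction l with
  | nil => simp
  | cons a t ih =>
    simp only [List.map_cons, List.sum_cons]
    exact (h a).add ih

theorem tendsto_E {v : ℕ → ℝ → ℝ} {w : ℝ → ℝ}
    (hlim : ∀ r, 0 ≤ r → Tendsto (fun j => v j r) atTop (𝓝 (w r))) (l : List Pt) :
    Tendsto (fun j => E (v j) l) atTop (𝓝 (E w l)) := by
  induction l with
  | nil => simp [E]
  | cons a t ih =>
    simp only [E_cons]
    exact (tendsto_sum_map (fun y => hlim _ dist_nonneg) t).add ih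

theorem tendsto_bw {v : ℕ → ℝ → ℝ} {w : ℝ → ℝ}
    (hlim : ∀ r, 0 ≤ r → Tendsto (fun j => v j r) atTop (𝓝 (w r))) (b h : ℝ) (l : List Pt) :
    Tendsto (fun j => bw (v j) b h l) atTop (𝓝 (bw w b h l)) := by
  unfold bw
  apply ENNReal.tendsto_ofReal
  apply (Real.continuous_exp.tendsto _).comp
  exact ((tendsto_E hlim l).const_mul (-b)).add_const _

theorem mono_bw {v : ℕ → ℝ → ℝ} (hanti : ∀ j r, 0 ≤ r → v (j + 1) r ≤ v j r) {b : ℝ} (hb : 0 ≤ b)
    (h : ℝ) (l : List Pt) : Monotone (fun j => bw (v j) b h l) := by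
  apply monotone_nat_of_le_succ
  intro j
  unfold bw
  refine ENNReal.ofReal_le_ofReal (Real.exp_le_exp.2 ?_)
  have := E_mono (hanti j) l
  nlinarith

theorem tendsto_J {v : ℕ → ℝ → ℝ} {w : ℝ → ℝ} (hv : ∀ j, Measurable (v j)) (hw : Measurable w)
    (hanti : ∀ j r, 0 ≤ r → v (j + 1) r ≤ v j r)
    (hlim : ∀ r, 0 ≤ r → Tendsto (fun j => v j r) atTop (𝓝 (w r))) (Λ : Set Pt) (n : ℕ) {b : ℝ}
    (hb : 0 ≤ b) (h : ℝ) :
    Tendsto (fun j => J Λ n (bw (v j) b h)) atTop (𝓝 (J Λ n (bw w b h))) := by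
  simp_rw [J_eq_lintegral Λ n (MF1_bw (hv _) b h)]
  rw [J_eq_lintegral Λ n (MF1_bw hw b h)]
  apply lintegral_tendsto_of_tendsto_of_monotone
  · intro j
    exact ((MF1_bw (hv j) b h) n).aemeasurable
  · exact Filter.Eventually.of_forall fun x => mono_bw hanti hb h _
  · exact Filter.Eventually.of_forall fun x => tendsto_bw hlim b h _

theorem mono_J {v : ℕ → ℝ → ℝ} (hanti : ∀ j r, 0 ≤ r → v (j + 1) r ≤ v j r) {Λ : Set Pt}
    (hΛ : MeasurableSet Λ) (n : ℕ) {b : ℝ} (hb : 0 ≤ b) (h : ℝ) :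
    Monotone (fun j => J Λ n (bw (v j) b h)) := by
  intro i j hij
  exact J_mono hΛ n fun l _ _ => mono_bw hanti hb h l hij

theorem tendsto_Xi {v : ℕ → ℝ → ℝ} {w : ℝ → ℝ} (hv : ∀ j, Measurable (v j)) (hw : Measurable w)
    (hanti : ∀ j r, 0 ≤ r → v (j + 1) r ≤ v j r)
    (hlim : ∀ r, 0 ≤ r → Tendsto (fun j => v j r) atTop (𝓝 (w r))) {Λ : Set Pt}
    (hΛ : MeasurableSet Λ) {b : ℝ} (hb : 0 ≤ b) (h : ℝ) :
    Tendsto (fun j => Xi (v j) Λ b h) atTop (𝓝 (Xi w Λ b h)) := by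
  unfold Xi G
  simp_rw [← lintegral_count]
  apply lintegral_tendsto_of_tendsto_of_monotone
  · intro j
    exact (measurable_of_countable _).aemeasurable
  · refine Filter.Eventually.of_forall fun n => ?_
    intro i j hij
    exact mul_le_mul_right (mono_J hanti hΛ n hb h hij) _
  · refine Filter.Eventually.of_forall fun n => ?_
    apply ENNReal.Tendsto.const_mul (tendsto_J hv hw hanti hlim Λ n hb h)
    right
    exact ENNReal.inv_ne_top.2 (by positivity)

theorem tendsto_lx {r₀ B : ℝ} {v : ℕ → ℝ → ℝ} {w : ℝ → ℝ} (hv : ∀ j, Pot r₀ B (v j))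
    (hw : Pot r₀ B w) (hanti : ∀ j r, 0 ≤ r → v (j + 1) r ≤ v j r)
    (hlim : ∀ r, 0 ≤ r → Tendsto (fun j => v j r) atTop (𝓝 (w r))) {L : ℝ} (hL : 0 ≤ L) {b : ℝ}
    (hb : 0 ≤ b) (h : ℝ) : Tendsto (fun j => lx (v j) L b h) atTop (𝓝 (lx w L b h)) := by
  unfold lx
  have h1 := tendsto_Xi (fun j => (hv j).meas) hw.meas hanti hlim (measurableSet_cube L) hb h
  have h2 : Tendsto (fun j => (Xi (v j) (cube L) b h).toReal) atTop
      (𝓝 (Xi w (cube L) b h).toReal) :=
    (ENNReal.tendsto_toReal (Xi_ne_top hw hL hb h)).comp h1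
  apply ((Real.continuousAt_log _).tendsto).comp h2
  exact (ENNReal.toReal_pos (zero_lt_one.trans_le (one_le_Xi w _ b h)).ne'
    (Xi_ne_top hw hL hb h)).ne'

theorem tendsto_press {r₀ B : ℝ} {v : ℕ → ℝ → ℝ} {w : ℝ → ℝ} (hv : ∀ j, Pot r₀ B (v j))
    (hw : Pot r₀ B w) (hanti : ∀ j r, 0 ≤ r → v (j + 1) r ≤ v j r)
    (hlim : ∀ r, 0 ≤ r → Tendsto (fun j => v j r) atTop (𝓝 (w r))) {b h : ℝ} (hb : 0 < b) :
    Tendsto (fun j => press r₀ (v j) b h) atTop (𝓝 (press r₀ w b h)) := by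
  have hr := hw.pos
  have hwv : ∀ j r, 0 ≤ r → w r ≤ v j r := by
    intro j r hr0
    have hanti' : Antitone (fun j => v j r) := antitone_nat_of_succ_le fun j => hanti j r hr0
    exact hanti'.le_of_tendsto (hlim r hr0) j
  have hle : ∀ j, press r₀ (v j) b h ≤ press r₀ w b h := fun j =>
    press_anti_pot hw (hv j) (hwv j) hb.le h
  rw [tendsto_order]
  constructor
  · intro c hc
    unfold press at hc
    obtain ⟨⟨L, hL⟩, hL'⟩ := exists_lt_of_lt_ciSup hc
    simp only at hL'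
    have hL0 : 0 < L := hL
    have h1 : Tendsto (fun j => lx (v j) L b h / (L + r₀) ^ 3) atTop
        (𝓝 (lx w L b h / (L + r₀) ^ 3)) :=
      (tendsto_lx hv hw hanti hlim hL0.le hb.le h).div_const _
    have h2 := (tendsto_order.1 h1).1 c hL'
    filter_upwards [h2] with j hj
    refine lt_of_lt_of_le hj ?_
    rw [div_le_iff₀ (by positivity), mul_comm]
    exact lx_le_press (hv j) hb.le h hL0
  · intro c hc
    exact Filter.Eventually.of_forall fun j => lt_of_le_of_lt (hle j) hc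

end Crest.Agent.H25Lim
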