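import Mathlib
import Crest.Agent.H13KacUp
import Crest.Agent.H13Kink
import Crest.Agent.H25KacLow
import Crest.Agent.H25Bnd
import Crest.Agent.H25Lim
import Crest.Agent.H25AbsG
import Crest.Agent.H19Base
import Crest.Agent.H19Pots

/-!
Final assembly for S0209 and S0210.
-/

set_option autoImplicit false

open MeasureTheory Filter Topology

namespace Crest.Agent.H19Final

open Crest.Agent.H13Conf Crest.Agent.H13Energy Crest.Agent.H13Basic Crest.Agent.H13Cube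
open Crest.Agent.H13Super Crest.Agent.H19Pair Crest.Agent.H19Base Crest.Agent.H19Pots
open Crest.Agent.H13Dec Crest.Agent.H13AbsSpec Crest.Agent.H25Packing Crest.Agent.H13Canon

/-- the three subgradients of a function -/
structure Triple (g : ℝ → ℝ → ℝ) (p bc hc s₀ s₁ s₂ e₀ e₁ e₂ : ℝ) : Prop where
  bc_pos : 0 < bc
  s₀_nonneg : 0 ≤ s₀
  h01 : s₀ < s₁
  h12 : s₁ < s₂
  S0 : Sub g bc hc e₀ s₀
  S1 : Sub g bc hc e₁ s₁
  S2 : Sub g bc hc e₂ s₂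
  strict : (s₂ - s₀) * e₁ < (s₂ - s₁) * e₀ + (s₁ - s₀) * e₂
  loc0 : s₀ < 5 * p / 3
  loc2 : 5 * p / 3 < s₂

theorem exists_s (s₀ : ℝ) (hs₀ : 0 < s₀) : ∃ K₁ : ℝ, ∀ K : ℝ, K₁ ≤ K → 1 ≤ K → ∃ s : ℝ,
    0 < s ∧ 4 * s < 1 ∧ s ≤ s₀ ∧ Real.exp (-K) = 4 / 3 * Real.pi * (4 * s) ^ 3 := by
  have hpi := Real.pi_pos
  refine ⟨-Real.log (4 / 3 * Real.pi * (4 * s₀) ^ 3), fun K hK hK1 => ?_⟩
  set y : ℝ := Real.exp (-K) / (4 / 3 * Real.pi) with hy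
  have hy0 : 0 < y := by positivity
  refine ⟨y ^ ((1 / 3 : ℝ)) / 4, by positivity, ?_, ?_, ?_⟩
  · have h1 : y < 1 := by
      rw [hy, div_lt_one (by positivity)]
      have h2 : Real.exp (-K) ≤ 1 := Real.exp_le_one_iff.2 (by linarith)
      linarith [Real.pi_gt_three]
    have h2 : y ^ ((1 / 3 : ℝ)) < 1 := Real.rpow_lt_one hy0.le h1 (by norm_num)
    linarith
  · have h1 : y ≤ (4 * s₀) ^ 3 := by
      rw [hy, div_le_iff₀ (by positivity)]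
      have h2 : -K ≤ Real.log (4 / 3 * Real.pi * (4 * s₀) ^ 3) := by linarith
      have h3 := Real.exp_le_exp.2 h2
      rw [Real.exp_log (by positivity)] at h3
      linarith
    have h2 : y ^ ((1 / 3 : ℝ)) ≤ ((4 * s₀) ^ 3) ^ ((1 / 3 : ℝ)) :=
      Real.rpow_le_rpow hy0.le h1 (by norm_num)
    have h3 : ((4 * s₀) ^ 3) ^ ((1 / 3 : ℝ)) = 4 * s₀ := by
      rw [← Real.rpow_natCast, ← Real.rpow_mul (by positivity)]
      norm_num
    rw [h3] at h2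
    linarith
  · have h1 : 4 * (y ^ ((1 / 3 : ℝ)) / 4) = y ^ ((1 / 3 : ℝ)) := by ring
    have h2 : (y ^ ((1 / 3 : ℝ))) ^ 3 = y := by
      rw [← Real.rpow_natCast, ← Real.rpow_mul hy0.le]
      norm_num
    rw [h1, h2, hy]
    field_simp

theorem bnd_vv {r₀ s K R0 : ℝ} {φ : ℝ → ℝ} (H : Setup r₀ s K R0 φ) (j : ℕ) :
    Bnd (11680 * 40 * K) (40 * K) (press r₀ (vv φ K R0 j)) := by
  have hK := H.K_pos
  have h := H25Bnd.bnd_press (pot_vv H j) H.r₀_gt.le (κ' := 8 * (40 * K)) (by positivity)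
    (superstable H j)
  have e : 8 * (40 * K) / 8 = 40 * K := by ring
  rwa [e] at h

theorem Rp_ge {r₀ s K R0 : ℝ} {φ : ℝ → ℝ} (H : Setup r₀ s K R0 φ) (j : ℕ) : 1 ≤ Rp R0 j := by
  cases j with
  | zero => simp [Rp]
  | succ j => simp only [Rp]; linarith [H.one_le_Rs j]

theorem as_le_K {r₀ s K R0 : ℝ} {φ : ℝ → ℝ} (H : Setup r₀ s K R0 φ) (j : ℕ) : as K R0 j ≤ K := by
  refine (H.as_le j).trans ?_
  have h1 : ((1 / 2 : ℝ)) ^ j ≤ 1 := pow_le_one₀ (by norm_num) (by norm_num)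
  have := H.K_pos
  nlinarith

theorem exists_triple : ∃ r₀ s K : ℝ, 1 < r₀ ∧ r₀ ≤ 2 ∧ 0 < s ∧ 4 * s < 1 ∧ 1 ≤ K ∧
    ∀ φ : ℝ → ℝ, BasePot r₀ s (2 * 11680 * 40 * K) φ →
      (∀ r, 0 ≤ r → r < 2 * s → 2 * 11680 * 40 * K ≤ φ r) →
      ∃ R0 : ℝ, Setup r₀ s K R0 φ ∧ ∃ bc hc s₀ s₁ s₂ e₀ e₁ e₂ : ℝ,
        Triple (press r₀ (vinf φ K R0)) packDens bc hc s₀ s₁ s₂ e₀ e₁ e₂ := by
  obtain ⟨ε₀, hε₀, hε₁, hA⟩ := H25Abs.abstractKink' packDens 11680 40 packDens_pos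
    (packDens_le.trans (by norm_num)) (by norm_num) (by norm_num)
  obtain ⟨r₀, C₁, s₀, hr1, hr2, hC₁, hs₀, hbase⟩ := base_bounds ε₀ hε₀ hε₁
  obtain ⟨K₀, hK₀⟩ := hA C₁
  obtain ⟨K₁, hK₁⟩ := exists_s s₀ hs₀
  set K : ℝ := max (max K₀ K₁) 1 with hK
  have hKK₀ : K₀ ≤ K := (le_max_left _ _).trans (le_max_left _ _)
  have hKK₁ : K₁ ≤ K := (le_max_right _ _).trans (le_max_left _ _)
  have hK1 : 1 ≤ K := le_max_right _ _
  have hKpos : 0 < K := by linarith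
  obtain ⟨s, hs, h4s, hss₀, hexp⟩ := hK₁ K hKK₁ hK1
  obtain ⟨β₁, β₂, Hh, δ, hβ₁, hβ, hH, hδ, hkink⟩ := hK₀ K hKK₀
  refine ⟨r₀, s, K, hr1, hr2, hs, h4s, hK1, ?_⟩
  intro φ hφ hcore
  have hr0 : 0 < r₀ := by linarith
  obtain ⟨Cu, hCu, hup⟩ := H13KacUp.kac_upper (r₀ := r₀) (B := 11680 * 40 * K) (κ := 40 * K) (K := K)
    (β₁ := β₁) (β₂ := β₂) (H := Hh) hr0 hr2 (by positivity) hKpos (by linarith) hβ₁ hβ.le hH.le
  obtain ⟨Cl, hCl, hlow⟩ := H25KacLow.kac_lower (r₀ := r₀) (B := 11680 * 40 * K) (κ := 40 * K) (K := K)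
    (β₁ := β₁) (β₂ := β₂) (H := Hh) hr0 hr2 (by positivity) hKpos (by linarith) hβ₁ hβ hH
  set Ce : ℝ := max Cu Cl with hCe
  have hCe0 : 0 < Ce := lt_max_of_lt_left hCu
  obtain ⟨R00, hR00, har⟩ := arith K hK1 δ hδ Ce hCe0
  set R0 : ℝ := max R00 (2 ^ 32) with hR0
  obtain ⟨ha1, ha2, ha3, ha4⟩ := har R0 (le_max_left _ _)
  have H : Setup r₀ s K R0 φ := ⟨hφ, hcore, hr1, hr2, hs, h4s, hK1, le_max_right _ _⟩
  refine ⟨R0, H, ?_⟩
  set τ : ℕ → ℝ := fun j => Real.sqrt (Rp R0 j / Rs R0 j) with hτ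
  have hτpos : ∀ j, 0 < τ j := fun j =>
    Real.sqrt_pos.2 (div_pos (by linarith [Rp_ge H j]) (H.Rs_pos j))
  have hτ2 : ∀ j, Rp R0 j = τ j ^ 2 * Rs R0 j := by
    intro j
    have h1 : 0 ≤ Rp R0 j / Rs R0 j := (div_pos (by linarith [Rp_ge H j]) (H.Rs_pos j)).le
    have h2 := H.Rs_pos j
    rw [hτ]
    simp only
    rw [Real.sq_sqrt h1]
    field_simp
  have hstep : ∀ j, ∀ b h : ℝ, β₁ ≤ b → b ≤ β₂ → |h| ≤ Hh →
      |press r₀ (vv φ K R0 (j + 1)) b h - supConv (as K R0 j) (press r₀ (vv φ K R0 j)) b h| ≤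
        Ce * τ j / as K R0 j := by
    intro j b h hb1 hb2 hh
    have e1 : vv φ K R0 (j + 1) = fun r => vv φ K R0 j r - as K R0 j * kac (Rs R0 j) r :=
      vv_succ_fun φ K R0 j
    have hp1 : Pot r₀ (11680 * 40 * K) (fun r => vv φ K R0 j r - as K R0 j * kac (Rs R0 j) r) := by
      rw [← e1]; exact pot_vv H (j + 1)
    have hb' : Bnd (11680 * 40 * K) (40 * K)
        (press r₀ (fun r => vv φ K R0 j r - as K R0 j * kac (Rs R0 j) r)) := by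
      rw [← e1]; exact bnd_vv H (j + 1)
    have h1 := hup (vv φ K R0 j) (Rp R0 j) (Rs R0 j) (as K R0 j) (τ j) (pot_vv H j) hp1
      (range_all H j) (Am_le H j) (bnd_vv H j) (Rp_ge H j) (H.as_pos j) (as_le_K H j) (hτpos j)
      (ha3 j) (hτ2 j) b h hb1 hb2 hh
    have h2 := hlow (vv φ K R0 j) (Rp R0 j) (Rs R0 j) (as K R0 j) (τ j) (pot_vv H j) hp1
      (range_all H j) (Am_le H j) (bnd_vv H j) hb' (Rp_ge H j) (H.as_pos j) (as_le_K H j) (hτpos j)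
      (ha3 j) (hτ2 j) b h hb1 hb2 hh
    have ha := H.as_pos j
    have ht := (hτpos j).le
    have h3 : Cu * τ j / as K R0 j ≤ Ce * τ j / as K R0 j := by
      gcongr
      exact le_max_left _ _
    have h4 : Cl * τ j / as K R0 j ≤ Ce * τ j / as K R0 j := by
      gcongr
      exact le_max_right _ _
    rw [e1, abs_le]
    constructor <;> linarith
  have hU : K ≤ 1 / (4 * (2 * 11680 + 1)) * (2 * 11680 * 40 * K) := by
    have : (1 : ℝ) / (4 * (2 * 11680 + 1)) * (2 * 11680 * 40 * K) = (934400 / 93444) * K := by ring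
    rw [this]
    nlinarith
  have hb0 : Base packDens ((1 - ε₀) * packDens) K C₁ (1 / (4 * (2 * 11680 + 1))) (press r₀ φ) :=
    hbase s (2 * 11680 * 40 * K) K (1 / (4 * (2 * 11680 + 1))) φ hφ hs hss₀ hKpos.le (by norm_num) hU hexp
  obtain ⟨bc, hc, t₀, t₁, t₂, e₀, e₁, e₂, -, -, -, -, -, hbc, ht0, ht01, ht12, S0, S1, S2, hst, -, -, -,
    -, hl0, hl2⟩ := hkink (as K R0) (fun j => Ce * τ j / as K R0 j)
      (fun j => press r₀ (vv φ K R0 j)) (press r₀ (vinf φ K R0)) (as_zero K R0) H.as_pos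
      (fun j => by have := H.as_pos j; have := hτpos j; positivity) ha1 ha2 (bnd_vv H)
      (by simp only [vv_zero]; exact hb0) hstep
      (fun b h hb => H25Lim.tendsto_press (pot_vv H) (pot_vinf H) (fun j r _ => vv_anti H j r)
        (fun r _ => tendsto_vv H r) hb)
  exact ⟨bc, hc, t₀, t₁, t₂, e₀, e₁, e₂, hbc, ht0, ht01, ht12, S0, S1, S2, hst, hl0, hl2⟩

theorem energy_stab {r₀ B c : ℝ} {v : ℝ → ℝ} (hv : Pot r₀ B v) (hc : 0 < c) (N : ℕ)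
    (x : Fin N → Pt) : -(c * B) * N ≤ Crest.ProbabilityR.Continuum.energy (fun r => c * v r) x := by
  rw [H13Kink.energy_const_mul, energy_eq]
  have h := hv.stab (List.ofFn x)
  rw [List.length_ofFn] at h
  have := mul_le_mul_of_nonneg_left h hc.le
  linarith

theorem s0209 :
    ∃ φ : ℝ → ℝ, Continuous φ ∧ (∃ M : ℝ, ∀ r : ℝ, |φ r| ≤ M) ∧
      (∃ B : ℝ, ∀ (N : ℕ) (x : Fin N → Crest.ProbabilityR.Continuum.Pt), -B * N ≤ Crest.ProbabilityR.Continuum.energy φ x) ∧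
      (∃ C : ℝ, ∀ r : ℝ, 1 ≤ r → |φ r| ≤ C * r ^ (-(3 + 1 / 32 : ℝ))) ∧
      ∃ p η βc : ℝ, 0 < p ∧
        Filter.Tendsto (fun L : ℝ => (Crest.ProbabilityR.Continuum.packingNumber L : ℝ) / L ^ 3)
          Filter.atTop (nhds p) ∧
        0 < η ∧ η ≤ 5 * p / 3 ∧ 7 / 8 ≤ βc ∧ βc ≤ 9 / 8 ∧
        ∃ f : ℝ → ℝ → ℝ,
          (∀ ρ : ℝ, 5 * p / 3 - η < ρ → ρ < 5 * p / 3 + η → ∀ β : ℝ, 0 < β →
            Filter.Tendsto (fun L : ℝ => -(1 / (β * L ^ 3)) *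
                Real.log (Crest.ProbabilityR.Continuum.partitionFn φ L ⌊ρ * L ^ 3⌋₊ β))
              Filter.atTop (nhds (f β ρ))) ∧
          (∀ ρ : ℝ, 5 * p / 3 - η < ρ → ρ < 5 * p / 3 + η → ∃ Dl Dr : ℝ,
            HasDerivWithinAt (fun β => f β ρ) Dl (Set.Iio βc) βc ∧
            HasDerivWithinAt (fun β => f β ρ) Dr (Set.Ioi βc) βc ∧ Dr < Dl) := by
  obtain ⟨r₀, s, K, hr1, hr2, hs, h4s, hK, hmain⟩ := exists_triple
  obtain ⟨φ, hφ, hcore, hcont, M, hM⟩ := exists_phi (r₀ := r₀) (U := 2 * 11680 * 40 * K) hs h4s hr1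
    (by positivity)
  obtain ⟨R0, H, bc, hc, s₀, s₁, s₂, e₀, e₁, e₂, T⟩ := hmain φ hφ hcore
  have hpot := pot_vinf H
  have hbc := T.bc_pos
  have hp := packDens_pos
  refine ⟨fun r => bc * vinf φ K R0 r, (continuous_vinf H hcont).const_mul bc, ?_, ?_, ?_, ?_⟩
  · obtain ⟨M', hM'⟩ := bounded_vinf H ⟨M, hM⟩
    refine ⟨bc * M', fun r => ?_⟩
    rw [abs_mul, abs_of_pos hbc]
    exact mul_le_mul_of_nonneg_left (hM' r) hbc.le
  · exact ⟨bc * (11680 * 40 * K), fun N x => energy_stab hpot hbc N x⟩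
  · obtain ⟨C, hC⟩ := decay_vinf H ⟨M, fun r _ => hM r⟩
    refine ⟨bc * C, fun r hr => ?_⟩
    rw [abs_mul, abs_of_pos hbc, mul_assoc]
    exact mul_le_mul_of_nonneg_left (hC r hr) hbc.le
  · set η : ℝ := min (min (5 * packDens / 3 - s₀) (s₂ - 5 * packDens / 3)) (5 * packDens / 3) with hη
    have hη1 : η ≤ 5 * packDens / 3 - s₀ := (min_le_left _ _).trans (min_le_left _ _)
    have hη2 : η ≤ s₂ - 5 * packDens / 3 := (min_le_left _ _).trans (min_le_right _ _)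
    have hη3 : η ≤ 5 * packDens / 3 := min_le_right _ _
    have hη0 : 0 < η := lt_min (lt_min (by linarith [T.loc0]) (by linarith [T.loc2])) (by positivity)
    refine ⟨packDens, η, 1, hp, tendsto_packing, hη0, hη3, by norm_num, by norm_num,
      fun β ρ => -(Pc r₀ (vinf φ K R0) (bc * β) ρ / β), ?_, ?_⟩
    · intro ρ h1 h2 β hβ
      exact H13Kink.tendsto_free_energy hpot hbc (by linarith) hβ
    · intro ρ h1 h2
      exact H13Kink.free_energy_jump hpot hbc T.h01 T.h12 T.S0 T.S1 T.S2 T.strict (by linarith)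
        (by linarith) (by linarith)

theorem s0210 :
    ∃ φ : ℝ → ℝ, Measurable φ ∧
      (∀ a b : ℝ, 0 < a → a ≤ b → ∃ M : ℝ, ∀ r : ℝ, a ≤ r → r ≤ b → |φ r| ≤ M) ∧
      Filter.Tendsto φ (nhdsWithin 0 (Set.Ioi 0)) Filter.atTop ∧
      (∃ r₁ r₂ a : ℝ, 0 < r₁ ∧ r₁ < r₂ ∧ 0 < a ∧ ∀ r : ℝ, r₁ ≤ r → r ≤ r₂ → φ r ≤ -a) ∧
      (∃ R : ℝ, 0 < R ∧ MeasureTheory.IntegrableOn (fun r : ℝ => r ^ 2 * |φ r|) (Set.Ioi R)) ∧
      Filter.Tendsto (fun r : ℝ => r ^ 3 * φ r) Filter.atTop (nhds 0) ∧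
      (∃ B : ℝ, ∀ (N : ℕ) (x : Fin N → Crest.ProbabilityR.Continuum.Pt), Function.Injective x →
        -B * N ≤ Crest.ProbabilityR.Continuum.energy φ x) ∧
      ∃ f : ℝ → ℝ → ℝ,
        (∀ ρ : ℝ, 0 < ρ → ∀ β : ℝ, 0 < β →
          Filter.Tendsto (fun L : ℝ => -(1 / (β * L ^ 3)) *
              Real.log (Crest.ProbabilityR.Continuum.partitionFn φ L ⌊ρ * L ^ 3⌋₊ β))
            Filter.atTop (nhds (f β ρ))) ∧
        ∃ ρ₁ ρ₂ βc : ℝ, 0 ≤ ρ₁ ∧ ρ₁ < ρ₂ ∧ 1 / 2 < βc ∧ βc < 3 / 2 ∧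
          ∀ ρ : ℝ, ρ₁ < ρ → ρ < ρ₂ → ∃ Dl Dr : ℝ,
            HasDerivWithinAt (fun β => f β ρ) Dl (Set.Iio βc) βc ∧
            HasDerivWithinAt (fun β => f β ρ) Dr (Set.Ioi βc) βc ∧ Dr < Dl := by
  obtain ⟨r₀, s, K, hr1, hr2, hs, h4s, hK, hmain⟩ := exists_triple
  obtain ⟨φ, hφ, hcore, hlb, hM, hdiv⟩ := exists_phi_div (r₀ := r₀) (U := 2 * 11680 * 40 * K) hs h4s hr1
    (by positivity)
  obtain ⟨R0, H, bc, hc, s₀, s₁, s₂, e₀, e₁, e₂, T⟩ := hmain φ hφ hcore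
  have hpot := pot_vinf H
  have hbc := T.bc_pos
  refine ⟨fun r => bc * vinf φ K R0 r, (measurable_vinf H).const_mul bc, ?_, ?_, ?_, ?_, ?_, ?_, ?_⟩
  · intro a b ha hab
    obtain ⟨M', hM'⟩ := locally_bounded_vinf H hlb a b ha hab
    refine ⟨bc * M', fun r h1 h2 => ?_⟩
    rw [abs_mul, abs_of_pos hbc]
    exact mul_le_mul_of_nonneg_left (hM' r h1 h2) hbc.le
  · exact (tendsto_vinf_zero H hdiv).const_mul_atTop hbc
  · obtain ⟨r₁, r₂, a, h1, h2, h3, h4⟩ := vinf_neg H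
    refine ⟨r₁, r₂, bc * a, h1, h2, by positivity, fun r h5 h6 => ?_⟩
    have := mul_le_mul_of_nonneg_left (h4 r h5 h6) hbc.le
    linarith
  · obtain ⟨R, hR, hint⟩ := integrable_vinf H hM
    refine ⟨R, hR, ?_⟩
    have e : (fun r : ℝ => r ^ 2 * |bc * vinf φ K R0 r|) =
        fun r : ℝ => bc * (r ^ 2 * |vinf φ K R0 r|) := by
      funext r
      rw [abs_mul, abs_of_pos hbc]
      ring
    rw [e]
    exact hint.const_mul bc
  · have h1 := (tendsto_cube_vinf H hM).const_mul bc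
    rw [mul_zero] at h1
    refine h1.congr fun r => ?_
    ring
  · exact ⟨bc * (11680 * 40 * K), fun N x _ => energy_stab hpot hbc N x⟩
  · refine ⟨fun β ρ => -(Pc r₀ (vinf φ K R0) (bc * β) ρ / β), ?_, s₀, s₂, 1, T.s₀_nonneg,
      T.h01.trans T.h12, by norm_num, by norm_num, ?_⟩
    · intro ρ hρ β hβ
      exact H13Kink.tendsto_free_energy hpot hbc hρ hβ
    · intro ρ h1 h2
      exact H13Kink.free_energy_jump hpot hbc T.h01 T.h12 T.S0 T.S1 T.S2 T.strict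
        (lt_of_le_of_lt T.s₀_nonneg h1) h1 h2

end Crest.Agent.H19Final
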