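import Mathlib

set_option autoImplicit false
set_option linter.unusedSectionVars false
open Finset
open scoped Pointwise

namespace Crest.Agent.H19KK

section bil
variable {E : Type} [Fintype E] [DecidableEq E] {α β : Type}

/-- number of members of the family containing `I` (real valued). -/
noncomputable def cnt (s : Finset α) (X : α → Finset E) (I : Finset E) : ℝ :=
  ∑ a ∈ s, if I ⊆ X a then (1:ℝ) else 0

lemma cnt_nonneg (s : Finset α) (X : α → Finset E) (I : Finset E) : 0 ≤ cnt s X I :=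
  Finset.sum_nonneg (fun a _ => by split <;> norm_num)

lemma cnt_eq_card (s : Finset α) (X : α → Finset E) (I : Finset E) :
    cnt s X I = ((s.filter (fun a => I ⊆ X a)).card : ℝ) := by
  unfold cnt; rw [Finset.card_filter]; push_cast; rfl

lemma two_pow_card (X Y : Finset E) :
    (2:ℝ) ^ (X ∩ Y).card = ∑ I : Finset E, (if I ⊆ X then (1:ℝ) else 0) * (if I ⊆ Y then (1:ℝ) else 0) := by
  have h1 : ∑ I : Finset E, (if I ⊆ X then (1:ℝ) else 0) * (if I ⊆ Y then (1:ℝ) else 0)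
      = ∑ I : Finset E, if I ∈ (X ∩ Y).powerset then (1:ℝ) else 0 := by
    refine Finset.sum_congr rfl (fun I _ => ?_)
    simp only [Finset.mem_powerset, Finset.subset_inter_iff]
    by_cases h1 : I ⊆ X <;> by_cases h2 : I ⊆ Y <;> simp [h1, h2]
  rw [h1, Finset.sum_ite_mem, Finset.univ_inter, Finset.sum_const, Finset.card_powerset]
  simp

lemma bil (s : Finset α) (t : Finset β) (X : α → Finset E) (Y : β → Finset E) :
    ∑ a ∈ s, ∑ b ∈ t, (2:ℝ) ^ (X a ∩ Y b).card = ∑ I : Finset E, cnt s X I * cnt t Y I := by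
  simp only [two_pow_card, cnt, Finset.sum_mul_sum]
  calc _ = ∑ a ∈ s, ∑ I : Finset E, ∑ b ∈ t,
        (if I ⊆ X a then (1:ℝ) else 0) * (if I ⊆ Y b then (1:ℝ) else 0) :=
        Finset.sum_congr rfl (fun a _ => Finset.sum_comm)
    _ = _ := Finset.sum_comm

end bil

section grp
variable {G E : Type} [Group G] [Fintype G] [Fintype E] [DecidableEq E] [MulAction G E]

/-- the kernel sum `∑_{g,g'∈Γ} 2^{|gV ∩ g'V|}` -/
noncomputable def S2 (Γ : Finset G) (V : Finset E) : ℝ :=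
  ∑ g ∈ Γ, ∑ g' ∈ Γ, (2:ℝ) ^ (g • V ∩ g' • V).card

lemma S2_eq (Γ : Finset G) (V : Finset E) :
    S2 Γ V = ∑ I : Finset E, (cnt Γ (fun g => g • V) I) ^ 2 := by
  unfold S2
  rw [bil Γ Γ (fun g => g • V) (fun g => g • V)]
  exact Finset.sum_congr rfl (fun I _ => by ring)

lemma S2_nonneg (Γ : Finset G) (V : Finset E) : 0 ≤ S2 Γ V :=
  Finset.sum_nonneg (fun _ _ => Finset.sum_nonneg (fun _ _ => by positivity))

/-- `|Γ|^2 ≤ S2` -/
lemma card_sq_le_S2 (Γ : Finset G) (V : Finset E) : ((Γ.card : ℝ)) ^ 2 ≤ S2 Γ V := by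
  have : ∑ g ∈ Γ, ∑ g' ∈ Γ, (1:ℝ) ≤ S2 Γ V :=
    Finset.sum_le_sum (fun g _ => Finset.sum_le_sum (fun g' _ => one_le_pow₀ (by norm_num)))
  simpa [sq] using this

lemma card_add_le_S2 (Γ : Finset G) (V : Finset E) (hV : V.Nonempty) :
    ((Γ.card : ℝ)) ^ 2 + Γ.card ≤ S2 Γ V := by
  classical
  have h1 : ∀ g ∈ Γ, ((Γ.card : ℝ)) + 1 ≤ ∑ g' ∈ Γ, (2:ℝ) ^ (g • V ∩ g' • V).card := by
    intro g hg
    have h2 : ∑ g' ∈ Γ, ((1:ℝ) + if g' = g then 1 else 0) ≤ ∑ g' ∈ Γ, (2:ℝ) ^ (g • V ∩ g' • V).card := by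
      refine Finset.sum_le_sum (fun g' _ => ?_)
      split_ifs with h
      · subst h
        rw [Finset.inter_self, Finset.card_smul_finset]
        have : 1 ≤ V.card := hV.card_pos
        calc (1:ℝ) + 1 = 2 ^ 1 := by norm_num
          _ ≤ 2 ^ V.card := pow_le_pow_right₀ (by norm_num) this
      · rw [add_zero]; exact one_le_pow₀ (by norm_num)
    rw [Finset.sum_add_distrib] at h2
    simpa [hg] using h2
  calc ((Γ.card : ℝ)) ^ 2 + Γ.card = ∑ g ∈ Γ, (((Γ.card : ℝ)) + 1) := by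
        rw [Finset.sum_const, nsmul_eq_mul]; ring
    _ ≤ _ := Finset.sum_le_sum h1

/-- Lemma L1 (pair bound). -/
lemma pair_bound (H : Finset E) (q R : ℝ) (hq : 0 < q) (hR : 0 < R)
    (A1 : ∀ V : Finset E, ((univ.filter (fun g : G => g • V ⊆ H)).card : ℝ) ≤ R * q ^ V.card)
    (Γ : Finset G) (V : Finset E) (hΓ : ∀ g ∈ Γ, g • V ⊆ H) :
    (Γ.card : ℝ) ^ 2 * ∑ h : G, R * q ^ (V ∪ h • V).card ≤ (R * q ^ V.card) ^ 2 * S2 Γ V := by
  classical
  set a : Finset E → ℝ := cnt Γ (fun g => g • V) with ha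
  set c : Finset E → ℝ := fun I => ((univ.filter (fun k : G => k • I ⊆ V)).card : ℝ) with hc
  have hG : (0:ℝ) < Fintype.card G := by exact_mod_cast Fintype.card_pos
  -- sum over k of a (k•I)
  have h1 : ∀ I : Finset E, ∑ k : G, a (k • I) = Γ.card * c I := by
    intro I
    simp only [ha, cnt, hc]
    rw [Finset.sum_comm]
    rw [Finset.card_filter]
    push_cast
    rw [← nsmul_eq_mul, ← Finset.sum_const]
    refine Finset.sum_congr rfl (fun g _ => ?_)
    rw [← Equiv.sum_comp (Equiv.mulLeft g) (fun k : G => if k • I ⊆ g • V then (1:ℝ) else 0)]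
    refine Finset.sum_congr rfl (fun k _ => ?_)
    simp only [Equiv.coe_mulLeft, mul_smul, Finset.smul_finset_subset_smul_finset_iff]
  -- Cauchy Schwarz
  have h2 : ∀ I : Finset E, ((Γ.card : ℝ) * c I) ^ 2 ≤ (R * q ^ I.card) * ∑ k : G, (a (k • I)) ^ 2 := by
    intro I
    rw [← h1 I]
    have hsupp : ∑ k : G, a (k • I) = ∑ k ∈ univ.filter (fun k : G => k • I ⊆ H), a (k • I) := by
      symm
      refine Finset.sum_filter_of_ne (fun k _ hk => ?_)
      by_contra hcon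
      apply hk
      simp only [ha, cnt]
      refine Finset.sum_eq_zero (fun g hg => ?_)
      rw [if_neg]
      intro hsub
      exact hcon (hsub.trans (hΓ g hg))
    rw [hsupp]
    calc (∑ k ∈ univ.filter (fun k : G => k • I ⊆ H), a (k • I)) ^ 2
        ≤ ((univ.filter (fun k : G => k • I ⊆ H)).card : ℝ) * ∑ k ∈ univ.filter (fun k : G => k • I ⊆ H), (a (k • I)) ^ 2 :=
          sq_sum_le_card_mul_sum_sq
      _ ≤ (R * q ^ I.card) * ∑ k : G, (a (k • I)) ^ 2 := by
          refine mul_le_mul (A1 I) ?_ (Finset.sum_nonneg (fun _ _ => sq_nonneg _)) (by positivity)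
          exact Finset.sum_le_sum_of_subset_of_nonneg (Finset.filter_subset _ _) (fun _ _ _ => sq_nonneg _)
  -- sum over I
  have h3 : ∑ I : Finset E, ∑ k : G, (a (k • I)) ^ 2 = Fintype.card G * S2 Γ V := by
    rw [Finset.sum_comm, S2_eq]
    have : ∀ k : G, ∑ I : Finset E, (a (k • I)) ^ 2 = ∑ I : Finset E, (a I) ^ 2 := fun k =>
      Equiv.sum_comp (MulAction.toPerm k : Equiv.Perm (Finset E)) (fun I => (a I) ^ 2)
    simp only [this, Finset.sum_const, nsmul_eq_mul, Finset.card_univ]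
    rw [ha]
  -- lower bound of sum of c^2
  have h4 : (Fintype.card G : ℝ) * ∑ h : G, (q⁻¹) ^ (V ∩ h • V).card ≤ ∑ I : Finset E, (q⁻¹) ^ I.card * (c I) ^ 2 := by
    have e1 : ∀ I : Finset E, (c I) ^ 2 = ∑ k : G, ∑ k' : G, (if I ⊆ k • V ∩ k' • V then (1:ℝ) else 0) := by
      intro I
      have hcI : c I = ∑ k : G, if I ⊆ k • V then (1:ℝ) else 0 := by
        simp only [hc, Finset.card_filter]
        push_cast
        rw [← Equiv.sum_comp (Equiv.inv G)]
        refine Finset.sum_congr rfl (fun k _ => ?_)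
        simp only [Equiv.inv_apply]
        have : (k⁻¹ • I ⊆ V) ↔ (I ⊆ k • V) := by
          rw [Finset.subset_smul_finset_iff]
        simp only [this]
      rw [hcI, sq, Finset.sum_mul_sum]
      refine Finset.sum_congr rfl (fun k _ => Finset.sum_congr rfl (fun k' _ => ?_))
      simp only [Finset.subset_inter_iff]
      by_cases u1 : I ⊆ k • V <;> by_cases u2 : I ⊆ k' • V <;> simp [u1, u2]
    have e2 : ∑ I : Finset E, (q⁻¹) ^ I.card * (c I) ^ 2
        = ∑ k : G, ∑ k' : G, ∑ I : Finset E, (q⁻¹) ^ I.card * (if I ⊆ k • V ∩ k' • V then (1:ℝ) else 0) := by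
      simp only [e1, Finset.mul_sum]
      rw [Finset.sum_comm]
      refine Finset.sum_congr rfl (fun k _ => ?_)
      rw [Finset.sum_comm]
    rw [e2]
    have e3 : (Fintype.card G : ℝ) * ∑ h : G, (q⁻¹) ^ (V ∩ h • V).card
        = ∑ k : G, ∑ k' : G, (q⁻¹) ^ (k • V ∩ k' • V).card := by
      rw [← nsmul_eq_mul, ← Finset.card_univ, ← Finset.sum_const]
      refine Finset.sum_congr rfl (fun k _ => ?_)
      rw [← Equiv.sum_comp (Equiv.mulLeft k) (fun k' : G => (q⁻¹) ^ (k • V ∩ k' • V).card)]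
      refine Finset.sum_congr rfl (fun h _ => ?_)
      simp only [Equiv.coe_mulLeft, mul_smul]
      rw [← Finset.smul_finset_inter, Finset.card_smul_finset]
    rw [e3]
    refine Finset.sum_le_sum (fun k _ => Finset.sum_le_sum (fun k' _ => ?_))
    have := Finset.single_le_sum (s := (univ : Finset (Finset E)))
      (f := fun I => (q⁻¹) ^ I.card * (if I ⊆ k • V ∩ k' • V then (1:ℝ) else 0))
      (fun I _ => by positivity) (Finset.mem_univ (k • V ∩ k' • V))
    simpa using this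
  -- combine
  have h5 : (Γ.card : ℝ) ^ 2 * ∑ I : Finset E, (q⁻¹) ^ I.card * (c I) ^ 2 ≤ R * (Fintype.card G * S2 Γ V) := by
    rw [← h3, Finset.mul_sum, Finset.mul_sum]
    refine Finset.sum_le_sum (fun I _ => ?_)
    have := h2 I
    have hqI : (0:ℝ) < q ^ I.card := by positivity
    calc (Γ.card : ℝ) ^ 2 * ((q⁻¹) ^ I.card * (c I) ^ 2) = (q ^ I.card)⁻¹ * ((Γ.card : ℝ) * c I) ^ 2 := by
          rw [inv_pow]; ring
      _ ≤ (q ^ I.card)⁻¹ * ((R * q ^ I.card) * ∑ k : G, (a (k • I)) ^ 2) :=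
          mul_le_mul_of_nonneg_left this (by positivity)
      _ = R * ∑ k : G, (a (k • I)) ^ 2 := by field_simp
  have h6 : (Γ.card : ℝ) ^ 2 * ∑ h : G, (q⁻¹) ^ (V ∩ h • V).card ≤ R * S2 Γ V := by
    have := mul_le_mul_of_nonneg_left h4 (sq_nonneg (Γ.card : ℝ))
    have h7 := this.trans h5
    have h8 : (Fintype.card G : ℝ) * ((Γ.card : ℝ) ^ 2 * ∑ h : G, (q⁻¹) ^ (V ∩ h • V).card)
        ≤ (Fintype.card G : ℝ) * (R * S2 Γ V) := by nlinarith [h7]
    exact le_of_mul_le_mul_left h8 hG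
  have h9 : ∀ h : G, R * q ^ (V ∪ h • V).card = (R * (q ^ V.card) ^ 2) * (q⁻¹) ^ (V ∩ h • V).card := by
    intro h
    have hcard : (V ∪ h • V).card + (V ∩ h • V).card = V.card + V.card := by
      rw [Finset.card_union_add_card_inter, Finset.card_smul_finset]
    have : q ^ (V ∪ h • V).card * q ^ (V ∩ h • V).card = (q ^ V.card) ^ 2 := by
      rw [← pow_add, hcard, pow_add, sq]
    have hp : (0:ℝ) < q ^ (V ∩ h • V).card := by positivity
    rw [← this, inv_pow]; field_simp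
  simp only [h9]
  rw [← Finset.mul_sum]
  have hpos : (0:ℝ) ≤ R * (q ^ V.card) ^ 2 := by positivity
  calc (Γ.card : ℝ) ^ 2 * (R * (q ^ V.card) ^ 2 * ∑ h : G, (q⁻¹) ^ (V ∩ h • V).card)
      = (R * (q ^ V.card) ^ 2) * ((Γ.card : ℝ) ^ 2 * ∑ h : G, (q⁻¹) ^ (V ∩ h • V).card) := by ring
    _ ≤ (R * (q ^ V.card) ^ 2) * (R * S2 Γ V) := mul_le_mul_of_nonneg_left h6 hpos
    _ = (R * q ^ V.card) ^ 2 * S2 Γ V := by ring

end grp

end Crest.Agent.H19KK
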