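import Mathlib
import Crest.Agent.H19KKBase

set_option autoImplicit false
set_option linter.unusedSectionVars false
open Finset
open scoped Pointwise

namespace Crest.Agent.H19KK

section fam
variable {E : Type} [Fintype E] [DecidableEq E] {α : Type} [DecidableEq α]

/-- `∑_{a,b} 2^{|X a ∩ X b|}` over a family -/
noncomputable def Q2 (s : Finset α) (X : α → Finset E) : ℝ :=
  ∑ a ∈ s, ∑ b ∈ s, (2:ℝ) ^ (X a ∩ X b).card

lemma Q2_eq (s : Finset α) (X : α → Finset E) : Q2 s X = ∑ I : Finset E, (cnt s X I) ^ 2 := by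
  unfold Q2
  rw [bil s s X X]
  exact Finset.sum_congr rfl (fun I _ => by ring)

lemma Q2_nonneg (s : Finset α) (X : α → Finset E) : 0 ≤ Q2 s X :=
  Finset.sum_nonneg (fun _ _ => Finset.sum_nonneg (fun _ _ => by positivity))

/-- degree -/
noncomputable def deg (s : Finset α) (X : α → Finset E) (c : α) : ℝ :=
  ∑ a ∈ s, (2:ℝ) ^ (X a ∩ X c).card

lemma deg_nonneg (s : Finset α) (X : α → Finset E) (c : α) : 0 ≤ deg s X c :=
  Finset.sum_nonneg (fun _ _ => by positivity)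

lemma sum_deg (s s0 : Finset α) (X : α → Finset E) :
    ∑ c ∈ s0, deg s X c = ∑ I : Finset E, cnt s X I * cnt s0 X I := by
  unfold deg
  rw [Finset.sum_comm, bil s s0 X X]

lemma sum_deg_le (s s0 : Finset α) (X : α → Finset E) :
    ∑ c ∈ s0, deg s X c ≤ √(Q2 s X) * √(Q2 s0 X) := by
  rw [sum_deg, Q2_eq, Q2_eq]
  exact Real.sum_mul_le_sqrt_mul_sqrt _ _ _

lemma sum_deg_self (s : Finset α) (X : α → Finset E) : ∑ c ∈ s, deg s X c = Q2 s X := by
  unfold deg Q2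
  rw [Finset.sum_comm]

/-- `∑_c deg(c)^2 ≥ Q2^2 / |s|` -/
lemma deg_sq_lower (s : Finset α) (X : α → Finset E) :
    (Q2 s X) ^ 2 ≤ (s.card : ℝ) * ∑ c ∈ s, (deg s X c) ^ 2 := by
  rw [← sum_deg_self]
  exact sq_sum_le_card_mul_sum_sq

/-- sum over triples of `2^{|(X a ∪ X b) ∩ X c|}` -/
noncomputable def Q21 (s : Finset α) (X : α → Finset E) : ℝ :=
  ∑ c ∈ s, ∑ a ∈ s, ∑ b ∈ s, (2:ℝ) ^ ((X a ∪ X b) ∩ X c).card

noncomputable def cnt2 (s : Finset α) (X : α → Finset E) (I : Finset E) : ℝ :=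
  ∑ a ∈ s, ∑ b ∈ s, if I ⊆ X a ∪ X b then (1:ℝ) else 0

/-- sum over quadruples of `2^{|(X a ∪ X b) ∩ (X c ∪ X d)|}` -/
noncomputable def Q22 (s : Finset α) (X : α → Finset E) : ℝ :=
  ∑ I : Finset E, (cnt2 s X I) ^ 2

lemma Q21_eq (s : Finset α) (X : α → Finset E) :
    Q21 s X = ∑ I : Finset E, cnt2 s X I * cnt s X I := by
  have h := bil (s ×ˢ s) s (fun p : α × α => X p.1 ∪ X p.2) X
  have h1 : ∀ I : Finset E, cnt (s ×ˢ s) (fun p : α × α => X p.1 ∪ X p.2) I = cnt2 s X I := by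
    intro I; unfold cnt cnt2; rw [Finset.sum_product]
  simp only [h1] at h
  rw [← h, Finset.sum_product]
  unfold Q21
  rw [Finset.sum_comm]
  refine Finset.sum_congr rfl (fun a _ => ?_)
  rw [Finset.sum_comm]

lemma Q21_le (s : Finset α) (X : α → Finset E) :
    Q21 s X ≤ √(Q22 s X) * √(Q2 s X) := by
  rw [Q21_eq, Q2_eq]
  exact Real.sum_mul_le_sqrt_mul_sqrt _ _ _

/-- members of `s` containing `T` -/
def sub (s : Finset α) (X : α → Finset E) (T : Finset E) : Finset α := s.filter (fun a => T ⊆ X a)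

lemma pointwise (X Y Z : Finset E) (t : ℕ) (ht : 1 ≤ t) :
    (2:ℝ) ^ (X ∩ Z).card * (2:ℝ) ^ (Y ∩ Z).card ≤
      (2:ℝ) ^ (t - 1) * (2:ℝ) ^ ((X ∪ Y) ∩ Z).card
      + ∑ T ∈ (univ : Finset E).powersetCard t,
        (if T ⊆ X then (1:ℝ) else 0) * (if T ⊆ Y then (1:ℝ) else 0) * (if T ⊆ Z then (1:ℝ) else 0) *
          ((2:ℝ) ^ (X ∩ Z).card * (2:ℝ) ^ (Y ∩ Z).card) := by
  by_cases h : t ≤ (X ∩ Y ∩ Z).card
  · obtain ⟨T, hT, hTc⟩ := Finset.exists_subset_card_eq h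
    have h1 : (2:ℝ) ^ (X ∩ Z).card * (2:ℝ) ^ (Y ∩ Z).card ≤ ∑ T ∈ (univ : Finset E).powersetCard t,
        (if T ⊆ X then (1:ℝ) else 0) * (if T ⊆ Y then (1:ℝ) else 0) * (if T ⊆ Z then (1:ℝ) else 0) *
          ((2:ℝ) ^ (X ∩ Z).card * (2:ℝ) ^ (Y ∩ Z).card) := by
      have hmem : T ∈ (univ : Finset E).powersetCard t := by
        rw [Finset.mem_powersetCard]; exact ⟨Finset.subset_univ _, hTc⟩
      have := Finset.single_le_sum (s := (univ : Finset E).powersetCard t)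
        (f := fun T => (if T ⊆ X then (1:ℝ) else 0) * (if T ⊆ Y then (1:ℝ) else 0) * (if T ⊆ Z then (1:ℝ) else 0) *
          ((2:ℝ) ^ (X ∩ Z).card * (2:ℝ) ^ (Y ∩ Z).card)) (fun T _ => by positivity) hmem
      have hX : T ⊆ X := fun e he => by have := hT he; simp only [Finset.mem_inter] at this; exact this.1.1
      have hY : T ⊆ Y := fun e he => by have := hT he; simp only [Finset.mem_inter] at this; exact this.1.2
      have hZ : T ⊆ Z := fun e he => by have := hT he; simp only [Finset.mem_inter] at this; exact this.2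
      simpa [hX, hY, hZ] using this
    have h2 : (0:ℝ) ≤ (2:ℝ) ^ (t - 1) * (2:ℝ) ^ ((X ∪ Y) ∩ Z).card := by positivity
    linarith
  · push Not at h
    have hc : (X ∩ Z).card + (Y ∩ Z).card = ((X ∪ Y) ∩ Z).card + (X ∩ Y ∩ Z).card := by
      rw [Finset.union_inter_distrib_right, ← Finset.card_union_add_card_inter]
      congr 2
      ext e; simp only [Finset.mem_inter]; tauto
    have h1 : (2:ℝ) ^ (X ∩ Z).card * (2:ℝ) ^ (Y ∩ Z).card ≤ (2:ℝ) ^ (t - 1) * (2:ℝ) ^ ((X ∪ Y) ∩ Z).card := by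
      rw [← pow_add, ← pow_add, hc]
      exact pow_le_pow_right₀ (by norm_num) (by omega)
    have h2 : (0:ℝ) ≤ ∑ T ∈ (univ : Finset E).powersetCard t,
        (if T ⊆ X then (1:ℝ) else 0) * (if T ⊆ Y then (1:ℝ) else 0) * (if T ⊆ Z then (1:ℝ) else 0) *
          ((2:ℝ) ^ (X ∩ Z).card * (2:ℝ) ^ (Y ∩ Z).card) :=
      Finset.sum_nonneg (fun T _ => by positivity)
    linarith

lemma triple (s : Finset α) (X : α → Finset E) (t : ℕ) (ht : 1 ≤ t) :
    ∑ c ∈ s, (deg s X c) ^ 2 ≤ (2:ℝ) ^ (t - 1) * Q21 s X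
      + ∑ T ∈ (univ : Finset E).powersetCard t, ∑ c ∈ sub s X T, (deg (sub s X T) X c) ^ 2 := by
  have e1 : ∑ c ∈ s, (deg s X c) ^ 2 = ∑ c ∈ s, ∑ a ∈ s, ∑ b ∈ s, (2:ℝ) ^ (X a ∩ X c).card * (2:ℝ) ^ (X b ∩ X c).card := by
    refine Finset.sum_congr rfl (fun c _ => ?_)
    unfold deg; rw [sq, Finset.sum_mul_sum]
  have e2 : ∀ T : Finset E, ∑ c ∈ sub s X T, (deg (sub s X T) X c) ^ 2
      = ∑ c ∈ s, ∑ a ∈ s, ∑ b ∈ s, (if T ⊆ X a then (1:ℝ) else 0) * (if T ⊆ X b then (1:ℝ) else 0) * (if T ⊆ X c then (1:ℝ) else 0) *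
          ((2:ℝ) ^ (X a ∩ X c).card * (2:ℝ) ^ (X b ∩ X c).card) := by
    intro T
    unfold sub
    rw [Finset.sum_filter]
    refine Finset.sum_congr rfl (fun c _ => ?_)
    split_ifs with hc
    · unfold deg
      rw [Finset.sum_filter, sq, Finset.sum_mul_sum]
      refine Finset.sum_congr rfl (fun a _ => Finset.sum_congr rfl (fun b _ => ?_))
      split_ifs <;> ring
    · symm
      exact Finset.sum_eq_zero (fun a _ => Finset.sum_eq_zero (fun b _ => by ring))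
  rw [e1]
  simp only [e2]
  rw [Finset.sum_comm (s := (univ : Finset E).powersetCard t) (t := s)]
  unfold Q21
  rw [Finset.mul_sum, ← Finset.sum_add_distrib]
  refine Finset.sum_le_sum (fun c _ => ?_)
  rw [Finset.sum_comm (s := (univ : Finset E).powersetCard t) (t := s)]
  rw [Finset.mul_sum, ← Finset.sum_add_distrib]
  refine Finset.sum_le_sum (fun a _ => ?_)
  rw [Finset.sum_comm (s := (univ : Finset E).powersetCard t) (t := s)]
  rw [Finset.mul_sum, ← Finset.sum_add_distrib]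
  refine Finset.sum_le_sum (fun b _ => ?_)
  exact pointwise (X a) (X b) (X c) t ht

/-- `∑_{|T|=t} |s_T|^2 ≤ Q2 - |s|^2` -/
lemma sum_card_sq_le (s : Finset α) (X : α → Finset E) (t : ℕ) (ht : 1 ≤ t) :
    ∑ T ∈ (univ : Finset E).powersetCard t, ((sub s X T).card : ℝ) ^ 2 ≤ Q2 s X - (s.card : ℝ) ^ 2 := by
  rw [Q2_eq]
  have h1 : ∑ T ∈ (univ : Finset E).powersetCard t, ((sub s X T).card : ℝ) ^ 2
      = ∑ T ∈ (univ : Finset E).powersetCard t, (cnt s X T) ^ 2 :=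
    Finset.sum_congr rfl (fun T _ => by rw [cnt_eq_card]; rfl)
  have h2 : (s.card : ℝ) ^ 2 = (cnt s X ∅) ^ 2 := by
    unfold cnt; simp
  rw [h1, h2]
  have h3 : ∑ I ∈ insert (∅ : Finset E) ((univ : Finset E).powersetCard t), (cnt s X I) ^ 2
      ≤ ∑ I : Finset E, (cnt s X I) ^ 2 :=
    Finset.sum_le_sum_of_subset_of_nonneg (Finset.subset_univ _) (fun _ _ _ => sq_nonneg _)
  rw [Finset.sum_insert] at h3
  · linarith
  · rw [Finset.mem_powersetCard]
    rintro ⟨_, h⟩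
    simp at h; omega

end fam

end Crest.Agent.H19KK
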