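import Mathlib
import Crest.Agent.H19KKBase
import Crest.Agent.H19KKTrip

set_option autoImplicit false
set_option linter.unusedSectionVars false
open Finset
open scoped Pointwise

namespace Crest.Agent.H19KK

lemma holder8 {ι : Type} (s : Finset ι) (x u w : ι → ℝ) (C : ℝ) (hC : 0 ≤ C)
    (hx : ∀ i ∈ s, 0 ≤ x i) (hu : ∀ i ∈ s, 0 ≤ u i) (hw : ∀ i ∈ s, 0 ≤ w i)
    (h : ∀ i ∈ s, (x i) ^ 8 ≤ C * (u i) ^ 7 * w i) :
    (∑ i ∈ s, x i) ^ 8 ≤ C * (∑ i ∈ s, u i) ^ 7 * (∑ i ∈ s, w i) := by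
  have hU : 0 ≤ ∑ i ∈ s, u i := Finset.sum_nonneg hu
  have hW : 0 ≤ ∑ i ∈ s, w i := Finset.sum_nonneg hw
  have hX : 0 ≤ ∑ i ∈ s, x i := Finset.sum_nonneg hx
  -- pointwise root
  have h1 : ∀ i ∈ s, x i ≤ C ^ (1/8 : ℝ) * ((u i) ^ (7/8 : ℝ) * (w i) ^ (1/8 : ℝ)) := by
    intro i hi
    have hxi := hx i hi; have hui := hu i hi; have hwi := hw i hi
    have h2 : x i = ((x i) ^ 8) ^ (1/8 : ℝ) := by
      rw [← Real.rpow_natCast, ← Real.rpow_mul hxi]; norm_num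
    rw [h2]
    calc ((x i) ^ 8) ^ (1/8 : ℝ) ≤ (C * (u i) ^ 7 * w i) ^ (1/8 : ℝ) :=
          Real.rpow_le_rpow (by positivity) (h i hi) (by norm_num)
      _ = C ^ (1/8 : ℝ) * ((u i) ^ (7/8 : ℝ) * (w i) ^ (1/8 : ℝ)) := by
          rw [Real.mul_rpow (by positivity) hwi, Real.mul_rpow hC (by positivity),
            ← Real.rpow_natCast (u i) 7, ← Real.rpow_mul hui]
          norm_num; ring
  have hpq : (8/7 : ℝ).HolderConjugate 8 := by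
    rw [Real.holderConjugate_iff]; norm_num
  have h3 : ∑ i ∈ s, (u i) ^ (7/8 : ℝ) * (w i) ^ (1/8 : ℝ)
      ≤ (∑ i ∈ s, u i) ^ (7/8 : ℝ) * (∑ i ∈ s, w i) ^ (1/8 : ℝ) := by
    have := Real.inner_le_Lp_mul_Lq_of_nonneg s hpq
      (f := fun i => (u i) ^ (7/8 : ℝ)) (g := fun i => (w i) ^ (1/8 : ℝ))
      (fun i hi => Real.rpow_nonneg (hu i hi) _) (fun i hi => Real.rpow_nonneg (hw i hi) _)
    have e1 : ∑ i ∈ s, ((u i) ^ (7/8 : ℝ)) ^ (8/7 : ℝ) = ∑ i ∈ s, u i :=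
      Finset.sum_congr rfl (fun i hi => by rw [← Real.rpow_mul (hu i hi)]; norm_num)
    have e2 : ∑ i ∈ s, ((w i) ^ (1/8 : ℝ)) ^ (8 : ℝ) = ∑ i ∈ s, w i :=
      Finset.sum_congr rfl (fun i hi => by rw [← Real.rpow_mul (hw i hi)]; norm_num)
    simp only [e1, e2] at this
    have e3 : (1 / (8/7 : ℝ)) = 7/8 := by norm_num
    rw [e3] at this
    exact this
  have h4 : ∑ i ∈ s, x i ≤ C ^ (1/8 : ℝ) * ((∑ i ∈ s, u i) ^ (7/8 : ℝ) * (∑ i ∈ s, w i) ^ (1/8 : ℝ)) := by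
    calc ∑ i ∈ s, x i ≤ ∑ i ∈ s, C ^ (1/8 : ℝ) * ((u i) ^ (7/8 : ℝ) * (w i) ^ (1/8 : ℝ)) := Finset.sum_le_sum h1
      _ = C ^ (1/8 : ℝ) * ∑ i ∈ s, (u i) ^ (7/8 : ℝ) * (w i) ^ (1/8 : ℝ) := by rw [Finset.mul_sum]
      _ ≤ _ := mul_le_mul_of_nonneg_left h3 (Real.rpow_nonneg hC _)
  calc (∑ i ∈ s, x i) ^ 8 ≤ (C ^ (1/8 : ℝ) * ((∑ i ∈ s, u i) ^ (7/8 : ℝ) * (∑ i ∈ s, w i) ^ (1/8 : ℝ))) ^ 8 :=
        pow_le_pow_left₀ hX h4 8
    _ = C * (∑ i ∈ s, u i) ^ 7 * (∑ i ∈ s, w i) := by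
        rw [mul_pow, mul_pow, ← Real.rpow_natCast (C ^ (1/8 : ℝ)), ← Real.rpow_natCast ((∑ i ∈ s, u i) ^ (7/8 : ℝ)),
          ← Real.rpow_natCast ((∑ i ∈ s, w i) ^ (1/8 : ℝ)), ← Real.rpow_mul hC, ← Real.rpow_mul hU, ← Real.rpow_mul hW]
        have : ((7:ℝ)/8 * ((8:ℕ):ℝ)) = ((7:ℕ):ℝ) := by norm_num
        rw [this, Real.rpow_natCast]
        norm_num; ring

section grp
variable {G E : Type} [Group G] [Fintype G] [DecidableEq G] [Fintype E] [DecidableEq E] [MulAction G E]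

lemma S2_eq_Q2 (Γ : Finset G) (V : Finset E) : S2 Γ V = Q2 Γ (fun g => g • V) := rfl

/-- `Γ_h` -/
def Gh (Γ : Finset G) (h : G) : Finset G := Γ.filter (fun g => g * h ∈ Γ)

lemma sum_pairs (Γ : Finset G) (f : G → G → ℝ) :
    ∑ g ∈ Γ, ∑ g' ∈ Γ, f g g' = ∑ h : G, ∑ g ∈ Gh Γ h, f g (g * h) := by
  unfold Gh
  simp only [Finset.sum_filter]
  rw [Finset.sum_comm (s := (univ : Finset G)) (t := Γ)]
  refine Finset.sum_congr rfl (fun g _ => ?_)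
  have h1 : ∑ g' ∈ Γ, f g g' = ∑ x : G, if x ∈ Γ then f g x else 0 := by
    rw [Finset.sum_ite_mem, Finset.univ_inter]
  rw [h1, ← Equiv.sum_comp (Equiv.mulLeft g) (fun x => if x ∈ Γ then f g x else 0)]
  rfl

lemma cnt2_eq (Γ : Finset G) (V I : Finset E) :
    cnt2 Γ (fun g => g • V) I = ∑ h : G, cnt (Gh Γ h) (fun g => g • (V ∪ h • V)) I := by
  unfold cnt2 cnt
  rw [sum_pairs Γ (fun a b => if I ⊆ a • V ∪ b • V then (1:ℝ) else 0)]
  refine Finset.sum_congr rfl (fun h _ => Finset.sum_congr rfl (fun g _ => ?_))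
  show (if I ⊆ g • V ∪ (g * h) • V then (1:ℝ) else 0) = if I ⊆ g • (V ∪ h • V) then (1:ℝ) else 0
  rw [Finset.smul_finset_union, mul_smul]

lemma sum_card_Gh (Γ : Finset G) : ∑ h : G, ((Gh Γ h).card : ℝ) = (Γ.card : ℝ) ^ 2 := by
  have := sum_pairs Γ (fun _ _ => (1:ℝ))
  simp only [Finset.sum_const, nsmul_eq_mul, mul_one] at this
  rw [← this]; ring

/-- Minkowski -/
lemma Q22_le (Γ : Finset G) (V : Finset E) :
    Q22 Γ (fun g => g • V) ≤ (∑ h : G, √(S2 (Gh Γ h) (V ∪ h • V))) ^ 2 := by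
  unfold Q22
  simp only [cnt2_eq]
  have h1 : ∀ I : Finset E, (∑ h : G, cnt (Gh Γ h) (fun g => g • (V ∪ h • V)) I) ^ 2
      = ∑ h : G, ∑ h' : G, cnt (Gh Γ h) (fun g => g • (V ∪ h • V)) I * cnt (Gh Γ h') (fun g => g • (V ∪ h' • V)) I := by
    intro I; rw [sq, Finset.sum_mul_sum]
  simp only [h1]
  rw [Finset.sum_comm, sq, Finset.sum_mul_sum]
  refine Finset.sum_le_sum (fun h _ => ?_)
  rw [Finset.sum_comm]
  refine Finset.sum_le_sum (fun h' _ => ?_)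
  rw [S2_eq, S2_eq]
  exact Real.sum_mul_le_sqrt_mul_sqrt _ _ _

/-- Lemma L2 : bound of the quadruple sum from the maximality. -/
lemma Q22_bound (H : Finset E) (q R C : ℝ) (hq : 0 < q) (hR : 0 < R) (hC : 0 ≤ C)
    (A1 : ∀ V : Finset E, ((univ.filter (fun g : G => g • V ⊆ H)).card : ℝ) ≤ R * q ^ V.card)
    (hmax : ∀ (V' : Finset E) (Γ' : Finset G), (∀ g ∈ Γ', g • V' ⊆ H) →
      (S2 Γ' V') ^ 4 ≤ C * (Γ'.card : ℝ) ^ 7 * (R * q ^ V'.card))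
    (Γ : Finset G) (V : Finset E) (hΓ : ∀ g ∈ Γ, g • V ⊆ H) :
    (Γ.card : ℝ) ^ 2 * (Q22 Γ (fun g => g • V)) ^ 4 ≤
      C * (Γ.card : ℝ) ^ 14 * ((R * q ^ V.card) ^ 2 * S2 Γ V) := by
  have h1 : ∀ h ∈ (univ : Finset G), (√(S2 (Gh Γ h) (V ∪ h • V))) ^ 8
      ≤ C * ((Gh Γ h).card : ℝ) ^ 7 * (R * q ^ (V ∪ h • V).card) := by
    intro h _
    have h2 : (√(S2 (Gh Γ h) (V ∪ h • V))) ^ 8 = (S2 (Gh Γ h) (V ∪ h • V)) ^ 4 := by
      rw [show (8:ℕ) = 2 * 4 by norm_num, pow_mul, Real.sq_sqrt (S2_nonneg _ _)]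
    rw [h2]
    apply hmax
    intro g hg
    unfold Gh at hg
    rw [Finset.mem_filter] at hg
    rw [Finset.smul_finset_union, ← mul_smul]
    exact Finset.union_subset (hΓ g hg.1) (hΓ _ hg.2)
  have h3 := holder8 (univ : Finset G) (fun h => √(S2 (Gh Γ h) (V ∪ h • V)))
    (fun h => ((Gh Γ h).card : ℝ)) (fun h => R * q ^ (V ∪ h • V).card) C hC
    (fun _ _ => Real.sqrt_nonneg _) (fun _ _ => by positivity) (fun _ _ => by positivity) h1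
  rw [sum_card_Gh] at h3
  have h4 : (Q22 Γ (fun g => g • V)) ^ 4 ≤ (∑ h : G, √(S2 (Gh Γ h) (V ∪ h • V))) ^ 8 := by
    rw [show (8:ℕ) = 2 * 4 by norm_num, pow_mul]
    exact pow_le_pow_left₀ (Finset.sum_nonneg (fun _ _ => sq_nonneg _)) (Q22_le Γ V) 4
  have h5 := pair_bound H q R hq hR A1 Γ V hΓ
  have h6 : (Q22 Γ (fun g => g • V)) ^ 4 ≤ C * ((Γ.card : ℝ) ^ 2) ^ 7 * ∑ h : G, R * q ^ (V ∪ h • V).card := h4.trans h3
  calc (Γ.card : ℝ) ^ 2 * (Q22 Γ (fun g => g • V)) ^ 4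
      ≤ (Γ.card : ℝ) ^ 2 * (C * ((Γ.card : ℝ) ^ 2) ^ 7 * ∑ h : G, R * q ^ (V ∪ h • V).card) :=
        mul_le_mul_of_nonneg_left h6 (by positivity)
    _ = (C * (Γ.card : ℝ) ^ 14) * ((Γ.card : ℝ) ^ 2 * ∑ h : G, R * q ^ (V ∪ h • V).card) := by ring
    _ ≤ (C * (Γ.card : ℝ) ^ 14) * ((R * q ^ V.card) ^ 2 * S2 Γ V) :=
        mul_le_mul_of_nonneg_left h5 (by positivity)
    _ = _ := by ring

/-- Lemma L5 -/
lemma spread_bound (H : Finset E) (q R : ℝ) (hq : 0 < q) (hR : 0 < R)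
    (A1 : ∀ V : Finset E, ((univ.filter (fun g : G => g • V ⊆ H)).card : ℝ) ≤ R * q ^ V.card)
    (A3 : ∀ T V T0 : Finset E, T ⊆ V → T.Nonempty →
      Real.exp (48 * (T.card : ℝ)) * ((univ.filter (fun g : G => g • V ⊆ H ∧ g • T = T0)).card : ℝ)
        ≤ R * q ^ V.card)
    (Γ : Finset G) (V : Finset E) (hΓ : ∀ g ∈ Γ, g • V ⊆ H) (T0 : Finset E) (hT0 : T0.Nonempty) :
    (Γ.card : ℝ) ^ 2 * (Real.exp (48 * (T0.card : ℝ)) * ((sub Γ (fun g => g • V) T0).card : ℝ) ^ 4)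
      ≤ ((R * q ^ V.card) ^ 2 * S2 Γ V) * S2 (sub Γ (fun g => g • V) T0) V := by
  set ΓT := sub Γ (fun g => g • V) T0 with hΓT
  have hsub : ∀ g ∈ ΓT, g ∈ Γ ∧ T0 ⊆ g • V := by
    intro g hg; rw [hΓT, sub, Finset.mem_filter] at hg; exact hg
  -- the weighted pair sum
  have h1 : Real.exp (48 * (T0.card : ℝ)) * ∑ g ∈ ΓT, ∑ g' ∈ ΓT, ((1:ℝ)/2) ^ (g • V ∩ g' • V).card
      ≤ ∑ h : G, R * q ^ (V ∪ h • V).card := by
    rw [sum_pairs ΓT (fun a b => ((1:ℝ)/2) ^ (a • V ∩ b • V).card), Finset.mul_sum]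
    refine Finset.sum_le_sum (fun h _ => ?_)
    have e1 : ∑ g ∈ Gh ΓT h, ((1:ℝ)/2) ^ (g • V ∩ (g * h) • V).card
        = ((Gh ΓT h).card : ℝ) * ((1:ℝ)/2) ^ (V ∩ h • V).card := by
      rw [← nsmul_eq_mul, ← Finset.sum_const]
      refine Finset.sum_congr rfl (fun g _ => ?_)
      rw [mul_smul, ← Finset.smul_finset_inter, Finset.card_smul_finset]
    rw [e1]
    -- cover
    have e2 : (Gh ΓT h) ⊆ ((V ∩ h • V).powerset.filter (fun T => T.card = T0.card)).biUnion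
        (fun T => univ.filter (fun g : G => g • (V ∪ h • V) ⊆ H ∧ g • T = T0)) := by
      intro g hg
      unfold Gh at hg
      rw [Finset.mem_filter] at hg
      obtain ⟨hg1, hg2⟩ := hsub g hg.1
      obtain ⟨hg3, hg4⟩ := hsub (g * h) hg.2
      rw [Finset.mem_biUnion]
      refine ⟨g⁻¹ • T0, ?_, ?_⟩
      · rw [Finset.mem_filter, Finset.mem_powerset]
        refine ⟨?_, Finset.card_smul_finset _ _⟩
        refine Finset.subset_inter ?_ ?_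
        · rwa [Finset.subset_smul_finset_iff] at hg2
        · rw [mul_smul, Finset.subset_smul_finset_iff] at hg4
          exact hg4
      · rw [Finset.mem_filter]
        refine ⟨Finset.mem_univ _, ?_, smul_inv_smul g T0⟩
        rw [Finset.smul_finset_union, ← mul_smul]
        exact Finset.union_subset (hΓ g hg1) (hΓ _ hg3)
    have e3 : Real.exp (48 * (T0.card : ℝ)) * ((Gh ΓT h).card : ℝ) ≤ 2 ^ (V ∩ h • V).card * (R * q ^ (V ∪ h • V).card) := by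
      have c1 : ((Gh ΓT h).card : ℝ) ≤ ∑ T ∈ (V ∩ h • V).powerset.filter (fun T => T.card = T0.card),
          ((univ.filter (fun g : G => g • (V ∪ h • V) ⊆ H ∧ g • T = T0)).card : ℝ) := by
        have := (Finset.card_le_card e2).trans Finset.card_biUnion_le
        exact_mod_cast this
      calc Real.exp (48 * (T0.card : ℝ)) * ((Gh ΓT h).card : ℝ)
          ≤ Real.exp (48 * (T0.card : ℝ)) * ∑ T ∈ (V ∩ h • V).powerset.filter (fun T => T.card = T0.card),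
            ((univ.filter (fun g : G => g • (V ∪ h • V) ⊆ H ∧ g • T = T0)).card : ℝ) :=
            mul_le_mul_of_nonneg_left c1 (Real.exp_pos _).le
        _ = ∑ T ∈ (V ∩ h • V).powerset.filter (fun T => T.card = T0.card), Real.exp (48 * (T0.card : ℝ)) *
            ((univ.filter (fun g : G => g • (V ∪ h • V) ⊆ H ∧ g • T = T0)).card : ℝ) := by rw [Finset.mul_sum]
        _ ≤ ∑ T ∈ (V ∩ h • V).powerset.filter (fun T => T.card = T0.card), (R * q ^ (V ∪ h • V).card) := by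
            refine Finset.sum_le_sum (fun T hT => ?_)
            rw [Finset.mem_filter, Finset.mem_powerset] at hT
            rw [← hT.2]
            refine A3 T (V ∪ h • V) T0 ?_ ?_
            · exact (hT.1.trans Finset.inter_subset_left).trans Finset.subset_union_left
            · rw [← Finset.card_pos, hT.2]; exact hT0.card_pos
        _ ≤ ∑ T ∈ (V ∩ h • V).powerset, (R * q ^ (V ∪ h • V).card) :=
            Finset.sum_le_sum_of_subset_of_nonneg (Finset.filter_subset _ _) (fun _ _ _ => by positivity)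
        _ = 2 ^ (V ∩ h • V).card * (R * q ^ (V ∪ h • V).card) := by
            rw [Finset.sum_const, Finset.card_powerset, nsmul_eq_mul]; push_cast; ring
    calc Real.exp (48 * (T0.card : ℝ)) * (((Gh ΓT h).card : ℝ) * ((1:ℝ)/2) ^ (V ∩ h • V).card)
        = (Real.exp (48 * (T0.card : ℝ)) * ((Gh ΓT h).card : ℝ)) * ((1:ℝ)/2) ^ (V ∩ h • V).card := by ring
      _ ≤ (2 ^ (V ∩ h • V).card * (R * q ^ (V ∪ h • V).card)) * ((1:ℝ)/2) ^ (V ∩ h • V).card :=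
          mul_le_mul_of_nonneg_right e3 (by positivity)
      _ = (2 * (1/2:ℝ)) ^ (V ∩ h • V).card * (R * q ^ (V ∪ h • V).card) := by rw [mul_pow]; ring
      _ = R * q ^ (V ∪ h • V).card := by norm_num
  -- Cauchy-Schwarz
  have h2 : ((ΓT.card : ℝ)) ^ 4 ≤ (∑ g ∈ ΓT, ∑ g' ∈ ΓT, ((1:ℝ)/2) ^ (g • V ∩ g' • V).card) * S2 ΓT V := by
    have := Finset.sum_sq_le_sum_mul_sum_of_sq_le_mul (ΓT ×ˢ ΓT) (r := fun _ => (1:ℝ))
      (f := fun p : G × G => ((1:ℝ)/2) ^ (p.1 • V ∩ p.2 • V).card)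
      (g := fun p : G × G => (2:ℝ) ^ (p.1 • V ∩ p.2 • V).card)
      (fun _ _ => by positivity) (fun _ _ => by positivity)
      (fun p _ => by rw [← mul_pow]; norm_num)
    rw [Finset.sum_product, Finset.sum_product, Finset.sum_product] at this
    simp only [Finset.sum_const, nsmul_eq_mul, mul_one] at this
    unfold S2
    calc ((ΓT.card : ℝ)) ^ 4 = (((ΓT.card : ℝ)) * ((ΓT.card : ℝ))) ^ 2 := by ring
      _ ≤ _ := this
  have h5 := pair_bound H q R hq hR A1 Γ V hΓ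
  have hS2 : 0 ≤ S2 ΓT V := S2_nonneg _ _
  calc (Γ.card : ℝ) ^ 2 * (Real.exp (48 * (T0.card : ℝ)) * ((ΓT.card : ℝ)) ^ 4)
      ≤ (Γ.card : ℝ) ^ 2 * (Real.exp (48 * (T0.card : ℝ)) * ((∑ g ∈ ΓT, ∑ g' ∈ ΓT, ((1:ℝ)/2) ^ (g • V ∩ g' • V).card) * S2 ΓT V)) := by
        refine mul_le_mul_of_nonneg_left (mul_le_mul_of_nonneg_left h2 (Real.exp_pos _).le) (by positivity)
    _ = (Γ.card : ℝ) ^ 2 * ((Real.exp (48 * (T0.card : ℝ)) * (∑ g ∈ ΓT, ∑ g' ∈ ΓT, ((1:ℝ)/2) ^ (g • V ∩ g' • V).card)) * S2 ΓT V) := by ring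
    _ ≤ (Γ.card : ℝ) ^ 2 * ((∑ h : G, R * q ^ (V ∪ h • V).card) * S2 ΓT V) := by
        refine mul_le_mul_of_nonneg_left (mul_le_mul_of_nonneg_right h1 hS2) (by positivity)
    _ = ((Γ.card : ℝ) ^ 2 * (∑ h : G, R * q ^ (V ∪ h • V).card)) * S2 ΓT V := by ring
    _ ≤ _ := mul_le_mul_of_nonneg_right h5 hS2

end grp

end Crest.Agent.H19KK
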