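import Mathlib
import Crest.Agent.H19KKSpec2

set_option autoImplicit false
open Finset
open scoped Pointwise

namespace Crest.Agent.H19KK

theorem red : Rel → Core := by
  intro hRel G0 E _ _ _ _ _ H0 q hq hyp S
  by_contra hcon
  push Not at hcon
  classical
  have hG0 : (0:ℝ) < (Fintype.card G0 : ℝ) := by exact_mod_cast Fintype.card_pos
  set cn : Finset E → Finset E → ℝ := fun U V =>
    ((univ.filter (fun g : G0 => g • U = U ∧ g • V ⊆ H0 \ U)).card : ℝ) with hcn
  have hcn0 : ∀ U V, 0 ≤ cn U V := fun U V => Nat.cast_nonneg _
  -- maximum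
  have hex : ∀ U : Finset E, ∃ W : Finset E, ∀ V : Finset E, cn U V / q ^ V.card ≤ cn U W / q ^ W.card := by
    intro U
    obtain ⟨W, _, hW⟩ := Finset.exists_max_image (univ : Finset (Finset E)) (fun V => cn U V / q ^ V.card) ⟨∅, Finset.mem_univ _⟩
    exact ⟨W, fun V => hW V (Finset.mem_univ _)⟩
  choose Wm hWm using hex
  set RR : Finset E → ℝ := fun U => cn U (Wm U) / q ^ (Wm U).card with hRR
  have hRRle : ∀ U V, cn U V ≤ RR U * q ^ V.card := by
    intro U V
    have := hWm U V
    rw [div_le_iff₀ (by positivity)] at this
    exact this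
  have hst : ∀ U, ((univ.filter (fun g : G0 => g • U = U)).card : ℝ) ≤ RR U := by
    intro U
    have h1 := hRRle U ∅
    have h2 : cn U ∅ = ((univ.filter (fun g : G0 => g • U = U)).card : ℝ) := by
      simp only [hcn]; simp
    rw [h2] at h1
    simpa using h1
  have hcard : ∀ U : Finset E, (univ.filter (fun g : G0 => g • (∅ : Finset E) = ∅)).card = Fintype.card G0 := by
    intro U; simp
  set P : Finset E → Prop := fun U => q ^ U.card * (Fintype.card G0 : ℝ) ≤ RR U * Real.exp (48 * (U.card : ℝ)) with hP
  have hP0 : P ∅ := by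
    simp only [hP]
    have := hst ∅
    rw [hcard ∅] at this
    simpa using this
  obtain ⟨U, hU, hUmax⟩ := Finset.exists_max_image (H0.powerset.filter P) (fun U => U.card)
    ⟨∅, by rw [Finset.mem_filter]; exact ⟨by simp, hP0⟩⟩
  rw [Finset.mem_filter, Finset.mem_powerset] at hU
  obtain ⟨hUH, hPU⟩ := hU
  have hRpos : 0 < RR U := by
    have h1 := hst U
    have h2 : (0:ℝ) < ((univ.filter (fun g : G0 => g • U = U)).card : ℝ) := by
      have : 0 < (univ.filter (fun g : G0 => g • U = U)).card := by
        rw [Finset.card_pos]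
        exact ⟨1, by simp⟩
      exact_mod_cast this
    linarith
  -- transfer of cardinalities to the stabilizer
  have htr : ∀ (Q : G0 → Prop) [DecidablePred Q],
      (univ.filter (fun g : MulAction.stabilizer G0 U => Q (g : G0))).card
        = (univ.filter (fun g : G0 => g • U = U ∧ Q g)).card := by
    intro Q _
    refine Finset.card_bij (fun g _ => (g : G0)) ?_ ?_ ?_
    · intro g hg
      rw [Finset.mem_filter] at hg ⊢
      exact ⟨Finset.mem_univ _, MulAction.mem_stabilizer_iff.mp g.2, hg.2⟩
    · intro g _ g' _ h
      exact Subtype.ext h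
    · intro g hg
      rw [Finset.mem_filter] at hg
      exact ⟨⟨g, MulAction.mem_stabilizer_iff.mpr hg.2.1⟩, by rw [Finset.mem_filter]; exact ⟨Finset.mem_univ _, hg.2.2⟩, rfl⟩
  refine hRel (MulAction.stabilizer G0 U) E (H0 \ U) q (RR U) hq hRpos ?_ (Wm U) ?_ ?_ ?_
  · intro V
    have h1 := htr (fun g => g • V ⊆ H0 \ U)
    have h2 : (univ.filter (fun g : MulAction.stabilizer G0 U => g • V ⊆ H0 \ U)).card
        = (univ.filter (fun g : G0 => g • U = U ∧ g • V ⊆ H0 \ U)).card := h1
    rw [h2]
    exact hRRle U V
  · by_contra hne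
    rw [Finset.not_nonempty_iff_eq_empty] at hne
    have hval : RR U = ((univ.filter (fun g : G0 => g • U = U)).card : ℝ) := by
      simp only [hRR, hne, hcn]; simp
    rcases U.eq_empty_or_nonempty with h0 | h0
    · rw [h0] at hval
      rw [hcard ∅] at hval
      have h1 := hRRle ∅ S
      rw [hval] at h1
      have h2 : cn ∅ S = ((univ.filter (fun g : G0 => g • S ⊆ H0)).card : ℝ) := by
        simp only [hcn]; simp
      rw [h2] at h1
      linarith
    · have h1 := hyp U hUH h0
      simp only [hP] at hPU
      rw [hval] at hPU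
      linarith
  · have h1 := htr (fun g => g • (Wm U) ⊆ H0 \ U)
    have h2 : (univ.filter (fun g : MulAction.stabilizer G0 U => g • (Wm U) ⊆ H0 \ U)).card
        = (univ.filter (fun g : G0 => g • U = U ∧ g • (Wm U) ⊆ H0 \ U)).card := h1
    rw [h2]
    simp only [hRR, hcn]
    field_simp
  · intro T V T0 hTV hT
    have h1 := htr (fun g => g • V ⊆ H0 \ U ∧ g • T = T0)
    have h2 : (univ.filter (fun g : MulAction.stabilizer G0 U => g • V ⊆ H0 \ U ∧ g • T = T0)).card
        = (univ.filter (fun g : G0 => g • U = U ∧ g • V ⊆ H0 \ U ∧ g • T = T0)).card := h1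
    rw [h2]
    set A := univ.filter (fun g : G0 => g • U = U ∧ g • V ⊆ H0 \ U ∧ g • T = T0) with hA
    rcases A.eq_empty_or_nonempty with hA0 | ⟨g0, hg0⟩
    · rw [hA0]; simp; positivity
    · have hg0' := hg0
      rw [hA, Finset.mem_filter] at hg0'
      obtain ⟨_, hgU, hgV, hgT⟩ := hg0'
      have hT0sub : T0 ⊆ H0 \ U := by
        rw [← hgT]
        exact (Finset.smul_finset_subset_smul_finset hTV).trans hgV
      have hdisj : Disjoint U T0 := by
        refine Finset.disjoint_left.mpr (fun e he he' => ?_)
        have := hT0sub he'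
        rw [Finset.mem_sdiff] at this
        exact this.2 he
      have hT0card : T0.card = T.card := by rw [← hgT, Finset.card_smul_finset]
      have hU'card : (U ∪ T0).card = U.card + T.card := by
        rw [Finset.card_union_of_disjoint hdisj, hT0card]
      have hTpos : 0 < T.card := hT.card_pos
      have hnP : ¬ P (U ∪ T0) := by
        intro hPP
        have := hUmax (U ∪ T0) (by
          rw [Finset.mem_filter, Finset.mem_powerset]
          exact ⟨Finset.union_subset hUH (hT0sub.trans Finset.sdiff_subset), hPP⟩)
        rw [hU'card] at this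
        omega
      simp only [hP] at hnP
      push Not at hnP
      -- injection
      have hAle : (A.card : ℝ) ≤ cn (U ∪ T0) (g0 • (V \ T)) := by
        have : A.card ≤ (univ.filter (fun g : G0 => g • (U ∪ T0) = U ∪ T0 ∧ g • (g0 • (V \ T)) ⊆ H0 \ (U ∪ T0))).card := by
          refine Finset.card_le_card_of_injOn (fun g => g * g0⁻¹) ?_ ?_
          · intro g hg
            have hg' : g ∈ A := hg
            rw [hA, Finset.mem_filter] at hg'
            obtain ⟨_, a1, a2, a3⟩ := hg'
            have b1 : g0⁻¹ • U = U := by
              rw [inv_smul_eq_iff]; exact hgU.symm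
            have b2 : g0⁻¹ • T0 = T := by
              rw [inv_smul_eq_iff]; exact hgT.symm
            simp only [Finset.coe_filter, Set.mem_ofPred_eq, Finset.mem_univ, true_and]
            refine ⟨?_, ?_⟩
            · rw [Finset.smul_finset_union, mul_smul, mul_smul, b1, b2, a1, a3]
            · rw [mul_smul, inv_smul_smul]
              intro e he
              rw [Finset.mem_sdiff, Finset.mem_union]
              have he2 : e ∈ g • V := Finset.smul_finset_subset_smul_finset Finset.sdiff_subset he
              have he3 := a2 he2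
              rw [Finset.mem_sdiff] at he3
              refine ⟨he3.1, ?_⟩
              rintro (h | h)
              · exact he3.2 h
              · rw [← a3] at h
                rw [Finset.mem_smul_finset] at h he
                obtain ⟨x, hx, hxe⟩ := h
                obtain ⟨y, hy, hye⟩ := he
                have : x = y := by
                  have := hxe.trans hye.symm
                  exact smul_left_cancel g this
                rw [this] at hx
                rw [Finset.mem_sdiff] at hy
                exact hy.2 hx
          · intro g _ g' _ h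
            exact mul_right_cancel h
        simp only [hcn]
        exact_mod_cast this
      have hle := hRRle (U ∪ T0) (g0 • (V \ T))
      rw [Finset.card_smul_finset] at hle
      have hVT : V.card = (V \ T).card + T.card := by
        rw [Finset.card_sdiff_add_card_eq_card hTV]
      rw [hU'card] at hnP
      simp only [hP] at hPU
      push_cast at hnP
      have hexp : Real.exp (48 * ((U.card : ℝ) + (T.card : ℝ))) = Real.exp (48 * (U.card : ℝ)) * Real.exp (48 * (T.card : ℝ)) := by
        rw [← Real.exp_add]; congr 1; ring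
      rw [hexp, pow_add] at hnP
      have hqV : q ^ V.card = q ^ (V \ T).card * q ^ T.card := by rw [hVT, pow_add]
      rw [hqV]
      set eU := Real.exp (48 * (U.card : ℝ)) with heU
      set eT := Real.exp (48 * (T.card : ℝ)) with heT
      have heUp : 0 < eU := Real.exp_pos _
      have heTp : 0 < eT := Real.exp_pos _
      have hq1 : 0 < q ^ (V \ T).card := by positivity
      have hq2 : 0 < q ^ T.card := by positivity
      -- eT * A ≤ eT * RR(U∪T0) * q^(V\T)
      have s1 : eU * (eT * (A.card : ℝ)) ≤ eU * (eT * (RR (U ∪ T0) * q ^ (V \ T).card)) :=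
        mul_le_mul_of_nonneg_left (mul_le_mul_of_nonneg_left (hAle.trans hle) heTp.le) heUp.le
      have s2 : eU * (eT * (RR (U ∪ T0) * q ^ (V \ T).card)) ≤ (q ^ U.card * q ^ T.card * (Fintype.card G0 : ℝ)) * q ^ (V \ T).card := by
        calc eU * (eT * (RR (U ∪ T0) * q ^ (V \ T).card)) = (RR (U ∪ T0) * (eU * eT)) * q ^ (V \ T).card := by ring
          _ ≤ _ := mul_le_mul_of_nonneg_right hnP.le hq1.le
      have s3 : (q ^ U.card * q ^ T.card * (Fintype.card G0 : ℝ)) * q ^ (V \ T).card ≤ (RR U * eU) * (q ^ T.card * q ^ (V \ T).card) := by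
        calc (q ^ U.card * q ^ T.card * (Fintype.card G0 : ℝ)) * q ^ (V \ T).card
            = (q ^ U.card * (Fintype.card G0 : ℝ)) * (q ^ T.card * q ^ (V \ T).card) := by ring
          _ ≤ _ := mul_le_mul_of_nonneg_right hPU (by positivity)
      have s4 : eU * (eT * (A.card : ℝ)) ≤ eU * (RR U * (q ^ (V \ T).card * q ^ T.card)) := by
        calc _ ≤ _ := s1.trans (s2.trans s3)
          _ = _ := by ring
      exact le_of_mul_le_mul_left s4 heUp

end Crest.Agent.H19KK
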