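import Mathlib
import Crest.Agent.H19KKSpec2
import Crest.Agent.H19KKBase
import Crest.Agent.H19KKTrip
import Crest.Agent.H19KKPair

set_option autoImplicit false
set_option linter.unusedSectionVars false
open Finset
open scoped Pointwise

namespace Crest.Agent.H19KK

/-- the analytic end game, from the finite inequalities -/
lemma endgame {G E : Type} [DecidableEq G] [Fintype E] [DecidableEq E]
    (hNum : Num) (hWeak : WeakL) (Γ : Finset G) (X : G → Finset E) (hne : Γ.Nonempty)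
    (C L : ℝ) (hC : 1 < C) (hL : 0 < L) (hnL : (Γ.card : ℝ) ≤ L)
    (hS : (Q2 Γ X) ^ 4 = C * (Γ.card : ℝ) ^ 7 * L)
    (hreg : ∀ Γ0 : Finset G, Γ0 ⊆ Γ → (Q2 Γ0 X) ^ 4 ≤ C * (Γ0.card : ℝ) ^ 7 * L)
    (h22 : (Γ.card : ℝ) ^ 2 * (Q22 Γ X) ^ 4 ≤ C * (Γ.card : ℝ) ^ 14 * (L ^ 2 * Q2 Γ X))
    (hspr : ∀ T : Finset E, T.Nonempty → (Γ.card : ℝ) ^ 2 * (Real.exp (48 * (T.card : ℝ)) * ((sub Γ X T).card : ℝ) ^ 4)
      ≤ (L ^ 2 * Q2 Γ X) * Q2 (sub Γ X T) X) : False := by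
  set n : ℝ := (Γ.card : ℝ) with hn
  have hn1 : 1 ≤ n := by rw [hn]; exact_mod_cast hne.card_pos
  clear_value n
  have hn0 : 0 < n := by linarith
  set S : ℝ := Q2 Γ X with hSdef
  have hS0 : 0 ≤ S := Q2_nonneg _ _
  clear_value S
  set M : ℝ := S / n ^ 2 with hM
  clear_value M
  have hSM : S = M * n ^ 2 := by rw [hM]; field_simp
  have hM0 : 0 ≤ M := by rw [hM]; positivity
  have hCL : C * L = M ^ 4 * n := by
    have h1 : (M * n ^ 2) ^ 4 = C * n ^ 7 * L := by rw [← hSM]; exact hS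
    have h2 : (C * L) * n ^ 7 = (M ^ 4 * n) * n ^ 7 := by nlinarith [h1]
    exact mul_right_cancel₀ (by positivity) h2
  have hM1 : 1 < M := by
    by_contra hcon
    push Not at hcon
    have h1 : M ^ 4 ≤ 1 := pow_le_one₀ hM0 hcon
    have h2 : M ^ 4 * n ≤ n := by nlinarith
    have h3 : n < C * L := by nlinarith
    linarith
  have hMpos : 0 < M := by linarith
  have hLM : L ≤ M ^ 4 * n := by rw [← hCL]; nlinarith
  set f : ℝ := Real.log M with hf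
  clear_value f
  have hf0 : 0 < f := by rw [hf]; exact Real.log_pos hM1
  have hMf : M = Real.exp f := by rw [hf, Real.exp_log hMpos]
  -- Q22
  have hQ22 : (Q22 Γ X) ^ 4 ≤ M ^ 9 * n ^ 16 := by
    have h1 : C * (n ^ 2 * (Q22 Γ X) ^ 4) ≤ (C * L) ^ 2 * n ^ 14 * S := by
      calc C * (n ^ 2 * (Q22 Γ X) ^ 4) ≤ C * (C * n ^ 14 * (L ^ 2 * S)) :=
            mul_le_mul_of_nonneg_left h22 (by linarith)
        _ = _ := by ring
    rw [hCL, hSM] at h1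
    have h0 : 0 ≤ n ^ 2 * (Q22 Γ X) ^ 4 := by positivity
    have h2 : n ^ 2 * (Q22 Γ X) ^ 4 ≤ C * (n ^ 2 * (Q22 Γ X) ^ 4) := by nlinarith
    have h3 : n ^ 2 * (Q22 Γ X) ^ 4 ≤ n ^ 2 * (M ^ 9 * n ^ 16) := by
      calc _ ≤ _ := h2.trans h1
        _ = _ := by ring
    exact le_of_mul_le_mul_left h3 (by positivity)
  have hQ22nn : 0 ≤ Q22 Γ X := Finset.sum_nonneg (fun _ _ => sq_nonneg _)
  have hQ21nn : 0 ≤ Q21 Γ X :=
    Finset.sum_nonneg (fun _ _ => Finset.sum_nonneg (fun _ _ => Finset.sum_nonneg (fun _ _ => by positivity)))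
  -- Q21
  have hQ21 : Q21 Γ X ≤ Real.exp (13 / 8 * f) * n ^ 3 := by
    have h1 := Q21_le Γ X
    have h2 : (Q21 Γ X) ^ 8 ≤ (Real.exp (13 / 8 * f) * n ^ 3) ^ 8 := by
      calc (Q21 Γ X) ^ 8 ≤ (√(Q22 Γ X) * √(Q2 Γ X)) ^ 8 := pow_le_pow_left₀ hQ21nn h1 8
        _ = ((√(Q22 Γ X)) ^ 2) ^ 4 * ((√(Q2 Γ X)) ^ 2) ^ 4 := by ring
        _ = (Q22 Γ X) ^ 4 * S ^ 4 := by rw [Real.sq_sqrt hQ22nn, Real.sq_sqrt (Q2_nonneg _ _), hSdef]
        _ ≤ (M ^ 9 * n ^ 16) * S ^ 4 := mul_le_mul_of_nonneg_right hQ22 (by positivity)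
        _ = M ^ 13 * n ^ 24 := by rw [hSM]; ring
        _ = (Real.exp (13 / 8 * f) * n ^ 3) ^ 8 := by
            rw [mul_pow, ← Real.exp_nat_mul, hMf, ← Real.exp_nat_mul, ← pow_mul]
            congr 2
            push_cast; ring
    exact le_of_pow_le_pow_left₀ (by norm_num) (by positivity) h2
  -- regularity in root form
  have hreg' : ∀ Γ0 : Finset G, Γ0 ⊆ Γ → √(Q2 Γ0 X) ≤ (M ^ 4 * n) ^ (1/8 : ℝ) * (Γ0.card : ℝ) ^ (7/8 : ℝ) := by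
    intro Γ0 h0
    have h1 := hreg Γ0 h0
    have hc0 : (0:ℝ) ≤ (Γ0.card : ℝ) := Nat.cast_nonneg _
    generalize (Γ0.card : ℝ) = c0 at h1 hc0 ⊢
    have h2 : (√(Q2 Γ0 X)) ^ 8 ≤ (M ^ 4 * n) * c0 ^ 7 := by
      calc (√(Q2 Γ0 X)) ^ 8 = ((√(Q2 Γ0 X)) ^ 2) ^ 4 := by ring
        _ = (Q2 Γ0 X) ^ 4 := by rw [Real.sq_sqrt (Q2_nonneg _ _)]
        _ ≤ C * c0 ^ 7 * L := h1
        _ = (C * L) * c0 ^ 7 := by ring
        _ = _ := by rw [hCL]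
    have h3 : √(Q2 Γ0 X) = ((√(Q2 Γ0 X)) ^ 8) ^ (1/8 : ℝ) := by
      rw [← Real.rpow_natCast, ← Real.rpow_mul (Real.sqrt_nonneg _)]; norm_num
    rw [h3]
    calc ((√(Q2 Γ0 X)) ^ 8) ^ (1/8 : ℝ) ≤ ((M ^ 4 * n) * c0 ^ 7) ^ (1/8 : ℝ) :=
          Real.rpow_le_rpow (by positivity) h2 (by norm_num)
      _ = _ := by
          rw [Real.mul_rpow (by positivity) (by positivity), ← Real.rpow_natCast c0 7, ← Real.rpow_mul hc0]
          norm_num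
  -- strong type
  have hstrong : ∀ T : Finset E, ∑ c ∈ sub Γ X T, (deg (sub Γ X T) X c) ^ 2
      ≤ (4/3) * ((M ^ 4 * n) ^ (1/2 : ℝ)) * (((sub Γ X T).card : ℝ) ^ 2 * ((sub Γ X T).card : ℝ) ^ (1/2 : ℝ)) := by
    intro T
    set ΓT := sub Γ X T with hΓT
    have hsub : ΓT ⊆ Γ := Finset.filter_subset _ _
    set γ : ℝ := (ΓT.card : ℝ) with hγ
    have hγ0 : 0 ≤ γ := Nat.cast_nonneg _
    clear_value γ
    have hMn : 0 ≤ M ^ 4 * n := by positivity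
    have hrT := hreg' ΓT hsub
    rw [← hγ] at hrT
    have h1 := hWeak G ΓT (fun c => deg ΓT X c) ((M ^ 4 * n) ^ (1/4 : ℝ) * γ ^ (7/8 : ℝ))
      (fun c _ => deg_nonneg _ _ _) (by positivity) (by
        intro S0 hS0
        calc ∑ c ∈ S0, deg ΓT X c ≤ √(Q2 ΓT X) * √(Q2 S0 X) := sum_deg_le ΓT S0 X
          _ ≤ ((M ^ 4 * n) ^ (1/8 : ℝ) * γ ^ (7/8 : ℝ)) * ((M ^ 4 * n) ^ (1/8 : ℝ) * (S0.card : ℝ) ^ (7/8 : ℝ)) := by
              refine mul_le_mul hrT (hreg' S0 (hS0.trans hsub)) (Real.sqrt_nonneg _) (by positivity)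
          _ = (((M ^ 4 * n) ^ (1/8 : ℝ) * (M ^ 4 * n) ^ (1/8 : ℝ)) * γ ^ (7/8 : ℝ)) * (S0.card : ℝ) ^ (7/8 : ℝ) := by ring
          _ = _ := by
              rw [← Real.rpow_add' hMn (by norm_num)]
              norm_num)
    rw [← hγ] at h1
    refine h1.trans (le_of_eq ?_)
    rw [mul_pow, ← Real.rpow_natCast ((M ^ 4 * n) ^ (1/4 : ℝ)), ← Real.rpow_natCast (γ ^ (7/8 : ℝ)),
      ← Real.rpow_mul hMn, ← Real.rpow_mul hγ0]
    have e1 : (1/4 : ℝ) * ((2:ℕ):ℝ) = 1/2 := by norm_num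
    have e2 : (7/8 : ℝ) * ((2:ℕ):ℝ) = 7/4 := by norm_num
    rw [e1, e2]
    have e3 : γ ^ (7/4 : ℝ) * γ ^ (3/4 : ℝ) = γ ^ 2 * γ ^ (1/2 : ℝ) := by
      rw [← Real.rpow_add' hγ0 (by norm_num), ← Real.rpow_natCast γ 2, ← Real.rpow_add' hγ0 (by norm_num)]
      norm_num
    calc 4 / 3 * ((M ^ 4 * n) ^ (1 / 2 : ℝ) * γ ^ (7 / 4 : ℝ)) * γ ^ (3 / 4 : ℝ)
        = 4 / 3 * (M ^ 4 * n) ^ (1 / 2 : ℝ) * (γ ^ (7 / 4 : ℝ) * γ ^ (3 / 4 : ℝ)) := by ring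
      _ = _ := by rw [e3]
  have hMn2 : (M ^ 4 * n) ^ (1/2 : ℝ) = M ^ 2 * n ^ (1/2 : ℝ) := by
    rw [Real.mul_rpow (by positivity) hn0.le, ← Real.rpow_natCast M 4, ← Real.rpow_mul hM0]
    norm_num
  -- spread
  have hspread : ∀ T : Finset E, T.Nonempty →
      ((sub Γ X T).card : ℝ) ^ (1/2 : ℝ) ≤ n ^ (1/2 : ℝ) * Real.exp (20 / 9 * f - 32 / 3 * (T.card : ℝ)) := by
    intro T hT
    set ΓT := sub Γ X T with hΓT
    have hsub : ΓT ⊆ Γ := Finset.filter_subset _ _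
    set γ : ℝ := (ΓT.card : ℝ) with hγ
    have hγ0 : 0 ≤ γ := Nat.cast_nonneg _
    have h1 := hspr T hT
    have hregT := hreg ΓT hsub
    rw [← hΓT, ← hγ] at h1
    rw [← hγ] at hregT
    clear_value γ
    set τ : ℝ := (T.card : ℝ) with hτ
    clear_value τ
    rcases hγ0.eq_or_lt with h0 | hγpos
    · rw [← h0, Real.zero_rpow (by norm_num)]; positivity
    have h2 : (n ^ 2 * (Real.exp (48 * τ) * γ ^ 4)) ^ 4 ≤ ((L ^ 2 * S) * Q2 ΓT X) ^ 4 :=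
      pow_le_pow_left₀ (by positivity) h1 4
    have h3 : ((L ^ 2 * S) * Q2 ΓT X) ^ 4 ≤ (L ^ 8 * S ^ 4) * ((M ^ 4 * n) * γ ^ 7) := by
      calc ((L ^ 2 * S) * Q2 ΓT X) ^ 4 = (L ^ 8 * S ^ 4) * (Q2 ΓT X) ^ 4 := by ring
        _ ≤ (L ^ 8 * S ^ 4) * (C * γ ^ 7 * L) := mul_le_mul_of_nonneg_left hregT (by positivity)
        _ = (L ^ 8 * S ^ 4) * ((C * L) * γ ^ 7) := by ring
        _ = _ := by rw [hCL]
    have h4 : L ^ 8 ≤ (M ^ 4 * n) ^ 8 := pow_le_pow_left₀ hL.le hLM 8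
    have h5 : (n ^ 8 * γ ^ 7) * ((Real.exp (48 * τ)) ^ 4 * γ ^ 9) ≤ (n ^ 8 * γ ^ 7) * (M ^ 40 * n ^ 9) := by
      calc (n ^ 8 * γ ^ 7) * ((Real.exp (48 * τ)) ^ 4 * γ ^ 9) = (n ^ 2 * (Real.exp (48 * τ) * γ ^ 4)) ^ 4 := by ring
        _ ≤ (L ^ 8 * S ^ 4) * ((M ^ 4 * n) * γ ^ 7) := h2.trans h3
        _ ≤ ((M ^ 4 * n) ^ 8 * S ^ 4) * ((M ^ 4 * n) * γ ^ 7) :=
            mul_le_mul_of_nonneg_right (mul_le_mul_of_nonneg_right h4 (by positivity)) (by positivity)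
        _ = (n ^ 8 * γ ^ 7) * (M ^ 40 * n ^ 9) := by rw [hSM]; ring
    have h6 : (Real.exp (48 * τ)) ^ 4 * γ ^ 9 ≤ M ^ 40 * n ^ 9 := le_of_mul_le_mul_left h5 (by positivity)
    -- take 18-th root
    have h7 : (γ ^ (1/2 : ℝ)) ^ 18 ≤ (n ^ (1/2 : ℝ) * Real.exp (20 / 9 * f - 32 / 3 * τ)) ^ 18 := by
      have e1 : (γ ^ (1/2 : ℝ)) ^ 18 = γ ^ 9 := by
        rw [← Real.rpow_natCast (γ ^ (1/2 : ℝ)), ← Real.rpow_mul hγ0, ← Real.rpow_natCast γ 9]; norm_num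
      have e2 : (n ^ (1/2 : ℝ)) ^ 18 = n ^ 9 := by
        rw [← Real.rpow_natCast (n ^ (1/2 : ℝ)), ← Real.rpow_mul hn0.le, ← Real.rpow_natCast n 9]; norm_num
      have e3 : (Real.exp (20 / 9 * f - 32 / 3 * τ)) ^ 18 = M ^ 40 * ((Real.exp (48 * τ)) ^ 4)⁻¹ := by
        rw [← Real.exp_nat_mul, hMf, ← Real.exp_nat_mul, ← Real.exp_nat_mul, ← Real.exp_neg, ← Real.exp_add]
        congr 1; push_cast; ring
      rw [e1, mul_pow, e2, e3]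
      have hE : 0 < (Real.exp (48 * τ)) ^ 4 := by positivity
      have : n ^ 9 * (M ^ 40 * ((Real.exp (48 * τ)) ^ 4)⁻¹) = (M ^ 40 * n ^ 9) / (Real.exp (48 * τ)) ^ 4 := by
        field_simp
      rw [this, le_div_iff₀ hE]
      linarith
    exact le_of_pow_le_pow_left₀ (by norm_num) (by positivity) h7
  -- numeric
  obtain ⟨t, ht1, hnum⟩ := hNum f hf0
  have htrip := triple Γ X t ht1
  have hlow := deg_sq_lower Γ X
  rw [← hSdef, ← hn] at hlow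
  have hsc := sum_card_sq_le Γ X t ht1
  rw [← hSdef, ← hn] at hsc
  have hsumT : ∑ T ∈ (univ : Finset E).powersetCard t, ∑ c ∈ sub Γ X T, (deg (sub Γ X T) X c) ^ 2
      ≤ (4/3) * M ^ 2 * n ^ 3 * (M - 1) * Real.exp (20 / 9 * f - 32 / 3 * (t : ℝ)) := by
    have hb : ∀ T ∈ (univ : Finset E).powersetCard t, ∑ c ∈ sub Γ X T, (deg (sub Γ X T) X c) ^ 2
        ≤ ((4/3) * M ^ 2 * n * Real.exp (20 / 9 * f - 32 / 3 * (t : ℝ))) * ((sub Γ X T).card : ℝ) ^ 2 := by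
      intro T hT
      rw [Finset.mem_powersetCard] at hT
      have hTne : T.Nonempty := by rw [← Finset.card_pos, hT.2]; omega
      have h1 := hspread T hTne
      rw [hT.2] at h1
      have h2 := hstrong T
      rw [hMn2] at h2
      have hγ0 : (0:ℝ) ≤ ((sub Γ X T).card : ℝ) := Nat.cast_nonneg _
      generalize ((sub Γ X T).card : ℝ) = γ at h1 h2 hγ0 ⊢
      have hnn : n ^ (1/2 : ℝ) * n ^ (1/2 : ℝ) = n := by
        rw [← Real.rpow_add hn0]; norm_num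
      calc _ ≤ _ := h2
        _ ≤ 4 / 3 * (M ^ 2 * n ^ (1 / 2 : ℝ)) * (γ ^ 2 * (n ^ (1/2 : ℝ) * Real.exp (20 / 9 * f - 32 / 3 * (t : ℝ)))) := by
            refine mul_le_mul_of_nonneg_left (mul_le_mul_of_nonneg_left h1 (by positivity)) (by positivity)
        _ = 4 / 3 * M ^ 2 * (n ^ (1/2 : ℝ) * n ^ (1/2 : ℝ)) * Real.exp (20 / 9 * f - 32 / 3 * (t : ℝ)) * γ ^ 2 := by ring
        _ = _ := by rw [hnn]
    calc _ ≤ ∑ T ∈ (univ : Finset E).powersetCard t, ((4/3) * M ^ 2 * n * Real.exp (20 / 9 * f - 32 / 3 * (t : ℝ))) * ((sub Γ X T).card : ℝ) ^ 2 :=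
          Finset.sum_le_sum hb
      _ = ((4/3) * M ^ 2 * n * Real.exp (20 / 9 * f - 32 / 3 * (t : ℝ))) * ∑ T ∈ (univ : Finset E).powersetCard t, ((sub Γ X T).card : ℝ) ^ 2 := by
          rw [Finset.mul_sum]
      _ ≤ ((4/3) * M ^ 2 * n * Real.exp (20 / 9 * f - 32 / 3 * (t : ℝ))) * (S - n ^ 2) :=
          mul_le_mul_of_nonneg_left hsc (by positivity)
      _ = _ := by rw [hSM]; ring
  -- combine
  have h1 : M ^ 2 * n ^ 3 ≤ ∑ c ∈ Γ, (deg Γ X c) ^ 2 := by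
    have h2 : n * (M ^ 2 * n ^ 3) ≤ n * ∑ c ∈ Γ, (deg Γ X c) ^ 2 := by
      calc n * (M ^ 2 * n ^ 3) = S ^ 2 := by rw [hSM]; ring
        _ ≤ _ := hlow
    exact le_of_mul_le_mul_left h2 hn0
  have h2 : M ^ 2 * n ^ 3 ≤ (2:ℝ) ^ (t - 1) * (Real.exp (13 / 8 * f) * n ^ 3)
      + (4/3) * M ^ 2 * n ^ 3 * (M - 1) * Real.exp (20 / 9 * f - 32 / 3 * (t : ℝ)) := by
    have : (2:ℝ) ^ (t - 1) * Q21 Γ X ≤ (2:ℝ) ^ (t - 1) * (Real.exp (13 / 8 * f) * n ^ 3) :=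
      mul_le_mul_of_nonneg_left hQ21 (by positivity)
    linarith
  have h3 : Real.exp (13 / 8 * f) = M ^ 2 * Real.exp (-(3 / 8) * f) := by
    rw [hMf, ← Real.exp_nat_mul, ← Real.exp_add]; congr 1; push_cast; ring
  rw [h3] at h2
  have hpos : 0 < M ^ 2 * n ^ 3 := by positivity
  have h4 : (M ^ 2 * n ^ 3) * 1 ≤ (M ^ 2 * n ^ 3) * ((2:ℝ) ^ (t - 1) * Real.exp (-(3 / 8) * f)
      + (4/3) * (M - 1) * Real.exp (20 / 9 * f - 32 / 3 * (t : ℝ))) := by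
    calc (M ^ 2 * n ^ 3) * 1 = M ^ 2 * n ^ 3 := by ring
      _ ≤ _ := h2
      _ = _ := by ring
  have h5 := le_of_mul_le_mul_left h4 hpos
  rw [← hMf] at hnum
  linarith

theorem rel_of (hNum : Num) (hWeak : WeakL) : Rel := by
  intro G E _ _ _ _ _ H q R hq hR A1 W hW A2 A3
  classical
  set St : Finset (Finset E × Finset G) :=
    univ.filter (fun p => p.2.Nonempty ∧ ∀ g ∈ p.2, g • p.1 ⊆ H) with hSt
  set Φ : Finset E × Finset G → ℝ := fun p => (S2 p.2 p.1) ^ 4 / ((p.2.card : ℝ) ^ 7 * (R * q ^ p.1.card)) with hΦ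
  set ΓW : Finset G := univ.filter (fun g : G => g • W ⊆ H) with hΓW
  have hm0 : (0:ℝ) < (ΓW.card : ℝ) := by rw [A2]; positivity
  have hWne : ΓW.Nonempty := by
    rw [← Finset.card_pos]; exact_mod_cast hm0
  have hWmem : (W, ΓW) ∈ St := by
    rw [hSt, Finset.mem_filter]
    refine ⟨Finset.mem_univ _, hWne, fun g hg => ?_⟩
    exact (Finset.mem_filter.mp hg).2
  obtain ⟨⟨V, Γ⟩, hmem, hmax⟩ := Finset.exists_max_image St Φ ⟨_, hWmem⟩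
  rw [hSt, Finset.mem_filter] at hmem
  obtain ⟨_, hne, hΓ⟩ := hmem
  simp only at hne hΓ
  set C : ℝ := Φ (V, Γ) with hC
  have hC1 : 1 < C := by
    refine lt_of_lt_of_le ?_ (hmax _ hWmem)
    simp only [hΦ]
    rw [← A2, lt_div_iff₀ (by positivity)]
    have h1 := card_add_le_S2 ΓW W hW
    have h2 : ((ΓW.card : ℝ) ^ 2 + ΓW.card) ^ 4 ≤ (S2 ΓW W) ^ 4 := pow_le_pow_left₀ (by positivity) h1 4
    have h3 : ((ΓW.card : ℝ) ^ 2) ^ 4 < ((ΓW.card : ℝ) ^ 2 + ΓW.card) ^ 4 :=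
      pow_lt_pow_left₀ (by linarith) (by positivity) (by norm_num)
    calc 1 * ((ΓW.card : ℝ) ^ 7 * (ΓW.card : ℝ)) = ((ΓW.card : ℝ) ^ 2) ^ 4 := by ring
      _ < _ := h3.trans_le h2
  have hmax' : ∀ (V' : Finset E) (Γ' : Finset G), (∀ g ∈ Γ', g • V' ⊆ H) →
      (S2 Γ' V') ^ 4 ≤ C * (Γ'.card : ℝ) ^ 7 * (R * q ^ V'.card) := by
    intro V' Γ' h'
    rcases Γ'.eq_empty_or_nonempty with rfl | hne'
    · simp [S2]
    · have hmem' : (V', Γ') ∈ St := by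
        rw [hSt, Finset.mem_filter]; exact ⟨Finset.mem_univ _, hne', h'⟩
      have h1 := hmax _ hmem'
      have hc : (0:ℝ) < (Γ'.card : ℝ) := by exact_mod_cast hne'.card_pos
      simp only [hΦ] at h1
      rw [div_le_iff₀ (by positivity)] at h1
      calc _ ≤ _ := h1
        _ = _ := by rw [hC]; ring
  have hcard0 : (0:ℝ) < (Γ.card : ℝ) := by exact_mod_cast hne.card_pos
  have hL : 0 < R * q ^ V.card := by positivity
  refine endgame hNum hWeak Γ (fun g => g • V) hne C (R * q ^ V.card) hC1 hL ?_ ?_ ?_ ?_ ?_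
  · refine le_trans ?_ (A1 V)
    have : Γ ⊆ univ.filter (fun g : G => g • V ⊆ H) := fun g hg =>
      Finset.mem_filter.mpr ⟨Finset.mem_univ _, hΓ g hg⟩
    exact_mod_cast Finset.card_le_card this
  · show (S2 Γ V) ^ 4 = _
    rw [hC]; simp only [hΦ]
    field_simp
  · intro Γ0 h0
    exact hmax' V Γ0 (fun g hg => hΓ g (h0 hg))
  · exact Q22_bound H q R C hq hR (by linarith) A1 hmax' Γ V hΓ
  · intro T hT
    exact spread_bound H q R hq hR A1 A3 Γ V hΓ T hT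

end Crest.Agent.H19KK
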