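import Crest.Agent.H19SLSpec

set_option autoImplicit false
set_option linter.all false

open MeasureTheory ProbabilityTheory Crest.StreamLearn
open scoped ENNReal NNReal

namespace Crest.Agent.H19SL

instance gk_prob (d k : ℕ) : IsProbabilityMeasure (gk d k) := by
  unfold gk; infer_instance

theorem meas_cont {d k : ℕ} : Continuous fun p : (Fin k → E d) × E d => meas p.1 p.2 := by
  unfold meas; fun_prop

theorem meas_cont' {d k : ℕ} (a : Fin k → E d) : Continuous (meas a) := by
  unfold meas; fun_prop

theorem sphereUniform_prob (d : ℕ) (hd : 1 ≤ d) : IsProbabilityMeasure (sphereUniform d) := by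
  have : Nonempty (Fin d) := ⟨⟨0, hd⟩⟩
  have : Nontrivial (E d) := inferInstance
  refine ⟨?_⟩
  unfold sphereUniform
  rw [Measure.smul_apply, smul_eq_mul]
  apply ENNReal.inv_mul_cancel
  · rw [Measure.measure_univ_ne_zero]
    exact Measure.toSphere_ne_zero _
  · exact measure_ne_top _ _

instance sphereUniform_finite (d : ℕ) : IsFiniteMeasure (sphereUniform d) := by
  rcases Nat.eq_zero_or_pos d with h | h
  · subst h
    have h0 : (volume : Measure (E 0)).toSphere = 0 := by
      rw [Measure.toSphere_eq_zero_iff_finrank]; simp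
    unfold sphereUniform
    rw [h0]
    simp only [smul_zero]
    infer_instance
  · have := sphereUniform_prob d h
    infer_instance

instance sig_finite (d : ℕ) : IsFiniteMeasure (sig d) := by
  unfold sig; infer_instance

theorem sig_prob (d : ℕ) (hd : 1 ≤ d) : IsProbabilityMeasure (sig d) := by
  have := sphereUniform_prob d hd
  unfold sig
  exact Measure.isProbabilityMeasure_map (by fun_prop)

theorem lintegral_sig {d : ℕ} (f : E d → ℝ≥0∞) (hf : Measurable f) :
    ∫⁻ x, f x ∂(sig d) = ∫⁻ x : Sphere d, f x ∂(sphereUniform d) := by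
  unfold sig
  rw [lintegral_map hf (by fun_prop)]

theorem sig_apply {d : ℕ} (s : Set (E d)) (hs : MeasurableSet s) :
    sig d s = sphereUniform d ((fun x : Sphere d => (x : E d)) ⁻¹' s) := by
  unfold sig
  rw [Measure.map_apply (by fun_prop) hs]

theorem sig_sphere (d : ℕ) : sig d {x : E d | ‖x‖ = 1}ᶜ = 0 := by
  rw [sig_apply _ (measurableSet_eq_fun (by fun_prop) (by fun_prop)).compl]
  convert measure_empty
  · ext x; simp
  · infer_instance

theorem sig_ae (d : ℕ) : ∀ᵐ x ∂(sig d), ‖x‖ = 1 := by
  rw [ae_iff]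
  exact sig_sphere d

theorem isClosed_G {d k : ℕ} (z : E d) (τ : ℝ) :
    IsClosed {p : (Fin k → E d) × (Fin k → ℝ) | ∃ x ∈ Metric.closedBall z τ, meas p.1 x = p.2} := by
  have : CompactSpace (Metric.closedBall z τ) :=
    isCompact_iff_compactSpace.mp (isCompact_closedBall z τ)
  have hcl : IsClosed {q : ((Fin k → E d) × (Fin k → ℝ)) × Metric.closedBall z τ |
      meas q.1.1 (q.2 : E d) = q.1.2} := by
    apply isClosed_eq
    · exact meas_cont.comp (by fun_prop :
        Continuous fun q : ((Fin k → E d) × (Fin k → ℝ)) × Metric.closedBall z τ =>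
          ((q.1.1, (q.2 : E d)) : (Fin k → E d) × E d))
    · fun_prop
  have := isClosedMap_fst_of_compactSpace (X := (Fin k → E d) × (Fin k → ℝ))
    (Y := Metric.closedBall z τ) _ hcl
  convert this using 1
  ext p
  constructor
  · rintro ⟨x, hx, h⟩
    exact ⟨(p, ⟨x, hx⟩), h, rfl⟩
  · rintro ⟨q, h, rfl⟩
    exact ⟨q.2, q.2.2, h⟩

theorem cap_meas {d : ℕ} (ε : ℝ) (v : E d) : Measurable (cap ε v) := by
  unfold cap
  apply Measurable.indicator measurable_one
  exact measurableSet_le (by fun_prop) (by fun_prop)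

theorem cap_le {d : ℕ} (ε : ℝ) (v x : E d) : cap ε v x ≤ 1 := by
  unfold cap
  exact Set.indicator_le_self' (by simp) _

theorem step_meas {d k : ℕ} {ι : Type} [Fintype ι] [MeasurableSpace ι] [DiscreteMeasurableSpace ι]
    (W : ι → E d → ℝ≥0∞) (hW : ∀ i, Measurable (W i))
    (o : (Fin k → E d) × (Fin k → ℝ) → ι) (ho : Measurable o) :
    Measurable (fun p : E d × (Fin k → E d) => W (o (p.2, meas p.2 p.1)) p.1) := by
  have h1 : Measurable fun p : E d × (Fin k → E d) => o (p.2, meas p.2 p.1) := by
    apply ho.comp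
    apply Measurable.prodMk measurable_snd
    exact (meas_cont (d := d) (k := k)).measurable.comp (measurable_snd.prodMk measurable_fst)
  have h2 : Measurable fun q : ι × E d => W q.1 q.2 := measurable_from_prod_countable_right hW
  exact h2.comp (h1.prodMk measurable_fst)

theorem reach_meas {d k N n : ℕ} {ε : ℝ} {U : E d → ℝ≥0∞} (h : Reach d k N ε n U) :
    Measurable U ∧ ∀ x, U x ≤ 1 := by
  induction h with
  | base n v hv => exact ⟨cap_meas ε v, fun x => cap_le ε v x⟩
  | step n ι hN W hW o ho ih =>
    constructor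
    · exact Measurable.lintegral_prod_right (step_meas W (fun i => (ih i).1) o ho)
    · intro x
      calc ∫⁻ a, W (o (a, meas a x)) x ∂(gk d k) ≤ ∫⁻ a, 1 ∂(gk d k) :=
            lintegral_mono fun a => (ih _).2 x
        _ = 1 := by simp

end Crest.Agent.H19SL
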