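import Crest.Agent.H19SLCommon

set_option autoImplicit false
set_option linter.all false

open MeasureTheory ProbabilityTheory Crest.StreamLearn
open scoped ENNReal NNReal

namespace Crest.Agent.H19SLFinal

open Crest.Agent.H19SL

theorem frost_mono {d s : ℕ} {β β' : ℝ≥0∞} (h : β ≤ β') {ν : Measure (E d)} (hF : Frost s β ν) :
    Frost s β' ν := fun w r hr => (hF w r hr).trans (by gcongr)

theorem reach_frost (C : ℕ) (hC : 1 ≤ C) (d κ L : ℕ) (hL : 1 ≤ L) (hκ : 1 ≤ κ) (h16 : 16 * κ ≤ d)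
    (hStep : ∀ (ι : Type) [Fintype ι] [MeasurableSpace ι] [DiscreteMeasurableSpace ι],
  Fintype.card ι ≤ L ^ (2 * κ + 1) →
  ∀ (W : ι → E d → ℝ≥0∞) (o : (Fin (2 * κ) → E d) × (Fin (2 * κ) → ℝ) → ι) (β : ℝ≥0∞),
  (∀ i, Measurable (W i)) → (∀ i x, W i x ≤ 1) → Measurable o →
  (∀ i, Frost (4 * κ) β ((sig d).withDensity (W i))) →
  Frost (4 * κ) ((C : ℝ≥0∞) ^ d * L * β)
    ((sig d).withDensity fun x => ∫⁻ a, W (o (a, meas a x)) x ∂(gk d (2 * κ))))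
    (ε : ℝ) (β₀ : ℝ≥0∞)
    (hBase : ∀ v : E d, ‖v‖ = 1 → Frost (4 * κ) β₀ ((sig d).withDensity (cap ε v)))
    (N : ℕ) (hN : N ≤ L ^ (2 * κ + 1)) (n : ℕ) (U : E d → ℝ≥0∞) (hU : Reach d (2 * κ) N ε n U) :
    Frost (4 * κ) (((C : ℝ≥0∞) ^ d * L) ^ n * β₀) ((sig d).withDensity U) := by
  induction hU with
  | base n v hv =>
    refine frost_mono ?_ (hBase v hv)
    have : (1 : ℝ≥0∞) ≤ ((C : ℝ≥0∞) ^ d * L) ^ n := by
      apply one_le_pow₀
      have h1 : (1 : ℝ≥0∞) ≤ (C : ℝ≥0∞) ^ d := one_le_pow₀ (by exact_mod_cast hC)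
      have h2 : (1 : ℝ≥0∞) ≤ L := by exact_mod_cast hL
      calc (1 : ℝ≥0∞) = 1 * 1 := by simp
        _ ≤ _ := mul_le_mul' h1 h2
    calc β₀ = 1 * β₀ := by simp
      _ ≤ _ := by gcongr
  | step n ι hc W hW o ho ih =>
    have := hStep ι (hc.trans hN) W o (((C : ℝ≥0∞) ^ d * L) ^ n * β₀)
      (fun i => (reach_meas (hW i)).1) (fun i => (reach_meas (hW i)).2) ho ih
    refine frost_mono (le_of_eq ?_) this
    ring

theorem main (hStep : Step) (hBase : Base) (hRun : Run) (hRefl : Refl) (hNum : H19SL.Num) :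
    ∀ A : ℝ, 0 < A → ∃ c : ℝ, 0 < c ∧ ∃ d₀ : ℕ, ∀ d ≥ d₀, ∀ (M T : ℕ),
      (M : ℝ) ≤ A * (d : ℝ) ^ 2 → ∀ ε : ℝ, 0 < ε → ε ≤ 1 / 10 →
        ∀ L : Crest.StreamLearn.RLearner d T M,
          2 / 3 ≤ L.successProb ε → c * d * Real.log (1 / ε) ≤ T := by
  intro A hA
  obtain ⟨C, hC, hStep⟩ := hStep
  obtain ⟨c, hc, d₀, hnum⟩ := hNum A C hA hC
  refine ⟨c, hc, max d₀ 1, ?_⟩
  intro d hd M T hM ε hε hε' Lr hsucc
  have hd1 : 1 ≤ d := le_trans (le_max_right _ _) hd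
  have hd0 : d₀ ≤ d := le_trans (le_max_left _ _) hd
  by_contra hlt
  push Not at hlt
  by_cases h8 : 8 * T ≤ d
  · have := hRefl d T M ε Lr hd1 h8 hε'
    linarith
  · push Not at h8
    obtain ⟨κ, n, a, hκ, h16, h32, hT, ha, hfin⟩ := hnum d hd0 M T hM ε hε hε' hlt h8
    have hs : 4 * κ ≤ d - 1 := by omega
    have hrf := fun U => reach_frost C hC d κ (2 ^ a) Nat.one_le_two_pow hκ h16
      (fun ι _ _ _ => by
        intro hcard W o β h1 h2 h3 h4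
        exact hStep d κ (2 ^ a) hκ h16 h32 ι hcard W o β h1 h2 h3 h4) ε _
      (fun v hv => hBase d (4 * κ) hd1 hs v ε hv hε) (2 ^ M * (2 * κ + 1)) ha n U
    have hB := hRun d T M (2 * κ) n ε Lr
      (((C : ℝ≥0∞) ^ d * ((2 ^ a : ℕ) : ℝ≥0∞)) ^ n * ((32 : ℝ≥0∞) ^ d * ENNReal.ofReal ε ^ (d - 1 - 4 * κ)) * 2 ^ (4 * κ))
      hd1 hT (by
        intro U hU
        have h1 := hrf U hU 0 2 (by norm_num)
        rw [withDensity_apply _ measurableSet_ball] at h1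
        have h2 : ∫⁻ x, U x ∂(sig d) = ∫⁻ x in Metric.ball 0 2, U x ∂(sig d) := by
          rw [Measure.restrict_eq_self_of_ae_mem]
          filter_upwards [sig_ae d] with x hx
          simp [hx]
        rw [h2]
        refine h1.trans (le_of_eq ?_)
        congr 2
        simp)
    have hR : ((C : ℝ≥0∞) ^ d * ((2 ^ a : ℕ) : ℝ≥0∞)) ^ n * ((32 : ℝ≥0∞) ^ d * ENNReal.ofReal ε ^ (d - 1 - 4 * κ)) * 2 ^ (4 * κ)
        = ENNReal.ofReal ((2 : ℝ) ^ (4 * κ) * (((C : ℝ) ^ d * 2 ^ a) ^ n * (32 ^ d * ε ^ (d - 1 - 4 * κ)))) := by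
      have e1 : ENNReal.ofReal ((2 : ℝ) ^ (4 * κ)) = 2 ^ (4 * κ) := by
        rw [ENNReal.ofReal_pow (by norm_num)]; simp
      have e2 : ENNReal.ofReal ((C : ℝ) ^ d * 2 ^ a) = (C : ℝ≥0∞) ^ d * ((2 ^ a : ℕ) : ℝ≥0∞) := by
        rw [ENNReal.ofReal_mul (by positivity), ENNReal.ofReal_pow (by positivity),
          ENNReal.ofReal_pow (by norm_num), ENNReal.ofReal_natCast]
        simp
      have e3 : ENNReal.ofReal ((32 : ℝ) ^ d) = 32 ^ d := by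
        rw [ENNReal.ofReal_pow (by norm_num)]; simp
      have e4 : ENNReal.ofReal (((C : ℝ) ^ d * 2 ^ a) ^ n) = ((C : ℝ≥0∞) ^ d * ((2 ^ a : ℕ) : ℝ≥0∞)) ^ n := by
        rw [ENNReal.ofReal_pow (by positivity), e2]
      rw [ENNReal.ofReal_mul (by positivity), ENNReal.ofReal_mul (by positivity),
        ENNReal.ofReal_mul (by positivity), e1, e4, e3,
        ENNReal.ofReal_pow hε.le]
      ring
    rw [hR] at hB
    have := (ENNReal.ofReal_le_ofReal_iff (by positivity)).mp hB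
    linarith

end Crest.Agent.H19SLFinal
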