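import Crest.Prelude.Def_StreamLearn

/-!
Spec file for rid 322 (S0499), by helper19. See the long comment in H19SLNotes (journal note) for the
paper proof. Every module below is a `Prop`; prove `theorem main : <Prop>` in its own file.
-/

set_option autoImplicit false

open MeasureTheory ProbabilityTheory Crest.StreamLearn
open scoped ENNReal NNReal

namespace Crest.Agent.H19SL

/-- the measurement vector `(⟪a_j, x⟫)_j` -/
noncomputable def meas {d k : ℕ} (a : Fin k → E d) (x : E d) : Fin k → ℝ :=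
  fun j => inner ℝ (a j) x

/-- law of `k` independent Gaussian rows -/
noncomputable def gk (d k : ℕ) : Measure (Fin k → E d) :=
  Measure.pi fun _ => stdGaussian (E d)

/-- uniform law of the sphere, as a measure on `ℝ^d` -/
noncomputable def sig (d : ℕ) : Measure (E d) :=
  (sphereUniform d).map (fun x : Sphere d => (x : E d))

/-- Frostman/Morrey bound -/
def Frost {d : ℕ} (s : ℕ) (β : ℝ≥0∞) (ν : Measure (E d)) : Prop :=
  ∀ (w : E d) (r : ℝ), 0 < r → ν (Metric.ball w r) ≤ β * ENNReal.ofReal r ^ s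

/-- indicator of the cap of angle `ε` around `v` -/
noncomputable def cap {d : ℕ} (ε : ℝ) (v : E d) (x : E d) : ℝ≥0∞ :=
  Set.indicator {x : E d | Real.arccos (inner ℝ v x) ≤ ε} 1 x

/-- Riesz constant -/
noncomputable def Th (s k : ℕ) (β : ℝ≥0∞) (τ : ℝ) : ℝ≥0∞ :=
  2 * 8 ^ s * β * ENNReal.ofReal τ ^ (s - k)

/-- MODULE ROW. Gaussian row lemma: conditionally on an event that is invariant under translations
orthogonal to `H`, the marginal `⟪g, D⟫` has density at most `1/(√(2π) dist(D,H))`. -/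
def Row : Prop := ∀ (d : ℕ) (H : Submodule ℝ (E d)) (D : E d) (h : ℝ) (S : Set (E d)),
  0 < h → MeasurableSet S →
  (∀ g u : E d, g ∈ S → (∀ v ∈ H, inner ℝ u v = 0) → g + u ∈ S) →
  stdGaussian (E d) (S ∩ {g | |(inner ℝ g D : ℝ)| ≤ h}) ≤
    stdGaussian (E d) S * (ENNReal.ofReal h * (ENNReal.ofReal (Metric.infDist D H))⁻¹)

/-- MODULE RIESZ. Riesz potential of the distance to an affine subspace `x₀ + V`. -/
def Riesz : Prop := ∀ (d s k j : ℕ) (β : ℝ≥0∞) (τ : ℝ) (z x₀ : E d) (V : Submodule ℝ (E d))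
  (ν : Measure (E d)),
  0 < τ → Module.finrank ℝ V ≤ j → k + j + 1 ≤ s → ν (Metric.ball z τ)ᶜ = 0 → Frost s β ν →
  ∫⁻ x, ((ENNReal.ofReal (Metric.infDist (x - x₀) V))⁻¹) ^ k ∂ν ≤ Th s k β τ

/-- MODULE ENERGY. -/
def Energy : Prop := ∀ (d s k m : ℕ) (β : ℝ≥0∞) (τ h : ℝ) (z : E d) (ν : Measure (E d))
  [IsFiniteMeasure ν],
  0 < τ → 0 < h → k + m ≤ s → ν (Metric.ball z τ)ᶜ = 0 → Frost s β ν →
  ∫⁻ xs : Fin (m + 1) → E d,
      (stdGaussian (E d) {g | ∀ i, |(inner ℝ g (xs i - xs 0) : ℝ)| ≤ h}) ^ k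
      ∂(Measure.pi fun _ => ν)
    ≤ (ENNReal.ofReal h ^ k * Th s k β τ) ^ m * ν Set.univ

/-- MODULE LEMA. -/
def LemA : Prop := ∀ (d s k m : ℕ) (β : ℝ≥0∞) (τ : ℝ) (z : E d) (ν : Measure (E d))
  [IsFiniteMeasure ν],
  0 < τ → k + m ≤ s → ν (Metric.ball z τ)ᶜ = 0 → Frost s β ν → β ≠ ⊤ →
  ∀ R : Set ((Fin k → E d) × (Fin k → ℝ)), MeasurableSet R →
    (((gk d k).prod ν) {p | (p.1, meas p.1 p.2) ∈ R}) ^ (m + 1)
      ≤ (Th s k β τ ^ m * ν Set.univ) * (((gk d k).prod volume) R) ^ m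

/-- MODULE VOL. Expected volume of the image of a ball under `k = 2κ` Gaussian rows. -/
def Vol : Prop := ∃ C : ℕ, 1 ≤ C ∧ ∀ (d κ : ℕ), 1 ≤ κ → 16 * κ ≤ d → d ≤ 32 * κ →
  ∀ (z : E d) (τ : ℝ), 0 < τ →
    ∫⁻ a, volume ((meas a) '' (Metric.closedBall z τ)) ∂(gk d (2 * κ))
      ≤ (C : ℝ≥0∞) ^ d * ENNReal.ofReal τ ^ (2 * κ)

/-- MODULE SPH. -/
def Sph : Prop := ∀ (d : ℕ), 1 ≤ d → ∀ (z : E d) (r : ℝ), 0 < r →
  sig d (Metric.ball z r) ≤ ENNReal.ofReal (16 * r) ^ (d - 1)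

/-- MODULE BASE. -/
def Base : Prop := ∀ (d s : ℕ), 1 ≤ d → s ≤ d - 1 → ∀ (v : E d) (ε : ℝ), ‖v‖ = 1 → 0 < ε →
  Frost s ((32 : ℝ≥0∞) ^ d * ENNReal.ofReal ε ^ (d - 1 - s)) ((sig d).withDensity (cap ε v))

/-- MODULE STEP. One block of samples multiplies the Morrey norm by at most `C^d L`. -/
def Step : Prop := ∃ C : ℕ, 1 ≤ C ∧ ∀ (d κ L : ℕ), 1 ≤ κ → 16 * κ ≤ d → d ≤ 32 * κ →
  ∀ (ι : Type) [Fintype ι] [MeasurableSpace ι] [DiscreteMeasurableSpace ι],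
  Fintype.card ι ≤ L ^ (2 * κ + 1) →
  ∀ (W : ι → E d → ℝ≥0∞) (o : (Fin (2 * κ) → E d) × (Fin (2 * κ) → ℝ) → ι) (β : ℝ≥0∞),
  (∀ i, Measurable (W i)) → (∀ i x, W i x ≤ 1) → Measurable o →
  (∀ i, Frost (4 * κ) β ((sig d).withDensity (W i))) →
  Frost (4 * κ) ((C : ℝ≥0∞) ^ d * L * β)
    ((sig d).withDensity fun x => ∫⁻ a, W (o (a, meas a x)) x ∂(gk d (2 * κ)))

/-- value functions reachable with at most `n` blocks of `k` samples, each block having at most `N`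
outcomes -/
inductive Reach (d k N : ℕ) (ε : ℝ) : ℕ → (E d → ℝ≥0∞) → Prop
  | base (n : ℕ) (v : E d) (hv : ‖v‖ = 1) : Reach d k N ε n (cap ε v)
  | step (n : ℕ) (ι : Type) [Fintype ι] [MeasurableSpace ι] [DiscreteMeasurableSpace ι]
      (hN : Fintype.card ι ≤ N) (W : ι → E d → ℝ≥0∞) (hW : ∀ i, Reach d k N ε n (W i))
      (o : (Fin k → E d) × (Fin k → ℝ) → ι) (ho : Measurable o) :
      Reach d k N ε (n + 1) (fun x => ∫⁻ a, W (o (a, meas a x)) x ∂(gk d k))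

/-- MODULE MEASOUT. The output is a measurable function of signal, seed and samples. -/
def MeasOut : Prop := ∀ (d T M : ℕ) (L : RLearner d T M),
  letI : MeasurableSpace L.Ω := L.mΩ
  Measurable fun p : Sphere d × (L.Ω × (Fin T → E d)) => L.output p.2.1 p.1 p.2.2

/-- MODULE RUN. -/
def Run : Prop := ∀ (d T M k n : ℕ) (ε : ℝ) (L : RLearner d T M) (B : ℝ≥0∞),
  1 ≤ d → T ≤ n * k →
  (∀ U, Reach d k (2 ^ M * (k + 1)) ε n U → ∫⁻ x, U x ∂(sig d) ≤ B) →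
  ENNReal.ofReal (L.successProb ε) ≤ B

/-- MODULE REFL. -/
def Refl : Prop := ∀ (d T M : ℕ) (ε : ℝ) (L : RLearner d T M),
  1 ≤ d → 8 * T ≤ d → ε ≤ 1 / 10 → L.successProb ε ≤ 7 / 12

/-- MODULE NUM. pure real numerics for the final assembly. `Q` below is the bound obtained from
Step and Base: success ≤ 2^(4κ) (C^d 2^a)^n 32^d ε^(d-1-4κ). -/
def Num : Prop := ∀ (A : ℝ) (C : ℕ), 0 < A → 1 ≤ C → ∃ c : ℝ, 0 < c ∧ ∃ d₀ : ℕ, ∀ d ≥ d₀,
  ∀ (M T : ℕ), (M : ℝ) ≤ A * (d : ℝ) ^ 2 → ∀ ε : ℝ, 0 < ε → ε ≤ 1 / 10 →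
  (T : ℝ) < c * d * Real.log (1 / ε) → d < 8 * T →
  ∃ κ n a : ℕ, 1 ≤ κ ∧ 16 * κ ≤ d ∧ d ≤ 32 * κ ∧ T ≤ n * (2 * κ) ∧
    2 ^ M * (2 * κ + 1) ≤ (2 ^ a) ^ (2 * κ + 1) ∧
    (2 : ℝ) ^ (4 * κ) * (((C : ℝ) ^ d * 2 ^ a) ^ n * (32 ^ d * ε ^ (d - 1 - 4 * κ))) < 2 / 3

end Crest.Agent.H19SL
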