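import Crest.Agent.H19SLCommon

set_option autoImplicit false
set_option linter.all false

open MeasureTheory ProbabilityTheory Crest.StreamLearn
open scoped ENNReal NNReal

namespace Crest.Agent.H19SLStep

open Crest.Agent.H19SL

theorem holder_sum {ι : Type} [Fintype ι] (m : ℕ) (K : ℝ≥0∞) (lam ref : ι → ℝ≥0∞)
    (h : ∀ i, lam i ^ (m + 1) ≤ K * ref i ^ m) :
    (∑ i, lam i) ^ (m + 1) ≤ (Fintype.card ι : ℝ≥0∞) * K * (∑ i, ref i) ^ m := by
  rcases Nat.eq_zero_or_pos m with hm | hm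
  · subst hm
    simp only [zero_add, pow_one, pow_zero, mul_one] at h ⊢
    calc ∑ i, lam i ≤ ∑ i : ι, K := Finset.sum_le_sum fun i _ => h i
      _ = _ := by simp
  · set q : ℝ := (m : ℝ) + 1 with hq
    have hm' : (0 : ℝ) < m := by exact_mod_cast hm
    have hq0 : 0 < q := by positivity
    set p : ℝ := q / m with hp
    have hpq : p.HolderConjugate q := by
      rw [Real.holderConjugate_iff]
      constructor
      · rw [hp, lt_div_iff₀ hm']; linarith
      · rw [hp]; field_simp; linarith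
    have h1 : ∀ i, lam i ≤ K ^ (1 / q) * ref i ^ (m / q) := by
      intro i
      have h2 : (lam i ^ (m + 1)) ^ (1 / q) ≤ (K * ref i ^ m) ^ (1 / q) :=
        ENNReal.rpow_le_rpow (h i) (by positivity)
      rw [ENNReal.mul_rpow_of_nonneg _ _ (by positivity)] at h2
      rw [← ENNReal.rpow_natCast, ← ENNReal.rpow_mul, ← ENNReal.rpow_natCast, ← ENNReal.rpow_mul] at h2
      have e1 : ((m + 1 : ℕ) : ℝ) * (1 / q) = 1 := by push_cast; field_simp; linarith
      have e2 : (m : ℝ) * (1 / q) = m / q := by ring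
      rw [e1, ENNReal.rpow_one, e2] at h2
      exact h2
    have h3 : ∑ i, lam i ≤ K ^ (1 / q) * ((∑ i, ref i) ^ (m / q) * (Fintype.card ι : ℝ≥0∞) ^ (1 / q)) := by
      calc ∑ i, lam i ≤ ∑ i, K ^ (1 / q) * ref i ^ (m / q) := Finset.sum_le_sum fun i _ => h1 i
        _ = K ^ (1 / q) * ∑ i, ref i ^ (m / q) * 1 := by rw [Finset.mul_sum]; simp
        _ ≤ K ^ (1 / q) * ((∑ i, (ref i ^ (m / q)) ^ p) ^ (1 / p) * (∑ i : ι, (1 : ℝ≥0∞) ^ q) ^ (1 / q)) := by
            gcongr
            exact ENNReal.inner_le_Lp_mul_Lq _ _ _ hpq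
        _ = _ := by
            have e3 : ∀ i, (ref i ^ (m / q)) ^ p = ref i := by
              intro i
              rw [← ENNReal.rpow_mul]
              have : (m : ℝ) / q * p = 1 := by rw [hp]; field_simp
              rw [this, ENNReal.rpow_one]
            have e4 : 1 / p = m / q := by rw [hp]; field_simp
            simp only [e3, e4, ENNReal.one_rpow, Finset.sum_const, Finset.card_univ, nsmul_eq_mul, mul_one]
    calc (∑ i, lam i) ^ (m + 1)
        ≤ (K ^ (1 / q) * ((∑ i, ref i) ^ (m / q) * (Fintype.card ι : ℝ≥0∞) ^ (1 / q))) ^ (m + 1) := by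
          gcongr
      _ = _ := by
          have hc : ((m + 1 : ℕ) : ℝ) = q := by push_cast; rw [hq]
          rw [← ENNReal.rpow_natCast, hc, ENNReal.mul_rpow_of_nonneg _ _ hq0.le,
            ENNReal.mul_rpow_of_nonneg _ _ hq0.le, ← ENNReal.rpow_mul, ← ENNReal.rpow_mul,
            ← ENNReal.rpow_mul]
          have e1 : 1 / q * q = 1 := by field_simp
          have e2 : (m : ℝ) / q * q = m := by field_simp
          rw [e1, e2, ENNReal.rpow_one, ENNReal.rpow_one, ENNReal.rpow_natCast]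
          ring


theorem key {d k : ℕ} {ι : Type} [Fintype ι] [MeasurableSpace ι] [DiscreteMeasurableSpace ι]
    (W : ι → E d → ℝ≥0∞) (hW : ∀ i, Measurable (W i))
    (o : (Fin k → E d) × (Fin k → ℝ) → ι) (ho : Measurable o) (z : E d) (τ : ℝ) :
    ∫⁻ x in Metric.ball z τ, ∫⁻ a, W (o (a, meas a x)) x ∂(gk d k) ∂(sig d) ≤
    ∑ i, ((gk d k).prod (((sig d).withDensity (W i)).restrict (Metric.ball z τ)))
      {p | (p.1, meas p.1 p.2) ∈ (o ⁻¹' {i} ∩
        {p : (Fin k → E d) × (Fin k → ℝ) | ∃ x ∈ Metric.closedBall z τ, meas p.1 x = p.2})} := by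
  have hmm : Measurable fun p : (Fin k → E d) × E d => (p.1, meas p.1 p.2) :=
    measurable_fst.prodMk (meas_cont (d := d) (k := k)).measurable
  have hS : ∀ i, MeasurableSet {p : (Fin k → E d) × E d | (p.1, meas p.1 p.2) ∈ o ⁻¹' {i}} := by
    intro i
    exact hmm (ho (measurableSet_singleton i))
  -- Step 1: pointwise expansion
  have e1 : ∀ x, ∫⁻ a, W (o (a, meas a x)) x ∂(gk d k) =
      ∑ i, W i x * (gk d k) ((fun a => (a, x)) ⁻¹' {p : (Fin k → E d) × E d | (p.1, meas p.1 p.2) ∈ o ⁻¹' {i}}) := by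
    intro x
    have : ∀ a, W (o (a, meas a x)) x =
        ∑ i, Set.indicator ((fun a => (a, x)) ⁻¹' {p : (Fin k → E d) × E d | (p.1, meas p.1 p.2) ∈ o ⁻¹' {i}})
          (fun _ => W i x) a := by
      intro a
      rw [Finset.sum_eq_single (o (a, meas a x))]
      · rw [Set.indicator_of_mem]; simp
      · intro b _ hb
        rw [Set.indicator_of_notMem]
        simp only [Set.mem_preimage, Set.mem_setOf_eq, Set.mem_singleton_iff]
        exact fun h => hb h.symm
      · intro h; exact absurd (Finset.mem_univ _) h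
    simp_rw [this]
    rw [lintegral_finsetSum]
    · refine Finset.sum_congr rfl fun i _ => ?_
      rw [lintegral_indicator (measurable_prodMk_right (hS i)), lintegral_const,
        Measure.restrict_apply MeasurableSet.univ, Set.univ_inter]
    · intro i _
      exact measurable_const.indicator (measurable_prodMk_right (hS i))
  simp_rw [e1]
  rw [lintegral_finsetSum]
  swap
  · intro i _
    exact (hW i).mul (measurable_measure_prodMk_right (hS i))
  refine Finset.sum_le_sum fun i _ => ?_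
  have e2 : ∫⁻ x in Metric.ball z τ, W i x * (gk d k) ((fun a => (a, x)) ⁻¹' {p : (Fin k → E d) × E d | (p.1, meas p.1 p.2) ∈ o ⁻¹' {i}}) ∂(sig d)
      = ((gk d k).prod (((sig d).withDensity (W i)).restrict (Metric.ball z τ)))
        {p | (p.1, meas p.1 p.2) ∈ o ⁻¹' {i}} := by
    rw [Measure.prod_apply_symm (hS i), restrict_withDensity measurableSet_ball,
      lintegral_withDensity_eq_lintegral_mul _ (hW i) (measurable_measure_prodMk_right (hS i))]
    rfl
  rw [e2]
  set ν := ((sig d).withDensity (W i)).restrict (Metric.ball z τ) with hν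
  have hsub : {p : (Fin k → E d) × E d | (p.1, meas p.1 p.2) ∈ o ⁻¹' {i}} ⊆
      {p | (p.1, meas p.1 p.2) ∈ (o ⁻¹' {i} ∩
        {p : (Fin k → E d) × (Fin k → ℝ) | ∃ x ∈ Metric.closedBall z τ, meas p.1 x = p.2})} ∪
      (Set.univ ×ˢ (Metric.ball z τ)ᶜ) := by
    intro p hp
    by_cases h : p.2 ∈ Metric.ball z τ
    · left
      exact ⟨hp, p.2, Metric.ball_subset_closedBall h, rfl⟩
    · right
      exact ⟨trivial, h⟩
  refine (measure_mono hsub).trans ((measure_union_le _ _).trans ?_)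
  have hz : ((gk d k).prod ν) (Set.univ ×ˢ (Metric.ball z τ)ᶜ) = 0 := by
    rw [Measure.prod_prod, hν, Measure.restrict_apply measurableSet_ball.compl]
    simp
  rw [hz, add_zero]

theorem aux (hA : LemA) (C : ℕ) (hC : 1 ≤ C) (d κ k L : ℕ) (hkdef : k = 2 * κ)
    (hV : ∀ (z : E d) (τ : ℝ), 0 < τ →
      ∫⁻ a, volume ((meas a) '' (Metric.closedBall z τ)) ∂(gk d k)
      ≤ (C : ℝ≥0∞) ^ d * ENNReal.ofReal τ ^ k)
    (hκ : 1 ≤ κ) (h16 : 16 * κ ≤ d) (h32 : d ≤ 32 * κ)
    (ι : Type) [Fintype ι] [MeasurableSpace ι] [DiscreteMeasurableSpace ι]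
    (hcard : Fintype.card ι ≤ L ^ (k + 1))
    (W : ι → E d → ℝ≥0∞) (o : (Fin k → E d) × (Fin k → ℝ) → ι) (β : ℝ≥0∞)
    (hWm : ∀ i, Measurable (W i)) (hW1 : ∀ i x, W i x ≤ 1) (ho : Measurable o)
    (hF : ∀ i, Frost (4 * κ) β ((sig d).withDensity (W i))) :
    Frost (4 * κ) (((16 * C : ℕ) : ℝ≥0∞) ^ d * L * β)
    ((sig d).withDensity fun x => ∫⁻ a, W (o (a, meas a x)) x ∂(gk d k)) := by
  intro z τ hτ
  by_cases hβ : β = ⊤
  · have hL : L ≠ 0 := by
      rintro rfl
      have h0 : Fintype.card ι ≤ 0 := by simpa using hcard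
      have h1 : 0 < Fintype.card ι := Fintype.card_pos_iff.mpr ⟨o (fun _ => 0, fun _ => 0)⟩
      omega
    have hC0 : ((16 * C : ℕ) : ℝ≥0∞) ^ d ≠ 0 := by
      apply pow_ne_zero
      have : 16 * C ≠ 0 := by omega
      exact_mod_cast this
    rw [hβ, ENNReal.mul_top (mul_ne_zero hC0 (by exact_mod_cast hL)), ENNReal.top_mul]
    · exact le_top
    · apply pow_ne_zero
      simpa using hτ
  rw [withDensity_apply _ measurableSet_ball]
  have hk := key W hWm o ho z τ
  set G : Set ((Fin k → E d) × (Fin k → ℝ)) := {p | ∃ x ∈ Metric.closedBall z τ, meas p.1 x = p.2} with hG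
  have hGm : MeasurableSet G := (isClosed_G z τ).measurableSet
  set ν : ι → Measure (E d) := fun i => ((sig d).withDensity (W i)).restrict (Metric.ball z τ) with hν
  have hfin : ∀ i, IsFiniteMeasure (ν i) := by
    intro i
    have : IsFiniteMeasure ((sig d).withDensity (W i)) := by
      apply isFiniteMeasure_withDensity
      refine ne_of_lt (lt_of_le_of_lt (lintegral_mono (hW1 i)) ?_)
      simp
    infer_instance
  have hνF : ∀ i, Frost (4 * κ) β (ν i) := by
    intro i w r hr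
    exact (Measure.restrict_apply_le _ _).trans (hF i w r hr)
  have hνu : ∀ i, ν i Set.univ ≤ β * ENNReal.ofReal τ ^ (4 * κ) := by
    intro i
    simp only [hν]
    rw [Measure.restrict_apply_univ]
    exact hF i z τ hτ
  set lam : ι → ℝ≥0∞ := fun i => ((gk d k).prod (ν i)) {p | (p.1, meas p.1 p.2) ∈ (o ⁻¹' {i} ∩ G)} with hlam
  set ref : ι → ℝ≥0∞ := fun i => ((gk d k).prod volume) (o ⁻¹' {i} ∩ G) with href
  set K := Th (4 * κ) k β τ ^ k * (β * ENNReal.ofReal τ ^ (4 * κ)) with hK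
  have h1 : ∀ i, lam i ^ (k + 1) ≤ K * ref i ^ k := by
    intro i
    have := hfin i
    have h2 := hA d (4 * κ) k k β τ z (ν i) hτ (by omega) (by
      simp only [hν]
      rw [Measure.restrict_apply measurableSet_ball.compl]; simp) (hνF i) hβ
      (o ⁻¹' {i} ∩ G) ((ho (measurableSet_singleton i)).inter hGm)
    refine h2.trans ?_
    rw [hK]
    gcongr
    exact hνu i
  have h2 := holder_sum k K lam ref h1
  have h3 : ∑ i, ref i ≤ (C : ℝ≥0∞) ^ d * ENNReal.ofReal τ ^ k := by
    have e : ∀ i, ref i = (((gk d k).prod volume).restrict G) (o ⁻¹' {i}) := by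
      intro i
      rw [Measure.restrict_apply (ho (measurableSet_singleton i))]
    simp_rw [e]
    rw [sum_measure_preimage_singleton _ (fun y _ => ho (measurableSet_singleton y))]
    refine (measure_mono (Set.subset_univ _)).trans ?_
    rw [Measure.restrict_apply_univ, Measure.prod_apply hGm]
    refine le_trans (lintegral_mono fun a => measure_mono ?_) (hV z τ hτ)
    rintro y ⟨x, hx, hxy⟩
    exact ⟨x, hx, hxy⟩
  have h4 : (∑ i, lam i) ^ (k + 1) ≤ (((16 * C : ℕ) : ℝ≥0∞) ^ d * L * β * ENNReal.ofReal τ ^ (4 * κ)) ^ (k + 1) := by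
    refine h2.trans ?_
    have hc : (Fintype.card ι : ℝ≥0∞) ≤ (L : ℝ≥0∞) ^ (k + 1) := by exact_mod_cast hcard
    calc (Fintype.card ι : ℝ≥0∞) * K * (∑ i, ref i) ^ k
        ≤ (L : ℝ≥0∞) ^ (k + 1) * K * ((C : ℝ≥0∞) ^ d * ENNReal.ofReal τ ^ k) ^ k := by gcongr
      _ = (2 * 8 ^ (4 * κ) * (C : ℝ≥0∞) ^ d) ^ k * (L * β * ENNReal.ofReal τ ^ (4 * κ)) ^ (k + 1) := by
          rw [hK]
          unfold Th
          have : 4 * κ - k = k := by omega
          rw [this]
          have h5 : ENNReal.ofReal τ ^ (4 * κ) = ENNReal.ofReal τ ^ k * ENNReal.ofReal τ ^ k := by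
            rw [← pow_add]; congr 1; omega
          rw [h5]
          ring
      _ ≤ (((16 * C : ℕ) : ℝ≥0∞) ^ d) ^ (k + 1) * (L * β * ENNReal.ofReal τ ^ (4 * κ)) ^ (k + 1) := by
          refine mul_le_mul_left ?_ _
          have h6 : (2 * 8 ^ (4 * κ) * (C : ℝ≥0∞) ^ d) ≤ ((16 * C : ℕ) : ℝ≥0∞) ^ d := by
            push_cast
            rw [mul_pow]
            gcongr
            have : (2 : ℝ≥0∞) * 8 ^ (4 * κ) ≤ 2 ^ d * 8 ^ d := by
              have g1 : (2 : ℝ≥0∞) ≤ 2 ^ d :=
                calc (2 : ℝ≥0∞) = 2 ^ 1 := (pow_one _).symm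
                  _ ≤ 2 ^ d := pow_le_pow_right₀ (by norm_num) (by omega)
              have g2 : (8 : ℝ≥0∞) ^ (4 * κ) ≤ 8 ^ d := pow_le_pow_right₀ (by norm_num) (by omega)
              exact mul_le_mul' g1 g2
            refine this.trans (le_of_eq ?_)
            rw [← mul_pow]; norm_num
          calc (2 * 8 ^ (4 * κ) * (C : ℝ≥0∞) ^ d) ^ k ≤ (((16 * C : ℕ) : ℝ≥0∞) ^ d) ^ k :=
                pow_le_pow_left' h6 k
            _ ≤ (((16 * C : ℕ) : ℝ≥0∞) ^ d) ^ (k + 1) := by
              apply pow_le_pow_right₀ _ (by omega)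
              apply one_le_pow₀
              have : 1 ≤ 16 * C := by omega
              exact_mod_cast this
      _ = _ := by ring
  exact hk.trans ((ENNReal.pow_le_pow_left_iff (by omega)).mp h4)

theorem main (hA : LemA) (hV : Vol) : Step := by
  obtain ⟨C, hC, hV⟩ := hV
  refine ⟨16 * C, by omega, ?_⟩
  intro d κ L hκ h16 h32 ι _ _ _ hcard W o β hWm hW1 ho hF
  exact aux hA C hC d κ (2 * κ) L rfl (hV d κ hκ h16 h32) hκ h16 h32 ι hcard W o β hWm hW1 ho hF

end Crest.Agent.H19SLStep
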