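import Mathlib
import Crest.Prelude.Def_TwoAdicShift

/-! rid 113 (S0150): transitivity clause. -/

set_option autoImplicit false
open Crest.AnalysisR.TwoAdic MeasureTheory Set Filter
attribute [local instance] Crest.AnalysisR.TwoAdic.borelTwoAdic Crest.AnalysisR.TwoAdic.borelSpace_twoAdic

namespace Crest.R113.helper19

instance haar_isAddHaar : (haarTwoAdic).IsAddHaarMeasure := by
  unfold haarTwoAdic; infer_instance

instance haar_fin : IsFiniteMeasure haarTwoAdic := inferInstance

theorem erg0 : Ergodic (fun x : ℤ_[2] => (1 : ℤ_[2]) + x) haarTwoAdic := by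
  have h : DenseRange (fun n : ℕ => n • (1 : ℤ_[2])) := by
    have := PadicInt.denseRange_natCast (p := 2)
    have h2 : (fun n : ℕ => n • (1 : ℤ_[2])) = (Nat.cast : ℕ → ℤ_[2]) := by
      funext n; simp
    rw [h2]; exact this
  exact ergodic_add_left_of_denseRange_nsmul h haarTwoAdic

theorem erg1 : Ergodic (fun x : ℤ_[2] => x + 1) haarTwoAdic := by
  have h := erg0
  have h2 : (fun x : ℤ_[2] => (1 : ℤ_[2]) + x) = fun x => x + 1 := by
    funext x; ring
  rwa [h2] at h

theorem erg (A : Set ℤ_[2]) (hA : NullMeasurableSet A haarTwoAdic)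
    (h : ∀ᵐ x ∂haarTwoAdic, x ∈ A → x + 1 ∈ A) : haarTwoAdic A = 0 ∨ haarTwoAdic Aᶜ = 0 := by
  rcases erg1.ae_empty_or_univ_of_ae_le_preimage hA h with h | h
  · left; exact ae_eq_empty.1 h
  · right; exact ae_eq_univ.1 h

/-- pure Hilbert space lemma -/
theorem mem_closure_span {E : Type*} [NormedAddCommGroup E] [InnerProductSpace ℂ E] [CompleteSpace E]
    {ι : Type*} (e p q : ι → E) (he : ∀ v : E, (∀ k, inner ℂ (e k) v = 0) → v = 0)
    (hpq : ∀ k, e k = p k + q k) (horth : ∀ j k, inner ℂ (p j) (q k) = 0) (y : E)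
    (hy : ∀ k, inner ℂ (q k) y = 0) :
    y ∈ (Submodule.span ℂ (range p)).topologicalClosure := by
  set K := (Submodule.span ℂ (range p)).topologicalClosure with hK
  haveI : CompleteSpace K := (Submodule.isClosed_topologicalClosure _).completeSpace_coe
  have hqK : ∀ k, q k ∈ Kᗮ := by
    intro k
    have h1 : q k ∈ (Submodule.span ℂ (range p))ᗮ := by
      rw [Submodule.mem_orthogonal]
      intro u hu
      induction hu using Submodule.span_induction with
      | mem x hx => obtain ⟨j, rfl⟩ := hx; exact horth j k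
      | zero => simp
      | add x z _ _ hx hz => rw [inner_add_left, hx, hz, add_zero]
      | smul c x _ hx => rw [inner_smul_left, hx, mul_zero]
    rwa [hK, Submodule.orthogonal_closure]
  obtain ⟨a, ha, b, hb, rfl⟩ := K.exists_add_mem_mem_orthogonal y
  have hb0 : b = 0 := by
    apply he
    intro k
    rw [hpq k, inner_add_left]
    have h1 : inner ℂ (p k) b = 0 :=
      (Submodule.mem_orthogonal _ _).1 hb _ (Submodule.le_topologicalClosure _ (Submodule.subset_span ⟨k, rfl⟩))
    have h2 : inner ℂ (q k) a = 0 := by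
      have := (Submodule.mem_orthogonal _ _).1 (hqK k) a ha
      rw [← inner_conj_symm, this, map_zero]
    have h3 := hy k
    rw [inner_add_right, h2, zero_add] at h3
    rw [h1, h3, add_zero]
  rw [hb0, add_zero]
  exact ha

theorem basis_total (v : seqHilbert) (h : ∀ k, inner ℂ (basisVec k) v = 0) : v = 0 := by
  ext k
  have := h k
  rw [basisVec, lp.inner_single_left] at this
  simpa using this

/-- indicator multiplier -/
noncomputable def ind (A : Set ℤ_[2]) (hA : MeasurableSet A) (f : fibreSpace) : fibreSpace :=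
  ((Lp.memLp f).indicator hA).toLp _

theorem ind_coe (A : Set ℤ_[2]) (hA : MeasurableSet A) (f : fibreSpace) :
    (ind A hA f : ℤ_[2] → seqHilbert) =ᵐ[haarTwoAdic] A.indicator (f : ℤ_[2] → seqHilbert) :=
  MemLp.coeFn_toLp _

/-- pointwise orthogonality -/
theorem ae_orth (f u : fibreSpace) (h : ∀ A (hA : MeasurableSet A), inner ℂ (ind A hA f) u = 0) :
    ∀ᵐ x ∂haarTwoAdic, inner ℂ ((f : ℤ_[2] → seqHilbert) x) ((u : ℤ_[2] → seqHilbert) x) = (0 : ℂ) := by
  have hint := L2.integrable_inner (𝕜 := ℂ) f u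
  have := hint.ae_eq_zero_of_forall_setIntegral_eq_zero (fun A hA _ => by
    have h1 := h A hA
    rw [L2.inner_def] at h1
    rw [← integral_indicator hA, ← h1]
    apply integral_congr_ae
    filter_upwards [ind_coe A hA f] with x hx
    rw [hx]
    by_cases hxA : x ∈ A
    · rw [indicator_of_mem hxA, indicator_of_mem hxA]
    · rw [indicator_of_notMem hxA, indicator_of_notMem hxA, inner_zero_left])
  exact this

theorem trans_of (Sfib Vfib : ℤ_[2] → (seqHilbert →L[ℂ] seqHilbert))
    (S V : fibreSpace →L[ℂ] fibreSpace)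
    (hS : ∀ f : fibreSpace, ∀ᵐ x ∂haarTwoAdic, (S f : ℤ_[2] → seqHilbert) x = Sfib x ((f : ℤ_[2] → seqHilbert) x))
    (huni : ∀ x, ∀ W : Submodule ℂ seqHilbert, IsClosed (W : Set seqHilbert) →
        (∀ v ∈ W, Sfib x v ∈ W) → (W = ⊥ ∨ W = ⊤ ∨ ∃ h : ℤ, W = tailSpace h))
    (hV : ∀ f : fibreSpace, ∀ᵐ x ∂haarTwoAdic,
        (V f : ℤ_[2] → seqHilbert) (x + 1) = Vfib x ((f : ℤ_[2] → seqHilbert) x))
    (hdense : ∃ N : Set ℤ_[2], haarTwoAdic N = 0 ∧ ∀ x, x ∉ N →
        ∀ h : ℤ, closure (Vfib x '' (tailSpace h : Set seqHilbert)) = (tailSpace (h - 1) : Set seqHilbert)) :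
    ∀ W : Submodule ℂ fibreSpace, IsClosed (W : Set fibreSpace) →
        (∀ f ∈ W, S f ∈ W) → (∀ f ∈ W, V f ∈ W) →
        (∀ g : ℤ_[2] → ℂ, Measurable g → (∃ C : ℝ, ∀ x, ‖g x‖ ≤ C) →
          ∀ f ∈ W, ∀ f' : fibreSpace,
            (∀ᵐ x ∂haarTwoAdic, (f' : ℤ_[2] → seqHilbert) x = g x • (f : ℤ_[2] → seqHilbert) x) → f' ∈ W) →
        W = ⊥ ∨ W = ⊤ := by
  intro W hWc hWS hWV hWg
  haveI : CompleteSpace W := hWc.completeSpace_coe
  -- indicators
  have hind : ∀ f ∈ W, ∀ A (hA : MeasurableSet A), ind A hA f ∈ W := by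
    intro f hf A hA
    refine hWg (A.indicator (fun _ => (1 : ℂ))) (measurable_const.indicator hA) ⟨1, fun x => ?_⟩ f hf _ ?_
    · by_cases hx : x ∈ A
      · rw [indicator_of_mem hx]; simp
      · rw [indicator_of_notMem hx]; simp
    · filter_upwards [ind_coe A hA f] with x hx
      rw [hx]
      by_cases hxA : x ∈ A
      · rw [indicator_of_mem hxA, indicator_of_mem hxA, one_smul]
      · rw [indicator_of_notMem hxA, indicator_of_notMem hxA, zero_smul]
  have horth : ∀ f ∈ W, ∀ u ∈ Wᗮ, ∀ᵐ x ∂haarTwoAdic,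
      inner ℂ ((f : ℤ_[2] → seqHilbert) x) ((u : ℤ_[2] → seqHilbert) x) = (0 : ℂ) := by
    intro f hf u hu
    apply ae_orth
    intro A hA
    exact (Submodule.mem_orthogonal _ _).1 hu _ (hind f hf A hA)
  -- constant fields
  let e : ℤ → fibreSpace := fun j => indicatorConstLp 2 MeasurableSet.univ (measure_ne_top _ _) (basisVec j)
  have he : ∀ j, ∀ᵐ x ∂haarTwoAdic, (e j : ℤ_[2] → seqHilbert) x = basisVec j := by
    intro j
    have := indicatorConstLp_coeFn (p := 2) (μ := haarTwoAdic) (hs := MeasurableSet.univ)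
      (hμs := measure_ne_top _ _) (c := basisVec j)
    filter_upwards [this] with x hx
    rw [hx, indicator_of_mem (mem_univ x)]
  have hdec : ∀ j, ∃ p ∈ W, ∃ q ∈ Wᗮ, e j = p + q := fun j => W.exists_add_mem_mem_orthogonal (e j)
  choose p hpW q hqW hpq using hdec
  -- good points
  have hpt : ∀ j, ∀ᵐ x ∂haarTwoAdic, basisVec j = (p j : ℤ_[2] → seqHilbert) x + (q j : ℤ_[2] → seqHilbert) x := by
    intro j
    filter_upwards [he j, Lp.coeFn_add (p j) (q j)] with x h1 h2
    rw [← h1, hpq j, h2, Pi.add_apply]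
  let K : ℤ_[2] → Submodule ℂ seqHilbert := fun x =>
    (Submodule.span ℂ (range fun j => (p j : ℤ_[2] → seqHilbert) x)).topologicalClosure
  have G1 : ∀ᵐ x ∂haarTwoAdic, ∀ j, basisVec j = (p j : ℤ_[2] → seqHilbert) x + (q j : ℤ_[2] → seqHilbert) x :=
    ae_all_iff.2 hpt
  have G2 : ∀ᵐ x ∂haarTwoAdic, ∀ j k, inner ℂ ((p j : ℤ_[2] → seqHilbert) x) ((q k : ℤ_[2] → seqHilbert) x) = (0 : ℂ) :=
    ae_all_iff.2 fun j => ae_all_iff.2 fun k => horth _ (hpW j) _ (hqW k)
  have hmem : ∀ f ∈ W, ∀ᵐ x ∂haarTwoAdic, (f : ℤ_[2] → seqHilbert) x ∈ K x := by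
    intro f hf
    have h1 : ∀ᵐ x ∂haarTwoAdic, ∀ k, inner ℂ ((f : ℤ_[2] → seqHilbert) x) ((q k : ℤ_[2] → seqHilbert) x) = (0 : ℂ) :=
      ae_all_iff.2 fun k => horth _ hf _ (hqW k)
    filter_upwards [G1, G2, h1] with x g1 g2 g3
    apply mem_closure_span basisVec _ _ basis_total g1 g2
    intro k
    rw [← inner_conj_symm, g3 k, map_zero]
  have hinvS : ∀ᵐ x ∂haarTwoAdic, ∀ v ∈ K x, Sfib x v ∈ K x := by
    have h1 : ∀ᵐ x ∂haarTwoAdic, ∀ j, Sfib x ((p j : ℤ_[2] → seqHilbert) x) ∈ K x := by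
      refine ae_all_iff.2 fun j => ?_
      filter_upwards [hmem _ (hWS _ (hpW j)), hS (p j)] with x h1 h2
      rwa [h2] at h1
    filter_upwards [h1] with x hx
    have hle : K x ≤ (K x).comap (Sfib x : seqHilbert →ₗ[ℂ] seqHilbert) := by
      apply Submodule.topologicalClosure_minimal
      · rw [Submodule.span_le]
        rintro _ ⟨j, rfl⟩
        exact hx j
      · exact (Submodule.isClosed_topologicalClosure _).preimage (Sfib x).continuous
    intro v hv
    exact hle hv
  have hK : ∀ᵐ x ∂haarTwoAdic, K x = ⊥ ∨ K x = ⊤ ∨ ∃ h : ℤ, K x = tailSpace h := by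
    filter_upwards [hinvS] with x hx
    exact huni x _ (Submodule.isClosed_topologicalClosure _) hx
  -- the sets A n
  let A : ℤ → Set ℤ_[2] := fun n => {x | ∀ j, n ≤ j → (q j : ℤ_[2] → seqHilbert) x = 0}
  have hAm : ∀ n, MeasurableSet (A n) := by
    intro n
    have : A n = ⋂ j : ℤ, ⋂ _ : n ≤ j, {x | (q j : ℤ_[2] → seqHilbert) x = 0} := by
      ext x; simp [A]
    rw [this]
    refine MeasurableSet.iInter fun j => MeasurableSet.iInter fun _ => ?_
    exact (Lp.stronglyMeasurable (q j)).measurableSet_eq_fun stronglyMeasurable_const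
  have hA1 : ∀ n, ∀ᵐ x ∂haarTwoAdic, (x ∈ A n ↔ tailSpace n ≤ K x) := by
    intro n
    filter_upwards [G1, G2] with x g1 g2
    constructor
    · intro hx
      apply Submodule.topologicalClosure_minimal _ _ (Submodule.isClosed_topologicalClosure _)
      rw [Submodule.span_le]
      rintro _ ⟨⟨j, hj⟩, rfl⟩
      have h1 := hx j hj
      show basisVec j ∈ K x
      rw [g1 j, h1, add_zero]
      exact Submodule.le_topologicalClosure _ (Submodule.subset_span ⟨j, rfl⟩)
    · intro hx j hj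
      have h1 : basisVec j ∈ K x := hx (Submodule.le_topologicalClosure _
        (Submodule.subset_span ⟨⟨j, hj⟩, rfl⟩))
      have h2 : (p j : ℤ_[2] → seqHilbert) x ∈ K x :=
        Submodule.le_topologicalClosure _ (Submodule.subset_span ⟨j, rfl⟩)
      have h3 : (q j : ℤ_[2] → seqHilbert) x ∈ K x := by
        have := (K x).sub_mem h1 h2
        rwa [g1 j, add_sub_cancel_left] at this
      have h4 : (q j : ℤ_[2] → seqHilbert) x ∈ (K x)ᗮ := by
        have h5 : (q j : ℤ_[2] → seqHilbert) x ∈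
            (Submodule.span ℂ (range fun j => (p j : ℤ_[2] → seqHilbert) x))ᗮ := by
          rw [Submodule.mem_orthogonal]
          intro u hu
          induction hu using Submodule.span_induction with
          | mem y hy => obtain ⟨i, rfl⟩ := hy; exact g2 i j
          | zero => simp
          | add y z _ _ hy hz => rw [inner_add_left, hy, hz, add_zero]
          | smul c y _ hy => rw [inner_smul_left, hy, mul_zero]
        rwa [← Submodule.orthogonal_closure] at h5
      have h6 := (Submodule.mem_orthogonal _ _).1 h4 _ h3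
      exact inner_self_eq_zero.1 h6
  -- translation
  have htr : ∀ {P : ℤ_[2] → Prop}, (∀ᵐ x ∂haarTwoAdic, P x) → ∀ᵐ x ∂haarTwoAdic, P (x + 1) := by
    intro P hP
    exact erg1.toMeasurePreserving.quasiMeasurePreserving.ae hP
  have hstep : ∀ n, ∀ᵐ x ∂haarTwoAdic, x ∈ A n → x + 1 ∈ A (n - 1) := by
    intro n
    obtain ⟨N, hN, hNd⟩ := hdense
    have hN' : ∀ᵐ x ∂haarTwoAdic, x ∉ N := by
      rw [ae_iff]; simpa using hN
    have h1 : ∀ᵐ x ∂haarTwoAdic, ∀ j, Vfib x ((p j : ℤ_[2] → seqHilbert) x) ∈ K (x + 1) := by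
      refine ae_all_iff.2 fun j => ?_
      filter_upwards [htr (hmem _ (hWV _ (hpW j))), hV (p j)] with x h1 h2
      rwa [h2] at h1
    filter_upwards [h1, hN', G1, htr (hA1 (n - 1))] with x g1 g2 g3 g4 hx
    rw [g4]
    have h5 : (tailSpace n : Set seqHilbert) ⊆ (Vfib x) ⁻¹' (K (x + 1) : Set seqHilbert) := by
      have : tailSpace n ≤ (K (x + 1)).comap (Vfib x : seqHilbert →ₗ[ℂ] seqHilbert) := by
        apply Submodule.topologicalClosure_minimal
        · rw [Submodule.span_le]
          rintro _ ⟨⟨j, hj⟩, rfl⟩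
          show Vfib x (basisVec j) ∈ K (x + 1)
          have h6 := g1 j
          have h7 : basisVec j = (p j : ℤ_[2] → seqHilbert) x := by
            rw [g3 j, hx j hj, add_zero]
          rw [h7]; exact h6
        · exact (Submodule.isClosed_topologicalClosure _).preimage (Vfib x).continuous
      exact this
    have h6 : closure (Vfib x '' (tailSpace n : Set seqHilbert)) ⊆ (K (x + 1) : Set seqHilbert) :=
      closure_minimal (image_subset_iff.2 h5) (Submodule.isClosed_topologicalClosure _)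
    rw [hNd x g2 n] at h6
    exact h6
  -- monotonicity of measures
  have hsub : ∀ n, A (n - 1) ⊆ A n := fun n x hx j hj => hx j (by omega)
  have heq : ∀ n, ∀ᵐ x ∂haarTwoAdic, x ∈ A n → x ∈ A (n - 1) := by
    intro n
    have h1 : haarTwoAdic (A n) ≤ haarTwoAdic (A (n - 1)) := by
      calc haarTwoAdic (A n) ≤ haarTwoAdic ((fun x : ℤ_[2] => x + 1) ⁻¹' (A (n - 1))) :=
            measure_mono_ae (hstep n)
        _ = haarTwoAdic (A (n - 1)) :=
            erg1.toMeasurePreserving.measure_preimage (hAm _).nullMeasurableSet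
    have h2 := ae_eq_of_subset_of_measure_ge (hsub n) h1 (hAm (n - 1)).nullMeasurableSet (measure_ne_top _ _)
    filter_upwards [h2] with x hx
    intro h
    exact (hx.to_iff).2 h
  have hall : ∀ᵐ x ∂haarTwoAdic, ∀ n, (x ∈ A n → x ∈ A (n - 1)) := ae_all_iff.2 heq
  have hdown : ∀ᵐ x ∂haarTwoAdic, ∀ n, x ∈ A n → ∀ m, x ∈ A m := by
    filter_upwards [hall] with x hx n hn m
    have hk : ∀ k : ℕ, x ∈ A (n - k) := by
      intro k
      induction k with
      | zero => simpa using hn
      | succ k ih =>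
        have := hx _ ih
        have h3 : n - (k : ℤ) - 1 = n - ((k + 1 : ℕ) : ℤ) := by push_cast; ring
        rwa [h3] at this
    have h4 := hk (n - m).toNat
    intro j hj
    exact h4 j (by have := Int.self_le_toNat (n - m); omega)
  have hfin := erg (A 0) (hAm 0).nullMeasurableSet (by
    filter_upwards [hstep 0, htr hdown] with x h1 h2 hx
    exact h2 _ (h1 hx) 0)
  rcases hfin with h0 | h0
  · left
    -- p j = 0
    have hA0 : ∀ᵐ x ∂haarTwoAdic, x ∉ A 0 := by
      rw [ae_iff]; simpa using h0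
    have hA1' : ∀ᵐ x ∂haarTwoAdic, ∀ n, (x ∈ A n ↔ tailSpace n ≤ K x) := ae_all_iff.2 hA1
    have hKb : ∀ᵐ x ∂haarTwoAdic, K x = ⊥ := by
      filter_upwards [hA0, hdown, hA1', hK] with x g1 g2 g3 g4
      rcases g4 with h | h | ⟨n, h⟩
      · exact h
      · exact absurd (g2 0 ((g3 0).2 (by rw [h]; exact le_top)) 0) g1
      · exact absurd (g2 n ((g3 n).2 (by rw [h])) 0) g1
    rw [Submodule.eq_bot_iff]
    intro f hf
    have h1 : (f : ℤ_[2] → seqHilbert) =ᵐ[haarTwoAdic] 0 := by
      filter_upwards [hmem f hf, hKb] with x g1 g2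
      rw [g2, Submodule.mem_bot] at g1
      exact g1
    exact (Lp.eq_zero_iff_ae_eq_zero).2 h1
  · right
    have hA0 : ∀ᵐ x ∂haarTwoAdic, x ∈ A 0 := by
      rw [ae_iff]; exact h0
    have hW0 : Wᗮ = ⊥ := by
      rw [Submodule.eq_bot_iff]
      intro u hu
      have h1 : ∀ᵐ x ∂haarTwoAdic, ∀ j, inner ℂ ((p j : ℤ_[2] → seqHilbert) x) ((u : ℤ_[2] → seqHilbert) x) = (0 : ℂ) :=
        ae_all_iff.2 fun j => horth _ (hpW j) _ hu
      have h2 : (u : ℤ_[2] → seqHilbert) =ᵐ[haarTwoAdic] 0 := by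
        filter_upwards [h1, hA0, hdown, G1] with x g1 g2 g3 g4
        apply basis_total
        intro k
        have h5 : (q k : ℤ_[2] → seqHilbert) x = 0 := g3 0 g2 k k le_rfl
        rw [g4 k, h5, add_zero]
        exact g1 k
      exact (Lp.eq_zero_iff_ae_eq_zero).2 h2
    exact (Submodule.orthogonal_eq_bot_iff).1 hW0

end Crest.R113.helper19
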