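import Crest.Agent.H1Funeq
import Crest.Prelude.Def_MilnorK

set_option autoImplicit false
set_option linter.unusedSectionVars false
set_option linter.unusedVariables false

open Polynomial IntermediateField

namespace Crest.Agent.H1PInsep

universe u v

/-- the subfield of `p`-th powers -/
abbrev Fr (K : Type u) [Field K] (p : ℕ) [Fact p.Prime] [CharP K p] : Subfield K :=
  (frobenius K p).fieldRange

section

variable {p : ℕ} [hp : Fact p.Prime] {K : Type u} [Field K] [CharP K p]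

theorem expOne : ExpOne p (Fr K p) K := by
  intro z
  exact ⟨⟨z ^ p, ⟨z, rfl⟩⟩, rfl⟩

theorem mem_Fr {a : K} : a ∈ Fr K p ↔ ∃ b, b ^ p = a := Iff.rfl

instance : CharP (Fr K p) p := (algebraMap (Fr K p) K).charP (algebraMap (Fr K p) K).injective p

theorem mem_bot_iff {x : K} : x ∈ (⊥ : IntermediateField (Fr K p) K) ↔ ∃ b, b ^ p = x := by
  rw [IntermediateField.mem_bot]
  constructor
  · rintro ⟨⟨a, b, hb⟩, rfl⟩
    exact ⟨b, hb⟩
  · rintro ⟨b, rfl⟩
    exact ⟨⟨b ^ p, b, rfl⟩, rfl⟩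

theorem neg_one_mem : (-1 : K) ∈ (⊥ : IntermediateField (Fr K p) K) :=
  neg_mem (one_mem _)

theorem natCast_val_ne {d : ZMod p} (hd : d ≠ 0) : ((d.val : ℕ) : K) ≠ 0 := by
  intro h
  rw [CharP.cast_eq_zero_iff K p] at h
  have h1 : (d.val : ZMod p) = 0 := (ZMod.natCast_eq_zero_iff _ _).2 h
  rw [ZMod.natCast_zmod_val] at h1
  exact hd h1

theorem nondeg {x : K} (hx : x ∉ (⊥ : IntermediateField (Fr K p) K)) {i : ℕ} (hi : i < p)
    (b : Fr K p) : 1 + x ≠ algebraMap (Fr K p) K b * x ^ i := by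
  intro h
  have hp2 : 2 ≤ p := hp.out.two_le
  have key := linInd expOne hx (fun j => (if j = 0 then 1 else 0) + (if j = 1 then 1 else 0)
    - (if j = i then b else 0)) (by
      have : ∀ j ∈ Finset.range p, (algebraMap (Fr K p) K) ((if j = 0 then 1 else 0) +
          (if j = 1 then 1 else 0) - (if j = i then b else 0)) * x ^ j =
          (if j = 0 then 1 else 0) + (if j = 1 then x else 0) -
          (if j = i then algebraMap (Fr K p) K b * x ^ i else 0) := by
        intro j _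
        rw [map_sub, map_add]
        split_ifs <;> simp_all
        ring
      rw [Finset.sum_congr rfl this, Finset.sum_sub_distrib, Finset.sum_add_distrib]
      simp only [Finset.sum_ite_eq', Finset.mem_range]
      rw [if_pos (by omega), if_pos (by omega), if_pos hi, h, sub_self])
  by_cases h0 : i = 0
  · have := key 1 (by omega)
    subst h0
    simp at this
  · have := key 0 (by omega)
    simp [Ne.symm h0] at this

end

/-- Abstract form of the class map `Kˣ → Kˣ/(Kˣ)^p`. -/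
structure ClData (p : ℕ) [Fact p.Prime] (K : Type u) [Field K] [CharP K p] (V : Type v)
    [AddCommGroup V] [Module (ZMod p) V] where
  cl : K → V
  mul : ∀ {x y : K}, x ≠ 0 → y ≠ 0 → cl (x * y) = cl x + cl y
  ker : ∀ {x : K}, x ≠ 0 → (cl x = 0 ↔ x ∈ (⊥ : IntermediateField (Fr K p) K))
  surj : ∀ ξ : V, ∃ x : K, x ≠ 0 ∧ cl x = ξ

namespace ClData

variable {p : ℕ} [hp : Fact p.Prime] {K : Type u} [Field K] [CharP K p] {V : Type v}
    [AddCommGroup V] [Module (ZMod p) V] (c : ClData p K V)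

theorem one : c.cl 1 = 0 := by
  rw [c.ker one_ne_zero]
  exact one_mem _

theorem inv {x : K} (hx : x ≠ 0) : c.cl (x⁻¹) = - c.cl x := by
  have h1 := c.mul hx (inv_ne_zero hx)
  rw [mul_inv_cancel₀ hx, c.one] at h1
  exact (neg_eq_of_add_eq_zero_right h1.symm).symm

theorem div {x y : K} (hx : x ≠ 0) (hy : y ≠ 0) : c.cl (x / y) = c.cl x - c.cl y := by
  rw [div_eq_mul_inv, c.mul hx (inv_ne_zero hy), c.inv hy, sub_eq_add_neg]

theorem pow {x : K} (hx : x ≠ 0) (n : ℕ) : c.cl (x ^ n) = (n : ZMod p) • c.cl x := by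
  induction n with
  | zero => simp [c.one]
  | succ n ih =>
    rw [pow_succ, c.mul (pow_ne_zero _ hx) hx, ih, Nat.cast_succ, add_smul, one_smul]

theorem of_alg {a : Fr K p} (ha : a ≠ 0) : c.cl (algebraMap (Fr K p) K a) = 0 := by
  rw [c.ker (by simpa using ha)]
  exact IntermediateField.algebraMap_mem _ _

theorem eq_iff {x y : K} (hx : x ≠ 0) (hy : y ≠ 0) :
    c.cl x = c.cl y ↔ ∃ a : Fr K p, a ≠ 0 ∧ y = algebraMap (Fr K p) K a * x := by
  constructor
  · intro h
    have h1 : c.cl (y / x) = 0 := by rw [c.div hy hx, h, sub_self]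
    rw [c.ker (div_ne_zero hy hx), IntermediateField.mem_bot] at h1
    obtain ⟨a, ha⟩ := h1
    refine ⟨a, ?_, ?_⟩
    · rintro rfl
      rw [map_zero, eq_comm, div_eq_zero_iff] at ha
      rcases ha with h | h
      · exact hy h
      · exact hx h
    · rw [ha]; field_simp
  · rintro ⟨a, ha, rfl⟩
    rw [c.mul (by simpa using ha) hx, c.of_alg ha, zero_add]

theorem smul_left {x : K} (hx : x ≠ 0) {a : Fr K p} (ha : a ≠ 0) :
    c.cl (algebraMap (Fr K p) K a * x) = c.cl x := by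
  rw [c.mul (by simpa using ha) hx, c.of_alg ha, zero_add]

theorem neg {x : K} (hx : x ≠ 0) : c.cl (-x) = c.cl x := by
  have h1 : (-x : K) = (-1) * x := by ring
  rw [h1, c.mul (by simp) hx, (c.ker (by simp)).2 neg_one_mem, zero_add]

/-- `Lin ξ η`: there is `z` with `[z] = ξ`, `[1+z] = η`. -/
def Lin (ξ η : V) : Prop := ∃ z : K, z ≠ 0 ∧ 1 + z ≠ 0 ∧ c.cl z = ξ ∧ c.cl (1 + z) = η

theorem lin_der (D : Derivation (Fr K p) K K) {x u z : K} (hx : x ≠ 0) (hu : u ≠ 0)
    (hD : D x = x) {n : ℕ} (hn : (n : K) ≠ 0) (hz : z ≠ 0) (hz1 : 1 + z ≠ 0)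
    (h1 : c.cl z = c.cl (x ^ n)) (h2 : c.cl (1 + z) = c.cl (u ^ n)) :
    D z = n * z ∧ z / (1 + z) = D u / u := by
  have hn0 : n ≠ 0 := by rintro rfl; simp at hn
  obtain ⟨a, ha0, ha⟩ := (c.eq_iff (pow_ne_zero _ hx) hz).1 h1.symm
  obtain ⟨b, hb0, hb⟩ := (c.eq_iff (pow_ne_zero _ hu) hz1).1 h2.symm
  have e1 : D z = n * z := by
    rw [ha, Derivation.leibniz, Derivation.map_algebraMap, Derivation.leibniz_pow, hD]
    simp only [smul_eq_mul, nsmul_eq_mul, mul_zero, add_zero]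
    have : x ^ (n - 1) * x = x ^ n := by rw [← pow_succ]; congr 1; omega
    rw [this]; ring
  refine ⟨e1, ?_⟩
  have e2 : D (1 + z) = n * z := by rw [map_add, e1, Derivation.map_one_eq_zero, zero_add]
  rw [hb, Derivation.leibniz, Derivation.map_algebraMap, Derivation.leibniz_pow] at e2
  simp only [smul_eq_mul, nsmul_eq_mul, mul_zero, add_zero] at e2
  have e3 : u ^ (n - 1) * u = u ^ n := by rw [← pow_succ]; congr 1; omega
  rw [div_eq_div_iff hz1 hu, hb, ← e3]
  have : (n : K) * (z * u) = n * (D u * (algebraMap (Fr K p) K b * (u ^ (n - 1) * u))) := by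
    rw [← mul_assoc, ← e2]; ring
  exact mul_left_cancel₀ hn this

theorem lin_unique {x : K} (hx : x ∉ (⊥ : IntermediateField (Fr K p) K)) {η : V}
    {d d' : ZMod p} (hd : d ≠ 0) (hd' : d' ≠ 0) (h : c.Lin (d • c.cl x) (d • η))
    (h' : c.Lin (d' • c.cl x) (d' • η)) : d = d' := by
  have hx0 : x ≠ 0 := by rintro rfl; exact hx (zero_mem _)
  obtain ⟨u, hu, rfl⟩ := c.surj η
  obtain ⟨D, -, hD⟩ := exists_derivation expOne ⊥ hx
  obtain ⟨z, hz, hz1, e1, e2⟩ := h
  obtain ⟨z', hz', hz1', e1', e2'⟩ := h'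
  rw [← ZMod.natCast_zmod_val d, ← c.pow hx0] at e1
  rw [← ZMod.natCast_zmod_val d, ← c.pow hu] at e2
  rw [← ZMod.natCast_zmod_val d', ← c.pow hx0] at e1'
  rw [← ZMod.natCast_zmod_val d', ← c.pow hu] at e2'
  obtain ⟨f1, f2⟩ := c.lin_der D hx0 hu hD (natCast_val_ne hd) hz hz1 e1 e2
  obtain ⟨f1', f2'⟩ := c.lin_der D hx0 hu hD (natCast_val_ne hd') hz' hz1' e1' e2'
  have hzz : z = z' := by
    rw [← f2', div_eq_div_iff hz1 hz1'] at f2
    linear_combination f2
  rw [← hzz, f1] at f1'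
  have := mul_right_cancel₀ hz f1'
  rw [CharP.natCast_eq_natCast K p] at this
  have h3 : (d.val : ZMod p) = (d'.val : ZMod p) := (ZMod.natCast_eq_natCast_iff _ _ _).2 this
  rwa [ZMod.natCast_zmod_val, ZMod.natCast_zmod_val] at h3

/-- logarithmic derivative -/
theorem dlog_congr (D : Derivation (Fr K p) K K) {x y : K} (hx : x ≠ 0) (hy : y ≠ 0)
    (h : c.cl x = c.cl y) : D x / x = D y / y := by
  obtain ⟨a, ha, rfl⟩ := (c.eq_iff hx hy).1 h
  rw [Derivation.leibniz, Derivation.map_algebraMap]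
  have : algebraMap (Fr K p) K a ≠ 0 := by simpa using ha
  simp only [smul_eq_mul, mul_zero, add_zero]
  field_simp

theorem dlog_mul (D : Derivation (Fr K p) K K) {x y : K} (hx : x ≠ 0) (hy : y ≠ 0) :
    D (x * y) / (x * y) = D x / x + D y / y := by
  rw [Derivation.leibniz]
  simp only [smul_eq_mul]
  field_simp
  ring

end ClData

end Crest.Agent.H1PInsep
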