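import Crest.Agent.H1Classes

set_option autoImplicit false
set_option linter.unusedSectionVars false
set_option linter.unusedVariables false

open Polynomial IntermediateField

namespace Crest.Agent.H1PInsep

universe u v

theorem not_mem_adjoin_pow {E : Type v} {L : Type u} [Field E] [Field L] [Algebra E L] {τ : L}
    (h : Transcendental E τ) {n : ℕ} (hn : 2 ≤ n) : τ ∉ E⟮τ ^ n⟯ := by
  intro hmem
  rw [IntermediateField.mem_adjoin_simple_iff] at hmem
  obtain ⟨f, g, hfg⟩ := hmem
  have hτ : τ ≠ 0 := by
    rintro rfl
    exact h (isAlgebraic_zero)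
  have hg : aeval (τ ^ n) g ≠ 0 := by
    intro h0
    rw [h0, div_zero] at hfg
    exact hτ hfg
  have h1 : aeval τ (X * expand E n g - expand E n f) = 0 := by
    rw [map_sub, map_mul, aeval_X, expand_aeval, expand_aeval, sub_eq_zero]
    field_simp at hfg
    exact hfg
  have h2 := (transcendental_iff.1 h) _ h1
  rw [sub_eq_zero] at h2
  have hg0 : g ≠ 0 := by
    rintro rfl
    simp at hg
  have hg1 : expand E n g ≠ 0 := (expand_ne_zero (by omega)).2 hg0
  have h3 := congrArg natDegree h2
  rw [natDegree_mul X_ne_zero hg1, natDegree_X, natDegree_expand, natDegree_expand] at h3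
  have h4 : n ∣ 1 := by
    have : 1 = f.natDegree * n - g.natDegree * n := by omega
    rw [this, ← Nat.sub_mul]
    exact Dvd.intro_left _ rfl
  have := Nat.le_of_dvd one_pos h4
  omega

theorem essFinite_of {L : Type u} [Field L] (l : Subfield L)
    (hL : ∃ s : Finset L, Subfield.closure ((l : Set L) ∪ (s : Set L)) = ⊤) :
    Algebra.EssFiniteType l L := by
  obtain ⟨s, hs⟩ := hL
  rw [← IntermediateField.fg_top_iff]
  refine ⟨s, ?_⟩
  rw [eq_top_iff]
  intro x _
  have : x ∈ (IntermediateField.adjoin l (s : Set L)).toSubfield := by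
    rw [IntermediateField.adjoin_toSubfield]
    have h1 : Set.range (algebraMap l L) = (l : Set L) := by
      ext y
      constructor
      · rintro ⟨a, rfl⟩; exact a.2
      · intro hy; exact ⟨⟨y, hy⟩, rfl⟩
    rw [h1, hs]
    trivial
  exact this

theorem mem_of_algebraic {L : Type u} [Field L] (l : Subfield L) [IsAlgClosed l] {t : L}
    (ht : IsAlgebraic l t) : t ∈ l := by
  have h1 := minpoly.irreducible ht.isIntegral
  have h2 := IsAlgClosed.degree_eq_one_of_irreducible l h1
  obtain ⟨a, ha⟩ := minpoly.mem_range_of_degree_eq_one l t h2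
  rw [← ha]
  exact a.2

theorem finite_of_algebraic {E : Type v} {L : Type u} [Field E] [Field L] [Algebra E L]
    [Algebra.EssFiniteType E L] [Algebra.IsAlgebraic E L] : FiniteDimensional E L := by
  obtain ⟨s, hs⟩ := IntermediateField.fg_top E L
  have h1 : FiniteDimensional E (IntermediateField.adjoin E (s : Set L)) := by
    apply IntermediateField.finiteDimensional_adjoin
    intro x _
    exact Algebra.IsIntegral.isIntegral x
  rw [hs] at h1
  exact (IntermediateField.topEquiv (F := E) (E := L)).toLinearEquiv.finiteDimensional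

theorem not_divisible {L : Type u} [Field L] (l : Subfield L) [IsAlgClosed l]
    [Algebra.EssFiniteType l L] {t : L} (ht : t ∉ l) :
    ∃ q : ℕ, q.Prime ∧ ∀ τ : L, τ ^ q ≠ t := by
  have htr : Transcendental l t := fun h => ht (mem_of_algebraic l h)
  obtain ⟨B, hB, hBt⟩ := exists_isTranscendenceBasis_superset (R := l) (A := L) (s := {t})
    ((algebraicIndependent_unique_type_iff (x := fun x : ({t} : Set L) => (x : L))).2 (by
      exact htr))
  have htB : t ∈ B := hB rfl
  set E := IntermediateField.adjoin l (B \ {t}) with hE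
  have htE : Transcendental E t := by
    have h := hBt.1.transcendental_adjoin (s := {j : B | j.1 ≠ t}) (i := ⟨t, htB⟩) (by simp)
    have himg : (Subtype.val '' {j : B | j.1 ≠ t}) = B \ {t} := by
      ext y
      constructor
      · rintro ⟨j, hj, rfl⟩
        exact ⟨j.2, hj⟩
      · rintro ⟨h1, h2⟩
        exact ⟨⟨y, h1⟩, h2, rfl⟩
    rw [himg] at h
    rw [hE, IntermediateField.transcendental_adjoin_iff]
    exact h
  have hess : Algebra.EssFiniteType E L := Algebra.EssFiniteType.of_comp l E L
  have hess2 : Algebra.EssFiniteType E⟮t⟯ L := Algebra.EssFiniteType.of_comp E E⟮t⟯ L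
  have halg : Algebra.IsAlgebraic E⟮t⟯ L := by
    have h1 := hBt.isAlgebraic_field
    have hle : (IntermediateField.adjoin l (Set.range (Subtype.val : B → L))).toSubalgebra ≤
        (E⟮t⟯.restrictScalars l).toSubalgebra := by
      have : IntermediateField.adjoin l (Set.range (Subtype.val : B → L)) ≤
        (E⟮t⟯.restrictScalars l) := by
        rw [IntermediateField.adjoin_le_iff]
        rintro _ ⟨j, rfl⟩
        by_cases hj : j.1 = t
        · rw [hj]
          exact mem_adjoin_simple_self E t
        · have h3 : j.1 ∈ E := IntermediateField.subset_adjoin l _ ⟨j.2, hj⟩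
          exact (E⟮t⟯).algebraMap_mem ⟨j.1, h3⟩
      exact this
    constructor
    intro x
    exact IsAlgebraic.tower_top_of_subalgebra_le hle (h1.isAlgebraic x)
  have hfin : FiniteDimensional E⟮t⟯ L := finite_of_algebraic
  obtain ⟨q, hq1, hq2⟩ := Nat.exists_infinite_primes (Module.finrank E⟮t⟯ L + 1)
  refine ⟨q, hq2, ?_⟩
  intro τ hτ
  have htrans : ∀ b : L, b ^ q = t → Transcendental E b := by
    intro b hb hbalg
    apply htE
    rw [← hb]
    exact hbalg.pow q
  have hirr : Irreducible (X ^ q - C (⟨t, mem_adjoin_simple_self E t⟩ : E⟮t⟯)) := by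
    apply X_pow_sub_C_irreducible_of_prime hq2
    intro b hb
    have hb' : (b : L) ^ q = t := by
      have := congrArg (algebraMap E⟮t⟯ L) hb
      simpa using this
    have h1 := not_mem_adjoin_pow (htrans b hb') hq2.two_le
    rw [hb'] at h1
    exact h1 b.2
  have hmin : minpoly E⟮t⟯ τ = X ^ q - C (⟨t, mem_adjoin_simple_self E t⟩ : E⟮t⟯) := by
    symm
    apply minpoly.eq_of_irreducible_of_monic hirr
    · simp [hτ]
    · exact monic_X_pow_sub_C _ hq2.ne_zero
  have h2 := minpoly.natDegree_le (A := E⟮t⟯) τ
  rw [hmin, natDegree_X_pow_sub_C] at h2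
  omega

/-- kernel of a derivation as a subfield -/
def kerSubfield {E : Type v} {K : Type u} [Field E] [Field K] [Algebra E K]
    (D : Derivation E K K) : Subfield K where
  carrier := {z | D z = 0}
  mul_mem' {a b} ha hb := by
    simp only [Set.mem_ofPred_eq] at *
    simp [ha, hb]
  one_mem' := by simp
  add_mem' {a b} ha hb := by
    simp only [Set.mem_ofPred_eq] at *
    simp [ha, hb]
  zero_mem' := by simp
  neg_mem' {a} ha := by
    simp only [Set.mem_ofPred_eq] at *
    simp [ha]
  inv_mem' a ha := by
    simp only [Set.mem_ofPred_eq] at *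
    simp [Derivation.leibniz_inv, ha]

theorem big {p : ℕ} [hp : Fact p.Prime] {K : Type u} [Field K] [CharP K p] (k : Subfield K)
    [Algebra.EssFiniteType k K] (h2 : 2 ≤ Algebra.trdeg k K) (x : K) :
    ∃ y : K, y ∉ (Fr K p)⟮x⟯ := by
  by_contra hcon
  push Not at hcon
  set E := k⟮x⟯ with hE
  have hess : Algebra.EssFiniteType E K := Algebra.EssFiniteType.of_comp k E K
  have hD0 : ∀ D : Derivation E K K, D = 0 := by
    intro D
    ext z
    have hz := hcon z
    have hz' : z ∈ ((Fr K p)⟮x⟯).toSubfield := hz
    rw [IntermediateField.adjoin_toSubfield] at hz'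
    have hle : Subfield.closure (Set.range (algebraMap (Fr K p) K) ∪ {x}) ≤ kerSubfield D := by
      rw [Subfield.closure_le]
      rintro y (⟨⟨a, b, rfl⟩, rfl⟩ | hy)
      · change D (b ^ p) = 0
        rw [Derivation.leibniz_pow]
        simp
      · rw [Set.mem_singleton_iff] at hy
        subst hy
        exact D.map_algebraMap (⟨y, mem_adjoin_simple_self k y⟩ : k⟮y⟯)
    exact hle hz'
  have hsub : Subsingleton (Ω[K⁄E]) := by
    rw [← not_nontrivial_iff_subsingleton]
    intro hnt
    obtain ⟨ω, hω⟩ := exists_ne (0 : Ω[K⁄E])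
    apply hω
    rw [← Module.forall_dual_apply_eq_zero_iff K ω]
    intro f
    have h1 : f.compDer (KaehlerDifferential.D E K) = 0 := hD0 _
    have h2 : f = 0 := by
      apply Derivation.liftKaehlerDifferential_unique
      rw [h1]
      ext z
      simp
    rw [h2]
    simp
  have : Algebra.FormallyUnramified E K := ⟨hsub⟩
  have hsep : Algebra.IsSeparable E K := Algebra.FormallyUnramified.isSeparable E K
  have halg : Algebra.IsAlgebraic E K := inferInstance
  have halg' : Algebra.IsAlgebraic (Algebra.adjoin k ({x} : Set K)) K := by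
    rw [← IntermediateField.isAlgebraic_adjoin_iff_top]
    exact halg
  have h3 := Algebra.IsAlgebraic.trdeg_le_cardinalMk k ({x} : Set K)
  rw [Cardinal.mk_singleton] at h3
  have h4 := h2.trans h3
  norm_num at h4

end Crest.Agent.H1PInsep
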