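import Crest.Agent.H1Lines

set_option autoImplicit false
set_option linter.unusedSectionVars false
set_option linter.unusedVariables false

open Polynomial IntermediateField

namespace Crest.Agent.H1PInsep

universe u v u' v'

section

variable {p : ℕ} [hp : Fact p.Prime]
  {K : Type u} [Field K] [CharP K p] {V : Type v} [AddCommGroup V] [Module (ZMod p) V]
  {c : ClData p K V}
  {L : Type u'} [Field L] [CharP L p] {W : Type v'} [AddCommGroup W] [Module (ZMod p) W]
  {d : ClData p L W}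

theorem mem_bot_of_lin {z : L} {a b : Fr L p} (hb : b ≠ 0)
    (h : algebraMap (Fr L p) L a + algebraMap (Fr L p) L b * z = 0) :
    z ∈ (⊥ : IntermediateField (Fr L p) L) := by
  rw [IntermediateField.mem_bot]
  refine ⟨-a / b, ?_⟩
  have hb' : algebraMap (Fr L p) L b ≠ 0 := by simpa using hb
  rw [map_div₀, map_neg]
  field_simp
  linear_combination -h

theorem coeff_eq {z : L} (hz : z ∉ (⊥ : IntermediateField (Fr L p) L)) {a b a' b' : Fr L p}
    (h : algebraMap (Fr L p) L a + algebraMap (Fr L p) L b * z =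
      algebraMap (Fr L p) L a' + algebraMap (Fr L p) L b' * z) : a = a' ∧ b = b' := by
  have hbb : b = b' := by
    by_contra hne
    apply hz
    apply mem_bot_of_lin (a := a - a') (b := b - b') (sub_ne_zero.2 hne)
    rw [map_sub, map_sub]
    linear_combination h
  subst hbb
  have : algebraMap (Fr L p) L a = algebraMap (Fr L p) L a' := by linear_combination h
  exact ⟨(algebraMap (Fr L p) L).injective this, rfl⟩

/-- `Rel x z` -/
def Rel (c : ClData p K V) (d : ClData p L W) (ψ : V ≃ₗ[ZMod p] W) (x : K) (z : L) : Prop :=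
  z ≠ 0 ∧ 1 + z ≠ 0 ∧ d.cl z = ψ (c.cl x) ∧ d.cl (1 + z) = ψ (c.cl (1 + x))

theorem rel_unique {ψ : V ≃ₗ[ZMod p] W} {x : K} (hx : x ∉ (⊥ : IntermediateField (Fr K p) K))
    {z z' : L} (h : Rel c d ψ x z) (h' : Rel c d ψ x z') : z = z' := by
  obtain ⟨hz, hz1, e1, e2⟩ := h
  obtain ⟨hz', hz1', e1', e2'⟩ := h'
  have hzb : z ∉ (⊥ : IntermediateField (Fr L p) L) := by
    rw [← mem_bot_map c d ψ (ne_zero_of_not_bot hx) hz e1.symm]; exact hx
  obtain ⟨a, ha, ha'⟩ := (d.eq_iff hz hz').1 (by rw [e1, e1'])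
  obtain ⟨b, hb, hb'⟩ := (d.eq_iff hz1 hz1').1 (by rw [e2, e2'])
  have := coeff_eq hzb (a := 1) (b := a) (a' := b) (b' := b) (by
    rw [map_one, ← ha', hb']; ring)
  rw [ha', this.2, ← this.1, map_one, one_mul]

structure Good (c : ClData p K V) (d : ClData p L W) (ψ : V ≃ₗ[ZMod p] W) : Prop where
  h1 : ∀ x : K, x ∉ (⊥ : IntermediateField (Fr K p) K) →
      d.Lin (ψ (c.cl x)) (ψ (c.cl (1 + x)))
  h2 : ∀ x : L, x ∉ (⊥ : IntermediateField (Fr L p) L) →
      c.Lin (ψ.symm (d.cl x)) (ψ.symm (d.cl (1 + x)))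
  big : ∀ x : K, ∃ y : K, y ∉ (Fr K p)⟮x⟯

variable {ψ : V ≃ₗ[ZMod p] W}

theorem Good.line (G : Good c d ψ) {x y : K} (hx : x ≠ 0) (hy : y ≠ 0)
    (hxy : y / x ∉ (⊥ : IntermediateField (Fr K p) K)) {X Y : L} (hX : X ≠ 0) (hY : Y ≠ 0)
    (h1 : d.cl X = ψ (c.cl x)) (h2 : d.cl Y = ψ (c.cl y)) :
    ∃ b : Fr L p, b ≠ 0 ∧ X + algebraMap (Fr L p) L b * Y ≠ 0 ∧
      d.cl (X + algebraMap (Fr L p) L b * Y) = ψ (c.cl (x + y)) := by
  obtain ⟨z, hz, hz1, e1, e2⟩ := G.h1 _ hxy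
  have e3 : d.cl (Y / X) = d.cl z := by
    rw [e1, d.div hY hX, c.div hy hx, map_sub, h1, h2]
  obtain ⟨b, hb, hb'⟩ := (d.eq_iff (div_ne_zero hY hX) hz).1 e3
  have e4 : X + algebraMap (Fr L p) L b * Y = X * (1 + z) := by
    rw [hb']; field_simp
  refine ⟨b, hb, ?_, ?_⟩
  · rw [e4]; exact mul_ne_zero hX hz1
  · have e5 : x + y = x * (1 + y / x) := by field_simp
    rw [e4, d.mul hX hz1, e5, c.mul hx (add_ne_of_not_bot hxy), map_add, h1, e2]

open Classical in
/-- the map on elements outside `⊥` -/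
noncomputable def Good.f (G : Good c d ψ) (x : K) : L :=
  if h : x ∉ (⊥ : IntermediateField (Fr K p) K) then (G.h1 x h).choose else 0

theorem Good.f_rel (G : Good c d ψ) {x : K} (h : x ∉ (⊥ : IntermediateField (Fr K p) K)) :
    Rel c d ψ x (G.f x) := by
  unfold Good.f
  rw [dif_pos h]
  exact (G.h1 x h).choose_spec

theorem Good.f_ne (G : Good c d ψ) {x : K} (h : x ∉ (⊥ : IntermediateField (Fr K p) K)) :
    G.f x ≠ 0 := (G.f_rel h).1

theorem Good.f_cl (G : Good c d ψ) {x : K} (h : x ∉ (⊥ : IntermediateField (Fr K p) K)) :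
    d.cl (G.f x) = ψ (c.cl x) := (G.f_rel h).2.2.1

theorem Good.f_cl1 (G : Good c d ψ) {x : K} (h : x ∉ (⊥ : IntermediateField (Fr K p) K)) :
    d.cl (1 + G.f x) = ψ (c.cl (1 + x)) := (G.f_rel h).2.2.2

theorem Good.f_not_bot (G : Good c d ψ) {x : K} (h : x ∉ (⊥ : IntermediateField (Fr K p) K)) :
    G.f x ∉ (⊥ : IntermediateField (Fr L p) L) := by
  rw [← mem_bot_map c d ψ (ne_zero_of_not_bot h) (G.f_ne h) (G.f_cl h).symm]; exact h

theorem Good.f_ind (G : Good c d ψ) {x y : K} (hx : x ∉ (⊥ : IntermediateField (Fr K p) K))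
    (hy : y ∉ (Fr K p)⟮x⟯) (s t : Fr L p) :
    G.f y ≠ algebraMap (Fr L p) L s + algebraMap (Fr L p) L t * G.f x := by
  intro h
  have hyb := not_mem_bot_of hy
  have hx0 := ne_zero_of_not_bot hx
  have hy0 := ne_zero_of_not_bot hyb
  have ht : t ≠ 0 := by
    rintro rfl
    apply G.f_not_bot hyb
    rw [h, map_zero, zero_mul, add_zero]
    exact IntermediateField.algebraMap_mem _ _
  by_cases hs : s = 0
  · rw [hs, map_zero, zero_add] at h
    have h3 : d.cl (G.f y) = d.cl (G.f x) := by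
      rw [h, d.smul_left (G.f_ne hx) ht]
    rw [G.f_cl hx, G.f_cl hyb] at h3
    have h4 := ψ.injective h3
    obtain ⟨a, ha, ha'⟩ := (c.eq_iff hx0 hy0).1 h4.symm
    apply hy
    rw [ha']
    exact mul_mem (IntermediateField.algebraMap_mem _ _) (mem_adjoin_simple_self _ _)
  · have hs0 : algebraMap (Fr L p) L s ≠ 0 := by simpa using hs
    set z := algebraMap (Fr L p) L (t / s) * G.f x with hz
    have hts : t / s ≠ 0 := div_ne_zero ht hs
    have hz0 : z ≠ 0 := mul_ne_zero (by simpa using ⟨ht, hs⟩) (G.f_ne hx)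
    have hzcl : d.cl z = ψ (c.cl x) := by
      rw [hz, d.smul_left (G.f_ne hx) hts, G.f_cl hx]
    have hzb : z ∉ (⊥ : IntermediateField (Fr L p) L) := by
      rw [← mem_bot_map c d ψ hx0 hz0 hzcl.symm]; exact hx
    have e1 : G.f y = algebraMap (Fr L p) L s * (1 + z) := by
      rw [h, hz, map_div₀]; field_simp
    have e2 : d.cl (G.f y) = d.cl (1 + z) := by
      rw [e1, d.smul_left (add_ne_of_not_bot hzb) hs]
    obtain ⟨w, hw, hw1, f1, f2⟩ := G.h2 z hzb
    rw [hzcl, LinearEquiv.symm_apply_apply] at f1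
    rw [← e2, G.f_cl hyb, LinearEquiv.symm_apply_apply] at f2
    obtain ⟨a, ha, ha'⟩ := (c.eq_iff hw1 hy0).1 f2
    obtain ⟨b, hb, hb'⟩ := (c.eq_iff hx0 hw).1 f1.symm
    apply hy
    rw [ha', hb']
    apply mul_mem (IntermediateField.algebraMap_mem _ _)
    apply add_mem (one_mem _)
    exact mul_mem (IntermediateField.algebraMap_mem _ _) (mem_adjoin_simple_self _ _)

theorem Good.f_ind3 (G : Good c d ψ) {x y : K} (hx : x ∉ (⊥ : IntermediateField (Fr K p) K))
    (hy : y ∉ (Fr K p)⟮x⟯) {r s t r' s' t' : Fr L p}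
    (h : algebraMap (Fr L p) L r + algebraMap (Fr L p) L s * G.f x + algebraMap (Fr L p) L t * G.f y
      = algebraMap (Fr L p) L r' + algebraMap (Fr L p) L s' * G.f x +
        algebraMap (Fr L p) L t' * G.f y) : r = r' ∧ s = s' ∧ t = t' := by
  have ht : t = t' := by
    by_contra hne
    have hne' : t - t' ≠ 0 := sub_ne_zero.2 hne
    have hne0 : algebraMap (Fr L p) L (t - t') ≠ 0 := (_root_.map_ne_zero _).2 hne'
    apply G.f_ind hx hy ((r' - r) / (t - t')) ((s' - s) / (t - t'))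
    rw [map_div₀, map_div₀]
    field_simp
    simp only [map_sub]
    linear_combination h
  subst ht
  have := coeff_eq (G.f_not_bot hx) (a := r) (b := s) (a' := r') (b' := s') (by
    linear_combination h)
  exact ⟨this.1, this.2, rfl⟩

theorem Good.add1 (G : Good c d ψ) {x y : K} (hx : x ∉ (⊥ : IntermediateField (Fr K p) K))
    (hy : y ∉ (Fr K p)⟮x⟯) : G.f (x + y) = G.f x + G.f y := by
  have hyb := not_mem_bot_of hy
  have hx0 := ne_zero_of_not_bot hx
  have hy0 := ne_zero_of_not_bot hyb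
  have hx1 := add_ne_of_not_bot hx
  have hy1 := add_ne_of_not_bot hyb
  have hself : x ∈ (Fr K p)⟮x⟯ := mem_adjoin_simple_self _ _
  have hselfy : y ∈ (Fr K p)⟮y⟯ := mem_adjoin_simple_self _ _
  have hx' : x ∉ (Fr K p)⟮y⟯ := not_mem_symm expOne hx hy
  have hxy : x + y ∉ (⊥ : IntermediateField (Fr K p) K) := by
    intro h
    apply hy
    have : y = (x + y) - x := by ring
    rw [this]
    exact sub_mem (bot_le (a := (Fr K p)⟮x⟯) h) hself
  have d1 : y / x ∉ (⊥ : IntermediateField (Fr K p) K) := by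
    intro h
    apply hy
    have : y = (y / x) * x := by field_simp
    rw [this]
    exact mul_mem (bot_le (a := (Fr K p)⟮x⟯) h) hself
  have d2 : y / (1 + x) ∉ (⊥ : IntermediateField (Fr K p) K) := by
    intro h
    apply hy
    have : y = (y / (1 + x)) * (1 + x) := by field_simp
    rw [this]
    exact mul_mem (bot_le (a := (Fr K p)⟮x⟯) h) (add_mem (one_mem _) hself)
  have d3 : x / (1 + y) ∉ (⊥ : IntermediateField (Fr K p) K) := by
    intro h
    apply hx'
    have : x = (x / (1 + y)) * (1 + y) := by field_simp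
    rw [this]
    exact mul_mem (bot_le (a := (Fr K p)⟮y⟯) h) (add_mem (one_mem _) hselfy)
  obtain ⟨hZ0, hZ1, hZ, hZ'⟩ := G.f_rel hxy
  obtain ⟨hX0, hX1, hX, hX'⟩ := G.f_rel hx
  obtain ⟨hY0, hY1, hY, hY'⟩ := G.f_rel hyb
  obtain ⟨b, hb, hbne, hb'⟩ := G.line hx0 hy0 d1 hX0 hY0 hX hY
  obtain ⟨b₁, hb₁, hb₁ne, hb₁'⟩ := G.line hx1 hy0 d2 hX1 hY0 hX' hY
  obtain ⟨b₂, hb₂, hb₂ne, hb₂'⟩ := G.line hy1 hx0 d3 hY1 hX0 hY' hX
  obtain ⟨a, ha, ha'⟩ := (d.eq_iff hbne hZ0).1 (by rw [hb', hZ])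
  obtain ⟨a₁, ha₁, ha₁'⟩ := (d.eq_iff hb₁ne hZ1).1 (by rw [hb₁', hZ', add_assoc])
  obtain ⟨a₂, ha₂, ha₂'⟩ := (d.eq_iff hb₂ne hZ1).1 (by
    rw [hb₂', hZ', add_assoc, add_comm y x])
  have k1 := G.f_ind3 hx hy (r := 1) (s := a) (t := a * b) (r' := a₁) (s' := a₁) (t' := a₁ * b₁) (by
    rw [ha'] at ha₁'
    simp only [map_one, map_mul]
    linear_combination ha₁')
  have k2 := G.f_ind3 hx hy (r := 1) (s := a) (t := a * b) (r' := a₂) (s' := a₂ * b₂) (t' := a₂) (by
    rw [ha'] at ha₂'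
    simp only [map_one, map_mul]
    linear_combination ha₂')
  have ha1 : a = 1 := by rw [k1.2.1, ← k1.1]
  have hab : a * b = 1 := by rw [k2.2.2, ← k2.1]
  rw [ha1, one_mul] at hab
  rw [ha', ha1, hab]
  simp

theorem Good.add2 (G : Good c d ψ) {x y : K} (hx : x ∉ (⊥ : IntermediateField (Fr K p) K))
    (hy : y ∉ (⊥ : IntermediateField (Fr K p) K))
    (hxy : x + y ∉ (⊥ : IntermediateField (Fr K p) K)) : G.f (x + y) = G.f x + G.f y := by
  by_cases h : y ∈ (Fr K p)⟮x⟯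
  · obtain ⟨w, hw⟩ := G.big x
    have hself : x ∈ (Fr K p)⟮x⟯ := mem_adjoin_simple_self _ _
    have w1 : w ∉ (Fr K p)⟮x + y⟯ := fun h1 => hw (adjoin_le (add_mem hself h) h1)
    have w2 : y + w ∉ (Fr K p)⟮x⟯ := by
      intro h1
      apply hw
      have : w = (y + w) - y := by ring
      rw [this]
      exact sub_mem h1 h
    have w3 : w ∉ (Fr K p)⟮y⟯ := fun h1 => hw (adjoin_le h h1)
    have e1 := G.add1 hxy w1
    have e2 := G.add1 hx w2
    have e3 := G.add1 hy w3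
    rw [add_assoc, e2, e3] at e1
    linear_combination -e1
  · exact G.add1 hx h

theorem Good.exists_not_bot (G : Good c d ψ) : ∃ x : K, x ∉ (⊥ : IntermediateField (Fr K p) K) := by
  obtain ⟨x, hx⟩ := G.big 0
  exact ⟨x, not_mem_bot_of hx⟩

theorem not_bot_add {x y : K} (hx : x ∉ (⊥ : IntermediateField (Fr K p) K))
    (hy : y ∈ (⊥ : IntermediateField (Fr K p) K)) :
    x + y ∉ (⊥ : IntermediateField (Fr K p) K) := by
  intro h
  apply hx
  have : x = (x + y) - y := by ring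
  rw [this]
  exact sub_mem h hy

theorem Good.shift1 (G : Good c d ψ) {x y l : K} (hx : x ∉ (⊥ : IntermediateField (Fr K p) K))
    (hy : y ∉ (Fr K p)⟮x⟯) (hl : l ∈ (⊥ : IntermediateField (Fr K p) K)) :
    G.f (x + l) - G.f x = G.f (y + l) - G.f y := by
  have hyb := not_mem_bot_of hy
  have hlx : l ∈ (Fr K p)⟮x⟯ := bot_le (a := (Fr K p)⟮x⟯) hl
  have hself : x ∈ (Fr K p)⟮x⟯ := mem_adjoin_simple_self _ _
  have h1 : y + l ∉ (Fr K p)⟮x⟯ := by
    intro h
    apply hy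
    have : y = (y + l) - l := by ring
    rw [this]
    exact sub_mem h hlx
  have h2 : y ∉ (Fr K p)⟮x + l⟯ := fun h => hy (adjoin_le (add_mem hself hlx) h)
  have e1 := G.add1 hx h1
  have e2 := G.add1 (not_bot_add hx hl) h2
  have e3 : x + (y + l) = x + l + y := by ring
  rw [e3, e2] at e1
  linear_combination e1

theorem Good.shift2 (G : Good c d ψ) {x y l : K} (hx : x ∉ (⊥ : IntermediateField (Fr K p) K))
    (hy : y ∉ (⊥ : IntermediateField (Fr K p) K)) (hl : l ∈ (⊥ : IntermediateField (Fr K p) K)) :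
    G.f (x + l) - G.f x = G.f (y + l) - G.f y := by
  by_cases h : y ∈ (Fr K p)⟮x⟯
  · obtain ⟨w, hw⟩ := G.big x
    have hw' : w ∉ (Fr K p)⟮y⟯ := fun h1 => hw (adjoin_le h h1)
    rw [G.shift1 hx hw hl, G.shift1 hy hw' hl]
  · exact G.shift1 hx h hl

/-- base point outside `⊥` -/
noncomputable def Good.w0 (G : Good c d ψ) : K := G.exists_not_bot.choose

theorem Good.hw0 (G : Good c d ψ) : G.w0 ∉ (⊥ : IntermediateField (Fr K p) K) :=
  G.exists_not_bot.choose_spec

noncomputable def Good.g (G : Good c d ψ) (l : K) : L := G.f (G.w0 + l) - G.f G.w0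

theorem Good.f_add_bot (G : Good c d ψ) {x l : K} (hx : x ∉ (⊥ : IntermediateField (Fr K p) K))
    (hl : l ∈ (⊥ : IntermediateField (Fr K p) K)) : G.f (x + l) = G.f x + G.g l := by
  have := G.shift2 hx G.hw0 hl
  unfold Good.g
  rw [← this]; ring

open Classical in
noncomputable def Good.Psi (G : Good c d ψ) (x : K) : L :=
  if x ∈ (⊥ : IntermediateField (Fr K p) K) then G.g x else G.f x

theorem Good.Psi_bot (G : Good c d ψ) {x : K} (hx : x ∈ (⊥ : IntermediateField (Fr K p) K)) :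
    G.Psi x = G.g x := by unfold Good.Psi; rw [if_pos hx]

theorem Good.Psi_not (G : Good c d ψ) {x : K} (hx : x ∉ (⊥ : IntermediateField (Fr K p) K)) :
    G.Psi x = G.f x := by unfold Good.Psi; rw [if_neg hx]

theorem Good.Psi_add (G : Good c d ψ) (x y : K) : G.Psi (x + y) = G.Psi x + G.Psi y := by
  by_cases hx : x ∈ (⊥ : IntermediateField (Fr K p) K)
  · by_cases hy : y ∈ (⊥ : IntermediateField (Fr K p) K)
    · rw [G.Psi_bot hx, G.Psi_bot hy, G.Psi_bot (add_mem hx hy)]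
      have h1 := G.f_add_bot (not_bot_add G.hw0 hx) hy
      have h2 := G.f_add_bot G.hw0 hx
      have h3 : G.g (x + y) = G.f (G.w0 + (x + y)) - G.f G.w0 := rfl
      rw [h3, ← add_assoc, h1, h2]; ring
    · have h1 : x + y ∉ (⊥ : IntermediateField (Fr K p) K) := by
        rw [add_comm]; exact not_bot_add hy hx
      rw [G.Psi_bot hx, G.Psi_not hy, G.Psi_not h1, add_comm x y, G.f_add_bot hy hx, add_comm]
  · by_cases hy : y ∈ (⊥ : IntermediateField (Fr K p) K)
    · rw [G.Psi_not hx, G.Psi_bot hy, G.Psi_not (not_bot_add hx hy), G.f_add_bot hx hy]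
    · by_cases hxy : x + y ∈ (⊥ : IntermediateField (Fr K p) K)
      · rw [G.Psi_not hx, G.Psi_not hy, G.Psi_bot hxy]
        obtain ⟨w, hw⟩ := G.big x
        have hwb := not_mem_bot_of hw
        have hself : x ∈ (Fr K p)⟮x⟯ := mem_adjoin_simple_self _ _
        have h1 : w + x ∉ (⊥ : IntermediateField (Fr K p) K) := by
          intro h
          apply hw
          have : w = (w + x) - x := by ring
          rw [this]
          exact sub_mem (bot_le (a := (Fr K p)⟮x⟯) h) hself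
        have e1 := G.f_add_bot hwb hxy
        have h2 : w + x + y ∉ (⊥ : IntermediateField (Fr K p) K) := by
          rw [add_assoc]; exact not_bot_add hwb hxy
        have e2 := G.add2 h1 hy h2
        have e3 := G.add2 hwb hx h1
        rw [← add_assoc, e2, e3] at e1
        linear_combination -e1
      · rw [G.Psi_not hx, G.Psi_not hy, G.Psi_not hxy, G.add2 hx hy hxy]

theorem Good.g_form (G : Good c d ψ) {x l : K} (hx : x ∉ (⊥ : IntermediateField (Fr K p) K))
    (hl : l ∈ (⊥ : IntermediateField (Fr K p) K)) (hl0 : l ≠ 0) :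
    ∃ a b : Fr L p, a ≠ 0 ∧ G.g l = algebraMap (Fr L p) L a + algebraMap (Fr L p) L b * G.f x := by
  have hx0 := ne_zero_of_not_bot hx
  have hdiv : x / l ∉ (⊥ : IntermediateField (Fr K p) K) := by
    intro h
    apply hx
    have : x = (x / l) * l := by field_simp
    rw [this]
    exact mul_mem h hl
  obtain ⟨b, hb, hbne, hb'⟩ := G.line hl0 hx0 hdiv (one_ne_zero) (G.f_ne hx)
    (by rw [d.one, (c.ker hl0).2 hl, map_zero]) (G.f_cl hx)
  have hxl := not_bot_add hx hl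
  obtain ⟨a, ha, ha'⟩ := (d.eq_iff hbne (G.f_ne hxl)).1 (by
    rw [hb', G.f_cl hxl, add_comm])
  refine ⟨a, a * b - 1, ha, ?_⟩
  have h1 := G.f_add_bot hx hl
  rw [ha'] at h1
  simp only [map_sub, map_mul, map_one]
  linear_combination -h1

theorem Good.g_mem (G : Good c d ψ) {l : K}
    (hl : l ∈ (⊥ : IntermediateField (Fr K p) K)) (hl0 : l ≠ 0) :
    ∃ a : Fr L p, a ≠ 0 ∧ G.g l = algebraMap (Fr L p) L a := by
  obtain ⟨w, hw⟩ := G.big G.w0
  obtain ⟨a, b, ha, e1⟩ := G.g_form G.hw0 hl hl0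
  obtain ⟨a', b', ha', e2⟩ := G.g_form (not_mem_bot_of hw) hl hl0
  have := G.f_ind3 G.hw0 hw (r := a) (s := b) (t := 0) (r' := a') (s' := 0) (t' := b') (by
    rw [e1] at e2
    simp only [map_zero, zero_mul, add_zero]
    exact e2)
  refine ⟨a, ha, ?_⟩
  rw [e1, this.2.1]
  simp

theorem Good.Psi_ne (G : Good c d ψ) {x : K} (hx : x ≠ 0) : G.Psi x ≠ 0 := by
  by_cases hxb : x ∈ (⊥ : IntermediateField (Fr K p) K)
  · rw [G.Psi_bot hxb]
    obtain ⟨a, ha, e⟩ := G.g_mem hxb hx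
    rw [e]; simpa using ha
  · rw [G.Psi_not hxb]; exact G.f_ne hxb

theorem Good.Psi_cl (G : Good c d ψ) {x : K} (hx : x ≠ 0) : d.cl (G.Psi x) = ψ (c.cl x) := by
  by_cases hxb : x ∈ (⊥ : IntermediateField (Fr K p) K)
  · rw [G.Psi_bot hxb]
    obtain ⟨a, ha, e⟩ := G.g_mem hxb hx
    rw [e, d.of_alg ha, (c.ker hx).2 hxb, map_zero]
  · rw [G.Psi_not hxb]; exact G.f_cl hxb

theorem Good.Psi_one (G : Good c d ψ) : G.Psi 1 = 1 := by
  have h1 : (1 : K) ∈ (⊥ : IntermediateField (Fr K p) K) := one_mem _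
  rw [G.Psi_bot h1]
  obtain ⟨a, ha, e⟩ := G.g_mem h1 one_ne_zero
  have e1 := G.f_add_bot G.hw0 h1
  have h2 := not_bot_add G.hw0 h1
  obtain ⟨hX0, hX1, hX, hX'⟩ := G.f_rel G.hw0
  obtain ⟨b, hb, hb'⟩ := (d.eq_iff hX1 (G.f_ne h2)).1 (by rw [hX', G.f_cl h2, add_comm])
  rw [e1, e] at hb'
  have := coeff_eq (G.f_not_bot G.hw0) (a := a) (b := 1) (a' := b) (b' := b) (by
    simp only [map_one]
    linear_combination hb')
  rw [e, this.1, ← this.2, map_one]

theorem Good.Psi_zero (G : Good c d ψ) : G.Psi 0 = 0 := by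
  have := G.Psi_add 0 0
  simpa using this

theorem Good.Psi_mul1 (G : Good c d ψ) {x y : K} (hx : x ∉ (⊥ : IntermediateField (Fr K p) K)) :
    G.Psi (x * y) = G.Psi x * G.Psi y := by
  by_cases hy : y = 0
  · rw [hy, mul_zero, G.Psi_zero, mul_zero]
  have hx0 := ne_zero_of_not_bot hx
  have hx1 := add_ne_of_not_bot hx
  have key : ∀ z : K, z ≠ 0 → ∃ b : Fr L p,
      G.Psi (z * y) = algebraMap (Fr L p) L b * (G.Psi z * G.Psi y) := by
    intro z hz
    obtain ⟨b, hb, hb'⟩ := (d.eq_iff (mul_ne_zero (G.Psi_ne hz) (G.Psi_ne hy))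
      (G.Psi_ne (mul_ne_zero hz hy))).1 (by
        rw [d.mul (G.Psi_ne hz) (G.Psi_ne hy), G.Psi_cl hz, G.Psi_cl hy,
          G.Psi_cl (mul_ne_zero hz hy), c.mul hz hy, map_add])
    exact ⟨b, hb'⟩
  obtain ⟨b, hb⟩ := key x hx0
  obtain ⟨b', hb'⟩ := key (1 + x) hx1
  have e1 : (1 + x) * y = y + x * y := by ring
  rw [e1, G.Psi_add, G.Psi_add, G.Psi_one, hb] at hb'
  have hy' := G.Psi_ne hy
  have e2 : (1 : L) + algebraMap (Fr L p) L b * G.Psi x =
      algebraMap (Fr L p) L b' + algebraMap (Fr L p) L b' * G.Psi x := by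
    apply mul_right_cancel₀ hy'
    linear_combination hb'
  rw [G.Psi_not hx] at e2
  have := coeff_eq (G.f_not_bot hx) (a := 1) (b := b) (a' := b') (b' := b') (by
    rw [map_one]; exact e2)
  rw [hb, this.2, ← this.1, map_one, one_mul]

theorem Good.Psi_mul (G : Good c d ψ) (x y : K) :
    G.Psi (x * y) = G.Psi x * G.Psi y := by
  by_cases hx : x ∈ (⊥ : IntermediateField (Fr K p) K)
  · have h1 := not_bot_add G.hw0 hx
    have e1 := G.Psi_mul1 (y := y) h1
    have e2 := G.Psi_mul1 (y := y) G.hw0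
    rw [add_mul, G.Psi_add, G.Psi_add, e2] at e1
    linear_combination e1
  · exact G.Psi_mul1 hx

noncomputable def Good.hom (G : Good c d ψ) : K →+* L where
  toFun := G.Psi
  map_one' := G.Psi_one
  map_mul' := G.Psi_mul
  map_zero' := G.Psi_zero
  map_add' := G.Psi_add

theorem Good.surj_not (G : Good c d ψ) {z : L} (hz : z ∉ (⊥ : IntermediateField (Fr L p) L)) :
    ∃ x : K, G.Psi x = z := by
  obtain ⟨x, hx, hx1, e1, e2⟩ := G.h2 z hz
  have hz0 := ne_zero_of_not_bot hz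
  have hz1 := add_ne_of_not_bot hz
  rw [LinearEquiv.eq_symm_apply] at e1 e2
  have hxb : x ∉ (⊥ : IntermediateField (Fr K p) K) := by
    rw [mem_bot_map c d ψ hx hz0 e1]; exact hz
  refine ⟨x, ?_⟩
  rw [G.Psi_not hxb]
  exact rel_unique hxb (G.f_rel hxb) ⟨hz0, hz1, e1.symm, e2.symm⟩

theorem Good.surj (G : Good c d ψ) (z : L) : ∃ x : K, G.Psi x = z := by
  by_cases hz : z ∈ (⊥ : IntermediateField (Fr L p) L)
  · obtain ⟨x, hx⟩ := G.surj_not (not_bot_add (G.f_not_bot G.hw0) hz)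
    obtain ⟨y, hy⟩ := G.surj_not (G.f_not_bot G.hw0)
    refine ⟨x - y, ?_⟩
    have := map_sub G.hom x y
    change G.Psi (x - y) = G.Psi x - G.Psi y at this
    rw [this, hx, hy]; ring
  · exact G.surj_not hz

noncomputable def Good.equiv (G : Good c d ψ) : K ≃+* L :=
  RingEquiv.ofBijective G.hom ⟨G.hom.injective, G.surj⟩

theorem Good.equiv_cl (G : Good c d ψ) {x : K} (hx : x ≠ 0) : d.cl (G.equiv x) = ψ (c.cl x) :=
  G.Psi_cl hx

end

end Crest.Agent.H1PInsep
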