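import Crest.Agent.H1PInsep

set_option autoImplicit false
set_option linter.unusedSectionVars false
set_option linter.unusedVariables false

open Polynomial IntermediateField

namespace Crest.Agent.H1PInsep

universe u v

variable {p : ℕ} [hp : Fact p.Prime] {F : Type v} {K : Type u} [Field F] [Field K] [Algebra F K]
  [CharP K p] [CharP F p]

theorem der_repr (D : Derivation F K K) {x : K} (hD : D x = x) (a : ℕ → F) :
    D (∑ i ∈ Finset.range p, algebraMap F K (a i) * x ^ i) =
      ∑ i ∈ Finset.range p, algebraMap F K ((i : F) * a i) * x ^ i := by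
  rw [map_sum]
  apply Finset.sum_congr rfl
  intro i _
  rw [Derivation.leibniz, Derivation.map_algebraMap, Derivation.leibniz_pow, hD]
  rcases i with _ | i
  · simp
  · simp only [smul_eq_mul, nsmul_eq_mul, Nat.add_sub_cancel, map_mul, map_natCast]
    ring

theorem cast_inj {i j : ℕ} (hi : i < p) (hj : j < p) (h : (i : F) = (j : F)) : i = j := by
  have := (CharP.natCast_eq_natCast F p).1 h
  exact Nat.ModEq.eq_of_lt_of_lt this hi hj

theorem eig (h : ExpOne p F K) (D : Derivation F K K) {x A : K} (hx : x ∉ (⊥ : IntermediateField F K))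
    (hD : D x = x) (hA : A ∈ F⟮x⟯) (hA0 : A ≠ 0) {κ : F} (hκ : D A = algebraMap F K κ * A) :
    ∃ m < p, (m : F) = κ ∧ ∃ a : F, a ≠ 0 ∧ A = algebraMap F K a * x ^ m := by
  obtain ⟨a, ha⟩ := exists_repr h hx hA
  have h1 : ∑ i ∈ Finset.range p, algebraMap F K (((i : F) - κ) * a i) * x ^ i = 0 := by
    have h2 := hκ
    rw [ha, der_repr D hD, Finset.mul_sum, ← sub_eq_zero, ← Finset.sum_sub_distrib] at h2
    rw [← h2]
    apply Finset.sum_congr rfl
    intro i _
    simp only [map_mul, map_sub]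
    ring
  have h2 := linInd h hx _ h1
  have h3 : ∃ m < p, a m ≠ 0 := by
    by_contra hcon
    push Not at hcon
    apply hA0
    rw [ha]
    apply Finset.sum_eq_zero
    intro i hi
    rw [hcon i (Finset.mem_range.1 hi)]
    simp
  obtain ⟨m, hm, ham⟩ := h3
  have h4 : (m : F) = κ := by
    have := h2 m hm
    rcases mul_eq_zero.1 this with h5 | h5
    · exact sub_eq_zero.1 h5
    · exact absurd h5 ham
  refine ⟨m, hm, h4, a m, ham, ?_⟩
  rw [ha]
  rw [Finset.sum_eq_single m]
  · intro i hi him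
    have := h2 i (Finset.mem_range.1 hi)
    rcases mul_eq_zero.1 this with h5 | h5
    · exfalso
      apply him
      apply cast_inj (F := F) (Finset.mem_range.1 hi) hm
      rw [h4]
      exact sub_eq_zero.1 h5
    · rw [h5]; simp
  · intro h6
    exact absurd (Finset.mem_range.2 hm) h6

theorem mem_bot_of_der (h : ExpOne p F K) (D : Derivation F K K) {x A : K}
    (hx : x ∉ (⊥ : IntermediateField F K))
    (hD : D x = x) (hA : A ∈ F⟮x⟯) (hDA : D A = 0) : A ∈ (⊥ : IntermediateField F K) := by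
  by_cases hA0 : A = 0
  · rw [hA0]; exact zero_mem _
  obtain ⟨m, hm, hm0, a, ha, hA1⟩ := eig h D hx hD hA hA0 (κ := 0) (by simp [hDA])
  have : m = 0 := by
    apply cast_inj (F := F) hm hp.out.pos
    simpa using hm0
  rw [hA1, this]
  simp only [pow_zero, mul_one]
  exact IntermediateField.algebraMap_mem _ _

theorem der_mem (h : ExpOne p F K) (D : Derivation F K K) {x A : K}
    (hx : x ∉ (⊥ : IntermediateField F K))
    (hD : D x = x) (hA : A ∈ F⟮x⟯) : D A ∈ F⟮x⟯ := by
  obtain ⟨a, ha⟩ := exists_repr h hx hA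
  rw [ha, der_repr D hD]
  apply sum_mem
  intro i _
  apply mul_mem
  · exact IntermediateField.algebraMap_mem _ _
  · exact _root_.pow_mem (mem_adjoin_simple_self _ _) _

theorem inter_bot (h : ExpOne p F K) {x y z : K} (hy : y ∉ F⟮x⟯) (hz1 : z ∈ F⟮x⟯) (hz2 : z ∈ F⟮y⟯) :
    z ∈ (⊥ : IntermediateField F K) := by
  by_contra hcon
  have h1 := exchange h hz1 hcon
  have h2 := exchange h hz2 hcon
  apply hy
  rw [← h1, h2]
  exact mem_adjoin_simple_self _ _

theorem not_mem_symm (h : ExpOne p F K) {x y : K} (hx : x ∉ (⊥ : IntermediateField F K))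
    (hy : y ∉ F⟮x⟯) : x ∉ F⟮y⟯ := by
  intro hh
  apply hy
  rw [exchange h hh hx]
  exact mem_adjoin_simple_self _ _

theorem not_mem_bot_of {x y : K} (hy : y ∉ F⟮x⟯) : y ∉ (⊥ : IntermediateField F K) := by
  intro hh
  exact hy (bot_le (a := F⟮x⟯) hh)

theorem der_div_self (D : Derivation F K K) {W v : K} (hv : v ≠ 0) (hDv : D v = v)
    (h : D (W / v) = 0) : D W = W := by
  have h1 : W = (W / v) * v := by field_simp
  calc D W = D ((W / v) * v) := by rw [← h1]
    _ = (W / v) * D v + v * D (W / v) := by rw [Derivation.leibniz]; simp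
    _ = W := by rw [h, hDv]; field_simp; ring

theorem der_ratio (D : Derivation F K K) {u v : K} (hu : D u = u) (hv0 : v ≠ 0) (hv : D v = v) :
    D (u / v) = 0 := by
  rw [div_eq_mul_inv, Derivation.leibniz, Derivation.leibniz_inv, hu, hv]
  simp only [smul_eq_mul]
  field_simp
  ring

/-- final step: from `u / D u = 1 - a x^m` deduce the shape of `u`. -/
theorem shape (h : ExpOne p F K) (D : Derivation F K K) {x u : K}
    (hx : x ∉ (⊥ : IntermediateField F K))
    (hD : D x = x) (hu : u ∈ F⟮x⟯) (hu0 : u ≠ 0) (hDu : D u ≠ 0) {m : ℕ} (hm : m < p) (hm0 : 0 < m)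
    {a : F} (ha : a ≠ 0)
    (hA : 1 - u / D u = algebraMap F K a * x ^ m) :
    ∃ b b' : F, b ≠ 0 ∧ b' ≠ 0 ∧
      u ^ (p - m) = algebraMap F K b' * (x ^ (p - m) - algebraMap F K b) := by
  obtain ⟨xp, hxp⟩ := h x
  have hx0 : x ≠ 0 := by
    rintro rfl
    exact hx (zero_mem _)
  have hxp0 : xp ≠ 0 := by
    rintro rfl
    simp at hxp
    exact hx0 (pow_eq_zero_iff hp.out.ne_zero |>.1 hxp.symm)
  set n := p - m with hn
  have hnm : m + n = p := by omega
  set b := a * xp with hb
  have hb0 : b ≠ 0 := mul_ne_zero ha hxp0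
  -- key : u * x^n = (x^n - b) * D u
  have key : u * x ^ n = (x ^ n - algebraMap F K b) * D u := by
    have h1 : u / D u = 1 - algebraMap F K a * x ^ m := by rw [← hA]; ring
    have h2 : u = (1 - algebraMap F K a * x ^ m) * D u := by
      rw [← h1]; field_simp
    calc u * x ^ n = ((1 - algebraMap F K a * x ^ m) * D u) * x ^ n := by rw [← h2]
      _ = (x ^ n - algebraMap F K a * x ^ (m + n)) * D u := by rw [pow_add]; ring
      _ = _ := by rw [hnm, ← hxp, hb, map_mul]
  have hxn0 : x ^ n ≠ 0 := pow_ne_zero _ hx0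
  have hne : x ^ n - algebraMap F K b ≠ 0 := by
    intro h0
    rw [h0, zero_mul] at key
    exact mul_ne_zero hu0 hxn0 key
  have hnpos : 0 < n := by omega
  have hmem : u ^ n / (x ^ n - algebraMap F K b) ∈ (⊥ : IntermediateField F K) := by
    apply mem_bot_of_der h D hx hD
    · apply div_mem
      · exact _root_.pow_mem hu _
      · apply sub_mem
        · exact _root_.pow_mem (mem_adjoin_simple_self _ _) _
        · exact IntermediateField.algebraMap_mem _ _
    · rw [div_eq_mul_inv, Derivation.leibniz, Derivation.leibniz_inv, Derivation.leibniz_pow,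
        map_sub, Derivation.map_algebraMap, Derivation.leibniz_pow, hD]
      simp only [smul_eq_mul, nsmul_eq_mul, sub_zero]
      have e1 : x ^ (n - 1) * x = x ^ n := by
        rw [← pow_succ]; congr 1; omega
      have e2 : u ^ (n - 1) * u = u ^ n := by
        rw [← pow_succ]; congr 1; omega
      rw [e1, ← e2]
      field_simp
      linear_combination (-(n : K)) * u ^ (n - 1) * key
  rw [IntermediateField.mem_bot] at hmem
  obtain ⟨b', hb'⟩ := hmem
  refine ⟨b, b', hb0, ?_, ?_⟩
  · rintro rfl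
    rw [map_zero, eq_comm, div_eq_zero_iff] at hb'
    rcases hb' with h1 | h1
    · exact pow_ne_zero _ hu0 h1
    · exact hne h1
  · rw [hb']
    field_simp

theorem funeq (h : ExpOne p F K) {x y u v W : K} (hx : x ∉ (⊥ : IntermediateField F K))
    (hy : y ∉ F⟮x⟯) (hu : u ∈ F⟮x⟯) (hv : v ∈ F⟮y⟯) (hW : W ≠ 0) (h1 : W / x ∈ F⟮x / y⟯)
    (h2 : W / v ∈ F⟮u / v⟯) (hu' : ∀ i < p, ∀ a : F, u ≠ algebraMap F K a * x ^ i)
    (hv' : ∀ i < p, ∀ a : F, v ≠ algebraMap F K a * y ^ i) :
    ∃ n, 0 < n ∧ n < p ∧ (∃ b b' : F, b ≠ 0 ∧ b' ≠ 0 ∧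
      u ^ n = algebraMap F K b' * (x ^ n - algebraMap F K b)) ∧
      (∃ b b' : F, b ≠ 0 ∧ b' ≠ 0 ∧
      v ^ n = algebraMap F K b' * (y ^ n - algebraMap F K b)) := by
  have hyb : y ∉ (⊥ : IntermediateField F K) := not_mem_bot_of hy
  have hx' : x ∉ F⟮y⟯ := not_mem_symm h hx hy
  have hx0 : x ≠ 0 := by rintro rfl; exact hx (zero_mem _)
  have hy0 : y ≠ 0 := by rintro rfl; exact hyb (zero_mem _)
  have hu0 : u ≠ 0 := by
    have := hu' 0 hp.out.pos 0
    simpa using this
  have hv0 : v ≠ 0 := by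
    have := hv' 0 hp.out.pos 0
    simpa using this
  obtain ⟨D1, hD1y, hD1x⟩ := exists_derivation h F⟮y⟯ hx'
  obtain ⟨D2, hD2x, hD2y⟩ := exists_derivation h F⟮x⟯ hy
  have hD1v : D1 v = 0 := hD1y v hv
  have hD2u : D2 u = 0 := hD2x u hu
  replace hD1y' : ∀ z ∈ F⟮y⟯, D1 z = 0 := hD1y
  replace hD2x' : ∀ z ∈ F⟮x⟯, D2 z = 0 := hD2x
  replace hD1y : D1 y = 0 := hD1y y (mem_adjoin_simple_self _ _)
  replace hD2x : D2 x = 0 := hD2x x (mem_adjoin_simple_self _ _)
  have hu_eig : ∀ κ : F, D1 u ≠ algebraMap F K κ * u := by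
    intro κ hκ
    obtain ⟨i, hi, _, a, _, ha⟩ := eig h D1 hx hD1x hu hu0 hκ
    exact hu' i hi a ha
  have hv_eig : ∀ κ : F, D2 v ≠ algebraMap F K κ * v := by
    intro κ hκ
    obtain ⟨i, hi, _, a, _, ha⟩ := eig h D2 hyb hD2y hv hv0 hκ
    exact hv' i hi a ha
  have hDu : D1 u ≠ 0 := by
    have := hu_eig 0
    simpa using this
  have hDv : D2 v ≠ 0 := by
    have := hv_eig 0
    simpa using this
  -- homogeneity
  have hs1 : (D1 + D2) W = W := by
    apply der_div_self (D1 + D2) hx0 (by simp [hD1x, hD2x])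
    have : F⟮x / y⟯ ≤ constField (D1 + D2) := by
      apply adjoin_le
      rw [mem_constField]
      exact der_ratio (D1 + D2) (by simp [hD1x, hD2x]) hy0 (by simp [hD1y, hD2y])
    exact this h1
  set A := u / D1 u with hA
  set B := v / D2 v with hB
  have hs2 : (A • D1 + B • D2) W = W := by
    have e1 : (A • D1 + B • D2) u = u := by
      simp only [Derivation.add_apply, Derivation.smul_apply, smul_eq_mul, hD2u, hA]
      field_simp
      ring
    have e2 : (A • D1 + B • D2) v = v := by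
      simp only [Derivation.add_apply, Derivation.smul_apply, smul_eq_mul, hD1v, hB]
      field_simp
      ring
    apply der_div_self _ hv0 e2
    have : F⟮u / v⟯ ≤ constField (A • D1 + B • D2) := by
      apply adjoin_le
      rw [mem_constField]
      exact der_ratio _ e1 hv0 e2
    exact this h2
  have hAmem : A ∈ F⟮x⟯ := div_mem hu (der_mem h D1 hx hD1x hu)
  have hBmem : B ∈ F⟮y⟯ := div_mem hv (der_mem h D2 hyb hD2y hv)
  -- commutator
  have hcomm : D1 (D2 W) = D2 (D1 W) := by
    have e1 : x ∈ constField ⁅D1, D2⁆ := by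
      rw [mem_constField, Derivation.commutator_apply, hD2x, hD1x, hD2x]; simp
    have e2 : y ∈ constField ⁅D1, D2⁆ := by
      rw [mem_constField, Derivation.commutator_apply, hD1y, hD2y, hD1y]; simp
    have e3 : F⟮x / y⟯ ≤ constField ⁅D1, D2⁆ := by
      apply adjoin_le
      exact div_mem e1 e2
    have e4 : W ∈ constField ⁅D1, D2⁆ := by
      have : W = (W / x) * x := by field_simp
      rw [this]
      exact mul_mem (e3 h1) e1
    rw [mem_constField, Derivation.commutator_apply] at e4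
    exact sub_eq_zero.1 e4
  simp only [Derivation.add_apply, Derivation.smul_apply, smul_eq_mul] at hs1 hs2
  have hA1 : A ≠ 1 := by
    intro hh
    apply hu_eig 1
    rw [hA, div_eq_one_iff_eq hDu] at hh
    rw [← hh]; simp
  have hB1 : B ≠ 1 := by
    intro hh
    apply hv_eig 1
    rw [hB, div_eq_one_iff_eq hDv] at hh
    rw [← hh]; simp
  have hAB : A ≠ B := by
    intro hh
    apply hA1
    rw [← hh, ← mul_add, hs1] at hs2
    exact (mul_eq_right₀ hW).1 hs2
  -- derivatives of A and B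
  have hD2A : D2 A = 0 := hD2x' A hAmem
  have hD1B : D1 B = 0 := hD1y' B hBmem
  have hDA : D1 A ∈ F⟮x⟯ := der_mem h D1 hx hD1x hAmem
  have hDB : D2 B ∈ F⟮y⟯ := der_mem h D2 hyb hD2y hBmem
  have f1 : D1 (A * D1 W + B * D2 W) = D1 W := by rw [hs2]
  have f2 : D2 (A * D1 W + B * D2 W) = D2 W := by rw [hs2]
  have f3 : D1 (D1 W + D2 W) = D1 W := by rw [hs1]
  have f4 : D2 (D1 W + D2 W) = D2 W := by rw [hs1]
  rw [map_add] at f3 f4
  rw [map_add, Derivation.leibniz, Derivation.leibniz, hD1B] at f1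
  rw [map_add, Derivation.leibniz, Derivation.leibniz, hD2A] at f2
  simp only [smul_eq_mul, mul_zero, add_zero] at f1 f2
  rw [hcomm] at f1 f3
  have g1 : D1 W * (A - B) = (1 - B) * W := by linear_combination hs2 - B * hs1
  have g2 : D2 W * (A - B) = (A - 1) * W := by linear_combination A * hs1 - hs2
  have hABs : A - B ≠ 0 := sub_ne_zero.2 hAB
  have key : D2 B * (1 - A) = D1 A * (1 - B) := by
    have k1 : D1 W * (D1 A - 1 + A) = D2 W * (1 - B - D2 B) := by
      linear_combination f1 - A * f3 + f2 - B * f4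
    have k2 : (D2 B * (1 - A)) * W = (D1 A * (1 - B)) * W := by
      linear_combination (D1 A - 1 + A) * g1 - (1 - B - D2 B) * g2 - (A - B) * k1
    exact mul_right_cancel₀ hW k2
  have hA1' : 1 - A ≠ 0 := sub_ne_zero.2 (Ne.symm hA1)
  have hB1' : 1 - B ≠ 0 := sub_ne_zero.2 (Ne.symm hB1)
  have hκ : -(D1 A / (1 - A)) ∈ (⊥ : IntermediateField F K) := by
    apply inter_bot h hy
    · exact neg_mem (div_mem hDA (sub_mem (one_mem _) hAmem))
    · have : D1 A / (1 - A) = D2 B / (1 - B) := by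
        rw [div_eq_div_iff hA1' hB1']
        exact key.symm
      rw [this]
      exact neg_mem (div_mem hDB (sub_mem (one_mem _) hBmem))
  rw [IntermediateField.mem_bot] at hκ
  obtain ⟨κ, hκ⟩ := hκ
  have m1 : D1 (1 - A) = algebraMap F K κ * (1 - A) := by
    rw [hκ, map_sub, Derivation.map_one_eq_zero]
    field_simp
    ring
  have m2 : D2 (1 - B) = algebraMap F K κ * (1 - B) := by
    rw [hκ, map_sub, Derivation.map_one_eq_zero]
    field_simp
    linear_combination (-1 : K) * key
  obtain ⟨m, hm, hmκ, a, ha, hAa⟩ := eig h D1 hx hD1x (sub_mem (one_mem _) hAmem) hA1' m1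
  obtain ⟨m', hm', hmκ', a', ha', hBa⟩ := eig h D2 hyb hD2y (sub_mem (one_mem _) hBmem) hB1' m2
  have hmm : m' = m := cast_inj (F := F) hm' hm (by rw [hmκ, hmκ'])
  subst hmm
  have hm0 : 0 < m' := by
    rcases Nat.eq_zero_or_pos m' with h0 | h0
    · exfalso
      subst h0
      have e1 : A = algebraMap F K (1 - a) := by
        rw [map_sub, map_one]
        linear_combination -hAa
      have hA0 : A ≠ 0 := div_ne_zero hu0 hDu
      have ha1 : algebraMap F K (1 - a) ≠ 0 := by rw [← e1]; exact hA0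
      apply hu_eig (1 - a)⁻¹
      rw [map_inv₀, ← e1, hA]
      field_simp
    · exact h0
  refine ⟨p - m', by omega, by omega, ?_, ?_⟩
  · exact shape h D1 hx hD1x hu hu0 hDu hm hm0 ha hAa
  · exact shape h D2 hyb hD2y hv hv0 hDv hm hm0 ha' hBa

end Crest.Agent.H1PInsep
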