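import Crest.Agent.H1Classes

set_option autoImplicit false
set_option linter.unusedSectionVars false
set_option linter.unusedVariables false

open Polynomial IntermediateField

namespace Crest.Agent.H1PInsep

universe u v u' v'

section

variable {p : ℕ} [hp : Fact p.Prime]
  {K : Type u} [Field K] [CharP K p] {V : Type v} [AddCommGroup V] [Module (ZMod p) V]
  (c : ClData p K V)
  {L : Type u'} [Field L] [CharP L p] {W : Type v'} [AddCommGroup W] [Module (ZMod p) W]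
  (d : ClData p L W)

theorem mem_bot_map (φ : V ≃ₗ[ZMod p] W) {x : K} {x' : L} (hx : x ≠ 0) (hx' : x' ≠ 0)
    (h : φ (c.cl x) = d.cl x') :
    x ∈ (⊥ : IntermediateField (Fr K p) K) ↔ x' ∈ (⊥ : IntermediateField (Fr L p) L) := by
  rw [← c.ker hx, ← d.ker hx', ← h]
  simp

/-- the property extracted from compatibility with Steinberg relations -/
def Pres (φ : V ≃ₗ[ZMod p] W) : Prop :=
  ∀ x : K, x ≠ 0 → 1 + x ≠ 0 → ∀ x' w' : L, x' ≠ 0 → w' ≠ 0 → φ (c.cl x) = d.cl x' →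
    φ (c.cl (1 + x)) = d.cl w' → w' ∈ (Fr L p)⟮x'⟯

variable {c d}

theorem field_congr {x y : K} (hx : x ≠ 0) (hy : y ≠ 0) (h : c.cl x = c.cl y) :
    (Fr K p)⟮y⟯ ≤ (Fr K p)⟮x⟯ := by
  obtain ⟨a, ha, rfl⟩ := (c.eq_iff hx hy).1 h
  apply adjoin_le
  exact mul_mem (IntermediateField.algebraMap_mem _ _) (mem_adjoin_simple_self _ _)

theorem pres_mem {φ : V ≃ₗ[ZMod p] W} (hφ : Pres c d φ) {x y : K} (hx : x ≠ 0) (hy : y ≠ 0)
    (hxy : y ∈ (Fr K p)⟮x⟯) {x' y' : L} (hx' : x' ≠ 0) (hy' : y' ≠ 0)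
    (h1 : φ (c.cl x) = d.cl x') (h2 : φ (c.cl y) = d.cl y') : y' ∈ (Fr L p)⟮x'⟯ := by
  -- the subfield G
  let G : IntermediateField (Fr K p) K :=
    { carrier := {g | g = 0 ∨ ∀ g' : L, g' ≠ 0 → φ (c.cl g) = d.cl g' → g' ∈ (Fr L p)⟮x'⟯}
      mul_mem' := by
        rintro a b ha hb
        by_cases ha0 : a = 0
        · left; simp [ha0]
        by_cases hb0 : b = 0
        · left; simp [hb0]
        right
        intro g' hg' hg
        have ha := ha.resolve_left ha0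
        have hb := hb.resolve_left hb0
        obtain ⟨a', ha'0, ha'⟩ := d.surj (φ (c.cl a))
        obtain ⟨b', hb'0, hb'⟩ := d.surj (φ (c.cl b))
        have h3 : a' * b' ∈ (Fr L p)⟮x'⟯ := mul_mem (ha a' ha'0 ha'.symm) (hb b' hb'0 hb'.symm)
        apply adjoin_le h3
        apply field_congr (c := d) (mul_ne_zero ha'0 hb'0) hg' _ (mem_adjoin_simple_self _ _)
        rw [← hg, c.mul ha0 hb0, map_add, d.mul ha'0 hb'0, ha', hb']
      one_mem' := by
        right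
        intro g' hg' hg
        have : g' ∈ (⊥ : IntermediateField (Fr L p) L) := by
          rw [← d.ker hg', ← hg, c.one, map_zero]
        exact bot_le (a := (Fr L p)⟮x'⟯) this
      add_mem' := by
        rintro a b ha hb
        by_cases ha0 : a = 0
        · rw [ha0, zero_add]; exact hb
        by_cases hb0 : b = 0
        · rw [hb0, add_zero]; exact ha
        by_cases hab : a + b = 0
        · left; exact hab
        right
        intro g' hg' hg
        have ha := ha.resolve_left ha0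
        have hb := hb.resolve_left hb0
        obtain ⟨a', ha'0, ha'⟩ := d.surj (φ (c.cl a))
        obtain ⟨b', hb'0, hb'⟩ := d.surj (φ (c.cl b))
        have ha1 := ha a' ha'0 ha'.symm
        have hb1 := hb b' hb'0 hb'.symm
        -- a + b = a * (1 + b / a)
        have h4 : 1 + b / a ≠ 0 := by
          intro h5
          apply hab
          have h6 : a + b = a * (1 + b / a) := by field_simp
          rw [h6, h5, mul_zero]
        obtain ⟨w', hw'0, hw'⟩ := d.surj (φ (c.cl (1 + b / a)))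
        have h5 : φ (c.cl (b / a)) = d.cl (b' / a') := by
          rw [c.div hb0 ha0, d.div hb'0 ha'0, map_sub, ha', hb']
        have h6 := hφ (b / a) (div_ne_zero hb0 ha0) h4 (b' / a') w' (div_ne_zero hb'0 ha'0) hw'0
          h5 hw'.symm
        have h7 : w' ∈ (Fr L p)⟮x'⟯ := adjoin_le (div_mem hb1 ha1) h6
        have h8 : a' * w' ∈ (Fr L p)⟮x'⟯ := mul_mem ha1 h7
        apply adjoin_le h8
        apply field_congr (c := d) (mul_ne_zero ha'0 hw'0) hg' _ (mem_adjoin_simple_self _ _)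
        have h9 : a + b = a * (1 + b / a) := by field_simp
        rw [← hg, h9, c.mul ha0 h4, map_add, d.mul ha'0 hw'0, ha', hw']
      zero_mem' := by left; rfl
      algebraMap_mem' := by
        intro r
        by_cases hr : r = 0
        · left; simp [hr]
        right
        intro g' hg' hg
        have : g' ∈ (⊥ : IntermediateField (Fr L p) L) := by
          rw [← d.ker hg', ← hg, c.of_alg hr, map_zero]
        exact bot_le (a := (Fr L p)⟮x'⟯) this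
      inv_mem' := by
        rintro a ha
        by_cases ha0 : a = 0
        · left; simp [ha0]
        right
        intro g' hg' hg
        have ha := ha.resolve_left ha0
        obtain ⟨a', ha'0, ha'⟩ := d.surj (φ (c.cl a))
        have h3 : a'⁻¹ ∈ (Fr L p)⟮x'⟯ := inv_mem (ha a' ha'0 ha'.symm)
        apply adjoin_le h3
        apply field_congr (c := d) (inv_ne_zero ha'0) hg' _ (mem_adjoin_simple_self _ _)
        rw [← hg, c.inv ha0, map_neg, d.inv ha'0, ha'] }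
  have hxG : x ∈ G := by
    right
    intro g' hg' hg
    exact field_congr (c := d) hx' hg' (by rw [← hg, h1]) (mem_adjoin_simple_self _ _)
  have hyG : y ∈ G := adjoin_le hxG hxy
  exact (hyG.resolve_left hy) y' hy' h2

theorem pres_mem_iff {φ : V ≃ₗ[ZMod p] W} (hφ : Pres c d φ) (hφ' : Pres d c φ.symm)
    {x y : K} (hx : x ≠ 0) (hy : y ≠ 0)
    {x' y' : L} (hx' : x' ≠ 0) (hy' : y' ≠ 0)
    (h1 : φ (c.cl x) = d.cl x') (h2 : φ (c.cl y) = d.cl y') :
    y ∈ (Fr K p)⟮x⟯ ↔ y' ∈ (Fr L p)⟮x'⟯ := by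
  constructor
  · intro h; exact pres_mem hφ hx hy h hx' hy' h1 h2
  · intro h; exact pres_mem hφ' hx' hy' h hx hy (by rw [← h1]; simp) (by rw [← h2]; simp)

theorem lin_of_eq {x u : K} (hx : x ≠ 0) (hu : u ≠ 0) {n : ℕ} {b b' : Fr K p} (hb : b ≠ 0)
    (hb' : b' ≠ 0)
    (h : u ^ n = algebraMap (Fr K p) K b' * (x ^ n - algebraMap (Fr K p) K b)) :
    c.Lin ((n : ZMod p) • c.cl x) ((n : ZMod p) • c.cl u) := by
  have hb0 : algebraMap (Fr K p) K b ≠ 0 := by simpa using hb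
  have hb0' : algebraMap (Fr K p) K b' ≠ 0 := by simpa using hb'
  have hxn := pow_ne_zero n hx
  have hun := pow_ne_zero n hu
  have hne : x ^ n - algebraMap (Fr K p) K b ≠ 0 := by
    intro h0
    rw [h0, mul_zero] at h
    exact hun h
  refine ⟨-(x ^ n) / algebraMap (Fr K p) K b, ?_, ?_, ?_, ?_⟩
  · exact div_ne_zero (neg_ne_zero.2 hxn) hb0
  · intro h0
    apply hne
    field_simp at h0
    linear_combination -h0
  · rw [c.div (neg_ne_zero.2 hxn) hb0, c.neg hxn, c.of_alg hb, c.pow hx, sub_zero]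
  · have : 1 + -(x ^ n) / algebraMap (Fr K p) K b =
        -(x ^ n - algebraMap (Fr K p) K b) / algebraMap (Fr K p) K b := by
      field_simp
      ring
    rw [this, c.div (neg_ne_zero.2 hne) hb0, c.neg hne, c.of_alg hb, sub_zero, ← c.pow hu, h,
      c.smul_left hne hb']

theorem add_ne_of_not_bot {x : K} (hx : x ∉ (⊥ : IntermediateField (Fr K p) K)) : 1 + x ≠ 0 := by
  intro h
  apply hx
  have : x = -1 := by linear_combination h
  rw [this]
  exact neg_one_mem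

theorem ne_zero_of_not_bot {x : K} (hx : x ∉ (⊥ : IntermediateField (Fr K p) K)) : x ≠ 0 := by
  rintro rfl
  exact hx (zero_mem _)

theorem nondeg_image {φ : V ≃ₗ[ZMod p] W} {x : K} (hx : x ∉ (⊥ : IntermediateField (Fr K p) K))
    {x' u' : L} (hx' : x' ≠ 0) (hu' : u' ≠ 0) (h1 : φ (c.cl x) = d.cl x')
    (h2 : φ (c.cl (1 + x)) = d.cl u') :
    ∀ i < p, ∀ a : Fr L p, u' ≠ algebraMap (Fr L p) L a * x' ^ i := by
  intro i hi a h
  have hx0 := ne_zero_of_not_bot hx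
  have hx1 := add_ne_of_not_bot hx
  have ha : a ≠ 0 := by
    rintro rfl
    apply hu'
    rw [h]; simp
  have h3 : φ (c.cl (1 + x)) = φ (c.cl (x ^ i)) := by
    rw [h2, h, d.smul_left (pow_ne_zero _ hx') ha, d.pow hx', c.pow hx0, map_smul, h1]
  have h4 := φ.injective h3
  obtain ⟨b, hb, hb1⟩ := (c.eq_iff (pow_ne_zero _ hx0) hx1).1 h4.symm
  exact nondeg hx hi b hb1

theorem step1 {φ : V ≃ₗ[ZMod p] W} (hφ : Pres c d φ) (hφ' : Pres d c φ.symm)
    {x y : K} (hx : x ∉ (⊥ : IntermediateField (Fr K p) K)) (hy : y ∉ (Fr K p)⟮x⟯) :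
    ∃ n : ZMod p, n ≠ 0 ∧ d.Lin (n • φ (c.cl x)) (n • φ (c.cl (1 + x))) ∧
      d.Lin (n • φ (c.cl y)) (n • φ (c.cl (1 + y))) := by
  have hyb := not_mem_bot_of hy
  have hx0 := ne_zero_of_not_bot hx
  have hx1 := add_ne_of_not_bot hx
  have hy0 := ne_zero_of_not_bot hyb
  have hy1 := add_ne_of_not_bot hyb
  have hxy : x - y ≠ 0 := by
    intro h
    apply hy
    rw [← sub_eq_zero.1 h]
    exact mem_adjoin_simple_self _ _
  obtain ⟨x', hx'0, hx'⟩ := d.surj (φ (c.cl x))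
  obtain ⟨y', hy'0, hy'⟩ := d.surj (φ (c.cl y))
  obtain ⟨u', hu'0, hu'⟩ := d.surj (φ (c.cl (1 + x)))
  obtain ⟨v', hv'0, hv'⟩ := d.surj (φ (c.cl (1 + y)))
  obtain ⟨W', hW'0, hW'⟩ := d.surj (φ (c.cl (x - y)))
  have hx'b : x' ∉ (⊥ : IntermediateField (Fr L p) L) := by
    rw [← mem_bot_map c d φ hx0 hx'0 hx'.symm]; exact hx
  have hy'b : y' ∉ (Fr L p)⟮x'⟯ := by
    rw [← pres_mem_iff hφ hφ' hx0 hy0 hx'0 hy'0 hx'.symm hy'.symm]; exact hy
  have hu'm : u' ∈ (Fr L p)⟮x'⟯ := pres_mem hφ hx0 hx1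
    (add_mem (one_mem _) (mem_adjoin_simple_self _ _)) hx'0 hu'0 hx'.symm hu'.symm
  have hv'm : v' ∈ (Fr L p)⟮y'⟯ := pres_mem hφ hy0 hy1
    (add_mem (one_mem _) (mem_adjoin_simple_self _ _)) hy'0 hv'0 hy'.symm hv'.symm
  have hW1 : W' / x' ∈ (Fr L p)⟮x' / y'⟯ := by
    apply pres_mem hφ (x := x / y) (y := (x - y) / x) (div_ne_zero hx0 hy0) (div_ne_zero hxy hx0)
      _ (div_ne_zero hx'0 hy'0) (div_ne_zero hW'0 hx'0)
    · rw [c.div hx0 hy0, d.div hx'0 hy'0, map_sub, hx', hy']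
    · rw [c.div hxy hx0, d.div hW'0 hx'0, map_sub, hx', hW']
    · have : (x - y) / x = 1 - (x / y)⁻¹ := by field_simp
      rw [this]
      exact sub_mem (one_mem _) (inv_mem (mem_adjoin_simple_self _ _))
  have hW2 : W' / v' ∈ (Fr L p)⟮u' / v'⟯ := by
    apply pres_mem hφ (x := (1 + x) / (1 + y)) (y := (x - y) / (1 + y)) (div_ne_zero hx1 hy1)
      (div_ne_zero hxy hy1) _ (div_ne_zero hu'0 hv'0) (div_ne_zero hW'0 hv'0)
    · rw [c.div hx1 hy1, d.div hu'0 hv'0, map_sub, hu', hv']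
    · rw [c.div hxy hy1, d.div hW'0 hv'0, map_sub, hv', hW']
    · have : (x - y) / (1 + y) = (1 + x) / (1 + y) - 1 := by field_simp; ring
      rw [this]
      exact sub_mem (mem_adjoin_simple_self _ _) (one_mem _)
  obtain ⟨n, hn0, hnp, ⟨b, b', hb, hb', e1⟩, ⟨a, a', ha, ha', e2⟩⟩ := funeq expOne hx'b hy'b hu'm
    hv'm hW'0 hW1 hW2 (nondeg_image hx hx'0 hu'0 hx'.symm hu'.symm)
    (nondeg_image hyb hy'0 hv'0 hy'.symm hv'.symm)
  refine ⟨(n : ZMod p), ?_, ?_, ?_⟩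
  · intro h
    rw [ZMod.natCast_eq_zero_iff] at h
    exact absurd (Nat.le_of_dvd hn0 h) (by omega)
  · rw [← hx', ← hu']
    exact lin_of_eq hx'0 hu'0 hb hb' e1
  · rw [← hy', ← hv']
    exact lin_of_eq hy'0 hv'0 ha ha' e2

theorem lin_unique' {φ : V ≃ₗ[ZMod p] W} {x : K}
    (hx : x ∉ (⊥ : IntermediateField (Fr K p) K)) {η : W}
    {e e' : ZMod p} (he : e ≠ 0) (he' : e' ≠ 0) (h : d.Lin (e • φ (c.cl x)) (e • η))
    (h' : d.Lin (e' • φ (c.cl x)) (e' • η)) : e = e' := by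
  have hx0 := ne_zero_of_not_bot hx
  obtain ⟨x', hx'0, hx'⟩ := d.surj (φ (c.cl x))
  have hx'b : x' ∉ (⊥ : IntermediateField (Fr L p) L) := by
    rw [← mem_bot_map c d φ hx0 hx'0 hx'.symm]; exact hx
  rw [← hx'] at h h'
  exact d.lin_unique hx'b he he' h h'

theorem step2 {φ : V ≃ₗ[ZMod p] W} (hφ : Pres c d φ) (hφ' : Pres d c φ.symm)
    (hbig : ∀ x : K, ∃ y : K, y ∉ (Fr K p)⟮x⟯) :
    ∃ n : ZMod p, n ≠ 0 ∧ ∀ x : K, x ∉ (⊥ : IntermediateField (Fr K p) K) →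
      d.Lin (n • φ (c.cl x)) (n • φ (c.cl (1 + x))) := by
  obtain ⟨x₀, hx₀⟩ := hbig 0
  have hx₀b := not_mem_bot_of hx₀
  obtain ⟨y₀, hy₀⟩ := hbig x₀
  obtain ⟨n, hn, h1, -⟩ := step1 hφ hφ' hx₀b hy₀
  refine ⟨n, hn, ?_⟩
  -- first for `y` independent of `x₀`
  have A : ∀ y, y ∉ (Fr K p)⟮x₀⟯ → d.Lin (n • φ (c.cl y)) (n • φ (c.cl (1 + y))) := by
    intro y hy
    obtain ⟨n', hn', h1', h2'⟩ := step1 hφ hφ' hx₀b hy
    have := lin_unique' hx₀b hn hn' h1 h1'
    rw [this]; exact h2'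
  intro x hx
  by_cases hx1 : x ∈ (Fr K p)⟮x₀⟯
  · -- choose y independent
    have h3 := exchange expOne hx1 hx
    have h4 : y₀ ∉ (Fr K p)⟮x⟯ := by rw [h3]; exact hy₀
    obtain ⟨n', hn', h1', h2'⟩ := step1 hφ hφ' hx h4
    have := lin_unique' (not_mem_bot_of hy₀) hn hn' (A y₀ hy₀) h2'
    rw [this]; exact h1'
  · exact A x hx1

theorem step3 {φ : V ≃ₗ[ZMod p] W} (hφ : Pres c d φ) (hφ' : Pres d c φ.symm)
    (hbig : ∀ x : K, ∃ y : K, y ∉ (Fr K p)⟮x⟯) (hbig' : ∀ x : L, ∃ y : L, y ∉ (Fr L p)⟮x⟯) :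
    ∃ n : ZMod p, n ≠ 0 ∧ ∃ ψ : V ≃ₗ[ZMod p] W, (∀ ξ, ψ ξ = n • φ ξ) ∧
      (∀ x : K, x ∉ (⊥ : IntermediateField (Fr K p) K) →
      d.Lin (ψ (c.cl x)) (ψ (c.cl (1 + x)))) ∧
      (∀ x : L, x ∉ (⊥ : IntermediateField (Fr L p) L) →
      c.Lin (ψ.symm (d.cl x)) (ψ.symm (d.cl (1 + x)))) := by
  obtain ⟨n, hn, h1⟩ := step2 hφ hφ' hbig
  obtain ⟨m, hm, h2⟩ := step2 (φ := φ.symm) hφ' (by simpa using hφ) hbig'
  obtain ⟨x₀, hx₀⟩ := hbig 0
  have hx₀b := not_mem_bot_of hx₀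
  have hx0 := ne_zero_of_not_bot hx₀b
  have hx1 := add_ne_of_not_bot hx₀b
  obtain ⟨z, hz, hz1, e1, e2⟩ := h1 x₀ hx₀b
  have hzb : z ∉ (⊥ : IntermediateField (Fr L p) L) := by
    rw [← d.ker hz, e1, smul_eq_zero, not_or]
    refine ⟨hn, ?_⟩
    rw [LinearEquiv.map_eq_zero_iff, c.ker hx0]
    exact hx₀b
  have h3 := h2 z hzb
  rw [e1, e2, map_smul, map_smul, LinearEquiv.symm_apply_apply, LinearEquiv.symm_apply_apply,
    smul_smul, smul_smul] at h3
  have h4 : c.Lin ((1 : ZMod p) • c.cl x₀) ((1 : ZMod p) • c.cl (1 + x₀)) := by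
    rw [one_smul, one_smul]
    exact ⟨x₀, hx0, hx1, rfl, rfl⟩
  have h5 : m * n = 1 := c.lin_unique hx₀b (mul_ne_zero hm hn) one_ne_zero h3 h4
  refine ⟨n, hn, (LinearEquiv.smulOfNeZero (ZMod p) V n hn).trans φ, ?_, ?_, ?_⟩
  · intro ξ
    simp
  · intro x hx
    simpa using h1 x hx
  · intro x hx
    have h6 := h2 x hx
    have h7 : ∀ η : W, ((LinearEquiv.smulOfNeZero (ZMod p) V n hn).trans φ).symm η = m • φ.symm η := by
      intro η
      rw [LinearEquiv.symm_apply_eq]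
      simp [smul_smul, mul_comm n m, h5]
    rw [h7, h7]
    exact h6

end

end Crest.Agent.H1PInsep
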