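import Mathlib

set_option autoImplicit false
set_option linter.unusedSectionVars false

open Polynomial IntermediateField

namespace Crest.Agent.H1PInsep

universe u v

variable {p : ℕ} [hp : Fact p.Prime] {F : Type v} {K : Type u} [Field F] [Field K] [Algebra F K]
  [CharP K p]

/-- `K/F` is purely inseparable of exponent at most one. -/
def ExpOne (p : ℕ) (F : Type v) (K : Type u) [Field F] [Field K] [Algebra F K] : Prop :=
  ∀ z : K, ∃ a : F, algebraMap F K a = z ^ p

theorem pow_mem (h : ExpOne p F K) (M : IntermediateField F K) (z : K) : z ^ p ∈ M := by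
  obtain ⟨a, ha⟩ := h z
  rw [← ha]; exact M.algebraMap_mem a

theorem isIntegral (h : ExpOne p F K) (x : K) : IsIntegral F x := by
  obtain ⟨a, ha⟩ := h x
  refine ⟨X ^ p - C a, monic_X_pow_sub_C a hp.out.ne_zero, ?_⟩
  simp [ha]

theorem minpoly_eq (h : ExpOne p F K) {x : K} (hx : x ∉ (⊥ : IntermediateField F K)) {a : F}
    (ha : algebraMap F K a = x ^ p) : minpoly F x = X ^ p - C a := by
  symm
  have hirr : Irreducible (X ^ p - C a) := by
    apply X_pow_sub_C_irreducible_of_prime hp.out
    intro b hb
    apply hx
    have : (algebraMap F K b) = x := by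
      apply frobenius_inj K p
      simp only [frobenius_def]
      rw [← map_pow, hb, ha]
    rw [← this]
    exact IntermediateField.algebraMap_mem _ _
  apply minpoly.eq_of_irreducible_of_monic hirr
  · simp [ha]
  · exact monic_X_pow_sub_C a hp.out.ne_zero

theorem natDegree_minpoly (h : ExpOne p F K) {x : K} (hx : x ∉ (⊥ : IntermediateField F K)) :
    (minpoly F x).natDegree = p := by
  obtain ⟨a, ha⟩ := h x
  rw [minpoly_eq h hx ha]
  exact natDegree_X_pow_sub_C

theorem finrank_adjoin (h : ExpOne p F K) {x : K} (hx : x ∉ (⊥ : IntermediateField F K)) :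
    Module.finrank F F⟮x⟯ = p := by
  rw [IntermediateField.adjoin.finrank (isIntegral h x), natDegree_minpoly h hx]

theorem adjoin_le {x : K} {M : IntermediateField F K} (h : x ∈ M) : F⟮x⟯ ≤ M := by
  rw [adjoin_simple_le_iff]; exact h

theorem exchange (h : ExpOne p F K) {x y : K} (hy : y ∈ F⟮x⟯) (hy' : y ∉ (⊥ : IntermediateField F K)) :
    F⟮y⟯ = F⟮x⟯ := by
  have hx' : x ∉ (⊥ : IntermediateField F K) := by
    intro hx
    apply hy'
    exact adjoin_le hx hy
  have := adjoin.finiteDimensional (isIntegral h x)
  apply IntermediateField.eq_of_le_of_finrank_eq (adjoin_le hy)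
  rw [finrank_adjoin h hx', finrank_adjoin h hy']

/-- elements of `F⟮x⟯` are polynomials of degree `< p` -/
theorem exists_repr (h : ExpOne p F K) {x y : K} (hx : x ∉ (⊥ : IntermediateField F K))
    (hy : y ∈ F⟮x⟯) : ∃ a : ℕ → F, y = ∑ i ∈ Finset.range p, algebraMap F K (a i) * x ^ i := by
  rw [← IntermediateField.mem_toSubalgebra, adjoin_simple_toSubalgebra_of_isAlgebraic
    (isIntegral h x).isAlgebraic] at hy
  obtain ⟨q, hq⟩ := (Algebra.adjoin_mem_exists_aeval F x hy)
  set r := q %ₘ (minpoly F x) with hr
  have h1 : aeval x r = y := by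
    rw [hr, ← hq]
    exact (minpoly.aeval_modByMonic_minpoly q x)
  refine ⟨fun i => r.coeff i, ?_⟩
  rw [← h1, aeval_eq_sum_range' (n := p)]
  · simp [Algebra.smul_def]
  · have hm := minpoly.monic (isIntegral h x)
    have hd := natDegree_minpoly h hx
    have := natDegree_modByMonic_lt q hm (by
      intro h1
      rw [h1] at hd
      simp at hd
      exact hp.out.ne_zero hd.symm)
    rw [hd] at this
    exact this

theorem linInd (h : ExpOne p F K) {x : K} (hx : x ∉ (⊥ : IntermediateField F K)) (a : ℕ → F)
    (h0 : ∑ i ∈ Finset.range p, algebraMap F K (a i) * x ^ i = 0) : ∀ i < p, a i = 0 := by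
  set q : F[X] := ∑ i ∈ Finset.range p, C (a i) * X ^ i with hq
  have hq0 : q = 0 := by
    by_contra hne
    have h1 : aeval x q = 0 := by
      rw [hq, map_sum]
      simpa using h0
    have h2 := natDegree_le_natDegree (minpoly.degree_le_of_ne_zero F x hne h1)
    rw [natDegree_minpoly h hx] at h2
    have h3 : q.degree < p := by
      rw [hq, ← Fin.sum_univ_eq_sum_range (fun i => C (a i) * X ^ i)]
      apply degree_sum_fin_lt
    have h4 := (natDegree_lt_iff_degree_lt hne).2 h3
    omega
  intro i hi
  have : q.coeff i = 0 := by rw [hq0]; simp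
  rw [hq] at this
  simp only [finsetSum_coeff, coeff_C_mul, coeff_X_pow] at this
  simpa [hi] using this



theorem expOne_top (h : ExpOne p F K) (M : IntermediateField F K) : ExpOne p M K := by
  intro z
  exact ⟨⟨z ^ p, pow_mem h M z⟩, rfl⟩

/-- field of constants of a derivation -/
def constField {F : Type v} {K : Type u} [Field F] [Field K] [Algebra F K] (D : Derivation F K K) :
    IntermediateField F K where
  carrier := {z | D z = 0}
  mul_mem' {a b} ha hb := by
    simp only [Set.mem_ofPred_eq] at *
    simp [ha, hb]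
  one_mem' := by simp
  add_mem' {a b} ha hb := by
    simp only [Set.mem_ofPred_eq] at *
    simp [ha, hb]
  zero_mem' := by simp
  algebraMap_mem' r := by simp
  inv_mem' a ha := by
    simp only [Set.mem_ofPred_eq] at *
    simp [Derivation.leibniz_inv, ha]

@[simp] theorem mem_constField {D : Derivation F K K} {z : K} : z ∈ constField D ↔ D z = 0 := Iff.rfl

theorem exists_derivation_of_adjoin_eq_top (h : ExpOne p F K) (M : IntermediateField F K) {y : K}
    (hy : y ∉ M) (htop : ∀ z, z ∈ M⟮y⟯) : ∃ D : Derivation M K K, D y ≠ 0 := by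
  have hM := expOne_top h M
  have hyM : y ∉ (⊥ : IntermediateField M K) := by
    intro hh
    rw [IntermediateField.mem_bot] at hh
    obtain ⟨a, ha⟩ := hh
    apply hy
    rw [← ha]
    exact a.2
  have htop' : M⟮y⟯ = ⊤ := by
    rw [eq_top_iff]
    intro z _
    exact htop z
  have hfin : FiniteDimensional M M⟮y⟯ := adjoin.finiteDimensional (isIntegral hM y)
  have hfin' : FiniteDimensional M K := by
    rw [htop'] at hfin
    exact (IntermediateField.topEquiv (F := M) (E := K)).toLinearEquiv.finiteDimensional
  by_contra hcon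
  push Not at hcon
  have hD0 : ∀ D : Derivation M K K, D = 0 := by
    intro D
    have : constField D = ⊤ := by
      rw [eq_top_iff, ← htop']
      exact adjoin_le (hcon D)
    ext z
    have hz : z ∈ constField D := by rw [this]; trivial
    exact hz
  have hsub : Subsingleton (Ω[K⁄M]) := by
    rw [← not_nontrivial_iff_subsingleton]
    intro hnt
    obtain ⟨ω, hω⟩ := exists_ne (0 : Ω[K⁄M])
    apply hω
    rw [← Module.forall_dual_apply_eq_zero_iff K ω]
    intro f
    have h1 : f.compDer (KaehlerDifferential.D M K) = 0 := hD0 _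
    have h2 : f = 0 := by
      apply Derivation.liftKaehlerDifferential_unique
      rw [h1]
      ext z
      simp
    rw [h2]
    simp
  have : Algebra.FormallyUnramified M K := ⟨hsub⟩
  have hsep : Algebra.IsSeparable M K := Algebra.FormallyUnramified.isSeparable M K
  have h1 : (minpoly M y).Separable := Algebra.IsSeparable.isSeparable M y
  obtain ⟨a, ha⟩ := hM y
  rw [minpoly_eq hM hyM ha] at h1
  have hchar : CharP M p := (algebraMap M K).charP (algebraMap M K).injective p
  have h2 : derivative (X ^ p - C a : M[X]) = 0 := by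
    rw [derivative_sub, derivative_X_pow, derivative_C, CharP.cast_eq_zero]
    simp
  rw [Polynomial.Separable, h2] at h1
  have h3 : IsUnit (X ^ p - C a : M[X]) := by
    rwa [isCoprime_zero_right] at h1
  have h4 := natDegree_eq_zero_of_isUnit h3
  rw [natDegree_X_pow_sub_C] at h4
  exact hp.out.ne_zero h4

theorem exists_maximal (M : IntermediateField F K) {y : K} (hy : y ∉ M) :
    ∃ N : IntermediateField F K, M ≤ N ∧ y ∉ N ∧ ∀ N' : IntermediateField F K, N ≤ N' → y ∉ N' →
      N' ≤ N := by
  obtain ⟨N, hMN, hN⟩ := zorn_le_nonempty₀ {N : IntermediateField F K | y ∉ N} (by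
    intro c hc hchain z hz
    have hne : Nonempty c := ⟨⟨z, hz⟩⟩
    have hdir : Directed (· ≤ ·) (fun (i : c) => (i : IntermediateField F K)) := by
      exact hchain.directed
    refine ⟨⨆ i : c, (i : IntermediateField F K), ?_, ?_⟩
    · rw [Set.mem_ofPred_eq, ← SetLike.mem_coe, IntermediateField.coe_iSup_of_directed hdir]
      simp only [Set.mem_iUnion, not_exists]
      intro i
      exact hc i.2
    · intro w hw
      exact le_iSup (fun (i : c) => (i : IntermediateField F K)) ⟨w, hw⟩) M hy
  exact ⟨N, hMN, hN.prop, fun N' h1 h2 => hN.le_of_ge h2 h1⟩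

theorem exists_derivation (h : ExpOne p F K) (M : IntermediateField F K) {y : K}
    (hy : y ∉ M) : ∃ D : Derivation F K K, (∀ z ∈ M, D z = 0) ∧ D y = y := by
  obtain ⟨N, hMN, hyN, hmax⟩ := exists_maximal M hy
  have hN := expOne_top h N
  have key : ∀ z, z ∈ N⟮y⟯ := by
    intro z
    by_cases hz : z ∈ N
    · exact (N⟮y⟯).algebraMap_mem ⟨z, hz⟩
    · -- y ∈ N(z)
      have hy2 : y ∈ N⟮z⟯ := by
        by_contra hcon
        have h1 := hmax ((N⟮z⟯).restrictScalars F) (by
          intro w hw
          rw [IntermediateField.mem_restrictScalars]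
          exact (N⟮z⟯).algebraMap_mem ⟨w, hw⟩) (by
            rwa [IntermediateField.mem_restrictScalars])
        apply hz
        apply h1
        rw [IntermediateField.mem_restrictScalars]
        exact mem_adjoin_simple_self _ _
      have hy3 : y ∉ (⊥ : IntermediateField N K) := by
        intro hh
        rw [IntermediateField.mem_bot] at hh
        obtain ⟨a, ha⟩ := hh
        apply hyN
        rw [← ha]
        exact a.2
      rw [exchange hN hy2 hy3]
      exact mem_adjoin_simple_self _ _
  obtain ⟨D, hD⟩ := exists_derivation_of_adjoin_eq_top h N hyN key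
  refine ⟨(y / D y) • (D.restrictScalars F), ?_, ?_⟩
  · intro z hz
    have : D z = 0 := D.map_algebraMap ⟨z, hMN hz⟩
    simp [this]
  · simp [hD]

end Crest.Agent.H1PInsep
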