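import Mathlib
import Crest.Agent.H1PRBra
import Crest.Agent.H26OneShot

set_option autoImplicit false
set_option linter.unusedSectionVars false

open scoped ComplexOrder MatrixOrder Matrix Kronecker
open Matrix Crest.H26OneShot Crest.MathPhysics.NonlocalGame

namespace Crest.H1PR

section prod

variable {α β α' β' : Type*} [Fintype α] [DecidableEq α] [Fintype β] [DecidableEq β]
  [Fintype α'] [DecidableEq α'] [Fintype β'] [DecidableEq β']

/-- product vector on `(α × α') × (β × β')`. -/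
def pvec (ψ : α × β → ℂ) (ψ' : α' × β' → ℂ) : (α × α') × (β × β') → ℂ :=
  fun p => ψ (p.1.1, p.2.1) * ψ' (p.1.2, p.2.2)

theorem pvec_dot (ψ : α × β → ℂ) (ψ' : α' × β' → ℂ) (X : Matrix α α ℂ) (X' : Matrix α' α' ℂ)
    (Y : Matrix β β ℂ) (Y' : Matrix β' β' ℂ) :
    dotProduct (star (pvec ψ ψ')) (((X ⊗ₖ X') ⊗ₖ (Y ⊗ₖ Y')).mulVec (pvec ψ ψ')) =
      dotProduct (star ψ) ((X ⊗ₖ Y).mulVec ψ) * dotProduct (star ψ') ((X' ⊗ₖ Y').mulVec ψ') := by
  have h1 : ∀ (a : α) (a' : α') (b : β) (b' : β'),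
      (((X ⊗ₖ X') ⊗ₖ (Y ⊗ₖ Y')).mulVec (pvec ψ ψ')) ((a, a'), (b, b')) =
        ((X ⊗ₖ Y).mulVec ψ) (a, b) * ((X' ⊗ₖ Y').mulVec ψ') (a', b') := by
    intro a a' b b'
    simp only [Matrix.mulVec, dotProduct, Matrix.kroneckerMap_apply, pvec, Fintype.sum_prod_type]
    rw [Finset.sum_mul_sum]
    refine Finset.sum_congr rfl fun c _ => Finset.sum_congr rfl fun c' _ => ?_
    rw [Finset.sum_mul_sum]
    refine Finset.sum_congr rfl fun e _ => Finset.sum_congr rfl fun e' _ => ?_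
    ring
  simp only [dotProduct]
  simp only [Fintype.sum_prod_type]
  rw [Finset.sum_mul_sum]
  refine Finset.sum_congr rfl fun a _ => Finset.sum_congr rfl fun a' _ => ?_
  rw [Finset.sum_mul_sum]
  refine Finset.sum_congr rfl fun b _ => Finset.sum_congr rfl fun b' _ => ?_
  rw [h1]
  simp only [pvec, Pi.star_apply, star_mul']
  ring

theorem bra_im (ψ : α × β → ℂ) {X : Matrix α α ℂ} {Y : Matrix β β ℂ}
    (hX : X.PosSemidef) (hY : Y.PosSemidef) :
    (dotProduct (star ψ) ((X ⊗ₖ Y).mulVec ψ)).im = 0 := by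
  have h2 := (Matrix.PosSemidef.dotProduct_mulVec_nonneg (hX.kronecker hY) ψ)
  exact (Complex.le_def.1 h2).2.symm

theorem bra_pvec (ψ : α × β → ℂ) (ψ' : α' × β' → ℂ) {X : Matrix α α ℂ} {X' : Matrix α' α' ℂ}
    {Y : Matrix β β ℂ} {Y' : Matrix β' β' ℂ} (hX : X.PosSemidef) (hY : Y.PosSemidef) :
    bra (pvec ψ ψ') (X ⊗ₖ X') (Y ⊗ₖ Y') = bra ψ X Y * bra ψ' X' Y' := by
  unfold bra
  rw [pvec_dot, Complex.mul_re, bra_im ψ hX hY]
  ring

theorem nsq_pvec (ψ : α × β → ℂ) (ψ' : α' × β' → ℂ) :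
    ∑ i, ‖pvec ψ ψ' i‖ ^ 2 = (∑ i, ‖ψ i‖ ^ 2) * ∑ i, ‖ψ' i‖ ^ 2 := by
  simp only [Fintype.sum_prod_type, pvec, norm_mul, mul_pow]
  rw [Finset.sum_mul_sum]
  refine Finset.sum_congr rfl fun a _ => Finset.sum_congr rfl fun a' _ => ?_
  rw [Finset.sum_mul_sum]

theorem bra_one_one (ψ : α × β → ℂ) : bra ψ 1 1 = ∑ i, ‖ψ i‖ ^ 2 := by
  unfold bra
  rw [Matrix.one_kronecker_one, Matrix.one_mulVec]
  simp only [dotProduct, Pi.star_apply]
  rw [Complex.re_sum]
  refine Finset.sum_congr rfl fun i _ => ?_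
  rw [Complex.star_def, Complex.conj_mul']
  norm_cast

end prod

variable {G : Game} {v : ℝ}

/-- accepted value at `(x,y)`. -/
noncomputable def gval (G : Game) {α β : Type*} [Fintype α] [Fintype β]
    (ψ : α × β → ℂ) (A : Fin G.nX → Fin G.nA → Matrix α α ℂ)
    (B : Fin G.nY → Fin G.nB → Matrix β β ℂ) (x : Fin G.nX) (y : Fin G.nY) : ℝ :=
  ∑ a, ∑ b, if G.accept x y a b = true then bra ψ (A x a) (B y b) else 0

/-- probability that at least one of the players accepts the copy. -/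
noncomputable def eval' (G : Game) {α β : Type*} [Fintype α] [DecidableEq α] [Fintype β]
    [DecidableEq β]
    (ψ : α × β → ℂ) (A : Fin G.nX → Fin G.nA → Matrix α α ℂ)
    (B : Fin G.nY → Fin G.nB → Matrix β β ℂ) (x : Fin G.nX) (y : Fin G.nY) : ℝ :=
  bra ψ (∑ a, A x a) 1 + bra ψ 1 (∑ b, B y b) - bra ψ (∑ a, A x a) (∑ b, B y b)

theorem retry_aux {α β : Type} [Fintype α] [DecidableEq α] [Fintype β] [DecidableEq β]
    (ψ : α × β → ℂ) (hψ : ∑ i, ‖ψ i‖ ^ 2 = 1)
    (A : Fin G.nX → Fin G.nA → Matrix α α ℂ)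
    (B : Fin G.nY → Fin G.nB → Matrix β β ℂ)
    (hAp : ∀ x a, (A x a).PosSemidef) (hBp : ∀ y b, (B y b).PosSemidef)
    (hAs : ∀ x, (1 - ∑ a, A x a).PosSemidef) (hBs : ∀ y, (1 - ∑ b, B y b).PosSemidef) (N : ℕ) :
    ∃ (α' β' : Type) (_ : Fintype α') (_ : DecidableEq α') (_ : Fintype β') (_ : DecidableEq β')
      (ψ' : α' × β' → ℂ) (A' : Fin G.nX → Fin G.nA → Matrix α' α' ℂ)
      (B' : Fin G.nY → Fin G.nB → Matrix β' β' ℂ),
      ∑ i, ‖ψ' i‖ ^ 2 = 1 ∧ (∀ x a, (A' x a).PosSemidef) ∧ (∀ y b, (B' y b).PosSemidef) ∧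
      (∀ x, (1 - ∑ a, A' x a).PosSemidef) ∧ (∀ y, (1 - ∑ b, B' y b).PosSemidef) ∧
      ∀ x y, gval G ψ A B x y * (∑ n ∈ Finset.range N, (1 - eval' G ψ A B x y) ^ n) ≤
        gval G ψ' A' B' x y := by
  induction N with
  | zero =>
    refine ⟨Unit, Unit, inferInstance, inferInstance, inferInstance, inferInstance,
      fun _ => 1, fun _ _ => 0, fun _ _ => 0, by simp, fun _ _ => Matrix.PosSemidef.zero,
      fun _ _ => Matrix.PosSemidef.zero, ?_, ?_, ?_⟩
    · intro x; simpa using Matrix.PosSemidef.one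
    · intro x; simpa using Matrix.PosSemidef.one
    · intro x y
      simp [gval, bra_zero_left]
  | succ N ih =>
    obtain ⟨α', β', _, _, _, _, ψ', A', B', hψ', hA'p, hB'p, hA's, hB's, hw⟩ := ih
    set AA : Fin G.nX → Fin G.nA → Matrix (α × α') (α × α') ℂ := fun x a =>
      (A x a) ⊗ₖ (1 : Matrix α' α' ℂ) + (1 - ∑ a, A x a) ⊗ₖ (A' x a) with hAA
    set BB : Fin G.nY → Fin G.nB → Matrix (β × β') (β × β') ℂ := fun y b =>
      (B y b) ⊗ₖ (1 : Matrix β' β' ℂ) + (1 - ∑ b, B y b) ⊗ₖ (B' y b) with hBB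
    have hsumA : ∀ x, (1 : Matrix (α × α') (α × α') ℂ) - ∑ a, AA x a =
        (1 - ∑ a, A x a) ⊗ₖ (1 - ∑ a, A' x a) := by
      intro x
      have e1 : ∑ a, AA x a = (∑ a, A x a) ⊗ₖ (1 : Matrix α' α' ℂ) +
          (1 - ∑ a, A x a) ⊗ₖ (∑ a, A' x a) := by
        simp only [hAA, Finset.sum_add_distrib]
        congr 1
        · ext ⟨i, i'⟩ ⟨j, j'⟩
          simp [Matrix.sum_apply, Matrix.kroneckerMap_apply, Finset.sum_mul]
        · ext ⟨i, i'⟩ ⟨j, j'⟩
          simp [Matrix.sum_apply, Matrix.kroneckerMap_apply, Finset.mul_sum]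
      rw [e1, ← Matrix.one_kronecker_one (α := ℂ) (m := α) (n := α')]
      ext ⟨i, i'⟩ ⟨j, j'⟩
      simp only [Matrix.sub_apply, Matrix.add_apply, Matrix.kroneckerMap_apply]
      ring
    have hsumB : ∀ y, (1 : Matrix (β × β') (β × β') ℂ) - ∑ b, BB y b =
        (1 - ∑ b, B y b) ⊗ₖ (1 - ∑ b, B' y b) := by
      intro y
      have e1 : ∑ b, BB y b = (∑ b, B y b) ⊗ₖ (1 : Matrix β' β' ℂ) +
          (1 - ∑ b, B y b) ⊗ₖ (∑ b, B' y b) := by
        simp only [hBB, Finset.sum_add_distrib]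
        congr 1
        · ext ⟨i, i'⟩ ⟨j, j'⟩
          simp [Matrix.sum_apply, Matrix.kroneckerMap_apply, Finset.sum_mul]
        · ext ⟨i, i'⟩ ⟨j, j'⟩
          simp [Matrix.sum_apply, Matrix.kroneckerMap_apply, Finset.mul_sum]
      rw [e1, ← Matrix.one_kronecker_one (α := ℂ) (m := β) (n := β')]
      ext ⟨i, i'⟩ ⟨j, j'⟩
      simp only [Matrix.sub_apply, Matrix.add_apply, Matrix.kroneckerMap_apply]
      ring
    refine ⟨α × α', β × β', inferInstance, inferInstance, inferInstance, inferInstance,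
      pvec ψ ψ', AA, BB, ?_, ?_, ?_, ?_, ?_, ?_⟩
    · rw [nsq_pvec, hψ, hψ', one_mul]
    · intro x a
      exact ((hAp x a).kronecker Matrix.PosSemidef.one).add ((hAs x).kronecker (hA'p x a))
    · intro y b
      exact ((hBp y b).kronecker Matrix.PosSemidef.one).add ((hBs y).kronecker (hB'p y b))
    · intro x
      rw [hsumA]
      exact (hAs x).kronecker (hA's x)
    · intro y
      rw [hsumB]
      exact (hBs y).kronecker (hB's y)
    · intro x y
      set f : ℝ := 1 - eval' G ψ A B x y with hf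
      have hf' : f = bra ψ (1 - ∑ a, A x a) (1 - ∑ b, B y b) := by
        rw [hf, eval', bra_sub_left, bra_sub_right, bra_sub_right, bra_one_one, hψ]
        ring
      have hf0 : 0 ≤ f := by rw [hf']; exact bra_nonneg ψ (hAs x) (hBs y)
      have hterm : ∀ a b, bra ψ (A x a) (B y b) + f * bra ψ' (A' x a) (B' y b) ≤
          bra (pvec ψ ψ') (AA x a) (BB y b) := by
        intro a b
        simp only [hAA, hBB]
        rw [bra_add_left, bra_add_right, bra_add_right]
        rw [bra_pvec ψ ψ' (hAp x a) (hBp y b), bra_pvec ψ ψ' (hAs x) (hBs y), bra_one_one ψ', hψ',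
          mul_one, ← hf']
        have h1 : 0 ≤ bra (pvec ψ ψ') (A x a ⊗ₖ 1) ((1 - ∑ b, B y b) ⊗ₖ B' y b) :=
          bra_nonneg _ ((hAp x a).kronecker Matrix.PosSemidef.one) ((hBs y).kronecker (hB'p y b))
        have h2 : 0 ≤ bra (pvec ψ ψ') ((1 - ∑ a, A x a) ⊗ₖ A' x a) (B y b ⊗ₖ 1) :=
          bra_nonneg _ ((hAs x).kronecker (hA'p x a)) ((hBp y b).kronecker Matrix.PosSemidef.one)
        linarith
      have hsum : gval G ψ A B x y + f * gval G ψ' A' B' x y ≤ gval G (pvec ψ ψ') AA BB x y := by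
        unfold gval
        rw [Finset.mul_sum, ← Finset.sum_add_distrib]
        apply Finset.sum_le_sum
        intro a _
        rw [Finset.mul_sum, ← Finset.sum_add_distrib]
        apply Finset.sum_le_sum
        intro b _
        split_ifs
        · exact hterm a b
        · simp
      have hstep := mul_le_mul_of_nonneg_left (hw x y) hf0
      have e : gval G ψ A B x y * (∑ n ∈ Finset.range (N + 1), f ^ n) =
          gval G ψ A B x y + f * (gval G ψ A B x y * (∑ n ∈ Finset.range N, f ^ n)) := by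
        rw [Finset.sum_range_succ']
        simp only [pow_succ, pow_zero]
        rw [← Finset.sum_mul]
        ring
      rw [e]
      linarith

/-- **Retry lemma** (normalised). -/
theorem retry_unit (hv : ∀ (dA dB : ℕ) (S : Strategy G 1 dA dB), S.probWinsAtLeast 1 ≤ v)
    (hA : 0 < G.nA) (hB : 0 < G.nB)
    {α β : Type} [Fintype α] [DecidableEq α] [Fintype β] [DecidableEq β]
    (ψ : α × β → ℂ) (hψ : ∑ i, ‖ψ i‖ ^ 2 = 1)
    (A : Fin G.nX → Fin G.nA → Matrix α α ℂ)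
    (B : Fin G.nY → Fin G.nB → Matrix β β ℂ)
    (hAp : ∀ x a, (A x a).PosSemidef) (hBp : ∀ y b, (B y b).PosSemidef)
    (hAs : ∀ x, (1 - ∑ a, A x a).PosSemidef) (hBs : ∀ y, (1 - ∑ b, B y b).PosSemidef) :
    ∑ x, ∑ y, G.prob x y * (gval G ψ A B x y / eval' G ψ A B x y) ≤ v := by
  classical
  have hg0 : ∀ x y, 0 ≤ gval G ψ A B x y := by
    intro x y
    unfold gval
    refine Finset.sum_nonneg fun a _ => Finset.sum_nonneg fun b _ => ?_
    split_ifs
    · exact bra_nonneg ψ (hAp x a) (hBp y b)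
    · exact le_refl _
  have hf : ∀ x y, 1 - eval' G ψ A B x y = bra ψ (1 - ∑ a, A x a) (1 - ∑ b, B y b) := by
    intro x y
    rw [eval', bra_sub_left, bra_sub_right, bra_sub_right, bra_one_one, hψ]
    ring
  have hf0 : ∀ x y, 0 ≤ 1 - eval' G ψ A B x y := by
    intro x y; rw [hf]; exact bra_nonneg ψ (hAs x) (hBs y)
  have hAsum : ∀ x, (∑ a, A x a).PosSemidef := fun x => Matrix.posSemidef_sum _ fun a _ => hAp x a
  have hBsum : ∀ y, (∑ b, B y b).PosSemidef := fun y => Matrix.posSemidef_sum _ fun b _ => hBp y b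
  have he0 : ∀ x y, 0 ≤ eval' G ψ A B x y := by
    intro x y
    have h1 : eval' G ψ A B x y = bra ψ (∑ a, A x a) (1 - ∑ b, B y b) + bra ψ 1 (∑ b, B y b) := by
      rw [eval', bra_sub_right]; ring
    rw [h1]
    exact add_nonneg (bra_nonneg ψ (hAsum x) (hBs y)) (bra_nonneg ψ Matrix.PosSemidef.one (hBsum y))
  have hbound : ∀ N : ℕ, ∑ x, ∑ y, G.prob x y * ((gval G ψ A B x y / eval' G ψ A B x y) *
      (1 - (1 - eval' G ψ A B x y) ^ N)) ≤ v := by
    intro N
    obtain ⟨α', β', _, _, _, _, ψ', A', B', hψ', hA'p, hB'p, hA's, hB's, hw⟩ :=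
      retry_aux ψ hψ A B hAp hBp hAs hBs N
    have h1 := oneshot hv hA hB ψ' A' B' hA'p hB'p hA's hB's
    rw [hψ', mul_one] at h1
    refine le_trans ?_ h1
    unfold val1
    apply Finset.sum_le_sum
    intro x _
    apply Finset.sum_le_sum
    intro y _
    apply mul_le_mul_of_nonneg_left _ (G.prob_nonneg x y)
    refine le_trans ?_ (hw x y)
    rcases eq_or_lt_of_le (he0 x y) with he | he
    · rw [← he]
      simp only [div_zero, zero_mul]
      exact mul_nonneg (hg0 x y) (Finset.sum_nonneg fun n _ => pow_nonneg (by norm_num) _)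
    · have hne : (1 - eval' G ψ A B x y) ≠ 1 := by linarith
      rw [geom_sum_eq hne]
      have : ((1 - eval' G ψ A B x y) ^ N - 1) / (1 - eval' G ψ A B x y - 1) =
          (1 - (1 - eval' G ψ A B x y) ^ N) / eval' G ψ A B x y := by
        rw [div_eq_div_iff (by linarith) he.ne']
        ring
      rw [this]
      apply le_of_eq
      ring
  have hlim : Filter.Tendsto (fun N : ℕ => ∑ x, ∑ y, G.prob x y * ((gval G ψ A B x y / eval' G ψ A B x y) *
      (1 - (1 - eval' G ψ A B x y) ^ N))) Filter.atTop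
      (nhds (∑ x, ∑ y, G.prob x y * (gval G ψ A B x y / eval' G ψ A B x y))) := by
    refine tendsto_finset_sum _ fun x _ => tendsto_finset_sum _ fun y _ => ?_
    apply Filter.Tendsto.const_mul
    rcases eq_or_lt_of_le (he0 x y) with he | he
    · rw [← he]
      simp
    · have h1 : Filter.Tendsto (fun N : ℕ => (1 - eval' G ψ A B x y) ^ N) Filter.atTop (nhds 0) :=
        tendsto_pow_atTop_nhds_zero_of_lt_one (hf0 x y) (by linarith)
      have h2 := (h1.const_sub 1).const_mul (gval G ψ A B x y / eval' G ψ A B x y)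
      simpa using h2
  exact le_of_tendsto' hlim hbound

/-- **Retry lemma**: any vector. -/
theorem retry (hv : ∀ (dA dB : ℕ) (S : Strategy G 1 dA dB), S.probWinsAtLeast 1 ≤ v)
    (hA : 0 < G.nA) (hB : 0 < G.nB)
    {α β : Type} [Fintype α] [DecidableEq α] [Fintype β] [DecidableEq β]
    (ψ : α × β → ℂ)
    (A : Fin G.nX → Fin G.nA → Matrix α α ℂ)
    (B : Fin G.nY → Fin G.nB → Matrix β β ℂ)
    (hAp : ∀ x a, (A x a).PosSemidef) (hBp : ∀ y b, (B y b).PosSemidef)
    (hAs : ∀ x, (1 - ∑ a, A x a).PosSemidef) (hBs : ∀ y, (1 - ∑ b, B y b).PosSemidef) :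
    ∑ x, ∑ y, G.prob x y * (gval G ψ A B x y / eval' G ψ A B x y) ≤ v := by
  classical
  set n2 := ∑ i, ‖ψ i‖ ^ 2 with hn2
  have hn20 : 0 ≤ n2 := Finset.sum_nonneg fun i _ => by positivity
  rcases eq_or_lt_of_le hn20 with h0 | h0
  · -- ψ = 0
    have hz : ψ = 0 := by
      ext i
      have h1 := (Finset.sum_eq_zero_iff_of_nonneg (fun i _ => by positivity)).1 (hn2 ▸ h0.symm) i (Finset.mem_univ i)
      simpa using h1
    have hg : ∀ x y, gval G ψ A B x y = 0 := by
      intro x y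
      unfold gval
      refine Finset.sum_eq_zero fun a _ => Finset.sum_eq_zero fun b _ => ?_
      rw [hz]
      simp [bra]
    simp only [hg, zero_div, mul_zero, Finset.sum_const_zero]
    exact v_nonneg hv hA hB
  · set c : ℂ := (((Real.sqrt n2)⁻¹ : ℝ) : ℂ) with hc
    have hc2 : ‖c‖ ^ 2 = n2⁻¹ := by
      rw [hc, Complex.norm_real, Real.norm_eq_abs, sq_abs, inv_pow, Real.sq_sqrt hn20]
    have hu : ∑ i, ‖(c • ψ) i‖ ^ 2 = 1 := by
      have : ∀ i, ‖(c • ψ) i‖ ^ 2 = ‖c‖ ^ 2 * ‖ψ i‖ ^ 2 := by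
        intro i
        rw [Pi.smul_apply, smul_eq_mul, norm_mul, mul_pow]
      simp only [this]
      rw [← Finset.mul_sum, ← hn2, hc2]
      exact inv_mul_cancel₀ h0.ne'
    have h1 := retry_unit hv hA hB (c • ψ) hu A B hAp hBp hAs hBs
    refine le_trans (le_of_eq ?_) h1
    refine Finset.sum_congr rfl fun x _ => Finset.sum_congr rfl fun y _ => ?_
    congr 1
    have hg : gval G (c • ψ) A B x y = n2⁻¹ * gval G ψ A B x y := by
      unfold gval
      rw [Finset.mul_sum]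
      refine Finset.sum_congr rfl fun a _ => ?_
      rw [Finset.mul_sum]
      refine Finset.sum_congr rfl fun b _ => ?_
      split_ifs
      · rw [bra_smul, hc2]
      · simp
    have he : eval' G (c • ψ) A B x y = n2⁻¹ * eval' G ψ A B x y := by
      unfold eval'
      rw [bra_smul, bra_smul, bra_smul, hc2]
      ring
    rw [hg, he, mul_div_mul_left _ _ (inv_ne_zero h0.ne')]

end Crest.H1PR
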