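import Crest.Agent.H1Ftpg

set_option autoImplicit false
set_option linter.unusedSectionVars false
set_option linter.unusedVariables false

open Polynomial IntermediateField Crest.NumberTheoryR.MilnorK

namespace Crest.Agent.H1PInsep

universe u v u' v'

section

variable {p : ℕ} [hp : Fact p.Prime] {K : Type u} [Field K] [CharP K p]

theorem cls_mul (u v : Kˣ) : cls K p (u * v) = cls K p u + cls K p v := rfl

theorem cls_one : cls K p 1 = 0 := rfl

theorem cls_eq_zero_iff (u : Kˣ) : cls K p u = 0 ↔ ∃ w : Kˣ, w ^ p = u := by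
  unfold cls
  rw [QuotientAddGroup.eq_zero_iff]
  constructor
  · rintro ⟨w, hw⟩
    exact ⟨w.toMul, by simpa using congrArg Additive.toMul hw⟩
  · rintro ⟨w, hw⟩
    exact ⟨Additive.ofMul w, by simpa using congrArg Additive.ofMul hw⟩

theorem cls_surj (ξ : KOne K p) : ∃ u : Kˣ, cls K p u = ξ := by
  induction ξ using QuotientAddGroup.induction_on with
  | H z => exact ⟨z.toMul, rfl⟩

variable (p K) in
open Classical in
/-- total class function -/
noncomputable def kcl (x : K) : KOne K p :=
  if h : x = 0 then 0 else cls K p (Units.mk0 x h)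

theorem kcl_of_ne {x : K} (h : x ≠ 0) : kcl p K x = cls K p (Units.mk0 x h) := by
  unfold kcl; rw [dif_neg h]

theorem kcl_unit (u : Kˣ) : kcl p K (u : K) = cls K p u := by
  rw [kcl_of_ne u.ne_zero]; congr 1; ext; rfl

variable (p K) in
noncomputable def kdata : ClData p K (KOne K p) where
  cl := kcl p K
  mul := by
    intro x y hx hy
    rw [kcl_of_ne hx, kcl_of_ne hy, kcl_of_ne (mul_ne_zero hx hy), ← cls_mul]
    congr 1
    ext; rfl
  ker := by
    intro x hx
    rw [kcl_of_ne hx, cls_eq_zero_iff, mem_bot_iff]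
    constructor
    · rintro ⟨w, hw⟩
      exact ⟨w, by simpa using congrArg Units.val hw⟩
    · rintro ⟨b, hb⟩
      have hb0 : b ≠ 0 := by
        rintro rfl
        rw [zero_pow hp.out.ne_zero] at hb
        exact hx hb.symm
      exact ⟨Units.mk0 b hb0, by ext; simpa using hb⟩
  surj := by
    intro ξ
    obtain ⟨u, hu⟩ := cls_surj ξ
    exact ⟨u, u.ne_zero, by rw [kcl_unit, hu]⟩

theorem kdata_cl (x : K) : (kdata p K).cl x = kcl p K x := rfl

/-- logarithmic derivative as an additive map on `KOne` -/
noncomputable def dlog (D : Derivation (Fr K p) K K) : KOne K p →+ K :=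
  QuotientAddGroup.lift (pMultiples K p)
    { toFun := fun u => D (u.toMul : K) / (u.toMul : K)
      map_zero' := by simp
      map_add' := by
        intro a b
        have ha : ((a.toMul : Kˣ) : K) ≠ 0 := Units.ne_zero _
        have hb : ((b.toMul : Kˣ) : K) ≠ 0 := Units.ne_zero _
        simp only [toMul_add, Units.val_mul]
        rw [Derivation.leibniz]
        simp only [smul_eq_mul]
        field_simp
        ring } (by
    rintro _ ⟨w, rfl⟩
    rw [AddMonoidHom.mem_ker]
    have hb : ((w.toMul : Kˣ) : K) ≠ 0 := Units.ne_zero _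
    simp only [nsmulAddMonoidHom_apply, AddMonoidHom.coe_mk, ZeroHom.coe_mk, toMul_nsmul,
      Units.val_pow_eq_pow_val]
    rw [Derivation.leibniz_pow]
    simp)

theorem dlog_cls (D : Derivation (Fr K p) K K) (u : Kˣ) : dlog D (cls K p u) = D u / u := rfl

theorem dlog_kcl (D : Derivation (Fr K p) K K) {x : K} (hx : x ≠ 0) :
    dlog D (kcl p K x) = D x / x := by
  rw [kcl_of_ne hx, dlog_cls]; rfl

/-- the pairing -/
noncomputable def pairGen {V : Type v} [AddCommGroup V] [Module (ZMod p) V] (f g : V →+ K) :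
    TensorProduct (ZMod p) V V →+ K :=
  TensorProduct.liftAddHom
    (AddMonoidHom.mk' (fun m => AddMonoidHom.mk' (fun n => f m * g n - g m * f n)
        (by intro a b; simp only [map_add]; ring))
      (by
        intro a b
        ext n
        simp only [map_add, AddMonoidHom.mk'_apply, AddMonoidHom.add_apply]
        ring)) (by
    intro r m n
    have h1 : ∀ (m : V), r • m = r.val • m := by
      intro m
      conv_lhs => rw [← ZMod.natCast_zmod_val r]
      exact Nat.cast_smul_eq_nsmul (ZMod p) r.val m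
    rw [h1, h1]
    change f (r.val • m) * g n - g (r.val • m) * f n = f m * g (r.val • n) - g m * f (r.val • n)
    simp only [map_nsmul, nsmul_eq_mul]
    ring)

theorem pairGen_tmul {V : Type v} [AddCommGroup V] [Module (ZMod p) V] (f g : V →+ K) (m n : V) :
    pairGen f g (TensorProduct.tmul (ZMod p) m n) = f m * g n - g m * f n :=
  rfl

theorem map_zsmul' {V : Type v} [AddCommGroup V] [Module (ZMod p) V] (f : V →+ K) (a : ZMod p)
    (x : V) (hx : f x = 0) : f (a • x) = 0 := by
  have h1 : a • x = a.val • x := by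
    conv_lhs => rw [← ZMod.natCast_zmod_val a]
    exact Nat.cast_smul_eq_nsmul (ZMod p) a.val x
  rw [h1, map_nsmul, hx, smul_zero]

/-- the pairing -/
noncomputable def pairing (D D' : Derivation (Fr K p) K K) :
    TensorProduct (ZMod p) (KOne K p) (KOne K p) →+ K := pairGen (dlog D) (dlog D')

theorem pairing_tmul (D D' : Derivation (Fr K p) K K) (m n : KOne K p) :
    pairing D D' (TensorProduct.tmul (ZMod p) m n) = dlog D m * dlog D' n - dlog D' m * dlog D n :=
  rfl

theorem pairing_steinberg (D D' : Derivation (Fr K p) K K)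
    (t : TensorProduct (ZMod p) (KOne K p) (KOne K p)) (ht : t ∈ steinberg K p) :
    pairing D D' t = 0 := by
  unfold steinberg at ht
  induction ht using Submodule.span_induction with
  | mem x hx =>
    obtain ⟨f, hf, hf1, rfl⟩ := hx
    rw [pairing_tmul]
    simp only [dlog_cls, Units.val_mk0, map_sub, Derivation.map_one_eq_zero]
    field_simp
    ring
  | zero => simp
  | add x y _ _ hx hy => rw [map_add, hx, hy, add_zero]
  | smul a x _ hx => exact map_zsmul' _ a x hx

end

section

variable {p : ℕ} [hp : Fact p.Prime] {K : Type u} {L : Type u'} [Field K] [CharP K p] [Field L] [CharP L p]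

theorem pres_of_compatible (Θ : KOne K p ≃ₗ[ZMod p] KOne L p)
    (hΘ : (steinberg K p).map (TensorProduct.map Θ.toLinearMap Θ.toLinearMap) ≤ steinberg L p) :
    Pres (kdata p K) (kdata p L) Θ := by
  intro x hx hx1 x' w' hx' hw' e1 e2
  by_cases hxb : x' ∈ (⊥ : IntermediateField (Fr L p) L)
  · have h1 : x ∈ (⊥ : IntermediateField (Fr K p) K) := by
      rw [mem_bot_map (kdata p K) (kdata p L) Θ hx hx' e1]; exact hxb
    have h2 : w' ∈ (⊥ : IntermediateField (Fr L p) L) := by
      rw [← mem_bot_map (kdata p K) (kdata p L) Θ hx1 hw' e2]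
      exact add_mem (one_mem _) h1
    exact bot_le (a := (Fr L p)⟮x'⟯) h2
  by_contra hcon
  obtain ⟨D, hD1, hD2⟩ := exists_derivation expOne (Fr L p)⟮x'⟯ hcon
  obtain ⟨D', hD'1, hD'2⟩ := exists_derivation expOne ⊥ hxb
  have hDx : D x' = 0 := hD1 x' (mem_adjoin_simple_self _ _)
  have hmx : -x ≠ 0 := neg_ne_zero.2 hx
  have hmx1 : 1 - -x ≠ 0 := by rw [sub_neg_eq_add]; exact hx1
  have hst : TensorProduct.tmul (ZMod p) (cls K p (Units.mk0 (-x) hmx))
      (cls K p (Units.mk0 (1 - -x) hmx1)) ∈ steinberg K p :=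
    Submodule.subset_span ⟨-x, hmx, hmx1, rfl⟩
  have h3 := hΘ (Submodule.mem_map_of_mem hst)
  rw [TensorProduct.map_tmul] at h3
  have h4 := pairing_steinberg D' D _ h3
  rw [pairing_tmul] at h4
  have e3 : cls K p (Units.mk0 (-x) hmx) = (kdata p K).cl x := by
    rw [← (kdata p K).neg hx, kdata_cl, kcl_of_ne hmx]
  have e4 : cls K p (Units.mk0 (1 - -x) hmx1) = (kdata p K).cl (1 + x) := by
    rw [kdata_cl, kcl_of_ne hx1]
    congr 1
    ext
    simp
  have e5 : Θ.toLinearMap (cls K p (Units.mk0 (-x) hmx)) = kcl p L x' := by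
    rw [e3]; exact e1
  have e6 : Θ.toLinearMap (cls K p (Units.mk0 (1 - -x) hmx1)) = kcl p L w' := by
    rw [e4]; exact e2
  rw [e5, e6, dlog_kcl D' hx', dlog_kcl D hw', dlog_kcl D hx', dlog_kcl D' hw', hDx, hD'2, hD2,
    div_self hx', div_self hw'] at h4
  simp at h4

theorem compatible_symm (Θ : KOne K p ≃ₗ[ZMod p] KOne L p) (hΘ : IsCompatible Θ) :
    (steinberg L p).map (TensorProduct.map Θ.symm.toLinearMap Θ.symm.toLinearMap) ≤
      steinberg K p := by
  unfold IsCompatible at hΘ
  rw [← hΘ, ← Submodule.map_comp, ← TensorProduct.map_comp]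
  have : Θ.symm.toLinearMap ∘ₗ Θ.toLinearMap = LinearMap.id := by
    ext x
    simp
  rw [this, TensorProduct.map_id, Submodule.map_id]

end

end Crest.Agent.H1PInsep
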