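import Mathlib

/-!
rid 155 (S0222, Thorp shuffle): shared definitions.

Positions are bit vectors `X D = Fin D → Bool`, `n = 2 ^ D`.  A column of switches at coordinate
`s` swaps or not the two positions of every pair `{z, fl s z}`; the bit used is `c (rp s z)`.
A state of `k` cards is an embedding `Fin k ↪ X D`; the full deck is `k = 2 ^ D`.
-/

namespace Crest.Agent.Thp
open Finset

/-- positions: bit vectors -/
abbrev X (D : ℕ) := Fin D → Bool

/-- a column of switch settings (in column `s` only the values at `z` with `z s = false` matter) -/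
abbrev Col (D : ℕ) := X D → Bool

/-- flip coordinate `s` -/
def fl {D : ℕ} (s : Fin D) (z : X D) : X D := Function.update z s (!(z s))

/-- representative of the pair `{z, fl s z}` -/
def rp {D : ℕ} (s : Fin D) (z : X D) : X D := Function.update z s false

/-- one column of switches at coordinate `s`, as a function -/
def swf {D : ℕ} (s : Fin D) (c : Col D) (z : X D) : X D :=
  Function.update z s (xor (z s) (c (rp s z)))

@[simp] lemma rp_swf {D : ℕ} (s : Fin D) (c : Col D) (z : X D) : rp s (swf s c z) = rp s z := by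
  simp [rp, swf]

@[simp] lemma rp_fl {D : ℕ} (s : Fin D) (z : X D) : rp s (fl s z) = rp s z := by
  simp [rp, fl]

lemma swf_invol {D : ℕ} (s : Fin D) (c : Col D) : Function.Involutive (swf s c) := by
  intro z
  have h : rp s (swf s c z) = rp s z := rp_swf s c z
  funext i
  by_cases hi : i = s
  · subst hi
    have : swf i c (swf i c z) i = xor (swf i c z i) (c (rp i (swf i c z))) := by
      simp [swf]
    rw [this, h]
    simp [swf]
  · simp [swf, Function.update_of_ne hi]

/-- one column of switches at coordinate `s`, as a permutation of the positions (an involution) -/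
def sw {D : ℕ} (s : Fin D) (c : Col D) : Equiv.Perm (X D) := (swf_invol s c).toPerm

@[simp] lemma sw_apply {D : ℕ} (s : Fin D) (c : Col D) (z : X D) : sw s c z = swf s c z := rfl

/-- column number `s` of a family of columns (the identity if `D ≤ s`) -/
def swN {D : ℕ} (C : Fin D → Col D) (s : ℕ) : Equiv.Perm (X D) :=
  if h : s < D then sw ⟨s, h⟩ (C ⟨s, h⟩) else 1

/-- `mid C s = sw 0 ∘ sw 1 ∘ ⋯ ∘ sw (s-1)`: coordinate `s-1` is applied first -/
def mid {D : ℕ} (C : Fin D → Col D) : ℕ → Equiv.Perm (X D)
  | 0 => 1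
  | s + 1 => mid C s * swN C s

/-- `out C s = sw (s-1) ∘ ⋯ ∘ sw 0`: coordinate `0` is applied first -/
def out {D : ℕ} (C : Fin D → Col D) : ℕ → Equiv.Perm (X D)
  | 0 => 1
  | s + 1 => swN C s * out C s

/-- `inn C s = sw (s+1) ∘ ⋯ ∘ sw (D-1)`: where a card sits when it enters input column `s` -/
def inn {D : ℕ} (C : Fin D → Col D) (s : ℕ) : Equiv.Perm (X D) := (mid C (s + 1))⁻¹ * mid C D

/-- the composition of the columns `O s`, `s ∈ W`; the head of the list is applied first -/
def pw {D : ℕ} (O : Fin D → Col D) : List (Fin D) → Equiv.Perm (X D)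
  | [] => 1
  | s :: W => pw O W * sw s (O s)

/-- average over a finite type -/
noncomputable def av {α : Type*} [Fintype α] (f : α → ℝ) : ℝ := (∑ a, f a) / (Fintype.card α : ℝ)

/-- states of `k` cards -/
abbrev Om (k D : ℕ) := Fin k ↪ X D

/-- a permutation of the positions acts on states -/
def act {k D : ℕ} (g : Equiv.Perm (X D)) (x : Om k D) : Om k D := x.trans g.toEmbedding

@[simp] lemma act_apply {k D : ℕ} (g : Equiv.Perm (X D)) (x : Om k D) (i : Fin k) :
    act g x i = g (x i) := rfl

/-- the permutation matrix of `g` on states of `k` cards -/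
noncomputable def Rm (k : ℕ) {D : ℕ} (g : Equiv.Perm (X D)) : Matrix (Om k D) (Om k D) ℝ :=
  fun x y => if act g x = y then (1 : ℝ) else 0

/-- transition matrix of one random column of switches at coordinate `s`, on states of `k` cards -/
noncomputable def Pm (D k : ℕ) (s : Fin D) : Matrix (Om k D) (Om k D) ℝ :=
  fun x y => av (fun c : Col D => if act (sw s c) x = y then (1 : ℝ) else 0)

/-- coordinates `s-1, …, 0` in this order of application -/
noncomputable def TmN (D k : ℕ) : ℕ → Matrix (Om k D) (Om k D) ℝ
  | 0 => 1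
  | s + 1 => (if h : s < D then Pm D k ⟨s, h⟩ else 1) * TmN D k s

/-- one full sweep: coordinates `D-1, D-2, …, 0` -/
noncomputable def Tm (D k : ℕ) : Matrix (Om k D) (Om k D) ℝ := TmN D k D

/-- the random Beneš network: sweep `D-1, …, 0, 0, …, D-1` -/
noncomputable def Bm (D k : ℕ) : Matrix (Om k D) (Om k D) ℝ := Tm D k * (Tm D k).transpose

/-- `L = (1/n) * ∑_{unordered pairs} (1 - transposition)` on states of `k` cards -/
noncomputable def Lm (D k : ℕ) : Matrix (Om k D) (Om k D) ℝ :=
  (1 / (2 * (2 : ℝ) ^ D)) • ∑ z : X D, ∑ z' : X D,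
    ((1 : Matrix (Om k D) (Om k D) ℝ) - Rm k (Equiv.swap z z'))

/-- `f` is harmonic: its sum over the position of any one card (the others fixed) is zero -/
def Harm {k D : ℕ} (f : Om k D → ℝ) : Prop :=
  ∀ (i : Fin k) (x : Om k D), ∑ y ∈ univ.filter (fun y : Om k D => ∀ j, j ≠ i → y j = x j), f y = 0

/-- number of closed sets of cards for the two pairings `u` (input side) and `v` (output side) at
coordinate `s`: `Z` is closed iff with a card it contains its `u`-partner and its `v`-partner.
(It equals `2 ^ (number of closed loops)`.) -/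
noncomputable def cl {k D : ℕ} (s : Fin D) (u v : Fin k → X D) : ℕ := by
  classical
  exact (univ.filter (fun Z : Finset (Fin k) => ∀ i ∈ Z, (∃ j ∈ Z, u j = fl s (u i)) ∧
    (∃ j ∈ Z, v j = fl s (v i)))).card

/-- number of pairs `{z, fl s z}` with both positions occupied -/
noncomputable def prs {k D : ℕ} (s : Fin D) (u : Fin k → X D) : ℕ := by
  classical
  exact (univ.filter (fun i : Fin k => u i s = false ∧ ∃ j, u j = fl s (u i))).card

/-- number of steps of the path of `b` through the columns `W` at which the other position of the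
switch is the position of another element of `Q` -/
noncomputable def sh {D : ℕ} (O : Fin D → Col D) : List (Fin D) → Finset (X D) → X D → ℕ
  | [], _, _ => 0
  | s :: W, Q, b => (if fl s b ∈ Q then 1 else 0) +
      sh O W (Q.image (sw s (O s))) (sw s (O s) b)

/-- number of subsets `Z ⊆ A` invariant under `φ` (it is `2 ^ (number of cycles of φ inside A)`) -/
noncomputable def inv {D : ℕ} (φ : Equiv.Perm (X D)) (A : Finset (X D)) : ℕ :=
  (A.powerset.filter (fun Z => Z.image φ = Z)).card

/-- the cycle (orbit) of `a` under `φ` -/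
noncomputable def orb {D : ℕ} (φ : Equiv.Perm (X D)) (a : X D) : Finset (X D) := by
  classical
  exact univ.filter (fun b => φ.SameCycle a b)

/-! the equation lemmas of the recursive definitions are generated here (once) -/

theorem mid_one {D : ℕ} (C : Fin D → Col D) : mid C 1 = mid C 0 * swN C 0 := by
  unfold mid
  rfl

theorem mid_eqns {D : ℕ} (C : Fin D → Col D) (s : ℕ) : mid C 0 = 1 ∧ mid C (s + 1) = mid C s * swN C s :=
  ⟨by rw [mid], by rw [mid]⟩

theorem out_one {D : ℕ} (C : Fin D → Col D) : out C 1 = swN C 0 * out C 0 := by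
  unfold out
  rfl

theorem out_eqns {D : ℕ} (C : Fin D → Col D) (s : ℕ) : out C 0 = 1 ∧ out C (s + 1) = swN C s * out C s :=
  ⟨by rw [out], by rw [out]⟩

theorem pw_single {D : ℕ} (O : Fin D → Col D) (s : Fin D) : pw O [s] = pw O [] * sw s (O s) := by
  unfold pw
  rfl

theorem pw_eqns {D : ℕ} (O : Fin D → Col D) (s : Fin D) (W : List (Fin D)) :
    pw O [] = 1 ∧ pw O (s :: W) = pw O W * sw s (O s) := ⟨by rw [pw], by rw [pw]⟩

theorem TmN_one (D k : ℕ) :
    TmN D k 1 = (if h : 0 < D then Pm D k ⟨0, h⟩ else 1) * TmN D k 0 := by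
  unfold TmN
  rfl

theorem TmN_eqns (D k : ℕ) (s : ℕ) : TmN D k 0 = 1 ∧
    TmN D k (s + 1) = (if h : s < D then Pm D k ⟨s, h⟩ else 1) * TmN D k s :=
  ⟨by rw [TmN], by rw [TmN]⟩

theorem sh_single {D : ℕ} (O : Fin D → Col D) (s : Fin D) (Q : Finset (X D)) (b : X D) :
    sh O [s] Q b = (if fl s b ∈ Q then 1 else 0) +
      sh O [] (Q.image (sw s (O s))) (sw s (O s) b) := by
  unfold sh
  rfl

theorem sh_eqns {D : ℕ} (O : Fin D → Col D) (s : Fin D) (W : List (Fin D)) (Q : Finset (X D))
    (b : X D) : sh O [] Q b = 0 ∧ sh O (s :: W) Q b = (if fl s b ∈ Q then 1 else 0) +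
      sh O W (Q.image (sw s (O s))) (sw s (O s) b) := ⟨by rw [sh], by rw [sh]⟩

end Crest.Agent.Thp
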