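import Mathlib
import Crest.Prelude.Def_Shuffle
import Crest.Agent.ThpDefs

/-!
rid 155 (S0222 + S0223, Thorp shuffle): the modules, each stated as a `Prop`.
Proof hints: database table `thp`.
-/

namespace Crest.Agent.Thp.Spec
open Finset Crest.Agent.Thp

/-! ### counting lower bound, translation of the Thorp shuffle -/

/-- S0223 -/
def CountLB : Prop := ∀ d t : ℕ,
  1 - (2 : ℝ) ^ (2 ^ d * t) / ((2 * 2 ^ d).factorial : ℝ)
      ≤ Crest.ProbabilityR.Shuffle.tvFromUniform (2 ^ d) t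

/-- `d+1` Thorp shuffles are one sweep `D-1, …, 0` with `D = d+1`. -/
def Thorp : Prop := ∀ (d r : ℕ) (x0 : Om (2 ^ (d + 1)) (d + 1)),
  Crest.ProbabilityR.Shuffle.tvFromUniform (2 ^ d) (r * (d + 1)) =
    (1 / 2) * ∑ y : Om (2 ^ (d + 1)) (d + 1),
      |((Tm (d + 1) (2 ^ (d + 1))) ^ r) x0 y - 1 / ((2 ^ (d + 1)).factorial : ℝ)|

/-! ### linear algebra -/

/-- Schatten-norm inequality for a 16-fold product. -/
def Schatten : Prop := ∀ (ι : Type) [Fintype ι] [DecidableEq ι] (M : Matrix ι ι ℝ),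
  (M ^ 16 * (M ^ 16).transpose).trace ≤ ((M * M.transpose) ^ 16).trace

/-- Trace comparison along an injective intertwiner. -/
def TrInj : Prop := ∀ (V W : Type) [NormedAddCommGroup V] [InnerProductSpace ℝ V]
  [FiniteDimensional ℝ V] [NormedAddCommGroup W] [InnerProductSpace ℝ W] [FiniteDimensional ℝ W]
  (A : V →ₗ[ℝ] V) (B : W →ₗ[ℝ] W) (R : V →ₗ[ℝ] W),
  A.IsSymmetric → (∀ v, 0 ≤ inner ℝ (A v) v) → B.IsSymmetric → (∀ w, 0 ≤ inner ℝ (B w) w) →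
  Function.Injective R → (∀ v, R (A v) = B (R v)) →
  LinearMap.trace ℝ V A ≤ LinearMap.trace ℝ W B

/-- Trace of the 16-th power of a symmetric bistochastic kernel (two AM-GM's). -/
def Trace : Prop := ∀ (Ω : Type) [Fintype Ω] [DecidableEq Ω] [Nonempty Ω] (P : Matrix Ω Ω ℝ),
  (∀ x y, 0 ≤ P x y) → (∀ x y, P x y = P y x) → (∀ x, ∑ y, P x y = 1) →
  (P ^ 16).trace ≤ (1 / (Fintype.card Ω : ℝ)) *
    ∑ x, (∑ y, P x y * ((Fintype.card Ω : ℝ) * P x y) ^ ((1 : ℝ) / 15)) ^ 15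

/-! ### degree decomposition -/

/-- chi-square bound by degrees -/
def Decomp : Prop := ∀ (D : ℕ), 1 ≤ D → ∀ (x0 : Om (2 ^ D) D) (r : ℕ), 16 ≤ r → ∀ θ : ℕ → ℝ,
  (∀ k, 0 ≤ θ k) →
  (∀ k, 1 ≤ k → k ≤ 2 ^ D → ∀ (β : ℝ) (f : Om k D → ℝ), f ≠ 0 → Harm f →
    (Bm D k).mulVec f = β • f → β ≤ θ k) →
  (∑ y : Om (2 ^ D) D, |((Tm D (2 ^ D)) ^ r) x0 y - 1 / ((2 ^ D).factorial : ℝ)|) ^ 2 ≤
    ∑ k ∈ Icc 1 (2 ^ D), ((2 ^ D).choose k : ℝ) * (θ k) ^ (r - 16) * ((Bm D k) ^ 16).trace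

/-- a harmonic eigenfunction of `k` cards gives `choose k' k` independent ones of `k'` cards -/
def Gamma : Prop := ∀ (D k k' : ℕ), 1 ≤ k → k ≤ k' → k + k' ≤ 2 ^ D →
  ∀ (β : ℝ) (f : Om k D → ℝ), f ≠ 0 → Harm f → (Bm D k).mulVec f = β • f →
  (k'.choose k : ℝ) * β ^ 16 ≤ ((Bm D k') ^ 16).trace

/-! ### trace bound -/

/-- the Beneš law as an average over input columns `C.1` and output columns `C.2` -/
def Kern : Prop := ∀ (D k : ℕ) (x y : Om k D),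
  Bm D k x y = av (fun C : (Fin D → Col D) × (Fin D → Col D) =>
    if act (out C.2 D * mid C.1 D) x = y then (1 : ℝ) else 0)

/-- unrolled looping inequality -/
def Loop : Prop := ∀ (D k : ℕ) (η : ℝ), 0 ≤ η → ∀ (x y : Om k D),
  Bm D k x y * (((2 : ℝ) ^ D) ^ k * Bm D k x y) ^ η ≤
    av (fun C : (Fin D → Col D) × (Fin D → Col D) =>
      if act (out C.2 D * mid C.1 D) x = y then
        ∏ s : Fin D, (cl s (fun i => inn C.1 s (x i))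
          (fun i => out C.2 s (mid C.1 D (x i))) : ℝ) ^ η
      else 0)

/-- trace and looping combined -/
def TrLoop : Prop := ∀ (D k : ℕ), k ≤ 2 ^ D →
  ((Bm D k) ^ 16).trace ≤ (1 / (Fintype.card (Om k D) : ℝ)) *
    ∑ x : Om k D, (av (fun C : (Fin D → Col D) × (Fin D → Col D) =>
      ∏ s : Fin D, (cl s (fun i => inn C.1 s (x i))
        (fun i => out C.2 s (mid C.1 D (x i))) : ℝ) ^ ((1 : ℝ) / 15))) ^ 15

/-- the path of `a` given the paths of `B`: every fresh switch costs a factor 2 -/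
def Path : Prop := ∀ (D : ℕ) (W : List (Fin D)), W.Nodup → ∀ (B : Finset (X D)) (a : X D)
  (τ : X D → X D), a ∉ B →
  ∑ O ∈ univ.filter (fun O : Fin D → Col D => (∀ b ∈ B, pw O W b = τ b) ∧ pw O W a = τ a),
      (2 : ℝ) ^ (W.length - sh O W B a)
    ≤ ((univ.filter (fun O : Fin D → Col D => ∀ b ∈ B, pw O W b = τ b)).card : ℝ)

/-- edge-isoperimetric inequality for paths through distinct columns -/
def Iso : Prop := ∀ (D : ℕ) (W : List (Fin D)), W.Nodup → ∀ (O : Fin D → Col D)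
  (Q : Finset (X D)), (∑ b ∈ Q, (sh O W Q b : ℝ)) ≤ Q.card * Real.logb 2 Q.card

/-- exploration of the cycles of `π⁻¹ g` through `a 0, a 1, …` in this order -/
def One : Prop := ∀ (D : ℕ) (W : List (Fin D)), W.Nodup → ∀ (g : Equiv.Perm (X D)) (m : ℕ)
  (a : Fin m → X D) (l : Fin m → ℕ),
  ∑ O ∈ univ.filter (fun O : Fin D → Col D =>
        (∀ i, (orb ((pw O W)⁻¹ * g) (a i)).card = l i) ∧
        (∀ i j, i ≠ j → a j ∉ orb ((pw O W)⁻¹ * g) (a i))),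
      (2 : ℝ) ^ (∑ i : Fin m, (W.length -
        sh O W (univ.filter (fun b => (∃ j, j < i ∧ b ∈ orb ((pw O W)⁻¹ * g) (a j)) ∨
          (b ∈ orb ((pw O W)⁻¹ * g) (a i) ∧ b ≠ a i))) (a i)))
    ≤ (Fintype.card (Fin D → Col D) : ℝ)

/-- exploration in two orders -/
def Two : Prop := ∀ (D : ℕ) (W : List (Fin D)), W.Nodup → ∀ (g : Equiv.Perm (X D)) (m : ℕ)
  (a : Fin m → X D) (l : Fin m → ℕ), (∀ i, 1 ≤ l i) →
  ((univ.filter (fun O : Fin D → Col D =>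
        (∀ i, (orb ((pw O W)⁻¹ * g) (a i)).card = l i) ∧
        (∀ i j, i ≠ j → a j ∉ orb ((pw O W)⁻¹ * g) (a i)) ∧
        (∀ i, (sh O W (orb ((pw O W)⁻¹ * g) (a i)) (a i) : ℝ) ≤ Real.logb 2 (l i)))).card : ℝ)
    ≤ 2 * (∏ i, Real.sqrt (l i / 2 ^ W.length)) * (Fintype.card (Fin D → Col D) : ℝ)

/-- exponential moment of the number of cycles of `π⁻¹ g` inside `A`, `π` a random composition of
columns, `g` fixed -/
def Core : Prop := ∀ (D : ℕ) (W : List (Fin D)), W.Nodup → ∀ (g : Equiv.Perm (X D))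
  (A : Finset (X D)) (L : ℕ) (a : ℝ), 1 ≤ L → 0 ≤ a →
  av (fun O : Fin D → Col D => (inv ((pw O W)⁻¹ * g) A : ℝ) ^ a) ≤
    2 * (2 : ℝ) ^ (a * A.card / L) *
      (1 + ((2 : ℝ) ^ a - 1) * ∑ l ∈ Icc 1 L, Real.sqrt (l / 2 ^ W.length)) ^ (A.card : ℝ)

/-- exponential moment of the number of closed loops at coordinate `c` -/
def Cyc : Prop := ∀ (D : ℕ) (c : Fin D) (W : List (Fin D)), W.Nodup → c ∉ W →
  ∀ (Q : Equiv.Perm (X D)), (∀ z, (Q (fl c z)) c = !(Q z c)) →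
  ∀ (k : ℕ) (u : Om k D) (L : ℕ) (a : ℝ), 1 ≤ L → 0 ≤ a →
  av (fun O : Fin D → Col D => (cl c (fun i => u i) (fun i => pw O W (Q (u i))) : ℝ) ^ a) ≤
    2 * (2 : ℝ) ^ (a * (k / 2) / L) *
      (1 + ((2 : ℝ) ^ a - 1) * ∑ l ∈ Icc 1 L, Real.sqrt (l / 2 ^ W.length)) ^ ((k : ℝ) / 2)

/-- iterated Hölder inequality; `F c` depends on the coordinates `< c`, its window is `[c/2, c)` and
its exponent `c + 1` -/
def Hold : Prop := ∀ (D : ℕ) (α : Type) [Fintype α] [Nonempty α] (F : ℕ → (Fin D → α) → ℝ)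
  (K : ℕ → ℝ) (c0 : ℕ), (∀ c O, 0 ≤ F c O) → (∀ c, 0 ≤ K c) →
  (∀ c O O', (∀ i : Fin D, i.val < c → O i = O' i) → F c O = F c O') →
  (∀ c, c0 ≤ c → c < D → ∀ O : Fin D → α,
    av (fun O' : Fin D → α =>
      (F c (fun i => if c / 2 ≤ i.val ∧ i.val < c then O' i else O i)) ^ (c + 1))
      ≤ (K c) ^ (c + 1)) →
  av (fun O : Fin D → α => ∏ c ∈ Ico c0 D, F c O) ≤ ∏ c ∈ Ico c0 D, K c

/-- pairs occupied by a random set of cards, low coordinates -/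
def Small : Prop := ∀ (D k : ℕ), k ≤ 2 ^ D → ∀ (I : Fin D → Col D) (c0 : ℕ), 1 ≤ c0 →
  (1 / (Fintype.card (Om k D) : ℝ)) * ∑ x : Om k D,
      ∏ c ∈ univ.filter (fun c : Fin D => c.val < c0), (2 : ℝ) ^ (prs c (fun i => inn I c (x i)))
    ≤ Real.exp (2 ^ c0 / 2 * k * (k / 2 ^ D))

/-- the trace bound -/
def Alpha : Prop := ∀ (D k : ℕ), 1 ≤ D → 1 ≤ k → k ≤ 2 ^ D →
  (∀ j : ℕ, 1 ≤ j → ((Bm D k) ^ 16).trace ≤
    2 ^ 15 * (D : ℝ) ^ 11 * Real.exp (k * (23 / 2 ^ j + 2 ^ (16 * j - 2) * (k / 2 ^ D)))) ∧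
  ((Bm D k) ^ 16).trace ≤ 2 ^ 15 * (D : ℝ) ^ 11 * Real.exp (17 * k)

/-! ### comparison with random transpositions -/

section rep
variable {Z : Type} [Fintype Z] [DecidableEq Z] {E : Type} [NormedAddCommGroup E]
  [InnerProductSpace ℝ E]

/-- the operator of a group element -/
noncomputable def opR (ρ : Equiv.Perm Z →* (E ≃ₗᵢ[ℝ] E)) (g : Equiv.Perm Z) : E →L[ℝ] E :=
  ((ρ g).toContinuousLinearEquiv : E →L[ℝ] E)

/-- `L = (1/|Z|) ∑_{unordered pairs} (1 - transposition)` -/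
noncomputable def Lop (ρ : Equiv.Perm Z →* (E ≃ₗᵢ[ℝ] E)) : E →L[ℝ] E :=
  (1 / (2 * (Fintype.card Z : ℝ))) • ∑ z : Z, ∑ z' : Z,
    ((1 : E →L[ℝ] E) - opR ρ (Equiv.swap z z'))

end rep

/-- the sum of the two `L`'s of the two halves of `P × Bool` -/
noncomputable def LH {P : Type} [Fintype P] [DecidableEq P] {E : Type} [NormedAddCommGroup E]
    [InnerProductSpace ℝ E] (ρ : Equiv.Perm (P × Bool) →* (E ≃ₗᵢ[ℝ] E)) : E →L[ℝ] E :=
  (1 / (2 * (Fintype.card P : ℝ))) • ∑ h : Bool, ∑ p : P, ∑ q : P,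
    ((1 : E →L[ℝ] E) - opR ρ (Equiv.swap (p, h) (q, h)))

/-- the sector estimate -/
def Sect : Prop := ∀ (P : Type) [Fintype P] [DecidableEq P] [Nonempty P] (E : Type)
  [NormedAddCommGroup E] [InnerProductSpace ℝ E] [FiniteDimensional ℝ E]
  (ρ : Equiv.Perm (P × Bool) →* (E ≃ₗᵢ[ℝ] E)) (G : E),
  (∀ p, ρ (Equiv.swap (p, false) (p, true)) G = G) → ∀ t : ℝ, 0 ≤ t → t ≤ 1 / 4 →
  inner ℝ G ((NormedSpace.exp (t • (Lop ρ - LH ρ))) G) ≤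
    ‖G‖ ^ 2 + (9 / 125) / (Fintype.card P : ℝ) * inner ℝ G (Lop ρ G)

/-- the Beneš operator is at most `exp (- 0.178 L)` -/
def Op : Prop := ∀ (D k : ℕ) (β l : ℝ) (f : Om k D → ℝ), f ≠ 0 →
  (Bm D k).mulVec f = β • f → (Lm D k).mulVec f = l • f → β ≤ Real.exp (-(178 / 1000) * l)

/-- content bound: no `S_R`-invariants for `|R| > q` bounds the class sum of transpositions -/
def Content : Prop := ∀ (Z : Type) [Fintype Z] [DecidableEq Z] (V : Type) [AddCommGroup V]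
  [Module ℝ V] (ρ : Equiv.Perm Z →* (V →ₗ[ℝ] V)) (q : ℕ) (μ : ℝ) (f : V), 1 ≤ q → f ≠ 0 →
  (∑ z : Z, ∑ z' : Z, ρ (Equiv.swap z z') f = μ • f) →
  (∀ R : Finset Z, q < R.card → ∀ h : Equiv.Perm Z,
    ∑ σ ∈ univ.filter (fun σ : Equiv.Perm Z => ∀ z, z ∉ R → σ z = z), ρ σ (ρ h f) = 0) →
  μ ≤ (Fintype.card Z : ℝ) * q

/-- harmonic functions of `k` cards have no `S_R`-invariants for `|R| > n - k` -/
def Kill : Prop := ∀ (D k : ℕ) (f : Om k D → ℝ), Harm f → ∀ R : Finset (X D),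
  2 ^ D < R.card + k → ∀ x : Om k D,
  ∑ σ ∈ univ.filter (fun σ : Equiv.Perm (X D) => ∀ z, z ∉ R → σ z = z), f (act σ x) = 0

/-- `L ≥ k/2` on harmonic functions of `k` cards -/
def LowL : Prop := ∀ (D k : ℕ) (f : Om k D → ℝ), Harm f →
  (k / 2 : ℝ) * ∑ x, f x ^ 2 ≤ ∑ x, f x * (Lm D k).mulVec f x

/-- contraction on harmonic functions of `k` cards -/
def Beta : Prop := ∀ (D k : ℕ), 1 ≤ k → k ≤ 2 ^ D → ∀ (β : ℝ) (f : Om k D → ℝ), f ≠ 0 →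
  Harm f → (Bm D k).mulVec f = β • f → β ≤ Real.exp (-(89 / 1000) * k)

/-! ### final analysis -/

/-- the sum over degrees tends to zero -/
def Sum : Prop := ∀ (a θ : ℕ → ℕ → ℝ), (∀ D k, 0 ≤ a D k) → (∀ D k, 0 ≤ θ D k) →
  (∀ D k, 1 ≤ D → 1 ≤ k → k ≤ 2 ^ D → (∀ j : ℕ, 1 ≤ j → a D k ≤
    2 ^ 15 * (D : ℝ) ^ 11 * Real.exp (k * (23 / 2 ^ j + 2 ^ (16 * j - 2) * (k / 2 ^ D)))) ∧
    a D k ≤ 2 ^ 15 * (D : ℝ) ^ 11 * Real.exp (17 * k)) →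
  (∀ D k, 1 ≤ D → 1 ≤ k → k ≤ 2 ^ D → θ D k ≤ Real.exp (-(89 / 1000) * k)) →
  (∀ D k k', 1 ≤ D → 1 ≤ k → k ≤ k' → k + k' ≤ 2 ^ D →
    (k'.choose k : ℝ) * (θ D k) ^ 16 ≤ a D k') →
  Filter.Tendsto (fun D : ℕ => ∑ k ∈ Icc 1 (2 ^ D),
    ((2 ^ D).choose k : ℝ) * (θ D k) ^ (1600 - 16) * a D k) Filter.atTop (nhds 0)

end Crest.Agent.Thp.Spec
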