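import Crest.Agent.ThpLib
import Crest.Agent.ThpSpec

/-!
# rid 155, module GAMMA, part A: alternating sums of harmonic functions
-/

set_option autoImplicit false

namespace Crest.Agent.H1ThpGam

open Finset Crest.Agent.Thp

variable {k D : ℕ}

/-- sums over sets closed under moving card `i` vanish -/
theorem sum_closed {f : Om k D → ℝ} (hf : Harm f) (i : Fin k) (p : Om k D → Prop)
    [DecidablePred p] (hp : ∀ y y' : Om k D, (∀ j, j ≠ i → y j = y' j) → p y → p y') :
    ∑ y ∈ univ.filter p, f y = 0 := by
  classical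
  set κ : Om k D → (Fin k → X D) := fun y => Function.update (fun j => y j) i (fun _ => false)
    with hκ
  have hk : ∀ y y' : Om k D, κ y = κ y' ↔ ∀ j, j ≠ i → y j = y' j := by
    intro y y'
    constructor
    · intro h j hj
      have := congrFun h j
      simpa [hκ, Function.update_of_ne hj] using this
    · intro h
      funext j
      by_cases hj : j = i
      · subst hj; simp [hκ]
      · simp [hκ, Function.update_of_ne hj, h j hj]
  rw [← Finset.sum_fiberwise_of_maps_to (s := univ.filter p) (t := (univ.filter p).image κ)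
    (g := κ) (fun y hy => Finset.mem_image_of_mem κ hy)]
  refine Finset.sum_eq_zero fun c hc => ?_
  obtain ⟨y0, hy0, rfl⟩ := Finset.mem_image.mp hc
  rw [mem_filter] at hy0
  rw [← hf i y0]
  refine Finset.sum_congr ?_ fun _ _ => rfl
  ext y
  simp only [mem_filter, mem_univ, true_and]
  rw [hk]
  constructor
  · exact fun h => h.2
  · intro h
    exact ⟨hp y0 y (fun j hj => (h j hj).symm) hy0.2, h⟩

/-- `y = x` off `ε`, the cards of `δ` are at places not used by `x`, the others in `ε` at places
used by `x` -/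
def VP (x : Om k D) (ε δ : Finset (Fin k)) (y : Om k D) : Prop :=
  (∀ j, j ∉ ε → y j = x j) ∧ (∀ j ∈ δ, y j ∉ Set.range x) ∧
    (∀ j ∈ ε, j ∉ δ → y j ∈ Set.range x)

open scoped Classical in
theorem VP_step {f : Om k D → ℝ} (hf : Harm f) (x : Om k D) (ε δ : Finset (Fin k))
    (i : Fin k) (hi : i ∉ δ) (hδ : insert i δ ⊆ ε) :
    ∑ y ∈ univ.filter (VP x ε (insert i δ)), f y = - ∑ y ∈ univ.filter (VP x ε δ), f y := by
  have hiε : i ∈ ε := hδ (mem_insert_self _ _)
  have hδε : δ ⊆ ε := fun j hj => hδ (mem_insert_of_mem hj)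
  set p : Om k D → Prop := fun y => (∀ j, j ∉ ε → y j = x j) ∧ (∀ j ∈ δ, y j ∉ Set.range x) ∧
    (∀ j ∈ ε, j ∉ insert i δ → y j ∈ Set.range x) with hp
  have h0 : ∑ y ∈ univ.filter p, f y = 0 := by
    refine sum_closed hf i p ?_
    rintro y y' hyy ⟨h1, h2, h3⟩
    refine ⟨?_, ?_, ?_⟩
    · intro j hj
      rw [← hyy j (fun h => hj (h ▸ hiε))]
      exact h1 j hj
    · intro j hj
      rw [← hyy j (fun h => hi (h ▸ hj))]
      exact h2 j hj
    · intro j hj hj'
      rw [← hyy j (fun h => hj' (by rw [h]; exact mem_insert_self _ _))]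
      exact h3 j hj hj'
  have h1 : univ.filter p = univ.filter (VP x ε (insert i δ)) ∪ univ.filter (VP x ε δ) := by
    ext y
    simp only [mem_filter, mem_univ, true_and, mem_union, hp, VP]
    constructor
    · rintro ⟨h1, h2, h3⟩
      by_cases hy : y i ∈ Set.range x
      · right
        refine ⟨h1, h2, ?_⟩
        intro j hj hj'
        by_cases hji : j = i
        · rw [hji]; exact hy
        · exact h3 j hj (by simp [hji, hj'])
      · left
        refine ⟨h1, ?_, h3⟩
        intro j hj
        rcases mem_insert.mp hj with h | h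
        · rw [h]; exact hy
        · exact h2 j h
    · rintro (⟨h1, h2, h3⟩ | ⟨h1, h2, h3⟩)
      · exact ⟨h1, fun j hj => h2 j (mem_insert_of_mem hj), h3⟩
      · exact ⟨h1, h2, fun j hj hj' => h3 j hj (fun h => hj' (mem_insert_of_mem h))⟩
  have h2 : Disjoint (univ.filter (VP x ε (insert i δ))) (univ.filter (VP x ε δ)) := by
    rw [Finset.disjoint_left]
    intro y hy hy'
    simp only [mem_filter, mem_univ, true_and, VP] at hy hy'
    exact hy.2.1 i (mem_insert_self _ _) (hy'.2.2 i hiε hi)
  rw [h1, Finset.sum_union h2] at h0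
  linarith

open scoped Classical in
theorem VP_all {f : Om k D → ℝ} (hf : Harm f) (x : Om k D) (ε : Finset (Fin k)) :
    ∀ δ : Finset (Fin k), δ ⊆ ε → ∑ y ∈ univ.filter (VP x ε δ), f y =
      (-1) ^ δ.card * ∑ y ∈ univ.filter (VP x ε ∅), f y := by
  intro δ
  induction δ using Finset.induction_on with
  | empty => intro _; simp
  | insert i δ hi ih =>
    intro h
    rw [VP_step hf x ε δ i hi h, ih (fun j hj => h (mem_insert_of_mem hj)),
      Finset.card_insert_of_notMem hi, pow_succ]
    ring

/-- positivity of the block sums -/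
theorem block_nonneg {f : Om k D → ℝ} {β : Type*} [DecidableEq β] (κ : Om k D → β) :
    0 ≤ ∑ x, f x * ∑ y ∈ univ.filter (fun y => κ y = κ x), f y := by
  classical
  have h1 : ∑ x, f x * ∑ y ∈ univ.filter (fun y => κ y = κ x), f y
      = ∑ c ∈ univ.image κ, (∑ x ∈ univ.filter (fun x => κ x = c), f x) ^ 2 := by
    rw [← Finset.sum_fiberwise_of_maps_to (s := univ) (t := univ.image κ)
      (g := κ) (fun y hy => Finset.mem_image_of_mem κ hy)]
    refine Finset.sum_congr rfl fun c _ => ?_
    rw [sq, Finset.sum_mul]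
    refine Finset.sum_congr rfl fun x hx => ?_
    rw [(mem_filter.mp hx).2]
  rw [h1]
  exact Finset.sum_nonneg fun _ _ => sq_nonneg _

open scoped Classical in
theorem VP_nonneg {f : Om k D → ℝ} (hf : Harm f) (ε : Finset (Fin k)) :
    0 ≤ (-1 : ℝ) ^ ε.card * ∑ x, f x * ∑ y ∈ univ.filter (VP x ε ε), f y := by
  have h1 : ∀ x : Om k D, ∑ y ∈ univ.filter (VP x ε ε), f y
      = (-1) ^ ε.card * ∑ y ∈ univ.filter (VP x ε ∅), f y := fun x => VP_all hf x ε ε subset_rfl
  have h2 : (-1 : ℝ) ^ ε.card * ∑ x, f x * ∑ y ∈ univ.filter (VP x ε ε), f y =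
      ∑ x, f x * ∑ y ∈ univ.filter (VP x ε ∅), f y := by
    rw [Finset.mul_sum]
    refine Finset.sum_congr rfl fun x _ => ?_
    rw [h1]
    have : (-1 : ℝ) ^ ε.card * (-1) ^ ε.card = 1 := by
      rw [← mul_pow]; norm_num
    calc (-1 : ℝ) ^ ε.card * (f x * ((-1) ^ ε.card * ∑ y ∈ univ.filter (VP x ε ∅), f y))
        = ((-1 : ℝ) ^ ε.card * (-1) ^ ε.card) * (f x * ∑ y ∈ univ.filter (VP x ε ∅), f y) := by
          ring
      _ = _ := by rw [this, one_mul]
  rw [h2]
  set κ : Om k D → (Fin k → X D) × Finset (X D) := fun x =>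
    (fun j => if j ∈ ε then (fun _ => false) else x j, univ.image x) with hκ
  have h3 : ∀ x : Om k D, univ.filter (VP x ε ∅) = univ.filter (fun y => κ y = κ x) := by
    intro x
    ext y
    simp only [mem_filter, mem_univ, true_and, VP, hκ, Prod.mk.injEq, notMem_empty,
      not_false_eq_true, forall_true_left, IsEmpty.forall_iff, implies_true]
    constructor
    · rintro ⟨h1, h2⟩
      refine ⟨?_, ?_⟩
      · funext j
        by_cases hj : j ∈ ε
        · simp [hj]
        · simp [hj, h1 j hj]
      · apply Finset.eq_of_subset_of_card_le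
        · intro z hz
          obtain ⟨j, -, rfl⟩ := mem_image.mp hz
          by_cases hj : j ∈ ε
          · obtain ⟨i, hi⟩ := h2 j hj
            rw [← hi]; exact mem_image_of_mem _ (mem_univ _)
          · rw [h1 j hj]; exact mem_image_of_mem _ (mem_univ _)
        · rw [card_image_of_injective _ x.injective, card_image_of_injective _ y.injective]
    · rintro ⟨h1, h2⟩
      refine ⟨?_, ?_⟩
      · intro j hj
        have := congrFun h1 j
        simpa [hj] using this
      · intro j _
        have : y j ∈ univ.image x := by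
          rw [← h2]; exact mem_image_of_mem _ (mem_univ _)
        obtain ⟨i, -, hi⟩ := mem_image.mp this
        exact ⟨i, hi⟩
  simp_rw [h3]
  exact block_nonneg κ

end Crest.Agent.H1ThpGam
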