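import Crest.Agent.H1ThpGamA

/-!
# rid 155, module GAMMA, part B: group sums, alternating sums determine harmonic functions
-/

set_option autoImplicit false

namespace Crest.Agent.H1ThpGam

open Finset Crest.Agent.Thp

variable {k D : ℕ}

theorem exists_perm {ι : Type} (a b : ι ↪ X D) : ∃ g : Equiv.Perm (X D), ∀ i, g (a i) = b i := by
  classical
  set e : {x // x ∈ Set.range a} ≃ {x // x ∈ Set.range b} :=
    (Equiv.ofInjective a a.injective).symm.trans (Equiv.ofInjective b b.injective) with he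
  refine ⟨e.extendSubtype, fun i => ?_⟩
  have h1 := e.extendSubtype_apply_of_mem (a i) ⟨i, rfl⟩
  rw [h1]
  have h2 : (Equiv.ofInjective a a.injective).symm ⟨a i, ⟨i, rfl⟩⟩ = i := by
    rw [Equiv.symm_apply_eq]
    rfl
  simp only [he, Equiv.trans_apply]
  rw [h2]
  rfl

theorem VP_act {x y : Om k D} {ε δ : Finset (Fin k)} (h : VP x ε δ y) (g : Equiv.Perm (X D)) :
    VP (act g x) ε δ (act g y) := by
  have hr : ∀ z, g z ∈ Set.range (act g x) ↔ z ∈ Set.range x := by
    intro z
    constructor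
    · rintro ⟨i, hi⟩
      exact ⟨i, g.injective hi⟩
    · rintro ⟨i, hi⟩
      exact ⟨i, by rw [act_apply, hi]⟩
  refine ⟨fun j hj => ?_, fun j hj => ?_, fun j hj hj' => ?_⟩
  · rw [act_apply, act_apply, h.1 j hj]
  · rw [act_apply, hr]; exact h.2.1 j hj
  · rw [act_apply, hr]; exact h.2.2 j hj hj'

/-- embedding of `k + |ε|` points from a pair -/
noncomputable def pairEmb {x y : Om k D} {ε : Finset (Fin k)} (h : VP x ε ε y) :
    (Fin k ⊕ {j // j ∈ ε}) ↪ X D where
  toFun := Sum.elim (fun i => x i) (fun j => y j.1)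
  inj' := by
    rintro (a | a) (b | b) hab
    · exact congrArg _ (x.injective hab)
    · exact absurd ⟨a, hab⟩ (h.2.1 b.1 b.2)
    · exact absurd ⟨b, hab.symm⟩ (h.2.1 a.1 a.2)
    · exact congrArg _ (Subtype.ext (y.injective hab))

theorem exists_perm_pair {p m x y : Om k D} {ε : Finset (Fin k)} (h : VP p ε ε m)
    (h' : VP x ε ε y) : ∃ g : Equiv.Perm (X D), act g p = x ∧ act g m = y := by
  obtain ⟨g, hg⟩ := exists_perm (pairEmb h) (pairEmb h')
  refine ⟨g, ?_, ?_⟩
  · ext1 i
    exact hg (Sum.inl i)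
  · ext1 j
    by_cases hj : j ∈ ε
    · exact hg (Sum.inr ⟨j, hj⟩)
    · rw [act_apply, h.1 j hj, h'.1 j hj]
      exact hg (Sum.inl j)

open scoped Classical in
theorem orbit_sum {p m : Om k D} {ε : Finset (Fin k)} (h : VP p ε ε m)
    (ψ : Om k D → Om k D → ℝ) :
    ∑ g : Equiv.Perm (X D), ψ (act g p) (act g m) =
      ((univ.filter (fun g : Equiv.Perm (X D) => act g p = p ∧ act g m = m)).card : ℝ) *
        ∑ x, ∑ y ∈ univ.filter (VP x ε ε), ψ x y := by
  have hcard : ∀ x y : Om k D, VP x ε ε y →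
      (univ.filter (fun g : Equiv.Perm (X D) => act g p = x ∧ act g m = y)).card =
      (univ.filter (fun g : Equiv.Perm (X D) => act g p = p ∧ act g m = m)).card := by
    intro x y hxy
    obtain ⟨g0, h1, h2⟩ := exists_perm_pair h hxy
    symm
    refine Finset.card_bij' (fun g _ => g0 * g) (fun g _ => g0⁻¹ * g) ?_ ?_ ?_ ?_
    · intro g hg
      simp only [mem_filter, mem_univ, true_and] at hg ⊢
      rw [act_mul, act_mul, hg.1, hg.2]
      exact ⟨h1, h2⟩
    · intro g hg
      simp only [mem_filter, mem_univ, true_and] at hg ⊢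
      rw [act_mul, act_mul, hg.1, hg.2, ← h1, ← h2, act_inv_act, act_inv_act]
      exact ⟨rfl, rfl⟩
    · intro g _; simp
    · intro g _; simp
  have hempty : ∀ x y : Om k D, ¬ VP x ε ε y →
      (univ.filter (fun g : Equiv.Perm (X D) => act g p = x ∧ act g m = y)).card = 0 := by
    intro x y hxy
    rw [Finset.card_eq_zero, Finset.filter_eq_empty_iff]
    rintro g - ⟨h1, h2⟩
    apply hxy
    rw [← h1, ← h2]
    exact VP_act h g
  have h1 : ∑ g : Equiv.Perm (X D), ψ (act g p) (act g m) =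
      ∑ x : Om k D, ∑ y : Om k D,
        ((univ.filter (fun g : Equiv.Perm (X D) => act g p = x ∧ act g m = y)).card : ℝ) * ψ x y := by
    rw [← Finset.sum_fiberwise univ (fun g : Equiv.Perm (X D) => (act g p, act g m))
      (fun g => ψ (act g p) (act g m)), Fintype.sum_prod_type]
    refine Finset.sum_congr rfl fun x _ => Finset.sum_congr rfl fun y _ => ?_
    have : ∀ g ∈ univ.filter (fun g : Equiv.Perm (X D) => (act g p, act g m) = (x, y)),
        ψ (act g p) (act g m) = ψ x y := by
      intro g hg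
      have := (mem_filter.mp hg).2
      simp only [Prod.mk.injEq] at this
      rw [this.1, this.2]
    rw [Finset.sum_congr rfl this, Finset.sum_const, nsmul_eq_mul]
    congr 3
    ext g
    simp
  rw [h1, Finset.mul_sum]
  refine Finset.sum_congr rfl fun x _ => ?_
  rw [Finset.mul_sum, Finset.sum_filter]
  refine Finset.sum_congr rfl fun y _ => ?_
  split_ifs with hxy
  · rw [hcard x y hxy]
  · rw [hempty x y hxy]; simp

/-- sign of the correlations -/
theorem corr_sign {f : Om k D → ℝ} (hf : Harm f) {p m : Om k D} {ε : Finset (Fin k)}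
    (h : VP p ε ε m) :
    0 ≤ (-1 : ℝ) ^ ε.card * ∑ g : Equiv.Perm (X D), f (act g p) * f (act g m) := by
  classical
  rw [orbit_sum h (fun x y => f x * f y)]
  have h2 := VP_nonneg hf ε
  have h3 : ∑ x, ∑ y ∈ univ.filter (VP x ε ε), f x * f y
      = ∑ x, f x * ∑ y ∈ univ.filter (VP x ε ε), f y := by
    refine Finset.sum_congr rfl fun x _ => ?_
    rw [Finset.mul_sum]
  rw [h3]
  have h4 : (0 : ℝ) ≤ ((univ.filter (fun g : Equiv.Perm (X D) => act g p = p ∧ act g m = m)).card : ℝ) :=
    Nat.cast_nonneg _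
  calc (0 : ℝ) ≤ ((univ.filter (fun g : Equiv.Perm (X D) => act g p = p ∧ act g m = m)).card : ℝ) *
        ((-1 : ℝ) ^ ε.card * ∑ x, f x * ∑ y ∈ univ.filter (VP x ε ε), f y) := mul_nonneg h4 h2
    _ = _ := by ring

/-- replace `p i` by `q i` for `i ∈ ε` -/
noncomputable def mx (p q : Om k D) (h : ∀ i j, p i ≠ q j) (ε : Finset (Fin k)) : Om k D where
  toFun := fun i => if i ∈ ε then q i else p i
  inj' := by
    intro i j hij
    dsimp only at hij
    by_cases hi : i ∈ ε <;> by_cases hj : j ∈ ε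
    · rw [if_pos hi, if_pos hj] at hij; exact q.injective hij
    · rw [if_pos hi, if_neg hj] at hij; exact absurd hij.symm (h _ _)
    · rw [if_neg hi, if_pos hj] at hij; exact absurd hij (h _ _)
    · rw [if_neg hi, if_neg hj] at hij; exact p.injective hij

theorem mx_apply (p q : Om k D) (h : ∀ i j, p i ≠ q j) (ε : Finset (Fin k)) (i : Fin k) :
    mx p q h ε i = if i ∈ ε then q i else p i := rfl

theorem mx_VP (p q : Om k D) (h : ∀ i j, p i ≠ q j) (ε : Finset (Fin k)) :
    VP p ε ε (mx p q h ε) := by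
  refine ⟨fun j hj => ?_, fun j hj => ?_, fun j hj hj' => absurd hj hj'⟩
  · rw [mx_apply, if_neg hj]
  · rw [mx_apply, if_pos hj]
    rintro ⟨i, hi⟩
    exact h _ _ hi

/-- a harmonic function all of whose alternating sums vanish is zero -/
theorem eq_zero_of_alt {f : Om k D → ℝ} (hf : Harm f) (p q : Om k D) (h : ∀ i j, p i ≠ q j)
    (halt : ∀ g : Equiv.Perm (X D), ∑ ε : Finset (Fin k), (-1 : ℝ) ^ ε.card *
      f (act g (mx p q h ε)) = 0) : f = 0 := by
  classical
  have h1 : ∑ ε : Finset (Fin k), (-1 : ℝ) ^ ε.card *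
      ∑ g : Equiv.Perm (X D), f (act g p) * f (act g (mx p q h ε)) = 0 := by
    have : ∑ ε : Finset (Fin k), (-1 : ℝ) ^ ε.card *
        ∑ g : Equiv.Perm (X D), f (act g p) * f (act g (mx p q h ε)) =
        ∑ g : Equiv.Perm (X D), f (act g p) * ∑ ε : Finset (Fin k), (-1 : ℝ) ^ ε.card *
          f (act g (mx p q h ε)) := by
      simp_rw [Finset.mul_sum]
      rw [Finset.sum_comm]
      refine Finset.sum_congr rfl fun g _ => Finset.sum_congr rfl fun ε _ => ?_
      ring
    rw [this]
    refine Finset.sum_eq_zero fun g _ => ?_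
    rw [halt g, mul_zero]
  have h2 := (Finset.sum_eq_zero_iff_of_nonneg (fun ε _ => corr_sign hf (mx_VP p q h ε))).mp h1 ∅
    (mem_univ _)
  rw [Finset.card_empty, pow_zero, one_mul] at h2
  have h3 : mx p q h ∅ = p := by
    ext1 i
    rw [mx_apply, if_neg (notMem_empty i)]
  rw [h3] at h2
  have h4 := (Finset.sum_eq_zero_iff_of_nonneg (fun g _ => mul_self_nonneg (f (act g p)))).mp h2
  funext x
  obtain ⟨g, hg⟩ := exists_perm p x
  have h5 := h4 g (mem_univ _)
  have h6 : act g p = x := by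
    ext1 i; exact hg i
  rw [h6] at h5
  simpa using h5

end Crest.Agent.H1ThpGam
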