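import Crest.Agent.H1ThpGamB

/-!
# rid 155, module GAMMA: multiplicity of harmonic eigenvalues
-/

set_option autoImplicit false

namespace Crest.Agent.H1ThpGam

open Finset Crest.Agent.Thp

variable {k k' D : ℕ}

/-- alternating sums of functions not depending on `i0` vanish -/
theorem alt_zero (φ : Finset (Fin k) → ℝ) (i0 : Fin k)
    (h : ∀ ε, i0 ∉ ε → φ (insert i0 ε) = φ ε) :
    ∑ ε : Finset (Fin k), (-1 : ℝ) ^ ε.card * φ ε = 0 := by
  classical
  refine Finset.sum_involution (fun ε _ => if i0 ∈ ε then ε.erase i0 else insert i0 ε) ?_ ?_ ?_ ?_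
  · intro ε _
    by_cases hi : i0 ∈ ε
    · rw [if_pos hi]
      have h1 := h (ε.erase i0) (Finset.notMem_erase i0 ε)
      rw [Finset.insert_erase hi] at h1
      have h2 : ε.card = (ε.erase i0).card + 1 := by
        rw [Finset.card_erase_add_one hi]
      rw [h1, h2, pow_succ]
      ring
    · rw [if_neg hi, Finset.card_insert_of_notMem hi, h ε hi, pow_succ]
      ring
  · intro ε _ _
    by_cases hi : i0 ∈ ε
    · rw [if_pos hi]
      intro hc
      rw [← hc] at hi
      exact Finset.notMem_erase i0 ε hi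
    · rw [if_neg hi]
      intro hc
      apply hi
      rw [← hc]
      exact mem_insert_self _ _
  · intro ε _; exact mem_univ _
  · intro ε _
    by_cases hi : i0 ∈ ε
    · simp [hi]
    · simp [hi]

open scoped Classical in
/-- replace card `e i` by the spare card `i` for `i ∈ ε` -/
noncomputable def sp (e : Fin k ↪ Fin k') (ε : Finset (Fin k)) (j : Fin k') : Fin k' ⊕ Fin k :=
  if h : ∃ i, i ∈ ε ∧ e i = j then Sum.inr h.choose else Sum.inl j

theorem sp_mem (e : Fin k ↪ Fin k') (ε : Finset (Fin k)) {i : Fin k} (hi : i ∈ ε) :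
    sp e ε (e i) = Sum.inr i := by
  classical
  have h : ∃ i', i' ∈ ε ∧ e i' = e i := ⟨i, hi, rfl⟩
  rw [sp, dif_pos h]
  exact congrArg _ (e.injective h.choose_spec.2)

theorem sp_not (e : Fin k ↪ Fin k') (ε : Finset (Fin k)) {j : Fin k'}
    (h : ¬ ∃ i, i ∈ ε ∧ e i = j) : sp e ε j = Sum.inl j := by
  classical
  rw [sp, dif_neg h]

theorem sp_inj (e : Fin k ↪ Fin k') (ε : Finset (Fin k)) : Function.Injective (sp e ε) := by
  intro a b hab
  by_cases ha : ∃ i, i ∈ ε ∧ e i = a <;> by_cases hb : ∃ i, i ∈ ε ∧ e i = b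
  · obtain ⟨i, hi, rfl⟩ := ha
    obtain ⟨j, hj, rfl⟩ := hb
    rw [sp_mem e ε hi, sp_mem e ε hj] at hab
    rw [Sum.inr.inj hab]
  · obtain ⟨i, hi, rfl⟩ := ha
    rw [sp_mem e ε hi, sp_not e ε hb] at hab
    exact absurd hab (by simp)
  · obtain ⟨j, hj, rfl⟩ := hb
    rw [sp_mem e ε hj, sp_not e ε ha] at hab
    exact absurd hab (by simp)
  · rw [sp_not e ε ha, sp_not e ε hb] at hab
    exact Sum.inl.inj hab

/-- index set -/
abbrev Idx (k k' : ℕ) : Type := {A : Finset (Fin k') // A.card = k}

/-- the cards of `A` in increasing order -/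
noncomputable def em (A : Idx k k') : Fin k ↪ Fin k' := (A.1.orderEmbOfFin A.2).toEmbedding

theorem em_mem (A : Idx k k') (i : Fin k) : em A i ∈ A.1 := Finset.orderEmbOfFin_mem _ _ _

theorem mem_em (A : Idx k k') {j : Fin k'} (hj : j ∈ A.1) : ∃ i, em A i = j := by
  have : j ∈ Set.range (A.1.orderEmbOfFin A.2) := by
    rw [Finset.range_orderEmbOfFin]; exact hj
  exact this

theorem indep {f : Om k D → ℝ} (hf : Harm f) (hf0 : f ≠ 0) (hkk : k + k' ≤ 2 ^ D)
    (c : Idx k k' → ℝ) (hc : ∀ x : Om k' D, ∑ A, c A * f ((em A).trans x) = 0) : c = 0 := by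
  classical
  funext A0
  by_contra hA0
  change c A0 ≠ 0 at hA0
  obtain ⟨u⟩ : Nonempty ((Fin k' ⊕ Fin k) ↪ X D) := by
    apply Function.Embedding.nonempty_of_card_le
    rw [Fintype.card_sum, Fintype.card_fin, Fintype.card_fin, card_X]
    omega
  set e0 := em A0 with he0
  set p : Om k D := (e0.trans Function.Embedding.inl).trans u with hp
  set q : Om k D := (Function.Embedding.inr).trans u with hq
  have hpq : ∀ i j, p i ≠ q j := by
    intro i j h
    have := u.injective h
    simp at this
  apply hf0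
  refine eq_zero_of_alt hf p q hpq fun g => ?_
  set xx : Finset (Fin k) → Om k' D := fun ε => act g ((⟨sp e0 ε, sp_inj e0 ε⟩ :
    Fin k' ↪ (Fin k' ⊕ Fin k)).trans u) with hxx
  have h1 : ∑ ε : Finset (Fin k), (-1 : ℝ) ^ ε.card * ∑ A, c A * f ((em A).trans (xx ε)) = 0 := by
    refine Finset.sum_eq_zero fun ε _ => ?_
    rw [hc, mul_zero]
  have h2 : ∑ ε : Finset (Fin k), (-1 : ℝ) ^ ε.card * ∑ A, c A * f ((em A).trans (xx ε)) =
      ∑ A, c A * ∑ ε : Finset (Fin k), (-1 : ℝ) ^ ε.card * f ((em A).trans (xx ε)) := by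
    simp_rw [Finset.mul_sum]
    rw [Finset.sum_comm]
    refine Finset.sum_congr rfl fun A _ => Finset.sum_congr rfl fun ε _ => ?_
    ring
  rw [h2, Finset.sum_eq_single A0] at h1
  · have h3 := (mul_eq_zero.mp h1).resolve_left hA0
    rw [← h3]
    refine Finset.sum_congr rfl fun ε _ => ?_
    congr 2
    ext1 i
    rw [act_apply, mx_apply]
    show _ = g (u (sp e0 ε (e0 i)))
    by_cases hi : i ∈ ε
    · rw [if_pos hi, sp_mem e0 ε hi]; rfl
    · rw [if_neg hi, sp_not e0 ε]
      · rfl
      · rintro ⟨i', hi', h⟩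
        exact hi (e0.injective h ▸ hi')
  · intro A _ hA
    have hex : ∃ j ∈ A0.1, j ∉ A.1 := by
      by_contra hcon
      push Not at hcon
      have : A0.1 = A.1 := Finset.eq_of_subset_of_card_le (fun j hj => hcon j hj)
        (by rw [A0.2, A.2])
      exact hA (Subtype.ext this.symm)
    obtain ⟨j0, hj0, hj0'⟩ := hex
    obtain ⟨i0, hi0⟩ := mem_em A0 hj0
    rw [alt_zero (fun ε => f ((em A).trans (xx ε))) i0, mul_zero]
    intro ε _
    congr 1
    ext1 i
    show g (u (sp e0 (insert i0 ε) (em A i))) = g (u (sp e0 ε (em A i)))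
    congr 2
    have hne : e0 i0 ≠ em A i := by
      intro h
      rw [he0, hi0] at h
      exact hj0' (h ▸ em_mem A i)
    by_cases hex : ∃ i', i' ∈ ε ∧ e0 i' = em A i
    · obtain ⟨i', hi', h⟩ := hex
      rw [← h, sp_mem e0 _ hi', sp_mem e0 _ (mem_insert_of_mem hi')]
    · rw [sp_not e0 _ hex, sp_not e0]
      rintro ⟨i', hi', h⟩
      rcases mem_insert.mp hi' with h' | h'
      · exact hne (h' ▸ h)
      · exact hex ⟨i', h', h⟩
  · intro h; exact absurd (mem_univ _) h

theorem pow_eig {f : Om k D → ℝ} {β : ℝ} (hβ : (Bm D k).mulVec f = β • f) (e : Fin k ↪ Fin k')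
    (j : ℕ) : ((Bm D k') ^ j).mulVec (fun x => f (e.trans x)) =
      fun x => β ^ j * f (e.trans x) := by
  have h1 : (Bm D k').mulVec (fun x => f (e.trans x)) = β • fun x => f (e.trans x) := by
    rw [Bm_forget, hβ]
    rfl
  induction j with
  | zero => simp
  | succ j ih =>
    rw [pow_succ', ← Matrix.mulVec_mulVec, ih]
    have : (fun x : Om k' D => β ^ j * f (e.trans x)) = β ^ j • fun x => f (e.trans x) := rfl
    rw [this, Matrix.mulVec_smul, h1]
    funext x
    simp only [Pi.smul_apply, smul_eq_mul]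
    ring

theorem main (hT : Spec.TrInj) : Spec.Gamma := by
  classical
  intro D k k' hk hkk hn β f hf0 hf hβ
  set W := EuclideanSpace ℝ (Om k' D)
  set V := EuclideanSpace ℝ (Idx k k')
  set M : Matrix (Om k' D) (Om k' D) ℝ := (Bm D k') ^ 16 with hM
  have hpos : (Matrix.toEuclideanLin M).IsPositive :=
    Matrix.isPositive_toEuclideanLin_iff.mpr (Bm_pow_posSemidef 16)
  have hβ16 : 0 ≤ β ^ 16 := by positivity
  let R : V →ₗ[ℝ] W :=
    { toFun := fun c => WithLp.toLp 2 (fun x => ∑ A, c A * f ((em A).trans x))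
      map_add' := by
        intro c d
        ext x
        show ∑ A, (c A + d A) * f ((em A).trans x) =
          (∑ A, c A * f ((em A).trans x)) + ∑ A, d A * f ((em A).trans x)
        rw [← Finset.sum_add_distrib]
        exact Finset.sum_congr rfl fun A _ => add_mul _ _ _
      map_smul' := by
        intro a c
        ext x
        show ∑ A, (a * c A) * f ((em A).trans x) = a * ∑ A, c A * f ((em A).trans x)
        rw [Finset.mul_sum]
        exact Finset.sum_congr rfl fun A _ => mul_assoc _ _ _ }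
  have h := hT V W ((β ^ 16) • LinearMap.id) (Matrix.toEuclideanLin M) R ?_ ?_ hpos.1 ?_ ?_ ?_
  · have h1 : LinearMap.trace ℝ V ((β ^ 16) • LinearMap.id) = (k'.choose k : ℝ) * β ^ 16 := by
      rw [map_smul, LinearMap.trace_id]
      have : Module.finrank ℝ V = k'.choose k := by
        rw [finrank_euclideanSpace, Fintype.card_finset_len, Fintype.card_fin]
      rw [this, smul_eq_mul, mul_comm]
    have h2 : LinearMap.trace ℝ W (Matrix.toEuclideanLin M) = M.trace := by
      rw [Matrix.toEuclideanLin_eq_toLin_orthonormal, Matrix.trace_toLin_eq]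
    rw [h1, h2] at h
    exact h
  · intro x y
    simp [inner_smul_left, inner_smul_right]
  · intro v
    simp only [LinearMap.smul_apply, LinearMap.id_coe, id_eq, inner_smul_left]
    exact mul_nonneg (by simpa using hβ16) (real_inner_self_nonneg)
  · intro w
    have := hpos.2 w
    simpa using this
  · rw [injective_iff_map_eq_zero]
    intro c hc
    have h1 : ∀ x : Om k' D, ∑ A, c A * f ((em A).trans x) = 0 := by
      intro x
      have := congrArg (fun w : W => w x) hc
      simpa [R] using this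
    have := indep hf hf0 hn (fun A => c A) h1
    ext A
    exact congrFun this A
  · intro c
    ext x
    have h1 : Matrix.toEuclideanLin M (R c) = WithLp.toLp 2 (M.mulVec (fun x => ∑ A, c A *
        f ((em A).trans x))) := rfl
    rw [h1]
    have h2 : (fun x : Om k' D => ∑ A, c A * f ((em A).trans x)) =
        ∑ A, c A • (fun x : Om k' D => f ((em A).trans x)) := by
      funext x
      simp
    have h3 : M.mulVec (fun x : Om k' D => ∑ A, c A * f ((em A).trans x)) x =
        ∑ A, c A * (β ^ 16 * f ((em A).trans x)) := by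
      rw [h2, Matrix.mulVec_sum]
      simp only [Matrix.mulVec_smul, Finset.sum_apply, Pi.smul_apply, smul_eq_mul]
      refine Finset.sum_congr rfl fun A _ => ?_
      rw [hM, pow_eig hβ]
    show (R ((β ^ 16) • c)) x = _
    rw [map_smul]
    show β ^ 16 * (∑ A, c A * f ((em A).trans x)) = _
    show _ = M.mulVec (fun x : Om k' D => ∑ A, c A * f ((em A).trans x)) x
    rw [h3, Finset.mul_sum]
    refine Finset.sum_congr rfl fun A _ => ?_
    ring

end Crest.Agent.H1ThpGam
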