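import Mathlib

set_option autoImplicit false

open MeasureTheory Module
open scoped ENNReal RealInnerProductSpace

namespace Crest.Agent.H20Frame

/-- Euclidean plane. -/
abbrev E2 := EuclideanSpace ℝ (Fin 2)

lemma inner2 (a b : E2) : inner ℝ a b = a 0 * b 0 + a 1 * b 1 := by
  rw [PiLp.inner_apply, Fin.sum_univ_two]
  simp [mul_comm]

lemma normsq2 (a : E2) : ‖a‖ ^ 2 = a 0 ^ 2 + a 1 ^ 2 := by
  rw [EuclideanSpace.norm_sq_eq, Fin.sum_univ_two]
  simp

lemma exists_basis (θ : ℝ) : ∃ bas : OrthonormalBasis (Fin 2) ℝ E2,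
    bas 0 = !₂[Real.cos θ, Real.sin θ] ∧ bas 1 = !₂[-Real.sin θ, Real.cos θ] := by
  have hcard : finrank ℝ E2 = Fintype.card (Fin 2) := by simp
  let v : Fin 2 → E2 := ![!₂[Real.cos θ, Real.sin θ], !₂[-Real.sin θ, Real.cos θ]]
  have hv : Orthonormal ℝ v := by
    rw [orthonormal_iff_ite]
    intro i j
    have := Real.sin_sq_add_cos_sq θ
    rw [inner2]
    fin_cases i <;> fin_cases j <;> simp [v] <;> nlinarith
  obtain ⟨b, hb⟩ := Orthonormal.exists_orthonormalBasis_extension_of_card_eq (𝕜 := ℝ) hcard (v := v)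
    (s := Set.univ) (by
      exact hv.comp _ Subtype.val_injective)
  refine ⟨b, ?_, ?_⟩
  · rw [hb 0 (Set.mem_univ _)]; rfl
  · rw [hb 1 (Set.mem_univ _)]; rfl

/-- A trace-free endomorphism of the plane has zero diagonal in a suitable orthonormal frame. -/
lemma exists_frame (A : E2 →ₗ[ℝ] E2) (htr : LinearMap.trace ℝ _ A = 0) :
    ∃ (bas : OrthonormalBasis (Fin 2) ℝ E2) (b c : ℝ), A (bas 0) = c • bas 1 ∧ A (bas 1) = b • bas 0 ∧
      LinearMap.det A = -(b * c) := by
  -- the quadratic form along the circle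
  let u : ℝ → E2 := fun θ => !₂[Real.cos θ, Real.sin θ]
  let g : ℝ → ℝ := fun θ => inner ℝ (u θ) (A (u θ))
  have hgc : Continuous g := by
    have hu : Continuous u := by
      refine (PiLp.continuous_toLp 2 (fun _ : Fin 2 => ℝ)).comp ?_
      refine continuous_pi ?_
      intro i
      fin_cases i
      · exact Real.continuous_cos
      · exact Real.continuous_sin
    have hA : Continuous A := LinearMap.continuous_of_finiteDimensional A
    exact hu.inner (hA.comp hu)
  have htrace : ∀ bas : OrthonormalBasis (Fin 2) ℝ E2,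
      inner ℝ (bas 0) (A (bas 0)) + inner ℝ (bas 1) (A (bas 1)) = 0 := by
    intro bas
    rw [LinearMap.trace_eq_matrix_trace ℝ bas.toBasis A, Matrix.trace, Fin.sum_univ_two] at htr
    simpa [LinearMap.toMatrix_apply, OrthonormalBasis.repr_apply_apply] using htr
  have hzero : ∃ θ, g θ = 0 := by
    have h0 : g (Real.pi / 2) = - g 0 := by
      obtain ⟨bas, hb0, hb1⟩ := exists_basis 0
      have h := htrace bas
      have e0 : bas 0 = u 0 := hb0
      have e1 : bas 1 = u (Real.pi / 2) := by rw [hb1]; simp [u]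
      rw [e0, e1] at h
      simp only [g]
      linarith
    rcases le_total (g 0) 0 with hg | hg
    · have := intermediate_value_Icc (α := ℝ) (δ := ℝ) (a := 0) (b := Real.pi / 2) (by positivity)
        hgc.continuousOn
      obtain ⟨θ, _, hθ⟩ := this (show (0 : ℝ) ∈ Set.Icc (g 0) (g (Real.pi / 2)) from ⟨hg, by rw [h0]; linarith⟩)
      exact ⟨θ, hθ⟩
    · have := intermediate_value_Icc' (α := ℝ) (δ := ℝ) (a := 0) (b := Real.pi / 2) (by positivity)
        hgc.continuousOn
      obtain ⟨θ, _, hθ⟩ := this (show (0 : ℝ) ∈ Set.Icc (g (Real.pi / 2)) (g 0) from ⟨by rw [h0]; linarith, hg⟩)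
      exact ⟨θ, hθ⟩
  obtain ⟨θ, hθ⟩ := hzero
  obtain ⟨bas, hb0, hb1⟩ := exists_basis θ
  have h00 : inner ℝ (bas 0) (A (bas 0)) = 0 := by rw [hb0]; exact hθ
  have h11 : inner ℝ (bas 1) (A (bas 1)) = 0 := by
    have := htrace bas
    linarith
  refine ⟨bas, inner ℝ (bas 0) (A (bas 1)), inner ℝ (bas 1) (A (bas 0)), ?_, ?_, ?_⟩
  · have := bas.sum_repr' (A (bas 0))
    rw [Fin.sum_univ_two, h00, zero_smul, zero_add] at this
    exact this.symm
  · have := bas.sum_repr' (A (bas 1))
    rw [Fin.sum_univ_two, h11, zero_smul, add_zero] at this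
    exact this.symm
  · rw [← LinearMap.det_toMatrix bas.toBasis A, Matrix.det_fin_two]
    simp only [LinearMap.toMatrix_apply, OrthonormalBasis.coe_toBasis, OrthonormalBasis.coe_toBasis_repr_apply,
      OrthonormalBasis.repr_apply_apply]
    rw [h00, h11]
    ring

end Crest.Agent.H20Frame
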