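import Mathlib
import Crest.Agent.H20Frame

set_option autoImplicit false

open MeasureTheory Module
open scoped ENNReal RealInnerProductSpace

namespace Crest.Agent.H20Count

open Crest.Agent.H20Frame

/-- the half-open cell with lower corner `(t m, t n)` in the frame `bas` -/
def cell (bas : OrthonormalBasis (Fin 2) ℝ E2) (t : ℝ) (p : ℤ × ℤ) : Set E2 :=
  {x | inner ℝ (bas 0) x ∈ Set.Ico (t * p.1) (t * p.1 + t) ∧
    inner ℝ (bas 1) x ∈ Set.Ico (t * p.2) (t * p.2 + t)}

lemma measurableSet_cell (bas : OrthonormalBasis (Fin 2) ℝ E2) (t : ℝ) (p : ℤ × ℤ) :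
    MeasurableSet (cell bas t p) := by
  have h0 : Measurable (fun x : E2 => inner ℝ (bas 0) x) := by fun_prop
  have h1 : Measurable (fun x : E2 => inner ℝ (bas 1) x) := by fun_prop
  exact (h0 measurableSet_Ico).inter (h1 measurableSet_Ico)

lemma volume_cell (bas : OrthonormalBasis (Fin 2) ℝ E2) (t : ℝ) (p : ℤ × ℤ) :
    volume (cell bas t p) = ENNReal.ofReal t * ENNReal.ofReal t := by
  have hm : MeasurableSet (Set.pi Set.univ
      ![Set.Ico (t * (p.1 : ℝ)) (t * p.1 + t), Set.Ico (t * (p.2 : ℝ)) (t * p.2 + t)]) := by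
    apply MeasurableSet.univ_pi
    intro i
    fin_cases i <;> simp
  have h := ((PiLp.volume_preserving_ofLp (Fin 2)).comp bas.measurePreserving_repr).measure_preimage
    hm.nullMeasurableSet
  rw [volume_pi_pi, Fin.prod_univ_two] at h
  simp only [Matrix.cons_val_zero, Matrix.cons_val_one, Real.volume_Ico, add_sub_cancel_left] at h
  rw [← h]
  congr 1
  ext x
  simp [Set.mem_pi, Fin.forall_fin_two, cell, OrthonormalBasis.repr_apply_apply]

lemma cell_disjoint (bas : OrthonormalBasis (Fin 2) ℝ E2) (t : ℝ) (ht : 0 < t) (p q : ℤ × ℤ)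
    (hpq : p ≠ q) : Disjoint (cell bas t p) (cell bas t q) := by
  rw [Set.disjoint_left]
  rintro x ⟨⟨h1, h2⟩, ⟨h3, h4⟩⟩ ⟨⟨h5, h6⟩, ⟨h7, h8⟩⟩
  apply hpq
  have aux : ∀ m n : ℤ, ∀ y : ℝ, t * m ≤ y → y < t * m + t → t * n ≤ y → y < t * n + t → m = n := by
    intro m n y e1 e2 e3 e4
    have e5 : t * m < t * (n + 1) := by linarith
    have e6 : t * n < t * (m + 1) := by linarith
    have e7 := lt_of_mul_lt_mul_left e5 ht.le
    have e8 := lt_of_mul_lt_mul_left e6 ht.le
    have e9 : m < n + 1 := by exact_mod_cast e7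
    have e10 : n < m + 1 := by exact_mod_cast e8
    omega
  exact Prod.ext (aux _ _ _ h1 h2 h5 h6) (aux _ _ _ h3 h4 h7 h8)

lemma count_le (bas : OrthonormalBasis (Fin 2) ℝ E2) (t : ℝ) (ht : 0 < t) (I : Finset (ℤ × ℤ))
    (S : Set E2) (hS : ∀ p ∈ I, cell bas t p ⊆ S) (hfin : volume S ≠ ⊤) :
    (I.card : ℝ) * t ^ 2 ≤ (volume S).toReal := by
  have h1 : volume (⋃ p ∈ I, cell bas t p) = ∑ p ∈ I, volume (cell bas t p) := by
    rw [measure_biUnion_finset]
    · intro p _ q _ hpq
      exact cell_disjoint bas t ht p q hpq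
    · intro p _
      exact measurableSet_cell bas t p
  have h2 : volume (⋃ p ∈ I, cell bas t p) ≤ volume S := measure_mono (Set.iUnion₂_subset hS)
  rw [h1] at h2
  simp only [volume_cell, Finset.sum_const] at h2
  rw [← ENNReal.ofReal_mul ht.le, nsmul_eq_mul, ← ENNReal.ofReal_natCast, ← ENNReal.ofReal_mul (by positivity)] at h2
  have h3 := (ENNReal.ofReal_le_iff_le_toReal hfin).mp h2
  nlinarith [h3]

end Crest.Agent.H20Count
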