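import Mathlib

set_option autoImplicit false
set_option linter.all false

/-!
# Rid 50 (S0069), geometric lemma (GB)

Signs of the coordinates of the cross product of two nearly orthogonal unit vectors of `ℝ³`.
-/

namespace Crest.H22Geo

namespace GB

noncomputable def sg (a : ℝ) (l : ZMod 2) : ZMod 2 := if a = 0 then l else if a < 0 then 1 else 0

noncomputable def Lf (a b c : ℝ) : ZMod 2 :=
  if a < 0 then 1 else if 0 < a then 0 else if b < 0 then 1 else if 0 < b then 0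
    else if c < 0 then 1 else 0

theorem two0 : (1 : ZMod 2) + 1 = 0 := by decide

theorem Lf_neg (a b c : ℝ) (h : ¬ (a = 0 ∧ b = 0 ∧ c = 0)) : Lf (-a) (-b) (-c) = Lf a b c + 1 := by
  unfold Lf
  rcases lt_trichotomy a 0 with ha | ha | ha
  · rw [if_neg (by linarith), if_pos (by linarith), if_pos ha]; rfl
  · subst ha
    rcases lt_trichotomy b 0 with hb | hb | hb
    · simp [hb, not_lt.mpr hb.le, two0]
    · subst hb
      rcases lt_trichotomy c 0 with hc | hc | hc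
      · simp [hc, not_lt.mpr hc.le, two0]
      · exact absurd ⟨rfl, rfl, hc⟩ h
      · simp [hc, not_lt.mpr hc.le]
    · simp [hb, not_lt.mpr hb.le]
  · rw [if_pos (by linarith), if_neg (by linarith), if_pos ha]; rfl

theorem sg_neg (a : ℝ) (l l' : ZMod 2) (h : l' = l + 1) : sg (-a) l' = sg a l + 1 := by
  unfold sg
  rcases lt_trichotomy a 0 with ha | ha | ha
  · rw [if_neg (by linarith), if_neg (by linarith), if_neg (by linarith), if_pos ha]; rfl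
  · subst ha
    simp [h]
  · rw [if_neg (by linarith), if_pos (by linarith), if_neg (by linarith), if_neg (by linarith)]
    rfl

theorem sg_ne (a b : ℝ) (l m : ZMod 2) (h : sg a l ≠ sg b m) : |b| ≤ |a - b| := by
  rcases lt_trichotomy b 0 with hb | hb | hb
  · by_cases ha : a < 0
    · exact absurd (by unfold sg; rw [if_neg (by linarith), if_pos ha, if_neg (by linarith),
        if_pos hb]) h
    · rw [abs_of_neg hb, abs_of_nonneg (by linarith)]; linarith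
  · subst hb; simp
  · by_cases ha : 0 < a
    · exact absurd (by unfold sg; rw [if_neg (by linarith), if_neg (by linarith),
        if_neg (by linarith), if_neg (by linarith)]) h
    · rw [abs_of_pos hb, abs_of_neg (by linarith)]; linarith

abbrev V3 := EuclideanSpace ℝ (Fin 3)
abbrev S2 := Metric.sphere (0 : EuclideanSpace ℝ (Fin 3)) 1

noncomputable def n0 (p : S2 × S2) : ℝ :=
  (p.1 : V3) 1 * (p.2 : V3) 2 - (p.1 : V3) 2 * (p.2 : V3) 1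
noncomputable def n1 (p : S2 × S2) : ℝ :=
  (p.1 : V3) 2 * (p.2 : V3) 0 - (p.1 : V3) 0 * (p.2 : V3) 2
noncomputable def n2 (p : S2 × S2) : ℝ :=
  (p.1 : V3) 0 * (p.2 : V3) 1 - (p.1 : V3) 1 * (p.2 : V3) 0

theorem inner3 (x y : V3) : inner ℝ x y = x 0 * y 0 + x 1 * y 1 + x 2 * y 2 := by
  simp [PiLp.inner_apply, Fin.sum_univ_three]
  ring

theorem norm3 (x : S2) : (x : V3) 0 ^ 2 + (x : V3) 1 ^ 2 + (x : V3) 2 ^ 2 = 1 := by
  have h1 : ‖(x : V3)‖ = 1 := by simpa using x.2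
  have h2 : ‖(x : V3)‖ ^ 2 = (x : V3) 0 ^ 2 + (x : V3) 1 ^ 2 + (x : V3) 2 ^ 2 := by
    rw [EuclideanSpace.norm_sq_eq]
    simp [Fin.sum_univ_three]
  rw [← h2, h1]; norm_num

theorem n_sq (p : S2 × S2) :
    n0 p ^ 2 + n1 p ^ 2 + n2 p ^ 2 = 1 - (inner ℝ (p.1 : V3) (p.2 : V3)) ^ 2 := by
  have h1 := norm3 p.1
  have h2 := norm3 p.2
  rw [inner3]
  unfold n0 n1 n2
  generalize (p.1 : V3) 0 = a at *
  generalize (p.1 : V3) 1 = b at *
  generalize (p.1 : V3) 2 = c at *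
  generalize (p.2 : V3) 0 = d at *
  generalize (p.2 : V3) 1 = e at *
  generalize (p.2 : V3) 2 = f at *
  have : (b * f - c * e) ^ 2 + (c * d - a * f) ^ 2 + (a * e - b * d) ^ 2
      = (a ^ 2 + b ^ 2 + c ^ 2) * (d ^ 2 + e ^ 2 + f ^ 2) - (a * d + b * e + c * f) ^ 2 := by ring
  rw [this, h1, h2]; ring

theorem n_ne (p : S2 × S2) (h : |(inner ℝ (p.1 : V3) (p.2 : V3) : ℝ)| ≤ 1 / 2) :
    ¬ (n0 p = 0 ∧ n1 p = 0 ∧ n2 p = 0) := by
  rintro ⟨h0, h1, h2⟩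
  have h3 := n_sq p
  rw [h0, h1, h2] at h3
  have h4 := abs_le.mp h
  nlinarith [h4.1, h4.2]

theorem coord_le (x : S2) (i : Fin 3) : |(x : V3) i| ≤ 1 := by
  have h := norm3 x
  rw [abs_le]
  fin_cases i <;> simp <;> constructor <;>
    nlinarith [sq_nonneg ((x : V3) 0), sq_nonneg ((x : V3) 1), sq_nonneg ((x : V3) 2)]

theorem coord_dist (x y : S2) (i : Fin 3) : |(x : V3) i - (y : V3) i| ≤ dist x y := by
  have h : ‖((x : V3) - (y : V3)) i‖ ≤ ‖(x : V3) - (y : V3)‖ := PiLp.norm_apply_le _ i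
  rw [Subtype.dist_eq, dist_eq_norm]
  simpa using h

theorem prod_diff (a b a' b' : ℝ) (ha : |a| ≤ 1) (hb' : |b'| ≤ 1) (h1 : |a - a'| ≤ 1 / 100)
    (h2 : |b - b'| ≤ 1 / 100) : |a * b - a' * b'| ≤ 2 / 100 := by
  have e : a * b - a' * b' = a * (b - b') + (a - a') * b' := by ring
  rw [e]
  calc |a * (b - b') + (a - a') * b'| ≤ |a * (b - b')| + |(a - a') * b'| := abs_add_le _ _
    _ = |a| * |b - b'| + |a - a'| * |b'| := by rw [abs_mul, abs_mul]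
    _ ≤ 1 * (1 / 100) + (1 / 100) * 1 := by
        gcongr
    _ = 2 / 100 := by norm_num

theorem n_diff (p q : S2 × S2) (h1 : dist p.1 q.1 ≤ 1 / 100) (h2 : dist p.2 q.2 ≤ 1 / 100) :
    |n0 p - n0 q| ≤ 4 / 100 ∧ |n1 p - n1 q| ≤ 4 / 100 ∧ |n2 p - n2 q| ≤ 4 / 100 := by
  have key : ∀ i j : Fin 3, |(p.1 : V3) i * (p.2 : V3) j - (q.1 : V3) i * (q.2 : V3) j| ≤ 2 / 100 :=
    fun i j => prod_diff _ _ _ _ (coord_le _ _) (coord_le _ _)
      ((coord_dist _ _ _).trans h1) ((coord_dist _ _ _).trans h2)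
  have aux : ∀ A B C D : ℝ, |A - C| ≤ 2 / 100 → |B - D| ≤ 2 / 100 →
      |(A - B) - (C - D)| ≤ 4 / 100 := by
    intro A B C D hA hB
    rw [abs_le] at *
    constructor <;> linarith [hA.1, hA.2, hB.1, hB.2]
  exact ⟨aux _ _ _ _ (key 1 2) (key 2 1), aux _ _ _ _ (key 2 0) (key 0 2),
    aux _ _ _ _ (key 0 1) (key 1 0)⟩

noncomputable def Lp (p : S2 × S2) : ZMod 2 := Lf (n0 p) (n1 p) (n2 p)

theorem swap_n (x y : S2) : n0 (y, x) = - n0 (x, y) ∧ n1 (y, x) = - n1 (x, y) ∧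
    n2 (y, x) = - n2 (x, y) := by
  refine ⟨?_, ?_, ?_⟩ <;> simp only [n0, n1, n2] <;> ring

theorem neg_n (x y : S2) : n0 (-x, y) = - n0 (x, y) ∧ n1 (-x, y) = - n1 (x, y) ∧
    n2 (-x, y) = - n2 (x, y) := by
  refine ⟨?_, ?_, ?_⟩ <;> simp only [n0, n1, n2] <;> simp <;> ring

theorem swap_L (x y : S2) (h : |(inner ℝ (x : V3) (y : V3) : ℝ)| ≤ 1 / 2) :
    Lp (y, x) = Lp (x, y) + 1 := by
  unfold Lp
  rw [(swap_n x y).1, (swap_n x y).2.1, (swap_n x y).2.2]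
  exact Lf_neg _ _ _ (n_ne (x, y) h)

theorem neg_L (x y : S2) (h : |(inner ℝ (x : V3) (y : V3) : ℝ)| ≤ 1 / 2) :
    Lp (-x, y) = Lp (x, y) + 1 := by
  unfold Lp
  rw [(neg_n x y).1, (neg_n x y).2.1, (neg_n x y).2.2]
  exact Lf_neg _ _ _ (n_ne (x, y) h)

theorem zne {a b : ZMod 2} (h : a + b ≠ 0) : a ≠ b := by
  rintro rfl
  exact h (CharTwo.add_self_eq_zero a)

end GB

open GB in
theorem exists_G : ∃ G1 G2 G3 : (Metric.sphere (0 : EuclideanSpace ℝ (Fin 3)) 1) ×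
      (Metric.sphere (0 : EuclideanSpace ℝ (Fin 3)) 1) → ZMod 2,
    ((∀ x y : Metric.sphere (0 : EuclideanSpace ℝ (Fin 3)) 1,
        |(inner ℝ (x : EuclideanSpace ℝ (Fin 3)) (y : EuclideanSpace ℝ (Fin 3)) : ℝ)| ≤ 1 / 2 →
          G1 (y, x) = G1 (x, y) + 1) ∧
      (∀ x y : Metric.sphere (0 : EuclideanSpace ℝ (Fin 3)) 1,
        |(inner ℝ (x : EuclideanSpace ℝ (Fin 3)) (y : EuclideanSpace ℝ (Fin 3)) : ℝ)| ≤ 1 / 2 →
          G1 (-x, y) = G1 (x, y) + 1)) ∧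
    ((∀ x y : Metric.sphere (0 : EuclideanSpace ℝ (Fin 3)) 1,
        |(inner ℝ (x : EuclideanSpace ℝ (Fin 3)) (y : EuclideanSpace ℝ (Fin 3)) : ℝ)| ≤ 1 / 2 →
          G2 (y, x) = G2 (x, y) + 1) ∧
      (∀ x y : Metric.sphere (0 : EuclideanSpace ℝ (Fin 3)) 1,
        |(inner ℝ (x : EuclideanSpace ℝ (Fin 3)) (y : EuclideanSpace ℝ (Fin 3)) : ℝ)| ≤ 1 / 2 →
          G2 (-x, y) = G2 (x, y) + 1)) ∧
    ((∀ x y : Metric.sphere (0 : EuclideanSpace ℝ (Fin 3)) 1,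
        |(inner ℝ (x : EuclideanSpace ℝ (Fin 3)) (y : EuclideanSpace ℝ (Fin 3)) : ℝ)| ≤ 1 / 2 →
          G3 (y, x) = G3 (x, y) + 1) ∧
      (∀ x y : Metric.sphere (0 : EuclideanSpace ℝ (Fin 3)) 1,
        |(inner ℝ (x : EuclideanSpace ℝ (Fin 3)) (y : EuclideanSpace ℝ (Fin 3)) : ℝ)| ≤ 1 / 2 →
          G3 (-x, y) = G3 (x, y) + 1)) ∧
    ∀ p q r t : (Metric.sphere (0 : EuclideanSpace ℝ (Fin 3)) 1) ×
        (Metric.sphere (0 : EuclideanSpace ℝ (Fin 3)) 1),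
      |(inner ℝ (q.1 : EuclideanSpace ℝ (Fin 3)) (q.2 : EuclideanSpace ℝ (Fin 3)) : ℝ)| ≤ 1 / 2 →
      dist p.1 q.1 ≤ 1 / 100 → dist p.2 q.2 ≤ 1 / 100 →
      dist q.1 r.1 ≤ 1 / 100 → dist q.2 r.2 ≤ 1 / 100 →
      dist r.1 t.1 ≤ 1 / 100 → dist r.2 t.2 ≤ 1 / 100 →
      (G1 p + G1 q) * (G2 q + G2 r) * (G3 r + G3 t) = 0 := by
  refine ⟨fun p => sg (n0 p) (Lp p), fun p => sg (n1 p) (Lp p), fun p => sg (n2 p) (Lp p),
    ⟨?_, ?_⟩, ⟨?_, ?_⟩, ⟨?_, ?_⟩, ?_⟩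
  · intro x y h
    change sg (n0 (y, x)) (Lp (y, x)) = sg (n0 (x, y)) (Lp (x, y)) + 1
    rw [(swap_n x y).1]; exact sg_neg _ _ _ (swap_L x y h)
  · intro x y h
    change sg (n0 (-x, y)) (Lp (-x, y)) = sg (n0 (x, y)) (Lp (x, y)) + 1
    rw [(neg_n x y).1]; exact sg_neg _ _ _ (neg_L x y h)
  · intro x y h
    change sg (n1 (y, x)) (Lp (y, x)) = sg (n1 (x, y)) (Lp (x, y)) + 1
    rw [(swap_n x y).2.1]; exact sg_neg _ _ _ (swap_L x y h)
  · intro x y h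
    change sg (n1 (-x, y)) (Lp (-x, y)) = sg (n1 (x, y)) (Lp (x, y)) + 1
    rw [(neg_n x y).2.1]; exact sg_neg _ _ _ (neg_L x y h)
  · intro x y h
    change sg (n2 (y, x)) (Lp (y, x)) = sg (n2 (x, y)) (Lp (x, y)) + 1
    rw [(swap_n x y).2.2]; exact sg_neg _ _ _ (swap_L x y h)
  · intro x y h
    change sg (n2 (-x, y)) (Lp (-x, y)) = sg (n2 (x, y)) (Lp (x, y)) + 1
    rw [(neg_n x y).2.2]; exact sg_neg _ _ _ (neg_L x y h)
  · intro p q r t hq h1 h2 h3 h4 h5 h6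
    by_contra hne
    have hA : sg (n0 p) (Lp p) + sg (n0 q) (Lp q) ≠ 0 := fun h => hne (by simp only [h, zero_mul])
    have hB : sg (n1 q) (Lp q) + sg (n1 r) (Lp r) ≠ 0 := fun h => hne (by
      simp only [h, zero_mul, mul_zero])
    have hC : sg (n2 r) (Lp r) + sg (n2 t) (Lp t) ≠ 0 := fun h => hne (by
      simp only [h, mul_zero])
    have kA := sg_ne _ _ _ _ (zne hA)
    have kB := sg_ne _ _ _ _ (zne hB).symm
    have kC := sg_ne _ _ _ _ (zne hC).symm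
    have d1 := n_diff p q h1 h2
    have d2 := n_diff q r h3 h4
    have d3 := n_diff r t h5 h6
    have e0 : |n0 q| ≤ 4 / 100 := kA.trans d1.1
    have e1 : |n1 q| ≤ 4 / 100 := kB.trans (by rw [abs_sub_comm]; exact d2.2.1)
    have e2 : |n2 r| ≤ 4 / 100 := kC.trans (by rw [abs_sub_comm]; exact d3.2.2)
    have e3 := d2.2.2
    have hs := n_sq q
    rw [abs_le] at e0 e1 e2 e3 hq
    have f2 : -(8 / 100) ≤ n2 q := by linarith [e2.1, e3.1]
    have f2' : n2 q ≤ 8 / 100 := by linarith [e2.2, e3.2]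
    have g0 : n0 q ^ 2 ≤ (4 / 100) ^ 2 := sq_le_sq' e0.1 e0.2
    have g1 : n1 q ^ 2 ≤ (4 / 100) ^ 2 := sq_le_sq' e1.1 e1.2
    have g2 : n2 q ^ 2 ≤ (8 / 100) ^ 2 := sq_le_sq' f2 f2'
    have g3 : (inner ℝ (q.1 : EuclideanSpace ℝ (Fin 3)) (q.2 : EuclideanSpace ℝ (Fin 3)) : ℝ) ^ 2
        ≤ (1 / 2) ^ 2 := sq_le_sq' hq.1 hq.2
    norm_num at g0 g1 g2 g3
    linarith

end Crest.H22Geo
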