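import Mathlib

set_option autoImplicit false

open MeasureTheory Module
open scoped ENNReal RealInnerProductSpace

namespace Crest.Agent.H20Lattice

/-- The unit squares translated by the lattice generated by `(1, γ)` and `(β, 1)` cover the plane when
`0 ≤ β γ < 1`. -/
lemma lattice_cover (β γ : ℝ) (h0 : 0 ≤ β * γ) (h1 : β * γ < 1) (x y : ℝ) :
    ∃ m n : ℤ, 0 ≤ x - m - β * n ∧ x - m - β * n ≤ 1 ∧ 0 ≤ y - n - γ * m ∧ y - n - γ * m ≤ 1 := by
  set φ : ℤ → ℝ := fun n => y - n - γ * (⌊x - β * n⌋ : ℤ) with hφ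
  have hfr : ∀ n : ℤ, φ n = y - γ * x - (1 - β * γ) * n + γ * Int.fract (x - β * n) := by
    intro n
    simp only [hφ]
    have := Int.self_sub_floor (x - β * n)
    rw [← this]
    ring
  have hfb : ∀ n : ℤ, |γ * Int.fract (x - β * n)| ≤ |γ| := by
    intro n
    rw [abs_mul]
    have h2 : |Int.fract (x - β * n)| ≤ 1 := by
      rw [abs_of_nonneg (Int.fract_nonneg _)]
      exact (Int.fract_lt_one _).le
    nlinarith [abs_nonneg γ]
  have hpos : 0 < 1 - β * γ := by linarith
  -- step inequality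
  have hstep : ∀ n : ℤ, φ n - 1 ≤ φ (n + 1) := by
    intro n
    simp only [hφ]
    have key : γ * (⌊x - β * ((n + 1 : ℤ) : ℝ)⌋ : ℤ) ≤ γ * (⌊x - β * (n : ℝ)⌋ : ℤ) := by
      rcases lt_trichotomy γ 0 with hg | hg | hg
      · have hb : β ≤ 0 := by
          by_contra hb
          push Not at hb
          nlinarith
        apply mul_le_mul_of_nonpos_left _ hg.le
        exact_mod_cast Int.floor_le_floor (by push_cast; nlinarith)
      · rw [hg]; simp
      · have hb : 0 ≤ β := nonneg_of_mul_nonneg_left h0 hg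
        apply mul_le_mul_of_nonneg_left _ hg.le
        exact_mod_cast Int.floor_le_floor (by push_cast; nlinarith)
    push_cast at key ⊢
    linarith
  -- the set where `φ ≥ 0` is nonempty and bounded above
  have hne : ∃ n : ℤ, 0 ≤ φ n := by
    obtain ⟨N, hN⟩ := exists_int_gt ((|y - γ * x| + |γ|) / (1 - β * γ))
    refine ⟨-N, ?_⟩
    rw [hfr]
    have h3 := (div_lt_iff₀ hpos).mp hN
    have h4 := hfb (-N)
    have h5 := neg_abs_le (y - γ * x)
    have h6 := neg_abs_le (γ * Int.fract (x - β * ((-N : ℤ) : ℝ)))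
    push_cast at h4 h6 ⊢
    nlinarith
  have hbd : ∃ b : ℤ, ∀ z : ℤ, 0 ≤ φ z → z ≤ b := by
    obtain ⟨N, hN⟩ := exists_int_gt ((|y - γ * x| + |γ|) / (1 - β * γ))
    refine ⟨N, fun z hz => ?_⟩
    rw [hfr] at hz
    have h3 := (div_lt_iff₀ hpos).mp hN
    have h4 := hfb z
    have h5 := le_abs_self (y - γ * x)
    have h6 := le_abs_self (γ * Int.fract (x - β * (z : ℝ)))
    by_contra hzN
    push Not at hzN
    have h7 : (N : ℝ) < z := by exact_mod_cast hzN
    nlinarith
  obtain ⟨n, hn, hmax⟩ := Int.exists_greatest_of_bdd hbd hne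
  refine ⟨⌊x - β * n⌋, n, ?_, ?_, ?_, ?_⟩
  · have := Int.floor_le (x - β * n); linarith
  · have := Int.lt_floor_add_one (x - β * n); linarith
  · exact hn
  · have h8 : φ (n + 1) < 0 := by
      by_contra h9
      push Not at h9
      have := hmax _ h9
      omega
    have h9 := hstep n
    have : φ n ≤ 1 := by linarith
    exact this

end Crest.Agent.H20Lattice
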