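import Mathlib
import Crest.Agent.H20Frame
import Crest.Agent.H20Lattice
import Crest.Agent.H20Count

set_option autoImplicit false

open MeasureTheory Module
open scoped ENNReal RealInnerProductSpace Topology

namespace Crest.Agent.H20Local

open Crest.Agent.H20Frame Crest.Agent.H20Lattice Crest.Agent.H20Count

/-- the weight -/
noncomputable def J (h : ℝ) (g : E2) : ℝ := 1 / Real.sqrt (1 + (g 0) ^ 2 + h ^ 2 * (g 1) ^ 2)

lemma J_pos (h : ℝ) (g : E2) : 0 < J h g := by
  unfold J
  positivity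

lemma J_le_one (h : ℝ) (g : E2) : J h g ≤ 1 := by
  unfold J
  rw [div_le_one (by positivity)]
  rw [Real.one_le_sqrt]
  nlinarith [sq_nonneg (g 0), mul_nonneg (sq_nonneg h) (sq_nonneg (g 1))]

lemma J_continuous (h : ℝ) : Continuous (J h) := by
  unfold J
  refine continuous_const.div (by fun_prop) ?_
  intro g
  positivity

/-- the ruled set over `K` -/
def Ruled (L : ℝ) (V : E2 → E2) (K : Set E2) : Set (ℝ × E2) :=
  {z | ∃ p ∈ K, |z.1| ≤ L ∧ z.2 = p + z.1 • V p}

/-- sheared cylinder over a parallelogram -/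
def Shear (c a b g : E2) : Set (ℝ × E2) :=
  {z | ∃ x ∈ Set.Icc (0 : ℝ) 1, ∃ y ∈ Set.Icc (0 : ℝ) 1, z.2 = c + x • a + y • b + z.1 • g}

/-- `E` can be covered by finitely many sheared square cylinders of total weight at most `C` -/
def CoverCost (h : ℝ) (E : Set (ℝ × E2)) (C : ℝ) : Prop :=
  ∃ (ι : Type) (_ : Fintype ι) (c a b g : ι → E2),
    (∀ i, a i ≠ 0 ∧ ‖b i‖ = ‖a i‖ ∧ inner ℝ (a i) (b i) = 0) ∧
    E ⊆ ⋃ i, Shear (c i) (a i) (b i) (g i) ∧ ∑ i, ‖a i‖ ^ 2 * J h (g i) ≤ C

set_option maxHeartbeats 2000000 in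
theorem local_cover (L h : ℝ) (hL : 0 < L) (V : E2 → E2) (p₀ : E2) (A : E2 →L[ℝ] E2)
    (hV : HasStrictFDerivAt V A p₀) (htr : LinearMap.trace ℝ _ A.toLinearMap = 0)
    (hdet : -(L ^ 2)⁻¹ < LinearMap.det A.toLinearMap ∧ LinearMap.det A.toLinearMap ≤ 0)
    (η : ℝ) (hη : 0 < η) :
    ∃ r : ℝ, 0 < r ∧ ∀ K : Set E2, IsCompact K → K ⊆ Metric.ball p₀ r → ∀ η' : ℝ, 0 < η' →
      CoverCost h (Ruled L V K) ((J h (V p₀) + η) * ((volume K).toReal + η')) := by
  obtain ⟨bas, b, c, hA0, hA1, hdetA⟩ := exists_frame A.toLinearMap htr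
  rw [hdetA] at hdet
  have hbc0 : 0 ≤ b * c := by linarith [hdet.2]
  have hbc1 : L ^ 2 * (b * c) < 1 := by
    have h1 : b * c < (L ^ 2)⁻¹ := by linarith [hdet.1]
    have h2 : 0 < L ^ 2 := by positivity
    calc L ^ 2 * (b * c) < L ^ 2 * (L ^ 2)⁻¹ := by exact mul_lt_mul_of_pos_left h1 h2
      _ = 1 := mul_inv_cancel₀ h2.ne'
  set κ : ℝ := 1 - L ^ 2 * (b * c) with hκ
  have hκpos : 0 < κ := by linarith
  -- coordinates
  have hcoord : ∀ x : E2, x = (inner ℝ (bas 0) x) • bas 0 + (inner ℝ (bas 1) x) • bas 1 := by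
    intro x
    have := bas.sum_repr' x
    rw [Fin.sum_univ_two] at this
    exact this.symm
  have h00 : inner ℝ (bas 0) (bas 0) = (1 : ℝ) := by
    rw [real_inner_self_eq_norm_sq, bas.orthonormal.1 0]; norm_num
  have h11 : inner ℝ (bas 1) (bas 1) = (1 : ℝ) := by
    rw [real_inner_self_eq_norm_sq, bas.orthonormal.1 1]; norm_num
  have h01 : inner ℝ (bas 0) (bas 1) = (0 : ℝ) := bas.orthonormal.2 (by decide)
  have h10 : inner ℝ (bas 1) (bas 0) = (0 : ℝ) := bas.orthonormal.2 (by decide)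
  have hn0 : ‖bas 0‖ = 1 := bas.orthonormal.1 0
  have hn1 : ‖bas 1‖ = 1 := bas.orthonormal.1 1
  have hAx : ∀ x : E2, A x = (b * inner ℝ (bas 1) x) • bas 0 + (c * inner ℝ (bas 0) x) • bas 1 := by
    intro x
    have h1 : A (bas 0) = c • bas 1 := hA0
    have h2 : A (bas 1) = b • bas 0 := hA1
    conv_lhs => rw [hcoord x]
    rw [map_add, map_smul, map_smul, h1, h2, smul_smul, smul_smul]
    rw [add_comm, mul_comm b, mul_comm c]
  have hi0 : ∀ x : E2, inner ℝ (bas 0) (A x) = b * inner ℝ (bas 1) x := by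
    intro x
    rw [hAx, inner_add_right, inner_smul_right, inner_smul_right, h00, h01]; ring
  have hi1 : ∀ x : E2, inner ℝ (bas 1) (A x) = c * inner ℝ (bas 0) x := by
    intro x
    rw [hAx, inner_add_right, inner_smul_right, inner_smul_right, h10, h11]; ring
  have hle0 : ∀ x : E2, |inner ℝ (bas 0) x| ≤ ‖x‖ := by
    intro x
    have := abs_real_inner_le_norm (bas 0) x
    rwa [hn0, one_mul] at this
  have hle1 : ∀ x : E2, |inner ℝ (bas 1) x| ≤ ‖x‖ := by
    intro x
    have := abs_real_inner_le_norm (bas 1) x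
    rwa [hn1, one_mul] at this
  have hnorm : ∀ x : E2, ‖x‖ ≤ |inner ℝ (bas 0) x| + |inner ℝ (bas 1) x| := by
    intro x
    conv_lhs => rw [hcoord x]
    refine (norm_add_le _ _).trans ?_
    rw [norm_smul, norm_smul, hn0, hn1, mul_one, mul_one, Real.norm_eq_abs, Real.norm_eq_abs]
  -- constants
  set C : ℝ := (2 + L * |b| + L * |c|) / κ with hC
  have hCpos : 0 < C := by
    have := mul_nonneg hL.le (abs_nonneg b)
    have := mul_nonneg hL.le (abs_nonneg c)
    apply div_pos _ hκpos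
    linarith
  -- choose μ
  obtain ⟨μ, hμ, hμ1⟩ : ∃ μ : ℝ, 0 < μ ∧ (1 + 2 * μ) ^ 2 * (J h (V p₀) + η / 2) ≤ J h (V p₀) + η := by
    have hcont : Continuous (fun μ : ℝ => (1 + 2 * μ) ^ 2 * (J h (V p₀) + η / 2)) := by fun_prop
    have h0 : (fun μ : ℝ => (1 + 2 * μ) ^ 2 * (J h (V p₀) + η / 2)) 0 < J h (V p₀) + η := by
      simp only [mul_zero, add_zero, one_pow, one_mul]
      linarith
    have hev := hcont.continuousAt.eventually (gt_mem_nhds h0 : ∀ᶠ y in 𝓝 _, y < J h (V p₀) + η)
    rw [Metric.eventually_nhds_iff] at hev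
    obtain ⟨ε, hε, hball⟩ := hev
    refine ⟨ε / 2, by positivity, ?_⟩
    have := hball (y := ε / 2) (by
      rw [Real.dist_eq, sub_zero, abs_of_pos (by positivity)]; linarith)
    exact this.le
  set δ : ℝ := μ / (L * C) with hδ
  have hδpos : 0 < δ := by positivity
  have hLδ : L * (δ * C) = μ := by
    rw [hδ]; field_simp
  -- choose r
  obtain ⟨r, hr, hr1, hr2⟩ : ∃ r : ℝ, 0 < r ∧
      (∀ p ∈ Metric.ball p₀ r, ∀ q ∈ Metric.ball p₀ r, ‖V p - V q - A (p - q)‖ ≤ δ * ‖p - q‖) ∧
      ∀ q ∈ Metric.ball p₀ r, J h (V q) ≤ J h (V p₀) + η / 2 := by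
    have h1 := hV.isLittleO.def hδpos
    have hVc : ContinuousAt V p₀ := hV.hasFDerivAt.continuousAt
    have h2 : ∀ᶠ q in 𝓝 p₀, J h (V q) < J h (V p₀) + η / 2 := by
      have := ((J_continuous h).continuousAt.comp hVc).eventually
        (gt_mem_nhds (show (J h ∘ V) p₀ < J h (V p₀) + η / 2 by simp only [Function.comp]; linarith))
      exact this
    rw [Metric.eventually_nhds_iff] at h1 h2
    obtain ⟨r1, hr1, hb1⟩ := h1
    obtain ⟨r2, hr2, hb2⟩ := h2
    refine ⟨min r1 r2, lt_min hr1 hr2, ?_, ?_⟩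
    · intro p hp q hq
      have hp' : dist p p₀ < r1 := lt_of_lt_of_le hp (min_le_left _ _)
      have hq' : dist q p₀ < r1 := lt_of_lt_of_le hq (min_le_left _ _)
      have := hb1 (y := (p, q)) (by
        rw [Prod.dist_eq]; exact max_lt hp' hq')
      exact this
    · intro q hq
      exact (hb2 (lt_of_lt_of_le hq (min_le_right _ _))).le
  refine ⟨r, hr, ?_⟩
  intro K hK hKr η' hη'
  -- choose t
  obtain ⟨t, ht, ht1, ht2⟩ : ∃ t : ℝ, 0 < t ∧ Metric.cthickening ((C + 2) * t) K ⊆ Metric.ball p₀ r ∧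
      (volume (Metric.cthickening ((C + 2) * t) K)).toReal ≤ (volume K).toReal + η' := by
    obtain ⟨d, hd, hd1⟩ := hK.exists_cthickening_subset_open Metric.isOpen_ball hKr
    have h1 := tendsto_measure_cthickening_of_isCompact (μ := (volume : Measure E2)) hK
    have h2 : Filter.Tendsto (fun r => (volume (Metric.cthickening r K)).toReal) (𝓝 0)
        (𝓝 (volume K).toReal) := (ENNReal.tendsto_toReal hK.measure_lt_top.ne).comp h1
    have h3 := h2.eventually (gt_mem_nhds (show (volume K).toReal < (volume K).toReal + η' by linarith))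
    rw [Metric.eventually_nhds_iff] at h3
    obtain ⟨d', hd', hd2⟩ := h3
    set ρ : ℝ := min d (d' / 2) with hρ
    have hρpos : 0 < ρ := lt_min hd (by positivity)
    refine ⟨ρ / (C + 2), by positivity, ?_, ?_⟩
    · have : (C + 2) * (ρ / (C + 2)) = ρ := by field_simp
      rw [this]
      exact (Metric.cthickening_mono (min_le_left _ _) K).trans hd1
    · have : (C + 2) * (ρ / (C + 2)) = ρ := by field_simp
      rw [this]
      refine (hd2 ?_).le
      rw [Real.dist_eq, sub_zero, abs_of_pos hρpos]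
      exact lt_of_le_of_lt (min_le_right _ _) (by linarith)
  -- the index set
  let Q : ℤ × ℤ → E2 := fun p => (t * p.1) • bas 0 + (t * p.2) • bas 1
  have hQ0 : ∀ p, inner ℝ (bas 0) (Q p) = t * p.1 := by
    intro p
    simp only [Q]
    rw [inner_add_right, inner_smul_right, inner_smul_right, h00, h01]; ring
  have hQ1 : ∀ p, inner ℝ (bas 1) (Q p) = t * p.2 := by
    intro p
    simp only [Q]
    rw [inner_add_right, inner_smul_right, inner_smul_right, h10, h11]; ring
  have hIfin : {p : ℤ × ℤ | Q p ∈ Metric.cthickening (C * t) K}.Finite := by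
    have hb : Bornology.IsBounded (Metric.cthickening (C * t) K) := hK.isBounded.cthickening
    obtain ⟨R, hR⟩ := hb.subset_closedBall 0
    have hsub : {p : ℤ × ℤ | Q p ∈ Metric.cthickening (C * t) K} ⊆
        (Set.Icc (-⌈R / t⌉) ⌈R / t⌉) ×ˢ (Set.Icc (-⌈R / t⌉) ⌈R / t⌉) := by
      intro p hp
      have hp1 : ‖Q p‖ ≤ R := by simpa using hR hp
      have aux : ∀ m : ℤ, |t * (m : ℝ)| ≤ R → m ∈ Set.Icc (-⌈R / t⌉) ⌈R / t⌉ := by
        intro m hm
        rw [abs_mul, abs_of_pos ht] at hm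
        have h1 : |(m : ℝ)| ≤ R / t := by
          rw [le_div_iff₀ ht]; linarith
        have h2 : R / t ≤ ⌈R / t⌉ := Int.le_ceil _
        have h3 := abs_le.mp (h1.trans h2)
        constructor
        · exact_mod_cast h3.1
        · exact_mod_cast h3.2
      refine ⟨aux _ ?_, aux _ ?_⟩
      · rw [← hQ0]; exact (hle0 _).trans hp1
      · rw [← hQ1]; exact (hle1 _).trans hp1
    exact ((Set.finite_Icc _ _).prod (Set.finite_Icc _ _)).subset hsub
  set I : Finset (ℤ × ℤ) := hIfin.toFinset with hI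
  have hImem : ∀ p, p ∈ I ↔ Q p ∈ Metric.cthickening (C * t) K := by
    intro p; simp [hI]
  have hQball : ∀ p ∈ I, Q p ∈ Metric.ball p₀ r := by
    intro p hp
    apply ht1
    refine Metric.cthickening_mono ?_ K ((hImem p).mp hp)
    nlinarith
  have hcard : (I.card : ℝ) * t ^ 2 ≤ (volume K).toReal + η' := by
    refine (count_le bas t ht I (Metric.cthickening ((C + 2) * t) K) ?_ ?_).trans ht2
    · intro p hp x hx
      have hp1 := (hImem p).mp hp
      have hd : dist x (Q p) ≤ 2 * t := by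
        rw [dist_eq_norm]
        refine (hnorm _).trans ?_
        rw [inner_sub_right, inner_sub_right, hQ0, hQ1]
        obtain ⟨⟨e1, e2⟩, ⟨e3, e4⟩⟩ := hx
        rw [abs_of_nonneg (by linarith), abs_of_nonneg (by linarith)]
        linarith
      have h1 : x ∈ Metric.cthickening (2 * t) (Metric.cthickening (C * t) K) :=
        Metric.mem_cthickening_of_dist_le x (Q p) (2 * t) _ hp1 hd
      have h2 := Metric.cthickening_cthickening_subset (show 0 ≤ 2 * t by positivity)
        (show 0 ≤ C * t by positivity) K h1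
      have e : 2 * t + C * t = (C + 2) * t := by ring
      rwa [e] at h2
    · exact hK.isBounded.cthickening.measure_lt_top.ne
  refine ⟨I, inferInstance, fun p => (t * p.1.1 - μ * t) • bas 0 + (t * p.1.2 - μ * t) • bas 1,
    fun _ => ((1 + 2 * μ) * t) • bas 0, fun _ => ((1 + 2 * μ) * t) • bas 1, fun p => V (Q p.1), ?_, ?_, ?_⟩
  · intro i
    have hpos : 0 < (1 + 2 * μ) * t := by positivity
    refine ⟨?_, ?_, ?_⟩
    · intro h0
      have := congrArg norm h0
      rw [norm_smul, hn0, norm_zero, mul_one, Real.norm_eq_abs, abs_of_pos hpos] at this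
      linarith
    · rw [norm_smul, norm_smul, hn0, hn1]
    · rw [inner_smul_left, inner_smul_right, h01]; simp
  · -- the cover
    rintro ⟨s, ξ⟩ ⟨p, hp, hs, hξ⟩
    simp only at hs hξ
    set x₀ : ℝ := inner ℝ (bas 0) p with hx₀
    set y₀ : ℝ := inner ℝ (bas 1) p with hy₀
    have hs2 : s ^ 2 ≤ L ^ 2 := by
      rw [← sq_abs s]
      exact pow_le_pow_left₀ (abs_nonneg s) hs 2
    have hsbc : 0 ≤ (s * b) * (s * c) := by
      have : (s * b) * (s * c) = s ^ 2 * (b * c) := by ring
      rw [this]; positivity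
    have hsbc1 : (s * b) * (s * c) < 1 := by
      have : (s * b) * (s * c) = s ^ 2 * (b * c) := by ring
      rw [this]
      nlinarith
    obtain ⟨m, n, hm0, hm1, hn0', hn1'⟩ := lattice_cover (s * b) (s * c) hsbc hsbc1
      ((x₀ + s * b * y₀) / t) ((y₀ + s * c * x₀) / t)
    set dx : ℝ := x₀ - t * m with hdx
    set dy : ℝ := y₀ - t * n with hdy
    have eX : (x₀ + s * b * y₀) / t - m - s * b * n = (dx + s * b * dy) / t := by
      rw [hdx, hdy]; field_simp; ring
    have eY : (y₀ + s * c * x₀) / t - n - s * c * m = (dy + s * c * dx) / t := by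
      rw [hdx, hdy]; field_simp; ring
    rw [eX] at hm0 hm1
    rw [eY] at hn0' hn1'
    have hX0 : 0 ≤ dx + s * b * dy := by
      have := mul_nonneg hm0 ht.le
      rwa [div_mul_cancel₀ _ ht.ne'] at this
    have hX1 : dx + s * b * dy ≤ t := by
      rwa [div_le_one ht] at hm1
    have hY0 : 0 ≤ dy + s * c * dx := by
      have := mul_nonneg hn0' ht.le
      rwa [div_mul_cancel₀ _ ht.ne'] at this
    have hY1 : dy + s * c * dx ≤ t := by
      rwa [div_le_one ht] at hn1'
    set X : ℝ := dx + s * b * dy with hX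
    set Y : ℝ := dy + s * c * dx with hY
    have hdxe : (1 - s ^ 2 * (b * c)) * dx = X - s * b * Y := by rw [hX, hY]; ring
    have hdye : (1 - s ^ 2 * (b * c)) * dy = Y - s * c * X := by rw [hX, hY]; ring
    have hκs : κ ≤ 1 - s ^ 2 * (b * c) := by rw [hκ]; nlinarith
    have hbnd : ∀ (β d Z W : ℝ), (1 - s ^ 2 * (b * c)) * d = Z - s * β * W → 0 ≤ Z → Z ≤ t → 0 ≤ W →
        W ≤ t → κ * |d| ≤ t * (1 + L * |β|) := by
      intro β d Z W hd hZ0 hZ1 hW0 hW1
      have h1 : κ * |d| ≤ |(1 - s ^ 2 * (b * c)) * d| := by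
        rw [abs_mul, abs_of_nonneg (by linarith : 0 ≤ 1 - s ^ 2 * (b * c))]
        exact mul_le_mul_of_nonneg_right hκs (abs_nonneg d)
      rw [hd] at h1
      have h2 : |Z - s * β * W| ≤ |Z| + |s * β * W| := abs_sub _ _
      have h3 : |s * β * W| ≤ L * |β| * t := by
        rw [abs_mul, abs_mul, abs_of_nonneg hW0]
        have := mul_le_mul hs (le_refl |β|) (abs_nonneg β) hL.le
        exact mul_le_mul this hW1 hW0 (by positivity)
      rw [abs_of_nonneg hZ0] at h2
      nlinarith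
    have hdxb := hbnd b dx X Y hdxe hX0 hX1 hY0 hY1
    have hdyb := hbnd c dy Y X hdye hY0 hY1 hX0 hX1
    have hi0' : inner ℝ (bas 0) (p - Q (m, n)) = dx := by
      rw [inner_sub_right, hQ0]
    have hi1' : inner ℝ (bas 1) (p - Q (m, n)) = dy := by
      rw [inner_sub_right, hQ1]
    have hdist : ‖p - Q (m, n)‖ ≤ C * t := by
      refine (hnorm _).trans ?_
      rw [hi0', hi1']
      have : C * t = (t * (1 + L * |b|) + t * (1 + L * |c|)) / κ := by
        rw [hC]; field_simp; ring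
      rw [this, le_div_iff₀ hκpos]
      nlinarith
    have hmem : (m, n) ∈ I := by
      rw [hImem]
      refine Metric.mem_cthickening_of_dist_le _ p (C * t) _ hp ?_
      rw [dist_comm, dist_eq_norm]
      exact hdist
    have herr := hr1 p (hKr hp) (Q (m, n)) (hQball _ hmem)
    set err : E2 := V p - V (Q (m, n)) - A (p - Q (m, n)) with herr'
    have herr2 : |s| * ‖err‖ ≤ μ * t := by
      have h1 : ‖err‖ ≤ δ * (C * t) := herr.trans (mul_le_mul_of_nonneg_left hdist hδpos.le)
      calc |s| * ‖err‖ ≤ L * (δ * (C * t)) := mul_le_mul hs h1 (norm_nonneg _) hL.le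
        _ = (L * (δ * C)) * t := by ring
        _ = μ * t := by rw [hLδ]
    rw [Set.mem_iUnion]
    refine ⟨⟨(m, n), hmem⟩, ?_⟩
    have hpos : 0 < (1 + 2 * μ) * t := by positivity
    set E0 : ℝ := s * inner ℝ (bas 0) err with hE0
    set E1 : ℝ := s * inner ℝ (bas 1) err with hE1
    have hE0b : |E0| ≤ μ * t := by
      rw [hE0, abs_mul]
      exact (mul_le_mul_of_nonneg_left (hle0 err) (abs_nonneg s)).trans herr2
    have hE1b : |E1| ≤ μ * t := by
      rw [hE1, abs_mul]
      exact (mul_le_mul_of_nonneg_left (hle1 err) (abs_nonneg s)).trans herr2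
    have hE0c := abs_le.mp hE0b
    have hE1c := abs_le.mp hE1b
    refine ⟨(X + E0 + μ * t) / ((1 + 2 * μ) * t), ⟨?_, ?_⟩, (Y + E1 + μ * t) / ((1 + 2 * μ) * t), ⟨?_, ?_⟩, ?_⟩
    · apply div_nonneg _ hpos.le; linarith
    · rw [div_le_one hpos]; linarith
    · apply div_nonneg _ hpos.le; linarith
    · rw [div_le_one hpos]; linarith
    · simp only
      rw [hξ, smul_smul, smul_smul, div_mul_cancel₀ _ hpos.ne', div_mul_cancel₀ _ hpos.ne']
      have hVp : V p = V (Q (m, n)) + A (p - Q (m, n)) + err := by rw [herr']; abel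
      have hAe : A (p - Q (m, n)) = (b * dy) • bas 0 + (c * dx) • bas 1 := by
        rw [hAx, hi0', hi1']
      have herre : err = (inner ℝ (bas 0) err) • bas 0 + (inner ℝ (bas 1) err) • bas 1 := hcoord err
      have hpe : p = (dx + t * m) • bas 0 + (dy + t * n) • bas 1 := by
        have := hcoord p
        rw [hdx, hdy]
        simpa using this
      rw [hVp, hAe]
      conv_lhs => rw [herre, hpe]
      rw [hX, hY, hE0, hE1]
      module
  · -- the cost
    simp only
    have hterm : ∀ i ∈ (Finset.univ : Finset I), ‖((1 + 2 * μ) * t) • bas 0‖ ^ 2 * J h (V (Q i.1)) ≤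
        t ^ 2 * (J h (V p₀) + η) := by
      intro i _
      have hpos : 0 < (1 + 2 * μ) * t := by positivity
      rw [norm_smul, hn0, mul_one, Real.norm_eq_abs, abs_of_pos hpos]
      have h1 := hr2 _ (hQball i.1 i.2)
      calc ((1 + 2 * μ) * t) ^ 2 * J h (V (Q i.1)) ≤ ((1 + 2 * μ) * t) ^ 2 * (J h (V p₀) + η / 2) := by
            apply mul_le_mul_of_nonneg_left h1; positivity
        _ = t ^ 2 * ((1 + 2 * μ) ^ 2 * (J h (V p₀) + η / 2)) := by ring
        _ ≤ t ^ 2 * (J h (V p₀) + η) := by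
            apply mul_le_mul_of_nonneg_left hμ1; positivity
    refine (Finset.sum_le_sum hterm).trans ?_
    rw [Finset.sum_const, Finset.card_univ, Fintype.card_coe, nsmul_eq_mul]
    have hJ := J_pos h (V p₀)
    calc (I.card : ℝ) * (t ^ 2 * (J h (V p₀) + η)) = (J h (V p₀) + η) * (I.card * t ^ 2) := by ring
      _ ≤ (J h (V p₀) + η) * ((volume K).toReal + η') := by
          apply mul_le_mul_of_nonneg_left hcard; linarith

end Crest.Agent.H20Local
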