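import Mathlib
import Crest.Agent.H20Local

set_option autoImplicit false

open MeasureTheory Module
open scoped ENNReal RealInnerProductSpace Topology

namespace Crest.Agent.H20Global

open Crest.Agent.H20Frame Crest.Agent.H20Local

lemma CoverCost.mono {h : ℝ} {E E' : Set (ℝ × E2)} {C C' : ℝ} (hE : E ⊆ E') (hC : C' ≤ C)
    (H : CoverCost h E' C') : CoverCost h E C := by
  obtain ⟨ι, hι, c, a, b, g, h1, h2, h3⟩ := H
  exact ⟨ι, hι, c, a, b, g, h1, hE.trans h2, h3.trans hC⟩

lemma CoverCost.empty (h : ℝ) {C : ℝ} (hC : 0 ≤ C) : CoverCost h (∅ : Set (ℝ × E2)) C :=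
  ⟨Empty, inferInstance, Empty.elim, Empty.elim, Empty.elim, Empty.elim, fun i => i.elim,
    Set.empty_subset _, by simpa using hC⟩

lemma CoverCost.union {h : ℝ} {E E' : Set (ℝ × E2)} {C C' : ℝ}
    (H : CoverCost h E C) (H' : CoverCost h E' C') : CoverCost h (E ∪ E') (C + C') := by
  obtain ⟨ι, hι, c, a, b, g, h1, h2, h3⟩ := H
  obtain ⟨ι', hι', c', a', b', g', h1', h2', h3'⟩ := H'
  refine ⟨ι ⊕ ι', inferInstance, Sum.elim c c', Sum.elim a a', Sum.elim b b', Sum.elim g g', ?_, ?_, ?_⟩
  · rintro (i | i)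
    · exact h1 i
    · exact h1' i
  · rintro z (hz | hz)
    · obtain ⟨i, hi⟩ := Set.mem_iUnion.mp (h2 hz)
      exact Set.mem_iUnion.mpr ⟨Sum.inl i, hi⟩
    · obtain ⟨i, hi⟩ := Set.mem_iUnion.mp (h2' hz)
      exact Set.mem_iUnion.mpr ⟨Sum.inr i, hi⟩
  · rw [Fintype.sum_sum_type]
    exact add_le_add h3 h3'

lemma Ruled_union (L : ℝ) (V : E2 → E2) (K K' : Set E2) :
    Ruled L V (K ∪ K') = Ruled L V K ∪ Ruled L V K' := by
  ext z
  constructor
  · rintro ⟨p, hp | hp, h1, h2⟩
    · exact Or.inl ⟨p, hp, h1, h2⟩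
    · exact Or.inr ⟨p, hp, h1, h2⟩
  · rintro (⟨p, hp, h1, h2⟩ | ⟨p, hp, h1, h2⟩)
    · exact ⟨p, Or.inl hp, h1, h2⟩
    · exact ⟨p, Or.inr hp, h1, h2⟩

set_option maxHeartbeats 1000000 in
theorem global_cover
    (D : Set E2) (hD : IsCompact D) (V : E2 → E2) (U : Set E2)
    (hU : IsOpen U) (hDU : D ⊆ U) (hV : ContDiffOn ℝ 1 V U) (L h : ℝ) (hL : 0 < L)
    (htr : ∀ p ∈ D, LinearMap.trace ℝ _ (fderiv ℝ V p).toLinearMap = 0)
    (hdet : ∀ p ∈ D, -(L ^ 2)⁻¹ < LinearMap.det (fderiv ℝ V p).toLinearMap ∧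
      LinearMap.det (fderiv ℝ V p).toLinearMap ≤ 0)
    (ε : ℝ) (hε : 0 < ε) :
    CoverCost h (Ruled L V D) ((∫ p in D, J h (V p)) + ε) := by
  -- continuity facts
  have hVat : ∀ p ∈ U, ContDiffAt ℝ 1 V p := fun p hp => hV.contDiffAt (hU.mem_nhds hp)
  have hJc : ContinuousOn (fun p => J h (V p)) D := fun p hp =>
    (((J_continuous h).continuousAt.comp (hVat p (hDU hp)).continuousAt)).continuousWithinAt
  have hJi : IntegrableOn (fun p => J h (V p)) D := hJc.integrableOn_compact hD
  have hDfin : volume D ≠ ⊤ := hD.measure_lt_top.ne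
  -- the tolerance
  set v : ℝ := (volume D).toReal with hv
  have hv0 : 0 ≤ v := ENNReal.toReal_nonneg
  set η : ℝ := ε / (4 * (v + 1)) with hη
  have hηpos : 0 < η := by positivity
  have hηv : 2 * η * v ≤ ε / 2 := by
    have : 2 * η * v = (ε / 2) * (v / (v + 1)) := by rw [hη]; field_simp; ring
    rw [this]
    have h1 : v / (v + 1) ≤ 1 := by rw [div_le_one (by positivity)]; linarith
    nlinarith
  -- local radii
  have hloc : ∀ p : E2, ∃ r : ℝ, 0 < r ∧ (p ∈ D →
      (∀ q ∈ Metric.ball p r, J h (V p) ≤ J h (V q) + η) ∧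
      ∀ K : Set E2, IsCompact K → K ⊆ Metric.ball p r → ∀ η' : ℝ, 0 < η' →
      CoverCost h (Ruled L V K) ((J h (V p) + η) * ((volume K).toReal + η'))) := by
    intro p
    by_cases hp : p ∈ D
    · have hs := (hVat p (hDU hp)).hasStrictFDerivAt (by norm_num)
      obtain ⟨r1, hr1, H1⟩ := local_cover L h hL V p (fderiv ℝ V p) hs (htr p hp) (hdet p hp) η hηpos
      have hc : ContinuousAt (fun q => J h (V q)) p :=
        (J_continuous h).continuousAt.comp (hVat p (hDU hp)).continuousAt
      have h2 := hc.eventually (lt_mem_nhds (show J h (V p) - η < J h (V p) by linarith))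
      rw [Metric.eventually_nhds_iff] at h2
      obtain ⟨r2, hr2, H2⟩ := h2
      refine ⟨min r1 r2, lt_min hr1 hr2, fun _ => ⟨?_, ?_⟩⟩
      · intro q hq
        have := H2 (lt_of_lt_of_le (Metric.mem_ball.mp hq) (min_le_right _ _))
        linarith
      · intro K hK hKr
        exact H1 K hK (hKr.trans (Metric.ball_subset_ball (min_le_left _ _)))
    · exact ⟨1, one_pos, fun h => absurd h hp⟩
  choose r hr hloc using hloc
  -- the density
  set f : E2 → ℝ := fun p => J h (V p) + 2 * η with hf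
  have hfi : IntegrableOn f D := hJi.add (integrableOn_const hDfin)
  have hf0 : ∀ p, 0 ≤ f p := fun p => by
    have := J_pos h (V p)
    simp only [hf]; linarith
  have hf1 : ∀ p, f p ≤ 1 + 2 * η := fun p => by
    have := J_le_one h (V p)
    simp only [hf]; linarith
  -- the induction
  have key : ∀ t : Finset E2, (∀ x ∈ t, x ∈ D) → ∀ K : Set E2, IsCompact K → K ⊆ D →
      K ⊆ ⋃ x ∈ t, Metric.ball x (r x) → ∀ ε' : ℝ, 0 < ε' →
      CoverCost h (Ruled L V K) ((∫ p in K, f p) + ε') := by
    intro t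
    induction t using Finset.induction_on with
    | empty =>
      intro _ K _ _ hKs ε' hε'
      have hK0 : K = ∅ := by
        apply Set.subset_empty_iff.mp
        simpa using hKs
      subst hK0
      have : Ruled L V (∅ : Set E2) = ∅ := by
        ext z; simp [Ruled]
      rw [this]
      exact CoverCost.empty h (by simpa using hε'.le)
    | insert x t hx ih =>
      intro htD K hK hKD hKs ε' hε'
      have htD' : ∀ y ∈ t, y ∈ D := fun y hy => htD y (Finset.mem_insert_of_mem hy)
      have hxD : x ∈ D := htD x (Finset.mem_insert_self _ _)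
      obtain ⟨hx1, hx2⟩ := hloc x hxD
      set W : Set E2 := ⋃ y ∈ t, Metric.ball y (r y) with hW
      have hWo : IsOpen W := isOpen_biUnion fun y _ => Metric.isOpen_ball
      have hKxW : K ⊆ Metric.ball x (r x) ∪ W := by
        intro z hz
        have := hKs hz
        simpa [hW] using this
      set K' : Set E2 := K \ Metric.ball x (r x) with hK'
      have hK'c : IsCompact K' := hK.diff Metric.isOpen_ball
      have hK'W : K' ⊆ W := by
        rintro z ⟨hz1, hz2⟩
        exact (hKxW hz1).resolve_left hz2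
      set ε2 : ℝ := ε' / (4 * (1 + 2 * η)) with hε2
      have hε2pos : 0 < ε2 := by positivity
      obtain ⟨O1, hO1, hO1o, hO1v⟩ := Set.exists_isOpen_lt_add K' (μ := (volume : Measure E2))
        hK'c.measure_lt_top.ne (ε := ENNReal.ofReal ε2) (by
          simp only [ne_eq, ENNReal.ofReal_eq_zero, not_le]; exact hε2pos)
      obtain ⟨M, hM, hM1, hM2⟩ := exists_compact_between hK'c (hO1o.inter hWo)
        (Set.subset_inter hO1 hK'W)
      set K1 : Set E2 := K \ interior M with hK1
      set K2 : Set E2 := K ∩ M with hK2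
      have hK1c : IsCompact K1 := hK.diff isOpen_interior
      have hK2c : IsCompact K2 := hK.inter hM
      have hKU : K = K1 ∪ K2 := by
        ext z
        constructor
        · intro hz
          by_cases hzM : z ∈ interior M
          · exact Or.inr ⟨hz, interior_subset hzM⟩
          · exact Or.inl ⟨hz, hzM⟩
        · rintro (hz | hz)
          · exact hz.1
          · exact hz.1
      have hK1b : K1 ⊆ Metric.ball x (r x) := by
        rintro z ⟨hz1, hz2⟩
        by_contra hz3
        exact hz2 (hM1 ⟨hz1, hz3⟩)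
      have hK2W : K2 ⊆ W := fun z hz => (hM2 hz.2).2
      have hK12 : K1 ∩ K2 ⊆ O1 \ K' := by
        rintro z ⟨⟨hz1, hz2⟩, ⟨hz3, hz4⟩⟩
        exact ⟨(hM2 hz4).1, fun hz5 => hz2 (hM1 hz5)⟩
      have hvol12 : (volume (K1 ∩ K2)).toReal ≤ ε2 := by
        have h1 : volume (O1 \ K') < ENNReal.ofReal ε2 := by
          rw [measure_sdiff hO1 hK'c.measurableSet.nullMeasurableSet hK'c.measure_lt_top.ne]
          exact ENNReal.sub_lt_of_lt_add (measure_mono hO1) (by rwa [add_comm] at hO1v)
        have h2 := (measure_mono hK12).trans h1.le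
        exact ENNReal.toReal_le_of_le_ofReal hε2pos.le h2
      have hK1D : K1 ⊆ D := fun z hz => hKD hz.1
      have hK2D : K2 ⊆ D := fun z hz => hKD hz.1
      -- costs
      set v1 : ℝ := (volume K1).toReal with hv1
      have hv1fin : volume K1 ≠ ⊤ := hK1c.measure_lt_top.ne
      have hJx : 0 < J h (V x) + η := by
        have := J_pos h (V x); linarith
      have hcost1 : CoverCost h (Ruled L V K1) ((∫ p in K1, f p) + ε' / 4) := by
        refine CoverCost.mono (subset_refl _) ?_ (hx2 K1 hK1c hK1b (ε' / (4 * (J h (V x) + η))) (by positivity))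
        have h1 : (J h (V x) + η) * (v1 + ε' / (4 * (J h (V x) + η))) = (J h (V x) + η) * v1 + ε' / 4 := by
          field_simp
        rw [h1]
        have h2 : (J h (V x) + η) * v1 ≤ ∫ p in K1, f p := by
          have h3 : ∫ _ in K1, (J h (V x) + η) = (J h (V x) + η) * v1 := by
            rw [setIntegral_const, smul_eq_mul, mul_comm]
            rfl
          rw [← h3]
          apply setIntegral_mono_on (integrableOn_const hv1fin) (hfi.mono_set hK1D) hK1c.measurableSet
          intro q hq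
          have := hx1 q (hK1b hq)
          simp only [hf]
          linarith
        linarith
      have hcost2 : CoverCost h (Ruled L V K2) ((∫ p in K2, f p) + ε' / 4) :=
        ih htD' K2 hK2c hK2D hK2W (ε' / 4) (by positivity)
      have hsum : (∫ p in K1, f p) + (∫ p in K2, f p) ≤ (∫ p in K, f p) + ε' / 4 := by
        have h1 : (∫ p in K2, f p) = (∫ p in K2 ∩ K1, f p) + ∫ p in K2 \ K1, f p :=
          (integral_inter_add_sdiff hK1c.measurableSet (hfi.mono_set hK2D)).symm
        have h2 : (∫ p in K, f p) = (∫ p in K1, f p) + ∫ p in K2 \ K1, f p := by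
          have h3 : K = K1 ∪ (K2 \ K1) := by rw [Set.union_sdiff_self, ← hKU]
          conv_lhs => rw [h3]
          rw [setIntegral_union Set.disjoint_sdiff_right (hK2c.measurableSet.diff hK1c.measurableSet)
            (hfi.mono_set hK1D) (hfi.mono_set (Set.sdiff_subset.trans hK2D))]
        have h4 : (∫ p in K2 ∩ K1, f p) ≤ ε' / 4 := by
          have h5 := norm_setIntegral_le_of_norm_le_const (μ := volume) (s := K2 ∩ K1) (f := f)
            (C := 1 + 2 * η) (lt_of_le_of_lt (measure_mono Set.inter_subset_right) hK1c.measure_lt_top)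
            (fun q _ => by
              rw [Real.norm_eq_abs, abs_of_nonneg (hf0 q)]; exact hf1 q)
          have h6 : volume.real (K2 ∩ K1) ≤ ε2 := by
            rw [Set.inter_comm]; exact hvol12
          calc (∫ p in K2 ∩ K1, f p) ≤ ‖∫ p in K2 ∩ K1, f p‖ := Real.le_norm_self _
            _ ≤ (1 + 2 * η) * volume.real (K2 ∩ K1) := h5
            _ ≤ (1 + 2 * η) * ε2 := by
                apply mul_le_mul_of_nonneg_left h6; positivity
            _ = ε' / 4 := by rw [hε2]; field_simp
        linarith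
      have hR : Ruled L V K = Ruled L V K1 ∪ Ruled L V K2 := by
        rw [← Ruled_union, ← hKU]
      rw [hR]
      exact CoverCost.mono (subset_refl _) (by linarith) (CoverCost.union hcost1 hcost2)
  -- conclusion
  obtain ⟨t, htD, htc⟩ := hD.elim_nhds_subcover (fun p => Metric.ball p (r p))
    (fun p _ => Metric.ball_mem_nhds p (hr p))
  refine CoverCost.mono (subset_refl _) ?_ (key t htD D hD (subset_refl _) htc (ε / 2) (by positivity))
  have : ∫ p in D, f p = (∫ p in D, J h (V p)) + 2 * η * v := by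
    simp only [hf]
    rw [integral_add hJi (integrableOn_const hDfin), setIntegral_const, smul_eq_mul,
      mul_comm (volume.real D)]
    rfl
  rw [this]
  linarith

/-- the same with the index type `Fin k` -/
lemma CoverCost.toFin {h : ℝ} {E : Set (ℝ × E2)} {C : ℝ} (H : CoverCost h E C) :
    ∃ (k : ℕ) (c a b g : Fin k → E2),
    (∀ i, a i ≠ 0 ∧ ‖b i‖ = ‖a i‖ ∧ inner ℝ (a i) (b i) = 0) ∧
    E ⊆ ⋃ i, Shear (c i) (a i) (b i) (g i) ∧ ∑ i, ‖a i‖ ^ 2 * J h (g i) ≤ C := by
  obtain ⟨ι, hι, c, a, b, g, h1, h2, h3⟩ := H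
  let e := (Fintype.equivFin ι).symm
  refine ⟨Fintype.card ι, c ∘ e, a ∘ e, b ∘ e, g ∘ e, fun i => h1 (e i), ?_, ?_⟩
  · intro z hz
    obtain ⟨i, hi⟩ := Set.mem_iUnion.mp (h2 hz)
    refine Set.mem_iUnion.mpr ⟨e.symm i, ?_⟩
    simpa using hi
  · refine le_trans (le_of_eq ?_) h3
    exact Equiv.sum_comp e (fun i => ‖a i‖ ^ 2 * J h (g i))

end Crest.Agent.H20Global
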