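import Mathlib
import Crest.Agent.H17Area
import Crest.Agent.H17Cyl
import Crest.Agent.H20Global

set_option autoImplicit false

open MeasureTheory MeasureTheory.Measure Module
open scoped ENNReal RealInnerProductSpace Topology

namespace Crest.Agent.H20Open

open Crest.Agent.H17Area Crest.Agent.H17Cyl Crest.Agent.H20Local Crest.Agent.H20Global

/-- direction -/
noncomputable def dir (h : ℝ) (g : E2) : E3 := !₂[1, g 0, h * g 1]

/-- lift of a planar point -/
noncomputable def lift (h : ℝ) (ξ : E2) : E3 := !₂[0, ξ 0, h * ξ 1]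

lemma dir_ne_zero (h : ℝ) (g : E2) : dir h g ≠ 0 := by
  intro h0
  have := congrArg (fun z : E3 => z 0) h0
  simp [dir] at this

lemma norm_dir (h : ℝ) (g : E2) : ‖dir h g‖ = Real.sqrt (1 + (g 0) ^ 2 + h ^ 2 * (g 1) ^ 2) := by
  rw [← Real.sqrt_sq (norm_nonneg (dir h g)), normsq3]
  congr 1
  simp [dir]
  ring

lemma lift_comb (h : ℝ) (c a b : E2) (s t : ℝ) :
    lift h (c + s • a + t • b) = lift h c + s • lift h a + t • lift h b := by
  ext i
  fin_cases i <;> simp [lift]
  ring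

/-- open base -/
noncomputable def base (h η : ℝ) (c a b g : E2) : Set E3 :=
  (fun p : E2 => projAlong (dir h g) (lift h c) + p 0 • projAlong (dir h g) (lift h a) +
    p 1 • projAlong (dir h g) (lift h b)) '' {p | p 0 ∈ Set.Ioo (-η) (1 + η) ∧ p 1 ∈ Set.Ioo (-η) (1 + η)}

lemma mem_base (h η : ℝ) (c a b g : E2) (s t : ℝ) (hs : s ∈ Set.Ioo (-η) (1 + η))
    (ht : t ∈ Set.Ioo (-η) (1 + η)) :
    projAlong (dir h g) (lift h (c + s • a + t • b)) ∈ base h η c a b g := by
  refine ⟨!₂[s, t], ⟨by simpa using hs, by simpa using ht⟩, ?_⟩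
  rw [lift_comb, projAlong_add, projAlong_add, projAlong_smul, projAlong_smul]
  simp

lemma volume_openbox (η : ℝ) (hη : 0 < η) :
    volume {p : E2 | p 0 ∈ Set.Ioo (-η) (1 + η) ∧ p 1 ∈ Set.Ioo (-η) (1 + η)} =
      ENNReal.ofReal ((1 + 2 * η) ^ 2) := by
  have h := (PiLp.volume_preserving_ofLp (Fin 2)).measure_preimage
    (s := Set.pi Set.univ ![Set.Ioo (-η) (1 + η), Set.Ioo (-η) (1 + η)]) (by
      apply MeasurableSet.nullMeasurableSet
      apply MeasurableSet.univ_pi
      intro i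
      fin_cases i <;> simp)
  rw [volume_pi_pi, Fin.prod_univ_two] at h
  simp only [Matrix.cons_val_zero, Matrix.cons_val_one, Real.volume_Ioo] at h
  have e : ENNReal.ofReal ((1 + 2 * η) ^ 2) =
      ENNReal.ofReal (1 + η - -η) * ENNReal.ofReal (1 + η - -η) := by
    rw [← ENNReal.ofReal_mul (by linarith)]
    congr 1
    ring
  rw [e, ← h]
  congr 1
  ext p
  simp [Set.mem_pi, Fin.forall_fin_two]

lemma area_base (h η : ℝ) (hh : 0 < h) (hη : 0 < η) (c a b g : E2) (hab : ‖b‖ = ‖a‖)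
    (horth : inner ℝ a b = 0) :
    (μHE[2] (base h η c a b g)).toReal = (1 + 2 * η) ^ 2 * (h * (‖a‖ ^ 2 * J h g)) := by
  unfold base
  rw [euclideanHausdorff_image_affine, volume_openbox η hη, parea_projAlong _ _ _ (dir_ne_zero h g),
    ENNReal.toReal_mul, ENNReal.toReal_ofReal (by positivity), ENNReal.toReal_ofReal (by positivity)]
  have hdet : det3 (lift h a) (lift h b) (dir h g) = h * (a 0 * b 1 - a 1 * b 0) := by
    simp [det3, lift, dir]
    ring
  have hna := Crest.Agent.H20Frame.normsq2 a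
  have hnb := Crest.Agent.H20Frame.normsq2 b
  have hin := Crest.Agent.H20Frame.inner2 a b
  have hsq : (a 0 * b 1 - a 1 * b 0) ^ 2 = (‖a‖ ^ 2) ^ 2 := by
    have h1 : (a 0 * b 1 - a 1 * b 0) ^ 2 = ‖a‖ ^ 2 * ‖b‖ ^ 2 - (inner ℝ a b) ^ 2 := by
      rw [hna, hnb, hin]; ring
    rw [h1, hab, horth]; ring
  have habs : |a 0 * b 1 - a 1 * b 0| = ‖a‖ ^ 2 := by
    rw [← Real.sqrt_sq_eq_abs, hsq, Real.sqrt_sq (by positivity)]
  rw [hdet, abs_mul, abs_of_pos hh, habs, norm_dir, J]
  ring

/-- the planar coordinate that is constant along the direction -/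
noncomputable def planar (h : ℝ) (g : E2) (z : E3) : E2 := !₂[z 1 - z 0 * g 0, z 2 / h - z 0 * g 1]

lemma continuous_planar (h : ℝ) (g : E2) : Continuous (planar h g) := by
  unfold planar
  refine (PiLp.continuous_toLp 2 (fun _ : Fin 2 => ℝ)).comp ?_
  refine continuous_pi ?_
  intro i
  fin_cases i
  · show Continuous (fun z : E3 => z 1 - z 0 * g 0)
    fun_prop
  · show Continuous (fun z : E3 => z 2 / h - z 0 * g 1)
    fun_prop

lemma planar_lift (h : ℝ) (hh : 0 < h) (g ξ : E2) (τ : ℝ) :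
    planar h g (lift h ξ - τ • dir h g) = ξ := by
  ext i
  fin_cases i
  · simp [planar, lift, dir]
  · simp [planar, lift, dir]
    field_simp
    ring

lemma lift_planar (h : ℝ) (hh : 0 < h) (g : E2) (z : E3) :
    z = lift h (planar h g z) + z 0 • dir h g := by
  ext i
  fin_cases i
  · simp [planar, lift, dir]
  · simp [planar, lift, dir]
  · simp [planar, lift, dir]
    field_simp
    ring

lemma orth_real (a0 a1 b0 b1 y0 y1 : ℝ) (hN : a0 ^ 2 + a1 ^ 2 = b0 ^ 2 + b1 ^ 2)
    (horth : a0 * b0 + a1 * b1 = 0) (hpos : 0 < a0 ^ 2 + a1 ^ 2) :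
    (a0 * y0 + a1 * y1) * a0 + (b0 * y0 + b1 * y1) * b0 = (a0 ^ 2 + a1 ^ 2) * y0 ∧
    (a0 * y0 + a1 * y1) * a1 + (b0 * y0 + b1 * y1) * b1 = (a0 ^ 2 + a1 ^ 2) * y1 := by
  have hd : (a0 * b1 - a1 * b0) ^ 2 = (a0 ^ 2 + a1 ^ 2) ^ 2 := by
    have : (a0 * b1 - a1 * b0) ^ 2 = (a0 ^ 2 + a1 ^ 2) * (b0 ^ 2 + b1 ^ 2) -
      (a0 * b0 + a1 * b1) ^ 2 := by ring
    rw [this, horth, ← hN]; ring
  rcases sq_eq_sq_iff_eq_or_eq_neg.mp hd with hd1 | hd1
  · have e1 : (b1 - a0) ^ 2 + (b0 + a1) ^ 2 = 0 := by nlinarith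
    have e2 : b1 - a0 = 0 := by nlinarith [sq_nonneg (b1 - a0), sq_nonneg (b0 + a1)]
    have e3 : b0 + a1 = 0 := by nlinarith [sq_nonneg (b1 - a0), sq_nonneg (b0 + a1)]
    have e4 : b1 = a0 := by linarith
    have e5 : b0 = -a1 := by linarith
    rw [e4, e5]
    constructor <;> ring
  · have e1 : (b1 + a0) ^ 2 + (b0 - a1) ^ 2 = 0 := by nlinarith
    have e2 : b1 + a0 = 0 := by nlinarith [sq_nonneg (b1 + a0), sq_nonneg (b0 - a1)]
    have e3 : b0 - a1 = 0 := by nlinarith [sq_nonneg (b1 + a0), sq_nonneg (b0 - a1)]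
    have e4 : b1 = -a0 := by linarith
    have e5 : b0 = a1 := by linarith
    rw [e4, e5]
    constructor <;> ring

lemma orth_expand (a b y : E2) (ha : a ≠ 0) (hab : ‖b‖ = ‖a‖) (horth : inner ℝ a b = 0) :
    y = (inner ℝ a y / ‖a‖ ^ 2) • a + (inner ℝ b y / ‖a‖ ^ 2) • b := by
  have hna : 0 < ‖a‖ := norm_pos_iff.mpr ha
  have hna' := Crest.Agent.H20Frame.normsq2 a
  have hnb' := Crest.Agent.H20Frame.normsq2 b
  have hin := Crest.Agent.H20Frame.inner2 a b
  rw [horth] at hin
  rw [hab] at hnb'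
  have hN : a 0 ^ 2 + a 1 ^ 2 = b 0 ^ 2 + b 1 ^ 2 := by rw [← hna', ← hnb']
  have hNpos : 0 < a 0 ^ 2 + a 1 ^ 2 := by rw [← hna']; positivity
  obtain ⟨h0, h1⟩ := orth_real (a 0) (a 1) (b 0) (b 1) (y 0) (y 1) hN hin.symm hNpos
  rw [Crest.Agent.H20Frame.inner2 a y, Crest.Agent.H20Frame.inner2 b y, hna']
  ext i
  fin_cases i
  · simp only [Fin.zero_eta, PiLp.add_apply, PiLp.smul_apply, smul_eq_mul]
    rw [div_mul_eq_mul_div, div_mul_eq_mul_div, ← add_div, h0, mul_div_cancel_left₀ _ hNpos.ne']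
  · simp only [Fin.mk_one, PiLp.add_apply, PiLp.smul_apply, smul_eq_mul]
    rw [div_mul_eq_mul_div, div_mul_eq_mul_div, ← add_div, h1, mul_div_cancel_left₀ _ hNpos.ne']

lemma base_relopen (h η : ℝ) (hh : 0 < h) (c a b g : E2) (ha : a ≠ 0) (hab : ‖b‖ = ‖a‖)
    (horth : inner ℝ a b = 0) :
    ∃ O : Set E3, IsOpen O ∧
      base h η c a b g = O ∩ {x | inner ℝ x (‖dir h g‖⁻¹ • dir h g) = 0} := by
  have hna : 0 < ‖a‖ := norm_pos_iff.mpr ha
  have hna2 : ‖a‖ ^ 2 ≠ 0 := by positivity
  have hw := dir_ne_zero h g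
  have hnw : ‖dir h g‖ ≠ 0 := norm_ne_zero_iff.mpr hw
  let α : E3 → ℝ := fun z => inner ℝ a (planar h g z - c) / ‖a‖ ^ 2
  let β : E3 → ℝ := fun z => inner ℝ b (planar h g z - c) / ‖a‖ ^ 2
  have hα : Continuous α := by
    have := continuous_planar h g
    exact (continuous_const.inner (this.sub continuous_const)).div_const _
  have hβ : Continuous β := by
    have := continuous_planar h g
    exact (continuous_const.inner (this.sub continuous_const)).div_const _
  refine ⟨α ⁻¹' Set.Ioo (-η) (1 + η) ∩ β ⁻¹' Set.Ioo (-η) (1 + η),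
    (isOpen_Ioo.preimage hα).inter (isOpen_Ioo.preimage hβ), ?_⟩
  have hbb : inner ℝ b b = ‖a‖ ^ 2 := by rw [real_inner_self_eq_norm_sq, hab]
  have haa : inner ℝ a a = ‖a‖ ^ 2 := real_inner_self_eq_norm_sq a
  have hba : inner ℝ b a = (0 : ℝ) := by rw [real_inner_comm]; exact horth
  ext z
  constructor
  · rintro ⟨p, ⟨hp0, hp1⟩, rfl⟩
    have hz : projAlong (dir h g) (lift h c) + p 0 • projAlong (dir h g) (lift h a) +
        p 1 • projAlong (dir h g) (lift h b) = projAlong (dir h g) (lift h (c + p 0 • a + p 1 • b)) := by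
      rw [lift_comb, projAlong_add, projAlong_add, projAlong_smul, projAlong_smul]
    simp only [hz]
    have hpl : planar h g (projAlong (dir h g) (lift h (c + p 0 • a + p 1 • b))) =
        c + p 0 • a + p 1 • b := planar_lift h hh g _ _
    have e1 : α (projAlong (dir h g) (lift h (c + p 0 • a + p 1 • b))) = p 0 := by
      simp only [α]
      rw [hpl]
      have : c + p 0 • a + p 1 • b - c = p 0 • a + p 1 • b := by abel
      rw [this, inner_add_right, inner_smul_right, inner_smul_right, haa, horth]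
      field_simp
      simp
    have e2 : β (projAlong (dir h g) (lift h (c + p 0 • a + p 1 • b))) = p 1 := by
      simp only [β]
      rw [hpl]
      have : c + p 0 • a + p 1 • b - c = p 0 • a + p 1 • b := by abel
      rw [this, inner_add_right, inner_smul_right, inner_smul_right, hba, hbb]
      field_simp
      simp
    refine ⟨⟨?_, ?_⟩, inner_unit_dir _ _ hw⟩
    · rw [Set.mem_preimage, e1]; exact hp0
    · rw [Set.mem_preimage, e2]; exact hp1
  · rintro ⟨⟨h1, h2⟩, h3⟩
    have h3' : inner ℝ z (dir h g) = 0 := by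
      have h4 : inner ℝ z (‖dir h g‖⁻¹ • dir h g) = 0 := h3
      rw [inner_smul_right] at h4
      rcases mul_eq_zero.mp h4 with h5 | h5
      · exact absurd h5 (inv_ne_zero hnw)
      · exact h5
    have hexp : planar h g z = c + α z • a + β z • b := by
      have h7 := orth_expand a b (planar h g z - c) ha hab horth
      simp only [α, β]
      rw [add_assoc, ← h7]
      abel
    have hz : z = projAlong (dir h g) (lift h (c + α z • a + β z • b)) := by
      have h5 : projAlong (dir h g) z = z := by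
        rw [projAlong, h3']; simp
      have h6 := lift_planar h hh g z
      rw [hexp] at h6
      calc z = projAlong (dir h g) z := h5.symm
        _ = projAlong (dir h g) (lift h (c + α z • a + β z • b) + z 0 • dir h g) := by rw [← h6]
        _ = _ := by rw [projAlong_add, projAlong_smul, projAlong_self _ hw, smul_zero, add_zero]
    rw [hz]
    exact mem_base h η c a b g _ _ h1 h2

lemma base_bounded (h η : ℝ) (c a b g : E2) : Bornology.IsBounded (base h η c a b g) := by
  have hc : Continuous (fun p : E2 => projAlong (dir h g) (lift h c) + p 0 • projAlong (dir h g) (lift h a) +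
    p 1 • projAlong (dir h g) (lift h b)) := by fun_prop
  have hb : Bornology.IsBounded {p : E2 | p 0 ∈ Set.Ioo (-η) (1 + η) ∧ p 1 ∈ Set.Ioo (-η) (1 + η)} := by
    rw [isBounded_iff_forall_norm_le]
    refine ⟨|1 + η| + |η| + (|1 + η| + |η|), ?_⟩
    rintro p ⟨⟨h1, h2⟩, ⟨h3, h4⟩⟩
    have e : ‖p‖ ≤ |p 0| + |p 1| := by
      rw [← Real.sqrt_sq (norm_nonneg p), Crest.Agent.H20Frame.normsq2]
      apply Real.sqrt_le_iff.mpr
      refine ⟨by positivity, ?_⟩
      have := sq_abs (p 0)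
      have := sq_abs (p 1)
      nlinarith [mul_nonneg (abs_nonneg (p 0)) (abs_nonneg (p 1))]
    have aux : ∀ y : ℝ, -η < y → y < 1 + η → |y| ≤ |1 + η| + |η| := by
      intro y hy1 hy2
      rw [abs_le]
      have := le_abs_self (1 + η)
      have := le_abs_self η
      have := abs_nonneg η
      have := abs_nonneg (1 + η)
      constructor <;> linarith
    have := aux _ h1 h2
    have := aux _ h3 h4
    linarith
  obtain ⟨R, hR⟩ := hb.subset_closedBall 0
  have hcomp : IsCompact (Metric.closedBall (0 : E2) R) := isCompact_closedBall 0 R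
  exact (hcomp.image hc).isBounded.subset (Set.image_mono hR)

end Crest.Agent.H20Open
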