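import Mathlib
import Crest.Prelude.Def_NonlocalGame
import Crest.Agent.H26OneShot

/-!
H20PRComp: the component argument of S0537 (one common vector per support component).
-/

set_option autoImplicit false

namespace Crest.H20PRComp

open scoped Kronecker ComplexOrder BigOperators
open Crest.MathPhysics.NonlocalGame
open Crest.H26OneShot

/-- squared norm of a vector given by raw sums -/
noncomputable def nsq {ι : Type*} [Fintype ι] (f : ι → ℂ) : ℝ := ∑ i, ‖f i‖ ^ 2

section vec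
variable {ι : Type*} [Fintype ι]

theorem nsq_nonneg (f : ι → ℂ) : 0 ≤ nsq f := Finset.sum_nonneg fun i _ => by positivity

theorem sqrt_nsq (f : ι → ℂ) : Real.sqrt (nsq f) = ‖(WithLp.toLp 2 f : EuclideanSpace ℂ ι)‖ := by
  rw [EuclideanSpace.norm_eq]
  rfl

theorem sqrt_nsq_sub_le (f g h : ι → ℂ) :
    Real.sqrt (nsq (f - h)) ≤ Real.sqrt (nsq (f - g)) + Real.sqrt (nsq (g - h)) := by
  simp only [sqrt_nsq, WithLp.toLp_sub]
  exact norm_sub_le_norm_sub_add_norm_sub _ _ _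

theorem sqrt_nsq_comm (f g : ι → ℂ) :
    Real.sqrt (nsq (f - g)) = Real.sqrt (nsq (g - f)) := by
  simp only [sqrt_nsq, WithLp.toLp_sub]
  exact norm_sub_rev _ _

theorem abs_sqrt_nsq_sub (f g : ι → ℂ) :
    |Real.sqrt (nsq f) - Real.sqrt (nsq g)| ≤ Real.sqrt (nsq (f - g)) := by
  simp only [sqrt_nsq, WithLp.toLp_sub]
  exact abs_norm_sub_norm_le _ _

/-- a unit vector in the direction of `φ` -/
theorem exists_unit [Nonempty ι] (φ : ι → ℂ) (s : ℝ) (hs : 0 ≤ s) :
    ∃ ψ : ι → ℂ, nsq ψ = 1 ∧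
      Real.sqrt (nsq (φ - ((s : ℝ) : ℂ) • ψ)) = |Real.sqrt (nsq φ) - s| := by
  classical
  by_cases h : nsq φ = 0
  · obtain ⟨i0⟩ := ‹Nonempty ι›
    have hφ : φ = 0 := by
      funext i
      have := (Finset.sum_eq_zero_iff_of_nonneg (fun i _ => by positivity)).1 h i
        (Finset.mem_univ i)
      simpa using this
    refine ⟨fun i => if i = i0 then 1 else 0, ?_, ?_⟩
    · unfold nsq
      rw [Finset.sum_eq_single i0]
      · simp
      · intro b _ hb; simp [hb]
      · simp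
    · rw [h, Real.sqrt_zero, zero_sub, abs_neg, abs_of_nonneg hs, hφ]
      unfold nsq
      rw [Finset.sum_eq_single i0]
      · simp [abs_of_nonneg hs, Real.sqrt_sq hs]
      · intro b _ hb; simp [hb]
      · simp
  · have hpos : 0 < nsq φ := lt_of_le_of_ne (nsq_nonneg φ) (Ne.symm h)
    set c : ℝ := Real.sqrt (nsq φ) with hc
    have hcpos : 0 < c := Real.sqrt_pos.2 hpos
    refine ⟨fun i => ((c⁻¹ : ℝ) : ℂ) * φ i, ?_, ?_⟩
    · unfold nsq
      simp only [norm_mul, mul_pow, ← Finset.mul_sum]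
      have : ∑ i, ‖φ i‖ ^ 2 = c ^ 2 := by
        rw [hc, Real.sq_sqrt hpos.le]; rfl
      rw [this, Complex.norm_real, Real.norm_eq_abs, sq_abs]
      field_simp
    · have e : φ - ((s : ℝ) : ℂ) • (fun i => ((c⁻¹ : ℝ) : ℂ) * φ i)
          = (((1 - s * c⁻¹ : ℝ)) : ℂ) • φ := by
        funext i
        simp only [Pi.sub_apply, Pi.smul_apply, smul_eq_mul]
        push_cast
        ring
      rw [e]
      have : nsq ((((1 - s * c⁻¹ : ℝ)) : ℂ) • φ) = (c - s) ^ 2 := by
        unfold nsq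
        simp only [Pi.smul_apply, smul_eq_mul, norm_mul, mul_pow, ← Finset.mul_sum]
        have : ∑ i, ‖φ i‖ ^ 2 = c ^ 2 := by
          rw [hc, Real.sq_sqrt hpos.le]; rfl
        rw [this, Complex.norm_real, Real.norm_eq_abs, sq_abs]
        field_simp
      rw [this, Real.sqrt_sq_eq_abs]

/-- quadratic form -/
noncomputable def qf (W : Matrix ι ι ℂ) (ψ : ι → ℂ) : ℝ :=
  (dotProduct (star ψ) (W.mulVec ψ)).re

theorem qf_one [DecidableEq ι] (ψ : ι → ℂ) : qf 1 ψ = nsq ψ := by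
  unfold qf nsq
  rw [Matrix.one_mulVec]
  unfold dotProduct
  rw [Complex.re_sum]
  refine Finset.sum_congr rfl fun i _ => ?_
  rw [Pi.star_apply, Complex.star_def, Complex.conj_mul']
  norm_cast

theorem qf_sub (W W' : Matrix ι ι ℂ) (ψ : ι → ℂ) : qf (W - W') ψ = qf W ψ - qf W' ψ := by
  simp [qf, Matrix.sub_mulVec, dotProduct_sub]

theorem qf_add (W W' : Matrix ι ι ℂ) (ψ : ι → ℂ) : qf (W + W') ψ = qf W ψ + qf W' ψ := by
  simp [qf, Matrix.add_mulVec, dotProduct_add]

theorem qf_zero (ψ : ι → ℂ) : qf (0 : Matrix ι ι ℂ) ψ = 0 := by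
  simp [qf]

theorem qf_nonneg {W : Matrix ι ι ℂ} (hW : W.PosSemidef) (ψ : ι → ℂ) : 0 ≤ qf W ψ := by
  have h2 := Matrix.PosSemidef.dotProduct_mulVec_nonneg hW ψ
  exact (Complex.le_def.1 h2).1

theorem qf_conj (B : Matrix ι ι ℂ) (ψ : ι → ℂ) :
    qf (B.conjTranspose * B) ψ = nsq (B.mulVec ψ) := by
  unfold qf nsq
  rw [← Matrix.mulVec_mulVec, Matrix.dotProduct_mulVec, ← Matrix.star_mulVec]
  unfold dotProduct
  rw [Complex.re_sum]
  refine Finset.sum_congr rfl fun i _ => ?_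
  rw [Pi.star_apply, Complex.star_def, Complex.conj_mul']
  norm_cast

open scoped MatrixOrder in
theorem exists_factor [DecidableEq ι] {W : Matrix ι ι ℂ} (hW : W.PosSemidef) :
    ∃ B : Matrix ι ι ℂ, W = B.conjTranspose * B := by
  obtain ⟨a, ha⟩ := CStarAlgebra.nonneg_iff_eq_star_mul_self.mp hW.nonneg
  exact ⟨a, ha⟩

/-- the basic comparison of quadratic forms -/
theorem qf_le [DecidableEq ι] {W : Matrix ι ι ℂ} (hW : W.PosSemidef) (hW1 : (1 - W).PosSemidef)
    (φ u : ι → ℂ) :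
    qf W φ ≤ qf W u + Real.sqrt (nsq (φ - u)) * (Real.sqrt (nsq φ) + Real.sqrt (nsq u)) := by
  obtain ⟨B, hB⟩ := exists_factor hW
  have hle : ∀ χ : ι → ℂ, nsq (B.mulVec χ) ≤ nsq χ := by
    intro χ
    have h := qf_nonneg hW1 χ
    rw [qf_sub, qf_one, hB, qf_conj] at h
    linarith
  have e : ∀ χ : ι → ℂ, qf W χ = Real.sqrt (nsq (B.mulVec χ)) ^ 2 := by
    intro χ
    rw [Real.sq_sqrt (nsq_nonneg _), hB, qf_conj]
  rw [e φ, e u]
  set a := Real.sqrt (nsq (B.mulVec φ)) with ha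
  set b := Real.sqrt (nsq (B.mulVec u)) with hb
  have ha0 : 0 ≤ a := Real.sqrt_nonneg _
  have hb0 : 0 ≤ b := Real.sqrt_nonneg _
  have h1 : a - b ≤ Real.sqrt (nsq (φ - u)) := by
    refine le_trans (le_abs_self _) (le_trans (abs_sqrt_nsq_sub _ _) ?_)
    rw [← Matrix.mulVec_sub]
    exact Real.sqrt_le_sqrt (hle _)
  have h2 : a ≤ Real.sqrt (nsq φ) := Real.sqrt_le_sqrt (hle _)
  have h3 : b ≤ Real.sqrt (nsq u) := Real.sqrt_le_sqrt (hle _)
  have h4 : 0 ≤ Real.sqrt (nsq (φ - u)) := Real.sqrt_nonneg _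
  nlinarith [mul_nonneg h4 (by linarith : 0 ≤ Real.sqrt (nsq φ) + Real.sqrt (nsq u) - (a + b)),
    mul_nonneg (by linarith : 0 ≤ Real.sqrt (nsq (φ - u)) - (a - b)) (by linarith : 0 ≤ a + b)]

end vec

section tensor
variable {α β γ δ : Type*} [Fintype α] [Fintype β] [Fintype γ] [Fintype δ]

theorem tensor_mulVec [DecidableEq γ] [DecidableEq δ] (φ : α × β → ℂ) (η : γ × δ → ℂ)
    (A : Matrix α α ℂ) (B : Matrix β β ℂ) (p : (α × γ) × (β × δ)) :
    ((A ⊗ₖ (1 : Matrix γ γ ℂ)) ⊗ₖ (B ⊗ₖ (1 : Matrix δ δ ℂ))).mulVec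
      (fun p : (α × γ) × (β × δ) => φ (p.1.1, p.2.1) * η (p.1.2, p.2.2)) p
      = (A ⊗ₖ B).mulVec φ (p.1.1, p.2.1) * η (p.1.2, p.2.2) := by
  obtain ⟨⟨a, c⟩, ⟨b, d⟩⟩ := p
  unfold Matrix.mulVec dotProduct
  simp only [Fintype.sum_prod_type, Matrix.kroneckerMap_apply, Matrix.one_apply]
  have h1 : ∀ (a' : α) (c' : γ) (b' : β) (d' : δ),
      A a a' * (if c = c' then (1 : ℂ) else 0) * (B b b' * (if d = d' then (1 : ℂ) else 0)) *
        (φ (a', b') * η (c', d')) =
      if c = c' then (if d = d' then A a a' * B b b' * φ (a', b') * η (c', d') else 0) else 0 := by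
    intro a' c' b' d'
    split_ifs <;> ring
  simp only [h1]
  have h2 : ∀ a' : α, ∑ c' : γ, ∑ b' : β, ∑ d' : δ,
      (if c = c' then (if d = d' then A a a' * B b b' * φ (a', b') * η (c', d') else 0) else 0)
      = ∑ b' : β, A a a' * B b b' * φ (a', b') * η (c, d) := by
    intro a'
    rw [Finset.sum_eq_single c]
    · refine Finset.sum_congr rfl fun b' _ => ?_
      rw [Finset.sum_eq_single d]
      · simp
      · intro d' _ hd'
        simp [Ne.symm hd']
      · simp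
    · intro c' _ hc'
      simp [Ne.symm hc']
    · simp
  simp only [h2]
  simp only [Finset.sum_mul]

theorem bra_tensor_one [DecidableEq γ] [DecidableEq δ] (φ : α × β → ℂ) (η : γ × δ → ℂ)
    (A : Matrix α α ℂ) (B : Matrix β β ℂ) :
    bra (fun p : (α × γ) × (β × δ) => φ (p.1.1, p.2.1) * η (p.1.2, p.2.2))
      (A ⊗ₖ (1 : Matrix γ γ ℂ)) (B ⊗ₖ (1 : Matrix δ δ ℂ)) = bra φ A B * nsq η := by
  unfold bra
  have e1 : dotProduct (star fun p : (α × γ) × (β × δ) => φ (p.1.1, p.2.1) * η (p.1.2, p.2.2))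
      (((A ⊗ₖ (1 : Matrix γ γ ℂ)) ⊗ₖ (B ⊗ₖ (1 : Matrix δ δ ℂ))).mulVec
        (fun p : (α × γ) × (β × δ) => φ (p.1.1, p.2.1) * η (p.1.2, p.2.2)))
      = dotProduct (star φ) ((A ⊗ₖ B).mulVec φ) * ((nsq η : ℝ) : ℂ) := by
    unfold nsq
    push_cast
    unfold dotProduct
    rw [Finset.sum_mul_sum, ← Finset.sum_product', Finset.univ_product_univ]
    refine Fintype.sum_equiv (Equiv.prodProdProdComm α γ β δ) _ _ ?_
    intro p
    rw [tensor_mulVec]
    obtain ⟨⟨a, c⟩, ⟨b, d⟩⟩ := p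
    simp only [Pi.star_apply, Equiv.prodProdProdComm_apply, star_mul', Complex.star_def]
    rw [← Complex.conj_mul' (η (c, d))]
    ring
  rw [e1, mul_comm _ ((nsq η : ℝ) : ℂ), Complex.re_ofReal_mul, mul_comm]

theorem nsq_pi {I : Type*} [Fintype I] [DecidableEq I] (ψ : I → α × β → ℂ) :
    nsq (fun p : (I → α) × (I → β) => ∏ i, ψ i (p.1 i, p.2 i)) = ∏ i, nsq (ψ i) := by
  unfold nsq
  rw [Finset.prod_univ_sum, Fintype.piFinset_univ]
  refine Fintype.sum_equiv (Equiv.arrowProdEquivProdArrow I (fun _ => α) (fun _ => β)).symm _ _ ?_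
  intro p
  rw [norm_prod, Finset.prod_pow]
  rfl

/-- a matrix acting on the coordinate `j` -/
noncomputable def emb {J : Type*} [Fintype J] [DecidableEq J] [DecidableEq α] (j : J)
    (A : Matrix α α ℂ) : Matrix (J → α) (J → α) ℂ :=
  (A ⊗ₖ (1 : Matrix ({i // i ≠ j} → α) ({i // i ≠ j} → α) ℂ)).submatrix
    (Equiv.funSplitAt j α) (Equiv.funSplitAt j α)

section emb
variable {J : Type*} [Fintype J] [DecidableEq J]

theorem emb_psd [DecidableEq α] (j : J) {A : Matrix α α ℂ} (hA : A.PosSemidef) :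
    (emb j A).PosSemidef :=
  (hA.kronecker Matrix.PosSemidef.one).submatrix _

theorem emb_one [DecidableEq α] (j : J) : emb j (1 : Matrix α α ℂ) = 1 := by
  unfold emb
  rw [Matrix.one_kronecker_one, Matrix.submatrix_one_equiv]

theorem emb_sub [DecidableEq α] (j : J) (A B : Matrix α α ℂ) :
    emb j (A - B) = emb j A - emb j B := by
  ext f g
  simp [emb, Matrix.kroneckerMap_apply, sub_mul]

theorem emb_sum [DecidableEq α] {κ : Type*} (j : J) (s : Finset κ) (A : κ → Matrix α α ℂ) :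
    emb j (∑ a ∈ s, A a) = ∑ a ∈ s, emb j (A a) := by
  ext f g
  simp only [emb, Matrix.submatrix_apply, Matrix.kroneckerMap_apply, Matrix.sum_apply,
    Finset.sum_mul]

theorem bra_emb [DecidableEq α] [DecidableEq β] (ψ : J → α × β → ℂ) (j : J)
    (A : Matrix α α ℂ) (B : Matrix β β ℂ) :
    bra (fun p : (J → α) × (J → β) => ∏ i, ψ i (p.1 i, p.2 i)) (emb j A) (emb j B)
      = bra (ψ j) A B * ∏ i : {i // i ≠ j}, nsq (ψ i.1) := by
  have h := bra_reindex (Equiv.funSplitAt j α).symm (Equiv.funSplitAt j β).symm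
    (fun p : (α × ({i // i ≠ j} → α)) × (β × ({i // i ≠ j} → β)) =>
      ψ j (p.1.1, p.2.1) * ∏ i : {i // i ≠ j}, ψ i.1 (p.1.2 i, p.2.2 i))
    (A ⊗ₖ (1 : Matrix ({i // i ≠ j} → α) ({i // i ≠ j} → α) ℂ))
    (B ⊗ₖ (1 : Matrix ({i // i ≠ j} → β) ({i // i ≠ j} → β) ℂ))
  have h2 := bra_tensor_one (ψ j)
    (fun p : ({i // i ≠ j} → α) × ({i // i ≠ j} → β) => ∏ i : {i // i ≠ j}, ψ i.1 (p.1 i, p.2 i))
    A B
  rw [h2, nsq_pi] at h
  rw [← h]
  congr 1
  funext p
  rw [Fintype.prod_eq_mul_prod_subtype_ne _ j]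
  rfl

end emb

end tensor

section game
variable {G : Game} {v : ℝ} {α β : Type*} [Fintype α] [DecidableEq α] [Fintype β] [DecidableEq β]

/-- combining one strategy per component by a tensor product -/
theorem strategy_bound {J : Type*} [Fintype J] [DecidableEq J]
    (hv : ∀ (dA dB : ℕ) (S : Strategy G 1 dA dB), S.probWinsAtLeast 1 ≤ v)
    (hA : 0 < G.nA) (hB : 0 < G.nB) (ψ : J → α × β → ℂ) (hψ : ∀ j, nsq (ψ j) = 1)
    (QA : Fin G.nX → Fin G.nA → Matrix α α ℂ) (QB : Fin G.nY → Fin G.nB → Matrix β β ℂ)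
    (hQA : ∀ x a, (QA x a).PosSemidef) (hQB : ∀ y b, (QB y b).PosSemidef)
    (hQAs : ∀ x, (1 - ∑ a, QA x a).PosSemidef) (hQBs : ∀ y, (1 - ∑ b, QB y b).PosSemidef)
    (c : Fin G.nX → Fin G.nY → J) (cX : Fin G.nX → J) (cY : Fin G.nY → J)
    (hc : ∀ x y, 0 < G.prob x y → cX x = c x y ∧ cY y = c x y) :
    ∑ x, ∑ y, G.prob x y * ∑ a, ∑ b,
      (if G.accept x y a b = true then bra (ψ (c x y)) (QA x a) (QB y b) else 0) ≤ v := by
  have h := oneshot (G := G) (v := v) hv hA hB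
    (fun p : (J → α) × (J → β) => ∏ i, ψ i (p.1 i, p.2 i))
    (fun x a => emb (cX x) (QA x a)) (fun y b => emb (cY y) (QB y b))
    (fun x a => emb_psd _ (hQA x a)) (fun y b => emb_psd _ (hQB y b))
    (fun x => by
      rw [← emb_sum, ← emb_one (α := α) (cX x), ← emb_sub]
      exact emb_psd _ (hQAs x))
    (fun y => by
      rw [← emb_sum, ← emb_one (α := β) (cY y), ← emb_sub]
      exact emb_psd _ (hQBs y))
  have hn : ∑ p : (J → α) × (J → β), ‖∏ i, ψ i (p.1 i, p.2 i)‖ ^ 2 = 1 := by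
    have := nsq_pi (α := α) (β := β) ψ
    unfold nsq at this
    rw [this]
    refine Finset.prod_eq_one fun i _ => ?_
    exact hψ i
  rw [hn, mul_one] at h
  refine le_trans (le_of_eq ?_) h
  unfold val1
  refine Finset.sum_congr rfl fun x _ => Finset.sum_congr rfl fun y _ => ?_
  rcases (G.prob_nonneg x y).eq_or_lt with h0 | hpos
  · rw [← h0, zero_mul, zero_mul]
  · obtain ⟨h1, h2⟩ := hc x y hpos
    congr 1
    refine Finset.sum_congr rfl fun a _ => Finset.sum_congr rfl fun b _ => ?_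
    beta_reduce
    rw [h1, h2, bra_emb, Finset.prod_eq_one (fun i _ => hψ _), mul_one]

/-- the winning operator -/
noncomputable def Wmat (QA : Fin G.nX → Fin G.nA → Matrix α α ℂ)
    (QB : Fin G.nY → Fin G.nB → Matrix β β ℂ) (x : Fin G.nX) (y : Fin G.nY) :
    Matrix (α × β) (α × β) ℂ :=
  ∑ a, ∑ b, if G.accept x y a b = true then QA x a ⊗ₖ QB y b else 0

theorem psd_sum {κ ι : Type*} [Fintype ι] (s : Finset κ) (f : κ → Matrix ι ι ℂ)
    (h : ∀ i ∈ s, (f i).PosSemidef) : (∑ i ∈ s, f i).PosSemidef := by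
  classical
  induction s using Finset.induction_on with
  | empty => simpa using Matrix.PosSemidef.zero
  | insert a s ha ih =>
    rw [Finset.sum_insert ha]
    exact (h a (Finset.mem_insert_self _ _)).add
      (ih fun i hi => h i (Finset.mem_insert_of_mem hi))

theorem qf_sum {κ ι : Type*} [Fintype ι] (s : Finset κ) (f : κ → Matrix ι ι ℂ) (ψ : ι → ℂ) :
    qf (∑ i ∈ s, f i) ψ = ∑ i ∈ s, qf (f i) ψ := by
  classical
  induction s using Finset.induction_on with
  | empty => simp [qf_zero]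
  | insert a s ha ih =>
    rw [Finset.sum_insert ha, Finset.sum_insert ha, qf_add, ih]

theorem qf_Wmat (QA : Fin G.nX → Fin G.nA → Matrix α α ℂ)
    (QB : Fin G.nY → Fin G.nB → Matrix β β ℂ) (x : Fin G.nX) (y : Fin G.nY) (ψ : α × β → ℂ) :
    qf (Wmat QA QB x y) ψ = ∑ a, ∑ b,
      (if G.accept x y a b = true then bra ψ (QA x a) (QB y b) else 0) := by
  unfold Wmat
  rw [qf_sum]
  refine Finset.sum_congr rfl fun a _ => ?_
  rw [qf_sum]
  refine Finset.sum_congr rfl fun b _ => ?_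
  split_ifs
  · rfl
  · exact qf_zero _

theorem Wmat_psd {QA : Fin G.nX → Fin G.nA → Matrix α α ℂ}
    {QB : Fin G.nY → Fin G.nB → Matrix β β ℂ}
    (hQA : ∀ x a, (QA x a).PosSemidef) (hQB : ∀ y b, (QB y b).PosSemidef)
    (x : Fin G.nX) (y : Fin G.nY) : (Wmat QA QB x y).PosSemidef := by
  unfold Wmat
  refine psd_sum _ _ fun a _ => psd_sum _ _ fun b _ => ?_
  split_ifs
  · exact (hQA x a).kronecker (hQB y b)
  · exact Matrix.PosSemidef.zero

theorem Wmat_le_one {QA : Fin G.nX → Fin G.nA → Matrix α α ℂ}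
    {QB : Fin G.nY → Fin G.nB → Matrix β β ℂ}
    (hQA : ∀ x a, (QA x a).PosSemidef) (hQB : ∀ y b, (QB y b).PosSemidef)
    (hQAs : ∀ x, (1 - ∑ a, QA x a).PosSemidef) (hQBs : ∀ y, (1 - ∑ b, QB y b).PosSemidef)
    (x : Fin G.nX) (y : Fin G.nY) : (1 - Wmat QA QB x y).PosSemidef := by
  have e1 : (1 : Matrix (α × β) (α × β) ℂ) - Wmat QA QB x y =
      ((1 - ∑ a, QA x a) ⊗ₖ (1 : Matrix β β ℂ) + (∑ a, QA x a) ⊗ₖ (1 - ∑ b, QB y b))
      + ∑ a, ∑ b, (if G.accept x y a b = true then 0 else QA x a ⊗ₖ QB y b) := by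
    have e2 : (∑ a, ∑ b, (if G.accept x y a b = true then 0 else QA x a ⊗ₖ QB y b))
        = (∑ a, QA x a) ⊗ₖ (∑ b, QB y b) - Wmat QA QB x y := by
      rw [eq_sub_iff_add_eq]
      unfold Wmat
      rw [← Finset.sum_add_distrib]
      have : ∀ a, (∑ b, (if G.accept x y a b = true then 0 else QA x a ⊗ₖ QB y b)) +
          (∑ b, (if G.accept x y a b = true then QA x a ⊗ₖ QB y b else 0))
          = ∑ b, QA x a ⊗ₖ QB y b := by
        intro a
        rw [← Finset.sum_add_distrib]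
        refine Finset.sum_congr rfl fun b _ => ?_
        split_ifs <;> simp
      simp only [this]
      ext ⟨i, j⟩ ⟨i', j'⟩
      simp only [Matrix.sum_apply, Matrix.kroneckerMap_apply, Finset.sum_mul, Finset.mul_sum]
      rw [Finset.sum_comm]
    rw [e2]
    ext ⟨i, j⟩ ⟨i', j'⟩
    simp only [Matrix.add_apply, Matrix.sub_apply, Matrix.kroneckerMap_apply]
    have : (1 : Matrix (α × β) (α × β) ℂ) (i, j) (i', j')
        = (1 : Matrix α α ℂ) i i' * (1 : Matrix β β ℂ) j j' := by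
      rw [← Matrix.one_kronecker_one]; rfl
    rw [this]
    ring
  rw [e1]
  refine (((hQAs x).kronecker Matrix.PosSemidef.one).add
    ((psd_sum _ _ fun a _ => hQA x a).kronecker (hQBs y))).add ?_
  refine psd_sum _ _ fun a _ => psd_sum _ _ fun b _ => ?_
  split_ifs
  · exact Matrix.PosSemidef.zero
  · exact (hQA x a).kronecker (hQB y b)

end game

/-- weighted averaging over the classes of a partition -/
theorem comp_sum {Z : Type*} [Fintype Z] [DecidableEq Z] (C : Z → Finset Z)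
    (hself : ∀ z, z ∈ C z) (hsymm : ∀ z u, u ∈ C z → C u = C z) (w g D : Z → ℝ)
    (hw : ∀ z, 0 ≤ w z) (hg : ∀ z, 0 ≤ g z) (hD : ∀ z, 0 ≤ D z)
    (h : ∀ z, (∑ u ∈ C z, w u) * D z ≤ ∑ u ∈ C z, w u * g u) :
    ∑ z, w z * D z ≤ ∑ z, w z * g z := by
  classical
  set q : Z → ℝ := fun z => ∑ u ∈ C z, w u with hq
  have hq0 : ∀ z, 0 ≤ q z := fun z => Finset.sum_nonneg fun u _ => hw u
  have hqz : ∀ z, w z ≤ q z := fun z => Finset.single_le_sum (fun u _ => hw u) (hself z)
  have h1 : ∀ z, w z * D z ≤ ∑ u ∈ C z, (w z / q z) * (w u * g u) := by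
    intro z
    rw [← Finset.mul_sum]
    rcases (hq0 z).eq_or_lt with h0 | hpos
    · have : w z = 0 := le_antisymm (by rw [h0]; exact hqz z) (hw z)
      rw [this]; simp
    · have := h z
      have h2 : D z ≤ (∑ u ∈ C z, w u * g u) / q z := by
        rw [le_div_iff₀ hpos]; linarith [mul_comm (q z) (D z)]
      calc w z * D z ≤ w z * ((∑ u ∈ C z, w u * g u) / q z) :=
            mul_le_mul_of_nonneg_left h2 (hw z)
        _ = w z / q z * ∑ u ∈ C z, w u * g u := by ring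
  calc ∑ z, w z * D z ≤ ∑ z, ∑ u ∈ C z, (w z / q z) * (w u * g u) :=
        Finset.sum_le_sum fun z _ => h1 z
    _ = ∑ z, ∑ u, if u ∈ C z then (w z / q z) * (w u * g u) else 0 := by
        refine Finset.sum_congr rfl fun z _ => ?_
        rw [← Finset.sum_filter]
        congr 1
        ext u; simp
    _ = ∑ u, ∑ z, if u ∈ C z then (w z / q z) * (w u * g u) else 0 := Finset.sum_comm
    _ ≤ ∑ u, w u * g u := by
        refine Finset.sum_le_sum fun u _ => ?_
        have e : ∀ z, (if u ∈ C z then (w z / q z) * (w u * g u) else 0)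
            = if z ∈ C u then (w z / q u) * (w u * g u) else 0 := by
          intro z
          by_cases huz : u ∈ C z
          · have h3 := hsymm z u huz
            have h4 : z ∈ C u := by rw [h3]; exact hself z
            rw [if_pos huz, if_pos h4]
            have : q z = q u := by simp only [hq, h3]
            rw [this]
          · have h4 : z ∉ C u := by
              intro h5
              have h3 := hsymm u z h5
              exact huz (by rw [h3]; exact hself u)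
            rw [if_neg huz, if_neg h4]
        simp only [e]
        rw [← Finset.sum_filter]
        have e2 : (Finset.univ.filter fun z => z ∈ C u) = C u := by ext z; simp
        rw [e2, ← Finset.sum_mul, ← Finset.sum_div]
        have h5 : (∑ i ∈ C u, w i) / q u ≤ 1 := div_self_le_one _
        have h6 : 0 ≤ w u * g u := mul_nonneg (hw u) (hg u)
        nlinarith

section comp
variable {G : Game}

theorem mem_comp (z w : Fin G.nX × Fin G.nY) :
    w ∈ G.supportComponent z ↔ G.supportGraph.Reachable z w := by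
  unfold Game.supportComponent
  simp

theorem self_mem_comp (z : Fin G.nX × Fin G.nY) : z ∈ G.supportComponent z :=
  (mem_comp z z).2 (SimpleGraph.Reachable.refl z)

theorem comp_eq_of_reachable {z w : Fin G.nX × Fin G.nY} (h : G.supportGraph.Reachable z w) :
    G.supportComponent w = G.supportComponent z := by
  ext u
  rw [mem_comp, mem_comp]
  exact ⟨fun h1 => h.trans h1, fun h1 => h.symm.trans h1⟩

theorem reachable_of_share {z w : Fin G.nX × Fin G.nY} (hz : 0 < G.prob z.1 z.2)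
    (hw : 0 < G.prob w.1 w.2) (h : z.1 = w.1 ∨ z.2 = w.2) : G.supportGraph.Reachable z w := by
  by_cases e : z = w
  · rw [e]
  · exact SimpleGraph.Adj.reachable ⟨e, hz, hw, h⟩

/-- walk bound -/
theorem walk_bound {ι : Type*} [Fintype ι] (Φ : Fin G.nX × Fin G.nY → ι → ℂ)
    (e : Fin G.nX × Fin G.nY → ℝ)
    (he : ∀ z w, G.supportGraph.Adj z w → Real.sqrt (nsq (Φ z - Φ w)) ≤ e z + e w)
    {z w : Fin G.nX × Fin G.nY} (p : G.supportGraph.Walk z w) :
    Real.sqrt (nsq (Φ z - Φ w)) ≤ (p.support.dropLast.map e).sum + (p.support.tail.map e).sum := by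
  have h1 : Real.sqrt (nsq (Φ z - Φ w)) ≤ (p.darts.map fun d => e d.fst + e d.snd).sum := by
    induction p with
    | nil => simp [nsq]
    | cons h p ih =>
      rename_i a b c
      rw [SimpleGraph.Walk.darts_cons, List.map_cons, List.sum_cons]
      exact le_trans (sqrt_nsq_sub_le _ (Φ b) _) (add_le_add (he _ _ h) ih)
  refine le_trans h1 (le_of_eq ?_)
  rw [← p.map_fst_darts, ← p.map_snd_darts, List.map_map, List.map_map]
  rw [← List.sum_map_add]
  rfl

theorem path_bound {ι : Type*} [Fintype ι] (Φ : Fin G.nX × Fin G.nY → ι → ℂ)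
    (e : Fin G.nX × Fin G.nY → ℝ) (he0 : ∀ z, 0 ≤ e z)
    (he : ∀ z w, G.supportGraph.Adj z w → Real.sqrt (nsq (Φ z - Φ w)) ≤ e z + e w)
    {z w : Fin G.nX × Fin G.nY} (h : G.supportGraph.Reachable z w) :
    nsq (Φ z - Φ w) ≤ 4 * ((G.supportComponent z).card - 1 : ℝ) *
      ∑ u ∈ G.supportComponent z, e u ^ 2 := by
  classical
  obtain ⟨p, hp⟩ := h.exists_isPath
  have hnd : p.support.Nodup := hp.support_nodup
  have hmem : ∀ u ∈ p.support, u ∈ G.supportComponent z := by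
    intro u hu
    exact (mem_comp _ _).2 ⟨p.takeUntil u hu⟩
  set C := G.supportComponent z with hC
  have hlen : p.support.length ≤ C.card := by
    rw [← List.toFinset_card_of_nodup hnd]
    exact Finset.card_le_card fun u hu => hmem u (List.mem_toFinset.1 hu)
  have hS : 0 ≤ ∑ u ∈ C, e u ^ 2 := Finset.sum_nonneg fun u _ => sq_nonneg _
  have key : ∀ l : List (Fin G.nX × Fin G.nY), l.Nodup → (∀ u ∈ l, u ∈ C) →
      l.length + 1 ≤ C.card → 0 ≤ (l.map e).sum ∧
      (l.map e).sum ^ 2 ≤ ((C.card : ℝ) - 1) * ∑ u ∈ C, e u ^ 2 := by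
    intro l hl hlC hll
    have e1 : (l.map e).sum = ∑ u ∈ l.toFinset, e u := by
      rw [List.sum_toFinset _ hl]
    rw [e1]
    refine ⟨Finset.sum_nonneg fun u _ => he0 u, ?_⟩
    have h2 : (∑ u ∈ l.toFinset, e u) ^ 2 ≤ (l.toFinset.card : ℝ) * ∑ u ∈ l.toFinset, e u ^ 2 :=
      sq_sum_le_card_mul_sum_sq
    have h3 : (l.toFinset.card : ℝ) ≤ (C.card : ℝ) - 1 := by
      rw [List.toFinset_card_of_nodup hl]
      have : ((l.length + 1 : ℕ) : ℝ) ≤ (C.card : ℝ) := by exact_mod_cast hll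
      push_cast at this
      linarith
    have h4 : ∑ u ∈ l.toFinset, e u ^ 2 ≤ ∑ u ∈ C, e u ^ 2 :=
      Finset.sum_le_sum_of_subset_of_nonneg (fun u hu => hlC u (List.mem_toFinset.1 hu))
        (fun _ _ _ => sq_nonneg _)
    have h5 : 0 ≤ ∑ u ∈ l.toFinset, e u ^ 2 := Finset.sum_nonneg fun u _ => sq_nonneg _
    calc _ ≤ (l.toFinset.card : ℝ) * ∑ u ∈ l.toFinset, e u ^ 2 := h2
      _ ≤ ((C.card : ℝ) - 1) * ∑ u ∈ l.toFinset, e u ^ 2 := mul_le_mul_of_nonneg_right h3 h5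
      _ ≤ ((C.card : ℝ) - 1) * ∑ u ∈ C, e u ^ 2 :=
          mul_le_mul_of_nonneg_left h4 (le_trans (Nat.cast_nonneg _) h3)
  have hne : p.support ≠ [] := p.support_ne_nil
  have hlpos : 1 ≤ p.support.length := List.length_pos_iff.2 hne
  obtain ⟨hA0, hA⟩ := key p.support.dropLast (hnd.sublist (List.dropLast_sublist _))
    (fun u hu => hmem u (List.mem_of_mem_dropLast hu)) (by
      rw [List.length_dropLast]; omega)
  obtain ⟨hB0, hB⟩ := key p.support.tail (hnd.sublist (List.tail_sublist _))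
    (fun u hu => hmem u (List.mem_of_mem_tail hu)) (by
      rw [List.length_tail]; omega)
  have hwb := walk_bound Φ e he p
  have h0 : 0 ≤ Real.sqrt (nsq (Φ z - Φ w)) := Real.sqrt_nonneg _
  have hsq : nsq (Φ z - Φ w) = Real.sqrt (nsq (Φ z - Φ w)) ^ 2 := (Real.sq_sqrt (nsq_nonneg _)).symm
  rw [hsq]
  nlinarith [sq_nonneg ((p.support.dropLast.map e).sum - (p.support.tail.map e).sum),
    pow_le_pow_left₀ h0 hwb 2]

end comp

/-- **Component lemma** (one coordinate of S0537). -/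
theorem component {G : Game} {v κ : ℝ}
    (hv : ∀ (dA dB : ℕ) (S : Strategy G 1 dA dB), S.probWinsAtLeast 1 ≤ v)
    (hA : 0 < G.nA) (hB : 0 < G.nB)
    (hκ : ∀ z : Fin G.nX × Fin G.nY, 0 < G.prob z.1 z.2 → ∀ w ∈ G.supportComponent z,
      8 * ((G.supportComponent z).card - 1 : ℝ) * (∑ u ∈ G.supportComponent z, G.prob u.1 u.2)
        ≤ κ * G.prob w.1 w.2)
    {α β : Type*} [Fintype α] [DecidableEq α] [Fintype β] [DecidableEq β]
    (Φ : Fin G.nX → Fin G.nY → α × β → ℂ) (ΦX : Fin G.nX → α × β → ℂ)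
    (ΦY : Fin G.nY → α × β → ℂ)
    (QA : Fin G.nX → Fin G.nA → Matrix α α ℂ) (QB : Fin G.nY → Fin G.nB → Matrix β β ℂ)
    (hQA : ∀ x a, (QA x a).PosSemidef) (hQB : ∀ y b, (QB y b).PosSemidef)
    (hQAs : ∀ x, (1 - ∑ a, QA x a).PosSemidef) (hQBs : ∀ y, (1 - ∑ b, QB y b).PosSemidef)
    (P E : ℝ) (hP0 : 0 ≤ P)
    (hP : ∑ x, ∑ y, G.prob x y * ∑ i, ‖Φ x y i‖ ^ 2 ≤ P)
    (hE : ∑ x, ∑ y, G.prob x y * (∑ i, ‖Φ x y i - ΦX x i‖ ^ 2 + ∑ i, ‖Φ x y i - ΦY y i‖ ^ 2
      + (Real.sqrt (∑ i, ‖Φ x y i‖ ^ 2) - Real.sqrt P) ^ 2) ≤ E) :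
    ∑ x, ∑ y, G.prob x y * ∑ a, ∑ b,
      (if G.accept x y a b = true then bra (Φ x y) (QA x a) (QB y b) else 0)
      ≤ v * P + 2 * Real.sqrt (κ + 2) * Real.sqrt (P * E) := by
  classical
  -- some pair has positive probability
  have hpos : ∃ z : Fin G.nX × Fin G.nY, 0 < G.prob z.1 z.2 := by
    by_contra hcon
    push Not at hcon
    have h1 : ∑ x, ∑ y, G.prob x y ≤ 0 :=
      Finset.sum_nonpos fun x _ => Finset.sum_nonpos fun y _ => hcon (x, y)
    rw [G.prob_sum] at h1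
    linarith
  have hκ0 : 0 ≤ κ := by
    obtain ⟨z, hz⟩ := hpos
    have h1 := hκ z hz z (self_mem_comp z)
    have h2 : (1 : ℝ) ≤ (G.supportComponent z).card := by
      have : 0 < (G.supportComponent z).card := Finset.card_pos.2 ⟨z, self_mem_comp z⟩
      exact_mod_cast this
    have h3 : 0 ≤ ∑ u ∈ G.supportComponent z, G.prob u.1 u.2 :=
      Finset.sum_nonneg fun u _ => G.prob_nonneg _ _
    have h4 : 0 ≤ κ * G.prob z.1 z.2 :=
      le_trans (mul_nonneg (mul_nonneg (by norm_num) (by linarith)) h3) h1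
    by_contra h5
    push Not at h5
    nlinarith
  have hv0 : 0 ≤ v := v_nonneg hv hA hB
  have hE0 : 0 ≤ E := by
    refine le_trans ?_ hE
    refine Finset.sum_nonneg fun x _ => Finset.sum_nonneg fun y _ =>
      mul_nonneg (G.prob_nonneg x y) ?_
    positivity
  rcases isEmpty_or_nonempty (α × β) with hemp | hne
  · have h0 : ∀ (x y) (A : Matrix α α ℂ) (B : Matrix β β ℂ), bra (Φ x y) A B = 0 := by
      intro x y A B
      simp [bra, dotProduct]
    simp only [h0, ite_self, Finset.sum_const_zero, mul_zero]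
    positivity
  -- notation
  set Ψ : Fin G.nX × Fin G.nY → α × β → ℂ := fun z => Φ z.1 z.2 with hΨ
  set w : Fin G.nX × Fin G.nY → ℝ := fun z => G.prob z.1 z.2 with hw
  have hw0 : ∀ z, 0 ≤ w z := fun z => G.prob_nonneg _ _
  set e2 : Fin G.nX × Fin G.nY → ℝ := fun z =>
    nsq (Φ z.1 z.2 - ΦX z.1) + nsq (Φ z.1 z.2 - ΦY z.2) with he2
  have he20 : ∀ z, 0 ≤ e2 z := fun z => add_nonneg (nsq_nonneg _) (nsq_nonneg _)
  set dv : Fin G.nX × Fin G.nY → ℝ := fun z => |Real.sqrt (nsq (Φ z.1 z.2)) - Real.sqrt P| with hdv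
  have hEz : ∑ z, w z * (e2 z + dv z ^ 2) ≤ E := by
    refine le_trans (le_of_eq ?_) hE
    rw [Fintype.sum_prod_type]
    refine Finset.sum_congr rfl fun x _ => Finset.sum_congr rfl fun y _ => ?_
    simp only [hw, he2, hdv, sq_abs]
    rfl
  have hPz : ∑ z, w z * nsq (Ψ z) ≤ P := by
    refine le_trans (le_of_eq ?_) hP
    rw [Fintype.sum_prod_type]
    rfl
  have hwsum : ∑ z, w z = 1 := by
    rw [Fintype.sum_prod_type]
    exact G.prob_sum
  -- the representatives
  have hrep : ∀ C : Finset (Fin G.nX × Fin G.nY), ∃ ψ : α × β → ℂ, nsq ψ = 1 ∧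
      (C.Nonempty → ∃ z ∈ C, (∀ u ∈ C, dv z ≤ dv u) ∧
        Real.sqrt (nsq (Ψ z - ((Real.sqrt P : ℝ) : ℂ) • ψ)) = dv z) := by
    intro C
    rcases C.eq_empty_or_nonempty with h | h
    · obtain ⟨ψ, h1, _⟩ := exists_unit (fun _ : α × β => (0 : ℂ)) 0 le_rfl
      exact ⟨ψ, h1, fun hh => absurd h hh.ne_empty⟩
    · obtain ⟨z, hz, hmin⟩ := Finset.exists_min_image C dv h
      obtain ⟨ψ, h1, h2⟩ := exists_unit (Ψ z) (Real.sqrt P) (Real.sqrt_nonneg _)
      exact ⟨ψ, h1, fun _ => ⟨z, hz, hmin, h2⟩⟩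
  choose ψ hψ1 hψ2 using hrep
  set u : Fin G.nX × Fin G.nY → α × β → ℂ := fun z =>
    ((Real.sqrt P : ℝ) : ℂ) • ψ (G.supportComponent z) with hu
  set D : Fin G.nX × Fin G.nY → ℝ := fun z => nsq (Ψ z - u z) with hD
  have hD0 : ∀ z, 0 ≤ D z := fun z => nsq_nonneg _
  -- closeness of adjacent vectors
  have hadj : ∀ z z', G.supportGraph.Adj z z' →
      Real.sqrt (nsq (Ψ z - Ψ z')) ≤ Real.sqrt (e2 z) + Real.sqrt (e2 z') := by
    intro z z' hzz
    obtain ⟨-, -, -, hor⟩ := hzz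
    rcases hor with h | h
    · refine le_trans (sqrt_nsq_sub_le _ (ΦX z.1) _) (add_le_add ?_ ?_)
      · exact Real.sqrt_le_sqrt (le_add_of_nonneg_right (nsq_nonneg _))
      · rw [sqrt_nsq_comm]
        refine Real.sqrt_le_sqrt ?_
        simp only [he2]
        rw [h]
        exact le_add_of_nonneg_right (nsq_nonneg _)
    · refine le_trans (sqrt_nsq_sub_le _ (ΦY z.2) _) (add_le_add ?_ ?_)
      · exact Real.sqrt_le_sqrt (le_add_of_nonneg_left (nsq_nonneg _))
      · rw [sqrt_nsq_comm]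
        refine Real.sqrt_le_sqrt ?_
        simp only [he2]
        rw [h]
        exact le_add_of_nonneg_left (nsq_nonneg _)
  -- the class inequality
  have hclass : ∀ z, 0 < w z → (∑ t ∈ G.supportComponent z, w t) * D z ≤
      ∑ t ∈ G.supportComponent z, w t * (κ * e2 t + 2 * dv t ^ 2) := by
    intro z hz
    obtain ⟨r, hr, hmin, hrn⟩ := hψ2 (G.supportComponent z) ⟨z, self_mem_comp z⟩
    have hreach : G.supportGraph.Reachable z r := (mem_comp z r).1 hr
    have hpb := path_bound Ψ (fun t => Real.sqrt (e2 t)) (fun t => Real.sqrt_nonneg _) hadj hreach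
    have hpb' : nsq (Ψ z - Ψ r) ≤ 4 * ((G.supportComponent z).card - 1 : ℝ) *
        ∑ t ∈ G.supportComponent z, e2 t := by
      refine le_trans hpb (le_of_eq ?_)
      congr 1
      exact Finset.sum_congr rfl fun t _ => Real.sq_sqrt (he20 t)
    have hDz : D z ≤ 2 * nsq (Ψ z - Ψ r) + 2 * dv r ^ 2 := by
      have h1 : Real.sqrt (D z) ≤ Real.sqrt (nsq (Ψ z - Ψ r)) + dv r := by
        rw [← hrn]
        exact sqrt_nsq_sub_le _ _ _
      have h2 : D z = Real.sqrt (D z) ^ 2 := (Real.sq_sqrt (hD0 z)).symm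
      have h3 : nsq (Ψ z - Ψ r) = Real.sqrt (nsq (Ψ z - Ψ r)) ^ 2 :=
        (Real.sq_sqrt (nsq_nonneg _)).symm
      have h4 : 0 ≤ Real.sqrt (D z) := Real.sqrt_nonneg _
      rw [h2, h3]
      nlinarith [pow_le_pow_left₀ h4 h1 2, sq_nonneg (Real.sqrt (nsq (Ψ z - Ψ r)) - dv r)]
    set C := G.supportComponent z with hC
    have hwC : 0 ≤ ∑ t ∈ C, w t := Finset.sum_nonneg fun t _ => hw0 t
    have h5 : (∑ t ∈ C, w t) * (8 * ((C.card : ℝ) - 1) * ∑ t ∈ C, e2 t)
        ≤ ∑ t ∈ C, w t * (κ * e2 t) := by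
      have h6 : ∀ t ∈ C, 8 * ((C.card : ℝ) - 1) * (∑ t ∈ C, w t) * e2 t ≤ w t * (κ * e2 t) := by
        intro t ht
        have := mul_le_mul_of_nonneg_right (hκ z hz t ht) (he20 t)
        calc _ ≤ κ * G.prob t.1 t.2 * e2 t := this
          _ = w t * (κ * e2 t) := by simp only [hw]; ring
      calc (∑ t ∈ C, w t) * (8 * ((C.card : ℝ) - 1) * ∑ t ∈ C, e2 t)
          = ∑ t ∈ C, 8 * ((C.card : ℝ) - 1) * (∑ t ∈ C, w t) * e2 t := by
            rw [← Finset.mul_sum]; ring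
        _ ≤ _ := Finset.sum_le_sum h6
    have h7 : (∑ t ∈ C, w t) * (2 * dv r ^ 2) ≤ ∑ t ∈ C, w t * (2 * dv t ^ 2) := by
      rw [Finset.sum_mul]
      refine Finset.sum_le_sum fun t ht => mul_le_mul_of_nonneg_left ?_ (hw0 t)
      have h8 := hmin t ht
      have h9 : 0 ≤ dv r := abs_nonneg _
      nlinarith [pow_le_pow_left₀ h9 h8 2]
    calc (∑ t ∈ C, w t) * D z ≤ (∑ t ∈ C, w t) * (2 * nsq (Ψ z - Ψ r) + 2 * dv r ^ 2) :=
          mul_le_mul_of_nonneg_left hDz hwC
      _ ≤ (∑ t ∈ C, w t) * (8 * ((C.card : ℝ) - 1) * ∑ t ∈ C, e2 t + 2 * dv r ^ 2) := by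
          refine mul_le_mul_of_nonneg_left ?_ hwC
          linarith
      _ = (∑ t ∈ C, w t) * (8 * ((C.card : ℝ) - 1) * ∑ t ∈ C, e2 t)
          + (∑ t ∈ C, w t) * (2 * dv r ^ 2) := by ring
      _ ≤ ∑ t ∈ C, w t * (κ * e2 t) + ∑ t ∈ C, w t * (2 * dv t ^ 2) := add_le_add h5 h7
      _ = ∑ t ∈ C, w t * (κ * e2 t + 2 * dv t ^ 2) := by
          rw [← Finset.sum_add_distrib]
          exact Finset.sum_congr rfl fun t _ => by ring
  -- total
  have htot : ∑ z, w z * D z ≤ (κ + 2) * E := by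
    have h1 : ∑ z, w z * (if 0 < w z then D z else 0) ≤
        ∑ z, w z * (κ * e2 z + 2 * dv z ^ 2) := by
      refine comp_sum (fun z => G.supportComponent z) self_mem_comp
        (fun z t ht => comp_eq_of_reachable ((mem_comp z t).1 ht)) w _ _ hw0 ?_ ?_ ?_
      · intro z
        have := he20 z
        positivity
      · intro z
        split_ifs
        · exact hD0 z
        · exact le_rfl
      · intro z
        by_cases hz : 0 < w z
        · rw [if_pos hz]; exact hclass z hz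
        · rw [if_neg hz, mul_zero]
          refine Finset.sum_nonneg fun t _ => mul_nonneg (hw0 t) ?_
          have := he20 t
          positivity
    have h2 : ∀ z, w z * (if 0 < w z then D z else 0) = w z * D z := by
      intro z
      split_ifs with h
      · rfl
      · have : w z = 0 := le_antisymm (not_lt.1 h) (hw0 z)
        rw [this]; ring
    simp only [h2] at h1
    refine le_trans h1 ?_
    calc ∑ z, w z * (κ * e2 z + 2 * dv z ^ 2) ≤ ∑ z, (κ + 2) * (w z * (e2 z + dv z ^ 2)) := by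
          refine Finset.sum_le_sum fun z _ => ?_
          have h3 := hw0 z
          have h4 := he20 z
          have h5 : 0 ≤ dv z ^ 2 := sq_nonneg _
          nlinarith [mul_nonneg h3 h4, mul_nonneg h3 h5, mul_nonneg hκ0 (mul_nonneg h3 h5)]
      _ = (κ + 2) * ∑ z, w z * (e2 z + dv z ^ 2) := by rw [Finset.mul_sum]
      _ ≤ (κ + 2) * E := mul_le_mul_of_nonneg_left hEz (by linarith)
  -- the strategy
  set cX : Fin G.nX → Finset (Fin G.nX × Fin G.nY) := fun x =>
    if h : ∃ y, 0 < G.prob x y then G.supportComponent (x, h.choose) else ∅ with hcX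
  set cY : Fin G.nY → Finset (Fin G.nX × Fin G.nY) := fun y =>
    if h : ∃ x, 0 < G.prob x y then G.supportComponent (h.choose, y) else ∅ with hcY
  have hstr := strategy_bound (G := G) (v := v) hv hA hB ψ hψ1 QA QB hQA hQB hQAs hQBs
    (fun x y => G.supportComponent (x, y)) cX cY (by
      intro x y hxy
      constructor
      · have h : ∃ y, 0 < G.prob x y := ⟨y, hxy⟩
        simp only [hcX, dif_pos h]
        exact comp_eq_of_reachable (reachable_of_share hxy h.choose_spec (Or.inl rfl))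
      · have h : ∃ x, 0 < G.prob x y := ⟨x, hxy⟩
        simp only [hcY, dif_pos h]
        exact comp_eq_of_reachable (reachable_of_share hxy h.choose_spec (Or.inr rfl)))
  -- final estimate
  have hunsq : ∀ z, nsq (u z) = P := by
    intro z
    have : nsq (u z) = P * nsq (ψ (G.supportComponent z)) := by
      unfold nsq
      rw [Finset.mul_sum]
      refine Finset.sum_congr rfl fun i _ => ?_
      simp only [hu, Pi.smul_apply, smul_eq_mul, norm_mul, mul_pow, Complex.norm_real,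
        Real.norm_eq_abs, sq_abs, Real.sq_sqrt hP0]
    rw [this, hψ1, mul_one]
  have hqu : ∀ x y, qf (Wmat QA QB x y) (u (x, y)) =
      P * ∑ a, ∑ b, (if G.accept x y a b = true then
        bra (ψ (G.supportComponent (x, y))) (QA x a) (QB y b) else 0) := by
    intro x y
    rw [qf_Wmat, Finset.mul_sum]
    refine Finset.sum_congr rfl fun a _ => ?_
    rw [Finset.mul_sum]
    refine Finset.sum_congr rfl fun b _ => ?_
    split_ifs
    · simp only [hu]
      rw [bra_smul, Complex.norm_real, Real.norm_eq_abs, sq_abs, Real.sq_sqrt hP0]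
    · simp
  have hmain : ∑ x, ∑ y, G.prob x y * ∑ a, ∑ b,
      (if G.accept x y a b = true then bra (Φ x y) (QA x a) (QB y b) else 0)
      ≤ P * v + ∑ z, w z * (Real.sqrt (D z) * (Real.sqrt (nsq (Ψ z)) + Real.sqrt P)) := by
    calc ∑ x, ∑ y, G.prob x y * ∑ a, ∑ b,
          (if G.accept x y a b = true then bra (Φ x y) (QA x a) (QB y b) else 0)
        = ∑ x, ∑ y, G.prob x y * qf (Wmat QA QB x y) (Φ x y) := by
          refine Finset.sum_congr rfl fun x _ => Finset.sum_congr rfl fun y _ => ?_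
          rw [qf_Wmat]
      _ ≤ ∑ x, ∑ y, G.prob x y * (qf (Wmat QA QB x y) (u (x, y)) +
            Real.sqrt (D (x, y)) * (Real.sqrt (nsq (Ψ (x, y))) + Real.sqrt P)) := by
          refine Finset.sum_le_sum fun x _ => Finset.sum_le_sum fun y _ =>
            mul_le_mul_of_nonneg_left ?_ (G.prob_nonneg x y)
          have := qf_le (Wmat_psd hQA hQB x y) (Wmat_le_one hQA hQB hQAs hQBs x y)
            (Φ x y) (u (x, y))
          rw [hunsq] at this
          exact this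
      _ = P * ∑ x, ∑ y, G.prob x y * ∑ a, ∑ b, (if G.accept x y a b = true then
            bra (ψ (G.supportComponent (x, y))) (QA x a) (QB y b) else 0)
          + ∑ z, w z * (Real.sqrt (D z) * (Real.sqrt (nsq (Ψ z)) + Real.sqrt P)) := by
          rw [Fintype.sum_prod_type, Finset.mul_sum, ← Finset.sum_add_distrib]
          refine Finset.sum_congr rfl fun x _ => ?_
          rw [Finset.mul_sum, ← Finset.sum_add_distrib]
          refine Finset.sum_congr rfl fun y _ => ?_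
          rw [hqu]
          simp only [hw]
          ring
      _ ≤ P * v + ∑ z, w z * (Real.sqrt (D z) * (Real.sqrt (nsq (Ψ z)) + Real.sqrt P)) := by
          refine add_le_add ?_ le_rfl
          exact mul_le_mul_of_nonneg_left hstr hP0
  have hcs : ∑ z, w z * (Real.sqrt (D z) * (Real.sqrt (nsq (Ψ z)) + Real.sqrt P))
      ≤ Real.sqrt ((κ + 2) * E) * Real.sqrt (4 * P) := by
    calc ∑ z, w z * (Real.sqrt (D z) * (Real.sqrt (nsq (Ψ z)) + Real.sqrt P))
        = ∑ z, Real.sqrt (w z * D z) *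
            Real.sqrt (w z * (Real.sqrt (nsq (Ψ z)) + Real.sqrt P) ^ 2) := by
          refine Finset.sum_congr rfl fun z _ => ?_
          have h1 : 0 ≤ Real.sqrt (nsq (Ψ z)) + Real.sqrt P :=
            add_nonneg (Real.sqrt_nonneg _) (Real.sqrt_nonneg _)
          rw [Real.sqrt_mul (hw0 z), Real.sqrt_mul (hw0 z), Real.sqrt_sq h1]
          have h2 := Real.mul_self_sqrt (hw0 z)
          calc w z * (Real.sqrt (D z) * (Real.sqrt (nsq (Ψ z)) + Real.sqrt P))
              = (Real.sqrt (w z) * Real.sqrt (w z)) *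
                (Real.sqrt (D z) * (Real.sqrt (nsq (Ψ z)) + Real.sqrt P)) := by rw [h2]
            _ = _ := by ring
      _ ≤ Real.sqrt (∑ z, w z * D z) *
            Real.sqrt (∑ z, w z * (Real.sqrt (nsq (Ψ z)) + Real.sqrt P) ^ 2) := by
          exact Real.sum_sqrt_mul_sqrt_le _ (fun z => mul_nonneg (hw0 z) (hD0 z))
            (fun z => mul_nonneg (hw0 z) (sq_nonneg _))
      _ ≤ Real.sqrt ((κ + 2) * E) * Real.sqrt (4 * P) := by
          refine mul_le_mul (Real.sqrt_le_sqrt htot) (Real.sqrt_le_sqrt ?_)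
            (Real.sqrt_nonneg _) (Real.sqrt_nonneg _)
          calc ∑ z, w z * (Real.sqrt (nsq (Ψ z)) + Real.sqrt P) ^ 2
              ≤ ∑ z, (2 * (w z * nsq (Ψ z)) + w z * (2 * P)) := by
                refine Finset.sum_le_sum fun z _ => ?_
                have h1 := Real.sq_sqrt (nsq_nonneg (Ψ z))
                have h2 := Real.sq_sqrt hP0
                have h3 := hw0 z
                nlinarith [mul_nonneg h3 (sq_nonneg (Real.sqrt (nsq (Ψ z)) - Real.sqrt P))]
            _ = 2 * ∑ z, w z * nsq (Ψ z) + (∑ z, w z) * (2 * P) := by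
                rw [Finset.sum_add_distrib, ← Finset.mul_sum, ← Finset.sum_mul]
            _ ≤ 4 * P := by rw [hwsum]; linarith
  have hfin : Real.sqrt ((κ + 2) * E) * Real.sqrt (4 * P)
      = 2 * Real.sqrt (κ + 2) * Real.sqrt (P * E) := by
    rw [Real.sqrt_mul (by linarith), Real.sqrt_mul (by norm_num), Real.sqrt_mul hP0]
    rw [show (4 : ℝ) = 2 ^ 2 by norm_num, Real.sqrt_sq (by norm_num)]
    ring
  calc _ ≤ P * v + ∑ z, w z * (Real.sqrt (D z) * (Real.sqrt (nsq (Ψ z)) + Real.sqrt P)) := hmain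
    _ ≤ P * v + Real.sqrt ((κ + 2) * E) * Real.sqrt (4 * P) := add_le_add le_rfl hcs
    _ = v * P + 2 * Real.sqrt (κ + 2) * Real.sqrt (P * E) := by rw [hfin]; ring

/-- weaker constant as used in the final assembly -/
theorem component' {G : Game} {v κ : ℝ}
    (hv : ∀ (dA dB : ℕ) (S : Strategy G 1 dA dB), S.probWinsAtLeast 1 ≤ v)
    (hA : 0 < G.nA) (hB : 0 < G.nB)
    (hκ : ∀ z : Fin G.nX × Fin G.nY, 0 < G.prob z.1 z.2 → ∀ w ∈ G.supportComponent z,
      8 * ((G.supportComponent z).card - 1 : ℝ) * (∑ u ∈ G.supportComponent z, G.prob u.1 u.2)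
        ≤ κ * G.prob w.1 w.2) (hκ0 : 0 ≤ κ)
    {α β : Type*} [Fintype α] [DecidableEq α] [Fintype β] [DecidableEq β]
    (Φ : Fin G.nX → Fin G.nY → α × β → ℂ) (ΦX : Fin G.nX → α × β → ℂ)
    (ΦY : Fin G.nY → α × β → ℂ)
    (QA : Fin G.nX → Fin G.nA → Matrix α α ℂ) (QB : Fin G.nY → Fin G.nB → Matrix β β ℂ)
    (hQA : ∀ x a, (QA x a).PosSemidef) (hQB : ∀ y b, (QB y b).PosSemidef)
    (hQAs : ∀ x, (1 - ∑ a, QA x a).PosSemidef) (hQBs : ∀ y, (1 - ∑ b, QB y b).PosSemidef)
    (P E : ℝ) (hP0 : 0 ≤ P)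
    (hP : ∑ x, ∑ y, G.prob x y * ∑ i, ‖Φ x y i‖ ^ 2 ≤ P)
    (hE : ∑ x, ∑ y, G.prob x y * (∑ i, ‖Φ x y i - ΦX x i‖ ^ 2 + ∑ i, ‖Φ x y i - ΦY y i‖ ^ 2
      + (Real.sqrt (∑ i, ‖Φ x y i‖ ^ 2) - Real.sqrt P) ^ 2) ≤ E) :
    ∑ x, ∑ y, G.prob x y * ∑ a, ∑ b,
      (if G.accept x y a b = true then bra (Φ x y) (QA x a) (QB y b) else 0)
      ≤ v * P + 3 * Real.sqrt (2 * κ + 1) * Real.sqrt (P * E) := by
  refine le_trans (component hv hA hB hκ Φ ΦX ΦY QA QB hQA hQB hQAs hQBs P E hP0 hP hE) ?_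
  have h1 : 2 * Real.sqrt (κ + 2) ≤ 3 * Real.sqrt (2 * κ + 1) := by
    have h2 : 2 * Real.sqrt (κ + 2) = Real.sqrt (4 * (κ + 2)) := by
      rw [Real.sqrt_mul (by norm_num), show (4 : ℝ) = 2 ^ 2 by norm_num,
        Real.sqrt_sq (by norm_num)]
    have h3 : 3 * Real.sqrt (2 * κ + 1) = Real.sqrt (9 * (2 * κ + 1)) := by
      rw [Real.sqrt_mul (by norm_num), show (9 : ℝ) = 3 ^ 2 by norm_num,
        Real.sqrt_sq (by norm_num)]
    rw [h2, h3]
    exact Real.sqrt_le_sqrt (by linarith)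
  have h4 := mul_le_mul_of_nonneg_right h1 (Real.sqrt_nonneg (P * E))
  linarith

end Crest.H20PRComp
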