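import Mathlib
import Crest.Prelude.Def_NonlocalGame
import Crest.Agent.PRDefs
import Crest.Agent.H20PRComp

/-!
H20PRS37: the end lemma S37 of row 342 in terms of `Crest.PR.OneCoord`.
-/

set_option autoImplicit false

open scoped Kronecker ComplexOrder BigOperators
open Crest.MathPhysics.NonlocalGame

namespace Crest.PR

theorem kappaHyp_nonneg {G : Game} {κ : ℝ} (hκ : KappaHyp G κ) : 0 ≤ κ := by
  have hpos : ∃ z : Fin G.nX × Fin G.nY, 0 < G.prob z.1 z.2 := by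
    by_contra hcon
    push Not at hcon
    have h1 : ∑ x, ∑ y, G.prob x y ≤ 0 :=
      Finset.sum_nonpos fun x _ => Finset.sum_nonpos fun y _ => hcon (x, y)
    rw [G.prob_sum] at h1
    linarith
  obtain ⟨z, hz⟩ := hpos
  have h1 := hκ z hz z (H20PRComp.self_mem_comp z)
  have h2 : (1 : ℝ) ≤ (G.supportComponent z).card := by
    have : 0 < (G.supportComponent z).card := Finset.card_pos.2 ⟨z, H20PRComp.self_mem_comp z⟩
    exact_mod_cast this
  have h3 : 0 ≤ ∑ u ∈ G.supportComponent z, G.prob u.1 u.2 :=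
    Finset.sum_nonneg fun u _ => G.prob_nonneg _ _
  have h4 : 0 ≤ κ * G.prob z.1 z.2 :=
    le_trans (mul_nonneg (mul_nonneg (by norm_num) (by linarith)) h3) h1
  by_contra h5
  push Not at h5
  nlinarith

/-- **S37** with the sharper constant. -/
theorem s37_sharp {G : Game} {v κ P E W : ℝ} (hv : ValLe G v) (hκ : KappaHyp G κ)
    (hA : 0 < G.nA) (hB : 0 < G.nB) (hP0 : 0 ≤ P) (h : OneCoord G P E W) :
    W ≤ v * P + 2 * Real.sqrt (κ + 2) * Real.sqrt (P * E) := by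
  obtain ⟨α, β, _, _, _, _, Φ, ΦX, ΦY, QA, QB, hQA, hQB, hQAs, hQBs, hP, hE, hW⟩ := h
  rw [← hW]
  exact H20PRComp.component hv hA hB hκ Φ ΦX ΦY QA QB hQA hQB hQAs hQBs P E hP0
    (le_of_eq hP) hE

/-- **S37** -/
theorem s37 {G : Game} {v κ P E W : ℝ} (hv : ValLe G v) (hκ : KappaHyp G κ)
    (hA : 0 < G.nA) (hB : 0 < G.nB) (hP0 : 0 ≤ P) (h : OneCoord G P E W) :
    W ≤ v * P + 3 * Real.sqrt (2 * κ + 1) * Real.sqrt (P * E) := by
  obtain ⟨α, β, _, _, _, _, Φ, ΦX, ΦY, QA, QB, hQA, hQB, hQAs, hQBs, hP, hE, hW⟩ := h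
  rw [← hW]
  exact H20PRComp.component' hv hA hB hκ (kappaHyp_nonneg hκ) Φ ΦX ΦY QA QB hQA hQB hQAs hQBs
    P E hP0 (le_of_eq hP) hE

/-- **S37** with `0 ≤ v` instead of the nonemptiness of the answer sets -/
theorem s37_of_nonneg {G : Game} {v κ P E W : ℝ} (hv : ValLe G v) (hκ : KappaHyp G κ)
    (hv0 : 0 ≤ v) (hP0 : 0 ≤ P) (h : OneCoord G P E W) :
    W ≤ v * P + 3 * Real.sqrt (2 * κ + 1) * Real.sqrt (P * E) := by
  rcases Nat.eq_zero_or_pos G.nA with hA | hA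
  · obtain ⟨α, β, _, _, _, _, Φ, ΦX, ΦY, QA, QB, hQA, hQB, hQAs, hQBs, hP, hE, hW⟩ := h
    have : IsEmpty (Fin G.nA) := by rw [hA]; infer_instance
    have : W = 0 := by rw [← hW]; simp
    rw [this]
    positivity
  · rcases Nat.eq_zero_or_pos G.nB with hB | hB
    · obtain ⟨α, β, _, _, _, _, Φ, ΦX, ΦY, QA, QB, hQA, hQB, hQAs, hQBs, hP, hE, hW⟩ := h
      have : IsEmpty (Fin G.nB) := by rw [hB]; infer_instance
      have : W = 0 := by rw [← hW]; simp
      rw [this]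
      positivity
    · exact s37 hv hκ hA hB hP0 h

end Crest.PR
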