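import Crest.Agent.H20RyConc3

set_option autoImplicit false
set_option linter.unusedSectionVars false

namespace Crest.Agent.H20Ry
open Finset Crest.Agent.H3Ry Crest.Agent.H23RyProb

section
variable {F : Type*} [Field F] [Fintype F] [DecidableEq F] {N : ℕ}

/-- exact probability that no coordinate of `K` is hit -/
theorem PP_zs_none (K : Finset (Option F × Bool)) :
    PP (fun ω : Option F × Bool → F => ¬ ∃ κ ∈ K, κ ∈ zs ω)
      = (1 - 1 / (Fintype.card F : ℝ)) ^ K.card := by
  have h1 : PP (fun ω : Option F × Bool → F => ¬ ∃ κ ∈ K, κ ∈ zs ω)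
      = PP (fun ω : Option F × Bool → F => ∀ κ ∈ K, κ ∉ zs ω) :=
    PP_congr (fun ω => by push Not; exact Iff.rfl)
  rw [h1, PP_forall_of_dep K (fun κ ω => κ ∉ zs ω) (fun κ => {κ})]
  · rw [prod_congr rfl (fun κ _ => ?_), prod_const]
    rw [PP_not, PP_zs_mem]
  · intro κ _
    exact depOn_zs _ (fun H => κ ∉ H) (fun H H' h => not_congr (h κ (mem_singleton_self κ)))
  · intro κ _ κ' _ h
    simpa [Function.onFun] using h

theorem le_PP_ch (Y : Sys F N) (j : Fin N) (v : Bool) (x : ℝ) (hx0 : 0 ≤ x) (hx1 : x ≤ 1)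
    (hx : x ≤ (Y.B j).card / (Fintype.card F : ℝ)) :
    x / 2 ≤ PP (fun ω : Option F × Bool → F => ch Y j v (zs ω)) := by
  have hq := qpos (F := F)
  have h1 := PP_zs_none (F := F) (cell Y j v)
  rw [PP_not, card_cell] at h1
  have h2 : PP (fun ω : Option F × Bool → F => ch Y j v (zs ω))
      = 1 - (1 - 1 / (Fintype.card F : ℝ)) ^ (Y.B j).card := by
    unfold ch; linarith
  rw [h2]
  have hq1 : 1 / (Fintype.card F : ℝ) ≤ 1 := by
    rw [div_le_one hq]; linarith [q_ge_two (F := F)]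
  have h3 : (1 - 1 / (Fintype.card F : ℝ)) ≤ Real.exp (-(1 / (Fintype.card F : ℝ))) := by
    have := Real.add_one_le_exp (-(1 / (Fintype.card F : ℝ)))
    linarith
  have h4 : (1 - 1 / (Fintype.card F : ℝ)) ^ (Y.B j).card ≤ Real.exp (-x) := by
    calc (1 - 1 / (Fintype.card F : ℝ)) ^ (Y.B j).card
        ≤ (Real.exp (-(1 / (Fintype.card F : ℝ)))) ^ (Y.B j).card :=
          pow_le_pow_left₀ (by linarith) h3 _
      _ = Real.exp (-((Y.B j).card / (Fintype.card F : ℝ))) := by
          rw [← Real.exp_nat_mul]; congr 1; ring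
      _ ≤ _ := Real.exp_le_exp.mpr (by linarith)
  have h5 : Real.exp (-x) ≤ 1 - x / 2 := by
    -- exp(-x) ≤ 1/(1+x) ≤ 1 - x/2 for 0 ≤ x ≤ 1
    have h6 : 1 + x ≤ Real.exp x := by linarith [Real.add_one_le_exp x]
    have h7 : Real.exp (-x) * Real.exp x = 1 := by rw [← Real.exp_add]; simp
    have h8 : 0 < Real.exp (-x) := Real.exp_pos _
    nlinarith
  linarith

theorem le_PP_rb (Y : Sys F N) (j : Fin N) (x : ℝ) (hx0 : 0 ≤ x) (hx1 : x ≤ 1)
    (hx : x ≤ (Y.B j).card / (Fintype.card F : ℝ)) :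
    x ^ 2 / 4 ≤ PP (fun ω : Option F × Bool → F => Y.rb j (zs ω)) := by
  rw [PP_congr (fun ω => rb_iff Y j (zs ω)),
    PP_and_of_dep (depOn_ch Y j false) (depOn_ch Y j true) (disj_cell Y j)]
  have h1 := le_PP_ch Y j false x hx0 hx1 hx
  have h2 := le_PP_ch Y j true x hx0 hx1 hx
  nlinarith

theorem depOn_rb' (Y : Sys F N) (j : Fin N) :
    DepOn (fun ω : Option F × Bool → F => Y.rb j (zs ω)) (coord Y {j}) := by
  refine depOn_zs _ (fun H => Y.rb j H) (fun H H' h => ?_)
  rw [rb_iff, rb_iff]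
  have key : ∀ v, ch Y j v H ↔ ch Y j v H' := by
    intro v
    unfold ch
    refine exists_congr (fun κ => ?_)
    constructor
    · rintro ⟨h1, h2⟩
      exact ⟨h1, (h κ (by rw [coord, mem_filter, mem_singleton]; exact ⟨mem_univ _, ((mem_cell Y).mp h1).1⟩)).mp h2⟩
    · rintro ⟨h1, h2⟩
      exact ⟨h1, (h κ (by rw [coord, mem_filter, mem_singleton]; exact ⟨mem_univ _, ((mem_cell Y).mp h1).1⟩)).mpr h2⟩
  rw [key false, key true]

theorem le_PP_rb_exists (Y : Sys F N) (K : Finset (Fin N)) (x : ℝ) (hx0 : 0 ≤ x) (hx1 : x ≤ 1)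
    (hx : ∀ j, x ≤ (Y.B j).card / (Fintype.card F : ℝ)) (y : ℝ) (hy0 : 0 ≤ y) (hy1 : y ≤ 1)
    (hy : y ≤ K.card * (x ^ 2 / 4)) :
    y / 2 ≤ PP (fun ω : Option F × Bool → F => ∃ j ∈ K, Y.rb j (zs ω)) := by
  have h1 : PP (fun ω : Option F × Bool → F => ¬ ∃ j ∈ K, Y.rb j (zs ω))
      ≤ Real.exp (-y) := by
    rw [PP_congr (r := fun ω : Option F × Bool → F => ∀ j ∈ K, ¬ Y.rb j (zs ω))
      (fun ω => by push Not; exact Iff.rfl)]
    rw [PP_forall_of_dep K (fun j ω => ¬ Y.rb j (zs ω)) (fun j => coord Y {j})]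
    · have h2 : ∀ j ∈ K, PP (fun ω : Option F × Bool → F => ¬ Y.rb j (zs ω))
          ≤ Real.exp (-(x ^ 2 / 4)) := by
        intro j _
        rw [PP_not]
        have h3 := le_PP_rb Y j x hx0 hx1 (hx j)
        have h4 := Real.add_one_le_exp (-(x ^ 2 / 4))
        linarith
      refine (prod_le_prod (fun j _ => PP_nonneg _) h2).trans ?_
      rw [prod_const, ← Real.exp_nat_mul]
      refine Real.exp_le_exp.mpr ?_
      linarith
    · intro j _
      exact fun ω ω' h => by
        have := depOn_rb' Y j ω ω' h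
        simp only at this
        simp only [this]
    · intro j _ j' _ hne
      simp only [Function.onFun]
      rw [Finset.disjoint_left]
      intro κ h3 h4
      rw [coord, mem_filter, mem_singleton] at h3 h4
      exact hne (h3.2.symm.trans h4.2)
  rw [PP_not] at h1
  have h5 : Real.exp (-y) ≤ 1 - y / 2 := by
    have h6 : 1 + y ≤ Real.exp y := by linarith [Real.add_one_le_exp y]
    have h7 : Real.exp (-y) * Real.exp y = 1 := by rw [← Real.exp_add]; simp
    have h8 : 0 < Real.exp (-y) := Real.exp_pos _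
    nlinarith
  linarith

theorem card_half1 (N : ℕ) : N / 2 ≤ (half1 N).card := by
  have h : (univ : Finset (Fin (N / 2))).card ≤ (half1 N).card := by
    refine card_le_card_of_injOn (fun i => (⟨i.val, by omega⟩ : Fin N)) ?_ ?_
    · intro i _
      have := i.isLt
      simp only [half1, coe_filter, mem_univ, true_and, Set.mem_ofPred_eq]
      omega
    · intro i _ i' _ h
      have := Fin.mk.inj h
      exact Fin.ext this
  rwa [card_univ, Fintype.card_fin] at h

theorem card_half2 (N : ℕ) : N / 2 ≤ (half2 N).card := by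
  have h : (univ : Finset (Fin (N / 2))).card ≤ (half2 N).card := by
    refine card_le_card_of_injOn (fun i => (⟨N - 1 - i.val, by have := i.isLt; omega⟩ : Fin N)) ?_ ?_
    · intro i _
      have := i.isLt
      simp only [half2, coe_filter, mem_univ, true_and, Set.mem_ofPred_eq]
      omega
    · intro i _ i' _ h
      have h1 := Fin.mk.inj h
      have h2 := i.isLt
      have h3 := i'.isLt
      exact Fin.ext (by omega)
  rwa [card_univ, Fintype.card_fin] at h

end

theorem p12_lo : ∃ q₀ : ℕ,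
    ∀ (F : Type) [Field F] [Fintype F] [DecidableEq F], q₀ ≤ Fintype.card F →
    ∀ (N : ℕ), N = NN (Fintype.card F) → ∀ (Y : Sys F N), Y.Ok →
      1 / (500 * (N : ℝ) ^ 2) ≤ Y.p12 := by
  obtain ⟨q₀, hq₀⟩ := Filter.eventually_atTop.mp (ev_NN 1 20 1 one_pos)
  refine ⟨max q₀ 1, ?_⟩
  intro F _ _ _ hq N hN Y hY
  have h20 : 20 ≤ N := by rw [hN]; unfold NN; omega
  have hq1 := hq₀ (Fintype.card F) (le_trans (le_max_left _ _) hq)
  rw [← hN, pow_one, Real.rpow_one] at hq1
  have hqp := qpos (F := F)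
  have hN20 : (20 : ℝ) ≤ N := by exact_mod_cast h20
  have hNp : (0 : ℝ) < N := by linarith
  set q : ℝ := (Fintype.card F : ℝ) with hqdef
  set x : ℝ := 0.95 / N with hx
  have hx0 : 0 ≤ x := by positivity
  have hx1 : x ≤ 1 := by
    rw [hx, div_le_one hNp]; linarith
  have hxB : ∀ j, x ≤ (Y.B j).card / q := by
    intro j
    have h1 := hY.lo j
    have h2 : q + 1 ≤ N * ((Y.B j).card + 1) := by
      rw [hqdef]; exact_mod_cast h1
    rw [hx, div_le_div_iff₀ hNp hqp]
    nlinarith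
  have hhalf : ∀ K : Finset (Fin N), N / 2 ≤ K.card → (0.475 : ℝ) * N ≤ K.card := by
    intro K hK
    have h1 : N ≤ 2 * K.card + 1 := by omega
    have h2 : (N : ℝ) ≤ 2 * K.card + 1 := by exact_mod_cast h1
    linarith
  set y : ℝ := 0.107 / N with hy
  have hy0 : 0 ≤ y := by positivity
  have hy1 : y ≤ 1 := by
    rw [hy, div_le_one hNp]; linarith
  have hyK : ∀ K : Finset (Fin N), N / 2 ≤ K.card → y ≤ K.card * (x ^ 2 / 4) := by
    intro K hK
    have h1 := hhalf K hK
    have h2 : y ≤ 0.475 * N * (x ^ 2 / 4) := by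
      rw [hy, hx]
      rw [div_le_iff₀ hNp]
      have : 0.475 * (N : ℝ) * ((0.95 / N) ^ 2 / 4) * N = 0.475 * 0.95 ^ 2 / 4 := by
        field_simp
      rw [this]; norm_num
    refine h2.trans ?_
    exact mul_le_mul_of_nonneg_right h1 (by positivity)
  have e1 := le_PP_rb_exists Y (half1 N) x hx0 hx1 hxB y hy0 hy1 (hyK _ (card_half1 N))
  have e2 := le_PP_rb_exists Y (half2 N) x hx0 hx1 hxB y hy0 hy1 (hyK _ (card_half2 N))
  have hind : Y.p12 = PP (fun ω : Option F × Bool → F => ∃ j ∈ half1 N, Y.rb j (zs ω))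
      * PP (fun ω : Option F × Bool → F => ∃ j ∈ half2 N, Y.rb j (zs ω)) := by
    unfold Sys.p12
    rw [PP_congr (fun ω => s12_iff Y (zs ω))]
    have hdep : ∀ K : Finset (Fin N), DepOn (fun ω : Option F × Bool → F =>
        ∃ j ∈ K, Y.rb j (zs ω)) (coord Y K) := by
      intro K ω ω' h
      refine propext (exists_congr (fun j => and_congr_right (fun hj => ?_)))
      have := depOn_rb' Y j ω ω' (fun κ hκ => h κ (by
        rw [coord, mem_filter, mem_singleton] at hκ
        rw [coord, mem_filter]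
        exact ⟨mem_univ _, by rw [hκ.2]; exact hj⟩))
      simp only at this
      rw [this]
    exact PP_and_of_dep (hdep _) (hdep _) (disj_coord Y)
  rw [hind]
  have h3 : 1 / (500 * (N : ℝ) ^ 2) ≤ (y / 2) * (y / 2) := by
    rw [hy, div_le_iff₀ (by positivity)]
    have : 0.107 / (N : ℝ) / 2 * (0.107 / N / 2) * (500 * N ^ 2) = 0.107 ^ 2 / 4 * 500 := by
      field_simp
      norm_num
    rw [this]; norm_num
  refine h3.trans ?_
  exact mul_le_mul e1 e2 (by positivity) (PP_nonneg _)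

end Crest.Agent.H20Ry
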