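import Crest.Agent.H3RyDefs

/-! # Ryser counterexample: shared definitions, part 2 (`Lam`, `ThmA`, `Conc`) -/

set_option autoImplicit false

namespace Crest.Agent.H3Ry
open Finset

/-- lines with few intersections with `S₀` -/
def Lam {F : Type*} [Field F] [Fintype F] [DecidableEq F] (S₀ : Finset (Option F × F)) :
    Finset (Option F × F) :=
  univ.filter (fun l => 8 * (pts l ∩ cov S₀).card ≤ S₀.card)

/-- Theorem A (proved at the end by the assembly) -/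
def ThmA (F : Type) [Field F] [Fintype F] [DecidableEq F] : Prop :=
  ∃ (N : ℕ) (Y : Sys F N) (ω : Option F × Bool → F),
    (∀ d, ω (d, false) ≠ ω (d, true)) ∧ (∀ j, 3 ≤ (Y.B j).card) ∧
    (∀ i i' a a', (i, a) ≠ (i', a') → ∃ j, Y.pat i a j ≠ Y.pat i' a' j) ∧
    (∀ l : Option F × F, (pts l ∩ Y.X ω).Nonempty) ∧
    ∀ S : Finset (Option F × F), S.card = Fintype.card F → (∀ P ∈ Y.X ω, 0 < mu S P) →
      (∃ d, ∀ l ∈ S, l.1 = d) ∨ ∃ i a, S = Y.fw ω i a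

open Classical in
/-- the concentration properties used by the deterministic part -/
structure Conc {F : Type} [Field F] [Fintype F] [DecidableEq F] {N : ℕ} (Y : Sys F N)
    (η : ℝ) (ω : Option F × Bool → F) : Prop where
  load : ∀ P, (hs ω P).card ≤ N
  s12_gen : ∀ l, (∀ κ, sl ω κ ≠ l) →
    |(((pts l).filter (fun P => Y.s12 (hs ω P))).card : ℝ) - Fintype.card F * Y.p12|
      ≤ 2 * (Fintype.card F : ℝ) ^ (3 / 4 : ℝ)
  s12_lo : ∀ l, (Fintype.card F : ℝ) / (1000 * (N : ℝ) ^ 2)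
      ≤ ((pts l).filter (fun P => Y.s12 (hs ω P))).card
  s12_hi : ∀ l, (((pts l).filter (fun P => Y.s12 (hs ω P))).card : ℝ)
      ≤ 100 * (Fintype.card F : ℝ) / (N : ℝ) ^ 2
  good_lo : ∀ ρ t, Fintype.card F * Y.gp ρ t - (Fintype.card F : ℝ) ^ (3 / 4 : ℝ)
      ≤ (((pts (sl ω (Y.wl ρ t))).filter (fun P => Y.Good ρ t (hs ω P))).card : ℝ)
  rbc : ∀ κ, (((pts (sl ω κ)).filter (fun P => ∃ j, Y.rb j (hs ω P))).card : ℝ)
      ≤ 10 * (Fintype.card F : ℝ) / N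
  gd : ∀ ρ, ∀ A : Finset (Option F × F), (A.card : ℝ) ≤ (Fintype.card F : ℝ) ^ (3 / 4 : ℝ) →
    (∀ κ, sl ω κ ∉ A) →
    ∑ t, max ((((cov A).filter (fun P => Y.Good ρ t (hs ω P))).card : ℝ)
        - (Fintype.card F : ℝ) ^ (3 / 4 : ℝ) * Y.gp ρ t
        - η * (Fintype.card F : ℝ) ^ (3 / 4 : ℝ) / N) 0
      ≤ η * Fintype.card F * (Fintype.card F : ℝ) ^ (3 / 4 : ℝ) / N

end Crest.Agent.H3Ry
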