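import Crest.Agent.H20RyConc5
import Crest.Agent.H20RyP12
import Crest.Agent.H3RyDefs2
import Crest.Agent.H3RyAsy

set_option autoImplicit false
set_option linter.unusedSectionVars false

namespace Crest.Agent.H20Ry
open Finset Crest.Agent.H3Ry Crest.Agent.H23RyProb

/-- number of small subsets -/
theorem card_small_subsets {α : Type*} [Fintype α] [DecidableEq α] [Nonempty α] (n : ℕ) :
    ((univ : Finset (Finset α)).filter (fun A => A.card ≤ n)).card
      ≤ (n + 1) * (Fintype.card α) ^ n := by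
  have h1 : (univ : Finset (Finset α)).filter (fun A => A.card ≤ n)
      ⊆ (range (n + 1)).biUnion (fun k => powersetCard k (univ : Finset α)) := by
    intro A hA
    rw [mem_filter] at hA
    rw [mem_biUnion]
    exact ⟨A.card, mem_range.mpr (by omega), mem_powersetCard.mpr ⟨subset_univ _, rfl⟩⟩
  refine (card_le_card h1).trans (card_biUnion_le.trans ?_)
  have h2 : ∀ k ∈ range (n + 1), (powersetCard k (univ : Finset α)).card
      ≤ (Fintype.card α) ^ n := by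
    intro k hk
    rw [card_powersetCard, card_univ]
    refine (Nat.choose_le_pow _ _).trans ?_
    exact Nat.pow_le_pow_right Fintype.card_pos (by have := mem_range.mp hk; omega)
  refine (sum_le_sum h2).trans ?_
  rw [sum_const, card_range, smul_eq_mul]

section
variable {F : Type} [Field F] [Fintype F] [DecidableEq F] {N : ℕ}

open Classical in
/-- the union bound for the property `gd` -/
theorem gd_prob (Y : Sys F N) (η r τ : ℝ) (hr0 : 0 < r) (hτ : 0 ≤ τ)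
    (hA4 : 4 * r ≤ Fintype.card F)
    (hm : 4 * r ^ 2 / (Fintype.card F : ℝ) ≤ τ)
    (hsmall : ((Fintype.card F : ℝ) + 1)
      * (r * Real.exp (-(τ ^ 2 / (16 * (Fintype.card F + 1))))) ≤ Fintype.card F * τ)
    (n : ℕ) (hn : r < n + 1) (hη : 2 * τ = η * r / N) :
    PP (fun ω : Option F × Bool → F => ¬ ∀ ρ, ∀ A : Finset (Option F × F), (A.card : ℝ) ≤ r →
      (∀ κ, sl ω κ ∉ A) →
      ∑ t, max ((((cov A).filter (fun P => Y.Good ρ t (hs ω P))).card : ℝ)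
        - r * Y.gp ρ t - η * r / N) 0
      ≤ η * Fintype.card F * r / N)
      ≤ 2 ^ N * ((n + 1) * (((Fintype.card F : ℝ) + 1) * Fintype.card F) ^ n)
        * Real.exp (-((Fintype.card F * τ) ^ 2 / (64 * (Fintype.card F + 1) * r ^ 2))) := by
  set q : ℝ := (Fintype.card F : ℝ) with hq
  set K : Finset ((Fin N → Bool) × Finset (Option F × F)) :=
    (univ : Finset (Fin N → Bool)) ×ˢ
      ((univ : Finset (Finset (Option F × F))).filter (fun A => (A.card : ℝ) ≤ r)) with hK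
  have hKc : (K.card : ℝ) ≤ 2 ^ N * ((n + 1) * ((q + 1) * q) ^ n) := by
    rw [hK, card_product, card_univ, Fintype.card_fun, Fintype.card_bool, Fintype.card_fin]
    have h1 : ((univ : Finset (Finset (Option F × F))).filter (fun A => (A.card : ℝ) ≤ r))
        ⊆ (univ : Finset (Finset (Option F × F))).filter (fun A => A.card ≤ n) := by
      intro A hA
      rw [mem_filter] at hA ⊢
      refine ⟨mem_univ _, ?_⟩
      have : (A.card : ℝ) < n + 1 := lt_of_le_of_lt hA.2 hn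
      have : A.card < n + 1 := by exact_mod_cast this
      omega
    have h2 := (card_le_card h1).trans (card_small_subsets (α := Option F × F) n)
    rw [Fintype.card_prod, Fintype.card_option] at h2
    have h3 : ((((univ : Finset (Finset (Option F × F))).filter
        (fun A => (A.card : ℝ) ≤ r)).card : ℕ) : ℝ) ≤ (n + 1) * ((q + 1) * q) ^ n := by
      rw [hq]; exact_mod_cast h2
    push_cast
    gcongr
  have hun := PP_exists_le K (fun i (ω : Option F × Bool → F) => 2 * (q * τ)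
        ≤ Psi Y i.1 i.2 (fun t => r * Y.gp i.1 t + 2 * τ) ω)
  have hb : ∀ i ∈ K, PP (fun ω : Option F × Bool → F => 2 * (q * τ)
        ≤ Psi Y i.1 i.2 (fun t => r * Y.gp i.1 t + 2 * τ) ω)
        ≤ Real.exp (-((q * τ) ^ 2 / (64 * (q + 1) * r ^ 2))) := by
    intro i hi
    rw [hK, mem_product, mem_filter] at hi
    exact tail_Psi Y i.1 i.2 r τ hi.2.2 hτ hr0 (by linarith [hi.2.2]) hm hsmall
  refine (PP_mono (fun ω h => ?_)).trans (hun.trans ((sum_le_sum hb).trans ?_))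
  · push Not at h
    obtain ⟨ρ, A, hA, hsp, hlt⟩ := h
    refine ⟨(ρ, A), ?_, ?_⟩
    · rw [hK, mem_product, mem_filter]
      exact ⟨mem_univ _, mem_univ _, hA⟩
    · unfold Psi
      have e1 : ∀ t, ZZ Y ρ A t ω
          = (((cov A).filter (fun P => Y.Good ρ t (hs ω P))).card : ℝ) := by
        intro t
        unfold ZZ
        congr 2
        ext P
        rw [mem_filter, mem_filter, hA_eq_hs hsp]
      have e2 : 2 * (q * τ) = η * q * r / N := by
        have : 2 * (q * τ) = q * (2 * τ) := by ring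
        rw [this, hη]; ring
      simp only [e1]
      rw [e2]
      refine hlt.le.trans (le_of_eq ?_)
      refine sum_congr rfl (fun t _ => ?_)
      rw [hη, sub_add_eq_sub_sub]
  · rw [sum_const, nsmul_eq_mul]
    exact mul_le_mul_of_nonneg_right hKc (Real.exp_nonneg _)

open Classical in
/-- the deterministic part -/
theorem conc_of_Evt (Y : Sys F N) (η : ℝ) (ω : Option F × Bool → F)
    (hd : ∀ d, ω (d, false) ≠ ω (d, true)) (hE : Evt Y ω) (hN0 : 0 < N)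
    (hB : ∀ j, N * (Y.B j).card ≤ Fintype.card F + 1 + N)
    (hp12 : 1 / (500 * (N : ℝ) ^ 2) ≤ Y.p12)
    (h1 : 10 * ((N : ℝ) + 1) ≤ Fintype.card F)
    (h2 : 3000 * (N : ℝ) ^ 2 * (Fintype.card F : ℝ) ^ (3 / 4 : ℝ) ≤ Fintype.card F)
    (h3 : 2 ≤ (Fintype.card F : ℝ) ^ (3 / 4 : ℝ))
    (hgd : ∀ ρ, ∀ A : Finset (Option F × F), (A.card : ℝ) ≤ (Fintype.card F : ℝ) ^ (3 / 4 : ℝ) →
      (∀ κ, sl ω κ ∉ A) →
      ∑ t, max ((((cov A).filter (fun P => Y.Good ρ t (hs ω P))).card : ℝ)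
        - (Fintype.card F : ℝ) ^ (3 / 4 : ℝ) * Y.gp ρ t
        - η * (Fintype.card F : ℝ) ^ (3 / 4 : ℝ) / N) 0
      ≤ η * Fintype.card F * (Fintype.card F : ℝ) ^ (3 / 4 : ℝ) / N) : Conc Y η ω := by
  classical
  have hq := qpos (F := F)
  set q : ℝ := (Fintype.card F : ℝ) with hqdef
  set r : ℝ := q ^ (3 / 4 : ℝ) with hr
  have hN1 : (1 : ℝ) ≤ N := by exact_mod_cast hN0
  have hNp : (0 : ℝ) < N := by linarith
  have hb : ∀ j, ((Y.B j).card / (Fintype.card F : ℝ)) ≤ 1.1 / N := by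
    intro j
    have h4 : (N : ℝ) * (Y.B j).card ≤ q + 1 + N := by rw [hqdef]; exact_mod_cast hB j
    rw [← hqdef, div_le_div_iff₀ hq hNp]
    nlinarith
  have hbN : (N : ℝ) * (1.1 / N) ^ 2 + 1.1 / N = 2.31 / N := by
    field_simp; norm_num
  refine ⟨hE.load, ?_, ?_, ?_, ?_, ?_, hgd⟩
  · -- s12_gen
    intro l hl
    have hA := hE.A l
    have hcongr : (pts l).filter (fun P => Y.s12 ((hs ω P).filter (fun κ => κ.1 ≠ l.1)))
        = (pts l).filter (fun P => Y.s12 (hs ω P)) := by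
      refine filter_congr (fun P hP => ?_)
      rw [hs_filter_of_nonspecial hl hP]
    rw [hcongr, ← hqdef, ← hr] at hA
    have h4 := p12_le Y l.1
    have h5 := le_p12 Y l.1
    rw [← hqdef] at h4
    have h6 : q * (2 / q) = 2 := by field_simp
    have h7 := mul_le_mul_of_nonneg_left h4 hq.le
    have h8 := mul_le_mul_of_nonneg_left h5 hq.le
    rw [mul_add, h6] at h7
    rw [abs_le] at hA ⊢
    constructor <;> linarith [hA.1, hA.2]
  · -- s12_lo
    intro l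
    have hA := hE.A l
    rw [← hqdef, ← hr] at hA
    have hmono : (((pts l).filter (fun P => Y.s12 ((hs ω P).filter
        (fun κ => κ.1 ≠ l.1)))).card : ℝ) ≤ ((pts l).filter (fun P => Y.s12 (hs ω P))).card :=
      card_filter_mono (fun P _ h => s12_mono Y (filter_subset _ _) h)
    have h4 := p12_le Y l.1
    rw [← hqdef] at h4
    have h6 : q * (2 / q) = 2 := by field_simp
    have h7 := mul_le_mul_of_nonneg_left h4 hq.le
    rw [mul_add, h6] at h7
    have h8 := mul_le_mul_of_nonneg_left hp12 hq.le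
    have h9 : q / (1000 * (N : ℝ) ^ 2) + r + 2 ≤ q * (1 / (500 * (N : ℝ) ^ 2)) := by
      have e1 : q * (1 / (500 * (N : ℝ) ^ 2)) = q / (1000 * (N : ℝ) ^ 2)
          + q / (1000 * (N : ℝ) ^ 2) := by field_simp; ring
      rw [e1]
      have e2 : 2 * r ≤ q / (1000 * (N : ℝ) ^ 2) := by
        rw [le_div_iff₀ (by positivity)]
        have : 0 ≤ r := by positivity
        nlinarith [mul_nonneg (sq_nonneg (N : ℝ)) this]
      linarith
    linarith [(abs_le.mp hA).1]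
  · -- s12_hi
    intro l
    obtain ⟨v, hv⟩ := hs_sub_insert hd l
    have hBB := hE.B (l, v)
    simp only at hBB
    rw [← hqdef, ← hr] at hBB
    have hmono : (((pts l).filter (fun P => Y.s12 (hs ω P))).card : ℝ)
        ≤ ((pts l).filter (fun P => Y.s12 (insert (l.1, v) ((hs ω P).filter
        (fun κ => κ.1 ≠ l.1))))).card :=
      card_filter_mono (fun P hP h => s12_mono Y (hv P hP) h)
    have h4 : PP (fun ω : Option F × Bool → F =>
        Y.s12 (insert (l.1, v) ((zs ω).filter (fun κ => κ.1 ≠ l.1))))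
        ≤ ((N : ℝ) * (1.1 / N) ^ 2 + 1.1 / N) ^ 2 :=
      (PP_mono (fun ω h => s12_mono Y (insert_subset_insert _ (filter_subset _ _)) h)).trans
        (PP_s12_insert Y (l.1, v) _ hb)
    rw [hbN] at h4
    have h5 := mul_le_mul_of_nonneg_left h4 hq.le
    have h6 : r ≤ q / (N : ℝ) ^ 2 := by
      rw [le_div_iff₀ (by positivity)]
      have : 0 ≤ r := by positivity
      nlinarith [mul_nonneg (sq_nonneg (N : ℝ)) this]
    have h7 : q * (2.31 / (N : ℝ)) ^ 2 = 5.3361 * (q / (N : ℝ) ^ 2) := by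
      field_simp; ring
    rw [h7] at h5
    have h8 : 100 * q / (N : ℝ) ^ 2 = 100 * (q / (N : ℝ) ^ 2) := by ring
    rw [h8]
    have h9 : 0 ≤ q / (N : ℝ) ^ 2 := by positivity
    linarith [(abs_le.mp hBB).2]
  · -- good_lo
    intro ρ t
    have hC := hE.C (ρ, sl ω (Y.wl ρ t))
    have hl1 : (sl ω (Y.wl ρ t)).1 = t := rfl
    simp only [hl1] at hC
    rw [← hqdef, ← hr] at hC
    have hcongr : (pts (sl ω (Y.wl ρ t))).filter (fun P => Y.Good ρ t (insert (Y.wl ρ t)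
        ((hs ω P).filter (fun κ => κ.1 ≠ t))))
        = (pts (sl ω (Y.wl ρ t))).filter (fun P => Y.Good ρ t (hs ω P)) := by
      refine filter_congr (fun P hP => Good_congr Y ρ t (fun κ hκ => ?_))
      rw [mem_insert, mem_filter]
      constructor
      · rintro (h | h)
        · rw [h, mem_hs]
          rw [mem_pts] at hP
          exact hP.symm
        · exact h.1
      · intro h
        rcases hκ with h4 | h4
        · exact Or.inr ⟨h, h4⟩
        · exact Or.inl h4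
    rw [hcongr] at hC
    have : PP (fun ω : Option F × Bool → F => Y.Good ρ t (insert (Y.wl ρ t)
        ((zs ω).filter (fun κ => κ.1 ≠ t)))) = Y.gp ρ t := rfl
    rw [this] at hC
    linarith [(abs_le.mp hC).1]
  · -- rbc
    intro κ
    have hD := hE.D (sl ω κ, κ.2)
    have hl1 : (sl ω κ).1 = κ.1 := rfl
    simp only [hl1, Prod.mk.eta] at hD
    rw [← hqdef, ← hr] at hD
    have hmono : (((pts (sl ω κ)).filter (fun P => ∃ j, Y.rb j (hs ω P))).card : ℝ)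
        ≤ ((pts (sl ω κ)).filter (fun P => ∃ j, Y.rb j (insert κ ((hs ω P).filter
        (fun κ' => κ'.1 ≠ κ.1))))).card := by
      refine card_filter_mono (fun P hP h => ?_)
      obtain ⟨j, hj⟩ := h
      refine ⟨j, rb_mono Y (fun κ' hκ' => ?_) hj⟩
      rw [mem_insert, mem_filter]
      by_cases h4 : κ'.1 = κ.1
      · left
        by_contra hne
        rw [mem_hs] at hκ'
        rw [mem_pts] at hP
        have e1 : pos κ.1 P = ω κ := hP
        rcases κ with ⟨d, v⟩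
        rcases κ' with ⟨d', v'⟩
        simp only at h4
        subst h4
        have e2 : ω (d', v') = ω (d', v) := by rw [hκ', ← e1]
        rcases v with _ | _ <;> rcases v' with _ | _
        · exact hne rfl
        · exact hd d' e2.symm
        · exact hd d' e2
        · exact hne rfl
      · right; exact ⟨hκ', h4⟩
    have h4 : PP (fun ω : Option F × Bool → F =>
        ∃ j, Y.rb j (insert κ ((zs ω).filter (fun κ' => κ'.1 ≠ κ.1))))
        ≤ (N : ℝ) * (1.1 / N) ^ 2 + 1.1 / N := by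
      refine le_trans (PP_mono (fun ω h => ?_)) (PP_rb_insert Y univ κ _ hb)
      obtain ⟨j, hj⟩ := h
      exact ⟨j, mem_univ _, rb_mono Y (insert_subset_insert _ (filter_subset _ _)) hj⟩
    rw [hbN] at h4
    have h5 := mul_le_mul_of_nonneg_left h4 hq.le
    have h6 : r ≤ q / (N : ℝ) := by
      rw [le_div_iff₀ (by positivity)]
      have : 0 ≤ r := by positivity
      have h7 : (N : ℝ) ≤ (N : ℝ) ^ 2 := by nlinarith
      nlinarith [mul_nonneg (sq_nonneg (N : ℝ)) this, mul_le_mul_of_nonneg_right h7 this]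
    have h7 : q * (2.31 / (N : ℝ)) = 2.31 * (q / (N : ℝ)) := by ring
    rw [h7] at h5
    have h8 : 10 * q / (N : ℝ) = 10 * (q / (N : ℝ)) := by ring
    rw [h8]
    have h9 : 0 ≤ q / (N : ℝ) := by positivity
    linarith [(abs_le.mp hD).2]

end

theorem aux_c6 {q r η τ N : ℝ} (hq1 : 1 ≤ q) (hNp : 0 < N) (hN1 : N ≤ q) (hr0 : 0 < r)
    (hr2 : r ^ 2 = q * q ^ (1 / 2 : ℝ)) (hη : 0 < η) (hτ : τ = η * r / (2 * N))
    (e4 : N ^ 2 ≤ q ^ (1 / 8 : ℝ))
    (e5 : 4 * q * Real.exp (-(η ^ 2 / 128 * q ^ (3 / 8 : ℝ))) ≤ η) :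
    (q + 1) * (r * Real.exp (-(τ ^ 2 / (16 * (q + 1))))) ≤ q * τ := by
  have hq : 0 < q := by linarith
  have h1 : η ^ 2 / 128 * q ^ (3 / 8 : ℝ) ≤ τ ^ 2 / (16 * (q + 1)) := by
    rw [hτ, div_pow, mul_pow, hr2, le_div_iff₀ (by positivity), le_div_iff₀ (by positivity)]
    have h2 : q ^ (3 / 8 : ℝ) * N ^ 2 ≤ q ^ (1 / 2 : ℝ) := by
      calc q ^ (3 / 8 : ℝ) * N ^ 2 ≤ q ^ (3 / 8 : ℝ) * q ^ (1 / 8 : ℝ) := by
            exact mul_le_mul_of_nonneg_left e4 (Real.rpow_nonneg hq.le _)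
        _ = q ^ (1 / 2 : ℝ) := by rw [← Real.rpow_add hq]; norm_num
    have h3 : q + 1 ≤ 2 * q := by linarith
    calc η ^ 2 / 128 * q ^ (3 / 8 : ℝ) * (16 * (q + 1)) * (2 * N) ^ 2
        = η ^ 2 / 2 * (q ^ (3 / 8 : ℝ) * N ^ 2) * (q + 1) := by ring
      _ ≤ η ^ 2 / 2 * q ^ (1 / 2 : ℝ) * (2 * q) := by gcongr
      _ = η ^ 2 * (q * q ^ (1 / 2 : ℝ)) := by ring
  have h2 : Real.exp (-(τ ^ 2 / (16 * (q + 1)))) ≤ Real.exp (-(η ^ 2 / 128 * q ^ (3 / 8 : ℝ))) :=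
    Real.exp_le_exp.mpr (by linarith)
  have h3 : 4 * q * Real.exp (-(τ ^ 2 / (16 * (q + 1)))) ≤ η := by
    refine le_trans ?_ e5
    exact mul_le_mul_of_nonneg_left h2 (by positivity)
  set x := Real.exp (-(τ ^ 2 / (16 * (q + 1)))) with hx
  have hx0 : 0 ≤ x := Real.exp_nonneg _
  rw [hτ]
  have h4 : q * (η * r / (2 * N)) = q * r * η / (2 * N) := by ring
  rw [h4, le_div_iff₀ (by positivity)]
  calc (q + 1) * (r * x) * (2 * N) ≤ (2 * q) * (r * x) * (2 * q) := by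
        gcongr; linarith
    _ = q * r * (4 * q * x) := by ring
    _ ≤ q * r * η := by gcongr

theorem aux_c7 {q r s η τ : ℝ} {N n : ℕ} (hq2 : 2 ≤ q) (hNp : 0 < (N : ℝ)) (hr0 : 0 < r)
    (hrq : r ≤ q) (hrs : r * s = q) (hη : 0 < η) (hτ : τ = η * r / (2 * N))
    (hlogN : Real.log q ≤ N) (h2N : (2 : ℝ) ^ N ≤ 2 ^ 20 * q ^ 4) (hfl : (n : ℝ) ≤ r)
    (e1 : 3072 / η ^ 2 * (N : ℝ) ^ 3 ≤ s) (e4 : (N : ℝ) ^ 2 ≤ q ^ (1 / 8 : ℝ))
    (e6 : 2 ^ 21 * q ^ (5 : ℝ) * Real.exp (-(η ^ 2 / 1024 * q ^ (1 / 2 : ℝ))) ≤ 1 / 400) :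
    (2 : ℝ) ^ N * (((n : ℝ) + 1) * ((q + 1) * q) ^ n)
        * Real.exp (-((q * τ) ^ 2 / (64 * (q + 1) * r ^ 2))) ≤ 1 / 400 := by
  have hq : 0 < q := by linarith
  have hq1 : 1 ≤ q := by linarith
  have h1 : ((q + 1) * q) ^ n ≤ Real.exp (3 * r * N) := by
    have h2 : (q + 1) * q ≤ Real.exp (3 * Real.log q) := by
      have : Real.exp (3 * Real.log q) = q ^ 3 := by
        rw [show (3 : ℝ) * Real.log q = ((3 : ℕ) : ℝ) * Real.log q by norm_num,
          Real.exp_nat_mul, Real.exp_log hq]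
      rw [this]
      have h3 : q + 1 ≤ q ^ 2 := by nlinarith
      calc (q + 1) * q ≤ q ^ 2 * q := by gcongr
        _ = q ^ 3 := by ring
    calc ((q + 1) * q) ^ n ≤ (Real.exp (3 * Real.log q)) ^ n := by
          exact pow_le_pow_left₀ (by positivity) h2 _
      _ = Real.exp (n * (3 * Real.log q)) := by rw [← Real.exp_nat_mul]
      _ ≤ Real.exp (3 * r * N) := by
          refine Real.exp_le_exp.mpr ?_
          have h3 : 0 ≤ Real.log q := Real.log_nonneg hq1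
          calc (n : ℝ) * (3 * Real.log q) ≤ r * (3 * N) := by gcongr
            _ = 3 * r * N := by ring
  have h4 : η ^ 2 * q / (512 * (N : ℝ) ^ 2) ≤ (q * τ) ^ 2 / (64 * (q + 1) * r ^ 2) := by
    rw [hτ, div_le_div_iff₀ (by positivity) (by positivity)]
    have : (q * (η * r / (2 * N))) ^ 2 * (512 * (N : ℝ) ^ 2) = 128 * q ^ 2 * η ^ 2 * r ^ 2 := by
      field_simp; ring
    rw [this]
    have h5 : q + 1 ≤ 2 * q := by linarith
    calc η ^ 2 * q * (64 * (q + 1) * r ^ 2) ≤ η ^ 2 * q * (64 * (2 * q) * r ^ 2) := by gcongr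
      _ = 128 * q ^ 2 * η ^ 2 * r ^ 2 := by ring
  have h5 : 3 * r * N ≤ η ^ 2 * q / (1024 * (N : ℝ) ^ 2) := by
    rw [le_div_iff₀ (by positivity)]
    have h6 : 3072 * (N : ℝ) ^ 3 ≤ η ^ 2 * s := by
      have : 3072 / η ^ 2 * (N : ℝ) ^ 3 * η ^ 2 ≤ s * η ^ 2 :=
        mul_le_mul_of_nonneg_right e1 (sq_nonneg η)
      have h7 : 3072 / η ^ 2 * (N : ℝ) ^ 3 * η ^ 2 = 3072 * (N : ℝ) ^ 3 := by field_simp
      rw [h7] at this; linarith
    calc 3 * r * N * (1024 * (N : ℝ) ^ 2) = r * (3072 * (N : ℝ) ^ 3) := by ring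
      _ ≤ r * (η ^ 2 * s) := by gcongr
      _ = η ^ 2 * (r * s) := by ring
      _ = η ^ 2 * q := by rw [hrs]
  have h6 : η ^ 2 / 1024 * q ^ (1 / 2 : ℝ) ≤ η ^ 2 * q / (1024 * (N : ℝ) ^ 2) := by
    rw [le_div_iff₀ (by positivity)]
    have h7 : (N : ℝ) ^ 2 ≤ q ^ (1 / 2 : ℝ) :=
      e4.trans (Real.rpow_le_rpow_of_exponent_le hq1 (by norm_num))
    have h8 : q ^ (1 / 2 : ℝ) * q ^ (1 / 2 : ℝ) = q := by
      rw [← Real.rpow_add hq]; norm_num
    have h9 : 0 ≤ q ^ (1 / 2 : ℝ) := Real.rpow_nonneg hq.le _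
    calc η ^ 2 / 1024 * q ^ (1 / 2 : ℝ) * (1024 * (N : ℝ) ^ 2)
        = η ^ 2 * (q ^ (1 / 2 : ℝ) * (N : ℝ) ^ 2) := by ring
      _ ≤ η ^ 2 * (q ^ (1 / 2 : ℝ) * q ^ (1 / 2 : ℝ)) := by gcongr
      _ = η ^ 2 * q := by rw [h8]
  have h7 : (n : ℝ) + 1 ≤ 2 * q := by linarith
  have h8 : η ^ 2 * q / (512 * (N : ℝ) ^ 2) = η ^ 2 * q / (1024 * (N : ℝ) ^ 2)
      + η ^ 2 * q / (1024 * (N : ℝ) ^ 2) := by field_simp; ring
  have e6' : 2 ^ 21 * q ^ 5 * Real.exp (-(η ^ 2 / 1024 * q ^ (1 / 2 : ℝ))) ≤ 1 / 400 := by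
    have : q ^ (5 : ℝ) = q ^ 5 := by
      rw [show (5 : ℝ) = ((5 : ℕ) : ℝ) by norm_num, Real.rpow_natCast]
    rw [this] at e6; exact e6
  calc (2 : ℝ) ^ N * (((n : ℝ) + 1) * ((q + 1) * q) ^ n)
      * Real.exp (-((q * τ) ^ 2 / (64 * (q + 1) * r ^ 2)))
      ≤ (2 ^ 20 * q ^ 4) * ((2 * q) * Real.exp (3 * r * N))
        * Real.exp (-(η ^ 2 * q / (512 * (N : ℝ) ^ 2))) := by
        gcongr
    _ = 2 ^ 21 * q ^ 5 * Real.exp (3 * r * N - η ^ 2 * q / (512 * (N : ℝ) ^ 2)) := by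
        rw [Real.exp_sub, Real.exp_neg]; ring
    _ ≤ 2 ^ 21 * q ^ 5 * Real.exp (-(η ^ 2 / 1024 * q ^ (1 / 2 : ℝ))) := by
        refine mul_le_mul_of_nonneg_left (Real.exp_le_exp.mpr ?_) (by positivity)
        linarith
    _ ≤ 1 / 400 := e6'

theorem aux_c8 {q : ℝ} (hq1 : 1 ≤ q)
    (e7 : (2 ^ 20 + 5) * 128 * q ^ (6 : ℝ) * Real.exp (-(1 / 32 * q ^ (1 / 2 : ℝ))) ≤ 1 / 400) :
    (2 ^ 20 + 5) * (q + 1) ^ 6 * (2 * Real.exp (-(Real.sqrt q / 32))) ≤ 1 / 400 := by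
  have hsq : Real.sqrt q = q ^ (1 / 2 : ℝ) := Real.sqrt_eq_rpow q
  have h1 : (q + 1) ^ 6 ≤ 64 * q ^ 6 := by
    calc (q + 1) ^ 6 ≤ (2 * q) ^ 6 := by gcongr; linarith
      _ = 64 * q ^ 6 := by ring
  have h2 : q ^ (6 : ℝ) = q ^ 6 := by
    rw [show (6 : ℝ) = ((6 : ℕ) : ℝ) by norm_num, Real.rpow_natCast]
  rw [h2] at e7
  rw [hsq]
  have h3 : q ^ (1 / 2 : ℝ) / 32 = 1 / 32 * q ^ (1 / 2 : ℝ) := by ring
  rw [h3]
  calc (2 ^ 20 + 5) * (q + 1) ^ 6 * (2 * Real.exp (-(1 / 32 * q ^ (1 / 2 : ℝ))))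
      ≤ (2 ^ 20 + 5) * (64 * q ^ 6) * (2 * Real.exp (-(1 / 32 * q ^ (1 / 2 : ℝ)))) := by gcongr
    _ = (2 ^ 20 + 5) * 128 * q ^ 6 * Real.exp (-(1 / 32 * q ^ (1 / 2 : ℝ))) := by ring
    _ ≤ 1 / 400 := e7

theorem aux_c5 {q r s η τ N : ℝ} (hq : 0 < q) (hNp : 0 < N)
    (hrs : r * s = q) (hη : 0 < η) (hτ : τ = η * r / (2 * N)) (e3 : 8 / η * N ≤ s) :
    4 * r ^ 2 / q ≤ τ := by
  rw [hτ, div_le_div_iff₀ hq (by positivity)]
  have h1 : 8 * N ≤ η * s := by
    have : 8 / η * N * η ≤ s * η := mul_le_mul_of_nonneg_right e3 hη.le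
    have h2 : 8 / η * N * η = 8 * N := by field_simp
    rw [h2] at this; linarith
  have h3 := mul_le_mul_of_nonneg_left h1 (sq_nonneg r)
  calc 4 * r ^ 2 * (2 * N) = r ^ 2 * (8 * N) := by ring
    _ ≤ r ^ 2 * (η * s) := h3
    _ = η * r * (r * s) := by ring
    _ = η * r * q := by rw [hrs]

open Filter in
theorem conc_event (η : ℝ) (hη : 0 < η) : ∃ q₀ : ℕ,
    ∀ (F : Type) [Field F] [Fintype F] [DecidableEq F], q₀ ≤ Fintype.card F →
    ∀ (N : ℕ), N = NN (Fintype.card F) → ∀ (Y : Sys F N), Y.Ok →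
    PP (fun ω : Option F × Bool → F => (∀ d, ω (d, false) ≠ ω (d, true)) ∧ ¬ Conc Y η ω)
      ≤ 1 / 50 := by
  classical
  obtain ⟨q₁, hq₁⟩ := p12_lo
  have hev := (ev_NN 3 (3072 / η ^ 2) (1 / 4) (by norm_num)).and
    ((ev_NN 2 3000 (1 / 4) (by norm_num)).and
    ((ev_NN 1 (8 / η) (1 / 4) (by norm_num)).and
    ((ev_NN 2 1 (1 / 8) (by norm_num)).and
    ((ev_exp 4 1 (η ^ 2 / 128) (3 / 8) η (by positivity) (by norm_num) hη).and
    ((ev_exp (2 ^ 21) 5 (η ^ 2 / 1024) (1 / 2) (1 / 400) (by positivity) (by norm_num)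
      (by norm_num)).and
    ((ev_exp ((2 ^ 20 + 5) * 128) 6 (1 / 32) (1 / 2) (1 / 400) (by norm_num) (by norm_num)
      (by norm_num)).and
    ((ev_NN 1 20 1 one_pos).and (eventually_ge_atTop (max q₁ 2)))))))))
  obtain ⟨q₀, hq₀⟩ := eventually_atTop.mp hev
  refine ⟨q₀, ?_⟩
  intro F _ _ _ hqF N hN Y hY
  obtain ⟨e1, e2, e3, e4, e5, e6, e7, e8, e9⟩ := hq₀ (Fintype.card F) hqF
  have hN20 : 20 ≤ N := by rw [hN]; unfold NN; omega
  rw [← hN] at e1 e2 e3 e4 e8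
  have hq2n : 2 ≤ Fintype.card F := le_trans (le_max_right _ _) e9
  have hp := hq₁ F (le_trans (le_max_left _ _) e9) N hN Y hY
  have hlogN : Real.log (Fintype.card F) ≤ N := by
    rw [hN]; exact log_le_NN (by omega)
  have hcount := Evt_prob Y hN
  have h2N : (2 : ℝ) ^ N ≤ 2 ^ 20 * (Fintype.card F : ℝ) ^ 4 := by
    rw [hN]; exact two_pow_NN_le _ (by omega)
  have hq := qpos (F := F)
  have hq2 : (2 : ℝ) ≤ (Fintype.card F : ℝ) := by exact_mod_cast hq2n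
  have hgdp := gd_prob Y η ((Fintype.card F : ℝ) ^ (3 / 4 : ℝ))
    (η * (Fintype.card F : ℝ) ^ (3 / 4 : ℝ) / (2 * N))
  have hdet := fun ω => conc_of_Evt (N := N) Y η ω
  set q : ℝ := (Fintype.card F : ℝ) with hqdef
  have hNR : (20 : ℝ) ≤ N := by exact_mod_cast hN20
  have hNp : (0 : ℝ) < N := by linarith
  rw [pow_one] at e3 e8
  rw [Real.rpow_one] at e8 e5
  rw [one_mul] at e4
  set r : ℝ := q ^ (3 / 4 : ℝ) with hr
  set s : ℝ := q ^ (1 / 4 : ℝ) with hs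
  have hs0 : 0 < s := Real.rpow_pos_of_pos hq _
  have hr0 : 0 < r := Real.rpow_pos_of_pos hq _
  have hq1 : 1 ≤ q := by linarith
  have hrs : r * s = q := by
    rw [hr, hs, ← Real.rpow_add hq]; norm_num
  have hr2 : r ^ 2 = q * q ^ (1 / 2 : ℝ) := by
    rw [hr, ← Real.rpow_natCast, ← Real.rpow_mul hq.le]
    nth_rewrite 2 [← Real.rpow_one q]
    rw [← Real.rpow_add hq]; norm_num
  have hsr : s ≤ r := by
    rw [hr, hs]; exact Real.rpow_le_rpow_of_exponent_le hq1 (by norm_num)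
  have hs4 : 4 ≤ s := by
    refine le_trans ?_ e2
    nlinarith
  have hrq : r ≤ q := by
    rw [← hrs]; nlinarith
  have hN1 : (N : ℝ) ≤ q := by linarith
  have c5 := aux_c5 (τ := η * r / (2 * N)) hq hNp hrs hη rfl e3
  have c6 := aux_c6 (τ := η * r / (2 * N)) hq1 hNp hN1 hr0 hr2 hη rfl e4 e5
  have hη2 : 2 * (η * r / (2 * N)) = η * r / N := by
    field_simp
  have hn : r < (⌊r⌋₊ : ℝ) + 1 := Nat.lt_floor_add_one r
  have hA4 : 4 * r ≤ q := by
    rw [← hrs, mul_comm]; exact mul_le_mul_of_nonneg_left hs4 hr0.le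
  have hg := hgdp hr0 (by positivity) hA4 c5 c6 ⌊r⌋₊ hn hη2
  have c7 := aux_c7 (τ := η * r / (2 * N)) (n := ⌊r⌋₊) hq2 hNp hr0 hrq hrs hη rfl hlogN h2N
    (Nat.floor_le hr0.le) e1 e4 e6
  have c8 := aux_c8 hq1 e7
  have hgood := (PP_or_le (fun ω : Option F × Bool → F => ¬ Evt Y ω) _).trans
    (add_le_add (hcount.trans (add_le_add le_rfl c8)) (hg.trans c7))
  refine le_trans (PP_mono (fun ω h => ?_)) (hgood.trans (by norm_num))
  by_contra hcon
  rw [not_or, not_not, not_not] at hcon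
  obtain ⟨hE, hGD⟩ := hcon
  refine h.2 (hdet ω h.1 hE (by omega) hY.hi hp (by linarith) ?_ (by linarith) hGD)
  calc 3000 * (N : ℝ) ^ 2 * r ≤ s * r := by gcongr
    _ = q := by rw [mul_comm, hrs]

end Crest.Agent.H20Ry
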