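import Crest.Agent.H3RyDefs
import Crest.Agent.H23RyProb

set_option autoImplicit false
set_option linter.unusedSectionVars false

namespace Crest.Agent.H20Ry
open Finset Crest.Agent.H3Ry Crest.Agent.H23RyProb

section
variable {F : Type*} [Field F] [Fintype F] [DecidableEq F]

theorem pos_inj {d d' : Option F} (h : d ≠ d') {P Q : F × F} (h1 : pos d P = pos d Q)
    (h2 : pos d' P = pos d' Q) : P = Q := by
  rcases P with ⟨a, b⟩
  rcases Q with ⟨a', b'⟩
  rcases d with _ | m <;> rcases d' with _ | m'
  · exact absurd rfl h
  · simp only [pos] at h1 h2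
    subst h1
    have : b = b' := by linear_combination h2
    rw [this]
  · simp only [pos] at h1 h2
    subst h2
    have : b = b' := by linear_combination h1
    rw [this]
  · simp only [pos] at h1 h2
    have hm : m - m' ≠ 0 := by
      intro h0
      exact h (by rw [sub_eq_zero.mp h0])
    have h3 : (m - m') * (a - a') = 0 := by linear_combination h2 - h1
    have h4 : a - a' = 0 := by
      rcases mul_eq_zero.mp h3 with h5 | h5
      · exact absurd h5 hm
      · exact h5
    have h5 : a = a' := sub_eq_zero.mp h4
    subst h5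
    have : b = b' := by linear_combination h1
    rw [this]

theorem mem_pts {l : Option F × F} {P : F × F} : P ∈ pts l ↔ pos l.1 P = l.2 := by
  simp [pts]

theorem card_pts' (l : Option F × F) : (pts l).card = Fintype.card F := by
  rcases l with ⟨d, c⟩
  rcases d with _ | m
  · have : pts ((none : Option F), c) = (univ : Finset F).image (fun y => (c, y)) := by
      ext P
      rcases P with ⟨a, b⟩
      rw [mem_pts]
      simp only [pos, mem_univ, true_and, mem_image, Prod.mk.injEq]
      constructor
      · intro h; exact ⟨b, h.symm, rfl⟩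
      · rintro ⟨y, h1, _⟩; exact h1.symm
    rw [this, card_image_of_injective _ (fun x y h => by simpa using h), card_univ]
  · have : pts ((some m : Option F), c) = (univ : Finset F).image (fun x => (x, m * x + c)) := by
      ext P
      rcases P with ⟨a, b⟩
      rw [mem_pts]
      simp only [pos, mem_univ, true_and, mem_image, Prod.mk.injEq]
      constructor
      · intro h; exact ⟨a, rfl, by linear_combination -h⟩
      · rintro ⟨y, rfl, h1⟩; linear_combination -h1
    rw [this, card_image_of_injective _ (fun x y h => by simp at h; exact h.1), card_univ]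

theorem mem_hs {ω : Option F × Bool → F} {P : F × F} {κ : Option F × Bool} :
    κ ∈ hs ω P ↔ ω κ = pos κ.1 P := by
  simp [hs]

theorem mem_zs {ω : Option F × Bool → F} {κ : Option F × Bool} :
    κ ∈ zs ω ↔ ω κ = 0 := by
  simp [zs]

/-- a line meets another line in at most one point -/
theorem card_inter_le (l : Option F × F) (d : Option F) (h : d ≠ l.1) (x : F) :
    ((pts l).filter (fun P => pos d P = x)).card ≤ 1 := by
  rw [card_le_one]
  intro P hP Q hQ
  rw [mem_filter, mem_pts] at hP hQ
  exact pos_inj h (hP.2.trans hQ.2.symm) (hP.1.trans hQ.1.symm)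

theorem hs_update_of_ne {ω : Option F × Bool → F} {P : F × F} {κ : Option F × Bool} {x : F}
    (h1 : pos κ.1 P ≠ ω κ) (h2 : pos κ.1 P ≠ x) :
    hs (Function.update ω κ x) P = hs ω P := by
  ext κ'
  rw [mem_hs, mem_hs]
  by_cases h : κ' = κ
  · subst h
    rw [Function.update_self]
    exact ⟨fun h => absurd h.symm h2, fun h => absurd h.symm h1⟩
  · rw [Function.update_of_ne h]

theorem hs_update_filter {ω : Option F × Bool → F} {P : F × F} {κ : Option F × Bool} {x : F}
    (p : Option F × Bool → Prop) [DecidablePred p] (hκ : ¬ p κ) :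
    (hs (Function.update ω κ x) P).filter p = (hs ω P).filter p := by
  ext κ'
  rw [mem_filter, mem_filter, mem_hs, mem_hs]
  by_cases h : κ' = κ
  · subst h
    exact ⟨fun h => absurd h.2 hκ, fun h => absurd h.2 hκ⟩
  · rw [Function.update_of_ne h]

/-- counting functions change by at most the number of changed elements -/
theorem abs_card_filter_sub_le {α : Type*} [DecidableEq α] (U E : Finset α) (p r : α → Prop)
    [DecidablePred p] [DecidablePred r]
    (h : ∀ a ∈ U, a ∉ E → (p a ↔ r a)) :
    |((U.filter p).card : ℝ) - ((U.filter r).card : ℝ)| ≤ E.card := by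
  have h1 : (U.filter p) ⊆ (U.filter r) ∪ E := by
    intro a ha
    rw [mem_filter] at ha
    rw [mem_union, mem_filter]
    by_cases hE : a ∈ E
    · right; exact hE
    · left; exact ⟨ha.1, (h a ha.1 hE).mp ha.2⟩
  have h2 : (U.filter r) ⊆ (U.filter p) ∪ E := by
    intro a ha
    rw [mem_filter] at ha
    rw [mem_union, mem_filter]
    by_cases hE : a ∈ E
    · right; exact hE
    · left; exact ⟨ha.1, (h a ha.1 hE).mpr ha.2⟩
  have h3 : ((U.filter p).card : ℝ) ≤ (U.filter r).card + E.card := by
    exact_mod_cast (card_le_card h1).trans (card_union_le _ _)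
  have h4 : ((U.filter r).card : ℝ) ≤ (U.filter p).card + E.card := by
    exact_mod_cast (card_le_card h2).trans (card_union_le _ _)
  rw [abs_le]
  constructor <;> linarith

/-- translation invariance: the law of `hs ω P` is that of `zs ω` -/
theorem PP_hs (s : Finset (Option F × Bool) → Prop) (P : F × F) :
    PP (fun ω : Option F × Bool → F => s (hs ω P)) = PP (fun ω : Option F × Bool → F => s (zs ω)) := by
  classical
  unfold PP
  rw [← EE_equiv (fun κ : Option F × Bool => Equiv.subRight (pos κ.1 P))
    (fun ω => if s (zs ω) then (1 : ℝ) else 0)]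
  congr 1
  funext ω
  have : zs (fun i => (Equiv.subRight (pos i.1 P)) (ω i)) = hs ω P := by
    ext κ
    rw [mem_zs, mem_hs, Equiv.subRight_apply, sub_eq_zero]
  rw [this]

theorem card_eq_sum_ite {α : Type*} (U : Finset α) (p : α → Prop) [DecidablePred p] :
    ((U.filter p).card : ℝ) = ∑ a ∈ U, if p a then (1 : ℝ) else 0 := by
  rw [Finset.sum_ite, sum_const_zero, add_zero, sum_const, nsmul_eq_mul, mul_one]

theorem EE_card (U : Finset (F × F)) (p : (Option F × Bool → F) → F × F → Prop)
    [∀ ω, DecidablePred (p ω)] :
    EE (fun ω => (((U.filter (p ω)).card : ℕ) : ℝ)) = ∑ P ∈ U, PP (fun ω => p ω P) := by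
  classical
  have : (fun ω : Option F × Bool → F => (((U.filter (p ω)).card : ℕ) : ℝ))
      = fun ω => ∑ P ∈ U, if p ω P then (1 : ℝ) else 0 := by
    funext ω
    rw [card_eq_sum_ite]
  rw [this, EE_sum]
  refine sum_congr rfl (fun P _ => ?_)
  unfold PP
  congr 1
  funext ω
  split_ifs <;> rfl

theorem count_conc (s : Finset (Option F × Bool) → Prop) [DecidablePred s] (l : Option F × F)
    (t : ℝ) (ht : 0 ≤ t) :
    PP (fun ω : Option F × Bool → F =>
      t < |(((pts l).filter (fun P => s ((hs ω P).filter (fun κ => κ.1 ≠ l.1)))).card : ℝ)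
        - Fintype.card F * PP (fun ω : Option F × Bool → F =>
            s ((zs ω).filter (fun κ => κ.1 ≠ l.1)))|)
      ≤ 2 * Real.exp (-(t ^ 2 / (16 * (Fintype.card F + 1)))) := by
  classical
  set f : (Option F × Bool → F) → ℝ := fun ω =>
    (((pts l).filter (fun P => s ((hs ω P).filter (fun κ => κ.1 ≠ l.1)))).card : ℝ) with hf
  have hmean : EE f = Fintype.card F * PP (fun ω : Option F × Bool → F =>
            s ((zs ω).filter (fun κ => κ.1 ≠ l.1))) := by
    rw [hf, EE_card (pts l) (fun ω P => s ((hs ω P).filter (fun κ => κ.1 ≠ l.1)))]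
    rw [sum_congr rfl (fun P _ => PP_hs (fun H => s (H.filter (fun κ => κ.1 ≠ l.1))) P),
      sum_const, card_pts', nsmul_eq_mul]
  have hlip : ∀ ω i x, |f (Function.update ω i x) - f ω| ≤ 2 := by
    intro ω κ x
    by_cases hκ : κ.1 = l.1
    · have : f (Function.update ω κ x) = f ω := by
        simp only [hf]
        simp only [hs_update_filter (fun κ : Option F × Bool => κ.1 ≠ l.1) (not_not.mpr hκ)]
      rw [this, sub_self, abs_zero]; norm_num
    · refine (abs_card_filter_sub_le (pts l)
        ((pts l).filter (fun P => pos κ.1 P = ω κ) ∪ (pts l).filter (fun P => pos κ.1 P = x))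
        _ _ ?_).trans ?_
      · intro P hP hPE
        rw [mem_union, mem_filter, mem_filter, not_or] at hPE
        rw [hs_update_of_ne (fun h => hPE.1 ⟨hP, h⟩) (fun h => hPE.2 ⟨hP, h⟩)]
      · have h1 := card_inter_le l κ.1 hκ (ω κ)
        have h2 := card_inter_le l κ.1 hκ x
        have h3 := card_union_le ((pts l).filter (fun P => pos κ.1 P = ω κ))
          ((pts l).filter (fun P => pos κ.1 P = x))
        exact_mod_cast h3.trans (by omega)
  have hcard : (Fintype.card (Option F × Bool) : ℝ) = 2 * (Fintype.card F + 1) := by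
    rw [Fintype.card_prod, Fintype.card_option, Fintype.card_bool]; push_cast; ring
  have hqpos : (0 : ℝ) < 2 * (Fintype.card F + 1) := by positivity
  have hu := mcdiarmid_upper f 2 (by norm_num) hlip t ht (2 * (Fintype.card F + 1)) hcard.le hqpos
  have hl := mcdiarmid_lower f 2 (by norm_num) hlip t ht (2 * (Fintype.card F + 1)) hcard.le hqpos
  have hexp : (2 * (2 * ((Fintype.card F : ℝ) + 1)) * 2 ^ 2) = 16 * (Fintype.card F + 1) := by ring
  rw [hexp] at hu hl
  rw [← hmean]
  calc PP (fun ω => t < |f ω - EE f|)
      ≤ PP (fun ω => (EE f + t ≤ f ω) ∨ (f ω ≤ EE f - t)) := by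
        refine PP_mono (fun ω h => ?_)
        rcases lt_abs.mp h with h | h
        · left; linarith
        · right; linarith
    _ ≤ _ := PP_or_le _ _
    _ ≤ _ := by linarith

end

end Crest.Agent.H20Ry
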