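import Crest.Agent.H20RyConc1

set_option autoImplicit false
set_option linter.unusedSectionVars false

namespace Crest.Agent.H20Ry
open Finset Crest.Agent.H3Ry Crest.Agent.H23RyProb

section dep
variable {ι α : Type*} [Fintype ι] [DecidableEq ι] [Fintype α] [Nonempty α]

open Classical in
theorem depOn_ite {p : (ι → α) → Prop} {s : Finset ι} (h : DepOn p s) :
    DepOn (fun ω => if p ω then (1 : ℝ) else 0) s := by
  intro ω ω' hω
  have : p ω = p ω' := h ω ω' hω
  simp only [this]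

end dep

section
variable {F : Type*} [Field F] [Fintype F] [DecidableEq F] {N : ℕ}

theorem qpos : (0 : ℝ) < Fintype.card F := by
  exact_mod_cast Fintype.card_pos

theorem q_ge_two : (2 : ℝ) ≤ Fintype.card F := by
  exact_mod_cast Fintype.one_lt_card

theorem PP_zs_mem (κ : Option F × Bool) :
    PP (fun ω : Option F × Bool → F => κ ∈ zs ω) = 1 / (Fintype.card F : ℝ) := by
  have := PP_coord (ι := Option F × Bool) (α := F) κ {0}
  rw [card_singleton, Nat.cast_one] at this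
  rw [← this]
  exact PP_congr (fun ω => by rw [mem_zs, mem_singleton])

/-- union bound for a set of coordinates -/
theorem PP_zs_exists (K : Finset (Option F × Bool)) :
    PP (fun ω : Option F × Bool → F => ∃ κ ∈ K, κ ∈ zs ω) ≤ K.card / (Fintype.card F : ℝ) := by
  refine (PP_exists_le K (fun κ ω => κ ∈ zs ω)).trans ?_
  rw [sum_congr rfl (fun κ _ => PP_zs_mem κ), sum_const, nsmul_eq_mul, mul_one_div]

/-- a predicate of the zero set that only looks at the part in `S` -/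
theorem depOn_zs (S : Finset (Option F × Bool)) (s : Finset (Option F × Bool) → Prop)
    (hs : ∀ H H' : Finset (Option F × Bool), (∀ κ ∈ S, (κ ∈ H ↔ κ ∈ H')) → (s H ↔ s H')) :
    DepOn (fun ω : Option F × Bool → F => s (zs ω)) S := by
  intro ω ω' h
  refine propext (hs _ _ (fun κ hκ => ?_))
  rw [mem_zs, mem_zs, h κ hκ]

theorem count_conc' (s : Finset (Option F × Bool) → Prop) [DecidablePred s] (l : Option F × F) :
    PP (fun ω : Option F × Bool → F =>
      (Fintype.card F : ℝ) ^ (3 / 4 : ℝ)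
        < |(((pts l).filter (fun P => s ((hs ω P).filter (fun κ => κ.1 ≠ l.1)))).card : ℝ)
        - Fintype.card F * PP (fun ω : Option F × Bool → F =>
            s ((zs ω).filter (fun κ => κ.1 ≠ l.1)))|)
      ≤ 2 * Real.exp (-(Real.sqrt (Fintype.card F) / 32)) := by
  refine (count_conc s l _ (Real.rpow_nonneg qpos.le _)).trans ?_
  have hq := qpos (F := F)
  have hq2 := q_ge_two (F := F)
  refine mul_le_mul_of_nonneg_left (Real.exp_le_exp.mpr ?_) (by norm_num)
  rw [neg_le_neg_iff, div_le_div_iff₀ (by norm_num) (by positivity)]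
  set q : ℝ := (Fintype.card F : ℝ)
  have h1 : (q ^ (3 / 4 : ℝ)) ^ 2 = Real.sqrt q * q := by
    rw [← Real.rpow_natCast, ← Real.rpow_mul hq.le, Real.sqrt_eq_rpow]
    nth_rewrite 3 [← Real.rpow_one q]
    rw [← Real.rpow_add hq]
    norm_num
  rw [h1]
  have h2 := Real.sqrt_nonneg q
  nlinarith [mul_nonneg h2 (sub_nonneg.mpr hq2)]

/-- union bound for the counts -/
theorem union_conc {ι : Type*} [Fintype ι] (s : ι → Finset (Option F × Bool) → Prop)
    [∀ i, DecidablePred (s i)] (l : ι → Option F × F) :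
    PP (fun ω : Option F × Bool → F => ∃ i,
      (Fintype.card F : ℝ) ^ (3 / 4 : ℝ)
        < |(((pts (l i)).filter (fun P => s i ((hs ω P).filter (fun κ => κ.1 ≠ (l i).1)))).card : ℝ)
        - Fintype.card F * PP (fun ω : Option F × Bool → F =>
            s i ((zs ω).filter (fun κ => κ.1 ≠ (l i).1)))|)
      ≤ Fintype.card ι * (2 * Real.exp (-(Real.sqrt (Fintype.card F) / 32))) := by
  have h := PP_exists_le (univ : Finset ι) (fun i (ω : Option F × Bool → F) =>
      (Fintype.card F : ℝ) ^ (3 / 4 : ℝ)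
        < |(((pts (l i)).filter (fun P => s i ((hs ω P).filter (fun κ => κ.1 ≠ (l i).1)))).card : ℝ)
        - Fintype.card F * PP (fun ω : Option F × Bool → F =>
            s i ((zs ω).filter (fun κ => κ.1 ≠ (l i).1)))|)
  simp only [mem_univ, true_and] at h
  refine h.trans ?_
  refine (sum_le_sum (fun i _ => count_conc' (s i) (l i))).trans ?_
  rw [sum_const, nsmul_eq_mul, card_univ]

/-! ### rainbow -/

variable (Y : Sys F N)

/-- the cell `(j,v)` of coordinates -/
def cell (j : Fin N) (v : Bool) : Finset (Option F × Bool) := (Y.B j).image (fun d => (d, v))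

theorem mem_cell {j : Fin N} {v : Bool} {κ : Option F × Bool} :
    κ ∈ cell Y j v ↔ Y.grp κ.1 = j ∧ κ.2 = v := by
  rcases κ with ⟨d, w⟩
  simp only [cell, Sys.B, mem_image, mem_filter, mem_univ, true_and, Prod.mk.injEq]
  constructor
  · rintro ⟨a, h1, rfl, rfl⟩; exact ⟨h1, rfl⟩
  · rintro ⟨h1, rfl⟩; exact ⟨d, h1, rfl, rfl⟩

theorem card_cell (j : Fin N) (v : Bool) : (cell Y j v).card = (Y.B j).card := by
  unfold cell
  exact card_image_of_injective _ (fun x y h => (Prod.mk.inj h).1)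

/-- the cell `(j,v)` is hit -/
def ch (j : Fin N) (v : Bool) (H : Finset (Option F × Bool)) : Prop := ∃ κ ∈ cell Y j v, κ ∈ H

theorem rb_iff (j : Fin N) (H : Finset (Option F × Bool)) :
    Y.rb j H ↔ ch Y j false H ∧ ch Y j true H := by
  unfold Sys.rb ch
  constructor
  · rintro ⟨⟨d, h1, h2⟩, ⟨e, h3, h4⟩⟩
    exact ⟨⟨(d, false), (mem_cell Y).mpr ⟨h1, rfl⟩, h2⟩, ⟨(e, true), (mem_cell Y).mpr ⟨h3, rfl⟩, h4⟩⟩
  · rintro ⟨⟨⟨d, v⟩, h1, h2⟩, ⟨⟨e, w⟩, h3, h4⟩⟩
    rw [mem_cell] at h1 h3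
    obtain ⟨h1, h1'⟩ := h1
    obtain ⟨h3, h3'⟩ := h3
    simp only at h1 h1' h3 h3'
    subst h1' h3'
    exact ⟨⟨d, h1, h2⟩, ⟨e, h3, h4⟩⟩

theorem ch_mono {j : Fin N} {v : Bool} {H H' : Finset (Option F × Bool)} (h : H ⊆ H')
    (h1 : ch Y j v H) : ch Y j v H' := by
  obtain ⟨κ, h2, h3⟩ := h1
  exact ⟨κ, h2, h h3⟩

theorem rb_mono {j : Fin N} {H H' : Finset (Option F × Bool)} (h : H ⊆ H')
    (h1 : Y.rb j H) : Y.rb j H' := by
  rw [rb_iff] at h1 ⊢
  exact ⟨ch_mono Y h h1.1, ch_mono Y h h1.2⟩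

theorem s12_mono {H H' : Finset (Option F × Bool)} (h : H ⊆ H')
    (h1 : Y.s12 H) : Y.s12 H' := by
  obtain ⟨⟨j, hj, h2⟩, ⟨j', hj', h3⟩⟩ := h1
  exact ⟨⟨j, hj, rb_mono Y h h2⟩, ⟨j', hj', rb_mono Y h h3⟩⟩

theorem PP_ch (j : Fin N) (v : Bool) :
    PP (fun ω : Option F × Bool → F => ch Y j v (zs ω)) ≤ (Y.B j).card / (Fintype.card F : ℝ) := by
  rw [← card_cell Y j v]
  exact PP_zs_exists _

theorem depOn_ch (j : Fin N) (v : Bool) :
    DepOn (fun ω : Option F × Bool → F => ch Y j v (zs ω)) (cell Y j v) := by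
  refine depOn_zs _ _ (fun H H' h => ?_)
  unfold ch
  exact ⟨fun ⟨κ, h1, h2⟩ => ⟨κ, h1, (h κ h1).mp h2⟩, fun ⟨κ, h1, h2⟩ => ⟨κ, h1, (h κ h1).mpr h2⟩⟩

theorem disj_cell (j : Fin N) : Disjoint (cell Y j false) (cell Y j true) := by
  rw [Finset.disjoint_left]
  intro κ h1 h2
  rw [mem_cell] at h1 h2
  rw [h1.2] at h2
  exact absurd h2.2 (by decide)

theorem PP_rb (j : Fin N) :
    PP (fun ω : Option F × Bool → F => Y.rb j (zs ω)) ≤ ((Y.B j).card / (Fintype.card F : ℝ)) ^ 2 := by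
  rw [PP_congr (fun ω => rb_iff Y j (zs ω)),
    PP_and_of_dep (depOn_ch Y j false) (depOn_ch Y j true) (disj_cell Y j), sq]
  exact mul_le_mul (PP_ch Y j false) (PP_ch Y j true) (PP_nonneg _)
    (by positivity)

/-- rainbow somewhere in the groups `K` -/
theorem PP_rb_exists (K : Finset (Fin N)) (b : ℝ) (hb : ∀ j, ((Y.B j).card / (Fintype.card F : ℝ)) ≤ b) :
    PP (fun ω : Option F × Bool → F => ∃ j ∈ K, Y.rb j (zs ω)) ≤ N * b ^ 2 := by
  refine (PP_exists_le K (fun j ω => Y.rb j (zs ω))).trans ?_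
  refine (sum_le_sum (fun j _ => (PP_rb Y j).trans
    (pow_le_pow_left₀ (by positivity) (hb j) 2))).trans ?_
  rw [sum_const, nsmul_eq_mul]
  have : (K.card : ℝ) ≤ N := by
    have := card_le_univ K
    rw [Fintype.card_fin] at this
    exact_mod_cast this
  exact mul_le_mul_of_nonneg_right this (sq_nonneg b)

/-- rainbow somewhere in the groups `K`, with one additional element -/
theorem rb_insert {K : Finset (Fin N)} {κ : Option F × Bool} {H : Finset (Option F × Bool)}
    (h : ∃ j ∈ K, Y.rb j (insert κ H)) :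
    (∃ j ∈ K, Y.rb j H) ∨ (Y.grp κ.1 ∈ K ∧ ch Y (Y.grp κ.1) (!κ.2) H) := by
  obtain ⟨j, hj, h⟩ := h
  rw [rb_iff] at h
  have key : ∀ v, ch Y j v (insert κ H) → ch Y j v H ∨ (Y.grp κ.1 = j ∧ κ.2 = v) := by
    rintro v ⟨κ', h1, h2⟩
    rw [mem_insert] at h2
    rcases h2 with h2 | h2
    · right
      rw [mem_cell] at h1
      rw [← h2]; exact h1
    · left; exact ⟨κ', h1, h2⟩
  rcases key false h.1 with h1 | h1
  · rcases key true h.2 with h2 | h2
    · left; exact ⟨j, hj, (rb_iff Y j H).mpr ⟨h1, h2⟩⟩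
    · right
      rw [h2.1, h2.2]; exact ⟨hj, h1⟩
  · rcases key true h.2 with h2 | h2
    · right
      rw [h1.1, h1.2]; exact ⟨hj, h2⟩
    · exact absurd (h1.2.symm.trans h2.2) (by decide)

/-- probability of a rainbow with one additional element -/
theorem PP_rb_insert (K : Finset (Fin N)) (κ : Option F × Bool) (b : ℝ)
    (hb : ∀ j, ((Y.B j).card / (Fintype.card F : ℝ)) ≤ b) :
    PP (fun ω : Option F × Bool → F => ∃ j ∈ K, Y.rb j (insert κ (zs ω))) ≤ N * b ^ 2 + b := by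
  refine (PP_mono (fun ω h => rb_insert Y h)).trans ?_
  refine (PP_or_le _ _).trans ?_
  refine add_le_add (PP_rb_exists Y K b hb) ?_
  refine (PP_mono (fun ω h => h.2)).trans ?_
  exact (PP_ch Y _ _).trans (hb _)

def half1 (N : ℕ) : Finset (Fin N) := univ.filter (fun j => 2 * j.val < N)
def half2 (N : ℕ) : Finset (Fin N) := univ.filter (fun j => N ≤ 2 * j.val)

/-- coordinates of the groups in `K` -/
def coord (K : Finset (Fin N)) : Finset (Option F × Bool) := univ.filter (fun κ => Y.grp κ.1 ∈ K)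

theorem depOn_rb (K : Finset (Fin N)) (κ : Option F × Bool) :
    DepOn (fun ω : Option F × Bool → F => ∃ j ∈ K, Y.rb j (insert κ (zs ω))) (coord Y K) := by
  refine depOn_zs _ (fun H => ∃ j ∈ K, Y.rb j (insert κ H)) (fun H H' h => ?_)
  have key : ∀ H H' : Finset (Option F × Bool), (∀ κ ∈ coord Y K, (κ ∈ H ↔ κ ∈ H')) →
      (∃ j ∈ K, Y.rb j (insert κ H)) → (∃ j ∈ K, Y.rb j (insert κ H')) := by
    intro H H' h ⟨j, hj, h1⟩
    refine ⟨j, hj, ?_⟩
    rw [rb_iff] at h1 ⊢
    have key2 : ∀ v, ch Y j v (insert κ H) → ch Y j v (insert κ H') := by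
      rintro v ⟨κ', h2, h3⟩
      refine ⟨κ', h2, ?_⟩
      rw [mem_insert] at h3 ⊢
      rcases h3 with h3 | h3
      · left; exact h3
      · right
        refine (h κ' ?_).mp h3
        rw [mem_cell] at h2
        rw [coord, mem_filter]
        exact ⟨mem_univ _, by rw [h2.1]; exact hj⟩
    exact ⟨key2 false h1.1, key2 true h1.2⟩
  exact ⟨key H H' h, key H' H (fun κ hκ => (h κ hκ).symm)⟩

theorem disj_coord : Disjoint (coord Y (half1 N)) (coord Y (half2 N)) := by
  rw [Finset.disjoint_left]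
  intro κ h1 h2
  simp only [coord, half1, half2, mem_filter, mem_univ, true_and] at h1 h2
  omega

theorem s12_iff (H : Finset (Option F × Bool)) :
    Y.s12 H ↔ (∃ j ∈ half1 N, Y.rb j H) ∧ (∃ j ∈ half2 N, Y.rb j H) := by
  unfold Sys.s12
  simp only [half1, half2, mem_filter, mem_univ, true_and]

theorem PP_s12_insert (κ : Option F × Bool) (b : ℝ)
    (hb : ∀ j, ((Y.B j).card / (Fintype.card F : ℝ)) ≤ b) :
    PP (fun ω : Option F × Bool → F => Y.s12 (insert κ (zs ω))) ≤ (N * b ^ 2 + b) ^ 2 := by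
  have h0 : 0 ≤ PP (fun ω : Option F × Bool → F => ∃ j ∈ half1 N, Y.rb j (insert κ (zs ω))) :=
    PP_nonneg _
  have h1 := PP_rb_insert Y (half1 N) κ b hb
  rw [PP_congr (fun ω => s12_iff Y (insert κ (zs ω))),
    PP_and_of_dep (depOn_rb Y (half1 N) κ) (depOn_rb Y (half2 N) κ) (disj_coord Y), sq]
  exact mul_le_mul h1 (PP_rb_insert Y (half2 N) κ b hb) (PP_nonneg _) (h0.trans h1)

end

end Crest.Agent.H20Ry
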