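import Crest.Agent.H20RyConc2

set_option autoImplicit false
set_option linter.unusedSectionVars false

namespace Crest.Agent.H20Ry
open Finset Crest.Agent.H3Ry Crest.Agent.H23RyProb

/-! ### asymptotics -/

open Filter Topology in
theorem ev_exp (C k c a δ : ℝ) (hc : 0 < c) (ha : 0 < a) (hδ : 0 < δ) :
    ∀ᶠ q : ℕ in atTop, C * (q : ℝ) ^ k * Real.exp (-(c * (q : ℝ) ^ a)) ≤ δ := by
  have h1 : Tendsto (fun q : ℕ => ((q : ℝ) ^ a)) atTop atTop :=
    (tendsto_rpow_atTop ha).comp tendsto_natCast_atTop_atTop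
  have h2 := (tendsto_rpow_mul_exp_neg_mul_atTop_nhds_zero (k / a) c hc).comp h1
  have h3 := h2.const_mul C
  rw [mul_zero] at h3
  have h4 := (h3.eventually_le_const hδ)
  filter_upwards [h4, eventually_ge_atTop 1] with q hq hq1
  simp only [Function.comp_apply] at hq
  rw [← Real.rpow_mul (by positivity), mul_div_cancel₀ k ha.ne'] at hq
  rw [mul_assoc]
  rw [neg_mul] at hq
  exact hq

theorem NN_le (q : ℕ) (hq : 1 ≤ q) : (NN q : ℝ) ≤ 6 * Real.log q + 20 := by
  unfold NN
  push_cast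
  have h1 : ((Nat.log 2 q : ℕ) : ℝ) ≤ Real.logb 2 q := by
    have := Real.natLog_le_logb q 2
    exact_mod_cast this
  have h2 : Real.logb 2 q = Real.log q / Real.log 2 := rfl
  have h3 : (0.6931471803 : ℝ) < Real.log 2 := Real.log_two_gt_d9
  have h4 : 0 ≤ Real.log q := Real.log_nonneg (by exact_mod_cast hq)
  have h5 : Real.log q / Real.log 2 ≤ 1.5 * Real.log q := by
    rw [div_le_iff₀ (by linarith)]
    nlinarith
  rw [h2] at h1
  linarith

open Filter Topology in
theorem ev_NN (k : ℕ) (C ε : ℝ) (hε : 0 < ε) :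
    ∀ᶠ q : ℕ in atTop, C * (NN q : ℝ) ^ k ≤ (q : ℝ) ^ ε := by
  -- (6 log q + 20)^k ≤ (26 log q)^k for q ≥ 3
  have h1 : (fun x : ℝ => Real.log x ^ (k : ℝ)) =o[atTop] fun x : ℝ => x ^ ε :=
    isLittleO_log_rpow_rpow_atTop (k : ℝ) hε
  have h2 : ∀ᶠ x : ℝ in atTop, ‖Real.log x ^ (k : ℝ)‖ ≤ (1 / ((|C| + 1) * 26 ^ k)) * ‖x ^ ε‖ :=
    h1.def (by positivity)
  have h3 := tendsto_natCast_atTop_atTop.eventually h2
  filter_upwards [h3, eventually_ge_atTop 3] with q hq hq3
  have hq0 : (3 : ℝ) ≤ q := by exact_mod_cast hq3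
  have hlog : 1 ≤ Real.log q := by
    rw [Real.le_log_iff_exp_le (by linarith)]
    have := Real.exp_one_lt_d9
    linarith
  have h5 : (NN q : ℝ) ≤ 26 * Real.log q := by
    have := NN_le q (by omega)
    linarith
  have h6 : (NN q : ℝ) ^ k ≤ 26 ^ k * Real.log q ^ k := by
    rw [← mul_pow]
    exact pow_le_pow_left₀ (by positivity) h5 k
  rw [Real.rpow_natCast, Real.norm_of_nonneg (by positivity), Real.norm_of_nonneg (by positivity)]
    at hq
  have h7 : C * (NN q : ℝ) ^ k ≤ (|C| + 1) * (26 ^ k * Real.log q ^ k) := by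
    refine (mul_le_mul_of_nonneg_right ((le_abs_self C).trans (by linarith : |C| ≤ |C| + 1))
      (by positivity)).trans ?_
    exact mul_le_mul_of_nonneg_left h6 (by positivity)
  refine h7.trans ?_
  calc (|C| + 1) * (26 ^ k * Real.log q ^ k)
      ≤ (|C| + 1) * (26 ^ k * (1 / ((|C| + 1) * 26 ^ k) * (q : ℝ) ^ ε)) := by gcongr
    _ = (q : ℝ) ^ ε := by field_simp

theorem two_pow_NN_le (q : ℕ) (hq : 1 ≤ q) : (2 : ℝ) ^ NN q ≤ 2 ^ 20 * (q : ℝ) ^ 4 := by
  have h : 2 ^ Nat.log 2 q ≤ q := Nat.pow_log_le_self 2 (by omega)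
  have h' : (2 : ℝ) ^ Nat.log 2 q ≤ q := by exact_mod_cast h
  unfold NN
  rw [pow_add, mul_comm 4, pow_mul, mul_comm]
  gcongr

theorem le_two_pow_NN (q : ℕ) (hq : 1 ≤ q) : 2 ^ 16 * (q : ℝ) ^ 4 ≤ (2 : ℝ) ^ NN q := by
  have h : q < 2 ^ (Nat.log 2 q + 1) := Nat.lt_pow_succ_log_self (by norm_num) q
  have h' : (q : ℝ) ≤ 2 * (2 : ℝ) ^ Nat.log 2 q := by
    rw [← pow_succ']; exact_mod_cast h.le
  unfold NN
  rw [pow_add, mul_comm 4, pow_mul]
  have : (q : ℝ) ^ 4 ≤ (2 * (2 : ℝ) ^ Nat.log 2 q) ^ 4 := by gcongr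
  rw [mul_pow] at this
  calc (2 : ℝ) ^ 16 * (q : ℝ) ^ 4 ≤ 2 ^ 16 * (2 ^ 4 * ((2 : ℝ) ^ Nat.log 2 q) ^ 4) := by gcongr
    _ = _ := by ring

section
variable {F : Type*} [Field F] [Fintype F] [DecidableEq F] {N : ℕ}

theorem EE_four (κ : Option F × Bool) :
    EE (fun ω : Option F × Bool → F => if ω κ = 0 then (4 : ℝ) else 1)
      = 1 + 3 / (Fintype.card F : ℝ) := by
  classical
  have h1 : (fun ω : Option F × Bool → F => if ω κ = 0 then (4 : ℝ) else 1)
      = fun ω => 1 + 3 * (if κ ∈ zs ω then (1 : ℝ) else 0) := by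
    funext ω
    simp only [mem_zs]
    split_ifs <;> norm_num
  rw [h1, EE_add (fun _ => 1) (fun ω => 3 * (if κ ∈ zs ω then (1 : ℝ) else 0)), EE_const,
    EE_const_mul]
  have h2 := PP_zs_mem κ
  unfold PP at h2
  have h3 : EE (fun ω : Option F × Bool → F => if κ ∈ zs ω then (1 : ℝ) else 0)
      = 1 / (Fintype.card F : ℝ) := by
    rw [← h2]
    congr 1
    funext ω
    split_ifs <;> rfl
  rw [h3]
  ring

theorem EE_four_pow :
    EE (fun ω : Option F × Bool → F => (4 : ℝ) ^ (zs ω).card)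
      = (1 + 3 / (Fintype.card F : ℝ)) ^ (2 * (Fintype.card F + 1)) := by
  classical
  have h1 : (fun ω : Option F × Bool → F => (4 : ℝ) ^ (zs ω).card)
      = fun ω => ∏ κ ∈ (univ : Finset (Option F × Bool)), if ω κ = 0 then (4 : ℝ) else 1 := by
    funext ω
    rw [prod_ite, prod_const, prod_const_one, mul_one]
    rfl
  rw [h1, EE_prod_of_dep (univ : Finset (Option F × Bool))
    (fun κ ω => if ω κ = 0 then (4 : ℝ) else 1) (fun κ => {κ})]
  · rw [prod_congr rfl (fun κ _ => EE_four κ), prod_const, card_univ, Fintype.card_prod,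
      Fintype.card_option, Fintype.card_bool, mul_comm 2]
  · intro κ _ ω ω' h
    simp only [h κ (mem_singleton_self κ)]
  · intro κ _ κ' _ h
    simpa [Function.onFun] using h

/-- the load condition -/
theorem load_prob (hN : N = NN (Fintype.card F)) :
    PP (fun ω : Option F × Bool → F => ∃ P, N < (hs ω P).card) ≤ 1 / 400 := by
  classical
  set q : ℝ := (Fintype.card F : ℝ) with hq
  have hqpos : 0 < q := qpos
  have hq1 : 1 ≤ Fintype.card F := Fintype.card_pos
  have hq1' : (1 : ℝ) ≤ q := by rw [hq]; exact_mod_cast hq1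
  have hA : ∀ P : F × F, PP (fun ω : Option F × Bool → F => N < (hs ω P).card)
      ≤ Real.exp 12 / (4 : ℝ) ^ N := by
    intro P
    rw [PP_hs (fun H => N < H.card) P]
    have h1 : PP (fun ω : Option F × Bool → F => N < (zs ω).card)
        ≤ EE (fun ω : Option F × Bool → F => (1 / (4 : ℝ) ^ N) * (4 : ℝ) ^ (zs ω).card) := by
      unfold PP
      refine EE_mono (fun ω => ?_)
      split_ifs with h
      · rw [one_div, inv_mul_eq_div, le_div_iff₀ (by positivity), one_mul]
        exact pow_le_pow_right₀ (by norm_num) h.le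
      · positivity
    refine h1.trans ?_
    rw [EE_const_mul, EE_four_pow, one_div, inv_mul_eq_div]
    refine div_le_div_of_nonneg_right ?_ (by positivity)
    have h2 : 1 + 3 / q ≤ Real.exp (3 / q) := by
      have := Real.add_one_le_exp (3 / q)
      linarith
    calc (1 + 3 / q) ^ (2 * (Fintype.card F + 1))
        ≤ (Real.exp (3 / q)) ^ (2 * (Fintype.card F + 1)) := by gcongr
      _ = Real.exp (6 * (q + 1) / q) := by
          rw [← Real.exp_nat_mul]
          congr 1
          push_cast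
          rw [← hq]; ring
      _ ≤ Real.exp 12 := by
          refine Real.exp_le_exp.mpr ?_
          rw [div_le_iff₀ hqpos]
          linarith
  have hB := PP_exists_le (univ : Finset (F × F)) (fun P (ω : Option F × Bool → F) =>
    N < (hs ω P).card)
  simp only [mem_univ, true_and] at hB
  refine hB.trans ?_
  refine (sum_le_sum (fun P _ => hA P)).trans ?_
  rw [sum_const, card_univ, Fintype.card_prod, nsmul_eq_mul, hN]
  push_cast
  rw [← hq]
  have h4 : (2 ^ 16 * q ^ 4) ^ 2 ≤ (4 : ℝ) ^ NN (Fintype.card F) := by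
    have : (4 : ℝ) ^ NN (Fintype.card F) = ((2 : ℝ) ^ NN (Fintype.card F)) ^ 2 := by
      rw [← pow_mul, mul_comm, pow_mul]; norm_num
    rw [this]
    have := le_two_pow_NN (Fintype.card F) hq1
    rw [← hq] at this
    gcongr
  have h5 : Real.exp 12 ≤ 600000 := by
    have h6 := Real.exp_one_lt_d9
    have h7 : Real.exp 12 = (Real.exp 1) ^ 12 := by
      rw [← Real.exp_nat_mul]; norm_num
    rw [h7]
    calc (Real.exp 1) ^ 12 ≤ 3 ^ 12 := by
          refine pow_le_pow_left₀ (Real.exp_nonneg _) (by linarith) _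
      _ ≤ 600000 := by norm_num
  rw [mul_div_assoc', div_le_iff₀ (by positivity)]
  calc q * q * Real.exp 12 ≤ q * q * 600000 := by gcongr
    _ ≤ 1 / 400 * (2 ^ 16 * q ^ 4) ^ 2 := by
        have h8 : q * q ≤ q ^ 8 := by
          calc q * q = q ^ 2 := by ring
            _ ≤ q ^ 8 := pow_le_pow_right₀ hq1' (by norm_num)
        nlinarith
    _ ≤ _ := by gcongr

end

end Crest.Agent.H20Ry
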