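import Crest.Agent.H20RyConc3

set_option autoImplicit false
set_option linter.unusedSectionVars false

namespace Crest.Agent.H20Ry
open Finset Crest.Agent.H3Ry Crest.Agent.H23RyProb

section
variable {F : Type*} [Field F] [Fintype F] [DecidableEq F] {N : ℕ}

theorem Good_congr (Y : Sys F N) (ρ : Fin N → Bool) (t : Option F)
    {H H' : Finset (Option F × Bool)}
    (h : ∀ κ : Option F × Bool, (κ.1 ≠ t ∨ κ = Y.wl ρ t) → (κ ∈ H ↔ κ ∈ H')) :
    Y.Good ρ t H ↔ Y.Good ρ t H' := by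
  have hfil : H.filter (fun κ => κ.1 ≠ t ∨ κ = Y.wl ρ t)
      = H'.filter (fun κ => κ.1 ≠ t ∨ κ = Y.wl ρ t) := by
    ext κ
    rw [mem_filter, mem_filter]
    exact ⟨fun ⟨h1, h2⟩ => ⟨(h κ h2).mp h1, h2⟩, fun ⟨h1, h2⟩ => ⟨(h κ h2).mpr h1, h2⟩⟩
  unfold Sys.Good
  rw [hfil, h _ (Or.inr rfl)]
  refine and_congr Iff.rfl (and_congr ?_ (and_congr Iff.rfl ?_))
  · refine forall_congr' (fun t' => forall_congr' (fun ht' => not_congr (h _ (Or.inl ?_))))
    exact ht'
  · refine exists_congr (fun d => ?_)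
    constructor
    · rintro ⟨h1, h2, h3⟩
      exact ⟨h1, h2, (h _ (Or.inl h1)).mp h3⟩
    · rintro ⟨h1, h2, h3⟩
      exact ⟨h1, h2, (h _ (Or.inl h1)).mpr h3⟩

theorem hs_filter_of_nonspecial {ω : Option F × Bool → F} {l : Option F × F}
    (h : ∀ κ, sl ω κ ≠ l) {P : F × F} (hP : P ∈ pts l) :
    (hs ω P).filter (fun κ => κ.1 ≠ l.1) = hs ω P := by
  rw [filter_eq_self]
  intro κ hκ h1
  rw [mem_hs] at hκ
  rw [mem_pts] at hP
  refine h κ (Prod.ext h1 ?_)
  simp only [sl]
  rw [hκ, h1, hP]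

theorem hs_sub_insert {ω : Option F × Bool → F} (hd : ∀ d, ω (d, false) ≠ ω (d, true))
    (l : Option F × F) :
    ∃ v : Bool, ∀ P ∈ pts l, hs ω P ⊆ insert (l.1, v) ((hs ω P).filter (fun κ => κ.1 ≠ l.1)) := by
  by_cases h : ω (l.1, true) = l.2
  · refine ⟨true, fun P hP κ hκ => ?_⟩
    rw [mem_insert, mem_filter]
    by_cases h1 : κ.1 = l.1
    · left
      rcases κ with ⟨d, v⟩
      simp only at h1
      subst h1
      rcases v with _ | _
      · exfalso
        rw [mem_hs] at hκ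
        rw [mem_pts] at hP
        exact hd l.1 (by rw [hκ, h]; exact hP)
      · rfl
    · right; exact ⟨hκ, h1⟩
  · refine ⟨false, fun P hP κ hκ => ?_⟩
    rw [mem_insert, mem_filter]
    by_cases h1 : κ.1 = l.1
    · left
      rcases κ with ⟨d, v⟩
      simp only at h1
      subst h1
      rcases v with _ | _
      · rfl
      · exfalso
        rw [mem_hs] at hκ
        rw [mem_pts] at hP
        exact h (by rw [hκ]; exact hP)
    · right; exact ⟨hκ, h1⟩

theorem card_filter_mono {α : Type*} {U : Finset α} {p r : α → Prop} [DecidablePred p]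
    [DecidablePred r] (h : ∀ a ∈ U, p a → r a) : ((U.filter p).card : ℝ) ≤ (U.filter r).card := by
  have : U.filter p ⊆ U.filter r := by
    intro a ha
    rw [mem_filter] at ha ⊢
    exact ⟨ha.1, h a ha.1 ha.2⟩
  exact_mod_cast card_le_card this

theorem p12_le (Y : Sys F N) (d : Option F) :
    Y.p12 ≤ PP (fun ω : Option F × Bool → F => Y.s12 ((zs ω).filter (fun κ => κ.1 ≠ d)))
      + 2 / (Fintype.card F : ℝ) := by
  have h1 := PP_zs_exists (F := F) {(d, false), (d, true)}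
  have h2 : ((({(d, false), (d, true)} : Finset (Option F × Bool)).card : ℕ) : ℝ) ≤ 2 := by
    exact_mod_cast card_le_two
  have h3 : PP (fun ω : Option F × Bool → F =>
      ∃ κ ∈ ({(d, false), (d, true)} : Finset (Option F × Bool)), κ ∈ zs ω)
      ≤ 2 / (Fintype.card F : ℝ) := h1.trans (by
        exact div_le_div_of_nonneg_right h2 qpos.le)
  unfold Sys.p12
  refine (PP_mono (fun ω h => ?_)).trans ((PP_or_le _ _).trans (add_le_add le_rfl h3))
  by_cases h4 : ∃ κ ∈ ({(d, false), (d, true)} : Finset (Option F × Bool)), κ ∈ zs ω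
  · right; exact h4
  · left
    have : (zs ω).filter (fun κ => κ.1 ≠ d) = zs ω := by
      rw [filter_eq_self]
      intro κ hκ h5
      refine h4 ⟨κ, ?_, hκ⟩
      rcases κ with ⟨e, v⟩
      simp only at h5
      subst h5
      rcases v with _ | _ <;> simp
    rw [this]; exact h

theorem le_p12 (Y : Sys F N) (d : Option F) :
    PP (fun ω : Option F × Bool → F => Y.s12 ((zs ω).filter (fun κ => κ.1 ≠ d))) ≤ Y.p12 :=
  PP_mono (fun _ h => s12_mono Y (filter_subset _ _) h)

end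

open Classical in
/-- the five exceptional events -/
structure Evt {F : Type} [Field F] [Fintype F] [DecidableEq F] {N : ℕ} (Y : Sys F N)
    (ω : Option F × Bool → F) : Prop where
  load : ∀ P, (hs ω P).card ≤ N
  A : ∀ l : Option F × F,
    |(((pts l).filter (fun P => Y.s12 ((hs ω P).filter (fun κ => κ.1 ≠ l.1)))).card : ℝ)
        - Fintype.card F * PP (fun ω : Option F × Bool → F =>
            Y.s12 ((zs ω).filter (fun κ => κ.1 ≠ l.1)))| ≤ (Fintype.card F : ℝ) ^ (3 / 4 : ℝ)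
  B : ∀ i : (Option F × F) × Bool,
    |(((pts i.1).filter (fun P => Y.s12 (insert (i.1.1, i.2)
        ((hs ω P).filter (fun κ => κ.1 ≠ i.1.1))))).card : ℝ)
        - Fintype.card F * PP (fun ω : Option F × Bool → F =>
            Y.s12 (insert (i.1.1, i.2) ((zs ω).filter (fun κ => κ.1 ≠ i.1.1))))|
      ≤ (Fintype.card F : ℝ) ^ (3 / 4 : ℝ)
  D : ∀ i : (Option F × F) × Bool,
    |(((pts i.1).filter (fun P => ∃ j, Y.rb j (insert (i.1.1, i.2)
        ((hs ω P).filter (fun κ => κ.1 ≠ i.1.1))))).card : ℝ)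
        - Fintype.card F * PP (fun ω : Option F × Bool → F =>
            ∃ j, Y.rb j (insert (i.1.1, i.2) ((zs ω).filter (fun κ => κ.1 ≠ i.1.1))))|
      ≤ (Fintype.card F : ℝ) ^ (3 / 4 : ℝ)
  C : ∀ i : (Fin N → Bool) × (Option F × F),
    |(((pts i.2).filter (fun P => Y.Good i.1 i.2.1 (insert (Y.wl i.1 i.2.1)
        ((hs ω P).filter (fun κ => κ.1 ≠ i.2.1))))).card : ℝ)
        - Fintype.card F * PP (fun ω : Option F × Bool → F =>
            Y.Good i.1 i.2.1 (insert (Y.wl i.1 i.2.1) ((zs ω).filter (fun κ => κ.1 ≠ i.2.1))))|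
      ≤ (Fintype.card F : ℝ) ^ (3 / 4 : ℝ)

theorem Evt_prob {F : Type} [Field F] [Fintype F] [DecidableEq F] {N : ℕ} (Y : Sys F N)
    (hN : N = NN (Fintype.card F)) :
    PP (fun ω : Option F × Bool → F => ¬ Evt Y ω) ≤ 1 / 400
      + (2 ^ 20 + 5) * ((Fintype.card F : ℝ) + 1) ^ 6
        * (2 * Real.exp (-(Real.sqrt (Fintype.card F) / 32))) := by
  classical
  set q : ℝ := (Fintype.card F : ℝ) with hq
  set x : ℝ := 2 * Real.exp (-(Real.sqrt q / 32)) with hx
  have hx0 : 0 ≤ x := by positivity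
  have hq1 : 1 ≤ Fintype.card F := Fintype.card_pos
  have hq1' : (1 : ℝ) ≤ q := by rw [hq]; exact_mod_cast hq1
  have h0 := load_prob (F := F) hN
  have hA := union_conc (F := F) (ι := Option F × F) (fun _ => Y.s12) (fun l => l)
  have hB := union_conc (F := F) (ι := (Option F × F) × Bool)
    (fun i H => Y.s12 (insert (i.1.1, i.2) H)) (fun i => i.1)
  have hD := union_conc (F := F) (ι := (Option F × F) × Bool)
    (fun i H => ∃ j, Y.rb j (insert (i.1.1, i.2) H)) (fun i => i.1)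
  have hC := union_conc (F := F) (ι := (Fin N → Bool) × (Option F × F))
    (fun i H => Y.Good i.1 i.2.1 (insert (Y.wl i.1 i.2.1) H)) (fun i => i.2)
  rw [← hq, ← hx] at hA hB hC hD
  have hcA : ((Fintype.card (Option F × F) : ℕ) : ℝ) = (q + 1) * q := by
    rw [Fintype.card_prod, Fintype.card_option]; push_cast; rw [← hq]
  have hcB : ((Fintype.card ((Option F × F) × Bool) : ℕ) : ℝ) = (q + 1) * q * 2 := by
    rw [Fintype.card_prod, Nat.cast_mul, hcA, Fintype.card_bool]; push_cast; ring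
  have hcC : ((Fintype.card ((Fin N → Bool) × (Option F × F)) : ℕ) : ℝ)
      = 2 ^ N * ((q + 1) * q) := by
    rw [Fintype.card_prod, Nat.cast_mul, hcA, Fintype.card_fun, Fintype.card_bool,
      Fintype.card_fin]
    push_cast; ring
  rw [hcA] at hA
  rw [hcB] at hB hD
  rw [hcC] at hC
  refine (PP_mono (r := fun ω : Option F × Bool → F => (∃ P, N < (hs ω P).card) ∨ _ ∨ _ ∨ _ ∨ _)
    (fun ω h => ?_)).trans ((PP_or_le _ _).trans (add_le_add h0 ((PP_or_le _ _).trans
      ((add_le_add hA ((PP_or_le _ _).trans (add_le_add hB ((PP_or_le _ _).trans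
        (add_le_add hD hC))))).trans ?_))))
  · by_contra hcon
    rw [not_or, not_or, not_or, not_or] at hcon
    obtain ⟨c1, c2, c3, c4, c5⟩ := hcon
    push Not at c1 c2 c3 c4 c5
    exact h ⟨c1, c2, c3, c4, c5⟩
  · have h2N : (2 : ℝ) ^ N ≤ 2 ^ 20 * q ^ 4 := by
      rw [hN, hq]; exact two_pow_NN_le _ hq1
    have e1 : (q + 1) * q ≤ (q + 1) ^ 6 := by
      calc (q + 1) * q ≤ (q + 1) ^ 2 := by nlinarith
        _ ≤ (q + 1) ^ 6 := pow_le_pow_right₀ (by linarith) (by norm_num)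
    have e2 : (2 : ℝ) ^ N * ((q + 1) * q) ≤ 2 ^ 20 * (q + 1) ^ 6 := by
      calc (2 : ℝ) ^ N * ((q + 1) * q) ≤ (2 ^ 20 * q ^ 4) * (q + 1) ^ 2 := by
            refine mul_le_mul h2N (by nlinarith) (by positivity) (by positivity)
        _ ≤ (2 ^ 20 * (q + 1) ^ 4) * (q + 1) ^ 2 := by gcongr; linarith
        _ = _ := by ring
    have e3 := mul_le_mul_of_nonneg_right e1 hx0
    have e4 := mul_le_mul_of_nonneg_right e2 hx0
    nlinarith

end Crest.Agent.H20Ry
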