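import Crest.Agent.H20RyConc4

set_option autoImplicit false
set_option linter.unusedSectionVars false

namespace Crest.Agent.H20Ry
open Finset Crest.Agent.H3Ry Crest.Agent.H23RyProb

section
variable {F : Type*} [Field F] [Fintype F] [DecidableEq F] {N : ℕ}

/-- hit set without the special lines in `A` -/
def hA (A : Finset (Option F × F)) (ω : Option F × Bool → F) (P : F × F) :
    Finset (Option F × Bool) := (hs ω P).filter (fun κ => sl ω κ ∉ A)

theorem mem_hA {A : Finset (Option F × F)} {ω : Option F × Bool → F} {P : F × F}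
    {κ : Option F × Bool} : κ ∈ hA A ω P ↔ ω κ = pos κ.1 P ∧ (κ.1, pos κ.1 P) ∉ A := by
  unfold hA
  rw [mem_filter, mem_hs]
  constructor
  · rintro ⟨h1, h2⟩
    refine ⟨h1, ?_⟩
    rw [← h1]; exact h2
  · rintro ⟨h1, h2⟩
    refine ⟨h1, ?_⟩
    unfold sl
    rw [h1]; exact h2

theorem hA_eq_hs {A : Finset (Option F × F)} {ω : Option F × Bool → F}
    (h : ∀ κ, sl ω κ ∉ A) (P : F × F) : hA A ω P = hs ω P := by
  unfold hA
  rw [filter_eq_self]
  exact fun κ _ => h κ

/-- a line outside `A` has at most `|A|` points covered by `A` -/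
theorem card_pts_cov (A : Finset (Option F × F)) (l : Option F × F) (hl : l ∉ A) :
    ((cov A).filter (fun P => P ∈ pts l)).card ≤ A.card := by
  classical
  have h1 : (cov A).filter (fun P => P ∈ pts l)
      ⊆ A.biUnion (fun a => if a.1 = l.1 then ∅ else (pts l).filter (fun P => pos a.1 P = a.2)) := by
    intro P hP
    rw [mem_filter, cov, mem_filter] at hP
    obtain ⟨⟨_, h2⟩, h3⟩ := hP
    unfold mu at h2
    rw [card_pos] at h2
    obtain ⟨a, ha⟩ := h2
    rw [mem_filter] at ha
    rw [mem_biUnion]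
    refine ⟨a, ha.1, ?_⟩
    have h4 : a.1 ≠ l.1 := by
      intro h5
      rw [mem_pts] at h3
      have : a = l := Prod.ext h5 (by rw [← ha.2, h5, h3])
      exact hl (this ▸ ha.1)
    rw [if_neg h4, mem_filter]
    exact ⟨h3, ha.2⟩
  refine (card_le_card h1).trans (card_biUnion_le.trans ?_)
  rw [card_eq_sum_ones]
  refine sum_le_sum (fun a _ => ?_)
  split_ifs with h
  · simp
  · exact card_inter_le l a.1 h a.2

theorem hA_update_of_ne {A : Finset (Option F × F)} {ω : Option F × Bool → F} {P : F × F}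
    {κ : Option F × Bool} {x : F}
    (h1 : ¬ (pos κ.1 P = ω κ ∧ (κ.1, ω κ) ∉ A)) (h2 : ¬ (pos κ.1 P = x ∧ (κ.1, x) ∉ A)) :
    hA A (Function.update ω κ x) P = hA A ω P := by
  ext κ'
  rw [mem_hA, mem_hA]
  by_cases h : κ' = κ
  · subst h
    rw [Function.update_self]
    constructor
    · rintro ⟨h3, h4⟩
      exact absurd ⟨h3.symm, by rw [h3]; exact h4⟩ h2
    · rintro ⟨h3, h4⟩
      exact absurd ⟨h3.symm, by rw [h3]; exact h4⟩ h1
  · rw [Function.update_of_ne h]

theorem Good_unique {Y : Sys F N} {ρ : Fin N → Bool} {t t' : Option F}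
    {H : Finset (Option F × Bool)} (h : Y.Good ρ t H) (h' : Y.Good ρ t' H) : t = t' := by
  by_contra hne
  exact h.2.1 t' (fun h1 => hne h1.symm) h'.1

open Classical in
/-- number of points of `cov A` which are good for `t` -/
noncomputable def ZZ (Y : Sys F N) (ρ : Fin N → Bool) (A : Finset (Option F × F)) (t : Option F)
    (ω : Option F × Bool → F) : ℝ :=
  (((cov A).filter (fun P => Y.Good ρ t (hA A ω P))).card : ℝ)

/-- at most one index is good -/
theorem sum_Good_le (Y : Sys F N) (ρ : Fin N → Bool) (H : Finset (Option F × Bool))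
    [∀ t, Decidable (Y.Good ρ t H)] :
    ∑ t : Option F, (if Y.Good ρ t H then (1 : ℝ) else 0) ≤ 1 := by
  classical
  rw [← card_eq_sum_ite univ (fun t => Y.Good ρ t H)]
  have : (univ.filter (fun t => Y.Good ρ t H)).card ≤ 1 := by
    rw [card_le_one]
    intro a ha b hb
    rw [mem_filter] at ha hb
    exact Good_unique ha.2 hb.2
  exact_mod_cast this

theorem sum_abs_ZZ (Y : Sys F N) (ρ : Fin N → Bool) (A : Finset (Option F × F))
    (ω : Option F × Bool → F) (κ : Option F × Bool) (x : F) :
    ∑ t : Option F, |ZZ Y ρ A t (Function.update ω κ x) - ZZ Y ρ A t ω| ≤ 4 * A.card := by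
  classical
  set ω' := Function.update ω κ x with hω'
  set E : Finset (F × F) := ((cov A).filter (fun P => pos κ.1 P = ω κ ∧ (κ.1, ω κ) ∉ A))
    ∪ ((cov A).filter (fun P => pos κ.1 P = x ∧ (κ.1, x) ∉ A)) with hE
  have hcard : ∀ y : F, ((cov A).filter (fun P => pos κ.1 P = y ∧ (κ.1, y) ∉ A)).card ≤ A.card := by
    intro y
    by_cases hy : (κ.1, y) ∈ A
    · have : (cov A).filter (fun P => pos κ.1 P = y ∧ (κ.1, y) ∉ A) = ∅ := by
        rw [filter_eq_empty_iff]
        exact fun P _ h => h.2 hy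
      rw [this]; simp
    · refine le_trans (card_le_card ?_) (card_pts_cov A (κ.1, y) hy)
      intro P hP
      rw [mem_filter] at hP ⊢
      exact ⟨hP.1, mem_pts.mpr hP.2.1⟩
  have hEc : (E.card : ℝ) ≤ 2 * A.card := by
    have h1 := card_union_le ((cov A).filter (fun P => pos κ.1 P = ω κ ∧ (κ.1, ω κ) ∉ A))
      ((cov A).filter (fun P => pos κ.1 P = x ∧ (κ.1, x) ∉ A))
    have h2 := hcard (ω κ)
    have h3 := hcard x
    have : E.card ≤ 2 * A.card := by rw [hE]; omega
    exact_mod_cast this
  have key : ∀ t, |ZZ Y ρ A t ω' - ZZ Y ρ A t ω|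
      ≤ ∑ P ∈ E, ((if Y.Good ρ t (hA A ω' P) then (1 : ℝ) else 0)
        + (if Y.Good ρ t (hA A ω P) then (1 : ℝ) else 0)) := by
    intro t
    unfold ZZ
    rw [card_eq_sum_ite, card_eq_sum_ite, ← sum_sub_distrib]
    refine (abs_sum_le_sum_abs _ _).trans ?_
    have hsub : E ⊆ cov A := by
      intro P hP
      rw [hE, mem_union, mem_filter, mem_filter] at hP
      rcases hP with h | h <;> exact h.1
    rw [← sum_subset hsub (f := fun P => |(if Y.Good ρ t (hA A ω' P) then (1 : ℝ) else 0)
        - (if Y.Good ρ t (hA A ω P) then (1 : ℝ) else 0)|)]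
    · refine sum_le_sum (fun P _ => ?_)
      split_ifs <;> norm_num
    · intro P hP hPE
      rw [hE, mem_union, mem_filter, mem_filter, not_or] at hPE
      rw [hω', hA_update_of_ne (fun h => hPE.1 ⟨hP, h⟩) (fun h => hPE.2 ⟨hP, h⟩), sub_self,
        abs_zero]
  refine (sum_le_sum (fun t _ => key t)).trans ?_
  rw [sum_comm]
  have h2 : ∀ P ∈ E, ∑ t : Option F, ((if Y.Good ρ t (hA A ω' P) then (1 : ℝ) else 0)
        + (if Y.Good ρ t (hA A ω P) then (1 : ℝ) else 0)) ≤ 2 := by
    intro P _
    rw [sum_add_distrib]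
    have h3 := sum_Good_le Y ρ (hA A ω' P)
    have h4 := sum_Good_le Y ρ (hA A ω P)
    linarith
  refine (sum_le_sum h2).trans ?_
  rw [sum_const, nsmul_eq_mul]
  linarith

/-- the excess -/
noncomputable def Psi (Y : Sys F N) (ρ : Fin N → Bool) (A : Finset (Option F × F))
    (c : Option F → ℝ) (ω : Option F × Bool → F) : ℝ :=
  ∑ t, max (ZZ Y ρ A t ω - c t) 0

theorem Psi_lip (Y : Sys F N) (ρ : Fin N → Bool) (A : Finset (Option F × F))
    (c : Option F → ℝ) (ω : Option F × Bool → F) (κ : Option F × Bool) (x : F) :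
    |Psi Y ρ A c (Function.update ω κ x) - Psi Y ρ A c ω| ≤ 4 * A.card := by
  unfold Psi
  rw [← sum_sub_distrib]
  refine (abs_sum_le_sum_abs _ _).trans ?_
  refine le_trans (sum_le_sum (fun t _ => ?_)) (sum_abs_ZZ Y ρ A ω κ x)
  refine (abs_max_sub_max_le_abs _ _ _).trans ?_
  rw [sub_sub_sub_cancel_right]

/-! ### the mean of one summand -/

/-- conditional probability of being good, for a point covered by `A` -/
theorem PP_Good_avoid (Y : Sys F N) (ρ : Fin N → Bool) (t : Option F) (D : Finset (Option F))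
    (hD : 4 * (D.card : ℝ) ≤ Fintype.card F) :
    PP (fun ω : Option F × Bool → F => Y.Good ρ t (insert (Y.wl ρ t)
        ((zs ω).filter (fun κ => κ.1 ≠ t ∧ κ.1 ∉ D))))
      ≤ Y.gp ρ t + 4 * D.card / (Fintype.card F : ℝ) := by
  classical
  have hq := qpos (F := F)
  set S : Finset (Option F × Bool) := univ.filter (fun κ => κ.1 ∈ D) with hS
  have hScard : (S.card : ℝ) = 2 * D.card := by
    have : S = D ×ˢ (univ : Finset Bool) := by
      ext κ
      rw [hS, mem_filter, mem_product]
      simp
    rw [this, card_product, card_univ, Fintype.card_bool]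
    push_cast; ring
  set p1 : (Option F × Bool → F) → Prop := fun ω => Y.Good ρ t (insert (Y.wl ρ t)
        ((zs ω).filter (fun κ => κ.1 ≠ t ∧ κ.1 ∉ D))) with hp1
  set p2 : (Option F × Bool → F) → Prop := fun ω => ¬ ∃ κ ∈ S, κ ∈ zs ω with hp2
  have hdep1 : DepOn p1 (univ \ S) := by
    refine depOn_zs _ (fun H => Y.Good ρ t (insert (Y.wl ρ t)
        (H.filter (fun κ => κ.1 ≠ t ∧ κ.1 ∉ D)))) (fun H H' h => ?_)
    have : H.filter (fun κ => κ.1 ≠ t ∧ κ.1 ∉ D) = H'.filter (fun κ => κ.1 ≠ t ∧ κ.1 ∉ D) := by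
      ext κ
      rw [mem_filter, mem_filter]
      have key : κ.1 ∉ D → (κ ∈ H ↔ κ ∈ H') := fun h1 =>
        h κ (by rw [mem_sdiff, hS, mem_filter]; exact ⟨mem_univ _, fun h2 => h1 h2.2⟩)
      exact ⟨fun ⟨h1, h2⟩ => ⟨(key h2.2).mp h1, h2⟩, fun ⟨h1, h2⟩ => ⟨(key h2.2).mpr h1, h2⟩⟩
    rw [this]
  have hdep2 : DepOn p2 S := by
    refine depOn_zs _ (fun H => ¬ ∃ κ ∈ S, κ ∈ H) (fun H H' h => not_congr ?_)
    exact ⟨fun ⟨κ, h1, h2⟩ => ⟨κ, h1, (h κ h1).mp h2⟩, fun ⟨κ, h1, h2⟩ => ⟨κ, h1, (h κ h1).mpr h2⟩⟩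
  have hprod : PP (fun ω => p1 ω ∧ p2 ω) = PP p1 * PP p2 :=
    PP_and_of_dep hdep1 hdep2 sdiff_disjoint
  have hle : PP (fun ω => p1 ω ∧ p2 ω) ≤ Y.gp ρ t := by
    unfold Sys.gp
    refine PP_mono (fun ω ⟨h1, h2⟩ => ?_)
    have : (zs ω).filter (fun κ => κ.1 ≠ t ∧ κ.1 ∉ D) = (zs ω).filter (fun κ => κ.1 ≠ t) := by
      ext κ
      rw [mem_filter, mem_filter]
      refine ⟨fun ⟨h3, h4⟩ => ⟨h3, h4.1⟩, fun ⟨h3, h4⟩ => ⟨h3, h4, fun h5 => h2 ⟨κ, ?_, h3⟩⟩⟩
      rw [hS, mem_filter]; exact ⟨mem_univ _, h5⟩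
    rw [hp1] at h1
    rw [this] at h1
    exact h1
  have hp2' : 1 - 2 * D.card / (Fintype.card F : ℝ) ≤ PP p2 := by
    rw [hp2, PP_not]
    have := PP_zs_exists (F := F) S
    rw [hScard] at this
    linarith
  have hu : 2 * (D.card : ℝ) / Fintype.card F ≤ 1 / 2 := by
    rw [div_le_iff₀ hq]; linarith
  have h1 : PP p1 * (1 - 2 * D.card / (Fintype.card F : ℝ)) ≤ Y.gp ρ t :=
    (mul_le_mul_of_nonneg_left hp2' (PP_nonneg _)).trans (hprod ▸ hle)
  have hgp1 : Y.gp ρ t ≤ 1 := PP_le_one _
  have hgp0 : 0 ≤ Y.gp ρ t := PP_nonneg _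
  have hp11 : PP p1 ≤ 1 := PP_le_one _
  set u : ℝ := 2 * D.card / (Fintype.card F : ℝ) with hu'
  have hu0 : 0 ≤ u := by positivity
  have h3 : 4 * (D.card : ℝ) / Fintype.card F = 2 * u := by rw [hu']; ring
  rw [h3]
  nlinarith [PP_nonneg p1]

theorem card_dirs_le (A : Finset (Option F × F)) (P : F × F) :
    ((univ : Finset (Option F)).filter (fun d => (d, pos d P) ∈ A)).card ≤ A.card := by
  refine card_le_card_of_injOn (fun d => (d, pos d P)) ?_ ?_
  · intro d hd
    have := (mem_filter.mp (mem_coe.mp hd)).2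
    exact this
  · intro d _ d' _ h
    exact (Prod.mk.inj h).1


/-- one summand, when the position of the line `wl ρ t` is frozen -/
theorem tail_ZZ (Y : Sys F N) (ρ : Fin N → Bool) (A : Finset (Option F × F)) (t : Option F)
    (r τ : ℝ) (hr : (A.card : ℝ) ≤ r) (hτ : 0 ≤ τ)
    (hA4 : 4 * (A.card : ℝ) ≤ Fintype.card F)
    (hm : 4 * r ^ 2 / (Fintype.card F : ℝ) ≤ τ) (a : Option F × Bool → F) :
    EE (fun b => max (ZZ Y ρ A t (merge {Y.wl ρ t} a b) - (r * Y.gp ρ t + 2 * τ)) 0)
      ≤ r * Real.exp (-(τ ^ 2 / (16 * (Fintype.card F + 1)))) := by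
  classical
  have hq := qpos (F := F)
  have hr0 : 0 ≤ r := le_trans (by positivity) hr
  have hgp0 : 0 ≤ Y.gp ρ t := PP_nonneg _
  set w := Y.wl ρ t with hw
  set l : Option F × F := (t, a w) with hl
  have hw1 : w.1 = t := rfl
  have hmw : ∀ b, merge {w} a b w = a w := by
    intro b; unfold merge; rw [if_pos (mem_singleton_self w)]
  have hmn : ∀ b κ, κ ≠ w → merge {w} a b κ = b κ := by
    intro b κ h; unfold merge; rw [if_neg (by rw [mem_singleton]; exact h)]
  by_cases hlA : l ∈ A
  · -- the line is in `A` : nothing is good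
    have h0 : ∀ b, ZZ Y ρ A t (merge {w} a b) = 0 := by
      intro b
      unfold ZZ
      have : (cov A).filter (fun P => Y.Good ρ t (hA A (merge {w} a b) P)) = ∅ := by
        rw [filter_eq_empty_iff]
        intro P _ h
        have h1 := h.1
        rw [← hw, mem_hA, hmw] at h1
        refine h1.2 ?_
        rw [← h1.1]; exact hlA
      rw [this]; simp
    have h1 : (fun b => max (ZZ Y ρ A t (merge {w} a b) - (r * Y.gp ρ t + 2 * τ)) 0)
        = fun _ => (0 : ℝ) := by
      funext b
      rw [h0, max_eq_right]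
      have : 0 ≤ r * Y.gp ρ t := mul_nonneg hr0 hgp0
      linarith
    rw [h1, EE_const]
    positivity
  · set U : Finset (F × F) := (cov A).filter (fun P => P ∈ pts l) with hU
    have hUc : (U.card : ℝ) ≤ A.card := by exact_mod_cast card_pts_cov A l hlA
    set W : (Option F × Bool → F) → ℝ := fun b => ZZ Y ρ A t (merge {w} a b) with hW
    have hWeq : ∀ b, W b = ((U.filter (fun P => Y.Good ρ t (hA A (merge {w} a b) P))).card : ℝ) := by
      intro b
      rw [hW]
      simp only [ZZ]
      congr 2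
      rw [hU]
      ext P
      rw [mem_filter, mem_filter, mem_filter]
      constructor
      · rintro ⟨h1, h2⟩
        refine ⟨⟨h1, ?_⟩, h2⟩
        have h3 := h2.1
        rw [← hw, mem_hA, hmw] at h3
        rw [mem_pts]
        exact h3.1.symm
      · rintro ⟨⟨h1, _⟩, h2⟩
        exact ⟨h1, h2⟩
    -- mean
    have hmean : EE W ≤ r * Y.gp ρ t + τ := by
      have h1 : EE W = ∑ P ∈ U, PP (fun b => Y.Good ρ t (hA A (merge {w} a b) P)) := by
        rw [← EE_card U (fun b P => Y.Good ρ t (hA A (merge {w} a b) P))]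
        congr 1
        funext b
        exact hWeq b
      have h2 : ∀ P ∈ U, PP (fun b => Y.Good ρ t (hA A (merge {w} a b) P))
          ≤ Y.gp ρ t + 4 * A.card / (Fintype.card F : ℝ) := by
        intro P hP
        rw [hU, mem_filter, mem_pts] at hP
        set D := (univ : Finset (Option F)).filter (fun d => (d, pos d P) ∈ A) with hD
        have hDc : (D.card : ℝ) ≤ A.card := by exact_mod_cast card_dirs_le A P
        have h3 : ∀ b, Y.Good ρ t (hA A (merge {w} a b) P)
            ↔ Y.Good ρ t (insert w ((hs b P).filter (fun κ => κ.1 ≠ t ∧ κ.1 ∉ D))) := by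
          intro b
          refine Good_congr Y ρ t (fun κ hκ => ?_)
          rw [mem_hA, mem_insert, mem_filter, mem_hs]
          by_cases h4 : κ = w
          · refine ⟨fun _ => Or.inl h4, fun _ => ?_⟩
            rw [h4, hmw]
            refine ⟨hP.2.symm, ?_⟩
            have : ((w.1, pos w.1 P) : Option F × F) = l := Prod.ext rfl hP.2
            rw [this]; exact hlA
          · rw [hmn b κ h4]
            have h5 : κ.1 ≠ t := by
              rcases hκ with h | h
              · exact h
              · exact absurd h h4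
            have h6 : κ.1 ∉ D ↔ (κ.1, pos κ.1 P) ∉ A := by
              rw [hD, mem_filter]
              simp
            rw [h6]
            constructor
            · rintro ⟨h7, h8⟩; exact Or.inr ⟨h7, h5, h8⟩
            · rintro (h7 | ⟨h7, _, h8⟩)
              · exact absurd h7 h4
              · exact ⟨h7, h8⟩
        rw [PP_congr h3, PP_hs (fun H => Y.Good ρ t (insert w
          (H.filter (fun κ => κ.1 ≠ t ∧ κ.1 ∉ D)))) P]
        refine (PP_Good_avoid Y ρ t D (by linarith)).trans ?_
        gcongr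
      rw [h1]
      refine (sum_le_sum h2).trans ?_
      rw [sum_const, nsmul_eq_mul]
      have h4 : (U.card : ℝ) * (Y.gp ρ t + 4 * A.card / (Fintype.card F : ℝ))
          ≤ r * (Y.gp ρ t + 4 * r / (Fintype.card F : ℝ)) := by
        refine mul_le_mul (hUc.trans hr) ?_ (by positivity) hr0
        gcongr
      refine h4.trans ?_
      have : r * (Y.gp ρ t + 4 * r / (Fintype.card F : ℝ))
          = r * Y.gp ρ t + 4 * r ^ 2 / (Fintype.card F : ℝ) := by ring
      rw [this]
      linarith
    -- Lipschitz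
    have hlip : ∀ b κ x, |W (Function.update b κ x) - W b| ≤ 2 := by
      intro b κ x
      by_cases hκw : κ = w
      · have : merge {w} a (Function.update b κ x) = merge {w} a b := by
          funext κ'
          by_cases h : κ' = w
          · rw [h, hmw, hmw]
          · rw [hmn _ _ h, hmn _ _ h, Function.update_of_ne (by rw [hκw]; exact h)]
        rw [hW]
        simp only [this, sub_self, abs_zero]
        norm_num
      · have hupd : merge {w} a (Function.update b κ x)
            = Function.update (merge {w} a b) κ x := by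
          funext κ'
          by_cases h : κ' = κ
          · subst h
            rw [hmn _ _ hκw, Function.update_self, Function.update_self]
          · rw [Function.update_of_ne h]
            by_cases h' : κ' = w
            · rw [h', hmw, hmw]
            · rw [hmn _ _ h', hmn _ _ h', Function.update_of_ne h]
        rw [hWeq, hWeq, hupd]
        by_cases hκ : κ.1 = t
        · have : ∀ P, Y.Good ρ t (hA A (Function.update (merge {w} a b) κ x) P)
              ↔ Y.Good ρ t (hA A (merge {w} a b) P) := by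
            intro P
            refine Good_congr Y ρ t (fun κ' hκ' => ?_)
            rw [mem_hA, mem_hA, Function.update_of_ne]
            rintro rfl
            rcases hκ' with h | h
            · exact h hκ
            · exact hκw h
          simp only [this, sub_self, abs_zero]
          norm_num
        · refine (abs_card_filter_sub_le U
            ((pts l).filter (fun P => pos κ.1 P = (merge {w} a b) κ)
              ∪ (pts l).filter (fun P => pos κ.1 P = x)) _ _ ?_).trans ?_
          · intro P hP hPE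
            have hPl : P ∈ pts l := (mem_filter.mp hP).2
            rw [mem_union, mem_filter, mem_filter, not_or] at hPE
            rw [hA_update_of_ne (fun h => hPE.1 ⟨hPl, h.1⟩) (fun h => hPE.2 ⟨hPl, h.1⟩)]
          · have h1 := card_inter_le l κ.1 hκ ((merge {w} a b) κ)
            have h2 := card_inter_le l κ.1 hκ x
            have h3 := card_union_le ((pts l).filter (fun P => pos κ.1 P = (merge {w} a b) κ))
              ((pts l).filter (fun P => pos κ.1 P = x))
            exact_mod_cast h3.trans (by omega)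
    have hcard : (Fintype.card (Option F × Bool) : ℝ) = 2 * (Fintype.card F + 1) := by
      rw [Fintype.card_prod, Fintype.card_option, Fintype.card_bool]; push_cast; ring
    have hu := mcdiarmid_upper W 2 (by norm_num) hlip τ hτ (2 * (Fintype.card F + 1)) hcard.le
      (by positivity)
    have hexp : (2 * (2 * ((Fintype.card F : ℝ) + 1)) * 2 ^ 2) = 16 * (Fintype.card F + 1) := by
      ring
    rw [hexp] at hu
    have hle : EE (fun b => max (W b - (r * Y.gp ρ t + 2 * τ)) 0)
        ≤ EE (fun b => r * (if EE W + τ ≤ W b then (1 : ℝ) else 0)) := by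
      refine EE_mono (fun b => ?_)
      have hWr : W b ≤ r := by
        rw [hWeq]
        exact (by exact_mod_cast card_filter_le _ _ : _ ≤ (U.card : ℝ)).trans (hUc.trans hr)
      have hgr : 0 ≤ r * Y.gp ρ t := mul_nonneg hr0 hgp0
      split_ifs with h
      · rw [mul_one]
        exact max_le (by linarith) hr0
      · rw [mul_zero]
        refine max_le ?_ le_rfl
        push Not at h
        linarith
    refine hle.trans ?_
    rw [EE_const_mul, ← PP_eq]
    exact mul_le_mul_of_nonneg_left hu hr0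

/-- the tail of the excess, for fixed `ρ` and `A` -/
theorem tail_Psi (Y : Sys F N) (ρ : Fin N → Bool) (A : Finset (Option F × F))
    (r τ : ℝ) (hr : (A.card : ℝ) ≤ r) (hτ : 0 ≤ τ) (hr0 : 0 < r)
    (hA4 : 4 * (A.card : ℝ) ≤ Fintype.card F)
    (hm : 4 * r ^ 2 / (Fintype.card F : ℝ) ≤ τ)
    (hsmall : ((Fintype.card F : ℝ) + 1)
      * (r * Real.exp (-(τ ^ 2 / (16 * (Fintype.card F + 1))))) ≤ Fintype.card F * τ) :
    PP (fun ω : Option F × Bool → F => 2 * (Fintype.card F * τ)
        ≤ Psi Y ρ A (fun t => r * Y.gp ρ t + 2 * τ) ω)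
      ≤ Real.exp (-((Fintype.card F * τ) ^ 2 / (64 * (Fintype.card F + 1) * r ^ 2))) := by
  classical
  have hq := qpos (F := F)
  set f := Psi Y ρ A (fun t => r * Y.gp ρ t + 2 * τ) with hf
  have hmean : EE f ≤ Fintype.card F * τ := by
    have h1 : EE f = ∑ t, EE (fun ω => max (ZZ Y ρ A t ω - (r * Y.gp ρ t + 2 * τ)) 0) := by
      rw [hf]
      unfold Psi
      rw [EE_sum]
    rw [h1]
    have h2 : ∀ t ∈ (univ : Finset (Option F)),
        EE (fun ω => max (ZZ Y ρ A t ω - (r * Y.gp ρ t + 2 * τ)) 0)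
          ≤ r * Real.exp (-(τ ^ 2 / (16 * (Fintype.card F + 1)))) := by
      intro t _
      exact EE_le_of_merge {Y.wl ρ t} _ _ (fun a => tail_ZZ Y ρ A t r τ hr hτ hA4 hm a)
    refine (sum_le_sum h2).trans ?_
    rw [sum_const, nsmul_eq_mul, card_univ, Fintype.card_option]
    push_cast
    exact hsmall
  have hlip : ∀ ω κ x, |f (Function.update ω κ x) - f ω| ≤ 4 * r := by
    intro ω κ x
    exact (Psi_lip Y ρ A _ ω κ x).trans (by linarith)
  have hcard : (Fintype.card (Option F × Bool) : ℝ) = 2 * (Fintype.card F + 1) := by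
    rw [Fintype.card_prod, Fintype.card_option, Fintype.card_bool]; push_cast; ring
  have hu := mcdiarmid_upper f (4 * r) (by positivity) hlip (Fintype.card F * τ) (by positivity)
    (2 * (Fintype.card F + 1)) hcard.le (by positivity)
  have hexp : (2 * (2 * ((Fintype.card F : ℝ) + 1)) * (4 * r) ^ 2)
      = 64 * (Fintype.card F + 1) * r ^ 2 := by ring
  rw [hexp] at hu
  refine (PP_mono (fun ω h => ?_)).trans hu
  linarith

end

end Crest.Agent.H20Ry
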