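import Crest.Agent.H3RyDefs
import Crest.Agent.H3RyDefs2

/-!
# Module G of the Ryser counterexample (S0045, S0046): geometry of the affine plane
-/

set_option autoImplicit false
set_option linter.unusedSectionVars false
set_option linter.unusedSimpArgs false

namespace Crest.Agent.H3Ry
open Finset

section G
variable {F : Type*} [Field F] [Fintype F] [DecidableEq F]

theorem mem_pts {l : Option F × F} {P : F × F} : P ∈ pts l ↔ pos l.1 P = l.2 := by
  simp [pts]

theorem mem_cov {S : Finset (Option F × F)} {P : F × F} :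
    P ∈ cov S ↔ ∃ l ∈ S, pos l.1 P = l.2 := by
  unfold cov mu
  rw [mem_filter, card_pos]
  constructor
  · rintro ⟨_, l, hl⟩
    exact ⟨l, (mem_filter.mp hl).1, (mem_filter.mp hl).2⟩
  · rintro ⟨l, hl, h⟩
    exact ⟨mem_univ _, l, mem_filter.mpr ⟨hl, h⟩⟩

theorem mem_unc {S : Finset (Option F × F)} {P : F × F} :
    P ∈ unc S ↔ mu S P = 0 := by
  simp [unc]

theorem mem_cov' {S : Finset (Option F × F)} {P : F × F} :
    P ∈ cov S ↔ 0 < mu S P := by
  simp [cov]

/-- two different points are on exactly one common line -/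
theorem exists_unique_dir {P Q : F × F} (h : P ≠ Q) : ∃! d : Option F, pos d P = pos d Q := by
  by_cases h1 : P.1 = Q.1
  · refine ⟨none, by simpa [pos] using h1, ?_⟩
    rintro (_ | m) hm
    · rfl
    · exfalso
      apply h
      simp only [pos] at hm
      rw [h1] at hm
      exact Prod.ext h1 (by linear_combination hm)
  · have h2 : P.1 - Q.1 ≠ 0 := sub_ne_zero.mpr h1
    refine ⟨some ((P.2 - Q.2) / (P.1 - Q.1)), ?_, ?_⟩
    · simp only [pos]
      field_simp
      ring
    · rintro (_ | m) hm
      · exact absurd (by simpa [pos] using hm) h1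
      · simp only [pos] at hm
        congr 1
        rw [eq_div_iff h2]
        linear_combination -hm

/-- two lines of different directions meet in exactly one point -/
theorem exists_unique_pt {l l' : Option F × F} (h : l.1 ≠ l'.1) :
    ∃! P : F × F, pos l.1 P = l.2 ∧ pos l'.1 P = l'.2 := by
  obtain ⟨d, c⟩ := l
  obtain ⟨d', c'⟩ := l'
  simp only at h
  rcases d with _ | m <;> rcases d' with _ | m'
  · exact absurd rfl h
  · refine ⟨(c, c' + m' * c), ?_, ?_⟩
    · simp [pos]
    · rintro ⟨x, y⟩ ⟨h1, h2⟩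
      simp only [pos] at h1 h2
      subst h1
      refine Prod.ext rfl ?_
      simp only
      linear_combination h2
  · refine ⟨(c', c + m * c'), ?_, ?_⟩
    · simp [pos]
    · rintro ⟨x, y⟩ ⟨h1, h2⟩
      simp only [pos] at h1 h2
      subst h2
      refine Prod.ext rfl ?_
      simp only
      linear_combination h1
  · have hm : m' - m ≠ 0 := by
      intro h0
      apply h
      rw [sub_eq_zero.mp h0]
    refine ⟨((c - c') / (m' - m), c + m * ((c - c') / (m' - m))), ?_, ?_⟩
    · simp only [pos]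
      constructor
      · ring
      · field_simp
        ring
    · rintro ⟨x, y⟩ ⟨h1, h2⟩
      simp only [pos] at h1 h2
      have hx : x = (c - c') / (m' - m) := by
        rw [eq_div_iff hm]
        linear_combination h1 - h2
      refine Prod.ext hx ?_
      simp only
      rw [← hx]
      linear_combination h1

theorem card_pts (l : Option F × F) : (pts l).card = Fintype.card F := by
  obtain ⟨d, c⟩ := l
  rcases d with _ | m
  · rw [← Finset.card_univ (α := F)]
    symm
    refine Finset.card_bij (fun y _ => (c, y)) ?_ ?_ ?_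
    · intro y _
      rw [mem_pts]
      simp [pos]
    · intro a _ b _ hab
      exact (Prod.ext_iff.mp hab).2
    · rintro ⟨x, y⟩ hb
      rw [mem_pts] at hb
      simp only [pos] at hb
      exact ⟨y, mem_univ _, by rw [hb]⟩
  · rw [← Finset.card_univ (α := F)]
    symm
    refine Finset.card_bij (fun x _ => (x, c + m * x)) ?_ ?_ ?_
    · intro y _
      rw [mem_pts]
      simp [pos]
    · intro a _ b _ hab
      exact (Prod.ext_iff.mp hab).1
    · rintro ⟨x, y⟩ hb
      rw [mem_pts] at hb
      simp only [pos] at hb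
      refine ⟨x, mem_univ _, Prod.ext rfl ?_⟩
      simp only
      linear_combination -hb

theorem card_inter_of_ne {l l' : Option F × F} (h : l.1 ≠ l'.1) :
    (pts l ∩ pts l').card = 1 := by
  obtain ⟨P, hP, hu⟩ := exists_unique_pt h
  rw [card_eq_one]
  refine ⟨P, ?_⟩
  ext Q
  rw [mem_inter, mem_pts, mem_pts, mem_singleton]
  constructor
  · intro hQ
    exact hu Q hQ
  · rintro rfl
    exact hP

theorem inter_of_parallel {l l' : Option F × F} (h : l.1 = l'.1) (h' : l ≠ l') :
    pts l ∩ pts l' = ∅ := by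
  ext Q
  rw [mem_inter, mem_pts, mem_pts]
  constructor
  · rintro ⟨h1, h2⟩
    exact absurd (Prod.ext h (by rw [← h1, ← h2, h])) h'
  · intro h
    simp at h

/-- the number of directions joining two points -/
theorem card_dir (P Q : F × F) :
    ((univ.filter (fun d : Option F => pos d P = pos d Q)).card : ℝ)
      = 1 + if P = Q then (Fintype.card F : ℝ) else 0 := by
  split_ifs with h
  · subst h
    simp [Fintype.card_option]
    ring
  · obtain ⟨d, hd, hu⟩ := exists_unique_dir h
    have : univ.filter (fun d : Option F => pos d P = pos d Q) = {d} := by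
      ext e
      simp only [mem_filter, mem_univ, true_and, mem_singleton]
      exact ⟨fun he => hu e he, fun he => by rw [he]; exact hd⟩
    rw [this]
    simp

theorem sum_lines (f : F × F → ℝ) :
    ∑ l : Option F × F, ∑ P ∈ pts l, f P = (Fintype.card F + 1) * ∑ P, f P := by
  have h1 : ∀ d : Option F, ∑ c : F, ∑ P ∈ pts (d, c), f P = ∑ P, f P := by
    intro d
    rw [← Finset.sum_fiberwise (s := univ) (g := fun P => pos d P) (f := f)]
    rfl
  rw [Fintype.sum_prod_type]
  simp_rw [h1]
  simp [Fintype.card_option]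

theorem sum_lines_sq_eq (f : F × F → ℝ) :
    ∑ l : Option F × F, (∑ P ∈ pts l, f P) ^ 2
      = Fintype.card F * ∑ P, f P ^ 2 + (∑ P, f P) ^ 2 := by
  have h1 : ∀ l : Option F × F, (∑ P ∈ pts l, f P) ^ 2
      = ∑ P, ∑ Q, (if pos l.1 P = l.2 then f P else 0) * (if pos l.1 Q = l.2 then f Q else 0) := by
    intro l
    rw [sq, ← Finset.sum_mul_sum]
    unfold pts
    rw [Finset.sum_filter]
  have h2 : ∀ P Q : F × F, ∑ l : Option F × F,
      (if pos l.1 P = l.2 then f P else 0) * (if pos l.1 Q = l.2 then f Q else 0)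
      = f P * f Q * (1 + if P = Q then (Fintype.card F : ℝ) else 0) := by
    intro P Q
    rw [Fintype.sum_prod_type]
    have h3 : ∀ d : Option F, ∑ c : F, (if pos d P = c then f P else 0) * (if pos d Q = c then f Q else 0)
        = if pos d P = pos d Q then f P * f Q else 0 := by
      intro d
      have : ∀ c : F, (if pos d P = c then f P else 0) * (if pos d Q = c then f Q else 0)
          = if pos d P = c then (f P * (if pos d Q = c then f Q else 0)) else 0 := by
        intro c
        split_ifs <;> simp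
      simp_rw [this]
      rw [Finset.sum_ite_eq]
      simp only [mem_univ, if_true]
      by_cases h : pos d P = pos d Q
      · rw [if_pos h, if_pos h.symm]
      · rw [if_neg h, if_neg (fun h' => h h'.symm)]
        simp
    simp only
    simp_rw [h3]
    rw [← Finset.sum_filter, Finset.sum_const, nsmul_eq_mul, card_dir]
    ring
  simp_rw [h1]
  rw [Finset.sum_comm]
  have h4 : ∀ P : F × F, ∑ l : Option F × F, ∑ Q, (if pos l.1 P = l.2 then f P else 0) *
      (if pos l.1 Q = l.2 then f Q else 0)
      = f P * ∑ Q, f Q + Fintype.card F * f P ^ 2 := by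
    intro P
    rw [Finset.sum_comm]
    simp_rw [h2]
    simp_rw [mul_add, mul_one]
    rw [Finset.sum_add_distrib, ← Finset.mul_sum]
    congr 1
    simp only [mul_ite, mul_zero]
    rw [Finset.sum_ite_eq]
    simp only [mem_univ, if_true]
    ring
  simp_rw [h4]
  rw [Finset.sum_add_distrib, ← Finset.sum_mul, ← Finset.mul_sum]
  ring

theorem sum_lines_sq (f : F × F → ℝ) :
    ∑ l : Option F × F, (∑ P ∈ pts l, f P - (∑ P, f P) / Fintype.card F) ^ 2
      ≤ Fintype.card F * ∑ P, f P ^ 2 := by
  have hq : (0 : ℝ) < Fintype.card F := by exact_mod_cast Fintype.card_pos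
  have h1 : ∑ l : Option F × F, (∑ P ∈ pts l, f P - (∑ P, f P) / Fintype.card F) ^ 2
      = ∑ l : Option F × F, (∑ P ∈ pts l, f P) ^ 2
        - 2 * ((∑ P, f P) / Fintype.card F) * ∑ l : Option F × F, ∑ P ∈ pts l, f P
        + (Fintype.card F + 1) * Fintype.card F * ((∑ P, f P) / Fintype.card F) ^ 2 := by
    rw [Finset.mul_sum, ← Finset.sum_sub_distrib]
    have : ((Fintype.card F + 1) * Fintype.card F * ((∑ P, f P) / Fintype.card F) ^ 2 : ℝ)
        = ∑ l : Option F × F, ((∑ P, f P) / Fintype.card F) ^ 2 := by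
      rw [Finset.sum_const, nsmul_eq_mul, Finset.card_univ, Fintype.card_prod, Fintype.card_option]
      push_cast
      ring
    rw [this, ← Finset.sum_add_distrib]
    apply Finset.sum_congr rfl
    intro l _
    ring
  rw [h1, sum_lines, sum_lines_sq_eq]
  have h2 : (Fintype.card F * ∑ P, f P ^ 2 + (∑ P, f P) ^ 2
      - 2 * ((∑ P, f P) / Fintype.card F) * ((Fintype.card F + 1) * ∑ P, f P)
        + (Fintype.card F + 1) * Fintype.card F * ((∑ P, f P) / Fintype.card F) ^ 2 : ℝ)
      = Fintype.card F * ∑ P, f P ^ 2 - (∑ P, f P) ^ 2 / Fintype.card F := by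
    field_simp
    ring
  rw [h2]
  have : 0 ≤ (∑ P, f P) ^ 2 / (Fintype.card F : ℝ) := by positivity
  linarith

/-- number of poor lines -/
theorem card_poor (f : F × F → ℝ) (hf : ∀ P, 0 ≤ f P) (K : ℝ)
    (hK : ∑ P, f P ^ 2 ≤ K * ∑ P, f P) (hpos : 0 < ∑ P, f P) :
    ((univ.filter (fun l : Option F × F =>
        ∑ P ∈ pts l, f P < (∑ P, f P) / (2 * Fintype.card F))).card : ℝ)
      ≤ 4 * (Fintype.card F : ℝ) ^ 3 * K / ∑ P, f P := by
  have hq : (0 : ℝ) < Fintype.card F := by exact_mod_cast Fintype.card_pos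
  set s := ∑ P, f P with hs
  set q : ℝ := (Fintype.card F : ℝ) with hqd
  set A := univ.filter (fun l : Option F × F => ∑ P ∈ pts l, f P < s / (2 * q)) with hA
  have h1 : (A.card : ℝ) * (s / (2 * q)) ^ 2 ≤ q * ∑ P, f P ^ 2 := by
    calc (A.card : ℝ) * (s / (2 * q)) ^ 2 = ∑ l ∈ A, (s / (2 * q)) ^ 2 := by
          rw [Finset.sum_const, nsmul_eq_mul]
      _ ≤ ∑ l ∈ A, (∑ P ∈ pts l, f P - s / q) ^ 2 := by
          apply Finset.sum_le_sum
          intro l hl
          have hl' : ∑ P ∈ pts l, f P < s / (2 * q) := (mem_filter.mp hl).2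
          have h0 : 0 ≤ ∑ P ∈ pts l, f P := Finset.sum_nonneg (fun P _ => hf P)
          have h3 : s / q = 2 * (s / (2 * q)) := by field_simp
          have h4 : 0 < s / (2 * q) := by positivity
          rw [h3]
          nlinarith
      _ ≤ ∑ l : Option F × F, (∑ P ∈ pts l, f P - s / q) ^ 2 :=
          Finset.sum_le_sum_of_subset_of_nonneg (Finset.subset_univ _) (fun l _ _ => sq_nonneg _)
      _ ≤ q * ∑ P, f P ^ 2 := sum_lines_sq f
  have h2 : (A.card : ℝ) * (s / (2 * q)) ^ 2 ≤ q * (K * s) :=
    h1.trans (mul_le_mul_of_nonneg_left hK hq.le)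
  rw [le_div_iff₀ hpos]
  have h5 : (A.card : ℝ) * (s / (2 * q)) ^ 2 = (A.card * s) * (s / (4 * q ^ 2)) := by
    field_simp
    ring
  rw [h5] at h2
  have h6 : 0 < s / (4 * q ^ 2) := by positivity
  have h7 : q * (K * s) = (4 * q ^ 3 * K) * (s / (4 * q ^ 2)) := by
    field_simp
  rw [h7] at h2
  exact le_of_mul_le_mul_right h2 h6


/-! ### Coverage numbers -/

theorem mu_eq_sum (S : Finset (Option F × F)) (P : F × F) :
    (mu S P : ℝ) = ∑ l ∈ S, if pos l.1 P = l.2 then (1 : ℝ) else 0 := by
  unfold mu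
  rw [Finset.card_filter]
  push_cast
  rfl

theorem sum_mu (S : Finset (Option F × F)) :
    ∑ P : F × F, (mu S P : ℝ) = S.card * Fintype.card F := by
  simp_rw [mu_eq_sum]
  rw [Finset.sum_comm]
  have : ∀ l : Option F × F, ∑ P : F × F, (if pos l.1 P = l.2 then (1 : ℝ) else 0)
      = Fintype.card F := by
    intro l
    rw [← Finset.sum_filter, Finset.sum_const, nsmul_eq_mul, mul_one]
    exact_mod_cast card_pts l
  simp_rw [this]
  rw [Finset.sum_const, nsmul_eq_mul]

theorem card_unc_add_card_cov (S : Finset (Option F × F)) :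
    (unc S).card + (cov S).card = Fintype.card F ^ 2 := by
  have h : (unc S) = (cov S)ᶜ := by
    ext P
    simp [unc, cov]
  rw [h, Finset.card_compl_add_card, Fintype.card_prod, sq]

theorem sum_mu_cov (S : Finset (Option F × F)) :
    ∑ P ∈ cov S, (mu S P : ℝ) = S.card * Fintype.card F := by
  rw [← sum_mu]
  unfold cov
  rw [Finset.sum_filter]
  apply Finset.sum_congr rfl
  intro P _
  split_ifs with h
  · rfl
  · have : mu S P = 0 := by omega
    simp [this]

/-- for `|S| = q` the number of uncovered points equals the total over-coverage -/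
theorem sum_mu_sub_one (S : Finset (Option F × F)) (hS : S.card = Fintype.card F) :
    ((unc S).card : ℝ) = ∑ P ∈ cov S, ((mu S P : ℝ) - 1) := by
  rw [Finset.sum_sub_distrib, sum_mu_cov, hS]
  have h := card_unc_add_card_cov S
  have h' : ((unc S).card : ℝ) + (cov S).card = (Fintype.card F : ℝ) ^ 2 := by exact_mod_cast h
  simp only [Finset.sum_const, nsmul_eq_mul, mul_one]
  linarith

/-- number of lines of `S` with direction `d` -/
def adir (S : Finset (Option F × F)) (d : Option F) : ℕ := (S.filter (fun l => l.1 = d)).card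

theorem sum_mu_mul_eq (S : Finset (Option F × F)) :
    ∑ P : F × F, (mu S P : ℝ) * (mu S P - 1)
      = (S.card : ℝ) ^ 2 - ∑ l ∈ S, (adir S l.1 : ℝ) := by
  have h1 : ∀ P : F × F, (mu S P : ℝ) * mu S P
      = ∑ l ∈ S, ∑ l' ∈ S, (if pos l.1 P = l.2 ∧ pos l'.1 P = l'.2 then (1 : ℝ) else 0) := by
    intro P
    rw [mu_eq_sum, Finset.sum_mul_sum]
    apply Finset.sum_congr rfl
    intro l _
    apply Finset.sum_congr rfl
    intro l' _
    split_ifs <;> simp_all
  have h2 : ∀ l l' : Option F × F,
      ∑ P : F × F, (if pos l.1 P = l.2 ∧ pos l'.1 P = l'.2 then (1 : ℝ) else 0)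
      = ((pts l ∩ pts l').card : ℝ) := by
    intro l l'
    rw [← Finset.sum_filter, Finset.sum_const, nsmul_eq_mul, mul_one]
    congr 2
    ext P
    simp [pts]
  have h3 : ∀ l l' : Option F × F, ((pts l ∩ pts l').card : ℝ)
      = 1 + (if l' = l then (Fintype.card F : ℝ) else 0) - (if l'.1 = l.1 then 1 else 0) := by
    intro l l'
    by_cases h : l'.1 = l.1
    · by_cases h' : l' = l
      · subst h'
        simp [card_pts]
      · rw [inter_of_parallel h.symm (Ne.symm h')]
        simp [h, h']
    · have h' : l' ≠ l := fun he => h (by rw [he])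
      rw [card_inter_of_ne (Ne.symm h)]
      simp [h, h']
  have h4 : ∑ P : F × F, (mu S P : ℝ) * mu S P
      = (S.card : ℝ) ^ 2 + S.card * Fintype.card F - ∑ l ∈ S, (adir S l.1 : ℝ) := by
    simp_rw [h1]
    rw [Finset.sum_comm]
    have : ∀ l ∈ S, ∑ P : F × F, ∑ l' ∈ S,
        (if pos l.1 P = l.2 ∧ pos l'.1 P = l'.2 then (1 : ℝ) else 0)
        = S.card + Fintype.card F - adir S l.1 := by
      intro l hl
      rw [Finset.sum_comm]
      simp_rw [h2, h3]
      rw [Finset.sum_sub_distrib, Finset.sum_add_distrib]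
      rw [Finset.sum_ite_eq' S l]
      rw [if_pos hl]
      unfold adir
      rw [Finset.card_filter]
      simp
    rw [Finset.sum_congr rfl this, Finset.sum_sub_distrib, Finset.sum_const, nsmul_eq_mul]
    ring
  have h5 : ∑ P : F × F, (mu S P : ℝ) * (mu S P - 1)
      = ∑ P : F × F, (mu S P : ℝ) * mu S P - ∑ P : F × F, (mu S P : ℝ) := by
    rw [← Finset.sum_sub_distrib]
    apply Finset.sum_congr rfl
    intro P _
    ring
  rw [h5, h4, sum_mu]
  ring

theorem sum_mu_mul (S : Finset (Option F × F)) :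
    ∑ P : F × F, (mu S P : ℝ) * (mu S P - 1) ≤ (S.card : ℝ) ^ 2 := by
  rw [sum_mu_mul_eq]
  have : (0 : ℝ) ≤ ∑ l ∈ S, (adir S l.1 : ℝ) := Finset.sum_nonneg (fun l _ => Nat.cast_nonneg _)
  linarith

/-- a line not in `S` is covered by at most as many points as there are non parallel lines in `S` -/
theorem card_pts_inter_cov_le (S : Finset (Option F × F)) (l : Option F × F) (hl : l ∉ S) :
    (pts l ∩ cov S).card ≤ (S.filter (fun l' => l'.1 ≠ l.1)).card := by
  have h : pts l ∩ cov S ⊆ (S.filter (fun l' => l'.1 ≠ l.1)).biUnion (fun l' => pts l ∩ pts l') := by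
    intro P hP
    rw [mem_inter, mem_cov] at hP
    obtain ⟨hP, l', hl', hPl'⟩ := hP
    rw [mem_biUnion]
    refine ⟨l', ?_, ?_⟩
    · rw [mem_filter]
      refine ⟨hl', fun he => hl ?_⟩
      have : l' = l := by
        refine Prod.ext he ?_
        rw [mem_pts] at hP
        rw [← hP, ← hPl', he]
      rwa [← this]
    · rw [mem_inter]
      exact ⟨hP, mem_pts.mpr hPl'⟩
  refine (card_le_card h).trans ?_
  refine card_biUnion_le.trans ?_
  rw [Finset.card_eq_sum_ones]
  apply Finset.sum_le_sum
  intro l' hl'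
  rw [card_inter_of_ne (Ne.symm (mem_filter.mp hl').2)]

theorem adir_add (S : Finset (Option F × F)) (d : Option F) :
    adir S d + (S.filter (fun l' => l'.1 ≠ d)).card = S.card := by
  unfold adir
  exact Finset.card_filter_add_card_filter_not (s := S) (fun l => l.1 = d)

theorem adir_eq (S : Finset (Option F × F)) (d : Option F) :
    adir S d = (univ.filter (fun c : F => (d, c) ∈ S)).card := by
  unfold adir
  symm
  refine Finset.card_bij (fun c _ => (d, c)) ?_ ?_ ?_
  · intro c hc
    rw [mem_filter]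
    exact ⟨(mem_filter.mp hc).2, rfl⟩
  · intro a _ b _ hab
    exact (Prod.ext_iff.mp hab).2
  · rintro ⟨e, c⟩ hb
    obtain ⟨h1, h2⟩ := mem_filter.mp hb
    simp only at h2
    subst h2
    exact ⟨c, by simpa using h1, rfl⟩

theorem card_missing (S : Finset (Option F × F)) (d : Option F) :
    adir S d + (univ.filter (fun c : F => (d, c) ∉ S)).card = Fintype.card F := by
  rw [adir_eq, Finset.card_filter_add_card_filter_not, Finset.card_univ]

/-- a missing line of direction `d` has at least `a_d` uncovered points -/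
theorem adir_le_unc_line (S : Finset (Option F × F)) (hS : S.card = Fintype.card F)
    (l : Option F × F) (hl : l ∉ S) :
    adir S l.1 ≤ (pts l ∩ unc S).card := by
  have h1 := card_pts_inter_cov_le S l hl
  have h2 := adir_add S l.1
  have h3 : (pts l ∩ cov S).card + (pts l ∩ unc S).card = Fintype.card F := by
    rw [← card_pts l]
    have : pts l ∩ unc S = pts l \ cov S := by
      ext P
      simp [unc, cov]
    rw [this, Finset.card_inter_add_card_sdiff]
  omega

theorem unc_ge_of_dir (S : Finset (Option F × F)) (hS : S.card = Fintype.card F)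
    (d : Option F) : (Fintype.card F - adir S d) * adir S d ≤ (unc S).card := by
  have h1 : (unc S).card = ∑ c : F, ((unc S).filter (fun P => pos d P = c)).card :=
    Finset.card_eq_sum_card_fiberwise (fun P _ => mem_univ _)
  have h2 : ∀ c ∈ univ.filter (fun c : F => (d, c) ∉ S),
      adir S d ≤ ((unc S).filter (fun P => pos d P = c)).card := by
    intro c hc
    have := adir_le_unc_line S hS (d, c) (mem_filter.mp hc).2
    refine this.trans (card_le_card ?_)
    intro P hP
    rw [mem_inter, mem_pts] at hP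
    rw [mem_filter]
    exact ⟨hP.2, hP.1⟩
  have h3 := card_missing S d
  calc (Fintype.card F - adir S d) * adir S d
      = ∑ c ∈ univ.filter (fun c : F => (d, c) ∉ S), adir S d := by
        rw [Finset.sum_const, smul_eq_mul]
        congr 1
        omega
    _ ≤ ∑ c ∈ univ.filter (fun c : F => (d, c) ∉ S),
          ((unc S).filter (fun P => pos d P = c)).card := Finset.sum_le_sum h2
    _ ≤ ∑ c : F, ((unc S).filter (fun P => pos d P = c)).card :=
        Finset.sum_le_sum_of_subset (Finset.subset_univ _)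
    _ = (unc S).card := h1.symm

/-- a missing line through `P`: its points other than `P` are covered by lines not through `P` -/
theorem card_erase_inter_cov_le (S : Finset (Option F × F)) (P : F × F) (l : Option F × F)
    (hPl : P ∈ pts l) (hl : l ∉ S) :
    ((pts l).erase P ∩ cov S).card + mu S P ≤ S.card := by
  have h1 : (pts l).erase P ∩ cov S ⊆ pts l ∩ cov (S.filter (fun l' => ¬ pos l'.1 P = l'.2)) := by
    intro Q hQ
    rw [mem_inter, mem_erase, mem_cov] at hQ
    obtain ⟨⟨hQP, hQl⟩, l', hl', hQl'⟩ := hQ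
    rw [mem_inter, mem_cov]
    refine ⟨hQl, l', ?_, hQl'⟩
    rw [mem_filter]
    refine ⟨hl', fun hP => hl ?_⟩
    obtain ⟨d, hd, hu⟩ := exists_unique_dir hQP
    rw [mem_pts] at hPl hQl
    have e1 : l.1 = d := hu l.1 (by simp only; rw [hPl, hQl])
    have e2 : l'.1 = d := hu l'.1 (by simp only; rw [hP, hQl'])
    have : l' = l := by
      refine Prod.ext (by rw [e1, e2]) ?_
      rw [← hP, ← hPl, e1, e2]
    rwa [← this]
  have h2 : l ∉ S.filter (fun l' => ¬ pos l'.1 P = l'.2) := fun h => hl (mem_filter.mp h).1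
  have h3 := card_pts_inter_cov_le _ l h2
  have h4 : ((S.filter (fun l' => ¬ pos l'.1 P = l'.2)).filter (fun l' => l'.1 ≠ l.1)).card
      ≤ (S.filter (fun l' => ¬ pos l'.1 P = l'.2)).card := card_filter_le _ _
  have h5 : mu S P + (S.filter (fun l' => ¬ pos l'.1 P = l'.2)).card = S.card := by
    unfold mu
    exact Finset.card_filter_add_card_filter_not (s := S) (fun l => pos l.1 P = l.2)
  have h6 := card_le_card h1
  omega

theorem mu_eq (S : Finset (Option F × F)) (P : F × F) :
    mu S P = (univ.filter (fun d : Option F => (d, pos d P) ∈ S)).card := by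
  unfold mu
  symm
  refine Finset.card_bij (fun d _ => (d, pos d P)) ?_ ?_ ?_
  · intro d hd
    rw [mem_filter]
    exact ⟨(mem_filter.mp hd).2, rfl⟩
  · intro a _ b _ hab
    exact (Prod.ext_iff.mp hab).1
  · rintro ⟨d, c⟩ hb
    obtain ⟨h1, h2⟩ := mem_filter.mp hb
    simp only at h2
    subst h2
    exact ⟨d, by simpa using h1, rfl⟩

theorem card_missing_pt (S : Finset (Option F × F)) (P : F × F) :
    mu S P + (univ.filter (fun d : Option F => (d, pos d P) ∉ S)).card = Fintype.card F + 1 := by
  rw [mu_eq, Finset.card_filter_add_card_filter_not, Finset.card_univ, Fintype.card_option]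

theorem unc_ge_of_pt (S : Finset (Option F × F)) (hS : S.card = Fintype.card F) (P : F × F) :
    (Fintype.card F + 1 - mu S P) * (mu S P - 1) ≤ (unc S).card := by
  set D := univ.filter (fun d : Option F => (d, pos d P) ∉ S) with hD
  have h1 : ∀ d ∈ D, mu S P - 1 ≤ ((pts (d, pos d P)).erase P ∩ unc S).card := by
    intro d hd
    have hP : P ∈ pts (d, pos d P) := mem_pts.mpr rfl
    have h2 := card_erase_inter_cov_le S P (d, pos d P) hP (mem_filter.mp hd).2
    have h3 : ((pts (d, pos d P)).erase P ∩ cov S).card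
        + ((pts (d, pos d P)).erase P ∩ unc S).card = Fintype.card F - 1 := by
      have : (pts (d, pos d P)).erase P ∩ unc S = (pts (d, pos d P)).erase P \ cov S := by
        ext Q
        simp [unc, cov, and_assoc]
      rw [this, Finset.card_inter_add_card_sdiff, Finset.card_erase_of_mem hP, card_pts]
    omega
  have h2 : ∀ d ∈ D, ∀ e ∈ D, d ≠ e →
      Disjoint ((pts (d, pos d P)).erase P ∩ unc S) ((pts (e, pos e P)).erase P ∩ unc S) := by
    intro d _ e _ hde
    rw [Finset.disjoint_left]
    intro Q hQ hQ'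
    rw [mem_inter, mem_erase, mem_pts] at hQ hQ'
    obtain ⟨f, hf, hu⟩ := exists_unique_dir hQ.1.1
    apply hde
    rw [hu d hQ.1.2, hu e hQ'.1.2]
  have h3 : D.biUnion (fun d => (pts (d, pos d P)).erase P ∩ unc S) ⊆ unc S := by
    intro Q hQ
    obtain ⟨d, _, hd⟩ := mem_biUnion.mp hQ
    exact (mem_inter.mp hd).2
  have h4 : mu S P + D.card = Fintype.card F + 1 := card_missing_pt S P
  calc (Fintype.card F + 1 - mu S P) * (mu S P - 1) = ∑ d ∈ D, (mu S P - 1) := by
        rw [Finset.sum_const, smul_eq_mul]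
        congr 1
        omega
    _ ≤ ∑ d ∈ D, ((pts (d, pos d P)).erase P ∩ unc S).card := Finset.sum_le_sum h1
    _ = (D.biUnion (fun d => (pts (d, pos d P)).erase P ∩ unc S)).card :=
        (Finset.card_biUnion h2).symm
    _ ≤ (unc S).card := card_le_card h3

/-- near pencils: `|S| = q`, `S` covers `X`, every line has at least `x₀ ≥ √q` points of `X`; then
`S` is a parallel class or leaves at least `q^(3/2)/4` points uncovered. -/
theorem parallel_or_unc (S : Finset (Option F × F)) (X : Finset (F × F)) (x₀ : ℕ)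
    (hq : 100 ≤ Fintype.card F)
    (hS : S.card = Fintype.card F) (hX : ∀ P ∈ X, 0 < mu S P)
    (hx : ∀ l, x₀ ≤ (pts l ∩ X).card) (hx₀ : Fintype.card F ≤ x₀ ^ 2)
    (hx₁ : 2 * x₀ ≤ Fintype.card F) :
    (∃ d, ∀ l ∈ S, l.1 = d) ∨
      (Fintype.card F : ℝ) * Real.sqrt (Fintype.card F) / 4 ≤ (unc S).card := by
  set q := Fintype.card F with hqd
  have hx0pos : 0 < x₀ := by
    rcases Nat.eq_zero_or_pos x₀ with h | h
    · rw [h] at hx₀
      norm_num at hx₀
      omega
    · exact h
  have hXcov : X ⊆ cov S := fun P hP => mem_cov'.mpr (hX P hP)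
  -- real parameters
  set r : ℝ := Real.sqrt q with hr
  have hqR : (100 : ℝ) ≤ q := by exact_mod_cast hq
  have hr2 : r ^ 2 = q := Real.sq_sqrt (by linarith)
  have hr0 : 0 ≤ r := Real.sqrt_nonneg _
  have hr10 : 10 ≤ r := by
    by_contra h
    push Not at h
    nlinarith
  have hxr : r ≤ x₀ := by
    have : (q : ℝ) ≤ (x₀ : ℝ) ^ 2 := by exact_mod_cast hx₀
    rw [← hr2] at this
    exact le_of_sq_le_sq this (by positivity)
  have hx₁R : 2 * (x₀ : ℝ) ≤ q := by exact_mod_cast hx₁
  by_cases hA : ∃ d, q + 1 ≤ adir S d + x₀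
  · -- case A
    obtain ⟨d, hd⟩ := hA
    left
    refine ⟨d, ?_⟩
    by_cases hfull : adir S d = q
    · intro l hl
      have h1 := adir_add S d
      have h2 : (S.filter (fun l' => l'.1 ≠ d)).card = 0 := by omega
      rw [card_eq_zero] at h2
      by_contra hne
      have : l ∈ S.filter (fun l' => l'.1 ≠ d) := mem_filter.mpr ⟨hl, hne⟩
      rw [h2] at this
      simp at this
    · exfalso
      have h1 := card_missing S d
      have h2 : 0 < (univ.filter (fun c : F => (d, c) ∉ S)).card := by omega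
      obtain ⟨c, hc⟩ := card_pos.mp h2
      have hc' : (d, c) ∉ S := (mem_filter.mp hc).2
      have h3 := card_pts_inter_cov_le S (d, c) hc'
      have h4 := hx (d, c)
      have h5 : (pts (d, c) ∩ X).card ≤ (pts (d, c) ∩ cov S).card :=
        card_le_card (Finset.inter_subset_inter_left hXcov)
      have h6 := adir_add S d
      simp only at h3
      omega
  right
  push Not at hA
  by_cases hB : ∃ d, r ≤ adir S d
  · -- case B
    obtain ⟨d, hd⟩ := hB
    have h1 := unc_ge_of_dir S hS d
    have h2 := hA d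
    have h3 : adir S d ≤ q := by omega
    have h4 : ((q : ℝ) - adir S d) * adir S d ≤ (unc S).card := by
      have : (((q - adir S d) * adir S d : ℕ) : ℝ) ≤ ((unc S).card : ℝ) := by exact_mod_cast h1
      rw [Nat.cast_mul, Nat.cast_sub h3] at this
      exact this
    have h5 : (adir S d : ℝ) + x₀ ≤ q := by
      have : adir S d + x₀ ≤ q := by omega
      exact_mod_cast this
    refine le_trans ?_ h4
    have h6 : 0 ≤ ((adir S d : ℝ) - r) * (q - r - adir S d) := by
      apply mul_nonneg <;> linarith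
    nlinarith
  push Not at hB
  by_cases hC : ∃ P, q + 2 ≤ mu S P + x₀
  · -- case C
    exfalso
    obtain ⟨P, hP⟩ := hC
    have h1 := card_missing_pt S P
    have h0 : mu S P ≤ S.card := by
      unfold mu
      exact card_filter_le _ _
    have h2 : 0 < (univ.filter (fun d : Option F => (d, pos d P) ∉ S)).card := by omega
    obtain ⟨d, hd⟩ := card_pos.mp h2
    have hd' : (d, pos d P) ∉ S := (mem_filter.mp hd).2
    have hPl : P ∈ pts (d, pos d P) := mem_pts.mpr rfl
    have h3 := card_erase_inter_cov_le S P (d, pos d P) hPl hd'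
    have h4 := hx (d, pos d P)
    have h5 : (pts (d, pos d P) ∩ X).card ≤ ((pts (d, pos d P)).erase P ∩ cov S).card + 1 := by
      have : pts (d, pos d P) ∩ X ⊆ insert P ((pts (d, pos d P)).erase P ∩ cov S) := by
        intro Q hQ
        rw [mem_inter] at hQ
        rw [mem_insert, mem_inter, mem_erase]
        by_cases hQP : Q = P
        · exact Or.inl hQP
        · exact Or.inr ⟨⟨hQP, hQ.1⟩, hXcov hQ.2⟩
      exact (card_le_card this).trans (card_insert_le _ _)
    omega
  push Not at hC
  by_cases hD : ∃ P, r ≤ mu S P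
  · -- case D
    obtain ⟨P, hP⟩ := hD
    have h1 := unc_ge_of_pt S hS P
    have h2 := hC P
    have hmu1 : 1 ≤ mu S P := by
      have : (0 : ℝ) < mu S P := by linarith
      exact_mod_cast this
    have h3 : mu S P ≤ q + 1 := by omega
    have h4 : ((q : ℝ) + 1 - mu S P) * (mu S P - 1) ≤ (unc S).card := by
      have : (((q + 1 - mu S P) * (mu S P - 1) : ℕ) : ℝ) ≤ ((unc S).card : ℝ) := by
        exact_mod_cast h1
      rw [Nat.cast_mul, Nat.cast_sub h3, Nat.cast_sub hmu1] at this
      push_cast at this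
      exact this
    have h5 : (mu S P : ℝ) + x₀ ≤ q + 1 := by
      have : mu S P + x₀ ≤ q + 1 := by omega
      exact_mod_cast this
    refine le_trans ?_ h4
    set u : ℝ := (mu S P : ℝ) with hu
    have h6 : 0 ≤ (u - r) * (q + 1 - r - u + 1) := by
      apply mul_nonneg <;> linarith
    nlinarith
  push Not at hD
  -- case E
  have h1 := sum_mu_mul_eq S
  have h2 : ∑ l ∈ S, (adir S l.1 : ℝ) ≤ q * r := by
    calc ∑ l ∈ S, (adir S l.1 : ℝ) ≤ ∑ l ∈ S, r := Finset.sum_le_sum (fun l _ => (hB l.1).le)
      _ = q * r := by rw [Finset.sum_const, nsmul_eq_mul, hS]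
  have h3 : ∑ P : F × F, (mu S P : ℝ) * (mu S P - 1) ≤ r * (unc S).card := by
    rw [sum_mu_sub_one S hS, Finset.mul_sum]
    have : ∑ P : F × F, (mu S P : ℝ) * (mu S P - 1)
        = ∑ P ∈ cov S, (mu S P : ℝ) * (mu S P - 1) := by
      unfold cov
      rw [Finset.sum_filter]
      apply Finset.sum_congr rfl
      intro P _
      split_ifs with h
      · rfl
      · have : mu S P = 0 := by omega
        simp [this]
    rw [this]
    apply Finset.sum_le_sum
    intro P hP
    have h4 : 0 < mu S P := mem_cov'.mp hP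
    have h5 : (1 : ℝ) ≤ mu S P := by exact_mod_cast h4
    have h6 := (hD P).le
    apply mul_le_mul_of_nonneg_right h6
    linarith
  rw [h1, hS] at h3
  have h7 : r * ((q : ℝ) * r / 4) ≤ r * (unc S).card := by
    refine le_trans ?_ h3
    nlinarith
  exact le_of_mul_le_mul_left h7 (by linarith)


/-! ### Lines with few intersections with a set of lines -/

theorem card_cov_ge (S : Finset (Option F × F)) :
    (S.card : ℝ) * Fintype.card F - (S.card : ℝ) ^ 2 / 2 ≤ (cov S).card := by
  have h1 := sum_mu_cov S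
  have h2 : ∑ P ∈ cov S, ((mu S P : ℝ) - 1) ≤ (S.card : ℝ) ^ 2 / 2 := by
    have h3 : ∑ P ∈ cov S, ((mu S P : ℝ) - 1) ≤ ∑ P ∈ cov S, (mu S P : ℝ) * (mu S P - 1) / 2 := by
      apply Finset.sum_le_sum
      intro P hP
      have h4 : 1 ≤ mu S P := mem_cov'.mp hP
      rcases Nat.lt_or_ge 1 (mu S P) with h | h
      · have h5 : (2 : ℝ) ≤ mu S P := by exact_mod_cast h
        nlinarith
      · have : mu S P = 1 := le_antisymm h h4
        rw [this]
        norm_num
    have h4 : ∑ P ∈ cov S, (mu S P : ℝ) * (mu S P - 1) / 2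
        ≤ ∑ P : F × F, (mu S P : ℝ) * (mu S P - 1) / 2 := by
      apply Finset.sum_le_sum_of_subset_of_nonneg (Finset.subset_univ _)
      intro P _ _
      rcases Nat.eq_zero_or_pos (mu S P) with h | h
      · simp [h]
      · have : (1 : ℝ) ≤ mu S P := by exact_mod_cast h
        have : 0 ≤ (mu S P : ℝ) - 1 := by linarith
        positivity
    have h5 : ∑ P : F × F, (mu S P : ℝ) * (mu S P - 1) / 2
        = (∑ P : F × F, (mu S P : ℝ) * (mu S P - 1)) / 2 := by
      rw [Finset.sum_div]
    have h6 := sum_mu_mul S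
    linarith
  rw [Finset.sum_sub_distrib, h1] at h2
  simp only [Finset.sum_const, nsmul_eq_mul, mul_one] at h2
  linarith

theorem card_cov_le (S : Finset (Option F × F)) :
    ((cov S).card : ℝ) ≤ (S.card : ℝ) * Fintype.card F := by
  rw [← sum_mu_cov S]
  calc ((cov S).card : ℝ) = ∑ P ∈ cov S, (1 : ℝ) := by simp
    _ ≤ _ := by
      apply Finset.sum_le_sum
      intro P hP
      have h4 : 1 ≤ mu S P := mem_cov'.mp hP
      exact_mod_cast h4

theorem card_Lam (S₀ : Finset (Option F × F)) (h : 4 * S₀.card ≤ Fintype.card F)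
    (h0 : 0 < S₀.card) :
    (Lam S₀).card * S₀.card ≤ 4 * (Fintype.card F) ^ 2 := by
  set q : ℝ := (Fintype.card F : ℝ) with hqd
  set s : ℝ := (S₀.card : ℝ) with hsd
  have hqpos : 0 < q := by
    have : 0 < Fintype.card F := Fintype.card_pos
    rw [hqd]
    exact_mod_cast this
  have hspos : 0 < s := by
    rw [hsd]
    exact_mod_cast h0
  have h4 : 4 * s ≤ q := by
    rw [hsd, hqd]
    exact_mod_cast h
  set f : F × F → ℝ := fun P => if P ∈ cov S₀ then 1 else 0 with hf
  have hsum : ∑ P, f P = (cov S₀).card := by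
    rw [hf, Finset.sum_boole, Finset.filter_mem_eq_inter, Finset.univ_inter]
  have hsum2 : ∑ P, f P ^ 2 = (cov S₀).card := by
    rw [← hsum]
    apply Finset.sum_congr rfl
    intro P _
    simp only [hf]
    split_ifs <;> norm_num
  have hline : ∀ l : Option F × F, ∑ P ∈ pts l, f P = ((pts l ∩ cov S₀).card : ℝ) := by
    intro l
    rw [hf, Finset.sum_boole, Finset.filter_mem_eq_inter]
  have hc1 := card_cov_ge S₀
  have hc2 := card_cov_le S₀
  rw [← hqd, ← hsd] at hc1 hc2
  set c : ℝ := ((cov S₀).card : ℝ) with hcd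
  have hc3 : 7 / 8 * s ≤ c / q := by
    rw [le_div_iff₀ hqpos]
    nlinarith
  have h1 : ((Lam S₀).card : ℝ) * (3 / 4 * s) ^ 2 ≤ q * c := by
    calc ((Lam S₀).card : ℝ) * (3 / 4 * s) ^ 2 = ∑ l ∈ Lam S₀, (3 / 4 * s) ^ 2 := by
          rw [Finset.sum_const, nsmul_eq_mul]
      _ ≤ ∑ l ∈ Lam S₀, (∑ P ∈ pts l, f P - (∑ P, f P) / q) ^ 2 := by
          apply Finset.sum_le_sum
          intro l hl
          have hl' : 8 * (pts l ∩ cov S₀).card ≤ S₀.card := (mem_filter.mp hl).2
          have hl2 : 8 * ((pts l ∩ cov S₀).card : ℝ) ≤ s := by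
            rw [hsd]
            exact_mod_cast hl'
          rw [hline, hsum]
          have h5 : 3 / 4 * s ≤ c / q - ((pts l ∩ cov S₀).card : ℝ) := by linarith
          have h6 : (((pts l ∩ cov S₀).card : ℝ) - c / q) ^ 2
              = (c / q - ((pts l ∩ cov S₀).card : ℝ)) ^ 2 := by ring
          rw [h6]
          exact pow_le_pow_left₀ (by positivity) h5 2
      _ ≤ ∑ l : Option F × F, (∑ P ∈ pts l, f P - (∑ P, f P) / q) ^ 2 :=
          Finset.sum_le_sum_of_subset_of_nonneg (Finset.subset_univ _) (fun l _ _ => sq_nonneg _)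
      _ ≤ q * ∑ P, f P ^ 2 := sum_lines_sq f
      _ = q * c := by rw [hsum2]
  have h2 : ((Lam S₀).card : ℝ) * s * s ≤ 4 * q ^ 2 * s := by nlinarith
  have h3 : ((Lam S₀).card : ℝ) * s ≤ 4 * q ^ 2 := le_of_mul_le_mul_right h2 hspos
  rw [hsd, hqd] at h3
  exact_mod_cast h3

/-- if `|S| = q` leaves few points uncovered, most lines of `S` are in `Lam S₀`, `S₀ ⊆ S` -/
theorem card_not_Lam (S S₀ : Finset (Option F × F)) (hS : S.card = Fintype.card F)
    (h₀ : S₀ ⊆ S) (_h0 : 0 < S₀.card) :
    (((S \ S₀).filter (fun l => l ∉ Lam S₀)).card : ℝ) * S₀.card ≤ 16 * (unc S).card := by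
  set T := (S \ S₀).filter (fun l => l ∉ Lam S₀) with hT
  have h1 : ∀ l ∈ T, (S₀.card : ℝ) / 8 ≤ ((pts l ∩ cov S₀).card : ℝ) := by
    intro l hl
    have h2 := (mem_filter.mp hl).2
    unfold Lam at h2
    simp only [mem_filter, mem_univ, true_and, not_le] at h2
    have h3 : (S₀.card : ℝ) < 8 * ((pts l ∩ cov S₀).card : ℝ) := by exact_mod_cast h2
    linarith
  have h2 : (T.card : ℝ) * ((S₀.card : ℝ) / 8) ≤ ∑ l ∈ T, ((pts l ∩ cov S₀).card : ℝ) := by
    rw [← nsmul_eq_mul, ← Finset.sum_const]
    exact Finset.sum_le_sum h1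
  have h3 : ∑ l ∈ T, ((pts l ∩ cov S₀).card : ℝ) = ∑ P ∈ cov S₀, (mu T P : ℝ) := by
    simp_rw [mu_eq_sum]
    rw [Finset.sum_comm]
    apply Finset.sum_congr rfl
    intro l _
    rw [← Finset.sum_filter, Finset.sum_const, nsmul_eq_mul, mul_one]
    congr 2
    ext P
    rw [mem_inter, mem_filter, mem_pts]
    tauto
  have h4 : ∀ P ∈ cov S₀, (mu T P : ℝ) ≤ 2 * ((mu S P : ℝ) - 1) := by
    intro P hP
    have h5 : 0 < mu S₀ P := mem_cov'.mp hP
    have h6 : mu T P + mu S₀ P ≤ mu S P := by
      unfold mu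
      rw [← Finset.card_union_of_disjoint]
      · apply card_le_card
        intro l hl
        rw [mem_filter]
        rcases mem_union.mp hl with hl | hl
        · obtain ⟨h7, h8⟩ := mem_filter.mp hl
          exact ⟨(mem_sdiff.mp (mem_filter.mp h7).1).1, h8⟩
        · obtain ⟨h7, h8⟩ := mem_filter.mp hl
          exact ⟨h₀ h7, h8⟩
      · rw [Finset.disjoint_left]
        intro l hl hl'
        have h7 := (mem_sdiff.mp (mem_filter.mp (mem_filter.mp hl).1).1).2
        exact h7 (mem_filter.mp hl').1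
    have h7 : mu T P + 1 ≤ mu S P := by omega
    have h8 : (mu T P : ℝ) + 1 ≤ mu S P := by exact_mod_cast h7
    have h9 : (0 : ℝ) ≤ mu T P := Nat.cast_nonneg _
    linarith
  have h5 : cov S₀ ⊆ cov S := by
    intro P hP
    rw [mem_cov] at hP ⊢
    obtain ⟨l, hl, hl'⟩ := hP
    exact ⟨l, h₀ hl, hl'⟩
  have h6 : ∑ P ∈ cov S₀, (mu T P : ℝ) ≤ 2 * (unc S).card := by
    rw [sum_mu_sub_one S hS, Finset.mul_sum]
    refine (Finset.sum_le_sum h4).trans ?_
    apply Finset.sum_le_sum_of_subset_of_nonneg h5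
    intro P hP _
    have : 1 ≤ mu S P := mem_cov'.mp hP
    have : (1 : ℝ) ≤ mu S P := by exact_mod_cast this
    linarith
  rw [← h3] at h6
  linarith

end G

end Crest.Agent.H3Ry
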