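import Crest.Agent.H3RyAsy
import Crest.Agent.H28RyGeo

/-! # Counting lemmas for the union bounds -/

set_option autoImplicit false
set_option linter.unusedSectionVars false

namespace Crest.Agent.H3RyDet
open Finset Crest.Agent.H3Ry

/-- number of small sets -/
theorem card_small_sets {α : Type*} [Fintype α] [DecidableEq α] (k : ℕ) :
    (univ.filter (fun E : Finset α => E.card ≤ k)).card ≤ (Fintype.card α + 1) ^ k := by
  classical
  have h1 : univ.filter (fun E : Finset α => E.card ≤ k) ⊆
      (univ : Finset (Fin k → Option α)).image (fun f => univ.filter (fun a => ∃ i, f i = some a)) := by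
    intro E hE
    rw [mem_filter] at hE
    rw [mem_image]
    let e := E.equivFin
    refine ⟨fun i => if h : i.val < E.card then some (e.symm ⟨i.val, h⟩ : α) else none,
      mem_univ _, ?_⟩
    ext a
    rw [mem_filter]
    constructor
    · rintro ⟨-, i, hi⟩
      beta_reduce at hi
      split_ifs at hi with h
      rw [Option.some_inj] at hi
      rw [← hi]
      exact (e.symm ⟨i.val, h⟩).2
    · intro ha
      refine ⟨mem_univ _, ⟨(e ⟨a, ha⟩).val, lt_of_lt_of_le (e ⟨a, ha⟩).2 hE.2⟩, ?_⟩
      beta_reduce
      rw [dif_pos (e ⟨a, ha⟩).2]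
      simp
  refine (card_le_card h1).trans (card_image_le.trans ?_)
  rw [card_univ, Fintype.card_fun, Fintype.card_option, Fintype.card_fin]

section
variable {F : Type} [Field F] [Fintype F] [DecidableEq F]

/-- the number of `q`-sets of lines leaving few points uncovered -/
theorem card_few_unc (s₀ e₀ L₀ : ℕ) (hs₀ : 0 < s₀) (h4 : 4 * s₀ ≤ Fintype.card F)
    (u : ℝ) (he₀ : 16 * u < (e₀ + 1) * s₀) (hL₀ : 4 * (Fintype.card F) ^ 2 < (L₀ + 1) * s₀) :
    (univ.filter (fun S : Finset (Option F × F) => S.card = Fintype.card F ∧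
      ((unc S).card : ℝ) ≤ u)).card ≤
      (Fintype.card (Option F × F) + 1) ^ s₀ * (2 ^ L₀ *
        (Fintype.card (Option F × F) + 1) ^ e₀) := by
  classical
  set n := Fintype.card (Option F × F) + 1 with hn
  let A₀ : Finset (Finset (Option F × F)) := univ.filter (fun E => E.card = s₀)
  let E₁ : Finset (Finset (Option F × F)) := univ.filter (fun E => E.card ≤ e₀)
  have hsub : univ.filter (fun S : Finset (Option F × F) => S.card = Fintype.card F ∧
      ((unc S).card : ℝ) ≤ u) ⊆
      A₀.biUnion (fun S₀ => ((Lam S₀).powerset ×ˢ E₁).image (fun p => S₀ ∪ (p.1 ∪ p.2))) := by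
    intro S hS
    rw [mem_filter] at hS
    obtain ⟨S₀, hS₀, hS₀c⟩ := exists_subset_card_eq (s := S) (n := s₀) (by omega)
    rw [mem_biUnion]
    refine ⟨S₀, by simp only [A₀, mem_filter, mem_univ, true_and]; exact hS₀c, ?_⟩
    rw [mem_image]
    refine ⟨((S \ S₀).filter (fun l => l ∈ Lam S₀), (S \ S₀).filter (fun l => l ∉ Lam S₀)), ?_, ?_⟩
    · rw [mem_product]
      refine ⟨?_, ?_⟩
      · rw [mem_powerset]
        intro l hl
        exact (mem_filter.1 hl).2
      · simp only [E₁, mem_filter, mem_univ, true_and]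
        have h1 := card_not_Lam S S₀ hS.2.1 hS₀ (by omega)
        rw [hS₀c] at h1
        by_contra hcon
        push Not at hcon
        have h2 : ((e₀ : ℝ) + 1) ≤ (((S \ S₀).filter (fun l => l ∉ Lam S₀)).card : ℝ) := by
          exact_mod_cast hcon
        have h3 : ((e₀ : ℝ) + 1) * s₀ ≤ (((S \ S₀).filter (fun l => l ∉ Lam S₀)).card : ℝ) * s₀ := by
          gcongr
        linarith [hS.2.2]
    · simp only
      rw [filter_union_filter_not_eq]
      exact union_sdiff_of_subset hS₀
  refine (card_le_card hsub).trans ?_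
  refine (card_biUnion_le_card_mul A₀ _ (2 ^ L₀ * n ^ e₀) ?_).trans ?_
  · intro S₀ hS₀
    simp only [A₀, mem_filter, mem_univ, true_and] at hS₀
    refine card_image_le.trans ?_
    rw [card_product, card_powerset]
    have h1 : (Lam S₀).card ≤ L₀ := by
      have h2 := card_Lam S₀ (by rw [hS₀]; exact h4) (by omega)
      rw [hS₀] at h2
      by_contra hcon
      push Not at hcon
      have h3 : (L₀ + 1) * s₀ ≤ (Lam S₀).card * s₀ := Nat.mul_le_mul_right _ hcon
      omega
    have h2 := card_small_sets (α := Option F × F) e₀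
    have h3 : 2 ^ (Lam S₀).card ≤ 2 ^ L₀ := Nat.pow_le_pow_right (by norm_num) h1
    exact Nat.mul_le_mul h3 h2
  · apply Nat.mul_le_mul_right
    refine le_trans (card_le_card ?_) (card_small_sets s₀)
    intro E hE
    simp only [A₀, mem_filter, mem_univ, true_and] at hE ⊢
    exact hE.le

end

end Crest.Agent.H3RyDet
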