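import Crest.Agent.H23RyKill
import Crest.Agent.H3RyCnt

/-!
# Ryser project (S0045, S0046): `event_Y`
-/

set_option autoImplicit false
set_option linter.unusedSectionVars false

namespace Crest.Agent.H20Ry
open Finset Crest.Agent.H3Ry Crest.Agent.H23RyProb

section
variable {F : Type} [Field F] [Fintype F] [DecidableEq F] {N : ℕ}

/-- the coordinates `wl ρ t`, `t ∉ M`, and `wl' ρ t`, `t ∈ V` -/
def JJ (Y : Sys F N) (ρ : Fin N → Bool) (M V : Finset (Option F)) : Finset (Option F × Bool) :=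
  univ.filter (fun κ => (κ = Y.wl ρ κ.1 ∧ κ.1 ∉ M) ∨ (κ = Y.wl' ρ κ.1 ∧ κ.1 ∈ V))

theorem wl_ne_wl' (Y : Sys F N) (ρ : Fin N → Bool) (t : Option F) : Y.wl ρ t ≠ Y.wl' ρ t := by
  intro h
  have := congrArg Prod.snd h
  simp [Sys.wl, Sys.wl'] at this

theorem eq_wl_or (Y : Sys F N) (ρ : Fin N → Bool) (κ : Option F × Bool) :
    κ = Y.wl ρ κ.1 ∨ κ = Y.wl' ρ κ.1 := by
  obtain ⟨t, v⟩ := κ
  simp only [Sys.wl, Sys.wl', Prod.mk.injEq, true_and]
  cases v <;> cases ρ (Y.grp t) <;> simp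

theorem wl_mem_JJ (Y : Sys F N) (ρ : Fin N → Bool) (M V : Finset (Option F)) (t : Option F) :
    Y.wl ρ t ∈ JJ Y ρ M V ↔ t ∉ M := by
  have h1 : (Y.wl ρ t).1 = t := rfl
  simp only [JJ, mem_filter, mem_univ, true_and, h1]
  constructor
  · rintro (h | h)
    · exact h
    · exact absurd h.1 (wl_ne_wl' Y ρ t)
  · intro h
    exact Or.inl h

theorem wl'_mem_JJ (Y : Sys F N) (ρ : Fin N → Bool) (M V : Finset (Option F)) (t : Option F) :
    Y.wl' ρ t ∈ JJ Y ρ M V ↔ t ∈ V := by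
  have h1 : (Y.wl' ρ t).1 = t := rfl
  simp only [JJ, mem_filter, mem_univ, true_and, h1]
  constructor
  · rintro (h | h)
    · exact absurd h.1.symm (wl_ne_wl' Y ρ t)
    · exact h
  · intro h
    exact Or.inr h

theorem card_JJ (Y : Sys F N) (ρ : Fin N → Bool) (M V : Finset (Option F)) :
    (JJ Y ρ M V).card + M.card = Fintype.card F + 1 + V.card := by
  classical
  have h1 : JJ Y ρ M V = (univ \ M).image (Y.wl ρ) ∪ V.image (Y.wl' ρ) := by
    ext κ
    rw [mem_union, mem_image, mem_image]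
    constructor
    · intro h
      rcases eq_wl_or Y ρ κ with h1 | h1
      · rw [h1, wl_mem_JJ] at h
        exact Or.inl ⟨κ.1, by simp [h], h1.symm⟩
      · rw [h1, wl'_mem_JJ] at h
        exact Or.inr ⟨κ.1, h, h1.symm⟩
    · rintro (⟨t, ht, rfl⟩ | ⟨t, ht, rfl⟩)
      · rw [wl_mem_JJ]
        simpa using ht
      · rw [wl'_mem_JJ]
        exact ht
  have h2 : Disjoint ((univ \ M).image (Y.wl ρ)) (V.image (Y.wl' ρ)) := by
    rw [disjoint_left]
    intro κ h3 h4
    rw [mem_image] at h3 h4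
    obtain ⟨t, -, rfl⟩ := h3
    obtain ⟨t', -, h5⟩ := h4
    have h6 : t' = t := congrArg Prod.fst h5
    subst h6
    exact wl_ne_wl' Y ρ t' h5.symm
  rw [h1, card_union_of_disjoint h2, card_image_of_injective, card_image_of_injective]
  · have h3 : (univ \ M).card + M.card = Fintype.card F + 1 := by
      rw [card_sdiff_add_card_eq_card (subset_univ M), card_univ, Fintype.card_option]
    omega
  · intro t t' h
    exact congrArg Prod.fst h
  · intro t t' h
    exact congrArg Prod.fst h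

/-- the basic event -/
def Ev (Y : Sys F N) (ρ : Fin N → Bool) (M V : Finset (Option F)) (G : Finset (Option F × F))
    (ω : Option F × Bool → F) : Prop :=
  (∀ P, (hs ω P).card ≤ N) ∧ (∀ d, ω (d, false) ≠ ω (d, true)) ∧
    (G ∪ (JJ Y ρ M V).image (sl ω)).card = Fintype.card F ∧
    ∀ P ∈ unc (G ∪ (JJ Y ρ M V).image (sl ω)), ¬ Y.DR (hs ω P)

/-- deterministic decomposition -/
theorem decomp (Y : Sys F N) (ρ : Fin N → Bool) (ω : Option F × Bool → F)
    (hd : ∀ d, ω (d, false) ≠ ω (d, true)) (S : Finset (Option F × F))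
    (hS : S.card = Fintype.card F) (M V : Finset (Option F))
    (hM : M = univ.filter (fun t => sl ω (Y.wl ρ t) ∉ S))
    (hV : V = univ.filter (fun t => sl ω (Y.wl' ρ t) ∈ S)) :
    ∃ G : Finset (Option F × F), S = G ∪ (JJ Y ρ M V).image (sl ω) ∧
      G.card + 1 + V.card = M.card := by
  classical
  have hsub : (JJ Y ρ M V).image (sl ω) ⊆ S := by
    intro l hl
    rw [mem_image] at hl
    obtain ⟨κ, hκ, rfl⟩ := hl
    rcases eq_wl_or Y ρ κ with h1 | h1
    · rw [h1, wl_mem_JJ, hM] at hκ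
      rw [h1]
      simpa using hκ
    · rw [h1, wl'_mem_JJ, hV] at hκ
      rw [h1]
      simpa using hκ
  have hinj : Function.Injective (sl ω) := by
    rintro ⟨d, v⟩ ⟨d', v'⟩ h
    simp only [sl, Prod.mk.injEq] at h
    obtain ⟨h1, h2⟩ := h
    subst h1
    have := hd d
    cases v <;> cases v' <;> simp_all
  refine ⟨S \ (JJ Y ρ M V).image (sl ω), ?_, ?_⟩
  · rw [sdiff_union_of_subset hsub]
  · have h1 := card_sdiff_add_card_eq_card hsub
    rw [card_image_of_injective _ hinj, hS] at h1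
    have h2 := card_JJ Y ρ M V
    omega

theorem DR_mono (Y : Sys F N) {H H' : Finset (Option F × Bool)} (h : H ⊆ H') (hD : Y.DR H) :
    Y.DR H' := by
  obtain ⟨d₁, d₂, e₁, e₂, h1, h2, h3, h4, h5, h6, h7, h8⟩ := hD
  exact ⟨d₁, d₂, e₁, e₂, h1, h2, h h3, h h4, h h5, h h6, h7, h8⟩

theorem image_sl_merge (J : Finset (Option F × Bool)) (a b : Option F × Bool → F) :
    J.image (sl (merge J a b)) = J.image (sl a) := by
  refine image_congr ?_
  intro κ hκ
  simp only [sl, merge]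
  rw [if_pos (by simpa using hκ)]

theorem hs_merge_sdiff (J : Finset (Option F × Bool)) (a b : Option F × Bool → F) (P : F × F) :
    hs (merge J a b) P \ J = hs b P \ J := by
  ext κ
  simp only [hs, mem_sdiff, mem_filter, mem_univ, true_and]
  refine and_congr_left (fun h => ?_)
  have h1 : merge J a b κ = b κ := by
    unfold merge
    rw [if_neg h]
  rw [h1]

theorem card_av_rho (Y : Sys F N) (ρ : Fin N → Bool) (M V : Finset (Option F)) (j : Fin N) :
    Y.av (JJ Y ρ M V) j (ρ j) = univ.filter (fun t => Y.grp t = j ∧ t ∈ M) := by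
  ext t
  simp only [Sys.av, Sys.B, mem_filter, mem_univ, true_and]
  constructor
  · rintro ⟨h1, h2⟩
    have h3 : (t, ρ j) = Y.wl ρ t := by rw [Sys.wl, h1]
    rw [h3, wl_mem_JJ, not_not] at h2
    exact ⟨h1, h2⟩
  · rintro ⟨h1, h2⟩
    have h3 : (t, ρ j) = Y.wl ρ t := by rw [Sys.wl, h1]
    rw [h3, wl_mem_JJ, not_not]
    exact ⟨h1, h2⟩

theorem card_av_not_rho (Y : Sys F N) (ρ : Fin N → Bool) (M V : Finset (Option F)) (j : Fin N) :
    Y.av (JJ Y ρ M V) j (!ρ j) = univ.filter (fun t => Y.grp t = j ∧ t ∉ V) := by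
  ext t
  simp only [Sys.av, Sys.B, mem_filter, mem_univ, true_and]
  constructor
  · rintro ⟨h1, h2⟩
    have h3 : (t, !ρ j) = Y.wl' ρ t := by rw [Sys.wl', h1]
    rw [h3, wl'_mem_JJ] at h2
    exact ⟨h1, h2⟩
  · rintro ⟨h1, h2⟩
    have h3 : (t, !ρ j) = Y.wl' ρ t := by rw [Sys.wl', h1]
    rw [h3, wl'_mem_JJ]
    exact ⟨h1, h2⟩

/-- the number of missing directions in group `j` -/
def mj (Y : Sys F N) (M : Finset (Option F)) (j : Fin N) : ℕ :=
  (univ.filter (fun t => Y.grp t = j ∧ t ∈ M)).card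

theorem sum_mj (Y : Sys F N) (M : Finset (Option F)) : ∑ j, mj Y M j = M.card := by
  classical
  rw [card_eq_sum_card_fiberwise (f := Y.grp) (t := univ) (fun x _ => mem_univ _)]
  refine sum_congr rfl (fun j _ => ?_)
  unfold mj
  congr 1
  ext t
  simp [and_comm]

theorem card_av_ge (Y : Sys F N) (ρ : Fin N → Bool) (M V : Finset (Option F))
    (hmaj : ∀ j, (univ.filter (fun t => Y.grp t = j ∧ t ∈ V)).card ≤
      (univ.filter (fun t => Y.grp t = j ∧ t ∉ M)).card) (j : Fin N) :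
    mj Y M j ≤ (Y.av (JJ Y ρ M V) j (!ρ j)).card := by
  classical
  rw [card_av_not_rho]
  unfold mj
  have h1 : (univ.filter (fun t => Y.grp t = j ∧ t ∈ V)).card +
      (univ.filter (fun t => Y.grp t = j ∧ t ∉ V)).card = (univ.filter (fun t => Y.grp t = j)).card := by
    rw [← filter_filter, ← filter_filter]
    exact card_filter_add_card_filter_not _
  have h2 : (univ.filter (fun t => Y.grp t = j ∧ t ∈ M)).card +
      (univ.filter (fun t => Y.grp t = j ∧ t ∉ M)).card = (univ.filter (fun t => Y.grp t = j)).card := by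
    rw [← filter_filter, ← filter_filter]
    exact card_filter_add_card_filter_not _
  have := hmaj j
  omega

theorem card_av_v (Y : Sys F N) (ρ : Fin N → Bool) (M V : Finset (Option F))
    (hmaj : ∀ j, (univ.filter (fun t => Y.grp t = j ∧ t ∈ V)).card ≤
      (univ.filter (fun t => Y.grp t = j ∧ t ∉ M)).card) (j : Fin N) (v : Bool) :
    mj Y M j ≤ (Y.av (JJ Y ρ M V) j v).card := by
  by_cases h : v = ρ j
  · rw [h, card_av_rho]; exact le_rfl
  · have : v = !ρ j := by
      cases v <;> cases hj : ρ j <;> simp_all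
    rw [this]
    exact card_av_ge Y ρ M V hmaj j

theorem min_av (Y : Sys F N) (ρ : Fin N → Bool) (M V : Finset (Option F))
    (hmaj : ∀ j, (univ.filter (fun t => Y.grp t = j ∧ t ∈ V)).card ≤
      (univ.filter (fun t => Y.grp t = j ∧ t ∉ M)).card) (j : Fin N) :
    min (Y.av (JJ Y ρ M V) j false).card (Y.av (JJ Y ρ M V) j true).card = mj Y M j := by
  have h1 := card_av_ge Y ρ M V hmaj j
  have h2 : (Y.av (JJ Y ρ M V) j (ρ j)).card = mj Y M j := by rw [card_av_rho]; rfl
  cases hj : ρ j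
  · rw [hj] at h1 h2
    simp only [Bool.not_false] at h1
    rw [h2]
    exact min_eq_left h1
  · rw [hj] at h1 h2
    simp only [Bool.not_true] at h1
    rw [h2]
    exact min_eq_right h1

end

/-- Y1 : many uncovered points -/
theorem Y1 {F : Type} [Field F] [Fintype F] [DecidableEq F] {N : ℕ} (hN : 0 < N)
    (ω : Option F × Bool → F) (hload : ∀ P, (hs ω P).card ≤ N)
    (hd : ∀ d, ω (d, false) ≠ ω (d, true)) (S : Finset (Option F × F))
    (hS : S.card = Fintype.card F) (J : Finset (Option F × Bool)) (hJ : ∀ κ ∈ J, sl ω κ ∈ S)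
    (ε : ℝ) (hε : 0 < ε) (hε1 : ε ≤ 1) (hJc : ε * Fintype.card F ≤ J.card)
    (hq : 100 / ε ^ 2 ≤ (Fintype.card F : ℝ)) :
    ε ^ 2 * (Fintype.card F : ℝ) ^ 2 / (4 * N) ≤ (unc S).card := by
  classical
  have hinj : Function.Injective (sl ω) := by
    rintro ⟨d, v⟩ ⟨d', v'⟩ h
    simp only [sl, Prod.mk.injEq] at h
    obtain ⟨h1, h2⟩ := h
    subst h1
    have := hd d
    cases v <;> cases v' <;> simp_all
  obtain ⟨S', hS'⟩ : ∃ S', S' = J.image (sl ω) := ⟨_, rfl⟩
  have hS'c : S'.card = J.card := by rw [hS', card_image_of_injective _ hinj]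
  have hsub : S' ⊆ S := by
    rw [hS']
    intro l hl
    rw [mem_image] at hl
    obtain ⟨κ, hκ, rfl⟩ := hl
    exact hJ κ hκ
  have hmu1 : ∀ P, mu S' P ≤ N := by
    intro P
    refine le_trans ?_ (hload P)
    have h1 : S'.filter (fun l => pos l.1 P = l.2) ⊆ (hs ω P).image (sl ω) := by
      intro l hl
      rw [mem_filter, hS', mem_image] at hl
      obtain ⟨⟨κ, hκ, rfl⟩, h2⟩ := hl
      rw [mem_image]
      refine ⟨κ, ?_, rfl⟩
      simp only [hs, mem_filter, mem_univ, true_and]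
      exact h2.symm
    exact (card_le_card h1).trans card_image_le
  have hmu2 : ∀ P, mu S' P ≤ mu S P := by
    intro P
    exact card_le_card (filter_subset_filter _ hsub)
  have hadir : ∀ l ∈ S', (Crest.Agent.H3Ry.adir S' l.1 : ℝ) ≤ 2 := by
    intro l hl
    have h1 : S'.filter (fun l' => l'.1 = l.1) ⊆ (univ : Finset Bool).image (fun v => sl ω (l.1, v)) := by
      intro l' hl'
      rw [mem_filter, hS', mem_image] at hl'
      obtain ⟨⟨κ, hκ, rfl⟩, h2⟩ := hl'
      rw [mem_image]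
      refine ⟨κ.2, mem_univ _, ?_⟩
      rw [← h2]
      rfl
    have h2 := (card_le_card h1).trans card_image_le
    rw [card_univ, Fintype.card_bool] at h2
    exact_mod_cast h2
  have h1 := Crest.Agent.H3Ry.sum_mu_mul_eq S'
  have h2 : ∑ l ∈ S', (Crest.Agent.H3Ry.adir S' l.1 : ℝ) ≤ 2 * S'.card := by
    refine (sum_le_sum hadir).trans ?_
    rw [sum_const, nsmul_eq_mul]
    linarith
  have h3 : ((unc S).card : ℝ) = _ := Crest.Agent.H3Ry.sum_mu_sub_one S hS
  have h4 : ∑ P : F × F, (mu S' P : ℝ) * (mu S' P - 1) ≤ N * ∑ P ∈ cov S, ((mu S P : ℝ) - 1) := by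
    rw [mul_sum]
    have h5 : ∑ P ∈ cov S, (N : ℝ) * ((mu S P : ℝ) - 1) =
        ∑ P : F × F, if P ∈ cov S then (N : ℝ) * ((mu S P : ℝ) - 1) else 0 := by
      rw [← sum_filter]
      congr 1
      ext P; simp
    rw [h5]
    refine sum_le_sum (fun P _ => ?_)
    have e1 := hmu1 P
    have e2 := hmu2 P
    have e1' : (mu S' P : ℝ) ≤ N := by exact_mod_cast e1
    have e2' : (mu S' P : ℝ) ≤ mu S P := by exact_mod_cast e2
    split_ifs with hP
    · have e3 : 0 < mu S P := by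
        simpa [cov] using hP
      have e3' : (1 : ℝ) ≤ mu S P := by exact_mod_cast e3
      have hN0 : (0 : ℝ) ≤ N := Nat.cast_nonneg _
      rcases Nat.eq_zero_or_pos (mu S' P) with e4 | e4
      · rw [e4]
        push_cast
        have : 0 ≤ (N : ℝ) * ((mu S P : ℝ) - 1) := mul_nonneg hN0 (by linarith)
        linarith
      · have e4' : (1 : ℝ) ≤ mu S' P := by exact_mod_cast e4
        apply mul_le_mul e1' (by linarith) (by linarith) hN0
    · have e3 : mu S P = 0 := by
        by_contra hne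
        exact hP (by simp only [cov, mem_filter, mem_univ, true_and]; omega)
      have e4 : mu S' P = 0 := by omega
      rw [e4]
      simp
  rw [← h3] at h4
  have hN0 : (0 : ℝ) < N := by exact_mod_cast hN
  have h6 : (J.card : ℝ) ^ 2 - 2 * J.card ≤ N * (unc S).card := by
    rw [← hS'c]
    linarith
  rw [div_le_iff₀ (by positivity)]
  have h7 : 100 ≤ ε * Fintype.card F := by
    rw [div_le_iff₀ (by positivity)] at hq
    have : (0 : ℝ) < Fintype.card F := by exact_mod_cast Fintype.card_pos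
    nlinarith
  have h8 : (100 : ℝ) ≤ J.card := h7.trans hJc
  have h9 : ε ^ 2 * (Fintype.card F : ℝ) ^ 2 ≤ (J.card : ℝ) ^ 2 := by
    rw [← mul_pow]
    exact pow_le_pow_left₀ (by linarith) hJc 2
  nlinarith

theorem Ev_num {ε c' C m m' n q lq ln le lt : ℝ} (hε : 0 < ε) (hε1 : ε ≤ 1 / 2) (hc : 0 < c')
    (hC : 0 < C) (hm0 : 0 ≤ m) (hm'0 : 0 ≤ m') (hm1 : m' ≤ m) (hm2 : m - q / n ^ 2 ≤ m')
    (hlT : lq - ln - le ≤ lt) (hlq0 : 0 ≤ lq) (hlogNq : lq ≤ n) (hlogN : 0 ≤ ln) (hl4 : 0 ≤ le)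
    (hN0 : 0 < n) (hcm : c' * q / n ≤ m) :
    -(1 - ε / 4) * m' * lt + C * (m' * ln + q / n) ≤ -(1 - ε / 4) * m * lq +
      (1 + le + 1 / c' + C + C / c') * m * (1 + ln) := by
  have e1 : q / n ≤ m / c' := by
    rw [div_le_div_iff₀ hN0 hc]
    rw [div_le_iff₀ hN0] at hcm
    linarith
  have e2 : (m - m') * (lq - ln - le) ≤ m / c' := by
    calc (m - m') * (lq - ln - le) ≤ (m - m') * lq := by
          apply mul_le_mul_of_nonneg_left _ (by linarith)
          linarith
      _ ≤ (q / n ^ 2) * n := by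
          apply mul_le_mul (by linarith) hlogNq hlq0 (by linarith)
      _ = q / n := by field_simp
      _ ≤ m / c' := e1
  have e3 : (m' : ℝ) * (lq - ln - le) ≤ m' * lt := mul_le_mul_of_nonneg_left hlT hm'0
  have e4 : m * lq - (m * (ln + le) + m / c') ≤ m' * lt := by
    have : m * lq - m * (ln + le) = (m - m') * (lq - ln - le) + m' * (lq - ln - le) := by ring
    linarith
  have e5 : (1 - ε / 4) * (m * lq - (m * (ln + le) + m / c')) ≤ (1 - ε / 4) * (m' * lt) :=
    mul_le_mul_of_nonneg_left e4 (by linarith)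
  have e6 : 0 ≤ m * (ln + le) + m / c' := by positivity
  have e7 : C * (m' * ln + q / n) ≤ C * (m * ln + m / c') := by
    apply mul_le_mul_of_nonneg_left _ hC.le
    have : (m' : ℝ) * ln ≤ m * ln := mul_le_mul_of_nonneg_right hm1 hlogN
    linarith
  have e8 : -(1 - ε / 4) * m' * lt + C * (m' * ln + q / n) ≤
      -(1 - ε / 4) * m * lq + (m * (ln + le) + m / c') + C * (m * ln + m / c') := by
    have e81 : 0 ≤ ε / 4 * (m * (ln + le) + m / c') := by positivity
    have e82 : -(1 - ε / 4) * m' * lt = - ((1 - ε / 4) * (m' * lt)) := by ring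
    have e83 : -(1 - ε / 4) * m * lq + (m * (ln + le) + m / c') =
      -((1 - ε / 4) * (m * lq - (m * (ln + le) + m / c'))) + ε / 4 * (m * (ln + le) + m / c') := by
      ring
    rw [e82, e83]
    linarith
  refine e8.trans ?_
  have e9 : (1 + le + 1 / c' + C + C / c') * m * (1 + ln) =
      m * (ln + le) + m / c' + C * (m * ln + m / c') + (m + m * (le * ln) + m / c' * ln + C * m
        + C * (m / c') * ln) := by
    field_simp
    ring
  rw [e9]
  have e10 : 0 ≤ m + m * (le * ln) + m / c' * ln + C * m + C * (m / c') * ln := by positivity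
  linarith

theorem Ev_prob (ε c' : ℝ) (hε : 0 < ε) (hε1 : ε ≤ 1 / 2) (hc : 0 < c') :
    ∃ (C₁ : ℝ) (q₀ : ℕ), 0 < C₁ ∧
    ∀ (F : Type) [Field F] [Fintype F] [DecidableEq F], q₀ ≤ Fintype.card F →
    ∀ (N : ℕ), N = NN (Fintype.card F) → ∀ (Y : Sys F N), Y.Ok →
    ∀ (ρ : Fin N → Bool) (M V : Finset (Option F)) (G : Finset (Option F × F)),
      (∀ j, (univ.filter (fun t => Y.grp t = j ∧ t ∈ V)).card ≤
        (univ.filter (fun t => Y.grp t = j ∧ t ∉ M)).card) →
      c' * Fintype.card F / N ≤ (M.card : ℝ) → ε * M.card ≤ V.card →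
      PP (Ev Y ρ M V G) ≤ Real.exp (-(1 - ε / 4) * M.card * Real.log (Fintype.card F)
        + C₁ * M.card * (1 + Real.log N)) := by
  classical
  obtain ⟨C, q₁, hC, hK2⟩ := Crest.Agent.H23RyKill.K2 (ε / 4) (by linarith) (by linarith)
  obtain ⟨q₂, hq₂⟩ := NN_pow_le 1 (4 / ε ^ 2) (0.6 : ℝ) (by norm_num)
  obtain ⟨q₃, hq₃⟩ := le_q (100 / ε ^ 2)
  have hl4 : 0 ≤ Real.log (4 / ε ^ 2) := by
    apply Real.log_nonneg
    rw [le_div_iff₀ (by positivity)]
    nlinarith
  refine ⟨1 + Real.log (4 / ε ^ 2) + 1 / c' + C + C / c', max q₁ (max q₂ q₃), by positivity, ?_⟩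
  intro F _ _ _ hqF N hN Y hY ρ M V G hmaj hcm hεm
  have hqF1 : q₁ ≤ Fintype.card F := le_trans (le_max_left _ _) hqF
  have hqF2 : q₂ ≤ Fintype.card F := le_trans (le_trans (le_max_left _ _) (le_max_right _ _)) hqF
  have hqF3 : q₃ ≤ Fintype.card F := le_trans (le_trans (le_max_right _ _) (le_max_right _ _)) hqF
  have hN20 : 20 ≤ N := by rw [hN]; exact twenty_le_NN _
  have hNr : (20 : ℝ) ≤ N := by exact_mod_cast hN20
  have hlogNq : Real.log (Fintype.card F) ≤ (N : ℝ) := by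
    rw [hN]; exact log_le_NN Fintype.card_pos
  have h2 := hq₂ _ hqF2
  have h3 := hq₃ _ hqF3
  rw [← hN, pow_one] at h2
  have hlogN : 0 ≤ Real.log N := Real.log_nonneg (by linarith)
  have hq1 : (1 : ℝ) ≤ Fintype.card F := by exact_mod_cast Fintype.card_pos (α := F)
  have hq0 : (0 : ℝ) < Fintype.card F := by linarith
  -- freeze the coordinates in `JJ`
  refine PP_le_of_merge (JJ Y ρ M V) _ _ (fun a => ?_)
  by_cases hne : ∃ b, Ev Y ρ M V G (merge (JJ Y ρ M V) a b)
  swap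
  · push Not at hne
    have : PP (fun b => Ev Y ρ M V G (merge (JJ Y ρ M V) a b)) ≤ PP (fun _ => False) :=
      PP_mono (fun b hb => hne b hb)
    rw [PP_false] at this
    exact this.trans (Real.exp_pos _).le
  obtain ⟨b₀, hb₀⟩ := hne
  set J := JJ Y ρ M V with hJdef
  -- the set of uncovered points
  obtain ⟨T, hT⟩ : ∃ T, T = unc (G ∪ J.image (sl a)) := ⟨_, rfl⟩
  have hJcard := card_JJ Y ρ M V
  rw [← hJdef] at hJcard
  have hJc : ε * Fintype.card F ≤ J.card := by
    have h1 : ((J.card : ℕ) : ℝ) + M.card = Fintype.card F + 1 + V.card := by exact_mod_cast hJcard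
    have h4 : ((M.card : ℕ) : ℝ) ≤ Fintype.card F + 1 := by
      have : M.card ≤ Fintype.card (Option F) := card_le_univ M
      rw [Fintype.card_option] at this
      exact_mod_cast this
    nlinarith
  have hTc : ε ^ 2 * (Fintype.card F : ℝ) ^ 2 / (4 * N) ≤ T.card := by
    have h1 := Y1 (by omega : 0 < N) (merge J a b₀) hb₀.1 hb₀.2.1
      (G ∪ J.image (sl (merge J a b₀))) hb₀.2.2.1 J (fun κ hκ =>
        mem_union_right _ (mem_image_of_mem _ hκ)) ε hε (by linarith) hJc h3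
    rw [image_sl_merge] at h1
    rw [hT]
    exact h1
  have hmono : PP (fun b => Ev Y ρ M V G (merge J a b)) ≤
      PP (fun b : Option F × Bool → F => (∀ P, (hs b P \ J).card ≤ N) ∧
        ∀ P ∈ T, ¬ Y.DR (hs b P \ J)) := by
    refine PP_mono (fun b hb => ⟨fun P => ?_, fun P hP hD => ?_⟩)
    · rw [← hs_merge_sdiff J a b P]
      exact (card_le_card sdiff_subset).trans (hb.1 P)
    · have h1 := hb.2.2.2 P (by
        rw [← hJdef, image_sl_merge, ← hT]; exact hP)
      apply h1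
      rw [← hs_merge_sdiff J a b P] at hD
      exact DR_mono Y sdiff_subset hD
  refine hmono.trans ?_
  -- apply K2
  obtain ⟨K, hK⟩ : ∃ K : Finset (Fin N), K = univ.filter (fun j =>
    (Fintype.card F : ℝ) / (N : ℝ) ^ 3 ≤ (mj Y M j : ℝ)) := ⟨_, rfl⟩
  obtain ⟨m', hm'⟩ : ∃ m' : ℕ, m' = ∑ j ∈ K, mj Y M j := ⟨_, rfl⟩
  have hN0 : (0 : ℝ) < N := by linarith
  have hTq : (Fintype.card F : ℝ) ^ (1.4 : ℝ) ≤ T.card := by
    refine le_trans ?_ hTc
    rw [le_div_iff₀ (by positivity)]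
    have h1 : (Fintype.card F : ℝ) ^ 2 = (Fintype.card F : ℝ) ^ (1.4 : ℝ) *
        (Fintype.card F : ℝ) ^ (0.6 : ℝ) := by
      rw [← Real.rpow_add hq0, ← Real.rpow_natCast]
      norm_num
    rw [h1]
    have h5 : 4 * (N : ℝ) ≤ ε ^ 2 * (Fintype.card F : ℝ) ^ (0.6 : ℝ) := by
      rw [div_mul_eq_mul_div, div_le_iff₀ (by positivity)] at h2
      linarith
    have h6 : (0 : ℝ) ≤ (Fintype.card F : ℝ) ^ (1.4 : ℝ) := by positivity
    calc (Fintype.card F : ℝ) ^ (1.4 : ℝ) * (4 * N)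
        ≤ (Fintype.card F : ℝ) ^ (1.4 : ℝ) * (ε ^ 2 * (Fintype.card F : ℝ) ^ (0.6 : ℝ)) := by gcongr
      _ = _ := by ring
  have hmain := hK2 F hqF1 N hN Y hY T hTq J K m' (fun j hj v => by
      rw [hK, mem_filter] at hj
      refine hj.2.trans ?_
      exact_mod_cast card_av_v Y ρ M V hmaj j v) (by
      rw [hm']
      exact sum_congr rfl (fun j _ => (min_av Y ρ M V hmaj j).symm))
  refine hmain.trans ?_
  -- numerics
  have hm1 : (m' : ℝ) ≤ M.card := by
    have : m' ≤ M.card := by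
      rw [hm', ← sum_mj Y M]
      exact sum_le_sum_of_subset (subset_univ _)
    exact_mod_cast this
  have hm2 : (M.card : ℝ) - Fintype.card F / (N : ℝ) ^ 2 ≤ m' := by
    have h4 : (M.card : ℝ) = ∑ j ∈ K, (mj Y M j : ℝ) + ∑ j ∈ univ \ K, (mj Y M j : ℝ) := by
      rw [← sum_mj Y M]
      push_cast
      rw [add_comm, sum_sdiff (subset_univ K)]
    have h5 : ∑ j ∈ univ \ K, (mj Y M j : ℝ) ≤ N * (Fintype.card F / (N : ℝ) ^ 3) := by
      have h6 : ∑ j ∈ univ \ K, (mj Y M j : ℝ) ≤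
          (univ \ K).card • ((Fintype.card F : ℝ) / (N : ℝ) ^ 3) := by
        refine sum_le_card_nsmul _ _ _ (fun j hj => ?_)
        rw [mem_sdiff, hK, mem_filter] at hj
        by_contra hcon
        exact hj.2 ⟨mem_univ _, (not_le.1 hcon).le⟩
      refine h6.trans ?_
      rw [nsmul_eq_mul]
      have h7 : (univ \ K).card ≤ N := by
        have := card_le_univ (univ \ K)
        simpa using this
      have h8 : ((univ \ K).card : ℝ) ≤ N := by exact_mod_cast h7
      gcongr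
    have h9 : (N : ℝ) * (Fintype.card F / (N : ℝ) ^ 3) = Fintype.card F / (N : ℝ) ^ 2 := by
      field_simp
    rw [hm']
    push_cast
    linarith
  have hlT : Real.log (Fintype.card F) - Real.log N - Real.log (4 / ε ^ 2) ≤
      Real.log (T.card / Fintype.card F) := by
    have h4 : (Fintype.card F : ℝ) / (N * (4 / ε ^ 2)) ≤ T.card / Fintype.card F := by
      rw [le_div_iff₀ hq0]
      refine le_trans (le_of_eq ?_) hTc
      field_simp
    have h5 := Real.log_le_log (by positivity) h4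
    rw [Real.log_div hq0.ne' (by positivity), Real.log_mul hN0.ne' (by positivity)] at h5
    linarith
  have hlT0 : 0 ≤ Real.log (T.card / Fintype.card F) := by
    apply Real.log_nonneg
    rw [le_div_iff₀ hq0, one_mul]
    refine le_trans ?_ hTq
    calc (Fintype.card F : ℝ) = (Fintype.card F : ℝ) ^ (1 : ℝ) := (Real.rpow_one _).symm
      _ ≤ _ := Real.rpow_le_rpow_of_exponent_le hq1 (by norm_num)
  apply Real.exp_le_exp.2
  generalize hlt : Real.log (T.card / Fintype.card F) = lt at *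
  generalize hlq : Real.log (Fintype.card F) = lq at *
  generalize hln : Real.log N = ln at *
  generalize hle : Real.log (4 / ε ^ 2) = le at *
  generalize hqq : (Fintype.card F : ℝ) = q at *
  generalize hmm : (M.card : ℝ) = m at *
  generalize hnn : (N : ℝ) = n at *
  have hlq0 : 0 ≤ lq := by rw [← hlq]; exact Real.log_nonneg hq1
  have hm0 : 0 ≤ m := by rw [← hmm]; exact Nat.cast_nonneg _
  have hm'0 : (0 : ℝ) ≤ (m' : ℝ) := Nat.cast_nonneg _
  exact Ev_num hε hε1 hc hC hm0 hm'0 hm1 hm2 hlT hlq0 hlogNq hlogN hl4 hN0 hcm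

/-- Y2 -/
theorem card_sets_le {α : Type*} [Fintype α] [DecidableEq α] (x : ℝ) (hx : 1 ≤ x)
    (hxn : x ≤ Fintype.card α) :
    ((univ.filter (fun E : Finset α => (E.card : ℝ) ≤ x)).card : ℝ) ≤
      Real.exp (x * (1 + Real.log (Fintype.card α / x))) := by
  classical
  have hx0 : 0 < x := by linarith
  have hn0 : (0 : ℝ) < Fintype.card α := by linarith
  obtain ⟨t, ht⟩ : ∃ t : ℝ, t = x / Fintype.card α := ⟨_, rfl⟩
  have ht0 : 0 < t := by rw [ht]; positivity
  have ht1 : t ≤ 1 := by rw [ht, div_le_one hn0]; exact hxn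
  have h1 : ((univ.filter (fun E : Finset α => (E.card : ℝ) ≤ x)).card : ℝ) ≤
      ∑ E : Finset α, t ^ E.card * t ^ (-x) := by
    rw [card_eq_sum_ones]
    push_cast
    refine (sum_le_sum (f := fun _ => (1 : ℝ)) (g := fun E : Finset α => t ^ E.card * t ^ (-x))
      (fun E hE => ?_)).trans (sum_le_sum_of_subset_of_nonneg (subset_univ _) (fun _ _ _ => by
        positivity))
    rw [mem_filter] at hE
    have h2 : t ^ E.card * t ^ (-x) = t ^ ((E.card : ℝ) - x) := by
      rw [← Real.rpow_natCast, ← Real.rpow_add ht0]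
      ring_nf
    rw [h2]
    exact Real.one_le_rpow_of_pos_of_le_one_of_nonpos ht0 ht1 (by linarith [hE.2])
  refine h1.trans ?_
  rw [← sum_mul]
  have h3 : ∑ E : Finset α, t ^ E.card = (t + 1) ^ Fintype.card α := by
    rw [← card_univ, ← Finset.sum_pow_mul_eq_add_pow]
    simp
  rw [h3]
  have h4 : (t + 1) ^ Fintype.card α ≤ Real.exp x := by
    calc (t + 1) ^ Fintype.card α ≤ (Real.exp t) ^ Fintype.card α :=
          pow_le_pow_left₀ (by positivity) (Real.add_one_le_exp t) _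
      _ = Real.exp x := by
          rw [← Real.exp_nat_mul, ht]
          congr 1
          field_simp
  have h5 : t ^ (-x) = Real.exp (x * Real.log (Fintype.card α / x)) := by
    rw [Real.rpow_def_of_pos ht0, ht, Real.log_div hx0.ne' hn0.ne', Real.log_div hn0.ne' hx0.ne']
    congr 1
    ring
  rw [h5]
  calc (t + 1) ^ Fintype.card α * Real.exp (x * Real.log (Fintype.card α / x))
      ≤ Real.exp x * Real.exp (x * Real.log (Fintype.card α / x)) := by gcongr
    _ = Real.exp (x * (1 + Real.log (Fintype.card α / x))) := by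
        rw [← Real.exp_add]; congr 1; ring


theorem cnt_num {ε C₁ L1 m n lq ln : ℝ} (hε : 0 < ε) (hε1 : ε ≤ 1 / 2)
    (hm0 : 0 ≤ m) (hL1 : 0 ≤ L1) (hln : 0 ≤ ln) (hlq : 0 ≤ lq)
    (hNm : n ≤ m) (h4 : (4 / ε * (4 + 3 * L1 + C₁)) * (1 + ln) ≤ lq) (h3 : 3 ≤ ε / 2 * m) :
    n + (m * (1 + (L1 + ln)) + (m * (1 + (L1 + ln)) + ((1 - ε) * m * (1 + (lq + ln + L1))))) +
      (-(1 - ε / 4) * m * lq + C₁ * m * (1 + ln)) ≤ -3 * lq := by
  have h5 : (4 + 3 * L1 + C₁) * (1 + ln) ≤ ε / 4 * lq := by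
    have h6 : (4 / ε * (4 + 3 * L1 + C₁)) * (1 + ln) = (4 / ε) * ((4 + 3 * L1 + C₁) * (1 + ln)) := by
      ring
    rw [h6] at h4
    have h7 := mul_le_mul_of_nonneg_left h4 (by positivity : 0 ≤ ε / 4)
    have h8 : ε / 4 * (4 / ε * ((4 + 3 * L1 + C₁) * (1 + ln))) = (4 + 3 * L1 + C₁) * (1 + ln) := by
      field_simp
    linarith
  have h6 : m * ((4 + 3 * L1 + C₁) * (1 + ln)) ≤ m * (ε / 4 * lq) :=
    mul_le_mul_of_nonneg_left h5 hm0
  have h7 : 3 * lq ≤ ε / 2 * m * lq := mul_le_mul_of_nonneg_right h3 hlq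
  have h8 : (1 - ε) * m * (1 + (lq + ln + L1)) ≤ (1 - ε) * m * lq + m * (1 + ln + L1) := by
    have : 0 ≤ ε * m * (1 + ln + L1) := by positivity
    nlinarith
  have h9 : 0 ≤ m * (L1 * ln) := by positivity
  nlinarith

set_option maxHeartbeats 2000000 in
theorem event_m (ε c' : ℝ) (hε : 0 < ε) (hε1 : ε ≤ 1 / 2) (hc : 0 < c') :
    ∃ q₀ : ℕ,
    ∀ (F : Type) [Field F] [Fintype F] [DecidableEq F], q₀ ≤ Fintype.card F →
    ∀ (N : ℕ), N = NN (Fintype.card F) → ∀ (Y : Sys F N), Y.Ok → ∀ m : ℕ,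
      m ≤ Fintype.card F + 1 →
      PP (fun ω : Option F × Bool → F => ∃ (ρ : Fin N → Bool) (M V : Finset (Option F))
        (G : Finset (Option F × F)), M.card = m ∧
        (∀ j, (univ.filter (fun t => Y.grp t = j ∧ t ∈ V)).card ≤
        (univ.filter (fun t => Y.grp t = j ∧ t ∉ M)).card) ∧
        c' * Fintype.card F / N ≤ (m : ℝ) ∧ ε * m ≤ V.card ∧ (V.card : ℝ) ≤ m ∧
        (G.card : ℝ) ≤ (1 - ε) * m ∧ Ev Y ρ M V G ω) ≤ Real.exp (-3 * Real.log (Fintype.card F)) := by
  classical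
  obtain ⟨C₁, q₁, hC₁, hEv⟩ := Ev_prob ε c' hε hε1 hc
  obtain ⟨L1, hL1d⟩ : ∃ L1, L1 = max 0 (Real.log (4 / c')) := ⟨_, rfl⟩
  have hL1 : 0 ≤ L1 := by rw [hL1d]; exact le_max_left _ _
  have hL1' : Real.log (4 / c') ≤ L1 := by rw [hL1d]; exact le_max_right _ _
  obtain ⟨q₂, hq₂⟩ := log_NN_le (4 / ε * (4 + 3 * L1 + C₁))
  obtain ⟨q₃, hq₃⟩ := NN_pow_le 2 (1 / c') 1 one_pos
  obtain ⟨q₄, hq₄⟩ := NN_pow_le 1 (6 / (ε * c')) 1 one_pos
  refine ⟨max (max q₁ q₂) (max q₃ q₄), ?_⟩
  intro F _ _ _ hqF N hN Y hY m hmq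
  have hqF1 : q₁ ≤ Fintype.card F := le_trans (le_trans (le_max_left _ _) (le_max_left _ _)) hqF
  have hqF2 : q₂ ≤ Fintype.card F := le_trans (le_trans (le_max_right _ _) (le_max_left _ _)) hqF
  have hqF3 : q₃ ≤ Fintype.card F := le_trans (le_trans (le_max_left _ _) (le_max_right _ _)) hqF
  have hqF4 : q₄ ≤ Fintype.card F := le_trans (le_trans (le_max_right _ _) (le_max_right _ _)) hqF
  have h2 := hq₂ _ hqF2
  have h3 := hq₃ _ hqF3
  have h4 := hq₄ _ hqF4
  rw [Real.rpow_one, ← hN] at h3 h4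
  rw [← hN] at h2
  rw [pow_one] at h4
  have hN20 : 20 ≤ N := by rw [hN]; exact twenty_le_NN _
  have hNr : (20 : ℝ) ≤ N := by exact_mod_cast hN20
  have hN0 : (0 : ℝ) < N := by linarith
  have hlogN : 0 ≤ Real.log N := Real.log_nonneg (by linarith)
  have hq1 : (1 : ℝ) ≤ Fintype.card F := by exact_mod_cast Fintype.card_pos (α := F)
  have hq0 : (0 : ℝ) < Fintype.card F := by linarith
  have hlq : 0 ≤ Real.log (Fintype.card F) := Real.log_nonneg hq1
  by_cases hcm : c' * Fintype.card F / N ≤ (m : ℝ)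
  swap
  · refine le_trans (PP_mono (r := fun _ => False) (fun ω hω => ?_)) ?_
    · obtain ⟨ρ, M, V, G, -, -, h5, -⟩ := hω
      exact hcm h5
    · rw [PP_false]; positivity
  have hNm : (N : ℝ) ≤ m := by
    refine le_trans ?_ hcm
    rw [le_div_iff₀ hN0]
    rw [div_mul_eq_mul_div, one_mul, div_le_iff₀ hc] at h3
    nlinarith
  have h6m : 3 ≤ ε / 2 * m := by
    have h5 : 6 / ε ≤ (m : ℝ) := by
      refine le_trans ?_ hcm
      rw [le_div_iff₀ hN0]
      rw [div_mul_eq_mul_div, div_le_iff₀ (by positivity)] at h4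
      rw [div_mul_eq_mul_div, div_le_iff₀ hε]
      nlinarith
    rw [div_le_iff₀ hε] at h5
    linarith
  have hm1 : (20 : ℝ) ≤ m := by linarith
  have hm0 : (0 : ℝ) < m := by linarith
  have hmq' : (m : ℝ) ≤ Fintype.card F + 1 := by exact_mod_cast hmq
  obtain ⟨A1, hA1⟩ : ∃ A1 : Finset (Finset (Option F)),
    A1 = univ.filter (fun E => (E.card : ℝ) ≤ (m : ℝ)) := ⟨_, rfl⟩
  obtain ⟨A2, hA2⟩ : ∃ A2 : Finset (Finset (Option F × F)),
    A2 = univ.filter (fun E => (E.card : ℝ) ≤ (1 - ε) * m) := ⟨_, rfl⟩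
  obtain ⟨B, hB⟩ : ∃ B : ℝ, B = Real.exp (-(1 - ε / 4) * m * Real.log (Fintype.card F)
        + C₁ * m * (1 + Real.log N)) := ⟨_, rfl⟩
  obtain ⟨A, hA⟩ : ∃ A : Finset ((Fin N → Bool) × (Finset (Option F) × (Finset (Option F) ×
    Finset (Option F × F)))), A = univ ×ˢ (A1 ×ˢ (A1 ×ˢ A2)) := ⟨_, rfl⟩
  have hAcard : A.card = 2 ^ N * (A1.card * (A1.card * A2.card)) := by
    rw [hA, card_product, card_product, card_product, card_univ, Fintype.card_fun,
      Fintype.card_bool, Fintype.card_fin]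
  have hunion : PP (fun ω : Option F × Bool → F => ∃ (ρ : Fin N → Bool) (M V : Finset (Option F))
        (G : Finset (Option F × F)), M.card = m ∧
        (∀ j, (univ.filter (fun t => Y.grp t = j ∧ t ∈ V)).card ≤
        (univ.filter (fun t => Y.grp t = j ∧ t ∉ M)).card) ∧
        c' * Fintype.card F / N ≤ (m : ℝ) ∧ ε * m ≤ V.card ∧ (V.card : ℝ) ≤ m ∧
        (G.card : ℝ) ≤ (1 - ε) * m ∧ Ev Y ρ M V G ω) ≤ A.card * B := by
    refine (PP_mono (r := fun ω => ∃ x ∈ A, (x.2.1.card = m ∧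
      (∀ j, (univ.filter (fun t => Y.grp t = j ∧ t ∈ x.2.2.1)).card ≤
        (univ.filter (fun t => Y.grp t = j ∧ t ∉ x.2.1)).card) ∧ ε * m ≤ (x.2.2.1).card) ∧
        Ev Y x.1 x.2.1 x.2.2.1 x.2.2.2 ω) (fun ω hω => ?_)).trans
      ((PP_exists_le A _).trans ?_)
    · obtain ⟨ρ, M, V, G, e1, e2, e3, e4, e5, e6, e7⟩ := hω
      refine ⟨(ρ, M, V, G), ?_, ⟨e1, e2, e4⟩, e7⟩
      rw [hA, mem_product, mem_product, mem_product, hA1, hA2, mem_filter, mem_filter, mem_filter]
      refine ⟨mem_univ _, ⟨mem_univ _, ?_⟩, ⟨mem_univ _, e5⟩, mem_univ _, e6⟩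
      rw [e1]
    · rw [← nsmul_eq_mul]
      refine sum_le_card_nsmul _ _ _ (fun x hx => ?_)
      by_cases hcond : x.2.1.card = m ∧
        (∀ j, (univ.filter (fun t => Y.grp t = j ∧ t ∈ x.2.2.1)).card ≤
          (univ.filter (fun t => Y.grp t = j ∧ t ∉ x.2.1)).card) ∧ ε * m ≤ (x.2.2.1).card
      · refine (PP_mono (fun ω hω => hω.2)).trans ?_
        have := hEv F hqF1 N hN Y hY x.1 x.2.1 x.2.2.1 x.2.2.2 hcond.2.1
          (by rw [hcond.1]; exact hcm) (by rw [hcond.1]; exact hcond.2.2)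
        rw [hcond.1, ← hB] at this
        exact this
      · refine (PP_mono (r := fun _ => False) (fun ω hω => hcond hω.1)).trans ?_
        rw [PP_false, hB]
        positivity
  refine hunion.trans ?_
  have hc1 : (A1.card : ℝ) ≤ Real.exp (m * (1 + (L1 + Real.log N))) := by
    have h5 := card_sets_le (α := Option F) (m : ℝ) (by linarith) (by
      rw [Fintype.card_option]; push_cast; exact hmq')
    rw [← hA1] at h5
    refine h5.trans (Real.exp_le_exp.2 ?_)
    apply mul_le_mul_of_nonneg_left _ hm0.le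
    have h6 : ((Fintype.card (Option F) : ℕ) : ℝ) / m ≤ (4 / c') * N := by
      rw [Fintype.card_option, div_le_iff₀ hm0]
      push_cast
      rw [div_le_iff₀ hN0] at hcm
      have h7 : 4 / c' * N * m = 4 / c' * (m * N) := by ring
      rw [h7]
      have h8 : 4 / c' * (c' * Fintype.card F) ≤ 4 / c' * (m * N) := by gcongr
      have h9 : 4 / c' * (c' * Fintype.card F) = 4 * Fintype.card F := by field_simp
      linarith
    have h7 := Real.log_le_log (by rw [Fintype.card_option]; positivity) h6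
    rw [Real.log_mul (by positivity) (by positivity)] at h7
    linarith
  have hc2 : (A2.card : ℝ) ≤ Real.exp ((1 - ε) * m *
      (1 + (Real.log (Fintype.card F) + Real.log N + L1))) := by
    have hx1 : 1 ≤ (1 - ε) * (m : ℝ) := by nlinarith
    have h5 := card_sets_le (α := Option F × F) ((1 - ε) * m : ℝ) hx1 (by
      rw [Fintype.card_prod, Fintype.card_option]; push_cast
      nlinarith)
    rw [← hA2] at h5
    refine h5.trans (Real.exp_le_exp.2 ?_)
    apply mul_le_mul_of_nonneg_left _ (by linarith)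
    have hx0 : 0 < (1 - ε) * (m : ℝ) := by linarith
    have h6 : ((Fintype.card (Option F × F) : ℕ) : ℝ) / ((1 - ε) * m) ≤
        Fintype.card F * N * (4 / c') := by
      rw [Fintype.card_prod, Fintype.card_option, div_le_iff₀ hx0]
      push_cast
      rw [div_le_iff₀ hN0] at hcm
      have h8 : 4 / c' * (c' * Fintype.card F) ≤ 4 / c' * (m * N) := by gcongr
      have h9 : 4 / c' * (c' * Fintype.card F) = 4 * Fintype.card F := by field_simp
      rw [h9] at h8
      have h10 : ((Fintype.card F : ℝ) + 1) * Fintype.card F ≤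
          (1 / 2) * (4 * Fintype.card F) * Fintype.card F := by nlinarith
      refine h10.trans ?_
      have h11 : (Fintype.card F : ℝ) * N * (4 / c') * ((1 - ε) * m) =
        (1 - ε) * (4 / c' * (m * N)) * Fintype.card F := by ring
      rw [h11]
      have h12 : 0 ≤ 4 / c' * ((m : ℝ) * N) := by positivity
      have h13 : (1 : ℝ) / 2 ≤ 1 - ε := by linarith
      have h14 : (0 : ℝ) ≤ 1 - ε := by linarith
      gcongr
    have h7 := Real.log_le_log (by
      rw [Fintype.card_prod, Fintype.card_option]; positivity) h6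
    rw [Real.log_mul (by positivity) (by positivity), Real.log_mul (by positivity) (by positivity)]
      at h7
    linarith
  have hc3 : (2 : ℝ) ^ N ≤ Real.exp N := by
    calc (2 : ℝ) ^ N ≤ (Real.exp 1) ^ N := by
          gcongr
          have := Real.exp_one_gt_d9
          linarith
      _ = Real.exp N := by rw [← Real.exp_nat_mul, mul_one]
  have hAr : (A.card : ℝ) ≤ Real.exp (N + (m * (1 + (L1 + Real.log N)) +
      (m * (1 + (L1 + Real.log N)) + ((1 - ε) * m *
      (1 + (Real.log (Fintype.card F) + Real.log N + L1)))))) := by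
    rw [hAcard]
    push_cast
    rw [Real.exp_add, Real.exp_add, Real.exp_add]
    gcongr
  rw [hB]
  calc (A.card : ℝ) * Real.exp (-(1 - ε / 4) * m * Real.log (Fintype.card F)
        + C₁ * m * (1 + Real.log N)) ≤ _ := mul_le_mul_of_nonneg_right hAr (Real.exp_pos _).le
    _ ≤ _ := by
      rw [← Real.exp_add]
      apply Real.exp_le_exp.2
      exact cnt_num hε hε1 hm0.le hL1 hlogN hlq hNm h2 h6m

theorem event_Y (ε c' : ℝ) (hε : 0 < ε) (hε1 : ε ≤ 1 / 2) (hc : 0 < c') : ∃ q₀ : ℕ,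
  ∀ (F : Type) [Field F] [Fintype F] [DecidableEq F], q₀ ≤ Fintype.card F →
  ∀ (N : ℕ), N = NN (Fintype.card F) → ∀ (Y : Sys F N), Y.Ok →
  PP (fun ω : Option F × Bool → F => (∀ P, (hs ω P).card ≤ N) ∧ (∀ d, ω (d, false) ≠ ω (d, true)) ∧
    ∃ (ρ : Fin N → Bool) (S : Finset (Option F × F)), S.card = Fintype.card F ∧
      (∀ P ∈ unc S, ¬ Y.DR (hs ω P)) ∧
      (∀ j, (univ.filter (fun t => Y.grp t = j ∧ sl ω (Y.wl' ρ t) ∈ S)).card ≤
            (univ.filter (fun t => Y.grp t = j ∧ sl ω (Y.wl ρ t) ∈ S)).card) ∧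
      c' * Fintype.card F / N ≤ ((univ.filter (fun t => sl ω (Y.wl ρ t) ∉ S)).card : ℝ) ∧
      ε * ((univ.filter (fun t => sl ω (Y.wl ρ t) ∉ S)).card : ℝ) ≤
        ((univ.filter (fun t => sl ω (Y.wl' ρ t) ∈ S)).card : ℝ)) ≤ 1 / 50 := by
  classical
  obtain ⟨q₁, hq₁⟩ := event_m ε c' hε hε1 hc
  refine ⟨max q₁ 100, ?_⟩
  intro F _ _ _ hqF N hN Y hY
  have hqF1 : q₁ ≤ Fintype.card F := le_trans (le_max_left _ _) hqF
  have hq100 : 100 ≤ Fintype.card F := le_trans (le_max_right _ _) hqF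
  have hq : (100 : ℝ) ≤ Fintype.card F := by exact_mod_cast hq100
  refine (PP_mono (r := fun ω => ∃ m ∈ range (Fintype.card F + 2),
    ∃ (ρ : Fin N → Bool) (M V : Finset (Option F))
        (G : Finset (Option F × F)), M.card = m ∧
        (∀ j, (univ.filter (fun t => Y.grp t = j ∧ t ∈ V)).card ≤
        (univ.filter (fun t => Y.grp t = j ∧ t ∉ M)).card) ∧
        c' * Fintype.card F / N ≤ (m : ℝ) ∧ ε * m ≤ V.card ∧ (V.card : ℝ) ≤ m ∧
        (G.card : ℝ) ≤ (1 - ε) * m ∧ Ev Y ρ M V G ω) (fun ω hω => ?_)).trans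
    ((PP_exists_le _ _).trans ?_)
  · obtain ⟨hload, hd, ρ, S, hS, hDR, hmaj, hcm, hεm⟩ := hω
    obtain ⟨M, hM⟩ : ∃ M, M = univ.filter (fun t => sl ω (Y.wl ρ t) ∉ S) := ⟨_, rfl⟩
    obtain ⟨V, hV⟩ : ∃ V, V = univ.filter (fun t => sl ω (Y.wl' ρ t) ∈ S) := ⟨_, rfl⟩
    obtain ⟨G, hG, hGc⟩ := decomp Y ρ ω hd S hS M V hM hV
    have hMc : M.card < Fintype.card F + 2 := by
      have : M.card ≤ Fintype.card (Option F) := card_le_univ M
      rw [Fintype.card_option] at this
      omega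
    rw [← hM] at hcm hεm
    rw [← hV] at hεm
    have hGc' : (G.card : ℝ) + 1 + V.card = M.card := by exact_mod_cast hGc
    have hG0 : (0 : ℝ) ≤ G.card := Nat.cast_nonneg _
    refine ⟨M.card, mem_range.2 hMc, ρ, M, V, G, rfl, fun j => ?_, hcm, hεm, by linarith,
      by linarith, hload, hd, ?_, ?_⟩
    · have h1 := hmaj j
      convert h1 using 3
      · rw [hV]; simp
      · rw [hM]; simp
    · rw [← hG]; exact hS
    · rw [← hG]; exact hDR
  · refine (sum_le_card_nsmul _ _ (Real.exp (-3 * Real.log (Fintype.card F)))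
      (fun m hm => ?_)).trans ?_
    · rw [mem_range] at hm
      exact hq₁ F hqF1 N hN Y hY m (by omega)
    · rw [card_range, nsmul_eq_mul]
      have h1 : Real.exp (-3 * Real.log (Fintype.card F)) = 1 / (Fintype.card F : ℝ) ^ 3 := by
        rw [neg_mul, Real.exp_neg, one_div]
        congr 1
        have : (3 : ℝ) * Real.log (Fintype.card F) = ((3 : ℕ) : ℝ) * Real.log (Fintype.card F) := by
          norm_num
        rw [this, Real.exp_nat_mul, Real.exp_log (by linarith)]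
      rw [h1]
      push_cast
      rw [mul_one_div, div_le_div_iff₀ (by positivity) (by norm_num)]
      nlinarith [sq_nonneg ((Fintype.card F : ℝ) - 100), mul_pos (by linarith : (0 : ℝ) < Fintype.card F) (by linarith : (0 : ℝ) < Fintype.card F)]

end Crest.Agent.H20Ry
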