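import Mathlib
import Crest.Prelude.Def_FinProb
import Crest.Agent.H6Defs

/-!
Module X1 of rid 56: p-biased hypercontractivity (Bonami) for the fourth norm.
-/

set_option autoImplicit false
set_option linter.unusedSectionVars false

namespace Crest.Agent.H21Bonami

open Finset Crest.FinProb Crest.Agent.H6Defs

variable {E : Type*} [Fintype E] [DecidableEq E]

/-- flipping coordinate `e` -/
def flip (e : E) (x : E → Bool) : E → Bool := Function.update x e (!x e)

lemma flip_flip (e : E) (x : E → Bool) : flip e (flip e x) = x := by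
  unfold flip
  simp

lemma sum_flip (e : E) (G : (E → Bool) → ℝ) : ∑ x, G x = ∑ x, G (flip e x) := by
  have h : Function.Involutive (flip e : (E → Bool) → (E → Bool)) := flip_flip e
  exact (Equiv.sum_comp h.toPerm G).symm

lemma two_sum (e : E) (G : (E → Bool) → ℝ) :
    2 * ∑ x, G x = ∑ x, (G (Function.update x e true) + G (Function.update x e false)) := by
  have h1 : 2 * ∑ x, G x = ∑ x, (G x + G (flip e x)) := by
    rw [Finset.sum_add_distrib, ← sum_flip e G]; ring
  rw [h1]
  refine Finset.sum_congr rfl (fun x _ => ?_)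
  cases hx : x e with
  | true =>
    have h2 : Function.update x e true = x := by rw [← hx]; simp
    have h3 : flip e x = Function.update x e false := by unfold flip; rw [hx]; rfl
    rw [h2, h3]
  | false =>
    have h2 : Function.update x e false = x := by rw [← hx]; simp
    have h3 : flip e x = Function.update x e true := by unfold flip; rw [hx]; rfl
    rw [h2, h3]; ring

/-- the weight off `e` -/
noncomputable def wOff (p : ℝ) (e : E) (x : E → Bool) : ℝ :=
  ∏ i ∈ Finset.univ.erase e, if x i then p else 1 - p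

lemma weight_update (p : ℝ) (e : E) (x : E → Bool) (b : Bool) :
    bernoulliWeight p (Function.update x e b) = (if b then p else 1 - p) * wOff p e x := by
  unfold bernoulliWeight wOff
  rw [← Finset.mul_prod_erase Finset.univ _ (Finset.mem_univ e)]
  simp only [Function.update_self]
  congr 1
  refine Finset.prod_congr rfl (fun i hi => ?_)
  rw [Function.update_of_ne (Finset.ne_of_mem_erase hi)]

lemma EE_indep (p : ℝ) (e : E) (F : (E → Bool) → ℝ)
    (hF : ∀ x b, F (Function.update x e b) = F x) (ψ : Bool → ℝ) :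
    EE p (fun x => F x * ψ (x e)) = (p * ψ true + (1 - p) * ψ false) * EE p F := by
  have h1 : 2 * EE p (fun x => F x * ψ (x e)) =
      (p * ψ true + (1 - p) * ψ false) * ∑ x, wOff p e x * F x := by
    unfold EE
    rw [two_sum e, Finset.mul_sum]
    refine Finset.sum_congr rfl (fun x _ => ?_)
    simp only [weight_update, hF, Function.update_self]
    simp
    ring
  have h2 : 2 * EE p F = ∑ x, wOff p e x * F x := by
    unfold EE
    rw [two_sum e]
    refine Finset.sum_congr rfl (fun x _ => ?_)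
    rw [weight_update, weight_update, hF, hF]
    simp
    ring
  rw [← h2] at h1
  linarith

lemma EE_add (p : ℝ) (F G : (E → Bool) → ℝ) :
    EE p (fun x => F x + G x) = EE p F + EE p G := by
  unfold EE
  rw [← Finset.sum_add_distrib]
  exact Finset.sum_congr rfl (fun x _ => by ring)

lemma EE_const_mul (p : ℝ) (a : ℝ) (F : (E → Bool) → ℝ) :
    EE p (fun x => a * F x) = a * EE p F := by
  unfold EE
  rw [Finset.mul_sum]
  exact Finset.sum_congr rfl (fun x _ => by ring)

lemma weight_nonneg {p : ℝ} (hp : 0 < p) (hp1 : p < 1) (x : E → Bool) :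
    0 ≤ bernoulliWeight p x := by
  unfold bernoulliWeight
  refine Finset.prod_nonneg (fun i _ => ?_)
  split_ifs <;> linarith

lemma EE_mono {p : ℝ} (hp : 0 < p) (hp1 : p < 1) {F G : (E → Bool) → ℝ}
    (h : ∀ x, F x ≤ G x) : EE p F ≤ EE p G := by
  unfold EE
  exact Finset.sum_le_sum (fun x _ => mul_le_mul_of_nonneg_left (h x) (weight_nonneg hp hp1 x))

lemma EE_nonneg {p : ℝ} (hp : 0 < p) (hp1 : p < 1) {F : (E → Bool) → ℝ}
    (h : ∀ x, 0 ≤ F x) : 0 ≤ EE p F := by
  unfold EE
  exact Finset.sum_nonneg (fun x _ => mul_nonneg (weight_nonneg hp hp1 x) (h x))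

lemma sum_weight (p : ℝ) : ∑ x : E → Bool, bernoulliWeight p x = 1 := by
  unfold bernoulliWeight
  have h := (Finset.prod_univ_sum (fun _ : E => (Finset.univ : Finset Bool))
    (fun _ b => if b then p else 1 - p)).symm
  rw [Fintype.piFinset_univ] at h
  rw [h]
  simp

lemma EE_const (p : ℝ) (a : ℝ) : EE p (fun _ : E → Bool => a) = a := by
  unfold EE
  rw [← Finset.sum_mul, sum_weight, one_mul]

/-- Cauchy–Schwarz -/
lemma EE_cs {p : ℝ} (hp : 0 < p) (hp1 : p < 1) (F G : (E → Bool) → ℝ) :
    (EE p (fun x => F x * G x)) ^ 2 ≤ EE p (fun x => F x ^ 2) * EE p (fun x => G x ^ 2) := by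
  unfold EE
  have h := Finset.sum_mul_sq_le_sq_mul_sq (Finset.univ : Finset (E → Bool))
    (fun x => √(bernoulliWeight p x) * F x) (fun x => √(bernoulliWeight p x) * G x)
  have hs : ∀ x : E → Bool, √(bernoulliWeight p x) * √(bernoulliWeight p x) =
      bernoulliWeight p x := fun x => Real.mul_self_sqrt (weight_nonneg hp hp1 x)
  have e1 : ∑ x : E → Bool, (√(bernoulliWeight p x) * F x) * (√(bernoulliWeight p x) * G x) =
      ∑ x, bernoulliWeight p x * (F x * G x) := by
    refine Finset.sum_congr rfl (fun x _ => ?_)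
    have := hs x
    calc √(bernoulliWeight p x) * F x * (√(bernoulliWeight p x) * G x)
        = (√(bernoulliWeight p x) * √(bernoulliWeight p x)) * (F x * G x) := by ring
      _ = _ := by rw [this]
  have e2 : ∀ F : (E → Bool) → ℝ, ∑ x : E → Bool, (√(bernoulliWeight p x) * F x) ^ 2 =
      ∑ x, bernoulliWeight p x * (F x ^ 2) := by
    intro F
    refine Finset.sum_congr rfl (fun x _ => ?_)
    rw [mul_pow, sq, hs x]
  rw [e1, e2, e2] at h
  exact h

lemma chi_update (p : ℝ) {S : Finset E} {e : E} (he : e ∉ S) (x : E → Bool) (b : Bool) :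
    chi p S (Function.update x e b) = chi p S x := by
  unfold chi
  refine Finset.prod_congr rfl (fun i hi => ?_)
  rw [Function.update_of_ne]
  rintro rfl
  exact he hi

lemma poly_update (p : ℝ) {𝒮 : Finset (Finset E)} (c : Finset E → ℝ) {e : E}
    (h : ∀ S ∈ 𝒮, e ∉ S) (x : E → Bool) (b : Bool) :
    poly p 𝒮 c (Function.update x e b) = poly p 𝒮 c x := by
  unfold poly
  exact Finset.sum_congr rfl (fun S hS => by rw [chi_update p (h S hS)])

lemma poly_split (p : ℝ) (𝒮 : Finset (Finset E)) (c : Finset E → ℝ) (e : E) (x : E → Bool) :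
    poly p 𝒮 c x = poly p (𝒮.filter (fun S => e ∉ S)) c x +
      phi p (x e) * poly p ((𝒮.filter (fun S => e ∈ S)).image (fun S => S.erase e))
        (fun S => c (insert e S)) x := by
  unfold poly
  rw [← Finset.sum_filter_add_sum_filter_not 𝒮 (fun S => e ∈ S), add_comm]
  congr 1
  rw [Finset.sum_image, Finset.mul_sum]
  · refine Finset.sum_congr rfl (fun S hS => ?_)
    rw [Finset.mem_filter] at hS
    simp only [Finset.insert_erase hS.2]
    have : chi p S x = phi p (x e) * chi p (S.erase e) x := by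
      unfold chi
      exact (Finset.mul_prod_erase S (fun i => phi p (x i)) hS.2).symm
    rw [this]; ring
  · intro S hS T hT h
    simp only [Finset.coe_filter, Set.mem_ofPred_eq] at hS hT
    have := congrArg (insert e) h
    simpa [Finset.insert_erase hS.2, Finset.insert_erase hT.2] using this

/-- moments of the normalised coin -/
lemma moments {p : ℝ} (hp : 0 < p) (hp1 : p < 1) :
    p * phi p true + (1 - p) * phi p false = 0 ∧
    p * phi p true ^ 2 + (1 - p) * phi p false ^ 2 = 1 ∧
    (p * phi p true ^ 3 + (1 - p) * phi p false ^ 3) ^ 2 = 1 / (p * (1 - p)) - 4 ∧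
    p * phi p true ^ 4 + (1 - p) * phi p false ^ 4 = 1 / (p * (1 - p)) - 3 := by
  have hq : 0 < 1 - p := by linarith
  set s := √p with hs
  set t := √(1 - p) with ht
  have hs0 : 0 < s := Real.sqrt_pos.mpr hp
  have ht0 : 0 < t := Real.sqrt_pos.mpr hq
  have hs2 : s ^ 2 = p := Real.sq_sqrt hp.le
  have ht2 : t ^ 2 = 1 - p := Real.sq_sqrt hq.le
  have hst : t ^ 2 = 1 - s ^ 2 := by rw [hs2, ht2]
  have e1 : phi p true = t / s := by
    unfold phi; simp only [if_true]; rw [Real.sqrt_div hq.le]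
  have e2 : phi p false = -(s / t) := by
    unfold phi; simp only [Bool.false_eq_true, if_false]; rw [Real.sqrt_div hp.le]
  rw [e1, e2, ← ht2, ← hs2]
  have hs1 : s ≠ 0 := hs0.ne'
  have ht1 : t ≠ 0 := ht0.ne'
  refine ⟨?_, ?_, ?_, ?_⟩
  · field_simp; ring
  · field_simp; linarith
  · have h3 : s ^ 2 * (t / s) ^ 3 + t ^ 2 * (-(s / t)) ^ 3 = (t ^ 2 - s ^ 2) * (t ^ 2 + s ^ 2) / (s * t) := by
      field_simp
      ring
    have h1 : t ^ 2 + s ^ 2 = 1 := by linarith
    rw [h3, h1, mul_one, div_pow, mul_pow, eq_sub_iff_add_eq, div_add' _ _ _ (by positivity)]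
    congr 1
    rw [hst]; ring
  · have h3 : s ^ 2 * (t / s) ^ 4 + t ^ 2 * (-(s / t)) ^ 4 = (t ^ 6 + s ^ 6) / (s ^ 2 * t ^ 2) := by
      field_simp
    rw [h3, eq_sub_iff_add_eq, div_add' _ _ _ (by positivity)]
    congr 1
    have h6 : t ^ 6 = (1 - s ^ 2) ^ 3 := by rw [← hst]; ring
    rw [h6, hst]; ring

lemma step_ineq {p : ℝ} (hp : 0 < p) (hp1 : p < 1) (e : E) (g h : (E → Bool) → ℝ)
    (hg : ∀ x b, g (Function.update x e b) = g x) (hh : ∀ x b, h (Function.update x e b) = h x) :
    EE p (fun x => (g x + phi p (x e) * h x) ^ 2) =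
      EE p (fun x => g x ^ 2) + EE p (fun x => h x ^ 2) ∧
    EE p (fun x => (g x + phi p (x e) * h x) ^ 4) ≤
      EE p (fun x => g x ^ 4) + 8 * EE p (fun x => g x ^ 2 * h x ^ 2) +
        (4 / (p * (1 - p))) * EE p (fun x => h x ^ 4) := by
  obtain ⟨m1, m2, m3, m4⟩ := moments hp hp1
  set γ := p * phi p true ^ 3 + (1 - p) * phi p false ^ 3 with hγ
  constructor
  · have h1 := EE_indep p e (fun x => 2 * (g x * h x))
      (fun x b => by simp only [hg, hh]) (fun b => phi p b)
    have h2 := EE_indep p e (fun x => h x ^ 2)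
      (fun x b => by simp only [hh]) (fun b => phi p b ^ 2)
    rw [m1, zero_mul] at h1
    rw [m2, one_mul] at h2
    have : EE p (fun x => (g x + phi p (x e) * h x) ^ 2) =
        EE p (fun x => (g x ^ 2 + 2 * (g x * h x) * phi p (x e)) + h x ^ 2 * phi p (x e) ^ 2) := by
      congr 1; funext x; ring
    rw [this, EE_add, EE_add, h1, h2]; ring
  · have h1 := EE_indep p e (fun x => 4 * (g x ^ 3 * h x))
      (fun x b => by simp only [hg, hh]) (fun b => phi p b)
    have h2 := EE_indep p e (fun x => 6 * (g x ^ 2 * h x ^ 2))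
      (fun x b => by simp only [hg, hh]) (fun b => phi p b ^ 2)
    have h3 := EE_indep p e (fun x => 4 * (g x * h x ^ 3))
      (fun x b => by simp only [hg, hh]) (fun b => phi p b ^ 3)
    have h4 := EE_indep p e (fun x => h x ^ 4)
      (fun x b => by simp only [hh]) (fun b => phi p b ^ 4)
    rw [m1, zero_mul] at h1
    rw [m2, one_mul] at h2
    rw [← hγ] at h3
    rw [m4] at h4
    have hexp : EE p (fun x => (g x + phi p (x e) * h x) ^ 4) =
        EE p (fun x => (((g x ^ 4 + 4 * (g x ^ 3 * h x) * phi p (x e)) +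
          6 * (g x ^ 2 * h x ^ 2) * phi p (x e) ^ 2) + 4 * (g x * h x ^ 3) * phi p (x e) ^ 3) +
          h x ^ 4 * phi p (x e) ^ 4) := by
      congr 1; funext x; ring
    rw [hexp, EE_add, EE_add, EE_add, EE_add, h1, h2, h3, h4, EE_const_mul, EE_const_mul]
    have hkey : γ * (4 * EE p (fun x => g x * h x ^ 3)) ≤
        2 * EE p (fun x => g x ^ 2 * h x ^ 2) + 2 * γ ^ 2 * EE p (fun x => h x ^ 4) := by
      rw [← EE_const_mul, ← EE_const_mul, ← EE_const_mul, ← EE_const_mul, ← EE_add]
      refine EE_mono hp hp1 (fun x => ?_)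
      nlinarith [sq_nonneg (g x * h x - γ * h x ^ 2)]
    rw [m3] at hkey
    have h4n : 0 ≤ EE p (fun x => h x ^ 4) := EE_nonneg hp hp1 (fun x => by positivity)
    have hlam : 0 < p * (1 - p) := mul_pos hp (by linarith)
    have : (4 : ℝ) / (p * (1 - p)) = 4 * (1 / (p * (1 - p))) := by ring
    rw [this]
    nlinarith [hkey, h4n]

lemma four_div_ge {p : ℝ} (hp : 0 < p) (hp1 : p < 1) : 16 ≤ 4 / (p * (1 - p)) := by
  have hlam : 0 < p * (1 - p) := mul_pos hp (by linarith)
  rw [le_div_iff₀ hlam]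
  nlinarith [sq_nonneg (2 * p - 1)]

lemma bonami_aux (p : ℝ) (hp : 0 < p) (hp1 : p < 1) (U : Finset E) :
    ∀ (𝒮 : Finset (Finset E)) (c : Finset E → ℝ) (m : ℕ),
      (∀ S ∈ 𝒮, S ⊆ U ∧ S.card ≤ m) →
      EE p (fun x => (poly p 𝒮 c x) ^ 4) ≤
        (4 / (p * (1 - p))) ^ m * (EE p (fun x => (poly p 𝒮 c x) ^ 2)) ^ 2 := by
  have hB := four_div_ge hp hp1
  set B := 4 / (p * (1 - p)) with hBdef
  induction U using Finset.induction_on with
  | empty =>
    intro 𝒮 c m h
    -- poly is constant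
    have hc : ∀ x, poly p 𝒮 c x = ∑ S ∈ 𝒮, c S := by
      intro x
      unfold poly
      refine Finset.sum_congr rfl (fun S hS => ?_)
      have : S = ∅ := Finset.subset_empty.mp (h S hS).1
      subst this
      simp [chi]
    simp only [hc]
    rw [EE_const, EE_const]
    have h1 : (1 : ℝ) ≤ B ^ m := one_le_pow₀ (by linarith)
    have h2 : 0 ≤ (∑ S ∈ 𝒮, c S) ^ 4 := by positivity
    calc (∑ S ∈ 𝒮, c S) ^ 4 = 1 * (∑ S ∈ 𝒮, c S) ^ 4 := by ring
      _ ≤ B ^ m * (∑ S ∈ 𝒮, c S) ^ 4 := mul_le_mul_of_nonneg_right h1 h2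
      _ = _ := by ring
  | insert e U he ih =>
    intro 𝒮 c m h
    set 𝒮0 := 𝒮.filter (fun S => e ∉ S) with h𝒮0
    set 𝒮1 := (𝒮.filter (fun S => e ∈ S)).image (fun S => S.erase e) with h𝒮1
    set c1 : Finset E → ℝ := fun S => c (insert e S) with hc1
    have hq : ∀ x, poly p 𝒮 c x = poly p 𝒮0 c x + phi p (x e) * poly p 𝒮1 c1 x :=
      fun x => poly_split p 𝒮 c e x
    have hg : ∀ x b, poly p 𝒮0 c (Function.update x e b) = poly p 𝒮0 c x :=
      fun x b => poly_update p c (fun S hS => (Finset.mem_filter.mp hS).2) x b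
    have hh : ∀ x b, poly p 𝒮1 c1 (Function.update x e b) = poly p 𝒮1 c1 x := by
      refine fun x b => poly_update p c1 (fun S hS => ?_) x b
      obtain ⟨T, _, rfl⟩ := Finset.mem_image.mp hS
      exact Finset.notMem_erase e T
    obtain ⟨e2, e4⟩ := step_ineq hp hp1 e (poly p 𝒮0 c) (poly p 𝒮1 c1) hg hh
    have hg4 := ih 𝒮0 c m (fun S hS => by
      have hS' := Finset.mem_filter.mp hS
      refine ⟨fun i hi => ?_, (h S hS'.1).2⟩
      rcases Finset.mem_insert.mp ((h S hS'.1).1 hi) with rfl | h'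
      · exact absurd hi hS'.2
      · exact h')
    simp only [hq]
    rw [e2]
    cases m with
    | zero =>
      -- no set contains e
      have hempty : 𝒮1 = ∅ := by
        rw [h𝒮1, Finset.image_eq_empty, Finset.filter_eq_empty_iff]
        intro S hS heS
        have := (h S hS).2
        have : S = ∅ := Finset.card_eq_zero.mp (by omega)
        rw [this] at heS
        exact absurd heS (Finset.notMem_empty e)
      have hz : ∀ x, poly p 𝒮1 c1 x = 0 := by
        intro x; rw [hempty]; simp [poly]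
      simp only [hz] at e4 ⊢
      simpa [EE] using hg4
    | succ m =>
      have hh4 := ih 𝒮1 c1 m (fun S hS => by
        obtain ⟨T, hT, rfl⟩ := Finset.mem_image.mp hS
        have hT' := Finset.mem_filter.mp hT
        refine ⟨fun i hi => ?_, ?_⟩
        · rcases Finset.mem_insert.mp ((h T hT'.1).1 (Finset.mem_of_mem_erase hi)) with rfl | h'
          · exact absurd hi (Finset.notMem_erase _ _)
          · exact h'
        · rw [Finset.card_erase_of_mem hT'.2]
          have := (h T hT'.1).2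
          omega)
      have hcs := EE_cs hp hp1 (fun x => poly p 𝒮0 c x ^ 2) (fun x => poly p 𝒮1 c1 x ^ 2)
      have r4 : ∀ F : (E → Bool) → ℝ, EE p (fun x => (F x ^ 2) ^ 2) = EE p (fun x => F x ^ 4) := by
        intro F; congr 1; funext x; ring
      rw [r4, r4] at hcs
      set G := EE p (fun x => poly p 𝒮0 c x ^ 2) with hGdef
      set H := EE p (fun x => poly p 𝒮1 c1 x ^ 2) with hHdef
      set G4 := EE p (fun x => poly p 𝒮0 c x ^ 4) with hG4def
      set H4 := EE p (fun x => poly p 𝒮1 c1 x ^ 4) with hH4def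
      set X := EE p (fun x => poly p 𝒮0 c x ^ 2 * poly p 𝒮1 c1 x ^ 2) with hXdef
      have hG0 : 0 ≤ G := EE_nonneg hp hp1 (fun x => by positivity)
      have hH0 : 0 ≤ H := EE_nonneg hp hp1 (fun x => by positivity)
      have hG40 : 0 ≤ G4 := EE_nonneg hp hp1 (fun x => by positivity)
      have hH40 : 0 ≤ H4 := EE_nonneg hp hp1 (fun x => by positivity)
      have hX0 : 0 ≤ X := EE_nonneg hp hp1 (fun x => by positivity)
      have hBm : 0 < B ^ m := pow_pos (by linarith) m
      have hX : X ≤ B ^ (m + 1) * (G * H) / 4 := by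
        refine abs_le_of_sq_le_sq' ?_ (by positivity) |>.2
        calc X ^ 2 ≤ G4 * H4 := hcs
          _ ≤ (B ^ (m + 1) * G ^ 2) * (B ^ m * H ^ 2) := by gcongr
          _ = (B ^ m * (G * H)) ^ 2 * B := by ring
          _ ≤ (B ^ m * (G * H)) ^ 2 * (B ^ 2 / 16) := by
              refine mul_le_mul_of_nonneg_left ?_ (by positivity)
              nlinarith
          _ = (B ^ (m + 1) * (G * H) / 4) ^ 2 := by ring
      calc EE p (fun x => (poly p 𝒮0 c x + phi p (x e) * poly p 𝒮1 c1 x) ^ 4)
          ≤ G4 + 8 * X + B * H4 := e4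
        _ ≤ B ^ (m + 1) * G ^ 2 + 8 * (B ^ (m + 1) * (G * H) / 4) + B * (B ^ m * H ^ 2) := by
            have : B * H4 ≤ B * (B ^ m * H ^ 2) := mul_le_mul_of_nonneg_left hh4 (by linarith)
            linarith
        _ = B ^ (m + 1) * (G + H) ^ 2 := by ring

/-- (X1) fourth-norm hypercontractivity for p-biased polynomials of degree at most `m`. -/
theorem bonami {E : Type*} [Fintype E] [DecidableEq E] (p : ℝ) (hp : 0 < p) (hp1 : p < 1)
    (𝒮 : Finset (Finset E)) (c : Finset E → ℝ) (m : ℕ) (h𝒮 : ∀ S ∈ 𝒮, S.card ≤ m) :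
    EE p (fun x => (poly p 𝒮 c x) ^ 4) ≤
      (4 / (p * (1 - p))) ^ m * (EE p (fun x => (poly p 𝒮 c x) ^ 2)) ^ 2 :=
  bonami_aux p hp hp1 Finset.univ 𝒮 c m (fun S hS => ⟨Finset.subset_univ S, h𝒮 S hS⟩)

end Crest.Agent.H21Bonami
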