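import Mathlib
import Crest.Prelude.Def_FinProb
import Crest.Prelude.Def_RandomGraph
import Crest.Agent.H6Defs
import Crest.Agent.H21Bonami

/-!
Module X4 of rid 56: Russo's formula, the differential inequality, and the reduction of S0077.
-/

set_option autoImplicit false
set_option linter.unusedSectionVars false

namespace Crest.Agent.H21Russo

open Finset Crest.FinProb Crest.Agent.H6Defs Crest.Agent.H21Bonami

variable {E : Type*} [Fintype E] [DecidableEq E]

lemma bernoulliProb_eq (p : ℝ) (A : Set (E → Bool)) [DecidablePred (· ∈ A)] :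
    bernoulliProb p A = ∑ x, bernoulliWeight p x * (if x ∈ A then 1 else 0) := by
  unfold bernoulliProb
  simp only [mul_ite, mul_one, mul_zero]
  rw [← Finset.sum_filter]
  congr 1
  ext x
  simp

lemma PT_eq (p : ℝ) (f : (E → Bool) → Bool) :
    PT p f = ∑ x, bernoulliWeight p x * (if f x = true then 1 else 0) := by
  unfold PT
  rw [bernoulliProb_eq]
  rfl

lemma piv_eq (p : ℝ) (f : (E → Bool) → Bool) (e : E) :
    2 * piv p f e = ∑ x, wOff p e x *
      (if f (Function.update x e true) ≠ f (Function.update x e false) then 1 else 0) := by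
  unfold piv
  rw [bernoulliProb_eq, two_sum e]
  refine Finset.sum_congr rfl (fun x _ => ?_)
  rw [weight_update, weight_update]
  simp only [Set.mem_ofPred_eq, Function.update_idem]
  by_cases hc : f (Function.update x e true) = f (Function.update x e false)
  · simp [hc]
  · simp [hc]; ring

/-- derivative of the weight -/
lemma hasDerivAt_weight (p : ℝ) (x : E → Bool) :
    HasDerivAt (fun p => bernoulliWeight p x)
      (∑ e, wOff p e x * (if x e then 1 else -1)) p := by
  unfold bernoulliWeight wOff
  have h := HasDerivAt.fun_finsetProd (u := (Finset.univ : Finset E))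
    (f := fun i p => if x i then p else 1 - p) (f' := fun i => if x i then (1 : ℝ) else -1) (x := p)
    (fun i _ => by
      cases hx : x i
      · simpa using (hasDerivAt_id' p).const_sub 1
      · simpa using hasDerivAt_id' p)
  simpa [smul_eq_mul] using h

/-- Russo's formula -/
lemma hasDerivAt_PT (f : (E → Bool) → Bool)
    (hmono : ∀ x y : E → Bool, (∀ e, x e = true → y e = true) → f x = true → f y = true) (p : ℝ) :
    HasDerivAt (fun p => PT p f) (PI p f) p := by
  have h : HasDerivAt (fun p => ∑ x : E → Bool, bernoulliWeight p x * (if f x = true then 1 else 0))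
      (∑ x : E → Bool, (∑ e, wOff p e x * (if x e then 1 else -1)) *
        (if f x = true then 1 else 0)) p := by
    refine HasDerivAt.fun_sum (fun x _ => ?_)
    exact (hasDerivAt_weight p x).mul_const _
  have e1 : (fun p => PT p f) =
      (fun p => ∑ x : E → Bool, bernoulliWeight p x * (if f x = true then 1 else 0)) := by
    funext p; exact PT_eq p f
  have e2 : PI p f = ∑ x : E → Bool, (∑ e, wOff p e x * (if x e then 1 else -1)) *
        (if f x = true then 1 else 0) := by
    simp only [Finset.sum_mul]
    rw [Finset.sum_comm]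
    unfold H6Defs.PI
    refine Finset.sum_congr rfl (fun e _ => ?_)
    have h2 : 2 * piv p f e = 2 * ∑ x : E → Bool, wOff p e x * (if x e then 1 else -1) *
        (if f x = true then 1 else 0) := by
      rw [piv_eq, two_sum e]
      refine Finset.sum_congr rfl (fun x _ => ?_)
      have hw : ∀ b, wOff p e (Function.update x e b) = wOff p e x := by
        intro b
        unfold wOff
        refine Finset.prod_congr rfl (fun i hi => ?_)
        rw [Function.update_of_ne (Finset.ne_of_mem_erase hi)]
      rw [hw, hw]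
      simp only [Function.update_self]
      have hm : f (Function.update x e false) = true → f (Function.update x e true) = true := by
        apply hmono
        intro i hi
        by_cases hie : i = e
        · subst hie; simp
        · rw [Function.update_of_ne hie] at hi ⊢; exact hi
      cases h0 : f (Function.update x e false) with
      | true => rw [hm h0]; simp
      | false =>
        cases h1 : f (Function.update x e true) <;> simp
    linarith
  rw [e1, e2]
  exact h

lemma PT_pos (f : (E → Bool) → Bool) (h1 : f (fun _ => true) = true) {p : ℝ} (hp : 0 < p)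
    (hp1 : p < 1) : 0 < PT p f := by
  rw [PT_eq]
  have hnn : ∀ x ∈ (Finset.univ : Finset (E → Bool)),
      0 ≤ bernoulliWeight p x * (if f x = true then (1 : ℝ) else 0) := by
    intro x _
    refine mul_nonneg (weight_nonneg hp hp1 x) (by split_ifs <;> norm_num)
  refine lt_of_lt_of_le ?_ (Finset.single_le_sum hnn (Finset.mem_univ (fun _ => true)))
  rw [h1]
  simp [bernoulliWeight]
  exact pow_pos hp _

lemma PT_lt_one (f : (E → Bool) → Bool) (h0 : f (fun _ => false) = false) {p : ℝ} (hp : 0 < p)
    (hp1 : p < 1) : PT p f < 1 := by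
  have hs : 1 - PT p f = ∑ x : E → Bool, bernoulliWeight p x * (if f x = true then 0 else 1) := by
    have hsw := sum_weight (E := E) p
    rw [PT_eq]
    nth_rewrite 1 [← hsw]
    rw [← Finset.sum_sub_distrib]
    refine Finset.sum_congr rfl (fun x _ => ?_)
    split_ifs <;> ring
  have hnn : ∀ x ∈ (Finset.univ : Finset (E → Bool)),
      0 ≤ bernoulliWeight p x * (if f x = true then (0 : ℝ) else 1) := by
    intro x _
    refine mul_nonneg (weight_nonneg hp hp1 x) (by split_ifs <;> norm_num)
  have : 0 < 1 - PT p f := by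
    rw [hs]
    refine lt_of_lt_of_le ?_ (Finset.single_le_sum hnn (Finset.mem_univ (fun _ => false)))
    rw [h0]
    simp [bernoulliWeight]
    exact pow_pos (by linarith) _
  linarith

lemma PT_zero (f : (E → Bool) → Bool) (h0 : f (fun _ => false) = false) : PT 0 f = 0 := by
  rw [PT_eq]
  refine Finset.sum_eq_zero (fun x _ => ?_)
  by_cases hx : ∃ e, x e = true
  · obtain ⟨e, he⟩ := hx
    have : bernoulliWeight (0 : ℝ) x = 0 := by
      unfold bernoulliWeight
      exact Finset.prod_eq_zero (Finset.mem_univ e) (by rw [he]; simp)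
    rw [this, zero_mul]
  · have : x = fun _ => false := by
      funext e
      by_contra h
      exact hx ⟨e, by simpa using h⟩
    rw [this, h0]
    simp

lemma PT_one (f : (E → Bool) → Bool) (h1 : f (fun _ => true) = true) : PT 1 f = 1 := by
  rw [PT_eq, Finset.sum_eq_single (fun _ => true)]
  · rw [h1]; simp [bernoulliWeight]
  · intro x _ hx
    have : ∃ e, x e = false := by
      by_contra h
      apply hx
      funext e
      by_contra h'
      exact h ⟨e, by simpa using h'⟩
    obtain ⟨e, he⟩ := this
    have : bernoulliWeight (1 : ℝ) x = 0 := by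
      unfold bernoulliWeight
      exact Finset.prod_eq_zero (Finset.mem_univ e) (by rw [he]; simp)
    rw [this, zero_mul]
  · intro h; exact absurd (Finset.mem_univ _) h

/-- (X4) the threshold window from an influence inequality -/
theorem threshold_of_influence {E : Type*} [Fintype E] [DecidableEq E] (K : ℝ) (hK : 0 < K)
    (f : (E → Bool) → Bool)
    (hmono : ∀ x y : E → Bool, (∀ e, x e = true → y e = true) → f x = true → f y = true)
    (h0 : f (fun _ => false) = false) (h1 : f (fun _ => true) = true)
    (hineq : ∀ p : ℝ, 0 < p → p < 1 → K * (PT p f * (1 - PT p f)) ≤ PI p f)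
    (ε : ℝ) (hε0 : 0 < ε) (hε : ε < 1 / 2) (p q : ℝ) (hp0 : 0 ≤ p) (hp1 : p ≤ 1)
    (hq0 : 0 ≤ q) (hq1 : q ≤ 1) (hp : ε ≤ PT p f)
    (hq : p + 4 / K * Real.log (1 / (2 * ε)) ≤ q) : 1 - ε ≤ PT q f := by
  have hlog : 0 < Real.log (1 / (2 * ε)) := by
    apply Real.log_pos
    rw [lt_div_iff₀ (by linarith)]
    linarith
  have hT : 0 < 4 / K * Real.log (1 / (2 * ε)) := mul_pos (div_pos (by norm_num) hK) hlog
  rcases eq_or_lt_of_le hp0 with hp00 | hp00
  · rw [← hp00, PT_zero f h0] at hp; linarith
  rcases eq_or_lt_of_le hq1 with hq11 | hq11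
  · rw [hq11, PT_one f h1]; linarith
  have hpq : p < q := by linarith
  have hp11 : p < 1 := by linarith
  have hq00 : 0 < q := by linarith
  -- the potential
  set L : ℝ → ℝ := fun t => Real.log (PT t f) - Real.log (1 - PT t f) - K * t with hL
  have hd : ∀ t ∈ Set.Ioo (0 : ℝ) 1, HasDerivAt L
      (PI t f / PT t f - (-(PI t f)) / (1 - PT t f) - K * 1) t := by
    intro t ht
    have g0 := PT_pos f h1 ht.1 ht.2
    have g1 := PT_lt_one f h0 ht.1 ht.2
    have hR := hasDerivAt_PT f hmono t
    exact ((hR.log g0.ne').sub ((hR.const_sub 1).log (by linarith))).sub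
      ((hasDerivAt_id t).const_mul K)
  have hLm : MonotoneOn L (Set.Ioo 0 1) := by
    apply monotoneOn_of_deriv_nonneg (convex_Ioo 0 1)
    · exact fun t ht => (hd t ht).continuousAt.continuousWithinAt
    · rw [interior_Ioo]
      exact fun t ht => (hd t ht).differentiableAt.differentiableWithinAt
    · rw [interior_Ioo]
      intro t ht
      rw [(hd t ht).deriv]
      have g0 := PT_pos f h1 ht.1 ht.2
      have g1 : 0 < 1 - PT t f := by linarith [PT_lt_one f h0 ht.1 ht.2]
      have hi := hineq t ht.1 ht.2
      have : PI t f / PT t f - (-(PI t f)) / (1 - PT t f) - K * 1 =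
          (PI t f - K * (PT t f * (1 - PT t f))) / (PT t f * (1 - PT t f)) := by
        field_simp
        ring
      rw [this]
      exact div_nonneg (by linarith) (by positivity)
  have hLpq : L p ≤ L q := hLm ⟨hp00, hp11⟩ ⟨hq00, hq11⟩ hpq.le
  simp only [hL] at hLpq
  by_contra hcon
  push Not at hcon
  have gp1 : 0 < 1 - PT p f := by linarith [PT_lt_one f h0 hp00 hp11]
  have gq0 := PT_pos f h1 hq00 hq11
  have a1 : Real.log ε ≤ Real.log (PT p f) := Real.log_le_log hε0 hp
  have a2 : Real.log (1 - PT p f) ≤ Real.log (1 - ε) := Real.log_le_log gp1 (by linarith)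
  have a3 : Real.log (PT q f) < Real.log (1 - ε) := Real.log_lt_log gq0 hcon
  have a4 : Real.log ε < Real.log (1 - PT q f) := Real.log_lt_log hε0 (by linarith)
  have a5 : K * q - K * p ≥ 4 * Real.log (1 / (2 * ε)) := by
    have : K * (4 / K * Real.log (1 / (2 * ε))) = 4 * Real.log (1 / (2 * ε)) := by
      field_simp
    nlinarith
  have a6 : Real.log (1 / (2 * ε)) = -(Real.log 2 + Real.log ε) := by
    rw [one_div, Real.log_inv, Real.log_mul (by norm_num) hε0.ne']
  have a7 : Real.log (1 - ε) + Real.log ε + 2 * Real.log 2 ≤ 0 := by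
    have : Real.log (1 - ε) + Real.log ε + 2 * Real.log 2 = Real.log ((1 - ε) * ε * 2 ^ 2) := by
      rw [Real.log_mul (mul_pos (by linarith) hε0).ne' (by norm_num),
        Real.log_mul (by linarith) hε0.ne', Real.log_pow]
      push_cast; ring
    rw [this]
    apply Real.log_nonpos
    · have : 0 < 1 - ε := by linarith
      positivity
    · nlinarith [sq_nonneg (2 * ε - 1)]
  rw [a6] at a5
  linarith

/-! ### The reduction of S0077 -/

open Crest.CombinatoricsR.RandomGraph

/-- The Boolean function of a graph property. -/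
noncomputable def fP {n : ℕ} (P : Set (SimpleGraph (Fin n))) (ω : EdgeSlot n → Bool) : Bool :=
  @decide (graphOf ω ∈ P) (Classical.propDecidable _)

lemma fP_true {n : ℕ} (P : Set (SimpleGraph (Fin n))) (ω : EdgeSlot n → Bool) :
    fP P ω = true ↔ graphOf ω ∈ P := by
  unfold fP
  simp

lemma PT_fP (n : ℕ) (p : ℝ) (P : Set (SimpleGraph (Fin n))) : PT p (fP P) = gnpProb n p P := by
  unfold PT gnpProb
  congr 1
  ext ω
  exact fP_true P ω

lemma graphOf_mono {n : ℕ} {x y : EdgeSlot n → Bool} (h : ∀ e, x e = true → y e = true) :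
    graphOf x ≤ graphOf y := by
  unfold graphOf
  apply SimpleGraph.fromEdgeSet_mono
  rintro z ⟨hz, hx⟩
  exact ⟨hz, h _ hx⟩

lemma graphOf_false (n : ℕ) : graphOf (fun _ : EdgeSlot n => false) = ⊥ := by
  unfold graphOf
  rw [← SimpleGraph.fromEdgeSet_empty]
  congr 1
  ext z
  simp

lemma le_graphOf_true {n : ℕ} (G : SimpleGraph (Fin n)) :
    G ≤ graphOf (fun _ : EdgeSlot n => true) := by
  intro a b hab
  unfold graphOf
  rw [SimpleGraph.fromEdgeSet_adj]
  refine ⟨⟨?_, rfl⟩, hab.ne⟩
  simpa using hab.ne

/-- The reduction of S0077 to the influence inequality. -/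
theorem S0077_of_ineq (n : ℕ) (hn : 2 ≤ n)
    (P : Set (SimpleGraph (Fin n)))
    (hmono : ∀ G G' : SimpleGraph (Fin n), G ≤ G' → G ∈ P → G' ∈ P)
    (hne : P.Nonempty) (hnu : P ≠ Set.univ)
    (hineq : ∀ p : ℝ, 0 < p → p < 1 →
      (Real.log n ^ 2 / 2 ^ 17) * (PT p (fP P) * (1 - PT p (fP P))) ≤ PI p (fP P))
    (ε : ℝ) (hε0 : 0 < ε) (hε : ε < 1 / 2)
    (p q : ℝ) (hp0 : 0 ≤ p) (hp1 : p ≤ 1) (hq0 : 0 ≤ q) (hq1 : q ≤ 1)
    (hp : ε ≤ Crest.CombinatoricsR.RandomGraph.gnpProb n p P)
    (hq : p + 2 ^ 19 / Real.log n ^ 2 * Real.log (1 / (2 * ε)) ≤ q) :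
    1 - ε ≤ Crest.CombinatoricsR.RandomGraph.gnpProb n q P := by
  have hlogn : 0 < Real.log n := Real.log_pos (by exact_mod_cast hn)
  rw [← PT_fP] at hp ⊢
  refine threshold_of_influence (Real.log n ^ 2 / 2 ^ 17) (by positivity) (fP P) ?_ ?_ ?_ hineq
    ε hε0 hε p q hp0 hp1 hq0 hq1 hp ?_
  · intro x y hxy hx
    rw [fP_true] at hx ⊢
    exact hmono _ _ (graphOf_mono hxy) hx
  · rw [← Bool.not_eq_true, fP_true, graphOf_false]
    intro h
    exact hnu (Set.eq_univ_of_forall (fun G => hmono _ _ bot_le h))
  · rw [fP_true]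
    obtain ⟨G, hG⟩ := hne
    exact hmono _ _ (le_graphOf_true G) hG
  · have : (4 : ℝ) / (Real.log n ^ 2 / 2 ^ 17) = 2 ^ 19 / Real.log n ^ 2 := by
      field_simp; norm_num
    rw [this]
    exact hq

end Crest.Agent.H21Russo
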