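import Crest.Agent.H16DVPoin
import Crest.Agent.H22DR
import Crest.Agent.H17DVMean2
import Crest.Agent.H11DVNet
import Crest.Agent.LPAsm

/-! rid 254 (S0392): Dvoretzky's theorem with constant 2, assembled; `FIN → S0392`. -/

set_option autoImplicit false

open Crest.GeometryTopology

universe u v

/-- Dvoretzky's theorem with constant 2. -/
theorem Crest.DV.dvProof : Crest.DV.DV.{u} :=
  Crest.DV.netd Crest.DV.drProof Crest.DV.poin Crest.DV.meanProof

/-- `FIN → S0392`. -/
theorem Crest.Agent.LP.of_fin (hF : Crest.Agent.LP.FIN) :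
    ∃ Λ : ℕ, ∀ (B : Type u) [NormedAddCommGroup B] [NormedSpace ℝ B] [CompleteSpace B],
      ¬ FiniteDimensional ℝ B →
      ∃ K : Set B, IsCompact K ∧ DoublingConstLE K Λ ∧
        ∀ (Y : Type v) [NormedAddCommGroup Y] [NormedSpace ℝ Y] [FiniteDimensional ℝ Y]
          (f : K → Y) (c C : NNReal), ¬ (LipschitzWith C f ∧ AntilipschitzWith c f) :=
  Crest.Agent.LP.asm hF (fun B _ _ hB => Crest.DV.dvProof B hB)
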