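import Mathlib

set_option autoImplicit false
set_option linter.all false

namespace Crest.H22Geo

local notation "V3" => EuclideanSpace ℝ (Fin 3)
local notation "S2'" => Metric.sphere (0 : EuclideanSpace ℝ (Fin 3)) 1

noncomputable def sg (r : ℝ) : ZMod 2 := if r < 0 then 1 else 0

lemma sg_neg {r : ℝ} (h : r ≠ 0) : sg (-r) = sg r + 1 := by
  unfold sg
  rcases lt_or_gt_of_ne h with h1 | h1
  · rw [if_pos h1, if_neg (by linarith)]; decide
  · rw [if_pos (by linarith : -r < 0), if_neg (by linarith : ¬ r < 0)]; decide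

noncomputable def Lx (n : EuclideanSpace ℝ (Fin 3)) : ZMod 2 :=
  if n 0 ≠ 0 then sg (n 0) else if n 1 ≠ 0 then sg (n 1) else sg (n 2)

lemma Lx_neg {n : EuclideanSpace ℝ (Fin 3)} (h : n ≠ 0) : Lx (-n) = Lx n + 1 := by
  unfold Lx
  have e : ∀ i, (-n) i = - n i := fun i => rfl
  by_cases h0 : n 0 = 0
  · by_cases h1 : n 1 = 0
    · have h2 : n 2 ≠ 0 := by
        intro h2
        apply h
        ext i
        fin_cases i
        · exact h0
        · exact h1
        · exact h2
      rw [if_neg (by rw [e]; simp [h0]), if_neg (by rw [e]; simp [h1]), if_neg (by simp [h0]),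
        if_neg (by simp [h1]), e, sg_neg h2]
    · rw [if_neg (by rw [e]; simp [h0]), if_pos (by rw [e]; simpa using h1), if_neg (by simp [h0]),
        if_pos h1, e, sg_neg h1]
  · rw [if_pos (by rw [e]; simpa using h0), if_pos h0, e, sg_neg h0]

theorem exists_s' : ∃ s : Metric.sphere (0 : EuclideanSpace ℝ (Fin 3)) 1 → Metric.sphere (0 : EuclideanSpace ℝ (Fin 3)) 1 → ZMod 2, (∀ x y, s x y = s y x) ∧ (∀ x y, s (-x) y = s x y + 1) ∧ (∀ x, s x x = 0) ∧ (∀ x y z, s x y ≠ s x z → |inner ℝ (x : EuclideanSpace ℝ (Fin 3)) (y : EuclideanSpace ℝ (Fin 3))| ≤ dist y z) := by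
  classical
  have nz : ∀ x : Metric.sphere (0 : EuclideanSpace ℝ (Fin 3)) 1, (x : EuclideanSpace ℝ (Fin 3)) ≠ 0 := by
    intro x
    exact ne_zero_of_mem_unit_sphere x
  have nrm : ∀ x : Metric.sphere (0 : EuclideanSpace ℝ (Fin 3)) 1, ‖(x : EuclideanSpace ℝ (Fin 3))‖ = 1 := by
    intro x
    have := x.2
    simpa using this
  refine ⟨fun x y => if inner ℝ (x : EuclideanSpace ℝ (Fin 3)) (y : EuclideanSpace ℝ (Fin 3)) = 0 then Lx x + Lx y
    else sg (inner ℝ (x : EuclideanSpace ℝ (Fin 3)) (y : EuclideanSpace ℝ (Fin 3))), ?_, ?_, ?_, ?_⟩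
  · intro x y
    simp only
    rw [real_inner_comm, add_comm]
  · intro x y
    simp only
    rw [coe_neg_sphere, inner_neg_left]
    by_cases h : inner ℝ (x : EuclideanSpace ℝ (Fin 3)) (y : EuclideanSpace ℝ (Fin 3)) = 0
    · rw [if_pos (by rw [h, neg_zero]), if_pos h, Lx_neg (nz x)]; ring
    · rw [if_neg (by rwa [neg_eq_zero]), if_neg h, sg_neg h]
  · intro x
    simp only
    have : inner ℝ (x : EuclideanSpace ℝ (Fin 3)) (x : EuclideanSpace ℝ (Fin 3)) = 1 := by
      rw [real_inner_self_eq_norm_sq, nrm]; norm_num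
    rw [if_neg (by rw [this]; norm_num), this]
    unfold sg
    rw [if_neg (by norm_num)]
  · intro x y z h
    have hd : |inner ℝ (x : EuclideanSpace ℝ (Fin 3)) (y : EuclideanSpace ℝ (Fin 3))
        - inner ℝ (x : EuclideanSpace ℝ (Fin 3)) (z : EuclideanSpace ℝ (Fin 3))| ≤ dist y z := by
      rw [← inner_sub_right]
      have := abs_real_inner_le_norm (x : EuclideanSpace ℝ (Fin 3)) ((y : EuclideanSpace ℝ (Fin 3)) - z)
      rw [nrm x, one_mul] at this
      rw [Subtype.dist_eq, dist_eq_norm]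
      exact this
    by_contra hc
    push Not at hc
    apply h
    have hy : inner ℝ (x : EuclideanSpace ℝ (Fin 3)) (y : EuclideanSpace ℝ (Fin 3)) ≠ 0 := by
      intro h0
      rw [h0, abs_zero] at hc
      exact absurd dist_nonneg (not_le.2 hc)
    have hz : inner ℝ (x : EuclideanSpace ℝ (Fin 3)) (z : EuclideanSpace ℝ (Fin 3)) ≠ 0 := by
      intro h0
      rw [h0, sub_zero] at hd
      linarith
    simp only
    rw [if_neg hy, if_neg hz]
    unfold sg
    generalize inner ℝ (x : EuclideanSpace ℝ (Fin 3)) (y : EuclideanSpace ℝ (Fin 3)) = p at *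
    generalize inner ℝ (x : EuclideanSpace ℝ (Fin 3)) (z : EuclideanSpace ℝ (Fin 3)) = q at *
    have : (p < 0) ↔ (q < 0) := by
      constructor
      · intro hp
        by_contra hq
        push Not at hq
        rw [abs_of_neg hp] at hc
        rw [abs_of_nonpos (by linarith)] at hd
        linarith
      · intro hq
        by_contra hp
        push Not at hp
        rw [abs_of_nonneg hp] at hc
        rw [abs_of_nonneg (by linarith)] at hd
        linarith
    simp only [this]

end Crest.H22Geo
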