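import Crest.Agent.H22GeoA

set_option autoImplicit false
set_option linter.all false

namespace Crest.H22Geo

abbrev W3 := EuclideanSpace ℝ (Fin 3)
abbrev SS := Metric.sphere (0 : EuclideanSpace ℝ (Fin 3)) 1

lemma nrmS (x : SS) : ‖(x : W3)‖ = 1 := by
  have := x.2
  simpa using this

lemma inner_coord (x y : W3) : inner ℝ x y = x 0 * y 0 + x 1 * y 1 + x 2 * y 2 := by
  simp [PiLp.inner_apply, Fin.sum_univ_three]; ring

lemma sq_coord (x : SS) : (x : W3) 0 ^ 2 + (x : W3) 1 ^ 2 + (x : W3) 2 ^ 2 = 1 := by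
  have h := inner_coord (x : W3) (x : W3)
  rw [real_inner_self_eq_norm_sq, nrmS] at h
  linarith

lemma coord_le (x : SS) (i : Fin 3) : |(x : W3) i| ≤ 1 := by
  have h := sq_coord x
  rw [abs_le_one_iff_mul_self_le_one]
  fin_cases i
  · change (x : W3) 0 * (x : W3) 0 ≤ 1
    nlinarith [sq_nonneg ((x : W3) 1), sq_nonneg ((x : W3) 2)]
  · change (x : W3) 1 * (x : W3) 1 ≤ 1
    nlinarith [sq_nonneg ((x : W3) 0), sq_nonneg ((x : W3) 2)]
  · change (x : W3) 2 * (x : W3) 2 ≤ 1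
    nlinarith [sq_nonneg ((x : W3) 1), sq_nonneg ((x : W3) 0)]

lemma coord_dist (x y : SS) (i : Fin 3) : |(x : W3) i - (y : W3) i| ≤ dist x y := by
  rw [Subtype.dist_eq, dist_eq_norm]
  have := PiLp.norm_apply_le ((x : W3) - (y : W3)) i
  rw [Real.norm_eq_abs] at this
  exact this

noncomputable def cr (x y : W3) : W3 :=
  !₂[x 1 * y 2 - x 2 * y 1, x 2 * y 0 - x 0 * y 2, x 0 * y 1 - x 1 * y 0]

lemma cr0 (x y : W3) : cr x y 0 = x 1 * y 2 - x 2 * y 1 := rfl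
lemma cr1 (x y : W3) : cr x y 1 = x 2 * y 0 - x 0 * y 2 := rfl
lemma cr2 (x y : W3) : cr x y 2 = x 0 * y 1 - x 1 * y 0 := rfl

lemma cr_swap (x y : W3) : cr y x = - cr x y := by
  ext i
  fin_cases i
  · change cr y x 0 = - (cr x y 0); rw [cr0, cr0]; ring
  · change cr y x 1 = - (cr x y 1); rw [cr1, cr1]; ring
  · change cr y x 2 = - (cr x y 2); rw [cr2, cr2]; ring

lemma cr_neg (x y : W3) : cr (-x) y = - cr x y := by
  ext i
  fin_cases i
  · change cr (-x) y 0 = - (cr x y 0); rw [cr0, cr0]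
    change -x 1 * y 2 - -x 2 * y 1 = _; ring
  · change cr (-x) y 1 = - (cr x y 1); rw [cr1, cr1]
    change -x 2 * y 0 - -x 0 * y 2 = _; ring
  · change cr (-x) y 2 = - (cr x y 2); rw [cr2, cr2]
    change -x 0 * y 1 - -x 1 * y 0 = _; ring

lemma cr_sq (x y : SS) : (cr x y 0) ^ 2 + (cr x y 1) ^ 2 + (cr x y 2) ^ 2
    = 1 - (inner ℝ (x : W3) (y : W3)) ^ 2 := by
  have hx := sq_coord x
  have hy := sq_coord y
  rw [cr0, cr1, cr2, inner_coord]
  have : ((x : W3) 0 ^ 2 + (x : W3) 1 ^ 2 + (x : W3) 2 ^ 2) * ((y : W3) 0 ^ 2 + (y : W3) 1 ^ 2 + (y : W3) 2 ^ 2) = 1 := by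
    rw [hx, hy, one_mul]
  nlinarith [this]

lemma cr_ne (x y : SS) (h : |inner ℝ (x : W3) (y : W3)| ≤ 1 / 2) : cr x y ≠ 0 := by
  intro h0
  have h1 := cr_sq x y
  have h2 : (inner ℝ (x : W3) (y : W3)) ^ 2 ≤ 1 / 4 := by
    rw [← sq_abs]
    nlinarith [abs_nonneg (inner ℝ (x : W3) (y : W3))]
  rw [h0] at h1
  change (0:ℝ) ^ 2 + (0:ℝ) ^ 2 + (0:ℝ) ^ 2 = _ at h1
  linarith

/-- tie-broken sign -/
noncomputable def tb (d : ℝ) (n : W3) : ZMod 2 := if d = 0 then Lx n else sg d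

lemma tb_neg (d : ℝ) (n : W3) (h : n ≠ 0) : tb (-d) (-n) = tb d n + 1 := by
  unfold tb
  by_cases hd : d = 0
  · rw [if_pos (by rw [hd, neg_zero]), if_pos hd, Lx_neg h]
  · rw [if_neg (by rwa [neg_eq_zero]), if_neg hd, sg_neg hd]

lemma tb_ne (d e : ℝ) (n m : W3) (h : tb d n ≠ tb e m) : |d| ≤ |d - e| := by
  by_contra hc
  push Not at hc
  apply h
  have hd : d ≠ 0 := by
    rintro rfl
    rw [abs_zero] at hc
    exact absurd (abs_nonneg _) (not_le.2 hc)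
  have he : e ≠ 0 := by
    rintro rfl
    rw [sub_zero] at hc
    exact lt_irrefl _ hc
  unfold tb sg
  rw [if_neg hd, if_neg he]
  have : (d < 0) ↔ (e < 0) := by
    constructor
    · intro hp
      by_contra hq
      push Not at hq
      rw [abs_of_neg hp, abs_of_nonpos (by linarith)] at hc
      linarith
    · intro hq
      by_contra hp
      push Not at hp
      rw [abs_of_nonneg hp, abs_of_nonneg (by linarith)] at hc
      linarith
  simp only [this]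

lemma prod_diff (a b c d δ : ℝ) (h1 : |a - c| ≤ δ) (h2 : |b - d| ≤ δ) (hb : |b| ≤ 1) (hc : |c| ≤ 1) :
    |a * b - c * d| ≤ 2 * δ := by
  have e : a * b - c * d = (a - c) * b + c * (b - d) := by ring
  rw [e]
  have h3 : |(a - c) * b| ≤ δ * 1 := by
    rw [abs_mul]
    exact mul_le_mul h1 hb (abs_nonneg _) (le_trans (abs_nonneg _) h1)
  have h4 : |c * (b - d)| ≤ 1 * δ := by
    rw [abs_mul]
    exact mul_le_mul hc h2 (abs_nonneg _) zero_le_one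
  calc _ ≤ |(a - c) * b| + |c * (b - d)| := abs_add_le _ _
    _ ≤ _ := by linarith

lemma cr_diff (x y x' y' : SS) (h1 : dist x x' ≤ 1 / 100) (h2 : dist y y' ≤ 1 / 100) :
    |cr x y 0 - cr x' y' 0| ≤ 4 / 100 ∧ |cr x y 1 - cr x' y' 1| ≤ 4 / 100 ∧
    |cr x y 2 - cr x' y' 2| ≤ 4 / 100 := by
  have hx : ∀ i, |(x : W3) i - (x' : W3) i| ≤ 1 / 100 := fun i => le_trans (coord_dist x x' i) h1
  have hy : ∀ i, |(y : W3) i - (y' : W3) i| ≤ 1 / 100 := fun i => le_trans (coord_dist y y' i) h2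
  have key : ∀ i j, |((x : W3) i * (y : W3) j - (x : W3) j * (y : W3) i)
      - ((x' : W3) i * (y' : W3) j - (x' : W3) j * (y' : W3) i)| ≤ 4 / 100 := by
    intro i j
    have a1 := prod_diff _ _ _ _ _ (hx i) (hy j) (coord_le y j) (coord_le x' i)
    have a2 := prod_diff _ _ _ _ _ (hx j) (hy i) (coord_le y i) (coord_le x' j)
    have e : ((x : W3) i * (y : W3) j - (x : W3) j * (y : W3) i)
      - ((x' : W3) i * (y' : W3) j - (x' : W3) j * (y' : W3) i)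
      = ((x : W3) i * (y : W3) j - (x' : W3) i * (y' : W3) j)
        - ((x : W3) j * (y : W3) i - (x' : W3) j * (y' : W3) i) := by ring
    rw [e]
    calc _ ≤ |(x : W3) i * (y : W3) j - (x' : W3) i * (y' : W3) j|
        + |(x : W3) j * (y : W3) i - (x' : W3) j * (y' : W3) i| := abs_sub _ _
      _ ≤ _ := by linarith
  exact ⟨key 1 2, key 2 0, key 0 1⟩

theorem exists_G' : ∃ G1 G2 G3 : SS × SS → ZMod 2,
  (∀ x y : SS, |inner ℝ (x : W3) (y : W3)| ≤ 1/2 → G1 (y, x) = G1 (x, y) + 1 ∧ G1 (-x, y) = G1 (x, y) + 1) ∧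
  (∀ x y : SS, |inner ℝ (x : W3) (y : W3)| ≤ 1/2 → G2 (y, x) = G2 (x, y) + 1 ∧ G2 (-x, y) = G2 (x, y) + 1) ∧
  (∀ x y : SS, |inner ℝ (x : W3) (y : W3)| ≤ 1/2 → G3 (y, x) = G3 (x, y) + 1 ∧ G3 (-x, y) = G3 (x, y) + 1) ∧
  ∀ p q r t : SS × SS, |inner ℝ (q.1 : W3) (q.2 : W3)| ≤ 1/2 →
    dist p.1 q.1 ≤ 1/100 → dist p.2 q.2 ≤ 1/100 → dist q.1 r.1 ≤ 1/100 → dist q.2 r.2 ≤ 1/100 →
    dist r.1 t.1 ≤ 1/100 → dist r.2 t.2 ≤ 1/100 →
    (G1 p + G1 q) * (G2 q + G2 r) * (G3 r + G3 t) = 0 := by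
  have gen : ∀ k : Fin 3, ∀ x y : SS, |inner ℝ (x : W3) (y : W3)| ≤ 1/2 →
      tb (cr y x k) (cr y x) = tb (cr x y k) (cr x y) + 1 ∧
      tb (cr ((-x : SS) : W3) y k) (cr ((-x : SS) : W3) y) = tb (cr x y k) (cr x y) + 1 := by
    intro k x y h
    constructor
    · rw [cr_swap x y]
      exact tb_neg _ _ (cr_ne x y h)
    · rw [coe_neg_sphere, cr_neg]
      exact tb_neg _ _ (cr_ne x y h)
  refine ⟨fun p => tb (cr p.1 p.2 0) (cr p.1 p.2), fun p => tb (cr p.1 p.2 1) (cr p.1 p.2),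
    fun p => tb (cr p.1 p.2 2) (cr p.1 p.2), gen 0, gen 1, gen 2, ?_⟩
  intro p q r t hq d1 d2 d3 d4 d5 d6
  by_contra hne
  have m1 := left_ne_zero_of_mul (left_ne_zero_of_mul hne)
  have m2 := right_ne_zero_of_mul (left_ne_zero_of_mul hne)
  have m3 := right_ne_zero_of_mul hne
  have ne' : ∀ x y : ZMod 2, x + y ≠ 0 → x ≠ y := by decide
  have n1 := tb_ne _ _ _ _ (ne' _ _ m1).symm
  have n2 := tb_ne _ _ _ _ (ne' _ _ m2)
  have n3 := tb_ne _ _ _ _ (ne' _ _ m3)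
  obtain ⟨a0, a1, a2⟩ := cr_diff _ _ _ _ d1 d2
  obtain ⟨b0, b1, b2⟩ := cr_diff _ _ _ _ d3 d4
  obtain ⟨c0, c1, c2⟩ := cr_diff _ _ _ _ d5 d6
  rw [abs_sub_comm] at n1
  have hs := cr_sq q.1 q.2
  have h2 : (inner ℝ (q.1 : W3) (q.2 : W3)) ^ 2 ≤ 1 / 4 := by
    rw [← sq_abs]
    nlinarith [abs_nonneg (inner ℝ (q.1 : W3) (q.2 : W3))]
  have k0 : |cr q.1 q.2 0| ≤ 1 / 10 := by linarith
  have k1 : |cr q.1 q.2 1| ≤ 1 / 10 := by linarith
  have k2 : |cr q.1 q.2 2| ≤ 1 / 10 := by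
    have : |cr q.1 q.2 2| ≤ |cr q.1 q.2 2 - cr r.1 r.2 2| + |cr r.1 r.2 2| := by
      have := abs_add_le (cr q.1 q.2 2 - cr r.1 r.2 2) (cr r.1 r.2 2)
      rwa [sub_add_cancel] at this
    linarith
  have s0 : (cr q.1 q.2 0) ^ 2 ≤ 1 / 100 := by
    rw [← sq_abs]; nlinarith [abs_nonneg (cr q.1 q.2 0)]
  have s1 : (cr q.1 q.2 1) ^ 2 ≤ 1 / 100 := by
    rw [← sq_abs]; nlinarith [abs_nonneg (cr q.1 q.2 1)]
  have s2 : (cr q.1 q.2 2) ^ 2 ≤ 1 / 100 := by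
    rw [← sq_abs]; nlinarith [abs_nonneg (cr q.1 q.2 2)]
  linarith

lemma gram (v x y : SS) : (inner ℝ (v : W3) (cr x y)) ^ 2
    = 1 + 2 * inner ℝ (v : W3) (x : W3) * inner ℝ (v : W3) (y : W3) * inner ℝ (x : W3) (y : W3)
      - (inner ℝ (v : W3) (x : W3)) ^ 2 - (inner ℝ (v : W3) (y : W3)) ^ 2 - (inner ℝ (x : W3) (y : W3)) ^ 2 := by
  have hv := sq_coord v
  have hx := sq_coord x
  have hy := sq_coord y
  simp only [inner_coord, cr0, cr1, cr2]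
  generalize (v : W3) 0 = v0 at *
  generalize (v : W3) 1 = v1 at *
  generalize (v : W3) 2 = v2 at *
  generalize (x : W3) 0 = x0 at *
  generalize (x : W3) 1 = x1 at *
  generalize (x : W3) 2 = x2 at *
  generalize (y : W3) 0 = y0 at *
  generalize (y : W3) 1 = y1 at *
  generalize (y : W3) 2 = y2 at *
  have e : (v0 * (x1 * y2 - x2 * y1) + v1 * (x2 * y0 - x0 * y2) + v2 * (x0 * y1 - x1 * y0)) ^ 2
    = (v0^2+v1^2+v2^2) * (x0^2+x1^2+x2^2) * (y0^2+y1^2+y2^2)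
      + 2 * (v0 * x0 + v1 * x1 + v2 * x2) * (v0 * y0 + v1 * y1 + v2 * y2) * (x0 * y0 + x1 * y1 + x2 * y2)
      - (v0 * x0 + v1 * x1 + v2 * x2)^2 * (y0^2+y1^2+y2^2)
      - (v0 * y0 + v1 * y1 + v2 * y2)^2 * (x0^2+x1^2+x2^2)
      - (x0 * y0 + x1 * y1 + x2 * y2)^2 * (v0^2+v1^2+v2^2) := by ring
  rw [e, hv, hx, hy]; ring

theorem exists_Gv' (v : SS) : ∃ G : SS → SS → ZMod 2,
  (∀ x y : SS, |inner ℝ (x : W3) (y : W3)| ≤ 1/10 → G y x = G x y + 1) ∧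
  (∀ x y : SS, |inner ℝ (x : W3) (y : W3)| ≤ 1/10 → G (-x) y = G x y + 1) ∧
  ∀ x x' y : SS, |inner ℝ (v : W3) (x : W3)| ≤ 1/10 →
   |inner ℝ (v : W3) (x' : W3)| ≤ 1/10 →
   |inner ℝ (v : W3) (y : W3)| ≤ 1/10 →
   |inner ℝ (x : W3) (y : W3)| ≤ 1/10 →
   |inner ℝ (x' : W3) (y : W3)| ≤ 1/10 →
   dist x x' ≤ 1/100 → G x y = G x' y := by
  refine ⟨fun x y => tb (inner ℝ (v : W3) (cr x y)) (cr x y), ?_, ?_, ?_⟩
  · intro x y h
    simp only
    rw [cr_swap (x : W3) y, inner_neg_right]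
    exact tb_neg _ _ (cr_ne x y (by linarith))
  · intro x y h
    simp only
    rw [coe_neg_sphere, cr_neg, inner_neg_right]
    exact tb_neg _ _ (cr_ne x y (by linarith))
  · intro x x' y h1 h2 h3 h4 h5 hd
    by_contra hne
    have hlt := tb_ne _ _ _ _ hne
    have hg := gram v x y
    obtain ⟨a0, a1, a2⟩ := cr_diff x y x' y hd (by rw [dist_self]; norm_num)
    have hdiff : |inner ℝ (v : W3) (cr x y) - inner ℝ (v : W3) (cr x' y)| ≤ 12 / 100 := by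
      rw [inner_coord, inner_coord]
      have e : (v : W3) 0 * cr (x : W3) y 0 + (v : W3) 1 * cr (x : W3) y 1 + (v : W3) 2 * cr (x : W3) y 2
        - ((v : W3) 0 * cr (x' : W3) y 0 + (v : W3) 1 * cr (x' : W3) y 1 + (v : W3) 2 * cr (x' : W3) y 2)
        = (v : W3) 0 * (cr (x : W3) y 0 - cr (x' : W3) y 0) + (v : W3) 1 * (cr (x : W3) y 1 - cr (x' : W3) y 1)
          + (v : W3) 2 * (cr (x : W3) y 2 - cr (x' : W3) y 2) := by ring
      rw [e]
      have t : ∀ i, |(v : W3) i * (cr (x : W3) y i - cr (x' : W3) y i)| ≤ 1 * |cr (x : W3) y i - cr (x' : W3) y i| := by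
        intro i
        rw [abs_mul]
        exact mul_le_mul_of_nonneg_right (coord_le v i) (abs_nonneg _)
      have t0 := t 0
      have t1 := t 1
      have t2 := t 2
      calc _ ≤ |(v : W3) 0 * (cr (x : W3) y 0 - cr (x' : W3) y 0) + (v : W3) 1 * (cr (x : W3) y 1 - cr (x' : W3) y 1)|
          + |(v : W3) 2 * (cr (x : W3) y 2 - cr (x' : W3) y 2)| := abs_add_le _ _
        _ ≤ |(v : W3) 0 * (cr (x : W3) y 0 - cr (x' : W3) y 0)| + |(v : W3) 1 * (cr (x : W3) y 1 - cr (x' : W3) y 1)|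
          + |(v : W3) 2 * (cr (x : W3) y 2 - cr (x' : W3) y 2)| := by gcongr; exact abs_add_le _ _
        _ ≤ _ := by linarith
    have hsmall : (inner ℝ (v : W3) (cr x y)) ^ 2 ≤ (12 / 100) ^ 2 := by
      rw [← sq_abs]
      exact pow_le_pow_left₀ (abs_nonneg _) (le_trans hlt hdiff) 2
    generalize inner ℝ (v : W3) (x : W3) = A at *
    generalize inner ℝ (v : W3) (y : W3) = B at *
    generalize inner ℝ (x : W3) (y : W3) = C at *
    have qA : A ^ 2 ≤ 1 / 100 := by rw [← sq_abs]; nlinarith [abs_nonneg A]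
    have qB : B ^ 2 ≤ 1 / 100 := by rw [← sq_abs]; nlinarith [abs_nonneg B]
    have qC : C ^ 2 ≤ 1 / 100 := by rw [← sq_abs]; nlinarith [abs_nonneg C]
    have qABC : |2 * A * B * C| ≤ 2 / 100 := by
      have : |2 * A * B * C| = 2 * (|A| * |B| * |C|) := by
        rw [abs_mul, abs_mul, abs_mul, abs_two]; ring
      rw [this]
      have hAB : |A| * |B| ≤ 1 / 10 * (1 / 10) := mul_le_mul h1 h3 (abs_nonneg _) (by norm_num)
      have hABC : |A| * |B| * |C| ≤ 1 / 10 * (1 / 10) * (1 / 10) :=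
        mul_le_mul hAB h4 (abs_nonneg _) (by norm_num)
      linarith
    have := (abs_le.1 qABC).1
    linarith

end Crest.H22Geo
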