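import Crest.Agent.LPCore2

/-! rid 254 (S0392): helper lemmas for ISTEP. -/

set_option autoImplicit false
open Set Filter Topology
open scoped RealInnerProductSpace

namespace Crest.LP

theorem pk_of_subset_finset {X : Type*} [PseudoMetricSpace X] (ρ : ℝ) (K : ℕ) (T : Set X) (B : Finset X)
    (hB : T ⊆ ↑B) (h : B.card ≤ K) : Pk ρ K T := by
  intro A r hA _ _ _
  exact (Finset.card_le_card (by exact_mod_cast hA.trans hB)).trans h

section
variable {G F : Type} [NormedAddCommGroup G] [InnerProductSpace ℝ G]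
  [NormedAddCommGroup F] [InnerProductSpace ℝ F]

/-- I0 : a member with the pair `(x, y), (0, 0)` -/
theorem fam_pair {D : ℝ} {S : (k : ℕ) → Set (Fin k → G × F)} (hS : Fam G F D S) (x : G) (hx : x ≠ 0) :
    ∃ y : F, (![(x, y), (0, 0)] : Fin 2 → G × F) ∈ S 2 := by
  classical
  obtain ⟨s, hs⟩ := hS.point
  have h1 := hS.trans 1 s (-(s 0).1) (-(s 0).2) hs
  set s' : Fin 1 → G × F := fun i => ((s i).1 + -(s 0).1, (s i).2 + -(s 0).2) with hs'
  have h0 : s' = ![(0, 0)] := by
    funext i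
    fin_cases i
    simp [hs']
  have hpos : ∀ i, (s' i).1 = 0 := by
    intro i; rw [h0]; fin_cases i; rfl
  obtain ⟨y, hy⟩ := hS.ext 1 s' x h1 (fun i j _ => Subsingleton.elim i j)
    (by rintro ⟨i, hi⟩; exact hx (by rw [← hi]; exact hpos i))
    (pk_of_subset_finset _ _ _ {x, 0} (by
      rintro z (rfl | ⟨i, rfl⟩)
      · simp
      · simp [hpos i]) (Finset.card_le_two.trans (by norm_num)))
  refine ⟨y, ?_⟩
  have : (Fin.cons (x, y) s' : Fin 2 → G × F) = ![(x, y), (0, 0)] := by
    rw [h0]; rfl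
  rw [← this]
  exact hy

variable [FiniteDimensional ℝ G] [FiniteDimensional ℝ F]

/-- I1 : the extremal ratio is attained -/
theorem fam_sup {D : ℝ} {S : (k : ℕ) → Set (Fin k → G × F)} (hS : Fam G F D S) (x₀ : G) (hx₀ : x₀ ≠ 0) :
    ∃ (Sg : ℝ) (e : G) (u : F), 1 ≤ Sg ∧ Sg ≤ D ∧ ‖e‖ = 1 ∧ ‖u‖ = 1 ∧
      (∀ L : ℝ, 0 < L → ∀ (c : G) (z : F),
        (![(c + L • e, z + (L * Sg) • u), (c - L • e, z - (L * Sg) • u)] : Fin 2 → G × F) ∈ S 2) ∧
      (∀ k, ∀ s ∈ S k, ∀ i j : Fin k, dist (s i).2 (s j).2 ≤ Sg * dist (s i).1 (s j).1) := by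
  classical
  have : ProperSpace G := FiniteDimensional.proper ℝ G
  have : ProperSpace F := FiniteDimensional.proper ℝ F
  set C : Set (G × F) := {p | ‖p.1‖ = 1 ∧ (![p, (0, 0)] : Fin 2 → G × F) ∈ S 2} with hC
  have hcont : Continuous (fun p : G × F => (![p, (0, 0)] : Fin 2 → G × F)) := by
    refine continuous_pi fun i => ?_
    fin_cases i
    · exact continuous_id
    · exact continuous_const
  have hCclosed : IsClosed C :=
    (isClosed_eq (continuous_norm.comp continuous_fst) continuous_const).inter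
      ((hS.closed 2).preimage hcont)
  have hbound : ∀ p ∈ C, 1 ≤ ‖p.2‖ ∧ ‖p.2‖ ≤ D := by
    rintro p ⟨hp1, hp2⟩
    have h1 := hS.dbl 2 _ hp2 0 1
    simp only [Matrix.cons_val_zero, Matrix.cons_val_one, dist_zero_right] at h1
    rw [hp1, mul_one] at h1
    exact h1
  have hCb : Bornology.IsBounded C := by
    rw [isBounded_iff_forall_norm_le]
    refine ⟨max 1 D, fun p hp => ?_⟩
    rw [Prod.norm_def]
    exact max_le (hp.1.le.trans (le_max_left _ _)) ((hbound p hp).2.trans (le_max_right _ _))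
  have hCc : IsCompact C := Metric.isCompact_of_isClosed_isBounded hCclosed hCb
  have hnx : 0 < ‖x₀‖ := norm_pos_iff.mpr hx₀
  have hCne : C.Nonempty := by
    set e₀ : G := (1 / ‖x₀‖) • x₀ with he₀
    have hne : ‖e₀‖ = 1 := by
      rw [he₀, norm_smul, Real.norm_of_nonneg (by positivity)]
      field_simp
    obtain ⟨y, hy⟩ := fam_pair hS e₀ (by intro h; rw [h, norm_zero] at hne; exact zero_ne_one hne)
    exact ⟨(e₀, y), hne, hy⟩
  obtain ⟨⟨e, y₀⟩, heC, hmax⟩ := hCc.exists_isMaxOn hCne (f := fun p : G × F => ‖p.2‖)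
    (continuous_norm.comp continuous_snd).continuousOn
  have hb := hbound _ heC
  simp only at hb
  set Sg : ℝ := ‖y₀‖ with hSg
  have hSgpos : 0 < Sg := by linarith [hb.1]
  set u : F := (1 / Sg) • y₀ with hu
  have hun : ‖u‖ = 1 := by
    rw [hu, norm_smul, Real.norm_of_nonneg (by positivity), ← hSg]
    field_simp
  have huy : Sg • u = y₀ := by
    rw [hu, smul_smul]
    rw [mul_one_div_cancel hSgpos.ne', one_smul]
  refine ⟨Sg, e, u, hb.1, hb.2, heC.1, hun, ?_, ?_⟩
  · intro L hL c z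
    have h1 := hS.scale 2 _ (2 * L) (by linarith) heC.2
    have h2 := hS.trans 2 _ (c - L • e) (z - (L * Sg) • u) h1
    convert h2 using 1
    funext i
    fin_cases i
    · simp only [Fin.zero_eta, Matrix.cons_val_zero, Prod.mk.injEq]
      constructor
      · module
      · rw [← huy]; module
    · simp
  · intro k s hs i j
    by_cases hij : i = j
    · rw [hij, dist_self, dist_self, mul_zero]
    by_cases hx : (s i).1 = (s j).1
    · have := (hS.dbl k s hs i j).2
      rw [hx, dist_self, mul_zero] at this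
      rw [hx, dist_self, mul_zero]
      exact this
    have hpos : 0 < dist (s i).1 (s j).1 := dist_pos.mpr hx
    set ℓ : ℝ := dist (s i).1 (s j).1 with hℓ
    have hinj : Function.Injective (![i, j] : Fin 2 → Fin k) := by
      intro a b hab
      fin_cases a <;> fin_cases b <;> simp_all
    have h1 := hS.restr k 2 ![i, j] s hinj hs
    have h2 := hS.trans 2 _ (-(s j).1) (-(s j).2) h1
    have h3 := hS.scale 2 _ (1 / ℓ) (by positivity) h2
    have hmem : ((1 / ℓ) • ((s i).1 - (s j).1), (1 / ℓ) • ((s i).2 - (s j).2)) ∈ C := by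
      refine ⟨?_, ?_⟩
      · simp only
        rw [norm_smul, Real.norm_of_nonneg (by positivity), ← dist_eq_norm, ← hℓ]
        field_simp
      · convert h3 using 1
        funext a
        fin_cases a
        · simp [sub_eq_add_neg]
        · simp
    have h4 := hmax hmem
    simp only [mem_ofPred_eq, norm_smul] at h4
    rw [Real.norm_of_nonneg (by positivity), ← dist_eq_norm, one_div, inv_mul_le_iff₀ hpos] at h4
    rw [mul_comm]
    exact h4

omit [FiniteDimensional ℝ G] [FiniteDimensional ℝ F] in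
/-- I2 : the key estimate -/
theorem key_est (Sg L : ℝ) (hSg : 0 < Sg) (hL : 0 < L) (e c x : G) (u z y : F) (he : ‖e‖ = 1)
    (hu : ‖u‖ = 1)
    (h1 : dist y (z + (L * Sg) • u) ≤ Sg * dist x (c + L • e))
    (h2 : dist y (z - (L * Sg) • u) ≤ Sg * dist x (c - L • e)) :
    ‖y - z‖ ≤ Sg * ‖x - c‖ ∧ |⟪y - z, u⟫ - Sg * ⟪x - c, e⟫| ≤ Sg * ‖x - c‖ ^ 2 / (2 * L) := by
  rw [dist_eq_norm, dist_eq_norm] at h1 h2
  have e1 : y - (z + (L * Sg) • u) = (y - z) - (L * Sg) • u := by abel
  have e2 : x - (c + L • e) = (x - c) - L • e := by abel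
  have e3 : y - (z - (L * Sg) • u) = (y - z) + (L * Sg) • u := by abel
  have e4 : x - (c - L • e) = (x - c) + L • e := by abel
  rw [e1, e2] at h1
  rw [e3, e4] at h2
  have q1 := pow_le_pow_left₀ (norm_nonneg _) h1 2
  have q2 := pow_le_pow_left₀ (norm_nonneg _) h2 2
  rw [mul_pow, norm_sub_sq_real (y - z) ((L * Sg) • u), norm_sub_sq_real (x - c) (L • e), norm_smul, norm_smul, he, hu, inner_smul_right,
    inner_smul_right, Real.norm_of_nonneg hL.le, Real.norm_of_nonneg (by positivity)] at q1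
  rw [mul_pow, norm_add_sq_real (y - z) ((L * Sg) • u), norm_add_sq_real (x - c) (L • e), norm_smul, norm_smul, he, hu, inner_smul_right,
    inner_smul_right, Real.norm_of_nonneg hL.le, Real.norm_of_nonneg (by positivity)] at q2
  set P := ⟪y - z, u⟫
  set Q := ⟪x - c, e⟫
  constructor
  · apply le_of_sq_le_sq _ (by positivity)
    nlinarith
  · rw [abs_le]
    have hLS : 0 < 2 * L * Sg := by positivity
    have hyz : 0 ≤ ‖y - z‖ ^ 2 := by positivity
    constructor
    · rw [← sub_nonneg]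
      have : P - Sg * Q - -(Sg * ‖x - c‖ ^ 2 / (2 * L)) =
          (2 * L * Sg * P - 2 * L * Sg ^ 2 * Q + Sg ^ 2 * ‖x - c‖ ^ 2) / (2 * L * Sg) := by
        field_simp
        ring
      rw [this]
      apply div_nonneg _ hLS.le
      nlinarith
    · rw [← sub_nonneg]
      have : Sg * ‖x - c‖ ^ 2 / (2 * L) - (P - Sg * Q) =
          (Sg ^ 2 * ‖x - c‖ ^ 2 - 2 * L * Sg * P + 2 * L * Sg ^ 2 * Q) / (2 * L * Sg) := by
        field_simp
        ring
      rw [this]
      apply div_nonneg _ hLS.le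
      nlinarith

omit [FiniteDimensional ℝ G] [FiniteDimensional ℝ F] in
/-- I3 : `n = 0` -/
theorem istep_zero {D : ℝ} {S : (k : ℕ) → Set (Fin k → G × F)} [Subsingleton F] (x₀ : G) (hx₀ : x₀ ≠ 0) :
    ¬ Fam G F D S := by
  intro hS
  obtain ⟨y, hy⟩ := fam_pair hS x₀ hx₀
  have := (hS.dbl 2 _ hy 0 1).1
  simp only [Matrix.cons_val_zero, Matrix.cons_val_one, dist_zero_right] at this
  rw [Subsingleton.elim y 0, norm_zero] at this
  exact hx₀ (norm_le_zero_iff.mp this)

/-- dimension of the orthogonal complement -/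
theorem finrank_perp (e : G) (he : e ≠ 0) :
    Module.finrank ℝ (ℝ ∙ e)ᗮ + 1 = Module.finrank ℝ G := by
  have h := Submodule.finrank_add_finrank_orthogonal (ℝ ∙ e)
  rw [finrank_span_singleton he] at h
  omega

end

end Crest.LP
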