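import Crest.Agent.H22Istep
import Crest.Agent.H23LPPert2

/-! rid 254 (S0392): ISTEP. -/

set_option autoImplicit false
open Set Filter Topology
open scoped RealInnerProductSpace

namespace Crest.LP.H22

section
variable {G F : Type} [NormedAddCommGroup G] [InnerProductSpace ℝ G]
  [NormedAddCommGroup F] [InnerProductSpace ℝ F]

/-- the family seen from a far extremal pair -/
def SP (S : (k : ℕ) → Set (Fin k → G × F)) (Sg : ℝ) (e : G) (u : F) (k : ℕ) :
    Set (Fin k → (ℝ ∙ e)ᗮ × (ℝ ∙ u)ᗮ) :=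
  {s | ∀ ε : ℝ, 0 < ε → ∀ R : ℝ, ∃ L : ℝ, R ≤ L ∧ 0 < L ∧ ∃ (c : G) (z : F), ‖c‖ ^ 2 ≤ ε * L ∧
    ∃ t : Fin k → G × F,
      (Fin.cons (c + L • e, z + (L * Sg) • u) (Fin.cons (c - L • e, z - (L * Sg) • u) t :
        Fin (k + 1) → G × F) : Fin (k + 2) → G × F) ∈ S (k + 2) ∧
      ∀ i : Fin k, dist (t i).1 ((s i).1 : G) ≤ ε ∧ dist (t i).2 ((s i).2 : F) ≤ ε}

theorem inj_two {j k : ℕ} (g : Fin j → Fin k) (hg : Function.Injective g) :
    Function.Injective (Fin.cons 0 (Fin.cons 1 (fun i => (g i).succ.succ) : Fin (j + 1) → Fin (k + 2)) :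
      Fin (j + 2) → Fin (k + 2)) := by
  rw [Fin.cons_injective_iff, Fin.cons_injective_iff]
  refine ⟨?_, ?_, ?_⟩
  · rintro ⟨i, hi⟩
    revert hi
    refine Fin.cases ?_ (fun i => ?_) i
    · intro h; simp at h
    · intro h; simp only [Fin.cons_succ] at h; exact absurd h (Fin.succ_ne_zero _)
  · rintro ⟨i, hi⟩
    have : (g i).succ.succ = (Fin.succ (0 : Fin (k + 1))) := hi
    rw [Fin.succ_inj] at this
    exact absurd this (Fin.succ_ne_zero _)
  · intro a b hab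
    simp only [Fin.succ_inj] at hab
    exact hg hab

theorem inj_cyc (k : ℕ) :
    Function.Injective (Fin.cons 1 (Fin.cons 2 (Fin.cons 0 (fun i : Fin k => i.succ.succ.succ) :
      Fin (k + 1) → Fin (k + 3)) : Fin (k + 2) → Fin (k + 3)) : Fin (k + 3) → Fin (k + 3)) := by
  have h1 : (1 : Fin (k + 3)) = Fin.succ (0 : Fin (k + 2)) := rfl
  have h2 : (2 : Fin (k + 3)) = Fin.succ (Fin.succ (0 : Fin (k + 1))) := rfl
  rw [Fin.cons_injective_iff, Fin.cons_injective_iff, Fin.cons_injective_iff]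
  refine ⟨?_, ?_, ?_, ?_⟩
  · rintro ⟨i, hi⟩
    revert hi
    refine Fin.cases ?_ (fun i => Fin.cases ?_ (fun i => ?_) i) i
    · intro h
      rw [Fin.cons_zero, h1, h2, Fin.succ_inj] at h
      exact Fin.succ_ne_zero _ h
    · intro h
      rw [Fin.cons_succ, Fin.cons_zero, h1] at h
      exact Fin.succ_ne_zero _ h.symm
    · intro h
      rw [Fin.cons_succ, Fin.cons_succ, h1, Fin.succ_inj] at h
      exact Fin.succ_ne_zero _ h
  · rintro ⟨i, hi⟩
    revert hi
    refine Fin.cases ?_ (fun i => ?_) i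
    · intro h
      rw [Fin.cons_zero, h2] at h
      exact Fin.succ_ne_zero _ h.symm
    · intro h
      rw [Fin.cons_succ, h2, Fin.succ_inj, Fin.succ_inj] at h
      exact Fin.succ_ne_zero _ h
  · rintro ⟨i, hi⟩
    exact Fin.succ_ne_zero _ hi
  · intro a b hab
    simp only [Fin.succ_inj] at hab
    exact hab

theorem cyc_mem {D : ℝ} {S : (k : ℕ) → Set (Fin k → G × F)} (hS : Fam G F D S) {k : ℕ}
    (a b x : G × F) (t : Fin k → G × F)
    (h : (Fin.cons x (Fin.cons a (Fin.cons b t : Fin (k + 1) → G × F) : Fin (k + 2) → G × F) :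
      Fin (k + 3) → G × F) ∈ S (k + 3)) :
    (Fin.cons a (Fin.cons b (Fin.cons x t : Fin (k + 1) → G × F) : Fin (k + 2) → G × F) :
      Fin (k + 3) → G × F) ∈ S (k + 3) := by
  have h1 := hS.restr (k + 3) (k + 3) _ _ (inj_cyc k) h
  convert h1 using 1
  funext i
  refine Fin.cases ?_ (fun i => Fin.cases ?_ (fun i => Fin.cases ?_ (fun i => ?_) i) i) i
  · rfl
  · rfl
  · rfl
  · rfl

variable {D : ℝ} {S : (k : ℕ) → Set (Fin k → G × F)} (hS : Fam G F D S) (Sg : ℝ) (e : G) (u : F)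

theorem sp_closed (k : ℕ) : IsClosed (SP S Sg e u k) := by
  apply isClosed_of_closure_subset
  intro s hs ε hε R
  rw [Metric.mem_closure_iff] at hs
  obtain ⟨s₁, hs₁, hd⟩ := hs (ε / 2) (by positivity)
  obtain ⟨L, hRL, hL, c, z, hc, t, ht, hti⟩ := hs₁ (ε / 2) (by positivity) R
  refine ⟨L, hRL, hL, c, z, hc.trans (by nlinarith), t, ht, fun i => ?_⟩
  have h0 : dist (s i) (s₁ i) < ε / 2 := (dist_le_pi_dist s s₁ i).trans_lt hd
  rw [Prod.dist_eq] at h0
  have h1 : dist ((s i).1 : G) ((s₁ i).1 : G) < ε / 2 := (le_max_left _ _).trans_lt h0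
  have h2 : dist ((s i).2 : F) ((s₁ i).2 : F) < ε / 2 := (le_max_right _ _).trans_lt h0
  constructor
  · have := dist_triangle_right (t i).1 ((s i).1 : G) ((s₁ i).1 : G)
    linarith [(hti i).1]
  · have := dist_triangle_right (t i).2 ((s i).2 : F) ((s₁ i).2 : F)
    linarith [(hti i).2]

include hS in
theorem sp_restr (k j : ℕ) (g : Fin j → Fin k) (s : Fin k → (ℝ ∙ e)ᗮ × (ℝ ∙ u)ᗮ)
    (hg : Function.Injective g) (hs : s ∈ SP S Sg e u k) : s ∘ g ∈ SP S Sg e u j := by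
  intro ε hε R
  obtain ⟨L, hRL, hL, c, z, hc, t, ht, hti⟩ := hs ε hε R
  refine ⟨L, hRL, hL, c, z, hc, t ∘ g, ?_, fun i => hti (g i)⟩
  have h1 := hS.restr (k + 2) (j + 2) _ _ (inj_two g hg) ht
  convert h1 using 1
  funext i
  refine Fin.cases ?_ (fun i => Fin.cases ?_ (fun i => ?_) i) i
  · rfl
  · rfl
  · rfl

include hS in
theorem sp_dbl (hD : 0 ≤ D) (k : ℕ) (s : Fin k → (ℝ ∙ e)ᗮ × (ℝ ∙ u)ᗮ)
    (hs : s ∈ SP S Sg e u k) (i j : Fin k) :
    dist (s i).1 (s j).1 ≤ dist (s i).2 (s j).2 ∧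
    dist (s i).2 (s j).2 ≤ D * dist (s i).1 (s j).1 := by
  rw [Subtype.dist_eq, Subtype.dist_eq]
  constructor
  · apply le_of_forall_pos_le_add
    intro ε hε
    obtain ⟨L, hRL, hL, c, z, hc, t, ht, hti⟩ := hs (ε / 4) (by positivity) 0
    have h1 := (hS.dbl _ _ ht i.succ.succ j.succ.succ).1
    simp only [Fin.cons_succ] at h1
    have h2 := dist_triangle4 ((s i).1 : G) (t i).1 (t j).1 ((s j).1 : G)
    have h3 := dist_triangle4 (t i).2 ((s i).2 : F) ((s j).2 : F) (t j).2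
    have h4 := (hti i).1
    have h5 := (hti j).1
    have h6 := (hti i).2
    have h7 := (hti j).2
    rw [dist_comm (t i).1] at h4
    rw [dist_comm (t j).2] at h7
    linarith
  · apply le_of_forall_pos_le_add
    intro ε hε
    obtain ⟨L, hRL, hL, c, z, hc, t, ht, hti⟩ := hs (ε / (4 * (D + 1))) (by positivity) 0
    have h1 := (hS.dbl _ _ ht i.succ.succ j.succ.succ).2
    simp only [Fin.cons_succ] at h1
    have h2 := dist_triangle4 ((s i).2 : F) (t i).2 (t j).2 ((s j).2 : F)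
    have h3 := dist_triangle4 (t i).1 ((s i).1 : G) ((s j).1 : G) (t j).1
    have h4 := (hti i).2
    have h5 := (hti j).2
    have h6 := (hti i).1
    have h7 := (hti j).1
    rw [dist_comm (t i).2] at h4
    rw [dist_comm (t j).1] at h7
    have h8 : D * dist (t i).1 (t j).1 ≤ D * (dist ((s i).1 : G) ((s j).1 : G) + 2 * (ε / (4 * (D + 1)))) :=
      mul_le_mul_of_nonneg_left (by linarith) hD
    have h9 : (D + 1) * (ε / (4 * (D + 1))) = ε / 4 := by
      field_simp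
    nlinarith

include hS in
theorem sp_trans (k : ℕ) (s : Fin k → (ℝ ∙ e)ᗮ × (ℝ ∙ u)ᗮ) (v : (ℝ ∙ e)ᗮ) (w : (ℝ ∙ u)ᗮ)
    (hs : s ∈ SP S Sg e u k) : (fun i => ((s i).1 + v, (s i).2 + w)) ∈ SP S Sg e u k := by
  intro ε hε R
  obtain ⟨L, hRL, hL, c, z, hc, t, ht, hti⟩ := hs (ε / 4) (by positivity) (max R (4 * ‖(v : G)‖ ^ 2 / ε))
  have hL1 : R ≤ L := (le_max_left _ _).trans hRL
  have hL2 : 4 * ‖(v : G)‖ ^ 2 ≤ L * ε := by
    have := (le_max_right _ _).trans hRL
    rwa [div_le_iff₀ hε] at this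
  refine ⟨L, hL1, hL, c + v, z + w, ?_, fun i => ((t i).1 + v, (t i).2 + w), ?_, fun i => ?_⟩
  · have h1 : ‖c + v‖ ≤ ‖c‖ + ‖(v : G)‖ := norm_add_le _ _
    have h2 : ‖c + v‖ ^ 2 ≤ (‖c‖ + ‖(v : G)‖) ^ 2 := pow_le_pow_left₀ (norm_nonneg _) h1 2
    nlinarith [sq_nonneg (‖c‖ - ‖(v : G)‖)]
  · have h1 := hS.trans _ _ (v : G) (w : F) ht
    convert h1 using 1
    funext i
    refine Fin.cases ?_ (fun i => Fin.cases ?_ (fun i => ?_) i) i
    · simp only [Fin.cons_zero, Prod.mk.injEq]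
      constructor <;> abel
    · simp only [Fin.cons_succ, Fin.cons_zero, Prod.mk.injEq]
      constructor <;> abel
    · simp only [Fin.cons_succ]
  · simp only [Submodule.coe_add, dist_add_right]
    exact ⟨(hti i).1.trans (by linarith), (hti i).2.trans (by linarith)⟩

include hS in
theorem sp_scale (k : ℕ) (s : Fin k → (ℝ ∙ e)ᗮ × (ℝ ∙ u)ᗮ) (lam : ℝ) (hlam : 0 < lam)
    (hs : s ∈ SP S Sg e u k) : (fun i => (lam • (s i).1, lam • (s i).2)) ∈ SP S Sg e u k := by
  intro ε hε R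
  obtain ⟨L, hRL, hL, c, z, hc, t, ht, hti⟩ := hs (ε / lam) (by positivity) (R / lam)
  refine ⟨lam * L, ?_, by positivity, lam • c, lam • z, ?_,
    fun i => (lam • (t i).1, lam • (t i).2), ?_, fun i => ?_⟩
  · rw [div_le_iff₀ hlam] at hRL
    linarith
  · rw [norm_smul, mul_pow, Real.norm_of_nonneg hlam.le]
    have h1 : lam ^ 2 * ‖c‖ ^ 2 ≤ lam ^ 2 * (ε / lam * L) := mul_le_mul_of_nonneg_left hc (by positivity)
    have h2 : lam ^ 2 * (ε / lam * L) = ε * (lam * L) := by field_simp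
    linarith
  · have h1 := hS.scale _ _ lam hlam ht
    convert h1 using 1
    funext i
    refine Fin.cases ?_ (fun i => Fin.cases ?_ (fun i => ?_) i) i
    · simp only [Fin.cons_zero, Prod.mk.injEq]
      constructor <;> module
    · simp only [Fin.cons_succ, Fin.cons_zero, Prod.mk.injEq]
      constructor <;> module
    · simp only [Fin.cons_succ]
  · simp only [Submodule.coe_smul, dist_smul₀, Real.norm_of_nonneg hlam.le]
    have h1 := (hti i).1
    have h2 := (hti i).2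
    rw [le_div_iff₀ hlam] at h1 h2
    constructor <;> linarith

include hS in
theorem sp_point (he : ‖e‖ = 1) (hu : ‖u‖ = 1) (hSg : 0 < Sg)
    (hpair : ∀ L : ℝ, 0 < L → ∀ (c : G) (z : F),
      (![(c + L • e, z + (L * Sg) • u), (c - L • e, z - (L * Sg) • u)] : Fin 2 → G × F) ∈ S 2)
    (hrat : ∀ k, ∀ s ∈ S k, ∀ i j : Fin k, dist (s i).2 (s j).2 ≤ Sg * dist (s i).1 (s j).1) :
    ∃ s, s ∈ SP S Sg e u 1 := by
  classical
  refine ⟨fun _ => (0, 0), ?_⟩
  intro ε hε R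
  obtain ⟨L, hLR, hL1⟩ : ∃ L : ℝ, R ≤ L ∧ 1 ≤ L := ⟨max R 1, le_max_left _ _, le_max_right _ _⟩
  have hL : 0 < L := by linarith
  have hLe : L • e ≠ 0 := by
    rw [ne_eq, smul_eq_zero, not_or]
    refine ⟨hL.ne', ?_⟩
    intro h; rw [h, norm_zero] at he; exact zero_ne_one he
  have h0 := hpair L hL 0 0
  have hinj : Function.Injective (fun i : Fin 2 => ((![((0 : G) + L • e, (0 : F) + (L * Sg) • u),
      (0 - L • e, 0 - (L * Sg) • u)] : Fin 2 → G × F) i).1) := by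
    have hne : (0 : G) + L • e ≠ 0 - L • e := by
      intro h
      have : L • e = 0 := by
        have h2 : (2 : ℝ) • (L • e) = 0 := by
          rw [two_smul]
          calc L • e + L • e = (0 + L • e) - (0 - L • e) := by abel
            _ = 0 := sub_eq_zero.mpr h
        exact (smul_eq_zero.mp h2).resolve_left two_ne_zero
      exact hLe this
    intro i j hij
    fin_cases i <;> fin_cases j
    · rfl
    · exact absurd hij hne
    · exact absurd hij.symm hne
    · rfl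
  obtain ⟨y, hy⟩ := hS.ext 2 _ (0 : G) h0 hinj (by
      rintro ⟨i, hi⟩
      fin_cases i
      · apply hLe; simpa using hi
      · apply hLe; simpa using hi)
    (pk_of_subset_finset _ _ _ {0, 0 + L • e, 0 - L • e} (by
      rintro w (rfl | ⟨i, rfl⟩)
      · simp
      · fin_cases i <;> simp) Finset.card_le_three)
  have hkey := key_est Sg L hSg hL e 0 0 u 0 y he hu (hrat 3 _ hy 0 1) (hrat 3 _ hy 0 2)
  have hy0 : y = 0 := by
    have := hkey.1
    rw [sub_zero, sub_zero, norm_zero, mul_zero] at this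
    exact norm_le_zero_iff.mp this
  refine ⟨L, hLR, hL, 0, 0, by rw [norm_zero, zero_pow two_ne_zero]; positivity, fun _ => (0, 0), ?_,
    fun i => by simp [hε.le]⟩
  have h1 := cyc_mem hS (k := 0) _ _ _ Fin.elim0 (show (Fin.cons (0, y) (Fin.cons
    ((0 : G) + L • e, (0 : F) + (L * Sg) • u) (Fin.cons (0 - L • e, 0 - (L * Sg) • u) Fin.elim0 :
      Fin 1 → G × F) : Fin 2 → G × F) : Fin 3 → G × F) ∈ S 3 by
      convert hy using 1
      funext i
      fin_cases i <;> rfl)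
  convert h1 using 1
  funext i
  fin_cases i
  · rfl
  · rfl
  · show ((0 : G), (0 : F)) = (0, y)
    rw [hy0]

omit [NormedAddCommGroup F] [InnerProductSpace ℝ F] in
theorem gen_aux (w c : G) (Sg ε L A : ℝ) (hSg : 0 < Sg) (hL : 0 < L) (hA : 0 ≤ A) (hw : ‖w‖ ≤ A)
    (hc : ‖c‖ ^ 2 ≤ ε * L) (hLinv : 1 ≤ ε * L) :
    Sg * ‖w - c‖ ^ 2 / (2 * L) ≤ Sg * (A ^ 2 + 1) * ε := by
  rw [div_le_iff₀ (by positivity)]
  have h1 : ‖w - c‖ ^ 2 ≤ (A + ‖c‖) ^ 2 :=
    pow_le_pow_left₀ (norm_nonneg _) ((norm_sub_le _ _).trans (by linarith)) 2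
  have h2 : (A + ‖c‖) ^ 2 ≤ 2 * A ^ 2 + 2 * ‖c‖ ^ 2 := by nlinarith [sq_nonneg (A - ‖c‖)]
  have h3 : A ^ 2 * 1 ≤ A ^ 2 * (ε * L) := mul_le_mul_of_nonneg_left hLinv (sq_nonneg A)
  have h4 : ‖w - c‖ ^ 2 ≤ (A ^ 2 + 1) * ε * (2 * L) := by linarith
  have h5 := mul_le_mul_of_nonneg_left h4 hSg.le
  linarith

include hS in
theorem ext_step [FiniteDimensional ℝ G] [FiniteDimensional ℝ F]
    (he : ‖e‖ = 1) (hu : ‖u‖ = 1) (hSg : 0 < Sg)
    (hrat : ∀ k, ∀ s ∈ S k, ∀ i j : Fin k, dist (s i).2 (s j).2 ≤ Sg * dist (s i).1 (s j).1)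
    (k : ℕ) (s : Fin (k + 1) → (ℝ ∙ e)ᗮ × (ℝ ∙ u)ᗮ) (x : (ℝ ∙ e)ᗮ)
    (hs : s ∈ SP S Sg e u (k + 1)) (hinj : Function.Injective (fun i => (s i).1))
    (hx : x ∉ range (fun i => (s i).1)) (hpk : Pk 10 3 (insert x (range fun i => (s i).1))) :
    ∃ C : ℝ, 0 ≤ C ∧ ∃ δ : ℝ, 0 < δ ∧ ∀ ε : ℝ, 0 < ε → ε ≤ δ → ∀ R : ℝ, ∃ L : ℝ, R ≤ L ∧ 0 < L ∧
      ∃ (c : G) (z : F), ‖c‖ ^ 2 ≤ ε * L ∧ ∃ (t : Fin (k + 1) → G × F) (y : F),
      (Fin.cons (c + L • e, z + (L * Sg) • u) (Fin.cons (c - L • e, z - (L * Sg) • u)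
        (Fin.cons ((x : G), y) t : Fin (k + 2) → G × F) :
        Fin (k + 3) → G × F) : Fin (k + 4) → G × F) ∈ S (k + 4) ∧
      (∀ i, dist (t i).1 ((s i).1 : G) ≤ ε ∧ dist (t i).2 ((s i).2 : F) ≤ ε) ∧
      dist y ((s 0).2 : F) ≤ C ∧ |⟪y, u⟫| ≤ C * ε := by
  classical
  set X : Fin (k + 2) → G := Fin.cons (x : G) (fun i => ((s i).1 : G)) with hX
  have hXinj : Function.Injective X := by
    rw [hX, Fin.cons_injective_iff]
    refine ⟨?_, ?_⟩
    · rintro ⟨i, hi⟩
      exact hx ⟨i, Subtype.ext hi⟩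
    · intro a b hab
      exact hinj (Subtype.ext hab)
  have hXr : range X = (Subtype.val) '' (insert x (range fun i => (s i).1)) := by
    rw [hX, Fin.range_cons, image_insert_eq, ← range_comp]
    rfl
  have hXpk : Pk 10 3 (range X) := by
    rw [hXr]
    exact Pk.image_sim _ 1 one_pos (fun a b => by rw [one_mul, Subtype.dist_eq]) hpk
  obtain ⟨δ₁, hδ₁, hper⟩ := pert G (k + 2) X hXinj hXpk
  obtain ⟨δ₂, hδ₂, R₀, hfar⟩ := farp G (k + 2) X hXinj hXpk
  -- bound on the positions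
  obtain ⟨M, hM0, hM⟩ : ∃ M : ℝ, 0 ≤ M ∧ ∀ i, ‖X i‖ ≤ M :=
    ⟨∑ i, ‖X i‖, Finset.sum_nonneg fun _ _ => norm_nonneg _, fun i =>
      Finset.single_le_sum (f := fun i => ‖X i‖) (fun _ _ => norm_nonneg _) (Finset.mem_univ i)⟩
  have hx1 : ⟪(x : G), e⟫ = 0 := Submodule.mem_orthogonal_singleton_iff_inner_left.mp x.2
  have hs01 : ⟪((s 0).1 : G), e⟫ = 0 := Submodule.mem_orthogonal_singleton_iff_inner_left.mp (s 0).1.2
  have hs02 : ⟪((s 0).2 : F), u⟫ = 0 := Submodule.mem_orthogonal_singleton_iff_inner_left.mp (s 0).2.2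
  set C₁ : ℝ := Sg * (dist (x : G) ((s 0).1 : G) + 1) + 1 with hC₁
  set C₂ : ℝ := 1 + Sg * (M ^ 2 + 1) + Sg * ((M + 1) ^ 2 + 1) + Sg with hC₂
  have hC₁0 : 0 ≤ C₁ := by positivity
  have hC₂0 : 0 ≤ C₂ := by positivity
  refine ⟨C₁ + C₂, by positivity, min (min δ₁ δ₂) (1 / 4), by positivity, ?_⟩
  intro ε hε hεδ R
  have hεδ₁ : ε ≤ δ₁ := hεδ.trans ((min_le_left _ _).trans (min_le_left _ _))
  have hεδ₂ : ε ≤ δ₂ := hεδ.trans ((min_le_left _ _).trans (min_le_right _ _))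
  have hε4 : ε ≤ 1 / 4 := hεδ.trans (min_le_right _ _)
  set R₁ : ℝ := max R₀ (ε + 1) with hR₁
  obtain ⟨L, hRL, hL, c, z, hc, t, ht, hti⟩ := hs ε hε (max (max R 1) (max (1 / ε) (2 * (R₁ + M))))
  have hL1 : R ≤ L := ((le_max_left _ _).trans (le_max_left _ _)).trans hRL
  have hL2 : 1 ≤ L := ((le_max_right _ _).trans (le_max_left _ _)).trans hRL
  have hL3 : 1 / ε ≤ L := ((le_max_left _ _).trans (le_max_right _ _)).trans hRL
  have hL4 : 2 * (R₁ + M) ≤ L := ((le_max_right _ _).trans (le_max_right _ _)).trans hRL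
  have hLinv : 1 ≤ ε * L := by
    rw [div_le_iff₀ hε] at hL3
    linarith
  have hcL : ‖c‖ ≤ L / 2 := by
    by_contra h
    push Not at h
    nlinarith [norm_nonneg c]
  set p : G := c + L • e with hp
  set q : G := c - L • e with hq
  have hLe : ‖L • e‖ = L := by rw [norm_smul, he, mul_one, Real.norm_of_nonneg hL.le]
  have hpX : ∀ i, R₁ ≤ dist p (X i) := by
    intro i
    rw [dist_eq_norm]
    have h1 : ‖L • e‖ ≤ ‖p - X i‖ + ‖c‖ + ‖X i‖ := by
      have : L • e = (p - X i) - c + X i := by rw [hp]; abel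
      rw [this]
      exact (norm_add_le _ _).trans (by linarith [norm_sub_le (p - X i) c])
    linarith [hM i]
  have hqX : ∀ i, R₁ ≤ dist q (X i) := by
    intro i
    rw [dist_eq_norm]
    have h1 : ‖L • e‖ ≤ ‖q - X i‖ + ‖c‖ + ‖X i‖ := by
      have : L • e = -(q - X i) + c - X i := by rw [hq]; abel
      rw [this]
      refine (norm_sub_le _ _).trans ?_
      have := norm_add_le (-(q - X i)) c
      rw [norm_neg] at this
      linarith
    linarith [hM i]
  set x' : Fin (k + 2) → G := Fin.cons (x : G) (fun i => (t i).1) with hx'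
  have hd : ∀ i, dist (x' i) (X i) ≤ ε := by
    intro i
    refine Fin.cases ?_ (fun i => ?_) i
    · rw [hx', hX, Fin.cons_zero, Fin.cons_zero, dist_self]; exact hε.le
    · rw [hx', hX, Fin.cons_succ, Fin.cons_succ]; exact (hti i).1
  have hx'inj := (hper x' (fun i => (hd i).trans hεδ₁)).1
  have hfpk := hfar x' (fun i => (hd i).trans hεδ₂) p q
    (fun i => (le_max_left _ _).trans (hpX i)) (fun i => (le_max_left _ _).trans (hqX i))
  have hpx' : ∀ i, p ≠ x' i := by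
    intro i h
    have h1 := hpX i
    rw [h] at h1
    have h2 := (le_max_right R₀ (ε + 1)).trans h1
    linarith [hd i]
  have hqx' : ∀ i, q ≠ x' i := by
    intro i h
    have h1 := hqX i
    rw [h] at h1
    have h2 := (le_max_right R₀ (ε + 1)).trans h1
    linarith [hd i]
  have hpq : p ≠ q := by
    intro h
    have h1 : (2 : ℝ) • (L • e) = 0 := by
      rw [two_smul]
      calc L • e + L • e = p - q := by rw [hp, hq]; abel
        _ = 0 := sub_eq_zero.mpr h
    have h2 := (smul_eq_zero.mp h1).resolve_left two_ne_zero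
    rw [h2, norm_zero] at hLe
    linarith
  set s' : Fin (k + 3) → G × F := Fin.cons (p, z + (L * Sg) • u) (Fin.cons (q, z - (L * Sg) • u) t :
        Fin (k + 2) → G × F) with hs'
  have hs'1 : (fun i => (s' i).1) = (Fin.cons p (Fin.cons q (fun i => (t i).1) : Fin (k + 2) → G) :
      Fin (k + 3) → G) := by
    funext i
    refine Fin.cases ?_ (fun i => Fin.cases ?_ (fun i => ?_) i) i
    · rfl
    · rfl
    · rfl
  have htx : ∀ i, (t i).1 = x' i.succ := by
    intro i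
    rw [hx', Fin.cons_succ]
  have hs'inj : Function.Injective (fun i => (s' i).1) := by
    rw [hs'1, Fin.cons_injective_iff, Fin.cons_injective_iff]
    refine ⟨?_, ?_, ?_⟩
    · rintro ⟨i, hi⟩
      revert hi
      refine Fin.cases ?_ (fun i => ?_) i
      · intro h; rw [Fin.cons_zero] at h; exact hpq h.symm
      · intro h
        rw [Fin.cons_succ] at h
        simp only [htx] at h
        exact hpx' _ h.symm
    · rintro ⟨i, hi⟩
      simp only [htx] at hi
      exact hqx' _ hi.symm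
    · intro a b hab
      simp only [htx] at hab
      exact Fin.succ_injective _ (hx'inj hab)
  have hxr : (x : G) ∉ range (fun i => (s' i).1) := by
    rw [hs'1, Fin.range_cons, Fin.range_cons]
    rintro (h | h | ⟨i, hi⟩)
    · exact hpx' 0 h.symm
    · exact hqx' 0 h.symm
    · simp only [htx] at hi
      have h0 : x' 0 = (x : G) := rfl
      rw [← h0] at hi
      exact absurd (hx'inj hi) (Fin.succ_ne_zero _)
  have hpk' : Pk 10 3 (insert (x : G) (range (fun i => (s' i).1))) := by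
    have : insert (x : G) (range (fun i => (s' i).1)) = insert p (insert q (range x')) := by
      rw [hs'1, Fin.range_cons, Fin.range_cons, hx', Fin.range_cons, insert_comm (x : G) p,
        insert_comm (x : G) q]
    rw [this]
    exact hfpk
  obtain ⟨y, hy⟩ := hS.ext (k + 3) s' (x : G) ht hs'inj hxr hpk'
  refine ⟨L, hL1, hL, c, z, hc, t, y, cyc_mem hS _ _ _ _ hy, hti, ?_, ?_⟩
  · have h1 := hrat _ _ hy 0 (Fin.succ (Fin.succ (Fin.succ (0 : Fin (k + 1)))))
    have h1' : dist y (t 0).2 ≤ Sg * dist (x : G) (t 0).1 := h1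
    have h2 := dist_triangle y (t 0).2 ((s 0).2 : F)
    have h3 := dist_triangle_right (x : G) (t 0).1 ((s 0).1 : G)
    have h4 : Sg * dist (x : G) (t 0).1 ≤ Sg * (dist (x : G) ((s 0).1 : G) + 1) :=
      mul_le_mul_of_nonneg_left (by linarith [(hti 0).1]) hSg.le
    have h5 := (hti 0).2
    linarith
  · have hk1 := key_est Sg L hSg hL e c (x : G) u z y he hu (hrat _ _ hy 0 1) (hrat _ _ hy 0 2)
    have hk2 := key_est Sg L hSg hL e c (t 0).1 u z (t 0).2 he hu
      (hrat _ _ hy (Fin.succ (Fin.succ (Fin.succ (0 : Fin (k + 1))))) 1)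
      (hrat _ _ hy (Fin.succ (Fin.succ (Fin.succ (0 : Fin (k + 1))))) 2)
    have hk1' := hk1.2
    have hk2' := hk2.2
    have hLinv' : 1 / L ≤ ε := by
      rw [div_le_iff₀ hL]; exact hLinv
    have gen := fun (w : G) (A : ℝ) (hA : 0 ≤ A) (hw : ‖w‖ ≤ A) =>
      gen_aux w c Sg ε L A hSg hL hA hw hc hLinv
    have hg1 := gen (x : G) M hM0 (hM 0)
    have ht01 : ‖(t 0).1‖ ≤ M + 1 := by
      have h1 := (hti 0).1
      rw [dist_eq_norm] at h1
      have h2 : ‖(t 0).1‖ ≤ ‖(t 0).1 - ((s 0).1 : G)‖ + ‖((s 0).1 : G)‖ := by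
        simpa using norm_add_le ((t 0).1 - ((s 0).1 : G)) ((s 0).1 : G)
      have h3 : ‖((s 0).1 : G)‖ ≤ M := hM 1
      linarith
    have hg2 := gen (t 0).1 (M + 1) (by linarith) ht01
    have hi1 : |⟪(x : G) - (t 0).1, e⟫| ≤ ε := by
      have h1 : ⟪(x : G) - (t 0).1, e⟫ = ⟪((s 0).1 : G) - (t 0).1, e⟫ := by
        rw [inner_sub_left, inner_sub_left, hx1, hs01]
      rw [h1]
      have h2 := abs_real_inner_le_norm (((s 0).1 : G) - (t 0).1) e
      rw [he, mul_one] at h2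
      have h3 := (hti 0).1
      rw [dist_comm, dist_eq_norm] at h3
      linarith
    have hi2 : |⟪(t 0).2, u⟫| ≤ ε := by
      have h1 : ⟪(t 0).2, u⟫ = ⟪(t 0).2 - ((s 0).2 : F), u⟫ := by
        rw [inner_sub_left, hs02, sub_zero]
      rw [h1]
      have h2 := abs_real_inner_le_norm ((t 0).2 - ((s 0).2 : F)) u
      rw [hu, mul_one] at h2
      have h3 := (hti 0).2
      rw [dist_eq_norm] at h3
      linarith
    have hdec : ⟪y, u⟫ = (⟪y - z, u⟫ - Sg * ⟪(x : G) - c, e⟫) -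
        (⟪(t 0).2 - z, u⟫ - Sg * ⟪(t 0).1 - c, e⟫) + Sg * ⟪(x : G) - (t 0).1, e⟫ + ⟪(t 0).2, u⟫ := by
      rw [inner_sub_left, inner_sub_left, inner_sub_left, inner_sub_left, inner_sub_left]
      ring
    have hi1' := abs_le.mp hi1
    have hi2' := abs_le.mp hi2
    have hk1'' := abs_le.mp hk1'
    have hk2'' := abs_le.mp hk2'
    have hSi : |Sg * ⟪(x : G) - (t 0).1, e⟫| ≤ Sg * ε := by
      rw [abs_mul, abs_of_pos hSg]
      exact mul_le_mul_of_nonneg_left hi1 hSg.le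
    have hSi' := abs_le.mp hSi
    have hCε : 0 ≤ C₁ * ε := by positivity
    rw [hdec, abs_le]
    constructor
    · rw [add_mul, hC₂]
      linarith [hk1''.1, hk2''.2, hSi'.1, hi2'.1]
    · rw [add_mul, hC₂]
      linarith [hk1''.2, hk2''.1, hSi'.2, hi2'.2]

include hS in
theorem sp_ext [FiniteDimensional ℝ G] [FiniteDimensional ℝ F]
    (he : ‖e‖ = 1) (hu : ‖u‖ = 1) (hSg : 0 < Sg)
    (hpair : ∀ L : ℝ, 0 < L → ∀ (c : G) (z : F),
      (![(c + L • e, z + (L * Sg) • u), (c - L • e, z - (L * Sg) • u)] : Fin 2 → G × F) ∈ S 2)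
    (hrat : ∀ k, ∀ s ∈ S k, ∀ i j : Fin k, dist (s i).2 (s j).2 ≤ Sg * dist (s i).1 (s j).1)
    (k : ℕ) (s : Fin k → (ℝ ∙ e)ᗮ × (ℝ ∙ u)ᗮ) (x : (ℝ ∙ e)ᗮ)
    (hs : s ∈ SP S Sg e u k) (hinj : Function.Injective (fun i => (s i).1))
    (hx : x ∉ range (fun i => (s i).1)) (hpk : Pk 10 3 (insert x (range fun i => (s i).1))) :
    ∃ y : (ℝ ∙ u)ᗮ, (Fin.cons (x, y) s : Fin (k + 1) → (ℝ ∙ e)ᗮ × (ℝ ∙ u)ᗮ) ∈ SP S Sg e u (k + 1) := by
  classical
  rcases k with _ | k
  · obtain ⟨s₀, hs₀⟩ := sp_point hS Sg e u he hu hSg hpair hrat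
    have h1 := sp_trans hS Sg e u 1 s₀ (x - (s₀ 0).1) 0 hs₀
    refine ⟨(s₀ 0).2, ?_⟩
    convert h1 using 1
    funext i
    fin_cases i
    simp
  · have : ProperSpace F := FiniteDimensional.proper ℝ F
    obtain ⟨C, hC, δ, hδ, hstep⟩ := ext_step hS Sg e u he hu hSg hrat k s x hs hinj hx hpk
    have hε : ∀ m : ℕ, 0 < min δ (1 / ((m : ℝ) + 1)) := fun m => by positivity
    choose L hL1 hL2 c z hc t y hmem hti hyC hyu using fun m : ℕ =>
      hstep (min δ (1 / ((m : ℝ) + 1))) (hε m) (min_le_left _ _) m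
    obtain ⟨y₀, _, φ, hφ, hlim⟩ := (isCompact_closedBall ((s 0).2 : F) C).tendsto_subseq
      (x := y) (fun m => Metric.mem_closedBall.mpr (hyC m))
    have hinner : ⟪y₀, u⟫ = 0 := by
      have h1 : Tendsto (fun m => ⟪y (φ m), u⟫) atTop (𝓝 ⟪y₀, u⟫) :=
        (hlim.inner tendsto_const_nhds)
      have h2 : Tendsto (fun m => ⟪y (φ m), u⟫) atTop (𝓝 0) := by
        apply squeeze_zero_norm (a := fun m : ℕ => C * (1 / ((m : ℝ) + 1)))
        · intro m
          rw [Real.norm_eq_abs]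
          refine (hyu (φ m)).trans (mul_le_mul_of_nonneg_left ((min_le_right _ _).trans ?_) hC)
          apply one_div_le_one_div_of_le (by positivity)
          have : (m : ℝ) ≤ (φ m : ℝ) := by exact_mod_cast hφ.id_le m
          linarith
        · have := (tendsto_one_div_add_atTop_nhds_zero_nat (𝕜 := ℝ)).const_mul C
          simpa using this
      exact tendsto_nhds_unique h1 h2
    refine ⟨⟨y₀, Submodule.mem_orthogonal_singleton_iff_inner_left.mpr hinner⟩, ?_⟩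
    intro ε' hε' R
    -- choose a large index
    have hev1 : ∀ᶠ m in atTop, dist (y (φ m)) y₀ < ε' := (Metric.tendsto_nhds.mp hlim) ε' hε'
    have hev2 : ∀ᶠ m : ℕ in atTop, R ≤ (m : ℝ) := by
      obtain ⟨n, hn⟩ := exists_nat_ge R
      filter_upwards [eventually_ge_atTop n] with m hm
      exact hn.trans (by exact_mod_cast hm)
    have hev3 : ∀ᶠ m : ℕ in atTop, 1 / ((m : ℝ) + 1) < ε' := by
      have := tendsto_one_div_add_atTop_nhds_zero_nat (𝕜 := ℝ)
      exact this.eventually (gt_mem_nhds hε')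
    obtain ⟨m, hm1, hm2, hm3⟩ := (hev1.and (hev2.and hev3)).exists
    have hmφ : (m : ℝ) ≤ (φ m : ℝ) := by exact_mod_cast hφ.id_le m
    have hεm : min δ (1 / ((φ m : ℝ) + 1)) ≤ ε' := by
      refine (min_le_right _ _).trans (le_trans ?_ hm3.le)
      apply one_div_le_one_div_of_le (by positivity)
      linarith
    refine ⟨L (φ m), hm2.trans (hmφ.trans (hL1 _)), hL2 _, c (φ m), z (φ m),
      (hc _).trans (mul_le_mul_of_nonneg_right hεm (hL2 _).le),
      Fin.cons ((x : G), y (φ m)) (t (φ m)), hmem (φ m), ?_⟩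
    intro i
    refine Fin.cases ?_ (fun i => ?_) i
    · simp only [Fin.cons_zero]
      exact ⟨by rw [dist_self]; exact hε'.le, hm1.le⟩
    · simp only [Fin.cons_succ]
      exact ⟨((hti _ i).1).trans hεm, ((hti _ i).2).trans hεm⟩

end

theorem istep : ISTEP := by
  intro n
  induction n with
  | zero =>
    intro G F _ _ _ _ _ _ D S hD hF hG
    have : Subsingleton F := Module.finrank_zero_iff.mp (Nat.le_zero.mp hF)
    obtain ⟨x₀, hx₀⟩ := Module.finrank_pos_iff_exists_ne_zero.mp hG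
    exact istep_zero x₀ hx₀
  | succ n ih =>
    intro G F _ _ _ _ _ _ D S hD hF hG hS
    obtain ⟨x₀, hx₀⟩ := Module.finrank_pos_iff_exists_ne_zero.mp (lt_of_le_of_lt (Nat.zero_le _) hG)
    obtain ⟨Sg, e, u, hSg1, hSgD, he, hu, hpair, hrat⟩ := fam_sup hS x₀ hx₀
    have hSg : 0 < Sg := by linarith
    have he0 : e ≠ 0 := by intro h; rw [h, norm_zero] at he; exact zero_ne_one he
    have hu0 : u ≠ 0 := by intro h; rw [h, norm_zero] at hu; exact zero_ne_one hu
    have h1 := finrank_perp e he0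
    have h2 := finrank_perp u hu0
    refine ih (ℝ ∙ e)ᗮ (ℝ ∙ u)ᗮ D (SP S Sg e u) hD (by omega) (by omega) ?_
    exact
      { point := sp_point hS Sg e u he hu hSg hpair hrat
        closed := fun k => sp_closed Sg e u k
        restr := fun k j g s hg hs => sp_restr hS Sg e u k j g s hg hs
        ext := fun k s x hs hinj hx hpk => sp_ext hS Sg e u he hu hSg hpair hrat k s x hs hinj hx hpk
        dbl := fun k s hs i j => sp_dbl hS Sg e u (by linarith) k s hs i j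
        trans := fun k s v w hs => sp_trans hS Sg e u k s v w hs
        scale := fun k s lam hlam hs => sp_scale hS Sg e u k s lam hlam hs }

end Crest.LP.H22
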