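import Mathlib
import Crest.Prelude.Def_Doubling

/-! rid 254 (S0392): packing bounds give doubling; sequences with superadditive squared distance are doubling. -/

set_option autoImplicit false

namespace Crest.Agent.LP

open Crest.GeometryTopology

/-- packing bound ⇒ doubling. -/
theorem doubling_of_pack {X : Type*} [PseudoMetricSpace X] [DecidableEq X] (S : Finset X) (Λ : ℕ)
    (h : ∀ x ∈ S, ∀ r : ℝ, 0 < r → ∀ T : Finset X, T ⊆ S → (∀ t ∈ T, dist t x ≤ 2 * r) →
      (∀ a ∈ T, ∀ b ∈ T, a ≠ b → r < dist a b) → T.card ≤ Λ) :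
    DoublingConstLE (S : Set X) Λ := by
  classical
  intro x hx r hr
  -- a maximal `r`-separated subset
  set P : Finset (Finset X) := S.powerset.filter (fun T => (∀ t ∈ T, dist t x ≤ 2 * r) ∧
      (∀ a ∈ T, ∀ b ∈ T, a ≠ b → r < dist a b)) with hP
  have hne : P.Nonempty := ⟨∅, by simp [hP]⟩
  obtain ⟨T, hTP, hmax⟩ := P.exists_max_image (fun T => T.card) hne
  rw [hP, Finset.mem_filter, Finset.mem_powerset] at hTP
  obtain ⟨hTS, hT1, hT2⟩ := hTP
  refine ⟨T, by exact_mod_cast hTS, h x hx r hr T hTS hT1 hT2, ?_⟩
  rintro y ⟨hyS, hyB⟩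
  rw [Set.mem_iUnion₂]
  by_contra hcon
  push Not at hcon
  have hyT : y ∉ T := by
    intro hy
    exact hcon y hy (Metric.mem_closedBall_self hr.le)
  have hfar : ∀ c ∈ T, r < dist y c := by
    intro c hc
    have := hcon c hc
    rw [Metric.mem_closedBall, not_le] at this
    exact this
  have hins : insert y T ∈ P := by
    rw [hP, Finset.mem_filter, Finset.mem_powerset]
    refine ⟨Finset.insert_subset (by exact_mod_cast hyS) hTS, ?_, ?_⟩
    · intro t ht
      rw [Finset.mem_insert] at ht
      rcases ht with rfl | ht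
      · exact hyB
      · exact hT1 t ht
    · intro a ha b hb hab
      rw [Finset.mem_insert] at ha hb
      rcases ha with rfl | ha <;> rcases hb with rfl | hb
      · exact absurd rfl hab
      · exact hfar b hb
      · rw [dist_comm]; exact hfar a ha
      · exact hT2 a ha b hb hab
  have := hmax _ hins
  rw [Finset.card_insert_of_notMem hyT] at this
  omega

/-- If the squared distance is superadditive along a finite linearly ordered family, an `r`-separated set inside
a ball of radius `R` has at most `4 R^2 / r^2 + 1` members. -/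
theorem pack_na {ι X : Type*} [LinearOrder ι] [PseudoMetricSpace X] (x : ι → X)
    (hsup : ∀ a b c : ι, a < b → b < c → dist (x a) (x b) ^ 2 + dist (x b) (x c) ^ 2 ≤ dist (x a) (x c) ^ 2)
    (y : X) (r R : ℝ) (hr : 0 < r) (T : Finset ι) (hT : ∀ t ∈ T, dist (x t) y ≤ R)
    (hsep : ∀ a ∈ T, ∀ b ∈ T, a ≠ b → r < dist (x a) (x b)) :
    (T.card : ℝ) ≤ 4 * R ^ 2 / r ^ 2 + 1 := by
  classical
  -- induction: for every nonempty T with max M and min m : (card - 1) r^2 ≤ dist^2
  have key : ∀ n : ℕ, ∀ T : Finset ι, T.card = n + 1 →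
      (∀ a ∈ T, ∀ b ∈ T, a ≠ b → r < dist (x a) (x b)) → ∀ hne : T.Nonempty,
      (n : ℝ) * r ^ 2 ≤ dist (x (T.min' hne)) (x (T.max' hne)) ^ 2 := by
    intro n
    induction n with
    | zero => intro T _ _ hne; simp only [Nat.cast_zero, zero_mul]; positivity
    | succ n ih =>
      intro T hc hs hne
      set M := T.max' hne with hM
      have hMT : M ∈ T := T.max'_mem hne
      have hc' : (T.erase M).card = n + 1 := by rw [Finset.card_erase_of_mem hMT, hc]; rfl
      have hne' : (T.erase M).Nonempty := by rw [← Finset.card_pos, hc']; omega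
      have h1 := ih (T.erase M) hc' (fun a ha b hb => hs a (Finset.mem_of_mem_erase ha) b
        (Finset.mem_of_mem_erase hb)) hne'
      have hmin : (T.erase M).min' hne' = T.min' hne := by
        apply le_antisymm
        · apply Finset.min'_le
          rw [Finset.mem_erase]
          refine ⟨?_, T.min'_mem hne⟩
          exact (Finset.min'_lt_max'_of_card T (by omega)).ne
        · exact Finset.min'_le _ _ (Finset.mem_of_mem_erase (Finset.min'_mem _ _))
      rw [hmin] at h1
      set M' := (T.erase M).max' hne' with hM'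
      have hM'T : M' ∈ T.erase M := Finset.max'_mem _ _
      have hlt : M' < M := lt_of_le_of_ne (T.le_max' _ (Finset.mem_of_mem_erase hM'T))
        (Finset.ne_of_mem_erase hM'T)
      have hs2 : r < dist (x M') (x M) := hs _ (Finset.mem_of_mem_erase hM'T) _ hMT hlt.ne
      have hs3 : r ^ 2 ≤ dist (x M') (x M) ^ 2 := by
        apply pow_le_pow_left₀ hr.le hs2.le
      rcases (Finset.min'_le _ _ (Finset.mem_of_mem_erase hM'T) : T.min' hne ≤ M').lt_or_eq with h3 | h3
      · have := hsup _ _ _ h3 hlt
        push_cast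
        nlinarith
      · rw [← h3] at h1 hs3
        have h0 : dist (x (T.min' hne)) (x (T.min' hne)) = 0 := dist_self _
        rw [h0] at h1
        push_cast
        nlinarith
  rcases T.eq_empty_or_nonempty with rfl | hne
  · simp only [Finset.card_empty, Nat.cast_zero]; positivity
  · obtain ⟨n, hn⟩ : ∃ n, T.card = n + 1 := ⟨T.card - 1, by have := hne.card_pos; omega⟩
    have h1 := key n T hn hsep hne
    have h2 : dist (x (T.min' hne)) (x (T.max' hne)) ≤ 2 * R := by
      have ha := hT _ (T.min'_mem hne)
      have hb := hT _ (T.max'_mem hne)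
      have := dist_triangle_right (x (T.min' hne)) (x (T.max' hne)) y
      linarith
    have h3 : dist (x (T.min' hne)) (x (T.max' hne)) ^ 2 ≤ (2 * R) ^ 2 :=
      pow_le_pow_left₀ dist_nonneg h2 2
    rw [hn]
    push_cast
    have : (n : ℝ) ≤ 4 * R ^ 2 / r ^ 2 := by
      rw [le_div_iff₀ (by positivity)]
      nlinarith
    linarith

end Crest.Agent.LP
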