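import Crest.Agent.H22ParB

set_option autoImplicit false
set_option linter.all false

/-! (W3) of helper22's parity proof (rid 50): `w^3(eta) = n_135 + n_246` for sorted tuples. -/

namespace Crest.H22Par

open Finset

section W3aux

/-- order indicator on colours -/
def oc (x y : Fin 6) : ZMod 2 := if x < y then 1 else 0

lemma oc_paths (x0 x1 x2 y0 y1 : Fin 6) (h01 : x0 ≤ x1) (h12 : x1 ≤ x2) (hy : y0 ≤ y1)
    (a0 : x0 ≠ y0) (a1 : x1 ≠ y0) (a2 : x2 ≠ y0) (b0 : x0 ≠ y1) (b1 : x1 ≠ y1) (b2 : x2 ≠ y1) :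
    (oc x0 y0 + oc x0 y1) * (oc x0 y1 + oc x1 y1) * (oc x1 y1 + oc x2 y1)
      + (oc x0 y0 + oc x1 y0) * (oc x1 y0 + oc x1 y1) * (oc x1 y1 + oc x2 y1)
      + (oc x0 y0 + oc x1 y0) * (oc x1 y0 + oc x2 y0) * (oc x2 y0 + oc x2 y1)
      = if x0 < y0 ∧ y0 < x1 ∧ x1 < y1 ∧ y1 < x2 then 1 else 0 := by
  unfold oc
  rcases lt_or_gt_of_ne a0 with u0 | u0 <;> rcases lt_or_gt_of_ne a1 with u1 | u1 <;>
    rcases lt_or_gt_of_ne a2 with u2 | u2 <;> rcases lt_or_gt_of_ne b0 with w0 | w0 <;>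
    rcases lt_or_gt_of_ne b1 with w1 | w1 <;> rcases lt_or_gt_of_ne b2 with w2 | w2 <;>
    first
    | (exfalso; simp only [Fin.lt_def, Fin.le_def] at *; omega)
    | (simp only [u0, u1, u2, w0, w1, w2, not_lt_of_gt u0, not_lt_of_gt u1, not_lt_of_gt u2,
        not_lt_of_gt w0, not_lt_of_gt w1, not_lt_of_gt w2, if_true, if_false, and_self, and_true,
        true_and, false_and, and_false]; decide)

lemma count_pairs (x0 x1 x2 : Fin 6) (h01 : x0 < x1) (h12 : x1 < x2) :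
    (∑ p : Fin 6, ∑ q : Fin 6, (if x0 < p ∧ p < x1 ∧ x1 < q ∧ q < x2 then (1 : ZMod 2) else 0))
      = (if x0 = 0 ∧ x1 = 2 ∧ x2 = 4 then 1 else 0)
        + (if x0 = 1 ∧ x1 = 3 ∧ x2 = 5 then 1 else 0) := by
  revert h01 h12
  revert x0 x1 x2
  decide

end W3aux

section W3
variable {E : Type*} [InvolutiveNeg E] {ι : Type*} [Fintype ι]
variable {v0 v1 v2 : ι → E}

theorem W3 (s : E → E → ZMod 2) (c : E → Fin 6)
    (sorted : ∀ i, c (v0 i) ≤ c (v1 i) ∧ c (v1 i) ≤ c (v2 i))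
    (disj : ∀ i j, s (v2 i) (v1 j) + s (v2 i) (v2 j) ≠ 0 →
      (c (v0 i) ≠ c (v0 j) ∧ c (v1 i) ≠ c (v0 j) ∧ c (v2 i) ≠ c (v0 j)) ∧
      (c (v0 i) ≠ c (v1 j) ∧ c (v1 i) ≠ c (v1 j) ∧ c (v2 i) ≠ c (v1 j)))
    (dim1 : ∀ i, c (v0 i) < c (v1 i) → c (v1 i) < c (v2 i) → ∀ p q : Fin 6, p < q →
      p ≠ c (v0 i) → p ≠ c (v1 i) → p ≠ c (v2 i) → q ≠ c (v0 i) → q ≠ c (v1 i) → q ≠ c (v2 i) →
      ∑ j, (s (v2 i) (v1 j) + s (v2 i) (v2 j)) *
        (if c (v0 j) = p ∧ c (v1 j) = q then (1 : ZMod 2) else 0) = 1) :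
    ∑ i, ∑ j, (s (v2 i) (v1 j) + s (v2 i) (v2 j)) *
        EZ3 (cube (fun p : E × E => if c p.1 < c p.2 then (1 : ZMod 2) else 0))
          (v0 i) (v1 i) (v2 i) (v0 j) (v1 j)
      = ∑ i, ((if c (v0 i) = 0 ∧ c (v1 i) = 2 ∧ c (v2 i) = 4 then (1 : ZMod 2) else 0)
        + (if c (v0 i) = 1 ∧ c (v1 i) = 3 ∧ c (v2 i) = 5 then 1 else 0)) := by
  apply Finset.sum_congr rfl
  intro i _
  obtain ⟨h01, h12⟩ := sorted i
  -- pointwise value of the shuffle sum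
  have hpt : ∀ j, (s (v2 i) (v1 j) + s (v2 i) (v2 j)) *
        EZ3 (cube (fun p : E × E => if c p.1 < c p.2 then (1 : ZMod 2) else 0))
          (v0 i) (v1 i) (v2 i) (v0 j) (v1 j)
      = (s (v2 i) (v1 j) + s (v2 i) (v2 j)) *
        (if c (v0 i) < c (v0 j) ∧ c (v0 j) < c (v1 i) ∧ c (v1 i) < c (v1 j) ∧ c (v1 j) < c (v2 i)
          then (1 : ZMod 2) else 0) := by
    intro j
    by_cases hm : s (v2 i) (v1 j) + s (v2 i) (v2 j) = 0
    · rw [hm, zero_mul, zero_mul]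
    · obtain ⟨⟨a0, a1, a2⟩, b0, b1, b2⟩ := disj i j hm
      congr 1
      have := oc_paths (c (v0 i)) (c (v1 i)) (c (v2 i)) (c (v0 j)) (c (v1 j)) h01 h12
        (sorted j).1 a0 a1 a2 b0 b1 b2
      rw [← this]
      rfl
  rw [Finset.sum_congr rfl (fun j _ => hpt j)]
  by_cases hs : c (v0 i) < c (v1 i) ∧ c (v1 i) < c (v2 i)
  · obtain ⟨g01, g12⟩ := hs
    rw [← count_pairs _ _ _ g01 g12]
    have hsplit : ∀ j, (s (v2 i) (v1 j) + s (v2 i) (v2 j)) *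
        (if c (v0 i) < c (v0 j) ∧ c (v0 j) < c (v1 i) ∧ c (v1 i) < c (v1 j) ∧ c (v1 j) < c (v2 i)
          then (1 : ZMod 2) else 0)
        = ∑ p : Fin 6, ∑ q : Fin 6,
          (if c (v0 i) < p ∧ p < c (v1 i) ∧ c (v1 i) < q ∧ q < c (v2 i) then (1 : ZMod 2) else 0) *
          ((s (v2 i) (v1 j) + s (v2 i) (v2 j)) *
            (if c (v0 j) = p ∧ c (v1 j) = q then (1 : ZMod 2) else 0)) := by
      intro j
      rw [Finset.sum_eq_single (c (v0 j))]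
      · rw [Finset.sum_eq_single (c (v1 j))]
        · simp only [true_and, if_true, and_self, mul_one]
          rw [mul_comm]
        · intro q _ hq
          rw [if_neg (fun h : c (v0 j) = c (v0 j) ∧ c (v1 j) = q => hq h.2.symm), mul_zero, mul_zero]
        · intro h; exact absurd (Finset.mem_univ _) h
      · intro p _ hp
        apply Finset.sum_eq_zero
        intro q _
        rw [if_neg (fun h : c (v0 j) = p ∧ c (v1 j) = q => hp h.1.symm), mul_zero, mul_zero]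
      · intro h; exact absurd (Finset.mem_univ _) h
    rw [Finset.sum_congr rfl (fun j _ => hsplit j), Finset.sum_comm]
    apply Finset.sum_congr rfl
    intro p _
    rw [Finset.sum_comm]
    apply Finset.sum_congr rfl
    intro q _
    rw [← Finset.mul_sum]
    by_cases hpq : c (v0 i) < p ∧ p < c (v1 i) ∧ c (v1 i) < q ∧ q < c (v2 i)
    · obtain ⟨q1, q2, q3, q4⟩ := hpq
      rw [dim1 i g01 g12 p q (q2.trans q3) (ne_of_gt q1) (ne_of_lt q2) (ne_of_lt (q2.trans g12))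
        (ne_of_gt (g01.trans q3)) (ne_of_gt q3) (ne_of_lt q4), mul_one]
    · rw [if_neg hpq, zero_mul]
  · have hz : ∀ j, (s (v2 i) (v1 j) + s (v2 i) (v2 j)) *
        (if c (v0 i) < c (v0 j) ∧ c (v0 j) < c (v1 i) ∧ c (v1 i) < c (v1 j) ∧ c (v1 j) < c (v2 i)
          then (1 : ZMod 2) else 0) = 0 := by
      intro j
      rw [if_neg, mul_zero]
      rintro ⟨q1, q2, q3, q4⟩
      exact hs ⟨q1.trans q2, q3.trans q4⟩
    rw [Finset.sum_eq_zero (fun j _ => hz j), if_neg, if_neg, add_zero]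
    · rintro ⟨e0, e1, e2⟩
      exact hs (by rw [e0, e1, e2]; decide)
    · rintro ⟨e0, e1, e2⟩
      exact hs (by rw [e0, e1, e2]; decide)

end W3

end Crest.H22Par
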