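import Mathlib
import Crest.Agent.H22Par

set_option autoImplicit false
set_option linter.all false

/-!
# rid 50 (S0069): module DIM1 (the dimension one count used in `w³(η)`)
-/

namespace Crest.H5BRDim1

open Finset Crest.H22Par

lemma z2_ne (x : ZMod 2) (h : x ≠ 0) : x = 1 := by
  revert h; revert x; decide

theorem dim1 {E : Type*} [InvolutiveNeg E] {ι κ : Type*} [Fintype ι] [Fintype κ]
    {v0 v1 v2 : ι → E} {a b : κ → E} {e0 : E} (T : Tower2 v0 v1 v2 a b e0)
    (s : E → E → ZMod 2) (ssym : ∀ x y, s x y = s y x) (sneg : ∀ x y, s (-x) y = s x y + 1)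
    (sdiag : ∀ x, s x x = 0) (v : E) (c : E → Fin 6) (ceven : ∀ x, c (-x) = c x)
    (p q r : Fin 6) (hpq : p ≠ q) (hpr : p ≠ r) (hqr : q ≠ r)
    (near : E → E → Prop) (nsymm : ∀ x y, near x y → near y x)
    (nneg : ∀ x y, near (-x) y ↔ near x y)
    (G : E → E → ZMod 2) (Gsymm : ∀ x y, near x y → G y x = G x y + 1)
    (Gneg : ∀ x y, near x y → G (-x) y = G x y + 1)
    (ncol : ∀ x y, near x y → c x ≠ c y)
    (hcol : ∀ j, s v (v1 j) + s v (v2 j) ≠ 0 →
      (c (v0 j) = p ∨ c (v0 j) = q ∨ c (v0 j) = r) ∧ (c (v1 j) = p ∨ c (v1 j) = q ∨ c (v1 j) = r))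
    (hG : ∀ j k, s v (v1 j) + s v (v2 j) ≠ 0 → s v (v1 k) + s v (v2 k) ≠ 0 →
      s (v1 j) (v0 k) + s (v1 j) (v1 k) ≠ 0 →
      near (v0 j) (v0 k) ∧ near (v1 j) (v0 k) ∧ G (v0 j) (v0 k) = G (v1 j) (v0 k)) :
    ∑ j, (s v (v1 j) + s v (v2 j)) *
      (if (c (v0 j) = p ∧ c (v1 j) = q) ∨ (c (v0 j) = q ∧ c (v1 j) = p) then (1 : ZMod 2)
        else 0) = 1 := by
  classical
  have sneg' : ∀ x y, s x (-y) = s x y + 1 := by
    intro x y; rw [ssym, sneg, ssym]
  -- the order
  set ρ : Fin 6 → ℕ := fun x => if x = p then 0 else if x = r then 1 else if x = q then 2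
    else 3 + x.val with hρ
  have ρp : ρ p = 0 := by simp [hρ]
  have ρr : ρ r = 1 := by simp [hρ, hpr.symm]
  have ρq : ρ q = 2 := by simp [hρ, hpq.symm, hqr]
  have ρinj : ∀ x y, ρ x = ρ y → x = y := by
    intro x y h
    simp only [hρ] at h
    split_ifs at h <;> first | omega | (simp_all; done) | (apply Fin.ext; omega)
  set om : E → E → ZMod 2 := fun x y => if ρ (c x) < ρ (c y) then 1 else 0 with hom
  have omsymm : ∀ x y, near x y → om y x = om x y + 1 := by
    intro x y h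
    have hne : ρ (c x) ≠ ρ (c y) := fun h' => ncol x y h (ρinj _ _ h')
    simp only [hom]
    rcases lt_or_gt_of_ne hne with h1 | h1
    · rw [if_neg (by omega), if_pos h1]; rfl
    · rw [if_pos h1, if_neg (by omega)]; rfl
  have omneg : ∀ x y, om (-x) y = om x y := by
    intro x y; simp only [hom, ceven]
  set P : E → E → ZMod 2 := fun x y =>
    if near x y then om x y + s v x + s v y + G x y else 0 with hP
  have Psymm : ∀ x y, P x y = P y x := by
    intro x y
    simp only [hP]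
    by_cases h : near x y
    · rw [if_pos h, if_pos (nsymm x y h), omsymm x y h, Gsymm x y h]
      linear_combination -two0
    · have h' : ¬ near y x := fun h2 => h (nsymm y x h2)
      rw [if_neg h, if_neg h']
  have Pneg : ∀ x y, P (-x) y = P x y := by
    intro x y
    simp only [hP]
    by_cases h : near x y
    · rw [if_pos h, if_pos ((nneg x y).2 h), omneg, Gneg x y h, sneg']
      linear_combination two0
    · have h' : ¬ near (-x) y := fun h2 => h ((nneg x y).1 h2)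
      rw [if_neg h, if_neg h']
  set m : ι → ZMod 2 := fun j => s v (v1 j) + s v (v2 j) with hm
  have hw : ∀ j, ∑ k, (s (v1 j) (v0 k) + s (v1 j) (v1 k)) * m k = 1 := fun j =>
    T.odd_odd (fun x => s (v1 j) x) (fun x => s v x) (fun x => sneg' _ _) (fun x => sneg' _ _)
  have hg : ∑ j, (s v (v0 j) + s v (v1 j)) * m j = 1 :=
    T.odd_odd (fun x => s v x) (fun x => s v x) (fun x => sneg' _ _) (fun x => sneg' _ _)
  have hA : ∀ k, ∑ j, ((s (v0 j) (v0 k) + s (v0 j) (v1 k)) * P (v0 j) (v0 k)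
      + (s (v1 j) (v0 k) + s (v1 j) (v1 k)) * P (v1 j) (v0 k)) * m j = 0 := by
    intro k
    exact T.even_odd (fun x => (s x (v0 k) + s x (v1 k)) * P x (v0 k)) (fun x => s v x)
      (by
        intro x
        simp only [sneg, Pneg]
        linear_combination (P x (v0 k)) * two0)
      (fun x => sneg' _ _)
  have hD : ∑ j, ∑ k, m j * m k * (s (v1 j) (v0 k) + s (v1 j) (v1 k) + s (v0 j) (v0 k)
      + s (v0 j) (v1 k)) * P (v0 j) (v0 k) = 0 := by
    apply sum_symm_zero (fun j k => m j * m k * (s (v1 j) (v0 k) + s (v1 j) (v1 k)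
      + s (v0 j) (v0 k) + s (v0 j) (v1 k)) * P (v0 j) (v0 k))
    · intro j k
      rw [Psymm (v0 k) (v0 j), ssym (v1 k) (v0 j), ssym (v1 k) (v1 j), ssym (v0 k) (v0 j),
        ssym (v0 k) (v1 j)]
      ring
    · intro j
      rw [sdiag, sdiag, ssym (v1 j) (v0 j)]
      linear_combination (m j * m j * s (v0 j) (v1 j) * P (v0 j) (v0 j)) * two0
  have h0 : ∑ j, ∑ k, m j * m k * (s (v1 j) (v0 k) + s (v1 j) (v1 k))
      * (P (v0 j) (v0 k) + P (v1 j) (v0 k)) = 0 := by
    have hA' : ∑ j, ∑ k, m k * (((s (v0 j) (v0 k) + s (v0 j) (v1 k)) * P (v0 j) (v0 k)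
      + (s (v1 j) (v0 k) + s (v1 j) (v1 k)) * P (v1 j) (v0 k)) * m j) = 0 := by
      rw [Finset.sum_comm]
      apply Finset.sum_eq_zero
      intro k _
      rw [← Finset.mul_sum, hA k, mul_zero]
    have : ∀ j k, m j * m k * (s (v1 j) (v0 k) + s (v1 j) (v1 k))
      * (P (v0 j) (v0 k) + P (v1 j) (v0 k))
      = m k * (((s (v0 j) (v0 k) + s (v0 j) (v1 k)) * P (v0 j) (v0 k)
      + (s (v1 j) (v0 k) + s (v1 j) (v1 k)) * P (v1 j) (v0 k)) * m j)
      + m j * m k * (s (v1 j) (v0 k) + s (v1 j) (v1 k) + s (v0 j) (v0 k)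
      + s (v0 j) (v1 k)) * P (v0 j) (v0 k) := by
      intro j k
      linear_combination (-(m j * m k * (s (v0 j) (v0 k) + s (v0 j) (v1 k))
        * P (v0 j) (v0 k))) * two0
    simp only [this, Finset.sum_add_distrib] at hA' hD ⊢
    rw [hA', hD, add_zero]
  set one : ι → ZMod 2 := fun j =>
    if (c (v0 j) = p ∧ c (v1 j) = q) ∨ (c (v0 j) = q ∧ c (v1 j) = p) then (1 : ZMod 2) else 0
    with hone
  have hterm : ∀ j k, m j * m k * (s (v1 j) (v0 k) + s (v1 j) (v1 k))
      * (P (v0 j) (v0 k) + P (v1 j) (v0 k))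
      = (m j * (one j + s v (v0 j) + s v (v1 j))) * ((s (v1 j) (v0 k) + s (v1 j) (v1 k)) * m k) := by
    intro j k
    by_cases hj : m j = 0
    · rw [hj]; ring
    by_cases hk : m k = 0
    · rw [hk]; ring
    by_cases hjk : s (v1 j) (v0 k) + s (v1 j) (v1 k) = 0
    · rw [hjk]; ring
    obtain ⟨n1, n2, hGG⟩ := hG j k hj hk hjk
    have hom1 : om (v0 j) (v0 k) + om (v1 j) (v0 k) = one j := by
      have c1 := ncol _ _ n1
      have c2 := ncol _ _ n2
      obtain ⟨hj0, hj1⟩ := hcol j hj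
      obtain ⟨hk0, -⟩ := hcol k hk
      simp only [hom, hone]
      rcases hj0 with hj0 | hj0 | hj0 <;> rcases hj1 with hj1 | hj1 | hj1 <;>
        rcases hk0 with hk0 | hk0 | hk0 <;> rw [hj0, hj1, hk0] <;>
        rw [hj0, hk0] at c1 <;> rw [hj1, hk0] at c2 <;>
        first
        | (exact absurd rfl c1)
        | (exact absurd rfl c2)
        | (simp [ρp, ρq, ρr, hpq, hpr, hqr, hpq.symm, hpr.symm, hqr.symm]; done)
        | (simp [ρp, ρq, ρr, hpq, hpr, hqr, hpq.symm, hpr.symm, hqr.symm]; decide)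
    have e1 : P (v0 j) (v0 k) = om (v0 j) (v0 k) + s v (v0 j) + s v (v0 k) + G (v0 j) (v0 k) := by
      simp only [hP]; rw [if_pos n1]
    have e2 : P (v1 j) (v0 k) = om (v1 j) (v0 k) + s v (v1 j) + s v (v0 k) + G (v1 j) (v0 k) := by
      simp only [hP]; rw [if_pos n2]
    rw [e1, e2, hGG, ← hom1]
    linear_combination (m j * m k * (s (v1 j) (v0 k) + s (v1 j) (v1 k)) * (s v (v0 k)
      + G (v1 j) (v0 k))) * two0
  simp only [hterm] at h0
  have h1 : ∑ j, m j * (one j + s v (v0 j) + s v (v1 j)) = 0 := by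
    rw [← h0]
    apply Finset.sum_congr rfl
    intro j _
    rw [← Finset.mul_sum, hw j, mul_one]
  have h2 : ∑ j, m j * (one j + s v (v0 j) + s v (v1 j))
      = ∑ j, m j * one j + ∑ j, (s v (v0 j) + s v (v1 j)) * m j := by
    rw [← Finset.sum_add_distrib]
    apply Finset.sum_congr rfl
    intro j _
    ring
  rw [h2, hg] at h1
  change ∑ j, m j * one j = 1
  linear_combination h1 - two0

end Crest.H5BRDim1
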