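import Crest.Agent.H22GeoB
import Crest.Agent.H28BRW3
import Crest.Agent.H5BRDim1
import Crest.Agent.H15BRTransfer

set_option autoImplicit false
set_option linter.all false

/-! The parity theorem `n_R + n_R' = 1` on the sphere of `ℝ³` (helper22, rid 50). -/

namespace Crest.H22Par

open Finset Crest.H22ParKey Crest.H22Geo

abbrev V3 := EuclideanSpace ℝ (Fin 3)
abbrev S2 := Metric.sphere (0 : EuclideanSpace ℝ (Fin 3)) 1

lemma norm_S2 (x : S2) : ‖(x : V3)‖ = 1 := by
  have := x.2
  simpa using this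

lemma inner_pert (x x' y y' : S2) :
    |inner ℝ (x : V3) (y : V3)| ≤ |inner ℝ (x' : V3) (y' : V3)| + dist x x' + dist y y' := by
  have e : inner ℝ (x : V3) (y : V3) = inner ℝ (x' : V3) (y' : V3)
      + inner ℝ ((x : V3) - x') (y : V3) + inner ℝ (x' : V3) ((y : V3) - y') := by
    rw [inner_sub_left, inner_sub_right]; ring
  rw [e]
  have h1 : |inner ℝ ((x : V3) - x') (y : V3)| ≤ dist x x' := by
    have := abs_real_inner_le_norm ((x : V3) - x') (y : V3)
    rw [norm_S2 y, mul_one] at this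
    rw [Subtype.dist_eq, dist_eq_norm]
    exact this
  have h2 : |inner ℝ (x' : V3) ((y : V3) - y')| ≤ dist y y' := by
    have := abs_real_inner_le_norm (x' : V3) ((y : V3) - y')
    rw [norm_S2 x', one_mul] at this
    rw [Subtype.dist_eq, dist_eq_norm]
    exact this
  calc _ ≤ |inner ℝ (x' : V3) (y' : V3) + inner ℝ ((x : V3) - x') (y : V3)|
        + |inner ℝ (x' : V3) ((y : V3) - y')| := abs_add_le _ _
    _ ≤ |inner ℝ (x' : V3) (y' : V3)| + |inner ℝ ((x : V3) - x') (y : V3)|
        + |inner ℝ (x' : V3) ((y : V3) - y')| := by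
        gcongr; exact abs_add_le _ _
    _ ≤ _ := by linarith

lemma exists_third (a b d p q : Fin 6) (h1 : a < b) (h2 : b < d) (h3 : p < q)
    (pa : p ≠ a) (pb : p ≠ b) (pd : p ≠ d) (qa : q ≠ a) (qb : q ≠ b) (qd : q ≠ d) :
    ∃ r : Fin 6, p ≠ r ∧ q ≠ r ∧ ∀ x : Fin 6, x ≠ a → x ≠ b → x ≠ d → x = p ∨ x = q ∨ x = r := by
  have hc : ((univ : Finset (Fin 6)) \ {a, b, d, p, q}).card = 1 := by
    rw [Finset.card_sdiff_of_subset (Finset.subset_univ _)]
    have : ({a, b, d, p, q} : Finset (Fin 6)).card = 5 := by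
      have hab : a ≠ b := ne_of_lt h1
      have hbd : b ≠ d := ne_of_lt h2
      have had : a ≠ d := ne_of_lt (lt_trans h1 h2)
      have hpq : p ≠ q := ne_of_lt h3
      rw [Finset.card_insert_of_notMem, Finset.card_insert_of_notMem, Finset.card_insert_of_notMem,
        Finset.card_insert_of_notMem, Finset.card_singleton]
      · simpa using hpq
      · simp only [Finset.mem_insert, Finset.mem_singleton, not_or]
        exact ⟨pd.symm, qd.symm⟩
      · simp only [Finset.mem_insert, Finset.mem_singleton, not_or]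
        exact ⟨hbd, pb.symm, qb.symm⟩
      · simp only [Finset.mem_insert, Finset.mem_singleton, not_or]
        exact ⟨hab, had, pa.symm, qa.symm⟩
    rw [this]; simp
  obtain ⟨r, hr⟩ := Finset.card_eq_one.1 hc
  have hr1 : r ∈ (univ : Finset (Fin 6)) \ {a, b, d, p, q} := by rw [hr]; simp
  simp only [Finset.mem_sdiff, Finset.mem_univ, true_and, Finset.mem_insert, Finset.mem_singleton,
    not_or] at hr1
  refine ⟨r, fun h => hr1.2.2.2.1 h.symm, fun h => hr1.2.2.2.2 h.symm, ?_⟩
  intro x xa xb xd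
  by_contra hx
  simp only [not_or] at hx
  have : x ∈ (univ : Finset (Fin 6)) \ {a, b, d, p, q} := by
    simp only [Finset.mem_sdiff, Finset.mem_univ, true_and, Finset.mem_insert,
      Finset.mem_singleton, not_or]
    exact ⟨xa, xb, xd, hx.1, hx.2.1⟩
  rw [hr, Finset.mem_singleton] at this
  exact hx.2.2 this

lemma ne_of_add_ne_zero {x y : ZMod 2} (h : x + y ≠ 0) : x ≠ y := by
  rintro rfl; exact h (aa _)

theorem par4 : ∀ ε : ℝ, 0 < ε → ∃ δ : ℝ, 0 < δ ∧ ∀ (ι κ : Type) [Fintype ι] [Fintype κ]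
    (v0 v1 v2 : ι → S2) (a b : κ → S2) (e0 : S2), Tower2 v0 v1 v2 a b e0 →
    (∀ i, dist (v0 i) (v1 i) ≤ δ ∧ dist (v0 i) (v2 i) ≤ δ ∧ dist (v1 i) (v2 i) ≤ δ) →
    ∀ c : S2 → Fin 6, (∀ v, c (-v) = c v) →
    (∀ u v, c u = c v → ε ≤ |inner ℝ (u : V3) (v : V3)|) →
    (∀ i, c (v0 i) ≤ c (v1 i) ∧ c (v1 i) ≤ c (v2 i)) →
    ∑ i, ((if c (v0 i) = 0 ∧ c (v1 i) = 2 ∧ c (v2 i) = 4 then 1 else 0)
      + (if c (v0 i) = 1 ∧ c (v1 i) = 3 ∧ c (v2 i) = 5 then 1 else 0)) = (1 : ZMod 2) := by
  intro ε hε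
  obtain ⟨s, ssym, sneg, sdiag, sclose⟩ := exists_s'
  obtain ⟨G1, G2, G3, hG1, hG2, hG3, hG⟩ := exists_G'
  refine ⟨min (ε / 10) (1 / 1000), by positivity, ?_⟩
  intro ι κ _ _ v0 v1 v2 a b e0 T hdist c cneg csep sorted
  set δ := min (ε / 10) (1 / 1000) with hδ
  have hδ0 : 0 < δ := by positivity
  have hδ1 : δ ≤ ε / 10 := min_le_left _ _
  have hδ2 : δ ≤ 1 / 1000 := min_le_right _ _
  -- nearness
  let near : S2 → S2 → Prop := fun x y => |inner ℝ (x : V3) (y : V3)| ≤ 3 * δ
  have near_symm : ∀ x y, near x y → near y x := by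
    intro x y h
    change |inner ℝ (y : V3) (x : V3)| ≤ 3 * δ
    rw [real_inner_comm]; exact h
  have near_neg : ∀ x y, near (-x) y ↔ near x y := by
    intro x y
    change |inner ℝ ((-x : S2) : V3) (y : V3)| ≤ 3 * δ ↔ |inner ℝ (x : V3) (y : V3)| ≤ 3 * δ
    rw [coe_neg_sphere, inner_neg_left, abs_neg]
  have near_c : ∀ x y, near x y → c x ≠ c y := by
    intro x y h hc
    have h1 := csep x y hc
    have h2 : |inner ℝ (x : V3) (y : V3)| ≤ 3 * δ := h
    linarith
  have near_half : ∀ x y, near x y → |inner ℝ (x : V3) (y : V3)| ≤ 1 / 2 := by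
    intro x y h
    have h2 : |inner ℝ (x : V3) (y : V3)| ≤ 3 * δ := h
    linarith
  have near_tenth : ∀ x y, near x y → |inner ℝ (x : V3) (y : V3)| ≤ 1 / 10 := by
    intro x y h
    have h2 : |inner ℝ (x : V3) (y : V3)| ≤ 3 * δ := h
    linarith
  have dself : ∀ x : S2, dist x x ≤ δ := by intro x; rw [dist_self]; exact hδ0.le
  -- cells with nonzero coefficient
  have hcell : ∀ i j, s (v2 i) (v1 j) + s (v2 i) (v2 j) ≠ 0 → ∀ x y : S2, dist x (v2 i) ≤ δ →
      dist y (v1 j) ≤ δ → near x y := by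
    intro i j h x y hx hy
    have h1 := sclose _ _ _ (ne_of_add_ne_zero h)
    have h2 := inner_pert x (v2 i) y (v1 j)
    have h3 := (hdist j).2.2
    change |inner ℝ (x : V3) (y : V3)| ≤ 3 * δ
    linarith
  have hnear : ∀ i j, s (v2 i) (v1 j) + s (v2 i) (v2 j) ≠ 0 →
      near (v0 i) (v0 j) ∧ near (v0 i) (v1 j) ∧ near (v1 i) (v0 j) ∧ near (v1 i) (v1 j) ∧
      near (v2 i) (v0 j) ∧ near (v2 i) (v1 j) := by
    intro i j h
    have hc := hcell i j h
    obtain ⟨di1, di2, di3⟩ := hdist i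
    obtain ⟨dj1, dj2, dj3⟩ := hdist j
    exact ⟨hc _ _ di2 dj1, hc _ _ di2 (dself _), hc _ _ di3 dj1, hc _ _ di3 (dself _),
      hc _ _ (dself _) dj1, hc _ _ (dself _) (dself _)⟩
  have hz : ∀ i j, s (v2 i) (v1 j) + s (v2 i) (v2 j) ≠ 0 →
      EZ3 (fun p q r t => (G1 p + G1 q) * (G2 q + G2 r) * (G3 r + G3 t))
        (v0 i) (v1 i) (v2 i) (v0 j) (v1 j) = 0 := by
    intro i j h
    obtain ⟨n00, n01, n10, n11, n20, n21⟩ := hnear i j h
    obtain ⟨di1, di2, di3⟩ := hdist i
    obtain ⟨dj1, dj2, dj3⟩ := hdist j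
    have hb : δ ≤ 1 / 100 := by linarith
    unfold EZ3
    have e1 := hG (v0 i, v0 j) (v0 i, v1 j) (v1 i, v1 j) (v2 i, v1 j) (near_half _ _ n01)
      (le_trans (dself _) hb) (le_trans dj1 hb) (le_trans di1 hb) (le_trans (dself _) hb)
      (le_trans di3 hb) (le_trans (dself _) hb)
    have e2 := hG (v0 i, v0 j) (v1 i, v0 j) (v1 i, v1 j) (v2 i, v1 j) (near_half _ _ n10)
      (le_trans di1 hb) (le_trans (dself _) hb) (le_trans (dself _) hb) (le_trans dj1 hb)
      (le_trans di3 hb) (le_trans (dself _) hb)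
    have e3 := hG (v0 i, v0 j) (v1 i, v0 j) (v2 i, v0 j) (v2 i, v1 j) (near_half _ _ n10)
      (le_trans di1 hb) (le_trans (dself _) hb) (le_trans di3 hb) (le_trans (dself _) hb)
      (le_trans (dself _) hb) (le_trans dj1 hb)
    simp only
    rw [e1, e2, e3]; ring
  let om : S2 × S2 → ZMod 2 := fun p => if c p.1 < c p.2 then (1 : ZMod 2) else 0
  have D : Data near om (fun x => s x e0) G1 G2 G3 :=
    { near_symm := near_symm
      near_neg := near_neg
      om_swap := by
        intro x y h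
        have hne := near_c x y h
        change (if c y < c x then (1 : ZMod 2) else 0) = (if c x < c y then (1 : ZMod 2) else 0) + 1
        rcases lt_or_gt_of_ne hne with h1 | h1
        · rw [if_neg (not_lt.2 h1.le), if_pos h1]; decide
        · rw [if_pos h1, if_neg (not_lt.2 h1.le)]; decide
      om_neg := by
        intro x y
        change (if c (-x) < c y then (1 : ZMod 2) else 0) = (if c x < c y then (1 : ZMod 2) else 0)
        rw [cneg]
      g_neg := fun x => sneg x e0
      G1_swap := fun x y h => (hG1 x y (near_half x y h)).1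
      G2_swap := fun x y h => (hG2 x y (near_half x y h)).1
      G3_swap := fun x y h => (hG3 x y (near_half x y h)).1
      G1_neg := fun x y h => (hG1 x y (near_half x y h)).2
      G2_neg := fun x y h => (hG2 x y (near_half x y h)).2
      G3_neg := fun x y h => (hG3 x y (near_half x y h)).2 }
  have main := w3_eta T s ssym sneg sdiag D hnear hz
  have hW3 := W3 (v0 := v0) (v1 := v1) (v2 := v2) s c sorted
    (by
      intro i j h
      obtain ⟨n00, n01, n10, n11, n20, n21⟩ := hnear i j h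
      exact ⟨⟨near_c _ _ n00, near_c _ _ n10, near_c _ _ n20⟩,
        ⟨near_c _ _ n01, near_c _ _ n11, near_c _ _ n21⟩⟩)
    (by
      intro i h01 h12 p q hpq p0 p1 p2 q0 q1 q2
      obtain ⟨r, hpr, hqr, hr⟩ := exists_third _ _ _ p q h01 h12 hpq p0 p1 p2 q0 q1 q2
      obtain ⟨G, Gs, Gn, Gc⟩ := exists_Gv' (v2 i)
      have hd := Crest.H5BRDim1.dim1 T s ssym sneg sdiag (v2 i) c cneg p q r (ne_of_lt hpq) hpr hqr near near_symm
        near_neg G (fun x y h => Gs x y (near_tenth x y h))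
        (fun x y h => Gn x y (near_tenth x y h)) near_c
        (by
          intro j h
          obtain ⟨n00, n01, n10, n11, n20, n21⟩ := hnear i j h
          exact ⟨hr _ (near_c _ _ n00).symm (near_c _ _ n10).symm (near_c _ _ n20).symm,
            hr _ (near_c _ _ n01).symm (near_c _ _ n11).symm (near_c _ _ n21).symm⟩)
        (by
          intro j k hj hk hjk
          have h1 := sclose _ _ _ (ne_of_add_ne_zero hjk)
          obtain ⟨dj1, dj2, dj3⟩ := hdist j
          obtain ⟨dk1, dk2, dk3⟩ := hdist k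
          have n1 : near (v1 j) (v0 k) := by
            change |inner ℝ ((v1 j : S2) : V3) ((v0 k : S2) : V3)| ≤ 3 * δ
            linarith
          have n0 : near (v0 j) (v0 k) := by
            have h2 := inner_pert (v0 j) (v1 j) (v0 k) (v0 k)
            rw [dist_self] at h2
            change |inner ℝ ((v0 j : S2) : V3) ((v0 k : S2) : V3)| ≤ 3 * δ
            linarith
          obtain ⟨_, _, _, _, j20, j21⟩ := hnear i j hj
          obtain ⟨_, _, _, _, k20, k21⟩ := hnear i k hk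
          refine ⟨n0, n1, Gc _ _ _ (near_tenth _ _ j20) (near_tenth _ _ j21) (near_tenth _ _ k20)
            (near_tenth _ _ n0) (near_tenth _ _ n1) ?_⟩
          linarith)
      refine Eq.trans ?_ hd
      apply Finset.sum_congr rfl
      intro j _
      have hs := (sorted j).1
      have hiff : (c (v0 j) = p ∧ c (v1 j) = q) ↔
          ((c (v0 j) = p ∧ c (v1 j) = q) ∨ (c (v0 j) = q ∧ c (v1 j) = p)) := by
        constructor
        · exact Or.inl
        · rintro (h' | h')
          · exact h'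
          · rw [h'.1, h'.2] at hs
            exact absurd hs (not_le.2 hpq)
      simp only [← hiff])
  rw [← hW3]
  exact main

theorem par4' : Crest.BRSort.Par4 := by
  intro ε hε
  obtain ⟨δ, hδ, h⟩ := par4 ε hε
  refine ⟨δ, hδ, ?_⟩
  intro n m v0 v1 v2 a b e0 T hd _ c c1 c2 c3 _
  exact h (Fin n) (Fin m) v0 v1 v2 a b e0 T hd c c1 c2 c3

/-- MODULE PAR. -/
theorem par : Crest.BR.Par := Crest.BRSort.transfer par4'

end Crest.H22Par
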