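import Mathlib

set_option autoImplicit false
set_option linter.all false
set_option maxHeartbeats 4000000
set_option maxRecDepth 100000

/-! Explicit mod 2 polynomial identities (cup product algebra), helper22, rid 50. -/

namespace Crest.H22ParKey

lemma two0 : (2 : ZMod 2) = 0 := by decide

def Kf (o0 o1 o2 a0 a1 a2 b0 b1 b2 x0 x1 y1 z1 z2 : ZMod 2) : ZMod 2 :=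
     (o0 + o1) * (o1 * (a1 + b1 + a2 + b2) + a1 + a2)
     + (o0 + o1) * (o1 + o2) * (o2 + a2 + b2 + z2)
     + (o0 + a0 + b0 + x0) * (o0 + o1) * (z1 + z2)
     + ((a0 + b0 + a1 + b1) * o1 + a0 + a1) * (z1 + z2)
     + (x0 + x1) * (o1 + a1 + b1 + y1) * (z1 + z2)
     + (x0 + x1) * (a1 + b1 + a2 + b2) * (o2 + a2 + b2 + z2)
     + (x0 + x1) * ((a1 + b1 + a2 + b2) * o2 + a1 + a2)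
     + (o0 + a0 + b0 + x0) * (a0 + b0 + a1 + b1) * (a1 + b1 + a2 + b2)
     + (o0 * (a0 + b0 + a1 + b1) + a0 + a1) * (a1 + b1 + a2 + b2)

lemma Kf_d (o0 o1 o2 o3 a0 a1 a2 a3 b0 b1 b2 b3 x0 x1 x2 y1 y2 z1 z2 z3 : ZMod 2) :
   Kf o1 o2 o3 a1 a2 a3 b1 b2 b3 x1 x2 y2 z2 z3
   + Kf o0 o2 o3 a0 a2 a3 b0 b2 b3 x0 x2 y2 z2 z3
   + Kf o0 o1 o3 a0 a1 a3 b0 b1 b3 x0 x1 y1 z1 z3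
   + Kf o0 o1 o2 a0 a1 a2 b0 b1 b2 x0 x1 y1 z1 z2
   + (o0 + o1) * (o1 + o2) * (o2 + o3)
   + (a0 + b0 + (a1 + b1)) * (a1 + b1 + (a2 + b2)) * (a2 + b2 + (a3 + b3))
   + (x0 + x1) * (y1 + y2) * (z2 + z3) = 0 := by
  unfold Kf
  linear_combination (a0*a0*a1 + a0*a0*a2 + a0*a0*a3 + a0*a0*b1 + a0*a0*b2 + a0*a0*b3 + a0*a1 + a0*a1*a1 + a0*a1*a2
      + a0*a1*a3 + 2*a0*a1*b0 + 2*a0*a1*b1 + a0*a1*b2 + a0*a1*b3 + 2*a0*a1*o0 + a0*a1*x0 + a0*a2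
      + a0*a2*a2 + a0*a2*a3 + 2*a0*a2*b0 + a0*a2*b1 + 2*a0*a2*b2 + a0*a2*b3 + 2*a0*a2*o0 + a0*a2*x0
      + a0*a3 + 2*a0*a3*b0 + a0*a3*b1 + a0*a3*b2 + 2*a0*a3*o0 + a0*a3*x0 + 2*a0*b0*b1 + 2*a0*b0*b2
      + 2*a0*b0*b3 + a0*b1 + a0*b1*b1 + a0*b1*b2 + a0*b1*b3 + 2*a0*b1*o0 + a0*b1*x0 + a0*b2
      + a0*b2*b2 + a0*b2*b3 + 2*a0*b2*o0 + a0*b2*x0 + a0*b3 + 2*a0*b3*o0 + a0*b3*x0 + a0*o0*z1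
      + a0*o0*z2 + a0*o0*z3 + 2*a0*o1*z1 + a0*o1*z2 + a0*o1*z3 + a0*o2*z2 + a0*o2*z3 + a0*z1 + a0*z2
      + a0*z3 + a1*a1 + a1*a1*a2 + a1*a1*a3 + a1*a1*b0 + a1*a1*b2 + a1*a1*b3 + 2*a1*a1*o0 + a1*a1*x0
      + a1*a2 + a1*a2*a2 + a1*a2*a3 + a1*a2*b0 + 2*a1*a2*b1 + 2*a1*a2*b2 + a1*a2*b3 + a1*a2*o0
      + a1*a2*o1 + a1*a2*x0 + a1*a2*x1 + a1*a3 + a1*a3*b0 + 2*a1*a3*b1 + a1*a3*b2 + a1*a3*o0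
      + a1*a3*o1 + a1*a3*x0 + a1*a3*x1 + a1*b0*b0 + 2*a1*b0*b1 + a1*b0*b2 + a1*b0*b3 + 2*a1*b0*o0
      + a1*b0*x0 + a1*b1 + 2*a1*b1*b2 + 2*a1*b1*b3 + 4*a1*b1*o0 + 2*a1*b1*x0 + a1*b2 + a1*b2*b2
      + a1*b2*b3 + a1*b2*o0 + a1*b2*o1 + a1*b2*x0 + a1*b2*x1 + a1*b3 + a1*b3*o0 + a1*b3*o1 + a1*b3*x0
      + a1*b3*x1 + a1*o0 + a1*o0*o1 + a1*o1 + a1*o1*o1 + a1*o1*z1 + a1*o1*z2 + a1*o1*z3 + a1*o2*x0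
      + a1*o2*x1 + a1*o2*z2 + a1*o2*z3 + a1*o3*x0 + a1*o3*x1 + a1*x0 + a1*x0*z1 + a1*x0*z2 + a1*x0*z3
      + a1*x1 + a1*x1*z1 + a1*x1*z2 + a1*x1*z3 + a1*z1 + a1*z2 + a1*z3 + a2*a2 + a2*a2*b0 + a2*a2*b1
      + a2*a2*o0 + a2*a2*o1 + a2*a2*x0 + a2*a2*x1 + a2*a3 + a2*a3*b0 + a2*a3*b1 + a2*a3*o0 + a2*a3*o1
      + a2*a3*x0 + a2*a3*x1 + a2*a3*x2 + a2*b0*b0 + a2*b0*b1 + 2*a2*b0*b2 + a2*b0*b3 + 2*a2*b0*o0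
      + a2*b0*x0 + a2*b1*b1 + 2*a2*b1*b2 + a2*b1*b3 + a2*b1*o0 + a2*b1*o1 + a2*b1*x0 + a2*b1*x1
      + a2*b2 + 2*a2*b2*o0 + 2*a2*b2*o1 + 2*a2*b2*x0 + 2*a2*b2*x1 + a2*b3 + a2*b3*o0 + a2*b3*o1
      + a2*b3*x0 + a2*b3*x1 + a2*b3*x2 + a2*o0 + a2*o0*o1 + a2*o0*o2 + a2*o1 + a2*o1*o1 + a2*o1*o2
      + a2*o2 + a2*o2*o2 + a2*o2*x0 + a2*o2*x1 + a2*o2*z2 + a2*o2*z3 + a2*o3*x0 + a2*o3*x1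
      + 2*a2*o3*x2 + a2*x0 + a2*x0*z2 + a2*x0*z3 + a2*x1 + a2*x1*z2 + a2*x1*z3 + a2*x2 + a2*x2*z2
      + 2*a2*x2*z3 + a2*z2 + a2*z3 + a3*a3*x0 + a3*a3*x1 + a3*a3*x2 + a3*b0*b0 + a3*b0*b1 + a3*b0*b2
      + 2*a3*b0*o0 + a3*b0*x0 + a3*b1*b1 + a3*b1*b2 + a3*b1*o0 + a3*b1*o1 + a3*b1*x0 + a3*b1*x1
      + a3*b2*o0 + a3*b2*o1 + a3*b2*x0 + a3*b2*x1 + a3*b2*x2 + 2*a3*b3*x0 + 2*a3*b3*x1 + 2*a3*b3*x2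
      + a3*o0 + a3*o0*o1 + a3*o0*o2 + a3*o0*o3 + a3*o1 + a3*o1*o1 + a3*o1*o2 + a3*o1*o3 + a3*o2
      + 2*a3*o2*o2 + a3*o2*o3 + 2*a3*o3*x0 + 2*a3*o3*x1 + 2*a3*o3*x2 + a3*x0 + a3*x0*z3 + a3*x1
      + a3*x1*z3 + a3*x2 + a3*x2*z3 + b0*b0*b1 + b0*b0*b2 + b0*b0*b3 + b0*b1*b1 + b0*b1*b2 + b0*b1*b3
      + 2*b0*b1*o0 + b0*b1*x0 + b0*b2*b2 + b0*b2*b3 + 2*b0*b2*o0 + b0*b2*x0 + 2*b0*b3*o0 + b0*b3*x0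
      + b0*o0*z1 + b0*o0*z2 + b0*o0*z3 + 2*b0*o1*z1 + b0*o1*z2 + b0*o1*z3 + b0*o2*z2 + b0*o2*z3
      + b1*b1*b2 + b1*b1*b3 + 2*b1*b1*o0 + b1*b1*x0 + b1*b2*b2 + b1*b2*b3 + b1*b2*o0 + b1*b2*o1
      + b1*b2*x0 + b1*b2*x1 + b1*b3*o0 + b1*b3*o1 + b1*b3*x0 + b1*b3*x1 + b1*o0*o1 + b1*o1*o1
      + b1*o1*z1 + b1*o1*z2 + b1*o1*z3 + b1*o2*x0 + b1*o2*x1 + b1*o2*z2 + b1*o2*z3 + b1*o3*x0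
      + b1*o3*x1 + b1*x0*z1 + b1*x0*z2 + b1*x0*z3 + b1*x1*z1 + b1*x1*z2 + b1*x1*z3 + b2*b2*o0
      + b2*b2*o1 + b2*b2*x0 + b2*b2*x1 + b2*b3*o0 + b2*b3*o1 + b2*b3*x0 + b2*b3*x1 + b2*b3*x2
      + b2*o0*o1 + b2*o0*o2 + b2*o1*o1 + b2*o1*o2 + b2*o2*o2 + b2*o2*x0 + b2*o2*x1 + b2*o2*z2
      + b2*o2*z3 + b2*o3*x0 + b2*o3*x1 + 2*b2*o3*x2 + b2*x0*z2 + b2*x0*z3 + b2*x1*z2 + b2*x1*z3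
      + b2*x2*z2 + 2*b2*x2*z3 + b3*b3*x0 + b3*b3*x1 + b3*b3*x2 + b3*o0*o1 + b3*o0*o2 + b3*o0*o3
      + b3*o1*o1 + b3*o1*o2 + b3*o1*o3 + 2*b3*o2*o2 + b3*o2*o3 + 2*b3*o3*x0 + 2*b3*o3*x1 + 2*b3*o3*x2
      + b3*x0*z3 + b3*x1*z3 + b3*x2*z3 + o0*o0*z1 + o0*o0*z2 + o0*o0*z3 + o0*o1*o2 + o0*o1*o3
      + o0*o1*z1 + o0*o1*z2 + o0*o1*z3 + o0*o2*o2 + o0*o2*o3 + o0*o2*z2 + o0*o2*z3 + o0*o3*o3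
      + o0*o3*z3 + o0*x0*z1 + o0*x0*z2 + o0*x0*z3 + o1*o1*o2 + o1*o1*o3 + o1*o1*z2 + o1*o1*z3
      + o1*o2*o2 + o1*o2*o3 + o1*o2*z2 + o1*o2*z3 + o1*o3*o3 + o1*o3*z3 + 2*o1*x0*z1 + o1*x0*z2
      + o1*x0*z3 + o1*x1*z1 + o1*x1*z2 + o1*x1*z3 + o2*o2*o3 + o2*o2*z3 + o2*o3*o3 + o2*o3*z3
      + o2*x0*z2 + o2*x0*z3 + o2*x1*z2 + o2*x1*z3 + o2*x2*z2 + o2*x2*z3 + x0*y1*z1 + x0*y1*z2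
      + x0*y1*z3 + x0*y2*z2 + x0*y2*z3 + x1*y1*z1 + x1*y1*z2 + x1*y1*z3 + x1*y2*z2 + x1*y2*z3
      + x2*y2*z2 + x2*y2*z3) * two0

lemma Kf_swap (o0 o1 o2 a0 a1 a2 b0 b1 b2 x0 x1 y1 z1 z2 : ZMod 2) :
    Kf (o0 + 1) (o1 + 1) (o2 + 1) b0 b1 b2 a0 a1 a2 (x0 + 1) (x1 + 1) (y1 + 1) (z1 + 1) (z2 + 1)
      = Kf o0 o1 o2 a0 a1 a2 b0 b1 b2 x0 x1 y1 z1 z2 := by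
  unfold Kf
  linear_combination (12*1 + 3*a0 + a0*a1 + a0*a2 + a0*b1 + a0*b2 + a0*o0 + 2*a0*o1 + a0*z1 + a0*z2 + 7*a1 + a1*a1
      + 2*a1*a2 + 2*a1*b0 + 3*a1*b1 + 2*a1*b2 + 2*a1*o1 + 2*a1*o2 + 2*a1*x0 + 2*a1*x1 + a1*z1
      + 2*a1*z2 + 6*a2 + a2*a2 + 2*a2*b0 + 3*a2*b1 + 2*a2*b2 + a2*o0 + 3*a2*o1 + 3*a2*o2 + a2*x0
      + a2*x1 + a2*z2 + 4*b0 + 2*b0*b1 + 2*b0*b2 + b0*o0 + 2*b0*o1 + 2*b0*z1 + 2*b0*z2 + 10*b1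
      + 2*b1*b1 + 3*b1*b2 + b1*o0 + 3*b1*o1 + 2*b1*o2 + 3*b1*x0 + 3*b1*x1 + 2*b1*z1 + 3*b1*z2 + 8*b2
      + b2*b2 + 2*b2*o0 + 4*b2*o1 + 3*b2*o2 + 2*b2*x0 + 2*b2*x1 + b2*z2 + 6*o0 + o0*o0 + 2*o0*o1
      + 2*o0*o2 + o0*x0 + 2*o0*z1 + 3*o0*z2 + 8*o1 + o1*o1 + 3*o1*o2 + 2*o1*x0 + o1*x1 + 2*o1*z1
      + 4*o1*z2 + 4*o2 + o2*o2 + o2*z2 + 4*x0 + x0*y1 + 2*x0*z1 + 2*x0*z2 + 2*x1 + x1*y1 + x1*z1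
      + x1*z2 + 2*y1 + y1*z1 + y1*z2 + 4*z1 + 6*z2) * two0

lemma Kf_neg1 (o0 o1 o2 a0 a1 a2 b0 b1 b2 x0 x1 y1 z1 z2 : ZMod 2) :
    Kf o0 o1 o2 (a0 + 1) (a1 + 1) (a2 + 1) b0 b1 b2 (x0 + 1) (x1 + 1) (y1 + 1) (z1 + 1) (z2 + 1)
      = Kf o0 o1 o2 a0 a1 a2 b0 b1 b2 x0 x1 y1 z1 z2 := by
  unfold Kf
  linear_combination (18*1 + 6*a0 + a0*a0 + 3*a0*a1 + 2*a0*a2 + 2*a0*b0 + 3*a0*b1 + 2*a0*b2 + 3*a0*o0 + 2*a0*o1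
      + a0*x0 + 12*a1 + a1*a1 + 2*a1*a2 + 3*a1*b0 + 2*a1*b1 + 2*a1*b2 + 4*a1*o0 + a1*o1 + 2*a1*o2
      + 4*a1*x0 + 2*a1*x1 + a1*z1 + 2*a1*z2 + 8*a2 + a2*a2 + 2*a2*b0 + 2*a2*b1 + 2*a2*b2 + 2*a2*o0
      + 2*a2*o2 + 3*a2*x0 + 2*a2*x1 + a2*z2 + 4*b0 + b0*b0 + 3*b0*b1 + 2*b0*b2 + 3*b0*o0 + 2*b0*o1
      + b0*x0 + 9*b1 + b1*b1 + 2*b1*b2 + 4*b1*o0 + b1*o1 + 2*b1*o2 + 4*b1*x0 + 2*b1*x1 + b1*z1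
      + 2*b1*z2 + 7*b2 + b2*b2 + 2*b2*o0 + 2*b2*o2 + 3*b2*x0 + 2*b2*x1 + b2*z2 + 7*o0 + o0*o0
      + 3*o0*o1 + o0*o2 + o0*x0 + o0*z1 + o0*z2 + 7*o1 + 2*o1*o1 + o1*o2 + 2*o1*x0 + o1*x1 + 3*o1*z1
      + 3*o1*z2 + 4*o2 + 2*o2*x0 + 2*o2*x1 + 7*x0 + x0*y1 + x0*z1 + 2*x0*z2 + 5*x1 + x1*y1 + x1*z1
      + 2*x1*z2 + 2*y1 + y1*z1 + y1*z2 + 3*z1 + 5*z2) * two0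

lemma Kf_neg2 (o0 o1 o2 a0 a1 a2 b0 b1 b2 x0 x1 y1 z1 z2 : ZMod 2) :
    Kf o0 o1 o2 a0 a1 a2 (b0 + 1) (b1 + 1) (b2 + 1) (x0 + 1) (x1 + 1) (y1 + 1) (z1 + 1) (z2 + 1)
      = Kf o0 o1 o2 a0 a1 a2 b0 b1 b2 x0 x1 y1 z1 z2 := by
  unfold Kf
  linear_combination (12*1 + 6*a0 + a0*a0 + 3*a0*a1 + 2*a0*a2 + 2*a0*b0 + 3*a0*b1 + 2*a0*b2 + 3*a0*o0 + 2*a0*o1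
      + a0*x0 + 11*a1 + a1*a1 + 2*a1*a2 + 3*a1*b0 + 2*a1*b1 + 2*a1*b2 + 4*a1*o0 + a1*o1 + 2*a1*o2
      + 4*a1*x0 + 2*a1*x1 + a1*z1 + 2*a1*z2 + 7*a2 + a2*a2 + 2*a2*b0 + 2*a2*b1 + 2*a2*b2 + 2*a2*o0
      + 2*a2*o2 + 3*a2*x0 + 2*a2*x1 + a2*z2 + 4*b0 + b0*b0 + 3*b0*b1 + 2*b0*b2 + 3*b0*o0 + 2*b0*o1
      + b0*x0 + 8*b1 + b1*b1 + 2*b1*b2 + 4*b1*o0 + b1*o1 + 2*b1*o2 + 4*b1*x0 + 2*b1*x1 + b1*z1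
      + 2*b1*z2 + 6*b2 + b2*b2 + 2*b2*o0 + 2*b2*o2 + 3*b2*x0 + 2*b2*x1 + b2*z2 + 6*o0 + o0*o0
      + 3*o0*o1 + o0*o2 + o0*x0 + o0*z1 + o0*z2 + 6*o1 + 2*o1*o1 + o1*o2 + 2*o1*x0 + o1*x1 + 3*o1*z1
      + 3*o1*z2 + 4*o2 + 2*o2*x0 + 2*o2*x1 + 6*x0 + x0*y1 + x0*z1 + 2*x0*z2 + 4*x1 + x1*y1 + x1*z1
      + 2*x1*z2 + 2*y1 + y1*z1 + y1*z2 + 2*z1 + 4*z2) * two0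

end Crest.H22ParKey
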