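import Crest.Agent.H22Par
import Crest.Agent.H22ParKey

set_option autoImplicit false
set_option linter.all false

/-! `w^3(eta) = t^3(eta) = 1` (helper22, rid 50). -/

namespace Crest.H22Par

open Finset Crest.H22ParKey

variable {E : Type*} [InvolutiveNeg E] {ι κ : Type*} [Fintype ι] [Fintype κ]
variable {v0 v1 v2 : ι → E} {a b : κ → E} {e0 : E}

def cube (f : E × E → ZMod 2) (p q r t : E × E) : ZMod 2 := (f p + f q) * (f q + f r) * (f r + f t)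

/-- The data of swap-odd / sign-odd functions on nearly orthogonal pairs. -/
structure Data (near : E → E → Prop) (om : E × E → ZMod 2) (g : E → ZMod 2)
    (G1 G2 G3 : E × E → ZMod 2) : Prop where
  near_symm : ∀ x y, near x y → near y x
  near_neg : ∀ x y, near (-x) y ↔ near x y
  om_swap : ∀ x y, near x y → om (y, x) = om (x, y) + 1
  om_neg : ∀ x y, om (-x, y) = om (x, y)
  g_neg : ∀ x, g (-x) = g x + 1
  G1_swap : ∀ x y, near x y → G1 (y, x) = G1 (x, y) + 1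
  G2_swap : ∀ x y, near x y → G2 (y, x) = G2 (x, y) + 1
  G3_swap : ∀ x y, near x y → G3 (y, x) = G3 (x, y) + 1
  G1_neg : ∀ x y, near x y → G1 (-x, y) = G1 (x, y) + 1
  G2_neg : ∀ x y, near x y → G2 (-x, y) = G2 (x, y) + 1
  G3_neg : ∀ x y, near x y → G3 (-x, y) = G3 (x, y) + 1

variable {near : E → E → Prop} {om : E × E → ZMod 2} {g : E → ZMod 2}
  {G1 G2 G3 : E × E → ZMod 2}

lemma odd2 (D1 : ∀ x y, near x y → near y x) (D2 : ∀ x y, near (-x) y ↔ near x y)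
    (G : E × E → ZMod 2)
    (hs : ∀ x y, near x y → G (y, x) = G (x, y) + 1)
    (hn : ∀ x y, near x y → G (-x, y) = G (x, y) + 1) :
    ∀ x y, near x y → G (x, -y) = G (x, y) + 1 := by
  intro x y h
  have h' : near (-y) x := (D2 y x).2 (D1 x y h)
  rw [hs (-y) x h', hn y x (D1 x y h), hs x y h]
  linear_combination two0

lemma near_neg2 (D1 : ∀ x y, near x y → near y x) (D2 : ∀ x y, near (-x) y ↔ near x y)
    (x y : E) : near x (-y) ↔ near x y :=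
  ⟨fun h => D1 _ _ ((D2 y x).1 (D1 _ _ h)), fun h => D1 _ _ ((D2 y x).2 (D1 _ _ h))⟩

open Classical in
noncomputable def Kbar (near : E → E → Prop) (om : E × E → ZMod 2) (g : E → ZMod 2)
    (G1 G2 G3 : E × E → ZMod 2) (p q r : E × E) : ZMod 2 :=
  if near p.1 p.2 ∧ near q.1 q.2 ∧ near r.1 r.2 then
    Kf (om p) (om q) (om r) (g p.1) (g q.1) (g r.1) (g p.2) (g q.2) (g r.2)
      (G1 p) (G1 q) (G2 q) (G3 q) (G3 r)
  else 0

lemma Kbar_inv (D : Data near om g G1 G2 G3) : Inv3 (Kbar near om g G1 G2 G3) := by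
  have om2 : ∀ x y, near x y → om (x, -y) = om (x, y) := by
    intro x y h
    have h' : near (-y) x := (D.near_neg y x).2 (D.near_symm x y h)
    rw [D.om_swap (-y) x h', D.om_neg, D.om_swap x y h]
    linear_combination two0
  have G12 := odd2 D.near_symm D.near_neg G1 D.G1_swap D.G1_neg
  have G22 := odd2 D.near_symm D.near_neg G2 D.G2_swap D.G2_neg
  have G32 := odd2 D.near_symm D.near_neg G3 D.G3_swap D.G3_neg
  refine ⟨?_, ?_, ?_⟩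
  · rintro ⟨p1, p2⟩ ⟨q1, q2⟩ ⟨r1, r2⟩
    unfold Kbar
    simp only [Prod.swap_prod_mk]
    by_cases h : near p1 p2 ∧ near q1 q2 ∧ near r1 r2
    · obtain ⟨hp, hq, hr⟩ := h
      rw [if_pos ⟨D.near_symm _ _ hp, D.near_symm _ _ hq, D.near_symm _ _ hr⟩, if_pos ⟨hp, hq, hr⟩]
      rw [D.om_swap _ _ hp, D.om_swap _ _ hq, D.om_swap _ _ hr, D.G1_swap _ _ hp, D.G1_swap _ _ hq,
        D.G2_swap _ _ hq, D.G3_swap _ _ hq, D.G3_swap _ _ hr]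
      exact Kf_swap _ _ _ _ _ _ _ _ _ _ _ _ _ _
    · rw [if_neg, if_neg h]
      rintro ⟨hp, hq, hr⟩
      exact h ⟨D.near_symm _ _ hp, D.near_symm _ _ hq, D.near_symm _ _ hr⟩
  · rintro ⟨p1, p2⟩ ⟨q1, q2⟩ ⟨r1, r2⟩
    unfold Kbar
    simp only
    by_cases h : near p1 p2 ∧ near q1 q2 ∧ near r1 r2
    · obtain ⟨hp, hq, hr⟩ := h
      rw [if_pos ⟨(D.near_neg _ _).2 hp, (D.near_neg _ _).2 hq, (D.near_neg _ _).2 hr⟩,
        if_pos ⟨hp, hq, hr⟩]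
      rw [D.om_neg, D.om_neg, D.om_neg, D.g_neg, D.g_neg, D.g_neg, D.G1_neg _ _ hp, D.G1_neg _ _ hq,
        D.G2_neg _ _ hq, D.G3_neg _ _ hq, D.G3_neg _ _ hr]
      exact Kf_neg1 _ _ _ _ _ _ _ _ _ _ _ _ _ _
    · rw [if_neg, if_neg h]
      rintro ⟨hp, hq, hr⟩
      exact h ⟨(D.near_neg _ _).1 hp, (D.near_neg _ _).1 hq, (D.near_neg _ _).1 hr⟩
  · rintro ⟨p1, p2⟩ ⟨q1, q2⟩ ⟨r1, r2⟩
    have nn := near_neg2 D.near_symm D.near_neg
    unfold Kbar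
    simp only
    by_cases h : near p1 p2 ∧ near q1 q2 ∧ near r1 r2
    · obtain ⟨hp, hq, hr⟩ := h
      rw [if_pos ⟨(nn _ _).2 hp, (nn _ _).2 hq, (nn _ _).2 hr⟩,
        if_pos ⟨hp, hq, hr⟩]
      rw [om2 _ _ hp, om2 _ _ hq, om2 _ _ hr, D.g_neg, D.g_neg, D.g_neg, G12 _ _ hp, G12 _ _ hq,
        G22 _ _ hq, G32 _ _ hq, G32 _ _ hr]
      exact Kf_neg2 _ _ _ _ _ _ _ _ _ _ _ _ _ _
    · rw [if_neg, if_neg h]
      rintro ⟨hp, hq, hr⟩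
      exact h ⟨(nn _ _).1 hp, (nn _ _).1 hq, (nn _ _).1 hr⟩

lemma cube_eq (D : Data near om g G1 G2 G3) (p q r t : E × E)
    (hp : near p.1 p.2) (hq : near q.1 q.2) (hr : near r.1 r.2) (ht : near t.1 t.2) :
    cube om p q r t = d3 (Kbar near om g G1 G2 G3) p q r t
      + cube (fun x => g x.1 + g x.2) p q r t
      + (G1 p + G1 q) * (G2 q + G2 r) * (G3 r + G3 t) := by
  have h := Kf_d (om p) (om q) (om r) (om t) (g p.1) (g q.1) (g r.1) (g t.1)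
    (g p.2) (g q.2) (g r.2) (g t.2) (G1 p) (G1 q) (G1 r) (G2 q) (G2 r) (G3 q) (G3 r) (G3 t)
  unfold d3 Kbar cube
  rw [if_pos ⟨hq, hr, ht⟩, if_pos ⟨hp, hr, ht⟩, if_pos ⟨hp, hq, ht⟩, if_pos ⟨hp, hq, hr⟩]
  have e : ∀ x y : ZMod 2, x + y = 0 → x = y := by decide
  apply e
  rw [← h]
  ring

lemma cube3 (x0 x1 x2 y0 y1 : ZMod 2) :
    ((x0 + y0) + (x0 + y1)) * ((x0 + y1) + (x1 + y1)) * ((x1 + y1) + (x2 + y1))
    + ((x0 + y0) + (x1 + y0)) * ((x1 + y0) + (x1 + y1)) * ((x1 + y1) + (x2 + y1))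
    + ((x0 + y0) + (x1 + y0)) * ((x1 + y0) + (x2 + y0)) * ((x2 + y0) + (x2 + y1))
    = (x0 + x1) * (x1 + x2) * (y0 + y1) := by
  linear_combination (x0*x0*x1 + x0*x0*x2 + 2*x0*x0*y1 + 2*x0*x1*x1 + 3*x0*x1*x2 + x0*x1*y0 + 7*x0*x1*y1 + x0*x2*x2 + 3*x0*x2*y0 + 3*x0*x2*y1 + x0*y0*y0 + 3*x0*y0*y1 + 6*x0*y1*y1 + x1*x1*x1 + 2*x1*x1*x2 + 3*x1*x1*y0 + 3*x1*x1*y1 + x1*x2*x2 + 7*x1*x2*y0 + x1*x2*y1 + 3*x1*y0*y0 + 10*x1*y0*y1 + 3*x1*y1*y1 + 2*x2*x2*y0 + 6*x2*y0*y0 + 3*x2*y0*y1 + x2*y1*y1 + 2*y0*y0*y0 + 4*y0*y0*y1 + 4*y0*y1*y1 + 2*y1*y1*y1) * two0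

theorem w3_eta (T : Tower2 v0 v1 v2 a b e0) (s : E → E → ZMod 2) (ssym : ∀ x y, s x y = s y x)
    (sneg : ∀ x y, s (-x) y = s x y + 1) (sdiag : ∀ x, s x x = 0)
    (D : Data near om g G1 G2 G3)
    (hnear : ∀ i j, s (v2 i) (v1 j) + s (v2 i) (v2 j) ≠ 0 →
      near (v0 i) (v0 j) ∧ near (v0 i) (v1 j) ∧ near (v1 i) (v0 j) ∧ near (v1 i) (v1 j) ∧
      near (v2 i) (v0 j) ∧ near (v2 i) (v1 j))
    (hz : ∀ i j, s (v2 i) (v1 j) + s (v2 i) (v2 j) ≠ 0 →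
      EZ3 (fun p q r t => (G1 p + G1 q) * (G2 q + G2 r) * (G3 r + G3 t))
        (v0 i) (v1 i) (v2 i) (v0 j) (v1 j) = 0) :
    ∑ i, ∑ j, (s (v2 i) (v1 j) + s (v2 i) (v2 j)) * EZ3 (cube om) (v0 i) (v1 i) (v2 i) (v0 j) (v1 j)
      = 1 := by
  have sneg' : ∀ x y, s x (-y) = s x y + 1 := by
    intro x y; rw [ssym, sneg, ssym]
  have h1 : ∀ i j, (s (v2 i) (v1 j) + s (v2 i) (v2 j)) *
      EZ3 (cube om) (v0 i) (v1 i) (v2 i) (v0 j) (v1 j)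
      = (s (v2 i) (v1 j) + s (v2 i) (v2 j)) *
      EZ3 (d3 (Kbar near om g G1 G2 G3)) (v0 i) (v1 i) (v2 i) (v0 j) (v1 j)
      + (g (v0 i) + g (v1 i)) * (g (v1 i) + g (v2 i)) *
        ((g (v0 j) + g (v1 j)) * (s (v2 i) (v1 j) + s (v2 i) (v2 j))) := by
    intro i j
    by_cases hc : s (v2 i) (v1 j) + s (v2 i) (v2 j) = 0
    · rw [hc]; ring
    · obtain ⟨n00, n01, n10, n11, n20, n21⟩ := hnear i j hc
      have hz' := hz i j hc
      have e : EZ3 (cube om) (v0 i) (v1 i) (v2 i) (v0 j) (v1 j)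
        = EZ3 (d3 (Kbar near om g G1 G2 G3)) (v0 i) (v1 i) (v2 i) (v0 j) (v1 j)
          + (g (v0 i) + g (v1 i)) * (g (v1 i) + g (v2 i)) * (g (v0 j) + g (v1 j)) := by
        have z := hz'
        unfold EZ3 at z ⊢
        rw [cube_eq D (v0 i, v0 j) (v0 i, v1 j) (v1 i, v1 j) (v2 i, v1 j) n00 n01 n11 n21,
          cube_eq D (v0 i, v0 j) (v1 i, v0 j) (v1 i, v1 j) (v2 i, v1 j) n00 n10 n11 n21,
          cube_eq D (v0 i, v0 j) (v1 i, v0 j) (v2 i, v0 j) (v2 i, v1 j) n00 n10 n20 n21]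
        have c3 := cube3 (g (v0 i)) (g (v1 i)) (g (v2 i)) (g (v0 j)) (g (v1 j))
        simp only at z
        unfold cube
        simp only
        linear_combination z + c3
      rw [e]; ring
  simp only [h1, Finset.sum_add_distrib]
  rw [Z2 T s ssym sneg sdiag _ (Kbar_inv D)]
  have h2 : ∀ i, ∑ j, ((g (v0 i) + g (v1 i)) * (g (v1 i) + g (v2 i)) *
        ((g (v0 j) + g (v1 j)) * (s (v2 i) (v1 j) + s (v2 i) (v2 j))))
      = (g (v0 i) + g (v1 i)) * (g (v1 i) + g (v2 i)) := by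
    intro i
    rw [← Finset.mul_sum, T.odd_odd g (fun w => s (v2 i) w) D.g_neg (fun w => sneg' _ _), mul_one]
  simp only [h2]
  rw [T.odd_odd g g D.g_neg D.g_neg, zero_add]

end Crest.H22Par
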