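import Crest.Agent.H27QSpec

/-! Modules SAMPQC and FDET of rid 350. -/

set_option autoImplicit false

open Crest.MathPhysics.Query

namespace Crest.Agent.H22QDet

open Crest.Agent.QG Crest.Agent.QG.Spec

lemma unitary_submatrix {D D' : Type} [Fintype D] [DecidableEq D] [Fintype D'] [DecidableEq D']
    (ρ : D' ≃ D) (U : Matrix D D ℂ) (hU : U ∈ Matrix.unitaryGroup D ℂ) :
    U.submatrix ρ ρ ∈ Matrix.unitaryGroup D' ℂ := by
  rw [Matrix.mem_unitaryGroup_iff] at hU ⊢
  rw [Matrix.star_eq_conjTranspose] at hU ⊢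
  rw [Matrix.conjTranspose_submatrix, Matrix.submatrix_mul_equiv, hU, Matrix.submatrix_one_equiv]

theorem sampQC : SampQC := by
  intro I _ _ E _ _ q P out F h hF n σ
  classical
  obtain ⟨N, g, ψ, ⟨w, U, ψ₀, emb, hU, hψ₀, hinj, hrun⟩, hP⟩ := h
  let ρ : QIdx n w ≃ I × Bool × Fin w := Equiv.prodCongr σ.symm (Equiv.refl _)
  let out' : I × Bool × Fin w → Bool := fun z =>
    if h : ∃ i, emb i = z then out (g h.choose) else false
  have hout : ∀ i, out' (emb i) = out (g i) := by
    intro i
    have h : ∃ j, emb j = emb i := ⟨i, rfl⟩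
    simp only [out']
    rw [dif_pos h, hinj h.choose_spec]
  refine ⟨w, fun t => (U t).submatrix ρ ρ, ψ₀ ∘ ρ, fun y => out' (ρ y),
    fun t => unitary_submatrix ρ (U t) (hU t), ?_, ?_⟩
  · rw [← hψ₀]
    exact ρ.sum_comp (fun e => ‖ψ₀ e‖ ^ 2)
  · intro x
    set x' : I → Bool := fun i => x (σ i) with hx'
    have hstate : ∀ t, stateAfter (fun t => (U t).submatrix ρ ρ) x (ψ₀ ∘ ρ) t
        = run U x' ψ₀ t ∘ ρ := by
      intro t
      induction t with
      | zero =>
        rw [stateAfter, run, Matrix.submatrix_mulVec_equiv]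
        congr 2
        funext e
        simp
      | succ t ih =>
        rw [stateAfter, run, ih, Matrix.submatrix_mulVec_equiv]
        congr 2
        funext e
        obtain ⟨i, b, z⟩ := e
        simp [oracle, orc, ρ, x']
    have h1 : ∑ y, (if out' (ρ y) = F x' then
        ‖stateAfter (fun t => (U t).submatrix ρ ρ) x (ψ₀ ∘ ρ) q y‖ ^ 2 else 0)
        = ∑ z, (if out' z = F x' then ‖run U x' ψ₀ q z‖ ^ 2 else 0) := by
      rw [hstate q]
      exact ρ.sum_comp (fun z => if out' z = F x' then ‖run U x' ψ₀ q z‖ ^ 2 else 0)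
    have h2 : ∑ i : Fin N, (if out (g i) = F x' then ‖ψ x' i‖ ^ 2 else 0)
        = ∑ z, (if out' z = F x' then ‖run U x' ψ₀ q z‖ ^ 2 else 0) := by
      refine Finset.sum_of_injOn emb hinj.injOn
        (fun _ _ => Finset.mem_coe.2 (Finset.mem_univ _)) ?_ ?_
      · intro y _ hy
        rw [(hrun x').2 y]
        · simp
        · simpa using hy
      · intro i _
        rw [hout, (hrun x').1 i]
    have h3 : ∑ e, (if out e = F x' then P x' e else 0)
        = ∑ i : Fin N, (if out (g i) = F x' then ‖ψ x' i‖ ^ 2 else 0) := by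
      simp only [← hP x']
      have : ∀ e, (if out e = F x' then ∑ i, (if g i = e then ‖ψ x' i‖ ^ 2 else 0) else 0)
          = ∑ i, (if g i = e then (if out e = F x' then ‖ψ x' i‖ ^ 2 else 0) else 0) := by
        intro e
        split_ifs <;> simp
      simp only [this]
      rw [Finset.sum_comm]
      refine Finset.sum_congr rfl fun i _ => ?_
      simp
    refine (hF x').trans ?_
    rw [h3, h2, ← h1]

section Det

variable {I : Type} [Fintype I] [DecidableEq I]

lemma det_pure [Nonempty I] (hPure : SampPure) {E : Type} [Fintype E] [DecidableEq E] (e₀ : E) :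
    Det I 0 E (fun _ => e₀) := by
  unfold Det
  have := hPure I E (fun e => if e₀ = e then 1 else 0) (by intro e; split_ifs <;> norm_num)
    (by simp)
  exact this

lemma det_map (hMap : SampMap) {E E' : Type} [Fintype E] [DecidableEq E] [DecidableEq E'] {q : ℕ}
    {φ : (I → Bool) → E} (h : Det I q E φ) (g : E → E') : Det I q E' (fun x => g (φ x)) := by
  have h1 := hMap I E E' q _ g h
  unfold Det
  convert h1 using 2
  rename_i x
  funext e'
  have : ∀ e, (if g e = e' then (if φ x = e then (1 : ℝ) else 0) else 0)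
      = if φ x = e then (if g e = e' then (1 : ℝ) else 0) else 0 := by
    intro e
    split_ifs <;> rfl
  simp only [this]
  simp

lemma det_bind (hMap : SampMap) (hBind : SampBind) {E E₂ : Type} [Fintype E] [DecidableEq E]
    [Fintype E₂] [DecidableEq E₂] {q₁ q₂ : ℕ} {φ : (I → Bool) → E} {χ : E → (I → Bool) → E₂}
    (h : Det I q₁ E φ) (hχ : ∀ e, Det I q₂ E₂ (χ e)) :
    Det I (q₁ + q₂) E₂ (fun x => χ (φ x) x) := by
  have h1 := hBind I E E₂ q₁ q₂ _ _ h hχ
  have h2 := hMap I (E × E₂) E₂ (q₁ + q₂) _ Prod.snd h1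
  unfold Det
  convert h2 using 2
  rename_i x
  funext e'
  rw [Fintype.sum_prod_type]
  have h3 : ∀ e : E, ∑ y : E₂, (if y = e' then
      (if φ x = e then (1 : ℝ) else 0) * (if χ e x = y then (1 : ℝ) else 0) else 0)
      = if φ x = e then (if χ e x = e' then (1 : ℝ) else 0) else 0 := by
    intro e
    rw [Finset.sum_ite_eq' Finset.univ e'
      (fun y => (if φ x = e then (1 : ℝ) else 0) * (if χ e x = y then (1 : ℝ) else 0))]
    simp only [Finset.mem_univ, if_true]
    split_ifs <;> simp
  simp only [h3]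
  simp

lemma det_pad [Nonempty I] (hPad : SampPad) {E : Type} [Fintype E] [DecidableEq E] {q q' : ℕ}
    (hq : q ≤ q') {φ : (I → Bool) → E} (h : Det I q E φ) : Det I q' E φ :=
  hPad I E q q' _ hq h

lemma det_fin [Nonempty I] (hPure : SampPure) (hRead : SampRead) (hMap : SampMap)
    (hBind : SampBind) (L : ℕ) (pos : Fin L → I) :
    Det I L (Fin L → Bool) (fun x k => x (pos k)) := by
  induction L with
  | zero =>
    have h := det_pure (I := I) hPure (fun k : Fin 0 => false)
    have : (fun (x : I → Bool) (k : Fin 0) => x (pos k)) = fun _ => (fun k : Fin 0 => false) := by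
      funext x k
      exact k.elim0
    rw [this]
    exact h
  | succ L ih =>
    have h1 := ih (fun k => pos k.succ)
    have h2 := det_bind hMap hBind (χ := fun (f : Fin L → Bool) (x : I → Bool) =>
      (Fin.cons (x (pos 0)) f : Fin (L + 1) → Bool)) h1
      (fun f => det_map hMap (hRead I (pos 0)) (fun b => (Fin.cons b f : Fin (L + 1) → Bool)))
    have : (fun (x : I → Bool) (k : Fin (L + 1)) => x (pos k))
        = fun x => (Fin.cons (x (pos 0)) (fun k : Fin L => x (pos k.succ)) : Fin (L + 1) → Bool) := by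
      funext x k
      refine Fin.cases ?_ (fun j => ?_) k
      · rfl
      · rfl
    rw [this]
    exact h2

/-- non-adaptive tests -/
lemma det_na [Nonempty I] (hPure : SampPure) (hRead : SampRead) (hMap : SampMap)
    (hBind : SampBind) {K : Type} [Fintype K] (pos : K → I) {E : Type} [DecidableEq E]
    (G : (K → Bool) → E) :
    Det I (Fintype.card K) E (fun x => G (fun k => x (pos k))) := by
  classical
  let σ := Fintype.equivFin K
  have h1 := det_fin hPure hRead hMap hBind (Fintype.card K) (fun k => pos (σ.symm k))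
  have h2 := det_map hMap h1 (fun f => G (fun k => f (σ k)))
  have : (fun x : I → Bool => G (fun k => x (pos k)))
      = fun x => G (fun k => x (pos (σ.symm (σ k)))) := by
    funext x
    simp
  rw [this]
  exact h2

end Det

theorem fDet (hPure : SampPure) (hRead : SampRead) (hBind : SampBind) (hMap : SampMap)
    (hPad : SampPad) : FDet := by
  intro n k c r₀ Lb θ₁ θ₀
  classical
  have : Nonempty (PP n (k + 1) c r₀ Lb) := ⟨Sum.inl (fun _ => false, fun _ => false)⟩
  have hptr : ∀ (a : XX c) (p : XX n),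
      Det (PP n (k + 1) c r₀ Lb) n (XX n) (fun x => ptr x a p) := by
    intro a p
    exact det_fin hPure hRead hMap hBind n
      (fun i => (Sum.inr (Sum.inr (a, SP.ptr p i)) : PP n (k + 1) c r₀ Lb))
  have hmat : ∀ (a : XX c) (p : XX n),
      Det (PP n (k + 1) c r₀ Lb) (n + 1) Bool (fun x => mat x (ptr x a p) p) := by
    intro a p
    exact det_bind hMap hBind (χ := fun (ρ : XX n) (x : PP n (k + 1) c r₀ Lb → Bool) => mat x ρ p)
      (hptr a p) (fun ρ => hRead _ (Sum.inl (ρ, p) : PP n (k + 1) c r₀ Lb))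
  constructor
  · intro e π
    have h := det_bind hMap hBind
      (χ := fun (u : Bool) (x : PP n (k + 1) c r₀ Lb → Bool) =>
        decide (e.1 ≠ π.1) && (!u && mat x (ptr x π.2 e.1) e.1))
      (hmat e.2 π.1)
      (fun u => det_map hMap (hmat π.2 e.1) (fun v => decide (e.1 ≠ π.1) && (!u && v)))
    exact det_pad hPad (by omega) h
  · intro b a l
    cases l with
    | all ρ =>
      refine det_pad hPad (q := 1) (by nlinarith [Nat.zero_le ((r₀ + 3) * Lb)]) ?_
      exact hRead _ (Sum.inl (ρ, b) : PP n (k + 1) c r₀ Lb)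
    | zero p =>
      refine det_pad hPad (q := n + 1) (by nlinarith [Nat.zero_le ((r₀ + 3) * Lb)]) ?_
      exact det_map hMap (hmat a p) (fun v => decide (p = b ∨ v = false))
    | tab τ =>
      -- positions: one key bit and three cells
      let τ₁ : TIx n (k + 1) c r₀ :=
        if hl : (τ.l : ℕ) = 0 then τ
        else ⟨τ.i, τ.s, ⟨(τ.l : ℕ) - 1, by omega⟩, Fin.last n, τ.y⟩
      let τ₂ : TIx n (k + 1) c r₀ :=
        if ht : (τ.t : ℕ) = 0 then τ
        else ⟨τ.i, τ.s, τ.l, ⟨(τ.t : ℕ) - 1, by omega⟩,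
          Function.update τ.y ⟨(τ.t : ℕ) - 1, by omega⟩ false⟩
      let τ₃ : TIx n (k + 1) c r₀ :=
        if ht : (τ.t : ℕ) = 0 then τ₁
        else ⟨τ.i, τ.s, τ.l, ⟨(τ.t : ℕ) - 1, by omega⟩,
          Function.update τ.y ⟨(τ.t : ℕ) - 1, by omega⟩ true⟩
      let pos : (Fin 3 × Fin Lb) ⊕ Unit → PP n (k + 1) c r₀ Lb := fun u =>
        match u with
        | Sum.inl (j, β) => Sum.inr (Sum.inr (a, SP.tab (if j = 0 then τ else if j = 1 then τ₂ else τ₃) β))
        | Sum.inr _ => Sum.inr (Sum.inl (b, ⟨τ.i, τ.s, τ.l, τ.y⟩))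
      let C : ((Fin 3 × Fin Lb) ⊕ Unit → Bool) → Fin 3 → ℤ := fun f j =>
        decZ (2 ^ (n * (k + 1))) (fun β : Fin Lb => f (Sum.inl (j, β)))
      let G : ((Fin 3 × Fin Lb) ⊕ Unit → Bool) → Bool := fun f =>
        decide (if ht : (τ.t : ℕ) = 0 then
          C f 0 = sgZ (f (Sum.inr ())) * (if hl : (τ.l : ℕ) = 0 then 1 else C f 2)
        else C f 0 = C f 1 + sgZ (τ.y ⟨(τ.t : ℕ) - 1, by omega⟩) * C f 2)
      have h := det_na hPure hRead hMap hBind pos G
      have hcard : Fintype.card ((Fin 3 × Fin Lb) ⊕ Unit) ≤ n + 2 + (r₀ + 3) * Lb := by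
        simp only [Fintype.card_sum, Fintype.card_prod, Fintype.card_fin, Fintype.card_unit]
        nlinarith [Nat.zero_le (r₀ * Lb)]
      have h' := det_pad hPad hcard h
      convert h' using 2
      rename_i x
      simp only [ok, G]
      rw [decide_eq_decide]
      unfold tabOK
      have c0 : C (fun k => x (pos k)) 0 = cell x a τ := rfl
      have c1 : C (fun k => x (pos k)) 1 = cell x a τ₂ := rfl
      have c2 : C (fun k => x (pos k)) 2 = cell x a τ₃ := rfl
      have ck : x (pos (Sum.inr ())) = key x b ⟨τ.i, τ.s, τ.l, τ.y⟩ := rfl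
      rw [c0, c1, c2, ck]
      by_cases ht : (τ.t : ℕ) = 0
      · rw [dif_pos ht, dif_pos ht]
        by_cases hl : (τ.l : ℕ) = 0
        · rw [dif_pos hl, dif_pos hl]
        · rw [dif_neg hl, dif_neg hl]
          simp only [τ₃, dif_pos ht, τ₁, dif_neg hl]
      · rw [dif_neg ht, dif_neg ht]
        simp only [τ₃, τ₂, dif_neg ht]
    | fin i =>
      let pos : Fin r₀ × Fin Lb → PP n (k + 1) c r₀ Lb := fun u =>
        Sum.inr (Sum.inr (a, SP.tab ⟨i, u.1, Fin.last k, Fin.last n, fun _ => false⟩ u.2))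
      let C : (Fin r₀ × Fin Lb → Bool) → Fin r₀ → ℤ := fun f s =>
        decZ (2 ^ (n * (k + 1))) (fun β : Fin Lb => f (s, β))
      let G : (Fin r₀ × Fin Lb → Bool) → Bool := fun f =>
        decide (if a i then ∃ s, θ₁ * ((2 : ℝ) ^ n) ^ (k + 2) ≤ ((C f s : ℤ) : ℝ) ^ 2
          else ∀ s, ((C f s : ℤ) : ℝ) ^ 2 ≤ θ₀ * ((2 : ℝ) ^ n) ^ (k + 2))
      have h := det_na hPure hRead hMap hBind pos G
      have hcard : Fintype.card (Fin r₀ × Fin Lb) ≤ n + 2 + (r₀ + 3) * Lb := by
        simp only [Fintype.card_prod, Fintype.card_fin]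
        nlinarith
      have h' := det_pad hPad hcard h
      convert h' using 2
      rename_i x
      simp only [ok, G]
      rw [decide_eq_decide]
      unfold finOK
      have c0 : ∀ s, C (fun k => x (pos k)) s
        = cell x a ⟨i, s, Fin.last k, Fin.last n, fun _ => false⟩ := fun _ => rfl
      simp only [c0]

end Crest.Agent.H22QDet
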