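import Crest.Agent.H27QSpec

/-! Module KEYLAW of rid 350. -/

set_option autoImplicit false

open Crest.MathPhysics.Query

namespace Crest.Agent.H22Q

open Crest.Agent.QG Crest.Agent.QG.Spec

section Product

variable {J B : Type} [Fintype J] [DecidableEq J] [Fintype B]

lemma sum_prod (H : J → B → ℝ) : ∑ κ : J → B, ∏ j, H j (κ j) = ∏ j, ∑ b, H j b := by
  rw [Finset.prod_univ_sum, Fintype.piFinset_univ]

lemma sum_prod_mul (H g : J → B → ℝ) :
    ∑ κ : J → B, (∏ j, H j (κ j)) * ∏ j, g j (κ j) = ∏ j, ∑ b, H j b * g j b := by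
  rw [← sum_prod (fun j b => H j b * g j b)]
  refine Finset.sum_congr rfl fun κ _ => ?_
  rw [Finset.prod_mul_distrib]

lemma marginal (H : J → B → ℝ) (hH : ∀ j, ∑ b, H j b = 1) (j₀ : J) (g : B → ℝ) :
    ∑ κ : J → B, (∏ j, H j (κ j)) * g (κ j₀) = ∑ b, H j₀ b * g b := by
  have h1 : ∀ κ : J → B, g (κ j₀) = ∏ j, (if j = j₀ then g (κ j) else 1) := by
    intro κ
    rw [Finset.prod_ite_eq' Finset.univ j₀ (fun j => g (κ j))]
    simp
  have h2 : ∑ κ : J → B, (∏ j, H j (κ j)) * g (κ j₀)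
      = ∑ κ : J → B, (∏ j, H j (κ j)) * ∏ j, (fun (j : J) (b : B) => if j = j₀ then g b else 1) j (κ j) := by
    refine Finset.sum_congr rfl fun κ _ => ?_
    rw [h1 κ]
  rw [h2, sum_prod_mul H (fun (j : J) (b : B) => if j = j₀ then g b else 1)]
  have h3 : ∀ j : J, ∑ b, H j b * (if j = j₀ then g b else 1)
      = if j = j₀ then ∑ b, H j b * g b else 1 := by
    intro j
    by_cases hj : j = j₀
    · simp [hj]
    · simp [hj, hH j]
  simp only [h3]
  rw [Finset.prod_ite_eq' Finset.univ j₀ (fun j => ∑ b, H j b * g b)]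
  simp

lemma resample (H : J → B → ℝ) (j : J) (hH : ∑ b, H j b = 1) (P : B → ℝ) (F : (J → B) → ℝ) :
    ∑ κ : J → B, (∏ i, H i (κ i)) * ∑ b, P b * F (Function.update κ j b) =
      ∑ κ : J → B, (∏ i, Function.update H j P i (κ i)) * F κ := by
  have hL : ∑ κ : J → B, (∏ i, H i (κ i)) * ∑ b, P b * F (Function.update κ j b)
      = ∑ p : (J → B) × B, (∏ i, H i (p.1 i)) * (P p.2 * F (Function.update p.1 j p.2)) := by
    rw [Fintype.sum_prod_type]
    refine Finset.sum_congr rfl fun κ _ => ?_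
    rw [Finset.mul_sum]
  have hR : ∑ κ : J → B, (∏ i, Function.update H j P i (κ i)) * F κ
      = ∑ p : (J → B) × B, H j p.2 * ((∏ i, Function.update H j P i (p.1 i)) * F p.1) := by
    rw [Fintype.sum_prod_type]
    refine Finset.sum_congr rfl fun κ _ => ?_
    simp only
    rw [← Finset.sum_mul, hH, one_mul]
  rw [hL, hR]
  let σ : (J → B) × B → (J → B) × B := fun p => (Function.update p.1 j p.2, p.1 j)
  have hσ : Function.Involutive σ := by
    intro p
    simp [σ]
  refine Fintype.sum_bijective σ hσ.bijective _ _ fun p => ?_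
  simp only [σ]
  have h1 : ∏ i, Function.update H j P i (Function.update p.1 j p.2 i)
      = ∏ i, Function.update (fun i => H i (p.1 i)) j (P p.2) i := by
    refine Finset.prod_congr rfl fun i _ => ?_
    by_cases hi : i = j
    · subst hi; simp
    · simp [hi]
  rw [h1, Finset.prod_update_of_mem (Finset.mem_univ j),
    Finset.prod_eq_mul_prod_sdiff_singleton_of_mem (Finset.mem_univ j) (fun i => H i (p.1 i))]
  ring

lemma hybrid (P Q : J → B → ℝ) (hP0 : ∀ j b, 0 ≤ P j b) (hP : ∀ j, ∑ b, P j b = 1)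
    (hQ0 : ∀ j b, 0 ≤ Q j b) (hQ : ∀ j, ∑ b, Q j b = 1) (F : (J → B) → ℝ) (ε : ℝ)
    (h : ∀ (j : J) (κ : J → B), ∑ b, P j b * F (Function.update κ j b) ≤
      ∑ b, Q j b * F (Function.update κ j b) + ε) :
    ∑ κ : J → B, (∏ j, P j (κ j)) * F κ ≤
      ∑ κ : J → B, (∏ j, Q j (κ j)) * F κ + Fintype.card J * ε := by
  have key : ∀ S : Finset J, ∑ κ : J → B, (∏ j, (if j ∈ S then P j else Q j) (κ j)) * F κ ≤
      ∑ κ : J → B, (∏ j, Q j (κ j)) * F κ + S.card * ε := by
    intro S
    induction S using Finset.induction_on with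
    | empty => simp
    | insert j S hj ih =>
      set H : J → B → ℝ := fun j => if j ∈ S then P j else Q j with hH
      have hH1 : ∀ j, ∑ b, H j b = 1 := by
        intro j
        simp only [hH]
        split_ifs
        · exact hP j
        · exact hQ j
      have hH0 : ∀ j b, 0 ≤ H j b := by
        intro j b
        simp only [hH]
        split_ifs
        · exact hP0 j b
        · exact hQ0 j b
      have e1 : ∀ κ : J → B, (∏ i, (if i ∈ insert j S then P i else Q i) (κ i))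
          = ∏ i, Function.update H j (P j) i (κ i) := by
        intro κ
        refine Finset.prod_congr rfl fun i _ => ?_
        by_cases hi : i = j
        · subst hi; simp
        · simp [hi, hH]
      have e2 : ∀ κ : J → B, (∏ i, H i (κ i))
          = ∏ i, Function.update H j (Q j) i (κ i) := by
        intro κ
        refine Finset.prod_congr rfl fun i _ => ?_
        by_cases hi : i = j
        · subst hi; simp [hH, hj]
        · simp [hi]
      simp only [e1]
      rw [← resample H j (hH1 j) (P j) F]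
      have ih' : ∑ κ : J → B, (∏ j, H j (κ j)) * F κ ≤
          ∑ κ : J → B, (∏ j, Q j (κ j)) * F κ + S.card * ε := ih
      simp only [e2] at ih'
      rw [← resample H j (hH1 j) (Q j) F] at ih'
      have e3 : ∑ κ : J → B, (∏ i, H i (κ i)) * ∑ b, P j b * F (Function.update κ j b) ≤
          ∑ κ : J → B, ((∏ i, H i (κ i)) * ∑ b, Q j b * F (Function.update κ j b)
            + (∏ i, H i (κ i)) * ε) := by
        refine Finset.sum_le_sum fun κ _ => ?_
        rw [← mul_add]
        exact mul_le_mul_of_nonneg_left (h j κ) (Finset.prod_nonneg fun i _ => hH0 i _)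
      rw [Finset.sum_add_distrib, ← Finset.sum_mul, sum_prod] at e3
      simp only [hH1, Finset.prod_const_one, one_mul] at e3
      rw [Finset.card_insert_of_notMem hj]
      push_cast
      linarith
  have := key Finset.univ
  simpa using this

end Product

section Tree

variable {n K c r₀ : ℕ}

/-- restriction of a tree to one copy -/
def restr (i : Fin c) (s : Fin r₀) (κ : KP n K c r₀ → Bool) :
    GT (KP n K c r₀) → GT (Fin K × XX n)
  | GT.leaf b => GT.leaf b
  | GT.node p t₀ t₁ =>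
    if p.i = i ∧ p.s = s then GT.node (p.l, p.y) (restr i s κ t₀) (restr i s κ t₁)
    else if κ p then restr i s κ t₁ else restr i s κ t₀

lemma depth_restr (i : Fin c) (s : Fin r₀) (κ : KP n K c r₀ → Bool) (T : GT (KP n K c r₀)) :
    (restr i s κ T).depth ≤ T.depth := by
  induction T with
  | leaf b => simp [restr, GT.depth]
  | node p t₀ t₁ ih₀ ih₁ =>
    rw [restr]
    split_ifs
    · simp only [GT.depth]
      omega
    · simp only [GT.depth]
      omega
    · simp only [GT.depth]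
      omega

lemma eval_restr (i : Fin c) (s : Fin r₀) (κ : KP n K c r₀ → Bool) (T : GT (KP n K c r₀))
    (f : Fin K → XX n → Bool) :
    (restr i s κ T).eval (fun p => f p.1 p.2) =
      T.eval (fun p => if p.i = i ∧ p.s = s then f p.l p.y else κ p) := by
  induction T with
  | leaf b => simp [restr, GT.eval]
  | node p t₀ t₁ ih₀ ih₁ =>
    rw [restr]
    by_cases h : p.i = i ∧ p.s = s
    · rw [if_pos h]
      simp only [GT.eval, if_pos h, ih₀, ih₁]
    · rw [if_neg h]
      by_cases h' : κ p = true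
      · rw [if_pos h']
        simp only [GT.eval, if_neg h, if_pos h', ih₁]
      · rw [if_neg h']
        simp only [GT.eval, if_neg h, if_neg h', ih₀]

/-- the blocks of a key -/
def EQ (n K c r₀ : ℕ) : (KP n K c r₀ → Bool) ≃ (Fin c × Fin r₀ → Fin K → XX n → Bool) where
  toFun κ := fun j l y => κ ⟨j.1, j.2, l, y⟩
  invFun m := fun p => m (p.i, p.s) p.l p.y
  left_inv κ := by
    funext p
    rfl
  right_inv m := by
    funext j l y
    rfl

end Tree

section Promise

variable {c r₀ : ℕ} {B : Type} [Fintype B]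

/-- not planted / planted law of the blocks -/
noncomputable def HL (w₁ w₀ : B → ℝ) (a : Fin c → Bool) (j : Fin c × Fin r₀) : B → ℝ :=
  if a j.1 then w₁ else w₀

open Classical in
/-- probability of a bad planted bit -/
lemma bad_planted (w₁ w₀ φ : B → ℝ) (h₁ : ∀ b, 0 ≤ w₁ b) (s₁ : ∑ b, w₁ b = 1)
    (s₀ : ∑ b, w₀ b = 1) (hφ1 : ∀ b, φ b ≤ 1) (θ : ℝ) (hθ0 : 0 < θ) (hm : θ ≤ ∑ b, w₁ b * φ b) (a : Fin c → Bool) (i : Fin c) (ha : a i = true) :
    ∑ m : Fin c × Fin r₀ → B, (∏ j, HL w₁ w₀ a j (m j)) *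
      (if ∀ s, φ (m (i, s)) < θ / 2 then 1 else 0) ≤ (1 - θ / 2) ^ r₀ := by
  have h1 : ∀ m : Fin c × Fin r₀ → B, (if ∀ s, φ (m (i, s)) < θ / 2 then (1 : ℝ) else 0)
      = ∏ j, (fun (j : Fin c × Fin r₀) (b : B) =>
        if j.1 = i then (if φ b < θ / 2 then (1 : ℝ) else 0) else 1) j (m j) := by
    intro m
    rw [Fintype.prod_prod_type]
    have : ∀ x : Fin c, ∏ y : Fin r₀, (fun (j : Fin c × Fin r₀) (b : B) =>
        if j.1 = i then (if φ b < θ / 2 then (1 : ℝ) else 0) else 1) (x, y) (m (x, y))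
        = if x = i then ∏ y, (if φ (m (x, y)) < θ / 2 then (1 : ℝ) else 0) else 1 := by
      intro x
      by_cases hx : x = i
      · simp [hx]
      · simp [hx]
    simp only [this]
    rw [Finset.prod_ite_eq' Finset.univ i
      (fun x => ∏ y, (if φ (m (x, y)) < θ / 2 then (1 : ℝ) else 0))]
    simp only [Finset.mem_univ, if_true]
    by_cases hall : ∀ s, φ (m (i, s)) < θ / 2
    · rw [if_pos hall]
      symm
      apply Finset.prod_eq_one
      intro y _
      rw [if_pos (hall y)]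
    · rw [if_neg hall]
      push Not at hall
      obtain ⟨y, hy⟩ := hall
      symm
      apply Finset.prod_eq_zero (Finset.mem_univ y)
      rw [if_neg (not_lt.2 hy)]
  simp only [h1]
  rw [sum_prod_mul (HL w₁ w₀ a) (fun (j : Fin c × Fin r₀) (b : B) =>
        if j.1 = i then (if φ b < θ / 2 then (1 : ℝ) else 0) else 1)]
  set p₁ : ℝ := ∑ b, w₁ b * (if φ b < θ / 2 then (1 : ℝ) else 0) with hp₁
  have hp0 : 0 ≤ p₁ := Finset.sum_nonneg fun b _ => mul_nonneg (h₁ b) (by split_ifs <;> norm_num)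
  have hp1 : p₁ ≤ 1 - θ / 2 := by
    have e1 : ∑ b, w₁ b * φ b ≤ ∑ b, (w₁ b * (1 : ℝ) - w₁ b * (if φ b < θ / 2 then (1 : ℝ) else 0)
        + w₁ b * (θ / 2)) := by
      refine Finset.sum_le_sum fun b _ => ?_
      have := hφ1 b
      have h0 := h₁ b
      split_ifs with hlt
      · have := mul_le_mul_of_nonneg_left hlt.le h0
        linarith
      · have := mul_le_mul_of_nonneg_left (hφ1 b) h0
        have h2 : 0 ≤ w₁ b * (θ / 2) := by positivity
        linarith
    rw [Finset.sum_add_distrib, Finset.sum_sub_distrib, ← Finset.sum_mul, ← Finset.sum_mul, s₁,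
      ← hp₁] at e1
    linarith
  have h2 : ∀ j : Fin c × Fin r₀, ∑ b, HL w₁ w₀ a j b *
      (fun (j : Fin c × Fin r₀) (b : B) =>
        if j.1 = i then (if φ b < θ / 2 then (1 : ℝ) else 0) else 1) j b
      = if j.1 = i then p₁ else 1 := by
    intro j
    by_cases hj : j.1 = i
    · simp only [hj, if_true, HL, ha]
      rfl
    · simp only [hj, if_false, mul_one, HL]
      split_ifs
      · exact s₁
      · exact s₀
  simp only at h2
  simp only [h2]
  rw [Fintype.prod_prod_type]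
  have h3 : ∀ x : Fin c, ∏ y : Fin r₀, (if x = i then p₁ else 1)
      = if x = i then p₁ ^ r₀ else 1 := by
    intro x
    by_cases hx : x = i
    · simp [hx]
    · simp [hx]
  simp only [h3]
  rw [Finset.prod_ite_eq' Finset.univ i (fun _ => p₁ ^ r₀)]
  simp only [Finset.mem_univ, if_true]
  exact pow_le_pow_left₀ hp0 hp1 r₀

open Classical in
/-- probability of a bad unplanted bit -/
lemma bad_null (w₁ w₀ φ : B → ℝ) (h₁ : ∀ b, 0 ≤ w₁ b) (h₀ : ∀ b, 0 ≤ w₀ b) (s₁ : ∑ b, w₁ b = 1)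
    (s₀ : ∑ b, w₀ b = 1) (hφ0 : ∀ b, 0 ≤ φ b) (θ₀ δ : ℝ) (hθ0 : 0 < θ₀)
    (hm : ∑ b, w₀ b * φ b ≤ δ) (a : Fin c → Bool) (i : Fin c) (ha : a i = false) :
    ∑ m : Fin c × Fin r₀ → B, (∏ j, HL w₁ w₀ a j (m j)) *
      (if ∀ s, φ (m (i, s)) ≤ θ₀ then 0 else 1) ≤ r₀ * (δ / θ₀) := by
  have hH0 : ∀ (j : Fin c × Fin r₀) (b : B), 0 ≤ HL w₁ w₀ a j b := by
    intro j b
    unfold HL
    split_ifs
    · exact h₁ b
    · exact h₀ b
  have hH1 : ∀ j : Fin c × Fin r₀, ∑ b, HL w₁ w₀ a j b = 1 := by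
    intro j
    unfold HL
    split_ifs
    · exact s₁
    · exact s₀
  have h1 : ∀ m : Fin c × Fin r₀ → B, (if ∀ s, φ (m (i, s)) ≤ θ₀ then (0 : ℝ) else 1)
      ≤ ∑ s, φ (m (i, s)) / θ₀ := by
    intro m
    by_cases hall : ∀ s, φ (m (i, s)) ≤ θ₀
    · rw [if_pos hall]
      exact Finset.sum_nonneg fun s _ => div_nonneg (hφ0 _) hθ0.le
    · rw [if_neg hall]
      push Not at hall
      obtain ⟨y, hy⟩ := hall
      have h2 : 1 ≤ φ (m (i, y)) / θ₀ := by
        rw [le_div_iff₀ hθ0]; linarith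
      exact h2.trans (Finset.single_le_sum (f := fun s => φ (m (i, s)) / θ₀)
        (fun s _ => div_nonneg (hφ0 _) hθ0.le) (Finset.mem_univ y))
  calc ∑ m : Fin c × Fin r₀ → B, (∏ j, HL w₁ w₀ a j (m j)) *
      (if ∀ s, φ (m (i, s)) ≤ θ₀ then 0 else 1)
      ≤ ∑ m : Fin c × Fin r₀ → B, (∏ j, HL w₁ w₀ a j (m j)) * ∑ s, φ (m (i, s)) / θ₀ :=
        Finset.sum_le_sum fun m _ => mul_le_mul_of_nonneg_left (h1 m)
          (Finset.prod_nonneg fun j _ => hH0 j _)
    _ = ∑ s, ∑ m : Fin c × Fin r₀ → B, (∏ j, HL w₁ w₀ a j (m j)) *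
          (fun b => φ b / θ₀) (m (i, s)) := by
        rw [Finset.sum_comm]
        refine Finset.sum_congr rfl fun m _ => ?_
        rw [Finset.mul_sum]
    _ = ∑ _s : Fin r₀, ∑ b, w₀ b * (φ b / θ₀) := by
        refine Finset.sum_congr rfl fun s _ => ?_
        rw [marginal (HL w₁ w₀ a) hH1 (i, s) (fun b => φ b / θ₀)]
        simp [HL, ha]
    _ ≤ ∑ _s : Fin r₀, δ / θ₀ := by
        refine Finset.sum_le_sum fun s _ => ?_
        have : ∑ b, w₀ b * (φ b / θ₀) = (∑ b, w₀ b * φ b) / θ₀ := by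
          rw [Finset.sum_div]
          refine Finset.sum_congr rfl fun b _ => by ring
        rw [this]
        gcongr
    _ = r₀ * (δ / θ₀) := by simp

end Promise

section Asym

/-- exponential beats polynomial -/
lemma exp_beats (A : ℝ) (p : ℕ) : ∃ n₀ : ℕ, ∀ n : ℕ, n₀ ≤ n →
    A * ((2 * n + 8 : ℕ) : ℝ) ^ p ≤ 2 ^ n := by
  have h1 := tendsto_pow_const_div_const_pow_of_one_lt p (by norm_num : (1 : ℝ) < 2)
  have h2 : ∀ᶠ n : ℕ in Filter.atTop, (n : ℝ) ^ p / 2 ^ n < 1 / ((|A| + 1) * 10 ^ p) :=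
    h1.eventually_lt_const (by positivity)
  obtain ⟨n₀, hn₀⟩ := Filter.eventually_atTop.1 h2
  refine ⟨max n₀ 1, fun n hn => ?_⟩
  have hn1 : (1 : ℝ) ≤ n := by exact_mod_cast le_trans (le_max_right _ _) hn
  have h3 := hn₀ n (le_trans (le_max_left _ _) hn)
  rw [div_lt_div_iff₀ (by positivity) (by positivity), one_mul] at h3
  have h4 : ((2 * n + 8 : ℕ) : ℝ) ≤ 10 * n := by
    push_cast
    linarith
  calc A * ((2 * n + 8 : ℕ) : ℝ) ^ p ≤ (|A| + 1) * (10 * n) ^ p := by
        have : A ≤ |A| + 1 := (le_abs_self A).trans (by linarith)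
        gcongr
    _ = (n : ℝ) ^ p * ((|A| + 1) * 10 ^ p) := by rw [mul_pow]; ring
    _ ≤ 2 ^ n := h3.le

/-- the exponent bookkeeping: the advantage of one copy -/
lemma adv_small (k n d : ℕ) (hk : 2 ≤ k) (x ε : ℝ) (hx : 0 ≤ x) (hε : 0 ≤ ε)
    (hd : (d : ℝ) ≤ ((2 : ℝ) ^ n) ^ (1 - 1 / (k : ℝ)))
    (hadv : x ^ (2 * (2 * k * (k + 1))) ≤
      (1 / (16 * Real.sqrt (2 ^ n))) ^ (k * (2 * (2 * k * (k + 1)))) *
        (Real.exp (4 ^ (2 * k * (k + 1))) *
          (16 ^ (2 * k * (k + 1)) * ((k + 1 : ℕ) * (2 : ℝ) ^ n) *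
            (d : ℝ) ^ (2 * k * (k + 1))) ^ (k + 1)))
    (hn : Real.exp (4 ^ (2 * k * (k + 1))) * (16 ^ (2 * k * (k + 1)) * ((k + 1 : ℕ) : ℝ)) ^ (k + 1)
      ≤ ε ^ (2 * (2 * k * (k + 1))) * (2 : ℝ) ^ n) :
    x ≤ ε := by
  set q := 2 * k * (k + 1) with hq
  set N : ℝ := (2 : ℝ) ^ n with hN
  have hN1 : 1 ≤ N := one_le_pow₀ (by norm_num)
  have hN0 : 0 < N := by linarith
  have hkR : (0 : ℝ) < k := by exact_mod_cast (by omega : 0 < k)
  -- d ^ q ≤ N ^ (2 (k-1)(k+1))
  have hdq : (d : ℝ) ^ q ≤ N ^ (2 * (k - 1) * (k + 1)) := by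
    calc (d : ℝ) ^ q ≤ (N ^ (1 - 1 / (k : ℝ))) ^ q := by gcongr
      _ = N ^ ((1 - 1 / (k : ℝ)) * q) := by rw [← Real.rpow_natCast, ← Real.rpow_mul hN0.le]
      _ = N ^ (((2 * (k - 1) * (k + 1) : ℕ) : ℝ)) := by
          congr 1
          rw [hq]
          have : ((k - 1 : ℕ) : ℝ) = (k : ℝ) - 1 := by
            rw [Nat.cast_sub (by omega)]; simp
          push_cast
          rw [this]
          field_simp
      _ = N ^ (2 * (k - 1) * (k + 1)) := Real.rpow_natCast _ _
  have hsq : (1 / (16 * Real.sqrt N)) ^ (k * (2 * q)) ≤ 1 / N ^ (k * q) := by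
    rw [one_div_pow, mul_pow]
    apply one_div_le_one_div_of_le (by positivity)
    have h1 : Real.sqrt N ^ (k * (2 * q)) = N ^ (k * q) := by
      rw [show k * (2 * q) = 2 * (k * q) by ring, pow_mul, Real.sq_sqrt hN0.le]
    rw [h1]
    have : (1 : ℝ) ≤ 16 ^ (k * (2 * q)) := one_le_pow₀ (by norm_num)
    nlinarith [pow_pos hN0 (k * q)]
  set C : ℝ := Real.exp (4 ^ q) * (16 ^ q * ((k + 1 : ℕ) : ℝ)) ^ (k + 1) with hC
  have hC0 : 0 ≤ C := by positivity
  have hmain : x ^ (2 * q) ≤ C / N := by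
    refine hadv.trans ?_
    have h1 : (Real.exp (4 ^ q) * (16 ^ q * ((k + 1 : ℕ) * N) * (d : ℝ) ^ q) ^ (k + 1))
        ≤ C * (N ^ (1 + 2 * (k - 1) * (k + 1))) ^ (k + 1) := by
      rw [hC, mul_assoc (Real.exp (4 ^ q)) _ ((N ^ (1 + 2 * (k - 1) * (k + 1))) ^ (k + 1)),
        ← mul_pow]
      apply mul_le_mul_of_nonneg_left _ (Real.exp_pos _).le
      apply pow_le_pow_left₀ (by positivity)
      calc 16 ^ q * (((k + 1 : ℕ) : ℝ) * N) * (d : ℝ) ^ q
          ≤ 16 ^ q * (((k + 1 : ℕ) : ℝ) * N) * N ^ (2 * (k - 1) * (k + 1)) := by gcongr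
        _ = 16 ^ q * ((k + 1 : ℕ) : ℝ) * N ^ (1 + 2 * (k - 1) * (k + 1)) := by
            rw [pow_add, pow_one]; ring
    have h2 : k * q = (1 + 2 * (k - 1) * (k + 1)) * (k + 1) + (k + 1) := by
      obtain ⟨l, rfl⟩ : ∃ l, k = l + 1 := ⟨k - 1, by omega⟩
      rw [hq, Nat.add_sub_cancel]
      ring
    calc (1 / (16 * Real.sqrt N)) ^ (k * (2 * q)) *
        (Real.exp (4 ^ q) * (16 ^ q * ((k + 1 : ℕ) * N) * (d : ℝ) ^ q) ^ (k + 1))
        ≤ (1 / N ^ (k * q)) * (C * (N ^ (1 + 2 * (k - 1) * (k + 1))) ^ (k + 1)) := by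
          gcongr
      _ = C / N ^ (k + 1) := by
          have hp : (N ^ (1 + 2 * (k - 1) * (k + 1))) ^ (k + 1)
              = N ^ ((1 + 2 * (k - 1) * (k + 1)) * (k + 1)) := (pow_mul _ _ _).symm
          rw [h2, pow_add, hp]
          have hM : N ^ ((1 + 2 * (k - 1) * (k + 1)) * (k + 1)) ≠ 0 := by positivity
          have hM2 : N ^ (k + 1) ≠ 0 := by positivity
          generalize N ^ ((1 + 2 * (k - 1) * (k + 1)) * (k + 1)) = M at hM
          generalize N ^ (k + 1) = M2 at hM2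
          field_simp
      _ ≤ C / N := by
          gcongr
          exact le_self_pow₀ hN1 (by omega)
  by_contra hlt
  push Not at hlt
  have h1 : ε ^ (2 * q) < x ^ (2 * q) := by
    apply pow_lt_pow_left₀ hlt hε
    rw [hq]
    positivity
  have h2 : C / N ≤ ε ^ (2 * q) := by
    rw [div_le_iff₀ hN0]
    exact hn
  linarith

end Asym

open Classical in
theorem main (hS : SingleLaw) (hPhi : PhiLe) : KeyLaw := by
  obtain ⟨τ, hτ0, hτ1, hS⟩ := hS
  intro k hk
  refine ⟨τ ^ (2 * k), by positivity, pow_le_one₀ hτ0.le hτ1, fun ρ hρ => ?_⟩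
  set θ : ℝ := τ ^ (2 * k) with hθ
  have hθ0 : 0 < θ := by positivity
  have hθ1 : θ ≤ 1 := pow_le_one₀ hτ0.le hτ1
  have hρ0 : (0 : ℝ) < ρ := by
    by_contra hcon
    have : (ρ : ℝ) * θ ≤ 0 := mul_nonpos_of_nonpos_of_nonneg (not_lt.1 hcon) hθ0.le
    linarith
  set q := 2 * k * (k + 1) with hq
  set C : ℝ := Real.exp (4 ^ q) * (16 ^ q * ((k + 1 : ℕ) : ℝ)) ^ (k + 1) with hC
  obtain ⟨n₁, hn₁⟩ := exp_beats (C * (100 * ρ) ^ (2 * q)) (2 * (2 * q))
  obtain ⟨n₂, hn₂⟩ := exp_beats (400 * ρ ^ 3) 5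
  refine ⟨max n₁ n₂, fun n hn c r₀ θ₀ hc hr₀ hθ₀ => ?_⟩
  obtain ⟨w₁, w₀, h₁, h₀, s₁, s₀, m₁, m₀, hadv⟩ := hS n k (by omega)
  have hc0 : (0 : ℝ) < c := by
    rw [hc]; exact_mod_cast (by omega : 0 < 2 * n + 8)
  have hθ₀0 : 0 < θ₀ := by rw [hθ₀]; positivity
  have hk1 : 1 - 1 / (k : ℝ) ≥ 0 := by
    have : (1 : ℝ) ≤ k := by exact_mod_cast (by omega : 1 ≤ k)
    rw [ge_iff_le, sub_nonneg, div_le_one (by linarith)]
    exact this
  have hH0 : ∀ (a : XX c) (j : Fin c × Fin r₀) (b : Fin (k + 1) → XX n → Bool),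
      0 ≤ HL w₁ w₀ a j b := by
    intro a j b
    unfold HL
    split_ifs
    · exact h₁ b
    · exact h₀ b
  have hH1 : ∀ (a : XX c) (j : Fin c × Fin r₀), ∑ b, HL w₁ w₀ a j b = 1 := by
    intro a j
    unfold HL
    split_ifs
    · exact s₁
    · exact s₀
  set E := EQ n (k + 1) c r₀ with hE
  refine ⟨fun a κ => ∏ j, HL w₁ w₀ a j (E κ j), fun κ => ∏ j, w₀ (E κ j), ?_, ?_, ?_, ?_, ?_, ?_⟩
  · intro a κ
    exact Finset.prod_nonneg fun j _ => hH0 a j _
  · intro a
    rw [E.sum_comp (fun m => ∏ j, HL w₁ w₀ a j (m j)), sum_prod]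
    simp [hH1]
  · intro κ
    exact Finset.prod_nonneg fun j _ => h₀ _
  · rw [E.sum_comp (fun m : Fin c × Fin r₀ → Fin (k + 1) → XX n → Bool => ∏ j, w₀ (m j)),
      sum_prod (fun _ => w₀)]
    simp [s₀]
  · -- the promise
    intro a
    set φ : (Fin (k + 1) → XX n → Bool) → ℝ := fun f => Phi f ^ 2 with hφ
    have hφ0 : ∀ f, 0 ≤ φ f := fun f => sq_nonneg _
    have hφ1 : ∀ f, φ f ≤ 1 := fun f => hPhi n (k + 1) f
    have hcphi : ∀ (κ : KP n (k + 1) c r₀ → Bool) i s, cphi κ i s = φ (E κ (i, s)) := fun _ _ _ => rfl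
    have step : ∀ m : Fin c × Fin r₀ → Fin (k + 1) → XX n → Bool,
        (if Good (θ / 2) θ₀ a (E.symm m) then (0 : ℝ) else 1) ≤
          ∑ i, (if a i = true then (if ∀ s, φ (m (i, s)) < θ / 2 then (1 : ℝ) else 0)
            else (if ∀ s, φ (m (i, s)) ≤ θ₀ then (0 : ℝ) else 1)) := by
      intro m
      have hnn : ∀ i, 0 ≤ (if a i = true then (if ∀ s, φ (m (i, s)) < θ / 2 then (1 : ℝ) else 0)
            else (if ∀ s, φ (m (i, s)) ≤ θ₀ then (0 : ℝ) else 1)) := by
        intro i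
        split_ifs <;> norm_num
      by_cases hG : Good (θ / 2) θ₀ a (E.symm m)
      · rw [if_pos hG]
        exact Finset.sum_nonneg fun i _ => hnn i
      · rw [if_neg hG]
        unfold Good at hG
        push Not at hG
        obtain ⟨i, hi⟩ := hG
        refine le_trans ?_ (Finset.single_le_sum (fun i _ => hnn i) (Finset.mem_univ i))
        simp only [hcphi, Equiv.apply_symm_apply] at hi
        by_cases ha : a i = true
        · simp only [ha, if_true] at hi ⊢
          push Not at hi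
          rw [if_pos hi]
        · simp only [ha, Bool.false_eq_true, if_false] at hi ⊢
          rw [if_neg hi]
    have hsum : ∑ κ, (if Good (θ / 2) θ₀ a κ then 0 else ∏ j, HL w₁ w₀ a j (E κ j))
        = ∑ m : Fin c × Fin r₀ → Fin (k + 1) → XX n → Bool,
          (∏ j, HL w₁ w₀ a j (m j)) * (if Good (θ / 2) θ₀ a (E.symm m) then (0 : ℝ) else 1) := by
      rw [← E.sum_comp]
      refine Finset.sum_congr rfl fun κ _ => ?_
      rw [Equiv.symm_apply_apply]
      split_ifs <;> simp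
    rw [hsum]
    calc ∑ m : Fin c × Fin r₀ → Fin (k + 1) → XX n → Bool,
          (∏ j, HL w₁ w₀ a j (m j)) * (if Good (θ / 2) θ₀ a (E.symm m) then (0 : ℝ) else 1)
        ≤ ∑ m : Fin c × Fin r₀ → Fin (k + 1) → XX n → Bool, (∏ j, HL w₁ w₀ a j (m j)) *
          ∑ i, (if a i = true then (if ∀ s, φ (m (i, s)) < θ / 2 then (1 : ℝ) else 0)
            else (if ∀ s, φ (m (i, s)) ≤ θ₀ then (0 : ℝ) else 1)) :=
          Finset.sum_le_sum fun m _ => mul_le_mul_of_nonneg_left (step m)
            (Finset.prod_nonneg fun j _ => hH0 a j _)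
      _ = ∑ i, ∑ m : Fin c × Fin r₀ → Fin (k + 1) → XX n → Bool, (∏ j, HL w₁ w₀ a j (m j)) *
          (if a i = true then (if ∀ s, φ (m (i, s)) < θ / 2 then (1 : ℝ) else 0)
            else (if ∀ s, φ (m (i, s)) ≤ θ₀ then (0 : ℝ) else 1)) := by
          rw [Finset.sum_comm]
          refine Finset.sum_congr rfl fun m _ => ?_
          rw [Finset.mul_sum]
      _ ≤ ∑ _i : Fin c, (1 / (200 * (c : ℝ)) + 1 / (200 * (c : ℝ))) := by
          refine Finset.sum_le_sum fun i _ => ?_
          by_cases ha : a i = true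
          · simp only [ha, if_true]
            refine (bad_planted w₁ w₀ φ h₁ s₁ s₀ hφ1 θ hθ0 m₁ a i ha).trans ?_
            have h1 : (1 - θ / 2) ^ r₀ ≤ 1 / (200 * (c : ℝ)) := by
              have hb : (1 - θ / 2) ^ r₀ * (1 + r₀ * (θ / 2)) ≤ 1 := by
                have e1 : (1 : ℝ) + r₀ * (θ / 2) ≤ (1 + θ / 2) ^ r₀ :=
                  one_add_mul_le_pow (by linarith) r₀
                calc (1 - θ / 2) ^ r₀ * (1 + r₀ * (θ / 2))
                    ≤ (1 - θ / 2) ^ r₀ * (1 + θ / 2) ^ r₀ := by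
                      apply mul_le_mul_of_nonneg_left e1
                      apply pow_nonneg; linarith
                  _ = ((1 - θ / 2) * (1 + θ / 2)) ^ r₀ := by rw [mul_pow]
                  _ ≤ 1 := by
                      apply pow_le_one₀
                      · apply mul_nonneg <;> linarith
                      · nlinarith
              have h200 : 200 * (c : ℝ) ≤ 1 + r₀ * (θ / 2) := by
                rw [hr₀]
                push_cast
                nlinarith
              rw [le_div_iff₀ (by positivity)]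
              refine le_trans ?_ hb
              apply mul_le_mul_of_nonneg_left h200
              apply pow_nonneg; linarith
            have h2 : (0 : ℝ) ≤ 1 / (200 * (c : ℝ)) := by positivity
            linarith
          · simp only [ha, Bool.false_eq_true, if_false]
            have ha' : a i = false := by simpa using ha
            refine (bad_null w₁ w₀ φ h₁ h₀ s₁ s₀ hφ0 θ₀ (1 / 2 ^ n) hθ₀0 m₀ a i ha').trans ?_
            have h2 : (0 : ℝ) ≤ 1 / (200 * (c : ℝ)) := by positivity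
            have h3 := hn₂ n (le_trans (le_max_right _ _) hn)
            rw [← hc] at h3
            have h4 : (r₀ : ℝ) * (1 / 2 ^ n / θ₀) ≤ 1 / (200 * (c : ℝ)) := by
              rw [hr₀, hθ₀]
              push_cast
              rw [le_div_iff₀ (by positivity)]
              have e1 : (ρ : ℝ) * c * (1 / 2 ^ n / (1 / (2 * (ρ : ℝ) ^ 2 * (c : ℝ) ^ 3))) * (200 * c)
                  = (400 * ρ ^ 3 * (c : ℝ) ^ 5) / 2 ^ n := by
                field_simp
                ring
              rw [e1, div_le_one (by positivity)]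
              exact h3
            linarith
      _ = 1 / 100 := by
          simp only [Finset.sum_const, Finset.card_univ, Fintype.card_fin, nsmul_eq_mul]
          field_simp
          norm_num
  · -- indistinguishability
    intro a T hT
    set ε : ℝ := 1 / (100 * ρ * (c : ℝ) ^ 2) with hε
    have hε0 : 0 < ε := by positivity
    have hN1 : (1 : ℝ) ≤ 2 ^ n := one_le_pow₀ (by norm_num)
    set d : ℕ := ⌊((2 : ℝ) ^ n) ^ (1 - 1 / (k : ℝ))⌋₊ with hd
    have hd1 : 0 < d := by
      rw [hd, Nat.floor_pos]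
      exact Real.one_le_rpow hN1 hk1
    have hdle : (d : ℝ) ≤ ((2 : ℝ) ^ n) ^ (1 - 1 / (k : ℝ)) :=
      Nat.floor_le (by positivity)
    have hTd : T.depth ≤ d := Nat.le_floor hT
    have hnC : C ≤ ε ^ (2 * q) * (2 : ℝ) ^ n := by
      have h3 := hn₁ n (le_trans (le_max_left _ _) hn)
      rw [← hc] at h3
      rw [hε, one_div_pow, div_mul_eq_mul_div, one_mul, le_div_iff₀ (by positivity)]
      calc C * (100 * ρ * (c : ℝ) ^ 2) ^ (2 * q)
          = C * (100 * ρ) ^ (2 * q) * (c : ℝ) ^ (2 * (2 * q)) := by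
            rw [mul_pow, ← pow_mul (c : ℝ)]; ring
        _ ≤ 2 ^ n := h3
    have hsmall : ∀ T' : GT (Fin (k + 1) × XX n), T'.depth ≤ d →
        |∑ f, w₁ f * T'.ind (fun p => f p.1 p.2) - ∑ f, w₀ f * T'.ind (fun p => f p.1 p.2)| ≤ ε := by
      intro T' hT'
      exact adv_small k n d hk _ ε (abs_nonneg _) hε0.le hdle
        (hadv q d T' (by rw [hq]; positivity) hd1 hT') hnC
    have hT1 : ∀ m : Fin c × Fin r₀ → Fin (k + 1) → XX n → Bool, ∀ j : Fin c × Fin r₀,
        ∀ f : Fin (k + 1) → XX n → Bool,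
        T.ind (E.symm (Function.update m j f)) =
          (restr j.1 j.2 (E.symm m) T).ind (fun p => f p.1 p.2) := by
      intro m j f
      unfold GT.ind
      rw [eval_restr]
      have : (E.symm (Function.update m j f) : KP n (k + 1) c r₀ → Bool)
          = fun p => if p.i = j.1 ∧ p.s = j.2 then f p.l p.y else (E.symm m) p := by
        funext p
        show (Function.update m j f) (p.i, p.s) p.l p.y = _
        by_cases hp : p.i = j.1 ∧ p.s = j.2
        · rw [if_pos hp]
          have : (p.i, p.s) = j := Prod.ext hp.1 hp.2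
          rw [this, Function.update_self]
        · rw [if_neg hp, Function.update_of_ne]
          · rfl
          · intro h
            exact hp ⟨congrArg Prod.fst h, congrArg Prod.snd h⟩
      rw [this]
    have hyb := hybrid (HL w₁ w₀ a) (fun _ => w₀) (hH0 a) (hH1 a) (fun _ => h₀) (fun _ => s₀)
      (fun m : Fin c × Fin r₀ → Fin (k + 1) → XX n → Bool => T.ind (E.symm m)) ε (by
        intro j m
        simp only [hT1]
        unfold HL
        split_ifs
        · have := hsmall (restr j.1 j.2 (E.symm m) T) ((depth_restr _ _ _ _).trans hTd)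
          have := (abs_le.1 this).2
          linarith
        · linarith)
    have e1 : ∑ κ, (∏ j, HL w₁ w₀ a j (E κ j)) * T.ind κ
        = ∑ m : Fin c × Fin r₀ → Fin (k + 1) → XX n → Bool,
          (∏ j, HL w₁ w₀ a j (m j)) * T.ind (E.symm m) := by
      rw [← E.sum_comp]
      refine Finset.sum_congr rfl fun κ _ => ?_
      rw [Equiv.symm_apply_apply]
    have e2 : ∑ κ, (∏ j, w₀ (E κ j)) * T.ind κ
        = ∑ m : Fin c × Fin r₀ → Fin (k + 1) → XX n → Bool,
          (∏ j, w₀ (m j)) * T.ind (E.symm m) := by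
      rw [← E.sum_comp]
      refine Finset.sum_congr rfl fun κ _ => ?_
      rw [Equiv.symm_apply_apply]
    simp only
    rw [e1, e2]
    refine hyb.trans ?_
    have e3 : (Fintype.card (Fin c × Fin r₀) : ℝ) * ε = 1 / 100 := by
      rw [Fintype.card_prod, Fintype.card_fin, Fintype.card_fin, hr₀, hε]
      push_cast
      field_simp
    rw [e3]

end Crest.Agent.H22Q
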