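import Crest.Agent.H27QSpec

/-! Module SAMP of rid 350. -/

set_option autoImplicit false

open Crest.MathPhysics.Query

namespace Crest.Agent.H22QSamp

open Crest.Agent.QG Crest.Agent.QG.Spec

lemma norm_unitary {D : Type} [Fintype D] [DecidableEq D] (U : Matrix D D ℂ)
    (hU : U ∈ Matrix.unitaryGroup D ℂ) (v : D → ℂ) :
    ∑ e, ‖U.mulVec v e‖ ^ 2 = ∑ e, ‖v e‖ ^ 2 := by
  have h1 : ∀ z : D → ℂ, ((∑ e, ‖z e‖ ^ 2 : ℝ) : ℂ) = star z ⬝ᵥ z := by
    intro z
    rw [dotProduct]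
    push_cast
    refine Finset.sum_congr rfl fun e _ => ?_
    rw [Pi.star_apply, RCLike.star_def, RCLike.conj_mul]
    rfl
  have h2 : star (U.mulVec v) ⬝ᵥ (U.mulVec v) = star v ⬝ᵥ v := by
    rw [Matrix.star_mulVec, Matrix.dotProduct_mulVec, Matrix.vecMul_vecMul]
    have : U.conjTranspose * U = 1 := by
      have := (Matrix.mem_unitaryGroup_iff' (A := U)).1 hU
      exact this
    rw [this, Matrix.vecMul_one]
  rw [← h1, ← h1] at h2
  exact_mod_cast h2

variable {I : Type} [Fintype I] [DecidableEq I]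

omit [DecidableEq I] in
lemma norm_orc {W : Type} [Fintype W] (x : I → Bool) (ψ : I × Bool × W → ℂ) :
    ∑ e, ‖orc x ψ e‖ ^ 2 = ∑ e, ‖ψ e‖ ^ 2 := by
  let σ : I × Bool × W → I × Bool × W := fun e => (e.1, xor e.2.1 (x e.1), e.2.2)
  have hσ : Function.Involutive σ := by
    intro e
    simp [σ]
  exact Fintype.sum_bijective σ hσ.bijective _ _ fun e => rfl

lemma norm_run {W : Type} [Fintype W] [DecidableEq W]
    (U : ℕ → Matrix (I × Bool × W) (I × Bool × W) ℂ)
    (hU : ∀ t, U t ∈ Matrix.unitaryGroup (I × Bool × W) ℂ) (x : I → Bool)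
    (ψ₀ : I × Bool × W → ℂ) (hψ : ∑ e, ‖ψ₀ e‖ ^ 2 = 1) (t : ℕ) :
    ∑ e, ‖run U x ψ₀ t e‖ ^ 2 = 1 := by
  induction t with
  | zero => rw [run, norm_unitary _ (hU 0), hψ]
  | succ t ih => rw [run, norm_unitary _ (hU _), norm_orc, ih]

lemma prep_norm {E : Type} [Fintype E] {q : ℕ} {ψ : (I → Bool) → E → ℂ} (h : Prep I q E ψ)
    (x : I → Bool) : ∑ e, ‖ψ x e‖ ^ 2 = 1 := by
  obtain ⟨w, U, ψ₀, emb, hU, hψ₀, hinj, h⟩ := h
  rw [← norm_run U hU x ψ₀ hψ₀ q]
  refine Finset.sum_of_injOn emb hinj.injOn (fun _ _ => Finset.mem_coe.2 (Finset.mem_univ _)) ?_ ?_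
  · intro y _ hy
    rw [(h x).2 y]
    · simp
    · simpa using hy
  · intro e _
    rw [(h x).1 e]

lemma prep_reindex {E E' : Type} {q : ℕ} {ψ : (I → Bool) → E → ℂ} (h : Prep I q E ψ)
    (σ : E' ≃ E) : Prep I q E' (fun x e => ψ x (σ e)) := by
  obtain ⟨w, U, ψ₀, emb, hU, hψ₀, hinj, h⟩ := h
  refine ⟨w, U, ψ₀, emb ∘ σ, hU, hψ₀, hinj.comp σ.injective, fun x => ⟨?_, ?_⟩⟩
  · intro e
    exact (h x).1 (σ e)
  · intro y hy
    apply (h x).2 y
    rw [Set.range_comp, σ.surjective.range_eq, Set.image_univ] at hy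
    exact hy

lemma samp_of_prep {E E' : Type} [DecidableEq E] [Fintype E'] {q : ℕ} {ψ : (I → Bool) → E' → ℂ}
    {P : (I → Bool) → E → ℝ} (h : Prep I q E' ψ) (g : E' → E)
    (hP : ∀ x e, ∑ i, (if g i = e then ‖ψ x i‖ ^ 2 else 0) = P x e) : Samp I q E P := by
  classical
  let σ : Fin (Fintype.card E') ≃ E' := (Fintype.equivFin E').symm
  refine ⟨Fintype.card E', g ∘ σ, fun x i => ψ x (σ i), prep_reindex h σ, fun x e => ?_⟩
  rw [← hP x e]
  exact σ.sum_comp (fun i => if g i = e then ‖ψ x i‖ ^ 2 else 0)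

lemma prep_embed (hIso : PrepIso) {E E' : Type} [Fintype E] [DecidableEq E] [Fintype E']
    [DecidableEq E'] {q : ℕ} {ψ : (I → Bool) → E → ℂ} (h : Prep I q E ψ) (ι : E → E')
    (hι : Function.Injective ι) :
    Prep I q E' (fun x e' => ∑ e, if e' = ι e then ψ x e else 0) := by
  have h1 := hIso I E E' q ψ (Matrix.of fun e' e => if e' = ι e then 1 else 0) (by
    ext e₁ e₂
    rw [Matrix.mul_apply, Matrix.one_apply]
    simp only [Matrix.conjTranspose_apply, Matrix.of_apply]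
    by_cases he : e₁ = e₂
    · subst he
      rw [if_pos rfl, Finset.sum_eq_single (ι e₁)]
      · simp
      · intro b _ hb
        simp [hb]
      · intro hn
        exact absurd (Finset.mem_univ _) hn
    · rw [if_neg he]
      apply Finset.sum_eq_zero
      intro b _
      by_cases hb : b = ι e₁
      · have : b ≠ ι e₂ := fun h2 => he (hι (hb.symm.trans h2))
        simp [this]
      · simp [hb]) h
  have h2 : (fun (x : I → Bool) (e' : E') => ∑ e, if e' = ι e then ψ x e else 0)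
      = fun x => (Matrix.of fun (e' : E') (e : E) => if e' = ι e then (1 : ℂ) else 0).mulVec (ψ x) := by
    funext x e'
    rw [Matrix.mulVec, dotProduct]
    refine Finset.sum_congr rfl fun e _ => ?_
    simp only [Matrix.of_apply]
    split_ifs <;> simp
  rw [h2]
  exact h1

theorem sampProb : SampProb := by
  intro I _ _ E _ _ q P h x
  obtain ⟨N, g, ψ, hψ, hP⟩ := h
  constructor
  · intro e
    rw [← hP x e]
    refine Finset.sum_nonneg fun i _ => ?_
    split_ifs
    · positivity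
    · exact le_rfl
  · simp only [← hP x]
    rw [Finset.sum_comm]
    have : ∀ i, ∑ e, (if g i = e then ‖ψ x i‖ ^ 2 else 0) = ‖ψ x i‖ ^ 2 := by
      intro i
      simp
    simp only [this]
    exact prep_norm hψ x

theorem sampPure (hC : PrepConst) : SampPure := by
  intro I _ _ _ E _ _ P hP0 hP1
  have hs : ∀ e, ‖((Real.sqrt (P e) : ℝ) : ℂ)‖ ^ 2 = P e := by
    intro e
    rw [Complex.norm_real, Real.norm_eq_abs, sq_abs, Real.sq_sqrt (hP0 e)]
  refine samp_of_prep (hC I E (fun e => ((Real.sqrt (P e) : ℝ) : ℂ)) ?_) id ?_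
  · simp only [hs, hP1]
  · intro x e
    simp only [hs, id]
    simp

theorem sampRead (hR : PrepRead) : SampRead := by
  intro I _ _ i
  refine samp_of_prep (hR I i) id ?_
  intro x e
  simp only [id]
  rw [Finset.sum_eq_single e]
  · split_ifs <;> simp_all
  · intro b _ hb
    simp [hb]
  · intro hn
    exact absurd (Finset.mem_univ _) hn

theorem sampBind (hIso : PrepIso) (hB : PrepBind) : SampBind := by
  intro I _ _ E E₂ _ _ _ _ q₁ q₂ P Q hP hQ
  classical
  obtain ⟨N₁, g₁, ψ₁, hψ₁, hP₁⟩ := hP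
  choose N₂ g₂ ψ₂ hψ₂ hQ₂ using hQ
  let φ : Fin N₁ → (I → Bool) → (Σ e : E, Fin (N₂ e)) → ℂ := fun i x p =>
    ∑ j, if p = (⟨g₁ i, j⟩ : Σ e : E, Fin (N₂ e)) then ψ₂ (g₁ i) x j else 0
  have hφ : ∀ i, Prep I q₂ (Σ e : E, Fin (N₂ e)) (φ i) := by
    intro i
    exact prep_embed hIso (hψ₂ (g₁ i)) (fun j => (⟨g₁ i, j⟩ : Σ e : E, Fin (N₂ e)))
      (fun a b h => by simpa using h)
  have h1 := hB I (Fin N₁) (Σ e : E, Fin (N₂ e)) q₁ q₂ ψ₁ φ hψ₁ hφ
  refine samp_of_prep h1 (fun p => (g₁ p.1, g₂ p.2.1 p.2.2)) ?_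
  intro x e
  rw [Fintype.sum_prod_type]
  have hin : ∀ i : Fin N₁, ∑ p : (Σ e : E, Fin (N₂ e)),
      (if (g₁ i, g₂ p.1 p.2) = e then ‖ψ₁ x i * φ i x p‖ ^ 2 else 0)
      = if g₁ i = e.1 then ‖ψ₁ x i‖ ^ 2 * Q e.1 x e.2 else 0 := by
    intro i
    have hφv : ∀ j, φ i x ⟨g₁ i, j⟩ = ψ₂ (g₁ i) x j := by
      intro j
      simp only [φ]
      rw [Finset.sum_eq_single j]
      · simp
      · intro b _ hb
        rw [if_neg]
        intro h
        exact hb (by simpa using h.symm)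
      · intro hn
        exact absurd (Finset.mem_univ _) hn
    have hφ0 : ∀ e' j, e' ≠ g₁ i → φ i x ⟨e', j⟩ = 0 := by
      intro e' j he'
      simp only [φ]
      apply Finset.sum_eq_zero
      intro b _
      rw [if_neg]
      intro h
      exact he' (congrArg Sigma.fst h)
    rw [Fintype.sum_sigma, Finset.sum_eq_single (g₁ i)]
    · by_cases he : g₁ i = e.1
      · rw [if_pos he]
        simp only [hφv]
        rw [← he, ← hQ₂ (g₁ i) x e.2, Finset.mul_sum]
        refine Finset.sum_congr rfl fun j _ => ?_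
        by_cases hj : g₂ (g₁ i) j = e.2
        · rw [if_pos hj, if_pos (Prod.ext he hj), norm_mul, mul_pow]
        · rw [if_neg hj, if_neg (fun h => hj (congrArg Prod.snd h)), mul_zero]
      · rw [if_neg he]
        apply Finset.sum_eq_zero
        intro j _
        rw [if_neg (fun h => he (congrArg Prod.fst h))]
    · intro e' _ he'
      apply Finset.sum_eq_zero
      intro j _
      rw [hφ0 e' j he']
      simp
    · intro hn
      exact absurd (Finset.mem_univ _) hn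
  simp only [hin]
  rw [← hP₁ x e.1, Finset.sum_mul]
  refine Finset.sum_congr rfl fun i _ => ?_
  split_ifs <;> simp

theorem sampMap : SampMap := by
  intro I _ _ E E' _ _ _ q P g h
  obtain ⟨N, g₀, ψ, hψ, hP⟩ := h
  refine ⟨N, g ∘ g₀, ψ, hψ, ?_⟩
  intro x e'
  simp only [← hP x, Function.comp]
  have : ∀ e, (if g e = e' then ∑ i, (if g₀ i = e then ‖ψ x i‖ ^ 2 else 0) else 0)
      = ∑ i, (if g₀ i = e then (if g e = e' then ‖ψ x i‖ ^ 2 else 0) else 0) := by
    intro e
    split_ifs <;> simp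
  simp only [this]
  rw [Finset.sum_comm]
  refine Finset.sum_congr rfl fun i _ => ?_
  simp

theorem sampPad (hPad : PrepPad) : SampPad := by
  intro I _ _ _ E _ _ q q' P hq h
  induction q', hq using Nat.le_induction with
  | base => exact h
  | succ m _ ih =>
    obtain ⟨N, g, ψ, hψ, hP⟩ := ih
    exact ⟨N, g, ψ, hPad I (Fin N) m ψ hψ, hP⟩

theorem sampAmp (hAmp : PrepAmp) : SampAmp := by
  intro I _ _ E _ _ q P G j h
  obtain ⟨N, g, ψ, hψ, hP⟩ := h
  have hp : ∀ x, ∑ e', (if G e' then P x e' else 0) = ∑ i, (if G (g i) then ‖ψ x i‖ ^ 2 else 0) := by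
    intro x
    simp only [← hP x]
    have : ∀ e, (if G e then ∑ i, (if g i = e then ‖ψ x i‖ ^ 2 else 0) else 0)
        = ∑ i, (if g i = e then (if G e then ‖ψ x i‖ ^ 2 else 0) else 0) := by
      intro e
      split_ifs <;> simp
    simp only [this]
    rw [Finset.sum_comm]
    refine Finset.sum_congr rfl fun i _ => ?_
    simp
  refine ⟨N, g, _, hAmp I (Fin N) q ψ (fun i => G (g i)) j hψ, ?_⟩
  intro x e
  beta_reduce
  rw [hp x, ← hP x e, Finset.mul_sum]
  refine Finset.sum_congr rfl fun i _ => ?_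
  by_cases hi : g i = e
  · rw [if_pos hi, if_pos hi, norm_mul, mul_pow, Complex.norm_real, Real.norm_eq_abs, sq_abs, ← hi]
    congr 1
    split_ifs <;> rfl
  · rw [if_neg hi, if_neg hi, mul_zero]

end Crest.Agent.H22QSamp
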