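import Crest.Agent.H19SLSpec

/-! Module RIESZ of rid 322 (S0499). -/

set_option autoImplicit false

open MeasureTheory ProbabilityTheory Crest.StreamLearn Module
open scoped ENNReal NNReal

namespace Crest.Agent.H22SlRiesz

open Crest.Agent.H19SL

/-- packing bound -/
lemma card_le {F : Type*} [NormedAddCommGroup F] [NormedSpace ℝ F] [FiniteDimensional ℝ F]
    (s : Finset F) (c : F) (ρ τ : ℝ) (hρ : 0 < ρ) (hτ : 0 ≤ τ)
    (hs : ∀ x ∈ s, dist x c ≤ τ) (h : ∀ x ∈ s, ∀ y ∈ s, x ≠ y → 2 * ρ ≤ dist x y) :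
    (s.card : ℝ) ≤ ((τ + ρ) / ρ) ^ finrank ℝ F := by
  borelize F
  let μ : Measure F := Measure.addHaar
  set A := ⋃ c ∈ s, Metric.ball (c : F) ρ with hA
  have D : Set.Pairwise (s : Set F) (Function.onFun Disjoint fun c => Metric.ball (c : F) ρ) := by
    rintro c hc d hd hcd
    apply Metric.ball_disjoint_ball
    have := h c hc d hd hcd
    linarith
  have A_subset : A ⊆ Metric.ball c (τ + ρ) := by
    refine Set.iUnion₂_subset fun x hx => ?_
    apply Metric.ball_subset_ball'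
    have := hs x hx
    linarith
  have hτρ : 0 < τ + ρ := by linarith
  have I :
    (s.card : ℝ≥0∞) * ENNReal.ofReal (ρ ^ finrank ℝ F) * μ (Metric.ball 0 1) ≤
      ENNReal.ofReal ((τ + ρ) ^ finrank ℝ F) * μ (Metric.ball 0 1) :=
    calc
      (s.card : ℝ≥0∞) * ENNReal.ofReal (ρ ^ finrank ℝ F) * μ (Metric.ball 0 1) = μ A := by
        rw [hA, measure_biUnion_finset D fun c _ => measurableSet_ball]
        simp only [μ.addHaar_ball_of_pos _ hρ]
        simp only [Finset.sum_const, nsmul_eq_mul, mul_assoc]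
      _ ≤ μ (Metric.ball c (τ + ρ)) := measure_mono A_subset
      _ = ENNReal.ofReal ((τ + ρ) ^ finrank ℝ F) * μ (Metric.ball 0 1) := by
        simp only [μ.addHaar_ball_of_pos _ hτρ]
  have J : (s.card : ℝ≥0∞) * ENNReal.ofReal (ρ ^ finrank ℝ F)
      ≤ ENNReal.ofReal ((τ + ρ) ^ finrank ℝ F) :=
    (ENNReal.mul_le_mul_iff_left (Metric.measure_ball_pos _ _ zero_lt_one).ne'
      measure_ball_lt_top.ne).1 I
  have K := ENNReal.toReal_le_of_le_ofReal (pow_nonneg hτρ.le _) J
  rw [ENNReal.toReal_mul, ENNReal.toReal_natCast,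
    ENNReal.toReal_ofReal (pow_nonneg hρ.le _)] at K
  rw [div_pow, le_div_iff₀ (pow_pos hρ _)]
  exact K

variable {d : ℕ}

/-- the slab -/
def slab (z x₀ : E d) (V : Submodule ℝ (E d)) (τ ρ : ℝ) : Set (E d) :=
  {x | x ∈ Metric.ball z τ ∧ Metric.infDist (x - x₀) V ≤ ρ}


lemma norm_sub_proj_le (V : Submodule ℝ (E d)) (x : E d) :
    ‖x - (V.orthogonalProjectionOnto x : E d)‖ ≤ Metric.infDist x V := by
  rw [Metric.le_infDist ⟨0, V.zero_mem⟩]
  intro y hy
  have h1 := Submodule.starProjection_minimal (U := V) x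
  rw [Submodule.starProjection_apply] at h1
  rw [h1, dist_eq_norm]
  exact ciInf_le (f := fun v : V => ‖x - v‖) ⟨0, by rintro _ ⟨v, rfl⟩; positivity⟩ ⟨y, hy⟩

lemma sep_card (z x₀ : E d) (V : Submodule ℝ (E d)) (τ ρ : ℝ) (hτ : 0 < τ) (hρ : 0 < ρ)
    (t : Finset (E d)) (ht : ∀ x ∈ t, x ∈ slab z x₀ V τ ρ)
    (hsep : ∀ x ∈ t, ∀ y ∈ t, x ≠ y → 4 * ρ ≤ dist x y) :
    (t.card : ℝ) ≤ ((τ + ρ) / ρ) ^ finrank ℝ V := by
  classical
  set P : E d → V := fun x => V.orthogonalProjectionOnto (x - x₀) with hP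
  have hPd : ∀ x y : E d, dist (P x) (P y) ≤ dist x y := by
    intro x y
    have : P x - P y = V.orthogonalProjectionOnto (x - y) := by
      simp only [hP, ← map_sub]; congr 1; abel
    rw [dist_eq_norm, this, dist_eq_norm]
    exact Submodule.norm_orthogonalProjectionOnto_apply_le V _
  have hlow : ∀ x ∈ t, ∀ y ∈ t, x ≠ y → 2 * ρ ≤ dist (P x) (P y) := by
    intro x hx y hy hxy
    have h1 := hsep x hx y hy hxy
    have h2 : ‖(x - x₀) - (P x : E d)‖ ≤ ρ := (norm_sub_proj_le V _).trans (ht x hx).2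
    have h3 : ‖(y - x₀) - (P y : E d)‖ ≤ ρ := (norm_sub_proj_le V _).trans (ht y hy).2
    have h4 : dist (P x) (P y) = ‖(P x : E d) - (P y : E d)‖ := by
      rw [Subtype.dist_eq, dist_eq_norm]
    have h5 : x - y = ((x - x₀) - (P x : E d)) + ((P x : E d) - (P y : E d))
        - ((y - x₀) - (P y : E d)) := by abel
    rw [dist_eq_norm, h5] at h1
    have h6 := norm_sub_le (((x - x₀) - (P x : E d)) + ((P x : E d) - (P y : E d)))
      ((y - x₀) - (P y : E d))
    have h7 := norm_add_le ((x - x₀) - (P x : E d)) ((P x : E d) - (P y : E d))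
    rw [h4]
    linarith
  have hinj : Set.InjOn P t := by
    intro x hx y hy hxy
    by_contra hne
    have := hlow x hx y hy hne
    rw [hxy, dist_self] at this
    linarith
  have hcard : (t.image P).card = t.card := Finset.card_image_of_injOn hinj
  rw [← hcard]
  refine card_le (t.image P) (P z) ρ τ hρ hτ.le ?_ ?_
  · intro p hp
    obtain ⟨x, hx, rfl⟩ := Finset.mem_image.1 hp
    exact (hPd x z).trans (Metric.mem_ball.1 (ht x hx).1).le
  · intro p hp q hq hpq
    obtain ⟨x, hx, rfl⟩ := Finset.mem_image.1 hp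
    obtain ⟨y, hy, rfl⟩ := Finset.mem_image.1 hq
    exact hlow x hx y hy (fun h => hpq (by rw [h]))

/-- a maximal separated finset covers -/
lemma exists_cover (z x₀ : E d) (V : Submodule ℝ (E d)) (τ ρ : ℝ) (hτ : 0 < τ) (hρ : 0 < ρ) :
    ∃ t : Finset (E d), (t.card : ℝ) ≤ ((τ + ρ) / ρ) ^ finrank ℝ V ∧
      slab z x₀ V τ ρ ⊆ ⋃ x ∈ t, Metric.ball x (4 * ρ) := by
  classical
  set N : Set ℕ := {n | ∃ t : Finset (E d), t.card = n ∧ (∀ x ∈ t, x ∈ slab z x₀ V τ ρ) ∧
    (∀ x ∈ t, ∀ y ∈ t, x ≠ y → 4 * ρ ≤ dist x y)} with hN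
  have hne : N.Nonempty := ⟨0, ∅, rfl, by simp, by simp⟩
  have hbdd : BddAbove N := by
    refine ⟨⌈((τ + ρ) / ρ) ^ finrank ℝ V⌉₊, ?_⟩
    rintro n ⟨t, rfl, h1, h2⟩
    have := (sep_card z x₀ V τ ρ hτ hρ t h1 h2).trans (Nat.le_ceil _)
    exact_mod_cast this
  obtain ⟨t, hcard, h1, h2⟩ := Nat.sSup_mem hne hbdd
  refine ⟨t, sep_card z x₀ V τ ρ hτ hρ t h1 h2, ?_⟩
  intro x hx
  by_contra hcon
  have hfar : ∀ y ∈ t, 4 * ρ ≤ dist x y := by
    intro y hy
    by_contra hlt
    apply hcon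
    simp only [Set.mem_iUnion, Metric.mem_ball]
    exact ⟨y, hy, by push Not at hlt; exact hlt⟩
  have hxt : x ∉ t := by
    intro h
    have := hfar x h
    rw [dist_self] at this
    linarith
  have hmem : t.card + 1 ∈ N := by
    refine ⟨insert x t, Finset.card_insert_of_notMem hxt, ?_, ?_⟩
    · intro y hy
      rcases Finset.mem_insert.1 hy with rfl | hy
      · exact hx
      · exact h1 y hy
    · intro a ha b hb hab
      rcases Finset.mem_insert.1 ha with ha' | ha'
      · rcases Finset.mem_insert.1 hb with hb' | hb'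
        · exact absurd (ha'.trans hb'.symm) hab
        · rw [ha']; exact hfar b hb'
      · rcases Finset.mem_insert.1 hb with hb' | hb'
        · rw [dist_comm, hb']; exact hfar a ha'
        · exact h2 a ha' b hb' hab
  have := le_csSup hbdd hmem
  omega

/-- measure of a slab -/
lemma slab_le {s : ℕ} {β : ℝ≥0∞} {ν : Measure (E d)} (hF : Frost s β ν)
    (z x₀ : E d) (V : Submodule ℝ (E d)) (τ ρ : ℝ) (hτ : 0 < τ) (hρ : 0 < ρ) :
    ν (slab z x₀ V τ ρ) ≤
      ENNReal.ofReal (((τ + ρ) / ρ) ^ finrank ℝ V) * (β * ENNReal.ofReal (4 * ρ) ^ s) := by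
  obtain ⟨t, hcard, hcov⟩ := exists_cover z x₀ V τ ρ hτ hρ
  calc ν (slab z x₀ V τ ρ) ≤ ν (⋃ x ∈ t, Metric.ball x (4 * ρ)) := measure_mono hcov
    _ ≤ ∑ x ∈ t, ν (Metric.ball x (4 * ρ)) := measure_biUnion_finset_le _ _
    _ ≤ ∑ x ∈ t, β * ENNReal.ofReal (4 * ρ) ^ s :=
        Finset.sum_le_sum fun x _ => hF x (4 * ρ) (by linarith)
    _ = (t.card : ℝ≥0∞) * (β * ENNReal.ofReal (4 * ρ) ^ s) := by
        rw [Finset.sum_const, nsmul_eq_mul]
    _ ≤ _ := by
        gcongr
        rw [← ENNReal.ofReal_natCast]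
        exact ENNReal.ofReal_le_ofReal hcard

/-- pointwise dyadic bound -/
lemma pointwise (k : ℕ) (τ : ℝ) (hτ : 0 < τ) (D : ℝ) (hD : 0 ≤ D) :
    ((ENNReal.ofReal D)⁻¹) ^ k ≤ ENNReal.ofReal ((1 / τ) ^ k) +
      ∑' i : ℕ, (if D ≤ τ / 2 ^ i then ENNReal.ofReal ((2 ^ (i + 1) / τ) ^ k) else 0) := by
  rcases Nat.eq_zero_or_pos k with rfl | hk
  · simp
  rcases hD.eq_or_lt with rfl | hD
  · have : (∑' i : ℕ, (if (0 : ℝ) ≤ τ / 2 ^ i then ENNReal.ofReal ((2 ^ (i + 1) / τ) ^ k) else 0))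
        = ⊤ := by
      have h0 : ∀ i : ℕ, (0 : ℝ) ≤ τ / 2 ^ i := fun i => by positivity
      simp only [h0, if_true]
      have h1 : ∀ i : ℕ, ENNReal.ofReal ((1 / τ) ^ k) ≤ ENNReal.ofReal ((2 ^ (i + 1) / τ) ^ k) := by
        intro i
        apply ENNReal.ofReal_le_ofReal
        gcongr
        exact one_le_pow₀ (by norm_num)
      have h2 : (∑' _ : ℕ, ENNReal.ofReal ((1 / τ) ^ k)) = ⊤ := by
        apply ENNReal.tsum_const_eq_top_of_ne_zero
        simp only [ne_eq, ENNReal.ofReal_eq_zero, not_le]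
        positivity
      exact top_le_iff.1 (h2 ▸ ENNReal.tsum_le_tsum h1)
    rw [this]
    simp
  · rcases le_or_gt τ D with h | h
    · refine le_add_right ?_
      rw [← ENNReal.ofReal_inv_of_pos hD, ← ENNReal.ofReal_pow (by positivity)]
      apply ENNReal.ofReal_le_ofReal
      rw [one_div]
      gcongr
    · -- choose i with τ / 2^(i+1) < D ≤ τ/2^i
      obtain ⟨i, hi1, hi2⟩ : ∃ i : ℕ, D ≤ τ / 2 ^ i ∧ τ / 2 ^ (i + 1) < D := by
        have hex : ∃ n : ℕ, τ / 2 ^ n < D := by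
          obtain ⟨n, hn⟩ := exists_pow_lt_of_lt_one (div_pos hD hτ) (by norm_num : (1/2 : ℝ) < 1)
          refine ⟨n, ?_⟩
          rw [lt_div_iff₀ hτ] at hn
          calc τ / 2 ^ n = (1 / 2) ^ n * τ := by rw [one_div, inv_pow]; field_simp
            _ < D := hn
        classical
        have hpos : Nat.find hex ≠ 0 := by
          intro h0
          have := Nat.find_spec hex
          rw [h0] at this
          simp at this
          linarith
        obtain ⟨i, hi⟩ := Nat.exists_eq_succ_of_ne_zero hpos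
        refine ⟨i, ?_, ?_⟩
        · have := Nat.find_min hex (m := i) (by omega)
          push Not at this
          exact this
        · have := Nat.find_spec hex
          rw [hi] at this
          exact this
      refine le_add_left ?_
      refine le_trans ?_ (ENNReal.le_tsum i)
      rw [if_pos hi1, ← ENNReal.ofReal_inv_of_pos hD, ← ENNReal.ofReal_pow (by positivity)]
      apply ENNReal.ofReal_le_ofReal
      gcongr
      rw [inv_le_comm₀ hD (by positivity), inv_div]
      exact hi2.le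


lemma real_bound (s k j j' i : ℕ) (τ : ℝ) (hτ : 0 < τ) (hj : j' ≤ j) (hs : k + j + 1 ≤ s) :
    (2 ^ (i + 1) / τ) ^ k * (((τ + τ / 2 ^ i) / (τ / 2 ^ i)) ^ j' * (4 * (τ / 2 ^ i)) ^ s) ≤
      τ ^ (s - k) * 8 ^ s * (1 / 2) ^ (i + 1) := by
  have h1 : (τ + τ / 2 ^ i) / (τ / 2 ^ i) = 2 ^ i + 1 := by field_simp
  rw [h1]
  have h2 : ((2 : ℝ) ^ i + 1) ^ j' ≤ (2 ^ (i + 1)) ^ j := by
    have h3 : (2 : ℝ) ^ i + 1 ≤ 2 ^ (i + 1) := by
      have : (1 : ℝ) ≤ 2 ^ i := one_le_pow₀ (by norm_num)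
      rw [pow_succ]; linarith
    calc ((2 : ℝ) ^ i + 1) ^ j' ≤ (2 ^ (i + 1)) ^ j' := by gcongr
      _ ≤ (2 ^ (i + 1)) ^ j := pow_le_pow_right₀ (one_le_pow₀ (by norm_num)) hj
  have h4 : (2 ^ (i + 1) / τ) ^ k * ((2 ^ (i + 1)) ^ j * (4 * (τ / 2 ^ i)) ^ s)
      ≤ τ ^ (s - k) * 8 ^ s * (1 / 2) ^ (i + 1) := by
    obtain ⟨r, rfl⟩ : ∃ r, s = k + j + 1 + r := ⟨s - (k + j + 1), by omega⟩
    have e1 : k + j + 1 + r - k = j + 1 + r := by omega
    rw [e1]
    have hb : (0 : ℝ) < 2 ^ i := by positivity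
    -- write everything in terms of u = 2^i
    have e2 : (2 ^ (i + 1) / τ) ^ k * ((2 ^ (i + 1)) ^ j * (4 * (τ / 2 ^ i)) ^ (k + j + 1 + r))
        = τ ^ (j + 1 + r) * (2 ^ (k + j) * 4 ^ (k + j + 1 + r)) * ((1 / 2) ^ i * (1 / (2 ^ i) ^ r)) := by
      rw [one_div_pow, pow_succ (2 : ℝ) i]
      generalize (2 : ℝ) ^ i = u at hb
      have hu : u ≠ 0 := hb.ne'
      rw [div_pow, mul_pow u 2 k, mul_pow u 2 j, mul_pow 4 (τ / u), div_pow τ u,
        pow_add τ (k + j + 1) r, pow_add u (k + j + 1) r, pow_add τ (k + j) 1, pow_add u (k + j) 1,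
        pow_add τ k j, pow_add u k j, pow_one, pow_one, pow_add 2 k j, pow_add τ (j + 1) r,
        pow_add τ j 1, pow_one]
      field_simp
    rw [e2, mul_assoc (τ ^ (j + 1 + r)), mul_assoc (τ ^ (j + 1 + r))]
    refine mul_le_mul_of_nonneg_left ?_ (by positivity)
    · have e3 : ((1 : ℝ) / (2 ^ i) ^ r) ≤ 1 := by
        rw [div_le_one (by positivity)]
        exact one_le_pow₀ (one_le_pow₀ (by norm_num))
      calc (2 : ℝ) ^ (k + j) * 4 ^ (k + j + 1 + r) * ((1 / 2) ^ i * (1 / (2 ^ i) ^ r))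
          ≤ (2 : ℝ) ^ (k + j) * 4 ^ (k + j + 1 + r) * ((1 / 2) ^ i * 1) := by gcongr
        _ = 2 ^ (k + j + 1) * 4 ^ (k + j + 1 + r) * (1 / 2) ^ (i + 1) := by
            rw [pow_succ (1 / 2 : ℝ), pow_succ (2 : ℝ) (k + j)]; ring
        _ ≤ 2 ^ (k + j + 1 + r) * 4 ^ (k + j + 1 + r) * (1 / 2) ^ (i + 1) := by
            gcongr
            · norm_num
        _ = 8 ^ (k + j + 1 + r) * (1 / 2) ^ (i + 1) := by
            rw [← mul_pow]; norm_num
  refine le_trans ?_ h4
  gcongr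

theorem main : Riesz := by
  intro d s k j β τ z x₀ V ν hτ hj hs hball hF
  have hres : ν = ν.restrict (Metric.ball z τ) := by
    symm
    apply Measure.restrict_eq_self_of_ae_mem
    rw [ae_iff]
    exact hball
  set D : E d → ℝ := fun x => Metric.infDist (x - x₀) V with hD
  have hDc : Continuous D := (Metric.continuous_infDist_pt _).comp (continuous_sub_right x₀)
  have hDm : ∀ i : ℕ, MeasurableSet {x | D x ≤ τ / 2 ^ i} := fun i =>
    (isClosed_le hDc continuous_const).measurableSet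
  have hrho : ∀ i : ℕ, 0 < τ / 2 ^ i := fun i => by positivity
  set c : ℕ → ℝ≥0∞ := fun i => ENNReal.ofReal ((2 ^ (i + 1) / τ) ^ k) with hc
  calc ∫⁻ x, ((ENNReal.ofReal (D x))⁻¹) ^ k ∂ν
      = ∫⁻ x in Metric.ball z τ, ((ENNReal.ofReal (D x))⁻¹) ^ k ∂ν := by
        conv_lhs => rw [hres]
    _ ≤ ∫⁻ x in Metric.ball z τ, (ENNReal.ofReal ((1 / τ) ^ k) +
          ∑' i : ℕ, (if D x ≤ τ / 2 ^ i then c i else 0)) ∂ν :=
        lintegral_mono fun x => pointwise k τ hτ (D x) Metric.infDist_nonneg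
    _ = ENNReal.ofReal ((1 / τ) ^ k) * ν (Metric.ball z τ) +
          ∑' i : ℕ, c i * ν (slab z x₀ V τ (τ / 2 ^ i)) := by
        rw [lintegral_add_left measurable_const, setLIntegral_const, lintegral_tsum]
        · congr 2
          ext i
          have : (fun x => if D x ≤ τ / 2 ^ i then c i else 0)
              = Set.indicator {x | D x ≤ τ / 2 ^ i} (fun _ => c i) := by
            ext x; simp [Set.indicator_apply]
          rw [this, lintegral_indicator (hDm i), setLIntegral_const,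
            Measure.restrict_apply (hDm i)]
          congr 2
          ext x
          simp [slab, hD, and_comm]
        · intro i
          exact (Measurable.ite (hDm i) measurable_const measurable_const).aemeasurable
    _ ≤ β * ENNReal.ofReal τ ^ (s - k) + ∑' i : ℕ,
          (β * ENNReal.ofReal τ ^ (s - k) * 8 ^ s) * (2⁻¹ : ℝ≥0∞) ^ (i + 1) := by
        refine add_le_add ?_ (ENNReal.tsum_le_tsum fun i => ?_)
        · calc ENNReal.ofReal ((1 / τ) ^ k) * ν (Metric.ball z τ)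
              ≤ ENNReal.ofReal ((1 / τ) ^ k) * (β * ENNReal.ofReal τ ^ s) := by
                gcongr
                exact hF z τ hτ
            _ = β * (ENNReal.ofReal ((1 / τ) ^ k * τ ^ s)) := by
                rw [ENNReal.ofReal_mul (by positivity), ENNReal.ofReal_pow hτ.le]; ring
            _ = β * ENNReal.ofReal τ ^ (s - k) := by
                rw [← ENNReal.ofReal_pow hτ.le]
                congr 2
                obtain ⟨r, rfl⟩ : ∃ r, s = k + r := ⟨s - k, by omega⟩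
                rw [Nat.add_sub_cancel_left, pow_add, one_div_pow]
                field_simp
            _ ≤ _ := le_rfl
        · calc c i * ν (slab z x₀ V τ (τ / 2 ^ i))
              ≤ c i * (ENNReal.ofReal (((τ + τ / 2 ^ i) / (τ / 2 ^ i)) ^ finrank ℝ V) *
                (β * ENNReal.ofReal (4 * (τ / 2 ^ i)) ^ s)) := by
                gcongr
                exact slab_le hF z x₀ V τ _ hτ (hrho i)
            _ = β * ENNReal.ofReal ((2 ^ (i + 1) / τ) ^ k *
                (((τ + τ / 2 ^ i) / (τ / 2 ^ i)) ^ finrank ℝ V * (4 * (τ / 2 ^ i)) ^ s)) := by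
                have h4 : (0 : ℝ) ≤ 4 * (τ / 2 ^ i) := by positivity
                have h5 : (0 : ℝ) ≤ ((τ + τ / 2 ^ i) / (τ / 2 ^ i)) ^ finrank ℝ V := by positivity
                have h6 : (0 : ℝ) ≤ (2 ^ (i + 1) / τ) ^ k := by positivity
                rw [ENNReal.ofReal_mul h6, ENNReal.ofReal_mul h5,
                  ENNReal.ofReal_pow h4 s]
                simp only [hc]
                ring
            _ ≤ β * ENNReal.ofReal (τ ^ (s - k) * 8 ^ s * (1 / 2) ^ (i + 1)) :=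
                mul_le_mul_right (ENNReal.ofReal_le_ofReal (real_bound s k j _ i τ hτ hj hs)) _
            _ = β * ENNReal.ofReal τ ^ (s - k) * 8 ^ s * (2⁻¹ : ℝ≥0∞) ^ (i + 1) := by
                rw [ENNReal.ofReal_mul (by positivity), ENNReal.ofReal_mul (by positivity),
                  ENNReal.ofReal_pow hτ.le, ENNReal.ofReal_pow (by norm_num),
                  ENNReal.ofReal_pow (by norm_num), one_div,
                  ENNReal.ofReal_inv_of_pos (by norm_num)]
                norm_num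
                ring
    _ = β * ENNReal.ofReal τ ^ (s - k) * (1 + 8 ^ s) := by
        rw [ENNReal.tsum_mul_left, ENNReal.tsum_geometric_add_one, ENNReal.one_sub_inv_two,
          inv_inv, ENNReal.inv_mul_cancel (by norm_num) (by norm_num)]
        ring
    _ ≤ β * ENNReal.ofReal τ ^ (s - k) * (8 ^ s + 8 ^ s) := by
        gcongr
        exact one_le_pow₀ (by norm_num)
    _ = Th s k β τ := by
        unfold Th
        ring

end Crest.Agent.H22SlRiesz
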