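import Mathlib
import Crest.Prelude.Def_BoxFlow

/-! Shared definitions for the box-flow statement S0170. -/

set_option autoImplicit false
open scoped ContDiff
open Crest.AnalysisR.BoxFlow

namespace Crest.Agent.H23Box

/-- effectively smooth function of one real variable: all derivatives are uniformly computable
at rational points and have computable global bounds. -/
def EffFun (f : ℝ → ℝ) : Prop :=
  ContDiff ℝ ∞ f ∧
  (∃ E : ℕ × ℚ × ℕ → ℚ, Computable E ∧
    ∀ (k : ℕ) (q : ℚ) (n : ℕ), |iteratedDeriv k f (q : ℝ) - (E (k, q, n) : ℝ)| ≤ 1 / ((n : ℝ) + 1)) ∧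
  (∃ B : ℕ → ℕ, Computable B ∧ ∀ (k : ℕ) (x : ℝ), |iteratedDeriv k f x| ≤ (B k : ℝ))

/-- value-computable smooth function with computable bounds on all derivatives. -/
def EffVal (f : ℝ → ℝ) : Prop :=
  ContDiff ℝ ∞ f ∧
  (∃ E : ℚ × ℕ → ℚ, Computable E ∧
    ∀ (q : ℚ) (n : ℕ), |f (q : ℝ) - (E (q, n) : ℝ)| ≤ 1 / ((n : ℝ) + 1)) ∧
  (∃ B : ℕ → ℕ, Computable B ∧ ∀ (k : ℕ) (x : ℝ), |iteratedDeriv k f x| ≤ (B k : ℝ))

/-- A scalar function on space-time that is a product of four one-variable functions: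
`g 0` of time, `g (j+1)` of the `j`-th space coordinate. -/
noncomputable def tensor4 (g : Fin 4 → ℝ → ℝ) (p : ℝ × (Fin 3 → ℝ)) : ℝ :=
  g 0 p.1 * (g 1 (p.2 0) * (g 2 (p.2 1) * g 3 (p.2 2)))

/-- A finite sum of such products, in each component. -/
noncomputable def tensorField (L : List (Fin 3 → Fin 4 → ℝ → ℝ)) : Field :=
  fun p j => (L.map (fun g => tensor4 (g j) p)).sum

end Crest.Agent.H23Box
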