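import Mathlib

/-! A smooth step function `S` (CDF of `∑ 2^{-k} U_k`), with explicit functional equation. -/

set_option autoImplicit false
open scoped ContDiff Topology
open MeasureTheory intervalIntegral Filter Set

namespace Crest.Agent.H23Step

/-- monotone approximations -/
noncomputable def L : ℕ → ℝ → ℝ
  | 0, x => if 1 ≤ x then 1 else 0
  | n + 1, x => ∫ u in (2 * x - 1)..(2 * x), L n u

theorem L_mono_nonneg_le (n : ℕ) : Monotone (L n) ∧ (∀ x, 0 ≤ L n x) ∧ (∀ x, L n x ≤ 1) := by
  induction n with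
  | zero =>
    refine ⟨?_, ?_, ?_⟩
    · intro x y hxy
      simp only [L]
      split_ifs with h1 h2 <;> norm_num
      exact h2 (h1.trans hxy)
    · intro x; simp only [L]; split_ifs <;> norm_num
    · intro x; simp only [L]; split_ifs <;> norm_num
  | succ n ih =>
    obtain ⟨hm, h0, h1⟩ := ih
    have hint : ∀ a b, IntervalIntegrable (L n) volume a b := fun a b => hm.intervalIntegrable
    refine ⟨?_, ?_, ?_⟩
    · intro x y hxy
      simp only [L]
      have e1 : ∀ z : ℝ, ∫ u in (2 * z - 1)..(2 * z), L n u = ∫ u in (0:ℝ)..1, L n (u + (2 * z - 1)) := by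
        intro z
        rw [intervalIntegral.integral_comp_add_right (fun u => L n u) (2 * z - 1)]
        congr 1 <;> ring
      rw [e1, e1]
      apply intervalIntegral.integral_mono_on (by norm_num)
      · have : Monotone (fun u => L n (u + (2 * x - 1))) := fun a b hab => hm (by linarith)
        exact this.intervalIntegrable
      · have : Monotone (fun u => L n (u + (2 * y - 1))) := fun a b hab => hm (by linarith)
        exact this.intervalIntegrable
      · intro u _
        exact hm (by linarith)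
    · intro x
      simp only [L]
      apply intervalIntegral.integral_nonneg (by linarith)
      intro u _; exact h0 u
    · intro x
      simp only [L]
      calc ∫ u in (2 * x - 1)..(2 * x), L n u ≤ ∫ u in (2 * x - 1)..(2 * x), (1:ℝ) := by
            apply intervalIntegral.integral_mono_on (by linarith) (hint _ _) (by simp)
            intro u _; exact h1 u
        _ = 1 := by simp

theorem L_mono (n : ℕ) : Monotone (L n) := (L_mono_nonneg_le n).1
theorem L_nonneg (n : ℕ) (x : ℝ) : 0 ≤ L n x := (L_mono_nonneg_le n).2.1 x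
theorem L_le_one (n : ℕ) (x : ℝ) : L n x ≤ 1 := (L_mono_nonneg_le n).2.2 x

theorem L_int (n : ℕ) (a b : ℝ) : IntervalIntegrable (L n) volume a b :=
  (L_mono n).intervalIntegrable

theorem L_zero_of_nonpos (n : ℕ) {x : ℝ} (hx : x ≤ 0) : L n x = 0 := by
  induction n generalizing x with
  | zero => simp only [L]; rw [if_neg (by linarith)]
  | succ n ih =>
    simp only [L]
    rw [intervalIntegral.integral_congr (g := fun _ => (0:ℝ))]
    · simp
    · intro u hu
      rw [uIcc_of_le (by linarith)] at hu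
      exact ih (by linarith [hu.2])

theorem L_one_of_ge (n : ℕ) {x : ℝ} (hx : 1 ≤ x) : L n x = 1 := by
  induction n generalizing x with
  | zero => simp only [L]; rw [if_pos hx]
  | succ n ih =>
    simp only [L]
    rw [intervalIntegral.integral_congr (g := fun _ => (1:ℝ))]
    · simp
    · intro u hu
      rw [uIcc_of_le (by linarith)] at hu
      exact ih (by linarith [hu.1])

theorem L_le_succ (n : ℕ) (x : ℝ) : L n x ≤ L (n + 1) x := by
  induction n generalizing x with
  | zero =>
    by_cases hx : 1 ≤ x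
    · rw [L_one_of_ge 0 hx, L_one_of_ge 1 hx]
    · have : L 0 x = 0 := by simp only [L]; rw [if_neg hx]
      rw [this]; exact L_nonneg _ _
  | succ n ih =>
    show (∫ u in (2 * x - 1)..(2 * x), L n u) ≤ ∫ u in (2 * x - 1)..(2 * x), L (n + 1) u
    apply intervalIntegral.integral_mono_on (by linarith) (L_int _ _ _) (L_int _ _ _)
    intro u _; exact ih u

/-- the smooth step function -/
noncomputable def S (x : ℝ) : ℝ := ⨆ n, L n x

theorem bddAbove_L (x : ℝ) : BddAbove (Set.range fun n => L n x) :=
  ⟨1, by rintro _ ⟨n, rfl⟩; exact L_le_one n x⟩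

theorem tendsto_L (x : ℝ) : Tendsto (fun n => L n x) atTop (𝓝 (S x)) :=
  tendsto_atTop_ciSup (monotone_nat_of_le_succ fun n => L_le_succ n x) (bddAbove_L x)

theorem S_mono : Monotone S := fun _ y hxy =>
  ciSup_mono (bddAbove_L y) fun n => L_mono n hxy

theorem S_nonneg (x : ℝ) : 0 ≤ S x := (L_nonneg 0 x).trans (le_ciSup (bddAbove_L x) 0)
theorem S_le_one (x : ℝ) : S x ≤ 1 := ciSup_le fun n => L_le_one n x

theorem S_of_nonpos {x : ℝ} (hx : x ≤ 0) : S x = 0 := by
  simp [S, L_zero_of_nonpos _ hx]

theorem S_of_one_le {x : ℝ} (hx : 1 ≤ x) : S x = 1 := by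
  simp [S, L_one_of_ge _ hx]

theorem S_int (a b : ℝ) : IntervalIntegrable S volume a b := S_mono.intervalIntegrable

theorem S_eq (x : ℝ) : S x = ∫ u in (2 * x - 1)..(2 * x), S u := by
  have h1 : Tendsto (fun n => L (n + 1) x) atTop (𝓝 (S x)) :=
    (tendsto_L x).comp (tendsto_add_atTop_nat 1)
  have h2 : Tendsto (fun n => ∫ u in (2 * x - 1)..(2 * x), L n u) atTop
      (𝓝 (∫ u in (2 * x - 1)..(2 * x), S u)) := by
    apply intervalIntegral.tendsto_integral_filter_of_dominated_convergence (fun _ => (1:ℝ))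
    · exact Eventually.of_forall fun n => (L_mono n).measurable.aestronglyMeasurable
    · refine Eventually.of_forall fun n => ae_of_all _ fun u _ => ?_
      rw [Real.norm_eq_abs, abs_of_nonneg (L_nonneg n u)]
      exact L_le_one n u
    · simp
    · exact ae_of_all _ fun u _ => tendsto_L u
  exact tendsto_nhds_unique h1 h2

theorem S_lipschitz {x y : ℝ} (hxy : x ≤ y) : S y - S x ≤ 2 * (y - x) := by
  rw [S_eq x, S_eq y]
  have e : (∫ u in (2 * y - 1)..(2 * y), S u) - (∫ u in (2 * x - 1)..(2 * x), S u)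
      = (∫ u in (2 * x)..(2 * y), S u) - ∫ u in (2 * x - 1)..(2 * y - 1), S u := by
    have h1 := intervalIntegral.integral_add_adjacent_intervals (S_int (2 * x - 1) (2 * y - 1)) (S_int (2 * y - 1) (2 * y))
    have h2 := intervalIntegral.integral_add_adjacent_intervals (S_int (2 * x - 1) (2 * x)) (S_int (2 * x) (2 * y))
    linarith
  rw [e]
  have h3 : (∫ u in (2 * x)..(2 * y), S u) ≤ ∫ u in (2 * x)..(2 * y), (1:ℝ) :=
    intervalIntegral.integral_mono_on (by linarith) (S_int _ _) (by simp) fun u _ => S_le_one u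
  have h4 : 0 ≤ ∫ u in (2 * x - 1)..(2 * y - 1), S u :=
    intervalIntegral.integral_nonneg (by linarith) fun u _ => S_nonneg u
  simp at h3
  linarith

theorem S_continuous : Continuous S := by
  have : LipschitzWith 2 S := by
    apply LipschitzWith.of_dist_le_mul
    intro x y
    rw [Real.dist_eq, Real.dist_eq]
    rcases le_total x y with h | h
    · rw [abs_sub_comm, abs_of_nonneg (sub_nonneg.2 (S_mono h)), abs_sub_comm,
        abs_of_nonneg (sub_nonneg.2 h)]
      exact S_lipschitz h
    · rw [abs_of_nonneg (sub_nonneg.2 (S_mono h)), abs_of_nonneg (sub_nonneg.2 h)]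
      exact S_lipschitz h
  exact this.continuous

theorem S_hasDerivAt (x : ℝ) : HasDerivAt S (2 * (S (2 * x) - S (2 * x - 1))) x := by
  have hF : ∀ y : ℝ, HasDerivAt (fun z => ∫ u in (0:ℝ)..z, S u) (S y) y := fun y =>
    intervalIntegral.integral_hasDerivAt_right (S_int _ _)
      (S_continuous.stronglyMeasurableAtFilter _ _) S_continuous.continuousAt
  have e : S = fun x => (∫ u in (0:ℝ)..(2 * x), S u) - ∫ u in (0:ℝ)..(2 * x - 1), S u := by
    funext z
    rw [intervalIntegral.integral_interval_sub_left (S_int _ _) (S_int _ _)]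
    exact S_eq z
  have h1 : HasDerivAt (fun x : ℝ => 2 * x) 2 x := by
    simpa using (hasDerivAt_id x).const_mul (2:ℝ)
  have h2 : HasDerivAt (fun x : ℝ => 2 * x - 1) 2 x := h1.sub_const 1
  have h3 := (hF (2 * x)).comp x h1
  have h4 := (hF (2 * x - 1)).comp x h2
  have h5 : HasDerivAt (fun x => (∫ u in (0:ℝ)..(2 * x), S u) - ∫ u in (0:ℝ)..(2 * x - 1), S u)
      (S (2 * x) * 2 - S (2 * x - 1) * 2) x := h3.sub h4
  rw [← e] at h5
  exact h5.congr_deriv (by ring)

theorem deriv_S : deriv S = fun x => 2 * (S (2 * x) - S (2 * x - 1)) :=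
  funext fun x => (S_hasDerivAt x).deriv

theorem S_contDiff_nat (n : ℕ) : ContDiff ℝ n S := by
  induction n with
  | zero => exact contDiff_zero.2 S_continuous
  | succ n ih =>
    have : ((n + 1 : ℕ) : WithTop ℕ∞) = (n : WithTop ℕ∞) + 1 := by simp
    rw [this, contDiff_succ_iff_deriv]
    refine ⟨fun x => (S_hasDerivAt x).differentiableAt, by simp, ?_⟩
    rw [deriv_S]
    apply contDiff_const.mul
    apply ContDiff.sub
    · exact ih.comp (contDiff_const.mul contDiff_id)
    · exact ih.comp ((contDiff_const.mul contDiff_id).sub contDiff_const)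

theorem S_contDiff : ContDiff ℝ ∞ S := contDiff_infty.2 S_contDiff_nat

theorem iteratedDeriv_S_succ (k : ℕ) (x : ℝ) :
    iteratedDeriv (k + 1) S x = 2 ^ (k + 1) * (iteratedDeriv k S (2 * x) - iteratedDeriv k S (2 * x - 1)) := by
  induction k generalizing x with
  | zero => simp [iteratedDeriv_one, deriv_S]
  | succ k ih =>
    have hd : ∀ y, HasDerivAt (iteratedDeriv k S) (iteratedDeriv (k + 1) S y) y := by
      intro y
      rw [iteratedDeriv_succ]
      exact ((S_contDiff.differentiable_iteratedDeriv k (by exact_mod_cast WithTop.coe_lt_top _)) y).hasDerivAt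
    have e : iteratedDeriv (k + 1) S = fun x => 2 ^ (k + 1) * (iteratedDeriv k S (2 * x) - iteratedDeriv k S (2 * x - 1)) :=
      funext ih
    rw [iteratedDeriv_succ (n := k + 1), e]
    have h1 : HasDerivAt (fun x : ℝ => 2 * x) 2 x := by
      simpa using (hasDerivAt_id x).const_mul (2:ℝ)
    have h2 : HasDerivAt (fun x : ℝ => 2 * x - 1) 2 x := h1.sub_const 1
    have h3 := (hd (2 * x)).comp x h1
    have h4 := (hd (2 * x - 1)).comp x h2
    have h5 := (h3.sub h4).const_mul ((2:ℝ) ^ (k + 1))
    have h6 := h5.deriv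
    simp only [Function.comp_def] at h6
    rw [show (fun x => 2 ^ (k + 1) * (iteratedDeriv k S (2 * x) - iteratedDeriv k S (2 * x - 1)))
      = (fun x => 2 ^ (k + 1) * ((fun x => iteratedDeriv k S (2 * x) - iteratedDeriv k S (2 * x - 1)) x)) from rfl]
    erw [h6]
    rw [e]
    ring

/-- derivative bounds -/
def B : ℕ → ℕ
  | 0 => 1
  | k + 1 => 2 ^ (k + 2) * B k

theorem abs_iteratedDeriv_S_le (k : ℕ) (x : ℝ) : |iteratedDeriv k S x| ≤ (B k : ℝ) := by
  induction k generalizing x with
  | zero => simp [B, abs_of_nonneg (S_nonneg x), S_le_one x]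
  | succ k ih =>
    rw [iteratedDeriv_S_succ, abs_mul, abs_of_pos (by positivity : (0:ℝ) < 2 ^ (k + 1))]
    have h1 := ih (2 * x)
    have h2 := ih (2 * x - 1)
    have h3 : |iteratedDeriv k S (2 * x) - iteratedDeriv k S (2 * x - 1)| ≤ B k + B k :=
      (abs_sub _ _).trans (add_le_add h1 h2)
    calc _ ≤ 2 ^ (k + 1) * ((B k : ℝ) + B k) := by gcongr
      _ = _ := by simp only [B]; push_cast; ring

/-- discrete approximations of `S` -/
noncomputable def A (M : ℕ) : ℕ → ℝ → ℝ
  | 0, x => if 0 ≤ x then 1 else 0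
  | n + 1, x => (∑ m ∈ Finset.range M, A M n (2 * x - m / M)) / M


theorem riemann_upper (M : ℕ) (hM : 0 < M) (y : ℝ) :
    (∫ u in (y - 1)..y, S u) ≤ (∑ m ∈ Finset.range M, S (y - m / M)) / M := by
  have hM' : (0:ℝ) < M := by exact_mod_cast hM
  have hmono : Monotone fun v : ℝ => S (v / M) := fun a b hab => S_mono (by gcongr)
  have h := (hmono.monotoneOn (Icc (M * (y - 1)) (M * (y - 1) + (M:ℕ)))).integral_le_sum
  have e1 : (∫ v in (M * (y - 1))..(M * (y - 1) + (M:ℕ)), S (v / M)) = M * ∫ u in (y - 1)..y, S u := by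
    rw [intervalIntegral.integral_comp_div (fun u => S u) hM'.ne']
    rw [smul_eq_mul]
    congr 2
    · field_simp
    · field_simp; ring
  rw [e1] at h
  rw [le_div_iff₀ hM', mul_comm]
  refine h.trans (le_of_eq ?_)
  rw [← Finset.sum_range_reflect]
  apply Finset.sum_congr rfl
  intro m hm
  rw [Finset.mem_range] at hm
  congr 1
  have : ((M - 1 - m : ℕ) : ℝ) = M - 1 - m := by
    rw [Nat.cast_sub (by omega), Nat.cast_sub (by omega)]; simp
  push_cast
  rw [this]
  field_simp
  ring

theorem riemann_lower (M : ℕ) (hM : 0 < M) (y : ℝ) :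
    (∑ m ∈ Finset.range M, S (y - (m + 1) / M)) / M ≤ (∫ u in (y - 1)..y, S u) := by
  have hM' : (0:ℝ) < M := by exact_mod_cast hM
  have hmono : Monotone fun v : ℝ => S (v / M) := fun a b hab => S_mono (by gcongr)
  have h := (hmono.monotoneOn (Icc (M * (y - 1)) (M * (y - 1) + (M:ℕ)))).sum_le_integral
  have e1 : (∫ v in (M * (y - 1))..(M * (y - 1) + (M:ℕ)), S (v / M)) = M * ∫ u in (y - 1)..y, S u := by
    rw [intervalIntegral.integral_comp_div (fun u => S u) hM'.ne']
    rw [smul_eq_mul]
    congr 2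
    · field_simp
    · field_simp; ring
  rw [e1] at h
  rw [div_le_iff₀ hM', mul_comm (∫ u in (y - 1)..y, S u)]
  refine le_trans (le_of_eq ?_) h
  rw [← Finset.sum_range_reflect]
  apply Finset.sum_congr rfl
  intro m hm
  rw [Finset.mem_range] at hm
  congr 1
  have : ((M - 1 - m : ℕ) : ℝ) = M - 1 - m := by
    rw [Nat.cast_sub (by omega), Nat.cast_sub (by omega)]; simp
  rw [this]
  field_simp
  ring

theorem S_le_A (M : ℕ) (hM : 0 < M) (N : ℕ) (x : ℝ) : S x ≤ A M N x := by
  have hM' : (0:ℝ) < M := by exact_mod_cast hM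
  induction N generalizing x with
  | zero =>
    simp only [A]
    split_ifs with h
    · exact S_le_one x
    · rw [S_of_nonpos (by linarith)]
  | succ N ih =>
    rw [S_eq]
    refine (riemann_upper M hM (2 * x)).trans ?_
    simp only [A]
    gcongr
    exact ih _

theorem A_le_S (M : ℕ) (hM : 0 < M) (N : ℕ) (x : ℝ) : A M N x ≤ S (x + ((1/2) ^ N + 1 / M)) := by
  have hM' : (0:ℝ) < M := by exact_mod_cast hM
  induction N generalizing x with
  | zero =>
    simp only [A]
    split_ifs with h
    · rw [S_of_one_le]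
      have : (0:ℝ) < 1 / M := by positivity
      rw [pow_zero]; linarith
    · exact S_nonneg _
  | succ N ih =>
    simp only [A]
    rw [S_eq]
    refine le_trans ?_ (riemann_lower M hM _)
    gcongr with m hm
    refine (ih _).trans (S_mono ?_)
    rw [pow_succ]
    have : (0:ℝ) < 1 / M := by positivity
    rw [add_div]
    linarith

theorem abs_S_sub_A_le (M : ℕ) (hM : 0 < M) (N : ℕ) (x : ℝ) :
    |S x - A M N x| ≤ 2 * ((1/2) ^ N + 1 / M) := by
  have hM' : (0:ℝ) < M := by exact_mod_cast hM
  have h1 := S_le_A M hM N x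
  have h2 := A_le_S M hM N x
  have h3 := S_lipschitz (x := x) (y := x + ((1/2) ^ N + 1 / M)) (by
    have : (0:ℝ) < 1 / M := by positivity
    have : (0:ℝ) < (1/2:ℝ) ^ N := by positivity
    linarith)
  rw [abs_sub_comm, abs_of_nonneg (by linarith)]
  have : x + ((1 / 2) ^ N + 1 / (M:ℝ)) - x = (1 / 2) ^ N + 1 / (M:ℝ) := by ring
  rw [this] at h3
  linarith

/-- one step of reading base-`M` digits -/
def stp (M : ℕ) (p : ℕ × ℕ) : ℕ × ℕ := (p.1 / M, 2 * p.2 + p.1 % M)

/-- accumulated value after reading `N` digits -/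
def acc (M N c a : ℕ) : ℕ := ((stp M)^[N] (c, a)).2

theorem acc_succ (M N c a : ℕ) : acc M (N + 1) c a = acc M N (c / M) (2 * a + c % M) := by
  simp [acc, stp, Function.iterate_succ]

theorem acc_eq (M N c a : ℕ) : acc M N c a = 2 ^ N * a + acc M N c 0 := by
  induction N generalizing c a with
  | zero => simp [acc]
  | succ N ih =>
    rw [acc_succ, acc_succ, ih, ih (c / M) (2 * 0 + c % M)]
    ring

theorem sum_range_mul_divmod (K M : ℕ) (hM : 0 < M) (F : ℕ → ℕ → ℝ) :
    ∑ c ∈ Finset.range (K * M), F (c / M) (c % M) =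
      ∑ c ∈ Finset.range K, ∑ m ∈ Finset.range M, F c m := by
  induction K with
  | zero => simp
  | succ K ih =>
    rw [Nat.succ_mul, Finset.sum_range_add, ih, Finset.sum_range_succ]
    congr 1
    apply Finset.sum_congr rfl
    intro m hm
    rw [Finset.mem_range] at hm
    have h1 : (K * M + m) / M = K := by
      rw [mul_comm, Nat.mul_add_div hM, Nat.div_eq_of_lt hm, add_zero]
    have h2 : (K * M + m) % M = m := by
      rw [mul_comm, Nat.mul_add_mod, Nat.mod_eq_of_lt hm]
    rw [h1, h2]

theorem A_eq_count (M : ℕ) (hM : 0 < M) (N : ℕ) (x : ℝ) :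
    A M N x = (∑ c ∈ Finset.range (M ^ N),
      if (acc M N c 0 : ℝ) ≤ x * M * 2 ^ N then (1:ℝ) else 0) / M ^ N := by
  have hM' : (0:ℝ) < M := by exact_mod_cast hM
  induction N generalizing x with
  | zero =>
    simp only [A, pow_zero, Finset.range_one, Finset.sum_singleton, div_one, mul_one]
    have : acc M 0 0 0 = 0 := rfl
    rw [this]
    congr 1
    apply propext
    constructor
    · intro h; push_cast; positivity
    · intro h; push_cast at h
      by_contra hx
      push Not at hx
      nlinarith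
  | succ N ih =>
    simp only [A]
    rw [pow_succ M N]
    have h1 := sum_range_mul_divmod (M ^ N) M hM (fun c m =>
      if ((2 ^ N * m + acc M N c 0 : ℕ) : ℝ) ≤ x * M * 2 ^ (N + 1) then (1:ℝ) else 0)
    have h2 : ∀ c, acc M (N + 1) c 0 = 2 ^ N * (c % M) + acc M N (c / M) 0 := by
      intro c
      rw [acc_succ, acc_eq]; ring_nf
    simp only [h2]
    rw [h1, Finset.sum_comm]
    rw [pow_succ (M:ℝ) N, ← div_div]
    congr 1
    rw [Finset.sum_div]
    apply Finset.sum_congr rfl
    intro m _
    rw [ih]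
    congr 1
    apply Finset.sum_congr rfl
    intro c _
    congr 1
    apply propext
    push_cast
    have e : (2 * x - (m:ℝ) / M) * M * 2 ^ N = x * M * 2 ^ (N + 1) - 2 ^ N * m := by
      field_simp
      ring
    rw [e]
    constructor <;> intro h <;> linarith

end Crest.Agent.H23Step
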