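import Mathlib
import Crest.Agent.H23BoxBase
import Crest.Agent.H23Step

/-! Flows of fields that are sums of time-windowed autonomous fields. -/

set_option autoImplicit false
open scoped ContDiff Topology NNReal
open Set

namespace Crest.Agent.H23Flow

open Crest.Agent.H23Step

/-- Global solution of the ODE of a compactly supported smooth field which vanishes for times
outside `[1/4,3/4]`. -/
theorem exists_global {E : Type*} [NormedAddCommGroup E] [NormedSpace ℝ E] [CompleteSpace E]
    (U : ℝ × E → E) (hU : ContDiff ℝ 1 U) (hs : HasCompactSupport U)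
    (hz : ∀ p : ℝ × E, p.1 ∉ Icc (1/4 : ℝ) (3/4) → U p = 0) (x : E) :
    ∃ Γ : ℝ → E, Γ 0 = x ∧ ∀ t, HasDerivAt Γ (U (t, Γ t)) t := by
  obtain ⟨K, hK⟩ := hU.lipschitzWith_of_hasCompactSupport hs one_ne_zero
  obtain ⟨C, hC⟩ := hs.exists_bound_of_continuous hU.continuous
  have h01 : (0:ℝ) ∈ Icc (0:ℝ) 1 := by simp
  have hPL : IsPicardLindelof (fun t y => U (t, y)) (⟨0, h01⟩ : Icc (0:ℝ) 1) x
      (Real.toNNReal C) 0 (Real.toNNReal C) K := by
    refine ⟨?_, ?_, ?_, ?_⟩
    · intro t _
      apply LipschitzWith.lipschitzOnWith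
      have h2 := hK.comp (LipschitzWith.prodMk_left t)
      rw [mul_one] at h2
      exact h2
    · intro y _
      exact (hU.continuous.comp (by fun_prop)).continuousOn
    · intro t _ y _
      exact (hC _).trans (Real.le_coe_toNNReal C)
    · simp
  obtain ⟨α, hα0, hα⟩ := hPL.exists_eq_forall_mem_Icc_hasDerivWithinAt₀
  simp only at hα0
  have hαc : ContinuousOn α (Icc 0 1) := fun t ht => (hα t ht).continuousWithinAt
  -- constancy on `[0,1/4]`
  have hleft : ∀ t ∈ Ico (0:ℝ) (1/4), α t = x := by
    intro t ht
    have hc := constant_of_has_deriv_right_zero (f := α) (a := 0) (b := t)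
      (hαc.mono (Icc_subset_Icc le_rfl (by linarith [ht.2]))) (by
        intro s hs'
        have h1 := hα s ⟨hs'.1, by linarith [hs'.2, ht.2]⟩
        have h0 : U (s, α s) = 0 := hz _ (by
          rintro ⟨h, _⟩
          simp only at h
          linarith [hs'.2, ht.2])
        simp only [h0] at h1
        exact h1.mono_of_mem_nhdsWithin (Icc_mem_nhdsGE_of_mem ⟨hs'.1, by linarith [hs'.2, ht.2]⟩))
      t ⟨ht.1, le_rfl⟩
    rw [hc, hα0]
  have hright : ∀ t ∈ Ioc (3/4:ℝ) 1, α t = α 1 := by
    intro t ht
    have hc := constant_of_has_deriv_right_zero (f := α) (a := t) (b := 1)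
      (hαc.mono (Icc_subset_Icc (by linarith [ht.1]) le_rfl)) (by
        intro s hs'
        have h1 := hα s ⟨by linarith [hs'.1, ht.1], hs'.2.le⟩
        have h0 : U (s, α s) = 0 := hz _ (by
          rintro ⟨_, h⟩
          simp only at h
          linarith [hs'.1, ht.1])
        simp only [h0] at h1
        exact h1.mono_of_mem_nhdsWithin (Icc_mem_nhdsGE_of_mem ⟨by linarith [hs'.1, ht.1], hs'.2⟩))
      1 ⟨ht.2, le_rfl⟩
    exact hc.symm
  refine ⟨fun t => α (max 0 (min 1 t)), by simp [hα0], ?_⟩
  intro t
  rcases lt_or_ge t (1/4) with h | h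
  · have h0 : U (t, α (max 0 (min 1 t))) = 0 := hz _ (by
      rintro ⟨h', _⟩
      simp only at h'
      linarith)
    rw [h0]
    apply (hasDerivAt_const t x).congr_of_eventuallyEq
    filter_upwards [Iio_mem_nhds h] with s hs'
    apply hleft
    have : s < 1/4 := hs'
    constructor
    · exact le_max_left _ _
    · apply max_lt (by norm_num)
      exact (min_le_right _ _).trans_lt this
  · rcases lt_or_ge (3/4) t with h' | h'
    · have h0 : U (t, α (max 0 (min 1 t))) = 0 := hz _ (by
        rintro ⟨_, h''⟩
        simp only at h''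
        linarith)
      rw [h0]
      apply (hasDerivAt_const t (α 1)).congr_of_eventuallyEq
      filter_upwards [Ioi_mem_nhds h'] with s hs'
      apply hright
      have : 3/4 < s := hs'
      constructor
      · apply lt_max_of_lt_right
        exact lt_min (by norm_num) this
      · exact max_le zero_le_one (min_le_left _ _)
    · have ht : max 0 (min 1 t) = t := by
        rw [min_eq_right (by linarith), max_eq_right (by linarith)]
      show HasDerivAt _ (U (t, α (max 0 (min 1 t)))) t
      rw [ht]
      have h1 := (hα t ⟨by linarith, by linarith⟩).hasDerivAt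
        (Icc_mem_nhds (by linarith) (by linarith))
      apply h1.congr_of_eventuallyEq
      filter_upwards [Ioo_mem_nhds (show (0:ℝ) < t by linarith) (show t < 1 by linarith)] with s hs'
      rw [min_eq_right hs'.2.le, max_eq_right hs'.1.le]

/-! ### Steps and chains -/

/-- `Step V x x'`: along the segment from `x` to `x'` the field `V` is constant, equal to
`x' - x`. -/
def Step {E : Type*} [AddCommGroup E] [Module ℝ E] (V : E → E) (x x' : E) : Prop :=
  ∀ s ∈ Icc (0:ℝ) 1, V (x + s • (x' - x)) = x' - x

/-- A chain of steps along a list of fields. -/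
def Chain {E : Type*} [AddCommGroup E] [Module ℝ E] : List (E → E) → E → E → Prop
  | [], x, x' => x' = x
  | V :: Vs, x, x'' => ∃ x', Step V x x' ∧ Chain Vs x' x''

section algebra

variable {E : Type*} [AddCommGroup E] [Module ℝ E]

theorem Step.refl {V : E → E} {x : E} (h : V x = 0) : Step V x x := by
  intro s _
  simp [h]

theorem Step.eq {V : E → E} {x x' : E} (h : Step V x x') : x' = x + V x := by
  have := h 0 (by simp)
  simp only [zero_smul, add_zero] at this
  rw [this]; abel

theorem Step.neg {V : E → E} {x x' : E} (h : Step V x x') : Step (fun y => - V y) x' x := by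
  intro s hs
  have := h (1 - s) ⟨by linarith [hs.2], by linarith [hs.1]⟩
  have e : x' + s • (x - x') = x + (1 - s) • (x' - x) := by
    module
  show -V _ = _
  rw [e, this]; abel

theorem Chain.append {Vs Ws : List (E → E)} {x y z : E} (h1 : Chain Vs x y) (h2 : Chain Ws y z) :
    Chain (Vs ++ Ws) x z := by
  induction Vs generalizing x with
  | nil => rw [show y = x from h1] at h2; exact h2
  | cons V Vs ih =>
    obtain ⟨x', h, h'⟩ := h1
    exact ⟨x', h, ih h'⟩

theorem Chain.single {V : E → E} {x y : E} (h : Step V x y) : Chain [V] x y := ⟨y, h, rfl⟩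

theorem Chain.refl {Vs : List (E → E)} {x : E} (h : ∀ V ∈ Vs, V x = 0) : Chain Vs x x := by
  induction Vs with
  | nil => rfl
  | cons V Vs ih =>
    exact ⟨x, Step.refl (h V (by simp)), ih (fun W hW => h W (by simp [hW]))⟩

/-- reversed list of negated fields -/
def rev (Vs : List (E → E)) : List (E → E) := (Vs.map (fun V y => - V y)).reverse

theorem Chain.rev {Vs : List (E → E)} {x y : E} (h : Chain Vs x y) :
    Chain (H23Flow.rev Vs) y x := by
  induction Vs generalizing x with
  | nil => exact h.symm
  | cons V Vs ih =>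
    obtain ⟨x', h, h'⟩ := h
    have e : H23Flow.rev (V :: Vs) = H23Flow.rev Vs ++ [fun y => - V y] := by
      simp [H23Flow.rev]
    rw [e]
    exact (ih h').append (Chain.single h.neg)

theorem Chain.unique {Vs : List (E → E)} {x y z : E} (h1 : Chain Vs x y) (h2 : Chain Vs x z) :
    y = z := by
  induction Vs generalizing x with
  | nil => rw [show y = x from h1, show z = x from h2]
  | cons V Vs ih =>
    obtain ⟨x', h, h'⟩ := h1
    obtain ⟨x'', k, k'⟩ := h2
    rw [h.eq] at h'
    rw [k.eq] at k'
    exact ih h' k'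

end algebra

/-! ### Time-windowed fields -/

/-- derivative of the base step -/
noncomputable def sg (x : ℝ) : ℝ := 2 * (S (2 * x) - S (2 * x - 1))

theorem sg_of_nonpos {x : ℝ} (h : x ≤ 0) : sg x = 0 := by
  unfold sg
  rw [S_of_nonpos (by linarith), S_of_nonpos (by linarith)]; simp

theorem sg_of_one_le {x : ℝ} (h : 1 ≤ x) : sg x = 0 := by
  unfold sg
  rw [S_of_one_le (by linarith), S_of_one_le (by linarith)]; simp

theorem deriv_S_eq_sg : deriv S = sg := by
  funext x; exact (S_hasDerivAt x).deriv

/-- The field in the normalised time: window `[m, m+1]` for the `m`-th field. -/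
noncomputable def wind {E : Type*} [AddCommGroup E] [Module ℝ E] : List (E → E) → ℝ × E → E
  | [], _ => 0
  | V :: Vs, p => sg p.1 • V p.2 + wind Vs (p.1 - 1, p.2)

theorem wind_of_nonpos {E : Type*} [AddCommGroup E] [Module ℝ E] (Vs : List (E → E))
    (p : ℝ × E) (h : p.1 ≤ 0) : wind Vs p = 0 := by
  induction Vs generalizing p with
  | nil => rfl
  | cons V Vs ih =>
    simp only [wind]
    rw [sg_of_nonpos h, ih _ (by simp only; linarith)]; simp

theorem wind_of_length_le {E : Type*} [AddCommGroup E] [Module ℝ E] (Vs : List (E → E))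
    (p : ℝ × E) (h : (Vs.length : ℝ) ≤ p.1) : wind Vs p = 0 := by
  induction Vs generalizing p with
  | nil => rfl
  | cons V Vs ih =>
    simp only [wind]
    simp only [List.length_cons, Nat.cast_add, Nat.cast_one] at h
    have h0 : (0:ℝ) ≤ Vs.length := Nat.cast_nonneg _
    rw [sg_of_one_le (by linarith), ih _ (by simp only; linarith)]; simp

/-- An explicit trajectory of the windowed field from a chain. -/
theorem exists_traj {E : Type*} [NormedAddCommGroup E] [NormedSpace ℝ E] (Vs : List (E → E))
    {x y : E} (h : Chain Vs x y) :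
    ∃ γ : ℝ → E, (∀ τ ≤ 0, γ τ = x) ∧ (∀ τ, (Vs.length : ℝ) ≤ τ → γ τ = y) ∧
      ∀ τ, HasDerivAt γ (wind Vs (τ, γ τ)) τ := by
  induction Vs generalizing x with
  | nil =>
    refine ⟨fun _ => x, fun _ _ => rfl, fun _ _ => (show y = x from h).symm, fun τ => ?_⟩
    exact hasDerivAt_const τ x
  | cons V Vs ih =>
    obtain ⟨x', h, h'⟩ := h
    obtain ⟨γ, h0, h1, hd⟩ := ih h'
    refine ⟨fun τ => x + S τ • (x' - x) + (γ (τ - 1) - x'), ?_, ?_, ?_⟩
    · intro τ hτ
      simp only [S_of_nonpos hτ, h0 (τ - 1) (by linarith)]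
      simp
    · intro τ hτ
      simp only [List.length_cons, Nat.cast_add, Nat.cast_one] at hτ
      have h3 : (0:ℝ) ≤ Vs.length := Nat.cast_nonneg _
      simp only [S_of_one_le (show 1 ≤ τ by linarith), h1 (τ - 1) (by linarith)]
      simp
    · intro τ
      have d1 : HasDerivAt (fun τ => x + S τ • (x' - x)) (sg τ • (x' - x)) τ :=
        ((S_hasDerivAt τ).smul_const (x' - x)).const_add x
      have d2 : HasDerivAt (fun τ => γ (τ - 1) - x') (wind Vs (τ - 1, γ (τ - 1))) τ := by
        have := ((hd (τ - 1)).comp_sub_const τ 1)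
        exact this.sub_const x'
      have d3 := d1.add d2
      have e3 : wind (V :: Vs) (τ, x + S τ • (x' - x) + (γ (τ - 1) - x')) =
          sg τ • (x' - x) + wind Vs (τ - 1, γ (τ - 1)) := ?_
      · rw [e3]; exact d3
      simp only [wind]
      rcases le_or_gt τ 1 with ht | ht
      · have e1 : γ (τ - 1) = x' := h0 _ (by linarith)
        rw [wind_of_nonpos Vs _ (by simp only; linarith),
          wind_of_nonpos Vs (τ - 1, γ (τ - 1)) (by simp only; linarith), e1]
        rcases le_or_gt τ 0 with ht' | ht'
        · rw [sg_of_nonpos ht']; simp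
        · have := h (S τ) ⟨S_nonneg τ, S_le_one τ⟩
          simp only [sub_self, add_zero, this]
      · rw [sg_of_one_le ht.le, S_of_one_le ht.le]
        simp

end Crest.Agent.H23Flow
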