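import Mathlib
import Crest.Agent.H23BoxBase
import Crest.Agent.H23Step
import Crest.Agent.H23Flow

/-! The time-dependent field built from a list of autonomous fields, and its flow. -/

set_option autoImplicit false
open scoped ContDiff Topology NNReal
open Set

namespace Crest.Agent.H23Flow

open Crest.Agent.H23Step
open Crest.AnalysisR.BoxFlow

/-- abbreviation for space -/
abbrev Sp : Type := Fin 3 → ℝ

/-- the divergence of an autonomous field -/
noncomputable def dv (V : Sp → Sp) (x : Sp) : ℝ := ∑ j : Fin 3, fderiv ℝ V x (Pi.single j 1) j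

/-- the field in real time -/
noncomputable def ufield (Vs : List (Sp → Sp)) : Field := fun p =>
  (2 * (Vs.length : ℝ)) • wind Vs (2 * (Vs.length : ℝ) * p.1 - (Vs.length : ℝ) / 2, p.2)

theorem contDiff_sg : ContDiff ℝ ∞ sg := by
  unfold sg
  exact contDiff_const.mul ((S_contDiff.comp (contDiff_const.mul contDiff_id)).sub
    (S_contDiff.comp ((contDiff_const.mul contDiff_id).sub contDiff_const)))

theorem contDiff_wind (Vs : List (Sp → Sp)) (h : ∀ V ∈ Vs, ContDiff ℝ ∞ V) :
    ContDiff ℝ ∞ (wind Vs) := by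
  induction Vs with
  | nil => exact contDiff_const
  | cons V Vs ih =>
    have e : wind (V :: Vs) = fun p : ℝ × Sp => sg p.1 • V p.2 + wind Vs (p.1 - 1, p.2) := by
      funext p; rfl
    rw [e]
    have hV := h V (by simp)
    have ih' := ih (fun W hW => h W (by simp [hW]))
    apply ContDiff.add
    · exact (contDiff_sg.comp contDiff_fst).smul (hV.comp contDiff_snd)
    · exact ih'.comp ((contDiff_fst.sub contDiff_const).prodMk contDiff_snd)

theorem contDiff_ufield (Vs : List (Sp → Sp)) (h : ∀ V ∈ Vs, ContDiff ℝ ∞ V) :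
    ContDiff ℝ ∞ (ufield Vs) := by
  unfold ufield
  exact ContDiff.const_smul _ ((contDiff_wind Vs h).comp
    (((contDiff_const.mul contDiff_fst).sub contDiff_const).prodMk contDiff_snd))

theorem ufield_zero (Vs : List (Sp → Sp)) (p : ℝ × Sp) (hp : p.1 ∉ Icc (1/4 : ℝ) (3/4)) :
    ufield Vs p = 0 := by
  unfold ufield
  have h0 : (0:ℝ) ≤ Vs.length := Nat.cast_nonneg _
  rcases lt_or_ge p.1 (1/4) with h | h
  · rw [wind_of_nonpos _ _ (by simp only; nlinarith)]; simp
  · have h' : 3/4 < p.1 := by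
      by_contra h'
      exact hp ⟨h, by linarith⟩
    rw [wind_of_length_le _ _ (by simp only; nlinarith)]; simp

theorem wind_eq_zero (Vs : List (Sp → Sp)) (x : Sp) (h : ∀ V ∈ Vs, V x = 0) (t : ℝ) :
    wind Vs (t, x) = 0 := by
  induction Vs generalizing t with
  | nil => rfl
  | cons V Vs ih =>
    simp only [wind]
    rw [h V (by simp), ih (fun W hW => h W (by simp [hW]))]; simp

theorem exists_compact (Vs : List (Sp → Sp)) (h : ∀ V ∈ Vs, HasCompactSupport V) :
    ∃ K : Set Sp, IsCompact K ∧ ∀ x ∉ K, ∀ V ∈ Vs, V x = 0 := by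
  induction Vs with
  | nil => exact ⟨∅, isCompact_empty, by simp⟩
  | cons V Vs ih =>
    obtain ⟨K, hK, hK'⟩ := ih (fun W hW => h W (by simp [hW]))
    refine ⟨tsupport V ∪ K, (h V (by simp)).isCompact.union hK, ?_⟩
    intro x hx W hW
    rw [mem_union, not_or] at hx
    rcases List.mem_cons.1 hW with rfl | hW
    · exact image_eq_zero_of_notMem_tsupport hx.1
    · exact hK' x hx.2 W hW

theorem hasCompactSupport_ufield (Vs : List (Sp → Sp)) (h : ∀ V ∈ Vs, HasCompactSupport V) :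
    HasCompactSupport (ufield Vs) := by
  obtain ⟨K, hK, hK'⟩ := exists_compact Vs h
  apply HasCompactSupport.intro (K := Icc (1/4 : ℝ) (3/4) ×ˢ K) (isCompact_Icc.prod hK)
  intro p hp
  by_cases h1 : p.1 ∈ Icc (1/4 : ℝ) (3/4)
  · have h2 : p.2 ∉ K := fun h2 => hp ⟨h1, h2⟩
    unfold ufield
    rw [wind_eq_zero Vs p.2 (hK' _ h2)]; simp
  · exact ufield_zero Vs p h1

theorem dv_wind (Vs : List (Sp → Sp)) (h : ∀ V ∈ Vs, ContDiff ℝ ∞ V)
    (hd : ∀ V ∈ Vs, ∀ x, dv V x = 0) (t : ℝ) (x : Sp) : dv (fun y => wind Vs (t, y)) x = 0 := by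
  induction Vs generalizing t with
  | nil => simp [dv, wind]
  | cons V Vs ih =>
    have ih' := ih (fun W hW => h W (by simp [hW])) (fun W hW => hd W (by simp [hW])) (t - 1)
    have hV := hd V (by simp) x
    have hVd : DifferentiableAt ℝ V x := ((h V (by simp)).differentiable (by simp)) x
    have hWd : DifferentiableAt ℝ (fun y => wind Vs (t - 1, y)) x :=
      (((contDiff_wind Vs (fun W hW => h W (by simp [hW]))).comp
        (contDiff_const.prodMk contDiff_id)).differentiable (by simp)) x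
    unfold dv at *
    have e : (fun y => wind (V :: Vs) (t, y)) = fun y => sg t • V y + wind Vs (t - 1, y) := by
      funext y; rfl
    rw [e]
    have e2 : fderiv ℝ (fun y => sg t • V y + wind Vs (t - 1, y)) x =
        sg t • fderiv ℝ V x + fderiv ℝ (fun y => wind Vs (t - 1, y)) x := by
      exact ((hVd.hasFDerivAt.const_smul (sg t)).add hWd.hasFDerivAt).fderiv
    rw [e2]
    simp only [add_apply, smul_apply, Pi.add_apply,
      Pi.smul_apply, smul_eq_mul]
    rw [Finset.sum_add_distrib, ← Finset.mul_sum, hV, ih']; simp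

theorem spaceDiv_ufield (Vs : List (Sp → Sp)) (h : ∀ V ∈ Vs, ContDiff ℝ ∞ V)
    (hd : ∀ V ∈ Vs, ∀ x, dv V x = 0) (p : ℝ × Sp) : spaceDiv (ufield Vs) p = 0 := by
  have hU : DifferentiableAt ℝ (ufield Vs) p := ((contDiff_ufield Vs h).differentiable (by simp)) p
  have h1 : ∀ v : Sp, fderiv ℝ (ufield Vs) p (0, v) =
      fderiv ℝ (fun y => ufield Vs (p.1, y)) p.2 v := by
    intro v
    have hc : HasFDerivAt (fun y : Sp => (p.1, y)) (ContinuousLinearMap.inr ℝ ℝ Sp) p.2 :=
      hasFDerivAt_prodMk_right p.1 p.2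
    have h2 : HasFDerivAt (ufield Vs) (fderiv ℝ (ufield Vs) p) (p.1, p.2) := hU.hasFDerivAt
    have h3 := h2.comp p.2 hc
    have h4 : fderiv ℝ (fun y => ufield Vs (p.1, y)) p.2 =
      (fderiv ℝ (ufield Vs) p).comp (ContinuousLinearMap.inr ℝ ℝ Sp) := h3.fderiv
    rw [h4]; simp
  unfold spaceDiv
  simp_rw [h1]
  have h5 := dv_wind Vs h hd (2 * (Vs.length : ℝ) * p.1 - (Vs.length : ℝ) / 2) p.2
  have hWd : DifferentiableAt ℝ
      (fun y => wind Vs (2 * (Vs.length : ℝ) * p.1 - (Vs.length : ℝ) / 2, y)) p.2 :=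
      (((contDiff_wind Vs h).comp
        (contDiff_const.prodMk contDiff_id)).differentiable (by simp)) p.2
  have e : (fun y => ufield Vs (p.1, y)) = fun y => (2 * (Vs.length : ℝ)) •
    wind Vs (2 * (Vs.length : ℝ) * p.1 - (Vs.length : ℝ) / 2, y) := by
    funext y; rfl
  rw [e, fderiv_fun_const_smul hWd]
  unfold dv at h5
  simp only [smul_apply, Pi.smul_apply, smul_eq_mul]
  rw [← Finset.mul_sum, h5, mul_zero]

theorem exists_flow (Vs : List (Sp → Sp)) (h : ∀ V ∈ Vs, ContDiff ℝ ∞ V)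
    (hc : ∀ V ∈ Vs, HasCompactSupport V) :
    ∃ Φ : ℝ → Sp → Sp, IsFlow (ufield Vs) Φ ∧ ∀ x y, Chain Vs x y → Φ 1 x = y := by
  have hcd := contDiff_ufield Vs h
  have hcs := hasCompactSupport_ufield Vs hc
  have key : ∀ x : Sp, ∃ Γ : ℝ → Sp, (Γ 0 = x ∧ ∀ t, HasDerivAt Γ (ufield Vs (t, Γ t)) t) ∧
      ∀ y, Chain Vs x y → Γ 1 = y := by
    intro x
    by_cases hx : ∃ y, Chain Vs x y
    · obtain ⟨y, hy⟩ := hx
      obtain ⟨γ, h0, h1, hd⟩ := exists_traj Vs hy
      have hN : (0:ℝ) ≤ Vs.length := Nat.cast_nonneg _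
      refine ⟨fun t => γ (2 * (Vs.length : ℝ) * t - (Vs.length : ℝ) / 2), ⟨?_, ?_⟩, ?_⟩
      · apply h0; linarith
      · intro t
        have h2 := hd (2 * (Vs.length : ℝ) * t - (Vs.length : ℝ) / 2)
        have h3 : HasDerivAt (fun t : ℝ => 2 * (Vs.length : ℝ) * t - (Vs.length : ℝ) / 2)
            (2 * (Vs.length : ℝ)) t := by
          simpa using ((hasDerivAt_id t).const_mul (2 * (Vs.length : ℝ))).sub_const
            ((Vs.length : ℝ) / 2)
        exact h2.scomp t h3
      · intro z hz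
        rw [← Chain.unique hy hz]
        apply h1; linarith
    · obtain ⟨Γ, h0, h1⟩ := exists_global (ufield Vs) (hcd.of_le (by simp)) hcs
        (ufield_zero Vs) x
      exact ⟨Γ, ⟨h0, h1⟩, fun y hy => absurd ⟨y, hy⟩ hx⟩
  choose Γ hΓ hΓ' using key
  exact ⟨fun t x => Γ x t, ⟨fun x => (hΓ x).1, fun t x => (hΓ x).2 t⟩, fun x y hy => hΓ' x y hy⟩

end Crest.Agent.H23Flow
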