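import Mathlib
import Crest.Agent.H23Step

/-! Primitive recursive evaluation of `S` at rational points. -/

set_option autoImplicit false
open Crest.Agent.H23Step

namespace Crest.Agent.H23StepComp

theorem primrec_stp : Primrec₂ stp := by
  unfold stp
  apply Primrec.pair
  · exact Primrec.nat_div.comp (Primrec.fst.comp Primrec.snd) Primrec.fst
  · exact Primrec.nat_add.comp
      (Primrec.nat_mul.comp (Primrec.const 2) (Primrec.snd.comp Primrec.snd))
      (Primrec.nat_mod.comp (Primrec.fst.comp Primrec.snd) Primrec.fst)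

/-- `acc` as a function of a tuple `(M, N, c)` -/
theorem primrec_acc : Primrec (fun a : ℕ × ℕ × ℕ => acc a.1 a.2.1 a.2.2 0) := by
  unfold acc
  apply Primrec.snd.comp
  exact Primrec.nat_iterate (f := fun a : ℕ × ℕ × ℕ => a.2.1) (g := fun a : ℕ × ℕ × ℕ => (a.2.2, 0))
    (h := fun a p => stp a.1 p) (Primrec.fst.comp Primrec.snd)
    (Primrec.pair (Primrec.snd.comp Primrec.snd) (Primrec.const 0))
    (primrec_stp.comp (Primrec.fst.comp Primrec.fst) Primrec.snd)

/-- the indicator of the comparison used for counting -/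
def ind (a : (ℕ × ℕ) × (ℕ × ℕ × ℕ)) (c : ℕ) : ℕ :=
  if acc a.1.1 a.1.2 c 0 * a.2.2.2 + a.2.2.1 * a.1.1 * 2 ^ a.1.2 ≤ a.2.1 * a.1.1 * 2 ^ a.1.2 then 1 else 0

/-- number of `c < K` with the comparison -/
def cnt (a : (ℕ × ℕ) × (ℕ × ℕ × ℕ)) (K : ℕ) : ℕ :=
  K.rec 0 (fun c ih => ih + ind a c)

theorem primrec_pow : Primrec₂ (fun a b : ℕ => a ^ b) := Primrec₂.unpaired'.1 Nat.Primrec.pow

theorem primrec_ind : Primrec₂ ind := by
  unfold ind
  apply Primrec.ite
  · apply Primrec.nat_le.comp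
    · apply Primrec.nat_add.comp
      · apply Primrec.nat_mul.comp
        · exact primrec_acc.comp (Primrec.pair (Primrec.fst.comp (Primrec.fst.comp Primrec.fst))
            (Primrec.pair (Primrec.snd.comp (Primrec.fst.comp Primrec.fst)) Primrec.snd))
        · exact Primrec.snd.comp (Primrec.snd.comp (Primrec.snd.comp Primrec.fst))
      · apply Primrec.nat_mul.comp
        · exact Primrec.nat_mul.comp (Primrec.fst.comp (Primrec.snd.comp (Primrec.snd.comp Primrec.fst)))
            (Primrec.fst.comp (Primrec.fst.comp Primrec.fst))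
        · exact primrec_pow.comp (Primrec.const 2) (Primrec.snd.comp (Primrec.fst.comp Primrec.fst))
    · apply Primrec.nat_mul.comp
      · exact Primrec.nat_mul.comp (Primrec.fst.comp (Primrec.snd.comp Primrec.fst))
          (Primrec.fst.comp (Primrec.fst.comp Primrec.fst))
      · exact primrec_pow.comp (Primrec.const 2) (Primrec.snd.comp (Primrec.fst.comp Primrec.fst))
  · exact Primrec.const 1
  · exact Primrec.const 0

theorem primrec_cnt : Primrec₂ cnt := by
  unfold cnt
  exact Primrec.nat_rec' (f := fun p : ((ℕ × ℕ) × (ℕ × ℕ × ℕ)) × ℕ => p.2) (g := fun _ => 0)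
    (h := fun p q => q.2 + ind p.1 q.1) Primrec.snd (Primrec.const 0)
    (Primrec.nat_add.comp (Primrec.snd.comp Primrec.snd)
      (primrec_ind.comp (Primrec.fst.comp Primrec.fst) (Primrec.fst.comp Primrec.snd)))

theorem cnt_eq_sum (a : (ℕ × ℕ) × (ℕ × ℕ × ℕ)) (K : ℕ) :
    cnt a K = ∑ c ∈ Finset.range K, ind a c := by
  induction K with
  | zero => simp [cnt]
  | succ K ih => rw [Finset.sum_range_succ, ← ih]; rfl

/-- the evaluator: numerator count, for precision index `n` (using `M = N = 4(n+1)`) -/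
def evNum (t : ℕ × ℕ × ℕ) (n : ℕ) : ℕ :=
  cnt ((4 * (n + 1), 4 * (n + 1)), t) ((4 * (n + 1)) ^ (4 * (n + 1)))

/-- denominator -/
def evDen (n : ℕ) : ℕ := (4 * (n + 1)) ^ (4 * (n + 1))

theorem primrec_evDen : Primrec evDen := by
  unfold evDen
  have h : Primrec (fun n : ℕ => 4 * (n + 1)) :=
    Primrec.nat_mul.comp (Primrec.const 4) (Primrec.nat_add.comp Primrec.id (Primrec.const 1))
  exact primrec_pow.comp h h

theorem primrec_evNum : Primrec₂ evNum := by
  unfold evNum
  have h : Primrec (fun p : (ℕ × ℕ × ℕ) × ℕ => 4 * (p.2 + 1)) :=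
    Primrec.nat_mul.comp (Primrec.const 4) (Primrec.nat_add.comp Primrec.snd (Primrec.const 1))
  exact primrec_cnt.comp (Primrec.pair (Primrec.pair h h) Primrec.fst) (primrec_pow.comp h h)

theorem evNum_spec (p m d n : ℕ) (hd : 0 < d) :
    |S (((p : ℝ) - m) / d) - (evNum (p, m, d) n : ℝ) / evDen n| ≤ 1 / ((n : ℝ) + 1) := by
  set M := 4 * (n + 1) with hM
  have hM0 : 0 < M := by omega
  have hd' : (0:ℝ) < d := by exact_mod_cast hd
  have h1 := abs_S_sub_A_le M hM0 M (((p : ℝ) - m) / d)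
  have h2 : A M M (((p : ℝ) - m) / d) = (evNum (p, m, d) n : ℝ) / evDen n := by
    rw [A_eq_count M hM0, evNum, evDen, cnt_eq_sum]
    rw [← hM]
    push_cast
    congr 1
    apply Finset.sum_congr rfl
    intro c _
    unfold ind
    push_cast
    congr 1
    apply propext
    have e : ((p : ℝ) - m) / d * M * 2 ^ M = ((p : ℝ) * M * 2 ^ M - m * M * 2 ^ M) / d := by
      field_simp
    rw [e, le_div_iff₀ hd']
    constructor
    · intro h
      have : ((acc M M c 0 * d + m * M * 2 ^ M : ℕ) : ℝ) ≤ ((p * M * 2 ^ M : ℕ) : ℝ) := by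
        push_cast; linarith
      exact_mod_cast this
    · intro h
      have : ((acc M M c 0 * d + m * M * 2 ^ M : ℕ) : ℝ) ≤ ((p * M * 2 ^ M : ℕ) : ℝ) := by
        exact_mod_cast h
      push_cast at this; linarith
  rw [← h2]
  refine h1.trans ?_
  have hM4 : (M : ℝ) = 4 * (n + 1) := by rw [hM]; push_cast; ring
  have h3 : ((1:ℝ) / 2) ^ M ≤ 1 / M := by
    rw [div_pow, one_pow]
    apply one_div_le_one_div_of_le (by exact_mod_cast hM0)
    exact_mod_cast (Nat.lt_two_pow_self (n := M)).le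
  have h4 : 1 / (M:ℝ) = (1 / 4) * (1 / ((n:ℝ) + 1)) := by
    rw [hM4]; field_simp
  have h5 : 0 < 1 / ((n:ℝ) + 1) := by positivity
  calc 2 * (((1:ℝ) / 2) ^ M + 1 / M) ≤ 2 * (1 / M + 1 / M) := by gcongr
    _ = 1 / ((n:ℝ) + 1) := by rw [h4]; ring

end Crest.Agent.H23StepComp
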