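import Mathlib

/-! Primitive recursive arithmetic on `ℚ` for the default `Primcodable ℚ` instance. -/

set_option autoImplicit false

namespace Crest.Agent.H24RatComp

open Encodable

/-! ### gcd is primitive recursive -/

theorem gcd_eq_findGreatest (a b : ℕ) :
    Nat.findGreatest (fun k => a % k = 0 ∧ b % k = 0) (a + b) = Nat.gcd a b := by
  rw [Nat.findGreatest_eq_iff]
  refine ⟨?_, ?_, ?_⟩
  · rcases Nat.eq_zero_or_pos a with h | h
    · rw [h, Nat.gcd_zero_left]; omega
    · exact (Nat.gcd_le_left b h).trans (Nat.le_add_right _ _)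
  · intro _
    exact ⟨Nat.mod_eq_zero_of_dvd (Nat.gcd_dvd_left a b), Nat.mod_eq_zero_of_dvd (Nat.gcd_dvd_right a b)⟩
  · rintro n hn hn2 ⟨h1, h2⟩
    have h3 : n ∣ Nat.gcd a b := Nat.dvd_gcd (Nat.dvd_of_mod_eq_zero h1) (Nat.dvd_of_mod_eq_zero h2)
    rcases Nat.eq_zero_or_pos (Nat.gcd a b) with h | h
    · rw [Nat.gcd_eq_zero_iff] at h
      omega
    · have := Nat.le_of_dvd h h3
      omega

theorem primrec_gcd : Primrec₂ Nat.gcd := by
  have h : Primrec (fun x : ℕ × ℕ =>
      (x.1 + x.2).findGreatest (fun k => x.1 % k = 0 ∧ x.2 % k = 0)) := by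
    refine Primrec.nat_findGreatest (f := fun x : ℕ × ℕ => x.1 + x.2)
      (p := fun x k => x.1 % k = 0 ∧ x.2 % k = 0)
      (Primrec.nat_add.comp Primrec.fst Primrec.snd) ?_
    apply PrimrecPred.and
    · exact Primrec.eq.comp (Primrec.nat_mod.comp (Primrec.fst.comp Primrec.fst) Primrec.snd)
        (Primrec.const 0)
    · exact Primrec.eq.comp (Primrec.nat_mod.comp (Primrec.snd.comp Primrec.fst) Primrec.snd)
        (Primrec.const 0)
  exact h.of_eq fun x => gcd_eq_findGreatest x.1 x.2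

/-! ### the basic code -/

/-- basic (non surjective) code of a rational number -/
def code (q : ℚ) : ℕ := @Encodable.encode ℚ Rat.instEncodable q

theorem code_eq (q : ℚ) : code q = Nat.pair (Equiv.intEquivNat q.num) q.den := rfl

theorem code_injective : Function.Injective code := @Encodable.encode_injective ℚ Rat.instEncodable

theorem int_nat (n : ℕ) : Equiv.intEquivNat (n : ℤ) = 2 * n := rfl

theorem int_neg (n : ℕ) (hn : 0 < n) : Equiv.intEquivNat (-(n : ℤ)) = 2 * n - 1 := by
  obtain ⟨k, rfl⟩ : ∃ k, n = k + 1 := ⟨n - 1, by omega⟩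
  have h : -((k + 1 : ℕ) : ℤ) = Int.negSucc k := rfl
  rw [h]
  show 2 * k + 1 = _
  omega

/-- decomposition of a rational: positive part and negative part of the numerator, denominator -/
def tri (q : ℚ) : ℕ × ℕ × ℕ := (q.num.toNat, (-q.num).toNat, q.den)

/-- the rational `(p - m) / d` -/
def mk3 (t : ℕ × ℕ × ℕ) : ℚ := ((t.1 : ℚ) - (t.2.1 : ℚ)) / (t.2.2 : ℚ)

theorem mk3_tri (q : ℚ) : mk3 (tri q) = q := by
  unfold mk3 tri
  have h : ((q.num.toNat : ℚ) - ((-q.num).toNat : ℚ)) = (q.num : ℚ) := by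
    have : ((q.num.toNat : ℤ) - ((-q.num).toNat : ℤ)) = q.num := by omega
    exact_mod_cast this
  simp only [h]
  exact Rat.num_div_den q

theorem tri_den_pos (q : ℚ) : 0 < (tri q).2.2 := q.pos

/-- decode a basic code -/
def decT (x : ℕ) : ℕ × ℕ × ℕ :=
  (if x.unpair.1 % 2 = 0 then x.unpair.1 / 2 else 0,
    if x.unpair.1 % 2 = 0 then 0 else (x.unpair.1 + 1) / 2, x.unpair.2)

theorem int_cases (z : ℤ) : (∃ n : ℕ, z = n) ∨ (∃ n : ℕ, 0 < n ∧ z = -(n : ℤ)) := by
  rcases le_or_gt 0 z with h | h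
  · exact Or.inl ⟨z.toNat, by omega⟩
  · exact Or.inr ⟨(-z).toNat, by omega, by omega⟩

theorem decT_code (q : ℚ) : decT (code q) = tri q := by
  unfold decT tri
  rw [code_eq, Nat.unpair_pair]
  simp only
  rcases int_cases q.num with ⟨n, hn⟩ | ⟨n, hn0, hn⟩
  · rw [hn, int_nat, if_pos (by omega), if_pos (by omega)]
    refine Prod.ext ?_ (Prod.ext ?_ rfl)
    · simp only; omega
    · simp only; omega
  · rw [hn, int_neg n hn0, if_neg (by omega), if_neg (by omega)]
    refine Prod.ext ?_ (Prod.ext ?_ rfl)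
    · simp only; omega
    · simp only; omega

/-- the set of codes -/
def inR (x : ℕ) : Prop := 0 < (decT x).2.2 ∧ Nat.gcd ((decT x).1 + (decT x).2.1) (decT x).2.2 = 1

instance : DecidablePred inR := fun x => by unfold inR; infer_instance

theorem mem_range_iff (x : ℕ) : x ∈ Set.range code ↔ inR x := by
  constructor
  · rintro ⟨q, rfl⟩
    unfold inR
    rw [decT_code]
    refine ⟨tri_den_pos q, ?_⟩
    have h : (tri q).1 + (tri q).2.1 = q.num.natAbs := by
      unfold tri; simp only; omega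
    rw [h]
    exact q.reduced
  · rintro ⟨h1, h2⟩
    refine ⟨⟨((decT x).1 : ℤ) - ((decT x).2.1 : ℤ), (decT x).2.2, h1.ne', ?_⟩, ?_⟩
    · have : (((decT x).1 : ℤ) - ((decT x).2.1 : ℤ)).natAbs = (decT x).1 + (decT x).2.1 := by
        unfold decT
        split_ifs with h <;> simp only <;> omega
      rw [this]
      exact h2
    · rw [code_eq]
      have h3 : Equiv.intEquivNat (((decT x).1 : ℤ) - ((decT x).2.1 : ℤ)) = x.unpair.1 := by
        unfold decT
        split_ifs with h
        · have : (((x.unpair.1 / 2 : ℕ) : ℤ) - ((0 : ℕ) : ℤ)) = ((x.unpair.1 / 2 : ℕ) : ℤ) := by simp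
          show Equiv.intEquivNat (((x.unpair.1 / 2 : ℕ) : ℤ) - ((0 : ℕ) : ℤ)) = _
          rw [this, int_nat]
          omega
        · have : (((0 : ℕ) : ℤ) - (((x.unpair.1 + 1) / 2 : ℕ) : ℤ)) =
            -(((x.unpair.1 + 1) / 2 : ℕ) : ℤ) := by simp
          show Equiv.intEquivNat (((0 : ℕ) : ℤ) - (((x.unpair.1 + 1) / 2 : ℕ) : ℤ)) = _
          rw [this, int_neg _ (by omega)]
          omega
      show Nat.pair (Equiv.intEquivNat (((decT x).1 : ℤ) - ((decT x).2.1 : ℤ))) (decT x).2.2 = x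
      rw [h3]
      exact Nat.pair_unpair x

/-! ### primitive recursiveness of the pieces -/

theorem primrec_decT : Primrec decT := by
  unfold decT
  have h1 : Primrec (fun x : ℕ => x.unpair.1) := Primrec.fst.comp Primrec.unpair
  have h2 : Primrec (fun x : ℕ => x.unpair.2) := Primrec.snd.comp Primrec.unpair
  have hp : PrimrecPred (fun x : ℕ => x.unpair.1 % 2 = 0) :=
    Primrec.eq.comp (Primrec.nat_mod.comp h1 (Primrec.const 2)) (Primrec.const 0)
  refine Primrec.pair ?_ (Primrec.pair ?_ h2)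
  · exact Primrec.ite hp (Primrec.nat_div.comp h1 (Primrec.const 2)) (Primrec.const 0)
  · exact Primrec.ite hp (Primrec.const 0)
      (Primrec.nat_div.comp (Primrec.nat_add.comp h1 (Primrec.const 1)) (Primrec.const 2))

theorem primrec_inR : PrimrecPred inR := by
  unfold inR
  have h1 : Primrec (fun x : ℕ => (decT x).1) := Primrec.fst.comp primrec_decT
  have h2 : Primrec (fun x : ℕ => (decT x).2.1) := Primrec.fst.comp (Primrec.snd.comp primrec_decT)
  have h3 : Primrec (fun x : ℕ => (decT x).2.2) := Primrec.snd.comp (Primrec.snd.comp primrec_decT)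
  apply PrimrecPred.and
  · exact Primrec.nat_lt.comp (Primrec.const 0) h3
  · exact Primrec.eq.comp (primrec_gcd.comp (Primrec.nat_add.comp h1 h2) h3) (Primrec.const 1)

/-- number of codes below `x` -/
def cnt (x : ℕ) : ℕ := Nat.rec 0 (fun y ih => ih + if inR y then 1 else 0) x

theorem cnt_succ (x : ℕ) : cnt (x + 1) = cnt x + if inR x then 1 else 0 := rfl

theorem primrec_cnt : Primrec cnt := by
  unfold cnt
  have h : Primrec₂ (fun (y ih : ℕ) => ih + if inR y then 1 else 0) := by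
    refine Primrec.nat_add.comp Primrec.snd (Primrec.ite (primrec_inR.comp Primrec.fst)
      (Primrec.const 1) (Primrec.const 0))
  exact Primrec.nat_rec₁ 0 h

theorem cnt_mono : Monotone cnt := monotone_nat_of_le_succ fun n => by
  rw [cnt_succ]; exact Nat.le_add_right _ _

theorem cnt_lt {x y : ℕ} (h : x < y) (hx : inR x) : cnt x < cnt y := by
  have h1 : cnt (x + 1) = cnt x + 1 := by rw [cnt_succ, if_pos hx]
  have h2 : cnt (x + 1) ≤ cnt y := cnt_mono h
  omega

theorem encode_rat (q : ℚ) : @Encodable.encode ℚ Rat.instDenumerable.toEncodable q =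
    (@List.countP ℕ (fun x => @decide (x ∈ Set.range code)
      (@Encodable.decidableRangeEncode ℚ Rat.instEncodable x)) (List.range (code q))) :=
  rfl

theorem countP_eq_cnt (n : ℕ) : (@List.countP ℕ (fun x => @decide (x ∈ Set.range code)
      (@Encodable.decidableRangeEncode ℚ Rat.instEncodable x)) (List.range n)) = cnt n := by
  induction n with
  | zero => rfl
  | succ n ih =>
    rw [List.range_succ, List.countP_append, ih, cnt_succ]
    congr 1
    rw [List.countP_singleton]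
    have h1 : (@decide (n ∈ Set.range code) (@Encodable.decidableRangeEncode ℚ Rat.instEncodable n))
        = decide (inR n) :=
      (@decide_eq_decide _ _ (@Encodable.decidableRangeEncode ℚ Rat.instEncodable n) _).mpr
        (mem_range_iff n)
    rw [h1]
    by_cases h : inR n
    · rw [if_pos h, if_pos (decide_eq_true h)]
    · rw [if_neg h, if_neg]
      intro hc
      exact h (of_decide_eq_true hc)

theorem encode_eq_cnt (q : ℚ) : @Encodable.encode ℚ Rat.instDenumerable.toEncodable q = cnt (code q) := by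
  rw [encode_rat, countP_eq_cnt]

/-- basic code of the `n`-th rational -/
def nthCode (n : ℕ) : ℕ := code (Denumerable.ofNat ℚ n)

theorem cnt_nthCode (n : ℕ) : cnt (nthCode n) = n := by
  unfold nthCode
  rw [← encode_eq_cnt]
  exact Denumerable.encode_ofNat n

theorem inR_code (q : ℚ) : inR (code q) := (mem_range_iff _).mp ⟨q, rfl⟩

theorem cnt_inj {x y : ℕ} (hx : inR x) (hy : inR y) (h : cnt x = cnt y) : x = y := by
  rcases lt_trichotomy x y with h1 | h1 | h1
  · have := cnt_lt h1 hx; omega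
  · exact h1
  · have := cnt_lt h1 hy; omega

theorem code_nat (n : ℕ) : code (n : ℚ) = Nat.pair (2 * n) 1 := by
  rw [code_eq, Rat.num_natCast, Rat.den_natCast, int_nat]

theorem le_cnt_nat (n : ℕ) : n ≤ cnt (Nat.pair (2 * n) 1) := by
  induction n with
  | zero => exact Nat.zero_le _
  | succ n ih =>
    have h1 : Nat.pair (2 * n) 1 < Nat.pair (2 * (n + 1)) 1 := Nat.pair_lt_pair_left 1 (by omega)
    have h2 : inR (Nat.pair (2 * n) 1) := by rw [← code_nat]; exact inR_code _
    have := cnt_lt h1 h2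
    omega

theorem nthCode_le (n : ℕ) : nthCode n ≤ Nat.pair (2 * n) 1 := by
  by_contra h
  push Not at h
  have h2 : inR (Nat.pair (2 * n) 1) := by rw [← code_nat]; exact inR_code _
  have h3 := cnt_lt h h2
  rw [cnt_nthCode] at h3
  have := le_cnt_nat n
  omega

theorem primrec_nthCode : Primrec nthCode := by
  refine Primrec.of_graph ⟨fun n => Nat.pair (2 * n) 1, ?_, fun n => nthCode_le n⟩ ?_
  · exact Primrec₂.natPair.comp (Primrec.nat_mul.comp (Primrec.const 2) Primrec.id) (Primrec.const 1)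
  · have h : PrimrecRel (fun a b : ℕ => inR b ∧ cnt b = a) :=
      PrimrecPred.and (primrec_inR.comp Primrec.snd)
        (Primrec.eq.comp (primrec_cnt.comp Primrec.snd) Primrec.fst)
    refine h.of_eq ?_
    intro a b
    constructor
    · rintro ⟨h1, h2⟩
      exact cnt_inj (inR_code _) h1 ((cnt_nthCode a).trans h2.symm)
    · rintro rfl
      exact ⟨inR_code _, cnt_nthCode a⟩

theorem primrec_tri : Primrec tri := by
  have h : Primrec (fun n => tri (Denumerable.ofNat ℚ n)) :=
    (primrec_decT.comp primrec_nthCode).of_eq fun n => decT_code _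
  exact Primrec.ofNat_iff.mpr h

/-- code of `(p - m) / d` -/
def encT (t : ℕ × ℕ × ℕ) : ℕ :=
  if t.2.2 = 0 then Nat.pair 0 1 else
    Nat.pair (if t.2.1 ≤ t.1 then 2 * ((t.1 - t.2.1 + (t.2.1 - t.1)) /
        Nat.gcd t.2.2 (t.1 - t.2.1 + (t.2.1 - t.1)))
      else 2 * ((t.1 - t.2.1 + (t.2.1 - t.1)) / Nat.gcd t.2.2 (t.1 - t.2.1 + (t.2.1 - t.1))) - 1)
      (t.2.2 / Nat.gcd t.2.2 (t.1 - t.2.1 + (t.2.1 - t.1)))

theorem encT_eq (t : ℕ × ℕ × ℕ) : encT t = code (mk3 t) := by
  obtain ⟨p, m, d⟩ := t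
  have h0 : mk3 (p, m, d) = mkRat ((p : ℤ) - (m : ℤ)) d := by
    rw [Rat.mkRat_eq_div]; unfold mk3; push_cast; rfl
  rw [h0, code_eq, Rat.num_mkRat, Rat.den_mkRat]
  unfold encT
  simp only
  by_cases hd : d = 0
  · rw [if_pos hd, if_pos hd, if_pos hd]; rfl
  · rw [if_neg hd, if_neg hd, if_neg hd]
    have h1 : ((p : ℤ) - (m : ℤ)).natAbs = p - m + (m - p) := by omega
    rw [h1]
    set a := p - m + (m - p) with ha
    set g := Nat.gcd d a with hg
    have hgpos : 0 < g := Nat.gcd_pos_of_pos_left _ (Nat.pos_of_ne_zero hd)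
    have hga : g ∣ a := Nat.gcd_dvd_right d a
    by_cases hmp : m ≤ p
    · rw [if_pos hmp]
      have h2 : ((p : ℤ) - (m : ℤ)) / (g : ℤ) = ((a / g : ℕ) : ℤ) := by
        have : (p : ℤ) - (m : ℤ) = (a : ℤ) := by omega
        rw [this, Int.natCast_ediv]
      rw [h2, int_nat]
    · rw [if_neg hmp]
      have hapos : 0 < a := by omega
      have h2 : ((p : ℤ) - (m : ℤ)) / (g : ℤ) = -((a / g : ℕ) : ℤ) := by
        have : (p : ℤ) - (m : ℤ) = -(a : ℤ) := by omega
        rw [this, Int.neg_ediv_of_dvd (by exact_mod_cast hga), Int.natCast_ediv]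
      have h3 : 0 < a / g := Nat.div_pos (Nat.le_of_dvd hapos hga) hgpos
      rw [h2, int_neg _ h3]

theorem primrec_encT : Primrec encT := by
  unfold encT
  have h1 : Primrec (fun t : ℕ × ℕ × ℕ => t.1) := Primrec.fst
  have h2 : Primrec (fun t : ℕ × ℕ × ℕ => t.2.1) := Primrec.fst.comp Primrec.snd
  have h3 : Primrec (fun t : ℕ × ℕ × ℕ => t.2.2) := Primrec.snd.comp Primrec.snd
  have ha : Primrec (fun t : ℕ × ℕ × ℕ => t.1 - t.2.1 + (t.2.1 - t.1)) :=
    Primrec.nat_add.comp (Primrec.nat_sub.comp h1 h2) (Primrec.nat_sub.comp h2 h1)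
  have hg : Primrec (fun t : ℕ × ℕ × ℕ => Nat.gcd t.2.2 (t.1 - t.2.1 + (t.2.1 - t.1))) :=
    primrec_gcd.comp h3 ha
  have hq := Primrec.nat_div.comp ha hg
  have h2q := Primrec.nat_mul.comp (Primrec.const 2) hq
  refine Primrec.ite (Primrec.eq.comp h3 (Primrec.const 0)) (Primrec.const _) ?_
  refine Primrec₂.natPair.comp ?_ (Primrec.nat_div.comp h3 hg)
  exact Primrec.ite (Primrec.nat_le.comp h2 h1) h2q (Primrec.nat_sub.comp h2q (Primrec.const 1))

theorem primrec_mk3 : Primrec mk3 := by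
  have h : Primrec (fun t => cnt (encT t)) := primrec_cnt.comp primrec_encT
  refine Primrec.encode_iff.mp (h.of_eq ?_)
  intro t
  rw [encT_eq]
  exact (encode_eq_cnt _).symm

/-! ### arithmetic -/

theorem primrec_add : Primrec₂ (fun a b : ℚ => a + b) := by
  have h1 : Primrec (fun x : ℚ × ℚ => tri x.1) := primrec_tri.comp Primrec.fst
  have h2 : Primrec (fun x : ℚ × ℚ => tri x.2) := primrec_tri.comp Primrec.snd
  have p1 := Primrec.fst.comp h1
  have m1 := Primrec.fst.comp (Primrec.snd.comp h1)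
  have d1 := Primrec.snd.comp (Primrec.snd.comp h1)
  have p2 := Primrec.fst.comp h2
  have m2 := Primrec.fst.comp (Primrec.snd.comp h2)
  have d2 := Primrec.snd.comp (Primrec.snd.comp h2)
  have h := primrec_mk3.comp (Primrec.pair
    (Primrec.nat_add.comp (Primrec.nat_mul.comp p1 d2) (Primrec.nat_mul.comp p2 d1))
    (Primrec.pair (Primrec.nat_add.comp (Primrec.nat_mul.comp m1 d2) (Primrec.nat_mul.comp m2 d1))
      (Primrec.nat_mul.comp d1 d2)))
  refine h.of_eq ?_
  rintro ⟨a, b⟩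
  have ha := mk3_tri a
  have hb := mk3_tri b
  have hda : ((tri a).2.2 : ℚ) ≠ 0 := by exact_mod_cast (tri_den_pos a).ne'
  have hdb : ((tri b).2.2 : ℚ) ≠ 0 := by exact_mod_cast (tri_den_pos b).ne'
  show mk3 _ = a + b
  conv_rhs => rw [← ha, ← hb]
  unfold mk3
  simp only
  push_cast
  field_simp
  ring

theorem primrec_mul : Primrec₂ (fun a b : ℚ => a * b) := by
  have h1 : Primrec (fun x : ℚ × ℚ => tri x.1) := primrec_tri.comp Primrec.fst
  have h2 : Primrec (fun x : ℚ × ℚ => tri x.2) := primrec_tri.comp Primrec.snd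
  have p1 := Primrec.fst.comp h1
  have m1 := Primrec.fst.comp (Primrec.snd.comp h1)
  have d1 := Primrec.snd.comp (Primrec.snd.comp h1)
  have p2 := Primrec.fst.comp h2
  have m2 := Primrec.fst.comp (Primrec.snd.comp h2)
  have d2 := Primrec.snd.comp (Primrec.snd.comp h2)
  have h := primrec_mk3.comp (Primrec.pair
    (Primrec.nat_add.comp (Primrec.nat_mul.comp p1 p2) (Primrec.nat_mul.comp m1 m2))
    (Primrec.pair (Primrec.nat_add.comp (Primrec.nat_mul.comp p1 m2) (Primrec.nat_mul.comp m1 p2))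
      (Primrec.nat_mul.comp d1 d2)))
  refine h.of_eq ?_
  rintro ⟨a, b⟩
  have ha := mk3_tri a
  have hb := mk3_tri b
  have hda : ((tri a).2.2 : ℚ) ≠ 0 := by exact_mod_cast (tri_den_pos a).ne'
  have hdb : ((tri b).2.2 : ℚ) ≠ 0 := by exact_mod_cast (tri_den_pos b).ne'
  show mk3 _ = a * b
  conv_rhs => rw [← ha, ← hb]
  unfold mk3
  simp only
  push_cast
  field_simp
  ring

theorem primrec_neg : Primrec (fun a : ℚ => -a) :=
  (primrec_mul.comp (Primrec.const (-1)) Primrec.id).of_eq fun a => by simp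

theorem primrec_sub : Primrec₂ (fun a b : ℚ => a - b) :=
  (primrec_add.comp Primrec.fst (primrec_neg.comp Primrec.snd)).of_eq fun x => by
    show x.1 + -x.2 = x.1 - x.2
    ring

theorem primrec_natCast : Primrec (fun n : ℕ => (n : ℚ)) :=
  (primrec_mk3.comp (Primrec.pair Primrec.id (Primrec.const (0, 1)))).of_eq fun n => by
    unfold mk3; simp

theorem primrec_le : PrimrecRel (fun a b : ℚ => a ≤ b) := by
  have h1 : Primrec (fun x : ℚ × ℚ => tri x.1) := primrec_tri.comp Primrec.fst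
  have h2 : Primrec (fun x : ℚ × ℚ => tri x.2) := primrec_tri.comp Primrec.snd
  have p1 := Primrec.fst.comp h1
  have m1 := Primrec.fst.comp (Primrec.snd.comp h1)
  have d1 := Primrec.snd.comp (Primrec.snd.comp h1)
  have p2 := Primrec.fst.comp h2
  have m2 := Primrec.fst.comp (Primrec.snd.comp h2)
  have d2 := Primrec.snd.comp (Primrec.snd.comp h2)
  have h := Primrec.nat_le.comp
    (Primrec.nat_add.comp (Primrec.nat_mul.comp p1 d2) (Primrec.nat_mul.comp m2 d1))
    (Primrec.nat_add.comp (Primrec.nat_mul.comp p2 d1) (Primrec.nat_mul.comp m1 d2))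
  refine h.of_eq ?_
  rintro ⟨a, b⟩
  have ha := mk3_tri a
  have hb := mk3_tri b
  have hda : (0 : ℚ) < ((tri a).2.2 : ℚ) := by exact_mod_cast (tri_den_pos a)
  have hdb : (0 : ℚ) < ((tri b).2.2 : ℚ) := by exact_mod_cast (tri_den_pos b)
  show (tri a).1 * (tri b).2.2 + (tri b).2.1 * (tri a).2.2 ≤
    (tri b).1 * (tri a).2.2 + (tri a).2.1 * (tri b).2.2 ↔ a ≤ b
  conv_rhs => rw [← ha, ← hb]
  unfold mk3
  rw [div_le_div_iff₀ hda hdb]
  constructor
  · intro h
    have h' : (((tri a).1 * (tri b).2.2 + (tri b).2.1 * (tri a).2.2 : ℕ) : ℚ) ≤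
      (((tri b).1 * (tri a).2.2 + (tri a).2.1 * (tri b).2.2 : ℕ) : ℚ) := by exact_mod_cast h
    push_cast at h'
    linarith
  · intro h
    have h' : (((tri a).1 * (tri b).2.2 + (tri b).2.1 * (tri a).2.2 : ℕ) : ℚ) ≤
      (((tri b).1 * (tri a).2.2 + (tri a).2.1 * (tri b).2.2 : ℕ) : ℚ) := by
      push_cast
      linarith
    exact_mod_cast h'

theorem primrec_inv : Primrec (fun a : ℚ => a⁻¹) := by
  have h1 : Primrec (fun x : ℚ => tri x) := primrec_tri
  have p1 := Primrec.fst.comp h1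
  have m1 := Primrec.fst.comp (Primrec.snd.comp h1)
  have d1 := Primrec.snd.comp (Primrec.snd.comp h1)
  -- inverse of `(p-m)/d`: numerator `d (p-m)`, denominator `(p-m)^2`
  have hs : Primrec (fun x : ℚ => ((tri x).1 - (tri x).2.1 + ((tri x).2.1 - (tri x).1))) :=
    Primrec.nat_add.comp (Primrec.nat_sub.comp p1 m1) (Primrec.nat_sub.comp m1 p1)
  have h := primrec_mk3.comp (Primrec.pair (Primrec.nat_mul.comp d1 p1)
    (Primrec.pair (Primrec.nat_mul.comp d1 m1) (Primrec.nat_mul.comp hs hs)))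
  refine h.of_eq ?_
  intro a
  have ha := mk3_tri a
  have hda : ((tri a).2.2 : ℚ) ≠ 0 := by exact_mod_cast (tri_den_pos a).ne'
  show mk3 _ = a⁻¹
  conv_rhs => rw [← ha]
  unfold mk3
  simp only
  have hsq : (((tri a).1 - (tri a).2.1 + ((tri a).2.1 - (tri a).1) : ℕ) : ℚ) *
      (((tri a).1 - (tri a).2.1 + ((tri a).2.1 - (tri a).1) : ℕ) : ℚ) =
      (((tri a).1 : ℚ) - ((tri a).2.1 : ℚ)) * (((tri a).1 : ℚ) - ((tri a).2.1 : ℚ)) := by
    rcases le_total (tri a).1 (tri a).2.1 with h | h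
    · have : (tri a).1 - (tri a).2.1 + ((tri a).2.1 - (tri a).1) = (tri a).2.1 - (tri a).1 := by omega
      rw [this, Nat.cast_sub h]; ring
    · have : (tri a).1 - (tri a).2.1 + ((tri a).2.1 - (tri a).1) = (tri a).1 - (tri a).2.1 := by omega
      rw [this, Nat.cast_sub h]
  rw [Nat.cast_mul, Nat.cast_mul, Nat.cast_mul, hsq]
  by_cases hz : ((tri a).1 : ℚ) - ((tri a).2.1 : ℚ) = 0
  · rw [hz]; simp
  · field_simp

theorem primrec_div : Primrec₂ (fun a b : ℚ => a / b) :=
  (primrec_mul.comp Primrec.fst (primrec_inv.comp Primrec.snd)).of_eq fun x => by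
    show x.1 * x.2⁻¹ = x.1 / x.2
    rw [div_eq_mul_inv]

theorem primrec_pow : Primrec₂ (fun (a : ℚ) (n : ℕ) => a ^ n) := by
  have h : Primrec (fun x : ℚ × ℕ => Nat.rec (motive := fun _ => ℚ) (1 : ℚ) (fun _ ih => ih * x.1) x.2) := by
    refine Primrec.nat_rec' (f := fun x : ℚ × ℕ => x.2) (g := fun _ => (1 : ℚ))
      (h := fun x p => p.2 * x.1) Primrec.snd (Primrec.const 1) ?_
    exact primrec_mul.comp (Primrec.snd.comp Primrec.snd) (Primrec.fst.comp Primrec.fst)
  refine h.of_eq ?_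
  rintro ⟨a, n⟩
  simp only
  induction n with
  | zero => simp
  | succ n ih => rw [pow_succ, ← ih]

/-- sums over ranges -/
theorem primrec_sum_range {α : Type*} [Primcodable α] {f : α → ℕ → ℚ} (hf : Primrec₂ f)
    {g : α → ℕ} (hg : Primrec g) : Primrec (fun a => ∑ i ∈ Finset.range (g a), f a i) := by
  have h : Primrec (fun a => Nat.rec (motive := fun _ => ℚ) (0 : ℚ) (fun i ih => ih + f a i) (g a)) := by
    refine Primrec.nat_rec' (f := g) (g := fun _ => (0 : ℚ))
      (h := fun a p => p.2 + f a p.1) hg (Primrec.const 0) ?_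
    exact primrec_add.comp (Primrec.snd.comp Primrec.snd)
      (hf.comp Primrec.fst (Primrec.fst.comp Primrec.snd))
  refine h.of_eq ?_
  intro a
  induction g a with
  | zero => simp
  | succ n ih => rw [Finset.sum_range_succ, ← ih]


end Crest.Agent.H24RatComp
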