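import Mathlib
import Crest.Agent.H24RatComp

/-! Computable families of real numbers. -/

set_option autoImplicit false

namespace Crest.Agent.H24CompReal

open H24RatComp

/-! ### computable versions of rational arithmetic -/

section

variable {α : Type*} [Primcodable α]

theorem qadd {f g : α → ℚ} (hf : Computable f) (hg : Computable g) :
    Computable (fun a => f a + g a) := primrec_add.to_comp.comp hf hg

theorem qmul {f g : α → ℚ} (hf : Computable f) (hg : Computable g) :
    Computable (fun a => f a * g a) := primrec_mul.to_comp.comp hf hg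

theorem qsub {f g : α → ℚ} (hf : Computable f) (hg : Computable g) :
    Computable (fun a => f a - g a) := primrec_sub.to_comp.comp hf hg

theorem qdiv {f g : α → ℚ} (hf : Computable f) (hg : Computable g) :
    Computable (fun a => f a / g a) := primrec_div.to_comp.comp hf hg

theorem qneg {f : α → ℚ} (hf : Computable f) : Computable (fun a => - f a) :=
  primrec_neg.to_comp.comp hf

theorem qpow {f : α → ℚ} {g : α → ℕ} (hf : Computable f) (hg : Computable g) :
    Computable (fun a => f a ^ g a) := primrec_pow.to_comp.comp hf hg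

theorem qcast {f : α → ℕ} (hf : Computable f) : Computable (fun a => (f a : ℚ)) :=
  primrec_natCast.to_comp.comp hf

theorem nadd {f g : α → ℕ} (hf : Computable f) (hg : Computable g) :
    Computable (fun a => f a + g a) := Primrec.nat_add.to_comp.comp hf hg

theorem nsub {f g : α → ℕ} (hf : Computable f) (hg : Computable g) :
    Computable (fun a => f a - g a) := Primrec.nat_sub.to_comp.comp hf hg

theorem nmul {f g : α → ℕ} (hf : Computable f) (hg : Computable g) :
    Computable (fun a => f a * g a) := Primrec.nat_mul.to_comp.comp hf hg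

theorem ndiv {f g : α → ℕ} (hf : Computable f) (hg : Computable g) :
    Computable (fun a => f a / g a) := Primrec.nat_div.to_comp.comp hf hg

theorem npow {f g : α → ℕ} (hf : Computable f) (hg : Computable g) :
    Computable (fun a => f a ^ g a) :=
  (Primrec₂.unpaired'.1 Nat.Primrec.pow : Primrec₂ (fun a b : ℕ => a ^ b)).to_comp.comp hf hg

/-- natural number bound for a rational -/
def nb (q : ℚ) : ℕ := (tri q).1 + (tri q).2.1

theorem primrec_nb : Primrec nb :=
  Primrec.nat_add.comp (Primrec.fst.comp primrec_tri) (Primrec.fst.comp (Primrec.snd.comp primrec_tri))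

theorem nnb {f : α → ℚ} (hf : Computable f) : Computable (fun a => nb (f a)) :=
  primrec_nb.to_comp.comp hf

theorem abs_le_nb (q : ℚ) : |(q : ℝ)| ≤ (nb q : ℝ) := by
  have h1 : nb q = q.num.natAbs := by unfold nb tri; simp only; omega
  have h2 : |q| ≤ (nb q : ℚ) := by
    rw [h1]
    have h3 : |q| = |(q.num : ℚ)| / (q.den : ℚ) := by
      conv_lhs => rw [← Rat.num_div_den q]
      rw [abs_div, Nat.abs_cast]
    rw [h3]
    have h4 : ((q.num.natAbs : ℕ) : ℚ) = |(q.num : ℚ)| := by
      rw [Nat.cast_natAbs]; simp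
    rw [h4]
    have h5 : (1 : ℚ) ≤ q.den := by exact_mod_cast q.pos
    exact div_le_self (abs_nonneg _) h5
  have : |(q : ℝ)| = ((|q| : ℚ) : ℝ) := by push_cast; rfl
  rw [this]
  exact_mod_cast h2

theorem qsum {f : α × ℕ → ℚ} (hf : Computable f) {g : α → ℕ} (hg : Computable g) :
    Computable (fun a => ∑ i ∈ Finset.range (g a), f (a, i)) := by
  have h : Computable (fun a => Nat.rec (motive := fun _ => ℚ) (0 : ℚ) (fun i ih => ih + f (a, i)) (g a)) := by
    refine Computable.nat_rec (f := g) (g := fun _ => (0 : ℚ))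
      (h := fun a p => p.2 + f (a, p.1)) hg (Computable.const 0) ?_
    exact qadd (Computable.snd.comp Computable.snd)
      (hf.comp (Computable.fst.pair (Computable.fst.comp Computable.snd)))
  refine h.of_eq ?_
  intro a
  induction g a with
  | zero => simp
  | succ n ih => rw [Finset.sum_range_succ, ← ih]

end

/-! ### computable families of reals -/

/-- a family of real numbers, uniformly computable -/
def CR {α : Type*} [Primcodable α] (F : α → ℝ) : Prop :=
  ∃ E : α × ℕ → ℚ, Computable E ∧ ∀ a n, |F a - (E (a, n) : ℝ)| ≤ 1 / ((n : ℝ) + 1)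

section

variable {α β : Type*} [Primcodable α] [Primcodable β]

theorem CR.of_eq {F G : α → ℝ} (hF : CR F) (h : ∀ a, F a = G a) : CR G := by
  have : F = G := funext h
  rwa [← this]

theorem CR.comp {F : α → ℝ} (hF : CR F) {φ : β → α} (hφ : Computable φ) : CR (fun b => F (φ b)) := by
  obtain ⟨E, hE, h⟩ := hF
  exact ⟨fun x => E (φ x.1, x.2), hE.comp ((hφ.comp Computable.fst).pair Computable.snd),
    fun b n => h (φ b) n⟩

theorem CR.rat {r : α → ℚ} (hr : Computable r) : CR (fun a => (r a : ℝ)) :=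
  ⟨fun x => r x.1, hr.comp Computable.fst, fun a n => by simp; positivity⟩

theorem CR.const (q : ℚ) : CR (fun _ : α => (q : ℝ)) := CR.rat (Computable.const q)

theorem CR.nat {r : α → ℕ} (hr : Computable r) : CR (fun a => (r a : ℝ)) :=
  (CR.rat (qcast hr)).of_eq fun a => by push_cast; rfl

theorem CR.add {F G : α → ℝ} (hF : CR F) (hG : CR G) : CR (fun a => F a + G a) := by
  obtain ⟨E, hE, h⟩ := hF
  obtain ⟨D, hD, h'⟩ := hG
  have hn : Computable (fun x : α × ℕ => 2 * x.2 + 1) :=
    nadd (nmul (Computable.const 2) Computable.snd) (Computable.const 1)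
  refine ⟨fun x => E (x.1, 2 * x.2 + 1) + D (x.1, 2 * x.2 + 1),
    qadd (hE.comp (Computable.fst.pair hn)) (hD.comp (Computable.fst.pair hn)), ?_⟩
  intro a n
  have h1 := h a (2 * n + 1)
  have h2 := h' a (2 * n + 1)
  have h3 : (1:ℝ) / (((2 * n + 1 : ℕ) : ℝ) + 1) = (1 / 2) * (1 / ((n : ℝ) + 1)) := by
    push_cast; field_simp; ring
  rw [h3] at h1 h2
  push_cast
  have h4 : F a + G a - ((E (a, 2 * n + 1) : ℝ) + (D (a, 2 * n + 1) : ℝ)) =
    (F a - E (a, 2 * n + 1)) + (G a - D (a, 2 * n + 1)) := by ring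
  rw [h4]
  refine (abs_add_le _ _).trans ?_
  linarith

theorem CR.mul {F G : α → ℝ} (hF : CR F) (hG : CR G) : CR (fun a => F a * G a) := by
  obtain ⟨E, hE, h⟩ := hF
  obtain ⟨D, hD, h'⟩ := hG
  -- bound
  have hc0 : Computable (fun x : α × ℕ => ((x.1, 0) : α × ℕ)) :=
    Computable.fst.pair (Computable.const 0)
  have hM : Computable (fun x : α × ℕ => nb (E (x.1, 0)) + nb (D (x.1, 0)) + 2) :=
    nadd (nadd (nnb (hE.comp hc0)) (nnb (hD.comp hc0))) (Computable.const 2)
  have hN : Computable (fun x : α × ℕ => 2 * (nb (E (x.1, 0)) + nb (D (x.1, 0)) + 2) * (x.2 + 1)) :=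
    nmul (nmul (Computable.const 2) hM) (nadd Computable.snd (Computable.const 1))
  refine ⟨fun x => E (x.1, 2 * (nb (E (x.1, 0)) + nb (D (x.1, 0)) + 2) * (x.2 + 1)) *
    D (x.1, 2 * (nb (E (x.1, 0)) + nb (D (x.1, 0)) + 2) * (x.2 + 1)),
    qmul (hE.comp (Computable.fst.pair hN)) (hD.comp (Computable.fst.pair hN)), ?_⟩
  intro a n
  simp only
  set M : ℕ := nb (E (a, 0)) + nb (D (a, 0)) + 2 with hMdef
  set N : ℕ := 2 * M * (n + 1) with hNdef
  have h1 := h a N
  have h2 := h' a N
  have h3 := h a 0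
  have h4 := h' a 0
  have h5 := abs_le_nb (E (a, 0))
  have h6 := abs_le_nb (D (a, 0))
  have hMr : (M : ℝ) = nb (E (a, 0)) + nb (D (a, 0)) + 2 := by rw [hMdef]; push_cast; ring
  have hn0 : (0:ℝ) ≤ nb (E (a, 0)) := Nat.cast_nonneg _
  have hn1 : (0:ℝ) ≤ nb (D (a, 0)) := Nat.cast_nonneg _
  have hMpos : (0:ℝ) < M := by rw [hMr]; linarith
  have hN1 : (1:ℝ) / ((N : ℝ) + 1) ≤ 1 / (2 * M * ((n : ℝ) + 1)) := by
    apply one_div_le_one_div_of_le (by positivity)
    rw [hNdef]; push_cast; linarith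
  have hN2 : (1:ℝ) / ((N : ℝ) + 1) ≤ 1 := by
    rw [div_le_one (by positivity)]
    have : (0:ℝ) ≤ N := Nat.cast_nonneg _
    linarith
  have hF1 : |F a| ≤ M := by
    have : |F a| ≤ |F a - E (a, 0)| + |(E (a, 0) : ℝ)| := by
      have := abs_add_le (F a - E (a, 0)) (E (a, 0) : ℝ)
      simpa using this
    simp at h3
    rw [hMr]; linarith
  have hG1 : |(D (a, N) : ℝ)| ≤ M := by
    have h7 : |(D (a, N) : ℝ)| ≤ |G a| + |G a - D (a, N)| := by
      have := abs_sub (G a) (G a - D (a, N))
      have e : G a - (G a - (D (a, N) : ℝ)) = D (a, N) := by ring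
      rw [e] at this
      exact this
    have h8 : |G a| ≤ |G a - D (a, 0)| + |(D (a, 0) : ℝ)| := by
      have := abs_add_le (G a - D (a, 0)) (D (a, 0) : ℝ)
      simpa using this
    simp at h4
    rw [hMr]; linarith
  push_cast
  have h9 : F a * G a - (E (a, N) : ℝ) * (D (a, N) : ℝ) =
    F a * (G a - D (a, N)) + (F a - E (a, N)) * D (a, N) := by ring
  rw [h9]
  refine (abs_add_le _ _).trans ?_
  rw [abs_mul, abs_mul]
  have h10 : |F a| * |G a - D (a, N)| ≤ M * (1 / (2 * M * ((n : ℝ) + 1))) :=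
    mul_le_mul hF1 (h2.trans hN1) (abs_nonneg _) hMpos.le
  have h11 : |F a - E (a, N)| * |(D (a, N) : ℝ)| ≤ (1 / (2 * M * ((n : ℝ) + 1))) * M :=
    mul_le_mul (h1.trans hN1) hG1 (abs_nonneg _) (by positivity)
  have h12 : M * (1 / (2 * M * ((n : ℝ) + 1))) = (1 / 2) * (1 / ((n : ℝ) + 1)) := by
    field_simp
  have h13 : (1 / (2 * M * ((n : ℝ) + 1))) * M = (1 / 2) * (1 / ((n : ℝ) + 1)) := by
    field_simp
  rw [h12] at h10
  rw [h13] at h11
  linarith

theorem CR.neg {F : α → ℝ} (hF : CR F) : CR (fun a => - F a) :=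
  ((CR.const (-1)).mul hF).of_eq fun a => by push_cast; ring

theorem CR.sub {F G : α → ℝ} (hF : CR F) (hG : CR G) : CR (fun a => F a - G a) :=
  (hF.add hG.neg).of_eq fun a => by ring

theorem CR.sum {F : α × ℕ → ℝ} (hF : CR F) {g : α → ℕ} (hg : Computable g) :
    CR (fun a => ∑ i ∈ Finset.range (g a), F (a, i)) := by
  obtain ⟨E, hE, h⟩ := hF
  have hN : Computable (fun x : (α × ℕ) × ℕ => g x.1.1 * (x.1.2 + 1)) :=
    nmul (hg.comp (Computable.fst.comp Computable.fst))
      (nadd (Computable.snd.comp Computable.fst) (Computable.const 1))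
  have hterm : Computable (fun x : (α × ℕ) × ℕ => E ((x.1.1, x.2), g x.1.1 * (x.1.2 + 1))) :=
    hE.comp (((Computable.fst.comp Computable.fst).pair Computable.snd).pair hN)
  refine ⟨fun x => ∑ i ∈ Finset.range (g x.1), E ((x.1, i), g x.1 * (x.2 + 1)),
    qsum hterm (hg.comp Computable.fst), ?_⟩
  intro a n
  simp only
  push_cast
  rw [← Finset.sum_sub_distrib]
  refine (Finset.abs_sum_le_sum_abs _ _).trans ?_
  have h1 : ∀ i ∈ Finset.range (g a), |F (a, i) - (E ((a, i), g a * (n + 1)) : ℝ)| ≤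
      1 / (((g a * (n + 1) : ℕ) : ℝ) + 1) := fun i _ => h (a, i) _
  refine (Finset.sum_le_sum h1).trans ?_
  rw [Finset.sum_const, Finset.card_range, nsmul_eq_mul]
  push_cast
  have hg0 : (0:ℝ) ≤ g a := Nat.cast_nonneg _
  rw [mul_one_div, div_le_div_iff₀ (by positivity) (by positivity)]
  linarith

/-- limits with a modulus of convergence -/
theorem CR.lim {F : α → ℝ} {G : α × ℕ → ℝ} (hG : CR G)
    (h : ∀ a n, |F a - G (a, n)| ≤ 1 / ((n : ℝ) + 1)) : CR F := by
  obtain ⟨E, hE, h'⟩ := hG
  have hn : Computable (fun x : α × ℕ => 2 * x.2 + 1) :=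
    nadd (nmul (Computable.const 2) Computable.snd) (Computable.const 1)
  refine ⟨fun x => E ((x.1, 2 * x.2 + 1), 2 * x.2 + 1),
    hE.comp ((Computable.fst.pair hn).pair hn), ?_⟩
  intro a n
  simp only
  have h1 := h a (2 * n + 1)
  have h2 := h' (a, 2 * n + 1) (2 * n + 1)
  have h3 : (1:ℝ) / (((2 * n + 1 : ℕ) : ℝ) + 1) = (1 / 2) * (1 / ((n : ℝ) + 1)) := by
    push_cast; field_simp; ring
  rw [h3] at h1 h2
  have h4 := abs_sub_le (F a) (G (a, 2 * n + 1)) (E ((a, 2 * n + 1), 2 * n + 1) : ℝ)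
  linarith

theorem CR.list_sum {γ : Type*} (L : List γ) (F : γ → α → ℝ) (h : ∀ g ∈ L, CR (F g)) :
    CR (fun a => (L.map (fun g => F g a)).sum) := by
  induction L with
  | nil => exact (CR.const 0).of_eq fun a => by simp
  | cons g L ih =>
    have h1 := h g List.mem_cons_self
    have h2 := ih fun g' hg' => h g' (List.mem_cons_of_mem _ hg')
    exact (h1.add h2).of_eq fun a => by simp

theorem CR.cond {F G : α → ℝ} {c : α → Bool} (hc : Computable c) (hF : CR F) (hG : CR G) :
    CR (fun a => if c a = true then F a else G a) := by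
  obtain ⟨E, hE, h⟩ := hF
  obtain ⟨D, hD, h'⟩ := hG
  refine ⟨fun x => _root_.cond (c x.1) (E x) (D x),
    Computable.cond (hc.comp Computable.fst) hE hD, ?_⟩
  intro a n
  show |(if c a = true then F a else G a) -
    ((_root_.cond (c a) (E (a, n)) (D (a, n)) : ℚ) : ℝ)| ≤ _
  rcases hca : c a with _ | _
  · rw [if_neg (by decide)]
    exact h' a n
  · rw [if_pos rfl]
    exact h a n

end

end Crest.Agent.H24CompReal
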