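import Mathlib
import Crest.Agent.H24CompReal
import Crest.Agent.H23BoxBase

/-! Effectively smooth functions: closure properties. -/

set_option autoImplicit false
open scoped ContDiff

namespace Crest.Agent.H24Eff

open H24RatComp H24CompReal Crest.Agent.H23Box

/-! ### forward differences -/

theorem diff_bound (f f' : ℝ → ℝ) (C : ℝ) (h : ∀ x, HasDerivAt f (f' x) x) (hC : ∀ x, |f' x| ≤ C)
    (x y : ℝ) : |f y - f x| ≤ C * |y - x| := by
  have := Convex.norm_image_sub_le_of_norm_hasDerivWithin_le (f := f) (f' := f') (s := Set.univ)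
    (C := C) (x := x) (y := y) (fun z _ => (h z).hasDerivWithinAt) (fun z _ => hC z) convex_univ
    (Set.mem_univ _) (Set.mem_univ _)
  simpa using this

/-- difference quotient -/
noncomputable def dq (δ : ℝ) (g : ℝ → ℝ) : ℝ → ℝ := fun x => (g (x + δ) - g x) / δ

theorem fwd_approx (δ : ℝ) (hδ : 0 < δ) (k : ℕ) : ∀ (F : ℕ → ℝ → ℝ) (B : ℕ → ℝ),
    (∀ m x, HasDerivAt (F m) (F (m + 1) x) x) → (∀ m x, |F m x| ≤ B m) →
    ∀ m x, |(dq δ)^[k] (F m) x - F (m + k) x| ≤ k * δ * B (m + k + 1) := by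
  induction k with
  | zero => intro F B _ _ m x; simp
  | succ k ih =>
    intro F B hF hB m x
    have hG : ∀ m x, HasDerivAt (dq δ (F m)) (dq δ (F (m + 1)) x) x := by
      intro m x
      have h1 : HasDerivAt (fun y => F m (y + δ)) (F (m + 1) (x + δ)) x :=
        (hF m (x + δ)).comp_add_const x δ
      exact (h1.sub (hF m x)).div_const δ
    have hGB : ∀ m x, |dq δ (F m) x| ≤ B (m + 1) := by
      intro m x
      have h1 := diff_bound (F m) (F (m + 1)) (B (m + 1)) (hF m) (hB (m + 1)) x (x + δ)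
      unfold dq
      rw [abs_div, abs_of_pos hδ, div_le_iff₀ hδ]
      simpa [abs_of_pos hδ] using h1
    have h1 := ih (fun m => dq δ (F m)) (fun m => B (m + 1)) hG hGB m x
    have h2 : |dq δ (F (m + k)) x - F (m + k + 1) x| ≤ δ * B (m + k + 2) := by
      obtain ⟨c, hc, hc2⟩ := exists_hasDerivAt_eq_slope (F (m + k)) (F (m + k + 1))
        (a := x) (b := x + δ) (by linarith)
        (fun y _ => (hF (m + k) y).continuousAt.continuousWithinAt) (fun y _ => hF (m + k) y)
      have h3 : dq δ (F (m + k)) x = F (m + k + 1) c := by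
        unfold dq; rw [hc2]; congr 1; ring
      rw [h3]
      have h4 := diff_bound (F (m + k + 1)) (F (m + k + 2)) (B (m + k + 2)) (hF (m + k + 1))
        (hB (m + k + 2)) x c
      have h5 : |c - x| ≤ δ := by
        rw [abs_of_pos (by linarith [hc.1])]; linarith [hc.2]
      have h6 : 0 ≤ B (m + k + 2) := (abs_nonneg _).trans (hB (m + k + 2) x)
      calc _ ≤ B (m + k + 2) * |c - x| := h4
        _ ≤ B (m + k + 2) * δ := mul_le_mul_of_nonneg_left h5 h6
        _ = _ := mul_comm _ _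
    rw [Function.iterate_succ_apply]
    have h3 := abs_sub_le ((dq δ)^[k] (dq δ (F m)) x) (dq δ (F (m + k)) x) (F (m + k + 1) x)
    have h4 : m + (k + 1) = m + k + 1 := by ring
    rw [h4]
    have h5 : m + k + 1 + 1 = m + k + 2 := by ring
    rw [h5]
    have h6 : (((k + 1 : ℕ) : ℝ)) * δ * B (m + k + 2) = k * δ * B (m + k + 2) + δ * B (m + k + 2) := by
      push_cast; ring
    rw [h6]
    have h7 : |(dq δ)^[k] (dq δ (F m)) x - dq δ (F (m + k)) x| ≤ k * δ * B (m + k + 2) := h1
    linarith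

theorem dq_iterate (δ : ℝ) (g : ℝ → ℝ) (k : ℕ) (x : ℝ) :
    (dq δ)^[k] g x = (δ⁻¹) ^ k * ∑ i ∈ Finset.range (k + 1),
      ((-1 : ℝ) ^ (k - i) * (k.choose i : ℝ)) * g (x + i * δ) := by
  have h1 : ∀ g : ℝ → ℝ, dq δ g = δ⁻¹ • fwdDiff δ g := by
    intro g; funext x
    simp only [dq, fwdDiff, Pi.smul_apply, smul_eq_mul]
    rw [div_eq_inv_mul]
  have h2 : ∀ k (g : ℝ → ℝ), (dq δ)^[k] g = (δ⁻¹) ^ k • (fwdDiff δ)^[k] g := by
    intro k
    induction k with
    | zero => intro g; simp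
    | succ k ih =>
      intro g
      rw [Function.iterate_succ_apply, ih, h1, fwdDiff_iter_const_smul, smul_smul, ← pow_succ,
        Function.iterate_succ_apply]
  rw [h2, Pi.smul_apply, smul_eq_mul, fwdDiff_iter_eq_sum_shift]
  congr 1
  refine Finset.sum_congr rfl fun i _ => ?_
  rw [nsmul_eq_mul, zsmul_eq_mul]
  push_cast
  rfl

/-! ### binomial coefficients -/

theorem primrec_factorial : Primrec Nat.factorial := by
  have h : Primrec (Nat.rec (motive := fun _ => ℕ) 1 (fun k ih => (k + 1) * ih)) :=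
    Primrec.nat_rec₁ 1 (Primrec.nat_mul.comp (Primrec.succ.comp Primrec.fst) Primrec.snd)
  refine h.of_eq fun n => ?_
  induction n with
  | zero => rfl
  | succ n ih => rw [Nat.factorial_succ, ← ih]

theorem primrec_choose : Primrec₂ Nat.choose := by
  have h : Primrec (fun x : ℕ × ℕ => if x.2 ≤ x.1 then
      x.1.factorial / (x.2.factorial * (x.1 - x.2).factorial) else 0) := by
    refine Primrec.ite (Primrec.nat_le.comp Primrec.snd Primrec.fst) ?_ (Primrec.const 0)
    refine Primrec.nat_div.comp (primrec_factorial.comp Primrec.fst) ?_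
    exact Primrec.nat_mul.comp (primrec_factorial.comp Primrec.snd)
      (primrec_factorial.comp (Primrec.nat_sub.comp Primrec.fst Primrec.snd))
  refine h.of_eq ?_
  rintro ⟨n, k⟩
  simp only
  split_ifs with hk
  · exact (Nat.choose_eq_factorial_div_factorial hk).symm
  · exact (Nat.choose_eq_zero_of_lt (by omega)).symm

theorem nchoose {α : Type*} [Primcodable α] {f g : α → ℕ} (hf : Computable f) (hg : Computable g) :
    Computable (fun a => Nat.choose (f a) (g a)) := primrec_choose.to_comp.comp hf hg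

theorem nsum {α : Type*} [Primcodable α] {f : α × ℕ → ℕ} (hf : Computable f) {g : α → ℕ}
    (hg : Computable g) : Computable (fun a => ∑ i ∈ Finset.range (g a), f (a, i)) := by
  have h : Computable (fun a => Nat.rec (motive := fun _ => ℕ) (0 : ℕ) (fun i ih => ih + f (a, i)) (g a)) := by
    refine Computable.nat_rec (f := g) (g := fun _ => (0 : ℕ))
      (h := fun a p => p.2 + f (a, p.1)) hg (Computable.const 0) ?_
    exact nadd (Computable.snd.comp Computable.snd)
      (hf.comp (Computable.fst.pair (Computable.fst.comp Computable.snd)))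
  refine h.of_eq ?_
  intro a
  induction g a with
  | zero => simp
  | succ n ih => rw [Finset.sum_range_succ, ← ih]

/-! ### reformulation of `EffFun` -/

theorem effFun_iff (f : ℝ → ℝ) : EffFun f ↔ ContDiff ℝ ∞ f ∧
    CR (fun x : ℕ × ℚ => iteratedDeriv x.1 f (x.2 : ℝ)) ∧
    (∃ B : ℕ → ℕ, Computable B ∧ ∀ (k : ℕ) (x : ℝ), |iteratedDeriv k f x| ≤ (B k : ℝ)) := by
  constructor
  · rintro ⟨h1, ⟨E, hE, h2⟩, h3⟩
    refine ⟨h1, ⟨fun x => E (x.1.1, x.1.2, x.2), ?_, ?_⟩, h3⟩
    · exact hE.comp ((Computable.fst.comp Computable.fst).pair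
        ((Computable.snd.comp Computable.fst).pair Computable.snd))
    · rintro ⟨k, q⟩ n
      exact h2 k q n
  · rintro ⟨h1, ⟨E, hE, h2⟩, h3⟩
    refine ⟨h1, ⟨fun x => E ((x.1, x.2.1), x.2.2), ?_, ?_⟩, h3⟩
    · exact hE.comp ((Computable.fst.pair (Computable.fst.comp Computable.snd)).pair
        (Computable.snd.comp Computable.snd))
    · intro k q n
      exact h2 (k, q) n

theorem hasDerivAt_iter {f : ℝ → ℝ} (hf : ContDiff ℝ ∞ f) (m : ℕ) (x : ℝ) :
    HasDerivAt (iteratedDeriv m f) (iteratedDeriv (m + 1) f x) x := by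
  rw [iteratedDeriv_succ]
  exact ((hf.differentiable_iteratedDeriv m (by exact_mod_cast WithTop.coe_lt_top _)) x).hasDerivAt

/-- a value-computable function with computable bounds on the derivatives is effectively smooth -/
theorem effFun_of_effVal {f : ℝ → ℝ} (h : EffVal f) : EffFun f := by
  obtain ⟨hf, ⟨E, hE, hE2⟩, B, hB, hB2⟩ := h
  rw [effFun_iff]
  refine ⟨hf, ?_, B, hB, hB2⟩
  have hval : CR (fun q : ℚ => f (q : ℝ)) := ⟨E, hE, fun q n => hE2 q n⟩
  -- mesh
  have hk : Computable (fun x : (ℕ × ℚ) × ℕ => x.1.1) := Computable.fst.comp Computable.fst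
  have hM : Computable (fun x : (ℕ × ℚ) × ℕ => x.1.1 * B (x.1.1 + 1) * (x.2 + 1) + 1) :=
    nadd (nmul (nmul hk (hB.comp (nadd hk (Computable.const 1))))
      (nadd Computable.snd (Computable.const 1))) (Computable.const 1)
  -- the inner term
  have hMQ : Computable (fun y : ((ℕ × ℚ) × ℕ) × ℕ =>
      ((y.1.1.1 * B (y.1.1.1 + 1) * (y.1.2 + 1) + 1 : ℕ) : ℚ)) := qcast (hM.comp Computable.fst)
  have hterm : CR (fun y : ((ℕ × ℚ) × ℕ) × ℕ =>
      (((-1 : ℚ) ^ (y.1.1.1 - y.2) * ((y.1.1.1.choose y.2 : ℕ) : ℚ) : ℚ) : ℝ) *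
        f ((y.1.1.2 + (y.2 : ℚ) * ((y.1.1.1 * B (y.1.1.1 + 1) * (y.1.2 + 1) + 1 : ℕ) : ℚ)⁻¹ : ℚ) : ℝ)) := by
    refine CR.mul ?_ ?_
    · refine CR.rat (qmul (qpow (Computable.const (-1)) (nsub (hk.comp Computable.fst)
        Computable.snd)) (qcast (nchoose (hk.comp Computable.fst) Computable.snd)))
    · refine hval.comp (φ := fun y : ((ℕ × ℚ) × ℕ) × ℕ => (y.1.1.2 + (y.2 : ℚ) *
        ((y.1.1.1 * B (y.1.1.1 + 1) * (y.1.2 + 1) + 1 : ℕ) : ℚ)⁻¹)) ?_
      refine qadd (Computable.snd.comp (Computable.fst.comp Computable.fst)) (qmul (qcast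
        Computable.snd) ?_)
      exact primrec_inv.to_comp.comp hMQ
  have hsum := hterm.sum (g := fun x : (ℕ × ℚ) × ℕ => x.1.1 + 1) (nadd hk (Computable.const 1))
  have hG : CR (fun x : (ℕ × ℚ) × ℕ => ((((x.1.1 * B (x.1.1 + 1) * (x.2 + 1) + 1 : ℕ) : ℚ) ^ x.1.1 : ℚ) : ℝ) *
      ∑ i ∈ Finset.range (x.1.1 + 1), (((-1 : ℚ) ^ (x.1.1 - i) * ((x.1.1.choose i : ℕ) : ℚ) : ℚ) : ℝ) *
        f ((x.1.2 + (i : ℚ) * ((x.1.1 * B (x.1.1 + 1) * (x.2 + 1) + 1 : ℕ) : ℚ)⁻¹ : ℚ) : ℝ)) :=
    CR.mul (CR.rat (qpow (qcast hM) hk)) hsum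
  refine CR.lim hG ?_
  rintro ⟨k, q⟩ n
  simp only
  set M : ℕ := k * B (k + 1) * (n + 1) + 1 with hMdef
  have hMpos : (0:ℝ) < M := by rw [hMdef]; positivity
  have h1 := fwd_approx ((M : ℝ)⁻¹) (by positivity) k (fun m => iteratedDeriv m f)
    (fun m => (B m : ℝ)) (fun m x => hasDerivAt_iter hf m x) (fun m x => hB2 m x) 0 (q : ℝ)
  rw [dq_iterate] at h1
  simp only [iteratedDeriv_zero, zero_add, inv_inv] at h1
  rw [abs_sub_comm]
  have h2 : (((M : ℚ) ^ k : ℚ) : ℝ) * ∑ i ∈ Finset.range (k + 1),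
      (((-1 : ℚ) ^ (k - i) * ((k.choose i : ℕ) : ℚ) : ℚ) : ℝ) *
        f ((q + (i : ℚ) * ((M : ℕ) : ℚ)⁻¹ : ℚ) : ℝ) =
      (M : ℝ) ^ k * ∑ i ∈ Finset.range (k + 1),
      ((-1 : ℝ) ^ (k - i) * (k.choose i : ℝ)) * f ((q : ℝ) + i * (M : ℝ)⁻¹) := by
    push_cast
    rfl
  rw [h2]
  refine h1.trans ?_
  rw [mul_assoc, mul_comm ((M : ℝ)⁻¹), ← mul_assoc, ← div_eq_mul_inv,
    div_le_div_iff₀ hMpos (by positivity)]
  have hMr : (M : ℝ) = k * B (k + 1) * (n + 1) + 1 := by rw [hMdef]; push_cast; ring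
  rw [hMr]
  linarith

/-! ### closure properties -/

theorem effFun_zero : EffFun (fun _ => 0) := by
  rw [effFun_iff]
  refine ⟨contDiff_const, ?_, fun _ => 0, Computable.const 0, ?_⟩
  · refine (CR.const 0).of_eq ?_
    rintro ⟨k, q⟩
    simp
  · intro k x
    simp

theorem effFun_add {f g : ℝ → ℝ} (hf : EffFun f) (hg : EffFun g) : EffFun (fun x => f x + g x) := by
  rw [effFun_iff] at *
  obtain ⟨hf1, hf2, B, hB, hB2⟩ := hf
  obtain ⟨hg1, hg2, D, hD, hD2⟩ := hg
  have key : ∀ k x, iteratedDeriv k (fun x => f x + g x) x = iteratedDeriv k f x + iteratedDeriv k g x :=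
    fun k x => iteratedDeriv_fun_add (hf1.contDiffAt.of_le (by exact_mod_cast le_top))
      (hg1.contDiffAt.of_le (by exact_mod_cast le_top))
  refine ⟨hf1.add hg1, (hf2.add hg2).of_eq fun x => (key _ _).symm, fun k => B k + D k,
    nadd hB hD, ?_⟩
  intro k x
  rw [key]
  push_cast
  exact (abs_add_le _ _).trans (add_le_add (hB2 k x) (hD2 k x))

theorem effFun_mul {f g : ℝ → ℝ} (hf : EffFun f) (hg : EffFun g) : EffFun (fun x => f x * g x) := by
  rw [effFun_iff] at *
  obtain ⟨hf1, hf2, B, hB, hB2⟩ := hf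
  obtain ⟨hg1, hg2, D, hD, hD2⟩ := hg
  have key : ∀ k x, iteratedDeriv k (fun x => f x * g x) x =
      ∑ i ∈ Finset.range (k + 1), (k.choose i : ℝ) * iteratedDeriv i f x * iteratedDeriv (k - i) g x :=
    fun k x => iteratedDeriv_fun_mul (hf1.contDiffAt.of_le (by exact_mod_cast le_top))
      (hg1.contDiffAt.of_le (by exact_mod_cast le_top))
  have hk : Computable (fun y : (ℕ × ℚ) × ℕ => y.1.1) := Computable.fst.comp Computable.fst
  have hq : Computable (fun y : (ℕ × ℚ) × ℕ => y.1.2) := Computable.snd.comp Computable.fst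
  refine ⟨hf1.mul hg1, ?_, fun k => ∑ i ∈ Finset.range (k + 1), k.choose i * B i * D (k - i), ?_, ?_⟩
  · have h1 : CR (fun y : (ℕ × ℚ) × ℕ => ((y.1.1.choose y.2 : ℕ) : ℝ) *
        iteratedDeriv y.2 f (y.1.2 : ℝ) * iteratedDeriv (y.1.1 - y.2) g (y.1.2 : ℝ)) :=
      ((CR.nat (nchoose hk Computable.snd)).mul (hf2.comp (Computable.snd.pair hq))).mul
        (hg2.comp ((nsub hk Computable.snd).pair hq))
    have h2 := h1.sum (g := fun x : ℕ × ℚ => x.1 + 1) (nadd Computable.fst (Computable.const 1))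
    refine h2.of_eq fun x => ?_
    rw [key]
  · exact nsum (f := fun y : ℕ × ℕ => y.1.choose y.2 * B y.2 * D (y.1 - y.2))
      (nmul (nmul (nchoose Computable.fst Computable.snd) (hB.comp Computable.snd))
        (hD.comp (nsub Computable.fst Computable.snd))) (nadd Computable.id (Computable.const 1))
  · intro k x
    rw [key]
    refine (Finset.abs_sum_le_sum_abs _ _).trans ?_
    push_cast
    refine Finset.sum_le_sum fun i _ => ?_
    rw [abs_mul, abs_mul, Nat.abs_cast]
    exact mul_le_mul (mul_le_mul_of_nonneg_left (hB2 i x) (Nat.cast_nonneg _)) (hD2 _ x)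
      (abs_nonneg _) (by positivity)

theorem effFun_const (c : ℚ) : EffFun (fun _ => (c : ℝ)) := by
  rw [effFun_iff]
  have key : ∀ (k : ℕ) (x : ℝ), iteratedDeriv k (fun _ : ℝ => (c : ℝ)) x = ((if k = 0 then c else 0 : ℚ) : ℝ) := by
    intro k x
    rcases Nat.eq_zero_or_pos k with h | h
    · subst h; simp
    · rw [if_neg h.ne']
      obtain ⟨m, rfl⟩ : ∃ m, k = m + 1 := ⟨k - 1, by omega⟩
      rw [iteratedDeriv_succ']
      simp
  refine ⟨contDiff_const, ?_, fun _ => nb c, Computable.const _, ?_⟩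
  · refine (CR.rat (r := fun x : ℕ × ℚ => if x.1 = 0 then c else 0) ?_).of_eq fun x => (key _ _).symm
    exact (Primrec.ite (Primrec.eq.comp Primrec.fst (Primrec.const 0)) (Primrec.const c)
      (Primrec.const 0)).to_comp
  · intro k x
    rw [key]
    split_ifs
    · exact abs_le_nb c
    · simp

theorem effFun_const_mul {f : ℝ → ℝ} (hf : EffFun f) (c : ℚ) : EffFun (fun x => (c : ℝ) * f x) :=
  effFun_mul (effFun_const c) hf

theorem effFun_neg {f : ℝ → ℝ} (hf : EffFun f) : EffFun (fun x => - f x) := by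
  have h := effFun_const_mul hf (-1)
  have e : (fun x => ((-1 : ℚ) : ℝ) * f x) = fun x => - f x := by
    funext x; push_cast; ring
  rwa [e] at h

theorem effFun_sub {f g : ℝ → ℝ} (hf : EffFun f) (hg : EffFun g) : EffFun (fun x => f x - g x) := by
  have h := effFun_add hf (effFun_neg hg)
  have e : (fun x => f x + - g x) = fun x => f x - g x := by
    funext x; ring
  rwa [e] at h

theorem effFun_comp_affine {f : ℝ → ℝ} (hf : EffFun f) (a b : ℚ) :
    EffFun (fun x => f ((a : ℝ) * x + (b : ℝ))) := by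
  rw [effFun_iff] at *
  obtain ⟨hf1, hf2, B, hB, hB2⟩ := hf
  have key : ∀ (k : ℕ) (x : ℝ), iteratedDeriv k (fun x => f ((a : ℝ) * x + (b : ℝ))) x =
      (a : ℝ) ^ k * iteratedDeriv k f ((a : ℝ) * x + b) := by
    intro k x
    have h1 : ContDiff ℝ k (fun z => f (z + (b : ℝ))) :=
      (hf1.of_le (by exact_mod_cast le_top)).comp (contDiff_id.add contDiff_const)
    have h2 := iteratedDeriv_comp_const_mul h1 (a : ℝ)
    have h3 := congrFun h2 x
    rw [h3, iteratedDeriv_comp_add_const]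
  refine ⟨hf1.comp ((contDiff_const.mul contDiff_id).add contDiff_const), ?_,
    fun k => nb a ^ k * B k, nmul (npow (Computable.const _) Computable.id) hB, ?_⟩
  · have h1 : CR (fun x : ℕ × ℚ => ((a ^ x.1 : ℚ) : ℝ) * iteratedDeriv x.1 f ((a * x.2 + b : ℚ) : ℝ)) :=
      CR.mul (CR.rat (qpow (Computable.const a) Computable.fst))
        (hf2.comp (φ := fun x : ℕ × ℚ => (x.1, a * x.2 + b)) (Computable.fst.pair
          (qadd (qmul (Computable.const a) Computable.snd) (Computable.const b))))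
    refine h1.of_eq fun x => ?_
    rw [key]
    push_cast
    rfl
  · intro k x
    rw [key, abs_mul, abs_pow]
    push_cast
    exact mul_le_mul (pow_le_pow_left₀ (abs_nonneg _) (abs_le_nb a) k) (hB2 k _) (abs_nonneg _)
      (by positivity)

theorem effFun_deriv {f : ℝ → ℝ} (hf : EffFun f) : EffFun (deriv f) := by
  rw [effFun_iff] at *
  obtain ⟨hf1, hf2, B, hB, hB2⟩ := hf
  have key : ∀ (k : ℕ) (x : ℝ), iteratedDeriv k (deriv f) x = iteratedDeriv (k + 1) f x := by
    intro k x; rw [iteratedDeriv_succ']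
  have hk : Computable (fun k : ℕ => k + 1) := Computable.succ
  refine ⟨?_, ?_, fun k => B (k + 1), hB.comp hk, ?_⟩
  · rw [contDiff_infty_iff_deriv] at hf1
    exact hf1.2
  · exact (hf2.comp ((hk.comp Computable.fst).pair Computable.snd)).of_eq fun x => (key _ _).symm
  · intro k x
    rw [key]; exact hB2 _ x

theorem effFun_id_mul {f : ℝ → ℝ} (hf : EffFun f) (R : ℝ) (hR : ∀ x : ℝ, R ≤ |x| → f x = 0) :
    EffFun (fun x => x * f x) := by
  rw [effFun_iff] at *
  obtain ⟨hf1, hf2, B, hB, hB2⟩ := hf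
  have key : ∀ (k : ℕ), iteratedDeriv k (fun x => x * f x) =
      fun x => x * iteratedDeriv k f x + (k : ℝ) * iteratedDeriv (k - 1) f x := by
    intro k
    induction k with
    | zero => funext x; simp
    | succ k ih =>
      rw [iteratedDeriv_succ, ih]
      funext x
      have h1 : HasDerivAt (fun x => x * iteratedDeriv k f x)
          (1 * iteratedDeriv k f x + x * iteratedDeriv (k + 1) f x) x :=
        (hasDerivAt_id x).mul (hasDerivAt_iter hf1 k x)
      have h2 : HasDerivAt (fun x => (k : ℝ) * iteratedDeriv (k - 1) f x)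
          ((k : ℝ) * iteratedDeriv k f x) x := by
        rcases Nat.eq_zero_or_pos k with h | h
        · subst h
          simpa using hasDerivAt_const x (0:ℝ)
        · have h3 := (hasDerivAt_iter hf1 (k - 1) x).const_mul (k : ℝ)
          have h4 : k - 1 + 1 = k := by omega
          rwa [h4] at h3
      have h3 := (h1.add h2).deriv
      have h4 : deriv (fun x => x * iteratedDeriv k f x + (k : ℝ) * iteratedDeriv (k - 1) f x) x =
        1 * iteratedDeriv k f x + x * iteratedDeriv (k + 1) f x + (k : ℝ) * iteratedDeriv k f x := h3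
      rw [h4]
      have h5 : k + 1 - 1 = k := by omega
      rw [h5]
      push_cast
      ring
  obtain ⟨R', hR'⟩ := exists_nat_ge R
  have hvan : ∀ (k : ℕ) (x : ℝ), (R' : ℝ) < |x| → iteratedDeriv k f x = 0 := by
    intro k
    induction k with
    | zero => intro x hx; rw [iteratedDeriv_zero]; exact hR x (by linarith)
    | succ k ih =>
      intro x hx
      have hopen : IsOpen {x : ℝ | (R' : ℝ) < |x|} := isOpen_lt continuous_const continuous_abs
      have h1 : iteratedDeriv k f =ᶠ[nhds x] fun _ => (0:ℝ) := by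
        filter_upwards [hopen.mem_nhds hx] with y hy using ih y hy
      have h2 := (hasDerivAt_iter hf1 k x).congr_of_eventuallyEq h1.symm
      exact h2.unique (hasDerivAt_const x (0:ℝ))
  refine ⟨contDiff_id.mul hf1, ?_, fun k => R' * B k + k * B (k - 1),
    nadd (nmul (Computable.const _) hB) (nmul Computable.id (hB.comp (nsub Computable.id
      (Computable.const 1)))), ?_⟩
  · have h1 : CR (fun x : ℕ × ℚ => (x.2 : ℝ) * iteratedDeriv x.1 f (x.2 : ℝ) +
        (x.1 : ℝ) * iteratedDeriv (x.1 - 1) f (x.2 : ℝ)) := by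
      refine CR.add (CR.mul (CR.rat Computable.snd) hf2) (CR.mul (CR.nat Computable.fst) ?_)
      exact hf2.comp (φ := fun x : ℕ × ℚ => (x.1 - 1, x.2))
        ((nsub Computable.fst (Computable.const 1)).pair Computable.snd)
    exact h1.of_eq fun x => by rw [key]
  · intro k x
    rw [key]
    push_cast
    refine (abs_add_le _ _).trans (add_le_add ?_ ?_)
    · rw [abs_mul]
      rcases le_or_gt |x| (R' : ℝ) with h | h
      · exact mul_le_mul h (hB2 k x) (abs_nonneg _) (Nat.cast_nonneg _)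
      · rw [hvan k x h, abs_zero, mul_zero]; positivity
    · rw [abs_mul, Nat.abs_cast]
      exact mul_le_mul_of_nonneg_left (hB2 _ x) (Nat.cast_nonneg _)

theorem effFun_mul_x {f : ℝ → ℝ} (hf : EffFun f) (R : ℚ) (hR : ∀ x : ℝ, (R : ℝ) ≤ |x| → f x = 0) :
    EffFun (fun x => x * f x) := effFun_id_mul hf (R : ℝ) hR

end Crest.Agent.H24Eff
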