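import Mathlib
import Crest.Agent.H23BoxBase
import Crest.Agent.H23Step
import Crest.Agent.H23StepComp
import Crest.Agent.H24RatComp
import Crest.Agent.H24CompReal
import Crest.Agent.H24Eff

/-! The base step function is effective. -/

set_option autoImplicit false
open scoped ContDiff Topology NNReal
open Set

namespace Crest.Agent.H23SEff

open Crest.Agent.H23Box Crest.Agent.H23Step Crest.Agent.H23StepComp
open Crest.Agent.H24RatComp Crest.Agent.H24CompReal

theorem primrec_B : Primrec B := by
  have h : Primrec (fun k : ℕ => Nat.rec (motive := fun _ => ℕ) 1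
      (fun y ih => 2 ^ (y + 2) * ih) k) := by
    refine Primrec.nat_rec' (f := fun k : ℕ => k) (g := fun _ => 1)
      (h := fun _ p => 2 ^ (p.1 + 2) * p.2) Primrec.id (Primrec.const 1) ?_
    exact Primrec.nat_mul.comp
      (primrec_pow.comp (Primrec.const 2)
        (Primrec.nat_add.comp (Primrec.fst.comp Primrec.snd) (Primrec.const 2)))
      (Primrec.snd.comp Primrec.snd)
  refine h.of_eq ?_
  intro k
  induction k with
  | zero => rfl
  | succ k ih => exact congrArg _ ih

theorem effVal_S : EffVal S := by
  refine ⟨S_contDiff, ⟨fun a => (evNum (tri a.1) a.2 : ℚ) / (evDen a.2 : ℚ), ?_, ?_⟩,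
    B, primrec_B.to_comp, abs_iteratedDeriv_S_le⟩
  · exact qdiv (qcast (primrec_evNum.to_comp.comp (primrec_tri.to_comp.comp Computable.fst)
      Computable.snd)) (qcast (primrec_evDen.to_comp.comp Computable.snd))
  · intro q n
    have h1 := evNum_spec (tri q).1 (tri q).2.1 (tri q).2.2 n (tri_den_pos q)
    have h2 : (q : ℝ) = ((((tri q).1 : ℝ)) - ((tri q).2.1 : ℝ)) / ((tri q).2.2 : ℝ) := by
      have := mk3_tri q
      unfold mk3 at this
      conv_lhs => rw [← this]
      push_cast
      rfl
    rw [h2]
    push_cast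
    exact h1

theorem effFun_S : EffFun S := Crest.Agent.H24Eff.effFun_of_effVal effVal_S

end Crest.Agent.H23SEff
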