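import Mathlib
import Crest.Agent.H23BoxBase
import Crest.Agent.H23Step
import Crest.Agent.H23Flow2
import Crest.Agent.H24Eff
import Crest.Agent.H23SEff

/-! Localised shear and translation fields. -/

set_option autoImplicit false
open scoped ContDiff Topology NNReal
open Set

namespace Crest.Agent.H23Field

open Crest.Agent.H23Box Crest.Agent.H23Step Crest.Agent.H23Flow Crest.Agent.H24Eff Crest.Agent.H23SEff
open Crest.AnalysisR.BoxFlow

/-- plateau function: one on `[α, β]`, zero outside `(α - μ, β + μ)` -/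
noncomputable def plat (α β μ : ℚ) (x : ℝ) : ℝ :=
  S (((1 / μ : ℚ) : ℝ) * x + (((μ - α) / μ : ℚ) : ℝ)) -
    S (((1 / μ : ℚ) : ℝ) * x + ((- β / μ : ℚ) : ℝ))

theorem effFun_plat (α β μ : ℚ) : EffFun (plat α β μ) :=
  effFun_sub (effFun_comp_affine effFun_S _ _) (effFun_comp_affine effFun_S _ _)

theorem plat_hasDerivAt (α β μ : ℚ) (x : ℝ) : HasDerivAt (plat α β μ)
    (((1 / μ : ℚ) : ℝ) * (sg (((1 / μ : ℚ) : ℝ) * x + (((μ - α) / μ : ℚ) : ℝ)) -
      sg (((1 / μ : ℚ) : ℝ) * x + ((- β / μ : ℚ) : ℝ)))) x := by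
  have h (c : ℝ) : HasDerivAt (fun x => S (((1 / μ : ℚ) : ℝ) * x + c))
      (sg (((1 / μ : ℚ) : ℝ) * x + c) * ((1 / μ : ℚ) : ℝ)) x := by
    have h1 : HasDerivAt (fun x : ℝ => ((1 / μ : ℚ) : ℝ) * x + c) ((1 / μ : ℚ) : ℝ) x := by
      simpa using ((hasDerivAt_id x).const_mul ((1 / μ : ℚ) : ℝ)).add_const c
    exact (S_hasDerivAt _).comp x h1
  have h2 := (h (((μ - α) / μ : ℚ) : ℝ)).sub (h ((- β / μ : ℚ) : ℝ))
  exact h2.congr_deriv (by ring)

section
variable {α β μ : ℚ} (hμ : 0 < μ) {x : ℝ}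
include hμ

theorem arg1 : ((1 / μ : ℚ) : ℝ) * x + (((μ - α) / μ : ℚ) : ℝ) = (x - (α - μ)) / μ := by
  have : (μ : ℝ) ≠ 0 := by exact_mod_cast hμ.ne'
  push_cast; field_simp; ring

theorem arg2 : ((1 / μ : ℚ) : ℝ) * x + ((- β / μ : ℚ) : ℝ) = (x - β) / μ := by
  have : (μ : ℝ) ≠ 0 := by exact_mod_cast hμ.ne'
  push_cast; field_simp; ring

theorem plat_one (h1 : (α : ℝ) ≤ x) (h2 : x ≤ β) : plat α β μ x = 1 := by
  have hμ' : (0 : ℝ) < μ := by exact_mod_cast hμ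
  unfold plat
  rw [arg1 hμ, arg2 hμ, S_of_one_le, S_of_nonpos, sub_zero]
  · exact div_nonpos_of_nonpos_of_nonneg (by linarith) hμ'.le
  · rw [le_div_iff₀ hμ']; linarith

theorem plat_deriv_one (h1 : (α : ℝ) ≤ x) (h2 : x ≤ β) : deriv (plat α β μ) x = 0 := by
  have hμ' : (0 : ℝ) < μ := by exact_mod_cast hμ
  rw [(plat_hasDerivAt α β μ x).deriv, arg1 hμ, arg2 hμ, sg_of_one_le, sg_of_nonpos]
  · simp
  · exact div_nonpos_of_nonpos_of_nonneg (by linarith) hμ'.le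
  · rw [le_div_iff₀ hμ']; linarith

theorem plat_zero (hαβ : α ≤ β) (h : x ≤ α - μ ∨ β + μ ≤ x) : plat α β μ x = 0 := by
  have hμ' : (0 : ℝ) < μ := by exact_mod_cast hμ
  have hαβ' : (α : ℝ) ≤ β := by exact_mod_cast hαβ
  unfold plat
  rw [arg1 hμ, arg2 hμ]
  rcases h with h | h
  · rw [S_of_nonpos, S_of_nonpos, sub_zero]
    · exact div_nonpos_of_nonpos_of_nonneg (by linarith) hμ'.le
    · exact div_nonpos_of_nonpos_of_nonneg (by linarith) hμ'.le
  · rw [S_of_one_le, S_of_one_le, sub_self]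
    · rw [le_div_iff₀ hμ']; linarith
    · rw [le_div_iff₀ hμ']; linarith

theorem plat_deriv_zero (hαβ : α ≤ β) (h : x ≤ α - μ ∨ β + μ ≤ x) :
    deriv (plat α β μ) x = 0 := by
  have hμ' : (0 : ℝ) < μ := by exact_mod_cast hμ
  have hαβ' : (α : ℝ) ≤ β := by exact_mod_cast hαβ
  rw [(plat_hasDerivAt α β μ x).deriv, arg1 hμ, arg2 hμ]
  rcases h with h | h
  · rw [sg_of_nonpos, sg_of_nonpos]
    · simp
    · exact div_nonpos_of_nonpos_of_nonneg (by linarith) hμ'.le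
    · exact div_nonpos_of_nonpos_of_nonneg (by linarith) hμ'.le
  · rw [sg_of_one_le, sg_of_one_le]
    · simp
    · rw [le_div_iff₀ hμ']; linarith
    · rw [le_div_iff₀ hμ']; linarith

end

/-- `Q y = plat y * (s y + t y^2/2)` -/
noncomputable def Qf (α β μ s t : ℚ) (y : ℝ) : ℝ :=
  (s : ℝ) * (y * plat α β μ y) + ((t / 2 : ℚ) : ℝ) * (y * (y * plat α β μ y))

theorem plat_hasDerivAt' (α β μ : ℚ) (y : ℝ) :
    HasDerivAt (plat α β μ) (deriv (plat α β μ) y) y := by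
  rw [(plat_hasDerivAt α β μ y).deriv]; exact plat_hasDerivAt α β μ y

theorem Qf_hasDerivAt (α β μ s t : ℚ) (y : ℝ) : HasDerivAt (Qf α β μ s t)
    ((s : ℝ) * (plat α β μ y + y * deriv (plat α β μ) y) + ((t / 2 : ℚ) : ℝ) *
      (y * plat α β μ y + y * (plat α β μ y + y * deriv (plat α β μ) y))) y := by
  have h1 : HasDerivAt (fun y => y * plat α β μ y)
      (1 * plat α β μ y + y * deriv (plat α β μ) y) y :=
    (hasDerivAt_id y).mul (plat_hasDerivAt' α β μ y)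
  have h2 : HasDerivAt (fun y => y * (y * plat α β μ y))
      (1 * (y * plat α β μ y) + y * (1 * plat α β μ y + y * deriv (plat α β μ) y)) y :=
    (hasDerivAt_id y).mul h1
  have h3 := (h1.const_mul (s : ℝ)).add (h2.const_mul ((t / 2 : ℚ) : ℝ))
  exact h3.congr_deriv (by ring)

theorem effFun_Qf (α β μ s t : ℚ) (hμ : 0 < μ) (hαβ : α ≤ β) : EffFun (Qf α β μ s t) := by
  have hz : ∀ x : ℝ, ((|α| + |β| + μ : ℚ) : ℝ) ≤ |x| → plat α β μ x = 0 := by
    intro x hx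
    push_cast at hx
    apply plat_zero hμ hαβ
    have h1 := neg_abs_le (α : ℝ)
    have h2 := le_abs_self (β : ℝ)
    rcases le_abs.1 hx with h | h
    · right
      linarith [abs_nonneg (α : ℝ)]
    · left
      linarith [abs_nonneg (β : ℝ)]
  have h1 : EffFun (fun y => y * plat α β μ y) :=
    effFun_mul_x (effFun_plat α β μ) _ hz
  have h2 : EffFun (fun y => y * (y * plat α β μ y)) :=
    effFun_mul_x h1 _ (fun x hx => by rw [hz x hx, mul_zero])
  exact effFun_add (effFun_const_mul h1 s) (effFun_const_mul h2 (t / 2))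

theorem Qf_zero {α β μ s t : ℚ} {y : ℝ} (hμ : 0 < μ) (hαβ : α ≤ β)
    (h : y ≤ α - μ ∨ β + μ ≤ y) : Qf α β μ s t y = 0 := by
  unfold Qf
  rw [plat_zero hμ hαβ h]; ring

theorem Qf_deriv_zero {α β μ s t : ℚ} {y : ℝ} (hμ : 0 < μ) (hαβ : α ≤ β)
    (h : y ≤ α - μ ∨ β + μ ≤ y) : deriv (Qf α β μ s t) y = 0 := by
  rw [(Qf_hasDerivAt α β μ s t y).deriv, plat_zero hμ hαβ h, plat_deriv_zero hμ hαβ h]; ring

theorem Qf_deriv_one {α β μ s t : ℚ} {y : ℝ} (hμ : 0 < μ) (h1 : (α : ℝ) ≤ y) (h2 : y ≤ β) :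
    deriv (Qf α β μ s t) y = s + t * y := by
  rw [(Qf_hasDerivAt α β μ s t y).deriv, plat_one hμ h1 h2, plat_deriv_one hμ h1 h2]
  push_cast; ring

/-- product field -/
noncomputable def prodField (g : Fin 3 → Fin 3 → ℝ → ℝ) (x : Sp) (j : Fin 3) : ℝ :=
  g j 0 (x 0) * (g j 1 (x 1) * g j 2 (x 2))

theorem hasFDerivAt_prod3 {g0 g1 g2 : ℝ → ℝ} {x : Sp} (h0 : DifferentiableAt ℝ g0 (x 0))
    (h1 : DifferentiableAt ℝ g1 (x 1)) (h2 : DifferentiableAt ℝ g2 (x 2)) :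
    DifferentiableAt ℝ (fun y : Sp => g0 (y 0) * (g1 (y 1) * g2 (y 2))) x ∧ ∀ v : Sp,
    fderiv ℝ (fun y : Sp => g0 (y 0) * (g1 (y 1) * g2 (y 2))) x v =
      deriv g0 (x 0) * v 0 * (g1 (x 1) * g2 (x 2)) +
      g0 (x 0) * (deriv g1 (x 1) * v 1 * g2 (x 2) + g1 (x 1) * (deriv g2 (x 2) * v 2)) := by
  have p (d : Fin 3) : HasFDerivAt (fun y : Sp => y d)
      (ContinuousLinearMap.proj (R := ℝ) (φ := fun _ : Fin 3 => ℝ) d) x :=
    (ContinuousLinearMap.proj (R := ℝ) (φ := fun _ : Fin 3 => ℝ) d).hasFDerivAt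
  have k0 := h0.hasDerivAt.comp_hasFDerivAt x (p 0)
  have k1 := h1.hasDerivAt.comp_hasFDerivAt x (p 1)
  have k2 := h2.hasDerivAt.comp_hasFDerivAt x (p 2)
  have k := k0.mul (k1.mul k2)
  refine ⟨k.differentiableAt, fun v => ?_⟩
  have e := k.fderiv
  have e' : fderiv ℝ (fun y : Sp => g0 (y 0) * (g1 (y 1) * g2 (y 2))) x = _ := e
  rw [e']
  simp only [add_apply, smul_apply, smul_eq_mul, Function.comp, ContinuousLinearMap.proj_apply,
    Pi.mul_apply]
  ring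

theorem dv_prodField (g : Fin 3 → Fin 3 → ℝ → ℝ) (hg : ∀ j d, ContDiff ℝ ∞ (g j d)) (x : Sp) :
    dv (prodField g) x = deriv (g 0 0) (x 0) * (g 0 1 (x 1) * g 0 2 (x 2)) +
      g 1 0 (x 0) * (deriv (g 1 1) (x 1) * g 1 2 (x 2)) +
      g 2 0 (x 0) * (g 2 1 (x 1) * deriv (g 2 2) (x 2)) := by
  have hd : ∀ j d, ∀ y, DifferentiableAt ℝ (g j d) y := fun j d y =>
    ((hg j d).differentiable (by simp)) y
  have key := fun j => hasFDerivAt_prod3 (x := x) (hd j 0 (x 0)) (hd j 1 (x 1)) (hd j 2 (x 2))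
  have h1 : HasFDerivAt (prodField g) (ContinuousLinearMap.pi fun j =>
      fderiv ℝ (fun y : Sp => g j 0 (y 0) * (g j 1 (y 1) * g j 2 (y 2))) x) x := by
    rw [hasFDerivAt_pi]
    intro j
    exact (key j).1.hasFDerivAt
  unfold dv
  rw [h1.fderiv, Fin.sum_univ_three]
  simp only [ContinuousLinearMap.coe_pi']
  rw [(key 0).2, (key 1).2, (key 2).2]
  simp

theorem contDiff_prodField (g : Fin 3 → Fin 3 → ℝ → ℝ) (hg : ∀ j d, ContDiff ℝ ∞ (g j d)) :
    ContDiff ℝ ∞ (prodField g) := by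
  rw [contDiff_pi]
  intro j
  unfold prodField
  have p (d : Fin 3) : ContDiff ℝ ∞ (fun y : Sp => y d) := contDiff_apply ℝ ℝ d
  exact ((hg j 0).comp (p 0)).mul (((hg j 1).comp (p 1)).mul ((hg j 2).comp (p 2)))

/-- good autonomous fields -/
def Good (V : Sp → Sp) : Prop := ∃ g : Fin 3 → Fin 3 → ℝ → ℝ, (∀ j d, EffFun (g j d)) ∧
  V = prodField g ∧ (∀ x, dv V x = 0) ∧ HasCompactSupport V

theorem Good.contDiff {V : Sp → Sp} (h : Good V) : ContDiff ℝ ∞ V := by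
  obtain ⟨g, hg, rfl, -, -⟩ := h
  exact contDiff_prodField g (fun j d => (hg j d).1)

theorem Good.neg {V : Sp → Sp} (h : Good V) : Good (fun y => - V y) := by
  have hcd := h.contDiff
  obtain ⟨g, hg, hV, hd, hc⟩ := h
  refine ⟨fun j d => if d = 0 then (fun x => - g j d x) else g j d, ?_, ?_, ?_, ?_⟩
  · intro j d
    dsimp only
    split_ifs
    · exact effFun_neg (hg j d)
    · exact hg j d
  · funext x j
    rw [hV]
    simp [prodField]
  · intro x
    have := hd x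
    unfold dv at *
    have e : fderiv ℝ (fun y => - V y) x = - fderiv ℝ V x := fderiv_neg
    rw [e]
    simp only [neg_apply, Pi.neg_apply, Finset.sum_neg_distrib, this, neg_zero]
  · exact hc.neg

/-! ### Localised linear fields -/

/-- factors of the local field -/
noncomputable def lf (i j : Fin 3) (lo hi : Fin 3 → ℚ) (μ s t : ℚ) (l d : Fin 3) : ℝ → ℝ :=
  if l = i then (if d = j then deriv (Qf (lo j) (hi j) μ s t) else plat (lo d) (hi d) μ)
  else if l = j then (if d = i then (fun x => - deriv (plat (lo i) (hi i) μ) x)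
    else if d = j then Qf (lo j) (hi j) μ s t else plat (lo d) (hi d) μ)
  else (fun _ => 0)

theorem effFun_lf (i j : Fin 3) (lo hi : Fin 3 → ℚ) (μ s t : ℚ) (hμ : 0 < μ)
    (hlh : ∀ d, lo d ≤ hi d) (l d : Fin 3) : EffFun (lf i j lo hi μ s t l d) := by
  unfold lf
  split_ifs
  · exact effFun_deriv (effFun_Qf _ _ _ _ _ hμ (hlh j))
  · exact effFun_plat _ _ _
  · exact effFun_neg (effFun_deriv (effFun_plat _ _ _))
  · exact effFun_Qf _ _ _ _ _ hμ (hlh j)
  · exact effFun_plat _ _ _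
  · exact effFun_zero

theorem lf_zero (i j : Fin 3) (lo hi : Fin 3 → ℚ) (μ s t : ℚ) (hμ : 0 < μ)
    (hlh : ∀ d, lo d ≤ hi d) (l d : Fin 3) (x : ℝ) (h : x ≤ lo d - μ ∨ hi d + μ ≤ x) :
    lf i j lo hi μ s t l d x = 0 := by
  unfold lf
  split_ifs with h1 h2 h3 h4 h5
  · subst h2; exact Qf_deriv_zero hμ (hlh _) h
  · exact plat_zero hμ (hlh _) h
  · subst h4
    show - deriv _ x = 0
    rw [plat_deriv_zero hμ (hlh _) h, neg_zero]
  · subst h5; exact Qf_zero hμ (hlh _) h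
  · exact plat_zero hμ (hlh _) h
  · rfl

theorem loc_off (i j : Fin 3) (lo hi : Fin 3 → ℚ) (μ s t : ℚ) (hμ : 0 < μ)
    (hlh : ∀ d, lo d ≤ hi d) (x : Sp) (d : Fin 3) (h : x d ≤ lo d - μ ∨ hi d + μ ≤ x d) :
    prodField (lf i j lo hi μ s t) x = 0 := by
  funext l
  have := lf_zero i j lo hi μ s t hμ hlh l d (x d) h
  unfold prodField
  fin_cases d <;> simp only [Fin.zero_eta, Fin.mk_one, Fin.reduceFinMk] at this <;> rw [this] <;>
    simp

theorem loc_on (i j : Fin 3) (hij : i ≠ j) (lo hi : Fin 3 → ℚ) (μ s t : ℚ) (hμ : 0 < μ)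
    (x : Sp) (h : ∀ d, (lo d : ℝ) ≤ x d ∧ x d ≤ hi d) :
    prodField (lf i j lo hi μ s t) x = Pi.single i ((s : ℝ) + t * x j) := by
  have hp : ∀ d, plat (lo d) (hi d) μ (x d) = 1 := fun d => plat_one hμ (h d).1 (h d).2
  have hpd : ∀ d, deriv (plat (lo d) (hi d) μ) (x d) = 0 := fun d =>
    plat_deriv_one hμ (h d).1 (h d).2
  have hQ : deriv (Qf (lo j) (hi j) μ s t) (x j) = s + t * x j :=
    Qf_deriv_one hμ (h j).1 (h j).2
  funext l
  unfold prodField lf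
  by_cases hl : l = i
  · subst hl
    simp only [if_true, Pi.single_eq_same]
    rw [← hQ]
    fin_cases j <;> simp [hp]
  · rw [Pi.single_eq_of_ne hl]
    simp only [if_neg hl]
    by_cases hl' : l = j
    · simp only [if_pos hl']
      fin_cases i <;> simp [hpd]
    · simp [hl']

theorem good_loc (i j : Fin 3) (hij : i ≠ j) (lo hi : Fin 3 → ℚ) (μ s t : ℚ) (hμ : 0 < μ)
    (hlh : ∀ d, lo d ≤ hi d) : Good (prodField (lf i j lo hi μ s t)) := by
  refine ⟨lf i j lo hi μ s t, effFun_lf i j lo hi μ s t hμ hlh, rfl, ?_, ?_⟩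
  · intro x
    rw [dv_prodField _ (fun l d => (effFun_lf i j lo hi μ s t hμ hlh l d).1)]
    have dn : ∀ (f : ℝ → ℝ) (y : ℝ), deriv (fun x => - f x) y = - deriv f y := fun f y =>
      deriv.fun_neg
    unfold lf
    fin_cases i <;> fin_cases j <;> simp_all
  · apply HasCompactSupport.intro
      (K := Set.pi univ (fun d => Icc ((lo d : ℝ) - μ) ((hi d : ℝ) + μ)))
      (isCompact_univ_pi fun d => isCompact_Icc)
    intro x hx
    rw [mem_univ_pi, not_forall] at hx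
    obtain ⟨d, hd⟩ := hx
    apply loc_off i j lo hi μ s t hμ hlh x d
    rw [mem_Icc, not_and_or, not_le, not_le] at hd
    rcases hd with h | h
    · left; exact h.le
    · right; exact h.le

end Crest.Agent.H23Field
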