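import Mathlib
import Crest.Agent.H23Field

/-! Moving boxes by localised fields. -/

set_option autoImplicit false
open scoped ContDiff Topology NNReal
open Set Filter

namespace Crest.Agent.H23Geo

open Crest.Agent.H23Box Crest.Agent.H23Step Crest.Agent.H23Flow Crest.Agent.H24Eff Crest.Agent.H23SEff
open Crest.Agent.H23Field
open Crest.AnalysisR.BoxFlow

/-- rational separation of two boxes -/
def Sep (c h c' h' : Fin 3 → ℚ) : Prop := ∃ d, h d + h' d < |c d - c' d|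

/-- type of boxes -/
abbrev Bx : Type := (Fin 3 → ℚ) × (Fin 3 → ℚ)

theorem exists_local (i j : Fin 3) (hij : i ≠ j) (c h : Fin 3 → ℚ) (hh : ∀ d, 0 ≤ h d) (s t : ℚ)
    (T : Set Bx) (hT : T.Finite) (hsep : ∀ b ∈ T, Sep c h b.1 b.2) :
    ∃ V : Sp → Sp, Good V ∧ (∀ x ∈ box c h, V x = Pi.single i ((s : ℝ) + t * x j)) ∧
      ∀ b ∈ T, ∀ y ∈ box b.1 b.2, V y = 0 := by
  set F : ℕ → Sp → Sp := fun N =>
    prodField (lf i j (fun d => c d - h d) (fun d => c d + h d) (1 / ((N : ℚ) + 1)) s t) with hF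
  have hμ : ∀ N : ℕ, (0:ℚ) < 1 / ((N : ℚ) + 1) := fun N => by positivity
  have hlh : ∀ d, c d - h d ≤ c d + h d := fun d => by linarith [hh d]
  have hev : ∀ b ∈ T, ∀ᶠ N in atTop, ∀ y ∈ box b.1 b.2, F N y = 0 := by
    intro b hb
    obtain ⟨d, hd⟩ := hsep b hb
    obtain ⟨N0, hN0⟩ := exists_nat_one_div_lt (K := ℚ)
      (show (0:ℚ) < |c d - b.1 d| - (h d + b.2 d) by linarith)
    filter_upwards [eventually_ge_atTop N0] with N hN y hy
    have h1 : 1 / ((N : ℚ) + 1) ≤ 1 / ((N0 : ℚ) + 1) := by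
      apply one_div_le_one_div_of_le (by positivity)
      have : (N0 : ℚ) ≤ N := by exact_mod_cast hN
      linarith
    have h2 : h d + b.2 d + 1 / ((N : ℚ) + 1) < |c d - b.1 d| := by linarith
    apply loc_off i j _ _ _ s t (hμ N) hlh y d
    have h3 := abs_le.1 (hy d)
    rcases lt_abs.1 h2 with h4 | h4
    · left
      have h5 : ((h d + b.2 d + 1 / ((N : ℚ) + 1) : ℚ) : ℝ) < ((c d - b.1 d : ℚ) : ℝ) := by
        exact_mod_cast h4
      push_cast at h5 ⊢
      linarith [h3.2]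
    · right
      have h5 : ((h d + b.2 d + 1 / ((N : ℚ) + 1) : ℚ) : ℝ) < ((-(c d - b.1 d) : ℚ) : ℝ) := by
        exact_mod_cast h4
      push_cast at h5 ⊢
      linarith [h3.1]
  have hall : ∀ᶠ N in atTop, ∀ b ∈ T, ∀ y ∈ box b.1 b.2, F N y = 0 :=
    (eventually_all_finite hT).2 hev
  obtain ⟨N, hN⟩ := hall.exists
  refine ⟨F N, good_loc i j hij _ _ _ s t (hμ N) hlh, ?_, hN⟩
  intro x hx
  apply loc_on i j hij _ _ _ s t (hμ N)
  intro d
  have := abs_le.1 (hx d)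
  push_cast
  constructor <;> linarith [this.1, this.2]

/-- translation moving the centre `c` to the centre `c'` -/
def tr (c c' : Fin 3 → ℚ) (x : Sp) : Sp := fun d => x d + ((c' d : ℝ) - (c d : ℝ))

theorem tr_tr (c c' c'' : Fin 3 → ℚ) (x : Sp) : tr c' c'' (tr c c' x) = tr c c'' x := by
  funext d; simp only [tr]; ring

theorem tr_self (c : Fin 3 → ℚ) (x : Sp) : tr c c x = x := by
  funext d; simp [tr]

theorem tr_mem (c c' h : Fin 3 → ℚ) (x : Sp) (hx : x ∈ box c h) : tr c c' x ∈ box c' h := by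
  intro d
  have := hx d
  simp only [tr]
  convert this using 2
  ring

theorem box_mono (c h h' : Fin 3 → ℚ) (hh : ∀ d, h d ≤ h' d) : box c h ⊆ box c h' := by
  intro x hx d
  exact (hx d).trans (by exact_mod_cast hh d)

/-- separation from the swept box -/
def SepSweep (c c' h : Fin 3 → ℚ) (b : Bx) : Prop :=
  Sep (fun d => (c d + c' d) / 2) (fun d => h d + |c' d - c d| / 2) b.1 b.2

theorem sweep_right {c c' h : Fin 3 → ℚ} {b : Bx} (d : Fin 3)
    (h1 : c d + h d < b.1 d - b.2 d) (h2 : c' d + h d < b.1 d - b.2 d) : SepSweep c c' h b := by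
  refine ⟨d, ?_⟩
  dsimp only
  apply lt_abs.2
  right
  rcases abs_cases (c' d - c d) with ⟨h3, _⟩ | ⟨h3, _⟩ <;> rw [h3] <;> linarith

theorem sweep_left {c c' h : Fin 3 → ℚ} {b : Bx} (d : Fin 3)
    (h1 : b.1 d + b.2 d < c d - h d) (h2 : b.1 d + b.2 d < c' d - h d) : SepSweep c c' h b := by
  refine ⟨d, ?_⟩
  dsimp only
  apply lt_abs.2
  left
  rcases abs_cases (c' d - c d) with ⟨h3, _⟩ | ⟨h3, _⟩ <;> rw [h3] <;> linarith

theorem exists_leg (i : Fin 3) (c c' h : Fin 3 → ℚ) (hc : ∀ d, d ≠ i → c' d = c d)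
    (hh : ∀ d, 0 ≤ h d) (T : Set Bx) (hT : T.Finite) (hsep : ∀ b ∈ T, SepSweep c c' h b) :
    ∃ V : Sp → Sp, Good V ∧ (∀ x ∈ box c h, Step V x (tr c c' x)) ∧
      ∀ b ∈ T, ∀ y ∈ box b.1 b.2, V y = 0 := by
  obtain ⟨j, hij⟩ : ∃ j : Fin 3, i ≠ j := by
    fin_cases i
    · exact ⟨1, by decide⟩
    · exact ⟨0, by decide⟩
    · exact ⟨0, by decide⟩
  obtain ⟨V, hV, hon, hoff⟩ := exists_local i j hij (fun d => (c d + c' d) / 2)
    (fun d => h d + |c' d - c d| / 2) (fun d => by have := hh d; positivity) (c' i - c i) 0 T hT hsep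
  refine ⟨V, hV, ?_, hoff⟩
  intro x hx r hr
  have e1 : tr c c' x - x = Pi.single i (((c' i - c i : ℚ) : ℝ)) := by
    funext d
    by_cases hd : d = i
    · subst hd; simp [tr]
    · rw [Pi.single_eq_of_ne hd]; simp [tr, hc d hd]
  rw [hon, e1]
  · simp
  · intro d
    have h1 := abs_le.1 (hx d)
    simp only [Pi.add_apply, Pi.smul_apply, Pi.sub_apply, tr, smul_eq_mul]
    push_cast
    rw [abs_le]
    have h2 : |(c' d : ℝ) - c d| * (1 - 2 * r) ≤ |(c' d : ℝ) - c d| := by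
      nlinarith [abs_nonneg ((c' d : ℝ) - c d), hr.1]
    have h2' : -|(c' d : ℝ) - c d| ≤ |(c' d : ℝ) - c d| * (1 - 2 * r) := by
      nlinarith [abs_nonneg ((c' d : ℝ) - c d), hr.2]
    rcases abs_cases ((c' d : ℝ) - c d) with ⟨h3, _⟩ | ⟨h3, _⟩ <;> rw [h3] at h2 h2' ⊢ <;>
      constructor <;> nlinarith [h1.1, h1.2]

end Crest.Agent.H23Geo
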