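import Mathlib
import Crest.Agent.H23Geo

/-! Gathering boxes at parking positions. -/

set_option autoImplicit false
open scoped ContDiff Topology NNReal
open Set Filter

namespace Crest.Agent.H23Gather

open Crest.Agent.H23Box Crest.Agent.H23Step Crest.Agent.H23Flow Crest.Agent.H24Eff Crest.Agent.H23SEff
open Crest.Agent.H23Field Crest.Agent.H23Geo
open Crest.AnalysisR.BoxFlow

/-- parking positions -/
def park (L : ℚ) (i : ℕ) : Fin 3 → ℚ := ![3 * L, i * L, 0]

/-- first stop -/
def stop1 (L : ℚ) (c : Fin 3 → ℚ) : Fin 3 → ℚ := ![L, c 1, c 2]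
/-- second stop -/
def stop2 (L : ℚ) (i : ℕ) (c : Fin 3 → ℚ) : Fin 3 → ℚ := ![L, i * L, c 2]
/-- third stop -/
def stop3 (L : ℚ) (i : ℕ) : Fin 3 → ℚ := ![L, i * L, 0]

theorem gather {n : ℕ} (c h : Fin n → Fin 3 → ℚ) (hh : ∀ i d, 0 ≤ h i d) (M Rad L : ℚ)
    (hM : ∀ i d, |c i d| + h i d ≤ M) (hRad : 0 ≤ Rad) (hR : ∀ i d, h i d ≤ Rad)
    (hL : 2 * M + 2 * Rad < L) (hL0 : 0 < L)
    (hsep : ∀ i i', i ≠ i' → Sep (c i) (h i) (c i') (h i')) (s : Finset (Fin n)) :
    ∃ Vs : List (Sp → Sp), (∀ V ∈ Vs, Good V) ∧
      (∀ i ∈ s, ∀ x ∈ box (c i) (h i), Chain Vs x (tr (c i) (park L i) x)) ∧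
      ∀ l ∉ s, ∀ y ∈ box (park L (l : Fin n)) (fun _ => Rad), Chain Vs y y := by
  induction s using Finset.induction_on_max_value (fun i => c i 0 + h i 0) with
  | empty => exact ⟨[], by simp, by simp, fun _ _ y _ => rfl⟩
  | insert a s has hmax ih =>
    obtain ⟨Vs', hG', hm', hu'⟩ := ih
    have bd : ∀ i d, c i d + h i d ≤ M ∧ -M ≤ c i d - h i d := fun i d =>
      ⟨by linarith [hM i d, le_abs_self (c i d)], by linarith [hM i d, neg_abs_le (c i d)]⟩
    -- obstacles
    set T : Set Bx := (fun i => (c i, h i)) '' (s : Set (Fin n)) ∪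
      (fun l : Fin n => ((park L l, fun _ => Rad) : Bx)) '' {l | l ≠ a} with hT
    have hTf : T.Finite := (Set.toFinite _).union (Set.toFinite _)
    have ha0 := hh a 0
    have ha1 := hh a 1
    have ha2 := hh a 2
    have b0 := bd a 0
    have b1 := bd a 1
    have b2 := bd a 2
    have r0 := hR a 0
    have r1 := hR a 1
    have r2 := hR a 2
    obtain ⟨V1, g1, s1, u1⟩ := exists_leg 0 (c a) (stop1 L (c a)) (h a)
      (by intro d hd; fin_cases d <;> simp_all [stop1]) (hh a) T hTf (by
        rintro b (⟨i, hi, rfl⟩ | ⟨l, hl, rfl⟩)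
        · have hia : a ≠ i := fun e => has (e ▸ hi)
          obtain ⟨d, hd⟩ := hsep a i hia
          by_cases hd0 : d = 0
          · subst hd0
            have hmx := hmax i hi
            have hi0 := hh i 0
            have hbi := bd i 0
            have key : c i 0 + h i 0 < c a 0 - h a 0 := by
              rcases lt_abs.1 hd with h4 | h4 <;> linarith
            apply sweep_left 0
            · exact key
            · simp only [stop1, Matrix.cons_val_zero]; linarith
          · have hs : stop1 L (c a) d = c a d := by
              fin_cases d <;> simp_all [stop1]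
            rcases lt_abs.1 hd with h4 | h4
            · apply sweep_left d
              · dsimp only; linarith
              · rw [hs]; dsimp only; linarith
            · apply sweep_right d
              · dsimp only; linarith
              · rw [hs]; dsimp only; linarith
        · apply sweep_right 0
          · simp only [park, Matrix.cons_val_zero]; linarith
          · simp only [park, stop1, Matrix.cons_val_zero]; linarith)
    obtain ⟨V2, g2, s2, u2⟩ := exists_leg 1 (stop1 L (c a)) (stop2 L a (c a)) (h a)
      (by intro d hd; fin_cases d <;> simp_all [stop1, stop2]) (hh a) T hTf (by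
        rintro b (⟨i, hi, rfl⟩ | ⟨l, hl, rfl⟩)
        · have hbi := bd i 0
          apply sweep_left 0
          · simp only [stop1, Matrix.cons_val_zero]; linarith
          · simp only [stop2, Matrix.cons_val_zero]; linarith
        · apply sweep_right 0
          · simp only [park, stop1, Matrix.cons_val_zero]; linarith
          · simp only [park, stop2, Matrix.cons_val_zero]; linarith)
    obtain ⟨V3, g3, s3, u3⟩ := exists_leg 2 (stop2 L a (c a)) (stop3 L a) (h a)
      (by intro d hd; fin_cases d <;> simp_all [stop2, stop3]) (hh a) T hTf (by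
        rintro b (⟨i, hi, rfl⟩ | ⟨l, hl, rfl⟩)
        · have hbi := bd i 0
          apply sweep_left 0
          · simp only [stop2, Matrix.cons_val_zero]; linarith
          · simp only [stop3, Matrix.cons_val_zero]; linarith
        · apply sweep_right 0
          · simp only [park, stop2, Matrix.cons_val_zero]; linarith
          · simp only [park, stop3, Matrix.cons_val_zero]; linarith)
    obtain ⟨V4, g4, s4, u4⟩ := exists_leg 0 (stop3 L a) (park L a) (h a)
      (by intro d hd; fin_cases d <;> simp_all [stop3, park]) (hh a) T hTf (by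
        rintro b (⟨i, hi, rfl⟩ | ⟨l, hl, rfl⟩)
        · have hbi := bd i 0
          apply sweep_left 0
          · simp only [stop3, Matrix.cons_val_zero]; linarith
          · simp only [park, Matrix.cons_val_zero]; linarith
        · have hl' : (l : ℕ) ≠ (a : ℕ) := fun e => hl (Fin.ext e)
          rcases lt_or_gt_of_ne hl' with h4 | h4
          · have h5 : ((l : ℕ) : ℚ) + 1 ≤ (a : ℕ) := by exact_mod_cast h4
            have h6 : (((l : ℕ) : ℚ) + 1) * L ≤ (a : ℕ) * L := by nlinarith
            apply sweep_left 1
            · simp only [stop3, park, Matrix.cons_val_one, Matrix.cons_val_zero]; linarith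
            · simp only [park, Matrix.cons_val_one, Matrix.cons_val_zero]; linarith
          · have h5 : ((a : ℕ) : ℚ) + 1 ≤ (l : ℕ) := by exact_mod_cast h4
            have h6 : (((a : ℕ) : ℚ) + 1) * L ≤ (l : ℕ) * L := by nlinarith
            apply sweep_right 1
            · simp only [stop3, park, Matrix.cons_val_one, Matrix.cons_val_zero]; linarith
            · simp only [park, Matrix.cons_val_one, Matrix.cons_val_zero]; linarith)
    have hunt : ∀ b ∈ T, ∀ y ∈ box b.1 b.2, Chain [V1, V2, V3, V4] y y := by
      intro b hb y hy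
      apply Chain.refl
      intro V hV
      simp only [List.mem_cons, List.not_mem_nil, or_false] at hV
      rcases hV with rfl | rfl | rfl | rfl
      · exact u1 b hb y hy
      · exact u2 b hb y hy
      · exact u3 b hb y hy
      · exact u4 b hb y hy
    refine ⟨[V1, V2, V3, V4] ++ Vs', ?_, ?_, ?_⟩
    · intro V hV
      rw [List.mem_append] at hV
      rcases hV with hV | hV
      · simp only [List.mem_cons, List.not_mem_nil, or_false] at hV
        rcases hV with rfl | rfl | rfl | rfl <;> assumption
      · exact hG' V hV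
    · intro i hi x hx
      rw [Finset.mem_insert] at hi
      rcases hi with rfl | hi
      · have m1 := tr_mem (c i) (stop1 L (c i)) (h i) x hx
        have m2 := tr_mem (stop1 L (c i)) (stop2 L i (c i)) (h i) _ m1
        have m3 := tr_mem (stop2 L i (c i)) (stop3 L i) (h i) _ m2
        have m4 := tr_mem (stop3 L i) (park L i) (h i) _ m3
        have c1 : Chain [V1, V2, V3, V4] x
            (tr (stop3 L i) (park L i) (tr (stop2 L i (c i)) (stop3 L i)
              (tr (stop1 L (c i)) (stop2 L i (c i)) (tr (c i) (stop1 L (c i)) x)))) :=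
          ⟨_, s1 x hx, _, s2 _ m1, _, s3 _ m2, _, s4 _ m3, rfl⟩
        rw [tr_tr, tr_tr, tr_tr] at c1 m4
        exact c1.append (hu' i has _ (box_mono _ _ _ (hR i) m4))
      · exact (hunt (c i, h i) (Or.inl ⟨i, hi, rfl⟩) x hx).append (hm' i hi x hx)
    · intro l hl y hy
      rw [Finset.mem_insert, not_or] at hl
      exact (hunt (park L l, fun _ => Rad) (Or.inr ⟨l, hl.1, rfl⟩) y hy).append (hu' l hl.2 y hy)

end Crest.Agent.H23Gather
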