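import Mathlib
import Crest.Agent.H23Geo

/-! Changing the shape of a parked box by shears. -/

set_option autoImplicit false
open scoped ContDiff Topology NNReal
open Set Filter

namespace Crest.Agent.H23Shape

open Crest.Agent.H23Box Crest.Agent.H23Step Crest.Agent.H23Flow Crest.Agent.H24Eff Crest.Agent.H23SEff
open Crest.Agent.H23Field Crest.Agent.H23Geo
open Crest.AnalysisR.BoxFlow

/-- point with the coordinates `i`, `j` relative to `P` replaced -/
noncomputable def pt (P : Fin 3 → ℚ) (x : Sp) (i j : Fin 3) (u v : ℝ) : Sp := fun d =>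
  if d = i then (P i : ℝ) + u else if d = j then (P j : ℝ) + v else x d

theorem pt_swap (P : Fin 3 → ℚ) (x : Sp) (i j : Fin 3) (hij : i ≠ j) (u v : ℝ) :
    pt P x i j u v = pt P x j i v u := by
  funext d
  unfold pt
  by_cases h1 : d = i
  · subst h1; simp [hij]
  · simp [h1]

theorem exists_shear (i j : Fin 3) (hij : i ≠ j) (P : Fin 3 → ℚ) (Rad : ℚ) (hRad : 0 ≤ Rad)
    (lam : ℚ) (T : Set Bx) (hT : T.Finite) (hsep : ∀ b ∈ T, Sep P (fun _ => Rad) b.1 b.2) :
    ∃ V : Sp → Sp, Good V ∧ (∀ (x : Sp) (u v : ℝ), (∀ d, |x d - P d| ≤ Rad) → |u| ≤ Rad →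
      |v| ≤ Rad → |u + lam * v| ≤ Rad →
        Step V (pt P x i j u v) (pt P x i j (u + lam * v) v)) ∧
      ∀ b ∈ T, ∀ y ∈ box b.1 b.2, V y = 0 := by
  obtain ⟨V, hV, hon, hoff⟩ := exists_local i j hij P (fun _ => Rad) (fun _ => hRad)
    (-(lam * P j)) lam T hT hsep
  refine ⟨V, hV, ?_, hoff⟩
  intro x u v hx hu hv huv r hr
  have e1 : pt P x i j (u + lam * v) v - pt P x i j u v = Pi.single i ((lam : ℝ) * v) := by
    funext d
    by_cases hd : d = i
    · subst hd; simp [pt]
    · rw [Pi.single_eq_of_ne hd]; simp [pt, hd]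
  rw [hon, e1]
  · congr 1
    simp only [Pi.add_apply, Pi.smul_apply, pt, hij.symm, if_false, if_true,
      Pi.single_eq_of_ne hij.symm]
    push_cast
    simp only [smul_zero, add_zero]
    ring
  · rw [e1]
    intro d
    simp only [Pi.add_apply, Pi.smul_apply, smul_eq_mul]
    by_cases hd : d = i
    · subst hd
      simp only [pt, if_true, Pi.single_eq_same]
      have h1 := abs_le.1 hu
      have h2 := abs_le.1 huv
      rw [abs_le]
      have e : (P d : ℝ) + u + r * (lam * v) - P d = (1 - r) * u + r * (u + lam * v) := by ring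
      rw [e]
      constructor <;> nlinarith [h1.1, h1.2, h2.1, h2.2, hr.1, hr.2]
    · rw [Pi.single_eq_of_ne hd]
      simp only [pt, if_neg hd, mul_zero, add_zero]
      split_ifs with h3
      · subst h3; simpa using hv
      · exact hx d

theorem exists_diag2 (i j : Fin 3) (hij : i ≠ j) (l H Rad : ℚ) (hl : 0 < l) (hH : 0 ≤ H)
    (hR : (2 + l + 1 / l) * H ≤ Rad) (P : Fin 3 → ℚ)
    (T : Set Bx) (hT : T.Finite) (hsep : ∀ b ∈ T, Sep P (fun _ => Rad) b.1 b.2) :
    ∃ Vs : List (Sp → Sp), (∀ V ∈ Vs, Good V) ∧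
      (∀ x ∈ box P (fun _ => H), Chain Vs x
        (pt P x i j ((l : ℝ) * (x i - P i)) (1 / (l : ℝ) * (x j - P j)))) ∧
      ∀ V ∈ Vs, ∀ b ∈ T, ∀ y ∈ box b.1 b.2, V y = 0 := by
  have hil : 0 < 1 / l := by positivity
  have hRad : 0 ≤ Rad := le_trans (by positivity) hR
  obtain ⟨V1, g1, s1, u1⟩ := exists_shear j i hij.symm P Rad hRad (-l) T hT hsep
  obtain ⟨V2, g2, s2, u2⟩ := exists_shear i j hij P Rad hRad (1 / l - 1) T hT hsep
  obtain ⟨V3, g3, s3, u3⟩ := exists_shear j i hij.symm P Rad hRad 1 T hT hsep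
  obtain ⟨V4, g4, s4, u4⟩ := exists_shear i j hij P Rad hRad (l - 1) T hT hsep
  refine ⟨[V1, V2, V3, V4], ?_, ?_, ?_⟩
  · intro V hV
    simp only [List.mem_cons, List.not_mem_nil, or_false] at hV
    rcases hV with rfl | rfl | rfl | rfl <;> assumption
  · intro x hx
    have hlR : (0 : ℝ) < l := by exact_mod_cast hl
    have hHR : (0 : ℝ) ≤ H := by exact_mod_cast hH
    have hRR : (2 + (l : ℝ) + 1 / l) * H ≤ Rad := by exact_mod_cast hR
    have him : (0:ℝ) < 1 / l := by positivity
    have hlm : (l : ℝ) * (1 / l) = 1 := by field_simp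
    set m : ℝ := 1 / l with hm
    have hxR : ∀ d, |x d - P d| ≤ Rad := by
      intro d
      refine (hx d).trans ?_
      have h1 : 0 ≤ (l : ℝ) * H := by positivity
      have h2 : 0 ≤ m * H := by positivity
      linarith
    set u : ℝ := x i - P i with hu
    set v : ℝ := x j - P j with hv
    have hu' := abs_le.1 (hx i)
    have hv' := abs_le.1 (hx j)
    rw [← hu] at hu'
    rw [← hv] at hv'
    have a1 : l * u ≤ l * H := by nlinarith [hu'.2]
    have a2 : -(l * H) ≤ l * u := by nlinarith [hu'.1]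
    have a3 : m * v ≤ m * H := by nlinarith [hv'.2]
    have a4 : -(m * H) ≤ m * v := by nlinarith [hv'.1]
    have a5 : 0 ≤ (l : ℝ) * H := by positivity
    have a6 : 0 ≤ m * H := by positivity
    -- intermediate values
    have c1 := s1 x v u hxR (hxR j) (hxR i)
      (by rw [abs_le]; push_cast; constructor <;> linarith [hv'.1, hv'.2])
    have c2 := s2 x u (v + ((-l : ℚ) : ℝ) * u) hxR (hxR i)
      (by rw [abs_le]; push_cast; constructor <;> linarith [hv'.1, hv'.2])
      (by
        rw [abs_le]; push_cast; rw [← hm]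
        have e : u + (m - 1) * (v + -l * u) = l * u + m * v - v + (u - (l * m) * u) := by ring
        rw [e, hlm]
        constructor <;> linarith [hv'.1, hv'.2])
    set u2' : ℝ := u + ((1 / l - 1 : ℚ) : ℝ) * (v + ((-l : ℚ) : ℝ) * u) with hu2
    have eu2 : u2' = l * u + m * v - v := by
      rw [hu2]; push_cast; rw [← hm]
      have e : u + (m - 1) * (v + -l * u) = l * u + m * v - v + (u - (l * m) * u) := by ring
      rw [e, hlm]; ring
    have c3 := s3 x (v + ((-l : ℚ) : ℝ) * u) u2' hxR
      (by rw [abs_le]; push_cast; constructor <;> linarith [hv'.1, hv'.2])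
      (by rw [eu2, abs_le]; constructor <;> linarith [hv'.1, hv'.2])
      (by rw [eu2, abs_le]; push_cast; constructor <;> linarith [hv'.1, hv'.2])
    set v3 : ℝ := v + ((-l : ℚ) : ℝ) * u + ((1 : ℚ) : ℝ) * u2' with hv3
    have ev3 : v3 = m * v := by rw [hv3, eu2]; push_cast; ring
    have c4 := s4 x u2' v3 hxR
      (by rw [eu2, abs_le]; constructor <;> linarith [hv'.1, hv'.2])
      (by rw [ev3, abs_le]; constructor <;> linarith [hv'.1, hv'.2])
      (by
        rw [eu2, ev3, abs_le]; push_cast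
        have e : l * u + m * v - v + ((l:ℝ) - 1) * (m * v) = l * u + ((l * m) * v - v) := by ring
        rw [e, hlm]
        constructor <;> linarith [hv'.1, hv'.2])
    have ex : x = pt P x j i v u := by
      funext d
      unfold pt
      split_ifs with h1 h2
      · subst h1; rw [hv]; ring
      · subst h2; rw [hu]; ring
      · rfl
    have efin : pt P x i j (l * u) (m * v) =
        pt P x i j (u2' + ((l - 1 : ℚ) : ℝ) * v3) v3 := by
      have e : u2' + ((l - 1 : ℚ) : ℝ) * v3 = l * u := by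
        rw [eu2, ev3]; push_cast
        have e : l * u + m * v - v + ((l:ℝ) - 1) * (m * v) = l * u + ((l * m) * v - v) := by ring
        rw [e, hlm]; ring
      rw [e, ev3]
    rw [efin]
    refine ⟨_, ?_, _, c2, _, ?_, _, c4, rfl⟩
    · rw [pt_swap P x i j hij]
      nth_rewrite 1 [ex]
      exact c1
    · rw [pt_swap P x i j hij, pt_swap P x i j hij]
      exact c3
  · intro V hV b hb y hy
    simp only [List.mem_cons, List.not_mem_nil, or_false] at hV
    rcases hV with rfl | rfl | rfl | rfl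
    · exact u1 b hb y hy
    · exact u2 b hb y hy
    · exact u3 b hb y hy
    · exact u4 b hb y hy

theorem exists_shape (h l : Fin 3 → ℚ) (hh : ∀ d, 0 ≤ h d) (hl : ∀ d, 0 < l d)
    (hprod : l 0 * l 1 * l 2 = 1) :
    ∃ R0 : ℚ, 0 ≤ R0 ∧ (∀ d, h d ≤ R0) ∧ (∀ d, l d * h d ≤ R0) ∧ ∀ Rad : ℚ, R0 ≤ Rad →
      ∀ (P : Fin 3 → ℚ) (T : Set Bx), T.Finite → (∀ b ∈ T, Sep P (fun _ => Rad) b.1 b.2) →
      ∃ Vs : List (Sp → Sp), (∀ V ∈ Vs, Good V) ∧
        (∀ x ∈ box P h, Chain Vs x (fun d => (P d : ℝ) + l d * (x d - P d))) ∧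
        ∀ V ∈ Vs, ∀ b ∈ T, ∀ y ∈ box b.1 b.2, V y = 0 := by
  have h0 := hh 0
  have h1 := hh 1
  have h2 := hh 2
  have l0 := hl 0
  have l1 := hl 1
  have l2 := hl 2
  set H : ℚ := h 0 + h 1 + h 2 with hH
  have hH0 : 0 ≤ H := by positivity
  set m : ℚ := l 0 * l 1 with hm
  have hm0 : 0 < m := by positivity
  set H2 : ℚ := (2 + m + 1 / m) * H with hH2
  have hi0 : 0 < 1 / l 0 := by positivity
  have him : 0 < 1 / m := by positivity
  have hmH : 0 ≤ m * H := by positivity
  have himH : 0 ≤ (1 / m) * H := by positivity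
  have hHH2 : H ≤ H2 := by rw [hH2]; linarith
  have hH20 : 0 ≤ H2 := le_trans hH0 hHH2
  have hl0H : 0 ≤ l 0 * H2 := by positivity
  have hil0H : 0 ≤ (1 / l 0) * H2 := by positivity
  have hH2R : H2 ≤ (2 + l 0 + 1 / l 0) * H2 := by linarith
  have hd : ∀ d, h d ≤ H := by
    intro d; fin_cases d <;> simp only [Fin.zero_eta, Fin.mk_one, Fin.reduceFinMk] <;> linarith
  have e1 : l 1 = 1 / l 0 * m := by rw [hm]; field_simp
  have e2 : l 2 = 1 / m := by
    rw [eq_div_iff hm0.ne']; linarith
  refine ⟨(2 + l 0 + 1 / l 0) * H2, by positivity, fun d => ((hd d).trans hHH2).trans hH2R, ?_, ?_⟩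
  · intro d
    have hm' : m * H ≤ H2 := by rw [hH2]; linarith
    have him' : (1 / m) * H ≤ H2 := by rw [hH2]; linarith
    fin_cases d <;> simp only [Fin.zero_eta, Fin.mk_one, Fin.reduceFinMk]
    · have : l 0 * h 0 ≤ l 0 * H2 := mul_le_mul_of_nonneg_left ((hd 0).trans hHH2) l0.le
      linarith
    · have : l 1 * h 1 ≤ (1 / l 0) * H2 := by
        rw [e1, mul_assoc]
        apply mul_le_mul_of_nonneg_left _ hi0.le
        exact (mul_le_mul_of_nonneg_left (hd 1) hm0.le).trans hm'
      linarith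
    · have : l 2 * h 2 ≤ H2 := by
        rw [e2]
        exact (mul_le_mul_of_nonneg_left (hd 2) him.le).trans him'
      linarith
  · intro Rad hRad P T hT hsep
    obtain ⟨Vs, gV, cV, uV⟩ := exists_diag2 1 2 (by decide) m H Rad hm0 hH0
      ((le_refl _).trans (hH2R.trans hRad)) P T hT hsep
    obtain ⟨Ws, gW, cW, uW⟩ := exists_diag2 0 1 (by decide) (l 0) H2 Rad l0 hH20 hRad P T hT hsep
    refine ⟨Vs ++ Ws, ?_, ?_, ?_⟩
    · intro V hV
      rcases List.mem_append.1 hV with hV | hV
      · exact gV V hV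
      · exact gW V hV
    · intro x hx
      have hxH : x ∈ box P (fun _ => H) := box_mono _ _ _ hd hx
      have k1 := cV x hxH
      set x' := pt P x 1 2 ((m : ℝ) * (x 1 - P 1)) (1 / (m : ℝ) * (x 2 - P 2)) with hx'
      have hmR : (0 : ℝ) < m := by exact_mod_cast hm0
      have hHR : (0 : ℝ) ≤ H := by exact_mod_cast hH0
      have hH2R' : (H2 : ℝ) = (2 + m + 1 / m) * H := by rw [hH2]; push_cast; ring
      have p1 : 0 ≤ (m : ℝ) * H := by positivity
      have p2 : 0 ≤ (1 / (m : ℝ)) * H := by positivity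
      have hx'm : x' ∈ box P (fun _ => H2) := by
        intro d
        have e := hxH d
        fin_cases d
        · have : x' 0 = x 0 := by simp [hx', pt]
          simp only [Fin.zero_eta] at e ⊢
          rw [this, hH2R']
          linarith
        · have : x' 1 = P 1 + (m : ℝ) * (x 1 - P 1) := by simp [hx', pt]
          simp only [Fin.mk_one] at e ⊢
          rw [this, add_sub_cancel_left, abs_mul, abs_of_pos hmR, hH2R']
          have := mul_le_mul_of_nonneg_left e hmR.le
          linarith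
        · have : x' 2 = P 2 + 1 / (m : ℝ) * (x 2 - P 2) := by simp [hx', pt]
          simp only [Fin.reduceFinMk] at e ⊢
          have hp : (0:ℝ) < 1 / m := by positivity
          rw [this, add_sub_cancel_left, abs_mul, abs_of_pos hp, hH2R']
          have := mul_le_mul_of_nonneg_left e hp.le
          linarith
      have k2 := cW x' hx'm
      have k3 := k1.append k2
      have efin : pt P x' 0 1 ((l 0 : ℝ) * (x' 0 - P 0)) (1 / (l 0 : ℝ) * (x' 1 - P 1)) =
          fun d => (P d : ℝ) + l d * (x d - P d) := by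
        have hl0R : (l 0 : ℝ) ≠ 0 := by exact_mod_cast l0.ne'
        funext d
        fin_cases d
        · simp [pt, hx']
        · have : (l 1 : ℝ) = 1 / l 0 * m := by rw [e1]; push_cast; ring
          simp [pt, hx', this]
          ring
        · have : (l 2 : ℝ) = 1 / m := by rw [e2]; push_cast; ring
          simp [pt, hx', this]
      rw [efin] at k3
      exact k3
    · intro V hV
      rcases List.mem_append.1 hV with hV | hV
      · exact uV V hV
      · exact uW V hV

end Crest.Agent.H23Shape
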