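import Mathlib
import Crest.Agent.H23Gather
import Crest.Agent.H23Shape

/-! The full list of fields carrying source boxes to target boxes. -/

set_option autoImplicit false
open scoped ContDiff Topology NNReal
open Set Filter

namespace Crest.Agent.H23Chain

open Crest.Agent.H23Box Crest.Agent.H23Step Crest.Agent.H23Flow Crest.Agent.H24Eff Crest.Agent.H23SEff
open Crest.Agent.H23Field Crest.Agent.H23Geo Crest.Agent.H23Gather Crest.Agent.H23Shape
open Crest.AnalysisR.BoxFlow

theorem park_sep (L Rad : ℚ) (hL : 2 * Rad < L) (hRad : 0 ≤ Rad) (i j : ℕ) (hij : i ≠ j) :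
    Sep (park L i) (fun _ => Rad) (park L j) (fun _ => Rad) := by
  refine ⟨1, ?_⟩
  simp only [park, Matrix.cons_val_one, Matrix.cons_val_zero]
  have hL0 : 0 < L := by linarith
  rcases lt_or_gt_of_ne hij with h | h
  · have h5 : ((i : ℕ) : ℚ) + 1 ≤ (j : ℕ) := by exact_mod_cast h
    apply lt_abs.2
    right
    nlinarith
  · have h5 : ((j : ℕ) : ℚ) + 1 ≤ (i : ℕ) := by exact_mod_cast h
    apply lt_abs.2
    left
    nlinarith

theorem shape_all {n : ℕ} (h l : Fin n → Fin 3 → ℚ) (hh : ∀ i d, 0 ≤ h i d)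
    (hl : ∀ i d, 0 < l i d) (hprod : ∀ i, l i 0 * l i 1 * l i 2 = 1) :
    ∃ R0 : ℚ, 0 ≤ R0 ∧ (∀ i d, h i d ≤ R0) ∧ (∀ i d, l i d * h i d ≤ R0) ∧ ∀ Rad : ℚ, R0 ≤ Rad →
      ∀ L : ℚ, 2 * Rad < L → ∀ s : Finset (Fin n),
      ∃ Vs : List (Sp → Sp), (∀ V ∈ Vs, Good V) ∧
        (∀ i ∈ s, ∀ x ∈ box (park L i) (h i),
          Chain Vs x (fun d => (park L i d : ℝ) + l i d * (x d - park L i d))) ∧
        ∀ i ∉ s, ∀ y ∈ box (park L (i : Fin n)) (fun _ => Rad), Chain Vs y y := by
  choose R hR0 hRh hRl hR using fun i => exists_shape (h i) (l i) (hh i) (hl i) (hprod i)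
  obtain ⟨R0, hR0'⟩ : ∃ R0 : ℚ, ∀ i, R i ≤ R0 := by
    obtain ⟨B, hB⟩ := (Set.finite_range R).bddAbove
    exact ⟨B, fun i => hB ⟨i, rfl⟩⟩
  refine ⟨max R0 0, le_max_right _ _, fun i d => (hRh i d).trans ((hR0' i).trans (le_max_left _ _)),
    fun i d => (hRl i d).trans ((hR0' i).trans (le_max_left _ _)), ?_⟩
  intro Rad hRad L hL s
  have hRad0 : 0 ≤ Rad := (le_max_right _ _).trans hRad
  have hRi : ∀ i, R i ≤ Rad := fun i => ((hR0' i).trans (le_max_left _ _)).trans hRad
  induction s using Finset.induction_on with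
  | empty => exact ⟨[], by simp, by simp, fun _ _ y _ => rfl⟩
  | insert a s has ih =>
    obtain ⟨Vs', hG', hm', hu'⟩ := ih
    set T : Set Bx := (fun i : Fin n => ((park L i, fun _ => Rad) : Bx)) '' {i | i ≠ a} with hT
    obtain ⟨Vs, hG, hm, hu⟩ := hR a Rad (hRi a) (park L a) T (Set.toFinite _) (by
      rintro b ⟨i, hi, rfl⟩
      exact park_sep L Rad hL hRad0 a i (fun e => hi (Fin.ext e.symm)))
    have hunt : ∀ i, i ≠ a → ∀ y ∈ box (park L i) (fun _ => Rad), Chain Vs y y := by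
      intro i hi y hy
      apply Chain.refl
      intro V hV
      exact hu V hV _ ⟨i, hi, rfl⟩ y hy
    refine ⟨Vs ++ Vs', ?_, ?_, ?_⟩
    · intro V hV
      rcases List.mem_append.1 hV with hV | hV
      · exact hG V hV
      · exact hG' V hV
    · intro i hi x hx
      rw [Finset.mem_insert] at hi
      rcases hi with rfl | hi
      · refine (hm x hx).append (hu' i has _ ?_)
        intro d
        have hlR : (0 : ℝ) < l i d := by exact_mod_cast hl i d
        have h1 := mul_le_mul_of_nonneg_left (hx d) hlR.le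
        have h2 : ((l i d * h i d : ℚ) : ℝ) ≤ (Rad : ℝ) := by
          exact_mod_cast (hRl i d).trans (hRi i)
        push_cast at h2
        dsimp only
        rw [add_sub_cancel_left, abs_mul, abs_of_pos hlR]
        linarith
      · have hia : i ≠ a := fun e => has (e ▸ hi)
        exact (hunt i hia x (box_mono _ _ _ (fun d => (hRh i d).trans (hRi i)) hx)).append
          (hm' i hi x hx)
    · intro i hi y hy
      rw [Finset.mem_insert, not_or] at hi
      exact (hunt i hi.1 y hy).append (hu' i hi.2 y hy)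

theorem exists_fields {n : ℕ} (a b h k : Fin n → Fin 3 → ℚ) (hh : ∀ i j, 0 < h i j)
    (hk : ∀ i j, 0 < k i j)
    (ha : ∀ i i', i ≠ i' → Sep (a i) (h i) (a i') (h i'))
    (hb : ∀ i i', i ≠ i' → Sep (b i) (k i) (b i') (k i'))
    (hvol : ∀ i, k i 0 / h i 0 * (k i 1 / h i 1) * (k i 2 / h i 2) = 1) :
    ∃ Vs : List (Sp → Sp), (∀ V ∈ Vs, Good V) ∧ ∀ i, ∀ x ∈ box (a i) (h i),
      Chain Vs x (fun j => (b i j : ℝ) + ((k i j / h i j : ℚ) : ℝ) * (x j - (a i j : ℝ))) := by
  obtain ⟨R0, hR00, hRh, hRk, hshape⟩ := shape_all h (fun i j => k i j / h i j)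
    (fun i d => (hh i d).le) (fun i d => div_pos (hk i d) (hh i d)) hvol
  have hRk' : ∀ i d, k i d ≤ R0 := by
    intro i d
    have := hRk i d
    rwa [div_mul_cancel₀ _ (hh i d).ne'] at this
  obtain ⟨M, hMa, hMb⟩ : ∃ M : ℚ, (∀ i d, |a i d| + h i d ≤ M) ∧ (∀ i d, |b i d| + k i d ≤ M) := by
    obtain ⟨B1, hB1⟩ := (Set.finite_range (fun p : Fin n × Fin 3 => |a p.1 p.2| + h p.1 p.2)).bddAbove
    obtain ⟨B2, hB2⟩ := (Set.finite_range (fun p : Fin n × Fin 3 => |b p.1 p.2| + k p.1 p.2)).bddAbove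
    exact ⟨max B1 B2, fun i d => (hB1 ⟨(i, d), rfl⟩).trans (le_max_left _ _),
      fun i d => (hB2 ⟨(i, d), rfl⟩).trans (le_max_right _ _)⟩
  set L : ℚ := 2 * |M| + 2 * R0 + 1 with hL
  have hL1 : 2 * M + 2 * R0 < L := by linarith [le_abs_self M]
  have hL2 : 2 * R0 < L := by linarith [abs_nonneg M]
  have hL0 : 0 < L := by linarith
  obtain ⟨V1, g1, m1, -⟩ := gather a h (fun i d => (hh i d).le) M R0 L hMa hR00 hRh hL1 hL0 ha
    Finset.univ
  obtain ⟨V2, g2, m2, -⟩ := hshape R0 le_rfl L hL2 Finset.univ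
  obtain ⟨V3, g3, m3, -⟩ := gather b k (fun i d => (hk i d).le) M R0 L hMb hR00 hRk' hL1 hL0 hb
    Finset.univ
  refine ⟨V1 ++ V2 ++ rev V3, ?_, ?_⟩
  · intro V hV
    rw [List.mem_append, List.mem_append] at hV
    rcases hV with (hV | hV) | hV
    · exact g1 V hV
    · exact g2 V hV
    · unfold rev at hV
      rw [List.mem_reverse, List.mem_map] at hV
      obtain ⟨W, hW, rfl⟩ := hV
      exact (g3 W hW).neg
  · intro i x hx
    have c1 := m1 i (Finset.mem_univ _) x hx
    have c2 := m2 i (Finset.mem_univ _) _ (tr_mem _ _ _ _ hx)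
    set y : Sp := fun j => (b i j : ℝ) + ((k i j / h i j : ℚ) : ℝ) * (x j - (a i j : ℝ)) with hy
    have hyb : y ∈ box (b i) (k i) := by
      intro d
      have h1 : (0:ℝ) < ((k i d / h i d : ℚ) : ℝ) := by
        exact_mod_cast div_pos (hk i d) (hh i d)
      have h2 := mul_le_mul_of_nonneg_left (hx d) h1.le
      have h3 : ((k i d / h i d : ℚ) : ℝ) * (h i d : ℝ) = k i d := by
        rw [← Rat.cast_mul, div_mul_cancel₀ _ (hh i d).ne']
      rw [h3] at h2
      simp only [hy]
      rw [add_sub_cancel_left, abs_mul, abs_of_pos h1]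
      exact h2
    have c3 := (m3 i (Finset.mem_univ _) y hyb).rev
    have e : tr (b i) (park L i) y =
        fun d => (park L i d : ℝ) + ((k i d / h i d : ℚ) : ℝ) *
          (tr (a i) (park L i) x d - park L i d) := by
      funext d
      simp only [tr, hy]
      ring
    rw [e] at c3
    exact (c1.append c2).append c3

/-- disjoint closed boxes are strictly separated in some coordinate -/
theorem sep_of_disjoint (c h c' h' : Fin 3 → ℚ) (hh : ∀ d, 0 < h d) (hh' : ∀ d, 0 < h' d)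
    (hd : Disjoint (box c h) (box c' h')) : Sep c h c' h' := by
  by_contra hs
  unfold H23Geo.Sep at hs
  push Not at hs
  -- the point dividing the segment between the centres
  have hd' : ∀ x : Sp, x ∈ box c h → x ∈ box c' h' → False := fun x hx hx' =>
    Set.disjoint_left.1 hd hx hx'
  apply hd' (fun d => (((h' d * c d + h d * c' d) / (h d + h' d) : ℚ) : ℝ))
  · intro d
    have h1 : 0 < h d + h' d := add_pos (hh d) (hh' d)
    have e : (h' d * c d + h d * c' d) / (h d + h' d) - c d =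
        h d * ((c' d - c d) / (h d + h' d)) := by
      field_simp; ring
    have h2 : |(c' d - c d) / (h d + h' d)| ≤ 1 := by
      rw [abs_div, abs_of_pos h1, div_le_one h1, abs_sub_comm]
      exact hs d
    have h3 : |(h' d * c d + h d * c' d) / (h d + h' d) - c d| ≤ h d := by
      rw [e, abs_mul, abs_of_pos (hh d)]
      have := mul_le_mul_of_nonneg_left h2 (hh d).le
      linarith
    dsimp only
    exact_mod_cast h3
  · intro d
    have h1 : 0 < h d + h' d := add_pos (hh d) (hh' d)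
    have e : (h' d * c d + h d * c' d) / (h d + h' d) - c' d =
        h' d * ((c d - c' d) / (h d + h' d)) := by
      field_simp; ring
    have h2 : |(c d - c' d) / (h d + h' d)| ≤ 1 := by
      rw [abs_div, abs_of_pos h1, div_le_one h1]
      exact hs d
    have h3 : |(h' d * c d + h d * c' d) / (h d + h' d) - c' d| ≤ h' d := by
      rw [e, abs_mul, abs_of_pos (hh' d)]
      have := mul_le_mul_of_nonneg_left h2 (hh' d).le
      linarith
    dsimp only
    exact_mod_cast h3

theorem sep_eventually (c h c' h' : Fin 3 → ℚ) (hs : Sep c h c' h') :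
    ∀ᶠ N : ℕ in atTop, Sep c (fun d => (1 + 1 / ((N : ℚ) + 1)) * h d) c'
      (fun d => (1 + 1 / ((N : ℚ) + 1)) * h' d) := by
  obtain ⟨d, hd⟩ := hs
  have h0 : 0 < |c d - c' d| - (h d + h' d) := by linarith
  set K : ℚ := |h d + h' d| + 1 with hK
  have hK0 : 0 < K := by positivity
  obtain ⟨N0, hN0⟩ := exists_nat_one_div_lt (K := ℚ) (div_pos h0 hK0)
  filter_upwards [eventually_ge_atTop N0] with N hN
  refine ⟨d, ?_⟩
  have h1 : 1 / ((N : ℚ) + 1) ≤ 1 / ((N0 : ℚ) + 1) := by
    apply one_div_le_one_div_of_le (by positivity)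
    have : (N0 : ℚ) ≤ N := by exact_mod_cast hN
    linarith
  have h2 : 1 / ((N : ℚ) + 1) < (|c d - c' d| - (h d + h' d)) / K := lt_of_le_of_lt h1 hN0
  rw [lt_div_iff₀ hK0] at h2
  have h3 : 0 < 1 / ((N : ℚ) + 1) := by positivity
  have h4 : 1 / ((N : ℚ) + 1) * (h d + h' d) ≤ 1 / ((N : ℚ) + 1) * K := by
    apply mul_le_mul_of_nonneg_left _ h3.le
    rw [hK]; linarith [le_abs_self (h d + h' d)]
  linarith

end Crest.Agent.H23Chain
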