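import Mathlib
import Crest.Agent.H24Eff

/-! Effectivity of finite sums of tensor products of effectively smooth functions. -/

set_option autoImplicit false
open scoped ContDiff
open Crest.AnalysisR.BoxFlow

namespace Crest.Agent.H24Eff

open H24RatComp H24CompReal Crest.Agent.H23Box

/-- coordinate functionals on space-time -/
noncomputable def crdL (d : Fin 4) : (ℝ × (Fin 3 → ℝ)) →L[ℝ] ℝ :=
  Fin.cases (ContinuousLinearMap.fst ℝ ℝ (Fin 3 → ℝ))
    (fun i => (ContinuousLinearMap.proj i).comp (ContinuousLinearMap.snd ℝ ℝ (Fin 3 → ℝ))) d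

theorem tensor4_eq (g : Fin 4 → ℝ → ℝ) (p : ℝ × (Fin 3 → ℝ)) :
    tensor4 g p = ∏ d, g d (crdL d p) := by
  rw [Fin.prod_univ_four, mul_assoc, mul_assoc]
  rfl

theorem crdL_direction (d e : Fin 4) : crdL d (direction e) = if d = e then 1 else 0 := by
  refine Fin.cases ?_ (fun i => ?_) d
  · refine Fin.cases ?_ (fun k => ?_) e
    · simp [crdL, direction]
    · have h : (k.succ : Fin 4) ≠ 0 := Fin.succ_ne_zero k
      simp [crdL, direction, h, h.symm]
  · refine Fin.cases ?_ (fun k => ?_) e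
    · have h : (i.succ : Fin 4) ≠ 0 := Fin.succ_ne_zero i
      simp [crdL, direction, h]
    · have h : (k.succ : Fin 4) ≠ 0 := Fin.succ_ne_zero k
      simp [crdL, direction, h, Pi.single_apply]

/-- the derivative of a product function -/
noncomputable def T (g : Fin 4 → ℝ → ℝ) (p : ℝ × (Fin 3 → ℝ)) : (ℝ × (Fin 3 → ℝ)) →L[ℝ] ℝ :=
  ∑ d ∈ Finset.univ, (∏ e ∈ Finset.univ.erase d, g e (crdL e p)) • (deriv (g d) (crdL d p) • crdL d)

theorem hasFDerivAt_tensor4 (g : Fin 4 → ℝ → ℝ) (hg : ∀ d, Differentiable ℝ (g d))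
    (p : ℝ × (Fin 3 → ℝ)) : HasFDerivAt (tensor4 g) (T g p) p := by
  have h1 : tensor4 g = fun p => ∏ d, g d (crdL d p) := funext (tensor4_eq g)
  rw [h1]
  refine HasFDerivAt.finsetProd fun d _ => ?_
  have h2 := ((hg d (crdL d p)).hasDerivAt).comp_hasFDerivAt p (crdL d).hasFDerivAt
  exact h2

theorem T_direction (g : Fin 4 → ℝ → ℝ) (p : ℝ × (Fin 3 → ℝ)) (e : Fin 4) :
    T g p (direction e) = tensor4 (Function.update g e (deriv (g e))) p := by
  unfold T
  rw [sum_apply, Finset.sum_eq_single e]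
  · rw [smul_apply, smul_apply, crdL_direction, if_pos rfl, tensor4_eq,
      ← Finset.mul_prod_erase _ _ (Finset.mem_univ e), Function.update_self]
    simp only [smul_eq_mul, mul_one]
    rw [mul_comm]
    congr 1
    refine Finset.prod_congr rfl fun d hd => ?_
    rw [Function.update_of_ne (Finset.ne_of_mem_erase hd)]
  · intro d _ hd
    rw [smul_apply, smul_apply, crdL_direction, if_neg hd]
    simp
  · intro h; exact absurd (Finset.mem_univ e) h

theorem hasFDerivAt_sum (L : List (Fin 3 → Fin 4 → ℝ → ℝ)) (j : Fin 3)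
    (h : ∀ g ∈ L, ∀ d, Differentiable ℝ (g j d)) (p : ℝ × (Fin 3 → ℝ)) :
    HasFDerivAt (fun p => (L.map (fun g => tensor4 (g j) p)).sum)
      ((L.map (fun g => T (g j) p)).sum) p := by
  induction L with
  | nil => simpa using hasFDerivAt_const (0:ℝ) p
  | cons g L ih =>
    have h1 := hasFDerivAt_tensor4 (g j) (h g List.mem_cons_self) p
    have h2 := ih fun g' hg' => h g' (List.mem_cons_of_mem _ hg')
    have h3 := h1.add h2
    have e1 : (fun p => (((g :: L).map (fun g => tensor4 (g j) p)).sum)) =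
        fun p => tensor4 (g j) p + (L.map (fun g => tensor4 (g j) p)).sum := by
      funext p
      rw [List.map_cons, List.sum_cons]
    rw [e1, List.map_cons, List.sum_cons]
    exact h3

theorem sum_apply_list (L : List ((ℝ × (Fin 3 → ℝ)) →L[ℝ] ℝ)) (v : ℝ × (Fin 3 → ℝ)) :
    L.sum v = (L.map (fun A => A v)).sum := by
  induction L with
  | nil => simp
  | cons A L ih => simp [ih]

theorem fderiv_tensorField (L : List (Fin 3 → Fin 4 → ℝ → ℝ))
    (h : ∀ g ∈ L, ∀ j d, Differentiable ℝ (g j d)) (p : ℝ × (Fin 3 → ℝ)) (e : Fin 4) :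
    fderiv ℝ (tensorField L) p (direction e) =
      tensorField (L.map (fun g j => Function.update (g j) e (deriv (g j e)))) p := by
  have h1 : HasFDerivAt (tensorField L)
      (ContinuousLinearMap.pi fun j => (L.map (fun g => T (g j) p)).sum) p := by
    refine hasFDerivAt_pi.mpr fun j => ?_
    exact hasFDerivAt_sum L j (fun g hg d => h g hg j d) p
  rw [h1.fderiv]
  funext j
  rw [ContinuousLinearMap.pi_apply, sum_apply_list, List.map_map]
  unfold tensorField
  rw [List.map_map]
  congr 1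
  refine List.map_congr_left fun g _ => ?_
  simp only [Function.comp_apply]
  exact T_direction (g j) p e

/-- differentiated factors -/
noncomputable def dfac (ds : List (Fin 4)) (g : Fin 3 → Fin 4 → ℝ → ℝ) : Fin 3 → Fin 4 → ℝ → ℝ :=
  fun j d => iteratedDeriv (ds.count d) (g j d)

theorem mixedDeriv_tensorField (L : List (Fin 3 → Fin 4 → ℝ → ℝ))
    (h : ∀ g ∈ L, ∀ j d, ContDiff ℝ ∞ (g j d)) (ds : List (Fin 4)) :
    mixedDeriv ds (tensorField L) = tensorField (L.map (dfac ds)) := by
  induction ds with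
  | nil =>
    have h1 : L.map (dfac []) = L := by
      conv_rhs => rw [← List.map_id L]
      refine List.map_congr_left fun g _ => ?_
      funext j d
      simp [dfac]
    rw [h1]
    rfl
  | cons e ds ih =>
    funext p
    show fderiv ℝ (mixedDeriv ds (tensorField L)) p (direction e) = _
    rw [ih, fderiv_tensorField]
    · rw [List.map_map]
      congr 1
      congr 1
      funext g j d
      simp only [Function.comp_apply, dfac]
      by_cases hd : d = e
      · subst hd
        rw [Function.update_self, List.count_cons_self, iteratedDeriv_succ]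
      · rw [Function.update_of_ne hd, List.count_cons_of_ne (Ne.symm hd)]
        rfl
    · intro g hg j d
      rw [List.mem_map] at hg
      obtain ⟨g', hg', rfl⟩ := hg
      intro x
      exact (hasDerivAt_iter (h g' hg' j d) _ x).differentiableAt

/-! ### computability -/

theorem computable_count (d : Fin 4) : Computable (fun ds : List (Fin 4) => ds.count d) := by
  have h1 : PrimrecPred (fun x : Fin 4 => x = d) := Primrec.eq.comp Primrec.id (Primrec.const d)
  have h2 := Primrec.list_length.comp (Primrec.listFilter h1)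
  refine (h2.of_eq ?_).to_comp
  intro ds
  rw [List.count_eq_length_filter]
  congr 1

theorem computable_pi3 {α : Type*} [Primcodable α] {f : Fin 3 → α → ℚ} (hf : ∀ j, Computable (f j)) :
    Computable (fun a => fun j => f j a) := by
  have h1 := Primrec.vector_get'.to_comp.comp (Computable.vector_ofFn hf)
  refine h1.of_eq fun a => ?_
  funext j
  exact List.Vector.get_ofFn _ j

abbrev Arg : Type := List (Fin 4) × (ℚ × (Fin 3 → ℚ))

theorem cr_tensor (g : Fin 4 → ℝ → ℝ) (h : ∀ d, EffFun (g d)) :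
    CR (fun a : Arg => tensor4 (fun d => iteratedDeriv (a.1.count d) (g d))
      ((a.2.1 : ℝ), ratPoint a.2.2)) := by
  have ht : Computable (fun a : Arg => a.2.1) := Computable.fst.comp Computable.snd
  have hq : ∀ i : Fin 3, Computable (fun a : Arg => a.2.2 i) := fun i =>
    Computable.fin_app.comp (Computable.snd.comp Computable.snd) (Computable.const i)
  have hc : ∀ d, Computable (fun a : Arg => a.1.count d) := fun d =>
    (computable_count d).comp Computable.fst
  have h0 := ((effFun_iff _).mp (h 0)).2.1.comp ((hc 0).pair ht)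
  have h1 := ((effFun_iff _).mp (h 1)).2.1.comp ((hc 1).pair (hq 0))
  have h2 := ((effFun_iff _).mp (h 2)).2.1.comp ((hc 2).pair (hq 1))
  have h3 := ((effFun_iff _).mp (h 3)).2.1.comp ((hc 3).pair (hq 2))
  exact h0.mul (h1.mul (h2.mul h3))

theorem cr_field (L : List (Fin 3 → Fin 4 → ℝ → ℝ)) (h : ∀ g ∈ L, ∀ j d, EffFun (g j d))
    (j : Fin 3) : CR (fun a : Arg => tensorField (L.map (dfac a.1)) ((a.2.1 : ℝ), ratPoint a.2.2) j) := by
  have h1 := CR.list_sum L (fun g (a : Arg) => tensor4 (fun d => iteratedDeriv (a.1.count d) (g j d))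
      ((a.2.1 : ℝ), ratPoint a.2.2)) (fun g hg => cr_tensor (g j) (h g hg j))
  refine h1.of_eq fun a => ?_
  unfold tensorField
  rw [List.map_map]
  rfl

theorem abs_tensor4_le (g : Fin 4 → ℝ → ℝ) (b : Fin 4 → ℕ) (h : ∀ d x, |g d x| ≤ (b d : ℝ))
    (p : ℝ × (Fin 3 → ℝ)) : |tensor4 g p| ≤ ((b 0 * (b 1 * (b 2 * b 3)) : ℕ) : ℝ) := by
  unfold tensor4
  rw [abs_mul, abs_mul, abs_mul]
  push_cast
  have h0 := h 0 p.1
  have h1 := h 1 (p.2 0)
  have h2 := h 2 (p.2 1)
  have h3 := h 3 (p.2 2)
  gcongr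

theorem bound_field (L : List (Fin 3 → Fin 4 → ℝ → ℝ)) (h : ∀ g ∈ L, ∀ j d, EffFun (g j d)) :
    ∃ b : List (Fin 4) → ℕ, Computable b ∧ ∀ ds p j,
      |tensorField (L.map (dfac ds)) p j| ≤ (b ds : ℝ) := by
  induction L with
  | nil =>
    refine ⟨fun _ => 0, Computable.const 0, ?_⟩
    intro ds p j
    simp [tensorField]
  | cons g L ih =>
    obtain ⟨b, hb, hb2⟩ := ih fun g' hg' => h g' (List.mem_cons_of_mem _ hg')
    have hg : ∀ j d, ∃ B : ℕ → ℕ, Computable B ∧ ∀ (k : ℕ) (x : ℝ),
        |iteratedDeriv k (g j d) x| ≤ (B k : ℝ) := fun j d => (h g List.mem_cons_self j d).2.2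
    choose B hB hB2 using hg
    have hP : ∀ j, Computable (fun ds : List (Fin 4) => B j 0 (ds.count 0) * (B j 1 (ds.count 1) *
        (B j 2 (ds.count 2) * B j 3 (ds.count 3)))) := fun j =>
      nmul ((hB j 0).comp (computable_count 0)) (nmul ((hB j 1).comp (computable_count 1))
        (nmul ((hB j 2).comp (computable_count 2)) ((hB j 3).comp (computable_count 3))))
    refine ⟨fun ds => (B 0 0 (ds.count 0) * (B 0 1 (ds.count 1) *
        (B 0 2 (ds.count 2) * B 0 3 (ds.count 3))) + (B 1 0 (ds.count 0) * (B 1 1 (ds.count 1) *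
        (B 1 2 (ds.count 2) * B 1 3 (ds.count 3))) + B 2 0 (ds.count 0) * (B 2 1 (ds.count 1) *
        (B 2 2 (ds.count 2) * B 2 3 (ds.count 3))))) + b ds,
      nadd (nadd (hP 0) (nadd (hP 1) (hP 2))) hb, ?_⟩
    intro ds p j
    have h1 : tensorField ((g :: L).map (dfac ds)) p j =
        tensor4 (dfac ds g j) p + tensorField (L.map (dfac ds)) p j := by
      unfold tensorField
      rw [List.map_cons, List.map_cons, List.sum_cons]
    rw [h1]
    have h2 := abs_tensor4_le (dfac ds g j) (fun d => B j d (ds.count d))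
      (fun d x => hB2 j d _ x) p
    have h3 : (B j 0 (ds.count 0) * (B j 1 (ds.count 1) *
        (B j 2 (ds.count 2) * B j 3 (ds.count 3))) : ℕ) ≤ (B 0 0 (ds.count 0) * (B 0 1 (ds.count 1) *
        (B 0 2 (ds.count 2) * B 0 3 (ds.count 3))) + (B 1 0 (ds.count 0) * (B 1 1 (ds.count 1) *
        (B 1 2 (ds.count 2) * B 1 3 (ds.count 3))) + B 2 0 (ds.count 0) * (B 2 1 (ds.count 1) *
        (B 2 2 (ds.count 2) * B 2 3 (ds.count 3))))) := by
      fin_cases j <;> simp <;> omega
    have h4 := hb2 ds p j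
    refine (abs_add_le _ _).trans ?_
    have h5 : ((B j 0 (ds.count 0) * (B j 1 (ds.count 1) *
        (B j 2 (ds.count 2) * B j 3 (ds.count 3))) : ℕ) : ℝ) ≤ ((B 0 0 (ds.count 0) * (B 0 1 (ds.count 1) *
        (B 0 2 (ds.count 2) * B 0 3 (ds.count 3))) + (B 1 0 (ds.count 0) * (B 1 1 (ds.count 1) *
        (B 1 2 (ds.count 2) * B 1 3 (ds.count 3))) + B 2 0 (ds.count 0) * (B 2 1 (ds.count 1) *
        (B 2 2 (ds.count 2) * B 2 3 (ds.count 3)))) : ℕ) : ℝ) := by exact_mod_cast h3
    rw [Nat.cast_add _ (b ds)]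
    exact add_le_add (h2.trans h5) h4

theorem effective_tensorField (L : List (Fin 3 → Fin 4 → ℝ → ℝ))
    (h : ∀ g ∈ L, ∀ j d, EffFun (g j d)) : Effective (tensorField L) := by
  have hsm : ∀ g ∈ L, ∀ j d, ContDiff ℝ ∞ (g j d) := fun g hg j d => (h g hg j d).1
  obtain ⟨b, hb, hb2⟩ := bound_field L h
  have hE := fun j => cr_field L h j
  choose E hE1 hE2 using hE
  refine ⟨fun x => fun j => E j ((x.1, x.2.1), x.2.2), b, ?_, hb, ?_, ?_⟩
  · refine computable_pi3 (f := fun j (x : List (Fin 4) × (ℚ × (Fin 3 → ℚ)) × ℕ) =>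
      E j ((x.1, x.2.1), x.2.2)) fun j => ?_
    exact (hE1 j).comp ((Computable.fst.pair (Computable.fst.comp Computable.snd)).pair
      (Computable.snd.comp Computable.snd))
  · intro ds t q n j
    rw [mixedDeriv_tensorField L hsm]
    exact hE2 j (ds, (t, q)) n
  · intro ds p j
    rw [mixedDeriv_tensorField L hsm]
    exact hb2 ds p j

end Crest.Agent.H24Eff
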