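import Mathlib
import Crest.Agent.H23Chain
import Crest.Agent.H24Tensor

/-! Assembly of the box-flow theorem. -/

set_option autoImplicit false
open scoped ContDiff Topology NNReal
open Set Filter

namespace Crest.Agent.H23Asm

open Crest.Agent.H23Box Crest.Agent.H23Step Crest.Agent.H23Flow Crest.Agent.H24Eff Crest.Agent.H23SEff
open Crest.Agent.H23Field Crest.Agent.H23Geo Crest.Agent.H23Chain
open Crest.AnalysisR.BoxFlow

theorem wind_tensor (Vs : List (Sp → Sp)) (hG : ∀ V ∈ Vs, Good V) (a b c : ℚ) :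
    ∃ L : List (Fin 3 → Fin 4 → ℝ → ℝ), (∀ g ∈ L, ∀ j d, EffFun (g j d)) ∧
      ∀ p : ℝ × Sp, (c : ℝ) • wind Vs ((a : ℝ) * p.1 + (b : ℝ), p.2) = tensorField L p := by
  induction Vs generalizing b with
  | nil =>
    refine ⟨[], by simp, ?_⟩
    intro p; funext j; simp [wind, tensorField]
  | cons V Vs ih =>
    obtain ⟨L, hL, hLp⟩ := ih (fun W hW => hG W (by simp [hW])) (b - 1)
    obtain ⟨g, hg, hV, -, -⟩ := hG V (by simp)
    have hsg : EffFun (fun t : ℝ => (c : ℝ) * sg ((a : ℝ) * t + (b : ℝ))) := by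
      have h1 : EffFun sg := by rw [← deriv_S_eq_sg]; exact effFun_deriv effFun_S
      exact effFun_const_mul (effFun_comp_affine h1 a b) c
    refine ⟨(fun j => Fin.cons (fun t : ℝ => (c : ℝ) * sg ((a : ℝ) * t + (b : ℝ))) (g j)) :: L,
      ?_, ?_⟩
    · intro g' hg' j d
      rcases List.mem_cons.1 hg' with rfl | hg'
      · refine Fin.cases ?_ (fun d => ?_) d
        · exact hsg
        · exact hg j d
      · exact hL g' hg' j d
    · intro p
      have h1 := hLp p
      have e : (a : ℝ) * p.1 + ((b - 1 : ℚ) : ℝ) = (a : ℝ) * p.1 + (b : ℝ) - 1 := by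
        push_cast; ring
      rw [e] at h1
      funext j
      have h2 := congrFun h1 j
      simp only [wind, smul_add, Pi.add_apply, tensorField, List.map_cons, List.sum_cons]
      rw [h2, hV]
      congr 1
      simp only [Pi.smul_apply, smul_eq_mul, prodField, tensor4, Fin.cons_zero]
      have e1 : (Fin.cons (fun t : ℝ => (c : ℝ) * sg ((a : ℝ) * t + (b : ℝ))) (g j) :
        Fin 4 → ℝ → ℝ) 1 = g j 0 := rfl
      have e2 : (Fin.cons (fun t : ℝ => (c : ℝ) * sg ((a : ℝ) * t + (b : ℝ))) (g j) :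
        Fin 4 → ℝ → ℝ) 2 = g j 1 := rfl
      have e3 : (Fin.cons (fun t : ℝ => (c : ℝ) * sg ((a : ℝ) * t + (b : ℝ))) (g j) :
        Fin 4 → ℝ → ℝ) 3 = g j 2 := rfl
      rw [e1, e2, e3]
      ring

theorem effective_ufield (Vs : List (Sp → Sp)) (hG : ∀ V ∈ Vs, Good V) :
    Effective (ufield Vs) := by
  obtain ⟨L, hL, hLp⟩ := wind_tensor Vs hG (2 * (Vs.length : ℚ)) (-(Vs.length : ℚ) / 2)
    (2 * (Vs.length : ℚ))
  have e : ufield Vs = tensorField L := by
    funext p
    rw [← hLp p]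
    unfold ufield
    push_cast
    rw [show 2 * (Vs.length : ℝ) * p.1 - (Vs.length : ℝ) / 2 =
      2 * (Vs.length : ℝ) * p.1 + -(Vs.length : ℝ) / 2 by ring]
  rw [e]
  exact effective_tensorField L hL

theorem main (n : ℕ) (a b h k : Fin n → Fin 3 → ℚ)
    (hh : ∀ i j, 0 < h i j) (hk : ∀ i j, 0 < k i j)
    (ha : Pairwise fun i i' => Disjoint (box (a i) (h i)) (box (a i') (h i')))
    (hb : Pairwise fun i i' => Disjoint (box (b i) (k i)) (box (b i') (k i')))
    (hvol : ∀ i, ∏ j : Fin 3, k i j / h i j = 1) :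
    ∃ (U : Field) (Φ : ℝ → (Fin 3 → ℝ) → (Fin 3 → ℝ)),
      ContDiff ℝ ∞ U ∧ HasCompactSupport U ∧ Effective U ∧
      (∀ p : ℝ × (Fin 3 → ℝ), p.1 ∉ Set.Icc (1 / 4 : ℝ) (3 / 4) → U p = 0) ∧
      (∀ p : ℝ × (Fin 3 → ℝ), spaceDiv U p = 0) ∧ IsFlow U Φ ∧
      ∀ i : Fin n, ∃ O : Set (Fin 3 → ℝ), IsOpen O ∧ box (a i) (h i) ⊆ O ∧
        ∀ x ∈ O, Φ 1 x = fun j => (b i j : ℝ) + ((k i j / h i j : ℚ) : ℝ) * (x j - (a i j : ℝ)) := by
  have evA : ∀ᶠ N : ℕ in atTop, ∀ i i', i ≠ i' →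
      H23Geo.Sep (a i) (fun d => (1 + 1 / ((N : ℚ) + 1)) * h i d) (a i')
      (fun d => (1 + 1 / ((N : ℚ) + 1)) * h i' d) := by
    rw [eventually_all]
    intro i
    rw [eventually_all]
    intro i'
    by_cases hii : i = i'
    · exact Eventually.of_forall (fun N hN => absurd hii hN)
    · filter_upwards [sep_eventually _ _ _ _ (sep_of_disjoint _ _ _ _ (hh i) (hh i') (ha hii))]
        with N hN _ using hN
  have evB : ∀ᶠ N : ℕ in atTop, ∀ i i', i ≠ i' →
      H23Geo.Sep (b i) (fun d => (1 + 1 / ((N : ℚ) + 1)) * k i d) (b i')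
      (fun d => (1 + 1 / ((N : ℚ) + 1)) * k i' d) := by
    rw [eventually_all]
    intro i
    rw [eventually_all]
    intro i'
    by_cases hii : i = i'
    · exact Eventually.of_forall (fun N hN => absurd hii hN)
    · filter_upwards [sep_eventually _ _ _ _ (sep_of_disjoint _ _ _ _ (hk i) (hk i') (hb hii))]
        with N hN _ using hN
  obtain ⟨N, hNA, hNB⟩ := (evA.and evB).exists
  set δ : ℚ := 1 + 1 / ((N : ℚ) + 1) with hδ
  have hδ1 : 1 < δ := by
    have : 0 < 1 / ((N : ℚ) + 1) := by positivity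
    linarith
  have hδ0 : 0 < δ := by linarith
  have hratio : ∀ i d, (δ * k i d) / (δ * h i d) = k i d / h i d := by
    intro i d
    exact mul_div_mul_left _ _ hδ0.ne'
  obtain ⟨Vs, hG, hC⟩ := exists_fields a b (fun i d => δ * h i d) (fun i d => δ * k i d)
    (fun i j => mul_pos hδ0 (hh i j)) (fun i j => mul_pos hδ0 (hk i j)) hNA hNB (by
      intro i
      have := hvol i
      rw [Fin.prod_univ_three] at this
      simp only [hratio]
      exact this)
  have hsm : ∀ V ∈ Vs, ContDiff ℝ ∞ V := fun V hV => (hG V hV).contDiff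
  have hcs : ∀ V ∈ Vs, HasCompactSupport V := fun V hV => by
    obtain ⟨_, _, _, _, h⟩ := hG V hV; exact h
  have hdv : ∀ V ∈ Vs, ∀ x, dv V x = 0 := fun V hV => by
    obtain ⟨_, _, _, h, _⟩ := hG V hV; exact h
  obtain ⟨Φ, hΦ, hΦ1⟩ := exists_flow Vs hsm hcs
  refine ⟨ufield Vs, Φ, contDiff_ufield Vs hsm, hasCompactSupport_ufield Vs hcs,
    effective_ufield Vs hG, ufield_zero Vs, spaceDiv_ufield Vs hsm hdv, hΦ, ?_⟩
  intro i
  refine ⟨{x | ∀ j, |x j - (a i j : ℝ)| < δ * h i j}, ?_, ?_, ?_⟩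
  · rw [ofPred_forall]
    apply isOpen_iInter_of_finite
    intro j
    exact isOpen_lt (by fun_prop) continuous_const
  · intro x hx j
    refine lt_of_le_of_lt (hx j) ?_
    have h1 : (0:ℝ) < h i j := by exact_mod_cast hh i j
    have h2 : (1:ℝ) < δ := by exact_mod_cast hδ1
    nlinarith
  · intro x hx
    rw [hΦ1 x _ (hC i x (fun j => by
      have := (hx j).le
      push_cast
      exact this))]
    funext j
    simp only [hratio]

end Crest.Agent.H23Asm
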