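import Mathlib
import Crest.Prelude.Def_ProductShift
/-! rid 113 (S0151): abstract determinant computation (module M4). -/
set_option autoImplicit false
open Crest.AnalysisR.ProductShift Polynomial Filter Topology

namespace Crest.R113.H23

variable {H : Type*} [NormedAddCommGroup H] [InnerProductSpace ℂ H] [CompleteSpace H]

/-- the real functional -/
noncomputable def Lf (ξ : H) : (H →L[ℂ] H) →L[ℝ] ℝ :=
  Complex.reCLM.comp (((innerSL ℂ ξ).comp (ContinuousLinearMap.apply ℂ H ξ)).restrictScalars ℝ)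

lemma Lf_apply (ξ : H) (A : H →L[ℂ] H) : Lf ξ A = (inner ℂ ξ (A ξ)).re := rfl

lemma Lf_bound (ξ : H) (hξ : ‖ξ‖ = 1) (A : H →L[ℂ] H) : |Lf ξ A| ≤ ‖A‖ := by
  rw [Lf_apply]
  refine (Complex.abs_re_le_norm _).trans ((norm_inner_le_norm _ _).trans ?_)
  rw [hξ, one_mul]
  refine (A.le_opNorm ξ).trans ?_
  rw [hξ, mul_one]

lemma exists_antideriv (q : ℝ[X]) : ∃ p : ℝ[X], derivative p = q := by
  induction q using Polynomial.induction_on' with
  | add a b ha hb =>
    obtain ⟨p1, h1⟩ := ha
    obtain ⟨p2, h2⟩ := hb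
    exact ⟨p1 + p2, by rw [derivative_add, h1, h2]⟩
  | monomial n a =>
    refine ⟨monomial (n + 1) (a / (n + 1)), ?_⟩
    rw [derivative_monomial]
    congr 1
    have : ((n : ℝ) + 1) ≠ 0 := by positivity
    push_cast
    field_simp

lemma hasDerivAt_pow (B : ℝ → (H →L[ℂ] H)) (B' : H →L[ℂ] H) (t : ℝ)
    (h : HasDerivAt B B' t) (n : ℕ) :
    HasDerivAt (fun s => B s ^ n) (∑ j ∈ Finset.range n, B t ^ j * (B' * B t ^ (n - 1 - j))) t := by
  induction n with
  | zero => simpa using hasDerivAt_const t (1 : H →L[ℂ] H)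
  | succ n ih =>
    have h1 := ih.mul h
    have h2 : (fun s => B s ^ (n + 1)) = fun s => B s ^ n * B s := by
      funext s; rw [pow_succ]
    rw [h2]
    refine h1.congr_deriv ?_
    rw [Finset.sum_range_succ, Finset.sum_mul]
    congr 1
    · refine Finset.sum_congr rfl fun j hj => ?_
      rw [Finset.mem_range] at hj
      have : n + 1 - 1 - j = (n - 1 - j) + 1 := by omega
      rw [this, pow_succ]
      simp only [mul_assoc]
    · simp

lemma hasDerivAt_aeval (ξ : H) (𝒜 : StarSubalgebra ℂ (H →L[ℂ] H))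
    (htr : ∀ A ∈ 𝒜, ∀ B ∈ 𝒜, Lf ξ (A * B) = Lf ξ (B * A))
    (B : ℝ → (H →L[ℂ] H)) (B' : H →L[ℂ] H) (t : ℝ) (h : HasDerivAt B B' t) (hB : B t ∈ 𝒜)
    (hB' : B' ∈ 𝒜) (p : ℝ[X]) :
    HasDerivAt (fun s => Lf ξ (aeval (B s) p)) (Lf ξ (aeval (B t) (derivative p) * B')) t := by
  induction p using Polynomial.induction_on' with
  | add a b ha hb =>
    have h1 := ha.add hb
    simp only [map_add, add_mul]
    exact h1
  | monomial n a =>
    have h1 := (Lf ξ).hasFDerivAt.comp_hasDerivAt t (hasDerivAt_pow B B' t h n)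
    have h2 := h1.const_mul a
    have h3 : (fun s => Lf ξ (aeval (B s) (monomial n a))) =
        fun s => a * ((Lf ξ) ∘ fun s => B s ^ n) s := by
      funext s
      rw [aeval_monomial]
      rw [← Algebra.smul_def, map_smul, smul_eq_mul]
      rfl
    rw [h3]
    refine h2.congr_deriv ?_
    rw [derivative_monomial, aeval_monomial, ← Algebra.smul_def, smul_mul_assoc, map_smul,
      smul_eq_mul, mul_assoc]
    congr 1
    rw [map_sum]
    rw [Finset.sum_congr rfl (g := fun _ => Lf ξ (B t ^ (n - 1) * B'))]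
    · rw [Finset.sum_const, Finset.card_range, nsmul_eq_mul]
    · intro j hj
      rw [Finset.mem_range] at hj
      rw [htr _ (pow_mem hB j) _ (mul_mem hB' (pow_mem hB _)), mul_assoc, ← pow_add]
      have : n - 1 - j + j = n - 1 := by omega
      rw [this]
      exact htr _ hB' _ (pow_mem hB _)

end Crest.R113.H23
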