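import Crest.Agent.IsgSpec

/-!
Basic facts used by the modules UNIQS, UNIQC (private namespace).
-/

set_option autoImplicit false
set_option linter.unusedSectionVars false
set_option linter.style.haveILetI false

open MeasureTheory ProbabilityTheory Filter Topology

namespace Crest.Agent.H23Isg

open Crest.Agent.Isg

variable {b : ℕ}

/-! ### probability measures -/

theorem bern_prob {p : ℝ} (h0 : 0 ≤ p) (h1 : p ≤ 1) : IsProbabilityMeasure (bern p) := by
  constructor
  unfold bern
  simp only [Measure.coe_add, Measure.coe_smul, Pi.add_apply, Pi.smul_apply, smul_eq_mul,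
    measure_univ, mul_one]
  rw [← ENNReal.ofReal_add h0 (by linarith)]
  simp

theorem xiLaw_prob {θ : ℝ} (h0 : 0 ≤ θ) (h1 : θ ≤ 1) : IsProbabilityMeasure (xiLaw b θ) := by
  have : ∀ _ : V b, IsProbabilityMeasure (bern ((1 + θ) / 2)) :=
    fun _ => bern_prob (by linarith) (by linarith)
  unfold xiLaw
  infer_instance

theorem mu_univ_le {θ : ℝ} (h0 : 0 ≤ θ) (h1 : θ ≤ 1) : mu b θ Set.univ ≤ 1 := by
  have := xiLaw_prob (b := b) h0 h1
  have : IsProbabilityMeasure (bern (1 / 2)) := bern_prob (by norm_num) (by norm_num)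
  unfold mu
  by_cases h : AEMeasurable (fun p : Bool × (V b → Bool) => spin p.1 p.2)
      ((bern (1 / 2)).prod (xiLaw b θ))
  · rw [Measure.map_apply_of_aemeasurable h MeasurableSet.univ, Set.preimage_univ, measure_univ]
  · rw [Measure.map_of_not_aemeasurable h]
    simp

theorem PL_univ_le {θ : ℝ} (h0 : 0 ≤ θ) (h1 : θ ≤ 1) {ρ : Measure ℝ}
    (hρ : IsProbabilityMeasure ρ) : PL b θ ρ Set.univ ≤ 1 := by
  have h2 := mu_univ_le (b := b) h0 h1
  have : IsFiniteMeasure (mu b θ) := ⟨lt_of_le_of_lt h2 ENNReal.one_lt_top⟩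
  unfold PL
  by_cases h : AEMeasurable (fun (p : (V b → Bool) × (V b → ℝ)) v => sg (p.1 v) * p.2 v)
      ((mu b θ).prod (Measure.infinitePi (fun _ : V b => ρ)))
  · rw [Measure.map_apply_of_aemeasurable h MeasurableSet.univ]
    simp only [Set.preimage_univ]
    rw [← Set.univ_prod_univ, Measure.prod_prod]
    simp only [measure_univ, mul_one]
    exact h2
  · rw [Measure.map_of_not_aemeasurable h]
    simp

/-! ### measurability -/

theorem measurable_tanh : Measurable Real.tanh := by
  have h : Real.tanh = fun x => Real.sinh x / Real.cosh x := by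
    funext x; exact Real.tanh_eq_sinh_div_cosh x
  rw [h]
  exact Real.measurable_sinh.div Real.measurable_cosh

theorem measurable_artanh : Measurable Real.artanh := by
  unfold Real.artanh
  fun_prop

theorem measurable_psi (θ : ℝ) : Measurable (psi θ) := by
  unfold psi
  exact measurable_artanh.comp (measurable_tanh.const_mul θ)

theorem measurable_kap (θ : ℝ) : Measurable (kap θ) := by
  unfold kap
  have h := measurable_tanh
  exact ((measurable_const.sub (h.pow_const 2)).div
    (measurable_const.sub ((h.pow_const 2).const_mul _)))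

theorem measurable_lm (θ : ℝ) (N : ℕ) : ∀ (u : V b) (i : Fin (b + 1)),
    Measurable (fun h : V b → ℝ => lm θ N h u i) := by
  induction N with
  | zero => intro u i; exact measurable_const
  | succ N ih =>
    intro u i
    show Measurable (fun h : V b → ℝ => h u + ∑ j ∈ Finset.univ.erase i,
      psi θ (lm θ N h (nb j u) j))
    refine (measurable_pi_apply u).add ?_
    exact Finset.measurable_sum _ (fun j _ => (measurable_psi θ).comp (ih (nb j u) j))

theorem measurable_lmI (θ : ℝ) (u : V b) (i : Fin (b + 1)) :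
    Measurable (fun h : V b → ℝ => lmI θ h u i) := by
  unfold lmI
  exact Measurable.limsup (fun N => measurable_lm θ N u i)

theorem measurable_lgI (θ : ℝ) (u : V b) : Measurable (fun h : V b → ℝ => lgI θ h u) := by
  unfold lgI
  refine (measurable_pi_apply u).add ?_
  exact Finset.measurable_sum _ (fun j _ => (measurable_psi θ).comp (measurable_lmI θ (nb j u) j))

theorem measurable_M (θ : ℝ) (u : V b) : Measurable (fun h : V b → ℝ => M θ h u) := by
  unfold M
  exact measurable_tanh.comp (measurable_lgI θ u)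

theorem measurable_DDl (θ : ℝ) (u : V b) (l : List (Fin (b + 1))) :
    Measurable (fun h : V b → ℝ => DDl θ h u l) := by
  induction l with
  | nil => exact measurable_const
  | cons i l ih =>
    show Measurable (fun h : V b → ℝ => DDl θ h u l * kap θ (lmI θ h (follow u (i :: l)) i))
    exact ih.mul ((measurable_kap θ).comp (measurable_lmI θ _ i))

theorem measurable_DD (θ : ℝ) (u w : V b) : Measurable (fun h : V b → ℝ => DD θ h u w) :=
  measurable_DDl θ u w.1

theorem measurable_Gl (θ lam : ℝ) : Measurable (fun h : V b → ℝ => Gl θ lam h) := by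
  unfold Gl
  refine Measurable.tsum (fun w => ?_)
  exact ((measurable_DD θ (rt b) w).const_mul _).ennreal_ofReal

/-! ### bounds -/

theorem abs_tanh_lt (x : ℝ) : |Real.tanh x| < 1 := Real.abs_tanh_lt_one x

theorem abs_M_le (θ : ℝ) (h : V b → ℝ) (u : V b) : |M θ h u| ≤ 1 := (abs_tanh_lt _).le

/-- squared difference of the magnetisations -/
noncomputable def dl (θ : ℝ) (p : (V b → ℝ) × (V b → ℝ)) : ENNReal :=
  ENNReal.ofReal ((M θ p.1 (rt b) - M θ p.2 (rt b)) ^ 2)

theorem measurable_dl (θ : ℝ) : Measurable (dl (b := b) θ) := by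
  unfold dl
  have h1 : Measurable (fun p : (V b → ℝ) × (V b → ℝ) => M θ p.1 (rt b)) :=
    (measurable_M θ (rt b)).comp measurable_fst
  have h2 : Measurable (fun p : (V b → ℝ) × (V b → ℝ) => M θ p.2 (rt b)) :=
    (measurable_M θ (rt b)).comp measurable_snd
  exact ((h1.sub h2).pow_const 2).ennreal_ofReal

theorem dl_le_four (θ : ℝ) (p : (V b → ℝ) × (V b → ℝ)) : dl θ p ≤ 4 := by
  unfold dl
  have h1 := abs_le.1 (abs_M_le θ p.1 (rt b))
  have h2 := abs_le.1 (abs_M_le θ p.2 (rt b))
  have h3 : (M θ p.1 (rt b) - M θ p.2 (rt b)) ^ 2 ≤ 4 := by nlinarith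
  calc ENNReal.ofReal ((M θ p.1 (rt b) - M θ p.2 (rt b)) ^ 2) ≤ ENNReal.ofReal 4 :=
        ENNReal.ofReal_le_ofReal h3
    _ = 4 := by norm_num

theorem AA_eq (θ : ℝ) (L : Measure ((V b → ℝ) × (V b → ℝ))) : AA θ L = ∫⁻ p, dl θ p ∂L := rfl

theorem pair_univ_le {θ : ℝ} (h0 : 0 ≤ θ) (h1 : θ ≤ 1) {ρ : Measure ℝ}
    (hρ : IsProbabilityMeasure ρ) {L : Measure ((V b → ℝ) × (V b → ℝ))}
    (hL : PairLaw b θ ρ L) : L Set.univ ≤ 1 := by
  have h2 := PL_univ_le (b := b) h0 h1 hρ
  rw [← hL.fst, Measure.map_apply measurable_fst MeasurableSet.univ] at h2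
  simpa using h2

theorem AA_le_four {θ : ℝ} (h0 : 0 ≤ θ) (h1 : θ ≤ 1) {ρ : Measure ℝ}
    (hρ : IsProbabilityMeasure ρ) {L : Measure ((V b → ℝ) × (V b → ℝ))}
    (hL : PairLaw b θ ρ L) : AA θ L ≤ 4 := by
  rw [AA_eq]
  calc ∫⁻ p, dl θ p ∂L ≤ ∫⁻ _, 4 ∂L := lintegral_mono (fun p => dl_le_four θ p)
    _ = 4 * L Set.univ := lintegral_const _
    _ ≤ 4 * 1 := by gcongr; exact pair_univ_le h0 h1 hρ hL
    _ = 4 := mul_one _

/-! ### integrals of powers over intervals -/

theorem lint_pow (c : ℝ) (hc : 0 ≤ c) (k : ℕ) {τ : ℝ} (hτ : 0 ≤ τ) :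
    ∫⁻ t in Set.Ioo 0 τ, ENNReal.ofReal (c * t ^ k) =
      ENNReal.ofReal (c * τ ^ (k + 1) / (k + 1)) := by
  have h1 : ∫⁻ t in Set.Ioo 0 τ, ENNReal.ofReal (c * t ^ k) =
      ∫⁻ t in Set.Ioc 0 τ, ENNReal.ofReal (c * t ^ k) :=
    setLIntegral_congr Ioo_ae_eq_Ioc
  have hcont : Continuous (fun t : ℝ => c * t ^ k) := by fun_prop
  rw [h1, ← ofReal_integral_eq_lintegral_ofReal]
  · congr 1
    rw [← intervalIntegral.integral_of_le hτ, intervalIntegral.integral_const_mul, integral_pow]
    simp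
    ring
  · exact (hcont.intervalIntegrable 0 τ).1
  · filter_upwards [ae_restrict_mem measurableSet_Ioc] with t ht
    exact mul_nonneg hc (pow_nonneg ht.1.le k)

end Crest.Agent.H23Isg
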