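import Crest.Agent.H23IsgBase

/-!
Module UNIQC of S0241, kernel bounds.
-/

set_option autoImplicit false
set_option linter.style.haveILetI false

open MeasureTheory ProbabilityTheory Filter Topology

namespace Crest.Agent.IsgUniqC

open Crest.Agent.Isg Crest.Agent.H23Isg

variable {b : ℕ}

/-! ### elementary estimates -/

theorem sq_le_two_pow (j : ℕ) : j ^ 2 ≤ 2 * 2 ^ j := by
  induction j with
  | zero => simp
  | succ j ih =>
    have h1 : j < 2 ^ j := Nat.lt_two_pow_self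
    rw [pow_succ 2 j]
    nlinarith

theorem two_pow_ge (j : ℕ) : (j : ℝ) ^ 2 / 2 ≤ 2 ^ j := by
  have h := sq_le_two_pow j
  have h2 : (j : ℝ) ^ 2 ≤ 2 * 2 ^ j := by exact_mod_cast h
  linarith

theorem decayS (a : ℝ) (m : ℕ) : ∃ B : ℝ, 0 ≤ B ∧ ∀ j : ℕ,
    Real.exp (a * j) * ((j : ℝ) + 1) ^ m * Real.exp (-((2 : ℝ) ^ j / 2)) ≤
      B * Real.exp (-(j : ℝ)) := by
  refine ⟨m.factorial * Real.exp (1 + (a + 2) ^ 2), by positivity, fun j => ?_⟩
  have h1 : ((j : ℝ) + 1) ^ m ≤ m.factorial * Real.exp ((j : ℝ) + 1) := by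
    have h := Real.pow_div_factorial_le_exp ((j : ℝ) + 1) (by positivity) m
    rw [div_le_iff₀ (by positivity)] at h
    linarith
  have h2 := two_pow_ge j
  calc Real.exp (a * j) * ((j : ℝ) + 1) ^ m * Real.exp (-((2 : ℝ) ^ j / 2))
      ≤ Real.exp (a * j) * (m.factorial * Real.exp ((j : ℝ) + 1)) *
          Real.exp (-((j : ℝ) ^ 2 / 2 / 2)) := by
        gcongr
    _ = m.factorial * Real.exp (a * j + ((j : ℝ) + 1) + -((j : ℝ) ^ 2 / 2 / 2)) := by
        rw [Real.exp_add (a * j + ((j : ℝ) + 1)), Real.exp_add (a * j)]; ring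
    _ ≤ m.factorial * Real.exp (1 + (a + 2) ^ 2 + -(j : ℝ)) := by
        refine mul_le_mul_of_nonneg_left (Real.exp_le_exp.2 ?_) (by positivity)
        nlinarith [sq_nonneg ((j : ℝ) / 2 - (a + 2))]
    _ = m.factorial * Real.exp (1 + (a + 2) ^ 2) * Real.exp (-(j : ℝ)) := by
        rw [Real.exp_add (1 + (a + 2) ^ 2)]; ring

theorem summable_exp_neg : Summable (fun j : ℕ => Real.exp (-(j : ℝ))) := by
  have h := Real.summable_exp_neg_nat
  exact h

/-- summability used for the tails -/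
theorem summableS (a : ℝ) (m : ℕ) :
    Summable (fun j : ℕ => Real.exp (a * j) * ((j : ℝ) + 1) ^ m * Real.exp (-((2 : ℝ) ^ j / 2))) := by
  obtain ⟨B, hB, h⟩ := decayS a m
  refine Summable.of_nonneg_of_le (fun j => by positivity) h (summable_exp_neg.mul_left B)

/-! ### layer cake -/

theorem layer {X : Type*} [MeasurableSpace X] (ν : Measure X) (G : X → ENNReal)
    (hG : Measurable G) (g : ℕ → ℝ) (hginf : Tendsto g atTop atTop)
    (e : ℕ → ENNReal) (he : ∀ j, ν {x | ENNReal.ofReal (g j) < G x} ≤ e j)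
    (he0 : Tendsto e atTop (𝓝 0)) (j₀ : ℕ) :
    ∫⁻ x, {x | ENNReal.ofReal (g j₀) < G x}.indicator (fun x => G x ^ 2) x ∂ν ≤
      ∑' i, ENNReal.ofReal (g (j₀ + i + 1)) ^ 2 * e (j₀ + i) := by
  have hinf : ν {x | G x = ⊤} = 0 := by
    have h1 : ∀ j, ν {x | G x = ⊤} ≤ e j := by
      intro j
      refine le_trans (measure_mono ?_) (he j)
      intro x hx
      simp only [Set.mem_ofPred_eq] at hx ⊢
      rw [hx]
      exact ENNReal.ofReal_lt_top
    have h2 := ge_of_tendsto' he0 h1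
    exact le_antisymm h2 bot_le
  have hae : ∀ᵐ x ∂ν, G x ≠ ⊤ := by
    rw [ae_iff]
    simpa using hinf
  have hmeas : ∀ j, MeasurableSet {x | ENNReal.ofReal (g j) < G x} := fun j =>
    measurableSet_lt measurable_const hG
  calc ∫⁻ x, {x | ENNReal.ofReal (g j₀) < G x}.indicator (fun x => G x ^ 2) x ∂ν
      ≤ ∫⁻ x, ∑' i, {x | ENNReal.ofReal (g (j₀ + i)) < G x}.indicator
          (fun _ => ENNReal.ofReal (g (j₀ + i + 1)) ^ 2) x ∂ν := by
        refine lintegral_mono_ae ?_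
        filter_upwards [hae] with x hx
        by_cases hx0 : ENNReal.ofReal (g j₀) < G x
        · rw [Set.indicator_of_mem (by exact hx0)]
          have hex : ∃ i, G x ≤ ENNReal.ofReal (g (j₀ + i + 1)) := by
            have h1 : ∀ᶠ n in atTop, (G x).toReal ≤ g n := hginf.eventually_ge_atTop _
            obtain ⟨n₀, hn₀⟩ := h1.exists_forall_of_atTop
            refine ⟨n₀, ?_⟩
            rw [← ENNReal.ofReal_toReal hx]
            exact ENNReal.ofReal_le_ofReal (hn₀ _ (by omega))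
          classical
          have hspec := Nat.find_spec hex
          have hlt : ENNReal.ofReal (g (j₀ + Nat.find hex)) < G x := by
            rcases Nat.eq_zero_or_pos (Nat.find hex) with h0 | h0
            · rw [h0]; exact hx0
            · have h1 := Nat.find_min hex (m := Nat.find hex - 1) (by omega)
              push Not at h1
              have h2 : j₀ + (Nat.find hex - 1) + 1 = j₀ + Nat.find hex := by omega
              rw [h2] at h1
              exact h1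
          calc G x ^ 2 ≤ ENNReal.ofReal (g (j₀ + Nat.find hex + 1)) ^ 2 := by gcongr
            _ = {x | ENNReal.ofReal (g (j₀ + Nat.find hex)) < G x}.indicator
                (fun _ => ENNReal.ofReal (g (j₀ + Nat.find hex + 1)) ^ 2) x := by
                rw [Set.indicator_of_mem (by exact hlt)]
            _ ≤ _ := ENNReal.le_tsum (Nat.find hex)
        · rw [Set.indicator_of_notMem (by exact hx0)]
          exact bot_le
    _ = ∑' i, ENNReal.ofReal (g (j₀ + i + 1)) ^ 2 *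
          ν {x | ENNReal.ofReal (g (j₀ + i)) < G x} := by
        rw [lintegral_tsum (fun i => (measurable_const.indicator (hmeas _)).aemeasurable)]
        refine tsum_congr (fun i => ?_)
        rw [lintegral_indicator_const (hmeas _)]
    _ ≤ _ := by
        refine ENNReal.tsum_le_tsum (fun i => ?_)
        gcongr
        exact he _

/-! ### the kernel -/

theorem measurable_KK (θ : ℝ) (R : Set ℕ) :
    Measurable (fun p : (V b → ℝ) × (V b → ℝ) => KK θ R p.1 p.2) := by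
  unfold KK
  refine Measurable.tsum (fun w => ?_)
  have m1 : Measurable (fun p : (V b → ℝ) × (V b → ℝ) => M θ p.1 (rt b)) :=
    (measurable_M θ (rt b)).comp measurable_fst
  have m2 : Measurable (fun p : (V b → ℝ) × (V b → ℝ) => M θ p.2 (rt b)) :=
    (measurable_M θ (rt b)).comp measurable_snd
  have m3 : Measurable (fun p : (V b → ℝ) × (V b → ℝ) => DD θ p.1 (rt b) w) :=
    (measurable_DD θ (rt b) w).comp measurable_fst
  have m4 : Measurable (fun p : (V b → ℝ) × (V b → ℝ) => DD θ p.2 (rt b) w) :=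
    (measurable_DD θ (rt b) w).comp measurable_snd
  have m5 : Measurable (fun p : (V b → ℝ) × (V b → ℝ) => M θ p.1 w) :=
    (measurable_M θ w).comp measurable_fst
  have m6 : Measurable (fun p : (V b → ℝ) × (V b → ℝ) => M θ p.2 w) :=
    (measurable_M θ w).comp measurable_snd
  have c1 : Measurable (fun p : (V b → ℝ) × (V b → ℝ) => CC θ p.1 (rt b) w) := by
    unfold CC
    exact ((measurable_const.sub (m1.pow_const 2)).mul_const _).mul m3
  have c2 : Measurable (fun p : (V b → ℝ) × (V b → ℝ) => CC θ p.2 (rt b) w) := by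
    unfold CC
    exact ((measurable_const.sub (m2.pow_const 2)).mul_const _).mul m4
  refine Measurable.const_mul ?_ _
  exact ((((c1.sub c2).pow_const 2).const_mul 8).add
    (((c2.pow_const 2).const_mul 32).mul ((m5.sub m6).pow_const 2))).ennreal_ofReal

theorem KK_split (θ : ℝ) (n : ℕ) (h h' : V b → ℝ) :
    KK θ Set.univ h h' ≤ KK θ {m | m ≤ n} h h' + KK θ {m | n ≤ m} h h' := by
  unfold KK
  rw [← ENNReal.tsum_add]
  refine ENNReal.tsum_le_tsum (fun w => ?_)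
  rw [← add_mul]
  gcongr
  simp only [Set.indicator_univ]
  rcases le_total (len w) n with h1 | h1
  · rw [Set.indicator_of_mem (by exact h1)]
    exact le_self_add
  · have h2 : (Set.indicator {m | n ≤ m} (fun _ => (1 : ENNReal)) (len w)) = 1 := by
      rw [Set.indicator_of_mem (by exact h1)]
    rw [h2]
    exact le_add_self

/-! ### second moments -/

theorem AA_le_moment {θ : ℝ} {ρ : Measure ℝ} {L : Measure ((V b → ℝ) × (V b → ℝ))}
    (hL : PairLaw b θ ρ L) :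
    AA θ L ≤ 4 * ∫⁻ h, ENNReal.ofReal (M θ h (rt b) ^ 2) ∂(PL b θ ρ) := by
  have hm : Measurable (fun h : V b → ℝ => ENNReal.ofReal (M θ h (rt b) ^ 2)) :=
    ((measurable_M θ (rt b)).pow_const 2).ennreal_ofReal
  have hm1 : Measurable (fun p : (V b → ℝ) × (V b → ℝ) =>
      ENNReal.ofReal (M θ p.1 (rt b) ^ 2)) := hm.comp measurable_fst
  have hm2 : Measurable (fun p : (V b → ℝ) × (V b → ℝ) =>
      ENNReal.ofReal (M θ p.2 (rt b) ^ 2)) := hm.comp measurable_snd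
  rw [AA_eq]
  calc ∫⁻ p, dl θ p ∂L
      ≤ ∫⁻ p, (2 * ENNReal.ofReal (M θ p.1 (rt b) ^ 2) +
          2 * ENNReal.ofReal (M θ p.2 (rt b) ^ 2)) ∂L := by
        refine lintegral_mono (fun p => ?_)
        unfold dl
        have h2 : (2 : ENNReal) = ENNReal.ofReal 2 := by norm_num
        rw [h2, ← ENNReal.ofReal_mul (by norm_num), ← ENNReal.ofReal_mul (by norm_num),
          ← ENNReal.ofReal_add (by positivity) (by positivity)]
        apply ENNReal.ofReal_le_ofReal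
        nlinarith [sq_nonneg (M θ p.1 (rt b) + M θ p.2 (rt b))]
    _ = 2 * ∫⁻ p, ENNReal.ofReal (M θ p.1 (rt b) ^ 2) ∂L +
          2 * ∫⁻ p, ENNReal.ofReal (M θ p.2 (rt b) ^ 2) ∂L := by
        rw [lintegral_add_left (hm1.const_mul 2), lintegral_const_mul _ hm1,
          lintegral_const_mul _ hm2]
    _ = 2 * ∫⁻ h, ENNReal.ofReal (M θ h (rt b) ^ 2) ∂(PL b θ ρ) +
          2 * ∫⁻ h, ENNReal.ofReal (M θ h (rt b) ^ 2) ∂(PL b θ ρ) := by
        have e1 : ∫⁻ p, ENNReal.ofReal (M θ p.1 (rt b) ^ 2) ∂L =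
            ∫⁻ h, ENNReal.ofReal (M θ h (rt b) ^ 2) ∂(L.map Prod.fst) :=
          (lintegral_map hm measurable_fst).symm
        have e2 : ∫⁻ p, ENNReal.ofReal (M θ p.2 (rt b) ^ 2) ∂L =
            ∫⁻ h, ENNReal.ofReal (M θ h (rt b) ^ 2) ∂(L.map Prod.snd) :=
          (lintegral_map hm measurable_snd).symm
        rw [e1, e2, hL.fst, hL.snd]
    _ = _ := by rw [← add_mul]; norm_num

theorem crude_split {θ lam g : ℝ} {ρ : Measure ℝ} {L : Measure ((V b → ℝ) × (V b → ℝ))}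
    (hL : PairLaw b θ ρ L) :
    ∫⁻ p, ENNReal.ofReal ((M θ p.1 (rt b) - M θ p.2 (rt b)) ^ 2) * Gl θ lam p.1 ^ 2 ∂L ≤
      ENNReal.ofReal g ^ 2 * AA θ L +
      4 * ∫⁻ h, {h | ENNReal.ofReal g < Gl θ lam h}.indicator (fun h => Gl θ lam h ^ 2) h
        ∂(PL b θ ρ) := by
  have hG := measurable_Gl (b := b) θ lam
  have hset : MeasurableSet {h : V b → ℝ | ENNReal.ofReal g < Gl θ lam h} :=
    measurableSet_lt measurable_const hG
  have hm : Measurable (fun h : V b → ℝ =>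
      {h | ENNReal.ofReal g < Gl θ lam h}.indicator (fun h => Gl θ lam h ^ 2) h) :=
    (hG.pow_const 2).indicator hset
  have hm1 : Measurable (fun p : (V b → ℝ) × (V b → ℝ) =>
      {h | ENNReal.ofReal g < Gl θ lam h}.indicator (fun h => Gl θ lam h ^ 2) p.1) :=
    hm.comp measurable_fst
  have hpt : ∀ p : (V b → ℝ) × (V b → ℝ),
      ENNReal.ofReal ((M θ p.1 (rt b) - M θ p.2 (rt b)) ^ 2) * Gl θ lam p.1 ^ 2 ≤
        ENNReal.ofReal g ^ 2 * dl θ p + 4 *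
          {h | ENNReal.ofReal g < Gl θ lam h}.indicator (fun h => Gl θ lam h ^ 2) p.1 := by
    intro p
    change dl θ p * Gl θ lam p.1 ^ 2 ≤ _
    by_cases h : ENNReal.ofReal g < Gl θ lam p.1
    · rw [Set.indicator_of_mem (by exact h)]
      calc dl θ p * Gl θ lam p.1 ^ 2 ≤ 4 * Gl θ lam p.1 ^ 2 := by
            gcongr; exact dl_le_four θ p
        _ ≤ _ := le_add_self
    · have h' : Gl θ lam p.1 ≤ ENNReal.ofReal g := not_lt.1 h
      calc dl θ p * Gl θ lam p.1 ^ 2 ≤ dl θ p * ENNReal.ofReal g ^ 2 := by gcongr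
        _ = ENNReal.ofReal g ^ 2 * dl θ p := mul_comm _ _
        _ ≤ _ := le_self_add
  calc ∫⁻ p, ENNReal.ofReal ((M θ p.1 (rt b) - M θ p.2 (rt b)) ^ 2) * Gl θ lam p.1 ^ 2 ∂L
      ≤ ∫⁻ p, (ENNReal.ofReal g ^ 2 * dl θ p + 4 *
          {h | ENNReal.ofReal g < Gl θ lam h}.indicator (fun h => Gl θ lam h ^ 2) p.1) ∂L :=
        lintegral_mono hpt
    _ = ENNReal.ofReal g ^ 2 * AA θ L + 4 * ∫⁻ p,
          {h | ENNReal.ofReal g < Gl θ lam h}.indicator (fun h => Gl θ lam h ^ 2) p.1 ∂L := by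
        rw [lintegral_add_left ((measurable_dl θ).const_mul _),
          lintegral_const_mul _ (measurable_dl θ),
          lintegral_const_mul _ hm1]
        rfl
    _ = _ := by
        have e1 : ∫⁻ p, {h | ENNReal.ofReal g < Gl θ lam h}.indicator
            (fun h => Gl θ lam h ^ 2) p.1 ∂L = ∫⁻ h, {h | ENNReal.ofReal g < Gl θ lam h}.indicator
            (fun h => Gl θ lam h ^ 2) h ∂(L.map Prod.fst) :=
          (lintegral_map hm measurable_fst).symm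
        rw [e1, hL.fst]

/-! ### truncated moments -/

/-- the summands -/
noncomputable def qq (Λ : ℝ) (j : ℕ) : ℝ :=
  Real.exp (2 * Λ * ((j : ℝ) + 1)) * ((j : ℝ) + 1) ^ 2 * Real.exp (-((2 : ℝ) ^ j / 2))

theorem qq_nonneg (Λ : ℝ) (j : ℕ) : 0 ≤ qq Λ j := by unfold qq; positivity

theorem summable_qq (Λ : ℝ) : Summable (qq Λ) := by
  have h := (summableS (2 * Λ) 2).mul_left (Real.exp (2 * Λ))
  refine h.congr (fun j => ?_)
  unfold qq
  rw [mul_add, mul_one, Real.exp_add]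
  ring

theorem trunc (Λ : ℝ) : ∃ S : ℝ, 0 ≤ S ∧ ∀ (b : ℕ) (θ lam Q R : ℝ) (ρ : Measure ℝ), 2 ≤ b →
    0 ≤ lam → lam ≤ Λ → 0 ≤ Q → Q ≤ R →
    (∀ j : ℕ, PL b θ ρ {h | ENNReal.ofReal (Real.exp (lam * j) * (2 * j + Q)) < Gl θ lam h} ≤
      ENNReal.ofReal (Real.exp (-((b : ℝ) ^ j)))) → ∀ j₀ : ℕ,
    ∫⁻ h, {h | ENNReal.ofReal (Real.exp (lam * j₀) * (2 * j₀ + Q)) < Gl θ lam h}.indicator
      (fun h => Gl θ lam h ^ 2) h ∂(PL b θ ρ) ≤
      ENNReal.ofReal ((2 + R) ^ 2 * S * Real.exp (-((2 : ℝ) ^ j₀ / 2))) := by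
  refine ⟨∑' j, qq Λ j, tsum_nonneg (qq_nonneg Λ), ?_⟩
  intro b θ lam Q R ρ hb hl0 hlΛ hQ0 hQR htail j₀
  have hbR : (2 : ℝ) ≤ b := by exact_mod_cast hb
  have hexp : ∀ j : ℕ, Real.exp (-((b : ℝ) ^ j)) ≤ Real.exp (-((2 : ℝ) ^ j)) := by
    intro j
    apply Real.exp_le_exp.2
    have : (2 : ℝ) ^ j ≤ (b : ℝ) ^ j := pow_le_pow_left₀ (by norm_num) hbR j
    linarith
  have hlay := layer (PL b θ ρ) (fun h => Gl θ lam h) (measurable_Gl θ lam)
    (fun j : ℕ => Real.exp (lam * j) * (2 * j + Q)) ?_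
    (fun j => ENNReal.ofReal (Real.exp (-((b : ℝ) ^ j)))) htail ?_ j₀
  · refine hlay.trans ?_
    have hterm : ∀ i : ℕ, ENNReal.ofReal (Real.exp (lam * ((j₀ + i + 1 : ℕ) : ℝ)) *
        (2 * ((j₀ + i + 1 : ℕ) : ℝ) + Q)) ^ 2 *
        ENNReal.ofReal (Real.exp (-((b : ℝ) ^ (j₀ + i)))) ≤
        ENNReal.ofReal ((2 + R) ^ 2 * Real.exp (-((2 : ℝ) ^ j₀ / 2))) *
          ENNReal.ofReal (qq Λ (j₀ + i)) := by
      intro i
      rw [← ENNReal.ofReal_pow (by positivity), ← ENNReal.ofReal_mul (by positivity),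
        ← ENNReal.ofReal_mul (by positivity)]
      apply ENNReal.ofReal_le_ofReal
      set J : ℝ := ((j₀ + i : ℕ) : ℝ) + 1 with hJ
      have hJ1 : (1 : ℝ) ≤ J := by
        have : (0 : ℝ) ≤ ((j₀ + i : ℕ) : ℝ) := Nat.cast_nonneg _
        linarith
      have hJe : ((j₀ + i + 1 : ℕ) : ℝ) = J := by push_cast [hJ]; ring
      rw [hJe]
      have h1 : Real.exp (lam * J) ≤ Real.exp (Λ * J) := by
        apply Real.exp_le_exp.2
        exact mul_le_mul_of_nonneg_right hlΛ (by linarith)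
      have h2 : 2 * J + Q ≤ (2 + R) * J := by nlinarith [hQ0.trans hQR]
      have h3 : Real.exp (-((b : ℝ) ^ (j₀ + i))) ≤
          Real.exp (-((2 : ℝ) ^ j₀ / 2)) * Real.exp (-((2 : ℝ) ^ (j₀ + i) / 2)) := by
        refine (hexp _).trans ?_
        rw [← Real.exp_add]
        apply Real.exp_le_exp.2
        have h4 : (2 : ℝ) ^ j₀ ≤ (2 : ℝ) ^ (j₀ + i) :=
          pow_le_pow_right₀ (by norm_num) (by omega)
        linarith
      have h5 : Real.exp (Λ * J) ^ 2 = Real.exp (2 * Λ * J) := by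
        rw [← Real.exp_nat_mul]; congr 1; push_cast; ring
      calc (Real.exp (lam * J) * (2 * J + Q)) ^ 2 * Real.exp (-((b : ℝ) ^ (j₀ + i)))
          ≤ (Real.exp (Λ * J) * ((2 + R) * J)) ^ 2 *
            (Real.exp (-((2 : ℝ) ^ j₀ / 2)) * Real.exp (-((2 : ℝ) ^ (j₀ + i) / 2))) := by
            gcongr
        _ = (2 + R) ^ 2 * Real.exp (-((2 : ℝ) ^ j₀ / 2)) * qq Λ (j₀ + i) := by
            unfold qq
            rw [← hJ, ← h5]
            ring
    calc ∑' i, ENNReal.ofReal (Real.exp (lam * ((j₀ + i + 1 : ℕ) : ℝ)) *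
        (2 * ((j₀ + i + 1 : ℕ) : ℝ) + Q)) ^ 2 *
        ENNReal.ofReal (Real.exp (-((b : ℝ) ^ (j₀ + i))))
        ≤ ∑' i, ENNReal.ofReal ((2 + R) ^ 2 * Real.exp (-((2 : ℝ) ^ j₀ / 2))) *
          ENNReal.ofReal (qq Λ (j₀ + i)) := ENNReal.tsum_le_tsum hterm
      _ = ENNReal.ofReal ((2 + R) ^ 2 * Real.exp (-((2 : ℝ) ^ j₀ / 2))) *
          ∑' i, ENNReal.ofReal (qq Λ (j₀ + i)) := ENNReal.tsum_mul_left
      _ ≤ ENNReal.ofReal ((2 + R) ^ 2 * Real.exp (-((2 : ℝ) ^ j₀ / 2))) *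
          ∑' i, ENNReal.ofReal (qq Λ i) := by
          gcongr ENNReal.ofReal _ * ?_
          exact ENNReal.tsum_comp_le_tsum_of_injective (f := fun i => j₀ + i)
            (fun _ _ h => Nat.add_left_cancel h) (fun i => ENNReal.ofReal (qq Λ i))
      _ = _ := by
          rw [← ENNReal.ofReal_tsum_of_nonneg (qq_nonneg Λ) (summable_qq Λ),
            ← ENNReal.ofReal_mul (by positivity)]
          congr 1
          ring
  · refine tendsto_atTop_mono (fun j => ?_) tendsto_natCast_atTop_atTop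
    have h1 : (1 : ℝ) ≤ Real.exp (lam * j) := Real.one_le_exp (by positivity)
    have h2 : (0 : ℝ) ≤ j := Nat.cast_nonneg j
    nlinarith
  · rw [← ENNReal.ofReal_zero]
    apply ENNReal.tendsto_ofReal
    refine squeeze_zero (fun j => (Real.exp_pos _).le) (fun j => (hexp j).trans ?_)
      summable_exp_neg.tendsto_atTop_zero
    apply Real.exp_le_exp.2
    have h1 : j < 2 ^ j := Nat.lt_two_pow_self
    have h2 : (j : ℝ) ≤ 2 ^ j := by exact_mod_cast h1.le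
    linarith

/-! ### the context -/

/-- the data of the uniqueness argument -/
structure Ctx (b : ℕ) (θ : ℝ) (ρ : ℝ → Measure ℝ)
    (L : ℝ → Measure ((V b → ℝ) × (V b → ℝ))) (H : ℝ → ℝ) (C₀ c : ℝ) : Prop where
  hb : 2 ≤ b
  hθ : 0 < θ
  hc : b * θ ^ 2 = 1
  Hm : Monotone H
  hch : ∀ t, 0 < t → Chan (ρ t) (H t)
  hC₀ : 0 < C₀
  hsm : ∀ t, 0 < t → t ≤ 1 → Chan (ρ t) (C₀ * Real.sqrt t) ∧ info (ρ t) ≤ C₀ * t ^ 2
  hc0 : 0 < c
  low1 : ∀ t, 0 < t → t ≤ 1 → c * t ^ 2 ≤ info (ρ t)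
  low2 : ∀ t, 1 ≤ t → c ≤ info (ρ t)
  pl : ∀ t, 0 < t → PairLaw b θ (ρ t) (L t)
  ineq : ∀ τ, 0 < τ → AA θ (L τ) ≤ ∫⁻ t in Set.Ioo 0 τ, ENNReal.ofReal (Int.fract t) *
      ∫⁻ p, KK θ Set.univ p.1 p.2 ∂(L t)

section ctx

variable {θ : ℝ} {ρ : ℝ → Measure ℝ} {L : ℝ → Measure ((V b → ℝ) × (V b → ℝ))}
  {H : ℝ → ℝ} {C₀ c : ℝ}

theorem Ctx.hθ1 (X : Ctx b θ ρ L H C₀ c) : θ ≤ 1 := by
  have hb' : (2 : ℝ) ≤ b := by exact_mod_cast X.hb
  have h := X.hc
  have h0 := X.hθ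
  by_contra hcon
  push Not at hcon
  nlinarith

theorem Ctx.A4 (X : Ctx b θ ρ L H C₀ c) {t : ℝ} (ht : 0 < t) : AA θ (L t) ≤ 4 :=
  AA_le_four X.hθ.le X.hθ1 (X.hch t ht).prob (X.pl t ht)

theorem Ctx.chT (X : Ctx b θ ρ L H C₀ c) {t T : ℝ} (ht : 0 < t) (hT : t ≤ T) :
    Chan (ρ t) (H T) := by
  have h2 := X.hch t ht
  refine ⟨h2.prob, ?_, h2.nish⟩
  filter_upwards [h2.bdd] with x hx
  exact hx.trans (X.Hm hT)

/-- first bound: `A(t) ≤ C t` -/
theorem Ctx.start (X : Ctx b θ ρ L H C₀ c) (hS : Spec.SmallMag) :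
    ∃ C : ℝ, 0 ≤ C ∧ ∀ t, 0 < t → t ≤ 1 → AA θ (L t) ≤ ENNReal.ofReal (C * t) := by
  obtain ⟨C, hC⟩ := hS b θ X.hb X.hθ X.hc
  refine ⟨4 * (|C| * Real.sqrt C₀), by positivity, fun t h0 h1 => ?_⟩
  refine (AA_le_moment (X.pl t h0)).trans ?_
  obtain ⟨hch, hinfo⟩ := X.hsm t h0 h1
  have h2 := hC (ρ t) _ hch
  have h3 : Real.sqrt (info (ρ t)) ≤ Real.sqrt C₀ * t := by
    calc Real.sqrt (info (ρ t)) ≤ Real.sqrt (C₀ * t ^ 2) := Real.sqrt_le_sqrt hinfo
      _ = Real.sqrt C₀ * t := by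
        rw [Real.sqrt_mul X.hC₀.le, Real.sqrt_sq h0.le]
  calc 4 * ∫⁻ h, ENNReal.ofReal (M θ h (rt b) ^ 2) ∂(PL b θ (ρ t))
      ≤ 4 * ENNReal.ofReal (C * Real.sqrt (info (ρ t))) := by gcongr
    _ ≤ ENNReal.ofReal 4 * ENNReal.ofReal (|C| * (Real.sqrt C₀ * t)) := by
        have h4 : (4 : ENNReal) = ENNReal.ofReal 4 := by norm_num
        rw [← h4]
        gcongr
        exact le_abs_self C
    _ = ENNReal.ofReal (4 * (|C| * Real.sqrt C₀) * t) := by
        rw [← ENNReal.ofReal_mul (by norm_num)]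
        congr 1
        ring

/-- bounds on the square root of the information, small times -/
theorem Ctx.sqrt_small (X : Ctx b θ ρ L H C₀ c) {t : ℝ} (h0 : 0 < t) (h1 : t ≤ 1) :
    Real.sqrt c * t ≤ Real.sqrt (info (ρ t)) ∧ Real.sqrt (info (ρ t)) ≤ Real.sqrt C₀ * t := by
  obtain ⟨hch, hinfo⟩ := X.hsm t h0 h1
  constructor
  · calc Real.sqrt c * t = Real.sqrt (c * t ^ 2) := by
          rw [Real.sqrt_mul X.hc0.le, Real.sqrt_sq h0.le]
      _ ≤ Real.sqrt (info (ρ t)) := Real.sqrt_le_sqrt (X.low1 t h0 h1)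
  · calc Real.sqrt (info (ρ t)) ≤ Real.sqrt (C₀ * t ^ 2) := Real.sqrt_le_sqrt hinfo
      _ = Real.sqrt C₀ * t := by
        rw [Real.sqrt_mul X.hC₀.le, Real.sqrt_sq h0.le]

/-- lower bound of the square root of the information at all times -/
theorem Ctx.sqrt_low (X : Ctx b θ ρ L H C₀ c) {t : ℝ} (h0 : 0 < t) :
    Real.sqrt c * min t 1 ≤ Real.sqrt (info (ρ t)) := by
  rcases le_total t 1 with h1 | h1
  · rw [min_eq_left h1]
    exact (X.sqrt_small h0 h1).1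
  · rw [min_eq_right h1, mul_one]
    exact Real.sqrt_le_sqrt (X.low2 t h1)

theorem Ctx.info_pos (X : Ctx b θ ρ L H C₀ c) {t : ℝ} (h0 : 0 < t) : 0 < info (ρ t) := by
  rcases le_total t 1 with h1 | h1
  · exact lt_of_lt_of_le (mul_pos X.hc0 (by positivity)) (X.low1 t h0 h1)
  · exact lt_of_lt_of_le X.hc0 (X.low2 t h1)

theorem fract_le_min {u : ℝ} (hu : 0 < u) : Int.fract u ≤ min u 1 := by
  refine le_min ?_ (Int.fract_lt_one u).le
  have h : (0 : ℤ) ≤ ⌊u⌋ := Int.floor_nonneg.2 hu.le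
  have h2 : (0 : ℝ) ≤ (⌊u⌋ : ℝ) := by exact_mod_cast h
  unfold Int.fract
  linarith

theorem KK_univ (θ : ℝ) (h h' : V b → ℝ) : KK θ Set.univ h h' = KK θ {m | 0 ≤ m} h h' := by
  have : (Set.univ : Set ℕ) = {m | 0 ≤ m} := by ext m; simp
  rw [this]

/-- bound of the kernel at all times -/
theorem Ctx.stepB (X : Ctx b θ ρ L H C₀ c) (hCr : Spec.Crude) (hTl : Spec.Tail) {T : ℝ}
    (hT : 1 ≤ T) : ∃ (B : ℝ) (C₁ : ℕ) (D : ℝ), 0 ≤ B ∧ 0 ≤ D ∧ ∀ (j : ℕ) (u : ℝ), 0 < u → u ≤ T →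
      ENNReal.ofReal (Int.fract u) * ∫⁻ p, KK θ Set.univ p.1 p.2 ∂(L u) ≤
        ENNReal.ofReal (B * j ^ 2 + C₁ / u) * AA θ (L u) +
        ENNReal.ofReal (D / u * Real.exp (-((2 : ℝ) ^ j / 2))) := by
  obtain ⟨Cc, hCc0, hCc⟩ := hCr b θ X.hb X.hθ X.hc (H T)
  obtain ⟨c₁, K, hc₁, hK, htail⟩ := hTl b θ X.hb X.hθ X.hc
  obtain ⟨S, hS0, hS⟩ := trunc 0
  set K₂ : ℝ := K / Real.sqrt c with hK₂
  have hsc : 0 < Real.sqrt c := Real.sqrt_pos.2 X.hc0
  have hK₂0 : 0 < K₂ := div_pos hK hsc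
  refine ⟨8 * Cc, ⌈2 * Cc * K₂ ^ 2 * T⌉₊, 4 * Cc * S * (2 + K₂) ^ 2 * T, by positivity,
    by positivity, ?_⟩
  intro j u hu0 huT
  set v : ℝ := min u 1 with hv
  have hv0 : 0 < v := lt_min hu0 one_pos
  have hv1 : v ≤ 1 := min_le_right _ _
  have hvT : 1 / v ≤ T / u := by
    rw [div_le_div_iff₀ hv0 hu0]
    rcases le_total u 1 with h | h
    · rw [hv, min_eq_left h]; nlinarith
    · rw [hv, min_eq_right h]; linarith
  set Q : ℝ := K / Real.sqrt (info (ρ u)) with hQ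
  have hsi : 0 < Real.sqrt (info (ρ u)) := Real.sqrt_pos.2 (X.info_pos hu0)
  have hQ0 : 0 < Q := div_pos hK hsi
  have hQR : Q ≤ K₂ / v := by
    rw [hQ, hK₂, div_div]
    exact div_le_div_of_nonneg_left hK.le (mul_pos hsc hv0) (X.sqrt_low hu0)
  have h1 := hCc (ρ u) (L u) (X.chT hu0 huT) (X.pl u hu0) 0 0 le_rfl
  have h2 := crude_split (lam := 0) (g := Real.exp (0 * j) * (2 * j + Q)) (X.pl u hu0)
  have h3 := hS b θ 0 Q (K₂ / v) (ρ u) X.hb le_rfl le_rfl hQ0.le hQR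
    (fun i => htail (ρ u) (H T) (X.chT hu0 huT) (X.info_pos hu0) 0 le_rfl (by positivity) i) j
  have hfr := fract_le_min hu0
  have hfr0 := Int.fract_nonneg u
  set E : ℝ := Real.exp (-((2 : ℝ) ^ j / 2)) with hE
  have hE0 : 0 < E := Real.exp_pos _
  have h4 : ENNReal.ofReal (Int.fract u) * ∫⁻ p, KK θ Set.univ p.1 p.2 ∂(L u) ≤
      ENNReal.ofReal (Int.fract u) * (ENNReal.ofReal Cc *
        (ENNReal.ofReal (2 * j + Q) ^ 2 * AA θ (L u) +
          4 * ENNReal.ofReal ((2 + K₂ / v) ^ 2 * S * E))) := by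
    simp only [KK_univ]
    gcongr ENNReal.ofReal _ * ?_
    refine h1.trans ?_
    have e1 : Cc * Real.exp (-(0 * ((0 : ℕ) : ℝ))) = Cc := by simp
    rw [e1]
    gcongr ENNReal.ofReal _ * ?_
    refine h2.trans ?_
    have e2 : Real.exp (0 * (j : ℝ)) * (2 * j + Q) = 2 * j + Q := by simp
    rw [e2] at h3 ⊢
    gcongr ENNReal.ofReal _ ^ 2 * _ + 4 * ?_
  refine h4.trans ?_
  rw [mul_add, mul_add]
  have h5 : (2 * (j : ℝ) + Q) ^ 2 ≤ 8 * j ^ 2 + 2 * (K₂ / v) ^ 2 := by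
    have : (2 * (j : ℝ) + Q) ^ 2 ≤ (2 * (j : ℝ) + K₂ / v) ^ 2 := by gcongr
    nlinarith [sq_nonneg (2 * (j : ℝ) - K₂ / v)]
  refine add_le_add ?_ ?_
  · rw [← ENNReal.ofReal_pow (by positivity), ← mul_assoc, ← mul_assoc,
      ← ENNReal.ofReal_mul hfr0, ← ENNReal.ofReal_mul (by positivity)]
    gcongr ENNReal.ofReal ?_ * _
    have h6 : Int.fract u * Cc * (2 * (j : ℝ) + Q) ^ 2 ≤
        v * Cc * (8 * j ^ 2 + 2 * (K₂ / v) ^ 2) := by gcongr
    have h7 : v * Cc * (8 * j ^ 2 + 2 * (K₂ / v) ^ 2) = Cc * (8 * j ^ 2 * v) +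
        2 * Cc * K₂ ^ 2 * (1 / v) := by field_simp
    have h8 : Cc * (8 * (j : ℝ) ^ 2 * v) ≤ 8 * Cc * j ^ 2 := by
      have : (8 * (j : ℝ) ^ 2 * v) ≤ 8 * j ^ 2 * 1 := by gcongr
      nlinarith
    have h9 : 2 * Cc * K₂ ^ 2 * (1 / v) ≤ (⌈2 * Cc * K₂ ^ 2 * T⌉₊ : ℝ) / u := by
      calc 2 * Cc * K₂ ^ 2 * (1 / v) ≤ 2 * Cc * K₂ ^ 2 * (T / u) := by gcongr
        _ = 2 * Cc * K₂ ^ 2 * T / u := by ring
        _ ≤ _ := by gcongr; exact Nat.le_ceil _
    linarith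
  · have h10 : (4 : ENNReal) = ENNReal.ofReal 4 := by norm_num
    rw [h10, ← ENNReal.ofReal_mul (by norm_num), ← ENNReal.ofReal_mul hCc0,
      ← ENNReal.ofReal_mul hfr0]
    apply ENNReal.ofReal_le_ofReal
    have h11 : 2 + K₂ / v ≤ (2 + K₂) / v := by
      rw [add_div]
      have : (2 : ℝ) ≤ 2 / v := by
        rw [le_div_iff₀ hv0]; nlinarith
      linarith
    calc Int.fract u * (Cc * (4 * ((2 + K₂ / v) ^ 2 * S * E)))
        ≤ v * (Cc * (4 * (((2 + K₂) / v) ^ 2 * S * E))) := by gcongr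
      _ = 4 * Cc * S * (2 + K₂) ^ 2 * E * (1 / v) := by field_simp
      _ ≤ 4 * Cc * S * (2 + K₂) ^ 2 * E * (T / u) := by gcongr
      _ = 4 * Cc * S * (2 + K₂) ^ 2 * T / u * E := by ring

theorem exp_choice (M₀ a : ℝ) (ha : 0 < a) :
    Real.exp (-(a * (8 * M₀ / a))) * M₀ ≤ 1 / 8 := by
  have h1 : a * (8 * M₀ / a) = 8 * M₀ := by field_simp
  rw [h1, Real.exp_neg]
  have h2 : 1 + 8 * M₀ ≤ Real.exp (8 * M₀) := by
    have := Real.add_one_le_exp (8 * M₀); linarith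
  rw [inv_mul_le_iff₀ (Real.exp_pos _)]
  linarith

theorem eta_choice (M₁ : ℝ) (hM : 0 ≤ M₁) : ∃ η : ℝ, 0 < η ∧ η ≤ 1 ∧ M₁ * η ^ 2 ≤ 1 / 8 := by
  have h1 : 0 < 1 + 8 * M₁ := by linarith
  refine ⟨1 / (1 + 8 * M₁), by positivity, ?_, ?_⟩
  · rw [div_le_one h1]; linarith
  · rw [div_pow, one_pow, mul_one_div, div_le_iff₀ (by positivity)]
    nlinarith

set_option maxHeartbeats 2000000 in
/-- bound of the kernel at small times -/
theorem Ctx.stepA (X : Ctx b θ ρ L H C₀ c) (hCr : Spec.Crude) (hNr : Spec.Near)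
    (hSm : Spec.SmallMsg) (hTl : Spec.Tail) : ∃ Ca : ℝ, 0 ≤ Ca ∧ ∀ N : ℕ, ∃ Cb : ℝ, 0 ≤ Cb ∧
    ∀ s : ℝ, 0 < s → s < 1 →
      ENNReal.ofReal (Int.fract s) * ∫⁻ p, KK θ Set.univ p.1 p.2 ∂(L s) ≤
        ENNReal.ofReal (Ca + 1 / (4 * s)) * AA θ (L s) + ENNReal.ofReal (Cb * s ^ N) := by
  obtain ⟨Cc, hCc0, hCc⟩ := hCr b θ X.hb X.hθ X.hc (H 1)
  obtain ⟨Cn, hCn0, hCn⟩ := hNr b θ X.hb X.hθ X.hc (H 1)
  obtain ⟨c₁, K, hc₁, hK, htail⟩ := hTl b θ X.hb X.hθ X.hc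
  set Λ : ℝ := c₁ * Real.sqrt C₀ with hΛ
  have hΛ0 : 0 ≤ Λ := by positivity
  obtain ⟨S, hS0, hS⟩ := trunc Λ
  have hsc : 0 < Real.sqrt c := Real.sqrt_pos.2 X.hc0
  set K₂ : ℝ := K / Real.sqrt c with hK₂
  have hK₂0 : 0 < K₂ := div_pos hK hsc
  set M₀ : ℝ := Cc * (Real.exp Λ * (2 + K₂)) ^ 2 with hM₀
  have hM₀0 : 0 ≤ M₀ := by positivity
  set a : ℝ := c₁ * Real.sqrt c with ha
  have ha0 : 0 < a := mul_pos hc₁ hsc
  set K' : ℝ := 8 * M₀ / a with hK'
  have hK'0 : 0 ≤ K' := by positivity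
  have hexp := exp_choice M₀ a ha0
  rw [← hK'] at hexp
  obtain ⟨η, hη0, hη1, hη⟩ := eta_choice (Cn * (K' + 1) ^ 2) (by positivity)
  refine ⟨Cn * (K' + 2), by positivity, fun N => ?_⟩
  obtain ⟨Cη, hCη0, hCη⟩ := hSm b θ X.hb X.hθ X.hc C₀ η (N + 1) X.hC₀ hη0
  obtain ⟨BN, hBN0, hBN⟩ := decayS 0 (N + 2)
  refine ⟨Cn * (K' + 1) ^ 2 * (b + 1) * Cη + 4 * Cc * (2 + K₂) ^ 2 * S * BN, by positivity, ?_⟩
  intro s hs0 hs1
  have hfr : Int.fract s = s := Int.fract_eq_self.2 ⟨hs0.le, hs1⟩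
  rw [hfr]
  obtain ⟨hP1, hP2⟩ := X.sqrt_small hs0 hs1.le
  set P : ℝ := Real.sqrt (info (ρ s)) with hP
  have hP0 : 0 < P := Real.sqrt_pos.2 (X.info_pos hs0)
  set Q : ℝ := K / P with hQ
  have hQ0 : 0 < Q := div_pos hK hP0
  have hQs : Q ≤ K₂ / s := by
    rw [hQ, hK₂, div_div]
    exact div_le_div_of_nonneg_left hK.le (mul_pos hsc hs0) hP1
  set j₀ : ℕ := ⌊1 / s⌋₊ with hj₀
  have hj1 : (j₀ : ℝ) ≤ 1 / s := Nat.floor_le (by positivity)
  have hj2 : 1 / s < (j₀ : ℝ) + 1 := Nat.lt_floor_add_one _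
  set n : ℕ := ⌈K' / s⌉₊ with hn
  have hn1 : K' / s ≤ n := Nat.le_ceil _
  have hn2 : (n : ℝ) < K' / s + 1 := Nat.ceil_lt_add_one (by positivity)
  have hsn : s * n ≤ K' + 1 := by
    have : s * n ≤ s * (K' / s + 1) := by gcongr
    have h2 : s * (K' / s + 1) = K' + s := by field_simp
    linarith
  have hsn1 : K' ≤ s * n := by
    have : s * (K' / s) ≤ s * n := by gcongr
    have h2 : s * (K' / s) = K' := by field_simp
    linarith
  set lam : ℝ := c₁ * P with hlam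
  have hlam0 : 0 ≤ lam := by positivity
  have hlams : lam ≤ Λ * s := by
    rw [hlam, hΛ, mul_assoc]; gcongr
  have hlamΛ : lam ≤ Λ := by nlinarith
  set R : ℝ := K₂ * ((j₀ : ℝ) + 1) with hR
  have hQR : Q ≤ R := by
    refine hQs.trans ?_
    rw [hR, div_eq_mul_one_div]
    gcongr
  have hch := X.chT hs0 hs1.le
  have hpl := X.pl s hs0
  -- near part
  have hnear := hCn (ρ s) (L s) hch hpl η n hη0 hη1
  have hmsg : ∑ i, PL b θ (ρ s) {h | η < |lmI θ h (rt b) i|} ≤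
      ENNReal.ofReal ((b + 1) * (Cη * s ^ (N + 1))) := by
    obtain ⟨hch1, hinfo1⟩ := X.hsm s hs0 hs1.le
    calc ∑ i, PL b θ (ρ s) {h | η < |lmI θ h (rt b) i|}
        ≤ ∑ _i : Fin (b + 1), ENNReal.ofReal (Cη * s ^ (N + 1)) :=
          Finset.sum_le_sum (fun i _ => hCη s hs0 hs1.le (ρ s) hch1 hinfo1 (rt b) i)
      _ = ((b + 1 : ℕ) : ENNReal) * ENNReal.ofReal (Cη * s ^ (N + 1)) := by
          rw [Finset.sum_const, Finset.card_univ, Fintype.card_fin, nsmul_eq_mul]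
      _ = _ := by
          have e1 : ENNReal.ofReal (((b : ℝ) + 1) * (Cη * s ^ (N + 1))) =
              ENNReal.ofReal ((b : ℝ) + 1) * ENNReal.ofReal (Cη * s ^ (N + 1)) :=
            ENNReal.ofReal_mul (by positivity)
          have e2 : ENNReal.ofReal ((b : ℝ) + 1) = ((b + 1 : ℕ) : ENNReal) := by
            rw [← ENNReal.ofReal_natCast]
            congr 1
            push_cast
            ring
          rw [e1, e2]
  -- far part
  have hcr := hCc (ρ s) (L s) hch hpl lam n hlam0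
  set g : ℝ := Real.exp (lam * j₀) * (2 * j₀ + Q) with hg
  have hg0 : 0 ≤ g := by positivity
  have hgle : g ≤ Real.exp Λ * (2 + K₂) / s := by
    have h1 : Real.exp (lam * j₀) ≤ Real.exp Λ := by
      apply Real.exp_le_exp.2
      calc lam * j₀ ≤ Λ * s * (1 / s) := by gcongr
        _ = Λ := by field_simp
    have h2 : 2 * (j₀ : ℝ) + Q ≤ (2 + K₂) / s := by
      have : 2 * (j₀ : ℝ) + Q ≤ 2 * (1 / s) + K₂ / s := by gcongr
      have h3 : 2 * (1 / s) + K₂ / s = (2 + K₂) / s := by ring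
      linarith
    calc g ≤ Real.exp Λ * ((2 + K₂) / s) := by rw [hg]; gcongr
      _ = _ := by ring
  have hsplit := crude_split (lam := lam) (g := g) hpl
  have htr := hS b θ lam Q R (ρ s) X.hb hlam0 hlamΛ hQ0.le hQR
    (fun i => htail (ρ s) (H 1) hch (X.info_pos hs0) lam hlam0 le_rfl i) j₀
  set E : ℝ := Real.exp (-((2 : ℝ) ^ j₀ / 2)) with hE
  have hE0 : 0 < E := Real.exp_pos _
  have htot : ∫⁻ p, KK θ Set.univ p.1 p.2 ∂(L s) ≤
      (ENNReal.ofReal (Cn * (1 + n + n ^ 2 * η ^ 2)) * AA θ (L s) +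
        ENNReal.ofReal (Cn * n ^ 2) * ENNReal.ofReal ((b + 1) * (Cη * s ^ (N + 1)))) +
      ENNReal.ofReal (Cc * Real.exp (-(lam * n))) * (ENNReal.ofReal g ^ 2 * AA θ (L s) +
        4 * ENNReal.ofReal ((2 + R) ^ 2 * S * E)) := by
    calc ∫⁻ p, KK θ Set.univ p.1 p.2 ∂(L s)
        ≤ ∫⁻ p, (KK θ {m | m ≤ n} p.1 p.2 + KK θ {m | n ≤ m} p.1 p.2) ∂(L s) :=
          lintegral_mono (fun p => KK_split θ n p.1 p.2)
      _ = ∫⁻ p, KK θ {m | m ≤ n} p.1 p.2 ∂(L s) + ∫⁻ p, KK θ {m | n ≤ m} p.1 p.2 ∂(L s) :=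
          lintegral_add_left (measurable_KK θ _) _
      _ ≤ _ := by
          refine add_le_add (hnear.trans ?_) (hcr.trans ?_)
          · gcongr _ + _ * ?_
          · gcongr ENNReal.ofReal _ * ?_
            refine hsplit.trans ?_
            gcongr ENNReal.ofReal _ ^ 2 * _ + 4 * ?_
  have h4 : (4 : ENNReal) = ENNReal.ofReal 4 := by norm_num
  -- scalar inequalities
  have hlamn : a * K' ≤ lam * n := by
    calc a * K' ≤ a * (s * n) := by gcongr
      _ = c₁ * (Real.sqrt c * s) * n := by rw [ha]; ring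
      _ ≤ c₁ * P * n := by gcongr
  have hexpn : Real.exp (-(lam * n)) ≤ Real.exp (-(a * K')) := by
    apply Real.exp_le_exp.2; linarith
  have r1 : s * (Cn * (1 + n + n ^ 2 * η ^ 2)) ≤ Cn * (K' + 2) + 1 / (8 * s) := by
    have e1 : s * (Cn * (1 + n + n ^ 2 * η ^ 2)) =
        Cn * (s + s * n) + Cn * (s * n) ^ 2 * η ^ 2 / s := by field_simp
    have e2 : Cn * (s + s * n) ≤ Cn * (K' + 2) :=
      mul_le_mul_of_nonneg_left (by linarith) hCn0
    have e3 : Cn * (s * n) ^ 2 * η ^ 2 / s ≤ (1 / 8) / s := by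
      have e4 : Cn * (s * n) ^ 2 * η ^ 2 ≤ Cn * (K' + 1) ^ 2 * η ^ 2 := by
        have : 0 ≤ s * n := by positivity
        gcongr
      gcongr
      linarith
    have e5 : (1 / 8) / s = 1 / (8 * s) := by field_simp
    linarith
  have r2 : s * (Cc * Real.exp (-(lam * n)) * g ^ 2) ≤ 1 / (8 * s) := by
    calc s * (Cc * Real.exp (-(lam * n)) * g ^ 2)
        ≤ s * (Cc * Real.exp (-(a * K')) * (Real.exp Λ * (2 + K₂) / s) ^ 2) := by gcongr
      _ = (Real.exp (-(a * K')) * M₀) / s := by rw [hM₀]; field_simp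
      _ ≤ (1 / 8) / s := by gcongr
      _ = 1 / (8 * s) := by field_simp
  have r3 : s * (Cn * n ^ 2 * ((b + 1) * (Cη * s ^ (N + 1)))) ≤
      Cn * (K' + 1) ^ 2 * (b + 1) * Cη * s ^ N := by
    calc s * (Cn * n ^ 2 * ((b + 1) * (Cη * s ^ (N + 1))))
        = Cn * (s * n) ^ 2 * (b + 1) * Cη * s ^ N := by ring
      _ ≤ Cn * (K' + 1) ^ 2 * (b + 1) * Cη * s ^ N := by
        have : 0 ≤ s * n := by positivity
        gcongr
  have r4 : s * (Cc * Real.exp (-(lam * n)) * (4 * ((2 + R) ^ 2 * S * E))) ≤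
      4 * Cc * (2 + K₂) ^ 2 * S * BN * s ^ N := by
    have hx1 : Real.exp (-(lam * n)) ≤ 1 := by
      apply Real.exp_le_one_iff.2
      have : 0 ≤ lam * n := by positivity
      linarith
    have hJ0 : (0 : ℝ) ≤ j₀ := Nat.cast_nonneg _
    have hR1 : 2 + R ≤ (2 + K₂) * ((j₀ : ℝ) + 1) := by rw [hR]; nlinarith
    have hB := hBN j₀
    rw [zero_mul, Real.exp_zero, one_mul] at hB
    have hB2 : ((j₀ : ℝ) + 1) ^ (N + 2) * E ≤ BN := by
      refine hB.trans ?_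
      have : Real.exp (-(j₀ : ℝ)) ≤ 1 := by
        apply Real.exp_le_one_iff.2; linarith
      nlinarith
    have hJs : 1 ≤ ((j₀ : ℝ) + 1) * s := by
      have : 1 / s * s ≤ ((j₀ : ℝ) + 1) * s := by gcongr
      have h2 : 1 / s * s = 1 := by field_simp
      linarith
    have hJN : 1 ≤ ((j₀ : ℝ) + 1) ^ N * s ^ N := by
      rw [← mul_pow]; exact one_le_pow₀ hJs
    have hkey : ((j₀ : ℝ) + 1) ^ 2 * E ≤ BN * s ^ N := by
      calc ((j₀ : ℝ) + 1) ^ 2 * E = ((j₀ : ℝ) + 1) ^ 2 * E * 1 := by ring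
        _ ≤ ((j₀ : ℝ) + 1) ^ 2 * E * (((j₀ : ℝ) + 1) ^ N * s ^ N) := by gcongr
        _ = (((j₀ : ℝ) + 1) ^ (N + 2) * E) * s ^ N := by ring
        _ ≤ BN * s ^ N := by gcongr
    calc s * (Cc * Real.exp (-(lam * n)) * (4 * ((2 + R) ^ 2 * S * E)))
        ≤ 1 * (Cc * 1 * (4 * (((2 + K₂) * ((j₀ : ℝ) + 1)) ^ 2 * S * E))) := by
          have : 0 ≤ 2 + R := by positivity
          gcongr
      _ = 4 * Cc * (2 + K₂) ^ 2 * S * (((j₀ : ℝ) + 1) ^ 2 * E) := by ring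
      _ ≤ 4 * Cc * (2 + K₂) ^ 2 * S * (BN * s ^ N) := by gcongr
      _ = _ := by ring
  calc ENNReal.ofReal s * ∫⁻ p, KK θ Set.univ p.1 p.2 ∂(L s)
      ≤ ENNReal.ofReal s * ((ENNReal.ofReal (Cn * (1 + n + n ^ 2 * η ^ 2)) * AA θ (L s) +
        ENNReal.ofReal (Cn * n ^ 2) * ENNReal.ofReal ((b + 1) * (Cη * s ^ (N + 1)))) +
      ENNReal.ofReal (Cc * Real.exp (-(lam * n))) * (ENNReal.ofReal g ^ 2 * AA θ (L s) +
        4 * ENNReal.ofReal ((2 + R) ^ 2 * S * E))) := by gcongr ENNReal.ofReal _ * ?_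
    _ = ENNReal.ofReal (s * (Cn * (1 + n + n ^ 2 * η ^ 2))) * AA θ (L s) +
        ENNReal.ofReal (s * (Cn * n ^ 2 * ((b + 1) * (Cη * s ^ (N + 1))))) +
        (ENNReal.ofReal (s * (Cc * Real.exp (-(lam * n)) * g ^ 2)) * AA θ (L s) +
        ENNReal.ofReal (s * (Cc * Real.exp (-(lam * n)) * (4 * ((2 + R) ^ 2 * S * E))))) := by
        rw [h4, ← ENNReal.ofReal_pow hg0]
        have hR0 : 0 ≤ R := hQ0.le.trans hQR
        rw [ENNReal.ofReal_mul (p := s) hs0.le, ENNReal.ofReal_mul (p := s) hs0.le,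
          ENNReal.ofReal_mul (p := s) hs0.le, ENNReal.ofReal_mul (p := s) hs0.le,
          ENNReal.ofReal_mul (p := Cn * n ^ 2) (by positivity),
          ENNReal.ofReal_mul (p := Cc * Real.exp (-(lam * n))) (q := g ^ 2) (by positivity),
          ENNReal.ofReal_mul (p := Cc * Real.exp (-(lam * n)))
            (q := 4 * ((2 + R) ^ 2 * S * E)) (by positivity),
          ENNReal.ofReal_mul (p := (4 : ℝ)) (by norm_num)]
        ring
    _ ≤ ENNReal.ofReal (Cn * (K' + 2) + 1 / (8 * s)) * AA θ (L s) +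
        ENNReal.ofReal (Cn * (K' + 1) ^ 2 * (b + 1) * Cη * s ^ N) +
        (ENNReal.ofReal (1 / (8 * s)) * AA θ (L s) +
        ENNReal.ofReal (4 * Cc * (2 + K₂) ^ 2 * S * BN * s ^ N)) := by
        gcongr
    _ = (ENNReal.ofReal (Cn * (K' + 2) + 1 / (8 * s)) + ENNReal.ofReal (1 / (8 * s))) *
          AA θ (L s) + (ENNReal.ofReal (Cn * (K' + 1) ^ 2 * (b + 1) * Cη * s ^ N) +
          ENNReal.ofReal (4 * Cc * (2 + K₂) ^ 2 * S * BN * s ^ N)) := by ring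
    _ = _ := by
        rw [← ENNReal.ofReal_add (by positivity) (by positivity),
          ← ENNReal.ofReal_add (by positivity) (by positivity)]
        congr 2
        · congr 1
          field_simp
          ring
        · ring

end ctx

end Crest.Agent.IsgUniqC
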