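import Crest.Agent.H23IsgBase

set_option autoImplicit false
set_option linter.style.haveILetI false

open MeasureTheory ProbabilityTheory Filter Topology

namespace Crest.Agent.IsgUniqC

open Crest.Agent.Isg Crest.Agent.H23Isg

variable {b : ℕ}

/-! ### abstract iteration arguments -/

theorem iter (A g : ℝ → ENNReal) (CM Ca Cb s₀ : ℝ) (N : ℕ) (hCM : 0 ≤ CM) (hCa0 : 0 ≤ Ca)
    (hCb : 0 ≤ Cb) (hs1 : s₀ ≤ 1) (hCa : Ca * s₀ ≤ 1 / 4)
    (hA : ∀ τ, 0 < τ → A τ ≤ ∫⁻ t in Set.Ioo 0 τ, g t)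
    (hst : ∀ t, 0 < t → t ≤ 1 → A t ≤ ENNReal.ofReal (CM * t))
    (hg : ∀ s, 0 < s → s < 1 → g s ≤ ENNReal.ofReal (Ca + 1 / (4 * s)) * A s +
      ENNReal.ofReal (Cb * s ^ N)) (k : ℕ) :
    ∀ τ, 0 < τ → τ ≤ s₀ → A τ ≤ ENNReal.ofReal (CM * (1 / 2) ^ k * τ + 2 * Cb * τ ^ (N + 1)) := by
  induction k with
  | zero =>
    intro τ h0 h1
    refine (hst τ h0 (h1.trans hs1)).trans (ENNReal.ofReal_le_ofReal ?_)
    have : 0 ≤ 2 * Cb * τ ^ (N + 1) := by positivity
    simp only [pow_zero, mul_one]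
    linarith
  | succ k ih =>
    intro τ h0 h1
    have hpt : ∀ s ∈ Set.Ioo 0 τ, g s ≤ ENNReal.ofReal ((CM * (1 / 2) ^ (k + 1)) * s ^ 0) +
        ENNReal.ofReal (2 * Cb * s ^ N) := by
      intro s hs
      have hs0 := hs.1
      have hss₀ : s ≤ s₀ := hs.2.le.trans h1
      have hs1' : s < 1 := lt_of_lt_of_le hs.2 (h1.trans hs1)
      refine (hg s hs0 hs1').trans ?_
      have hq : 0 ≤ CM * (1 / 2) ^ k := by positivity
      calc ENNReal.ofReal (Ca + 1 / (4 * s)) * A s + ENNReal.ofReal (Cb * s ^ N)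
          ≤ ENNReal.ofReal (Ca + 1 / (4 * s)) *
              ENNReal.ofReal (CM * (1 / 2) ^ k * s + 2 * Cb * s ^ (N + 1)) +
              ENNReal.ofReal (Cb * s ^ N) := by
            gcongr ENNReal.ofReal _ * ?_ + _
            exact ih s hs0 hss₀
        _ = ENNReal.ofReal ((Ca + 1 / (4 * s)) * (CM * (1 / 2) ^ k * s + 2 * Cb * s ^ (N + 1)) +
              Cb * s ^ N) := by
            rw [← ENNReal.ofReal_mul (by positivity),
              ← ENNReal.ofReal_add (by positivity) (by positivity)]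
        _ ≤ ENNReal.ofReal ((CM * (1 / 2) ^ (k + 1)) * s ^ 0 + 2 * Cb * s ^ N) := by
            apply ENNReal.ofReal_le_ofReal
            have e1 : (Ca + 1 / (4 * s)) * (CM * (1 / 2) ^ k * s + 2 * Cb * s ^ (N + 1)) =
                (Ca * s + 1 / 4) * (CM * (1 / 2) ^ k + 2 * Cb * s ^ N) := by
              field_simp
              ring
            have e2 : Ca * s + 1 / 4 ≤ 1 / 2 := by
              have : Ca * s ≤ Ca * s₀ := by gcongr
              linarith
            have e3 : 0 ≤ CM * (1 / 2) ^ k + 2 * Cb * s ^ N := by positivity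
            rw [e1]
            have e4 := mul_le_mul_of_nonneg_right e2 e3
            rw [pow_succ]
            simp only [pow_zero, mul_one]
            linarith
        _ = _ := ENNReal.ofReal_add (by positivity) (by positivity)
    refine (hA τ h0).trans ((setLIntegral_mono' measurableSet_Ioo hpt).trans ?_)
    rw [lintegral_add_left (by fun_prop), lint_pow _ (by positivity) _ h0.le,
      lint_pow _ (by positivity) _ h0.le, ← ENNReal.ofReal_add (by positivity) (by positivity)]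
    apply ENNReal.ofReal_le_ofReal
    have e5 : 2 * Cb * τ ^ (N + 1) / ((N : ℝ) + 1) ≤ 2 * Cb * τ ^ (N + 1) := by
      apply div_le_self (by positivity)
      have : (0 : ℝ) ≤ N := Nat.cast_nonneg N
      linarith
    simp only [zero_add, pow_one, Nat.cast_zero, div_one]
    linarith

theorem iter_lim (A g : ℝ → ENNReal) (CM Ca Cb s₀ : ℝ) (N : ℕ) (hCM : 0 ≤ CM) (hCa0 : 0 ≤ Ca)
    (hCb : 0 ≤ Cb) (hs1 : s₀ ≤ 1) (hCa : Ca * s₀ ≤ 1 / 4)
    (hA : ∀ τ, 0 < τ → A τ ≤ ∫⁻ t in Set.Ioo 0 τ, g t)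
    (hst : ∀ t, 0 < t → t ≤ 1 → A t ≤ ENNReal.ofReal (CM * t))
    (hg : ∀ s, 0 < s → s < 1 → g s ≤ ENNReal.ofReal (Ca + 1 / (4 * s)) * A s +
      ENNReal.ofReal (Cb * s ^ N)) :
    ∀ s, 0 < s → s ≤ s₀ → ∫⁻ t in Set.Ioo 0 s, g t ≤ ENNReal.ofReal (2 * Cb * s ^ (N + 1)) := by
  have hA' : ∀ τ, 0 < τ → τ ≤ s₀ → A τ ≤ ENNReal.ofReal (2 * Cb * τ ^ (N + 1)) := by
    intro τ h0 h1
    have h2 : Tendsto (fun k : ℕ => ENNReal.ofReal (CM * (1 / 2) ^ k * τ +
        2 * Cb * τ ^ (N + 1))) atTop (𝓝 (ENNReal.ofReal (CM * 0 * τ + 2 * Cb * τ ^ (N + 1)))) := by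
      apply ENNReal.tendsto_ofReal
      have h3 : Tendsto (fun k : ℕ => (1 / 2 : ℝ) ^ k) atTop (𝓝 0) :=
        tendsto_pow_atTop_nhds_zero_of_lt_one (by norm_num) (by norm_num)
      exact ((h3.const_mul CM).mul_const τ).add_const _
    have h4 := ge_of_tendsto' h2 (fun k => iter A g CM Ca Cb s₀ N hCM hCa0 hCb hs1 hCa hA hst hg
      k τ h0 h1)
    simpa using h4
  intro s h0 h1
  have hpt : ∀ t ∈ Set.Ioo 0 s, g t ≤ ENNReal.ofReal (2 * Cb * t ^ N) := by
    intro t ht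
    have ht0 := ht.1
    have hts₀ : t ≤ s₀ := ht.2.le.trans h1
    have ht1 : t < 1 := lt_of_lt_of_le ht.2 (h1.trans hs1)
    refine (hg t ht0 ht1).trans ?_
    calc ENNReal.ofReal (Ca + 1 / (4 * t)) * A t + ENNReal.ofReal (Cb * t ^ N)
        ≤ ENNReal.ofReal (Ca + 1 / (4 * t)) * ENNReal.ofReal (2 * Cb * t ^ (N + 1)) +
            ENNReal.ofReal (Cb * t ^ N) := by
          gcongr ENNReal.ofReal _ * ?_ + _
          exact hA' t ht0 hts₀
      _ = ENNReal.ofReal ((Ca + 1 / (4 * t)) * (2 * Cb * t ^ (N + 1)) + Cb * t ^ N) := by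
          rw [← ENNReal.ofReal_mul (by positivity),
            ← ENNReal.ofReal_add (by positivity) (by positivity)]
      _ ≤ _ := by
          apply ENNReal.ofReal_le_ofReal
          have e1 : (Ca + 1 / (4 * t)) * (2 * Cb * t ^ (N + 1)) =
              (Ca * t + 1 / 4) * (2 * Cb * t ^ N) := by
            field_simp
            ring
          have e2 : Ca * t + 1 / 4 ≤ 1 / 2 := by
            have : Ca * t ≤ Ca * s₀ := by gcongr
            linarith
          have e3 : 0 ≤ 2 * Cb * t ^ N := by positivity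
          rw [e1]
          have e4 := mul_le_mul_of_nonneg_right e2 e3
          linarith
  refine (setLIntegral_mono' measurableSet_Ioo hpt).trans ?_
  rw [lint_pow _ (by positivity) _ h0.le]
  apply ENNReal.ofReal_le_ofReal
  apply div_le_self (by positivity)
  have : (0 : ℝ) ≤ N := Nat.cast_nonneg N
  linarith

/-- the comparison function -/
noncomputable def VV (E B s : ℝ) (C₁ : ℕ) (u : ℝ) : ℝ :=
  E * Real.exp (B * (u - s)) * (u / s) ^ C₁

theorem VV_nonneg {E B s u : ℝ} {C₁ : ℕ} (hE : 0 ≤ E) (hs : 0 < s) (hu : 0 ≤ u) :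
    0 ≤ VV E B s C₁ u := by unfold VV; positivity

theorem VV_deriv (E B s : ℝ) (C₁ : ℕ) {u : ℝ} (hs : 0 < s) (hu : 0 < u) :
    HasDerivAt (VV E B s C₁) ((B + C₁ / u) * VV E B s C₁ u) u := by
  unfold VV
  have h1 : HasDerivAt (fun u : ℝ => Real.exp (B * (u - s))) (Real.exp (B * (u - s)) * B) u := by
    have h := ((hasDerivAt_id u).sub_const s).const_mul B
    have h2 := h.exp
    simpa using h2
  have h2 : HasDerivAt (fun u : ℝ => (u / s) ^ C₁) (C₁ * (u / s) ^ (C₁ - 1) * (1 / s)) u := by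
    have h := ((hasDerivAt_id u).div_const s).fun_pow C₁
    simpa using h
  have h3 := (h1.const_mul E).mul h2
  refine h3.congr_deriv ?_
  rcases Nat.eq_zero_or_pos C₁ with h0 | h0
  · subst h0; simp; ring
  · obtain ⟨m, rfl⟩ : ∃ m, C₁ = m + 1 := ⟨C₁ - 1, by omega⟩
    simp only [Nat.add_sub_cancel]
    rw [pow_succ]
    field_simp

theorem VV_int (E B s : ℝ) (C₁ : ℕ) {τ : ℝ} (hE : 0 ≤ E) (hB : 0 ≤ B) (hs : 0 < s)
    (hτ : s ≤ τ) :
    ∫⁻ u in Set.Ioo s τ, ENNReal.ofReal ((B + C₁ / u) * VV E B s C₁ u) =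
      ENNReal.ofReal (VV E B s C₁ τ - E) := by
  have h1 : ∫⁻ u in Set.Ioo s τ, ENNReal.ofReal ((B + C₁ / u) * VV E B s C₁ u) =
      ∫⁻ u in Set.Ioc s τ, ENNReal.ofReal ((B + C₁ / u) * VV E B s C₁ u) :=
    setLIntegral_congr Ioo_ae_eq_Ioc
  have hcont : ContinuousOn (fun u : ℝ => (B + C₁ / u) * VV E B s C₁ u) (Set.uIcc s τ) := by
    rw [Set.uIcc_of_le hτ]
    intro u hu
    have hu0 : u ≠ 0 := (lt_of_lt_of_le hs hu.1).ne'
    apply ContinuousAt.continuousWithinAt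
    unfold VV
    fun_prop (disch := assumption)
  have hint : IntervalIntegrable (fun u : ℝ => (B + C₁ / u) * VV E B s C₁ u) volume s τ :=
    hcont.intervalIntegrable
  rw [h1, ← ofReal_integral_eq_lintegral_ofReal]
  · congr 1
    rw [← intervalIntegral.integral_of_le hτ,
      intervalIntegral.integral_eq_sub_of_hasDerivAt (f := VV E B s C₁) ?_ hint]
    · congr 1
      unfold VV
      simp [hs.ne']
    · intro u hu
      rw [Set.uIcc_of_le hτ] at hu
      exact VV_deriv E B s C₁ hs (lt_of_lt_of_le hs hu.1)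
  · exact hint.1
  · filter_upwards [ae_restrict_mem measurableSet_Ioc] with u hu
    have hu0 : 0 < u := hs.trans hu.1
    have := VV_nonneg (B := B) (C₁ := C₁) hE hs hu0.le
    show (0 : ℝ) ≤ (B + C₁ / u) * VV E B s C₁ u
    positivity

theorem gronF (A : ℝ → ENNReal) (E B T s : ℝ) (C₁ : ℕ) (hE : 0 ≤ E) (hB : 0 ≤ B) (hs : 0 < s)
    (hA4 : ∀ t, 0 < t → A t ≤ 4)
    (h : ∀ τ, s < τ → τ ≤ T → A τ ≤ ENNReal.ofReal E +
      ∫⁻ u in Set.Ioo s τ, ENNReal.ofReal (B + C₁ / u) * A u) (k : ℕ) :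
    ∀ τ, s < τ → τ ≤ T → A τ ≤ ENNReal.ofReal (VV E B s C₁ τ) +
      ENNReal.ofReal (4 * (((B + C₁ / s) * τ) ^ k / k.factorial)) := by
  set κ : ℝ := B + C₁ / s with hκ
  have hκ0 : 0 ≤ κ := by positivity
  induction k with
  | zero =>
    intro τ h0 hT
    refine (hA4 τ (hs.trans h0)).trans ?_
    simp
  | succ k ih =>
    intro τ h0 hT
    have hτ0 : 0 < τ := hs.trans h0
    have hpt : ∀ u ∈ Set.Ioo s τ, ENNReal.ofReal (B + C₁ / u) * A u ≤
        ENNReal.ofReal ((B + C₁ / u) * VV E B s C₁ u) +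
        ENNReal.ofReal ((κ * (4 * (κ ^ k / k.factorial))) * u ^ k) := by
      intro u hu
      have hu0 : 0 < u := hs.trans hu.1
      have hV := VV_nonneg (B := B) (C₁ := C₁) hE hs hu0.le
      have h1 : B + C₁ / u ≤ κ := by
        rw [hκ]
        gcongr
        exact hu.1.le
      calc ENNReal.ofReal (B + C₁ / u) * A u
          ≤ ENNReal.ofReal (B + C₁ / u) * (ENNReal.ofReal (VV E B s C₁ u) +
            ENNReal.ofReal (4 * ((κ * u) ^ k / k.factorial))) := by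
            gcongr ENNReal.ofReal _ * ?_
            exact ih u hu.1 (hu.2.le.trans hT)
        _ = ENNReal.ofReal (B + C₁ / u) * ENNReal.ofReal (VV E B s C₁ u) +
            ENNReal.ofReal (B + C₁ / u) * ENNReal.ofReal (4 * ((κ * u) ^ k / k.factorial)) :=
            mul_add _ _ _
        _ ≤ ENNReal.ofReal (B + C₁ / u) * ENNReal.ofReal (VV E B s C₁ u) +
            ENNReal.ofReal κ * ENNReal.ofReal (4 * ((κ * u) ^ k / k.factorial)) := by
            gcongr
        _ = _ := by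
            rw [← ENNReal.ofReal_mul (by positivity), ← ENNReal.ofReal_mul hκ0]
            congr 2
            rw [mul_pow]; ring
    refine (h τ h0 hT).trans ?_
    have hmV : Measurable (fun u : ℝ => ENNReal.ofReal ((B + C₁ / u) * VV E B s C₁ u)) := by
      unfold VV
      fun_prop
    calc ENNReal.ofReal E + ∫⁻ u in Set.Ioo s τ, ENNReal.ofReal (B + C₁ / u) * A u
        ≤ ENNReal.ofReal E + ∫⁻ u in Set.Ioo s τ,
          (ENNReal.ofReal ((B + C₁ / u) * VV E B s C₁ u) +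
          ENNReal.ofReal ((κ * (4 * (κ ^ k / k.factorial))) * u ^ k)) := by
          gcongr _ + ?_
          exact setLIntegral_mono' measurableSet_Ioo hpt
      _ = ENNReal.ofReal E + (ENNReal.ofReal (VV E B s C₁ τ - E) + ∫⁻ u in Set.Ioo s τ,
          ENNReal.ofReal ((κ * (4 * (κ ^ k / k.factorial))) * u ^ k)) := by
          rw [lintegral_add_left hmV, VV_int E B s C₁ hE hB hs h0.le]
      _ ≤ ENNReal.ofReal E + (ENNReal.ofReal (VV E B s C₁ τ - E) + ∫⁻ u in Set.Ioo 0 τ,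
          ENNReal.ofReal ((κ * (4 * (κ ^ k / k.factorial))) * u ^ k)) := by
          gcongr _ + (_ + ?_)
          exact lintegral_mono_set (Set.Ioo_subset_Ioo_left hs.le)
      _ = _ := by
          rw [lint_pow _ (by positivity) k hτ0.le, ← add_assoc]
          have hVE : E ≤ VV E B s C₁ τ := by
            unfold VV
            have e1 : 1 ≤ Real.exp (B * (τ - s)) :=
              Real.one_le_exp (mul_nonneg hB (by linarith))
            have e2 : 1 ≤ (τ / s) ^ C₁ := by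
              apply one_le_pow₀
              rw [le_div_iff₀ hs]; linarith
            calc E = E * 1 * 1 := by ring
              _ ≤ _ := by gcongr
          rw [← ENNReal.ofReal_add hE (by linarith)]
          congr 2
          · ring
          · rw [Nat.factorial_succ, mul_pow]
            push_cast
            field_simp
            ring

theorem gronF_lim (A : ℝ → ENNReal) (E B T s : ℝ) (C₁ : ℕ) (hE : 0 ≤ E) (hB : 0 ≤ B)
    (hs : 0 < s) (hA4 : ∀ t, 0 < t → A t ≤ 4)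
    (h : ∀ τ, s < τ → τ ≤ T → A τ ≤ ENNReal.ofReal E +
      ∫⁻ u in Set.Ioo s τ, ENNReal.ofReal (B + C₁ / u) * A u) :
    ∀ τ, s < τ → τ ≤ T → A τ ≤ ENNReal.ofReal (VV E B s C₁ τ) := by
  intro τ h0 hT
  have h2 : Tendsto (fun k : ℕ => ENNReal.ofReal (VV E B s C₁ τ) +
      ENNReal.ofReal (4 * (((B + C₁ / s) * τ) ^ k / k.factorial))) atTop
      (𝓝 (ENNReal.ofReal (VV E B s C₁ τ) + ENNReal.ofReal (4 * 0))) :=
    (ENNReal.tendsto_ofReal ((FloorSemiring.tendsto_pow_div_factorial_atTop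
      ((B + C₁ / s) * τ)).const_mul 4)).const_add _
  have h3 := ge_of_tendsto' h2 (fun k => gronF A E B T s C₁ hE hB hs hA4 h k τ h0 hT)
  simpa using h3

/-- the numerical limit -/
theorem limW (BT Cb D T : ℝ) (C₁ : ℕ) (hBT : 0 ≤ BT) (hCb : 0 ≤ Cb) (hD : 0 ≤ D) (hT : 0 ≤ T) :
    Tendsto (fun j : ℕ => (2 * Cb * Real.exp (-(j : ℝ) ^ 3) ^ (C₁ + 1) +
      D * T / Real.exp (-(j : ℝ) ^ 3) * Real.exp (-((2 : ℝ) ^ j / 2))) *
      Real.exp (BT * j ^ 2) * (T / Real.exp (-(j : ℝ) ^ 3)) ^ C₁) atTop (𝓝 0) := by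
  have h1 : ∀ᶠ j : ℕ in atTop, (BT + 1) ≤ j := tendsto_natCast_atTop_atTop.eventually_ge_atTop _
  have h2 : ∀ᶠ j : ℕ in atTop, (j : ℝ) ^ 3 / 2 ^ j < 1 / (2 * (BT + C₁ + 2)) :=
    (tendsto_pow_const_div_const_pow_of_one_lt 3 (by norm_num : (1 : ℝ) < 2)).eventually_lt_const
      (by positivity)
  have hlim : Tendsto (fun j : ℕ => (2 * Cb * T ^ C₁ + D * T * T ^ C₁) * Real.exp (-(j : ℝ)))
      atTop (𝓝 0) := by
    have h3 : Tendsto (fun j : ℕ => Real.exp (-(j : ℝ))) atTop (𝓝 0) :=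
      Real.summable_exp_neg_nat.tendsto_atTop_zero
    have h4 := h3.const_mul (2 * Cb * T ^ C₁ + D * T * T ^ C₁)
    simpa using h4
  refine squeeze_zero' (Eventually.of_forall (fun j => by positivity)) ?_ hlim
  filter_upwards [h1, h2, eventually_ge_atTop 1] with j hj1 hj2 hj3
  have hj3' : (1 : ℝ) ≤ j := by exact_mod_cast hj3
  set x : ℝ := (j : ℝ) with hx
  have e0 : Real.exp (-x ^ 3) ^ (C₁ + 1) = Real.exp (-x ^ 3) ^ C₁ * Real.exp (-x ^ 3) :=
    pow_succ _ _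
  have hpos : 0 < Real.exp (-x ^ 3) := Real.exp_pos _
  have e1 : (2 * Cb * Real.exp (-x ^ 3) ^ (C₁ + 1) +
      D * T / Real.exp (-x ^ 3) * Real.exp (-((2 : ℝ) ^ j / 2))) *
      Real.exp (BT * x ^ 2) * (T / Real.exp (-x ^ 3)) ^ C₁ =
      2 * Cb * T ^ C₁ * (Real.exp (-x ^ 3) * Real.exp (BT * x ^ 2)) +
      D * T * T ^ C₁ * (Real.exp (-((2 : ℝ) ^ j / 2)) * Real.exp (BT * x ^ 2) *
        (1 / Real.exp (-x ^ 3)) ^ (C₁ + 1)) := by
    rw [e0, div_pow, div_pow, pow_succ (Real.exp (-x ^ 3)) C₁]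
    field_simp
    rw [one_pow]
    ring
  have e2 : Real.exp (-x ^ 3) * Real.exp (BT * x ^ 2) ≤ Real.exp (-x) := by
    rw [← Real.exp_add]
    apply Real.exp_le_exp.2
    have : x ^ 2 * (x - BT) ≥ x ^ 2 * 1 := by
      apply mul_le_mul_of_nonneg_left _ (by positivity)
      linarith
    nlinarith
  have e3 : Real.exp (-((2 : ℝ) ^ j / 2)) * Real.exp (BT * x ^ 2) *
        (1 / Real.exp (-x ^ 3)) ^ (C₁ + 1) ≤ Real.exp (-x) := by
    have e4 : (1 / Real.exp (-x ^ 3)) ^ (C₁ + 1) = Real.exp ((C₁ + 1 : ℕ) * x ^ 3) := by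
      rw [one_div, ← Real.exp_neg, neg_neg, ← Real.exp_nat_mul]
    rw [e4, ← Real.exp_add, ← Real.exp_add]
    apply Real.exp_le_exp.2
    have hc : 0 < BT + C₁ + 2 := by positivity
    rw [div_lt_div_iff₀ (by positivity) (by positivity)] at hj2
    have h5 : (BT + C₁ + 2) * x ^ 3 ≤ 2 ^ j / 2 := by linarith
    have h6 : BT * x ^ 2 ≤ BT * x ^ 3 := by
      have : x ^ 2 ≤ x ^ 3 := pow_le_pow_right₀ hj3' (by norm_num)
      gcongr
    have h7 : x ≤ x ^ 3 := by
      calc x = x ^ 1 := (pow_one x).symm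
        _ ≤ x ^ 3 := pow_le_pow_right₀ hj3' (by norm_num)
    push_cast
    nlinarith
  rw [e1]
  calc 2 * Cb * T ^ C₁ * (Real.exp (-x ^ 3) * Real.exp (BT * x ^ 2)) +
      D * T * T ^ C₁ * (Real.exp (-((2 : ℝ) ^ j / 2)) * Real.exp (BT * x ^ 2) *
        (1 / Real.exp (-x ^ 3)) ^ (C₁ + 1))
      ≤ 2 * Cb * T ^ C₁ * Real.exp (-x) + D * T * T ^ C₁ * Real.exp (-x) := by gcongr
    _ = _ := by ring

end Crest.Agent.IsgUniqC
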