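import Crest.Agent.H24GadB

/-!
# Structural part of S0534: tensor powers

`qubitPower (n+1) Φ = Φ ⊗ qubitPower n Φ` up to relabelling, channels, Holevo information.
-/

set_option autoImplicit false
set_option linter.unusedSectionVars false

namespace Crest.Agent.H23Pow

open Crest.Quantum Crest.MathPhysics.AmpDamp Matrix Real Crest.Agent.H29 Crest.Agent.H24Gad
open scoped ComplexOrder

section General

variable {d e : Type*} [Fintype d] [Fintype e] [DecidableEq d] [DecidableEq e]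

theorem channel_tensor {γ ν : ℝ} (hγ : γ ∈ Set.Icc (0:ℝ) 1) (hν : ν ∈ Set.Icc (0:ℝ) 1)
    {Ψ : Matrix d d ℂ → Matrix e e ℂ} (hΨ : IsChannel Ψ) :
    IsChannel (qubitTensor (gadMap γ ν) Ψ) := by
  refine ⟨⟨?_, ?_⟩, ?_, ?_⟩
  · intro M N
    ext x y
    simp only [qubitTensor, of_apply, Matrix.add_apply]
    rw [← Finset.sum_add_distrib]
    refine Finset.sum_congr rfl fun s' _ => ?_
    rw [← Finset.sum_add_distrib]
    refine Finset.sum_congr rfl fun t' _ => ?_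
    have h : block (M + N) s' t' = block M s' t' + block N s' t' := rfl
    rw [h, hΨ.1.map_add, Matrix.add_apply]
    ring
  · intro c M
    ext x y
    simp only [qubitTensor, of_apply, Matrix.smul_apply, smul_eq_mul]
    rw [Finset.mul_sum]
    refine Finset.sum_congr rfl fun s' _ => ?_
    rw [Finset.mul_sum]
    refine Finset.sum_congr rfl fun t' _ => ?_
    have h : block (c • M) s' t' = c • block M s' t' := rfl
    rw [h, hΨ.1.map_smul, Matrix.smul_apply, smul_eq_mul]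
    ring
  · intro k M hM
    have h1 : (M.submatrix (fun x : (Bool × Fin k) × d => (x.1.2, (x.1.1, x.2)))
        (fun x : (Bool × Fin k) × d => (x.1.2, (x.1.1, x.2)))).PosSemidef := hM.submatrix _
    have h2 := (psd_blockwise hΨ.2.1 h1).submatrix
      (fun x : Bool × (Fin k × e) => ((x.1, x.2.1), x.2.2))
    have h3 := (gadT_psd hγ hν h2).submatrix
      (fun x : Fin k × (Bool × e) => (x.2.1, (x.1, x.2.2)))
    have h4 : (blockwise (k := Fin k) (qubitTensor (gadMap γ ν) Ψ) M) =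
        (gadT γ ν ((blockwise Ψ (M.submatrix (fun x : (Bool × Fin k) × d => (x.1.2, (x.1.1, x.2)))
        (fun x : (Bool × Fin k) × d => (x.1.2, (x.1.1, x.2))))).submatrix
        (fun x : Bool × (Fin k × e) => ((x.1, x.2.1), x.2.2))
        (fun x : Bool × (Fin k × e) => ((x.1, x.2.1), x.2.2)))).submatrix
        (fun x : Fin k × (Bool × e) => (x.2.1, (x.1, x.2.2)))
        (fun x : Fin k × (Bool × e) => (x.2.1, (x.1, x.2.2))) := by
      ext x y
      show qubitTensor (gadMap γ ν) Ψ (block M x.1 y.1) x.2 y.2 = _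
      rw [qubitTensor_eq]
      rfl
    rw [h4]
    exact h3
  · intro M
    rw [qubitTensor_eq, gadT_trace, blockwise_trace hΨ.2.2]

/-- relabelling a channel -/
theorem channel_relabel {d' e' : Type*} [Fintype d'] [DecidableEq d'] [Fintype e'] [DecidableEq e']
    {Ψ : Matrix d d ℂ → Matrix e e ℂ} (hΨ : IsChannel Ψ) (f : d ≃ d') (g : e' ≃ e) :
    IsChannel (fun M : Matrix d' d' ℂ => (Ψ (M.submatrix f f)).submatrix g g) := by
  refine ⟨⟨?_, ?_⟩, ?_, ?_⟩
  · intro M N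
    have h : (M + N).submatrix f f = M.submatrix f f + N.submatrix f f := rfl
    simp only [h, hΨ.1.map_add]
    rfl
  · intro c M
    have h : (c • M).submatrix f f = c • M.submatrix f f := rfl
    simp only [h, hΨ.1.map_smul]
    rfl
  · intro k M hM
    have h1 : (M.submatrix (fun x : Fin k × d => (x.1, f x.2))
        (fun x : Fin k × d => (x.1, f x.2))).PosSemidef := hM.submatrix _
    exact (hΨ.2.1 k _ h1).submatrix (fun x : Fin k × e' => (x.1, g x.2))
  · intro M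
    show ((Ψ (M.submatrix f f)).submatrix g g).trace = M.trace
    have h1 : ((Ψ (M.submatrix f f)).submatrix g g).trace = (Ψ (M.submatrix f f)).trace := by
      show ∑ x, (Ψ (M.submatrix f f)) (g x) (g x) = ∑ x, (Ψ (M.submatrix f f)) x x
      exact Equiv.sum_comp g (fun x => (Ψ (M.submatrix f f)) x x)
    have h2 : (M.submatrix f f).trace = M.trace := by
      show ∑ x, M (f x) (f x) = ∑ x, M x x
      exact Equiv.sum_comp f (fun x => M x x)
    rw [h1, hΨ.2.2, h2]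

theorem density_relabel {d' : Type*} [Fintype d'] {ρ : Matrix d d ℂ} (hρ : IsDensity ρ)
    (f : d' ≃ d) : IsDensity (ρ.submatrix f f) := by
  refine ⟨hρ.1.submatrix _, ?_⟩
  rw [← hρ.2]
  show ∑ x, ρ (f x) (f x) = ∑ x, ρ x x
  exact Equiv.sum_comp f (fun x => ρ x x)

theorem ensemble_relabel {d' : Type*} [Fintype d'] {m : ℕ} {q : Fin m → ℝ}
    {ρ : Fin m → Matrix d d ℂ} (h : IsEnsemble q ρ) (f : d' ≃ d) :
    IsEnsemble q (fun a => (ρ a).submatrix f f) :=
  ⟨h.1, h.2.1, fun a => density_relabel (h.2.2 a) f⟩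

theorem channel_id_like {Ψ : Matrix d d ℂ → Matrix d d ℂ} (h : ∀ M, Ψ M = M) : IsChannel Ψ := by
  have : Ψ = id := funext h
  subst this
  refine ⟨⟨fun _ _ => rfl, fun _ _ => rfl⟩, fun k M hM => ?_, fun M => rfl⟩
  have h1 : blockwise (k := Fin k) (id : Matrix d d ℂ → Matrix d d ℂ) M = M := by
    ext x y
    rfl
  rw [h1]
  exact hM

/-- Holevo information under relabelling of input and output -/
theorem holevo_relabel {d' e' : Type*} [Fintype d'] [DecidableEq d'] [Fintype e'] [DecidableEq e']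
    {Ψ : Matrix d d ℂ → Matrix e e ℂ} (hΨ : IsChannel Ψ) (f : d ≃ d') (g : e' ≃ e)
    {m : ℕ} {q : Fin m → ℝ} {ρ : Fin m → Matrix d' d' ℂ} (h : IsEnsemble q ρ) :
    holevoInfo (fun M : Matrix d' d' ℂ => (Ψ (M.submatrix f f)).submatrix g g) q ρ =
      holevoInfo Ψ q (fun a => (ρ a).submatrix f f) := by
  unfold holevoInfo
  have hd : ∀ a, IsDensity (Ψ ((ρ a).submatrix f f)) := fun a =>
    channel_density hΨ (density_relabel (h.2.2 a) f)
  have h1 : ∀ a, vnEntropy ((Ψ ((ρ a).submatrix f f)).submatrix g g) =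
      vnEntropy (Ψ ((ρ a).submatrix f f)) := fun a => vn_reindex (hd a).1.1 g
  simp only [h1]
  have h2 : (∑ a, (q a : ℂ) • (Ψ ((ρ a).submatrix f f)).submatrix g g) =
      (∑ a, (q a : ℂ) • (Ψ ((ρ a).submatrix f f))).submatrix g g := by
    ext x y
    rw [Matrix.sum_apply, submatrix_apply, Matrix.sum_apply]
    rfl
  rw [h2, vn_reindex]
  apply Matrix.IsHermitian.ext_iff.mpr
  intro i j
  rw [Matrix.sum_apply, Matrix.sum_apply, star_sum]
  refine Finset.sum_congr rfl fun a _ => ?_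
  rw [Matrix.smul_apply, Matrix.smul_apply, smul_eq_mul, smul_eq_mul, star_mul']
  rw [(hd a).1.1.apply]
  simp

end General

/-- `Bool × (Fin n → Bool) ≃ (Fin (n+1) → Bool)` -/
def fe (n : ℕ) : Bool × (Fin n → Bool) ≃ (Fin (n + 1) → Bool) :=
  Fin.consEquiv (fun _ => Bool)

theorem fe_zero {n : ℕ} (x : Bool × (Fin n → Bool)) : fe n x 0 = x.1 := rfl

theorem fe_succ {n : ℕ} (x : Bool × (Fin n → Bool)) (i : Fin n) : fe n x i.succ = x.2 i := by
  simp [fe, Fin.consEquiv]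

theorem power_succ (n : ℕ) (Φ : Matrix Bool Bool ℂ → Matrix Bool Bool ℂ)
    (M : Matrix (Fin (n + 1) → Bool) (Fin (n + 1) → Bool) ℂ) :
    qubitPower (n + 1) Φ M =
      (qubitTensor Φ (qubitPower n Φ) (M.submatrix (fe n) (fe n))).submatrix
        (fe n).symm (fe n).symm := by
  have key : (qubitPower (n + 1) Φ M).submatrix (fe n) (fe n) =
      qubitTensor Φ (qubitPower n Φ) (M.submatrix (fe n) (fe n)) := by
    ext x y
    show ∑ σ' : Fin (n + 1) → Bool, ∑ τ' : Fin (n + 1) → Bool,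
      (∏ i, qubitCoeff Φ ((fe n x) i) ((fe n y) i) (σ' i) (τ' i)) * M σ' τ' =
      ∑ s' : Bool, ∑ t' : Bool, qubitCoeff Φ x.1 y.1 s' t' *
        ∑ σ' : Fin n → Bool, ∑ τ' : Fin n → Bool,
          (∏ i, qubitCoeff Φ (x.2 i) (y.2 i) (σ' i) (τ' i)) * M (fe n (s', σ')) (fe n (t', τ'))
    rw [← Equiv.sum_comp (fe n), Fintype.sum_prod_type]
    refine Finset.sum_congr rfl fun s' _ => ?_
    have h1 : ∀ σ' : Fin n → Bool, ∑ τ' : Fin (n + 1) → Bool,
        (∏ i, qubitCoeff Φ ((fe n x) i) ((fe n y) i) ((fe n (s', σ')) i) (τ' i)) *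
          M (fe n (s', σ')) τ' = ∑ t' : Bool, ∑ τ' : Fin n → Bool,
          qubitCoeff Φ x.1 y.1 s' t' * ((∏ i, qubitCoeff Φ (x.2 i) (y.2 i) (σ' i) (τ' i)) *
            M (fe n (s', σ')) (fe n (t', τ'))) := by
      intro σ'
      rw [← Equiv.sum_comp (fe n), Fintype.sum_prod_type]
      refine Finset.sum_congr rfl fun t' _ => Finset.sum_congr rfl fun τ' _ => ?_
      rw [Fin.prod_univ_succ]
      simp only [fe_zero, fe_succ]
      ring
    simp only [h1]
    rw [Finset.sum_comm]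
    refine Finset.sum_congr rfl fun t' _ => ?_
    rw [Finset.mul_sum]
    refine Finset.sum_congr rfl fun σ' _ => ?_
    rw [Finset.mul_sum]
  rw [← key]
  ext x y
  simp

theorem power_zero (Φ : Matrix Bool Bool ℂ → Matrix Bool Bool ℂ)
    (M : Matrix (Fin 0 → Bool) (Fin 0 → Bool) ℂ) : qubitPower 0 Φ M = M := by
  ext x y
  unfold qubitPower
  rw [of_apply, Fintype.sum_unique, Fintype.sum_unique, Fin.prod_univ_zero, one_mul]
  exact congrArg₂ M (Subsingleton.elim _ _) (Subsingleton.elim _ _)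

theorem channel_power {γ ν : ℝ} (hγ : γ ∈ Set.Icc (0:ℝ) 1) (hν : ν ∈ Set.Icc (0:ℝ) 1) (n : ℕ) :
    IsChannel (qubitPower n (gadMap γ ν)) := by
  induction n with
  | zero => exact channel_id_like (power_zero _)
  | succ n ih =>
    have h := channel_relabel (channel_tensor hγ hν ih) (fe n) (fe n).symm
    have h2 : qubitPower (n + 1) (gadMap γ ν) = (fun M => (qubitTensor (gadMap γ ν)
        (qubitPower n (gadMap γ ν)) (M.submatrix (fe n) (fe n))).submatrix
        (fe n).symm (fe n).symm) := funext (power_succ n _)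
    rw [h2]
    exact h

theorem holevo_succ {γ ν : ℝ} (hγ : γ ∈ Set.Icc (0:ℝ) 1) (hν : ν ∈ Set.Icc (0:ℝ) 1) (n : ℕ)
    {m : ℕ} {q : Fin m → ℝ} {ρ : Fin m → Matrix (Fin (n + 1) → Bool) (Fin (n + 1) → Bool) ℂ}
    (h : IsEnsemble q ρ) :
    holevoInfo (qubitPower (n + 1) (gadMap γ ν)) q ρ =
      holevoInfo (qubitTensor (gadMap γ ν) (qubitPower n (gadMap γ ν))) q
        (fun a => (ρ a).submatrix (fe n) (fe n)) := by
  have h2 : qubitPower (n + 1) (gadMap γ ν) = (fun M => (qubitTensor (gadMap γ ν)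
      (qubitPower n (gadMap γ ν)) (M.submatrix (fe n) (fe n))).submatrix
      (fe n).symm (fe n).symm) := funext (power_succ n _)
  rw [h2]
  exact holevo_relabel (channel_tensor hγ hν (channel_power hγ hν n)) (fe n) (fe n).symm h

/-- in dimension one the entropy of a density matrix vanishes -/
theorem vn_unique {d : Type*} [Fintype d] [DecidableEq d] [Unique d] {ρ : Matrix d d ℂ}
    (hρ : IsDensity ρ) : vnEntropy ρ = 0 := by
  have h1 : ρ = diagonal (fun _ => ((1 : ℝ) : ℂ)) := by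
    ext i j
    have hi : i = default := Subsingleton.elim _ _
    have hj : j = default := Subsingleton.elim _ _
    subst hi; subst hj
    have := hρ.2
    rw [Matrix.trace, Fintype.sum_unique] at this
    simpa using this
  rw [h1, vn_diagonal]
  simp

theorem holevo_zero {γ ν : ℝ} {m : ℕ} {q : Fin m → ℝ}
    {ρ : Fin m → Matrix (Fin 0 → Bool) (Fin 0 → Bool) ℂ} (h : IsEnsemble q ρ) :
    holevoInfo (qubitPower 0 (gadMap γ ν)) q ρ = 0 := by
  unfold holevoInfo
  simp only [power_zero]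
  rw [vn_unique (ensemble_density h)]
  simp only [vn_unique (h.2.2 _)]
  simp

theorem exists_ensemble_zero : ∃ (m : ℕ) (q : Fin m → ℝ)
    (ρ : Fin m → Matrix (Fin 0 → Bool) (Fin 0 → Bool) ℂ), IsEnsemble q ρ := by
  refine ⟨1, fun _ => 1, fun _ => dflt _, ?_, ?_, ?_⟩
  · intro a; exact zero_le_one
  · simp
  · intro a; exact dflt_density

/-! ### the induction -/

/-- upper bound for the tensor product -/
def LemA : Prop :=
  ∀ (γ ν : ℝ), γ ∈ Set.Icc (0 : ℝ) 1 → ν ∈ Set.Icc (0 : ℝ) 1 →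
  ∀ (d e : Type) [Fintype d] [Fintype e] [DecidableEq d] [DecidableEq e] [Nonempty d]
    (Ψ : Matrix d d ℂ → Matrix e e ℂ), IsChannel Ψ →
    ∀ (m : ℕ) (q : Fin m → ℝ) (ρ : Fin m → Matrix (Bool × d) (Bool × d) ℂ), IsEnsemble q ρ →
      ∃ p ∈ Set.Icc (0 : ℝ) 1, ∃ (m₂ : ℕ) (q₂ : Fin m₂ → ℝ) (ρ₂ : Fin m₂ → Matrix d d ℂ),
        IsEnsemble q₂ ρ₂ ∧
          holevoInfo (qubitTensor (gadMap γ ν) Ψ) q ρ ≤ gadRate γ ν p + holevoInfo Ψ q₂ ρ₂

/-- product ensembles -/
def LemB : Prop :=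
  ∀ (γ ν : ℝ), γ ∈ Set.Icc (0 : ℝ) 1 → ν ∈ Set.Icc (0 : ℝ) 1 →
  ∀ (d e : Type) [Fintype d] [Fintype e] [DecidableEq d] [DecidableEq e] [Nonempty d]
    (Ψ : Matrix d d ℂ → Matrix e e ℂ), IsChannel Ψ →
    ∀ (m₁ : ℕ) (q₁ : Fin m₁ → ℝ) (ρ₁ : Fin m₁ → Matrix Bool Bool ℂ)
      (m₂ : ℕ) (q₂ : Fin m₂ → ℝ) (ρ₂ : Fin m₂ → Matrix d d ℂ), IsEnsemble q₁ ρ₁ → IsEnsemble q₂ ρ₂ →
      ∃ (m : ℕ) (q : Fin m → ℝ) (ρ : Fin m → Matrix (Bool × d) (Bool × d) ℂ), IsEnsemble q ρ ∧
        holevoInfo (gadMap γ ν) q₁ ρ₁ + holevoInfo Ψ q₂ ρ₂ ≤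
          holevoInfo (qubitTensor (gadMap γ ν) Ψ) q ρ

theorem upper (hA : LemA) {γ ν : ℝ} (hγ : γ ∈ Set.Icc (0 : ℝ) 1) (hν : ν ∈ Set.Icc (0 : ℝ) 1)
    (n : ℕ) (m : ℕ) (q : Fin m → ℝ) (ρ : Fin m → Matrix (Fin n → Bool) (Fin n → Bool) ℂ)
    (h : IsEnsemble q ρ) : ∃ p ∈ Set.Icc (0 : ℝ) 1,
          holevoInfo (qubitPower n (gadMap γ ν)) q ρ ≤ n * gadRate γ ν p := by
  induction n generalizing m q with
  | zero =>
    refine ⟨0, ⟨le_refl _, zero_le_one⟩, ?_⟩
    rw [holevo_zero h]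
    simp
  | succ n ih =>
    obtain ⟨p, hp, m₂, q₂, ρ₂, h₂, hle⟩ := hA γ ν hγ hν _ _ (qubitPower n (gadMap γ ν))
      (channel_power hγ hν n) m q (fun a => (ρ a).submatrix (fe n) (fe n))
      (ensemble_relabel h (fe n))
    obtain ⟨p', hp', hle'⟩ := ih m₂ q₂ ρ₂ h₂
    rw [holevo_succ hγ hν n h]
    have hn : (0 : ℝ) ≤ (n : ℝ) := Nat.cast_nonneg n
    rcases le_total (gadRate γ ν p) (gadRate γ ν p') with hc | hc
    · refine ⟨p', hp', ?_⟩
      push_cast
      nlinarith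
    · refine ⟨p, hp, ?_⟩
      push_cast
      have := mul_le_mul_of_nonneg_left hc hn
      nlinarith

theorem lower (hB : LemB) {γ ν : ℝ} (hγ : γ ∈ Set.Icc (0 : ℝ) 1) (hν : ν ∈ Set.Icc (0 : ℝ) 1)
    (n : ℕ) (p : ℝ) (hp : p ∈ Set.Icc (0 : ℝ) 1) : ∃ (m : ℕ) (q : Fin m → ℝ)
        (ρ : Fin m → Matrix (Fin n → Bool) (Fin n → Bool) ℂ),
        IsEnsemble q ρ ∧ n * gadRate γ ν p ≤ holevoInfo (qubitPower n (gadMap γ ν)) q ρ := by
  induction n with
  | zero =>
    obtain ⟨m, q, ρ, h⟩ := exists_ensemble_zero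
    refine ⟨m, q, ρ, h, ?_⟩
    rw [holevo_zero h]
    simp
  | succ n ih =>
    obtain ⟨m₂, q₂, ρ₂, h₂, hle⟩ := ih
    obtain ⟨q₁, ρ₁, h₁, heq⟩ := lemC hγ hν hp
    obtain ⟨m, q, ρ, h, hle2⟩ := hB γ ν hγ hν _ _ (qubitPower n (gadMap γ ν))
      (channel_power hγ hν n) 2 q₁ ρ₁ m₂ q₂ ρ₂ h₁ h₂
    have h3 := ensemble_relabel h (fe n).symm
    refine ⟨m, q, _, h3, ?_⟩
    rw [holevo_succ hγ hν n h3]
    have h4 : (fun a => ((ρ a).submatrix (fe n).symm (fe n).symm).submatrix (fe n) (fe n)) = ρ := by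
      funext a
      ext x y
      simp
    rw [h4]
    rw [heq] at hle2
    push_cast
    linarith

end Crest.Agent.H23Pow
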