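import Crest.Agent.H23RyProb
import Crest.Agent.H3RyAsy
import Crest.Agent.H28RyGeo

/-!
# Module K of the Ryser project (S0045, S0046): killing lemmas
-/

set_option autoImplicit false
set_option linter.unusedSectionVars false
set_option linter.unusedVariables false

namespace Crest.Agent.H23RyKill
open Finset Crest.Agent.H3Ry Crest.Agent.H23RyProb

section K
variable {F : Type*} [Field F] [Fintype F] [DecidableEq F] {N : ℕ}

theorem prod_le_avg_pow {β : Type*} (s : Finset β) (z : β → ℝ) (hz : ∀ i ∈ s, 0 ≤ z i)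
    (B : ℝ) (hB : ∑ i ∈ s, z i ≤ B) (hs : 0 < s.card) :
    ∏ i ∈ s, z i ≤ (B / s.card) ^ s.card := by
  have hsr : (0 : ℝ) < (s.card : ℝ) := by exact_mod_cast hs
  have h := Real.geom_mean_le_arith_mean s (fun _ => (1 : ℝ)) z (fun _ _ => zero_le_one)
    (by simpa using hsr) hz
  simp only [Real.rpow_one, sum_const, nsmul_eq_mul, mul_one, one_mul] at h
  have h1 : (∏ i ∈ s, z i) = ((∏ i ∈ s, z i) ^ ((s.card : ℝ)⁻¹)) ^ s.card := by
    rw [← Real.rpow_natCast, ← Real.rpow_mul (prod_nonneg hz), inv_mul_cancel₀ hsr.ne',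
      Real.rpow_one]
  rw [h1]
  have h0 : 0 ≤ (∏ i ∈ s, z i) ^ ((s.card : ℝ)⁻¹) := Real.rpow_nonneg (prod_nonneg hz) _
  refine pow_le_pow_left₀ h0 (h.trans ?_) _
  exact div_le_div_of_nonneg_right hB hsr.le

/-- one layer: many lines of the layer `v` are poor for the fixed weight `f` -/
theorem poor_prob (f : F × F → ℝ) (hf : ∀ P, 0 ≤ f P) (K : ℝ) (hK0 : 0 ≤ K)
    (hK : ∑ P, f P ^ 2 ≤ K * ∑ P, f P) (hpos : 0 < ∑ P, f P) (v : Bool)
    (I : Finset (Option F)) (n : ℕ) (hn : 1 ≤ n) :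
    PP (fun ω : Option F × Bool → F => n ≤ (I.filter (fun d =>
        ∑ P ∈ pts (sl ω (d, v)), f P < (∑ P, f P) / (2 * Fintype.card F))).card)
      ≤ 2 ^ I.card * (4 * (Fintype.card F : ℝ) ^ 2 * K / ((∑ P, f P) * n)) ^ n := by
  classical
  set S := ∑ P, f P with hS
  set q : ℝ := (Fintype.card F : ℝ) with hq
  have hq0 : 0 < q := by
    have : 0 < Fintype.card F := Fintype.card_pos
    rw [hq]; exact_mod_cast this
  set pl : Option F → Finset F := fun d => univ.filter (fun c : F =>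
    ∑ P ∈ pts (d, c), f P < S / (2 * q)) with hpl
  have hn0 : (0 : ℝ) < n := by exact_mod_cast hn
  -- union bound
  have h1 : PP (fun ω : Option F × Bool → F => n ≤ (I.filter (fun d =>
        ∑ P ∈ pts (sl ω (d, v)), f P < S / (2 * q))).card)
      ≤ ∑ I₁ ∈ I.powersetCard n, PP (fun ω : Option F × Bool → F =>
          ∀ d ∈ I₁, ω (d, v) ∈ pl d) := by
    refine le_trans (PP_mono fun ω hω => ?_) (PP_exists_le (I.powersetCard n)
      (fun I₁ (ω : Option F × Bool → F) => ∀ d ∈ I₁, ω (d, v) ∈ pl d))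
    obtain ⟨t, ht, htc⟩ := Finset.exists_subset_card_eq hω
    refine ⟨t, mem_powersetCard.mpr ⟨ht.trans (filter_subset _ _), htc⟩, fun d hd => ?_⟩
    have := (mem_filter.mp (ht hd)).2
    simp only [hpl, mem_filter, mem_univ, true_and]
    exact this
  -- number of poor lines
  have h2 : ∀ I₁ : Finset (Option F), (∑ d ∈ I₁, ((pl d).card : ℝ)) ≤ 4 * q ^ 3 * K / S := by
    intro I₁
    have h3 := Crest.Agent.H3Ry.card_poor f hf K hK hpos
    refine le_trans ?_ h3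
    have h4 : ((univ.filter (fun l : Option F × F =>
        ∑ P ∈ pts l, f P < (∑ P, f P) / (2 * Fintype.card F))).card : ℝ)
        = ∑ d : Option F, ((pl d).card : ℝ) := by
      rw [card_filter, Fintype.sum_prod_type]
      push_cast
      refine sum_congr rfl fun d _ => ?_
      simp only [hpl, card_filter]
      push_cast
      rfl
    rw [h4]
    exact sum_le_sum_of_subset_of_nonneg (subset_univ _) (fun _ _ _ => Nat.cast_nonneg _)
  have h5 : ∀ I₁ ∈ I.powersetCard n, PP (fun ω : Option F × Bool → F =>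
      ∀ d ∈ I₁, ω (d, v) ∈ pl d) ≤ (4 * q ^ 2 * K / (S * n)) ^ n := by
    intro I₁ hI₁
    have hc : I₁.card = n := (mem_powersetCard.mp hI₁).2
    have h6 := PP_forall_of_dep (ι := Option F × Bool) (α := F) I₁
      (fun d ω => ω (d, v) ∈ pl d) (fun d => {(d, v)})
      (fun d _ ω ω' hω => by simp only [hω (d, v) (mem_singleton_self _)])
      (fun d _ d' _ hdd' => by
        simp only [Function.onFun, disjoint_singleton]
        exact fun h => hdd' (congrArg Prod.fst h))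
    rw [h6]
    simp only [PP_coord]
    have h7 := prod_le_avg_pow I₁ (fun d => ((pl d).card : ℝ) / q) (fun d _ => by positivity)
      (4 * q ^ 3 * K / S / q) (by
        rw [← sum_div]
        exact div_le_div_of_nonneg_right (h2 I₁) hq0.le) (by omega)
    rw [hc] at h7
    refine h7.trans (le_of_eq ?_)
    congr 1
    field_simp
  refine h1.trans ((sum_le_sum h5).trans ?_)
  rw [sum_const, nsmul_eq_mul, card_powersetCard]
  refine mul_le_mul_of_nonneg_right ?_ (by positivity)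
  exact_mod_cast Nat.choose_le_two_pow _ _

/-- summing over the lines of a layer -/
theorem sum_lines_eq (f : F × F → ℝ) (ω : Option F × Bool → F) (I : Finset (Option F)) (v : Bool) :
    ∑ d ∈ I, ∑ P ∈ pts (sl ω (d, v)), f P = ∑ P, f P * (acnt ω I v P : ℝ) := by
  have h1 : ∀ d, ∑ P ∈ pts (sl ω (d, v)), f P
      = ∑ P : F × F, if ω (d, v) = pos d P then f P else 0 := by
    intro d
    rw [← sum_filter]
    refine sum_congr ?_ fun _ _ => rfl
    ext P
    simp only [mem_pts, sl, mem_filter, mem_univ, true_and]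
    exact eq_comm
  simp only [h1]
  rw [sum_comm]
  refine sum_congr rfl fun P _ => ?_
  rw [← sum_filter, sum_const, nsmul_eq_mul, mul_comm]
  rfl

/-- if few lines of the layer are poor, the total weight is large -/
theorem sum_lines_ge (f : F × F → ℝ) (hf : ∀ P, 0 ≤ f P) (ω : Option F × Bool → F)
    (I : Finset (Option F)) (v : Bool) (δ : ℝ)
    (h : ¬ (⌈(1 - δ) * I.card⌉₊ ≤ (I.filter (fun d =>
        ∑ P ∈ pts (sl ω (d, v)), f P < (∑ P, f P) / (2 * Fintype.card F))).card)) :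
    δ * I.card * ((∑ P, f P) / (2 * Fintype.card F)) ≤ ∑ P, f P * (acnt ω I v P : ℝ) := by
  classical
  rw [← sum_lines_eq]
  set c : ℝ := (∑ P, f P) / (2 * Fintype.card F) with hc
  have hc0 : 0 ≤ c := by
    have := sum_nonneg (fun P (_ : P ∈ (univ : Finset (F × F))) => hf P)
    positivity
  push Not at h
  set po := I.filter (fun d => ∑ P ∈ pts (sl ω (d, v)), f P < c) with hpo
  set np := I.filter (fun d => ¬ ∑ P ∈ pts (sl ω (d, v)), f P < c) with hnp
  have h1 : po.card + np.card = I.card := card_filter_add_card_filter_not _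
  have h2 : (po.card : ℝ) < (1 - δ) * I.card := by
    by_contra hcon
    push Not at hcon
    exact absurd (Nat.ceil_le.mpr hcon) (not_le.mpr h)
  have h3 : δ * I.card ≤ np.card := by
    have : (po.card : ℝ) + np.card = I.card := by exact_mod_cast h1
    nlinarith
  calc δ * I.card * c ≤ np.card * c := mul_le_mul_of_nonneg_right h3 hc0
    _ = ∑ d ∈ np, c := by rw [sum_const, nsmul_eq_mul]
    _ ≤ ∑ d ∈ np, ∑ P ∈ pts (sl ω (d, v)), f P := by
        refine sum_le_sum fun d hd => ?_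
        exact not_lt.mp (mem_filter.mp hd).2
    _ ≤ ∑ d ∈ I, ∑ P ∈ pts (sl ω (d, v)), f P :=
        sum_le_sum_of_subset_of_nonneg (filter_subset _ _)
          (fun d _ _ => sum_nonneg fun P _ => hf P)

theorem chi_le_one {χ δ x : ℝ} (hχ : 0 < χ) (hδ' : δ ≤ 1 / 2) (hx : 2 * χ ^ (1 - δ) ≤ x)
    (hx1 : x ≤ 1) : χ ≤ 1 := by
  by_contra h
  push Not at h
  have := Real.one_le_rpow h.le (by linarith : 0 ≤ 1 - δ)
  linarith

theorem pow_bound (k : ℕ) {χ δ x β : ℝ} (hχ : 0 < χ) (hδ' : δ ≤ 1 / 2)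
    (hx : 2 * χ ^ (1 - δ) ≤ x) (hx1 : x ≤ 1) (hβ0 : 0 ≤ β) (hβ : β ≤ χ) :
    2 ^ k * β ^ (⌈(1 - δ) * k⌉₊) ≤ x ^ k := by
  have h1 := chi_le_one hχ hδ' hx hx1
  set n := ⌈(1 - δ) * k⌉₊ with hn
  have h2 : (1 - δ) * k ≤ (n : ℝ) := Nat.le_ceil _
  have h3 : β ^ n ≤ (χ ^ (1 - δ)) ^ k := by
    calc β ^ n ≤ χ ^ n := pow_le_pow_left₀ hβ0 hβ _
      _ = χ ^ (n : ℝ) := (Real.rpow_natCast _ _).symm
      _ ≤ χ ^ ((1 - δ) * k) := Real.rpow_le_rpow_of_exponent_ge hχ h1 h2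
      _ = (χ ^ (1 - δ)) ^ k := by rw [Real.rpow_mul hχ.le, Real.rpow_natCast]
  calc 2 ^ k * β ^ n ≤ 2 ^ k * (χ ^ (1 - δ)) ^ k := mul_le_mul_of_nonneg_left h3 (by positivity)
    _ = (2 * χ ^ (1 - δ)) ^ k := by rw [mul_pow]
    _ ≤ x ^ k := pow_le_pow_left₀ (by positivity) hx _

theorem acnt_congr {ω ω' : Option F × Bool → F} {I : Finset (Option F)} {v : Bool}
    (h : ∀ d ∈ I, ω (d, v) = ω' (d, v)) (P : F × F) : acnt ω I v P = acnt ω' I v P := by
  unfold acnt
  congr 1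
  refine filter_congr fun d hd => ?_
  rw [h d hd]

theorem Rm_congr {ω ω' : Option F × Bool → F} {T : Finset (F × F)} {I₀ I₁ : Finset (Option F)}
    (h0 : ∀ d ∈ I₀, ω (d, false) = ω' (d, false)) (h1 : ∀ d ∈ I₁, ω (d, true) = ω' (d, true)) :
    Rm T I₀ I₁ ω = Rm T I₀ I₁ ω' := by
  unfold Rm
  refine sum_congr rfl fun P _ => ?_
  rw [acnt_congr h0, acnt_congr h1]

/-- one group -/
theorem K1_one (T : Finset (F × F)) (hT : T.Nonempty) (I₀ I₁ : Finset (Option F))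
    (δ nm L x : ℝ) (hδ : 0 < δ) (hδ' : δ ≤ 1 / 2) (hL : 1 ≤ L) (hnm : 0 < nm)
    (hnm' : nm ≤ Fintype.card F) (hn0 : nm ≤ I₀.card) (hn1 : nm ≤ I₁.card)
    (hx : 2 * (16 * (Fintype.card F : ℝ) ^ 3 * L / (δ * nm ^ 2 * T.card)) ^ (1 - δ) ≤ x)
    (hx1 : x ≤ 1) :
    PP (fun ω : Option F × Bool → F => (∀ P, (acnt ω I₀ false P : ℝ) ≤ L) ∧
        (Rm T I₀ I₁ ω : ℝ) <
          δ ^ 2 * I₀.card * I₁.card * T.card / (4 * (Fintype.card F : ℝ) ^ 2))
      ≤ 2 * x ^ (min I₀.card I₁.card) := by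
  classical
  set q : ℝ := (Fintype.card F : ℝ) with hq
  have hq0 : 0 < q := by
    have : 0 < Fintype.card F := Fintype.card_pos
    rw [hq]; exact_mod_cast this
  have hT0 : (0 : ℝ) < T.card := by exact_mod_cast hT.card_pos
  set χ : ℝ := 16 * q ^ 3 * L / (δ * nm ^ 2 * T.card) with hχdef
  have hχ : 0 < χ := by positivity
  have ha0 : (0 : ℝ) < I₀.card := lt_of_lt_of_le hnm hn0
  have hb0 : (0 : ℝ) < I₁.card := lt_of_lt_of_le hnm hn1
  have hx0 : 0 ≤ x := le_trans (by positivity) hx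
  set n₀ := ⌈(1 - δ) * I₀.card⌉₊ with hn₀
  set n₁ := ⌈(1 - δ) * I₁.card⌉₊ with hn₁
  have hn₀' : (I₀.card : ℝ) / 2 ≤ n₀ := by
    refine le_trans ?_ (Nat.le_ceil _)
    nlinarith
  have hn₁' : (I₁.card : ℝ) / 2 ≤ n₁ := by
    refine le_trans ?_ (Nat.le_ceil _)
    nlinarith
  have hn₀1 : 1 ≤ n₀ := by
    have : (0 : ℝ) < n₀ := by linarith
    have : 0 < n₀ := by exact_mod_cast this
    omega
  have hn₁1 : 1 ≤ n₁ := by
    have : (0 : ℝ) < n₁ := by linarith
    have : 0 < n₁ := by exact_mod_cast this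
    omega
  -- stage 0
  set f₀ : F × F → ℝ := fun P => if P ∈ T then 1 else 0 with hf₀
  have hf₀s : ∑ P, f₀ P = T.card := by
    simp [hf₀]
  have hf₀0 : ∀ P, 0 ≤ f₀ P := fun P => by simp only [hf₀]; split_ifs <;> norm_num
  have hf₀q : ∑ P, f₀ P ^ 2 ≤ 1 * ∑ P, f₀ P := by
    rw [one_mul]
    refine sum_le_sum fun P _ => ?_
    simp only [hf₀]; split_ifs <;> norm_num
  set A0 : (Option F × Bool → F) → Prop := fun ω => n₀ ≤ (I₀.filter (fun d =>
        ∑ P ∈ pts (sl ω (d, false)), f₀ P < (∑ P, f₀ P) / (2 * Fintype.card F))).card with hA0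
  have hstage0 : PP A0 ≤ x ^ (min I₀.card I₁.card) := by
    have h1 := poor_prob f₀ hf₀0 1 zero_le_one hf₀q (by rw [hf₀s]; exact hT0) false I₀ n₀ hn₀1
    refine h1.trans ?_
    rw [hf₀s]
    have h2 : 4 * (Fintype.card F : ℝ) ^ 2 * 1 / ((T.card : ℝ) * n₀) ≤ χ := by
      rw [hχdef, ← hq, mul_one]
      have hA : nm / 2 ≤ (n₀ : ℝ) := by linarith
      calc 4 * q ^ 2 / ((T.card : ℝ) * n₀) ≤ 4 * q ^ 2 / ((T.card : ℝ) * (nm / 2)) := by
            apply div_le_div_of_nonneg_left (by positivity) (by positivity)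
            exact mul_le_mul_of_nonneg_left hA hT0.le
        _ ≤ 16 * q ^ 3 * L / (δ * nm ^ 2 * T.card) := by
            rw [div_le_div_iff₀ (by positivity) (by positivity)]
            have e1 : δ * nm ≤ 2 * q * L := by nlinarith
            have e2 : 4 * q ^ 2 * (δ * nm ^ 2 * T.card)
                = (δ * nm) * (4 * q ^ 2 * nm * T.card) := by ring
            have e3 : 16 * q ^ 3 * L * ((T.card : ℝ) * (nm / 2))
                = (2 * q * L) * (4 * q ^ 2 * nm * T.card) := by ring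
            rw [e2, e3]
            exact mul_le_mul_of_nonneg_right e1 (by positivity)
    refine (pow_bound I₀.card hχ hδ' hx hx1 (by positivity) h2).trans ?_
    exact pow_le_pow_of_le_one hx0 hx1 (min_le_left _ _)
  -- stage 1
  set A1 : (Option F × Bool → F) → Prop := fun ω => ¬ A0 ω ∧
      (∀ P, (acnt ω I₀ false P : ℝ) ≤ L) ∧
        (Rm T I₀ I₁ ω : ℝ) < δ ^ 2 * I₀.card * I₁.card * T.card / (4 * q ^ 2) with hA1
  have hstage1 : PP A1 ≤ x ^ (min I₀.card I₁.card) := by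
    refine PP_le_of_merge (I₀ ×ˢ {false}) A1 _ fun a => ?_
    have hm0 : ∀ b : Option F × Bool → F, ∀ d ∈ I₀,
        merge (I₀ ×ˢ {false}) a b (d, false) = a (d, false) := by
      intro b d hd
      simp [merge, hd]
    have hm1 : ∀ b : Option F × Bool → F, ∀ d,
        merge (I₀ ×ˢ {false}) a b (d, true) = b (d, true) := by
      intro b d
      simp [merge]
    by_cases hgood : ¬ A0 a ∧ (∀ P, (acnt a I₀ false P : ℝ) ≤ L)
    · obtain ⟨hgA, hgL⟩ := hgood
      set f₁ : F × F → ℝ := fun P => if P ∈ T then (acnt a I₀ false P : ℝ) else 0 with hf₁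
      have hf₁0 : ∀ P, 0 ≤ f₁ P := fun P => by simp only [hf₁]; split_ifs <;> positivity
      have hf₁q : ∑ P, f₁ P ^ 2 ≤ L * ∑ P, f₁ P := by
        rw [mul_sum]
        refine sum_le_sum fun P _ => ?_
        simp only [hf₁]
        split_ifs
        · rw [sq]
          exact mul_le_mul_of_nonneg_right (hgL P) (Nat.cast_nonneg _)
        · simp
      have hf₁s : δ * I₀.card * (T.card / (2 * q)) ≤ ∑ P, f₁ P := by
        have h1 := sum_lines_ge f₀ hf₀0 a I₀ false δ hgA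
        rw [hf₀s] at h1
        refine h1.trans (le_of_eq ?_)
        refine sum_congr rfl fun P _ => ?_
        simp only [hf₀, hf₁]
        split_ifs <;> simp
      have hpos : 0 < ∑ P, f₁ P := lt_of_lt_of_le (by positivity) hf₁s
      have h1 := poor_prob f₁ hf₁0 L (by linarith) hf₁q hpos true I₁ n₁ hn₁1
      refine le_trans (PP_mono fun b hb => ?_) (h1.trans ?_)
      · -- the event implies many poor lines
        by_contra hcon
        have h2 := sum_lines_ge f₁ hf₁0 b I₁ true δ hcon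
        have h3 : ∑ P, f₁ P * (acnt b I₁ true P : ℝ)
            = (Rm T I₀ I₁ (merge (I₀ ×ˢ {false}) a b) : ℝ) := by
          unfold Rm
          push_cast
          have : ∀ P, acnt (merge (I₀ ×ˢ {false}) a b) I₀ false P = acnt a I₀ false P :=
            fun P => acnt_congr (hm0 b) P
          have h4 : ∀ P, acnt (merge (I₀ ×ˢ {false}) a b) I₁ true P = acnt b I₁ true P :=
            fun P => acnt_congr (fun d _ => hm1 b d) P
          simp only [this, h4, hf₁]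
          rw [← sum_filter_add_sum_filter_not univ (fun P => P ∈ T)]
          have e1 : ∑ P ∈ univ.filter (fun P => ¬ P ∈ T),
              (if P ∈ T then (acnt a I₀ false P : ℝ) else 0) * (acnt b I₁ true P : ℝ) = 0 := by
            refine sum_eq_zero fun P hP => ?_
            rw [if_neg (mem_filter.mp hP).2, zero_mul]
          rw [e1, add_zero]
          have e2 : univ.filter (fun P => P ∈ T) = T := by ext P; simp
          rw [e2]
          refine sum_congr rfl fun P hP => ?_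
          rw [if_pos hP]
        rw [h3] at h2
        have h5 := hb.2.2
        have h6 : δ ^ 2 * I₀.card * I₁.card * T.card / (4 * q ^ 2)
            ≤ δ * I₁.card * ((∑ P, f₁ P) / (2 * q)) := by
          calc δ ^ 2 * I₀.card * I₁.card * T.card / (4 * q ^ 2)
              = δ * I₁.card * ((δ * I₀.card * (T.card / (2 * q))) / (2 * q)) := by
                field_simp
                ring
            _ ≤ δ * I₁.card * ((∑ P, f₁ P) / (2 * q)) := by
                refine mul_le_mul_of_nonneg_left ?_ (by positivity)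
                exact div_le_div_of_nonneg_right hf₁s (by positivity)
        linarith
      · have h2 : 4 * (Fintype.card F : ℝ) ^ 2 * L / ((∑ P, f₁ P) * n₁) ≤ χ := by
          rw [hχdef, ← hq]
          have hA : nm / 2 ≤ (n₁ : ℝ) := by linarith
          have hB : δ * nm * (T.card / (2 * q)) ≤ ∑ P, f₁ P := by
            refine le_trans ?_ hf₁s
            have : δ * nm ≤ δ * I₀.card := mul_le_mul_of_nonneg_left hn0 hδ.le
            exact mul_le_mul_of_nonneg_right this (by positivity)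
          calc 4 * q ^ 2 * L / ((∑ P, f₁ P) * n₁)
              ≤ 4 * q ^ 2 * L / ((δ * nm * (T.card / (2 * q))) * (nm / 2)) := by
                apply div_le_div_of_nonneg_left (by positivity) (by positivity)
                exact mul_le_mul hB hA (by positivity) hpos.le
            _ = 16 * q ^ 3 * L / (δ * nm ^ 2 * T.card) := by
                field_simp
                ring
        refine (pow_bound I₁.card hχ hδ' hx hx1 (by positivity) h2).trans ?_
        exact pow_le_pow_of_le_one hx0 hx1 (min_le_right _ _)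
    · -- impossible
      refine le_trans (PP_mono (r := fun _ => False) fun b hb => ?_) ?_
      · apply hgood
        refine ⟨fun hA => hb.1 ?_, fun P => ?_⟩
        · simp only [hA0] at hA ⊢
          have : (I₀.filter (fun d => ∑ P ∈ pts (sl (merge (I₀ ×ˢ {false}) a b) (d, false)), f₀ P
              < (∑ P, f₀ P) / (2 * Fintype.card F)))
              = (I₀.filter (fun d => ∑ P ∈ pts (sl a (d, false)), f₀ P
              < (∑ P, f₀ P) / (2 * Fintype.card F))) := by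
            refine filter_congr fun d hd => ?_
            simp only [sl, hm0 b d hd]
          rw [this]
          exact hA
        · have := hb.2.1 P
          rwa [acnt_congr (hm0 b)] at this
      · rw [PP_false]
        positivity
  -- conclusion
  have hfin : PP (fun ω : Option F × Bool → F => (∀ P, (acnt ω I₀ false P : ℝ) ≤ L) ∧
        (Rm T I₀ I₁ ω : ℝ) < δ ^ 2 * I₀.card * I₁.card * T.card / (4 * q ^ 2))
      ≤ PP A0 + PP A1 := by
    refine le_trans (PP_mono fun ω hω => ?_) (PP_or_le A0 A1)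
    by_cases hA : A0 ω
    · exact Or.inl hA
    · exact Or.inr ⟨hA, hω⟩
  linarith

theorem K1 (Y : Sys F N) (T : Finset (F × F)) (hT : T.Nonempty) (K : Finset (Fin N))
    (I : Fin N → Bool → Finset (Option F)) (hI : ∀ j ∈ K, ∀ v, I j v ⊆ Y.B j)
    (δ nm L x : ℝ) (hδ : 0 < δ) (hδ' : δ ≤ 1 / 2) (hL : 1 ≤ L) (hnm : 0 < nm)
    (hnm' : nm ≤ Fintype.card F) (hn : ∀ j ∈ K, ∀ v, nm ≤ (I j v).card)
    (hx : 2 * (16 * (Fintype.card F : ℝ) ^ 3 * L / (δ * nm ^ 2 * T.card)) ^ (1 - δ) ≤ x)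
    (hx1 : x ≤ 1) :
    PP (fun ω : Option F × Bool → F =>
        (∀ P, ∀ j ∈ K, (acnt ω (I j false) false P : ℝ) ≤ L) ∧
        ∀ j ∈ K, (Rm T (I j false) (I j true) ω : ℝ) <
          δ ^ 2 * (I j false).card * (I j true).card * T.card / (4 * (Fintype.card F : ℝ) ^ 2))
      ≤ ∏ j ∈ K, 2 * x ^ (min (I j false).card (I j true).card) := by
  classical
  set E : Fin N → (Option F × Bool → F) → Prop := fun j ω =>
    (∀ P, (acnt ω (I j false) false P : ℝ) ≤ L) ∧
        (Rm T (I j false) (I j true) ω : ℝ) <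
          δ ^ 2 * (I j false).card * (I j true).card * T.card / (4 * (Fintype.card F : ℝ) ^ 2)
    with hE
  have h1 : PP (fun ω : Option F × Bool → F => ∀ j ∈ K, E j ω) = ∏ j ∈ K, PP (E j) := by
    refine PP_forall_of_dep K E (fun j => (Y.B j) ×ˢ univ) ?_ ?_
    · intro j hj ω ω' hω
      have h0 : ∀ v, ∀ d ∈ I j v, ω (d, v) = ω' (d, v) := fun v d hd =>
        hω (d, v) (by simpa using hI j hj v hd)
      simp only [hE]
      rw [Rm_congr (h0 false) (h0 true)]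
      simp only [acnt_congr (h0 false)]
    · intro j _ j' _ hjj'
      simp only [Function.onFun]
      rw [Finset.disjoint_left]
      rintro ⟨d, v⟩ h1 h2
      simp only [mem_product, Sys.B, mem_filter, mem_univ, true_and, and_true] at h1 h2
      exact hjj' (h1.symm.trans h2)
  refine le_trans (PP_mono fun ω hω => ?_) (h1.le.trans ?_)
  · intro j hj
    exact ⟨fun P => hω.1 P j hj, hω.2 j hj⟩
  · refine prod_le_prod (fun j _ => PP_nonneg _) fun j hj => ?_
    exact K1_one T hT (I j false) (I j true) δ nm L x hδ hδ' hL hnm hnm' (hn j hj false)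
      (hn j hj true) hx hx1

theorem exists_top {β : Type*} [DecidableEq β] (I : Finset β) (w : β → ℝ)
    (hw : ∀ i ∈ I, 0 ≤ w i) :
    ∀ j : ℕ, j ≤ I.card → ∃ s ⊆ I, s.card = I.card - j ∧
      ((I.card - j : ℕ) : ℝ) * ∑ i ∈ I, w i ≤ (I.card : ℝ) * ∑ i ∈ s, w i := by
  intro j
  induction j with
  | zero => intro _; exact ⟨I, Subset.refl _, by simp, by simp⟩
  | succ j ih =>
    intro hj
    obtain ⟨s, hsI, hsc, hs⟩ := ih (by omega)
    have hne : s.Nonempty := by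
      rw [← card_pos]; omega
    obtain ⟨x, hx, hmin⟩ := exists_min_image s w hne
    refine ⟨s.erase x, (erase_subset _ _).trans hsI, by rw [card_erase_of_mem hx]; omega, ?_⟩
    have h1 : ∑ i ∈ s.erase x, w i + w x = ∑ i ∈ s, w i := sum_erase_add _ _ hx
    have h2 : (s.card : ℝ) * w x ≤ ∑ i ∈ s, w i := by
      rw [← nsmul_eq_mul]
      exact card_nsmul_le_sum s w (w x) (fun i hi => hmin i hi)
    set k : ℕ := I.card - (j + 1) with hk
    have hk1 : I.card - j = k + 1 := by omega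
    rw [hk1] at hs hsc
    rw [hsc] at h2
    push_cast at hs h2
    have hSs0 : 0 ≤ ∑ i ∈ s, w i := sum_nonneg fun i hi => hw i (hsI hi)
    have hn0 : (0 : ℝ) ≤ I.card := Nat.cast_nonneg _
    -- (k+1) * k * S ≤ n k Σ_s ; (k+1) Σ_{s'} ≥ k Σ_s
    have h3 : (k : ℝ) * ∑ i ∈ s, w i ≤ (k + 1) * ∑ i ∈ s.erase x, w i := by nlinarith
    have h4 : (k : ℝ) * ((k + 1) * ∑ i ∈ I, w i) ≤ k * (I.card * ∑ i ∈ s, w i) :=
      mul_le_mul_of_nonneg_left hs (Nat.cast_nonneg _)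
    have h5 : (I.card : ℝ) * ((k : ℝ) * ∑ i ∈ s, w i)
        ≤ I.card * ((k + 1) * ∑ i ∈ s.erase x, w i) := mul_le_mul_of_nonneg_left h3 hn0
    have hk0 : (0 : ℝ) < (k : ℝ) + 1 := by positivity
    by_contra hcon
    push Not at hcon
    have := mul_lt_mul_of_pos_left hcon hk0
    nlinarith

/-- a subset of a proportion `δ` carrying a proportion `δ` of the weight -/
theorem exists_top_ceil {β : Type*} [DecidableEq β] (I : Finset β) (w : β → ℝ)
    (hw : ∀ i ∈ I, 0 ≤ w i) (δ : ℝ) (hδ : 0 < δ) (hδ1 : δ ≤ 1) :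
    ∃ s ∈ I.powersetCard ⌈δ * I.card⌉₊, δ * ∑ i ∈ I, w i ≤ ∑ i ∈ s, w i := by
  have hc : ⌈δ * I.card⌉₊ ≤ I.card := by
    refine Nat.ceil_le.mpr ?_
    have : (0 : ℝ) ≤ I.card := Nat.cast_nonneg _
    nlinarith
  obtain ⟨s, hsI, hsc, hs⟩ := exists_top I w hw (I.card - ⌈δ * I.card⌉₊) (Nat.sub_le _ _)
  have e : I.card - (I.card - ⌈δ * I.card⌉₊) = ⌈δ * I.card⌉₊ := by omega
  rw [e] at hsc hs
  refine ⟨s, mem_powersetCard.mpr ⟨hsI, hsc⟩, ?_⟩
  have hS0 : 0 ≤ ∑ i ∈ I, w i := sum_nonneg hw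
  rcases Nat.eq_zero_or_pos I.card with h0 | hpos
  · have hI : I = ∅ := card_eq_zero.mp h0
    subst hI
    have : s = ∅ := subset_empty.mp hsI
    subst this
    simp
  · have hposR : (0 : ℝ) < I.card := by exact_mod_cast hpos
    have h1 : δ * I.card * ∑ i ∈ I, w i ≤ I.card * ∑ i ∈ s, w i :=
      le_trans (mul_le_mul_of_nonneg_right (Nat.le_ceil _) hS0) hs
    have h2 : (I.card : ℝ) * (δ * ∑ i ∈ I, w i) ≤ I.card * ∑ i ∈ s, w i := by
      linarith
    exact le_of_mul_le_mul_left h2 hposR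

theorem acnt_le_hs (ω : Option F × Bool → F) (J : Finset (Option F × Bool))
    (I : Finset (Option F)) (v : Bool) (hI : ∀ d ∈ I, (d, v) ∉ J) (P : F × F) :
    acnt ω I v P ≤ (hs ω P \ J).card := by
  unfold acnt hs
  refine card_le_card_of_injOn (fun d => (d, v)) (fun d hd => ?_) (fun d _ d' _ h => ?_)
  · have h1 := (mem_filter.mp (Finset.mem_coe.mp hd)).2
    have h2 := hI d (mem_filter.mp (Finset.mem_coe.mp hd)).1
    simp [h1, h2]
  · exact congrArg Prod.fst h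

theorem av_notMem (Y : Sys F N) (J : Finset (Option F × Bool)) (j : Fin N) (v : Bool) :
    ∀ d ∈ Y.av J j v, (d, v) ∉ J := fun _ hd => (mem_filter.mp hd).2

theorem Rm_expand0 (T : Finset (F × F)) (I₀ I₁ : Finset (Option F)) (ω : Option F × Bool → F) :
    (Rm T I₀ I₁ ω : ℝ) = ∑ d ∈ I₀, ∑ P ∈ T,
      (if ω (d, false) = pos d P then (acnt ω I₁ true P : ℝ) else 0) := by
  unfold Rm
  push_cast
  rw [sum_comm]
  refine sum_congr rfl fun P _ => ?_
  rw [← sum_filter, sum_const, nsmul_eq_mul]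
  rfl

theorem Rm_expand1 (T : Finset (F × F)) (I₀ I₁ : Finset (Option F)) (ω : Option F × Bool → F) :
    (Rm T I₀ I₁ ω : ℝ) = ∑ d ∈ I₁, ∑ P ∈ T,
      (if ω (d, true) = pos d P then (acnt ω I₀ false P : ℝ) else 0) := by
  unfold Rm
  push_cast
  rw [sum_comm]
  refine sum_congr rfl fun P _ => ?_
  rw [← sum_filter, sum_const, nsmul_eq_mul, mul_comm]
  rfl

/-- the points of `T` on a line of `Ia` (layer `false`) and on a line of `Ib` (layer `true`) -/
def TT (T : Finset (F × F)) (Ia Ib : Finset (Option F)) (ω : Option F × Bool → F) :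
    Finset (F × F) :=
  T.filter (fun P => 0 < acnt ω Ia false P ∧ 0 < acnt ω Ib true P)

theorem TT_congr {ω ω' : Option F × Bool → F} {T : Finset (F × F)} {Ia Ib : Finset (Option F)}
    (h0 : ∀ d ∈ Ia, ω (d, false) = ω' (d, false)) (h1 : ∀ d ∈ Ib, ω (d, true) = ω' (d, true)) :
    TT T Ia Ib ω = TT T Ia Ib ω' := by
  unfold TT
  refine filter_congr fun P _ => ?_
  rw [acnt_congr h0, acnt_congr h1]

theorem Rm_le_TT (T : Finset (F × F)) (J : Finset (Option F × Bool)) (Ia Ib : Finset (Option F))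
    (hIa : ∀ d ∈ Ia, (d, false) ∉ J) (hIb : ∀ d ∈ Ib, (d, true) ∉ J) (ω : Option F × Bool → F)
    (M : ℕ) (hM : ∀ P, (hs ω P \ J).card ≤ M) :
    (Rm T Ia Ib ω : ℝ) ≤ (TT T Ia Ib ω).card * (M : ℝ) ^ 2 := by
  unfold Rm TT
  push_cast
  rw [← nsmul_eq_mul, ← sum_const, sum_filter]
  refine sum_le_sum fun P _ => ?_
  have h0 : ((acnt ω Ia false P : ℕ) : ℝ) ≤ M := by
    exact_mod_cast (acnt_le_hs ω J Ia false hIa P).trans (hM P)
  have h1 : ((acnt ω Ib true P : ℕ) : ℝ) ≤ M := by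
    exact_mod_cast (acnt_le_hs ω J Ib true hIb P).trans (hM P)
  by_cases h : 0 < acnt ω Ia false P ∧ 0 < acnt ω Ib true P
  · rw [if_pos h, sq]
    exact mul_le_mul h0 h1 (Nat.cast_nonneg _) (Nat.cast_nonneg _)
  · rw [if_neg h]
    rw [not_and_or] at h
    rcases h with h | h
    · have : acnt ω Ia false P = 0 := by omega
      rw [this]; simp
    · have : acnt ω Ib true P = 0 := by omega
      rw [this]; simp

theorem acnt_pos {ω : Option F × Bool → F} {I : Finset (Option F)} {v : Bool} {P : F × F}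
    (h : 0 < acnt ω I v P) : ∃ d ∈ I, ω (d, v) = pos d P := by
  unfold acnt at h
  obtain ⟨d, hd⟩ := card_pos.mp h
  exact ⟨d, (mem_filter.mp hd).1, (mem_filter.mp hd).2⟩

/-- the event of `K2` for a group which is not killed -/
def GG (Y : Sys F N) (T : Finset (F × F)) (J : Finset (Option F × Bool)) (K : Finset (Fin N))
    (t₁ : ℝ) (Ia Ib : Finset (Option F)) (ω : Option F × Bool → F) : Prop :=
  (∀ P, (hs ω P \ J).card ≤ N) ∧ t₁ ≤ (TT T Ia Ib ω).card ∧
    ∀ j ∈ K, Rm (TT T Ia Ib ω) (Y.av J j false \ Ia) (Y.av J j true \ Ib) ω = 0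

theorem K2_det (Y : Sys F N) (T : Finset (F × F)) (J : Finset (Option F × Bool))
    (K : Finset (Fin N)) (δ nm t₁ : ℝ) (hN : 1 ≤ N) (hδ : 0 < δ) (hδ' : δ ≤ 1 / 4)
    (hnm : 0 < nm) (hn : ∀ j ∈ K, ∀ v, nm ≤ (Y.av J j v).card)
    (ht₁ : t₁ = δ ^ 4 * nm ^ 2 * T.card / (4 * (Fintype.card F : ℝ) ^ 2 * (N : ℝ) ^ 2))
    (ω : Option F × Bool → F) (hload : ∀ P, (hs ω P \ J).card ≤ N)
    (hDR : ∀ P ∈ T, ¬ Y.DR (hs ω P \ J)) :
    ((∀ P, ∀ j ∈ K, (acnt ω (Y.av J j false) false P : ℝ) ≤ N) ∧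
        ∀ j ∈ K, (Rm T (Y.av J j false) (Y.av J j true) ω : ℝ) <
          δ ^ 2 * (Y.av J j false).card * (Y.av J j true).card * T.card
            / (4 * (Fintype.card F : ℝ) ^ 2)) ∨
    ∃ j₁ ∈ K, ∃ Ia ∈ (Y.av J j₁ false).powersetCard ⌈δ * (Y.av J j₁ false).card⌉₊,
      ∃ Ib ∈ (Y.av J j₁ true).powersetCard ⌈δ * (Y.av J j₁ true).card⌉₊, GG Y T J K t₁ Ia Ib ω := by
  classical
  set q : ℝ := (Fintype.card F : ℝ) with hq
  have hq0 : 0 < q := by
    have : 0 < Fintype.card F := Fintype.card_pos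
    rw [hq]; exact_mod_cast this
  have hN0 : (0 : ℝ) < N := by exact_mod_cast hN
  by_cases hA : ∀ j ∈ K, (Rm T (Y.av J j false) (Y.av J j true) ω : ℝ) <
          δ ^ 2 * (Y.av J j false).card * (Y.av J j true).card * T.card / (4 * q ^ 2)
  · left
    refine ⟨fun P j _ => ?_, hA⟩
    exact_mod_cast (acnt_le_hs ω J _ false (av_notMem Y J j false) P).trans (hload P)
  · right
    push Not at hA
    obtain ⟨j₁, hj₁, hR⟩ := hA
    set I0 := Y.av J j₁ false with hI0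
    set I1 := Y.av J j₁ true with hI1
    obtain ⟨Ia, hIa, hwa⟩ := exists_top_ceil I0 (fun d => ∑ P ∈ T,
      (if ω (d, false) = pos d P then (acnt ω I1 true P : ℝ) else 0))
      (fun d _ => sum_nonneg fun P _ => by split_ifs <;> positivity) δ hδ (by linarith)
    rw [← Rm_expand0, ← Rm_expand0] at hwa
    obtain ⟨Ib, hIb, hwb⟩ := exists_top_ceil I1 (fun d => ∑ P ∈ T,
      (if ω (d, true) = pos d P then (acnt ω Ia false P : ℝ) else 0))
      (fun d _ => sum_nonneg fun P _ => by split_ifs <;> positivity) δ hδ (by linarith)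
    rw [← Rm_expand1, ← Rm_expand1] at hwb
    have hIaI : Ia ⊆ I0 := (mem_powersetCard.mp hIa).1
    have hIbI : Ib ⊆ I1 := (mem_powersetCard.mp hIb).1
    refine ⟨j₁, hj₁, Ia, hIa, Ib, hIb, hload, ?_, ?_⟩
    · have h1 := Rm_le_TT T J Ia Ib (fun d hd => av_notMem Y J j₁ false d (hIaI hd))
        (fun d hd => av_notMem Y J j₁ true d (hIbI hd)) ω N hload
      have ha := hn j₁ hj₁ false
      have hb := hn j₁ hj₁ true
      rw [ht₁, div_le_iff₀ (by positivity)]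
      have h2 : δ ^ 4 * nm ^ 2 * T.card / (4 * q ^ 2) ≤ (Rm T Ia Ib ω : ℝ) := by
        have h3 : δ * (δ * (δ ^ 2 * I0.card * I1.card * T.card / (4 * q ^ 2)))
            ≤ (Rm T Ia Ib ω : ℝ) := by
          refine le_trans ?_ hwb
          refine mul_le_mul_of_nonneg_left ?_ hδ.le
          refine le_trans ?_ hwa
          exact mul_le_mul_of_nonneg_left hR hδ.le
        refine le_trans ?_ h3
        have h4 : nm ^ 2 ≤ (I0.card : ℝ) * I1.card := by
          rw [sq]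
          exact mul_le_mul ha hb hnm.le (by positivity)
        have h5 : δ * (δ * (δ ^ 2 * I0.card * I1.card * T.card / (4 * q ^ 2)))
            = δ ^ 4 * ((I0.card : ℝ) * I1.card) * T.card / (4 * q ^ 2) := by ring
        rw [h5]
        apply div_le_div_of_nonneg_right _ (by positivity)
        apply mul_le_mul_of_nonneg_right _ (Nat.cast_nonneg _)
        exact mul_le_mul_of_nonneg_left h4 (by positivity)
      have h6 := h2.trans h1
      rw [div_le_iff₀ (by positivity)] at h6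
      calc δ ^ 4 * nm ^ 2 * T.card ≤ (TT T Ia Ib ω).card * (N : ℝ) ^ 2 * (4 * q ^ 2) := h6
        _ = (TT T Ia Ib ω).card * (4 * q ^ 2 * (N : ℝ) ^ 2) := by ring
    · intro j hj
      unfold Rm
      refine sum_eq_zero fun P hP => ?_
      by_contra hne
      have hne' : 0 < acnt ω (Y.av J j false \ Ia) false P ∧
          0 < acnt ω (Y.av J j true \ Ib) true P := by
        constructor
        · rcases Nat.eq_zero_or_pos (acnt ω (Y.av J j false \ Ia) false P) with h | h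
          · rw [h] at hne; simp at hne
          · exact h
        · rcases Nat.eq_zero_or_pos (acnt ω (Y.av J j true \ Ib) true P) with h | h
          · rw [h] at hne; simp at hne
          · exact h
      obtain ⟨d₂, hd₂, hd₂P⟩ := acnt_pos hne'.1
      obtain ⟨e₂, he₂, he₂P⟩ := acnt_pos hne'.2
      have hPT := mem_filter.mp hP
      obtain ⟨d₁, hd₁, hd₁P⟩ := acnt_pos hPT.2.1
      obtain ⟨e₁, he₁, he₁P⟩ := acnt_pos hPT.2.2
      have k1 := mem_filter.mp (hIaI hd₁)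
      have k2 := mem_filter.mp (hIbI he₁)
      have k3 := mem_filter.mp (mem_sdiff.mp hd₂).1
      have k4 := mem_filter.mp (mem_sdiff.mp he₂).1
      have g1 := (mem_filter.mp k1.1).2
      have g2 := (mem_filter.mp k2.1).2
      have g3 := (mem_filter.mp k3.1).2
      have g4 := (mem_filter.mp k4.1).2
      refine hDR P hPT.1 ⟨d₁, d₂, e₁, e₂, ?_, ?_, ?_, ?_, ?_, ?_, ?_, ?_⟩
      · rintro rfl; exact (mem_sdiff.mp hd₂).2 hd₁
      · rintro rfl; exact (mem_sdiff.mp he₂).2 he₁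
      · exact mem_sdiff.mpr ⟨by simp [hs, hd₁P], k1.2⟩
      · exact mem_sdiff.mpr ⟨by simp [hs, hd₂P], k3.2⟩
      · exact mem_sdiff.mpr ⟨by simp [hs, he₁P], k2.2⟩
      · exact mem_sdiff.mpr ⟨by simp [hs, he₂P], k4.2⟩
      · rw [g1, g2]
      · rw [g3, g4]

theorem prod_two_mul_pow {β : Type*} (K : Finset β) (x : ℝ) (e : β → ℕ) :
    ∏ j ∈ K, 2 * x ^ (e j) = 2 ^ K.card * x ^ (∑ j ∈ K, e j) := by
  rw [prod_mul_distrib, prod_const, prod_pow_eq_pow_sum]

theorem K2_GG (Y : Sys F N) (T : Finset (F × F)) (hT : T.Nonempty) (J : Finset (Option F × Bool))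
    (K : Finset (Fin N)) (δ nm t₁ x' : ℝ) (hN : 1 ≤ N) (hδ : 0 < δ) (hδ' : δ ≤ 1 / 4)
    (hnm : 4 ≤ nm) (hnm' : nm ≤ Fintype.card F) (hn : ∀ j ∈ K, ∀ v, nm ≤ (Y.av J j v).card)
    (ht₁ : 0 < t₁)
    (hx' : 2 * (16 * (Fintype.card F : ℝ) ^ 3 * N / (δ * (nm / 2) ^ 2 * t₁)) ^ (1 - δ) ≤ x')
    (hx'1 : x' ≤ 1) (j₁ : Fin N) (hj₁ : j₁ ∈ K) (Ia Ib : Finset (Option F))
    (hIa : Ia ∈ (Y.av J j₁ false).powersetCard ⌈δ * (Y.av J j₁ false).card⌉₊)
    (hIb : Ib ∈ (Y.av J j₁ true).powersetCard ⌈δ * (Y.av J j₁ true).card⌉₊) :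
    PP (GG Y T J K t₁ Ia Ib) ≤ 2 ^ K.card * x' ^ ((1 - δ) *
      ((∑ j ∈ K, min (Y.av J j false).card (Y.av J j true).card : ℕ) : ℝ) - 1) := by
  classical
  set q : ℝ := (Fintype.card F : ℝ) with hq
  have hq0 : 0 < q := by
    have : 0 < Fintype.card F := Fintype.card_pos
    rw [hq]; exact_mod_cast this
  have hN0 : (0 : ℝ) < N := by exact_mod_cast hN
  have hx'0 : 0 < x' := lt_of_lt_of_le (by positivity) hx'
  set X : Bool → Finset (Option F) := fun v => bif v then Ib else Ia with hX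
  have hXs : ∀ v, X v ⊆ Y.av J j₁ v ∧ (X v).card = ⌈δ * (Y.av J j₁ v).card⌉₊ := by
    intro v
    cases v
    · exact mem_powersetCard.mp hIa
    · exact mem_powersetCard.mp hIb
  set I' : Fin N → Bool → Finset (Option F) := fun j v => Y.av J j v \ X v with hI'
  have hI'B : ∀ j ∈ K, ∀ v, I' j v ⊆ Y.B j := by
    intro j _ v
    exact sdiff_subset.trans (filter_subset _ _)
  have hne : ∀ j, j ≠ j₁ → ∀ v, I' j v = Y.av J j v := by
    intro j hj v
    simp only [hI']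
    rw [Finset.sdiff_eq_self_iff_disjoint, Finset.disjoint_left]
    intro d hd hdX
    have h1 := (mem_filter.mp (mem_filter.mp hd).1).2
    have h2 := (mem_filter.mp (mem_filter.mp ((hXs v).1 hdX)).1).2
    exact hj (h1.symm.trans h2)
  have hj1c : ∀ v, (1 - δ) * (Y.av J j₁ v).card - 1 ≤ ((I' j₁ v).card : ℝ) := by
    intro v
    have h1 : (I' j₁ v).card + (X v).card = (Y.av J j₁ v).card :=
      card_sdiff_add_card_eq_card (hXs v).1
    have h2 : ((I' j₁ v).card : ℝ) + (X v).card = (Y.av J j₁ v).card := by exact_mod_cast h1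
    have h3 : ((X v).card : ℝ) < δ * (Y.av J j₁ v).card + 1 := by
      rw [(hXs v).2]
      exact Nat.ceil_lt_add_one (by positivity)
    linarith
  have hcard : ∀ j ∈ K, ∀ v, nm / 2 ≤ ((I' j v).card : ℝ) := by
    intro j hj v
    by_cases h : j = j₁
    · subst h
      refine le_trans ?_ (hj1c v)
      have := hn j hj v
      nlinarith
    · rw [hne j h v]
      have := hn j hj v
      linarith
  have hmin : (1 - δ) * ((∑ j ∈ K, min (Y.av J j false).card (Y.av J j true).card : ℕ) : ℝ) - 1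
      ≤ ((∑ j ∈ K, min (I' j false).card (I' j true).card : ℕ) : ℝ) := by
    rw [← add_sum_erase K _ hj₁, ← add_sum_erase K (fun j => min (I' j false).card (I' j true).card) hj₁]
    have h1 : ∑ j ∈ K.erase j₁, min (I' j false).card (I' j true).card
        = ∑ j ∈ K.erase j₁, min (Y.av J j false).card (Y.av J j true).card := by
      refine sum_congr rfl fun j hj => ?_
      rw [hne j (ne_of_mem_erase hj), hne j (ne_of_mem_erase hj)]
    rw [h1]
    push_cast
    set R : ℝ := ∑ j ∈ K.erase j₁,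
      min ((Y.av J j false).card : ℝ) ((Y.av J j true).card : ℝ) with hR
    have hR0 : 0 ≤ R := sum_nonneg fun j _ => by positivity
    have h2 : (1 - δ) * min ((Y.av J j₁ false).card : ℝ) ((Y.av J j₁ true).card : ℝ) - 1
        ≤ min ((I' j₁ false).card : ℝ) ((I' j₁ true).card : ℝ) := by
      refine le_min ?_ ?_
      · refine le_trans ?_ (hj1c false)
        have : min ((Y.av J j₁ false).card : ℝ) ((Y.av J j₁ true).card : ℝ)
          ≤ (Y.av J j₁ false).card := min_le_left _ _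
        nlinarith
      · refine le_trans ?_ (hj1c true)
        have : min ((Y.av J j₁ false).card : ℝ) ((Y.av J j₁ true).card : ℝ)
          ≤ (Y.av J j₁ true).card := min_le_right _ _
        nlinarith
    nlinarith
  refine PP_le_of_merge (univ.filter fun κ : Option F × Bool => κ.1 ∈ X κ.2) _ _ fun a => ?_
  set S := univ.filter fun κ : Option F × Bool => κ.1 ∈ X κ.2 with hS
  have hmS : ∀ b : Option F × Bool → F, ∀ v, ∀ d ∈ X v, merge S a b (d, v) = a (d, v) := by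
    intro b v d hd
    simp [merge, hS, hd]
  have hmN : ∀ b : Option F × Bool → F, ∀ v d, d ∉ X v → merge S a b (d, v) = b (d, v) := by
    intro b v d hd
    simp [merge, hS, hd]
  have hTT : ∀ b, TT T Ia Ib (merge S a b) = TT T Ia Ib a := by
    intro b
    exact TT_congr (fun d hd => hmS b false d hd) (fun d hd => hmS b true d hd)
  by_cases hgood : t₁ ≤ (TT T Ia Ib a).card
  · have hT1 : (TT T Ia Ib a).Nonempty := by
      rw [← card_pos]
      have : (0 : ℝ) < (TT T Ia Ib a).card := lt_of_lt_of_le ht₁ hgood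
      exact_mod_cast this
    have hT1r : (0 : ℝ) < (TT T Ia Ib a).card := by exact_mod_cast hT1.card_pos
    have hK1 := K1 Y (TT T Ia Ib a) hT1 K I' hI'B δ (nm / 2) N x' hδ (by linarith)
      (by exact_mod_cast hN) (by linarith) (by linarith) hcard (by
        refine le_trans ?_ hx'
        refine mul_le_mul_of_nonneg_left ?_ (by norm_num)
        refine Real.rpow_le_rpow (by positivity) ?_ (by linarith)
        apply div_le_div_of_nonneg_left (by positivity) (by positivity)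
        exact mul_le_mul_of_nonneg_left hgood (by positivity)) hx'1
    rw [prod_two_mul_pow] at hK1
    refine le_trans (PP_mono fun b hb => ?_) (hK1.trans ?_)
    · obtain ⟨hload, hTc, hR⟩ := hb
      rw [hTT] at hR
      refine ⟨fun P j hj => ?_, fun j hj => ?_⟩
      · have h1 : acnt b (I' j false) false P = acnt (merge S a b) (I' j false) false P :=
          acnt_congr (fun d hd => (hmN b false d (mem_sdiff.mp hd).2).symm) P
        rw [h1]
        exact_mod_cast (acnt_le_hs _ J _ _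
          (fun d hd => av_notMem Y J j false d (mem_sdiff.mp hd).1) P).trans (hload P)
      · have h1 : Rm (TT T Ia Ib a) (I' j false) (I' j true) b
            = Rm (TT T Ia Ib a) (I' j false) (I' j true) (merge S a b) :=
          Rm_congr (fun d hd => (hmN b false d (mem_sdiff.mp hd).2).symm)
            (fun d hd => (hmN b true d (mem_sdiff.mp hd).2).symm)
        have h2 : Rm (TT T Ia Ib a) (I' j false) (I' j true) (merge S a b) = 0 := hR j hj
        rw [h1, h2]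
        have ha := hcard j hj false
        have hb' := hcard j hj true
        have ha0 : (0 : ℝ) < (I' j false).card := by linarith
        have hb0 : (0 : ℝ) < (I' j true).card := by linarith
        simp only [Nat.cast_zero]
        positivity
    · refine mul_le_mul_of_nonneg_left ?_ (by positivity)
      rw [← Real.rpow_natCast]
      exact Real.rpow_le_rpow_of_exponent_ge hx'0 hx'1 hmin
  · refine le_trans (PP_mono (r := fun _ => False) fun b hb => ?_) ?_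
    · have := hb.2.1
      rw [hTT] at this
      exact hgood this
    · rw [PP_false]
      positivity

theorem K2_core (Y : Sys F N) (T : Finset (F × F)) (hT : T.Nonempty)
    (J : Finset (Option F × Bool)) (K : Finset (Fin N)) (bB : ℕ) (hbB : ∀ j, (Y.B j).card ≤ bB)
    (δ nm t₁ x x' : ℝ) (hN : 1 ≤ N) (hδ : 0 < δ) (hδ' : δ ≤ 1 / 4)
    (hnm : 4 ≤ nm) (hnm' : nm ≤ Fintype.card F) (hn : ∀ j ∈ K, ∀ v, nm ≤ (Y.av J j v).card)
    (ht₁ : t₁ = δ ^ 4 * nm ^ 2 * T.card / (4 * (Fintype.card F : ℝ) ^ 2 * (N : ℝ) ^ 2))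
    (hx : 2 * (16 * (Fintype.card F : ℝ) ^ 3 * N / (δ * nm ^ 2 * T.card)) ^ (1 - δ) ≤ x)
    (hx1 : x ≤ 1)
    (hx' : 2 * (16 * (Fintype.card F : ℝ) ^ 3 * N / (δ * (nm / 2) ^ 2 * t₁)) ^ (1 - δ) ≤ x')
    (hx'1 : x' ≤ 1) :
    PP (fun ω : Option F × Bool → F => (∀ P, (hs ω P \ J).card ≤ N) ∧
        ∀ P ∈ T, ¬ Y.DR (hs ω P \ J))
      ≤ 2 ^ K.card * x ^ (∑ j ∈ K, min (Y.av J j false).card (Y.av J j true).card)
        + K.card * (4 ^ bB * (2 ^ K.card * x' ^ ((1 - δ) *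
      ((∑ j ∈ K, min (Y.av J j false).card (Y.av J j true).card : ℕ) : ℝ) - 1))) := by
  classical
  set q : ℝ := (Fintype.card F : ℝ) with hq
  have hq0 : 0 < q := by
    have : 0 < Fintype.card F := Fintype.card_pos
    rw [hq]; exact_mod_cast this
  have hN0 : (0 : ℝ) < N := by exact_mod_cast hN
  have hT0 : (0 : ℝ) < T.card := by exact_mod_cast hT.card_pos
  have ht₁0 : 0 < t₁ := by rw [ht₁]; positivity
  have hx'0 : 0 < x' := lt_of_lt_of_le (by positivity) hx'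
  set A : (Option F × Bool → F) → Prop := fun ω =>
    ((∀ P, ∀ j ∈ K, (acnt ω (Y.av J j false) false P : ℝ) ≤ N) ∧
        ∀ j ∈ K, (Rm T (Y.av J j false) (Y.av J j true) ω : ℝ) <
          δ ^ 2 * (Y.av J j false).card * (Y.av J j true).card * T.card
            / (4 * (Fintype.card F : ℝ) ^ 2)) with hA
  set e := ∑ j ∈ K, min (Y.av J j false).card (Y.av J j true).card with he
  set Bd : ℝ := 2 ^ K.card * x' ^ ((1 - δ) * (e : ℝ) - 1) with hBd
  have hBd0 : 0 ≤ Bd := by positivity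
  have h1 : PP (fun ω : Option F × Bool → F => (∀ P, (hs ω P \ J).card ≤ N) ∧
        ∀ P ∈ T, ¬ Y.DR (hs ω P \ J))
      ≤ PP A + PP (fun ω => ∃ j₁ ∈ K,
        ∃ Ia ∈ (Y.av J j₁ false).powersetCard ⌈δ * (Y.av J j₁ false).card⌉₊,
      ∃ Ib ∈ (Y.av J j₁ true).powersetCard ⌈δ * (Y.av J j₁ true).card⌉₊,
        GG Y T J K t₁ Ia Ib ω) := by
    refine le_trans (PP_mono fun ω hω => ?_) (PP_or_le A _)
    exact K2_det Y T J K δ nm t₁ hN hδ hδ' (by linarith) hn ht₁ ω hω.1 hω.2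
  have hAb : PP A ≤ 2 ^ K.card * x ^ e := by
    have := K1 Y T hT K (fun j v => Y.av J j v) (fun j _ v => filter_subset _ _) δ nm N x hδ
      (by linarith) (by exact_mod_cast hN) (by linarith) hnm' hn hx hx1
    rw [prod_two_mul_pow] at this
    exact this
  have hcardav : ∀ j v, (Y.av J j v).card ≤ bB := fun j v =>
    (card_le_card (filter_subset _ _)).trans (hbB j)
  have hpc : ∀ j v, ∀ k, (((Y.av J j v).powersetCard k).card : ℝ) ≤ 2 ^ bB := by
    intro j v k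
    rw [card_powersetCard]
    have h2 : (Y.av J j v).card.choose k ≤ 2 ^ bB :=
      (Nat.choose_le_two_pow _ _).trans (Nat.pow_le_pow_right (by norm_num) (hcardav j v))
    exact_mod_cast h2
  have hGb : PP (fun ω => ∃ j₁ ∈ K,
        ∃ Ia ∈ (Y.av J j₁ false).powersetCard ⌈δ * (Y.av J j₁ false).card⌉₊,
      ∃ Ib ∈ (Y.av J j₁ true).powersetCard ⌈δ * (Y.av J j₁ true).card⌉₊,
        GG Y T J K t₁ Ia Ib ω) ≤ K.card * (4 ^ bB * Bd) := by
    refine (PP_exists_le K _).trans ?_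
    rw [← nsmul_eq_mul, ← sum_const]
    refine sum_le_sum fun j₁ hj₁ => ?_
    refine (PP_exists_le _ _).trans ?_
    have h4 : (4 : ℝ) ^ bB * Bd = 2 ^ bB * (2 ^ bB * Bd) := by
      have : (4 : ℝ) ^ bB = 2 ^ bB * 2 ^ bB := by rw [← mul_pow]; norm_num
      rw [this, mul_assoc]
    rw [h4]
    calc _ ≤ ∑ Ia ∈ (Y.av J j₁ false).powersetCard ⌈δ * (Y.av J j₁ false).card⌉₊,
          (2 ^ bB * Bd) := by
          refine sum_le_sum fun Ia hIa => ?_
          refine (PP_exists_le _ _).trans ?_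
          calc _ ≤ ∑ Ib ∈ (Y.av J j₁ true).powersetCard ⌈δ * (Y.av J j₁ true).card⌉₊, Bd := by
                refine sum_le_sum fun Ib hIb => ?_
                exact K2_GG Y T hT J K δ nm t₁ x' hN hδ hδ' hnm hnm' hn ht₁0 hx' hx'1 j₁ hj₁
                  Ia Ib hIa hIb
            _ ≤ 2 ^ bB * Bd := by
                rw [sum_const, nsmul_eq_mul]
                exact mul_le_mul_of_nonneg_right (hpc _ _ _) hBd0
      _ ≤ 2 ^ bB * (2 ^ bB * Bd) := by
          rw [sum_const, nsmul_eq_mul]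
          exact mul_le_mul_of_nonneg_right (hpc _ _ _) (by positivity)
  linarith

end K

theorem log_le_helper {c L : ℝ} (hc : 0 ≤ c) (hL : 1 ≤ L) : c ≤ c * L := by nlinarith

/-- an estimate for `m * log x` with `x = 2 * (c * N^k / D)^(1-δ)` -/
theorem log_x_le {c Nr D δ : ℝ} {k : ℕ} (hc : 1 ≤ c) (hNr : 1 ≤ Real.log Nr) (hNr1 : 1 ≤ Nr)
    (hD : 0 < D) (hδ : 0 ≤ δ) (hδ1 : δ ≤ 1) :
    Real.log (2 * (c * Nr ^ k / D) ^ (1 - δ))
      ≤ (1 + Real.log c + k) * Real.log Nr - (1 - δ) * Real.log D := by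
  have hNr0 : 0 < Nr := by linarith
  have hc0 : 0 < c := by linarith
  have hlc : 0 ≤ Real.log c := Real.log_nonneg hc
  rw [Real.log_mul (by norm_num) (by positivity), Real.log_rpow (by positivity),
    Real.log_div (by positivity) hD.ne', Real.log_mul hc0.ne' (by positivity), Real.log_pow]
  have h2 : Real.log 2 ≤ 1 := by
    have := Real.log_two_lt_d9
    linarith
  have h3 : (1 - δ) * (Real.log c + k * Real.log Nr) ≤ Real.log c * Real.log Nr + k * Real.log Nr := by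
    have h4 : 0 ≤ Real.log c + k * Real.log Nr := by positivity
    have h5 : Real.log c ≤ Real.log c * Real.log Nr := log_le_helper hlc hNr
    nlinarith
  nlinarith

theorem small_x {q D y δ₀ : ℝ} (hq : 2 ^ 10 ≤ q) (hD : q ^ (0.4 : ℝ) ≤ D) (hδ₀ : δ₀ ≤ 1 / 4)
    (hy0 : 0 ≤ y) (hy : y ≤ q ^ (0.2 : ℝ)) : 2 * (y / D) ^ (1 - δ₀) ≤ 1 := by
  have hq1 : 1 ≤ q := by linarith
  have hq0 : 0 < q := by linarith
  have hD0 : 0 < D := lt_of_lt_of_le (by positivity) hD
  have h1 : y / D ≤ q ^ (-(0.2 : ℝ)) := by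
    rw [div_le_iff₀ hD0]
    calc y ≤ q ^ (0.2 : ℝ) := hy
      _ = q ^ (-(0.2 : ℝ)) * q ^ (0.4 : ℝ) := by
          rw [← Real.rpow_add hq0]
          congr 1
          norm_num
      _ ≤ q ^ (-(0.2 : ℝ)) * D := mul_le_mul_of_nonneg_left hD (by positivity)
  have h2 : (y / D) ^ (1 - δ₀) ≤ (q ^ (-(0.2 : ℝ))) ^ (1 - δ₀) :=
    Real.rpow_le_rpow (by positivity) h1 (by linarith)
  have h3 : (q ^ (-(0.2 : ℝ))) ^ (1 - δ₀) ≤ q ^ (-(0.1 : ℝ)) := by
    rw [← Real.rpow_mul hq0.le]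
    exact Real.rpow_le_rpow_of_exponent_le hq1 (by linarith)
  have h5 : (2 : ℝ) ≤ q ^ (0.1 : ℝ) := by
    have e1 : (2 : ℝ) = ((2 : ℝ) ^ (10 : ℝ)) ^ (0.1 : ℝ) := by
      rw [← Real.rpow_mul (by norm_num)]
      have : (10 : ℝ) * 0.1 = 1 := by norm_num
      rw [this, Real.rpow_one]
    have e2 : (2 : ℝ) ^ (10 : ℝ) = 2 ^ 10 := by
      have : (10 : ℝ) = ((10 : ℕ) : ℝ) := by norm_num
      rw [this, Real.rpow_natCast]
    rw [e1, e2]
    exact Real.rpow_le_rpow (by norm_num) hq (by norm_num)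
  have h4 : q ^ (-(0.1 : ℝ)) ≤ 1 / 2 := by
    rw [Real.rpow_neg hq0.le, inv_le_comm₀ (by positivity) (by norm_num)]
    linarith
  linarith

theorem two_pow_le_exp {k : ℕ} {Nr Q : ℝ} (hk : (k : ℝ) ≤ Nr) (hQ : Nr ≤ Q) :
    (2 : ℝ) ^ k ≤ Real.exp Q := by
  have hl2 : Real.log 2 ≤ 1 := by
    have := Real.log_two_lt_d9
    linarith
  have hk0 : (0 : ℝ) ≤ k := Nat.cast_nonneg _
  have hl0 : 0 ≤ Real.log 2 := Real.log_nonneg (by norm_num)
  rw [← Real.rpow_natCast, Real.rpow_def_of_pos (by norm_num), Real.exp_le_exp]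
  nlinarith

theorem four_pow_le_exp {k : ℕ} {Q : ℝ} (hk : (k : ℝ) ≤ Q + 2) :
    (4 : ℝ) ^ k ≤ Real.exp (2 * Q + 4) := by
  have hl2 : Real.log 2 ≤ 1 := by
    have := Real.log_two_lt_d9
    linarith
  have hk0 : (0 : ℝ) ≤ k := Nat.cast_nonneg _
  have hl0 : 0 ≤ Real.log 2 := Real.log_nonneg (by norm_num)
  have h4 : Real.log 4 = 2 * Real.log 2 := by
    have : (4 : ℝ) = 2 ^ 2 := by norm_num
    rw [this, Real.log_pow]
    push_cast
    ring
  rw [← Real.rpow_natCast, Real.rpow_def_of_pos (by norm_num), Real.exp_le_exp, h4]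
  nlinarith

/-- first exponential estimate -/
theorem K2_numA {k m : ℕ} {x δ δ₀ τ C₁ Nr LN Q : ℝ} (hδ₀ : δ₀ ≤ δ)
    (hx0 : 0 < x) (hk : (k : ℝ) ≤ Nr) (hQ : Nr ≤ Q) (hτ : 0 ≤ τ)
    (hlx : Real.log x ≤ C₁ * LN - (1 - δ₀) * τ) :
    (2 : ℝ) ^ k * x ^ m ≤ Real.exp (-(1 - δ) * m * τ + (C₁ * (m * LN) + Q)) := by
  have hm0 : (0 : ℝ) ≤ m := Nat.cast_nonneg _
  have h1 : x ^ m = Real.exp (m * Real.log x) := by
    rw [← Real.rpow_natCast, Real.rpow_def_of_pos hx0, mul_comm]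
  rw [h1]
  calc (2 : ℝ) ^ k * Real.exp (m * Real.log x)
      ≤ Real.exp Q * Real.exp (m * Real.log x) :=
        mul_le_mul_of_nonneg_right (two_pow_le_exp hk hQ) (Real.exp_nonneg _)
    _ = Real.exp (Q + m * Real.log x) := (Real.exp_add _ _).symm
    _ ≤ _ := by
        rw [Real.exp_le_exp]
        have h2 := mul_le_mul_of_nonneg_left hlx hm0
        have h3 : 0 ≤ (δ - δ₀) * (m * τ) := by
          have : 0 ≤ δ - δ₀ := by linarith
          positivity
        nlinarith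

/-- second exponential estimate -/
theorem K2_numB {k m b : ℕ} {x' δ δ₀ τ C₂ Nr LN Q : ℝ} (hδ0 : 0 ≤ δ₀) (hδ₀ : 2 * δ₀ ≤ δ)
    (hδ01 : δ₀ ≤ 1) (hC₂ : 0 ≤ C₂) (hLN : 0 ≤ LN)
    (hx0 : 0 < x') (hk : (k : ℝ) ≤ Nr) (hN0 : 0 < Nr) (hQ : Nr ≤ Q) (hτ : 0 ≤ τ)
    (hb : (b : ℝ) ≤ Q + 2) (hτQ : τ ≤ Q)
    (hlx : Real.log x' ≤ C₂ * LN - (1 - δ₀) * τ) (hlx2 : -Real.log x' ≤ τ) :
    (k : ℝ) * (4 ^ b * (2 ^ k * x' ^ ((1 - δ₀) * (m : ℝ) - 1)))
      ≤ Real.exp (-(1 - δ) * m * τ + (C₂ * (m * LN) + (5 * Q + 4))) := by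
  have hm0 : (0 : ℝ) ≤ m := Nat.cast_nonneg _
  have h1 : x' ^ ((1 - δ₀) * (m : ℝ) - 1)
      ≤ Real.exp (-(1 - δ) * m * τ + C₂ * (m * LN) + τ) := by
    rw [Real.rpow_def_of_pos hx0, Real.exp_le_exp]
    have h5 : 0 ≤ (1 - δ₀) * m := by
      have : 0 ≤ 1 - δ₀ := by linarith
      positivity
    have h6 : (1 - δ₀) * m * Real.log x'
        ≤ (1 - δ₀) * m * (C₂ * LN - (1 - δ₀) * τ) := mul_le_mul_of_nonneg_left hlx h5
    have h7 : (1 - δ₀) * m * (C₂ * LN) ≤ C₂ * (m * LN) := by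
      have h8 : 0 ≤ δ₀ * (C₂ * (m * LN)) := by positivity
      nlinarith
    have h9 : (1 - δ) * (m * τ) ≤ (1 - δ₀) * (1 - δ₀) * (m * τ) := by
      refine mul_le_mul_of_nonneg_right ?_ (by positivity)
      nlinarith
    nlinarith
  have hK1 : (k : ℝ) ≤ Real.exp Q := by
    have := Real.add_one_le_exp Q
    linarith
  calc (k : ℝ) * (4 ^ b * (2 ^ k * x' ^ ((1 - δ₀) * (m : ℝ) - 1)))
      ≤ Real.exp Q * (Real.exp (2 * Q + 4) * (Real.exp Q *
        Real.exp (-(1 - δ) * m * τ + C₂ * (m * LN) + τ))) := by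
        have e1 := four_pow_le_exp hb
        have e2 := two_pow_le_exp hk hQ
        gcongr
    _ = Real.exp (Q + (2 * Q + 4 + (Q + (-(1 - δ) * m * τ + C₂ * (m * LN) + τ)))) := by
        rw [Real.exp_add Q, Real.exp_add (2 * Q + 4), Real.exp_add Q]
    _ ≤ _ := by
        rw [Real.exp_le_exp]
        linarith

theorem K2_numC {a b E C₁ C₂ M Q : ℝ} (hM : 0 ≤ M) (hC₁ : 0 ≤ C₁) (hC₂ : 0 ≤ C₂) (hQ : 1 ≤ Q)
    (ha : a ≤ Real.exp (E + (C₁ * M + Q))) (hb : b ≤ Real.exp (E + (C₂ * M + (5 * Q + 4)))) :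
    a + b ≤ Real.exp (E + (C₁ + C₂ + 10) * (M + Q)) := by
  have h1 : 0 ≤ C₁ * M := by positivity
  have h2 : 0 ≤ C₂ * M := by positivity
  have h3 : 0 ≤ C₁ * Q := by positivity
  have h4 : 0 ≤ C₂ * Q := by positivity
  have ha' : Real.exp (E + (C₁ * M + Q)) ≤ Real.exp (E + ((C₁ + C₂) * M + 9 * Q)) := by
    rw [Real.exp_le_exp]; linarith
  have hb' : Real.exp (E + (C₂ * M + (5 * Q + 4))) ≤ Real.exp (E + ((C₁ + C₂) * M + 9 * Q)) := by
    rw [Real.exp_le_exp]; linarith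
  have hc : 2 * Real.exp (E + ((C₁ + C₂) * M + 9 * Q))
      ≤ Real.exp (E + ((C₁ + C₂) * M + 9 * Q) + Q) := by
    rw [Real.exp_add (E + ((C₁ + C₂) * M + 9 * Q)) Q, mul_comm]
    refine mul_le_mul_of_nonneg_left ?_ (Real.exp_nonneg _)
    have := Real.add_one_le_exp Q
    linarith
  have hd : Real.exp (E + ((C₁ + C₂) * M + 9 * Q) + Q)
      ≤ Real.exp (E + (C₁ + C₂ + 10) * (M + Q)) := by
    rw [Real.exp_le_exp]
    nlinarith
  linarith

theorem K2_asy (c₁ c₂ : ℝ) : ∃ q₀ : ℕ, ∀ q : ℕ, q₀ ≤ q →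
    c₁ * (NN q : ℝ) ^ 7 ≤ (q : ℝ) ^ (0.2 : ℝ) ∧ c₂ * (NN q : ℝ) ^ 15 ≤ (q : ℝ) ^ (0.2 : ℝ) ∧
    4 * (NN q : ℝ) ^ 4 ≤ (q : ℝ) ∧ (2 : ℝ) ^ 10 ≤ (q : ℝ) := by
  obtain ⟨qa, hqa⟩ := NN_pow_le 7 c₁ 0.2 (by norm_num)
  obtain ⟨qb, hqb⟩ := NN_pow_le 15 c₂ 0.2 (by norm_num)
  obtain ⟨qc, hqc⟩ := NN_pow_le 4 4 1 (by norm_num)
  obtain ⟨qd, hqd⟩ := le_q (2 ^ 10)
  refine ⟨max (max qa qb) (max qc qd), fun q hq => ⟨?_, ?_, ?_, ?_⟩⟩
  · exact hqa q (le_trans (le_trans (le_max_left _ _) (le_max_left _ _)) hq)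
  · exact hqb q (le_trans (le_trans (le_max_right _ _) (le_max_left _ _)) hq)
  · have := hqc q (le_trans (le_trans (le_max_left _ _) (le_max_right _ _)) hq)
    rwa [Real.rpow_one] at this
  · exact hqd q (le_trans (le_trans (le_max_right _ _) (le_max_right _ _)) hq)

/-- consequences for `N`, `Q = q / N` -/
theorem K2_NQ {q Nr : ℝ} (hNr : 20 ≤ Nr) (h4 : 4 * Nr ^ 4 ≤ q) :
    Nr ≤ q / Nr ∧ 1 ≤ Real.log Nr ∧ 4 ≤ q / Nr ^ 3 ∧ q / Nr ^ 3 ≤ q ∧ 0 < q := by
  have hN0 : 0 < Nr := by linarith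
  have hp : 0 < Nr ^ 4 := by positivity
  have hq0 : 0 < q := by linarith
  refine ⟨?_, ?_, ?_, ?_, hq0⟩
  · rw [le_div_iff₀ hN0]
    have h1 : Nr * Nr ≤ Nr ^ 4 := by
      have h2 : Nr ^ 4 = (Nr * Nr) * (Nr * Nr) := by ring
      rw [h2]
      have h3 : 1 ≤ Nr * Nr := by nlinarith
      nlinarith
    linarith
  · rw [Real.le_log_iff_exp_le hN0]
    have := Real.exp_one_lt_d9
    linarith
  · rw [le_div_iff₀ (by positivity)]
    have h1 : Nr ^ 3 ≤ Nr ^ 4 := pow_le_pow_right₀ (by linarith) (by norm_num)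
    linarith
  · exact div_le_self hq0.le (one_le_pow₀ (by linarith))

theorem K2_eq1 {q D Nr c₁ δ₀ : ℝ} (hq : 0 < q) (hD : 0 < D) (hN : 0 < Nr) (hδ : 0 < δ₀)
    (hc : c₁ = 16 / δ₀) :
    16 * q ^ 3 * Nr / (δ₀ * (q / Nr ^ 3) ^ 2 * (q * D)) = c₁ * Nr ^ 7 / D := by
  rw [hc]
  field_simp

theorem K2_eq2 {q D Nr c₂ δ₀ : ℝ} (hq : 0 < q) (hD : 0 < D) (hN : 0 < Nr) (hδ : 0 < δ₀)
    (hc : c₂ = 256 / δ₀ ^ 5) :
    16 * q ^ 3 * Nr / (δ₀ * ((q / Nr ^ 3) / 2) ^ 2 *
      (δ₀ ^ 4 * (q / Nr ^ 3) ^ 2 * (q * D) / (4 * q ^ 2 * Nr ^ 2))) = c₂ * Nr ^ 15 / D := by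
  rw [hc]
  field_simp
  norm_num

theorem neg_log_le {c Nr D δ₀ : ℝ} {k : ℕ} (hc : 1 ≤ c) (hNr1 : 1 ≤ Nr)
    (hD : 1 ≤ D) (hδ : 0 ≤ δ₀) (hδ1 : δ₀ ≤ 1) :
    -Real.log (2 * (c * Nr ^ k / D) ^ (1 - δ₀)) ≤ Real.log D := by
  have hNr0 : 0 < Nr := by linarith
  have hD0 : 0 < D := by linarith
  have hc0 : 0 < c := by linarith
  have h1 : 0 ≤ Real.log (c * Nr ^ k) := by
    apply Real.log_nonneg
    have : (1 : ℝ) ≤ Nr ^ k := one_le_pow₀ hNr1
    nlinarith
  have h2 : 0 ≤ Real.log 2 := Real.log_nonneg (by norm_num)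
  have h3 : 0 ≤ Real.log D := Real.log_nonneg hD
  rw [Real.log_mul (by norm_num) (by positivity), Real.log_rpow (by positivity),
    Real.log_div (by positivity) hD0.ne']
  nlinarith

theorem K2 (δ : ℝ) (hδ : 0 < δ) (hδ1 : δ < 1) : ∃ (C : ℝ) (q₀ : ℕ), 0 < C ∧
    ∀ (F : Type) [Field F] [Fintype F] [DecidableEq F], q₀ ≤ Fintype.card F →
    ∀ (N : ℕ), N = NN (Fintype.card F) → ∀ (Y : Sys F N), Y.Ok →
    ∀ (T : Finset (F × F)), (Fintype.card F : ℝ) ^ (1.4 : ℝ) ≤ T.card →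
    ∀ (J : Finset (Option F × Bool)) (K : Finset (Fin N)) (m : ℕ),
      (∀ j ∈ K, ∀ v, (Fintype.card F : ℝ) / (N : ℝ) ^ 3 ≤ (Y.av J j v).card) →
      m = ∑ j ∈ K, min (Y.av J j false).card (Y.av J j true).card →
    PP (fun ω : Option F × Bool → F => (∀ P, (hs ω P \ J).card ≤ N) ∧
        ∀ P ∈ T, ¬ Y.DR (hs ω P \ J))
      ≤ Real.exp (-(1 - δ) * m * Real.log (T.card / Fintype.card F)
          + C * (m * Real.log N + Fintype.card F / N)) := by
  classical
  obtain ⟨δ₀, hδ₀⟩ : ∃ δ₀ : ℝ, δ₀ = δ / 4 := ⟨_, rfl⟩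
  have hδ₀0 : 0 < δ₀ := by rw [hδ₀]; positivity
  have hδ₀1 : δ₀ ≤ 1 / 4 := by linarith
  obtain ⟨c₁, hc₁⟩ : ∃ c₁ : ℝ, c₁ = 16 / δ₀ := ⟨_, rfl⟩
  obtain ⟨c₂, hc₂⟩ : ∃ c₂ : ℝ, c₂ = 256 / δ₀ ^ 5 := ⟨_, rfl⟩
  have hc₁1 : 1 ≤ c₁ := by
    rw [hc₁, le_div_iff₀ hδ₀0]; linarith
  have hc₂1 : 1 ≤ c₂ := by
    rw [hc₂, le_div_iff₀ (by positivity), one_mul]
    have : δ₀ ^ 5 ≤ 1 := pow_le_one₀ hδ₀0.le (by linarith)
    linarith
  obtain ⟨C₁, hC₁⟩ : ∃ C₁ : ℝ, C₁ = 1 + Real.log c₁ + (7 : ℕ) := ⟨_, rfl⟩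
  obtain ⟨C₂, hC₂⟩ : ∃ C₂ : ℝ, C₂ = 1 + Real.log c₂ + (15 : ℕ) := ⟨_, rfl⟩
  have hlc₁ : 0 ≤ Real.log c₁ := Real.log_nonneg hc₁1
  have hlc₂ : 0 ≤ Real.log c₂ := Real.log_nonneg hc₂1
  have hC₁0 : 0 < C₁ := by rw [hC₁]; push_cast; linarith
  have hC₂0 : 0 < C₂ := by rw [hC₂]; push_cast; linarith
  obtain ⟨q₀, hq₀⟩ := K2_asy c₁ c₂
  refine ⟨C₁ + C₂ + 10, q₀, by linarith, ?_⟩
  intro F _ _ _ hqF N hN Y hY T hT J K m hav hm
  obtain ⟨hqa, hqb, hqc, hqd⟩ := hq₀ (Fintype.card F) hqF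
  have hN20 : 20 ≤ N := by rw [hN]; exact twenty_le_NN _
  have hlogNq : Real.log (Fintype.card F) ≤ (N : ℝ) := by
    rw [hN]; exact log_le_NN Fintype.card_pos
  rw [← hN] at hqa hqb hqc
  generalize hq : (Fintype.card F : ℝ) = q at *
  have hNr : (20 : ℝ) ≤ N := by exact_mod_cast hN20
  obtain ⟨hNQ, hlogN, hnm4, hnmq, hq0⟩ := K2_NQ hNr hqc
  have hq1 : 1 ≤ q := by linarith
  have hN0 : (0 : ℝ) < N := by linarith
  -- the set T
  have hTpos : (0 : ℝ) < T.card := lt_of_lt_of_le (by positivity) hT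
  have hTne : T.Nonempty := by
    rw [← card_pos]; exact_mod_cast hTpos
  obtain ⟨D, hD⟩ : ∃ D : ℝ, D = T.card / q := ⟨_, rfl⟩
  have hDge : q ^ (0.4 : ℝ) ≤ D := by
    rw [hD, le_div_iff₀ hq0]
    refine le_trans (le_of_eq ?_) hT
    rw [← Real.rpow_add_one hq0.ne']
    norm_num
  have hD1 : 1 ≤ D := le_trans (Real.one_le_rpow hq1 (by norm_num)) hDge
  have hD0 : 0 < D := by linarith
  have hDq : D ≤ q := by
    rw [hD, div_le_iff₀ hq0]
    have h1 : T.card ≤ Fintype.card (F × F) := card_le_univ T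
    rw [Fintype.card_prod] at h1
    have : ((T.card : ℕ) : ℝ) ≤ ((Fintype.card F * Fintype.card F : ℕ) : ℝ) := by exact_mod_cast h1
    push_cast at this
    rw [hq] at this
    linarith
  have hτ0 : 0 ≤ Real.log D := Real.log_nonneg hD1
  have hτq : Real.log D ≤ q / N := le_trans (Real.log_le_log hD0 hDq) (by linarith)
  have hTD : (T.card : ℝ) = q * D := by rw [hD]; field_simp
  have hx1 := small_x hqd hDge hδ₀1 (by positivity) hqa
  have hx'1 := small_x hqd hDge hδ₀1 (by positivity) hqb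
  have hxe := K2_eq1 hq0 hD0 hN0 hδ₀0 hc₁
  have hx'e := K2_eq2 hq0 hD0 hN0 hδ₀0 hc₂
  rw [← hTD] at hxe hx'e
  -- sizes of groups
  obtain ⟨bB, hbB⟩ : ∃ bB : ℕ, bB = ⌊q / N + 2⌋₊ := ⟨_, rfl⟩
  have hbBle : (bB : ℝ) ≤ q / N + 2 := by rw [hbB]; exact Nat.floor_le (by positivity)
  have hBB : ∀ j, (Y.B j).card ≤ bB := by
    intro j
    rw [hbB]
    refine Nat.le_floor ?_
    have h1 := hY.hi j
    have h2 : ((N * (Y.B j).card : ℕ) : ℝ) ≤ ((Fintype.card F + 1 + N : ℕ) : ℝ) := by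
      exact_mod_cast h1
    push_cast at h2
    rw [hq] at h2
    have h3 : ((Y.B j).card : ℝ) ≤ (q + 1 + N) / N := by
      rw [le_div_iff₀ hN0]; linarith
    refine h3.trans ?_
    rw [add_div, add_div, div_self hN0.ne']
    have : 1 / (N : ℝ) ≤ 1 := by rw [div_le_one hN0]; linarith
    linarith
  have hcore := K2_core Y T hTne J K bB hBB δ₀ (q / (N : ℝ) ^ 3) _ _ _ (by omega) hδ₀0 hδ₀1 hnm4
    (by rw [hq]; exact hnmq) hav rfl (by rw [hq, hxe]) hx1 (by rw [hq, hx'e]) hx'1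
  rw [← hm] at hcore
  refine hcore.trans ?_
  have hKN : (K.card : ℝ) ≤ N := by
    have h1 : K.card ≤ N := by simpa using card_le_univ K
    exact_mod_cast h1
  have hlx := log_x_le (k := 7) hc₁1 hlogN (by linarith : (1 : ℝ) ≤ N) hD0 hδ₀0.le
    (by linarith : δ₀ ≤ 1)
  have hlx' := log_x_le (k := 15) hc₂1 hlogN (by linarith : (1 : ℝ) ≤ N) hD0 hδ₀0.le
    (by linarith : δ₀ ≤ 1)
  have hlx2 := neg_log_le (k := 15) hc₂1 (by linarith : (1 : ℝ) ≤ N) hD1 hδ₀0.le
    (by linarith : δ₀ ≤ 1)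
  rw [← hC₁] at hlx
  rw [← hC₂] at hlx'
  have hA := K2_numA (k := K.card) (m := m) (δ := δ) (by linarith) (by positivity) hKN hNQ hτ0 hlx
  have hB := K2_numB (k := K.card) (m := m) (b := bB) (δ := δ) hδ₀0.le (by linarith) (by linarith)
    hC₂0.le (by linarith : (0 : ℝ) ≤ Real.log N) (by positivity) hKN hN0 hNQ hτ0 hbBle hτq hlx' hlx2
  have hfin := K2_numC (by positivity) hC₁0.le hC₂0.le (by linarith) hA hB
  rw [← hD]
  exact hfin

end Crest.Agent.H23RyKill
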