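import Mathlib

/-!
# rid 50 (S0069): the finite part

A family `N` of subsets of the ten colours with the properties of the colour sets of the faces of
a ten-colouring of `RP³` cannot exist.  Proof: a unit propagation / case splitting certificate,
checked by the kernel.
-/

namespace Crest.BRFin

/-- subset of `Fin 10` with bit mask `m` -/
def toF (m : ℕ) : Finset (Fin 10) := Finset.univ.filter fun i => m.testBit i = true

def c4 : ℕ := 0x1000000010001011600000001000101160001011601161668000000010001011600010116011616680001011601161668011616681668688000000001000101160001011601161668000101160116166801161668166868800001011601161668011616681668688001161668166868801668688068808000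
def c3 : ℕ := 0x100000000000000010000000100010116000000000000000100000001000101160000000100010116000101160116166800000000000000010000000100010116000000010001011600010116011616680000000100010116000101160116166800010116011616680116166816686880
def c2 : ℕ := 0x1000000000000000000000000000000010000000000000001000000010001011600000000000000000000000000000001000000000000000100000001000101160000000000000001000000010001011600000001000101160001011601161668
def c13 : ℕ := 0x100000000000000010000000100010116000000000000000100000001000101160000000100010116000101160116166900000000000000010000000100010116000000010001011600010116011616690000000100010116000101160116166900010116011616690116166916696996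

def pc (m : ℕ) : ℕ := (m.testBit 0).toNat + (m.testBit 1).toNat + (m.testBit 2).toNat +
  (m.testBit 3).toNat + (m.testBit 4).toNat + (m.testBit 5).toNat + (m.testBit 6).toNat +
  (m.testBit 7).toNat + (m.testBit 8).toNat + (m.testBit 9).toNat

theorem card_toF (m : ℕ) : (toF m).card = pc m := by
  simp only [toF, Finset.card_filter, pc]
  simp only [Fin.sum_univ_succ, Fin.sum_univ_zero]
  have key : ∀ b : Bool, (if b = true then 1 else 0 : ℕ) = b.toNat := by
    intro b; cases b <;> rfl
  simp only [key, add_zero, ← add_assoc]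
  rfl

theorem lt_of_testBit {c n m : ℕ} (hc : c < 2 ^ n) (h : c.testBit m = true) : m < n := by
  by_contra hlt
  have : c.testBit m = false := Nat.testBit_lt_two_pow (lt_of_lt_of_le hc
    (Nat.pow_le_pow_right (by norm_num) (not_lt.mp hlt)))
  rw [this] at h; exact absurd h (by simp)

theorem c4_fin : ∀ m : Fin 1024, c4.testBit m = true → pc m = 4 := by decide +kernel
theorem c3_fin : ∀ m : Fin 1024, c3.testBit m = true → pc m = 3 := by decide +kernel
theorem c2_fin : ∀ m : Fin 1024, c2.testBit m = true → pc m = 2 := by decide +kernel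
theorem c13_fin : ∀ m : Fin 1024, c13.testBit m = true → pc m = 1 ∨ pc m = 3 := by
  decide +kernel

theorem c4_spec {m : ℕ} (h : c4.testBit m = true) : (toF m).card = 4 := by
  have hm : m < 1024 := lt_of_testBit (by decide +kernel) h
  rw [card_toF]; exact c4_fin ⟨m, hm⟩ h
theorem c3_spec {m : ℕ} (h : c3.testBit m = true) : (toF m).card = 3 := by
  have hm : m < 1024 := lt_of_testBit (by decide +kernel) h
  rw [card_toF]; exact c3_fin ⟨m, hm⟩ h
theorem c2_spec {m : ℕ} (h : c2.testBit m = true) : (toF m).card = 2 := by
  have hm : m < 1024 := lt_of_testBit (by decide +kernel) h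
  rw [card_toF]; exact c2_fin ⟨m, hm⟩ h
theorem c13_spec {m : ℕ} (h : c13.testBit m = true) : (toF m).card = 1 ∨ (toF m).card = 3 := by
  have hm : m < 1024 := lt_of_testBit (by decide +kernel) h
  rw [card_toF]; exact c13_fin ⟨m, hm⟩ h

theorem mem_toF {m : ℕ} {i : Fin 10} : i ∈ toF m ↔ m.testBit i = true := by simp [toF]

theorem toF_sub {a b : ℕ} (h : a &&& b = a) : toF a ⊆ toF b := by
  intro i hi
  rw [mem_toF] at hi ⊢
  rw [← h, Nat.testBit_and] at hi
  simp only [Bool.and_eq_true] at hi
  exact hi.2

theorem toF_disj {a b : ℕ} (h : a &&& b = 0) : Disjoint (toF a) (toF b) := by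
  rw [Finset.disjoint_left]
  intro i hi hj
  rw [mem_toF] at hi hj
  have : (a &&& b).testBit i = true := by rw [Nat.testBit_and, hi, hj]; rfl
  rw [h] at this
  simp at this

theorem testBit_1023 : ∀ i : Fin 10, Nat.testBit 1023 i = true := by decide

theorem toF_compl (a : ℕ) : toF (1023 ^^^ a) = (toF a)ᶜ := by
  ext i
  rw [Finset.mem_compl, mem_toF, mem_toF, Nat.testBit_xor, testBit_1023]
  cases a.testBit i <;> simp

theorem toF_or (a b : ℕ) : toF (a ||| b) = toF a ∪ toF b := by
  ext i
  rw [Finset.mem_union, mem_toF, mem_toF, mem_toF, Nat.testBit_or]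
  simp

theorem toF_insert (a : ℕ) (d : Fin 10) : toF (a ||| 1 <<< (d : ℕ)) = insert d (toF a) := by
  ext i
  rw [Finset.mem_insert, mem_toF, mem_toF, Nat.testBit_or, Nat.one_shiftLeft, Nat.testBit_two_pow]
  simp only [Bool.or_eq_true, decide_eq_true_eq, Fin.ext_iff]
  tauto

/-! ### the system -/

structure Sys (N : Finset (Fin 10) → Prop) : Prop where
  h1 : ∀ S Q, N S → Q ⊆ S → N Q
  h2 : ∀ S R R', S.card = 4 → N S → R.card = 3 → R'.card = 3 → Disjoint S R → Disjoint S R' →
    Disjoint R R' → (N R ↔ ¬ N R')
  h3 : ∀ S P, S.card = 4 → N S → P.card = 2 → Disjoint S P →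
    ∀ E : Finset (Fin 10), Disjoint E (S ∪ P) → (E.card = 1 ∨ E.card = 3) →
      ∃ d, d ∉ S ∪ P ∧ ¬ (N (insert d P) ↔ d ∈ E)
  h4 : ∀ S R, S.card = 4 → N S → R.card = 3 → N R → Disjoint S R → ∃ d ∈ S, N (insert d R)
  h5 : ∀ S S', S.card = 4 → S'.card = 4 → N S → N S' → ¬ Disjoint S S'

def digs : List ℕ := [0, 1, 2, 3, 4, 5, 6, 7, 8, 9]

/-- admissible parameters of a clause -/
def ok (k S R E : ℕ) : Bool :=
  bif Nat.beq k 0 then Nat.beq (R &&& S) R
  else bif Nat.beq k 5 then c4.testBit S && (c4.testBit R && Nat.beq (S &&& R) 0)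
  else bif Nat.beq k 4 then c4.testBit S && (c2.testBit R && (Nat.beq (S &&& R) 0 &&
    (c13.testBit E && Nat.beq (E &&& (S ||| R)) 0)))
  else c4.testBit S && (c3.testBit R && Nat.beq (S &&& R) 0)

/-- the literals of a clause -/
def lits (k S R E : ℕ) : List (Bool × ℕ) :=
  bif Nat.beq k 0 then [(false, S), (true, R)]
  else bif Nat.beq k 5 then [(false, S), (false, R)]
  else bif Nat.beq k 4 then
    (false, S) :: digs.filterMap fun d =>
      bif (S ||| R).testBit d then none else some (!E.testBit d, R ||| 1 <<< d)
  else bif Nat.beq k 1 then [(false, S), (false, R), (false, 1023 ^^^ (S ||| R))]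
  else bif Nat.beq k 2 then [(false, S), (true, R), (true, 1023 ^^^ (S ||| R))]
  else (false, S) :: (false, R) :: digs.filterMap fun d =>
      bif S.testBit d then some (true, R ||| 1 <<< d) else none

/-- truth of a literal -/
def Tr (N : Finset (Fin 10) → Prop) (x : Bool × ℕ) : Prop := (x.1 = true ↔ N (toF x.2))

theorem mem_digs (d : Fin 10) : (d : ℕ) ∈ digs := by
  revert d; decide

theorem card_compl7 {S R : ℕ} (hS : c4.testBit S = true) (hR : c3.testBit R = true)
    (h : Disjoint (toF S) (toF R)) : (toF (1023 ^^^ (S ||| R))).card = 3 := by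
  rw [toF_compl, Finset.card_compl, toF_or, Finset.card_union_of_disjoint h, c4_spec hS,
    c3_spec hR]
  simp

theorem clause_sound {N : Finset (Fin 10) → Prop} (hN : Sys N) (k S R E : ℕ)
    (h : ok k S R E = true) : ∃ x ∈ lits k S R E, Tr N x := by
  by_contra hcon
  push Not at hcon
  unfold ok at h
  unfold lits at hcon
  by_cases k0 : Nat.beq k 0 = true
  · rw [k0] at h hcon
    simp only [cond_true] at h hcon
    have hS := hcon (false, S) (by simp)
    have hR := hcon (true, R) (by simp)
    simp only [Tr, Bool.false_eq_true, false_iff, not_not, true_iff] at hS hR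
    exact hR (hN.h1 _ _ hS (toF_sub (Nat.eq_of_beq_eq_true h)))
  rw [Bool.not_eq_true] at k0
  rw [k0] at h hcon
  simp only [cond_false] at h hcon
  by_cases k5 : Nat.beq k 5 = true
  · rw [k5] at h hcon
    simp only [cond_true, Bool.and_eq_true] at h hcon
    have hS := hcon (false, S) (by simp)
    have hR := hcon (false, R) (by simp)
    simp only [Tr, Bool.false_eq_true, false_iff, not_not] at hS hR
    exact hN.h5 _ _ (c4_spec h.1) (c4_spec h.2.1) hS hR (toF_disj (Nat.eq_of_beq_eq_true h.2.2))
  rw [Bool.not_eq_true] at k5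
  rw [k5] at h hcon
  simp only [cond_false] at h hcon
  by_cases k4 : Nat.beq k 4 = true
  · rw [k4] at h hcon
    simp only [cond_true, Bool.and_eq_true] at h hcon
    obtain ⟨hS4, hR2, hSR, hE, hEd⟩ := h
    replace hSR := Nat.eq_of_beq_eq_true hSR
    replace hEd := Nat.eq_of_beq_eq_true hEd
    have hS := hcon (false, S) (by simp)
    simp only [Tr, Bool.false_eq_true, false_iff, not_not] at hS
    have hEd' : Disjoint (toF E) (toF S ∪ toF R) := by
      rw [← toF_or]; exact toF_disj hEd
    obtain ⟨d, hd, hnd⟩ := hN.h3 _ _ (c4_spec hS4) hS (c2_spec hR2) (toF_disj hSR) (toF E)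
      hEd' (c13_spec hE)
    rw [← toF_or, mem_toF, Bool.not_eq_true] at hd
    have := hcon (!E.testBit d, R ||| 1 <<< (d : ℕ)) (by
      refine List.mem_cons_of_mem _ ?_
      rw [List.mem_filterMap]
      refine ⟨d, mem_digs d, ?_⟩
      rw [hd]; rfl)
    apply this
    unfold Tr
    rw [toF_insert]
    rw [mem_toF] at hnd
    simp only [Bool.not_eq_true']
    rw [← Bool.not_eq_true]
    tauto
  rw [Bool.not_eq_true] at k4
  rw [k4] at h hcon
  simp only [cond_false] at h hcon
  simp only [Bool.and_eq_true] at h
  obtain ⟨hS4, hR3, hSR⟩ := h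
  replace hSR := Nat.eq_of_beq_eq_true hSR
  have hd := toF_disj hSR
  have hR' := card_compl7 hS4 hR3 hd
  have hdS : Disjoint (toF S) (toF (1023 ^^^ (S ||| R))) := by
    rw [toF_compl, toF_or]
    exact disjoint_compl_right.mono_left Finset.subset_union_left
  have hdR : Disjoint (toF R) (toF (1023 ^^^ (S ||| R))) := by
    rw [toF_compl, toF_or]
    exact disjoint_compl_right.mono_left Finset.subset_union_right
  by_cases k1 : Nat.beq k 1 = true
  · rw [k1] at hcon
    simp only [cond_true] at hcon
    have hS := hcon (false, S) (by simp)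
    have hR := hcon (false, R) (by simp)
    have hR2 := hcon (false, 1023 ^^^ (S ||| R)) (by simp)
    simp only [Tr, Bool.false_eq_true, false_iff, not_not] at hS hR hR2
    exact (hN.h2 _ _ _ (c4_spec hS4) hS (c3_spec hR3) hR' hd hdS hdR).mp hR hR2
  rw [Bool.not_eq_true] at k1
  rw [k1] at hcon
  simp only [cond_false] at hcon
  by_cases k2 : Nat.beq k 2 = true
  · rw [k2] at hcon
    simp only [cond_true] at hcon
    have hS := hcon (false, S) (by simp)
    have hR := hcon (true, R) (by simp)
    have hR2 := hcon (true, 1023 ^^^ (S ||| R)) (by simp)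
    simp only [Tr, Bool.false_eq_true, false_iff, not_not, true_iff] at hS hR hR2
    exact hR ((hN.h2 _ _ _ (c4_spec hS4) hS (c3_spec hR3) hR' hd hdS hdR).mpr hR2)
  rw [Bool.not_eq_true] at k2
  rw [k2] at hcon
  simp only [cond_false] at hcon
  have hS := hcon (false, S) (by simp)
  have hR := hcon (false, R) (by simp)
  simp only [Tr, Bool.false_eq_true, false_iff, not_not] at hS hR
  obtain ⟨d, hdS, hdN⟩ := hN.h4 _ _ (c4_spec hS4) hS (c3_spec hR3) hR hd
  rw [mem_toF] at hdS
  have := hcon (true, R ||| 1 <<< (d : ℕ)) (by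
    refine List.mem_cons_of_mem _ (List.mem_cons_of_mem _ ?_)
    rw [List.mem_filterMap]
    refine ⟨d, mem_digs d, ?_⟩
    rw [hdS]; rfl)
  apply this
  unfold Tr
  rw [toF_insert]
  simpa using hdN

/-! ### the checker -/

/-- the literal `x` is false in the state `(T, F)` -/
def fals (T F : ℕ) (x : Bool × ℕ) : Bool := bif x.1 then F.testBit x.2 else T.testBit x.2

def setT (s : Bool) (m T : ℕ) : ℕ := bif s then T ||| 1 <<< m else T
def setF (s : Bool) (m F : ℕ) : ℕ := bif s then F else F ||| 1 <<< m

def stepOne (X : List (ℕ × ℕ)) (ih : ℕ → List ℕ → ℕ → ℕ → Option (ℕ × List ℕ))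
    (cur : ℕ) (rest : List ℕ) (T F : ℕ) (op S R E m : ℕ) (s : Bool) :
    Option (ℕ × List ℕ) :=
  bif Nat.ble op 5 then
    -- unit step
    bif ok op S R E && (lits op S R E).all fun x =>
      fals T F x || ((bif s then x.1 else !x.1) && Nat.beq x.2 m) then
      ih cur rest (setT s m T) (setF s m F)
    else none
  else bif Nat.ble op 13 then
    -- conflict with clause of kind `op - 8`
    bif ok (op - 8) S R E && (lits (op - 8) S R E).all fun x => fals T F x then
      some (cur, rest)
    else none
  else bif Nat.beq op 14 then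
    -- a state already known to be impossible
    bif X.any fun p => Nat.beq (p.1 &&& T) p.1 && Nat.beq (p.2 &&& F) p.2 then
      some (cur, rest)
    else none
  else
    -- split on `m`
    match ih cur rest (setT true m T) (setF true m F) with
    | none => none
    | some (cur', rest') => ih cur' rest' (setT false m T) (setF false m F)

def run (X : List (ℕ × ℕ)) (fuel : ℕ) : ℕ → List ℕ → ℕ → ℕ → Option (ℕ × List ℕ) :=
  Nat.rec (fun _ _ _ _ => none)
    (fun _ ih cur rest T F =>
      bif Nat.beq cur 0 then
        match rest with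
        | [] => none
        | c :: rest' => ih c rest' T F
      else
        stepOne X ih (cur >>> 48) rest T F (cur &&& 15) ((cur >>> 4) &&& 1023)
          ((cur >>> 14) &&& 1023) ((cur >>> 24) &&& 1023) ((cur >>> 34) &&& 1023)
          (cur.testBit 44)) fuel

def Good (N : Finset (Fin 10) → Prop) (T F : ℕ) : Prop :=
  (∀ m, T.testBit m = true → N (toF m)) ∧ (∀ m, F.testBit m = true → ¬ N (toF m))

theorem good_set {N : Finset (Fin 10) → Prop} {T F : ℕ} (h : Good N T F) {s : Bool} {m : ℕ}
    (hs : Tr N (s, m)) : Good N (setT s m T) (setF s m F) := by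
  unfold Tr at hs
  cases s with
  | true =>
    refine ⟨fun k hk => ?_, h.2⟩
    simp only [setT, cond_true, Nat.testBit_or, Nat.one_shiftLeft, Nat.testBit_two_pow,
      Bool.or_eq_true, decide_eq_true_eq] at hk
    rcases hk with hk | hk
    · exact h.1 k hk
    · subst hk; exact hs.mp rfl
  | false =>
    refine ⟨h.1, fun k hk => ?_⟩
    simp only [setF, cond_false, Nat.testBit_or, Nat.one_shiftLeft, Nat.testBit_two_pow,
      Bool.or_eq_true, decide_eq_true_eq] at hk
    rcases hk with hk | hk
    · exact h.2 k hk
    · subst hk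
      intro h'
      exact absurd (hs.mpr h') (by simp)

theorem not_fals {N : Finset (Fin 10) → Prop} {T F : ℕ} (h : Good N T F) {x : Bool × ℕ}
    (hx : Tr N x) : fals T F x = false := by
  unfold Tr at hx
  unfold fals
  obtain ⟨b, m⟩ := x
  cases b with
  | true =>
    simp only [cond_true]
    by_contra hc
    rw [Bool.not_eq_false] at hc
    exact h.2 _ hc (hx.mp rfl)
  | false =>
    simp only [cond_false]
    by_contra hc
    rw [Bool.not_eq_false] at hc
    exact absurd (hx.mpr (h.1 _ hc)) (by simp)

theorem good_mono {N : Finset (Fin 10) → Prop} {T F T' F' : ℕ} (h : Good N T F)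
    (hT : T' &&& T = T') (hF : F' &&& F = F') : Good N T' F' := by
  refine ⟨fun m hm => h.1 m ?_, fun m hm => h.2 m ?_⟩
  · rw [← hT, Nat.testBit_and, Bool.and_eq_true] at hm; exact hm.2
  · rw [← hF, Nat.testBit_and, Bool.and_eq_true] at hm; exact hm.2

theorem step_sound {N : Finset (Fin 10) → Prop} (hN : Sys N)
    (X : List (ℕ × ℕ)) (hX : ∀ p ∈ X, ¬ Good N p.1 p.2)
    (ih : ℕ → List ℕ → ℕ → ℕ → Option (ℕ × List ℕ))
    (hih : ∀ cur rest T F, Good N T F → ih cur rest T F = none)
    (cur : ℕ) (rest : List ℕ) (T F : ℕ) (op S R E m : ℕ) (s : Bool) (h : Good N T F) :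
    stepOne X ih cur rest T F op S R E m s = none := by
  unfold stepOne
  by_cases h5 : Nat.ble op 5 = true
  · rw [h5]
    simp only [cond_true]
    by_cases hc : (ok op S R E && (lits op S R E).all fun x =>
      fals T F x || ((bif s then x.1 else !x.1) && Nat.beq x.2 m)) = true
    · rw [hc]
      simp only [cond_true]
      apply hih
      rw [Bool.and_eq_true] at hc
      obtain ⟨x, hx, hTr⟩ := clause_sound hN _ _ _ _ hc.1
      have h2 := List.all_eq_true.mp hc.2 x hx
      rw [not_fals h hTr, Bool.false_or, Bool.and_eq_true] at h2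
      apply good_set h
      obtain ⟨b, k⟩ := x
      simp only at h2
      obtain ⟨h2, h3⟩ := h2
      replace h3 := Nat.eq_of_beq_eq_true h3
      subst h3
      cases s <;> cases b <;> first | exact hTr | simp at h2
    · rw [Bool.not_eq_true] at hc
      rw [hc]; rfl
  rw [Bool.not_eq_true] at h5
  rw [h5]
  simp only [cond_false]
  by_cases h13 : Nat.ble op 13 = true
  · rw [h13]
    simp only [cond_true]
    by_cases hc : (ok (op - 8) S R E && (lits (op - 8) S R E).all fun x => fals T F x) = true
    · exfalso
      rw [Bool.and_eq_true] at hc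
      obtain ⟨x, hx, hTr⟩ := clause_sound hN _ _ _ _ hc.1
      have h2 := List.all_eq_true.mp hc.2 x hx
      rw [not_fals h hTr] at h2
      exact absurd h2 (by simp)
    · rw [Bool.not_eq_true] at hc
      rw [hc]; rfl
  rw [Bool.not_eq_true] at h13
  rw [h13]
  simp only [cond_false]
  by_cases h14 : Nat.beq op 14 = true
  · rw [h14]
    simp only [cond_true]
    by_cases hc : (X.any fun p => Nat.beq (p.1 &&& T) p.1 && Nat.beq (p.2 &&& F) p.2) = true
    · exfalso
      obtain ⟨p, hp, hp2⟩ := List.any_eq_true.mp hc
      rw [Bool.and_eq_true] at hp2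
      exact hX p hp (good_mono h (Nat.eq_of_beq_eq_true hp2.1) (Nat.eq_of_beq_eq_true hp2.2))
    · rw [Bool.not_eq_true] at hc
      rw [hc]; rfl
  rw [Bool.not_eq_true] at h14
  rw [h14]
  simp only [cond_false]
  by_cases hm : N (toF m)
  · rw [hih _ _ _ _ (good_set h (s := true) (m := m) (by unfold Tr; simpa using hm))]
  · have h2 : ∀ cur' rest', ih cur' rest' (setT false m T) (setF false m F) = none :=
      fun cur' rest' => hih _ _ _ _ (good_set h (s := false) (m := m) (by
        unfold Tr; simpa using hm))
    split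
    · rfl
    · exact h2 _ _

theorem run_sound {N : Finset (Fin 10) → Prop} (hN : Sys N)
    (X : List (ℕ × ℕ)) (hX : ∀ p ∈ X, ¬ Good N p.1 p.2) (fuel : ℕ) :
    ∀ cur rest T F, Good N T F → run X fuel cur rest T F = none := by
  induction fuel with
  | zero => intro cur rest T F _; rfl
  | succ n ih =>
    intro cur rest T F h
    have hrun : run X (n + 1) cur rest T F = (bif Nat.beq cur 0 then
        match rest with
        | [] => none
        | c :: rest' => run X n c rest' T F
      else
        stepOne X (run X n) (cur >>> 48) rest T F (cur &&& 15) ((cur >>> 4) &&& 1023)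
          ((cur >>> 14) &&& 1023) ((cur >>> 24) &&& 1023) ((cur >>> 34) &&& 1023)
          (cur.testBit 44)) := rfl
    rw [hrun]
    by_cases h0 : Nat.beq cur 0 = true
    · rw [h0]
      simp only [cond_true]
      cases rest with
      | nil => rfl
      | cons c rest' => exact ih _ _ _ _ h
    · rw [Bool.not_eq_true] at h0
      rw [h0]
      simp only [cond_false]
      exact step_sound hN X hX _ ih _ _ _ _ _ _ _ _ _ _ h

theorem no_good {N : Finset (Fin 10) → Prop} (hN : Sys N) (X : List (ℕ × ℕ))
    (hX : ∀ p ∈ X, ¬ Good N p.1 p.2) {T F fuel : ℕ} {c : List ℕ}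
    (h : (run X fuel 0 c T F).isSome = true) : ¬ Good N T F := by
  intro hg
  rw [run_sound hN X hX fuel 0 c T F hg] at h
  exact absurd h (by simp)

end Crest.BRFin
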