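import Mathlib
import Crest.Prelude.Def_DaugavetL1
import Crest.Agent.H11AUC

set_option autoImplicit false

namespace Crest.Agent.H24Daugavet

open Crest Crest.AnalysisR Crest.AnalysisR.L1Subspace

variable {X : Type*} [NormedAddCommGroup X] [NormedSpace ℝ X]

/-- scaling of almost-additivity -/
theorem scale_add (a b : X) (ha : ‖a‖ ≤ 1) (hb : ‖b‖ ≤ 1) (δ r s : ℝ) (hr : 0 ≤ r) (hs : 0 ≤ s)
    (hδ : 0 ≤ δ) (h : 2 - δ ≤ ‖a + b‖) : r + s - (r + s) * δ ≤ ‖r • a + s • b‖ := by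
  rcases le_total r s with hrs | hrs
  · have h1 : r • a + s • b = s • (a + b) - (s - r) • a := by
      rw [smul_add, sub_smul]; abel
    have h2 : ‖s • (a + b)‖ - ‖(s - r) • a‖ ≤ ‖s • (a + b) - (s - r) • a‖ := norm_sub_norm_le _ _
    have h3 : ‖s • (a + b)‖ = s * ‖a + b‖ := by rw [norm_smul, Real.norm_of_nonneg hs]
    have h4 : ‖(s - r) • a‖ = (s - r) * ‖a‖ := by rw [norm_smul, Real.norm_of_nonneg (by linarith)]
    have h5 : s * (2 - δ) ≤ s * ‖a + b‖ := mul_le_mul_of_nonneg_left h hs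
    have h6 : (s - r) * ‖a‖ ≤ (s - r) * 1 := mul_le_mul_of_nonneg_left ha (by linarith)
    rw [h1]
    nlinarith [mul_nonneg hr hδ]
  · have h1 : r • a + s • b = r • (a + b) - (r - s) • b := by
      rw [smul_add, sub_smul]; abel
    have h2 : ‖r • (a + b)‖ - ‖(r - s) • b‖ ≤ ‖r • (a + b) - (r - s) • b‖ := norm_sub_norm_le _ _
    have h3 : ‖r • (a + b)‖ = r * ‖a + b‖ := by rw [norm_smul, Real.norm_of_nonneg hr]
    have h4 : ‖(r - s) • b‖ = (r - s) * ‖b‖ := by rw [norm_smul, Real.norm_of_nonneg (by linarith)]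
    have h5 : r * (2 - δ) ≤ r * ‖a + b‖ := mul_le_mul_of_nonneg_left h hr
    have h6 : (r - s) * ‖b‖ ≤ (r - s) * 1 := mul_le_mul_of_nonneg_left hb (by linarith)
    rw [h1]
    nlinarith [mul_nonneg hs hδ]

/-- every vector is a nonnegative multiple of a unit vector -/
theorem exists_dir [Nontrivial X] (v : X) : ∃ v' : X, ‖v'‖ = 1 ∧ v = ‖v‖ • v' := by
  by_cases hv : v = 0
  · obtain ⟨w, hw⟩ := exists_norm_eq X (zero_le_one (α := ℝ))
    exact ⟨w, hw, by rw [hv]; simp⟩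
  · have h0 : ‖v‖ ≠ 0 := norm_ne_zero_iff.mpr hv
    refine ⟨‖v‖⁻¹ • v, ?_, ?_⟩
    · rw [norm_smul, norm_inv, norm_norm, inv_mul_cancel₀ h0]
    · rw [smul_smul, mul_inv_cancel₀ h0, one_smul]

/-- Daugavet property: slices contain vectors almost additive with a given vector. -/
theorem slice [Nontrivial X] (hD : HasDaugavetProperty X) (φ : X →L[ℝ] ℝ) (v : X) (s α ε : ℝ)
    (hs : 0 ≤ s) (hα : 0 < α) (hε : 0 < ε) :
    ∃ z : X, ‖z‖ ≤ 1 ∧ ‖φ‖ - α ≤ φ z ∧ ‖v‖ + s - ε ≤ ‖v + s • z‖ := by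
  obtain ⟨v', hv', hv⟩ := exists_dir v
  by_cases hφ : φ = 0
  · refine ⟨v', hv'.le, by rw [hφ]; simpa using hα.le, ?_⟩
    have h1 : v + s • v' = (‖v‖ + s) • v' := by rw [add_smul, ← hv]
    rw [h1, norm_smul, hv', mul_one, Real.norm_of_nonneg (by positivity)]
    linarith
  · have hc : 0 < ‖φ‖ := norm_pos_iff.mpr hφ
    set c := ‖φ‖ with hcdef
    set δ : ℝ := min (α / (c + 1)) (ε / (2 * (‖v‖ + s) + 1)) with hδdef
    have hδ : 0 < δ := lt_min (by positivity) (by positivity)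
    have hδ1 : c * δ ≤ α := by
      have h1 : δ ≤ α / (c + 1) := min_le_left _ _
      calc c * δ ≤ (c + 1) * (α / (c + 1)) := mul_le_mul (by linarith) h1 hδ.le (by linarith)
        _ = α := by field_simp
    have hδ2 : (‖v‖ + s) * (2 * δ) ≤ ε := by
      have h1 : δ ≤ ε / (2 * (‖v‖ + s) + 1) := min_le_right _ _
      have h0 : 0 ≤ ‖v‖ + s := by positivity
      calc (‖v‖ + s) * (2 * δ) = (2 * (‖v‖ + s)) * δ := by ring
        _ ≤ (2 * (‖v‖ + s) + 1) * (ε / (2 * (‖v‖ + s) + 1)) :=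
          mul_le_mul (by linarith) h1 hδ.le (by linarith)
        _ = ε := by field_simp
    set ψ : X →L[ℝ] ℝ := c⁻¹ • φ with hψ
    have hψ1 : ‖ψ‖ = 1 := by
      rw [hψ, norm_smul, norm_inv, Real.norm_of_nonneg hc.le, ← hcdef, inv_mul_cancel₀ hc.ne']
    have hT := hD ψ v'
    rw [ContinuousLinearMap.norm_smulRight_apply, hψ1, hv'] at hT
    obtain ⟨w, hw, hw2⟩ := (ContinuousLinearMap.id ℝ X + ψ.smulRight v').exists_lt_apply_of_lt_opNorm
      (r := 2 - δ) (by rw [hT]; linarith)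
    have hw3 : 2 - δ < ‖w + ψ w • v'‖ := by simpa using hw2
    -- fix the sign
    obtain ⟨z, hz, hz0, hz2⟩ : ∃ z : X, ‖z‖ ≤ 1 ∧ 0 ≤ ψ z ∧ 2 - δ < ‖z + ψ z • v'‖ := by
      rcases le_or_gt 0 (ψ w) with h | h
      · exact ⟨w, hw.le, h, hw3⟩
      · refine ⟨-w, by rw [norm_neg]; exact hw.le, by rw [map_neg]; linarith, ?_⟩
        have h1 : -w + ψ (-w) • v' = -(w + ψ w • v') := by
          rw [map_neg, neg_smul]; abel
        rw [h1, norm_neg]; exact hw3
    have hz3 : ‖z + ψ z • v'‖ ≤ ‖z‖ + ψ z := by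
      refine (norm_add_le _ _).trans ?_
      rw [norm_smul, hv', mul_one, Real.norm_of_nonneg hz0]
    have hz4 : 1 - δ ≤ ψ z := by linarith
    have hz5 : ψ z ≤ 1 := by
      calc ψ z ≤ ‖ψ z‖ := Real.le_norm_self _
        _ ≤ ‖ψ‖ * ‖z‖ := ψ.le_opNorm _
        _ ≤ 1 * 1 := by rw [hψ1]; linarith
        _ = 1 := one_mul 1
    refine ⟨z, hz, ?_, ?_⟩
    · have h1 : φ z = c * ψ z := by
        rw [hψ]; simp only [smul_apply, smul_eq_mul]; field_simp
      rw [h1]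
      nlinarith
    · have h1 : 2 - 2 * δ ≤ ‖v' + z‖ := by
        have h2 : z + ψ z • v' = (v' + z) - (1 - ψ z) • v' := by
          rw [sub_smul, one_smul]; abel
        have h3 : ‖(v' + z) - (1 - ψ z) • v'‖ ≤ ‖v' + z‖ + ‖(1 - ψ z) • v'‖ := norm_sub_le _ _
        have h4 : ‖(1 - ψ z) • v'‖ = 1 - ψ z := by
          rw [norm_smul, hv', mul_one, Real.norm_of_nonneg (by linarith)]
        rw [h2] at hz2
        linarith
      have h2 := scale_add v' z hv'.le hz (2 * δ) ‖v‖ s (norm_nonneg v) hs (by positivity) h1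
      rw [← hv] at h2
      linarith

/-- the set of values which are approximately attained by vectors almost additive with anything -/
def G {m : ℕ} (T : X →L[ℝ] EuclideanSpace ℝ (Fin m)) : Set (EuclideanSpace ℝ (Fin m)) :=
  {w | ∀ (v : X) (s ε : ℝ), 0 ≤ s → 0 < ε → ∃ z : X, ‖z‖ ≤ 1 ∧ ‖T z - w‖ ≤ ε ∧
    ‖v‖ + s - ε ≤ ‖v + s • z‖}

theorem convex_G {m : ℕ} (T : X →L[ℝ] EuclideanSpace ℝ (Fin m)) : Convex ℝ (G T) := by
  intro w₁ h₁ w₂ h₂ a b ha hb hab v s ε hs hε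
  obtain ⟨z₁, hz₁, hT₁, hn₁⟩ := h₁ v (a * s) (ε / 2) (by positivity) (by positivity)
  obtain ⟨z₂, hz₂, hT₂, hn₂⟩ := h₂ (v + (a * s) • z₁) (b * s) (ε / 2) (by positivity) (by positivity)
  refine ⟨a • z₁ + b • z₂, ?_, ?_, ?_⟩
  · refine (norm_add_le _ _).trans ?_
    rw [norm_smul, norm_smul, Real.norm_of_nonneg ha, Real.norm_of_nonneg hb]
    nlinarith
  · have h1 : T (a • z₁ + b • z₂) - (a • w₁ + b • w₂) = a • (T z₁ - w₁) + b • (T z₂ - w₂) := by
      rw [map_add, map_smul, map_smul, smul_sub, smul_sub]; abel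
    rw [h1]
    refine (norm_add_le _ _).trans ?_
    rw [norm_smul, norm_smul, Real.norm_of_nonneg ha, Real.norm_of_nonneg hb]
    nlinarith
  · have h1 : v + s • (a • z₁ + b • z₂) = v + (a * s) • z₁ + (b * s) • z₂ := by
      rw [smul_add, smul_smul, smul_smul, mul_comm s a, mul_comm s b]; abel
    rw [h1]
    nlinarith

theorem isClosed_G {m : ℕ} (T : X →L[ℝ] EuclideanSpace ℝ (Fin m)) : IsClosed (G T) := by
  refine isClosed_of_closure_subset ?_
  intro w hw v s ε hs hε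
  rw [Metric.mem_closure_iff] at hw
  obtain ⟨w', hw', hd⟩ := hw (ε / 2) (by positivity)
  obtain ⟨z, hz, hT, hn⟩ := hw' v s (ε / 2) hs (by positivity)
  refine ⟨z, hz, ?_, by linarith⟩
  have h1 : T z - w = (T z - w') - (w - w') := by abel
  rw [h1]
  rw [dist_eq_norm] at hd
  refine (norm_sub_le _ _).trans ?_
  linarith

/-- Bourgain-type lemma -/
theorem mem_G [Nontrivial X] (hD : HasDaugavetProperty X) {m : ℕ}
    (T : X →L[ℝ] EuclideanSpace ℝ (Fin m)) (x : X) (hx : ‖x‖ ≤ 1) : T x ∈ G T := by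
  by_contra hcon
  obtain ⟨f, u, hf, hfx⟩ := geometric_hahn_banach_closed_point (convex_G T) (isClosed_G T) hcon
  set K : Set (EuclideanSpace ℝ (Fin m)) := closure (T '' Metric.closedBall 0 1) with hK
  have hbdd : ∀ w ∈ K, ‖w‖ ≤ ‖T‖ := by
    intro w hw
    have : K ⊆ Metric.closedBall 0 ‖T‖ := by
      refine closure_minimal ?_ Metric.isClosed_closedBall
      rintro _ ⟨z, hz, rfl⟩
      rw [mem_closedBall_zero_iff] at hz ⊢
      exact T.unit_le_opNorm z hz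
    simpa using this hw
  have hcomp : IsCompact K := by
    refine Metric.isCompact_of_isClosed_isBounded isClosed_closure ?_
    exact (Metric.isBounded_closedBall (x := (0 : EuclideanSpace ℝ (Fin m))) (r := ‖T‖)).subset
      (fun w hw => by simpa using hbdd w hw)
  have hTK : ∀ z : X, ‖z‖ ≤ 1 → T z ∈ K := fun z hz =>
    subset_closure ⟨z, by simpa using hz, rfl⟩
  -- Riesz vector
  set g : EuclideanSpace ℝ (Fin m) := (InnerProductSpace.toDual ℝ _).symm f with hg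
  have hfg : ∀ w, f w = inner ℝ g w := by
    intro w
    rw [hg, InnerProductSpace.toDual_symm_apply]
  set R : ℝ := ‖T‖ ^ 2 / (f (T x) - u) + 1 with hR
  have hgap : 0 < f (T x) - u := by linarith
  have hR0 : 0 < R := by positivity
  set p : EuclideanSpace ℝ (Fin m) := -(R • g) with hp
  obtain ⟨e, heK, hemax⟩ := hcomp.exists_isMaxOn ⟨T x, hTK x hx⟩
    (f := fun w => ‖w - p‖) (by fun_prop)
  have hmax : ∀ w ∈ K, ‖w - p‖ ≤ ‖e - p‖ := fun w hw => hemax hw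
  -- the farthest point is in `G`
  have heG : e ∈ G T := by
    intro v s ε hs hε
    set φ : X →L[ℝ] ℝ := (innerSL ℝ (e - p)).comp T with hφ
    have hφa : ∀ z, φ z = inner ℝ (e - p) (T z) := fun z => rfl
    have hφn : inner ℝ (e - p) e ≤ ‖φ‖ := by
      have hcl : IsClosed {w : EuclideanSpace ℝ (Fin m) | inner ℝ (e - p) w ≤ ‖φ‖} :=
        isClosed_le (by fun_prop) continuous_const
      have hsub : K ⊆ {w : EuclideanSpace ℝ (Fin m) | inner ℝ (e - p) w ≤ ‖φ‖} := by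
        refine closure_minimal ?_ hcl
        rintro _ ⟨z, hz, rfl⟩
        rw [mem_closedBall_zero_iff] at hz
        show inner ℝ (e - p) (T z) ≤ ‖φ‖
        rw [← hφa]
        exact (Real.le_norm_self _).trans (φ.unit_le_opNorm z hz)
      exact hsub heK
    obtain ⟨z, hz, hz1, hz2⟩ := slice hD φ v s (ε ^ 2 / 2) ε hs (by positivity) hε
    refine ⟨z, hz, ?_, hz2⟩
    have h1 : ‖T z - e‖ ^ 2 = ‖T z - p‖ ^ 2 + ‖e - p‖ ^ 2 - 2 * inner ℝ (e - p) (T z - p) := by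
      have h2 : T z - e = (T z - p) - (e - p) := by abel
      rw [h2, norm_sub_sq_real, real_inner_comm]; ring
    have h3 : ‖T z - p‖ ≤ ‖e - p‖ := hmax _ (hTK z hz)
    have h4 : inner ℝ (e - p) (T z - p) = φ z - inner ℝ (e - p) p := by
      rw [inner_sub_right, hφa]
    have h5 : ‖e - p‖ ^ 2 = inner ℝ (e - p) e - inner ℝ (e - p) p := by
      rw [← inner_sub_right, real_inner_self_eq_norm_sq]
    have h6 : ‖T z - p‖ ^ 2 ≤ ‖e - p‖ ^ 2 := pow_le_pow_left₀ (norm_nonneg _) h3 2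
    have h7 : ‖T z - e‖ ^ 2 ≤ ε ^ 2 := by
      rw [h1, h4]; linarith
    exact abs_le_of_sq_le_sq' h7 hε.le |>.2
  have h1 := hf e heG
  have h2 := hmax (T x) (hTK x hx)
  have h3 : ∀ w, ‖w - p‖ ^ 2 = ‖w‖ ^ 2 + 2 * R * f w + R ^ 2 * ‖g‖ ^ 2 := by
    intro w
    rw [hp, sub_neg_eq_add, norm_add_sq_real, inner_smul_right, real_inner_comm, ← hfg, norm_smul,
      mul_pow, Real.norm_of_nonneg hR0.le]
    ring
  have h4 : ‖T x - p‖ ^ 2 ≤ ‖e - p‖ ^ 2 := pow_le_pow_left₀ (norm_nonneg _) h2 2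
  rw [h3, h3] at h4
  have h5 : ‖e‖ ^ 2 ≤ ‖T‖ ^ 2 := pow_le_pow_left₀ (norm_nonneg _) (hbdd e heK) 2
  have h6 : R * (f (T x) - u) = ‖T‖ ^ 2 + (f (T x) - u) := by
    rw [hR]; field_simp
  nlinarith [sq_nonneg ‖T x‖, sq_nonneg ‖T‖]

/-- Key lemma. -/
theorem key [Nontrivial X] (hD : HasDaugavetProperty X) (V : Submodule ℝ X)
    (hcl : IsClosed (V : Set X)) (hfd : FiniteDimensional ℝ (X ⧸ V)) (x : X) (hx : ‖x‖ ≤ 1)
    (v : X) (ε : ℝ) (hε : 0 < ε) :
    ∃ z : X, ‖z‖ ≤ 1 ∧ (∃ y ∈ V, ‖(z - x) - y‖ ≤ ε) ∧ ‖v‖ + 1 - ε ≤ ‖v + z‖ := by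
  have := hcl
  let q : X →L[ℝ] (X ⧸ V) := V.mkQL
  let L : (X ⧸ V) ≃L[ℝ] EuclideanSpace ℝ (Fin (Module.finrank ℝ (X ⧸ V))) := toEuclidean
  let T : X →L[ℝ] EuclideanSpace ℝ (Fin (Module.finrank ℝ (X ⧸ V))) :=
    (L : (X ⧸ V) →L[ℝ] EuclideanSpace ℝ (Fin (Module.finrank ℝ (X ⧸ V)))).comp q
  set C : ℝ := ‖(L.symm : EuclideanSpace ℝ (Fin (Module.finrank ℝ (X ⧸ V))) →L[ℝ] (X ⧸ V))‖ with hC
  have hC0 : 0 ≤ C := ContinuousLinearMap.opNorm_nonneg _
  set ε' : ℝ := min ε (ε / (2 * (C + 1))) with hε'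
  have hε'0 : 0 < ε' := lt_min hε (by positivity)
  obtain ⟨z, hz, hz1, hz2⟩ := mem_G hD T x hx v 1 ε' zero_le_one hε'0
  refine ⟨z, hz, ?_, ?_⟩
  · apply H11AUC.near_of_quot
    have h1 : (Submodule.Quotient.mk (z - x) : X ⧸ V) = L.symm (T z - T x) := by
      have : T z - T x = L (q (z - x)) := by
        rw [← map_sub]; rfl
      rw [this, ContinuousLinearEquiv.symm_apply_apply]
      rfl
    rw [h1]
    have h2 : ‖L.symm (T z - T x)‖ ≤ C * ‖T z - T x‖ :=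
      (L.symm : EuclideanSpace ℝ (Fin (Module.finrank ℝ (X ⧸ V))) →L[ℝ] (X ⧸ V)).le_opNorm _
    have h3 : C * ‖T z - T x‖ ≤ C * (ε / (2 * (C + 1))) :=
      mul_le_mul_of_nonneg_left (hz1.trans (min_le_right _ _)) hC0
    have h4 : C * (ε / (2 * (C + 1))) < ε := by
      have : C * (ε / (2 * (C + 1))) = ε * (C / (2 * (C + 1))) := by ring
      rw [this]
      have h5 : C / (2 * (C + 1)) < 1 := by
        rw [div_lt_one (by positivity)]; linarith
      nlinarith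
    linarith
  · rw [one_smul] at hz2
    have : ε' ≤ ε := min_le_left _ _
    linarith

/-- upper bounds: a good direction -/
theorem good_dir [Nontrivial X] (hD : HasDaugavetProperty X) (V : Submodule ℝ X)
    (hcl : IsClosed (V : Set X)) (hfd : FiniteDimensional ℝ (X ⧸ V)) (x : X) (hx : ‖x‖ = 1)
    (t : ℝ) (ht : 0 < t) (η : ℝ) (hη : 0 < η) :
    ∃ y ∈ V, ‖y‖ = 1 ∧ ‖x + t • y‖ ≤ max 1 (t - 1) + η := by
  set ε : ℝ := min (1 / 2) (η / (2 * t + 1)) with hε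
  have hε0 : 0 < ε := lt_min (by norm_num) (by positivity)
  have hε1 : ε ≤ 1 / 2 := min_le_left _ _
  have hε2 : 2 * t * ε ≤ η := by
    have h1 : ε ≤ η / (2 * t + 1) := min_le_right _ _
    calc 2 * t * ε ≤ (2 * t + 1) * (η / (2 * t + 1)) :=
          mul_le_mul (by linarith) h1 hε0.le (by positivity)
      _ = η := by field_simp
  obtain ⟨z, hz, ⟨y₀, hy₀, hd⟩, hn⟩ := key hD V hcl hfd x hx.le (-x) ε hε0
  rw [norm_neg, hx] at hn
  have hzx : -x + z = z - x := by abel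
  rw [hzx] at hn
  have h1 : ‖z - x‖ ≤ ‖(z - x) - y₀‖ + ‖y₀‖ := by
    have := norm_add_le ((z - x) - y₀) y₀
    simpa using this
  have h2 : ‖y₀‖ ≤ ‖(z - x) - y₀‖ + ‖z - x‖ := by
    have h := norm_sub_le (z - x) ((z - x) - y₀)
    have h' : (z - x) - ((z - x) - y₀) = y₀ := by abel
    rw [h'] at h
    linarith
  have h3 : ‖z - x‖ ≤ 2 := by
    have := norm_sub_le z x
    linarith
  have hy0 : 0 < ‖y₀‖ := by linarith
  refine ⟨‖y₀‖⁻¹ • y₀, V.smul_mem _ hy₀, ?_, ?_⟩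
  · rw [norm_smul, norm_inv, norm_norm, inv_mul_cancel₀ hy0.ne']
  · set y := ‖y₀‖⁻¹ • y₀ with hy
    have h4 : ‖y - (1 / 2 : ℝ) • (z - x)‖ ≤ 2 * ε := by
      have h5 : y - (1 / 2 : ℝ) • (z - x) = (‖y₀‖⁻¹ - 1 / 2) • y₀ - (1 / 2 : ℝ) • ((z - x) - y₀) := by
        rw [hy, sub_smul, smul_sub (1 / 2 : ℝ) (z - x) y₀]; abel
      rw [h5]
      refine (norm_sub_le _ _).trans ?_
      rw [norm_smul, norm_smul, Real.norm_eq_abs, Real.norm_eq_abs]
      have h6 : |‖y₀‖⁻¹ - 1 / 2| * ‖y₀‖ = |1 - ‖y₀‖ / 2| := by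
        rw [← abs_of_pos hy0, ← abs_mul, abs_of_pos hy0]
        congr 1
        field_simp
      rw [h6, abs_of_pos (by norm_num : (0:ℝ) < 1 / 2)]
      have h7 : |1 - ‖y₀‖ / 2| ≤ ε := by
        rw [abs_le]
        constructor <;> linarith
      linarith
    have h5 : x + t • y = (x + t • ((1 / 2 : ℝ) • (z - x))) + t • (y - (1 / 2 : ℝ) • (z - x)) := by
      rw [smul_sub t y]; abel
    have h6 : ‖x + t • ((1 / 2 : ℝ) • (z - x))‖ ≤ max 1 (t - 1) := by
      rcases le_total t 2 with h | h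
      · refine le_trans ?_ (le_max_left _ _)
        have h7 : x + t • ((1 / 2 : ℝ) • (z - x)) = (1 - t / 2) • x + (t / 2) • z := by
          rw [smul_smul, smul_sub, sub_smul, one_smul]
          have : t * (1 / 2) = t / 2 := by ring
          rw [this]; abel
        rw [h7]
        refine (norm_add_le _ _).trans ?_
        rw [norm_smul, norm_smul, Real.norm_of_nonneg (by linarith), Real.norm_of_nonneg (by linarith),
          hx]
        nlinarith
      · refine le_trans ?_ (le_max_right _ _)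
        have h7 : x + t • ((1 / 2 : ℝ) • (z - x)) = z + (t / 2 - 1) • (z - x) := by
          rw [smul_smul, sub_smul, one_smul]
          have : t * (1 / 2) = t / 2 := by ring
          rw [this]; abel
        rw [h7]
        refine (norm_add_le _ _).trans ?_
        rw [norm_smul, Real.norm_of_nonneg (by linarith)]
        nlinarith [norm_nonneg (z - x)]
    rw [h5]
    refine (norm_add_le _ _).trans ?_
    rw [norm_smul, Real.norm_of_nonneg ht.le]
    nlinarith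

section bundled

variable (Y : Type) [i1 : NormedAddCommGroup Y] [i2 : NormedSpace ℝ Y] [i3 : CompleteSpace Y]

theorem oneSidedGE (t : ℝ) (ht : 0 < t) :
    (⟨Y, i1, i2, i3⟩ : RealBanach).OneSidedModulusGE (⟨Y, i1, i2, i3⟩ : RealBanach).norm t
      (max 0 (t - 2)) := by
  intro x hx η hη
  have hx' : ‖x‖ = 1 := hx
  obtain ⟨f, hf, hfx⟩ := exists_dual_vector'' ℝ x
  refine ⟨_, H11AUC.isCof_cker (fun _ : Fin 1 => f), ?_⟩
  intro y hy hy1
  have hy1' : ‖y‖ = 1 := hy1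
  have hfy : f y = 0 := (H11AUC.mem_cker _ _).mp hy 0
  show max 0 (t - 2) - η ≤ ‖x + t • y‖ - 1
  have h1 : 1 ≤ ‖x + t • y‖ := by
    calc (1:ℝ) = f (x + t • y) := by
          rw [map_add, map_smul, hfy, hfx, hx']; simp
      _ ≤ ‖f (x + t • y)‖ := Real.le_norm_self _
      _ ≤ ‖f‖ * ‖x + t • y‖ := f.le_opNorm _
      _ ≤ 1 * ‖x + t • y‖ := mul_le_mul_of_nonneg_right hf (norm_nonneg _)
      _ = ‖x + t • y‖ := one_mul _
  have h2 : t - 1 ≤ ‖x + t • y‖ := by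
    have h3 : ‖t • y‖ ≤ ‖x + t • y‖ + ‖x‖ := by
      have := norm_sub_le (x + t • y) x
      simpa using this
    rw [norm_smul, hy1', Real.norm_of_nonneg ht.le] at h3
    linarith
  have : max 0 (t - 2) ≤ ‖x + t • y‖ - 1 := max_le (by linarith) (by linarith)
  linarith

theorem oneSidedLE [Nontrivial Y] (hD : HasDaugavetProperty Y) (t : ℝ) (ht : 0 < t) :
    (⟨Y, i1, i2, i3⟩ : RealBanach).OneSidedModulusLE (⟨Y, i1, i2, i3⟩ : RealBanach).norm t
      (max 0 (t - 2)) := by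
  rintro x hx F ⟨V, rfl, hcl, hfd⟩ η hη
  obtain ⟨y, hy, hy1, hy2⟩ := good_dir hD V hcl hfd x hx t ht η hη
  refine ⟨y, hy, hy1, ?_⟩
  show ‖x + t • y‖ - 1 ≤ max 0 (t - 2) + η
  have : max 1 (t - 1) = max 0 (t - 2) + 1 := by
    rw [max_add]; congr 1 <;> ring
  linarith

theorem midpointLE [Nontrivial Y] (hD : HasDaugavetProperty Y) (t : ℝ) (ht : 0 < t) :
    (⟨Y, i1, i2, i3⟩ : RealBanach).MidpointModulusLE (⟨Y, i1, i2, i3⟩ : RealBanach).norm t
      (max (t / 2) (t - 1)) := by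
  rintro x hx F ⟨V, rfl, hcl, hfd⟩ η hη
  obtain ⟨y, hy, hy1, hy2⟩ := good_dir hD V hcl hfd x hx t ht η hη
  refine ⟨y, hy, hy1, ?_⟩
  have hx' : ‖x‖ = 1 := hx
  show (‖x + t • y‖ + ‖x - t • y‖) / 2 - 1 ≤ max (t / 2) (t - 1) + η
  have h1 : ‖x - t • y‖ ≤ 1 + t := by
    refine (norm_sub_le _ _).trans ?_
    rw [norm_smul, hy1, Real.norm_of_nonneg ht.le, hx', mul_one]
  have : max 1 (t - 1) = max (t / 2) (t - 1) * 2 + (1 - t) := by
    rcases le_total t 2 with h | h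
    · rw [max_eq_left (by linarith), max_eq_left (by linarith)]; ring
    · rw [max_eq_right (by linarith), max_eq_right (by linarith)]; ring
  linarith

theorem not_auc [Nontrivial Y] (hD : HasDaugavetProperty Y) (N : Y → ℝ)
    (hN : (⟨Y, i1, i2, i3⟩ : RealBanach).IsEquivNorm N) :
    ¬ (⟨Y, i1, i2, i3⟩ : RealBanach).IsAUC N := by
  refine H11AUC.not_isAUC Y N hN 1 (1 / 2) (by norm_num) (fun _ _ => Metric.closedBall 0 1) ?_ ?_ ?_
  · intro K
    obtain ⟨x, hx⟩ := exists_norm_eq Y (zero_le_one (α := ℝ))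
    exact ⟨x, by simp [hx], by rw [hx]; norm_num⟩
  · intro K j x _ hx
    simpa using hx
  · intro K j x _ hx V hcl hfd ε hε
    have hx' : ‖x‖ ≤ 1 := by simpa using hx
    obtain ⟨v', hv', hv⟩ := exists_dir (-x)
    obtain ⟨z, hz, hy, hn⟩ := key hD V hcl hfd x hx' v' (min ε (1 / 2)) (lt_min hε (by norm_num))
    obtain ⟨y, hyV, hy2⟩ := hy
    refine ⟨z - x, ?_, ?_, y, hyV, hy2.trans (min_le_left _ _)⟩
    · simpa using hz
    · have h1 : v' + z = (z - x) + (1 - ‖x‖) • v' := by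
        rw [norm_neg] at hv
        rw [sub_smul, one_smul, ← hv]; abel
      have h2 : ‖v' + z‖ ≤ ‖z - x‖ + (1 - ‖x‖) := by
        rw [h1]
        refine (norm_add_le _ _).trans ?_
        rw [norm_smul, hv', mul_one, Real.norm_of_nonneg (by linarith)]
      have h3 : min ε (1 / 2) ≤ 1 / 2 := min_le_right _ _
      have h4 := norm_nonneg x
      rw [hv'] at hn
      linarith

end bundled

end Crest.Agent.H24Daugavet
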