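import Mathlib
import Crest.Prelude.Def_DaugavetL1
import Crest.Agent.H11AUC

set_option autoImplicit false
set_option linter.unusedSectionVars false

namespace Crest.Agent.H24DaugavetB

open Crest Crest.AnalysisR Crest.AnalysisR.L1Subspace
open MeasureTheory

variable {Ω : Type} [MeasurableSpace Ω] {P : Measure Ω} [IsProbabilityMeasure P]

theorem int_abs (f : Lp ℝ 1 P) : Integrable (fun z => |f z|) P :=
  (L1.integrable_coeFn f).abs

theorem norm_eq (f : Lp ℝ 1 P) : ‖f‖ = ∫ z, |f z| ∂P := by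
  rw [L1.norm_eq_integral_norm]; rfl

theorem mid_lower (x y : Lp ℝ 1 P) (t : ℝ) (ht : 0 < t) (B : Set Ω) (hB : MeasurableSet B) :
    (∫ z in Bᶜ, |x z| ∂P) + t * ∫ z in B, |y z| ∂P ≤ (‖x + t • y‖ + ‖x - t • y‖) / 2 := by
  have h1 : ∫ z, |(x + t • y : Lp ℝ 1 P) z| ∂P = ∫ z, |x z + t * y z| ∂P := by
    refine integral_congr_ae ?_
    filter_upwards [Lp.coeFn_add x (t • y), Lp.coeFn_smul t y] with z h1 h2
    rw [h1, Pi.add_apply, h2, Pi.smul_apply, smul_eq_mul]
  have h2 : ∫ z, |(x - t • y : Lp ℝ 1 P) z| ∂P = ∫ z, |x z - t * y z| ∂P := by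
    refine integral_congr_ae ?_
    filter_upwards [Lp.coeFn_sub x (t • y), Lp.coeFn_smul t y] with z h1 h2
    rw [h1, Pi.sub_apply, h2, Pi.smul_apply, smul_eq_mul]
  have hx := L1.integrable_coeFn x
  have hy := L1.integrable_coeFn y
  have i1 : Integrable (fun z => |x z + t * y z|) P := (hx.add (hy.const_mul t)).abs
  have i2 : Integrable (fun z => |x z - t * y z|) P := (hx.sub (hy.const_mul t)).abs
  have i3 : Integrable (fun z => |x z + t * y z| + |x z - t * y z|) P := i1.add i2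
  rw [norm_eq, norm_eq, h1, h2, ← integral_add i1 i2, ← integral_add_compl hB i3]
  have h3 : ∫ z in B, 2 * t * |y z| ∂P ≤ ∫ z in B, (|x z + t * y z| + |x z - t * y z|) ∂P := by
    refine integral_mono (((int_abs y).const_mul (2 * t)).integrableOn) i3.integrableOn ?_
    intro z
    show 2 * t * |y z| ≤ |x z + t * y z| + |x z - t * y z|
    have : |2 * t * y z| ≤ |x z + t * y z| + |x z - t * y z| := by
      have h := abs_sub (x z + t * y z) (x z - t * y z)
      have h' : (x z + t * y z) - (x z - t * y z) = 2 * t * y z := by ring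
      rw [h'] at h
      exact h
    rwa [abs_mul, abs_of_pos (by positivity : 0 < 2 * t)] at this
  have h4 : ∫ z in Bᶜ, 2 * |x z| ∂P ≤ ∫ z in Bᶜ, (|x z + t * y z| + |x z - t * y z|) ∂P := by
    refine integral_mono (((int_abs x).const_mul 2).integrableOn) i3.integrableOn ?_
    intro z
    show 2 * |x z| ≤ |x z + t * y z| + |x z - t * y z|
    have : |2 * x z| ≤ |x z + t * y z| + |x z - t * y z| := by
      have h := abs_add_le (x z + t * y z) (x z - t * y z)
      have h' : (x z + t * y z) + (x z - t * y z) = 2 * x z := by ring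
      rw [h'] at h
      exact h
    rwa [abs_mul, abs_of_pos (by norm_num : (0:ℝ) < 2)] at this
  rw [integral_const_mul] at h3 h4
  linarith

theorem sep_upper (x y : Lp ℝ 1 P) (ε : ℝ) (hε : 0 < ε) (B : Set Ω)
    (hB : MeasurableSet B) (hB2 : ∀ z, z ∉ B → |x z - y z| ≤ ε) :
    ‖x - y‖ ≤ (∫ z in B, |x z| ∂P) + (∫ z in B, |y z| ∂P) + ε := by
  have h1 : ∫ z, |(x - y : Lp ℝ 1 P) z| ∂P = ∫ z, |x z - y z| ∂P := by
    refine integral_congr_ae ?_
    filter_upwards [Lp.coeFn_sub x y] with z h1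
    rw [h1, Pi.sub_apply]
  have hx := L1.integrable_coeFn x
  have hy := L1.integrable_coeFn y
  have i1 : Integrable (fun z => |x z - y z|) P := (hx.sub hy).abs
  rw [norm_eq, h1, ← integral_add_compl hB i1]
  have h2 : ∫ z in B, |x z - y z| ∂P ≤ (∫ z in B, |x z| ∂P) + (∫ z in B, |y z| ∂P) := by
    rw [← integral_add (int_abs x).integrableOn (int_abs y).integrableOn]
    refine integral_mono i1.integrableOn ((int_abs x).integrableOn.add (int_abs y).integrableOn) ?_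
    intro z
    exact abs_sub _ _
  have h3 : ∫ z in Bᶜ, |x z - y z| ∂P ≤ ε := by
    calc ∫ z in Bᶜ, |x z - y z| ∂P ≤ ∫ z in Bᶜ, ε ∂P := by
          refine setIntegral_mono_on i1.integrableOn (integrable_const ε).integrableOn hB.compl ?_
          intro z hz
          exact hB2 z hz
      _ = (P.real Bᶜ) * ε := by rw [setIntegral_const, smul_eq_mul]
      _ ≤ 1 * ε := mul_le_mul_of_nonneg_right measureReal_le_one hε.le
      _ = ε := one_mul ε
  linarith

theorem measure_lt_of_dist (f g : Lp ℝ 1 P) (ε : ℝ) (h : measureDist P f g < ε) :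
    P {z | ε < |f z - g z|} < ENNReal.ofReal ε := by
  unfold measureDist at h
  have hne : {a : ℝ | 0 < a ∧ P {z | a < abs ((f : Ω → ℝ) z - (g : Ω → ℝ) z)} < ENNReal.ofReal a}.Nonempty := by
    refine ⟨2, by norm_num, ?_⟩
    refine lt_of_le_of_lt prob_le_one ?_
    rw [← ENNReal.ofReal_one]
    exact (ENNReal.ofReal_lt_ofReal_iff (by norm_num)).mpr (by norm_num)
  obtain ⟨a, ⟨ha, ha2⟩, hlt⟩ := exists_lt_of_csInf_lt hne h
  refine lt_of_le_of_lt (measure_mono ?_) (ha2.trans ((ENNReal.ofReal_lt_ofReal_iff (by linarith)).mpr hlt))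
  intro z hz
  exact lt_trans hlt hz

theorem small_integral (x : Lp ℝ 1 P) (η : ℝ) (hη : 0 < η) :
    ∃ δ : ℝ, 0 < δ ∧ ∀ B : Set Ω, P B < ENNReal.ofReal δ → ∫ z in B, |x z| ∂P ≤ η := by
  have hfin : ∫⁻ z, ‖x z‖ₑ ∂P ≠ ⊤ := (L1.integrable_coeFn x).hasFiniteIntegral.ne
  obtain ⟨δ, hδ, h⟩ := exists_pos_setLIntegral_lt_of_measure_lt hfin
    (ENNReal.ofReal_pos.mpr hη).ne'
  have hδ' : 0 < min δ 1 := lt_min hδ one_pos
  have hδt : min δ 1 ≠ ⊤ := ne_top_of_le_ne_top ENNReal.one_ne_top (min_le_right _ _)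
  refine ⟨(min δ 1).toReal, ENNReal.toReal_pos hδ'.ne' hδt, ?_⟩
  intro B hB
  rw [ENNReal.ofReal_toReal hδt] at hB
  have h1 := h B (hB.trans_le (min_le_left _ _))
  have h2 : ∫ z in B, |x z| ∂P = (∫⁻ z in B, ‖x z‖ₑ ∂P).toReal := by
    have := integral_norm_eq_lintegral_enorm (μ := P.restrict B) (f := x)
      (L1.integrable_coeFn x).aestronglyMeasurable.restrict
    simpa using this
  rw [h2]
  have := ENNReal.toReal_mono ENNReal.ofReal_ne_top h1.le
  rwa [ENNReal.toReal_ofReal hη.le] at this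

/-- the lower bound for the midpoint modulus -/
theorem midpointGE (E : Submodule ℝ (Lp ℝ 1 P)) (hcl : IsClosed (E : Set (Lp ℝ 1 P)))
    (htb : UnitBallTotallyBoundedInMeasure P E) (t : ℝ) (ht : 0 < t) :
    (toRealBanach P E hcl).MidpointModulusGE (toRealBanach P E hcl).norm t
      (max (t / 2) (t - 1)) := by
  intro x hx η hη
  have hcomp := hcl.completeSpace_coe
  change E at x
  have hx' : ‖x‖ = 1 := hx
  by_contra hcon
  push Not at hcon
  -- the property of bad vectors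
  have hbad : ∀ s : Finset E, (∀ y ∈ s, ‖y‖ = 1 ∧ (‖x + t • y‖ + ‖x - t • y‖) / 2 - 1 < t / 2 - η) →
      ∃ y : E, (‖y‖ = 1 ∧ (‖x + t • y‖ + ‖x - t • y‖) / 2 - 1 < t / 2 - η) ∧
        ∀ y' ∈ s, 1 ≤ ‖y' - y‖ := by
    intro s hs
    choose f hf using fun y : E => exists_dual_vector'' ℝ y
    obtain ⟨y, hy, hy1, hy2⟩ := hcon _ (H11AUC.isCof_cker (X := E) (fun y : s => f y))
    change E at y
    have hy1' : ‖y‖ = 1 := hy1
    have hy2' : (‖x + t • y‖ + ‖x - t • y‖) / 2 - 1 < max (t / 2) (t - 1) - η := hy2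
    have h1 : t ≤ (‖x + t • y‖ + ‖x - t • y‖) / 2 := by
      have h3 : ‖(2 * t) • y‖ ≤ ‖x + t • y‖ + ‖x - t • y‖ := by
        have h := norm_sub_le (x + t • y) (x - t • y)
        have h' : (x + t • y) - (x - t • y) = (2 * t) • y := by
          rw [two_mul, add_smul]; abel
        rw [h'] at h
        exact h
      rw [norm_smul, hy1', Real.norm_of_nonneg (by positivity)] at h3
      linarith
    refine ⟨y, ⟨hy1', ?_⟩, ?_⟩
    · rcases le_total (t - 1) (t / 2) with h | h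
      · rwa [max_eq_left h] at hy2'
      · rw [max_eq_right h] at hy2'
        linarith
    · intro y' hy'
      have hk := (H11AUC.mem_cker (fun y : s => f y) y).mp hy ⟨y', hy'⟩
      have hk' : f y' y = 0 := hk
      have h3 := (hf y').2
      rw [(hs y' hy').1] at h3
      calc (1:ℝ) = f y' (y' - y) := by
            rw [map_sub, hk', h3]; simp
        _ ≤ ‖f y' (y' - y)‖ := Real.le_norm_self _
        _ ≤ ‖f y'‖ * ‖y' - y‖ := (f y').le_opNorm _
        _ ≤ 1 * ‖y' - y‖ := mul_le_mul_of_nonneg_right (hf y').1 (norm_nonneg _)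
        _ = _ := one_mul _
  obtain ⟨u, hu1, hu2⟩ := exists_seq_of_forall_finset_exists _ _ hbad
  -- choose `ε`
  obtain ⟨δ, hδ, hδ2⟩ := small_integral (x : Lp ℝ 1 P) (η / 3) (by positivity)
  set ε : ℝ := min (δ / 2) (η / (3 * t)) with hε
  have hε0 : 0 < ε := lt_min (by positivity) (by positivity)
  have hεt : t * ε ≤ η / 3 := by
    have h1 : ε ≤ η / (3 * t) := min_le_right _ _
    calc t * ε ≤ t * (η / (3 * t)) := mul_le_mul_of_nonneg_left h1 ht.le
      _ = η / 3 := by field_simp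
  obtain ⟨s, hs1, hs2⟩ := htb ε hε0
  have hch : ∀ n, ∃ g : s, measureDist P (u n : Lp ℝ 1 P) g < ε := by
    intro n
    obtain ⟨g, hg, hg2⟩ := hs2 (u n : Lp ℝ 1 P) (u n).2 (by
      have := (hu1 n).1
      exact this.le)
    exact ⟨⟨g, hg⟩, hg2⟩
  choose g hg using hch
  obtain ⟨m, n, hmn, hgmn⟩ := Finite.exists_ne_map_eq_of_infinite g
  have hsep : 1 ≤ ‖u m - u n‖ := by
    rcases lt_or_gt_of_ne hmn with h | h
    · exact hu2 m n h
    · rw [norm_sub_rev]; exact hu2 n m h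
  set B : Set Ω := {z | 2 * ε < |(u m : Lp ℝ 1 P) z - (u n : Lp ℝ 1 P) z|} with hBdef
  have hBm : MeasurableSet B := by
    refine measurableSet_lt measurable_const ?_
    exact ((Lp.stronglyMeasurable _).measurable.sub (Lp.stronglyMeasurable _).measurable).abs
  have hPB : P B < ENNReal.ofReal δ := by
    have h1 := measure_lt_of_dist _ _ ε (hg m)
    have h2 := measure_lt_of_dist _ _ ε (hg n)
    rw [hgmn] at h1
    have h3 : B ⊆ {z | ε < |(u m : Lp ℝ 1 P) z - ((g n : Lp ℝ 1 P)) z|} ∪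
        {z | ε < |(u n : Lp ℝ 1 P) z - ((g n : Lp ℝ 1 P)) z|} := by
      intro z hz
      by_contra hz2
      rw [Set.mem_union, not_or] at hz2
      obtain ⟨hz3, hz4⟩ := hz2
      rw [Set.mem_setOf_eq, not_lt] at hz3 hz4
      have hz5 : 2 * ε < |(u m : Lp ℝ 1 P) z - (u n : Lp ℝ 1 P) z| := hz
      have h6 := abs_sub_le ((u m : Lp ℝ 1 P) z) ((g n : Lp ℝ 1 P) z) ((u n : Lp ℝ 1 P) z)
      rw [abs_sub_comm ((g n : Lp ℝ 1 P) z) ((u n : Lp ℝ 1 P) z)] at h6
      linarith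
    calc P B ≤ P ({z | ε < |(u m : Lp ℝ 1 P) z - ((g n : Lp ℝ 1 P)) z|} ∪
        {z | ε < |(u n : Lp ℝ 1 P) z - ((g n : Lp ℝ 1 P)) z|}) := measure_mono h3
      _ ≤ _ := measure_union_le _ _
      _ < ENNReal.ofReal ε + ENNReal.ofReal ε := ENNReal.add_lt_add h1 h2
      _ = ENNReal.ofReal (ε + ε) := (ENNReal.ofReal_add hε0.le hε0.le).symm
      _ ≤ ENNReal.ofReal δ := by
        apply ENNReal.ofReal_le_ofReal
        have : ε ≤ δ / 2 := min_le_left _ _
        linarith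
  have h1 := sep_upper (u m : Lp ℝ 1 P) (u n : Lp ℝ 1 P) (2 * ε) (by positivity) B hBm (by
    intro z hz
    rw [hBdef, Set.mem_setOf_eq, not_lt] at hz
    exact hz)
  have h2 : ‖u m - u n‖ = ‖(u m : Lp ℝ 1 P) - (u n : Lp ℝ 1 P)‖ := rfl
  have h3 := hδ2 B hPB
  -- a vector with large mass on `B`
  have fin : ∀ y : E, (‖x + t • y‖ + ‖x - t • y‖) / 2 - 1 < t / 2 - η →
      1 / 2 - ε ≤ ∫ z in B, |(y : Lp ℝ 1 P) z| ∂P → False := by
    intro y hy1 hy2
    have h4 := mid_lower (x : Lp ℝ 1 P) (y : Lp ℝ 1 P) t ht B hBm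
    have h5 : ‖x + t • y‖ = ‖(x : Lp ℝ 1 P) + t • (y : Lp ℝ 1 P)‖ := rfl
    have h6 : ‖x - t • y‖ = ‖(x : Lp ℝ 1 P) - t • (y : Lp ℝ 1 P)‖ := rfl
    rw [← h5, ← h6] at h4
    have h7 : (∫ z in B, |(x : Lp ℝ 1 P) z| ∂P) + ∫ z in Bᶜ, |(x : Lp ℝ 1 P) z| ∂P = 1 := by
      rw [integral_add_compl hBm (int_abs _), ← norm_eq]
      exact hx'
    have h8 : t * (1 / 2 - ε) ≤ t * ∫ z in B, |(y : Lp ℝ 1 P) z| ∂P :=
      mul_le_mul_of_nonneg_left hy2 ht.le
    have h9 : t * (1 / 2 - ε) = t / 2 - t * ε := by ring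
    linarith
  rcases le_or_gt (1 / 2 - ε) (∫ z in B, |(u m : Lp ℝ 1 P) z| ∂P) with h | h
  · exact fin (u m) (hu1 m).2 h
  · refine fin (u n) (hu1 n).2 ?_
    rw [h2] at hsep
    linarith

end Crest.Agent.H24DaugavetB
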