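import Mathlib

set_option autoImplicit false

open MeasureTheory Set Filter Topology

namespace Crest.Agent.H24Exp

/-- exponential measure -/
noncomputable def muE : Measure ℝ :=
  (volume.restrict (Ioi (0:ℝ))).withDensity (fun x => ENNReal.ofReal (Real.exp (-x)))

lemma integral_muE (f : ℝ → ℝ) : ∫ x, f x ∂muE = ∫ x in Ioi (0:ℝ), Real.exp (-x) * f x := by
  unfold muE
  rw [integral_withDensity_eq_integral_toReal_smul]
  · refine integral_congr_ae (Eventually.of_forall fun x => ?_)
    simp [ENNReal.toReal_ofReal (Real.exp_pos _).le]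
  · fun_prop
  · exact Eventually.of_forall fun x => ENNReal.ofReal_lt_top

lemma integrable_muE_iff (f : ℝ → ℝ) :
    Integrable f muE ↔ IntegrableOn (fun x => Real.exp (-x) * f x) (Ioi (0:ℝ)) := by
  unfold muE
  rw [integrable_withDensity_iff_integrable_smul']
  · unfold IntegrableOn
    refine integrable_congr (Eventually.of_forall fun x => ?_)
    simp [ENNReal.toReal_ofReal (Real.exp_pos _).le]
  · fun_prop
  · exact Eventually.of_forall fun x => ENNReal.ofReal_lt_top

lemma integrableOn_pow_exp (n : ℕ) {r : ℝ} (hr : 0 < r) :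
    IntegrableOn (fun x : ℝ => x ^ n * Real.exp (-(r * x))) (Ioi 0) := by
  have h := integrableOn_rpow_mul_exp_neg_mul_rpow (p := 1) (s := n) (b := r) (by
    have : (0:ℝ) ≤ n := Nat.cast_nonneg n
    linarith) (by norm_num) hr
  refine h.congr_fun (fun x hx => ?_) measurableSet_Ioi
  simp [Real.rpow_natCast]

lemma integral_pow_exp (n : ℕ) {r : ℝ} (hr : 0 < r) :
    ∫ x in Ioi (0:ℝ), x ^ n * Real.exp (-(r * x)) = n.factorial / r ^ (n + 1) := by
  have h := Real.integral_rpow_mul_exp_neg_mul_Ioi (a := n + 1) (r := r) (by positivity) hr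
  rw [Real.Gamma_nat_eq_factorial] at h
  rw [div_eq_mul_inv, mul_comm (n.factorial : ℝ), ← one_div]
  have h2 : (1 / r) ^ ((n:ℝ) + 1) = 1 / r ^ (n+1) := by
    rw [one_div, one_div, Real.inv_rpow hr.le]
    congr 1
    exact_mod_cast Real.rpow_natCast r (n+1)
  rw [h2] at h
  rw [← h]
  refine setIntegral_congr_fun measurableSet_Ioi fun x hx => ?_
  simp [Real.rpow_natCast]

instance : IsProbabilityMeasure muE := by
  constructor
  unfold muE
  rw [withDensity_apply _ MeasurableSet.univ, Measure.restrict_univ,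
    ← ofReal_integral_eq_lintegral_ofReal]
  · have := integral_pow_exp 0 (r := 1) one_pos
    simp at this
    simp [this]
  · have := integrableOn_pow_exp 0 (r := 1) one_pos
    simpa [IntegrableOn] using this
  · exact Eventually.of_forall fun x => (Real.exp_pos _).le

lemma integrable_pow_muE (n : ℕ) : Integrable (fun x : ℝ => x ^ n) muE := by
  rw [integrable_muE_iff]
  have := integrableOn_pow_exp n (r := 1) one_pos
  refine this.congr_fun (fun x hx => ?_) measurableSet_Ioi
  simp [mul_comm]

lemma integral_pow_muE (n : ℕ) : ∫ x : ℝ, x ^ n ∂muE = n.factorial := by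
  rw [integral_muE]
  have := integral_pow_exp n (r := 1) one_pos
  simp at this
  rw [← this]
  refine setIntegral_congr_fun measurableSet_Ioi fun x hx => ?_
  simp [mul_comm]

lemma integrable_id_muE : Integrable (fun x : ℝ => x) muE := by
  simpa using integrable_pow_muE 1

lemma integral_id_muE : ∫ x : ℝ, x ∂muE = 1 := by
  simpa using integral_pow_muE 1


/-- product exponential measure -/
noncomputable abbrev muN (N : ℕ) : Measure (Fin N → ℝ) := Measure.pi (fun _ : Fin N => muE)

lemma muE_apply (s : Set ℝ) (hs : MeasurableSet s) :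
    muE s = ENNReal.ofReal (∫ x in Ioi (0:ℝ), s.indicator (fun x => Real.exp (-x)) x) := by
  unfold muE
  rw [withDensity_apply _ hs, Measure.restrict_restrict hs,
    ← ofReal_integral_eq_lintegral_ofReal]
  · congr 1
    rw [setIntegral_indicator hs, inter_comm]
  · have := integrableOn_pow_exp 0 (r := 1) one_pos
    have h2 : IntegrableOn (fun x : ℝ => Real.exp (-x)) (Ioi 0) := by
      simpa [IntegrableOn] using this
    exact h2.mono_set inter_subset_right
  · exact Eventually.of_forall fun x => (Real.exp_pos _).le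

lemma muN_eq (N : ℕ) : muN N = (volume.restrict (Set.pi univ (fun _ : Fin N => Ioi (0:ℝ)))).withDensity
    (fun x => ENNReal.ofReal (Real.exp (-∑ i, x i))) := by
  refine Measure.pi_eq fun s hs => ?_
  have hms : MeasurableSet (Set.pi univ s) := MeasurableSet.univ_pi hs
  have hexp : Integrable (fun x : ℝ => Real.exp (-x)) (volume.restrict (Ioi (0:ℝ))) := by
    have := integrableOn_pow_exp 0 (r := 1) one_pos
    simpa [IntegrableOn] using this
  have hint : ∀ i, Integrable ((s i).indicator (fun x => Real.exp (-x))) (volume.restrict (Ioi (0:ℝ))) :=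
    fun i => hexp.indicator (hs i)
  have hvol : (volume.restrict (Set.pi univ (fun _ : Fin N => Ioi (0:ℝ)))) =
      Measure.pi (fun _ : Fin N => volume.restrict (Ioi (0:ℝ))) := by
    rw [volume_pi, Measure.restrict_pi_pi]
  have hprod : ∀ x : Fin N → ℝ, (Set.pi univ s).indicator (fun x => Real.exp (-∑ i, x i)) x =
      ∏ i, (s i).indicator (fun x => Real.exp (-x)) (x i) := by
    intro x
    by_cases hx : x ∈ Set.pi univ s
    · rw [indicator_of_mem hx]
      have : ∀ i, (s i).indicator (fun x => Real.exp (-x)) (x i) = Real.exp (-(x i)) := fun i =>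
        indicator_of_mem (hx i (mem_univ i)) _
      simp_rw [this]
      rw [← Real.exp_sum, Finset.sum_neg_distrib]
    · rw [indicator_of_notMem hx]
      simp only [Set.mem_pi, mem_univ, true_implies, not_forall] at hx
      obtain ⟨i, hi⟩ := hx
      rw [Finset.prod_eq_zero (Finset.mem_univ i)]
      exact indicator_of_notMem hi _
  rw [withDensity_apply _ hms, hvol]
  rw [← ofReal_integral_eq_lintegral_ofReal]
  · rw [← integral_indicator hms]
    simp_rw [hprod]
    rw [integral_fintype_prod_eq_prod, ENNReal.ofReal_prod_of_nonneg]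
    · refine Finset.prod_congr rfl fun i _ => ?_
      rw [muE_apply _ (hs i)]
    · intro i _
      refine integral_nonneg fun x => ?_
      exact indicator_nonneg (fun _ _ => (Real.exp_pos _).le) _
  · rw [← IntegrableOn, ← integrable_indicator_iff hms]
    have : (Set.pi univ s).indicator (fun x => Real.exp (-∑ i, x i)) =
      fun x => ∏ i, (s i).indicator (fun x => Real.exp (-x)) (x i) := funext hprod
    rw [this]
    exact Integrable.fintype_prod hint
  · exact Eventually.of_forall fun x => (Real.exp_pos _).le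

lemma integral_muN (N : ℕ) (f : (Fin N → ℝ) → ℝ) :
    ∫ x in Set.pi univ (fun _ : Fin N => Ioi (0:ℝ)), f x * Real.exp (-∑ i, x i) =
      ∫ x, f x ∂(muN N) := by
  rw [muN_eq, integral_withDensity_eq_integral_toReal_smul]
  · refine integral_congr_ae (Eventually.of_forall fun x => ?_)
    simp [ENNReal.toReal_ofReal (Real.exp_pos _).le, mul_comm]
  · fun_prop
  · exact Eventually.of_forall fun x => ENNReal.ofReal_lt_top


lemma integral_muN_succ (N : ℕ) (f : (Fin (N+1) → ℝ) → ℝ) (hf : Integrable f (muN (N+1))) :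
    ∫ x, f x ∂(muN (N+1)) = ∫ x0, ∫ y, f (Fin.cons x0 y) ∂(muN N) ∂muE := by
  have hmp := (measurePreserving_piFinSuccAbove (fun _ : Fin (N+1) => muE) 0).symm
  have h1 : ∀ z : ℝ × (Fin N → ℝ), (MeasurableEquiv.piFinSuccAbove (fun _ : Fin (N+1) => ℝ) 0).symm z
      = Fin.cons z.1 z.2 := by
    intro z
    simp [MeasurableEquiv.piFinSuccAbove_symm_apply, Fin.insertNthEquiv]
  have h2 : ∫ x, f x ∂(muN (N+1)) = ∫ z : ℝ × (Fin N → ℝ), f (Fin.cons z.1 z.2) ∂(muE.prod (muN N)) := by
    rw [← hmp.integral_comp']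
    refine integral_congr_ae (Eventually.of_forall fun z => ?_)
    show f _ = f _
    rw [h1]
  rw [h2, integral_prod]
  have h3 := (hmp.integrable_comp_emb (MeasurableEquiv.measurableEmbedding _) (g := f)).mpr hf
  refine h3.congr (Eventually.of_forall fun z => ?_)
  show f _ = f _
  rw [h1]

lemma integrable_lin (N : ℕ) (a : Fin N → ℝ) : Integrable (fun x => ∑ i, a i * x i) (muN N) := by
  refine integrable_finsetSum _ fun i _ => ?_
  exact (integrable_comp_eval (μ := fun _ : Fin N => muE) (i := i) integrable_id_muE).const_mul (a i)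

lemma integral_eval (N : ℕ) (i : Fin N) (f : ℝ → ℝ) (hf : Measurable f) :
    ∫ x : Fin N → ℝ, f (x i) ∂(muN N) = ∫ x, f x ∂muE := by
  have h := measurePreserving_eval (fun _ : Fin N => muE) i
  calc ∫ x : Fin N → ℝ, f (x i) ∂(muN N) = ∫ y, f y ∂(Measure.map (Function.eval i) (muN N)) :=
      (integral_map h.measurable.aemeasurable hf.aestronglyMeasurable).symm
    _ = ∫ x, f x ∂muE := by rw [h.map_eq]

lemma integral_lin (N : ℕ) (a : Fin N → ℝ) : ∫ x, (∑ i, a i * x i) ∂(muN N) = ∑ i, a i := by
  rw [integral_finsetSum]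
  · refine Finset.sum_congr rfl fun i _ => ?_
    rw [integral_const_mul, integral_eval N i (fun x => x) measurable_id, integral_id_muE, mul_one]
  · intro i _
    exact (integrable_comp_eval (μ := fun _ : Fin N => muE) (i := i) integrable_id_muE).const_mul (a i)

/-- E (w + S)_+ -/
noncomputable def PP (N : ℕ) (a : Fin N → ℝ) (w : ℝ) : ℝ :=
  ∫ x, max (w + ∑ i, a i * x i) 0 ∂(muN N)

lemma integrable_PP (N : ℕ) (a : Fin N → ℝ) (w : ℝ) :
    Integrable (fun x => max (w + ∑ i, a i * x i) 0) (muN N) := by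
  have : Integrable (fun x => w + ∑ i, a i * x i) (muN N) := (integrable_const w).add (integrable_lin N a)
  exact this.pos_part

lemma PP_nonneg (N : ℕ) (a : Fin N → ℝ) (w : ℝ) : 0 ≤ PP N a w :=
  integral_nonneg fun _ => le_max_right _ _

lemma PP_ge (N : ℕ) (a : Fin N → ℝ) (w : ℝ) (ha : ∑ i, a i = 0) : w ≤ PP N a w := by
  have h : ∫ x, (w + ∑ i, a i * x i) ∂(muN N) = w := by
    rw [integral_add (integrable_const w) (integrable_lin N a), integral_lin, ha]
    simp
  calc w = ∫ x, (w + ∑ i, a i * x i) ∂(muN N) := h.symm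
    _ ≤ PP N a w := integral_mono ((integrable_const w).add (integrable_lin N a)) (integrable_PP N a w)
      (fun x => le_max_left _ _)

lemma PP_mono (N : ℕ) (a : Fin N → ℝ) : Monotone (PP N a) := by
  intro u v huv
  exact integral_mono (integrable_PP N a u) (integrable_PP N a v) (fun x => by
    show max _ _ ≤ max _ _
    exact max_le_max (by linarith) le_rfl)

lemma PP_lip (N : ℕ) (a : Fin N → ℝ) {u v : ℝ} (huv : u ≤ v) : PP N a v ≤ PP N a u + (v - u) := by
  have : PP N a u + (v - u) = ∫ x, (max (u + ∑ i, a i * x i) 0 + (v - u)) ∂(muN N) := by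
    rw [integral_add (integrable_PP N a u) (integrable_const _)]
    simp [PP]
  rw [this]
  refine integral_mono (integrable_PP N a v) ((integrable_PP N a u).add (integrable_const _)) (fun x => ?_)
  show max _ _ ≤ max _ _ + _
  rcases le_total (v + ∑ i, a i * x i) 0 with h | h
  · rw [max_eq_right h]
    have := le_max_right (u + ∑ i, a i * x i) 0
    linarith
  · rw [max_eq_left h]
    have := le_max_left (u + ∑ i, a i * x i) 0
    linarith

lemma PP_continuous (N : ℕ) (a : Fin N → ℝ) : Continuous (PP N a) := by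
  have : LipschitzWith 1 (PP N a) := by
    refine LipschitzWith.of_le_add fun u v => ?_
    rcases le_total u v with h | h
    · have := PP_mono N a h
      have := dist_nonneg (x := u) (y := v)
      linarith
    · have := PP_lip N a h
      have h2 : dist u v = u - v := by rw [Real.dist_eq, abs_of_nonneg (by linarith)]
      linarith
  exact this.continuous

lemma PP_succ (N : ℕ) (a : Fin (N+1) → ℝ) (w : ℝ) :
    PP (N+1) a w = ∫ x0, PP N (fun i => a i.succ) (w + a 0 * x0) ∂muE := by
  unfold PP
  rw [integral_muN_succ _ _ (integrable_PP (N+1) a w)]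
  refine integral_congr_ae (Eventually.of_forall fun x0 => ?_)
  refine integral_congr_ae (Eventually.of_forall fun y => ?_)
  simp [Fin.sum_univ_succ, add_assoc]

lemma PP_zero (a : Fin 0 → ℝ) (w : ℝ) : PP 0 a w = max w 0 := by
  simp [PP]


lemma shift_Ioi (f : ℝ → ℝ) (κ : ℝ) : ∫ x in Ioi κ, f x = ∫ x in Ioi (0:ℝ), f (x + κ) := by
  have := (measurePreserving_add_right volume κ).setIntegral_preimage_emb
    (measurableEmbedding_addRight κ) f (Ioi κ)
  rw [← this]
  simp

/-- TP2 form of log-concavity -/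
def RR (p : ℝ → ℝ) : Prop := ∀ u v s : ℝ, u ≤ v → 0 ≤ s → p u * p (v + s) ≤ p (u + s) * p v

/-- splitting: memoryless property -/
lemma split_muE (F : ℝ → ℝ) (hF : Integrable F muE) {κ : ℝ} (hκ : 0 ≤ κ) :
    ∫ x, F x ∂muE = (∫ x in Ioc 0 κ, Real.exp (-x) * F x) + Real.exp (-κ) * ∫ x, F (x + κ) ∂muE := by
  have h1 := (integrable_muE_iff F).mp hF
  rw [integral_muE, integral_muE, ← Ioc_union_Ioi_eq_Ioi hκ, setIntegral_union]
  · congr 1
    rw [Ioc_union_Ioi_eq_Ioi hκ, shift_Ioi, ← integral_const_mul]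
    refine setIntegral_congr_fun measurableSet_Ioi fun x _ => ?_
    show Real.exp (-(x + κ)) * F (x + κ) = Real.exp (-κ) * (Real.exp (-x) * F (x + κ))
    rw [← mul_assoc, ← Real.exp_add]
    congr 2
    ring
  · exact Ioc_disjoint_Ioi le_rfl
  · exact measurableSet_Ioi
  · exact h1.mono_set Ioc_subset_Ioi_self
  · exact h1.mono_set (Ioi_subset_Ioi hκ)

lemma ae_pos_muE : ∀ᵐ y ∂muE, (0:ℝ) < y := by
  unfold muE
  refine (withDensity_absolutelyContinuous _ _).ae_le ?_
  exact ae_restrict_mem measurableSet_Ioi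

lemma RR_step (p : ℝ → ℝ) (hp : RR p) (a : ℝ) (hint : ∀ w, Integrable (fun x => p (w + a * x)) muE) :
    RR (fun w => ∫ x, p (w + a * x) ∂muE) := by
  intro u v s huv hs
  obtain ⟨p1, hp1⟩ : ∃ p1 : ℝ → ℝ, ∀ w, ∫ x, p (w + a * x) ∂muE = p1 w := ⟨_, fun _ => rfl⟩
  simp only [hp1]
  rcases lt_trichotomy a 0 with ha | ha | ha
  · -- a < 0
    obtain ⟨κ, hκdef⟩ : ∃ κ, κ = s / (-a) := ⟨_, rfl⟩
    have hκ : 0 ≤ κ := by rw [hκdef]; exact div_nonneg hs (by linarith)
    have haκ : a * κ = -s := by
      have : a ≠ 0 := ne_of_lt ha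
      rw [hκdef]; field_simp
    obtain ⟨r, hr⟩ : ∃ r : ℝ → ℝ, ∀ w, (∫ x in Ioc 0 κ, Real.exp (-x) * p (w + s + a * x)) = r w :=
      ⟨_, fun _ => rfl⟩
    have hdec : ∀ w, p1 (w + s) = r w + Real.exp (-κ) * p1 w := by
      intro w
      rw [← hp1, ← hp1, ← hr, split_muE _ (hint (w + s)) hκ]
      congr 2
      refine integral_congr_ae (Eventually.of_forall fun x => ?_)
      simp only
      congr 1
      rw [mul_add, haκ]; ring
    have hI : ∀ w, IntegrableOn (fun x => Real.exp (-x) * p (w + s + a * x)) (Ioc 0 κ) := fun w =>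
      ((integrable_muE_iff _).mp (hint (w+s))).mono_set Ioc_subset_Ioi_self
    have h2 : ∀ x ∈ Ioc 0 κ, p1 u * p (v + s + a * x) ≤ p (u + s + a * x) * p1 v := by
      intro x hx
      rw [← hp1, ← hp1, ← integral_mul_const, ← integral_const_mul]
      refine integral_mono_ae ((hint u).mul_const _) ((hint v).const_mul _) ?_
      filter_upwards [ae_pos_muE] with y hy
      have haκx : a * x ≥ -s := by
        rw [← haκ]
        nlinarith [hx.2]
      have := hp (u + a * y) (v + a * y) (s + a * x - a * y) (by linarith) (by nlinarith)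
      have e1 : v + a * y + (s + a * x - a * y) = v + s + a * x := by ring
      have e2 : u + a * y + (s + a * x - a * y) = u + s + a * x := by ring
      rwa [e1, e2] at this
    have key : p1 u * r v ≤ r u * p1 v := by
      rw [← hr, ← hr, ← integral_const_mul, ← integral_mul_const]
      refine setIntegral_mono_on ((hI v).const_mul _) ((hI u).mul_const _) measurableSet_Ioc ?_
      intro x hx
      have he := (Real.exp_pos (-x)).le
      calc p1 u * (Real.exp (-x) * p (v + s + a * x)) = Real.exp (-x) * (p1 u * p (v + s + a * x)) := by ring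
        _ ≤ Real.exp (-x) * (p (u + s + a * x) * p1 v) := mul_le_mul_of_nonneg_left (h2 x hx) he
        _ = _ := by ring
    rw [hdec u, hdec v]
    nlinarith [key]
  · subst ha
    have : ∀ w, p1 w = p w := by
      intro w
      rw [← hp1]; simp
    rw [this, this, this, this]
    exact hp u v s huv hs
  · -- a > 0
    obtain ⟨κ, hκdef⟩ : ∃ κ, κ = s / a := ⟨_, rfl⟩
    have hκ : 0 ≤ κ := by rw [hκdef]; exact div_nonneg hs ha.le
    have haκ : a * κ = s := by rw [hκdef]; field_simp
    obtain ⟨r, hr⟩ : ∃ r : ℝ → ℝ, ∀ w, (∫ x in Ioc 0 κ, Real.exp (-x) * p (w + a * x)) = r w :=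
      ⟨_, fun _ => rfl⟩
    have hdec : ∀ w, p1 w = r w + Real.exp (-κ) * p1 (w + s) := by
      intro w
      rw [← hp1, ← hp1, ← hr, split_muE _ (hint w) hκ]
      congr 2
      refine integral_congr_ae (Eventually.of_forall fun x => ?_)
      simp only
      congr 1
      rw [mul_add, haκ]; ring
    have hI : ∀ w, IntegrableOn (fun x => Real.exp (-x) * p (w + a * x)) (Ioc 0 κ) := fun w =>
      ((integrable_muE_iff _).mp (hint w)).mono_set Ioc_subset_Ioi_self
    have h2 : ∀ x ∈ Ioc 0 κ, p (u + a * x) * p1 (v + s) ≤ p1 (u + s) * p (v + a * x) := by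
      intro x hx
      rw [← hp1, ← hp1, ← integral_mul_const, ← integral_const_mul]
      refine integral_mono_ae ((hint (v+s)).const_mul _) ((hint (u+s)).mul_const _) ?_
      filter_upwards [ae_pos_muE] with y hy
      have haκx : a * x ≤ s := by
        rw [← haκ]
        nlinarith [hx.2]
      have := hp (u + a * x) (v + a * x) (s + a * y - a * x) (by linarith) (by nlinarith)
      have e1 : v + a * x + (s + a * y - a * x) = v + s + a * y := by ring
      have e2 : u + a * x + (s + a * y - a * x) = u + s + a * y := by ring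
      rwa [e1, e2] at this
    have key : r u * p1 (v + s) ≤ p1 (u + s) * r v := by
      rw [← hr, ← hr, ← integral_const_mul, ← integral_mul_const]
      refine setIntegral_mono_on ((hI u).mul_const _) ((hI v).const_mul _) measurableSet_Ioc ?_
      intro x hx
      have he := (Real.exp_pos (-x)).le
      calc (Real.exp (-x) * p (u + a * x)) * p1 (v + s) = Real.exp (-x) * (p (u + a * x) * p1 (v + s)) := by ring
        _ ≤ Real.exp (-x) * (p1 (u + s) * p (v + a * x)) := mul_le_mul_of_nonneg_left (h2 x hx) he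
        _ = _ := by ring
    rw [hdec u, hdec v]
    nlinarith [key]

lemma integrable_PP_step (N : ℕ) (a : Fin N → ℝ) (w c : ℝ) :
    Integrable (fun x => PP N a (w + c * x)) muE := by
  have hb : Integrable (fun x : ℝ => PP N a w + |c * x|) muE :=
    (integrable_const _).add (integrable_id_muE.const_mul c).abs
  refine hb.mono' ((PP_continuous N a).comp (by fun_prop)).aestronglyMeasurable ?_
  refine Eventually.of_forall fun x => ?_
  rw [Real.norm_eq_abs, abs_of_nonneg (PP_nonneg _ _ _)]
  rcases le_total 0 (c * x) with h | h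
  · have := PP_lip N a (show w ≤ w + c * x by linarith)
    rw [abs_of_nonneg h]; linarith
  · have := PP_mono N a (show w + c * x ≤ w by linarith)
    have := abs_nonneg (c * x)
    linarith

lemma PP_RR (N : ℕ) : ∀ a : Fin N → ℝ, RR (PP N a) := by
  induction N with
  | zero =>
    intro a u v s huv hs
    simp only [PP_zero]
    rcases le_total u 0 with hu | hu
    · rw [max_eq_right hu, zero_mul]
      exact mul_nonneg (le_max_right _ _) (le_max_right _ _)
    · rw [max_eq_left hu, max_eq_left (by linarith), max_eq_left (by linarith), max_eq_left (by linarith)]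
      nlinarith
  | succ N ih =>
    intro a
    have h := RR_step (PP N (fun i => a i.succ)) (ih _) (a 0) (fun w => integrable_PP_step N _ w (a 0))
    intro u v s huv hs
    have := h u v s huv hs
    simp only [← PP_succ] at this
    exact this


lemma min_at_end (R : ℝ → ℝ) (hR : Continuous R) (u v : ℝ) (huv : u ≤ v)
    (hpos : ∀ x, u ≤ x → x ≤ v → 0 < R x)
    (hmid : ∀ x s, 0 ≤ s → u ≤ x - s → x + s ≤ v → R (x - s) * R (x + s) ≤ R x * R x) :
    (∀ x, u ≤ x → x ≤ v → R u ≤ R x) ∨ (∀ x, u ≤ x → x < v → R v < R x) := by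
  obtain ⟨m0, hm0, hmin⟩ := (isCompact_Icc (a := u) (b := v)).exists_isMinOn
    (nonempty_Icc.mpr huv) hR.continuousOn
  have hZc : IsCompact (Icc u v ∩ R ⁻¹' (Iic (R m0))) :=
    isCompact_Icc.inter_right (isClosed_Iic.preimage hR)
  obtain ⟨z, hz, hzl⟩ := hZc.exists_isLeast ⟨m0, hm0, le_refl (R m0)⟩
  have hmin' : ∀ x, u ≤ x → x ≤ v → R m0 ≤ R x := fun x h1 h2 => hmin ⟨h1, h2⟩
  have hzm : R z = R m0 := le_antisymm hz.2 (hmin' z hz.1.1 hz.1.2)
  have hlt : ∀ x, u ≤ x → x < z → R z < R x := by
    intro x h1 h2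
    by_contra h
    push Not at h
    have : z ≤ x := hzl ⟨⟨h1, h2.le.trans hz.1.2⟩, by
      show R x ≤ R m0
      rw [← hzm]; exact h⟩
    linarith
  rcases eq_or_lt_of_le hz.1.1 with h | h
  · left
    intro x h1 h2
    rw [h, hzm]
    exact hmin' x h1 h2
  · rcases eq_or_lt_of_le hz.1.2 with h' | h'
    · right
      rw [h'] at hlt
      exact hlt
    · exfalso
      obtain ⟨s, hs⟩ : ∃ s, s = min (z - u) (v - z) := ⟨_, rfl⟩
      have hs0 : 0 < s := by rw [hs]; exact lt_min (by linarith) (by linarith)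
      have hs1 : s ≤ z - u := by rw [hs]; exact min_le_left _ _
      have hs2 : s ≤ v - z := by rw [hs]; exact min_le_right _ _
      have h1 := hmid z s hs0.le (by linarith) (by linarith)
      have h2 := hlt (z - s) (by linarith) (by linarith)
      have h3 : R z ≤ R (z + s) := by rw [hzm]; exact hmin' _ (by linarith) (by linarith)
      have h4 := hpos z hz.1.1 hz.1.2
      nlinarith

lemma RR_mid {p : ℝ → ℝ} (hp : RR p) (x s : ℝ) (hs : 0 ≤ s) : p (x - s) * p (x + s) ≤ p x * p x := by
  have := hp (x - s) x s (by linarith) hs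
  simpa using this

/-- normalised function -/
lemma RN_mid {p : ℝ → ℝ} (hp : RR p) (b x s : ℝ) (hs : 0 ≤ s) :
    (p (x - s) * Real.exp (-((x - s) / b))) * (p (x + s) * Real.exp (-((x + s) / b))) ≤
    (p x * Real.exp (-(x / b))) * (p x * Real.exp (-(x / b))) := by
  have h1 := RR_mid hp x s hs
  have h2 : Real.exp (-((x - s) / b)) * Real.exp (-((x + s) / b)) =
      Real.exp (-(x / b)) * Real.exp (-(x / b)) := by
    rw [← Real.exp_add, ← Real.exp_add]
    congr 1
    ring
  have h3 : 0 < Real.exp (-(x / b)) * Real.exp (-(x / b)) := by positivity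
  calc _ = (p (x - s) * p (x + s)) * (Real.exp (-((x - s) / b)) * Real.exp (-((x + s) / b))) := by ring
    _ = (p (x - s) * p (x + s)) * (Real.exp (-(x / b)) * Real.exp (-(x / b))) := by rw [h2]
    _ ≤ (p x * p x) * (Real.exp (-(x / b)) * Real.exp (-(x / b))) := mul_le_mul_of_nonneg_right h1 h3.le
    _ = _ := by ring

section compare

variable {p : ℝ → ℝ} (hp : RR p) (hc : Continuous p) (hm : Monotone p)
  (hge : ∀ w, w ≤ p w)

include hp hc hm hge in
lemma claim1 {b c : ℝ} (hb : 0 < b) (hcb : c < b) (hpc : p c ≤ b * Real.exp (c / b - 1)) (w : ℝ)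
    (hw : w ≤ c) : p w ≤ b * Real.exp (w / b - 1) := by
  by_contra hcon
  push Not at hcon
  have hpw : 0 < p w := lt_of_le_of_lt (by positivity) hcon
  have hb' : b ≠ 0 := hb.ne'
  have hRc : p c * Real.exp (-(c / b)) ≤ b * Real.exp (-1) := by
    calc _ ≤ (b * Real.exp (c / b - 1)) * Real.exp (-(c / b)) :=
          mul_le_mul_of_nonneg_right hpc (Real.exp_pos _).le
      _ = b * Real.exp (-1) := by
          rw [mul_assoc, ← Real.exp_add]; congr 2; ring
  have hRw : b * Real.exp (-1) < p w * Real.exp (-(w / b)) := by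
    calc b * Real.exp (-1) = (b * Real.exp (w / b - 1)) * Real.exp (-(w / b)) := by
          rw [mul_assoc, ← Real.exp_add]; congr 2; ring
      _ < p w * Real.exp (-(w / b)) := mul_lt_mul_of_pos_right hcon (Real.exp_pos _)
  have hRb : b * Real.exp (-1) ≤ p b * Real.exp (-(b / b)) := by
    rw [div_self hb']
    exact mul_le_mul_of_nonneg_right (hge b) (Real.exp_pos _).le
  rcases min_at_end (fun x => p x * Real.exp (-(x / b))) (by fun_prop) w b (by linarith)
    (fun x h1 h2 => mul_pos (lt_of_lt_of_le hpw (hm h1)) (Real.exp_pos _))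
    (fun x s hs _ _ => RN_mid hp b x s hs) with h | h
  · have := h c hw hcb.le
    linarith
  · have := h c hw hcb
    linarith

include hp hc hm hge in
lemma claim2 {b c : ℝ} (hb : 0 < b) (hcb : c < b) (hpc : p c = b * Real.exp (c / b - 1)) (w : ℝ)
    (hw : c ≤ w) (hwb : w ≤ b) : b * Real.exp (w / b - 1) ≤ p w := by
  have hpc0 : 0 < p c := by rw [hpc]; positivity
  have hb' : b ≠ 0 := hb.ne'
  have hRc : p c * Real.exp (-(c / b)) = b * Real.exp (-1) := by
    rw [hpc, mul_assoc, ← Real.exp_add]; congr 2; ring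
  have hRb : b * Real.exp (-1) ≤ p b * Real.exp (-(b / b)) := by
    rw [div_self hb']
    exact mul_le_mul_of_nonneg_right (hge b) (Real.exp_pos _).le
  have key : b * Real.exp (-1) ≤ p w * Real.exp (-(w / b)) := by
    rcases min_at_end (fun x => p x * Real.exp (-(x / b))) (by fun_prop) c b (by linarith)
      (fun x h1 h2 => mul_pos (lt_of_lt_of_le hpc0 (hm h1)) (Real.exp_pos _))
      (fun x s hs _ _ => RN_mid hp b x s hs) with h | h
    · have := h w hw hwb
      linarith
    · rcases eq_or_lt_of_le hwb with h' | h'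
      · rw [h']; exact hRb
      · have := h w hw h'
        linarith
  calc b * Real.exp (w / b - 1) = (b * Real.exp (-1)) * Real.exp (w / b) := by
        rw [mul_assoc, ← Real.exp_add]; congr 2; ring
    _ ≤ (p w * Real.exp (-(w / b))) * Real.exp (w / b) :=
        mul_le_mul_of_nonneg_right key (Real.exp_pos _).le
    _ = p w := by rw [mul_assoc, ← Real.exp_add]; simp

include hp hc hm hge in
/-- Existence of the comparison parameter -/
lemma exists_b {c : ℝ} (hc0 : 0 < c) :
    ∃ b, c ≤ b ∧ (∀ w, w ≤ c → p w ≤ b * Real.exp (w / b - 1)) ∧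
      (∀ w, c ≤ w → w ≤ b → b * Real.exp (w / b - 1) ≤ p w) := by
  have h1 : c ≤ p c := hge c
  -- IVT
  have hcont : ContinuousOn (fun b : ℝ => b * Real.exp (c / b - 1)) (Icc c (p c * Real.exp 1)) := by
    intro b hb
    have : b ≠ 0 := (lt_of_lt_of_le hc0 hb.1).ne'
    exact (ContinuousAt.mul continuousAt_id (Real.continuous_exp.continuousAt.comp
      ((continuousAt_const.div continuousAt_id this).sub continuousAt_const))).continuousWithinAt
  have hB : c ≤ p c * Real.exp 1 := by
    have : (1:ℝ) ≤ Real.exp 1 := Real.one_le_exp (by norm_num)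
    nlinarith
  have hmem : p c ∈ Icc ((fun b : ℝ => b * Real.exp (c / b - 1)) c)
      ((fun b : ℝ => b * Real.exp (c / b - 1)) (p c * Real.exp 1)) := by
    constructor
    · simp only
      rw [div_self hc0.ne']
      simpa using h1
    · simp only
      have hpc : 0 < p c := lt_of_lt_of_le hc0 h1
      have : Real.exp (-1) ≤ Real.exp (c / (p c * Real.exp 1) - 1) := by
        apply Real.exp_le_exp.mpr
        have : 0 ≤ c / (p c * Real.exp 1) := by positivity
        linarith
      calc p c = p c * Real.exp 1 * Real.exp (-1) := by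
            rw [mul_assoc, ← Real.exp_add]; simp
        _ ≤ _ := mul_le_mul_of_nonneg_left this (by positivity)
  obtain ⟨b, hb, hbeq⟩ := intermediate_value_Icc hB hcont hmem
  simp only at hbeq
  refine ⟨b, hb.1, ?_, ?_⟩
  · rcases eq_or_lt_of_le hb.1 with h | h
    · -- b = c
      subst h
      have hpc : p c = c := by
        rw [← hbeq, div_self hc0.ne']; simp
      intro w hw
      -- limit b' -> c+
      have hlim : Tendsto (fun b' : ℝ => b' * Real.exp (w / b' - 1)) (𝓝[>] c)
          (𝓝 (c * Real.exp (w / c - 1))) := by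
        have : ContinuousAt (fun b' : ℝ => b' * Real.exp (w / b' - 1)) c :=
          ContinuousAt.mul continuousAt_id (Real.continuous_exp.continuousAt.comp
            ((continuousAt_const.div continuousAt_id hc0.ne').sub continuousAt_const))
        exact this.tendsto.mono_left nhdsWithin_le_nhds
      refine ge_of_tendsto hlim ?_
      filter_upwards [self_mem_nhdsWithin] with b' hb'
      have hb'' : c < b' := hb'
      have hb0 : 0 < b' := hc0.trans hb''
      refine claim1 hp hc hm hge hb0 hb'' ?_ w hw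
      rw [hpc]
      have h2 := Real.add_one_le_exp (c / b' - 1)
      have h3 : b' * (c / b' - 1 + 1) = c := by field_simp; ring
      nlinarith
    · exact fun w hw => claim1 hp hc hm hge (hc0.trans h) h hbeq.symm.le w hw
  · intro w hw hwb
    rcases eq_or_lt_of_le hb.1 with h | h
    · have : w = c := le_antisymm (by rw [h]; exact hwb) hw
      rw [this, hbeq]
    · exact claim2 hp hc hm hge (hc0.trans h) h hbeq.symm w hw hwb

end compare


/-- the weight (local copy) -/
noncomputable def gg (y : ℝ) : ℝ := if y ≤ 0 then 1 else (1 + y) * Real.exp (-y)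

lemma gg_meas : Measurable gg := by
  unfold gg
  exact Measurable.ite measurableSet_Iic measurable_const (by fun_prop)

lemma gg_nonneg (y : ℝ) : 0 ≤ gg y := by
  unfold gg
  split_ifs with h
  · norm_num
  · push Not at h; positivity

lemma gg_le_one (y : ℝ) : gg y ≤ 1 := by
  unfold gg
  split_ifs with h
  · norm_num
  · have := Real.add_one_le_exp y
    calc (1 + y) * Real.exp (-y) ≤ Real.exp y * Real.exp (-y) :=
          mul_le_mul_of_nonneg_right (by linarith) (Real.exp_pos _).le
      _ = 1 := by rw [← Real.exp_add]; simp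

lemma gg_anti {u v : ℝ} (huv : u ≤ v) : gg v ≤ gg u := by
  by_cases hu : u ≤ 0
  · have : gg u = 1 := by unfold gg; rw [if_pos hu]
    rw [this]; exact gg_le_one v
  · push Not at hu
    have hv : ¬ v ≤ 0 := by push Not; linarith
    unfold gg
    rw [if_neg hv, if_neg (not_le.mpr hu)]
    have h1 := Real.add_one_le_exp (v - u)
    have h2 : 1 + v ≤ (1 + u) * Real.exp (v - u) := by nlinarith
    calc (1 + v) * Real.exp (-v) ≤ ((1 + u) * Real.exp (v - u)) * Real.exp (-v) :=
          mul_le_mul_of_nonneg_right h2 (Real.exp_pos _).le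
      _ = (1 + u) * Real.exp (-u) := by
          rw [mul_assoc, ← Real.exp_add]; congr 2; ring

lemma gg_lip {u v : ℝ} (huv : u ≤ v) : gg u - (v - u) ≤ gg v := by
  have key : ∀ a b : ℝ, 0 ≤ a → a ≤ b →
      (1 + a) * Real.exp (-a) - (b - a) ≤ (1 + b) * Real.exp (-b) := by
    intro a b ha hab
    have h1 : Real.exp (-b) = Real.exp (-a) * Real.exp (-(b - a)) := by
      rw [← Real.exp_add]; congr 1; ring
    have h2 : 1 - (b - a) ≤ Real.exp (-(b - a)) := by
      have := Real.add_one_le_exp (-(b-a)); linarith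
    have h3 : (1 + a) * Real.exp (-a) ≤ 1 := by
      have := Real.add_one_le_exp a
      calc (1 + a) * Real.exp (-a) ≤ Real.exp a * Real.exp (-a) :=
            mul_le_mul_of_nonneg_right (by linarith) (Real.exp_pos _).le
        _ = 1 := by rw [← Real.exp_add]; simp
    have h4 : 0 < Real.exp (-(b-a)) := Real.exp_pos _
    have h5 : 0 < Real.exp (-a) := Real.exp_pos _
    rw [h1]
    -- (1+b) e^{-a} e^{-d} >= (1+a) e^{-a} e^{-d} >= (1+a) e^{-a} (1-d) >= (1+a)e^{-a} - d
    have h6 : (1 + a) * Real.exp (-a) * Real.exp (-(b-a)) ≤ (1 + b) * (Real.exp (-a) * Real.exp (-(b - a))) := by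
      rw [mul_assoc]
      exact mul_le_mul_of_nonneg_right (by linarith) (by positivity)
    have h7 : (1 + a) * Real.exp (-a) * (1 - (b-a)) ≤ (1 + a) * Real.exp (-a) * Real.exp (-(b-a)) :=
      mul_le_mul_of_nonneg_left h2 (by positivity)
    nlinarith
  by_cases hv : v ≤ 0
  · have h1 : gg v = 1 := by unfold gg; rw [if_pos hv]
    have := gg_le_one u
    linarith
  · push Not at hv
    have hgv : gg v = (1 + v) * Real.exp (-v) := by unfold gg; rw [if_neg (not_le.mpr hv)]
    by_cases hu : u ≤ 0
    · have h1 : gg u = 1 := by unfold gg; rw [if_pos hu]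
      have := key 0 v le_rfl hv.le
      simp at this
      linarith
    · push Not at hu
      have hgu : gg u = (1 + u) * Real.exp (-u) := by unfold gg; rw [if_neg (not_le.mpr hu)]
      rw [hgu, hgv]
      exact key u v hu.le huv

/-- pointwise representation -/
lemma one_sub_gg (u : ℝ) : 1 - gg u = ∫ y in Ioi (0:ℝ), (1 - y) * Real.exp (-y) * max (u - y) 0 := by
  by_cases hu : u ≤ 0
  · have h1 : gg u = 1 := by unfold gg; rw [if_pos hu]
    rw [h1, setIntegral_congr_fun measurableSet_Ioi (g := fun _ => (0:ℝ))]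
    · simp
    · intro y hy
      have : (0:ℝ) < y := hy
      simp only
      rw [max_eq_right (by linarith)]; simp
  · push Not at hu
    have hgu : gg u = (1 + u) * Real.exp (-u) := by unfold gg; rw [if_neg (not_le.mpr hu)]
    have hzero : ∫ y in Ioi u, (1 - y) * Real.exp (-y) * max (u - y) 0 = 0 := by
      rw [setIntegral_congr_fun measurableSet_Ioi (g := fun _ => (0:ℝ))]
      · simp
      · intro y hy
        have : u < y := hy
        simp only
        rw [max_eq_right (by linarith)]; simp
    have hIoc : ∫ y in Ioc 0 u, (1 - y) * Real.exp (-y) * max (u - y) 0 =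
        1 - (1 + u) * Real.exp (-u) := by
      rw [← intervalIntegral.integral_of_le hu.le]
      have h1 : ∫ y in (0:ℝ)..u, (1 - y) * Real.exp (-y) * max (u - y) 0 =
          ∫ y in (0:ℝ)..u, (1 - y) * Real.exp (-y) * (u - y) := by
        refine intervalIntegral.integral_congr fun y hy => ?_
        rw [uIcc_of_le hu.le] at hy
        show (1 - y) * Real.exp (-y) * max (u - y) 0 = (1 - y) * Real.exp (-y) * (u - y)
        rw [max_eq_left (by linarith [hy.2])]
      rw [h1, intervalIntegral.integral_eq_sub_of_hasDerivAt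
        (f := fun y => (-1 + (u - 1) * y - y ^ 2) * Real.exp (-y))]
      · simp
        ring
      · intro y _
        have hd1 : HasDerivAt (fun y : ℝ => -1 + (u - 1) * y - y ^ 2) ((u - 1) - 2 * y) y := by
          have h1 : HasDerivAt (fun y : ℝ => (u - 1) * y) (u - 1) y := by
            simpa using (hasDerivAt_id y).const_mul (u - 1)
          have h2 : HasDerivAt (fun y : ℝ => y ^ 2) (2 * y) y := by
            simpa using hasDerivAt_pow 2 y
          exact (h1.const_add (-1)).sub h2
        have hd2 : HasDerivAt (fun y : ℝ => Real.exp (-y)) (-Real.exp (-y)) y := by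
          have := (hasDerivAt_neg y).exp
          simpa using this
        refine (hd1.mul hd2).congr_deriv ?_
        ring
      · apply Continuous.intervalIntegrable
        fun_prop
    rw [hgu, ← Ioc_union_Ioi_eq_Ioi hu.le, setIntegral_union (Ioc_disjoint_Ioi le_rfl) measurableSet_Ioi,
      hzero, hIoc, add_zero]
    · refine IntegrableOn.mono_set (t := Icc 0 u) ?_ Ioc_subset_Icc_self
      apply ContinuousOn.integrableOn_Icc
      fun_prop
    · have hz : IntegrableOn (fun _ : ℝ => (0:ℝ)) (Ioi u) volume := integrableOn_zero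
      refine hz.congr_fun ?_ measurableSet_Ioi
      intro y hy
      have : u < y := hy
      show (0:ℝ) = (1 - y) * Real.exp (-y) * max (u - y) 0
      rw [max_eq_right (by linarith)]; simp

lemma integrableOn_aux : IntegrableOn (fun y : ℝ => (1 - y) * Real.exp (-y)) (Ioi 0) := by
  have h0 := integrableOn_pow_exp 0 (r := 1) one_pos
  have h1 := integrableOn_pow_exp 1 (r := 1) one_pos
  have := h0.sub h1
  refine this.congr_fun (fun y _ => ?_) measurableSet_Ioi
  simp
  ring

section fubini

variable {Ω : Type*} [MeasurableSpace Ω] (μ : Measure Ω) [IsProbabilityMeasure μ] (S : Ω → ℝ)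
  (hS : Measurable S) (hSi : Integrable S μ) (t : ℝ)

include hS hSi in
lemma fub_integrable : Integrable (fun z : Ω × ℝ => (1 - z.2) * Real.exp (-z.2) * max (t + S z.1 - z.2) 0)
    (μ.prod (volume.restrict (Ioi (0:ℝ)))) := by
  have hb : Integrable (fun z : Ω × ℝ => |t + S z.1| * |(1 - z.2) * Real.exp (-z.2)|)
      (μ.prod (volume.restrict (Ioi (0:ℝ)))) :=
    Integrable.mul_prod (((integrable_const t).add hSi).abs) (integrableOn_aux.abs)
  have hpos : ∀ᵐ z ∂(μ.prod (volume.restrict (Ioi (0:ℝ)))), z.2 ∈ Ioi (0:ℝ) :=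
    Measure.quasiMeasurePreserving_snd.ae (ae_restrict_mem measurableSet_Ioi)
  refine hb.mono' ?_ ?_
  · exact (by fun_prop : Measurable (fun z : Ω × ℝ => (1 - z.2) * Real.exp (-z.2) * max (t + S z.1 - z.2) 0)).aestronglyMeasurable
  · filter_upwards [hpos] with z hz
    have hz' : (0:ℝ) < z.2 := hz
    rw [norm_mul, mul_comm, Real.norm_eq_abs, Real.norm_eq_abs]
    refine mul_le_mul_of_nonneg_right ?_ (abs_nonneg _)
    rw [abs_of_nonneg (le_max_right _ _)]
    refine max_le ?_ (abs_nonneg _)
    have := le_abs_self (t + S z.1)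
    linarith

include hS hSi in
lemma fubini_phi : ∫ ω, (1 - gg (t + S ω)) ∂μ =
    ∫ y in Ioi (0:ℝ), (1 - y) * Real.exp (-y) * ∫ ω, max (t - y + S ω) 0 ∂μ := by
  have h1 : ∫ ω, (1 - gg (t + S ω)) ∂μ =
      ∫ ω, (∫ y in Ioi (0:ℝ), (1 - y) * Real.exp (-y) * max (t + S ω - y) 0) ∂μ := by
    refine integral_congr_ae (Eventually.of_forall fun ω => ?_)
    exact one_sub_gg _
  rw [h1, integral_integral_swap (fub_integrable μ S hS hSi t)]
  refine setIntegral_congr_fun measurableSet_Ioi fun y _ => ?_
  show ∫ ω, (1 - y) * Real.exp (-y) * max (t + S ω - y) 0 ∂μ = _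
  rw [integral_const_mul]
  congr 1
  refine integral_congr_ae (Eventually.of_forall fun ω => ?_)
  simp only
  congr 1
  ring

include hS hSi in
lemma fub_integrable_y : IntegrableOn (fun y : ℝ => (1 - y) * Real.exp (-y) * ∫ ω, max (t - y + S ω) 0 ∂μ)
    (Ioi (0:ℝ)) := by
  have := (fub_integrable μ S hS hSi t).integral_prod_right
  refine this.congr (Eventually.of_forall fun y => ?_)
  simp only
  rw [integral_const_mul]
  congr 1
  refine integral_congr_ae (Eventually.of_forall fun ω => ?_)
  simp only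
  congr 1
  ring

end fubini


lemma integrable_shift_id (b : ℝ) : Integrable (fun x : ℝ => b * (x - 1)) muE :=
  (integrable_id_muE.sub (integrable_const 1)).const_mul b

lemma integral_shift_id (b : ℝ) : ∫ x, b * (x - 1) ∂muE = 0 := by
  rw [integral_const_mul, integral_sub integrable_id_muE (integrable_const 1), integral_id_muE]
  simp

noncomputable def QQ (b w : ℝ) : ℝ := ∫ x, max (w + b * (x - 1)) 0 ∂muE

lemma integrable_QQ (b w : ℝ) : Integrable (fun x => max (w + b * (x - 1)) 0) muE :=
  ((integrable_const w).add (integrable_shift_id b)).pos_part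

lemma QQ_ge {b w : ℝ} (hb : 0 < b) (hw : b ≤ w) : QQ b w = w := by
  unfold QQ
  have : ∫ x, max (w + b * (x - 1)) 0 ∂muE = ∫ x, (w + b * (x - 1)) ∂muE := by
    refine integral_congr_ae ?_
    filter_upwards [ae_pos_muE] with x hx
    refine max_eq_left ?_
    nlinarith [mul_pos hb hx]
  rw [this, integral_add (integrable_const w) (integrable_shift_id b), integral_shift_id]
  simp

lemma QQ_le {b w : ℝ} (hb : 0 < b) (hw : w ≤ b) : QQ b w = b * Real.exp (w / b - 1) := by
  unfold QQ
  have hb' : b ≠ 0 := hb.ne'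
  have hκ : 0 ≤ 1 - w / b := by
    have : w / b ≤ 1 := (div_le_one hb).mpr hw
    linarith
  rw [split_muE _ (integrable_QQ b w) hκ]
  have h1 : ∫ x in Ioc 0 (1 - w / b), Real.exp (-x) * max (w + b * (x - 1)) 0 = 0 := by
    rw [setIntegral_congr_fun measurableSet_Ioc (g := fun _ => (0:ℝ))]
    · simp
    · intro x hx
      show Real.exp (-x) * max (w + b * (x - 1)) 0 = 0
      rw [max_eq_right, mul_zero]
      have h2 : b * (w / b) = w := by field_simp
      have h3 := mul_le_mul_of_nonneg_left hx.2 hb.le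
      nlinarith
  have h2 : ∫ x, max (w + b * (x + (1 - w / b) - 1)) 0 ∂muE = b := by
    have : ∫ x, max (w + b * (x + (1 - w / b) - 1)) 0 ∂muE = ∫ x, b * x ∂muE := by
      refine integral_congr_ae ?_
      filter_upwards [ae_pos_muE] with x hx
      have h3 : w + b * (x + (1 - w / b) - 1) = b * x := by field_simp; ring
      rw [h3]
      exact max_eq_left (by positivity)
    rw [this, integral_const_mul, integral_id_muE, mul_one]
  rw [h1, h2, zero_add, mul_comm]
  congr 2
  ring

/-- value functional for b -/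
noncomputable def MM (b : ℝ) : ℝ := ∫ x, (1 - gg (4/3 + b * (x - 1))) ∂muE

lemma MM_eq_int (b : ℝ) : MM b = ∫ y in Ioi (0:ℝ), (1 - y) * Real.exp (-y) * QQ b (4/3 - y) := by
  unfold MM
  rw [fubini_phi muE (fun x => b * (x - 1)) (by fun_prop) (integrable_shift_id b) (4/3)]
  rfl

lemma MM_large {b : ℝ} (hb : 4/3 ≤ b) : MM b = Real.exp (4/(3*b) - 1) * (b^2/(1+b)^2) := by
  have hb0 : 0 < b := by linarith
  rw [MM_eq_int]
  have h1 : ∫ y in Ioi (0:ℝ), (1 - y) * Real.exp (-y) * QQ b (4/3 - y) =
      ∫ y in Ioi (0:ℝ), (b * Real.exp (4/(3*b) - 1)) * (y ^ 0 * Real.exp (-((1 + 1/b) * y)) -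
        y ^ 1 * Real.exp (-((1 + 1/b) * y))) := by
    refine setIntegral_congr_fun measurableSet_Ioi fun y hy => ?_
    have hy' : (0:ℝ) < y := hy
    show (1 - y) * Real.exp (-y) * QQ b (4/3 - y) = _
    rw [QQ_le hb0 (by linarith)]
    have h2 : Real.exp (-y) * Real.exp ((4/3 - y)/b - 1) =
        Real.exp (4/(3*b) - 1) * Real.exp (-((1 + 1/b) * y)) := by
      rw [← Real.exp_add, ← Real.exp_add]
      congr 1
      field_simp
      ring
    calc (1 - y) * Real.exp (-y) * (b * Real.exp ((4/3 - y)/b - 1)) =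
        (1 - y) * b * (Real.exp (-y) * Real.exp ((4/3 - y)/b - 1)) := by ring
      _ = (1 - y) * b * (Real.exp (4/(3*b) - 1) * Real.exp (-((1 + 1/b) * y))) := by rw [h2]
      _ = _ := by ring
  have hr : 0 < 1 + 1/b := by positivity
  rw [h1, integral_const_mul, integral_sub (integrableOn_pow_exp 0 hr) (integrableOn_pow_exp 1 hr),
    integral_pow_exp 0 hr, integral_pow_exp 1 hr]
  simp
  field_simp
  ring

lemma MM_small {b : ℝ} (hb0 : 0 < b) (hb : b ≤ 4/3) :
    MM b = 1 - Real.exp (-(4/3 - b)) * ((1 + (4/3 - b))/(1+b) + b/(1+b)^2) := by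
  unfold MM
  rw [integral_muE]
  have h1 : ∫ x in Ioi (0:ℝ), Real.exp (-x) * (1 - gg (4/3 + b * (x - 1))) =
      ∫ x in Ioi (0:ℝ), (x ^ 0 * Real.exp (-(1 * x)) -
        Real.exp (-(4/3 - b)) * ((1 + (4/3 - b)) * (x ^ 0 * Real.exp (-((1 + b) * x))) +
          b * (x ^ 1 * Real.exp (-((1 + b) * x))))) := by
    refine setIntegral_congr_fun measurableSet_Ioi fun x hx => ?_
    have hx' : (0:ℝ) < x := hx
    have hpos : ¬ (4/3 + b * (x - 1) ≤ 0) := by
      push Not
      nlinarith [mul_pos hb0 hx']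
    show Real.exp (-x) * (1 - gg (4/3 + b * (x - 1))) = _
    unfold gg
    rw [if_neg hpos]
    have h2 : Real.exp (-x) * Real.exp (-(4/3 + b * (x - 1))) =
        Real.exp (-(4/3 - b)) * Real.exp (-((1 + b) * x)) := by
      rw [← Real.exp_add, ← Real.exp_add]
      congr 1
      ring
    calc Real.exp (-x) * (1 - (1 + (4/3 + b * (x - 1))) * Real.exp (-(4/3 + b * (x - 1)))) =
        Real.exp (-x) - (1 + (4/3 + b * (x - 1))) * (Real.exp (-x) * Real.exp (-(4/3 + b * (x - 1)))) := by ring
      _ = Real.exp (-x) - (1 + (4/3 + b * (x - 1))) * (Real.exp (-(4/3 - b)) * Real.exp (-((1 + b) * x))) := by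
        rw [h2]
      _ = _ := by
        have : Real.exp (-(1 * x)) = Real.exp (-x) := by rw [one_mul]
        rw [this]; ring
  have hr : 0 < 1 + b := by positivity
  have i0 := integrableOn_pow_exp 0 (r := 1) one_pos
  have i1 := integrableOn_pow_exp 0 hr
  have i2 := integrableOn_pow_exp 1 hr
  have i3 : Integrable (fun x : ℝ => (1 + (4/3 - b)) * (x ^ 0 * Real.exp (-((1 + b) * x))) +
      b * (x ^ 1 * Real.exp (-((1 + b) * x)))) (volume.restrict (Ioi 0)) :=
    (i1.const_mul _).add (i2.const_mul _)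
  rw [h1, integral_sub i0 (i3.const_mul _),
    integral_const_mul, integral_add (i1.const_mul _) (i2.const_mul _), integral_const_mul, integral_const_mul,
    integral_pow_exp 0 (r := 1) one_pos, integral_pow_exp 0 hr, integral_pow_exp 1 hr]
  simp
  field_simp

lemma exp_third : Real.exp (-(1/3)) ≤ 18/25 := by
  have h := Real.quadratic_le_exp_of_nonneg (x := 1/3) (by norm_num)
  have h2 : Real.exp (-(1/3)) = (Real.exp (1/3))⁻¹ := Real.exp_neg _
  rw [h2]
  have h3 : (25/18 : ℝ) ≤ Real.exp (1/3) := by norm_num at h ⊢; linarith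
  calc (Real.exp (1/3))⁻¹ ≤ (25/18 : ℝ)⁻¹ := inv_anti₀ (by norm_num) h3
    _ = 18/25 := by norm_num

lemma MM_ge {b : ℝ} (hb : 1/3 ≤ b) : 4/9 * Real.exp (-(1/3)) ≤ MM b := by
  have hb0 : 0 < b := by linarith
  rcases le_total b (4/3) with h | h
  · rw [MM_small hb0 h]
    have h1 := exp_third
    have hs : 0 ≤ 4/3 - b := by linarith
    have h2 := Real.quadratic_le_exp_of_nonneg (x := 4/3 - b) hs
    have h3 : Real.exp (-(4/3 - b)) ≤ (1 + (4/3 - b) + (4/3 - b)^2/2)⁻¹ := by
      rw [Real.exp_neg]
      exact inv_anti₀ (by positivity) h2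
    have h4 : (1 + (4/3 - b))/(1+b) + b/(1+b)^2 = (7/3 + 7/3 * b - b^2)/(1+b)^2 := by
      field_simp
      ring
    have hnn : 0 ≤ (7/3 + 7/3 * b - b^2)/(1+b)^2 := by
      apply div_nonneg _ (by positivity)
      nlinarith
    rw [h4]
    have h5 : Real.exp (-(4/3 - b)) * ((7/3 + 7/3 * b - b^2)/(1+b)^2) ≤ 17/25 := by
      calc _ ≤ (1 + (4/3 - b) + (4/3 - b)^2/2)⁻¹ * ((7/3 + 7/3 * b - b^2)/(1+b)^2) :=
            mul_le_mul_of_nonneg_right h3 hnn
        _ ≤ 17/25 := by
            rw [inv_mul_le_iff₀ (by positivity), div_le_iff₀ (by positivity)]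
            obtain ⟨u, hu⟩ : ∃ u, u = b - 1/3 := ⟨_, rfl⟩
            have hb' : b = 1/3 + u := by rw [hu]; ring
            have hu0 : 0 ≤ u := by linarith
            have hu1 : u ≤ 1 := by linarith
            rw [hb']
            nlinarith [mul_nonneg hu0 (sub_nonneg.mpr hu1), mul_nonneg (mul_nonneg hu0 hu0) (sub_nonneg.mpr hu1),
              mul_nonneg (mul_nonneg hu0 (sub_nonneg.mpr hu1)) (sub_nonneg.mpr hu1), sq_nonneg (u^2 - u),
              mul_nonneg (mul_nonneg (mul_nonneg hu0 hu0) hu0) (sub_nonneg.mpr hu1), sq_nonneg (u*(1-u))]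
    linarith
  · rw [MM_large h]
    obtain ⟨z, hz⟩ : ∃ z, z = 2 * (1 + b)/(3 * b) := ⟨_, rfl⟩
    have hz0 : 0 < z := by rw [hz]; positivity
    have h1 : b^2/(1+b)^2 = 4/9 / z^2 := by rw [hz]; field_simp; ring
    have h2 : 4/(3*b) - 1 = -(1/3) + (z - 1) + (z - 1) := by rw [hz]; field_simp; ring
    have h3 : z ≤ Real.exp (z - 1) := by
      have := Real.add_one_le_exp (z - 1); linarith
    rw [h1, h2, Real.exp_add, Real.exp_add]
    have h4 : z * z ≤ Real.exp (z - 1) * Real.exp (z - 1) :=
      mul_le_mul h3 h3 hz0.le (Real.exp_pos _).le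
    have h5 : 1 ≤ (Real.exp (z - 1) * Real.exp (z - 1)) / z^2 := by
      rw [le_div_iff₀ (by positivity)]; nlinarith
    calc 4/9 * Real.exp (-(1/3)) = (4/9 * Real.exp (-(1/3))) * 1 := by ring
      _ ≤ (4/9 * Real.exp (-(1/3))) * ((Real.exp (z - 1) * Real.exp (z - 1)) / z^2) :=
          mul_le_mul_of_nonneg_left h5 (by positivity)
      _ = _ := by ring

lemma MM_two : MM 2 = 4/9 * Real.exp (-(1/3)) := by
  rw [MM_large (by norm_num)]
  norm_num
  ring


lemma integrable_gg {Ω : Type*} [MeasurableSpace Ω] (μ : Measure Ω) [IsProbabilityMeasure μ] (f : Ω → ℝ)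
    (hf : Measurable f) : Integrable (fun ω => gg (f ω)) μ := by
  refine (integrable_const (1:ℝ)).mono' (gg_meas.comp hf).aestronglyMeasurable ?_
  refine Eventually.of_forall fun ω => ?_
  rw [Real.norm_eq_abs, abs_of_nonneg (gg_nonneg _)]
  exact gg_le_one _

theorem upper (N : ℕ) (a : Fin N → ℝ) (ha : ∑ i, a i = 0) :
    ∫ x, gg (4/3 + ∑ i, a i * x i) ∂(muN N) ≤ 1 - 4/9 * Real.exp (-(1/3)) := by
  have hmeas : Measurable (fun x : Fin N → ℝ => ∑ i, a i * x i) := by fun_prop
  have h1 := fubini_phi (muN N) (fun x => ∑ i, a i * x i) hmeas (integrable_lin N a) (4/3)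
  have h1i := fub_integrable_y (muN N) (fun x => ∑ i, a i * x i) hmeas (integrable_lin N a) (4/3)
  obtain ⟨b, hb, hb1, hb2⟩ := exists_b (p := PP N a) (PP_RR N a) (PP_continuous N a) (PP_mono N a)
    (fun w => PP_ge N a w ha) (c := 1/3) (by norm_num)
  have hb0 : 0 < b := by linarith
  have h2 := MM_eq_int b
  have h2i := fub_integrable_y muE (fun x => b * (x - 1)) (by fun_prop) (integrable_shift_id b) (4/3)
  have hmono : MM b ≤ ∫ x, (1 - gg (4/3 + ∑ i, a i * x i)) ∂(muN N) := by
    rw [h1, h2]
    refine setIntegral_mono_on h2i h1i measurableSet_Ioi ?_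
    intro y hy
    have hy' : (0:ℝ) < y := hy
    show (1 - y) * Real.exp (-y) * QQ b (4/3 - y) ≤ (1 - y) * Real.exp (-y) * PP N a (4/3 - y)
    rcases le_total y 1 with h | h
    · refine mul_le_mul_of_nonneg_left ?_ (mul_nonneg (by linarith) (Real.exp_pos _).le)
      rcases le_total (4/3 - y) b with hw | hw
      · rw [QQ_le hb0 hw]
        exact hb2 _ (by linarith) hw
      · rw [QQ_ge hb0 hw]
        exact PP_ge N a _ ha
    · refine mul_le_mul_of_nonpos_left ?_ (mul_nonpos_of_nonpos_of_nonneg (by linarith) (Real.exp_pos _).le)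
      rw [QQ_le hb0 (by linarith)]
      exact hb1 _ (by linarith)
  have h3 : ∫ x, (1 - gg (4/3 + ∑ i, a i * x i)) ∂(muN N) = 1 - ∫ x, gg (4/3 + ∑ i, a i * x i) ∂(muN N) := by
    rw [integral_sub (integrable_const 1) (integrable_gg _ _ (by fun_prop))]
    simp
  have h4 := MM_ge hb
  linarith

/-- centred second moment -/
lemma second_moment (N : ℕ) : ∀ a : Fin N → ℝ,
    Integrable (fun x : Fin N → ℝ => (∑ i, a i * (x i - 1))^2) (muN N) ∧
    Integrable (fun x : Fin N → ℝ => ∑ i, a i * (x i - 1)) (muN N) ∧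
    ∫ x, (∑ i, a i * (x i - 1)) ∂(muN N) = 0 ∧
    ∫ x, (∑ i, a i * (x i - 1))^2 ∂(muN N) = ∑ i, (a i)^2 := by
  intro a
  have hL : ∀ i : Fin N, MemLp (fun x : Fin N → ℝ => a i * (x i - 1)) 2 (muN N) := by
    intro i
    have h0 : MemLp (fun x : ℝ => x) 2 muE := by
      rw [memLp_two_iff_integrable_sq (by fun_prop)]
      exact integrable_pow_muE 2
    have h1 : MemLp (fun x : ℝ => a i * (x - 1)) 2 muE := (h0.sub (memLp_const 1)).const_mul (a i)
    exact h1.comp_measurePreserving (measurePreserving_eval (fun _ : Fin N => muE) i)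
  have hS : MemLp (fun x : Fin N → ℝ => ∑ i, a i * (x i - 1)) 2 (muN N) := by
    have := memLp_finsetSum Finset.univ (fun i _ => hL i)
    exact this
  refine ⟨(memLp_two_iff_integrable_sq hS.1).mp hS, hS.integrable (by norm_num), ?_, ?_⟩
  · rw [integral_finsetSum]
    · refine Finset.sum_eq_zero fun i _ => ?_
      rw [integral_eval N i (fun x => a i * (x - 1)) (by fun_prop), integral_shift_id]
    · intro i _
      exact (hL i).integrable (by norm_num)
  · have hsq : ∀ x : Fin N → ℝ, (∑ i, a i * (x i - 1))^2 =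
        ∑ i, ∑ j, (a i * (x i - 1)) * (a j * (x j - 1)) := by
      intro x
      rw [sq, Finset.sum_mul_sum]
    simp_rw [hsq]
    have hint : ∀ i j : Fin N, Integrable (fun x : Fin N → ℝ => (a i * (x i - 1)) * (a j * (x j - 1))) (muN N) :=
      fun i j => (hL i).integrable_mul (hL j)
    rw [integral_finsetSum _ (fun i _ => integrable_finsetSum _ (fun j _ => hint i j))]
    refine Finset.sum_congr rfl fun i _ => ?_
    rw [integral_finsetSum _ (fun j _ => hint i j)]
    rw [Finset.sum_eq_single i]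
    · have : ∫ x : Fin N → ℝ, (a i * (x i - 1)) * (a i * (x i - 1)) ∂(muN N) =
          ∫ x : ℝ, (a i * (x - 1)) * (a i * (x - 1)) ∂muE :=
        integral_eval N i (fun x => (a i * (x - 1)) * (a i * (x - 1))) (by fun_prop)
      rw [this]
      have h2 : ∀ x : ℝ, (a i * (x - 1)) * (a i * (x - 1)) = (a i)^2 * (x^2 - 2 * x + 1) := fun x => by ring
      simp_rw [h2]
      have i3 : Integrable (fun x : ℝ => x^2 - 2 * x) muE :=
        (integrable_pow_muE 2).sub (integrable_id_muE.const_mul 2)
      rw [integral_const_mul, integral_add i3 (integrable_const 1), integral_sub (integrable_pow_muE 2) (integrable_id_muE.const_mul 2),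
        integral_const_mul, integral_id_muE, integral_pow_muE]
      simp
    · intro j _ hji
      -- product over coordinates
      have hprod : ∀ x : Fin N → ℝ, (a i * (x i - 1)) * (a j * (x j - 1)) =
          ∏ k, (if k = i then a i * (x k - 1) else if k = j then a j * (x k - 1) else 1) := by
        intro x
        rw [← Finset.mul_prod_erase Finset.univ _ (Finset.mem_univ i),
          ← Finset.mul_prod_erase (Finset.univ.erase i) _ (Finset.mem_erase.mpr ⟨hji, Finset.mem_univ j⟩)]
        rw [Finset.prod_eq_one]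
        · simp [hji]
        · intro k hk
          simp only [Finset.mem_erase, Finset.mem_univ, and_true] at hk
          rw [if_neg hk.2, if_neg hk.1]
      simp_rw [hprod]
      rw [integral_fintype_prod_eq_prod (fun k (y : ℝ) => if k = i then a i * (y - 1) else if k = j then a j * (y - 1) else 1)]
      refine Finset.prod_eq_zero (Finset.mem_univ i) ?_
      simp only [if_true]
      exact integral_shift_id _
    · intro h; exact absurd (Finset.mem_univ i) h


theorem approach (ε : ℝ) (hε : 0 < ε) : ∃ (N : ℕ) (a : Fin N → ℝ), 1 ≤ N ∧ ∑ i, a i = 0 ∧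
    1 - 4/9 * Real.exp (-(1/3)) - ε < ∫ x, gg (4/3 + ∑ i, a i * x i) ∂(muN N) := by
  obtain ⟨K, hK⟩ := exists_nat_gt (4 / ε^2)
  have hK0 : (0:ℝ) < K := lt_of_le_of_lt (by positivity) hK
  have hKne : (K:ℝ) ≠ 0 := hK0.ne'
  obtain ⟨a, ha⟩ : ∃ a : Fin (K+1) → ℝ, a = Fin.cons 2 (fun _ => -2/(K:ℝ)) := ⟨_, rfl⟩
  obtain ⟨c, hc⟩ : ∃ c : Fin (K+1) → ℝ, c = Fin.cons 0 (fun _ => -2/(K:ℝ)) := ⟨_, rfl⟩
  have hsum : ∑ i, a i = 0 := by
    rw [ha, Fin.sum_univ_succ]
    simp
    field_simp
    ring
  refine ⟨K+1, a, by omega, hsum, ?_⟩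
  have hdecomp : ∀ x : Fin (K+1) → ℝ, ∑ i, a i * x i = 2 * (x 0 - 1) + ∑ i, c i * (x i - 1) := by
    intro x
    have h1 : ∑ i, a i * x i = ∑ i, a i * (x i - 1) := by
      have : ∑ i, a i * (x i - 1) = ∑ i, a i * x i - ∑ i, a i := by
        rw [← Finset.sum_sub_distrib]
        exact Finset.sum_congr rfl fun i _ => by ring
      rw [this, hsum, sub_zero]
    rw [h1, ha, hc, Fin.sum_univ_succ, Fin.sum_univ_succ]
    simp
  obtain ⟨hT2, hT1, -, hTsq⟩ := second_moment (K+1) c
  have hcsq : ∑ i, (c i)^2 = 4 / K := by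
    rw [hc, Fin.sum_univ_succ]
    simp
    field_simp
    ring
  rw [hcsq] at hTsq
  have hTabs : ∫ x, |∑ i, c i * (x i - 1)| ∂(muN (K+1)) ≤ ε/2 + (4/K)/(2*ε) := by
    have h1 : ∫ x, |∑ i, c i * (x i - 1)| ∂(muN (K+1)) ≤
        ∫ x, (ε/2 + (1/(2*ε)) * (∑ i, c i * (x i - 1))^2) ∂(muN (K+1)) := by
      refine integral_mono hT1.abs ((integrable_const _).add (hT2.const_mul _)) fun x => ?_
      show |∑ i, c i * (x i - 1)| ≤ ε/2 + (1/(2*ε)) * (∑ i, c i * (x i - 1))^2
      obtain ⟨T, hT⟩ : ∃ T, T = |∑ i, c i * (x i - 1)| := ⟨_, rfl⟩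
      have h2 : (∑ i, c i * (x i - 1))^2 = T^2 := by rw [hT, sq_abs]
      rw [h2, ← hT]
      have h3 : ε/2 + (1/(2*ε)) * T^2 - T = (ε - T)^2/(2*ε) := by
        field_simp
        ring
      have h4 : 0 ≤ (ε - T)^2/(2*ε) := by positivity
      linarith
    refine h1.trans (le_of_eq ?_)
    rw [integral_add (integrable_const _) (hT2.const_mul _), integral_const_mul, hTsq]
    simp
    ring
  have hlow : ∫ x : Fin (K+1) → ℝ, (gg (4/3 + 2 * (x 0 - 1)) - |∑ i, c i * (x i - 1)|) ∂(muN (K+1)) ≤
      ∫ x, gg (4/3 + ∑ i, a i * x i) ∂(muN (K+1)) := by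
    refine integral_mono ((integrable_gg _ _ (by fun_prop)).sub hT1.abs)
      (integrable_gg _ _ (by fun_prop)) fun x => ?_
    show gg (4/3 + 2 * (x 0 - 1)) - |∑ i, c i * (x i - 1)| ≤ gg (4/3 + ∑ i, a i * x i)
    rw [hdecomp]
    obtain ⟨T, hT⟩ : ∃ T, T = ∑ i, c i * (x i - 1) := ⟨_, rfl⟩
    rw [← hT]
    rcases le_total 0 T with h | h
    · rw [abs_of_nonneg h]
      have := gg_lip (u := 4/3 + 2 * (x 0 - 1)) (v := 4/3 + (2 * (x 0 - 1) + T)) (by linarith)
      linarith
    · have := gg_anti (u := 4/3 + (2 * (x 0 - 1) + T)) (v := 4/3 + 2 * (x 0 - 1)) (by linarith)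
      have := abs_nonneg T
      linarith
  rw [integral_sub (integrable_gg _ _ (by fun_prop)) hT1.abs] at hlow
  have hmain : ∫ x : Fin (K+1) → ℝ, gg (4/3 + 2 * (x 0 - 1)) ∂(muN (K+1)) = 1 - 4/9 * Real.exp (-(1/3)) := by
    rw [integral_eval (K+1) 0 (fun x => gg (4/3 + 2 * (x - 1))) (gg_meas.comp (by fun_prop))]
    have := MM_two
    unfold MM at this
    rw [integral_sub (integrable_const 1) (integrable_gg _ _ (by fun_prop))] at this
    simp at this
    simp
    linarith
  rw [hmain] at hlow
  have hfin : ε/2 + (4/K)/(2*ε) < ε := by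
    have h1 : 4 < K * ε^2 := by
      rw [div_lt_iff₀ (by positivity)] at hK
      linarith
    have h2 : (4/K)/(2*ε) < ε/2 := by
      rw [div_div, div_lt_iff₀ (by positivity)]
      nlinarith
    linarith
  linarith

end Crest.Agent.H24Exp
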