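import Crest.Agent.H29Spec

set_option autoImplicit false

namespace Crest.Agent.H24FConv

open Real Set

/-- auxiliary entropy function -/
noncomputable def EE (x : ℝ) : ℝ := Real.binEntropy ((1 + Real.sqrt (1 - 4 * x ^ 2)) / 2)

lemma EE_cont : Continuous EE := by
  unfold EE
  exact Real.binEntropy_continuous.comp (by fun_prop)

/-- derivative of `EE` as a function of `r = √(1-4x²)` -/
noncomputable def hh (r : ℝ) : ℝ :=
  Real.sqrt (1 - r ^ 2) / r * (Real.log (1 + r) - Real.log (1 - r))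

lemma rr_mem {x : ℝ} (hx : x ∈ Ioo (0:ℝ) (1/2)) : Real.sqrt (1 - 4 * x ^ 2) ∈ Ioo (0:ℝ) 1 := by
  obtain ⟨h0, h1⟩ := hx
  have h2 : 0 < 1 - 4 * x ^ 2 := by nlinarith
  have h3 : 1 - 4 * x ^ 2 < 1 := by nlinarith
  constructor
  · exact Real.sqrt_pos.2 h2
  · rw [Real.sqrt_lt' one_pos]; linarith

lemma EE_deriv {x : ℝ} (hx : x ∈ Ioo (0:ℝ) (1/2)) :
    HasDerivAt EE (hh (Real.sqrt (1 - 4 * x ^ 2))) x := by
  have hr := rr_mem hx
  obtain ⟨h0, h1⟩ := hx
  have h2 : 0 < 1 - 4 * x ^ 2 := by nlinarith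
  set r := Real.sqrt (1 - 4 * x ^ 2) with hrdef
  have hd1 : HasDerivAt (fun x : ℝ => 1 - 4 * x ^ 2) (-(8 * x)) x :=
    (((hasDerivAt_pow 2 x).const_mul (4:ℝ)).const_sub (1:ℝ)).congr_deriv (by
      push_cast
      simp only [Nat.add_one_sub_one, pow_one]
      ring)
  have hd2 : HasDerivAt (fun x : ℝ => Real.sqrt (1 - 4 * x ^ 2)) (-(8 * x) / (2 * r)) x :=
    hd1.sqrt h2.ne'
  have hd3 : HasDerivAt (fun x : ℝ => (1 + Real.sqrt (1 - 4 * x ^ 2)) / 2)
      (-(8 * x) / (2 * r) / 2) x := (hd2.const_add 1).div_const 2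
  have hy0 : (1 + r) / 2 ≠ 0 := by have := hr.1; positivity
  have hy1 : (1 + r) / 2 ≠ 1 := by have := hr.2; intro h; linarith
  have hd4 := Real.hasDerivAt_binEntropy hy0 hy1
  have hd5 := HasDerivAt.comp x (h₂ := Real.binEntropy) (h := fun x : ℝ => (1 + Real.sqrt (1 - 4 * x ^ 2)) / 2) hd4 hd3
  have e1 : Real.sqrt (1 - r ^ 2) = 2 * x := by
    rw [hrdef, Real.sq_sqrt h2.le]
    have : 1 - (1 - 4 * x ^ 2) = (2 * x) ^ 2 := by ring
    rw [this, Real.sqrt_sq (by linarith)]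
  have e2 : Real.log (1 - (1 + r) / 2) - Real.log ((1 + r) / 2) =
      - (Real.log (1 + r) - Real.log (1 - r)) := by
    have e3 : 1 - (1 + r) / 2 = (1 - r) / 2 := by ring
    rw [e3, Real.log_div (by have := hr.2; intro h; linarith) two_ne_zero,
      Real.log_div (by have := hr.1; positivity) two_ne_zero]
    ring
  have e4 : hh r = (Real.log (1 - (1 + r) / 2) - Real.log ((1 + r) / 2)) *
      (-(8 * x) / (2 * r) / 2) := by
    unfold hh
    rw [e1, e2]
    have hrne : r ≠ 0 := hr.1.ne'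
    field_simp
    ring
  rw [e4]
  exact hd5

lemma log_ge {r : ℝ} (h0 : 0 ≤ r) (h1 : r < 1) : 2 * r ≤ Real.log (1 + r) - Real.log (1 - r) := by
  -- the function `log (1+r) - log (1-r) - 2 r` vanishes at `0` and has non-negative derivative
  have hmono : MonotoneOn (fun t : ℝ => Real.log (1 + t) - Real.log (1 - t) - 2 * t) (Ico 0 1) := by
    have hder : ∀ t ∈ Ico (0:ℝ) 1, HasDerivAt
        (fun t : ℝ => Real.log (1 + t) - Real.log (1 - t) - 2 * t)
        (1 / (1 + t) - (-1) / (1 - t) - 2) t := by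
      intro t ht
      have ha : HasDerivAt (fun t : ℝ => 1 + t) 1 t := (hasDerivAt_id t).const_add 1
      have hb : HasDerivAt (fun t : ℝ => 1 - t) (-1) t := (hasDerivAt_id t).const_sub 1
      have hc : HasDerivAt (fun t : ℝ => 2 * t) 2 t := by
        simpa using (hasDerivAt_id t).const_mul 2
      exact ((ha.log (by have := ht.1; positivity)).sub
        (hb.log (by have := ht.2; intro h; linarith))).sub hc
    apply monotoneOn_of_deriv_nonneg (convex_Ico 0 1)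
    · intro t ht
      exact (hder t ht).continuousAt.continuousWithinAt
    · intro t ht
      rw [interior_Ico] at ht
      exact (hder t ⟨ht.1.le, ht.2⟩).differentiableAt.differentiableWithinAt
    · intro t ht
      rw [interior_Ico] at ht
      rw [(hder t ⟨ht.1.le, ht.2⟩).deriv]
      have h1t : 0 < 1 - t := by have := ht.2; linarith
      have h2t : 0 < 1 + t := by have := ht.1; linarith
      have : 1 / (1 + t) - (-1) / (1 - t) - 2 = 2 * t ^ 2 / ((1 + t) * (1 - t)) := by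
        field_simp
        ring
      rw [this]
      positivity
  have := hmono (show (0:ℝ) ∈ Ico (0:ℝ) 1 from ⟨le_rfl, one_pos⟩) (show r ∈ Ico (0:ℝ) 1 from ⟨h0, h1⟩) h0
  simp only [add_zero, Real.log_one, sub_zero, mul_zero] at this
  linarith

lemma hh_anti : AntitoneOn hh (Ioo 0 1) := by
  have hder : ∀ r ∈ Ioo (0:ℝ) 1, HasDerivAt hh
      ((2 * r - (Real.log (1 + r) - Real.log (1 - r))) / (r ^ 2 * Real.sqrt (1 - r ^ 2))) r := by
    intro r hr
    have hr0 : r ≠ 0 := hr.1.ne'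
    have h1r : 0 < 1 - r ^ 2 := by have h1 := hr.1; have h2 := hr.2; nlinarith
    have hs : 0 < Real.sqrt (1 - r ^ 2) := Real.sqrt_pos.2 h1r
    have ha : HasDerivAt (fun t : ℝ => 1 + t) 1 r := (hasDerivAt_id r).const_add 1
    have hb : HasDerivAt (fun t : ℝ => 1 - t) (-1) r := (hasDerivAt_id r).const_sub 1
    have h1 : 1 - r ≠ 0 := by have := hr.2; intro h; linarith
    have h2 : 1 + r ≠ 0 := by have := hr.1; positivity
    have hl : HasDerivAt (fun t : ℝ => Real.log (1 + t) - Real.log (1 - t))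
        (1 / (1 + r) - (-1) / (1 - r)) r := (ha.log h2).sub (hb.log h1)
    have hq : HasDerivAt (fun t : ℝ => 1 - t ^ 2) (-(2 * r)) r :=
      ((hasDerivAt_pow 2 r).const_sub (1:ℝ)).congr_deriv (by
        push_cast
        simp only [Nat.add_one_sub_one, pow_one])
    have hsq : HasDerivAt (fun t : ℝ => Real.sqrt (1 - t ^ 2)) (-(2 * r) / (2 * Real.sqrt (1 - r ^ 2))) r :=
      hq.sqrt h1r.ne'
    have hdiv := hsq.div (hasDerivAt_id r) hr0
    have hmul := hdiv.mul hl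
    refine hmul.congr_deriv ?_
    have hsq2 : Real.sqrt (1 - r ^ 2) ^ 2 = 1 - r ^ 2 := Real.sq_sqrt h1r.le
    have h3 : (1:ℝ) / (1 + r) - (-1) / (1 - r) = 2 / Real.sqrt (1 - r ^ 2) ^ 2 := by
      rw [hsq2]
      have : 1 - r ^ 2 = (1 + r) * (1 - r) := by ring
      rw [this]
      field_simp
      ring
    show (-(2 * r) / (2 * Real.sqrt (1 - r ^ 2)) * r - Real.sqrt (1 - r ^ 2) * 1) / r ^ 2 *
        (Real.log (1 + r) - Real.log (1 - r)) +
        Real.sqrt (1 - r ^ 2) / r * ((1:ℝ) / (1 + r) - (-1) / (1 - r)) = _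
    rw [h3]
    have h4 : (-(2 * r) / (2 * Real.sqrt (1 - r ^ 2)) * r - Real.sqrt (1 - r ^ 2) * 1) / r ^ 2 =
        - 1 / (r ^ 2 * Real.sqrt (1 - r ^ 2)) := by
      field_simp
      rw [hsq2]; ring
    rw [h4]
    field_simp
    ring
  apply antitoneOn_of_deriv_nonpos (convex_Ioo 0 1)
  · intro r hr
    exact (hder r hr).continuousAt.continuousWithinAt
  · intro r hr
    rw [interior_Ioo] at hr
    exact (hder r hr).differentiableAt.differentiableWithinAt
  · intro r hr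
    rw [interior_Ioo] at hr
    rw [(hder r hr).deriv]
    have hlog := log_ge hr.1.le hr.2
    apply div_nonpos_of_nonpos_of_nonneg
    · linarith
    · positivity

lemma hh_nonneg {r : ℝ} (hr : r ∈ Ioo (0:ℝ) 1) : 0 ≤ hh r := by
  unfold hh
  have := log_ge hr.1.le hr.2
  have h0 := hr.1
  apply mul_nonneg
  · positivity
  · linarith

lemma EE_mono : MonotoneOn EE (Icc 0 (1/2)) := by
  apply monotoneOn_of_deriv_nonneg (convex_Icc _ _) EE_cont.continuousOn
  · intro x hx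
    rw [interior_Icc] at hx
    exact (EE_deriv hx).differentiableAt.differentiableWithinAt
  · intro x hx
    rw [interior_Icc] at hx
    rw [(EE_deriv hx).deriv]
    exact hh_nonneg (rr_mem hx)

lemma EE_convex : ConvexOn ℝ (Icc 0 (1/2)) EE := by
  apply MonotoneOn.convexOn_of_deriv (convex_Icc _ _) EE_cont.continuousOn
  · intro x hx
    rw [interior_Icc] at hx
    exact (EE_deriv hx).differentiableAt.differentiableWithinAt
  · intro x hx y hy hxy
    rw [interior_Icc] at hx hy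
    rw [(EE_deriv hx).deriv, (EE_deriv hy).deriv]
    apply hh_anti (rr_mem hy) (rr_mem hx)
    apply Real.sqrt_le_sqrt
    have := hx.1
    nlinarith

lemma sqrt_convex {c k ν p q t s : ℝ} (hc : 0 ≤ c) (hk : 0 ≤ k) (ht : 0 ≤ t) (hs : 0 ≤ s)
    (hts : t + s = 1) :
    Real.sqrt (c + k * (t * p + s * q - ν) ^ 2) ≤
      t * Real.sqrt (c + k * (p - ν) ^ 2) + s * Real.sqrt (c + k * (q - ν) ^ 2) := by
  have hP : 0 ≤ c + k * (p - ν) ^ 2 := by positivity
  have hQ : 0 ≤ c + k * (q - ν) ^ 2 := by positivity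
  set A := Real.sqrt (c + k * (p - ν) ^ 2) with hA
  set B := Real.sqrt (c + k * (q - ν) ^ 2) with hB
  have hA0 : 0 ≤ A := Real.sqrt_nonneg _
  have hB0 : 0 ≤ B := Real.sqrt_nonneg _
  have hA2 : A ^ 2 = c + k * (p - ν) ^ 2 := Real.sq_sqrt hP
  have hB2 : B ^ 2 = c + k * (q - ν) ^ 2 := Real.sq_sqrt hQ
  have hAB : c + k * ((p - ν) * (q - ν)) ≤ A * B := by
    apply le_of_abs_le
    apply abs_le_of_sq_le_sq _ (by positivity)
    · have : (A * B) ^ 2 - (c + k * ((p - ν) * (q - ν))) ^ 2 = c * k * ((p - ν) - (q - ν)) ^ 2 := by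
        rw [mul_pow, hA2, hB2]; ring
      have h2 : 0 ≤ c * k * ((p - ν) - (q - ν)) ^ 2 := by positivity
      linarith
  rw [Real.sqrt_le_left (by positivity)]
  have hs' : s = 1 - t := by linarith
  have e1 : (t * A + s * B) ^ 2 = t ^ 2 * (c + k * (p - ν) ^ 2) + s ^ 2 * (c + k * (q - ν) ^ 2) +
      2 * t * s * (A * B) := by rw [← hA2, ← hB2]; ring
  rw [e1]
  have e2 : c + k * (t * p + s * q - ν) ^ 2 =
      t ^ 2 * (c + k * (p - ν) ^ 2) + s ^ 2 * (c + k * (q - ν) ^ 2) +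
      2 * t * s * (c + k * ((p - ν) * (q - ν))) := by
    rw [hs']; ring
  rw [e2]
  have : 2 * t * s * (c + k * ((p - ν) * (q - ν))) ≤ 2 * t * s * (A * B) :=
    mul_le_mul_of_nonneg_left hAB (by positivity)
  linarith

lemma v_le {γ ν p : ℝ} (hγ : γ ∈ Icc (0:ℝ) 1) (hν : ν ∈ Icc (0:ℝ) 1) (hp : p ∈ Icc (0:ℝ) 1) :
    γ * ν * (1 - ν) + γ * (1 - γ) * (p - ν) ^ 2 ≤ 1 / 4 := by
  obtain ⟨hγ0, hγ1⟩ := hγ
  obtain ⟨hν0, hν1⟩ := hν
  obtain ⟨hp0, hp1⟩ := hp
  have hg : 0 ≤ γ * (1 - γ) := mul_nonneg hγ0 (by linarith)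
  have h1 : (p - ν) ^ 2 ≤ ν ^ 2 ∨ (p - ν) ^ 2 ≤ (1 - ν) ^ 2 := by
    rcases le_total p ν with h | h
    · left; nlinarith
    · right; nlinarith
  rcases h1 with h1 | h1
  · have := mul_le_mul_of_nonneg_left h1 hg
    nlinarith [sq_nonneg (γ * ν - 1 / 2)]
  · have := mul_le_mul_of_nonneg_left h1 hg
    nlinarith [sq_nonneg (γ * (1 - ν) - 1 / 2)]

theorem main : Crest.Agent.H29.FConv := by
  intro γ ν hγ hν
  refine ⟨convex_Icc _ _, ?_⟩
  intro p hp q hq t s ht hs hts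
  have hc : 0 ≤ γ * ν * (1 - ν) := mul_nonneg (mul_nonneg hγ.1 hν.1) (by linarith [hν.2])
  have hk : 0 ≤ γ * (1 - γ) := mul_nonneg hγ.1 (by linarith [hγ.2])
  have hF : ∀ p, Crest.Agent.H29.FF γ ν p =
      EE (Real.sqrt (γ * ν * (1 - ν) + γ * (1 - γ) * (p - ν) ^ 2)) := by
    intro p
    unfold Crest.Agent.H29.FF EE
    rw [Real.sq_sqrt (by positivity)]
  have hmem : ∀ p ∈ Icc (0:ℝ) 1,
      Real.sqrt (γ * ν * (1 - ν) + γ * (1 - γ) * (p - ν) ^ 2) ∈ Icc (0:ℝ) (1/2) := by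
    intro p hp
    refine ⟨Real.sqrt_nonneg _, ?_⟩
    rw [Real.sqrt_le_left (by norm_num)]
    have := v_le hγ hν hp
    linarith
  rw [hF, hF, hF]
  simp only [smul_eq_mul]
  have hcx : t * p + s * q ∈ Icc (0:ℝ) 1 := (convex_Icc (0:ℝ) 1) hp hq ht hs hts
  have h1 := sqrt_convex (ν := ν) (p := p) (q := q) hc hk ht hs hts
  have h2 := EE_convex.2 (hmem p hp) (hmem q hq) ht hs hts
  simp only [smul_eq_mul] at h2
  refine le_trans (EE_mono (hmem _ hcx) ?_ h1) h2
  exact (convex_Icc (0:ℝ) (1/2)) (hmem p hp) (hmem q hq) ht hs hts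

end Crest.Agent.H24FConv
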