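import Crest.Agent.H29Ent

set_option autoImplicit false
set_option linter.unusedSectionVars false

namespace Crest.Agent.H24ProdEnt

open Crest.Quantum Matrix Real Crest.Agent.H29
open scoped ComplexOrder Kronecker

variable {d e : Type*} [Fintype d] [DecidableEq d] [Fintype e] [DecidableEq e]

lemma kron_unitary {U : Matrix d d ℂ} {W : Matrix e e ℂ} (hU : U * Uᴴ = 1) (hW : W * Wᴴ = 1) :
    (U ⊗ₖ W) * (U ⊗ₖ W)ᴴ = 1 := by
  rw [conjTranspose_kronecker, ← mul_kronecker_mul, hU, hW, one_kronecker_one]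

lemma sum_eig {ρ : Matrix d d ℂ} (h : IsDensity ρ) : ∑ i, h.1.1.eigenvalues i = 1 := by
  have h1 := h.1.1.trace_eq_sum_eigenvalues
  have h2 : ((∑ i, h.1.1.eigenvalues i : ℝ) : ℂ) = 1 := by
    push_cast
    exact h1.symm.trans h.2
  exact_mod_cast h2

theorem prodEnt {ρ : Matrix d d ℂ} {σ : Matrix e e ℂ} (hρ : IsDensity ρ) (hσ : IsDensity σ) :
    vnEntropy (Matrix.of fun (x y : d × e) => ρ x.1 y.1 * σ x.2 y.2) =
      vnEntropy ρ + vnEntropy σ := by
  obtain ⟨U, hU, -, hρd⟩ := exists_unitary hρ.1.1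
  obtain ⟨W, hW, -, hσd⟩ := exists_unitary hσ.1.1
  set a := hρ.1.1.eigenvalues with ha
  set b := hσ.1.1.eigenvalues with hb
  have e1 : (Matrix.of fun (x y : d × e) => ρ x.1 y.1 * σ x.2 y.2) = ρ ⊗ₖ σ := by
    ext x y; rfl
  have e2 : ρ ⊗ₖ σ = (U ⊗ₖ W) *
      diagonal (fun x : d × e => ((a x.1 * b x.2 : ℝ) : ℂ)) * (U ⊗ₖ W)ᴴ := by
    conv_lhs => rw [hρd, hσd]
    rw [mul_kronecker_mul, mul_kronecker_mul, diagonal_kronecker_diagonal,
      conjTranspose_kronecker]
    congr 3
    ext x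
    push_cast
    rfl
  have hdh : (diagonal (fun x : d × e => ((a x.1 * b x.2 : ℝ) : ℂ))).IsHermitian := by
    apply isHermitian_diagonal_of_self_adjoint
    ext i; simp
  rw [e1, e2, vn_unitary hdh (kron_unitary hU hW), vn_diagonal, vn_eq_sum hρ.1.1,
    vn_eq_sum hσ.1.1, Fintype.sum_prod_type]
  have hsa : ∑ i, a i = 1 := sum_eig hρ
  have hsb : ∑ i, b i = 1 := sum_eig hσ
  have : ∀ i, ∑ j, negMulLog (a i * b j) = negMulLog (a i) + a i * ∑ j, negMulLog (b j) := by
    intro i
    simp only [negMulLog_mul]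
    rw [Finset.sum_add_distrib, ← Finset.sum_mul, hsb, one_mul, Finset.mul_sum]
  simp only [this]
  rw [Finset.sum_add_distrib, ← Finset.sum_mul, hsa, one_mul]

/-- classical subadditivity -/
lemma classical {p : d → e → ℝ} (hp : ∀ i j, 0 ≤ p i j) (hs : ∑ i, ∑ j, p i j = 1) :
    ∑ i, ∑ j, negMulLog (p i j) ≤
      ∑ i, negMulLog (∑ j, p i j) + ∑ j, negMulLog (∑ i, p i j) := by
  set a : d → ℝ := fun i => ∑ j, p i j with ha
  set b : e → ℝ := fun j => ∑ i, p i j with hb
  have hsa : ∑ i, a i = 1 := hs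
  have hsb : ∑ j, b j = 1 := by rw [hb, Finset.sum_comm]; exact hs
  have h1 : ∀ i j, negMulLog (p i j) ≤ -(p i j * Real.log (a i)) - p i j * Real.log (b j) +
      (a i * b j - p i j) := by
    intro i j
    rcases eq_or_lt_of_le (hp i j) with h | h
    · rw [← h]
      have h2 : 0 ≤ a i * b j :=
        mul_nonneg (Finset.sum_nonneg fun j _ => hp i j) (Finset.sum_nonneg fun i _ => hp i j)
      simpa using h2
    · have hapos : 0 < a i := lt_of_lt_of_le h
        (Finset.single_le_sum (f := fun j => p i j) (fun j _ => hp i j) (Finset.mem_univ j))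
      have hbpos : 0 < b j := lt_of_lt_of_le h
        (Finset.single_le_sum (f := fun i => p i j) (fun i _ => hp i j) (Finset.mem_univ i))
      have hlog := Real.log_le_sub_one_of_pos (show 0 < a i * b j / p i j by positivity)
      rw [Real.log_div (by positivity) h.ne', Real.log_mul hapos.ne' hbpos.ne'] at hlog
      have h3 := mul_le_mul_of_nonneg_left hlog h.le
      have h4 : p i j * (a i * b j / p i j - 1) = a i * b j - p i j := by
        field_simp
      rw [h4] at h3
      unfold negMulLog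
      nlinarith
  have h2 : ∑ i, ∑ j, negMulLog (p i j) ≤ ∑ i, ∑ j, (-(p i j * Real.log (a i)) -
      p i j * Real.log (b j) + (a i * b j - p i j)) :=
    Finset.sum_le_sum fun i _ => Finset.sum_le_sum fun j _ => h1 i j
  refine h2.trans (le_of_eq ?_)
  have e1 : ∑ i, ∑ j, (-(p i j * Real.log (a i)) - p i j * Real.log (b j) +
      (a i * b j - p i j)) = ∑ i, ∑ j, -(p i j * Real.log (a i)) +
      ∑ i, ∑ j, -(p i j * Real.log (b j)) + (∑ i, ∑ j, a i * b j - ∑ i, ∑ j, p i j) := by
    rw [← Finset.sum_add_distrib, ← Finset.sum_sub_distrib, ← Finset.sum_add_distrib]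
    refine Finset.sum_congr rfl fun i _ => ?_
    rw [← Finset.sum_add_distrib, ← Finset.sum_sub_distrib, ← Finset.sum_add_distrib]
    exact Finset.sum_congr rfl fun j _ => by ring
  have e2 : ∑ i, ∑ j, -(p i j * Real.log (a i)) = ∑ i, negMulLog (a i) := by
    refine Finset.sum_congr rfl fun i _ => ?_
    unfold negMulLog
    rw [Finset.sum_neg_distrib, ← Finset.sum_mul]
    simp [ha]
  have e3 : ∑ i, ∑ j, -(p i j * Real.log (b j)) = ∑ j, negMulLog (b j) := by
    rw [Finset.sum_comm]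
    refine Finset.sum_congr rfl fun j _ => ?_
    unfold negMulLog
    rw [Finset.sum_neg_distrib, ← Finset.sum_mul]
    simp [hb]
  have e4 : ∑ i, ∑ j, a i * b j = 1 := by
    have : ∀ i, ∑ j, a i * b j = a i := by
      intro i; rw [← Finset.mul_sum, hsb, mul_one]
    simp only [this]; exact hsa
  rw [e1, e2, e3, e4, hs]
  ring

/-- partial trace over the second factor -/
noncomputable def pt (X : Matrix (d × e) (d × e) ℂ) : Matrix d d ℂ :=
  Matrix.of fun s t => ∑ i, X (s, i) (t, i)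

/-- partial trace over the first factor -/
noncomputable def pt' (X : Matrix (d × e) (d × e) ℂ) : Matrix e e ℂ :=
  Matrix.of fun i j => ∑ s, X (s, i) (s, j)

lemma conj_apply (U : Matrix d d ℂ) (W : Matrix e e ℂ) (X : Matrix (d × e) (d × e) ℂ)
    (s t : d) (i j : e) :
    ((U ⊗ₖ W)ᴴ * X * (U ⊗ₖ W)) (s, i) (t, j) =
      ∑ t', ∑ l, ∑ s', ∑ m, star (U s' s) * U t' t * (star (W m i) * W l j) * X (s', m) (t', l) := by
  rw [mul_apply, Fintype.sum_prod_type]
  refine Finset.sum_congr rfl fun t' _ => Finset.sum_congr rfl fun l _ => ?_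
  rw [mul_apply, Fintype.sum_prod_type, Finset.sum_mul]
  refine Finset.sum_congr rfl fun s' _ => ?_
  rw [Finset.sum_mul]
  refine Finset.sum_congr rfl fun m _ => ?_
  rw [conjTranspose_apply, kroneckerMap_apply, kroneckerMap_apply, star_mul']
  ring

lemma pt_conj {U : Matrix d d ℂ} {W : Matrix e e ℂ} (hW : W * Wᴴ = 1)
    (X : Matrix (d × e) (d × e) ℂ) :
    pt ((U ⊗ₖ W)ᴴ * X * (U ⊗ₖ W)) = Uᴴ * pt X * U := by
  ext s t
  have h1 : ∀ l m, ∑ i, star (W m i) * W l i = if l = m then 1 else 0 := by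
    intro l m
    have := congrFun (congrFun hW l) m
    rw [mul_apply, one_apply] at this
    rw [← this]
    refine Finset.sum_congr rfl fun i _ => ?_
    rw [conjTranspose_apply, mul_comm]
  show ∑ i, ((U ⊗ₖ W)ᴴ * X * (U ⊗ₖ W)) (s, i) (t, i) = _
  simp only [conj_apply]
  have h2 : ∑ i, ∑ t', ∑ l, ∑ s', ∑ m,
      star (U s' s) * U t' t * (star (W m i) * W l i) * X (s', m) (t', l) =
      ∑ t', ∑ l, ∑ s', ∑ m, star (U s' s) * U t' t * (∑ i, star (W m i) * W l i) *
        X (s', m) (t', l) := by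
    rw [Finset.sum_comm]
    refine Finset.sum_congr rfl fun t' _ => ?_
    rw [Finset.sum_comm]
    refine Finset.sum_congr rfl fun l _ => ?_
    rw [Finset.sum_comm]
    refine Finset.sum_congr rfl fun s' _ => ?_
    rw [Finset.sum_comm]
    refine Finset.sum_congr rfl fun m _ => ?_
    rw [Finset.mul_sum, Finset.sum_mul]
  rw [h2]
  simp only [h1]
  rw [mul_apply]
  refine Finset.sum_congr rfl fun t' _ => ?_
  rw [mul_apply, Finset.sum_mul, Finset.sum_comm]
  refine Finset.sum_congr rfl fun s' _ => ?_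
  rw [conjTranspose_apply]
  show _ = star (U s' s) * (∑ i, X (s', i) (t', i)) * U t' t
  rw [Finset.mul_sum, Finset.sum_mul]
  refine Finset.sum_congr rfl fun l _ => ?_
  rw [Finset.sum_eq_single l]
  · rw [if_pos rfl]; ring
  · intro m _ hm
    rw [if_neg (Ne.symm hm)]; ring
  · intro h; exact absurd (Finset.mem_univ _) h

lemma pt'_conj {U : Matrix d d ℂ} {W : Matrix e e ℂ} (hU : U * Uᴴ = 1)
    (X : Matrix (d × e) (d × e) ℂ) :
    pt' ((U ⊗ₖ W)ᴴ * X * (U ⊗ₖ W)) = Wᴴ * pt' X * W := by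
  ext i j
  have h1 : ∀ t' s', ∑ s, star (U s' s) * U t' s = if t' = s' then 1 else 0 := by
    intro l m
    have := congrFun (congrFun hU l) m
    rw [mul_apply, one_apply] at this
    rw [← this]
    refine Finset.sum_congr rfl fun i _ => ?_
    rw [conjTranspose_apply, mul_comm]
  show ∑ s, ((U ⊗ₖ W)ᴴ * X * (U ⊗ₖ W)) (s, i) (s, j) = _
  simp only [conj_apply]
  have h2 : ∑ s, ∑ t', ∑ l, ∑ s', ∑ m,
      star (U s' s) * U t' s * (star (W m i) * W l j) * X (s', m) (t', l) =
      ∑ l, ∑ m, ∑ t', ∑ s', (∑ s, star (U s' s) * U t' s) * (star (W m i) * W l j) *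
        X (s', m) (t', l) := by
    rw [Finset.sum_comm]
    have : ∀ t', ∑ s, ∑ l, ∑ s', ∑ m,
        star (U s' s) * U t' s * (star (W m i) * W l j) * X (s', m) (t', l) =
        ∑ l, ∑ m, ∑ s', (∑ s, star (U s' s) * U t' s) * (star (W m i) * W l j) *
        X (s', m) (t', l) := by
      intro t'
      rw [Finset.sum_comm]
      refine Finset.sum_congr rfl fun l _ => ?_
      rw [Finset.sum_comm]
      have : ∀ s', ∑ s, ∑ m,
        star (U s' s) * U t' s * (star (W m i) * W l j) * X (s', m) (t', l) =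
        ∑ m, (∑ s, star (U s' s) * U t' s) * (star (W m i) * W l j) *
        X (s', m) (t', l) := by
        intro s'
        rw [Finset.sum_comm]
        refine Finset.sum_congr rfl fun m _ => ?_
        rw [Finset.sum_mul, Finset.sum_mul]
      simp only [this]
      rw [Finset.sum_comm]
    simp only [this]
    rw [Finset.sum_comm]
    refine Finset.sum_congr rfl fun l _ => ?_
    rw [Finset.sum_comm]
  rw [h2]
  simp only [h1]
  rw [mul_apply]
  refine Finset.sum_congr rfl fun l _ => ?_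
  rw [mul_apply, Finset.sum_mul]
  refine Finset.sum_congr rfl fun m _ => ?_
  rw [conjTranspose_apply]
  show _ = star (W m i) * (∑ s, X (s, m) (s, l)) * W l j
  rw [Finset.mul_sum, Finset.sum_mul]
  refine Finset.sum_congr rfl fun t' _ => ?_
  rw [Finset.sum_eq_single t']
  · rw [if_pos rfl]; ring
  · intro m _ hm
    rw [if_neg (Ne.symm hm)]; ring
  · intro h; exact absurd (Finset.mem_univ _) h

lemma pt_herm {X : Matrix (d × e) (d × e) ℂ} (h : X.IsHermitian) : (pt X).IsHermitian := by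
  ext s t
  rw [conjTranspose_apply]
  show star (∑ i, X (t, i) (s, i)) = ∑ i, X (s, i) (t, i)
  rw [star_sum]
  exact Finset.sum_congr rfl fun i _ => h.apply _ _

lemma pt'_herm {X : Matrix (d × e) (d × e) ℂ} (h : X.IsHermitian) : (pt' X).IsHermitian := by
  ext s t
  rw [conjTranspose_apply]
  show star (∑ i, X (i, t) (i, s)) = ∑ i, X (i, s) (i, t)
  rw [star_sum]
  exact Finset.sum_congr rfl fun i _ => h.apply _ _

theorem subAdd {ρ : Matrix (d × e) (d × e) ℂ} (hρ : IsDensity ρ) :
    vnEntropy ρ ≤ vnEntropy (pt ρ) + vnEntropy (pt' ρ) := by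
  have h1 := pt_herm hρ.1.1
  have h2 := pt'_herm hρ.1.1
  obtain ⟨U, hU, hU', hd1⟩ := exists_unitary h1
  obtain ⟨W, hW, hW', hd2⟩ := exists_unitary h2
  set a := h1.eigenvalues with ha
  set b := h2.eigenvalues with hb
  set K := U ⊗ₖ W with hK
  have hKK : Kᴴ * K = 1 := by
    rw [hK, conjTranspose_kronecker, ← mul_kronecker_mul, hU', hW', one_kronecker_one]
  have hKK2 : Kᴴ * Kᴴᴴ = 1 := by rw [conjTranspose_conjTranspose]; exact hKK
  set ρ' := Kᴴ * ρ * K with hρ'
  have hent : vnEntropy ρ' = vnEntropy ρ := by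
    have := vn_unitary hρ.1.1 hKK2
    rw [conjTranspose_conjTranspose] at this
    exact this
  have hpsd : ρ'.PosSemidef := by
    have := hρ.1.conjTranspose_mul_mul_same K
    exact this
  have hm1 : pt ρ' = diagonal (fun i => (a i : ℂ)) := by
    rw [hρ', hK, pt_conj hW, hd1]
    calc Uᴴ * (U * diagonal (fun i => (a i : ℂ)) * Uᴴ) * U =
        (Uᴴ * U) * diagonal (fun i => (a i : ℂ)) * (Uᴴ * U) := by
          simp only [Matrix.mul_assoc]
      _ = _ := by rw [hU', Matrix.one_mul, Matrix.mul_one]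
  have hm2 : pt' ρ' = diagonal (fun i => (b i : ℂ)) := by
    rw [hρ', hK, pt'_conj hU, hd2]
    calc Wᴴ * (W * diagonal (fun i => (b i : ℂ)) * Wᴴ) * W =
        (Wᴴ * W) * diagonal (fun i => (b i : ℂ)) * (Wᴴ * W) := by
          simp only [Matrix.mul_assoc]
      _ = _ := by rw [hW', Matrix.one_mul, Matrix.mul_one]
  set p : d → e → ℝ := fun i j => (ρ' (i, j) (i, j)).re with hp
  have hp0 : ∀ i j, 0 ≤ p i j := by
    intro i j
    have := hpsd.diag_nonneg (i := (i, j))
    exact (Complex.le_def.1 this).1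
  have hpa : ∀ i, ∑ j, p i j = a i := by
    intro i
    have := congrFun (congrFun hm1 i) i
    rw [diagonal_apply_eq] at this
    have h3 : ∑ j, ρ' (i, j) (i, j) = (a i : ℂ) := this
    have h4 := congrArg Complex.re h3
    rw [Complex.re_sum, Complex.ofReal_re] at h4
    exact h4
  have hpb : ∀ j, ∑ i, p i j = b j := by
    intro j
    have := congrFun (congrFun hm2 j) j
    rw [diagonal_apply_eq] at this
    have h3 : ∑ i, ρ' (i, j) (i, j) = (b j : ℂ) := this
    have h4 := congrArg Complex.re h3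
    rw [Complex.re_sum, Complex.ofReal_re] at h4
    exact h4
  have hsum : ∑ i, ∑ j, p i j = 1 := by
    have htr : ρ'.trace = 1 := by
      rw [hρ', Matrix.mul_assoc, trace_mul_comm, Matrix.mul_assoc]
      have hKK3 : K * Kᴴ = 1 := mul_eq_one_comm.mp hKK
      rw [hKK3, Matrix.mul_one]
      exact hρ.2
    have h5 : ∑ x : d × e, ρ' x x = 1 := htr
    rw [Fintype.sum_prod_type] at h5
    have h6 := congrArg Complex.re h5
    rw [Complex.re_sum] at h6
    simp only [Complex.re_sum, Complex.one_re] at h6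
    exact h6
  calc vnEntropy ρ = vnEntropy ρ' := hent.symm
    _ ≤ ∑ x : d × e, negMulLog (ρ' x x).re := peierls hpsd
    _ = ∑ i, ∑ j, negMulLog (p i j) := Fintype.sum_prod_type _
    _ ≤ ∑ i, negMulLog (∑ j, p i j) + ∑ j, negMulLog (∑ i, p i j) := classical hp0 hsum
    _ = vnEntropy (pt ρ) + vnEntropy (pt' ρ) := by
        rw [vn_eq_sum h1, vn_eq_sum h2]
        simp only [hpa, hpb]
        rfl

theorem prodEnt_spec : ProdEnt := fun _ _ _ _ _ _ _ _ h h' => prodEnt h h'

theorem subAdd_spec : SubAdd := fun _ _ _ _ _ _ _ h => subAdd h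

end Crest.Agent.H24ProdEnt
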