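import Crest.Agent.H29Ent
import Crest.Agent.H24ProdEnt

set_option autoImplicit false
set_option linter.unusedSectionVars false

namespace Crest.Agent.H24Gad

open Crest.Quantum Crest.MathPhysics.AmpDamp Matrix Real Crest.Agent.H29 Crest.Agent.H24ProdEnt
open scoped ComplexOrder Kronecker

/-- transfer coefficients of the GAD map, real -/
noncomputable def tc (γ ν : ℝ) (s t s' t' : Bool) : ℝ :=
  match s, t, s', t' with
  | false, false, false, false => 1 - γ * ν
  | false, false, true, true => γ * (1 - ν)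
  | true, true, false, false => γ * ν
  | true, true, true, true => 1 - γ + γ * ν
  | false, true, false, true => Real.sqrt (1 - γ)
  | true, false, true, false => Real.sqrt (1 - γ)
  | _, _, _, _ => 0

lemma qubitCoeff_gad (γ ν : ℝ) (s t s' t' : Bool) :
    qubitCoeff (gadMap γ ν) s t s' t' = (tc γ ν s t s' t' : ℂ) := by
  unfold qubitCoeff gadMap tc
  cases s <;> cases t <;> cases s' <;> cases t' <;> simp

lemma gadMap_apply (γ ν : ℝ) (X : Matrix Bool Bool ℂ) (s t : Bool) :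
    gadMap γ ν X s t = ∑ s', ∑ t', (tc γ ν s t s' t' : ℂ) * X s' t' := by
  unfold gadMap tc
  cases s <;> cases t <;> simp [add_comm]

/-- Kraus operators (real entries) -/
noncomputable def kk (γ ν : ℝ) (j : Fin 4) (s s' : Bool) : ℝ :=
  match j, s, s' with
  | 0, false, false => Real.sqrt (1 - ν)
  | 0, true, true => Real.sqrt (1 - ν) * Real.sqrt (1 - γ)
  | 1, false, true => Real.sqrt (1 - ν) * Real.sqrt γ
  | 2, false, false => Real.sqrt ν * Real.sqrt (1 - γ)
  | 2, true, true => Real.sqrt ν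
  | 3, true, false => Real.sqrt ν * Real.sqrt γ
  | _, _, _ => 0

lemma tc_eq {γ ν : ℝ} (hγ : γ ∈ Set.Icc (0:ℝ) 1) (hν : ν ∈ Set.Icc (0:ℝ) 1) (s t s' t' : Bool) :
    tc γ ν s t s' t' = ∑ j, kk γ ν j s s' * kk γ ν j t t' := by
  obtain ⟨hγ0, hγ1⟩ := hγ
  obtain ⟨hν0, hν1⟩ := hν
  have a1 : Real.sqrt (1 - ν) * Real.sqrt (1 - ν) = 1 - ν := Real.mul_self_sqrt (by linarith)
  have a2 : Real.sqrt ν * Real.sqrt ν = ν := Real.mul_self_sqrt hν0
  have a3 : Real.sqrt (1 - γ) * Real.sqrt (1 - γ) = 1 - γ := Real.mul_self_sqrt (by linarith)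
  have a4 : Real.sqrt γ * Real.sqrt γ = γ := Real.mul_self_sqrt hγ0
  rw [Fin.sum_univ_four]
  unfold tc kk
  cases s <;> cases t <;> cases s' <;> cases t' <;> simp
  · linear_combination (-1 : ℝ) * a1 - (Real.sqrt (1 - γ) * Real.sqrt (1 - γ)) * a2 - ν * a3
  · linear_combination (-(Real.sqrt γ * Real.sqrt γ)) * a1 - (1 - ν) * a4
  · linear_combination (-Real.sqrt (1 - γ)) * a1 - Real.sqrt (1 - γ) * a2
  · linear_combination (-Real.sqrt (1 - γ)) * a1 - Real.sqrt (1 - γ) * a2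
  · linear_combination (-(Real.sqrt γ * Real.sqrt γ)) * a2 - ν * a4
  · linear_combination (-1 : ℝ) * a2 - (Real.sqrt (1 - γ) * Real.sqrt (1 - γ)) * a1 - (1 - ν) * a3

lemma tc_trace (γ ν : ℝ) (s' t' : Bool) :
    ∑ s, tc γ ν s s s' t' = if s' = t' then 1 else 0 := by
  unfold tc
  cases s' <;> cases t' <;> simp <;> ring

section Tensor
variable {d e : Type*} [Fintype d] [DecidableEq d] [Fintype e] [DecidableEq e]

lemma qubitTensor_eq (γ ν : ℝ) (Ψ : Matrix d d ℂ → Matrix e e ℂ)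
    (M : Matrix (Bool × d) (Bool × d) ℂ) :
    qubitTensor (gadMap γ ν) Ψ M = gadT γ ν (blockwise Ψ M) := by
  ext x y
  show ∑ s', ∑ t', qubitCoeff (gadMap γ ν) x.1 y.1 s' t' * Ψ (block M s' t') x.2 y.2 =
    gadMap γ ν (Matrix.of fun s t => blockwise Ψ M (s, x.2) (t, y.2)) x.1 y.1
  rw [gadMap_apply]
  simp only [qubitCoeff_gad]
  rfl

lemma gadT_apply (γ ν : ℝ) (M : Matrix (Bool × e) (Bool × e) ℂ) (x y : Bool × e) :
    gadT γ ν M x y = ∑ s', ∑ t', (tc γ ν x.1 y.1 s' t' : ℂ) * M (s', x.2) (t', y.2) := by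
  show gadMap γ ν (Matrix.of fun s t => M (s, x.2) (t, y.2)) x.1 y.1 = _
  rw [gadMap_apply]
  rfl

/-- Kraus form of `gadT` -/
lemma gadT_kraus {γ ν : ℝ} (hγ : γ ∈ Set.Icc (0:ℝ) 1) (hν : ν ∈ Set.Icc (0:ℝ) 1)
    (M : Matrix (Bool × e) (Bool × e) ℂ) :
    gadT γ ν M = ∑ j, ((Matrix.of fun s s' => ((kk γ ν j s s' : ℝ) : ℂ)) ⊗ₖ (1 : Matrix e e ℂ)) * M *
      ((Matrix.of fun s s' => ((kk γ ν j s s' : ℝ) : ℂ)) ⊗ₖ (1 : Matrix e e ℂ))ᴴ := by
  ext x y
  rw [gadT_apply, Matrix.sum_apply]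
  have h1 : ∀ j, (((Matrix.of fun s s' => ((kk γ ν j s s' : ℝ) : ℂ)) ⊗ₖ (1 : Matrix e e ℂ)) * M *
      ((Matrix.of fun s s' => ((kk γ ν j s s' : ℝ) : ℂ)) ⊗ₖ (1 : Matrix e e ℂ))ᴴ) x y =
      ∑ s', ∑ t', ((kk γ ν j x.1 s' : ℝ) : ℂ) * ((kk γ ν j y.1 t' : ℝ) : ℂ) *
        M (s', x.2) (t', y.2) := by
    intro j
    rw [mul_apply, Fintype.sum_prod_type, Finset.sum_comm]
    have h2 : ∀ l : e, ∑ t', (((Matrix.of fun s s' => ((kk γ ν j s s' : ℝ) : ℂ)) ⊗ₖ
        (1 : Matrix e e ℂ)) * M) x (t', l) *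
        ((Matrix.of fun s s' => ((kk γ ν j s s' : ℝ) : ℂ)) ⊗ₖ (1 : Matrix e e ℂ))ᴴ (t', l) y =
        if l = y.2 then ∑ t', ∑ s', ((kk γ ν j x.1 s' : ℝ) : ℂ) * ((kk γ ν j y.1 t' : ℝ) : ℂ) *
        M (s', x.2) (t', y.2) else 0 := by
      intro l
      split_ifs with hl
      · subst hl
        refine Finset.sum_congr rfl fun t' _ => ?_
        rw [mul_apply, Fintype.sum_prod_type, conjTranspose_apply, kroneckerMap_apply, one_apply_eq,
          Finset.sum_mul]
        refine Finset.sum_congr rfl fun s' _ => ?_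
        rw [Finset.sum_eq_single x.2]
        · rw [kroneckerMap_apply, one_apply_eq]
          simp
          ring
        · intro m _ hm
          rw [kroneckerMap_apply, one_apply_ne (Ne.symm hm)]
          simp
        · intro h; exact absurd (Finset.mem_univ _) h
      · refine Finset.sum_eq_zero fun t' _ => ?_
        rw [conjTranspose_apply, kroneckerMap_apply, one_apply_ne (fun h => hl h.symm)]
        simp
    simp only [h2]
    rw [Finset.sum_ite_eq' Finset.univ y.2, if_pos (Finset.mem_univ _), Finset.sum_comm]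
  simp only [h1]
  conv_rhs => rw [Finset.sum_comm]
  refine Finset.sum_congr rfl fun s' _ => ?_
  conv_rhs => rw [Finset.sum_comm]
  refine Finset.sum_congr rfl fun t' _ => ?_
  rw [tc_eq hγ hν]
  push_cast
  rw [Finset.sum_mul]

lemma gadT_psd {γ ν : ℝ} (hγ : γ ∈ Set.Icc (0:ℝ) 1) (hν : ν ∈ Set.Icc (0:ℝ) 1)
    {M : Matrix (Bool × e) (Bool × e) ℂ} (hM : M.PosSemidef) : (gadT γ ν M).PosSemidef := by
  rw [gadT_kraus hγ hν]
  apply Matrix.posSemidef_sum
  intro j _
  exact hM.mul_mul_conjTranspose_same _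

lemma gadT_pt' (γ ν : ℝ) (M : Matrix (Bool × e) (Bool × e) ℂ) :
    pt' (gadT γ ν M) = pt' M := by
  ext i j
  show ∑ s, gadT γ ν M (s, i) (s, j) = ∑ s, M (s, i) (s, j)
  simp only [gadT_apply]
  rw [Finset.sum_comm]
  refine Finset.sum_congr rfl fun s' _ => ?_
  rw [Finset.sum_comm]
  have : ∀ t', ∑ s, (tc γ ν s s s' t' : ℂ) * M (s', i) (t', j) =
      if s' = t' then M (s', i) (t', j) else 0 := by
    intro t'
    rw [← Finset.sum_mul]
    have h := tc_trace γ ν s' t'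
    have h2 : ∑ s, (tc γ ν s s s' t' : ℂ) = ((∑ s, tc γ ν s s s' t' : ℝ) : ℂ) := by push_cast; rfl
    rw [h2, h]
    split_ifs <;> simp
  simp only [this]
  rw [Finset.sum_ite_eq Finset.univ s', if_pos (Finset.mem_univ _)]

lemma trace_eq_pt' (M : Matrix (Bool × e) (Bool × e) ℂ) : M.trace = (pt' M).trace := by
  show ∑ x : Bool × e, M x x = ∑ i, ∑ s, M (s, i) (s, i)
  rw [Fintype.sum_prod_type, Finset.sum_comm]

lemma gadT_trace (γ ν : ℝ) (M : Matrix (Bool × e) (Bool × e) ℂ) :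
    (gadT γ ν M).trace = M.trace := by
  rw [trace_eq_pt', gadT_pt', ← trace_eq_pt']

lemma gadT_density {γ ν : ℝ} (hγ : γ ∈ Set.Icc (0:ℝ) 1) (hν : ν ∈ Set.Icc (0:ℝ) 1)
    {M : Matrix (Bool × e) (Bool × e) ℂ} (hM : IsDensity M) : IsDensity (gadT γ ν M) :=
  ⟨gadT_psd hγ hν hM.1, by rw [gadT_trace]; exact hM.2⟩

lemma gadT_pt (γ ν : ℝ) (M : Matrix (Bool × e) (Bool × e) ℂ) :
    pt (gadT γ ν M) = gadMap γ ν (pt M) := by
  ext s t
  rw [gadMap_apply]
  show ∑ i, gadT γ ν M (s, i) (t, i) = ∑ s', ∑ t', (tc γ ν s t s' t' : ℂ) * ∑ i, M (s', i) (t', i)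
  simp only [gadT_apply]
  rw [Finset.sum_comm]
  refine Finset.sum_congr rfl fun s' _ => ?_
  rw [Finset.sum_comm]
  refine Finset.sum_congr rfl fun t' _ => ?_
  rw [Finset.mul_sum]

end Tensor

section Qubit

/-- embedding of a qubit matrix as a matrix on `Bool × Unit` -/
lemma gadMap_psd {γ ν : ℝ} (hγ : γ ∈ Set.Icc (0:ℝ) 1) (hν : ν ∈ Set.Icc (0:ℝ) 1)
    {X : Matrix Bool Bool ℂ} (hX : X.PosSemidef) : (gadMap γ ν X).PosSemidef := by
  set f : Bool × Unit → Bool := Prod.fst with hf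
  set g : Bool → Bool × Unit := fun s => (s, ()) with hg
  have h1 : (X.submatrix f f).PosSemidef := hX.submatrix f
  have h2 := (gadT_psd hγ hν h1).submatrix g
  have h3 : gadMap γ ν X = (gadT γ ν (X.submatrix f f)).submatrix g g := rfl
  rw [h3]
  exact h2

lemma gadMap_trace (γ ν : ℝ) (X : Matrix Bool Bool ℂ) : (gadMap γ ν X).trace = X.trace := by
  show ∑ s, gadMap γ ν X s s = ∑ s, X s s
  simp only [gadMap_apply]
  rw [Finset.sum_comm]
  refine Finset.sum_congr rfl fun s' _ => ?_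
  rw [Finset.sum_comm]
  have : ∀ t', ∑ s, (tc γ ν s s s' t' : ℂ) * X s' t' = if s' = t' then X s' t' else 0 := by
    intro t'
    rw [← Finset.sum_mul]
    have h := tc_trace γ ν s' t'
    have h2 : ∑ s, (tc γ ν s s s' t' : ℂ) = ((∑ s, tc γ ν s s s' t' : ℝ) : ℂ) := by push_cast; rfl
    rw [h2, h]
    split_ifs <;> simp
  simp only [this]
  rw [Finset.sum_ite_eq Finset.univ s', if_pos (Finset.mem_univ _)]

lemma gadMap_density {γ ν : ℝ} (hγ : γ ∈ Set.Icc (0:ℝ) 1) (hν : ν ∈ Set.Icc (0:ℝ) 1)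
    {X : Matrix Bool Bool ℂ} (hX : IsDensity X) : IsDensity (gadMap γ ν X) :=
  ⟨gadMap_psd hγ hν hX.1, by rw [gadMap_trace]; exact hX.2⟩

/-- entropy of a Hermitian qubit matrix of trace one and determinant `v` -/
lemma vn_qubit {X : Matrix Bool Bool ℂ} (hX : X.IsHermitian) (htr : X.trace = 1) {v : ℝ}
    (hv : v ≤ 1 / 4) (hdet : X false false * X true true - X false true * X true false = (v : ℂ)) :
    vnEntropy X = Real.binEntropy ((1 + Real.sqrt (1 - 4 * v)) / 2) := by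
  set r := Real.sqrt (1 - 4 * v) with hr
  have hr2 : r ^ 2 = 1 - 4 * v := Real.sq_sqrt (by linarith)
  set y : Fin 2 → ℝ := ![(1 + r) / 2, (1 - r) / 2] with hy
  set f : Fin 2 ≃ Bool := finTwoEquiv with hf
  have hXf : (X.submatrix f f).IsHermitian := hX.submatrix f
  have hdiag : (diagonal (fun i => (y i : ℂ))).IsHermitian := by
    apply isHermitian_diagonal_of_self_adjoint
    ext i; simp
  have hch : (X.submatrix f f).charpoly = (diagonal (fun i => (y i : ℂ))).charpoly := by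
    rw [Matrix.charpoly_fin_two, Matrix.charpoly_fin_two]
    have f0 : f 0 = false := rfl
    have f1 : f 1 = true := rfl
    have e1 : (X.submatrix f f).trace = (diagonal (fun i => (y i : ℂ))).trace := by
      rw [Matrix.trace_fin_two, Matrix.trace_fin_two]
      simp only [submatrix_apply, diagonal_apply_eq, f0, f1]
      have htr' : X false false + X true true = 1 := by
        have : X.trace = X true true + X false false := by
          show ∑ s, X s s = _
          rw [Fintype.sum_bool]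
        rw [← htr, this, add_comm]
      rw [htr', hy]
      simp only [Matrix.cons_val_zero, Matrix.cons_val_one]
      push_cast; ring
    have e2 : (X.submatrix f f).det = (diagonal (fun i => (y i : ℂ))).det := by
      rw [Matrix.det_fin_two, Matrix.det_diagonal, Fin.prod_univ_two]
      simp only [submatrix_apply, f0, f1]
      rw [hdet, hy]
      simp only [Matrix.cons_val_zero, Matrix.cons_val_one]
      have : ((v : ℝ) : ℂ) = (((1 + r) / 2 * ((1 - r) / 2) : ℝ) : ℂ) := by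
        congr 1
        nlinarith
      rw [this]; push_cast; ring
    rw [e1, e2]
  rw [← vn_reindex hX f, vn_congr hXf hdiag hch, vn_diagonal, Fin.sum_univ_two,
    Real.binEntropy_eq_negMulLog_add_negMulLog_one_sub, hy]
  simp only [Matrix.cons_val_zero, Matrix.cons_val_one]
  congr 2
  ring

/-- the pure phase covariant state with excitation `p` and sign `ε` -/
noncomputable def psi (p : ℝ) (ε : Bool) : Matrix Bool Bool ℂ :=
  Matrix.of fun s t =>
    match s, t with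
    | false, false => ((1 - p : ℝ) : ℂ)
    | true, true => ((p : ℝ) : ℂ)
    | _, _ => (((if ε then 1 else -1) * (Real.sqrt (1 - p) * Real.sqrt p) : ℝ) : ℂ)

lemma psi_density {p : ℝ} (hp : p ∈ Set.Icc (0:ℝ) 1) (ε : Bool) : IsDensity (psi p ε) := by
  constructor
  · set w : Bool → ℂ := fun s => if s then (((if ε then 1 else -1) * Real.sqrt p : ℝ) : ℂ)
      else ((Real.sqrt (1 - p) : ℝ) : ℂ) with hw
    have h1 : psi p ε = Matrix.vecMulVec w (star w) := by
      have a1 : Real.sqrt p * Real.sqrt p = p := Real.mul_self_sqrt hp.1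
      have a2 : Real.sqrt (1 - p) * Real.sqrt (1 - p) = 1 - p :=
        Real.mul_self_sqrt (by linarith [hp.2])
      have a1' : ((Real.sqrt p : ℝ) : ℂ) * ((Real.sqrt p : ℝ) : ℂ) = (p : ℂ) := by
        rw [← Complex.ofReal_mul, a1]
      have a2' : ((Real.sqrt (1 - p) : ℝ) : ℂ) * ((Real.sqrt (1 - p) : ℝ) : ℂ) = ((1 - p : ℝ) : ℂ) := by
        rw [← Complex.ofReal_mul, a2]
      ext s t
      rw [vecMulVec_apply]
      unfold psi
      cases ε <;> cases s <;> cases t <;> simp [hw, a1', a2'] <;> ring_nf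
    rw [h1]
    exact Matrix.posSemidef_vecMulVec_self_star w
  · show ∑ s, psi p ε s s = 1
    rw [Fintype.sum_bool]
    unfold psi
    simp

lemma vn_gad_psi {γ ν p : ℝ} (hγ : γ ∈ Set.Icc (0:ℝ) 1) (hν : ν ∈ Set.Icc (0:ℝ) 1)
    (hp : p ∈ Set.Icc (0:ℝ) 1) (ε : Bool) : vnEntropy (gadMap γ ν (psi p ε)) = FF γ ν p := by
  have hd := gadMap_density hγ hν (psi_density hp ε)
  have a1 : Real.sqrt p * Real.sqrt p = p := Real.mul_self_sqrt hp.1
  have a2 : Real.sqrt (1 - p) * Real.sqrt (1 - p) = 1 - p :=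
    Real.mul_self_sqrt (by linarith [hp.2])
  have a3 : Real.sqrt (1 - γ) * Real.sqrt (1 - γ) = 1 - γ :=
    Real.mul_self_sqrt (by linarith [hγ.2])
  rw [vn_qubit hd.1.1 hd.2 (v := γ * ν * (1 - ν) + γ * (1 - γ) * (p - ν) ^ 2)]
  · rfl
  · -- determinant bound
    obtain ⟨hγ0, hγ1⟩ := hγ
    obtain ⟨hν0, hν1⟩ := hν
    obtain ⟨hp0, hp1⟩ := hp
    have hg : 0 ≤ γ * (1 - γ) := mul_nonneg hγ0 (by linarith)
    have h1 : (p - ν) ^ 2 ≤ ν ^ 2 ∨ (p - ν) ^ 2 ≤ (1 - ν) ^ 2 := by
      rcases le_total p ν with h | h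
      · left; nlinarith
      · right; nlinarith
    rcases h1 with h1 | h1
    · have := mul_le_mul_of_nonneg_left h1 hg
      nlinarith [sq_nonneg (γ * ν - 1 / 2)]
    · have := mul_le_mul_of_nonneg_left h1 hg
      nlinarith [sq_nonneg (γ * (1 - ν) - 1 / 2)]
  · have e1 : gadMap γ ν (psi p ε) false false =
        (((1 - γ * ν) * (1 - p) + γ * (1 - ν) * p : ℝ) : ℂ) := by
      unfold gadMap psi; simp
    have e2 : gadMap γ ν (psi p ε) true true =
        ((γ * ν * (1 - p) + (1 - γ + γ * ν) * p : ℝ) : ℂ) := by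
      unfold gadMap psi; simp
    have e3 : gadMap γ ν (psi p ε) false true =
        ((Real.sqrt (1 - γ) * ((if ε then 1 else -1) * (Real.sqrt (1 - p) * Real.sqrt p)) : ℝ) : ℂ) := by
      unfold gadMap psi; cases ε <;> simp
    have e4 : gadMap γ ν (psi p ε) true false =
        ((Real.sqrt (1 - γ) * ((if ε then 1 else -1) * (Real.sqrt (1 - p) * Real.sqrt p)) : ℝ) : ℂ) := by
      unfold gadMap psi; cases ε <;> simp
    rw [e1, e2, e3, e4, ← Complex.ofReal_mul, ← Complex.ofReal_mul, ← Complex.ofReal_sub]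
    congr 1
    have e5 : Real.sqrt (1 - γ) * ((if ε then 1 else -1) * (Real.sqrt (1 - p) * Real.sqrt p)) *
        (Real.sqrt (1 - γ) * ((if ε then 1 else -1) * (Real.sqrt (1 - p) * Real.sqrt p))) =
        (1 - γ) * ((1 - p) * p) := by
      calc _ = (Real.sqrt (1 - γ) * Real.sqrt (1 - γ)) *
            ((Real.sqrt (1 - p) * Real.sqrt (1 - p)) * (Real.sqrt p * Real.sqrt p)) *
            ((if ε then (1:ℝ) else -1) * (if ε then 1 else -1)) := by ring
        _ = _ := by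
            rw [a1, a2, a3]
            cases ε <;> simp
    rw [e5]
    ring

end Qubit

end Crest.Agent.H24Gad
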