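import Crest.Agent.H24GadA
import Crest.Agent.H24FConv

set_option autoImplicit false
set_option linter.unusedSectionVars false

namespace Crest.Agent.H24Gad

open Crest.Quantum Crest.MathPhysics.AmpDamp Matrix Real Crest.Agent.H29 Crest.Agent.H24ProdEnt
open scoped ComplexOrder Kronecker

section General
variable {d e : Type*} [Fintype d] [DecidableEq d] [Fintype e] [DecidableEq e]

/-- trace of a PSD matrix is a nonnegative real -/
lemma psd_trace {A : Matrix d d ℂ} (hA : A.PosSemidef) :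
    0 ≤ A.trace.re ∧ A.trace = (A.trace.re : ℂ) := by
  have h := hA.trace_nonneg
  rw [Complex.nonneg_iff] at h
  refine ⟨h.1, ?_⟩
  apply Complex.ext
  · simp
  · rw [← h.2]; simp

/-- default density -/
noncomputable def dflt (d : Type*) [Fintype d] [DecidableEq d] [Nonempty d] : Matrix d d ℂ :=
  Matrix.diagonal (fun i => if i = Classical.arbitrary d then 1 else 0)

lemma dflt_density [Nonempty d] : IsDensity (dflt d) := by
  constructor
  · unfold dflt
    rw [posSemidef_diagonal_iff]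
    intro i; split_ifs <;> simp
  · unfold dflt; rw [trace_diagonal]; simp

open Classical in
/-- the normalised state -/
noncomputable def nrm [Nonempty d] (A : Matrix d d ℂ) : Matrix d d ℂ :=
  if A.trace.re = 0 then dflt d else ((A.trace.re⁻¹ : ℝ) : ℂ) • A

lemma nrm_density [Nonempty d] {A : Matrix d d ℂ} (hA : A.PosSemidef) : IsDensity (nrm A) := by
  unfold nrm
  split_ifs with h
  · exact dflt_density
  · obtain ⟨h0, h1⟩ := psd_trace hA
    constructor
    · apply hA.smul
      rw [Complex.zero_le_real]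
      exact inv_nonneg.2 h0
    · rw [trace_smul, smul_eq_mul]
      conv_lhs => rw [h1]
      rw [← Complex.ofReal_mul]
      simp only [Complex.ofReal_re]
      rw [inv_mul_cancel₀ h]; simp

lemma nrm_eq [Nonempty d] {A : Matrix d d ℂ} (hA : A.PosSemidef) :
    A = (A.trace.re : ℂ) • nrm A := by
  unfold nrm
  obtain ⟨h0, h1⟩ := psd_trace hA
  split_ifs with h
  · rw [h] at h1
    have h2 : A = 0 := hA.trace_eq_zero_iff.1 (by rw [h1]; simp)
    rw [h, h2]; simp
  · rw [smul_smul, ← Complex.ofReal_mul, mul_inv_cancel₀ h]; simp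

lemma psd_blockwise {κ : Type*} [Fintype κ] [DecidableEq κ] {Ψ : Matrix d d ℂ → Matrix e e ℂ}
    (hΨ : IsCompletelyPositive Ψ) {M : Matrix (κ × d) (κ × d) ℂ} (hM : M.PosSemidef) :
    (blockwise Ψ M).PosSemidef := by
  set f := Fintype.equivFin κ with hf
  set N : Matrix (Fin (Fintype.card κ) × d) (Fin (Fintype.card κ) × d) ℂ :=
    M.submatrix (fun x => (f.symm x.1, x.2)) (fun x => (f.symm x.1, x.2)) with hN
  have h1 : N.PosSemidef := hM.submatrix _
  have h2 := (hΨ _ _ h1).submatrix (fun x : κ × e => (f x.1, x.2))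
  have h3 : blockwise Ψ M = (blockwise (k := Fin (Fintype.card κ)) Ψ N).submatrix
      (fun x : κ × e => (f x.1, x.2)) (fun x : κ × e => (f x.1, x.2)) := by
    ext x y
    show Ψ (block M x.1 y.1) x.2 y.2 = Ψ (block N (f x.1) (f y.1)) x.2 y.2
    have : block N (f x.1) (f y.1) = block M x.1 y.1 := by
      ext i j
      show M (f.symm (f x.1), i) (f.symm (f y.1), j) = M (x.1, i) (y.1, j)
      simp
    rw [this]
  rw [h3]; exact h2

lemma trace_blocks {κ : Type*} [Fintype κ] (M : Matrix (κ × d) (κ × d) ℂ) :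
    M.trace = ∑ k, (block M k k).trace := by
  show ∑ x : κ × d, M x x = ∑ k, ∑ i, M (k, i) (k, i)
  rw [Fintype.sum_prod_type]

lemma blockwise_trace {κ : Type*} [Fintype κ] {Ψ : Matrix d d ℂ → Matrix e e ℂ}
    (hΨ : IsTracePreserving Ψ) (M : Matrix (κ × d) (κ × d) ℂ) :
    (blockwise Ψ M).trace = M.trace := by
  have h1 : (blockwise Ψ M).trace = ∑ k, (Ψ (block M k k)).trace := by
    show ∑ x : κ × e, Ψ (block M x.1 x.1) x.2 x.2 = ∑ k, ∑ i, Ψ (block M k k) i i
    rw [Fintype.sum_prod_type]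
  rw [h1, trace_blocks M]
  exact Finset.sum_congr rfl fun k _ => hΨ _

lemma blockwise_density {κ : Type*} [Fintype κ] [DecidableEq κ] {Ψ : Matrix d d ℂ → Matrix e e ℂ}
    (hΨ : IsChannel Ψ) {M : Matrix (κ × d) (κ × d) ℂ} (hM : IsDensity M) :
    IsDensity (blockwise Ψ M) :=
  ⟨psd_blockwise hΨ.2.1 hM.1, by rw [blockwise_trace hΨ.2.2]; exact hM.2⟩

lemma channel_psd {Ψ : Matrix d d ℂ → Matrix e e ℂ}
    (hΨ : IsChannel Ψ) {ρ : Matrix d d ℂ} (hρ : ρ.PosSemidef) : (Ψ ρ).PosSemidef := by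
  have h1 : (ρ.submatrix (fun x : Unit × d => x.2) (fun x => x.2)).PosSemidef := hρ.submatrix _
  have h2 := (psd_blockwise hΨ.2.1 h1).submatrix (fun i : e => ((), i))
  exact h2

lemma channel_density {Ψ : Matrix d d ℂ → Matrix e e ℂ}
    (hΨ : IsChannel Ψ) {ρ : Matrix d d ℂ} (hρ : IsDensity ρ) : IsDensity (Ψ ρ) :=
  ⟨channel_psd hΨ hρ.1, by rw [hΨ.2.2]; exact hρ.2⟩

lemma block_blockwise {κ : Type*} (Ψ : Matrix d d ℂ → Matrix e e ℂ)
    (M : Matrix (κ × d) (κ × d) ℂ) (s t : κ) : block (blockwise Ψ M) s t = Ψ (block M s t) := rfl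

lemma block_psd {κ : Type*} {M : Matrix (κ × d) (κ × d) ℂ} (hM : M.PosSemidef) (s : κ) :
    (block M s s).PosSemidef := hM.submatrix (fun i => (s, i))

lemma tensor_density {γ ν : ℝ} (hγ : γ ∈ Set.Icc (0:ℝ) 1) (hν : ν ∈ Set.Icc (0:ℝ) 1)
    {Ψ : Matrix d d ℂ → Matrix e e ℂ}
    (hΨ : IsChannel Ψ) {M : Matrix (Bool × d) (Bool × d) ℂ} (hM : IsDensity M) :
    IsDensity (qubitTensor (gadMap γ ν) Ψ M) := by
  rw [qubitTensor_eq]
  exact gadT_density hγ hν (blockwise_density hΨ hM)

/-- entropy of the image of a block -/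
lemma vn_block [Nonempty d] {Ψ : Matrix d d ℂ → Matrix e e ℂ} (hΨ : IsChannel Ψ)
    {A : Matrix d d ℂ} (hA : A.PosSemidef) :
    vnEntropy (Ψ A) = A.trace.re * vnEntropy (Ψ (nrm A)) + negMulLog A.trace.re := by
  have h1 := channel_density hΨ (nrm_density hA)
  have h2 := vn_smul h1.1.1 A.trace.re
  rw [h1.2, Complex.one_re, mul_one] at h2
  rw [← h2, ← hΨ.1.map_smul, ← nrm_eq hA]

lemma pex_add {M : Matrix (Bool × d) (Bool × d) ℂ} (hM : IsDensity M) :
    (block M false false).trace.re = 1 - pex M := by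
  have h := trace_blocks M
  rw [hM.2, Fintype.sum_bool] at h
  have h2 := congrArg Complex.re h
  simp only [Complex.one_re, Complex.add_re] at h2
  unfold pex
  linarith

lemma pex_mem {M : Matrix (Bool × d) (Bool × d) ℂ} (hM : IsDensity M) :
    pex M ∈ Set.Icc (0:ℝ) 1 := by
  have h1 := (psd_trace (block_psd hM.1 true)).1
  have h2 := (psd_trace (block_psd hM.1 false)).1
  rw [pex_add hM] at h2
  exact ⟨h1, by linarith⟩

end General

section Main
variable {d e : Type} [Fintype d] [DecidableEq d] [Fintype e] [DecidableEq e]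

lemma key_channel [Nonempty d] (hK : Key) {γ ν : ℝ} (hγ : γ ∈ Set.Icc (0:ℝ) 1)
    (hν : ν ∈ Set.Icc (0:ℝ) 1) {Ψ : Matrix d d ℂ → Matrix e e ℂ}
    (hΨ : IsChannel Ψ) {M : Matrix (Bool × d) (Bool × d) ℂ} (hM : IsDensity M) :
    FF γ ν (pex M) + (1 - pex M) * vnEntropy (Ψ (nrm (block M false false))) +
      pex M * vnEntropy (Ψ (nrm (block M true true))) ≤
      vnEntropy (qubitTensor (gadMap γ ν) Ψ M) := by
  have h := hK γ ν hγ hν e (blockwise Ψ M) (blockwise_density hΨ hM)
  rw [block_blockwise, block_blockwise, vn_block hΨ (block_psd hM.1 false),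
    vn_block hΨ (block_psd hM.1 true), pex_add hM, ← qubitTensor_eq] at h
  have hp : pex (blockwise Ψ M) = pex M := by
    unfold pex
    rw [block_blockwise, hΨ.2.2]
  rw [hp] at h
  have hp' : (block M true true).trace.re = pex M := rfl
  rw [hp'] at h
  linarith

/-- averages of densities -/
lemma ensemble_density {d : Type*} [Fintype d] {m : ℕ} {q : Fin m → ℝ}
    {ρ : Fin m → Matrix d d ℂ} (h : IsEnsemble q ρ) :
    IsDensity (∑ a, (q a : ℂ) • ρ a) := by
  obtain ⟨h0, h1, h2⟩ := h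
  constructor
  · apply posSemidef_sum
    intro a _
    exact (h2 a).1.smul (Complex.zero_le_real.2 (h0 a))
  · rw [trace_sum]
    have : ∀ a, ((q a : ℂ) • ρ a).trace = (q a : ℂ) := by
      intro a
      rw [trace_smul, (h2 a).2]; simp
    simp only [this]
    rw [← Complex.ofReal_sum, h1]; simp

/-- Lemma C -/
lemma lemC {γ ν p : ℝ} (hγ : γ ∈ Set.Icc (0:ℝ) 1) (hν : ν ∈ Set.Icc (0:ℝ) 1)
    (hp : p ∈ Set.Icc (0:ℝ) 1) :
    ∃ (q : Fin 2 → ℝ) (ρ : Fin 2 → Matrix Bool Bool ℂ), IsEnsemble q ρ ∧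
      holevoInfo (gadMap γ ν) q ρ = gadRate γ ν p := by
  refine ⟨![1/2, 1/2], ![psi p true, psi p false], ⟨?_, ?_, ?_⟩, ?_⟩
  · intro a; fin_cases a <;> norm_num
  · rw [Fin.sum_univ_two]; norm_num
  · intro a; fin_cases a
    · exact psi_density hp true
    · exact psi_density hp false
  · unfold holevoInfo
    rw [Fin.sum_univ_two, Fin.sum_univ_two]
    simp only [cons_val_zero, cons_val_one]
    rw [vn_gad_psi hγ hν hp, vn_gad_psi hγ hν hp]
    have h1 : (((1/2 : ℝ)) : ℂ) • gadMap γ ν (psi p true) + (((1/2 : ℝ)) : ℂ) • gadMap γ ν (psi p false)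
        = diagonal (fun s : Bool => ((if s then (1 - γ) * p + γ * ν else
            1 - ((1 - γ) * p + γ * ν) : ℝ) : ℂ)) := by
      ext s t
      rw [Matrix.add_apply, Matrix.smul_apply, Matrix.smul_apply]
      cases s <;> cases t <;> simp [gadMap, psi] <;> ring
    rw [h1, vn_diagonal, Fintype.sum_bool]
    simp only [if_true]
    unfold gadRate FF
    rw [Real.binEntropy_eq_negMulLog_add_negMulLog_one_sub ((1 - γ) * p + γ * ν)]
    simp
    ring

end Main

end Crest.Agent.H24Gad
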