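import Crest.Agent.H24GadB

set_option autoImplicit false
set_option linter.unusedSectionVars false

namespace Crest.Agent.H24Gad

open Crest.Quantum Crest.MathPhysics.AmpDamp Matrix Real Crest.Agent.H29 Crest.Agent.H24ProdEnt
open scoped ComplexOrder Kronecker

section Upper
variable {d e : Type*} [Fintype d] [DecidableEq d] [Fintype e] [DecidableEq e]

lemma pt_psd {X : Matrix (Bool × e) (Bool × e) ℂ} (hX : X.PosSemidef) : (pt X).PosSemidef := by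
  have h1 : pt X = ∑ i, X.submatrix (fun s => (s, i)) (fun s => (s, i)) := by
    ext s t
    rw [Matrix.sum_apply]
    rfl
  rw [h1]
  exact posSemidef_sum _ fun i _ => hX.submatrix _

lemma pt_sum {m : ℕ} (q : Fin m → ℂ) (X : Fin m → Matrix (Bool × e) (Bool × e) ℂ) :
    pt (∑ a, q a • X a) = ∑ a, q a • pt (X a) := by
  ext s t
  show ∑ i, (∑ a, q a • X a) (s, i) (t, i) = (∑ a, q a • pt (X a)) s t
  simp only [Matrix.sum_apply, Matrix.smul_apply, smul_eq_mul]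
  rw [Finset.sum_comm]
  refine Finset.sum_congr rfl fun a _ => ?_
  rw [← Finset.mul_sum]
  rfl

lemma pt'_sum {m : ℕ} (q : Fin m → ℂ) (X : Fin m → Matrix (Bool × e) (Bool × e) ℂ) :
    pt' (∑ a, q a • X a) = ∑ a, q a • pt' (X a) := by
  ext i j
  show ∑ s, (∑ a, q a • X a) (s, i) (s, j) = (∑ a, q a • pt' (X a)) i j
  simp only [Matrix.sum_apply, Matrix.smul_apply, smul_eq_mul]
  rw [Finset.sum_comm]
  refine Finset.sum_congr rfl fun a _ => ?_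
  rw [← Finset.mul_sum]
  rfl

lemma pt_blockwise_diag {Ψ : Matrix d d ℂ → Matrix e e ℂ} (hΨ : IsTracePreserving Ψ)
    (M : Matrix (Bool × d) (Bool × d) ℂ) (s : Bool) :
    pt (blockwise Ψ M) s s = (block M s s).trace := by
  rw [← hΨ]
  rfl

lemma pt_tensor_tt (γ ν : ℝ) {Ψ : Matrix d d ℂ → Matrix e e ℂ} (hΨ : IsTracePreserving Ψ)
    {M : Matrix (Bool × d) (Bool × d) ℂ} (hM : IsDensity M) :
    pt (qubitTensor (gadMap γ ν) Ψ M) true true = (((1 - γ) * pex M + γ * ν : ℝ) : ℂ) := by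
  have h1 : (block M true true).trace = (pex M : ℂ) := (psd_trace (block_psd hM.1 true)).2
  have h0 : (block M false false).trace = ((1 - pex M : ℝ) : ℂ) := by
    rw [← pex_add hM]; exact (psd_trace (block_psd hM.1 false)).2
  rw [qubitTensor_eq, gadT_pt]
  show ((γ * ν : ℝ) : ℂ) * pt (blockwise Ψ M) false false +
    ((1 - γ + γ * ν : ℝ) : ℂ) * pt (blockwise Ψ M) true true = _
  rw [pt_blockwise_diag hΨ, pt_blockwise_diag hΨ, h1, h0]
  push_cast; ring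

lemma pt_tensor_ff (γ ν : ℝ) {Ψ : Matrix d d ℂ → Matrix e e ℂ} (hΨ : IsTracePreserving Ψ)
    {M : Matrix (Bool × d) (Bool × d) ℂ} (hM : IsDensity M) :
    pt (qubitTensor (gadMap γ ν) Ψ M) false false =
      ((1 - ((1 - γ) * pex M + γ * ν) : ℝ) : ℂ) := by
  have h1 : (block M true true).trace = (pex M : ℂ) := (psd_trace (block_psd hM.1 true)).2
  have h0 : (block M false false).trace = ((1 - pex M : ℝ) : ℂ) := by
    rw [← pex_add hM]; exact (psd_trace (block_psd hM.1 false)).2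
  rw [qubitTensor_eq, gadT_pt]
  show ((1 - γ * ν : ℝ) : ℂ) * pt (blockwise Ψ M) false false +
    ((γ * (1 - ν) : ℝ) : ℂ) * pt (blockwise Ψ M) true true = _
  rw [pt_blockwise_diag hΨ, pt_blockwise_diag hΨ, h1, h0]
  push_cast; ring

lemma pt'_tensor (γ ν : ℝ) [Nonempty d] {Ψ : Matrix d d ℂ → Matrix e e ℂ} (hΨ : IsChannel Ψ)
    {M : Matrix (Bool × d) (Bool × d) ℂ} (hM : IsDensity M) :
    pt' (qubitTensor (gadMap γ ν) Ψ M) =
      ((1 - pex M : ℝ) : ℂ) • Ψ (nrm (block M false false)) +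
        (pex M : ℂ) • Ψ (nrm (block M true true)) := by
  have h0 : Ψ (block M false false) = ((1 - pex M : ℝ) : ℂ) • Ψ (nrm (block M false false)) := by
    rw [← hΨ.1.map_smul, ← pex_add hM, ← nrm_eq (block_psd hM.1 false)]
  have h1 : Ψ (block M true true) = (pex M : ℂ) • Ψ (nrm (block M true true)) := by
    rw [← hΨ.1.map_smul]
    conv_lhs => rw [nrm_eq (block_psd hM.1 true)]
    rfl
  rw [← h0, ← h1, qubitTensor_eq, gadT_pt']
  ext i j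
  show ∑ s, Ψ (block M s s) i j = Ψ (block M false false) i j + Ψ (block M true true) i j
  rw [Fintype.sum_bool, add_comm]

end Upper

section Main
variable {d e : Type} [Fintype d] [DecidableEq d] [Fintype e] [DecidableEq e]

/-- Lemma A -/
theorem lemA [Nonempty d] (hK : Key) {γ ν : ℝ} (hγ : γ ∈ Set.Icc (0:ℝ) 1)
    (hν : ν ∈ Set.Icc (0:ℝ) 1) {Ψ : Matrix d d ℂ → Matrix e e ℂ} (hΨ : IsChannel Ψ)
    {m : ℕ} {q : Fin m → ℝ} {ρ : Fin m → Matrix (Bool × d) (Bool × d) ℂ} (h : IsEnsemble q ρ) :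
    ∃ p ∈ Set.Icc (0:ℝ) 1, ∃ (q₂ : Fin (m + m) → ℝ) (ρ₂ : Fin (m + m) → Matrix d d ℂ),
      IsEnsemble q₂ ρ₂ ∧ holevoInfo (qubitTensor (gadMap γ ν) Ψ) q ρ ≤
        gadRate γ ν p + holevoInfo Ψ q₂ ρ₂ := by
  set T := qubitTensor (gadMap γ ν) Ψ with hT
  set P : Fin m → ℝ := fun a => pex (ρ a) with hP
  have hPm : ∀ a, P a ∈ Set.Icc (0:ℝ) 1 := fun a => pex_mem (h.2.2 a)
  set σ0 : Fin m → Matrix d d ℂ := fun a => nrm (block (ρ a) false false) with hσ0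
  set σ1 : Fin m → Matrix d d ℂ := fun a => nrm (block (ρ a) true true) with hσ1
  have hd0 : ∀ a, IsDensity (σ0 a) := fun a => nrm_density (block_psd (h.2.2 a).1 false)
  have hd1 : ∀ a, IsDensity (σ1 a) := fun a => nrm_density (block_psd (h.2.2 a).1 true)
  set p : ℝ := ∑ a, q a * P a with hp
  have hp1 : p ∈ Set.Icc (0:ℝ) 1 := by
    constructor
    · exact Finset.sum_nonneg fun a _ => mul_nonneg (h.1 a) (hPm a).1
    · rw [hp, ← h.2.1]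
      exact Finset.sum_le_sum fun a _ => mul_le_of_le_one_right (h.1 a) (hPm a).2
  set q₂ : Fin (m + m) → ℝ := Fin.append (fun a => q a * (1 - P a)) (fun a => q a * P a) with hq₂
  set ρ₂ : Fin (m + m) → Matrix d d ℂ := Fin.append σ0 σ1 with hρ₂
  have hE2 : IsEnsemble q₂ ρ₂ := by
    refine ⟨?_, ?_, ?_⟩
    · intro b
      refine Fin.addCases (fun a => ?_) (fun a => ?_) b
      · rw [hq₂, Fin.append_left]; exact mul_nonneg (h.1 a) (by linarith [(hPm a).2])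
      · rw [hq₂, Fin.append_right]; exact mul_nonneg (h.1 a) (hPm a).1
    · rw [Fin.sum_univ_add, ← Finset.sum_add_distrib]
      rw [← h.2.1]
      refine Finset.sum_congr rfl fun a _ => ?_
      rw [hq₂, Fin.append_left, Fin.append_right]; ring
    · intro b
      refine Fin.addCases (fun a => ?_) (fun a => ?_) b
      · rw [hρ₂, Fin.append_left]; exact hd0 a
      · rw [hρ₂, Fin.append_right]; exact hd1 a
  refine ⟨p, hp1, q₂, ρ₂, hE2, ?_⟩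
  have hEout : IsEnsemble q (fun a => T (ρ a)) :=
    ⟨h.1, h.2.1, fun a => tensor_density hγ hν hΨ (h.2.2 a)⟩
  set R := ∑ a, (q a : ℂ) • T (ρ a) with hR
  have hRd : IsDensity R := ensemble_density hEout
  -- subadditivity
  have h1 := subAdd hRd
  -- qubit marginal
  have h2 : vnEntropy (pt R) ≤ Real.binEntropy ((1 - γ) * p + γ * ν) := by
    refine (peierls (pt_psd hRd.1)).trans (le_of_eq ?_)
    have ett : (pt R true true).re = (1 - γ) * p + γ * ν := by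
      rw [hR, pt_sum, Matrix.sum_apply]
      simp only [Matrix.smul_apply, smul_eq_mul]
      have : ∀ a, (q a : ℂ) * pt (T (ρ a)) true true =
          ((q a * ((1 - γ) * P a + γ * ν) : ℝ) : ℂ) := by
        intro a
        rw [hT, pt_tensor_tt γ ν hΨ.2.2 (h.2.2 a)]
        push_cast; rfl
      simp only [this]
      rw [← Complex.ofReal_sum, Complex.ofReal_re]
      have : ∀ a, q a * ((1 - γ) * P a + γ * ν) = (1 - γ) * (q a * P a) + γ * ν * q a := by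
        intro a; ring
      simp only [this]
      rw [Finset.sum_add_distrib, ← Finset.mul_sum, ← Finset.mul_sum, h.2.1]
      ring
    have eff : (pt R false false).re = 1 - ((1 - γ) * p + γ * ν) := by
      rw [hR, pt_sum, Matrix.sum_apply]
      simp only [Matrix.smul_apply, smul_eq_mul]
      have : ∀ a, (q a : ℂ) * pt (T (ρ a)) false false =
          ((q a * (1 - ((1 - γ) * P a + γ * ν)) : ℝ) : ℂ) := by
        intro a
        rw [hT, pt_tensor_ff γ ν hΨ.2.2 (h.2.2 a)]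
        push_cast; rfl
      simp only [this]
      rw [← Complex.ofReal_sum, Complex.ofReal_re]
      have : ∀ a, q a * (1 - ((1 - γ) * P a + γ * ν)) =
          (1 - γ * ν) * q a - (1 - γ) * (q a * P a) := by
        intro a; ring
      simp only [this]
      rw [Finset.sum_sub_distrib, ← Finset.mul_sum, ← Finset.mul_sum, h.2.1]
      ring
    rw [Fintype.sum_bool, ett, eff, Real.binEntropy_eq_negMulLog_add_negMulLog_one_sub]
  -- other marginal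
  have h3 : pt' R = ∑ b, (q₂ b : ℂ) • Ψ (ρ₂ b) := by
    rw [hR, pt'_sum, Fin.sum_univ_add, ← Finset.sum_add_distrib]
    refine Finset.sum_congr rfl fun a _ => ?_
    rw [hT, pt'_tensor γ ν hΨ (h.2.2 a), hq₂, hρ₂, Fin.append_left, Fin.append_right,
      Fin.append_left, Fin.append_right, smul_add, smul_smul, smul_smul]
    push_cast; rfl
  -- key
  have h4 : ∑ a, q a * (FF γ ν (P a) + (1 - P a) * vnEntropy (Ψ (σ0 a)) +
      P a * vnEntropy (Ψ (σ1 a))) ≤ ∑ a, q a * vnEntropy (T (ρ a)) :=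
    Finset.sum_le_sum fun a _ =>
      mul_le_mul_of_nonneg_left (key_channel hK hγ hν hΨ (h.2.2 a)) (h.1 a)
  have h5 : FF γ ν p ≤ ∑ a, q a * FF γ ν (P a) := by
    have := (H24FConv.main γ ν hγ hν).map_sum_le (t := Finset.univ) (w := q) (p := P)
      (fun a _ => h.1 a) h.2.1 (fun a _ => hPm a)
    simpa only [smul_eq_mul] using this
  have h6 : ∑ b, q₂ b * vnEntropy (Ψ (ρ₂ b)) =
      ∑ a, q a * ((1 - P a) * vnEntropy (Ψ (σ0 a)) + P a * vnEntropy (Ψ (σ1 a))) := by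
    rw [Fin.sum_univ_add, ← Finset.sum_add_distrib]
    refine Finset.sum_congr rfl fun a _ => ?_
    rw [hq₂, hρ₂, Fin.append_left, Fin.append_right, Fin.append_left, Fin.append_right]
    ring
  have h7 : ∑ a, q a * (FF γ ν (P a) + (1 - P a) * vnEntropy (Ψ (σ0 a)) +
      P a * vnEntropy (Ψ (σ1 a))) = ∑ a, q a * FF γ ν (P a) +
      ∑ a, q a * ((1 - P a) * vnEntropy (Ψ (σ0 a)) + P a * vnEntropy (Ψ (σ1 a))) := by
    rw [← Finset.sum_add_distrib]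
    exact Finset.sum_congr rfl fun a _ => by ring
  have h8 : gadRate γ ν p = Real.binEntropy ((1 - γ) * p + γ * ν) - FF γ ν p := rfl
  show vnEntropy R - ∑ a, q a * vnEntropy (T (ρ a)) ≤
    gadRate γ ν p + (vnEntropy (∑ b, (q₂ b : ℂ) • Ψ (ρ₂ b)) - ∑ b, q₂ b * vnEntropy (Ψ (ρ₂ b)))
  rw [← h3, h6, h8]
  rw [h7] at h4
  linarith

/-- product matrices -/
noncomputable def pr (A : Matrix Bool Bool ℂ) (B : Matrix d d ℂ) :
    Matrix (Bool × d) (Bool × d) ℂ :=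
  Matrix.of fun (x y : Bool × d) => A x.1 y.1 * B x.2 y.2

lemma pr_density {A : Matrix Bool Bool ℂ} {B : Matrix d d ℂ} (hA : IsDensity A)
    (hB : IsDensity B) : IsDensity (pr A B) := by
  have h1 : pr A B = A ⊗ₖ B := rfl
  rw [h1]
  exact ⟨hA.1.kronecker hB.1, by rw [trace_kronecker, hA.2, hB.2, one_mul]⟩

lemma tensor_pr (γ ν : ℝ) {Ψ : Matrix d d ℂ → Matrix e e ℂ} (hΨ : IsLinearMap ℂ Ψ)
    (A : Matrix Bool Bool ℂ) (B : Matrix d d ℂ) :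
    qubitTensor (gadMap γ ν) Ψ (pr A B) = pr (gadMap γ ν A) (Ψ B) := by
  have h1 : blockwise Ψ (pr A B) = pr A (Ψ B) := by
    ext x y
    show Ψ (block (pr A B) x.1 y.1) x.2 y.2 = A x.1 y.1 * Ψ B x.2 y.2
    have : block (pr A B) x.1 y.1 = A x.1 y.1 • B := rfl
    rw [this, hΨ.map_smul]
    rfl
  rw [qubitTensor_eq, h1]
  ext x y
  rw [gadT_apply]
  show _ = gadMap γ ν A x.1 y.1 * Ψ B x.2 y.2
  rw [gadMap_apply, Finset.sum_mul]
  refine Finset.sum_congr rfl fun s' _ => ?_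
  rw [Finset.sum_mul]
  refine Finset.sum_congr rfl fun t' _ => ?_
  show _ * (A s' t' * Ψ B x.2 y.2) = _
  ring

lemma vn_pr {A : Matrix Bool Bool ℂ} {B : Matrix d d ℂ} (hA : IsDensity A)
    (hB : IsDensity B) : vnEntropy (pr A B) = vnEntropy A + vnEntropy B := prodEnt hA hB

/-- Lemma B -/
theorem lemB {γ ν : ℝ} (hγ : γ ∈ Set.Icc (0:ℝ) 1)
    (hν : ν ∈ Set.Icc (0:ℝ) 1) {Ψ : Matrix d d ℂ → Matrix e e ℂ} (hΨ : IsChannel Ψ)
    {m₁ m₂ : ℕ} {q₁ : Fin m₁ → ℝ} {ρ₁ : Fin m₁ → Matrix Bool Bool ℂ}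
    {q₂ : Fin m₂ → ℝ} {ρ₂ : Fin m₂ → Matrix d d ℂ} (h₁ : IsEnsemble q₁ ρ₁)
    (h₂ : IsEnsemble q₂ ρ₂) :
    ∃ (q : Fin (m₁ * m₂) → ℝ) (ρ : Fin (m₁ * m₂) → Matrix (Bool × d) (Bool × d) ℂ),
      IsEnsemble q ρ ∧ holevoInfo (qubitTensor (gadMap γ ν) Ψ) q ρ =
        holevoInfo (gadMap γ ν) q₁ ρ₁ + holevoInfo Ψ q₂ ρ₂ := by
  set f : Fin (m₁ * m₂) ≃ Fin m₁ × Fin m₂ := finProdFinEquiv.symm with hf
  have hsum : ∀ {M : Type} [AddCommMonoid M] (F : Fin m₁ → Fin m₂ → M),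
      ∑ c, F (f c).1 (f c).2 = ∑ a, ∑ b, F a b := by
    intro M _ F
    rw [f.sum_comp (fun x => F x.1 x.2), Fintype.sum_prod_type]
  refine ⟨fun c => q₁ (f c).1 * q₂ (f c).2, fun c => pr (ρ₁ (f c).1) (ρ₂ (f c).2),
    ⟨fun c => mul_nonneg (h₁.1 _) (h₂.1 _), ?_, fun c => pr_density (h₁.2.2 _) (h₂.2.2 _)⟩, ?_⟩
  · rw [hsum (fun a b => q₁ a * q₂ b), ← Finset.sum_mul_sum, h₁.2.1, h₂.2.1, one_mul]
  · have g₁ : IsEnsemble q₁ (fun a => gadMap γ ν (ρ₁ a)) :=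
      ⟨h₁.1, h₁.2.1, fun a => gadMap_density hγ hν (h₁.2.2 a)⟩
    have g₂ : IsEnsemble q₂ (fun a => Ψ (ρ₂ a)) :=
      ⟨h₂.1, h₂.2.1, fun a => channel_density hΨ (h₂.2.2 a)⟩
    unfold holevoInfo
    have e1 : ∑ c, ((q₁ (f c).1 * q₂ (f c).2 : ℝ) : ℂ) •
        qubitTensor (gadMap γ ν) Ψ (pr (ρ₁ (f c).1) (ρ₂ (f c).2)) =
        pr (∑ a, (q₁ a : ℂ) • gadMap γ ν (ρ₁ a)) (∑ b, (q₂ b : ℂ) • Ψ (ρ₂ b)) := by
      rw [hsum (fun a b => ((q₁ a * q₂ b : ℝ) : ℂ) •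
        qubitTensor (gadMap γ ν) Ψ (pr (ρ₁ a) (ρ₂ b)))]
      ext x y
      show _ = (∑ a, (q₁ a : ℂ) • gadMap γ ν (ρ₁ a)) x.1 y.1 *
        (∑ b, (q₂ b : ℂ) • Ψ (ρ₂ b)) x.2 y.2
      simp only [Matrix.sum_apply, Matrix.smul_apply, smul_eq_mul]
      rw [Finset.sum_mul_sum]
      refine Finset.sum_congr rfl fun a _ => Finset.sum_congr rfl fun b _ => ?_
      rw [tensor_pr γ ν hΨ.1]
      show ((q₁ a * q₂ b : ℝ) : ℂ) * (gadMap γ ν (ρ₁ a) x.1 y.1 * Ψ (ρ₂ b) x.2 y.2) = _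
      push_cast; ring
    have e2 : ∑ c, q₁ (f c).1 * q₂ (f c).2 *
        vnEntropy (qubitTensor (gadMap γ ν) Ψ (pr (ρ₁ (f c).1) (ρ₂ (f c).2))) =
        ∑ a, q₁ a * vnEntropy (gadMap γ ν (ρ₁ a)) + ∑ b, q₂ b * vnEntropy (Ψ (ρ₂ b)) := by
      rw [hsum (fun a b => q₁ a * q₂ b *
        vnEntropy (qubitTensor (gadMap γ ν) Ψ (pr (ρ₁ a) (ρ₂ b))))]
      have e3 : ∀ a b, q₁ a * q₂ b *
          vnEntropy (qubitTensor (gadMap γ ν) Ψ (pr (ρ₁ a) (ρ₂ b))) =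
          (q₁ a * vnEntropy (gadMap γ ν (ρ₁ a))) * q₂ b +
            q₁ a * (q₂ b * vnEntropy (Ψ (ρ₂ b))) := by
        intro a b
        rw [tensor_pr γ ν hΨ.1, vn_pr (g₁.2.2 a) (g₂.2.2 b)]
        ring
      simp only [e3, Finset.sum_add_distrib]
      rw [← Finset.sum_mul_sum, ← Finset.sum_mul_sum, h₁.2.1, h₂.2.1, one_mul, mul_one]
    rw [e1, e2, vn_pr (ensemble_density g₁) (ensemble_density g₂)]
    ring

/-- S0535 from `Key` -/
theorem s0535 (hK : Key) (γ ν : ℝ)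
    (hγ : γ ∈ Set.Icc (0 : ℝ) 1) (hν : ν ∈ Set.Icc (0 : ℝ) 1)
    (d e : Type) [Fintype d] [Fintype e] [DecidableEq d] [DecidableEq e] [Nonempty d] [Nonempty e]
    (Ψ : Matrix d d ℂ → Matrix e e ℂ) (hΨ : IsChannel Ψ) :
    (∀ (m : ℕ) (q : Fin m → ℝ) (ρ : Fin m → Matrix (Bool × d) (Bool × d) ℂ), IsEnsemble q ρ →
      ∀ ε > (0 : ℝ), ∃ (m₁ : ℕ) (q₁ : Fin m₁ → ℝ) (ρ₁ : Fin m₁ → Matrix Bool Bool ℂ)
        (m₂ : ℕ) (q₂ : Fin m₂ → ℝ) (ρ₂ : Fin m₂ → Matrix d d ℂ),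
        IsEnsemble q₁ ρ₁ ∧ IsEnsemble q₂ ρ₂ ∧
          holevoInfo (qubitTensor (gadMap γ ν) Ψ) q ρ ≤
            holevoInfo (gadMap γ ν) q₁ ρ₁ + holevoInfo Ψ q₂ ρ₂ + ε) ∧
    (∀ (m₁ : ℕ) (q₁ : Fin m₁ → ℝ) (ρ₁ : Fin m₁ → Matrix Bool Bool ℂ)
      (m₂ : ℕ) (q₂ : Fin m₂ → ℝ) (ρ₂ : Fin m₂ → Matrix d d ℂ), IsEnsemble q₁ ρ₁ → IsEnsemble q₂ ρ₂ →
      ∃ (m : ℕ) (q : Fin m → ℝ) (ρ : Fin m → Matrix (Bool × d) (Bool × d) ℂ), IsEnsemble q ρ ∧
        holevoInfo (gadMap γ ν) q₁ ρ₁ + holevoInfo Ψ q₂ ρ₂ ≤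
          holevoInfo (qubitTensor (gadMap γ ν) Ψ) q ρ) ∧
    (∀ ρ : Matrix (Bool × d) (Bool × d) ℂ, IsDensity ρ → ∀ ε > (0 : ℝ),
      ∃ (ρ₁ : Matrix Bool Bool ℂ) (ρ₂ : Matrix d d ℂ), IsDensity ρ₁ ∧ IsDensity ρ₂ ∧
        vnEntropy (gadMap γ ν ρ₁) + vnEntropy (Ψ ρ₂) ≤ vnEntropy (qubitTensor (gadMap γ ν) Ψ ρ) + ε) ∧
    (∀ (ρ₁ : Matrix Bool Bool ℂ) (ρ₂ : Matrix d d ℂ), IsDensity ρ₁ → IsDensity ρ₂ →
      ∃ ρ : Matrix (Bool × d) (Bool × d) ℂ, IsDensity ρ ∧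
        vnEntropy (qubitTensor (gadMap γ ν) Ψ ρ) ≤ vnEntropy (gadMap γ ν ρ₁) + vnEntropy (Ψ ρ₂)) := by
  refine ⟨?_, ?_, ?_, ?_⟩
  · intro m q ρ h ε hε
    obtain ⟨p, hp, q₂, ρ₂, h2, hle⟩ := lemA hK hγ hν hΨ h
    obtain ⟨q₁, ρ₁, h1, he⟩ := lemC hγ hν hp
    refine ⟨2, q₁, ρ₁, m + m, q₂, ρ₂, h1, h2, ?_⟩
    rw [he]; linarith
  · intro m₁ q₁ ρ₁ m₂ q₂ ρ₂ h1 h2
    obtain ⟨q, ρ, h, he⟩ := lemB hγ hν hΨ h1 h2
    exact ⟨m₁ * m₂, q, ρ, h, he.ge⟩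
  · intro ρ hρ ε hε
    have hk := key_channel hK hγ hν hΨ hρ
    have hp := pex_mem hρ
    set x := vnEntropy (Ψ (nrm (block ρ false false))) with hx
    set y := vnEntropy (Ψ (nrm (block ρ true true))) with hy
    rcases le_total x y with hxy | hxy
    · refine ⟨psi (pex ρ) true, nrm (block ρ false false), psi_density hp true,
        nrm_density (block_psd hρ.1 false), ?_⟩
      rw [vn_gad_psi hγ hν hp, ← hx]
      nlinarith [mul_le_mul_of_nonneg_left hxy hp.1]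
    · refine ⟨psi (pex ρ) true, nrm (block ρ true true), psi_density hp true,
        nrm_density (block_psd hρ.1 true), ?_⟩
      rw [vn_gad_psi hγ hν hp, ← hy]
      nlinarith [mul_le_mul_of_nonneg_left hxy (sub_nonneg.2 hp.2)]
  · intro ρ₁ ρ₂ h1 h2
    refine ⟨pr ρ₁ ρ₂, pr_density h1 h2, ?_⟩
    rw [tensor_pr γ ν hΨ.1, vn_pr (gadMap_density hγ hν h1) (channel_density hΨ h2)]

end Main

end Crest.Agent.H24Gad
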