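import Crest.Agent.H27QSpec

set_option autoImplicit false
set_option linter.unusedSectionVars false

open Crest.MathPhysics.Query MeasureTheory

namespace Crest.Agent.H24QLevel

open Crest.Agent.QG

/-- weight of a bit -/
noncomputable def pw (z : ℝ) (b : Bool) : ℝ := (1 + sg b * z) / 2

/-- the mean zero function -/
noncomputable def ph (z : ℝ) (b : Bool) : ℝ := (sg b - z) / (1 - z ^ 2)

lemma pw_sum (z : ℝ) : pw z false + pw z true = 1 := by
  simp [pw, sg]; ring

lemma pw_nonneg {z : ℝ} (hz : |z| ≤ 1 / 2) (b : Bool) : 0 ≤ pw z b := by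
  have := abs_le.1 hz
  cases b <;> simp [pw, sg] <;> linarith

lemma pwph (z : ℝ) : pw z false * ph z false + pw z true * ph z true = 0 := by
  simp only [pw, ph, sg]
  by_cases h : (1 - z ^ 2) = 0
  · simp [h]
  · field_simp
    simp
    ring

lemma pwph' {z : ℝ} (hz : |z| ≤ 1 / 2) (b : Bool) : pw z b * ph z b = sg b / 2 := by
  have h1 := abs_le.1 hz
  have h : (1 - z ^ 2) ≠ 0 := by nlinarith
  cases b <;> simp only [pw, ph, sg] <;> simp <;> field_simp <;> ring

lemma ph_abs {z : ℝ} (hz : |z| ≤ 1 / 2) (b : Bool) : |ph z b| ≤ 2 := by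
  have h1 := abs_le.1 hz
  have h : 0 < (1 - z ^ 2) := by nlinarith
  rw [ph, abs_div, abs_of_pos h, div_le_iff₀ h, abs_le]
  cases b <;> simp [sg] <;> constructor <;> nlinarith

section Step

lemma uv_le {u v : ℝ} (hu : 0 ≤ u) (hv : 0 ≤ v) (a b : ℕ) :
    u ^ a * v ^ b ≤ u ^ (a + b) + v ^ (a + b) := by
  rcases le_total u v with h | h
  · calc u ^ a * v ^ b ≤ v ^ a * v ^ b := by gcongr
      _ = v ^ (a + b) := (pow_add _ _ _).symm
      _ ≤ _ := by have := pow_nonneg hu (a + b); linarith
  · calc u ^ a * v ^ b ≤ u ^ a * u ^ b := by gcongr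
      _ = u ^ (a + b) := (pow_add _ _ _).symm
      _ ≤ _ := by have := pow_nonneg hv (a + b); linarith

/-- one step -/
lemma step {z : ℝ} (hz : |z| ≤ 1 / 2) (a c : ℝ) (q d : ℕ) (hq : 0 < q) (hd : 0 < d) :
    pw z false * (a + ph z false * c) ^ (2 * q) + pw z true * (a + ph z true * c) ^ (2 * q) ≤
      (1 + 4 ^ q / d) * a ^ (2 * q) + 16 ^ q * (d : ℝ) ^ q / d * c ^ (2 * q) := by
  obtain ⟨n, hn⟩ : ∃ n, 2 * q = n + 2 := ⟨2 * q - 2, by omega⟩
  have hd1 : (1 : ℝ) ≤ d := by exact_mod_cast hd
  have hd0 : (0 : ℝ) < d := by linarith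
  set u := |a| with hu
  set s := Real.sqrt d with hs
  have hs1 : 1 ≤ s := by rw [hs]; exact Real.one_le_sqrt.2 hd1
  have hs2 : s ^ 2 = d := Real.sq_sqrt hd0.le
  set v := 2 * |c| * s with hv
  have hu0 : 0 ≤ u := abs_nonneg _
  have hv0 : 0 ≤ v := by positivity
  -- expansion
  have key : ∀ b : Bool, (a + ph z b * c) ^ (2 * q) =
      (∑ m ∈ Finset.range (n + 1), (ph z b * c) ^ (m + 2) * a ^ (n + 2 - (m + 2)) *
        ((n + 2).choose (m + 2))) + (ph z b * c) * a ^ (n + 1) * (n + 2) + a ^ (n + 2) := by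
    intro b
    rw [hn, add_comm a, add_pow, Finset.sum_range_succ', Finset.sum_range_succ']
    simp
  have hterm : ∀ (b : Bool) (m : ℕ), m ∈ Finset.range (n + 1) →
      (ph z b * c) ^ (m + 2) * a ^ (n + 2 - (m + 2)) * ((n + 2).choose (m + 2)) ≤
        (u ^ (n + 2) + v ^ (n + 2)) / d * ((n + 2).choose (m + 2)) := by
    intro b m hm
    have hm' : m ≤ n := by simpa [Nat.lt_succ_iff] using hm
    refine mul_le_mul_of_nonneg_right ?_ (by positivity)
    refine (le_abs_self _).trans ?_
    rw [abs_mul, abs_pow, abs_pow, abs_mul, le_div_iff₀ hd0]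
    have h1 : |ph z b| * |c| ≤ 2 * |c| := by
      exact mul_le_mul_of_nonneg_right (ph_abs hz b) (abs_nonneg _)
    have h2 : (|ph z b| * |c|) ^ (m + 2) * d ≤ v ^ (m + 2) := by
      rw [hv, mul_pow (2 * |c|)]
      have : (d : ℝ) ≤ s ^ (m + 2) := by
        rw [← hs2]; exact pow_le_pow_right₀ hs1 (by omega)
      gcongr
    calc (|ph z b| * |c|) ^ (m + 2) * |a| ^ (n + 2 - (m + 2)) * d
        = |a| ^ (n + 2 - (m + 2)) * ((|ph z b| * |c|) ^ (m + 2) * d) := by ring
      _ ≤ |a| ^ (n + 2 - (m + 2)) * v ^ (m + 2) := by gcongr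
      _ ≤ u ^ (n + 2 - (m + 2) + (m + 2)) + v ^ (n + 2 - (m + 2) + (m + 2)) := uv_le hu0 hv0 _ _
      _ = _ := by
        have : n + 2 - (m + 2) + (m + 2) = n + 2 := by omega
        rw [this]
  have hbin : ∑ m ∈ Finset.range (n + 1), (((n + 2).choose (m + 2) : ℕ) : ℝ) ≤ 4 ^ q := by
    have h := Nat.sum_range_choose (n + 2)
    rw [Finset.sum_range_succ', Finset.sum_range_succ'] at h
    have h' : ∑ m ∈ Finset.range (n + 1), ((n + 2).choose (m + 2)) ≤ 4 ^ q := by
      calc _ ≤ 2 ^ (n + 2) := by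
              rw [← h]
              exact (Nat.le_add_right _ _).trans (Nat.le_add_right _ _)
        _ = 4 ^ q := by rw [← hn, pow_mul]; norm_num
    exact_mod_cast h'
  have hb : ∀ b : Bool, (∑ m ∈ Finset.range (n + 1), (ph z b * c) ^ (m + 2) *
      a ^ (n + 2 - (m + 2)) * ((n + 2).choose (m + 2))) ≤
        (u ^ (n + 2) + v ^ (n + 2)) / d * 4 ^ q := by
    intro b
    calc _ ≤ ∑ m ∈ Finset.range (n + 1),
          (u ^ (n + 2) + v ^ (n + 2)) / d * (((n + 2).choose (m + 2) : ℕ) : ℝ) :=
            Finset.sum_le_sum (hterm b)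
      _ = (u ^ (n + 2) + v ^ (n + 2)) / d *
          ∑ m ∈ Finset.range (n + 1), (((n + 2).choose (m + 2) : ℕ) : ℝ) := by
            rw [Finset.mul_sum]
      _ ≤ _ := by
            refine mul_le_mul_of_nonneg_left hbin ?_
            positivity
  rw [key false, key true]
  have hp0 := pw_nonneg hz false
  have hp1 := pw_nonneg hz true
  have hps := pw_sum z
  have hpp := pwph z
  have e1 := mul_le_mul_of_nonneg_left (hb false) hp0
  have e2 := mul_le_mul_of_nonneg_left (hb true) hp1
  have hu2 : u ^ (n + 2) = a ^ (2 * q) := by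
    rw [← hn, hu, pow_mul, pow_mul, sq_abs]
  have hv2 : v ^ (n + 2) = 4 ^ q * (d : ℝ) ^ q * c ^ (2 * q) := by
    rw [← hn, hv, pow_mul, pow_mul, mul_pow (2 * |c|), mul_pow 2, sq_abs, hs2, mul_pow, mul_pow]
    norm_num
    ring
  have h16 : (16 : ℝ) ^ q = 4 ^ q * 4 ^ q := by rw [← mul_pow]; norm_num
  have hfin : (u ^ (n + 2) + v ^ (n + 2)) / d * 4 ^ q + a ^ (n + 2) =
      (1 + 4 ^ q / d) * a ^ (2 * q) + 16 ^ q * (d : ℝ) ^ q / d * c ^ (2 * q) := by
    rw [hu2, hv2, ← hn, h16]; ring
  rw [← hfin]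
  set Sf := ∑ m ∈ Finset.range (n + 1), (ph z false * c) ^ (m + 2) *
      a ^ (n + 2 - (m + 2)) * ((n + 2).choose (m + 2) : ℝ)
  set St := ∑ m ∈ Finset.range (n + 1), (ph z true * c) ^ (m + 2) *
      a ^ (n + 2 - (m + 2)) * ((n + 2).choose (m + 2) : ℝ)
  set R := (u ^ (n + 2) + v ^ (n + 2)) / (d : ℝ) * 4 ^ q
  have e3 : pw z false * (Sf + ph z false * c * a ^ (n + 1) * (n + 2) + a ^ (n + 2)) +
      pw z true * (St + ph z true * c * a ^ (n + 1) * (n + 2) + a ^ (n + 2)) =
      pw z false * Sf + pw z true * St +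
        (pw z false * ph z false + pw z true * ph z true) * (c * a ^ (n + 1) * (n + 2)) +
        (pw z false + pw z true) * a ^ (n + 2) := by ring
  rw [e3, hpp, hps]
  have e4 : pw z false * R + pw z true * R = R := by rw [← add_mul, hps, one_mul]
  linarith

end Step


section Tree

variable {I : Type} [Fintype I] [DecidableEq I]

noncomputable def wt (z : I → ℝ) (h : I → Option Bool) (i : I) (b : Bool) : ℝ :=
  match h i with
  | none => pw (z i) b
  | some b' => if b = b' then 1 else 0

/-- conditional expectation -/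
noncomputable def CE (z : I → ℝ) (h : I → Option Bool) (G : (I → Bool) → ℝ) : ℝ :=
  ∑ y, (∏ i, wt z h i (y i)) * G y

noncomputable def psi (z : I → ℝ) (h : I → Option Bool) (i : I) : ℝ :=
  match h i with
  | none => 0
  | some b => ph (z i) b

noncomputable def EV (z : I → ℝ) (F : (I → Option Bool) → Bool → ℝ) :
    GT I → (I → Option Bool) → ℝ
  | GT.leaf a, h => F h a
  | GT.node i t0 t1, h =>
    match h i with
    | some b => if b then EV z F t1 h else EV z F t0 h
    | none => pw (z i) false * EV z F t0 (Function.update h i (some false)) +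
        pw (z i) true * EV z F t1 (Function.update h i (some true))

lemma EV_some {z : I → ℝ} {F : (I → Option Bool) → Bool → ℝ} {i : I} {t0 t1 : GT I}
    {h : I → Option Bool} {b : Bool} (hb : h i = some b) :
    EV z F (GT.node i t0 t1) h = if b then EV z F t1 h else EV z F t0 h := by
  rw [EV]; simp [hb]

lemma EV_none {z : I → ℝ} {F : (I → Option Bool) → Bool → ℝ} {i : I} {t0 t1 : GT I}
    {h : I → Option Bool} (hb : h i = none) :
    EV z F (GT.node i t0 t1) h = pw (z i) false * EV z F t0 (Function.update h i (some false)) +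
        pw (z i) true * EV z F t1 (Function.update h i (some true)) := by
  rw [EV]; simp [hb]

lemma CE_split {z : I → ℝ} {h : I → Option Bool} {i : I} (hi : h i = none)
    (G : (I → Bool) → ℝ) :
    CE z h G = pw (z i) false * CE z (Function.update h i (some false)) G +
      pw (z i) true * CE z (Function.update h i (some true)) G := by
  simp only [CE, Finset.mul_sum, ← Finset.sum_add_distrib]
  refine Finset.sum_congr rfl fun y _ => ?_
  have e : ∀ h' : I → Option Bool, (∏ j, wt z h' j (y j)) =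
      wt z h' i (y i) * ∏ j ∈ Finset.univ.erase i, wt z h' j (y j) := fun h' =>
    (Finset.mul_prod_erase _ _ (Finset.mem_univ i)).symm
  have e2 : ∀ b, ∏ j ∈ Finset.univ.erase i, wt z (Function.update h i (some b)) j (y j) =
      ∏ j ∈ Finset.univ.erase i, wt z h j (y j) := by
    intro b
    refine Finset.prod_congr rfl fun j hj => ?_
    have : j ≠ i := Finset.ne_of_mem_erase hj
    simp [wt, Function.update_of_ne this]
  rw [e, e (Function.update h i (some false)), e (Function.update h i (some true)), e2, e2]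
  have h1 : wt z h i (y i) = pw (z i) (y i) := by simp [wt, hi]
  rw [h1]
  cases hy : y i <;> simp [wt] <;> ring

lemma CE_congr {z : I → ℝ} {h : I → Option Bool} {G G' : (I → Bool) → ℝ}
    (hG : ∀ y : I → Bool, (∀ i b, h i = some b → y i = b) → G y = G' y) :
    CE z h G = CE z h G' := by
  refine Finset.sum_congr rfl fun y _ => ?_
  by_cases hy : ∀ i b, h i = some b → y i = b
  · rw [hG y hy]
  · push Not at hy
    obtain ⟨i, b, hb, hne⟩ := hy
    have : ∏ j, wt z h j (y j) = 0 := by
      refine Finset.prod_eq_zero (Finset.mem_univ i) ?_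
      simp [wt, hb, hne]
    rw [this, zero_mul, zero_mul]

lemma CE_prod (z : I → ℝ) (h : I → Option Bool) (S : Finset I) (a : ℝ) :
    CE z h (fun y => a * ∏ i ∈ S, ph (z i) (y i)) = a * ∏ i ∈ S, psi z h i := by
  have e1 : ∀ y : I → Bool, (∏ i, wt z h i (y i)) * (a * ∏ i ∈ S, ph (z i) (y i)) =
      a * ∏ i, (wt z h i (y i) * if i ∈ S then ph (z i) (y i) else 1) := by
    intro y
    rw [Finset.prod_mul_distrib, Finset.prod_ite_mem]
    simp
    ring
  simp only [CE, e1]
  rw [← Finset.mul_sum, ← Fintype.prod_sum (fun i b => wt z h i b * if i ∈ S then ph (z i) b else 1)]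
  congr 1
  have e2 : ∀ i, ∑ b, (wt z h i b * if i ∈ S then ph (z i) b else 1) =
      if i ∈ S then psi z h i else 1 := by
    intro i
    rw [Fintype.sum_bool]
    cases hh : h i with
    | none =>
      by_cases hi : i ∈ S
      · simp [wt, psi, hh, hi]; linarith [pwph (z i)]
      · simp [wt, hh, hi]; linarith [pw_sum (z i)]
    | some b =>
      by_cases hi : i ∈ S
      · cases b <;> simp [wt, psi, hh, hi]
      · cases b <;> simp [wt, hh, hi]
  rw [Finset.prod_congr rfl fun i _ => e2 i, Finset.prod_ite_mem]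
  simp

lemma CE_tree (z : I → ℝ) (S : Finset I) (T : GT I) : ∀ h : I → Option Bool,
    CE z h (fun y => T.ind y * ∏ i ∈ S, ph (z i) (y i)) =
      EV z (fun h a => (if a then 1 else 0) * ∏ i ∈ S, psi z h i) T h := by
  induction T with
  | leaf a =>
    intro h
    rw [EV]
    exact CE_prod z h S (if a then 1 else 0)
  | node i t0 t1 ih0 ih1 =>
    intro h
    cases hi : h i with
    | some b =>
      rw [EV_some hi]
      cases b
      · simp only [Bool.false_eq_true, if_false]
        rw [← ih0 h]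
        refine CE_congr fun y hy => ?_
        have := hy i false hi
        simp [GT.ind, GT.eval, this]
      · simp only [if_true]
        rw [← ih1 h]
        refine CE_congr fun y hy => ?_
        have := hy i true hi
        simp [GT.ind, GT.eval, this]
    | none =>
      rw [EV_none hi, CE_split hi, ← ih0, ← ih1]
      congr 1
      · congr 1
        refine CE_congr fun y hy => ?_
        have := hy i false (by simp)
        simp [GT.ind, GT.eval, this]
      · congr 1
        refine CE_congr fun y hy => ?_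
        have := hy i true (by simp)
        simp [GT.ind, GT.eval, this]

lemma EV_sum {ι : Type} (z : I → ℝ) (s : Finset ι) (F : ι → (I → Option Bool) → Bool → ℝ)
    (T : GT I) : ∀ h : I → Option Bool,
    EV z (fun h a => ∑ c ∈ s, F c h a) T h = ∑ c ∈ s, EV z (F c) T h := by
  induction T with
  | leaf a => intro h; simp [EV]
  | node i t0 t1 ih0 ih1 =>
    intro h
    cases hi : h i with
    | some b =>
      simp only [EV_some hi]
      cases b
      · simp [ih0]
      · simp [ih1]
    | none =>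
      simp only [EV_none hi, ih0, ih1, Finset.mul_sum, ← Finset.sum_add_distrib]

lemma EV_smul (z : I → ℝ) (e : ℝ) (F : (I → Option Bool) → Bool → ℝ)
    (T : GT I) : ∀ h : I → Option Bool,
    EV z (fun h a => e * F h a) T h = e * EV z F T h := by
  induction T with
  | leaf a => intro h; simp [EV]
  | node i t0 t1 ih0 ih1 =>
    intro h
    cases hi : h i with
    | some b =>
      simp only [EV_some hi]
      cases b
      · simp [ih0]
      · simp [ih1]
    | none =>
      simp only [EV_none hi, ih0, ih1]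
      ring

lemma EV_jensen {z : I → ℝ} (hz : ∀ i, |z i| ≤ 1 / 2) {p : ℕ} (hp : Even p)
    (F : (I → Option Bool) → Bool → ℝ) (M : (I → Option Bool) → ℝ)
    (hF : ∀ h a, |F h a| ≤ |M h|) (T : GT I) : ∀ h : I → Option Bool,
    (EV z F T h) ^ p ≤ EV z (fun h _ => (M h) ^ p) T h := by
  induction T with
  | leaf a =>
    intro h
    simp only [EV]
    rw [← hp.pow_abs, ← hp.pow_abs (M h)]
    exact pow_le_pow_left₀ (abs_nonneg _) (hF h a) p
  | node i t0 t1 ih0 ih1 =>
    intro h
    cases hi : h i with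
    | some b =>
      simp only [EV_some hi]
      cases b
      · simp [ih0]
      · simp [ih1]
    | none =>
      simp only [EV_none hi]
      have hc := hp.convexOn_pow.2 (Set.mem_univ (EV z F t0 (Function.update h i (some false))))
        (Set.mem_univ (EV z F t1 (Function.update h i (some true))))
        (pw_nonneg (hz i) false) (pw_nonneg (hz i) true) (pw_sum (z i))
      simp only [smul_eq_mul] at hc
      refine hc.trans ?_
      exact add_le_add (mul_le_mul_of_nonneg_left (ih0 _) (pw_nonneg (hz i) false))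
        (mul_le_mul_of_nonneg_left (ih1 _) (pw_nonneg (hz i) true))

/-- the homogeneous polynomial -/
noncomputable def MM (l : ℕ) (ε : Finset I → ℝ) (ψ : I → ℝ) : ℝ :=
  ∑ S ∈ Finset.powersetCard l Finset.univ, ε S * ∏ i ∈ S, ψ i

lemma MM_zero (ε : Finset I → ℝ) (ψ : I → ℝ) : MM 0 ε ψ = ε ∅ := by
  simp [MM]

lemma MM_zero_psi (l : ℕ) (ε : Finset I → ℝ) : MM (l + 1) ε (fun _ => 0) = 0 := by
  refine Finset.sum_eq_zero fun S hS => ?_
  have : S.Nonempty := by
    rw [Finset.mem_powersetCard] at hS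
    exact Finset.card_pos.1 (by omega)
  obtain ⟨i, hi⟩ := this
  rw [Finset.prod_eq_zero hi rfl, mul_zero]

lemma MM_update (l : ℕ) (ε : Finset I → ℝ) (ψ : I → ℝ) (i : I) (hi : ψ i = 0) (t : ℝ) :
    MM (l + 1) ε (Function.update ψ i t) =
      MM (l + 1) ε ψ + t * MM l (fun S => ε (insert i S)) ψ := by
  have hu : (Finset.univ : Finset I) = insert i (Finset.univ.erase i) :=
    (Finset.insert_erase (Finset.mem_univ i)).symm
  have hn : i ∉ (Finset.univ : Finset I).erase i := Finset.notMem_erase _ _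
  have hdec : ∀ f : Finset I → ℝ, ∑ S ∈ Finset.powersetCard (l + 1) Finset.univ, f S =
      ∑ S ∈ Finset.powersetCard (l + 1) (Finset.univ.erase i), f S +
      ∑ S ∈ Finset.powersetCard l (Finset.univ.erase i), f (insert i S) := by
    intro f
    conv_lhs => rw [hu, Finset.powersetCard_succ_insert hn]
    rw [Finset.sum_union, Finset.sum_image]
    · intro a ha b hb hab
      have ha' : i ∉ a := fun h => hn ((Finset.mem_powersetCard.1 ha).1 h)
      have hb' : i ∉ b := fun h => hn ((Finset.mem_powersetCard.1 hb).1 h)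
      rw [← Finset.erase_insert ha', ← Finset.erase_insert hb', hab]
    · rw [Finset.disjoint_left]
      intro a ha hb
      obtain ⟨b, _, rfl⟩ := Finset.mem_image.1 hb
      exact hn ((Finset.mem_powersetCard.1 ha).1 (Finset.mem_insert_self _ _))
  have hzero : MM l (fun S => ε (insert i S)) ψ =
      ∑ S ∈ Finset.powersetCard l (Finset.univ.erase i), ε (insert i S) * ∏ j ∈ S, ψ j := by
    refine (Finset.sum_subset ?_ ?_).symm
    · exact Finset.powersetCard_mono (Finset.erase_subset _ _)
    · intro S hS hS'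
      have : i ∈ S := by
        by_contra hh
        refine hS' (Finset.mem_powersetCard.2 ⟨?_, (Finset.mem_powersetCard.1 hS).2⟩)
        intro j hj
        exact Finset.mem_erase.2 ⟨fun e => hh (e ▸ hj), Finset.mem_univ _⟩
      rw [Finset.prod_eq_zero this hi, mul_zero]
  have hw : ∀ S ∈ Finset.powersetCard l (Finset.univ.erase i), ∀ χ : I → ℝ,
      ∏ j ∈ insert i S, χ j = χ i * ∏ j ∈ S, χ j := by
    intro S hS χ
    exact Finset.prod_insert fun h => hn ((Finset.mem_powersetCard.1 hS).1 h)
  have hsame : ∀ S : Finset I, i ∉ S → ∏ j ∈ S, Function.update ψ i t j = ∏ j ∈ S, ψ j := by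
    intro S hS
    refine Finset.prod_congr rfl fun j hj => ?_
    rw [Function.update_of_ne]
    rintro rfl
    exact hS hj
  rw [hzero, MM, MM, hdec, hdec (fun S => ε S * ∏ j ∈ S, ψ j), Finset.mul_sum]
  have a1 : ∑ S ∈ Finset.powersetCard (l + 1) (Finset.univ.erase i),
      ε S * ∏ j ∈ S, Function.update ψ i t j =
      ∑ S ∈ Finset.powersetCard (l + 1) (Finset.univ.erase i), ε S * ∏ j ∈ S, ψ j := by
    refine Finset.sum_congr rfl fun S hS => ?_
    rw [hsame S fun h => hn ((Finset.mem_powersetCard.1 hS).1 h)]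
  have a2 : ∑ S ∈ Finset.powersetCard l (Finset.univ.erase i),
      ε (insert i S) * ∏ j ∈ insert i S, Function.update ψ i t j =
      ∑ S ∈ Finset.powersetCard l (Finset.univ.erase i),
        t * (ε (insert i S) * ∏ j ∈ S, ψ j) := by
    refine Finset.sum_congr rfl fun S hS => ?_
    rw [hw S hS, hsame S fun h => hn ((Finset.mem_powersetCard.1 hS).1 h), Function.update_self]
    ring
  have a3 : ∑ S ∈ Finset.powersetCard l (Finset.univ.erase i),
      ε (insert i S) * ∏ j ∈ insert i S, ψ j = 0 := by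
    refine Finset.sum_eq_zero fun S hS => ?_
    rw [hw S hS, hi]; ring
  rw [a1, a2, a3, add_zero]

/-- the potential -/
noncomputable def V (p : ℕ) (A B : ℝ) : ℕ → ℕ → (Finset I → ℝ) → (I → ℝ) → ℝ
  | 0, l, ε, ψ => (MM l ε ψ) ^ p
  | t + 1, 0, ε, ψ => B * V p A B t 0 ε ψ
  | t + 1, l + 1, ε, ψ => B * V p A B t (l + 1) ε ψ +
      A * ∑ i, V p A B t l (fun S => ε (insert i S)) ψ

lemma V_nonneg {p : ℕ} (hp : Even p) {A B : ℝ} (hA : 0 ≤ A) (hB : 1 ≤ B) :
    ∀ (t l : ℕ) (ε : Finset I → ℝ) (ψ : I → ℝ), 0 ≤ V p A B t l ε ψ := by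
  intro t
  induction t with
  | zero => intro l ε ψ; simp only [V]; exact hp.pow_nonneg _
  | succ t ih =>
    intro l ε ψ
    have hB0 : 0 ≤ B := by linarith
    cases l with
    | zero => simp only [V]; exact mul_nonneg hB0 (ih _ _ _)
    | succ l =>
      simp only [V]
      exact add_nonneg (mul_nonneg hB0 (ih _ _ _))
        (mul_nonneg hA (Finset.sum_nonneg fun i _ => ih _ _ _))

lemma V_mono {p : ℕ} (hp : Even p) {A B : ℝ} (hA : 0 ≤ A) (hB : 1 ≤ B) 
    (t l : ℕ) (ε : Finset I → ℝ) (ψ : I → ℝ) : V p A B t l ε ψ ≤ V p A B (t + 1) l ε ψ := by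
  have h0 := V_nonneg hp hA hB t l ε ψ
  cases l with
  | zero => simp only [V]; nlinarith
  | succ l =>
    simp only [V]
    have : 0 ≤ A * ∑ i, V p A B t l (fun S => ε (insert i S)) ψ :=
      mul_nonneg hA (Finset.sum_nonneg fun i _ => V_nonneg hp hA hB _ _ _ _)
    nlinarith

lemma V_mono' {p : ℕ} (hp : Even p) {A B : ℝ} (hA : 0 ≤ A) (hB : 1 ≤ B) 
    (l : ℕ) (ε : Finset I → ℝ) (ψ : I → ℝ) : Monotone fun t => V p A B t l ε ψ :=
  monotone_nat_of_le_succ fun t => V_mono hp hA hB t l ε ψ

lemma V_step {q d : ℕ} (hq : 0 < q) (hd : 0 < d) {z : ℝ} (hz : |z| ≤ 1 / 2) (i : I) :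
    ∀ (t l : ℕ) (ε : Finset I → ℝ) (ψ : I → ℝ), ψ i = 0 →
    pw z false * V (2 * q) (16 ^ q * (d : ℝ) ^ q / d) (1 + 4 ^ q / d) t l ε
        (Function.update ψ i (ph z false)) +
      pw z true * V (2 * q) (16 ^ q * (d : ℝ) ^ q / d) (1 + 4 ^ q / d) t l ε
        (Function.update ψ i (ph z true)) ≤
      V (2 * q) (16 ^ q * (d : ℝ) ^ q / d) (1 + 4 ^ q / d) (t + 1) l ε ψ := by
  have hp : Even (2 * q) := even_two_mul q
  have hA : (0 : ℝ) ≤ 16 ^ q * (d : ℝ) ^ q / d := by positivity
  have hB : (1 : ℝ) ≤ 1 + 4 ^ q / d := by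
    have : (0 : ℝ) ≤ 4 ^ q / d := by positivity
    linarith
  set A : ℝ := 16 ^ q * (d : ℝ) ^ q / d with hAd
  set B : ℝ := 1 + 4 ^ q / d with hBd
  have hps := pw_sum z
  intro t
  induction t with
  | zero =>
    intro l ε ψ hi
    cases l with
    | zero =>
      simp only [V, MM_zero]
      rw [← add_mul, hps]
      exact mul_le_mul_of_nonneg_right hB (hp.pow_nonneg _)
    | succ l =>
      simp only [V]
      rw [MM_update _ _ _ _ hi, MM_update _ _ _ _ hi]
      refine (step hz _ _ q d hq hd).trans ?_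
      refine add_le_add le_rfl (mul_le_mul_of_nonneg_left ?_ hA)
      exact Finset.single_le_sum (f := fun i => (MM l (fun S => ε (insert i S)) ψ) ^ (2 * q))
        (fun j _ => hp.pow_nonneg _) (Finset.mem_univ i)
  | succ t ih =>
    intro l ε ψ hi
    have hB0 : 0 ≤ B := by linarith
    cases l with
    | zero =>
      have h := mul_le_mul_of_nonneg_left (ih 0 ε ψ hi) hB0
      simp only [V] at h ⊢
      linarith
    | succ l =>
      have h := mul_le_mul_of_nonneg_left (ih (l + 1) ε ψ hi) hB0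
      have h2 : A * ∑ j, (pw z false * V (2 * q) A B t l (fun S => ε (insert j S))
            (Function.update ψ i (ph z false)) +
          pw z true * V (2 * q) A B t l (fun S => ε (insert j S))
            (Function.update ψ i (ph z true))) ≤
          A * ∑ j, V (2 * q) A B (t + 1) l (fun S => ε (insert j S)) ψ :=
        mul_le_mul_of_nonneg_left (Finset.sum_le_sum fun j _ => ih l _ ψ hi) hA
      rw [Finset.sum_add_distrib, ← Finset.mul_sum, ← Finset.mul_sum] at h2
      have e1 : V (2 * q) A B (t + 1 + 1) (l + 1) ε ψ = B * V (2 * q) A B (t + 1) (l + 1) ε ψ +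
        A * ∑ j, V (2 * q) A B (t + 1) l (fun S => ε (insert j S)) ψ := rfl
      have e2 : ∀ χ, V (2 * q) A B (t + 1) (l + 1) ε χ = B * V (2 * q) A B t (l + 1) ε χ +
        A * ∑ j, V (2 * q) A B t l (fun S => ε (insert j S)) χ := fun χ => rfl
      rw [e1, e2 (Function.update ψ i (ph z false)), e2 (Function.update ψ i (ph z true))]
      linarith

lemma psi_update (z : I → ℝ) (h : I → Option Bool) (i : I) (b : Bool) :
    psi z (Function.update h i (some b)) = Function.update (psi z h) i (ph (z i) b) := by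
  funext j
  by_cases hj : j = i
  · subst hj; simp [psi]
  · simp [psi, Function.update_of_ne hj]

lemma EV_le {q d : ℕ} (hq : 0 < q) (hd : 0 < d) {z : I → ℝ} (hz : ∀ i, |z i| ≤ 1 / 2)
    (l : ℕ) (ε : Finset I → ℝ) (T : GT I) : ∀ h : I → Option Bool,
    EV z (fun h _ => (MM l ε (psi z h)) ^ (2 * q)) T h ≤
      V (2 * q) (16 ^ q * (d : ℝ) ^ q / d) (1 + 4 ^ q / d) T.depth l ε (psi z h) := by
  have hp : Even (2 * q) := even_two_mul q
  have hA : (0 : ℝ) ≤ 16 ^ q * (d : ℝ) ^ q / d := by positivity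
  have hB : (1 : ℝ) ≤ 1 + 4 ^ q / d := by
    have : (0 : ℝ) ≤ 4 ^ q / d := by positivity
    linarith
  induction T with
  | leaf a => intro h; simp [EV, GT.depth, V]
  | node i t0 t1 ih0 ih1 =>
    intro h
    simp only [GT.depth]
    have hm0 : t0.depth ≤ max t0.depth t1.depth := le_max_left _ _
    have hm1 : t1.depth ≤ max t0.depth t1.depth := le_max_right _ _
    cases hi : h i with
    | some b =>
      rw [EV_some hi]
      cases b
      · simp only [Bool.false_eq_true, if_false]
        exact (ih0 h).trans (V_mono' hp hA hB l ε _ (by omega))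
      · simp only [if_true]
        exact (ih1 h).trans (V_mono' hp hA hB l ε _ (by omega))
    | none =>
      rw [EV_none hi]
      have hs := V_step (I := I) hq hd (hz i) i (max t0.depth t1.depth) l ε (psi z h)
        (by simp [psi, hi])
      refine le_trans (add_le_add (mul_le_mul_of_nonneg_left ?_ (pw_nonneg (hz i) false))
        (mul_le_mul_of_nonneg_left ?_ (pw_nonneg (hz i) true))) hs
      · rw [← psi_update]
        exact (ih0 _).trans (V_mono' hp hA hB l ε _ hm0)
      · rw [← psi_update]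
        exact (ih1 _).trans (V_mono' hp hA hB l ε _ hm1)

lemma V_final {q : ℕ} (hq : 0 < q) (A B : ℝ) (hA : 0 ≤ A) (hB : 1 ≤ B) :
    ∀ (t l : ℕ) (ε : Finset I → ℝ), (∀ S, |ε S| ≤ 1) →
    V (2 * q) A B t l ε (fun _ => 0) ≤ B ^ t * (t.choose l) * (A * Fintype.card I) ^ l := by
  have hB0 : 0 ≤ B := by linarith
  intro t
  induction t with
  | zero =>
    intro l ε hε
    cases l with
    | zero =>
      simp only [V, MM_zero]
      rw [← (even_two_mul q).pow_abs]
      simpa using pow_le_one₀ (abs_nonneg _) (hε ∅)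
    | succ l =>
      simp only [V, MM_zero_psi]
      rw [zero_pow (by omega)]
      simp
  | succ t ih =>
    intro l ε hε
    cases l with
    | zero =>
      simp only [V]
      have := mul_le_mul_of_nonneg_left (ih 0 ε hε) hB0
      simpa [pow_succ, mul_comm] using this
    | succ l =>
      simp only [V]
      have h1 := mul_le_mul_of_nonneg_left (ih (l + 1) ε hε) hB0
      have h2 : A * ∑ i, V (2 * q) A B t l (fun S => ε (insert i S)) (fun _ => 0) ≤
          A * ∑ i : I, B ^ t * (t.choose l) * (A * Fintype.card I) ^ l :=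
        mul_le_mul_of_nonneg_left (Finset.sum_le_sum fun i _ => ih l _ fun S => hε _) hA
      have h3 : A * ∑ i : I, B ^ t * (t.choose l) * (A * Fintype.card I) ^ l =
          B ^ t * (t.choose l) * (A * Fintype.card I) ^ (l + 1) := by
        simp only [Finset.sum_const, Finset.card_univ, nsmul_eq_mul]; ring
      have h4 : B ^ t * (t.choose l) * (A * Fintype.card I) ^ (l + 1) ≤
          B ^ (t + 1) * (t.choose l) * (A * Fintype.card I) ^ (l + 1) := by
        have : B ^ t ≤ B ^ (t + 1) := pow_le_pow_right₀ hB (by omega)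
        gcongr
      have h5 : ((t + 1).choose (l + 1) : ℝ) = t.choose l + t.choose (l + 1) := by
        rw [Nat.choose_succ_succ]; push_cast; ring
      rw [h5]
      calc _ ≤ B * (B ^ t * (t.choose (l + 1)) * (A * Fintype.card I) ^ (l + 1)) +
            B ^ (t + 1) * (t.choose l) * (A * Fintype.card I) ^ (l + 1) := by linarith
        _ = _ := by ring

end Tree

section Final

variable {X : Type} [Fintype X] [DecidableEq X] {K : ℕ}

/-- replace the bits at the positions `c` -/
def rep (c : Fin K → X) (b : Fin K → X → Bool) (s : Fin K → Bool) : Fin K → X → Bool :=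
  fun l => Function.update (b l) (c l) (s l)

lemma rep_rep (c : Fin K → X) (b : Fin K → X → Bool) (s s' : Fin K → Bool) :
    rep c (rep c b s) s' = rep c b s' := by
  funext l; simp [rep]

lemma rep_self (c : Fin K → X) (b : Fin K → X → Bool) :
    rep c b (fun l => b l (c l)) = b := by
  funext l; simp [rep]

lemma rep_at (c : Fin K → X) (b : Fin K → X → Bool) (s : Fin K → Bool) :
    (fun l => rep c b s l (c l)) = s := by
  funext l; simp [rep]

def swp (c : Fin K → X) : (Fin K → X → Bool) × (Fin K → Bool) →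
    (Fin K → X → Bool) × (Fin K → Bool) :=
  fun p => (rep c p.1 p.2, fun l => p.1 l (c l))

lemma swp_inv (c : Fin K → X) : Function.Involutive (swp c) := by
  rintro ⟨b, s⟩
  simp only [swp, rep_rep, rep_self, rep_at]

/-- the weight -/
noncomputable def ww (z : Fin K → X → ℝ) (b : Fin K → X → Bool) : ℝ :=
  ∏ l, ∏ x, pw (z l x) (b l x)

lemma ww_rep (z : Fin K → X → ℝ) (c : Fin K → X) (b : Fin K → X → Bool) :
    ∑ s : Fin K → Bool, ww z (rep c b s) =
      ∏ l, ∏ x ∈ Finset.univ.erase (c l), pw (z l x) (b l x) := by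
  have e : ∀ s : Fin K → Bool, ww z (rep c b s) =
      ∏ l, (pw (z l (c l)) (s l) * ∏ x ∈ Finset.univ.erase (c l), pw (z l x) (b l x)) := by
    intro s
    refine Finset.prod_congr rfl fun l _ => ?_
    rw [← Finset.mul_prod_erase _ _ (Finset.mem_univ (c l))]
    congr 1
    · simp [rep]
    · refine Finset.prod_congr rfl fun x hx => ?_
      simp [rep, Function.update_of_ne (Finset.ne_of_mem_erase hx)]
  simp only [e]
  rw [← Fintype.prod_sum (fun l b' => pw (z l (c l)) b' *
    ∏ x ∈ Finset.univ.erase (c l), pw (z l x) (b l x))]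
  refine Finset.prod_congr rfl fun l _ => ?_
  rw [Fintype.sum_bool, ← add_mul, add_comm, pw_sum, one_mul]

lemma Ext_DC {z : Fin K → X → ℝ} (hz : ∀ l x, |z l x| ≤ 1 / 2) (c : Fin K → X)
    (g : (Fin K → X → Bool) → ℝ) :
    Ext (DC c g) z = ∑ b, ww z b * (g b * ∏ l, ph (z l (c l)) (b l (c l))) := by
  have e0 : Ext (DC c g) z = ∑ p : (Fin K → X → Bool) × (Fin K → Bool),
      ww z p.1 * ((∏ l, sg (p.2 l) / 2) * g (rep c p.1 p.2)) := by
    rw [Fintype.sum_prod_type]
    simp only [Crest.Agent.QG.Ext, DC, Finset.sum_mul]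
    refine Finset.sum_congr rfl fun b _ => Finset.sum_congr rfl fun s _ => ?_
    have hr : rep c b s = fun l => Function.update (b l) (c l) (s l) := rfl
    simp only [ww, pw, hr]
    ring
  rw [e0, ← Equiv.sum_comp (swp_inv c).toPerm, Fintype.sum_prod_type]
  refine Finset.sum_congr rfl fun b _ => ?_
  simp only [Function.Involutive.coe_toPerm, swp, rep_rep, rep_self]
  rw [← Finset.sum_mul, ww_rep]
  have e1 : ww z b * ∏ l, ph (z l (c l)) (b l (c l)) =
      (∏ l, ∏ x ∈ Finset.univ.erase (c l), pw (z l x) (b l x)) * ∏ l, sg (b l (c l)) / 2 := by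
    rw [ww, ← Finset.prod_mul_distrib, ← Finset.prod_mul_distrib]
    refine Finset.prod_congr rfl fun l _ => ?_
    rw [← Finset.mul_prod_erase _ _ (Finset.mem_univ (c l)), ← pwph' (hz l (c l)) (b l (c l))]
    ring
  calc _ = ((∏ l, ∏ x ∈ Finset.univ.erase (c l), pw (z l x) (b l x)) *
        ∏ l, sg (b l (c l)) / 2) * g b := by ring
    _ = _ := by rw [← e1]; ring

/-- the set of a choice of positions -/
def SS (c : Fin K → X) : Finset (Fin K × X) := Finset.univ.image fun l => (l, c l)

lemma SS_inj : Function.Injective (SS (X := X) (K := K)) := by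
  intro c c' h
  funext l
  have : (l, c l) ∈ SS c' := by rw [← h]; simp [SS]
  simp only [SS, Finset.mem_image, Finset.mem_univ, true_and] at this
  obtain ⟨l', hl'⟩ := this
  rw [Prod.mk.injEq] at hl'
  obtain ⟨rfl, h2⟩ := hl'
  exact h2.symm

lemma SS_card (c : Fin K → X) : (SS c).card = K := by
  rw [SS, Finset.card_image_of_injective, Finset.card_univ, Fintype.card_fin]
  intro a b h
  exact (Prod.mk.inj h).1

lemma SS_prod (c : Fin K → X) (f : Fin K × X → ℝ) : ∏ i ∈ SS c, f i = ∏ l, f (l, c l) := by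
  rw [SS, Finset.prod_image]
  intro a _ b _ h
  exact (Prod.mk.inj h).1

theorem main : Spec.Level := by
  intro X _ _ K d q T hK hq hd hT z hz
  classical
  set zz : Fin K × X → ℝ := fun p => z p.1 p.2 with hzz
  have hzz' : ∀ i, |zz i| ≤ 1 / 2 := fun i => hz _ _
  set g : (Fin K → X → Bool) → ℝ := fun b => T.ind (fun p => b p.1 p.2) with hg
  -- Ext as a conditional expectation
  have e1 : ∀ c : Fin K → X, Ext (DC c g) z =
      EV zz (fun h a => (if a then 1 else 0) * ∏ i ∈ SS c, psi zz h i) T (fun _ => none) := by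
    intro c
    rw [Ext_DC hz, ← CE_tree, CE, ← Equiv.sum_comp (Equiv.curry (Fin K) X Bool)]
    refine Finset.sum_congr rfl fun y _ => ?_
    congr 1
    · rw [ww, Fintype.prod_prod_type]
      simp [wt, hzz, Function.curry]
    · rw [SS_prod]
      rfl
  set E : (Fin K → X) → ℝ := fun c => Ext (DC c g) z with hE
  set σ : (Fin K → X) → ℝ := fun c => if 0 ≤ E c then 1 else -1 with hσ
  have hσE : ∀ c, |E c| = σ c * E c := by
    intro c
    simp only [hσ]
    split_ifs with h
    · rw [abs_of_nonneg h, one_mul]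
    · rw [abs_of_neg (not_le.1 h)]; ring
  set ε : Finset (Fin K × X) → ℝ := fun S => if h : ∃ c, SS c = S then σ h.choose else 0 with hε
  have hεSS : ∀ c, ε (SS c) = σ c := by
    intro c
    have hex : ∃ c', SS c' = SS c := ⟨c, rfl⟩
    simp only [hε, dif_pos hex]
    rw [SS_inj hex.choose_spec]
  have hε1 : ∀ S, |ε S| ≤ 1 := by
    intro S
    simp only [hε]
    split_ifs with h
    · simp only [hσ]; split_ifs <;> simp
    · simp
  have hMM : ∀ h : Fin K × X → Option Bool,
      ∑ c : Fin K → X, σ c * ∏ i ∈ SS c, psi zz h i = MM K ε (psi zz h) := by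
    intro h
    rw [MM]
    have : ∑ c : Fin K → X, σ c * ∏ i ∈ SS c, psi zz h i =
        ∑ S ∈ (Finset.univ : Finset (Fin K → X)).image SS, ε S * ∏ i ∈ S, psi zz h i := by
      rw [Finset.sum_image fun a _ b _ h => SS_inj h]
      simp only [hεSS]
    rw [this]
    refine Finset.sum_subset ?_ ?_
    · intro S hS
      obtain ⟨c, _, rfl⟩ := Finset.mem_image.1 hS
      exact Finset.mem_powersetCard.2 ⟨Finset.subset_univ _, SS_card c⟩
    · intro S _ hS
      have : ¬ ∃ c, SS c = S := by
        rintro ⟨c, rfl⟩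
        exact hS (Finset.mem_image_of_mem _ (Finset.mem_univ _))
      simp [hε, this]
  have e2 : ∑ c : Fin K → X, |E c| =
      EV zz (fun h a => ∑ c ∈ (Finset.univ : Finset (Fin K → X)),
        σ c * ((if a then 1 else 0) * ∏ i ∈ SS c, psi zz h i)) T (fun _ => none) := by
    rw [EV_sum zz Finset.univ (fun c h a => σ c * ((if a then 1 else 0) * ∏ i ∈ SS c, psi zz h i))]
    refine Finset.sum_congr rfl fun c _ => ?_
    rw [hσE, EV_smul zz (σ c) (fun h a => (if a then 1 else 0) * ∏ i ∈ SS c, psi zz h i), ← e1]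
  have hj := EV_jensen hzz' (even_two_mul q) (fun h a => ∑ c ∈ (Finset.univ : Finset (Fin K → X)),
        σ c * ((if a then 1 else 0) * ∏ i ∈ SS c, psi zz h i)) (fun h => MM K ε (psi zz h)) (by
      intro h a
      cases a
      · simp
      · simp [hMM]) T (fun _ => none)
  rw [e2]
  refine hj.trans ?_
  refine (EV_le hq hd hzz' K ε T _).trans ?_
  have hp : Even (2 * q) := even_two_mul q
  have hd0 : (0 : ℝ) < d := by exact_mod_cast hd
  have hA : (0 : ℝ) ≤ 16 ^ q * (d : ℝ) ^ q / d := by positivity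
  have hB : (1 : ℝ) ≤ 1 + 4 ^ q / d := by
    have : (0 : ℝ) ≤ 4 ^ q / d := by positivity
    linarith
  refine (V_mono' hp hA hB K ε _ hT).trans ?_
  have hpsi : psi zz (fun _ => none) = fun _ => 0 := by funext i; rfl
  simp only [hpsi]
  refine (V_final hq _ _ hA hB d K ε hε1).trans ?_
  have h1 : (1 + 4 ^ q / (d : ℝ)) ^ d ≤ Real.exp (4 ^ q) := by
    have h := Real.add_one_le_exp ((4 : ℝ) ^ q / d)
    calc (1 + 4 ^ q / (d : ℝ)) ^ d ≤ (Real.exp (4 ^ q / d)) ^ d := by
          refine pow_le_pow_left₀ (by linarith) (by linarith) d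
      _ = Real.exp (4 ^ q) := by
          rw [← Real.exp_nat_mul]
          congr 1
          field_simp
  have h2 : ((d.choose K : ℕ) : ℝ) ≤ (d : ℝ) ^ K := by exact_mod_cast Nat.choose_le_pow d K
  have hcard : (Fintype.card (Fin K × X) : ℝ) = K * Fintype.card X := by
    simp [Fintype.card_prod]
  rw [hcard]
  calc (1 + 4 ^ q / (d : ℝ)) ^ d * (d.choose K) *
        (16 ^ q * (d : ℝ) ^ q / d * (K * Fintype.card X)) ^ K
      ≤ Real.exp (4 ^ q) * (d : ℝ) ^ K *
        (16 ^ q * (d : ℝ) ^ q / d * (K * Fintype.card X)) ^ K := by gcongr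
    _ = _ := by
        rw [mul_assoc, ← mul_pow]
        congr 2
        field_simp

end Final

end Crest.Agent.H24QLevel
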