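import Crest.Agent.H2QPsiLaw

set_option autoImplicit false
set_option linter.unusedSectionVars false

open Crest.MathPhysics.Query MeasureTheory

namespace Crest.Agent.H24QPhi

open Crest.Agent.QG

section WHsec

variable {n : ℕ}

/-- coordinate sign -/
def sx (a b : Bool) : ℝ := if a && b then -1 else 1

lemma chi_eq (x y : XX n) : chi x y = ∏ i, sx (x i) (y i) := by
  have h1 : ∏ i, sx (x i) (y i) = (-1 : ℝ) ^ (Finset.univ.filter fun i => (x i && y i) = true).card := by
    simp only [sx]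
    rw [Finset.prod_ite]
    simp
  rw [h1, chi, dotp]
  rcases Nat.even_or_odd (Finset.univ.filter fun i => (x i && y i) = true).card with h | h
  · rw [h.neg_one_pow]
    have : (Finset.univ.filter fun i => (x i && y i) = true).card % 2 = 0 := Nat.even_iff.1 h
    rw [this]; simp [sg]
  · rw [h.neg_one_pow]
    have : (Finset.univ.filter fun i => (x i && y i) = true).card % 2 = 1 := Nat.odd_iff.1 h
    rw [this]; simp [sg]

lemma chi_comm (x y : XX n) : chi x y = chi y x := by
  rw [chi_eq, chi_eq]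
  refine Finset.prod_congr rfl fun i _ => ?_
  simp [sx, and_comm]

lemma chi_zero (x : XX n) : chi x (fun _ => false) = 1 := by
  rw [chi_eq]; simp [sx]

lemma chi_sq (x y : XX n) : chi x y ^ 2 = 1 := by
  unfold chi sg; split_ifs <;> norm_num

lemma chi_orth (x x' : XX n) : ∑ y, chi x y * chi x' y = if x = x' then (2 : ℝ) ^ n else 0 := by
  have h1 : ∑ y, chi x y * chi x' y = ∏ i, ∑ b, sx (x i) b * sx (x' i) b := by
    rw [Fintype.prod_sum (fun i b => sx (x i) b * sx (x' i) b)]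
    refine Finset.sum_congr rfl fun y _ => ?_
    rw [chi_eq, chi_eq, Finset.prod_mul_distrib]
  rw [h1]
  have h2 : ∀ i, ∑ b, sx (x i) b * sx (x' i) b = if x i = x' i then (2 : ℝ) else 0 := by
    intro i
    rw [Fintype.sum_bool]
    cases x i <;> cases x' i <;> simp [sx] <;> norm_num
  simp only [h2]
  by_cases h : x = x'
  · subst h; simp
  · rw [if_neg h]
    obtain ⟨i, hi⟩ : ∃ i, x i ≠ x' i := by
      by_contra hh; push Not at hh; exact h (funext hh)
    exact Finset.prod_eq_zero (Finset.mem_univ i) (if_neg hi)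

lemma sqN : Real.sqrt (2 ^ n) ^ 2 = (2 : ℝ) ^ n := Real.sq_sqrt (by positivity)

lemma sqN_pos : 0 < Real.sqrt (2 ^ n) := Real.sqrt_pos.2 (by positivity)

lemma hh_comm (x y : XX n) : hh x y = hh y x := by rw [hh, hh, chi_comm]

lemma hh_zero (x : XX n) : hh x (fun _ => false) = 1 / Real.sqrt (2 ^ n) := by
  rw [hh, chi_zero]

lemma hh_sq (x y : XX n) : hh x y ^ 2 = 1 / 2 ^ n := by
  rw [hh, div_pow, chi_sq, sqN]

lemma hh_orth (x x' : XX n) : ∑ y, hh x y * hh x' y = if x = x' then (1 : ℝ) else 0 := by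
  have h1 : ∀ y, hh x y * hh x' y = (chi x y * chi x' y) / 2 ^ n := by
    intro y
    rw [hh, hh, div_mul_div_comm, ← sq, sqN]
  simp only [h1]
  rw [← Finset.sum_div, chi_orth]
  split_ifs <;> simp

lemma card_XX : (Fintype.card (XX n) : ℝ) = 2 ^ n := by
  simp [XX, Fintype.card_pi]

lemma hh_sum_sq (y : XX n) : ∑ x, hh x y ^ 2 = 1 := by
  simp only [hh_sq, Finset.sum_const, Finset.card_univ, nsmul_eq_mul, card_XX]
  field_simp

/-- the transpose functional -/
noncomputable def rr : (K : ℕ) → (Fin K → XX n → ℝ) → XX n → ℝ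
  | 0, _ => fun x => if x = (fun _ => false) then 1 else 0
  | K + 1, z => fun x => z 0 x * ∑ y, hh x y * rr K (fun l => z l.succ) y

lemma chain_rr : ∀ (K : ℕ) (w : XX n → ℝ) (z : Fin K → XX n → ℝ),
    chain K w z (fun _ => false) = ∑ x, w x * rr K z x := by
  intro K
  induction K with
  | zero => intro w z; simp [chain, rr]
  | succ K ih =>
    intro w z
    rw [chain, ih]
    simp only [WH, rr, Finset.sum_mul, Finset.mul_sum]
    rw [Finset.sum_comm]
    refine Finset.sum_congr rfl fun x _ => Finset.sum_congr rfl fun y _ => ?_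
    ring

lemma norm_h (r : XX n → ℝ) : ∑ x, (∑ y, hh x y * r y) ^ 2 = ∑ y, r y ^ 2 := by
  have h1 : ∀ x, (∑ y, hh x y * r y) ^ 2 = ∑ y, ∑ y', (hh x y * r y) * (hh x y' * r y') := by
    intro x
    rw [sq, Finset.sum_mul_sum]
  simp only [h1]
  rw [Finset.sum_comm]
  refine Finset.sum_congr rfl fun y _ => ?_
  rw [Finset.sum_comm]
  have h2 : ∀ y', ∑ x, (hh x y * r y) * (hh x y' * r y') =
      (r y * r y') * if y = y' then 1 else 0 := by
    intro y'
    rw [← hh_orth y y', Finset.mul_sum]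
    refine Finset.sum_congr rfl fun x _ => ?_
    rw [hh_comm y x, hh_comm y' x]; ring
  simp only [h2]
  simp [sq]

lemma rr_norm : ∀ (K : ℕ) (z : Fin K → XX n → ℝ), (∀ l x, z l x ^ 2 = 1) →
    ∑ x, rr K z x ^ 2 = 1 := by
  intro K
  induction K with
  | zero => intro z _; simp [rr]
  | succ K ih =>
    intro z hz
    simp only [rr, mul_pow, hz, one_mul]
    rw [norm_h]
    exact ih _ fun l x => hz _ _

lemma sg_sq (b : Bool) : sg b ^ 2 = 1 := by cases b <;> simp [sg]

lemma Phi_eq {K : ℕ} (f : Fin K → XX n → Bool) :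
    Phi f = ∑ x, (1 / Real.sqrt (2 ^ n)) * rr K (fun l x => sg (f l x)) x := by
  rw [Phi, chain_rr]

theorem phiLe : Spec.PhiLe := by
  intro n K f
  rw [Phi_eq]
  refine (Finset.sum_mul_sq_le_sq_mul_sq _ _ _).trans ?_
  rw [rr_norm K _ fun l x => sg_sq _, mul_one]
  simp only [div_pow, one_pow, sqN, Finset.sum_const, Finset.card_univ, nsmul_eq_mul, card_XX]
  rw [mul_one_div_cancel (by positivity)]

end WHsec

section Signs

variable {X : Type} [Fintype X] [DecidableEq X]

lemma E_one (w : X → ℝ) (x : X) : ∑ b : X → Bool, H2Q.wt b w * sg (b x) = w x := by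
  have h1 : ∀ b : X → Bool, H2Q.wt b w * sg (b x) =
      ∏ j, ((1 + sg (b j) * w j) / 2 * if j = x then sg (b j) else 1) := by
    intro b
    rw [Finset.prod_mul_distrib]
    simp [H2Q.wt]
  simp only [h1]
  rw [← Fintype.prod_sum (fun j β => (1 + sg β * w j) / 2 * if j = x then sg β else 1)]
  have h2 : ∀ j, ∑ β, ((1 + sg β * w j) / 2 * if j = x then sg β else 1) =
      if j = x then w j else 1 := by
    intro j
    rw [Fintype.sum_bool]
    split_ifs <;> simp [sg] <;> ring
  simp only [h2]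
  simp

lemma E_two (x x' : X) : ∑ b : X → Bool, H2Q.wt b (fun _ => 0) * (sg (b x) * sg (b x')) =
    if x = x' then 1 else 0 := by
  by_cases h : x = x'
  · subst h
    have : ∀ b : X → Bool, H2Q.wt b (fun _ => (0 : ℝ)) * (sg (b x) * sg (b x)) =
        H2Q.wt b (fun _ => 0) := by
      intro b
      rw [← sq, sg_sq, mul_one]
    simp only [this, if_true]
    exact H2Q.wt_sum _
  · rw [if_neg h]
    have h1 : ∀ b : X → Bool, H2Q.wt b (fun _ => (0 : ℝ)) * (sg (b x) * sg (b x')) =
        ∏ j, (1 / 2 * ((if j = x then sg (b j) else 1) * if j = x' then sg (b j) else 1)) := by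
      intro b
      rw [Finset.prod_mul_distrib, Finset.prod_mul_distrib]
      simp [H2Q.wt]
    simp only [h1]
    rw [← Fintype.prod_sum (fun j β => (1 / 2 : ℝ) *
      ((if j = x then sg β else 1) * if j = x' then sg β else 1))]
    refine Finset.prod_eq_zero (Finset.mem_univ x) ?_
    rw [Fintype.sum_bool]
    simp [h, sg]

lemma E_sq (a : X → ℝ) : ∑ b : X → Bool, H2Q.wt b (fun _ => 0) * (∑ x, a x * sg (b x)) ^ 2 =
    ∑ x, a x ^ 2 := by
  have h1 : ∀ b : X → Bool, H2Q.wt b (fun _ => (0 : ℝ)) * (∑ x, a x * sg (b x)) ^ 2 =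
      ∑ x, ∑ x', (a x * a x') * (H2Q.wt b (fun _ => 0) * (sg (b x) * sg (b x'))) := by
    intro b
    rw [sq, Finset.sum_mul_sum, Finset.mul_sum]
    refine Finset.sum_congr rfl fun x _ => ?_
    rw [Finset.mul_sum]
    refine Finset.sum_congr rfl fun x' _ => ?_
    ring
  simp only [h1]
  rw [Finset.sum_comm]
  refine Finset.sum_congr rfl fun x _ => ?_
  rw [Finset.sum_comm]
  simp only [← Finset.mul_sum, E_two]
  simp [sq]

end Signs

lemma Psi_const {X : Type} [Fintype X] [DecidableEq X] (h : X → X → ℝ) (K : ℕ) (a : ℝ)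
    (v : X → ℝ) : Psi h K (fun _ => a) v = a := by
  have := H2Q.Psi_smul h K a (fun _ => 1) v
  rw [H2Q.Psi_one] at this
  simpa using this

theorem phiNull : Spec.PhiNull := by
  intro n K hK
  obtain ⟨K, rfl⟩ : ∃ K', K = K' + 1 := ⟨K - 1, by omega⟩
  rw [Psi]
  have h1 : ∀ u : XX n → ℝ, Ext1 (fun f : Fin (K + 2) → XX n → Bool => Phi f ^ 2)
      (fun x => (0 : ℝ) * u x) = fun _ => 1 / 2 ^ n := by
    intro u
    funext b
    rw [H2Q.Ext1_eq]
    have h0 : (fun x => (0 : ℝ) * u x) = fun _ => 0 := by funext x; simp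
    rw [h0]
    have h2 : ∀ b₁ : XX n → Bool, Phi (Fin.cons b₁ b : Fin (K + 2) → XX n → Bool) =
        ∑ x, (1 / Real.sqrt (2 ^ n) * ∑ y, hh x y * rr (K + 1) (fun l x => sg (b l x)) y) *
          sg (b₁ x) := by
      intro b₁
      rw [Phi_eq]
      refine Finset.sum_congr rfl fun x _ => ?_
      rw [rr]
      simp only [Fin.cons_zero, Fin.cons_succ]
      ring
    simp only [h2]
    rw [E_sq]
    simp only [mul_pow]
    rw [← Finset.mul_sum, norm_h, rr_norm _ _ fun l x => sg_sq _, mul_one, div_pow, sqN, one_pow]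
  simp only [h1]
  simp only [Psi_const]
  simp

section Mean

/-- one dimensional base measure -/
noncomputable abbrev nu1 : Measure ℝ := volume.restrict (Set.Icc (-(1/2) : ℝ) (1/2))

lemma nu1_int {f : ℝ → ℂ} (hf : Continuous f) : Integrable f nu1 :=
  hf.continuousOn.integrableOn_compact isCompact_Icc

lemma nu1_intR {f : ℝ → ℝ} (hf : Continuous f) : Integrable f nu1 :=
  hf.continuousOn.integrableOn_compact isCompact_Icc

lemma nu1_eq {E : Type*} [NormedAddCommGroup E] [NormedSpace ℝ E] (f : ℝ → E) :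
    ∫ u, f u ∂nu1 = ∫ u in (-(1/2) : ℝ)..(1/2), f u := by
  rw [intervalIntegral.integral_of_le (by norm_num), integral_Icc_eq_integral_Ioc]

lemma nu1_odd {f : ℝ → ℝ} (hf : ∀ u, f (-u) = - f u) : ∫ u, f u ∂nu1 = 0 := by
  rw [nu1_eq]
  have h := intervalIntegral.integral_comp_neg (a := -(1/2 : ℝ)) (b := 1/2) f
  simp only [neg_neg, hf] at h
  rw [intervalIntegral.integral_neg] at h
  linarith

lemma nu1_sq : ∫ u, u ^ 2 ∂nu1 = 1 / 12 := by
  rw [nu1_eq, integral_pow]; norm_num

lemma nu1_one : ∫ _, (1 : ℝ) ∂nu1 = 1 := by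
  rw [nu1_eq]; simp; norm_num

/-- `∫ cos (h u)` -/
noncomputable def aa (h : ℝ) : ℝ := ∫ u, Real.cos (h * u) ∂nu1
/-- `∫ u sin (h u)` -/
noncomputable def kk (h : ℝ) : ℝ := ∫ u, u * Real.sin (h * u) ∂nu1

lemma aa_ge (h : ℝ) : 1 - h ^ 2 / 24 ≤ aa h := by
  have h1 : ∫ u, (1 - h ^ 2 / 2 * u ^ 2) ∂nu1 ≤ aa h := by
    refine integral_mono (nu1_intR (by fun_prop)) (nu1_intR (by fun_prop)) fun u => ?_
    have := Real.one_sub_sq_div_two_le_cos (x := h * u)
    simp only
    linarith [this, mul_pow h u 2]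
  have h2 : ∫ u, (1 - h ^ 2 / 2 * u ^ 2) ∂nu1 = 1 - h ^ 2 / 24 := by
    rw [integral_sub (nu1_intR (by fun_prop)) (nu1_intR (by fun_prop)), integral_const_mul,
      nu1_sq, nu1_one]
    ring
  linarith

lemma aa_le (h : ℝ) : aa h ≤ 1 := by
  rw [← nu1_one]
  refine integral_mono (nu1_intR (by fun_prop)) (nu1_intR (by fun_prop)) fun u => ?_
  exact Real.cos_le_one _

lemma tsin {t : ℝ} (ht : |t| ≤ 1 / 2) : 15 / 16 * t ^ 2 ≤ t * Real.sin t := by
  have hpos : ∀ t : ℝ, 0 < t → t ≤ 1 / 2 → 15 / 16 * t ^ 2 ≤ t * Real.sin t := by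
    intro t h0 h1
    have := Real.sin_gt_sub_cube h0
    have h2 : t ^ 2 ≤ 1 / 4 := by nlinarith
    nlinarith [mul_pos h0 h0, mul_nonneg (mul_pos h0 h0).le (sub_nonneg.2 h2)]
  rcases lt_trichotomy t 0 with h | h | h
  · have := hpos (-t) (by linarith) (by rw [abs_of_neg h] at ht; exact ht)
    rw [Real.sin_neg] at this
    nlinarith
  · subst h; simp
  · exact hpos t h (by rwa [abs_of_pos h] at ht)

lemma kk_ge {h : ℝ} (hh' : |h| ≤ 1) : 5 / 64 * h ^ 2 ≤ h * kk h := by
  have h1 : ∫ u, (15 / 16 * h ^ 2) * u ^ 2 ∂nu1 ≤ ∫ u, h * (u * Real.sin (h * u)) ∂nu1 := by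
    refine integral_mono_ae (nu1_intR (by fun_prop)) (nu1_intR (by fun_prop)) ?_
    filter_upwards [ae_restrict_mem measurableSet_Icc] with u hu
    have hu' : |u| ≤ 1 / 2 := abs_le.2 ⟨by linarith [hu.1], hu.2⟩
    have := tsin (t := h * u) (by
      rw [abs_mul]
      calc |h| * |u| ≤ 1 * (1 / 2) := by gcongr
        _ = _ := by norm_num)
    nlinarith
  rw [integral_const_mul, integral_const_mul, nu1_sq] at h1
  rw [kk]
  linarith

open Complex in
lemma cexp_int (h : ℝ) : ∫ u : ℝ, Complex.exp ((h * u : ℝ) * Complex.I) ∂nu1 = (aa h : ℂ) := by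
  have e : ∀ u : ℝ, Complex.exp ((h * u : ℝ) * Complex.I) =
      ((Real.cos (h * u) : ℝ) : ℂ) + ((Real.sin (h * u) : ℝ) : ℂ) * Complex.I := by
    intro u
    rw [Complex.exp_mul_I]; push_cast; rfl
  simp only [e]
  rw [integral_add (nu1_int (by fun_prop)) (nu1_int (by fun_prop)), integral_mul_const,
    integral_complex_ofReal, integral_complex_ofReal]
  rw [nu1_odd (f := fun u => Real.sin (h * u)) (fun u => by rw [mul_neg, Real.sin_neg])]
  simp [aa]

open Complex in
lemma cexp_int' (h : ℝ) : ∫ u : ℝ, (u : ℂ) * Complex.exp ((h * u : ℝ) * Complex.I) ∂nu1 =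
    (kk h : ℂ) * Complex.I := by
  have e : ∀ u : ℝ, (u : ℂ) * Complex.exp ((h * u : ℝ) * Complex.I) =
      ((u * Real.cos (h * u) : ℝ) : ℂ) + ((u * Real.sin (h * u) : ℝ) : ℂ) * Complex.I := by
    intro u
    rw [Complex.exp_mul_I]; push_cast; ring
  simp only [e]
  rw [integral_add (nu1_int (by fun_prop)) (nu1_int (by fun_prop)), integral_mul_const,
    integral_complex_ofReal, integral_complex_ofReal]
  rw [nu1_odd (f := fun u => u * Real.cos (h * u)) (fun u => by rw [mul_neg, Real.cos_neg]; ring)]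
  simp [kk]

lemma usin {X : Type} [Fintype X] [DecidableEq X] (h : X → ℝ) (x0 : X) :
    ∫ u, u x0 * Real.sin (∑ x, h x * u x) ∂(muX X) =
      kk (h x0) * ∏ x ∈ Finset.univ.erase x0, aa (h x) := by
  have h1 : ∫ u : X → ℝ, ∏ x, ((if x = x0 then (u x : ℂ) else 1) *
      Complex.exp ((h x * u x : ℝ) * Complex.I)) ∂(muX X) =
      (kk (h x0) : ℂ) * Complex.I * ∏ x ∈ Finset.univ.erase x0, (aa (h x) : ℂ) := by
    have := integral_fintype_prod_eq_prod (𝕜 := ℂ) (ι := X) (E := fun _ => ℝ)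
      (μ := fun _ => nu1)
      (fun x (t : ℝ) => (if x = x0 then (t : ℂ) else 1) * Complex.exp ((h x * t : ℝ) * Complex.I))
    rw [muX, this, ← Finset.mul_prod_erase _ _ (Finset.mem_univ x0)]
    congr 1
    · simp only [if_true]
      exact cexp_int' (h x0)
    · refine Finset.prod_congr rfl fun x hx => ?_
      have : x ≠ x0 := Finset.ne_of_mem_erase hx
      simp only [this, if_false, one_mul]
      exact cexp_int (h x)
  have h2 : ∀ u : X → ℝ, ∏ x, ((if x = x0 then (u x : ℂ) else 1) *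
      Complex.exp ((h x * u x : ℝ) * Complex.I)) =
      ((u x0 * Real.cos (∑ x, h x * u x) : ℝ) : ℂ) +
        ((u x0 * Real.sin (∑ x, h x * u x) : ℝ) : ℂ) * Complex.I := by
    intro u
    rw [Finset.prod_mul_distrib, ← Complex.exp_sum, ← Finset.sum_mul]
    simp only [Finset.prod_ite_eq', Finset.mem_univ, if_true]
    rw [← Complex.ofReal_sum, Complex.exp_mul_I]
    push_cast
    ring
  simp only [h2] at h1
  have i1 : Integrable (fun u : X → ℝ => u x0 * Real.cos (∑ x, h x * u x)) (muX X) :=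
    H2Q.integrable_of_cont (by fun_prop)
  have i2 : Integrable (fun u : X → ℝ => u x0 * Real.sin (∑ x, h x * u x)) (muX X) :=
    H2Q.integrable_of_cont (by fun_prop)
  rw [integral_add i1.ofReal (i2.ofReal.mul_const _), integral_mul_const,
    integral_complex_ofReal, integral_complex_ofReal] at h1
  have h3 := congrArg Complex.im h1
  have h4 : (kk (h x0) : ℂ) * Complex.I * ∏ x ∈ Finset.univ.erase x0, (aa (h x) : ℂ) =
      ((kk (h x0) * ∏ x ∈ Finset.univ.erase x0, aa (h x) : ℝ) : ℂ) * Complex.I := by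
    push_cast; ring
  rw [h4, Complex.add_im, Complex.ofReal_im, Complex.mul_I_im, Complex.ofReal_re,
    Complex.mul_I_im, Complex.ofReal_re, zero_add] at h3
  exact h3

lemma prod_ge {X : Type} [DecidableEq X] (s : Finset X) (a : X → ℝ) (d : X → ℝ)
    (h0 : ∀ x, 0 ≤ d x) (h1 : ∀ x, 1 - d x ≤ a x) (h2 : ∀ x, a x ≤ 1) (hs : ∑ x ∈ s, d x ≤ 1) :
    1 - ∑ x ∈ s, d x ≤ ∏ x ∈ s, a x ∧ ∏ x ∈ s, a x ≤ 1 := by
  induction s using Finset.induction_on with
  | empty => simp
  | insert x s hx ih =>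
    rw [Finset.sum_insert hx] at hs ⊢
    rw [Finset.prod_insert hx]
    have hdx := h0 x
    have hds : 0 ≤ ∑ x ∈ s, d x := Finset.sum_nonneg fun x _ => h0 x
    obtain ⟨i1, i2⟩ := ih (by linarith)
    have ha : 0 ≤ a x := by linarith [h1 x]
    constructor
    · nlinarith [h1 x, h2 x]
    · nlinarith [h2 x]

/-- the key estimate -/
lemma keyEst {X : Type} [Fintype X] [DecidableEq X] (h : X → ℝ) (hs : ∑ x, h x ^ 2 ≤ 1)
    (x0 : X) : 1 / 32 * h x0 ^ 2 ≤
      h x0 * ∫ u, u x0 * (Real.sin (∑ x, h x * u x) / 2) ∂(muX X) := by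
  have e : ∫ u, u x0 * (Real.sin (∑ x, h x * u x) / 2) ∂(muX X) =
      (kk (h x0) * ∏ x ∈ Finset.univ.erase x0, aa (h x)) / 2 := by
    rw [← usin, ← integral_div]
    congr 1; funext u; ring
  rw [e]
  have hx1 : h x0 ^ 2 ≤ 1 := (Finset.single_le_sum (f := fun x => h x ^ 2)
    (fun x _ => sq_nonneg _) (Finset.mem_univ x0)).trans hs
  have hk := kk_ge (h := h x0) (abs_le_one_iff_mul_self_le_one.2 (by nlinarith))
  have hsum : ∑ x ∈ Finset.univ.erase x0, h x ^ 2 / 24 ≤ 1 / 24 := by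
    rw [← Finset.sum_div]
    have : ∑ x ∈ Finset.univ.erase x0, h x ^ 2 ≤ ∑ x, h x ^ 2 :=
      Finset.sum_le_sum_of_subset_of_nonneg (Finset.erase_subset _ _) fun x _ _ => sq_nonneg _
    linarith
  have hp := prod_ge (Finset.univ.erase x0) (fun x => aa (h x)) (fun x => h x ^ 2 / 24)
    (fun x => by positivity) (fun x => aa_ge (h x)) (fun x => aa_le (h x)) (by linarith)
  have hP : 23 / 24 ≤ ∏ x ∈ Finset.univ.erase x0, aa (h x) := by linarith [hp.1]
  have h5 : 0 ≤ h x0 * kk (h x0) := le_trans (by positivity) hk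
  have h6 : (h x0 * kk (h x0)) * (23 / 24) ≤
      (h x0 * kk (h x0)) * ∏ x ∈ Finset.univ.erase x0, aa (h x) :=
    mul_le_mul_of_nonneg_left hP h5
  nlinarith [sq_nonneg (h x0)]

/-- correlation -/
noncomputable def cc {n : ℕ} (x y : XX n) : ℝ := ∫ u, u x * VV (hh (n := n)) u y ∂(muX (XX n))

lemma cc_ge {n : ℕ} (x y : XX n) : 1 / 32 * hh x y ^ 2 ≤ hh x y * cc x y := by
  exact keyEst (fun x' => hh x' y) (hh_sum_sq y).le x

/-- the weights -/
noncomputable def rho {n : ℕ} : ℕ → XX n → ℝ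
  | 0, _ => 1
  | K + 1, x => ∑ y, hh x y * cc x y * rho K y

lemma rho_ge {n : ℕ} (K : ℕ) : ∀ x : XX n, (1 / 32) ^ K ≤ rho K x := by
  induction K with
  | zero => intro x; simp [rho]
  | succ K ih =>
    intro x
    rw [rho]
    have h1 : ∀ y : XX n, 1 / 32 * hh x y ^ 2 * (1 / 32) ^ K ≤ hh x y * cc x y * rho K y := by
      intro y
      have h2 := cc_ge x y
      have h3 : 0 ≤ 1 / 32 * hh x y ^ 2 := by positivity
      have h4 := ih y
      have h5 : (0 : ℝ) ≤ (1 / 32) ^ K := by positivity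
      calc 1 / 32 * hh x y ^ 2 * (1 / 32) ^ K ≤ hh x y * cc x y * (1 / 32) ^ K := by gcongr
        _ ≤ _ := mul_le_mul_of_nonneg_left h4 (h3.trans h2)
    calc ((1 : ℝ) / 32) ^ (K + 1) = ∑ y : XX n, 1 / 32 * hh x y ^ 2 * (1 / 32) ^ K := by
          rw [← Finset.sum_mul, ← Finset.mul_sum]
          have : ∑ y : XX n, hh x y ^ 2 = 1 := by
            have := hh_sum_sq x
            have e : ∀ y, hh x y ^ 2 = hh y x ^ 2 := fun y => by rw [hh_comm]
            simp only [e]; exact this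
          rw [this]; ring
      _ ≤ _ := Finset.sum_le_sum fun y _ => h1 y

lemma Ext1_chain {n K : ℕ} (w v : XX n → ℝ) :
    Ext1 (fun f : Fin (K + 2) → XX n → Bool =>
      chain (K + 2) w (fun l x => sg (f l x)) (fun _ => false)) v =
    fun b : Fin (K + 1) → XX n → Bool =>
      chain (K + 1) (WH fun x => w x * v x) (fun l x => sg (b l x)) (fun _ => false) := by
  funext b
  rw [H2Q.Ext1_eq, chain_rr]
  have h1 : ∀ b₁ : XX n → Bool, H2Q.wt b₁ v * chain (K + 2) w
      (fun l x => sg ((Fin.cons b₁ b : Fin (K + 2) → XX n → Bool) l x)) (fun _ => false) =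
      ∑ x, (w x * ∑ y, hh x y * rr (K + 1) (fun l x => sg (b l x)) y) *
        (H2Q.wt b₁ v * sg (b₁ x)) := by
    intro b₁
    rw [chain_rr, Finset.mul_sum]
    refine Finset.sum_congr rfl fun x _ => ?_
    rw [rr]
    simp only [Fin.cons_zero, Fin.cons_succ]
    ring
  simp only [h1]
  rw [Finset.sum_comm]
  simp only [← Finset.mul_sum, E_one]
  simp only [WH, Finset.sum_mul, Finset.mul_sum]
  rw [Finset.sum_comm]
  refine Finset.sum_congr rfl fun x _ => Finset.sum_congr rfl fun y _ => ?_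
  ring

lemma mean {n : ℕ} (K : ℕ) : ∀ (w v : XX n → ℝ),
    Psi (hh (n := n)) K (fun f => chain (K + 1) w (fun l x => sg (f l x)) (fun _ => false)) v =
      1 / Real.sqrt (2 ^ n) * ∑ x, w x * v x * rho K x := by
  induction K with
  | zero =>
    intro w v
    rw [Psi, H2Q.Ext_eq, H2Q.sum_cons]
    have h1 : ∀ b₁ : XX n → Bool, ∑ b : Fin 0 → XX n → Bool,
        chain (0 + 1) w (fun l x => sg ((Fin.cons b₁ b : Fin (0 + 1) → XX n → Bool) l x))
          (fun _ => false) *
          ∏ l, H2Q.wt ((Fin.cons b₁ b : Fin (0 + 1) → XX n → Bool) l) v =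
        ∑ x, (w x * (1 / Real.sqrt (2 ^ n))) * (H2Q.wt b₁ v * sg (b₁ x)) := by
      intro b₁
      rw [Fintype.sum_unique]
      simp only [chain_rr, rr, Fin.cons_zero]
      rw [Finset.sum_mul]
      refine Finset.sum_congr rfl fun x _ => ?_
      simp [hh_zero]
      ring
    simp only [h1]
    rw [Finset.sum_comm]
    simp only [← Finset.mul_sum, E_one]
    rw [Finset.mul_sum]
    refine Finset.sum_congr rfl fun x _ => ?_
    rw [rho]; ring
  | succ K ih =>
    intro w v
    rw [Psi]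
    simp only [Ext1_chain, ih]
    rw [integral_const_mul]
    congr 1
    have h1 : ∀ u : XX n → ℝ, ∑ y, WH (fun x => w x * (v x * u x)) y * VV hh u y * rho K y =
        ∑ x, ∑ y, (w x * v x) * (hh x y * rho K y) * (u x * VV hh u y) := by
      intro u
      rw [Finset.sum_comm]
      refine Finset.sum_congr rfl fun y _ => ?_
      rw [WH, Finset.sum_mul, Finset.sum_mul]
      refine Finset.sum_congr rfl fun x _ => ?_
      ring
    have hc : ∀ x y : XX n, Integrable (fun u : XX n → ℝ => u x * VV hh u y) (muX (XX n)) := by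
      intro x y
      refine H2Q.integrable_of_cont ?_
      exact (continuous_apply x).mul ((continuous_apply y).comp (H2Q.VV_cont hh))
    simp only [h1]
    rw [integral_finsetSum _ fun x _ => integrable_finsetSum _ fun y _ => (hc x y).const_mul _]
    refine Finset.sum_congr rfl fun x _ => ?_
    rw [integral_finsetSum _ fun y _ => (hc x y).const_mul _, rho, Finset.mul_sum]
    refine Finset.sum_congr rfl fun y _ => ?_
    rw [integral_const_mul, cc]
    ring

theorem phiMean : Spec.PhiMean := by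
  refine ⟨1 / 32, by norm_num, by norm_num, fun n K _ => ?_⟩
  have h := mean (n := n) K (fun _ => 1 / Real.sqrt (2 ^ n)) (fun _ => 1)
  have e : (fun f : Fin (K + 1) → XX n → Bool => Phi f) = fun f =>
      chain (K + 1) (fun _ => 1 / Real.sqrt (2 ^ n)) (fun l x => sg (f l x)) (fun _ => false) := rfl
  rw [e, h]
  have h2 : ∑ x : XX n, 1 / Real.sqrt (2 ^ n) * 1 * (1 / 32) ^ K ≤
      ∑ x : XX n, 1 / Real.sqrt (2 ^ n) * 1 * rho K x := by
    refine Finset.sum_le_sum fun x _ => ?_
    have := rho_ge K x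
    have hp : 0 ≤ 1 / Real.sqrt (2 ^ n) * 1 := by positivity
    exact mul_le_mul_of_nonneg_left this hp
  have h3 := mul_le_mul_of_nonneg_left h2 (show (0 : ℝ) ≤ 1 / Real.sqrt (2 ^ n) by positivity)
  refine le_trans (le_of_eq ?_) h3
  simp only [Finset.sum_const, Finset.card_univ, nsmul_eq_mul, card_XX]
  have hs := sqN (n := n)
  have hp := sqN_pos (n := n)
  field_simp
  rw [hs]

end Mean

end Crest.Agent.H24QPhi
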