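import Mathlib
import Crest.Prelude.Def_QueryComplexity

/-!
# rid 350 (S0554): definitions shared by all modules

Conventions.  `sg b = -1` for `b = true`, `+1` for `b = false`.
-/

set_option autoImplicit false

open Crest.MathPhysics.Query MeasureTheory

namespace Crest.Agent.QG

/-- sign of a bit -/
def sg (b : Bool) : ℝ := if b then -1 else 1

/-! ## Quantum framework -/

section Quantum

variable {I : Type}

/-- the oracle on the space with basis `I × Bool × W` -/
def orc {W : Type} (x : I → Bool) (ψ : I × Bool × W → ℂ) : I × Bool × W → ℂ :=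
  fun e => ψ (e.1, xor e.2.1 (x e.1), e.2.2)

/-- the state after `t` oracle calls -/
def run [Fintype I] [DecidableEq I] {W : Type} [Fintype W]
    (U : ℕ → Matrix (I × Bool × W) (I × Bool × W) ℂ) (x : I → Bool)
    (ψ₀ : I × Bool × W → ℂ) : ℕ → (I × Bool × W → ℂ)
  | 0 => (U 0).mulVec ψ₀
  | t + 1 => (U (t + 1)).mulVec (orc x (run U x ψ₀ t))

/-- `Prep I q E ψ`: some algorithm with exactly `q` oracle calls prepares, for every input `x`,
exactly the state `ψ x` (living on an injected copy of `E` in the basis, zero elsewhere). -/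
def Prep (I : Type) [Fintype I] [DecidableEq I] (q : ℕ) (E : Type)
    (ψ : (I → Bool) → E → ℂ) : Prop :=
  ∃ (w : ℕ) (U : ℕ → Matrix (I × Bool × Fin w) (I × Bool × Fin w) ℂ)
    (ψ₀ : I × Bool × Fin w → ℂ) (emb : E → I × Bool × Fin w),
    (∀ t, U t ∈ Matrix.unitaryGroup (I × Bool × Fin w) ℂ) ∧ ∑ e, ‖ψ₀ e‖ ^ 2 = 1 ∧
      Function.Injective emb ∧
      ∀ x, (∀ e, run U x ψ₀ q (emb e) = ψ x e) ∧ (∀ y, y ∉ Set.range emb → run U x ψ₀ q y = 0)

/-- `Samp I q E P`: some algorithm with exactly `q` oracle calls, measured at the end, has outcome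
distribution exactly `P x` on `E` on every input `x` (outcome = function `g` of the basis state). -/
def Samp (I : Type) [Fintype I] [DecidableEq I] (q : ℕ) (E : Type) [DecidableEq E]
    (P : (I → Bool) → E → ℝ) : Prop :=
  ∃ (N : ℕ) (g : Fin N → E) (ψ : (I → Bool) → Fin N → ℂ),
    Prep I q (Fin N) ψ ∧ ∀ x e, ∑ i, (if g i = e then ‖ψ x i‖ ^ 2 else 0) = P x e

/-- coefficients of amplitude amplification: `(a_j, b_j)` for the good / bad part after `j`
iterations, when the initial good probability is `p`. -/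
def aaC (p : ℝ) : ℕ → ℝ × ℝ
  | 0 => (1, 1)
  | j + 1 => ((1 - 2 * p) * (aaC p j).1 + 2 * (1 - p) * (aaC p j).2,
      -(2 * p) * (aaC p j).1 + (1 - 2 * p) * (aaC p j).2)

/-- a deterministic function of the input, computed with exactly `q` oracle calls -/
def Det (I : Type) [Fintype I] [DecidableEq I] (q : ℕ) (E : Type) [DecidableEq E]
    (φ : (I → Bool) → E) : Prop :=
  Samp I q E (fun x e => if φ x = e then 1 else 0)

end Quantum

/-! ## Decision trees over an arbitrary index type -/

/-- Boolean decision trees over `I` -/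
inductive GT (I : Type) : Type where
  | leaf (b : Bool) : GT I
  | node (i : I) (t₀ t₁ : GT I) : GT I

namespace GT
variable {I : Type}

def eval (x : I → Bool) : GT I → Bool
  | leaf b => b
  | node i t₀ t₁ => if x i then t₁.eval x else t₀.eval x

def depth : GT I → ℕ
  | leaf _ => 0
  | node _ t₀ t₁ => max t₀.depth t₁.depth + 1

/-- indicator of acceptance -/
noncomputable def ind (T : GT I) (x : I → Bool) : ℝ := if T.eval x then 1 else 0

end GT

/-! ## The Walsh-Hadamard matrix and the layered chain -/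

section Chain

/-- the group `{0,1}^n`, written as functions -/
abbrev XX (n : ℕ) : Type := Fin n → Bool

/-- parity of the inner product -/
def dotp {n : ℕ} (x y : XX n) : Bool := (Finset.univ.filter fun i => (x i && y i) = true).card % 2 = 1

/-- `(-1)^{x·y}` -/
def chi {n : ℕ} (x y : XX n) : ℝ := sg (dotp x y)

/-- normalized Walsh-Hadamard entry -/
noncomputable def hh {n : ℕ} (x y : XX n) : ℝ := chi x y / Real.sqrt (2 ^ n)

/-- normalized Walsh-Hadamard transform -/
noncomputable def WH {n : ℕ} (w : XX n → ℝ) : XX n → ℝ := fun y => ∑ x, hh x y * w x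

/-- `chain K w z`: start with `w`; for each layer multiply pointwise by `z l` and transform. -/
noncomputable def chain {n : ℕ} : (K : ℕ) → (XX n → ℝ) → (Fin K → XX n → ℝ) → (XX n → ℝ)
  | 0, w, _ => w
  | K + 1, w, z => chain K (WH fun x => w x * z 0 x) (fun l => z l.succ)

/-- the Forrelation value of `K` layers of bits -/
noncomputable def Phi {n K : ℕ} (f : Fin K → XX n → Bool) : ℝ :=
  chain K (fun _ => 1 / Real.sqrt (2 ^ n)) (fun l x => sg (f l x)) (fun _ => false)

end Chain

/-! ## Multiaffine extensions and the planted law -/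

section Law

/-- multiaffine extension of a function of `K` layers of bits -/
noncomputable def Ext {X : Type} [Fintype X] [DecidableEq X] {K : ℕ}
    (g : (Fin K → X → Bool) → ℝ) (z : Fin K → X → ℝ) : ℝ :=
  ∑ b : Fin K → X → Bool, g b * ∏ l, ∏ x, (1 + sg (b l x) * z l x) / 2

/-- partial extension in the first layer -/
noncomputable def Ext1 {X : Type} [Fintype X] [DecidableEq X] {K : ℕ}
    (g : (Fin (K + 1) → X → Bool) → ℝ) (w : X → ℝ) : (Fin K → X → Bool) → ℝ :=
  fun b => ∑ b₁ : X → Bool, (∏ x, (1 + sg (b₁ x) * w x) / 2) * g (Fin.cons b₁ b)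

/-- iterated discrete derivative in one position of every layer -/
noncomputable def DC {X : Type} [DecidableEq X] {K : ℕ} (c : Fin K → X)
    (g : (Fin K → X → Bool) → ℝ) : (Fin K → X → Bool) → ℝ :=
  fun b => ∑ s : Fin K → Bool, (∏ l, sg (s l) / 2) *
    g (fun l => Function.update (b l) (c l) (s l))

/-- product of uniform laws on `[-1/2,1/2]` -/
noncomputable def muX (X : Type) [Fintype X] : Measure (X → ℝ) :=
  Measure.pi fun _ => (volume.restrict (Set.Icc (-(1/2) : ℝ) (1/2)))

/-- the values `V(u) = ½ sin(h u)` -/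
noncomputable def VV {X : Type} [Fintype X] (h : X → X → ℝ) (u : X → ℝ) : X → ℝ :=
  fun y => Real.sin (∑ x, h x y * u x) / 2

/-- `Psi h K g v`: expectation of `g` on `K+1` layers of bits with means
`z_0 = v ∘ U_0`, `z_i = V_{i-1} ∘ U_i`, `z_K = V_{K-1}` (and `z_0 = v` if `K = 0`). -/
noncomputable def Psi {X : Type} [Fintype X] [DecidableEq X] (h : X → X → ℝ) :
    (K : ℕ) → ((Fin (K + 1) → X → Bool) → ℝ) → (X → ℝ) → ℝ
  | 0, g, v => Ext g (fun _ => v)
  | K + 1, g, v => ∫ u, Psi h K (Ext1 g (fun x => v x * u x)) (VV h u) ∂(muX X)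

end Law

end Crest.Agent.QG
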