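import Crest.Agent.H27QDefs

/-!
# rid 350 (S0554): module statements (each a `Prop`), proved in separate files.
-/

set_option autoImplicit false

open Crest.MathPhysics.Query MeasureTheory

namespace Crest.Agent.QG.Spec

/-! ### Q: quantum framework -/

/-- QA0a: families with the same Gram matrix are related by one unitary matrix -/
def Gram : Prop :=
  ∀ (D Y : Type) [Fintype D] [DecidableEq D] [Fintype Y] (u v : Y → D → ℂ),
    (∀ x y, ∑ e, star (u x e) * u y e = ∑ e, star (v x e) * v y e) →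
    ∃ U ∈ Matrix.unitaryGroup D ℂ, ∀ x, U.mulVec (u x) = v x

/-- QA0b: an algorithm can be given by its states alone (Gram conditions between consecutive
states).  `W` may be any finite type. -/
def PrepOfStates : Prop :=
  ∀ (I : Type) [Fintype I] [DecidableEq I] (W : Type) [Fintype W] [DecidableEq W] (q : ℕ)
    (E : Type) (ψ : (I → Bool) → E → ℂ) (s : ℕ → (I → Bool) → (I × Bool × W → ℂ))
    (emb : E → I × Bool × W),
    (∀ x y, ∑ e, star (s 0 x e) * s 0 y e = 1) →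
    (∀ t, t < q → ∀ x y, ∑ e, star (s (t + 1) x e) * s (t + 1) y e =
      ∑ e, star (orc x (s t x) e) * orc y (s t y) e) →
    Function.Injective emb →
    (∀ x, (∀ e, s q x (emb e) = ψ x e) ∧ (∀ y, y ∉ Set.range emb → s q x y = 0)) →
    Prep I q E ψ

/-- QA1 -/
def PrepConst : Prop :=
  ∀ (I : Type) [Fintype I] [DecidableEq I] [Nonempty I] (E : Type) [Fintype E] (φ : E → ℂ),
    ∑ e, ‖φ e‖ ^ 2 = 1 → Prep I 0 E (fun _ => φ)

/-- QA2 -/
def PrepIso : Prop :=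
  ∀ (I : Type) [Fintype I] [DecidableEq I] (E E' : Type) [Fintype E] [DecidableEq E] [Fintype E']
    (q : ℕ) (ψ : (I → Bool) → E → ℂ) (V : Matrix E' E ℂ), V.conjTranspose * V = 1 →
    Prep I q E ψ → Prep I q E' (fun x => V.mulVec (ψ x))

/-- QA3 (phase query) -/
def PrepPhase : Prop :=
  ∀ (I : Type) [Fintype I] [DecidableEq I] (E : Type) [Fintype E] (q : ℕ)
    (ψ : (I → Bool) → E → ℂ) (pos : E → I), Prep I q E ψ →
    Prep I (q + 1) E (fun x e => (if x (pos e) then -1 else 1) * ψ x e)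

/-- QA4 (read a bit) -/
def PrepRead : Prop :=
  ∀ (I : Type) [Fintype I] [DecidableEq I] (i : I),
    Prep I 1 Bool (fun x b => if x i = b then 1 else 0)

/-- QA5 (controlled sequential composition; pure deferral of the measurement) -/
def PrepBind : Prop :=
  ∀ (I : Type) [Fintype I] [DecidableEq I] (E E₂ : Type) [Fintype E] [Fintype E₂] (q₁ q₂ : ℕ)
    (ψ : (I → Bool) → E → ℂ) (φ : E → (I → Bool) → E₂ → ℂ), Prep I q₁ E ψ →
    (∀ e, Prep I q₂ E₂ (φ e)) →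
    Prep I (q₁ + q₂) (E × E₂) (fun x p => ψ x p.1 * φ p.1 x p.2)

/-- QA6 (a dummy query) -/
def PrepPad : Prop :=
  ∀ (I : Type) [Fintype I] [DecidableEq I] [Nonempty I] (E : Type) [Fintype E] (q : ℕ)
    (ψ : (I → Bool) → E → ℂ), Prep I q E ψ → Prep I (q + 1) E ψ

/-- QA7 (amplitude amplification, exact formula) -/
def PrepAmp : Prop :=
  ∀ (I : Type) [Fintype I] [DecidableEq I] (E : Type) [Fintype E] (q : ℕ)
    (ψ : (I → Bool) → E → ℂ) (G : E → Bool) (j : ℕ), Prep I q E ψ →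
    Prep I ((2 * j + 1) * q) E (fun x e =>
      (((if G e then (aaC (∑ e', if G e' then ‖ψ x e'‖ ^ 2 else 0) j).1
        else (aaC (∑ e', if G e' then ‖ψ x e'‖ ^ 2 else 0) j).2 : ℝ)) : ℂ) * ψ x e)

/-- QB0: the outcome distribution is a probability distribution -/
def SampProb : Prop :=
  ∀ (I : Type) [Fintype I] [DecidableEq I] (E : Type) [Fintype E] [DecidableEq E] (q : ℕ)
    (P : (I → Bool) → E → ℝ), Samp I q E P → ∀ x, (∀ e, 0 ≤ P x e) ∧ ∑ e, P x e = 1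

/-- QB1 -/
def SampPure : Prop :=
  ∀ (I : Type) [Fintype I] [DecidableEq I] [Nonempty I] (E : Type) [Fintype E] [DecidableEq E]
    (P : E → ℝ), (∀ e, 0 ≤ P e) → ∑ e, P e = 1 → Samp I 0 E (fun _ => P)

/-- QB2 -/
def SampRead : Prop :=
  ∀ (I : Type) [Fintype I] [DecidableEq I] (i : I), Det I 1 Bool (fun x => x i)

/-- QB3 -/
def SampBind : Prop :=
  ∀ (I : Type) [Fintype I] [DecidableEq I] (E E₂ : Type) [Fintype E] [DecidableEq E]
    [Fintype E₂] [DecidableEq E₂] (q₁ q₂ : ℕ)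
    (P : (I → Bool) → E → ℝ) (Q : E → (I → Bool) → E₂ → ℝ), Samp I q₁ E P →
    (∀ e, Samp I q₂ E₂ (Q e)) →
    Samp I (q₁ + q₂) (E × E₂) (fun x p => P x p.1 * Q p.1 x p.2)

/-- QB4 -/
def SampMap : Prop :=
  ∀ (I : Type) [Fintype I] [DecidableEq I] (E E' : Type) [Fintype E] [DecidableEq E]
    [DecidableEq E'] (q : ℕ) (P : (I → Bool) → E → ℝ) (g : E → E'), Samp I q E P →
    Samp I q E' (fun x e' => ∑ e, if g e = e' then P x e else 0)

/-- QB5 -/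
def SampPad : Prop :=
  ∀ (I : Type) [Fintype I] [DecidableEq I] [Nonempty I] (E : Type) [Fintype E] [DecidableEq E]
    (q q' : ℕ) (P : (I → Bool) → E → ℝ), q ≤ q' → Samp I q E P → Samp I q' E P

/-- QB6 -/
def SampAmp : Prop :=
  ∀ (I : Type) [Fintype I] [DecidableEq I] (E : Type) [Fintype E] [DecidableEq E] (q : ℕ)
    (P : (I → Bool) → E → ℝ) (G : E → Bool) (j : ℕ), Samp I q E P →
    Samp I ((2 * j + 1) * q) E (fun x e =>
      (if G e then (aaC (∑ e', if G e' then P x e' else 0) j).1 ^ 2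
        else (aaC (∑ e', if G e' then P x e' else 0) j).2 ^ 2) * P x e)

/-- QB7 -/
def SampQC : Prop :=
  ∀ (I : Type) [Fintype I] [DecidableEq I] (E : Type) [Fintype E] [DecidableEq E] (q : ℕ)
    (P : (I → Bool) → E → ℝ) (out : E → Bool) (F : (I → Bool) → Bool), Samp I q E P →
    (∀ x, 2 / 3 ≤ ∑ e, if out e = F x then P x e else 0) →
    ∀ (n : ℕ) (σ : I ≃ Fin n), QuantumComputes (fun x : Fin n → Bool => F (fun i => x (σ i))) q

/-- QC: the averaged amplitude amplification bound (pure real analysis) -/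
def AAvg : Prop :=
  ∀ (p : ℝ) (J : ℕ), 0 < J → 0 < p → p ≤ 1 / 2 → 1 ≤ 2 * p * (J : ℝ) ^ 2 →
    (1 / 4 : ℝ) ≤ (∑ j ∈ Finset.range J, (aaC p j).1 ^ 2 * p) / J

/-- QD: search with unknown success probability; cost `2*J*q` -/
def SampSearch : Prop :=
  ∀ (I : Type) [Fintype I] [DecidableEq I] [Nonempty I] (E : Type) [Fintype E] [DecidableEq E]
    (q J : ℕ) (P : (I → Bool) → E → ℝ) (G : E → Bool), 0 < J → Samp I q E P →
    ∃ Q : (I → Bool) → Option E → ℝ, Samp I (2 * J * q) (Option E) Q ∧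
      ∀ x, ∃ w : ℝ, 0 ≤ w ∧ (∀ e, Q x (some e) = if G e then w * P x e else 0) ∧
        (1 ≤ (J : ℝ) ^ 2 * (∑ e, if G e then P x e else 0) →
          (1 / 4 : ℝ) ≤ w * (∑ e, if G e then P x e else 0))

/-- QE: the chain (Forrelation) circuit -/
def SampChain : Prop :=
  ∀ (I : Type) [Fintype I] [DecidableEq I] [Nonempty I] (n K : ℕ) (pos : Fin K → XX n → I),
    Samp I K Bool (fun x b => if b then Phi (fun l y => x (pos l y)) ^ 2
      else 1 - Phi (fun l y => x (pos l y)) ^ 2)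

/-! ### T: the tournament algorithm (from the `Samp` API) -/

def Tour : Prop :=
  ∀ (I : Type) [Fintype I] [DecidableEq I] [Nonempty I]
    (X A Con : Type) [Fintype X] [DecidableEq X] [Nonempty X] [Fintype A] [DecidableEq A]
    [Fintype Con] [DecidableEq Con] [Nonempty Con] (qD qB qV : ℕ)
    (ν : X → (I → Bool) → A → ℝ) (bt : X × A → X × A → (I → Bool) → Bool)
    (ok : X → A → Con → (I → Bool) → Bool) (F : (I → Bool) → Bool),
    (∀ j, Samp I qD A (ν j)) → (∀ e π, Det I qB Bool (bt e π)) →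
    (∀ b a l, Det I qV Bool (ok b a l)) →
    (∀ x e π, bt e π x = true → bt π e x = false) →
    (∀ x b a, (∀ l, ok b a l x = true) →
      (∀ p a', p ≠ b → bt (b, a) (p, a') x = true) ∧ (1 / 2 : ℝ) ≤ ν b x a) →
    (∀ x, F x = true ↔ ∃ b a, ∀ l, ok b a l x = true) →
    ∀ (T R R₂ J J' : ℕ), 0 < J → 0 < J' → 2 * Fintype.card X ≤ J ^ 2 →
      Fintype.card Con ≤ J' ^ 2 → 40 * Fintype.card X * 7 ^ T ≤ 8 ^ T → 20 ≤ 2 ^ R →
      10 * T * R * 3 ^ R₂ ≤ 4 ^ R₂ →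
      ∃ P : (I → Bool) → Bool → ℝ,
        Samp I (T * (2 * J * (qD + T * qB)) + T * (R * (qD + R₂ * (2 * J' * qV)))) Bool P ∧
        ∀ x, (2 / 3 : ℝ) ≤ P x (F x)

/-! ### R: the randomized lower bound, abstract form -/

/-- index type of the input of the total function -/
abbrev Pos (X A KP SP : Type) : Type := (X × X) ⊕ ((X × KP) ⊕ (A × SP))

open Classical in
def RandLB : Prop :=
  ∀ (X A KP SP : Type) [Fintype X] [DecidableEq X] [Nonempty X] [Fintype A] [DecidableEq A]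
    [Nonempty A] [Fintype KP] [DecidableEq KP] [Fintype SP] [DecidableEq SP]
    (F : (Pos X A KP SP → Bool) → Bool) (Good : A → (KP → Bool) → Prop)
    (w : A → (KP → Bool) → ℝ) (w₀ : (KP → Bool) → ℝ) (t r : ℕ), 0 < t →
    (∀ x, (∀ j, ∃ ρ, x (Sum.inl (ρ, j)) = false) → F x = false) →
    (∀ (b : X) (a : A) (z : X → X) (κ : KP → Bool), Good a κ → ∃ σ : SP → Bool,
      ∀ x : Pos X A KP SP → Bool, (∀ ρ, x (Sum.inl (ρ, b)) = true) →
        (∀ j, j ≠ b → x (Sum.inl (z j, j)) = false) →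
        (∀ i, x (Sum.inr (Sum.inl (b, i))) = κ i) →
        (∀ s, x (Sum.inr (Sum.inr (a, s))) = σ s) → F x = true) →
    (∀ a κ, 0 ≤ w a κ) → (∀ a, ∑ κ, w a κ = 1) → (∀ κ, 0 ≤ w₀ κ) → ∑ κ, w₀ κ = 1 →
    (∀ a, ∑ κ, (if Good a κ then 0 else w a κ) ≤ 1 / 100) →
    (∀ a (T : GT KP), T.depth ≤ t →
      ∑ κ, w a κ * T.ind κ ≤ ∑ κ, w₀ κ * T.ind κ + 1 / 100) →
    ∀ (s : ℕ) (p : Fin s → ℝ) (T : Fin s → GT (Pos X A KP SP)), (∀ j, 0 ≤ p j) → ∑ j, p j = 1 →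
      (∀ j, (T j).depth ≤ r) →
      (∀ x, (2 / 3 : ℝ) ≤ ∑ j, if (T j).eval x = F x then p j else 0) →
      (1 / 4 : ℝ) ≤ 2 * r / ((Fintype.card X : ℝ) * (Fintype.card X + 1)) +
        r / ((Fintype.card X : ℝ) * t) + r / (Fintype.card A : ℝ)

/-! ### L: the key law -/

/-- L1: level-`K` Fourier weight of decision trees -/
def Level : Prop :=
  ∀ (X : Type) [Fintype X] [DecidableEq X] (K d q : ℕ) (T : GT (Fin K × X)), 0 < K → 0 < q →
    0 < d → T.depth ≤ d → ∀ z : Fin K → X → ℝ, (∀ l x, |z l x| ≤ 1 / 2) →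
    (∑ c : Fin K → X, |Ext (DC c (fun b => T.ind (fun p => b p.1 p.2))) z|) ^ (2 * q) ≤
      Real.exp (4 ^ q) * (16 ^ q * (K * Fintype.card X) * (d : ℝ) ^ q) ^ K

/-- L2: interpolation by exact integration by parts -/
def Interp : Prop :=
  ∀ (X : Type) [Fintype X] [DecidableEq X] (h : X → X → ℝ) (η : ℝ), 0 ≤ η →
    (∀ x y, |h x y| ≤ η) → ∀ (K : ℕ) (g : (Fin (K + 1) → X → Bool) → ℝ) (W : ℝ), 0 < K →
    (∀ z : Fin (K + 1) → X → ℝ, (∀ l x, |z l x| ≤ 1 / 2) →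
      ∑ c : Fin (K + 1) → X, |Ext (DC c g) z| ≤ W) →
    |Psi h K g (fun _ => 1) - Psi h K g (fun _ => 0)| ≤ (η / 16) ^ K * W

/-- L3: `Psi` is a law (for `v` with entries in `[-1,1]`, `K > 0`) -/
def PsiLaw : Prop :=
  ∀ (X : Type) [Fintype X] [DecidableEq X] (h : X → X → ℝ) (K : ℕ) (v : X → ℝ), 0 < K →
    (∀ x, |v x| ≤ 1) →
    (∀ g : (Fin (K + 1) → X → Bool) → ℝ, (∀ b, 0 ≤ g b) → 0 ≤ Psi h K g v) ∧
    Psi h K (fun _ => 1) v = 1 ∧
    (∀ (g g' : (Fin (K + 1) → X → Bool) → ℝ), Psi h K (fun b => g b + g' b) v =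
      Psi h K g v + Psi h K g' v) ∧
    (∀ (a : ℝ) (g : (Fin (K + 1) → X → Bool) → ℝ), Psi h K (fun b => a * g b) v =
      a * Psi h K g v)

/-- L4: planted chain value -/
def PhiMean : Prop :=
  ∃ τ : ℝ, 0 < τ ∧ τ ≤ 1 ∧ ∀ (n K : ℕ), 0 < K →
    τ ^ K ≤ Psi (hh (n := n)) K (fun f => Phi f) (fun _ => 1)

/-- L5: unplanted chain value -/
def PhiNull : Prop :=
  ∀ (n K : ℕ), 0 < K →
    Psi (hh (n := n)) K (fun f => Phi f ^ 2) (fun _ => 0) = 1 / 2 ^ n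

/-- `|Phi| ≤ 1` -/
def PhiLe : Prop := ∀ (n K : ℕ) (f : Fin K → XX n → Bool), Phi f ^ 2 ≤ 1

/-- single copy law -/
def SingleLaw : Prop :=
  ∃ τ : ℝ, 0 < τ ∧ τ ≤ 1 ∧ ∀ (n K : ℕ), 0 < K →
    ∃ w₁ w₀ : (Fin (K + 1) → XX n → Bool) → ℝ,
      (∀ f, 0 ≤ w₁ f) ∧ (∀ f, 0 ≤ w₀ f) ∧ ∑ f, w₁ f = 1 ∧ ∑ f, w₀ f = 1 ∧
      τ ^ (2 * K) ≤ ∑ f, w₁ f * Phi f ^ 2 ∧ ∑ f, w₀ f * Phi f ^ 2 ≤ 1 / 2 ^ n ∧
      ∀ (q d : ℕ) (T : GT (Fin (K + 1) × XX n)), 0 < q → 0 < d → T.depth ≤ d →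
        |∑ f, w₁ f * T.ind (fun p => f p.1 p.2) - ∑ f, w₀ f * T.ind (fun p => f p.1 p.2)| ^ (2 * q)
          ≤ (1 / (16 * Real.sqrt (2 ^ n))) ^ (K * (2 * q)) *
            (Real.exp (4 ^ q) * (16 ^ q * ((K + 1 : ℕ) * (2 : ℝ) ^ n) * (d : ℝ) ^ q) ^ (K + 1))

/-- index type of a key: `c` address bits, `r₀` copies each, `K` layers -/
structure KP (n K c r₀ : ℕ) : Type where
  i : Fin c
  s : Fin r₀
  l : Fin K
  y : XX n
deriving DecidableEq, Fintype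

/-- the promise: copy `s` of bit `i` of the key -/
noncomputable def cphi {n K c r₀ : ℕ} (κ : KP n K c r₀ → Bool) (i : Fin c) (s : Fin r₀) : ℝ :=
  Phi (fun (l : Fin K) (y : XX n) => κ ⟨i, s, l, y⟩) ^ 2

/-- the promise of the address `a` with thresholds `θ₁` (planted) and `θ₀` (not planted) -/
def Good {n K c r₀ : ℕ} (θ₁ θ₀ : ℝ) (a : XX c) (κ : KP n K c r₀ → Bool) : Prop :=
  ∀ i, if a i then ∃ s, θ₁ ≤ cphi κ i s else ∀ s, cphi κ i s ≤ θ₀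

open Classical in
/-- L6: the key law with all parameters -/
def KeyLaw : Prop :=
  ∀ k : ℕ, 2 ≤ k → ∃ θ : ℝ, 0 < θ ∧ θ ≤ 1 ∧ ∀ ρ : ℕ, 400 ≤ ρ * θ → ∃ n₀ : ℕ, ∀ n : ℕ, n₀ ≤ n →
    ∀ (c r₀ : ℕ) (θ₀ : ℝ), c = 2 * n + 8 → r₀ = ρ * c → θ₀ = 1 / (2 * ρ ^ 2 * c ^ 3) →
    ∃ (w : XX c → (KP n (k + 1) c r₀ → Bool) → ℝ) (w₀ : (KP n (k + 1) c r₀ → Bool) → ℝ),
      (∀ a κ, 0 ≤ w a κ) ∧ (∀ a, ∑ κ, w a κ = 1) ∧ (∀ κ, 0 ≤ w₀ κ) ∧ ∑ κ, w₀ κ = 1 ∧
      (∀ a, ∑ κ, (if Good (θ / 2) θ₀ a κ then 0 else w a κ) ≤ 1 / 100) ∧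
      (∀ a (T : GT (KP n (k + 1) c r₀)),
        (T.depth : ℝ) ≤ ((2 : ℝ) ^ n) ^ (1 - 1 / (k : ℝ)) →
        ∑ κ, w a κ * T.ind κ ≤ ∑ κ, w₀ κ * T.ind κ + 1 / 100)

/-! ### F: the total function -/

/-- tableau index -/
structure TIx (n K c r₀ : ℕ) : Type where
  i : Fin c
  s : Fin r₀
  l : Fin K
  t : Fin (n + 1)
  y : XX n
deriving DecidableEq, Fintype

/-- sheet positions: `n`-bit pointers, one for each column, and integer cells of the tableau -/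
inductive SP (n K c r₀ Lb : ℕ) : Type where
  | ptr (p : XX n) (i : Fin n)
  | tab (τ : TIx n K c r₀) (β : Fin Lb)
deriving DecidableEq, Fintype

/-- all input positions -/
abbrev PP (n K c r₀ Lb : ℕ) : Type := Pos (XX n) (XX c) (KP n K c r₀) (SP n K c r₀ Lb)

section Fn

variable {n K c r₀ Lb : ℕ}

/-- matrix cell -/
def mat (x : PP n K c r₀ Lb → Bool) (ρ j : XX n) : Bool := x (Sum.inl (ρ, j))

/-- key of column `j` -/
def key (x : PP n K c r₀ Lb → Bool) (j : XX n) : KP n K c r₀ → Bool :=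
  fun i => x (Sum.inr (Sum.inl (j, i)))

/-- pointer of sheet `a` for column `p` -/
def ptr (x : PP n K c r₀ Lb → Bool) (a : XX c) (p : XX n) : XX n :=
  fun i => x (Sum.inr (Sum.inr (a, SP.ptr p i)))

/-- integer decoding -/
def decZ (off : ℤ) {L : ℕ} (b : Fin L → Bool) : ℤ := (∑ β : Fin L, if b β then 2 ^ (β : ℕ) else 0) - off

/-- tableau cell (an integer) of sheet `a` -/
def cell (x : PP n K c r₀ Lb → Bool) (a : XX c) (τ : TIx n K c r₀) : ℤ :=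
  decZ (2 ^ (n * K)) (fun β : Fin Lb => x (Sum.inr (Sum.inr (a, SP.tab τ β))))

/-- sign as an integer -/
def sgZ (b : Bool) : ℤ := if b then -1 else 1

/-- the constraints of type 3: base of layer `l` (`t = 0`) or butterfly step -/
def tabOK (x : PP n K c r₀ Lb → Bool) (b : XX n) (a : XX c) (τ : TIx n K c r₀) : Prop :=
  if ht : (τ.t : ℕ) = 0 then
    cell x a τ = sgZ (key x b ⟨τ.i, τ.s, τ.l, τ.y⟩) *
      (if hl : (τ.l : ℕ) = 0 then 1
        else cell x a ⟨τ.i, τ.s, ⟨(τ.l : ℕ) - 1, by omega⟩, Fin.last n, τ.y⟩)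
  else
    cell x a τ =
      cell x a ⟨τ.i, τ.s, τ.l, ⟨(τ.t : ℕ) - 1, by omega⟩,
        Function.update τ.y ⟨(τ.t : ℕ) - 1, by omega⟩ false⟩ +
      sgZ (τ.y ⟨(τ.t : ℕ) - 1, by omega⟩) *
        cell x a ⟨τ.i, τ.s, τ.l, ⟨(τ.t : ℕ) - 1, by omega⟩,
          Function.update τ.y ⟨(τ.t : ℕ) - 1, by omega⟩ true⟩

/-- the final value constraint of address bit `i` (with `K = k+1` layers) -/
def finOK {k : ℕ} (θ₁ θ₀ : ℝ) (x : PP n (k + 1) c r₀ Lb → Bool) (a : XX c) (i : Fin c) : Prop :=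
  if a i then ∃ s, θ₁ * ((2 : ℝ) ^ n) ^ (k + 2) ≤
      ((cell x a ⟨i, s, Fin.last k, Fin.last n, fun _ => false⟩ : ℤ) : ℝ) ^ 2
  else ∀ s, ((cell x a ⟨i, s, Fin.last k, Fin.last n, fun _ => false⟩ : ℤ) : ℝ) ^ 2 ≤
      θ₀ * ((2 : ℝ) ^ n) ^ (k + 2)

/-- constraint index -/
inductive Con (n K c r₀ : ℕ) : Type where
  | all (ρ : XX n)
  | zero (p : XX n)
  | tab (τ : TIx n K c r₀)
  | fin (i : Fin c)
deriving DecidableEq, Fintype

open Classical in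
/-- the local constraints of the item `(b, a)` -/
noncomputable def ok {k : ℕ} (θ₁ θ₀ : ℝ) (b : XX n) (a : XX c) :
    Con n (k + 1) c r₀ → (PP n (k + 1) c r₀ Lb → Bool) → Bool
  | Con.all ρ, x => mat x ρ b
  | Con.zero p, x => decide (p = b ∨ mat x (ptr x a p) p = false)
  | Con.tab τ, x => decide (tabOK x b a τ)
  | Con.fin i, x => decide (finOK θ₁ θ₀ x a i)

open Classical in
/-- the total function -/
noncomputable def FF (n k c r₀ Lb : ℕ) (θ₁ θ₀ : ℝ) (x : PP n (k + 1) c r₀ Lb → Bool) : Bool :=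
  decide (∃ (b : XX n) (a : XX c), ∀ l, ok θ₁ θ₀ b a l x = true)

/-- the comparison of two items -/
def bt (e π : XX n × XX c) (x : PP n K c r₀ Lb → Bool) : Bool :=
  decide (e.1 ≠ π.1) && (!(mat x (ptr x e.2 π.1) π.1) && mat x (ptr x π.2 e.1) e.1)

end Fn

/-- F1: soundness of the tableau: a valid item has a good key -/
def FSound : Prop :=
  ∀ (n k c r₀ Lb : ℕ) (θ₁ θ₀ : ℝ) (x : PP n (k + 1) c r₀ Lb → Bool) (b : XX n) (a : XX c),
    (∀ l, ok θ₁ θ₀ b a l x = true) → Good θ₁ θ₀ a (key x b)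

/-- F2: completeness: a good key has a sheet -/
def FComplete : Prop :=
  ∀ (n k c r₀ Lb : ℕ) (θ₁ θ₀ : ℝ), n * (k + 1) + 2 ≤ Lb →
    ∀ (b : XX n) (a : XX c) (z : XX n → XX n) (κ : KP n (k + 1) c r₀ → Bool), Good θ₁ θ₀ a κ →
    ∃ σ : SP n (k + 1) c r₀ Lb → Bool, ∀ x : PP n (k + 1) c r₀ Lb → Bool,
      (∀ ρ, x (Sum.inl (ρ, b)) = true) → (∀ j, j ≠ b → x (Sum.inl (z j, j)) = false) →
      (∀ i, x (Sum.inr (Sum.inl (b, i))) = κ i) → (∀ s, x (Sum.inr (Sum.inr (a, s))) = σ s) →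
      FF n k c r₀ Lb θ₁ θ₀ x = true

/-- F3: costs of the deterministic tests (from the `Samp` API) -/
def FDet : Prop :=
  ∀ (n k c r₀ Lb : ℕ) (θ₁ θ₀ : ℝ),
    (∀ e π : XX n × XX c, Det (PP n (k + 1) c r₀ Lb) (2 * n + 2) Bool (bt e π)) ∧
    (∀ (b : XX n) (a : XX c) (l : Con n (k + 1) c r₀),
      Det (PP n (k + 1) c r₀ Lb) (n + 2 + (r₀ + 3) * Lb) Bool (ok θ₁ θ₀ b a l))

/-- probability that no test of bit `i` succeeds -/
noncomputable def fail {n K c r₀ : ℕ} (R₁ : ℕ) (κ : KP n K c r₀ → Bool) (i : Fin c) : ℝ :=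
  ∏ s, (1 - cphi κ i s) ^ R₁

/-- law of the decoded address of column `j` -/
noncomputable def nu {n K c r₀ Lb : ℕ} (R₁ : ℕ) (j : XX n) (x : PP n K c r₀ Lb → Bool)
    (a : XX c) : ℝ :=
  ∏ i, if a i then 1 - fail R₁ (key x j) i else fail R₁ (key x j) i

/-- F4: the decoding procedure (from the `Samp` API and `SampChain`) -/
def FDecode : Prop :=
  ∀ (n K c r₀ Lb R₁ : ℕ) (j : XX n), Samp (PP n K c r₀ Lb) (c * (r₀ * (R₁ * K))) (XX c) (nu R₁ j)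

/-- F5: on good keys the decoding succeeds with probability at least `1/2` -/
def FHalf : Prop :=
  ∀ (n K c r₀ Lb R₁ : ℕ) (θ₁ θ₀ : ℝ) (j : XX n) (x : PP n K c r₀ Lb → Bool) (a : XX c),
    0 < θ₁ → θ₁ ≤ 1 → 0 ≤ θ₀ → (2 * c : ℝ) ≤ R₁ * θ₁ → (2 * c : ℝ) * (r₀ * R₁ * θ₀) ≤ 1 →
    Good θ₁ θ₀ a (key x j) → (1 / 2 : ℝ) ≤ nu R₁ j x a

end Crest.Agent.QG.Spec
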