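import Mathlib
import Crest.Agent.H27QDefs
import Crest.Agent.H27QSpec
set_option autoImplicit false
open MeasureTheory

/-! Module PSILAW of rid 350 (S0554), and the basic representation theorem for `Psi`. -/

namespace Crest.Agent.H2Q
open Crest.Agent.QG

section base
variable {X : Type} [Fintype X]

lemma abs_sg (b : Bool) : |sg b| = 1 := by cases b <;> simp [sg]

/-- product weight -/
noncomputable def wt (b : X → Bool) (v : X → ℝ) : ℝ := ∏ x, (1 + sg (b x) * v x) / 2

lemma muX_eq : muX X = (volume : Measure (X → ℝ)).restrict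
    (Set.univ.pi fun _ => Set.Icc (-(1/2) : ℝ) (1/2)) := by
  unfold muX
  rw [volume_pi, Measure.restrict_pi_pi]

instance : IsProbabilityMeasure ((volume : Measure ℝ).restrict (Set.Icc (-(1/2) : ℝ) (1/2))) := by
  constructor
  rw [Measure.restrict_apply_univ, Real.volume_Icc]
  norm_num

instance : IsProbabilityMeasure (muX X) := by
  unfold muX; infer_instance

lemma integrable_of_cont {f : (X → ℝ) → ℝ} (hf : Continuous f) : Integrable f (muX X) := by
  rw [muX_eq]
  have hc : IsCompact (Set.univ.pi fun _ : X => Set.Icc (-(1/2) : ℝ) (1/2)) :=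
    isCompact_univ_pi fun _ => isCompact_Icc
  exact hf.continuousOn.integrableOn_compact hc

lemma ae_box : ∀ᵐ u ∂(muX X), ∀ x, |u x| ≤ 1 / 2 := by
  rw [muX_eq]
  have hm : MeasurableSet (Set.univ.pi fun _ : X => Set.Icc (-(1/2) : ℝ) (1/2)) :=
    MeasurableSet.univ_pi fun _ => measurableSet_Icc
  filter_upwards [ae_restrict_mem hm] with u hu x
  have := hu x (Set.mem_univ _)
  rw [abs_le]
  exact ⟨this.1, this.2⟩

lemma wt_cont (b : X → Bool) : Continuous (wt b) := by
  unfold wt; fun_prop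

lemma wt_nonneg (b : X → Bool) {v : X → ℝ} (hv : ∀ x, |v x| ≤ 1) : 0 ≤ wt b v := by
  refine Finset.prod_nonneg fun x _ => ?_
  have h := hv x
  rw [abs_le] at h
  cases hb : b x
  · simp only [sg]; norm_num; linarith
  · simp only [sg]; norm_num; linarith

variable [DecidableEq X]

lemma wt_sum (v : X → ℝ) : ∑ b : X → Bool, wt b v = 1 := by
  unfold wt
  rw [← Fintype.prod_sum (fun x (β : Bool) => (1 + sg β * v x) / 2)]
  refine Finset.prod_eq_one fun x _ => ?_
  simp [sg]; ring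

lemma wt_mul (b₁ : X → Bool) (v u : X → ℝ) : wt b₁ (fun x => v x * u x) =
    ∑ b : X → Bool, wt b v * wt b₁ (fun x => sg (b x) * u x) := by
  unfold wt
  simp_rw [← Finset.prod_mul_distrib]
  rw [← Fintype.prod_sum (fun x (β : Bool) => (1 + sg β * v x) / 2 * ((1 + sg (b₁ x) * (sg β * u x)) / 2))]
  refine Finset.prod_congr rfl fun x _ => ?_
  cases hb : b₁ x <;> simp [sg] <;> ring

omit [DecidableEq X] in
lemma VV_cont (h : X → X → ℝ) : Continuous (VV h) := by
  unfold VV; fun_prop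

omit [DecidableEq X] in
lemma VV_le (h : X → X → ℝ) (u : X → ℝ) (y : X) : |VV h u y| ≤ 1 / 2 := by
  unfold VV
  rw [abs_div, abs_two]
  have := Real.abs_sin_le_one (∑ x, h x y * u x)
  linarith

lemma sum_cons {M : Type*} [AddCommMonoid M] {K : ℕ} (F : (Fin (K + 1) → X → Bool) → M) :
    ∑ b, F b = ∑ b₁ : X → Bool, ∑ b : Fin K → X → Bool, F (Fin.cons b₁ b) := by
  rw [← Fintype.sum_prod_type']
  refine (Fintype.sum_equiv (Fin.consEquiv (fun _ : Fin (K + 1) => (X → Bool))) _ _ ?_).symm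
  intro p
  rfl

lemma Ext1_eq {K : ℕ} (g : (Fin (K + 1) → X → Bool) → ℝ) (w : X → ℝ) (b : Fin K → X → Bool) :
    Ext1 g w b = ∑ b₁ : X → Bool, wt b₁ w * g (Fin.cons b₁ b) := rfl

lemma Ext_eq {K : ℕ} (g : (Fin K → X → Bool) → ℝ) (z : Fin K → X → ℝ) :
    Ext g z = ∑ b : Fin K → X → Bool, g b * ∏ l, wt (b l) (z l) := rfl

/-- representation theorem for `Psi`: linear in `g`, multiaffine in `v` -/
theorem rep (h : X → X → ℝ) (K : ℕ) : ∃ C : (Fin (K + 1) → X → Bool) → (X → Bool) → ℝ,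
    ∀ (g : (Fin (K + 1) → X → Bool) → ℝ) (v : X → ℝ),
      Psi h K g v = ∑ b', ∑ b, g b' * C b' b * wt b v := by
  induction K with
  | zero =>
    refine ⟨fun b' b => if b = b' 0 then 1 else 0, fun g v => ?_⟩
    show Ext g (fun _ => v) = _
    rw [Ext_eq]
    refine Finset.sum_congr rfl fun b' _ => ?_
    simp
  | succ K ih =>
    obtain ⟨C, hC⟩ := ih
    refine ⟨fun b' b => ∫ u, wt (b' 0) (fun x => sg (b x) * u x) *
      ∑ b₂, C (Fin.tail b') b₂ * wt b₂ (VV h u) ∂(muX X), fun g v => ?_⟩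
    have hcont : ∀ (b' : Fin (K + 2) → X → Bool) (b : X → Bool), Continuous (fun u : X → ℝ =>
        wt (b' 0) (fun x => sg (b x) * u x) * ∑ b₂, C (Fin.tail b') b₂ * wt b₂ (VV h u)) := by
      intro b' b
      have h1 : Continuous (fun u : X → ℝ => wt (b' 0) (fun x => sg (b x) * u x)) :=
        (wt_cont (b' 0)).comp (by fun_prop)
      have h2 : Continuous (fun u : X → ℝ => ∑ b₂, C (Fin.tail b') b₂ * wt b₂ (VV h u)) :=
        continuous_finsetSum _ fun b₂ _ => continuous_const.mul ((wt_cont b₂).comp (VV_cont h))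
      exact h1.mul h2
    show ∫ u, Psi h K (Ext1 g (fun x => v x * u x)) (VV h u) ∂(muX X) = _
    have hint : ∀ u : X → ℝ, Psi h K (Ext1 g (fun x => v x * u x)) (VV h u) =
        ∑ b' : Fin (K + 2) → X → Bool, ∑ b : X → Bool, g b' * wt b v *
          (wt (b' 0) (fun x => sg (b x) * u x) * ∑ b₂, C (Fin.tail b') b₂ * wt b₂ (VV h u)) := by
      intro u
      rw [hC, sum_cons (K := K + 1)]
      simp_rw [Ext1_eq, Fin.cons_zero, Fin.tail_cons]
      refine Eq.trans ?_ Finset.sum_comm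
      refine Finset.sum_congr rfl fun b'' _ => ?_
      have e1 : ∀ b₁ : X → Bool, ∑ b : X → Bool, g (Fin.cons b₁ b'') * wt b v *
          (wt b₁ (fun x => sg (b x) * u x) * ∑ b₂, C b'' b₂ * wt b₂ (VV h u)) =
          (wt b₁ (fun x => v x * u x) * g (Fin.cons b₁ b'')) * ∑ b₂, C b'' b₂ * wt b₂ (VV h u) := by
        intro b₁
        rw [wt_mul, Finset.sum_mul, Finset.sum_mul]
        refine Finset.sum_congr rfl fun b _ => ?_
        ring
      rw [Finset.sum_congr rfl fun b₁ _ => e1 b₁, ← Finset.sum_mul, Finset.mul_sum]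
      refine Finset.sum_congr rfl fun b₂ _ => ?_
      ring
    simp_rw [hint]
    rw [integral_finsetSum]
    · refine Finset.sum_congr rfl fun b' _ => ?_
      rw [integral_finsetSum]
      · refine Finset.sum_congr rfl fun b _ => ?_
        rw [integral_const_mul]; ring
      · intro b _
        exact (integrable_of_cont (hcont b' b)).const_mul _
    · intro b' _
      refine integrable_finsetSum _ fun b _ => ?_
      exact (integrable_of_cont (hcont b' b)).const_mul _

lemma Psi_add (h : X → X → ℝ) (K : ℕ) (g g' : (Fin (K + 1) → X → Bool) → ℝ) (v : X → ℝ) :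
    Psi h K (fun b => g b + g' b) v = Psi h K g v + Psi h K g' v := by
  obtain ⟨C, hC⟩ := rep h K
  rw [hC, hC, hC, ← Finset.sum_add_distrib]
  refine Finset.sum_congr rfl fun b' _ => ?_
  rw [← Finset.sum_add_distrib]
  refine Finset.sum_congr rfl fun b _ => ?_
  ring

lemma Psi_smul (h : X → X → ℝ) (K : ℕ) (a : ℝ) (g : (Fin (K + 1) → X → Bool) → ℝ) (v : X → ℝ) :
    Psi h K (fun b => a * g b) v = a * Psi h K g v := by
  obtain ⟨C, hC⟩ := rep h K
  rw [hC, hC, Finset.mul_sum]
  refine Finset.sum_congr rfl fun b' _ => ?_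
  rw [Finset.mul_sum]
  refine Finset.sum_congr rfl fun b _ => ?_
  ring

lemma Ext1_nonneg {K : ℕ} {g : (Fin (K + 1) → X → Bool) → ℝ} (hg : ∀ b, 0 ≤ g b) {w : X → ℝ}
    (hw : ∀ x, |w x| ≤ 1) (b : Fin K → X → Bool) : 0 ≤ Ext1 g w b := by
  rw [Ext1_eq]
  exact Finset.sum_nonneg fun b₁ _ => mul_nonneg (wt_nonneg _ hw) (hg _)

lemma Psi_nonneg (h : X → X → ℝ) (K : ℕ) : ∀ (g : (Fin (K + 1) → X → Bool) → ℝ)
    (v : X → ℝ), (∀ b, 0 ≤ g b) → (∀ x, |v x| ≤ 1) → 0 ≤ Psi h K g v := by
  induction K with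
  | zero =>
    intro g v hg hv
    show 0 ≤ Ext g (fun _ => v)
    rw [Ext_eq]
    exact Finset.sum_nonneg fun b _ => mul_nonneg (hg _) (Finset.prod_nonneg fun l _ => wt_nonneg _ hv)
  | succ K ih =>
    intro g v hg hv
    show 0 ≤ ∫ u, Psi h K (Ext1 g (fun x => v x * u x)) (VV h u) ∂(muX X)
    refine integral_nonneg_of_ae ?_
    filter_upwards [ae_box] with u hu
    refine ih _ _ (Ext1_nonneg hg fun x => ?_) fun y => ?_
    · rw [abs_mul]
      have h1 := hv x
      have h2 := hu x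
      nlinarith [abs_nonneg (v x), abs_nonneg (u x)]
    · linarith [VV_le h u y]

lemma Psi_one (h : X → X → ℝ) (K : ℕ) : ∀ (v : X → ℝ), Psi h K (fun _ => 1) v = 1 := by
  induction K with
  | zero =>
    intro v
    show Ext (fun _ => (1 : ℝ)) (fun _ => v) = 1
    rw [Ext_eq, sum_cons]
    simp only [one_mul, Fin.prod_univ_succ, Fin.cons_zero, Finset.univ_eq_empty, Finset.prod_empty,
      mul_one, Finset.sum_const, Finset.card_univ]
    simp [wt_sum]
  | succ K ih =>
    intro v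
    show ∫ u, Psi h K (Ext1 (fun _ => (1 : ℝ)) (fun x => v x * u x)) (VV h u) ∂(muX X) = 1
    have : ∀ u : X → ℝ, Ext1 (K := K + 1) (fun _ => (1 : ℝ)) (fun x => v x * u x) = fun _ => 1 := by
      intro u
      funext b
      rw [Ext1_eq]
      simp [wt_sum]
    simp_rw [this, ih]
    simp

end base

theorem psiLaw : Spec.PsiLaw := by
  intro X _ _ h K v _ hv
  exact ⟨fun g hg => Psi_nonneg h K g v hg hv, Psi_one h K v, fun g g' => Psi_add h K g g' v,
    fun a g => Psi_smul h K a g v⟩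

end Crest.Agent.H2Q
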