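import Mathlib
import Crest.Agent.H2QPsiLaw
set_option autoImplicit false
open MeasureTheory

/-! Module INTERP of rid 350 (S0554). -/

namespace Crest.Agent.H2Q
open Crest.Agent.QG

section interp
variable {X : Type} [Fintype X] [DecidableEq X]

/-- `wt` with one coordinate removed -/
noncomputable def wtE (y : X) (b : X → Bool) (v : X → ℝ) : ℝ :=
  ∏ x ∈ Finset.univ.erase y, (1 + sg (b x) * v x) / 2

lemma wt_split (y : X) (b : X → Bool) (v : X → ℝ) :
    wt b v = wtE y b v * ((1 + sg (b y) * v y) / 2) :=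
  (Finset.prod_erase_mul _ _ (Finset.mem_univ y)).symm

lemma wtE_update_v (y : X) (b : X → Bool) (v : X → ℝ) (t : ℝ) :
    wtE y b (Function.update v y t) = wtE y b v :=
  Finset.prod_congr rfl fun x hx => by rw [Function.update_of_ne (Finset.ne_of_mem_erase hx)]

lemma wtE_update_b (y : X) (b : X → Bool) (v : X → ℝ) (s : Bool) :
    wtE y (Function.update b y s) v = wtE y b v :=
  Finset.prod_congr rfl fun x hx => by rw [Function.update_of_ne (Finset.ne_of_mem_erase hx)]

lemma wt_update (y : X) (b : X → Bool) (v : X → ℝ) (t : ℝ) :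
    wt b (Function.update v y t) = wtE y b v * ((1 + sg (b y) * t) / 2) := by
  rw [wt_split y, wtE_update_v, Function.update_self]

lemma wt_diff (y : X) (b : X → Bool) (v : X → ℝ) :
    wt b (Function.update v y 1) - wt b (Function.update v y 0) = wtE y b v * (sg (b y) / 2) := by
  rw [wt_update, wt_update]; ring

lemma wt_deriv (b : X → Bool) {v : ℝ → X → ℝ} {v' : X → ℝ} {t : ℝ}
    (hv : ∀ x, HasDerivAt (fun s => v s x) (v' x) t) :
    HasDerivAt (fun s => wt b (v s))
      (∑ y, v' y * (wt b (Function.update (v t) y 1) - wt b (Function.update (v t) y 0))) t := by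
  have h1 : ∀ x ∈ (Finset.univ : Finset X),
      HasDerivAt (fun s => (1 + sg (b x) * v s x) / 2) (sg (b x) * v' x / 2) t := by
    intro x _
    exact (((hv x).const_mul (sg (b x))).const_add 1).div_const 2
  have h2 := HasDerivAt.fun_finsetProd h1
  have h3 : (∑ i : X, (∏ j ∈ Finset.univ.erase i, (1 + sg (b j) * v t j) / 2) • (sg (b i) * v' i / 2))
      = ∑ y, v' y * (wt b (Function.update (v t) y 1) - wt b (Function.update (v t) y 0)) := by
    refine Finset.sum_congr rfl fun y _ => ?_
    rw [wt_diff, smul_eq_mul, wtE]; ring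
  rw [← h3]
  exact h2

/-- the slope of `Psi` in the coordinate `y` of `v` -/
noncomputable def GK (h : X → X → ℝ) (K : ℕ) (g : (Fin (K + 1) → X → Bool) → ℝ) (y : X)
    (v : X → ℝ) : ℝ := Psi h K g (Function.update v y 1) - Psi h K g (Function.update v y 0)

lemma Psi_deriv (h : X → X → ℝ) (K : ℕ) (g : (Fin (K + 1) → X → Bool) → ℝ) {v : ℝ → X → ℝ}
    {v' : X → ℝ} {t : ℝ} (hv : ∀ x, HasDerivAt (fun s => v s x) (v' x) t) :
    HasDerivAt (fun s => Psi h K g (v s)) (∑ y, v' y * GK h K g y (v t)) t := by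
  obtain ⟨C, hC⟩ := rep h K
  have h1 : (fun s => Psi h K g (v s)) = fun s => ∑ b', ∑ b, g b' * C b' b * wt b (v s) := by
    funext s; rw [hC]
  have h2 : ∑ y, v' y * GK h K g y (v t) = ∑ b' : Fin (K + 1) → X → Bool, ∑ b : X → Bool,
      g b' * C b' b *
        (∑ y, v' y * (wt b (Function.update (v t) y 1) - wt b (Function.update (v t) y 0))) := by
    simp only [GK, hC]
    simp_rw [← Finset.sum_sub_distrib, Finset.mul_sum]
    rw [Finset.sum_comm]
    refine Finset.sum_congr rfl fun b' _ => ?_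
    rw [Finset.sum_comm]
    refine Finset.sum_congr rfl fun b _ => ?_
    refine Finset.sum_congr rfl fun y _ => ?_
    ring
  rw [h1, h2]
  refine HasDerivAt.fun_sum fun b' _ => HasDerivAt.fun_sum fun b _ => ?_
  exact (wt_deriv b hv).const_mul _

lemma cont_Psi {U : Type*} [TopologicalSpace U] (h : X → X → ℝ) (K : ℕ)
    {g : U → (Fin (K + 1) → X → Bool) → ℝ} {v : U → X → ℝ} (hg : ∀ b, Continuous fun u => g u b)
    (hv : Continuous v) : Continuous (fun u => Psi h K (g u) (v u)) := by
  obtain ⟨C, hC⟩ := rep h K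
  have h1 : (fun u => Psi h K (g u) (v u)) = fun u => ∑ b', ∑ b, g u b' * C b' b * wt b (v u) := by
    funext s; rw [hC]
  rw [h1]
  refine continuous_finsetSum _ fun b' _ => continuous_finsetSum _ fun b _ => ?_
  exact ((hg b').mul continuous_const).mul ((wt_cont b).comp hv)

lemma cont_GK {U : Type*} [TopologicalSpace U] (h : X → X → ℝ) (K : ℕ)
    {g : U → (Fin (K + 1) → X → Bool) → ℝ} {v : U → X → ℝ} (hg : ∀ b, Continuous fun u => g u b)
    (hv : Continuous v) (y : X) : Continuous (fun u => GK h K (g u) y (v u)) := by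
  unfold GK
  exact (cont_Psi h K hg (hv.update y continuous_const)).sub
    (cont_Psi h K hg (hv.update y continuous_const))

/-- discrete derivative of the first layer -/
noncomputable def qq {K : ℕ} (g : (Fin (K + 1) → X → Bool) → ℝ) (y : X) (w : X → ℝ) :
    (Fin K → X → Bool) → ℝ :=
  fun b => Ext1 g (Function.update w y 1) b - Ext1 g (Function.update w y 0) b

lemma Ext1_update {K : ℕ} (g : (Fin (K + 1) → X → Bool) → ℝ) (y : X) (w : X → ℝ) (s : ℝ)
    (b : Fin K → X → Bool) :
    Ext1 g (Function.update w y s) b = Ext1 g (Function.update w y 0) b + s * qq g y w b := by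
  simp only [qq, Ext1_eq, wt_update]
  rw [← Finset.sum_sub_distrib, Finset.mul_sum, ← Finset.sum_add_distrib]
  refine Finset.sum_congr rfl fun b₁ _ => ?_
  ring

lemma qq_update {K : ℕ} (g : (Fin (K + 1) → X → Bool) → ℝ) (y : X) (w : X → ℝ) (s : ℝ) :
    qq g y (Function.update w y s) = qq g y w := by
  unfold qq
  simp only [Function.update_idem]

lemma cont_Ext1 {K : ℕ} (g : (Fin (K + 1) → X → Bool) → ℝ) (b : Fin K → X → Bool) :
    Continuous fun w => Ext1 g w b := by
  have : (fun w => Ext1 g w b) = fun w => ∑ b₁ : X → Bool, wt b₁ w * g (Fin.cons b₁ b) := by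
    funext w; rw [Ext1_eq]
  rw [this]
  exact continuous_finsetSum _ fun b₁ _ => (wt_cont b₁).mul continuous_const

lemma cont_qq {K : ℕ} (g : (Fin (K + 1) → X → Bool) → ℝ) (y : X) (b : Fin K → X → Bool) :
    Continuous fun w => qq g y w b := by
  unfold qq
  exact ((cont_Ext1 g b).comp (continuous_id.update y continuous_const)).sub
    ((cont_Ext1 g b).comp (continuous_id.update y continuous_const))

lemma GK_succ (h : X → X → ℝ) (K : ℕ) (g : (Fin (K + 2) → X → Bool) → ℝ) (y : X) (v : X → ℝ) :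
    GK h (K + 1) g y v =
      ∫ u, u y * Psi h K (qq g y (fun x => v x * u x)) (VV h u) ∂(muX X) := by
  show ∫ u, Psi h K (Ext1 g (fun x => Function.update v y 1 x * u x)) (VV h u) ∂(muX X) -
    ∫ u, Psi h K (Ext1 g (fun x => Function.update v y 0 x * u x)) (VV h u) ∂(muX X) = _
  have hc : ∀ s : ℝ, Continuous (fun u : X → ℝ =>
      Psi h K (Ext1 g (fun x => Function.update v y s x * u x)) (VV h u)) := by
    intro s
    refine cont_Psi h K (fun b => ?_) (VV_cont h)
    exact (cont_Ext1 g b).comp (by fun_prop)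
  rw [← integral_sub (integrable_of_cont (hc 1)) (integrable_of_cont (hc 0))]
  congr 1
  funext u
  have e : ∀ s : ℝ, (fun x => Function.update v y s x * u x) =
      Function.update (fun x => v x * u x) y (s * u y) := by
    intro s
    funext x
    by_cases hx : x = y
    · subst hx; simp
    · simp [Function.update_of_ne hx]
  have e1 : Ext1 g (fun x => Function.update v y 1 x * u x) = fun b =>
      Ext1 g (fun x => Function.update v y 0 x * u x) b + u y * qq g y (fun x => v x * u x) b := by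
    funext b
    rw [e 1, e 0, one_mul, zero_mul, Ext1_update g y _ (u y) b]
  rw [e1, Psi_add, Psi_smul]
  ring

/-- resampling one coordinate -/
lemma mp (y : X) : MeasurePreserving (fun p : (X → ℝ) × ℝ => Function.update p.1 y p.2)
    ((muX X).prod ((volume : Measure ℝ).restrict (Set.Icc (-(1/2) : ℝ) (1/2)))) (muX X) := by
  refine ⟨measurable_update', ?_⟩
  conv_rhs => unfold muX
  refine (Measure.pi_eq fun s hs => ?_).symm
  rw [Measure.map_apply measurable_update' (MeasurableSet.univ_pi hs)]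
  have hpre : (fun p : (X → ℝ) × ℝ => Function.update p.1 y p.2) ⁻¹' (Set.univ.pi s) =
      (Set.univ.pi (Function.update s y Set.univ)) ×ˢ (s y) := by
    ext p
    simp only [Set.mem_preimage, Set.mem_pi, Set.mem_univ, true_implies, Set.mem_prod]
    constructor
    · intro hp
      refine ⟨fun i => ?_, ?_⟩
      · by_cases hi : i = y
        · subst hi; simp
        · rw [Function.update_of_ne hi]
          have := hp i
          rwa [Function.update_of_ne hi] at this
      · have := hp y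
        rwa [Function.update_self] at this
    · rintro ⟨h1, h2⟩ i
      by_cases hi : i = y
      · subst hi; rw [Function.update_self]; exact h2
      · rw [Function.update_of_ne hi]
        have := h1 i
        rwa [Function.update_of_ne hi] at this
  rw [hpre, Measure.prod_prod]
  unfold muX
  rw [Measure.pi_pi]
  rw [← Finset.prod_erase_mul Finset.univ _ (Finset.mem_univ y),
    ← Finset.prod_erase_mul Finset.univ (fun i => (volume.restrict (Set.Icc (-(1/2) : ℝ) (1/2))) (s i))
      (Finset.mem_univ y)]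
  rw [Function.update_self, measure_univ, mul_one]
  congr 1
  refine Finset.prod_congr rfl fun i hi => ?_
  rw [Function.update_of_ne (Finset.ne_of_mem_erase hi)]

lemma slice (y : X) {f : (X → ℝ) → ℝ} (hf : Continuous f) :
    ∫ u, f u ∂(muX X) =
      ∫ u, (∫ t in (-(1/2) : ℝ)..(1/2), f (Function.update u y t)) ∂(muX X) := by
  have hint : Integrable (fun p : (X → ℝ) × ℝ => f (Function.update p.1 y p.2))
      ((muX X).prod ((volume : Measure ℝ).restrict (Set.Icc (-(1/2) : ℝ) (1/2)))) :=
    (mp y).integrable_comp_of_integrable (integrable_of_cont hf)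
  have h1 : ∫ u, f u ∂(muX X) = ∫ p : (X → ℝ) × ℝ, f (Function.update p.1 y p.2)
      ∂((muX X).prod ((volume : Measure ℝ).restrict (Set.Icc (-(1/2) : ℝ) (1/2)))) := by
    conv_lhs => rw [← (mp y).map_eq]
    exact integral_map measurable_update'.aemeasurable hf.aestronglyMeasurable
  rw [h1, integral_prod _ hint]
  congr 1
  funext u
  rw [intervalIntegral.integral_of_le (by norm_num), integral_Icc_eq_integral_Ioc]

/-- integration by parts on `[-1/2,1/2]` -/
lemma ibp {φ φ' : ℝ → ℝ} (hφ : ∀ t, HasDerivAt φ (φ' t) t) (hc : Continuous φ') :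
    ∫ t in (-(1/2) : ℝ)..(1/2), t * φ t =
      ∫ t in (-(1/2) : ℝ)..(1/2), (1 / 4 - t ^ 2) / 2 * φ' t := by
  have hu : ContinuousOn φ (Set.uIcc (-(1/2) : ℝ) (1/2)) :=
    (continuous_iff_continuousAt.2 fun t => (hφ t).continuousAt).continuousOn
  have hv : ContinuousOn (fun t : ℝ => (t ^ 2 - 1 / 4) / 2) (Set.uIcc (-(1/2) : ℝ) (1/2)) :=
    Continuous.continuousOn (by fun_prop)
  have h := intervalIntegral.integral_mul_deriv_eq_deriv_mul_of_hasDerivAt (u := φ) (u' := φ')
    (v := fun t : ℝ => (t ^ 2 - 1 / 4) / 2) (v' := fun t => t) hu hv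
    (fun t _ => hφ t) (fun t _ => by
      have := (((hasDerivAt_pow 2 t).sub_const (1 / 4)).div_const 2)
      simpa using this) (hc.intervalIntegrable _ _) (continuous_id.intervalIntegrable _ _)
  have e1 : ∫ t in (-(1/2) : ℝ)..(1/2), t * φ t = ∫ t in (-(1/2) : ℝ)..(1/2), φ t * t := by
    congr 1; funext t; ring
  rw [e1, h]
  have e2 : ((1 / 2 : ℝ) ^ 2 - 1 / 4) / 2 = 0 := by norm_num
  have e3 : ((-(1 / 2) : ℝ) ^ 2 - 1 / 4) / 2 = 0 := by norm_num
  rw [e2, e3, mul_zero, mul_zero, sub_zero, zero_sub, ← intervalIntegral.integral_neg]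
  congr 1; funext t; ring

lemma GK_ibp (h : X → X → ℝ) (K : ℕ) (g : (Fin (K + 2) → X → Bool) → ℝ) (y : X) (v : X → ℝ) :
    GK h (K + 1) g y v =
      ∫ u, (1 / 4 - (u y) ^ 2) / 2 * ∑ y', (h y y' * Real.cos (∑ x, h x y' * u x) / 2) *
        GK h K (qq g y (fun x => v x * u x)) y' (VV h u) ∂(muX X) := by
  have hq : ∀ b, Continuous fun u : X → ℝ => qq g y (fun x => v x * u x) b := fun b =>
    (cont_qq g y b).comp (by fun_prop)
  have hc1 : Continuous (fun u : X → ℝ => u y * Psi h K (qq g y (fun x => v x * u x)) (VV h u)) :=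
    (by fun_prop : Continuous fun u : X → ℝ => u y).mul (cont_Psi h K hq (VV_cont h))
  have hc3 : Continuous (fun u : X → ℝ => ∑ y', (h y y' * Real.cos (∑ x, h x y' * u x) / 2) *
        GK h K (qq g y (fun x => v x * u x)) y' (VV h u)) := by
    refine continuous_finsetSum _ fun y' _ => ?_
    exact (by fun_prop : Continuous fun u : X → ℝ => h y y' * Real.cos (∑ x, h x y' * u x) / 2).mul
      (cont_GK h K hq (VV_cont h) y')
  have hc2 : Continuous (fun u : X → ℝ => (1 / 4 - (u y) ^ 2) / 2 *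
      ∑ y', (h y y' * Real.cos (∑ x, h x y' * u x) / 2) *
        GK h K (qq g y (fun x => v x * u x)) y' (VV h u)) :=
    (by fun_prop : Continuous fun u : X → ℝ => (1 / 4 - (u y) ^ 2) / 2).mul hc3
  rw [GK_succ, slice y hc1, slice y hc2]
  congr 1
  funext u
  have hqu : ∀ t : ℝ, qq g y (fun x => v x * Function.update u y t x) =
      qq g y (fun x => v x * u x) := by
    intro t
    have : (fun x => v x * Function.update u y t x) =
        Function.update (fun x => v x * u x) y (v y * t) := by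
      funext x
      by_cases hx : x = y
      · subst hx; simp
      · simp [Function.update_of_ne hx]
    rw [this, qq_update]
  simp only [hqu, Function.update_self]
  refine ibp (φ := fun t => Psi h K (qq g y (fun x => v x * u x)) (VV h (Function.update u y t)))
    (φ' := fun t => ∑ y', (h y y' * Real.cos (∑ x, h x y' * Function.update u y t x) / 2) *
        GK h K (qq g y (fun x => v x * u x)) y' (VV h (Function.update u y t))) (fun t => ?_) ?_
  · refine Psi_deriv h K _ (v := fun s => VV h (Function.update u y s)) fun y' => ?_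
    have h1 : HasDerivAt (fun s : ℝ => ∑ x, h x y' * Function.update u y s x) (h y y') t := by
      have h2 : (fun s : ℝ => ∑ x, h x y' * Function.update u y s x) =
          fun s => h y y' * s + ∑ x ∈ Finset.univ.erase y, h x y' * u x := by
        funext s
        rw [← Finset.add_sum_erase _ _ (Finset.mem_univ y), Function.update_self]
        congr 1
        exact Finset.sum_congr rfl fun x hx => by
          rw [Function.update_of_ne (Finset.ne_of_mem_erase hx)]
      rw [h2]
      simpa using ((hasDerivAt_id t).const_mul (h y y')).add_const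
        (∑ x ∈ Finset.univ.erase y, h x y' * u x)
    have h3 := (h1.sin).div_const 2
    have h4 : h y y' * Real.cos (∑ x, h x y' * Function.update u y t x) / 2 =
        Real.cos (∑ x, h x y' * Function.update u y t x) * h y y' / 2 := by ring
    rw [h4]
    exact h3
  · have hup : Continuous fun t : ℝ => Function.update u y t :=
      continuous_const.update y continuous_id
    have := hc3.comp hup
    simp only [Function.comp_def, hqu] at this
    exact this

lemma sum_cons' {α : Type*} [Fintype α] {M : Type*} [AddCommMonoid M] {K : ℕ}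
    (F : (Fin (K + 1) → α) → M) :
    ∑ b, F b = ∑ b₁ : α, ∑ b : Fin K → α, F (Fin.cons b₁ b) := by
  rw [← Fintype.sum_prod_type']
  refine (Fintype.sum_equiv (Fin.consEquiv (fun _ : Fin (K + 1) => α)) _ _ ?_).symm
  intro p
  rfl

/-- one-layer identity: moving the discrete derivative from the function to the weight -/
lemma one_layer (y : X) (w : X → ℝ) (Q : (X → Bool) → ℝ) :
    ∑ b₁ : X → Bool, wt b₁ w * ∑ s₀ : Bool, sg s₀ / 2 * Q (Function.update b₁ y s₀) =
      ∑ b₁ : X → Bool,
        (wt b₁ (Function.update w y 1) - wt b₁ (Function.update w y 0)) * Q b₁ := by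
  set σ : (X → Bool) × Bool → (X → Bool) × Bool := fun p => (Function.update p.1 y p.2, p.1 y)
    with hσ
  have hinv : Function.Involutive σ := by
    intro p
    simp [hσ]
  have h1 : ∑ b₁ : X → Bool, wt b₁ w * ∑ s₀ : Bool, sg s₀ / 2 * Q (Function.update b₁ y s₀) =
      ∑ p : (X → Bool) × Bool, wtE y p.1 w * ((1 + sg (p.1 y) * w y) / 2) * (sg p.2 / 2) *
        Q (Function.update p.1 y p.2) := by
    rw [Fintype.sum_prod_type]
    refine Finset.sum_congr rfl fun b₁ _ => ?_
    rw [Finset.mul_sum]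
    refine Finset.sum_congr rfl fun s₀ _ => ?_
    rw [wt_split y]; ring
  have h2 : ∑ p : (X → Bool) × Bool, wtE y p.1 w * ((1 + sg (p.1 y) * w y) / 2) * (sg p.2 / 2) *
        Q (Function.update p.1 y p.2) =
      ∑ p : (X → Bool) × Bool, wtE y p.1 w * ((1 + sg p.2 * w y) / 2) * (sg (p.1 y) / 2) *
        Q p.1 := by
    refine Fintype.sum_equiv (hinv.toPerm σ) _ _ fun p => ?_
    show _ = wtE y (σ p).1 w * ((1 + sg (σ p).2 * w y) / 2) * (sg ((σ p).1 y) / 2) * Q (σ p).1
    simp only [hσ, Function.update_self, wtE_update_b]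
  rw [h1, h2, Fintype.sum_prod_type]
  refine Finset.sum_congr rfl fun b₁ _ => ?_
  rw [wt_diff]
  simp only [Fintype.sum_bool, sg]
  norm_num
  ring

lemma Ext1_DC {K : ℕ} (g : (Fin (K + 1) → X → Bool) → ℝ) (y : X) (c' : Fin K → X) (w : X → ℝ) :
    Ext1 (DC (Fin.cons y c') g) w = DC c' (qq g y w) := by
  funext b
  rw [Ext1_eq]
  have hcons : ∀ (b₁ : X → Bool) (s₀ : Bool) (s' : Fin K → Bool),
      (fun l => Function.update ((Fin.cons b₁ b : Fin (K + 1) → X → Bool) l)
        ((Fin.cons y c' : Fin (K + 1) → X) l) ((Fin.cons s₀ s' : Fin (K + 1) → Bool) l)) =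
      (Fin.cons (Function.update b₁ y s₀) (fun l => Function.update (b l) (c' l) (s' l)) :
        Fin (K + 1) → X → Bool) := by
    intro b₁ s₀ s'
    funext l
    refine Fin.cases ?_ (fun l => ?_) l
    · simp
    · simp
  have h1 : ∀ b₁ : X → Bool, DC (Fin.cons y c') g (Fin.cons b₁ b) =
      ∑ s' : Fin K → Bool, (∏ l, sg (s' l) / 2) * ∑ s₀ : Bool, sg s₀ / 2 *
        g (Fin.cons (Function.update b₁ y s₀) (fun l => Function.update (b l) (c' l) (s' l))) := by
    intro b₁
    unfold DC
    rw [sum_cons', Finset.sum_comm]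
    refine Finset.sum_congr rfl fun s' _ => ?_
    rw [Finset.mul_sum]
    refine Finset.sum_congr rfl fun s₀ _ => ?_
    rw [hcons, Fin.prod_univ_succ]
    simp only [Fin.cons_zero, Fin.cons_succ]
    ring
  simp_rw [h1]
  have h2 : ∑ b₁ : X → Bool, wt b₁ w * ∑ s' : Fin K → Bool, (∏ l, sg (s' l) / 2) *
      ∑ s₀ : Bool, sg s₀ / 2 *
        g (Fin.cons (Function.update b₁ y s₀) (fun l => Function.update (b l) (c' l) (s' l))) =
      ∑ s' : Fin K → Bool, (∏ l, sg (s' l) / 2) * ∑ b₁ : X → Bool, wt b₁ w *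
        ∑ s₀ : Bool, sg s₀ / 2 *
        g (Fin.cons (Function.update b₁ y s₀) (fun l => Function.update (b l) (c' l) (s' l))) := by
    simp_rw [Finset.mul_sum]
    rw [Finset.sum_comm]
    refine Finset.sum_congr rfl fun s' _ => Finset.sum_congr rfl fun b₁ _ =>
      Finset.sum_congr rfl fun s₀ _ => ?_
    ring
  rw [h2]
  unfold DC
  refine Finset.sum_congr rfl fun s' _ => ?_
  rw [one_layer y w (fun b₁ => g (Fin.cons b₁ (fun l => Function.update (b l) (c' l) (s' l))))]
  unfold qq
  rw [Ext1_eq, Ext1_eq, ← Finset.sum_sub_distrib]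
  congr 1
  refine Finset.sum_congr rfl fun b₁ _ => ?_
  ring

lemma Ext_split {K : ℕ} (g : (Fin (K + 1) → X → Bool) → ℝ) (z : Fin (K + 1) → X → ℝ) :
    Ext g z = Ext (Ext1 g (z 0)) (fun l => z l.succ) := by
  rw [Ext_eq, Ext_eq, sum_cons, Finset.sum_comm]
  refine Finset.sum_congr rfl fun b _ => ?_
  rw [Ext1_eq, Finset.sum_mul]
  refine Finset.sum_congr rfl fun b₁ _ => ?_
  rw [Fin.prod_univ_succ]
  simp only [Fin.cons_zero, Fin.cons_succ]
  ring

lemma Ext_DC {K : ℕ} (g : (Fin (K + 1) → X → Bool) → ℝ) (y : X) (c' : Fin K → X)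
    (z : Fin (K + 1) → X → ℝ) :
    Ext (DC (Fin.cons y c') g) z = Ext (DC c' (qq g y (z 0))) (fun l => z l.succ) := by
  rw [Ext_split, Ext1_DC]

lemma Ext_zero (G : (Fin 0 → X → Bool) → ℝ) (z : Fin 0 → X → ℝ) (b : Fin 0 → X → Bool) :
    Ext G z = G b := by
  rw [Ext_eq, Fintype.sum_unique]
  simp
  congr 1
  exact Subsingleton.elim _ _

lemma DC_zero (G : (Fin 0 → X → Bool) → ℝ) (c : Fin 0 → X) : DC c G = G := by
  funext b
  unfold DC
  rw [Fintype.sum_unique]
  simp
  congr 1
  exact Subsingleton.elim _ _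

lemma GK_zero (h : X → X → ℝ) (g : (Fin 1 → X → Bool) → ℝ) (y : X) (v : X → ℝ)
    (c' : Fin 0 → X) : GK h 0 g y v = Ext (DC (Fin.cons y c') g) (fun _ => v) := by
  show Ext g (fun _ => Function.update v y 1) - Ext g (fun _ => Function.update v y 0) = _
  rw [Ext_DC, DC_zero, Ext_split, Ext_split g (fun _ => Function.update v y 0)]
  rw [Ext_zero _ _ (fun l => l.elim0), Ext_zero _ _ (fun l => l.elim0),
    Ext_zero _ _ (fun l => l.elim0)]
  rfl

/-- the step of the induction -/
lemma step (h : X → X → ℝ) (η : ℝ) (hη0 : 0 ≤ η) (hη : ∀ x y, |h x y| ≤ η) (K : ℕ)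
    (ih : ∀ (ι : Type) [Fintype ι] (g : ι → (Fin (K + 1) → X → Bool) → ℝ) (y : ι → X)
      (α : ι → ℝ) (a W : ℝ), 0 ≤ a → (∀ i, |α i| ≤ a) →
      (∀ z : Fin (K + 1) → X → ℝ, (∀ l x, |z l x| ≤ 1 / 2) →
        ∑ i, ∑ c' : Fin K → X, |Ext (DC (Fin.cons (y i) c') (g i)) z| ≤ W) →
      ∀ v : X → ℝ, (∀ x, |v x| ≤ 1 / 2) → |∑ i, α i * GK h K (g i) (y i) v| ≤ a * (η / 16) ^ K * W)
    (ι : Type) [Fintype ι] (g : ι → (Fin (K + 2) → X → Bool) → ℝ) (y : ι → X)
    (α : ι → ℝ) (a W : ℝ) (ha : 0 ≤ a) (hα : ∀ i, |α i| ≤ a)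
    (hW : ∀ z : Fin (K + 2) → X → ℝ, (∀ l x, |z l x| ≤ 1 / 2) →
        ∑ i, ∑ c' : Fin (K + 1) → X, |Ext (DC (Fin.cons (y i) c') (g i)) z| ≤ W)
    (v : X → ℝ) (hv : ∀ x, |v x| ≤ 1) :
    |∑ i, α i * GK h (K + 1) (g i) (y i) v| ≤ a * (η / 16) ^ (K + 1) * W := by
  set F : ι → (X → ℝ) → ℝ := fun i u => (1 / 4 - (u (y i)) ^ 2) / 2 *
    ∑ y', (h (y i) y' * Real.cos (∑ x, h x y' * u x) / 2) *
        GK h K (qq (g i) (y i) (fun x => v x * u x)) y' (VV h u) with hF
  have hFc : ∀ i, Continuous (F i) := by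
    intro i
    have hq : ∀ b, Continuous fun u : X → ℝ => qq (g i) (y i) (fun x => v x * u x) b := fun b =>
      (cont_qq (g i) (y i) b).comp (by fun_prop)
    have hc3 : Continuous (fun u : X → ℝ => ∑ y', (h (y i) y' * Real.cos (∑ x, h x y' * u x) / 2) *
        GK h K (qq (g i) (y i) (fun x => v x * u x)) y' (VV h u)) := by
      refine continuous_finsetSum _ fun y' _ => ?_
      exact (by fun_prop : Continuous fun u : X → ℝ =>
        h (y i) y' * Real.cos (∑ x, h x y' * u x) / 2).mul (cont_GK h K hq (VV_cont h) y')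
    exact (by fun_prop : Continuous fun u : X → ℝ => (1 / 4 - (u (y i)) ^ 2) / 2).mul hc3
  have h1 : ∑ i, α i * GK h (K + 1) (g i) (y i) v = ∫ u, ∑ i, α i * F i u ∂(muX X) := by
    rw [integral_finsetSum _ fun i _ => (integrable_of_cont (hFc i)).const_mul (α i)]
    refine Finset.sum_congr rfl fun i _ => ?_
    rw [integral_const_mul, GK_ibp]
  rw [h1, ← Real.norm_eq_abs]
  have hb : ∀ᵐ u ∂(muX X), ‖∑ i, α i * F i u‖ ≤ a * (η / 16) ^ (K + 1) * W := by
    filter_upwards [ae_box] with u hu
    have e1 : ∑ i, α i * F i u = ∑ p : ι × X, (α p.1 * ((1 / 4 - (u (y p.1)) ^ 2) / 2) *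
        (h (y p.1) p.2 * Real.cos (∑ x, h x p.2 * u x) / 2)) *
        GK h K (qq (g p.1) (y p.1) (fun x => v x * u x)) p.2 (VV h u) := by
      rw [Fintype.sum_prod_type]
      refine Finset.sum_congr rfl fun i _ => ?_
      simp only [hF]
      rw [Finset.mul_sum, Finset.mul_sum]
      refine Finset.sum_congr rfl fun y' _ => ?_
      ring
    rw [e1, Real.norm_eq_abs]
    have hvu : ∀ x, |v x * u x| ≤ 1 / 2 := by
      intro x
      rw [abs_mul]
      have h1 := hv x
      have h2 := hu x
      nlinarith [abs_nonneg (v x), abs_nonneg (u x)]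
    have key := ih (ι × X) (fun p => qq (g p.1) (y p.1) (fun x => v x * u x)) (fun p => p.2)
      (fun p => α p.1 * ((1 / 4 - (u (y p.1)) ^ 2) / 2) *
        (h (y p.1) p.2 * Real.cos (∑ x, h x p.2 * u x) / 2)) (a * (η / 16)) W
      (by positivity) ?_ ?_ (VV h u) (VV_le h u)
    · calc _ ≤ a * (η / 16) * (η / 16) ^ K * W := key
        _ = a * (η / 16) ^ (K + 1) * W := by ring
    · intro p
      rw [abs_mul, abs_mul]
      have b1 := hα p.1
      have b2 : |(1 / 4 - (u (y p.1)) ^ 2) / 2| ≤ 1 / 8 := by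
        have hh := hu (y p.1)
        have hsq : (u (y p.1)) ^ 2 ≤ 1 / 4 := by
          rw [← sq_abs]; nlinarith [abs_nonneg (u (y p.1))]
        rw [abs_le]
        constructor <;> nlinarith [sq_nonneg (u (y p.1))]
      have b3 : |h (y p.1) p.2 * Real.cos (∑ x, h x p.2 * u x) / 2| ≤ η / 2 := by
        rw [abs_div, abs_mul, abs_two]
        have c1 := hη (y p.1) p.2
        have c2 := Real.abs_cos_le_one (∑ x, h x p.2 * u x)
        have c3 : |h (y p.1) p.2| * |Real.cos (∑ x, h x p.2 * u x)| ≤ η * 1 :=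
          mul_le_mul c1 c2 (abs_nonneg _) hη0
        linarith
      calc |α p.1| * |(1 / 4 - (u (y p.1)) ^ 2) / 2| *
            |h (y p.1) p.2 * Real.cos (∑ x, h x p.2 * u x) / 2| ≤ a * (1 / 8) * (η / 2) := by
            gcongr
        _ = a * (η / 16) := by ring
    · intro z' hz'
      have hz : ∀ l x, |(Fin.cons (fun x => v x * u x) z' : Fin (K + 2) → X → ℝ) l x| ≤ 1 / 2 := by
        intro l x
        refine Fin.cases ?_ (fun l => ?_) l
        · simpa using hvu x
        · simpa using hz' l x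
      refine le_trans (le_of_eq ?_) (hW _ hz)
      rw [Fintype.sum_prod_type]
      refine Finset.sum_congr rfl fun i _ => ?_
      rw [sum_cons' (fun c' : Fin (K + 1) → X => |Ext (DC (Fin.cons (y i) c') (g i))
        (Fin.cons (fun x => v x * u x) z')|)]
      refine Finset.sum_congr rfl fun y' _ => Finset.sum_congr rfl fun c'' _ => ?_
      rw [Ext_DC (g i) (y i)]
      simp only [Fin.cons_zero, Fin.cons_succ]
  have h2 := norm_integral_le_of_norm_le_const hb
  simpa using h2

lemma fam (h : X → X → ℝ) (η : ℝ) (hη0 : 0 ≤ η) (hη : ∀ x y, |h x y| ≤ η) (K : ℕ) :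
    ∀ (ι : Type) [Fintype ι] (g : ι → (Fin (K + 1) → X → Bool) → ℝ) (y : ι → X)
      (α : ι → ℝ) (a W : ℝ), 0 ≤ a → (∀ i, |α i| ≤ a) →
      (∀ z : Fin (K + 1) → X → ℝ, (∀ l x, |z l x| ≤ 1 / 2) →
        ∑ i, ∑ c' : Fin K → X, |Ext (DC (Fin.cons (y i) c') (g i)) z| ≤ W) →
      ∀ v : X → ℝ, (∀ x, |v x| ≤ 1 / 2) →
        |∑ i, α i * GK h K (g i) (y i) v| ≤ a * (η / 16) ^ K * W := by
  induction K with
  | zero =>
    intro ι _ g y α a W ha hα hW v hv
    have h1 := hW (fun _ => v) (fun _ x => hv x)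
    calc |∑ i, α i * GK h 0 (g i) (y i) v| ≤ ∑ i, |α i * GK h 0 (g i) (y i) v| :=
          Finset.abs_sum_le_sum_abs _ _
      _ ≤ ∑ i, a * ∑ c' : Fin 0 → X, |Ext (DC (Fin.cons (y i) c') (g i)) (fun _ => v)| := by
          refine Finset.sum_le_sum fun i _ => ?_
          rw [abs_mul, Fintype.sum_unique, GK_zero h (g i) (y i) v default]
          exact mul_le_mul_of_nonneg_right (hα i) (abs_nonneg _)
      _ = a * ∑ i, ∑ c' : Fin 0 → X, |Ext (DC (Fin.cons (y i) c') (g i)) (fun _ => v)| := by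
          rw [Finset.mul_sum]
      _ ≤ a * (η / 16) ^ 0 * W := by
          rw [pow_zero, mul_one]
          exact mul_le_mul_of_nonneg_left h1 ha
  | succ K ih =>
    intro ι _ g y α a W ha hα hW v hv
    exact step h η hη0 hη K ih ι g y α a W ha hα hW v (fun x => (hv x).trans (by norm_num))

end interp

theorem interp : Spec.Interp := by
  intro X _ _ h η hη0 hη K g W hK hW
  obtain ⟨K, rfl⟩ : ∃ K', K = K' + 1 := ⟨K - 1, by omega⟩
  have hd : ∀ t ∈ Set.Icc (0 : ℝ) 1, HasDerivWithinAt (fun s : ℝ => Psi h (K + 1) g (fun _ => s))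
      (∑ y, (1 : ℝ) * GK h (K + 1) g y (fun _ => t)) (Set.Icc (0 : ℝ) 1) t := by
    intro t _
    exact (Psi_deriv h (K + 1) g (v := fun s _ => s) (v' := fun _ => 1)
      (fun x => hasDerivAt_id t)).hasDerivWithinAt
  have hb : ∀ t ∈ Set.Ico (0 : ℝ) 1, ‖∑ y, (1 : ℝ) * GK h (K + 1) g y (fun _ => t)‖ ≤
      (η / 16) ^ (K + 1) * W := by
    intro t ht
    have := step h η hη0 hη K (fam h η hη0 hη K) X (fun _ => g) (fun y => y) (fun _ => 1) 1 W
      zero_le_one (fun _ => by simp) (fun z hz => by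
        refine le_trans (le_of_eq ?_) (hW z hz)
        rw [sum_cons' (fun c : Fin (K + 2) → X => |Ext (DC c g) z|)]) (fun _ => t)
      (fun _ => by rw [abs_le]; constructor <;> linarith [ht.1, ht.2])
    rw [Real.norm_eq_abs]
    simpa using this
  exact norm_image_sub_le_of_norm_deriv_le_segment_01' hd hb

end Crest.Agent.H2Q
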