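import Crest.Agent.H24QPhi
import Crest.Agent.H24QLevel
import Crest.Agent.H2QInterp

/-! rid 350 module SINGLE: the single-copy law. -/

namespace Crest.Agent.H24QSingle

open Crest.Agent Crest.Agent.QG Crest.Agent.QG.Spec

/-- weights -/
noncomputable def wg (n K : ℕ) (v : XX n → ℝ) (f : Fin (K + 1) → XX n → Bool) : ℝ :=
  open Classical in Psi (hh (n := n)) K (fun b => if b = f then 1 else 0) v

lemma psi_sum {n K : ℕ} (hK : 0 < K) (v : XX n → ℝ) (hv : ∀ x, |v x| ≤ 1) {ι : Type}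
    (s : Finset ι) (G : ι → (Fin (K + 1) → XX n → Bool) → ℝ) :
    Psi (hh (n := n)) K (fun b => ∑ i ∈ s, G i b) v = ∑ i ∈ s, Psi (hh (n := n)) K (G i) v := by
  classical
  have hp := H2Q.psiLaw (XX n) (hh (n := n)) K v hK hv
  obtain ⟨_, _, hadd, hmul⟩ := hp
  induction s using Finset.induction_on with
  | empty =>
    simp only [Finset.sum_empty]
    have := hmul 0 (fun _ => 0)
    simpa using this
  | insert i s hi ih =>
    rw [Finset.sum_insert hi, ← ih, ← hadd]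
    congr 1
    funext b
    rw [Finset.sum_insert hi]

lemma wg_sum {n K : ℕ} (hK : 0 < K) (v : XX n → ℝ) (hv : ∀ x, |v x| ≤ 1)
    (G : (Fin (K + 1) → XX n → Bool) → ℝ) :
    ∑ f, wg n K v f * G f = Psi (hh (n := n)) K G v := by
  classical
  have hp := H2Q.psiLaw (XX n) (hh (n := n)) K v hK hv
  obtain ⟨_, _, hadd, hmul⟩ := hp
  have h1 : ∀ f, wg n K v f * G f =
      Psi (hh (n := n)) K (fun b => G f * (if b = f then 1 else 0)) v := by
    intro f
    rw [hmul, mul_comm, wg]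
  simp only [h1]
  rw [← psi_sum hK v hv]
  congr 1
  funext b
  simp

lemma wg_nonneg {n K : ℕ} (hK : 0 < K) (v : XX n → ℝ) (hv : ∀ x, |v x| ≤ 1)
    (f : Fin (K + 1) → XX n → Bool) : 0 ≤ wg n K v f := by
  classical
  exact (H2Q.psiLaw (XX n) (hh (n := n)) K v hK hv).1 _ fun b => by split_ifs <;> norm_num

lemma hh_le {n : ℕ} (x y : XX n) : |hh x y| ≤ 1 / Real.sqrt (2 ^ n) := by
  refine abs_le_of_sq_le_sq ?_ (by positivity)
  rw [H24QPhi.hh_sq, div_pow, Real.sq_sqrt (by positivity), one_pow]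

theorem main : Spec.SingleLaw := by
  obtain ⟨τ, h0, h1, hm⟩ := H24QPhi.phiMean
  refine ⟨τ, h0, h1, fun n K hK => ?_⟩
  have hv1 : ∀ x : XX n, |(fun _ => (1 : ℝ)) x| ≤ 1 := fun x => by simp
  have hv0 : ∀ x : XX n, |(fun _ => (0 : ℝ)) x| ≤ 1 := fun x => by simp
  have hs1 := (H2Q.psiLaw (XX n) (hh (n := n)) K _ hK hv1).2.1
  have hs0 := (H2Q.psiLaw (XX n) (hh (n := n)) K _ hK hv0).2.1
  refine ⟨wg n K fun _ => 1, wg n K fun _ => 0, wg_nonneg hK _ hv1, wg_nonneg hK _ hv0,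
    ?_, ?_, ?_, ?_, ?_⟩
  · have := wg_sum hK _ hv1 (fun _ => 1)
    simpa [hs1] using this
  · have := wg_sum hK _ hv0 (fun _ => 1)
    simpa [hs0] using this
  · have e1 := wg_sum hK _ hv1 (fun _ => 1)
    have e2 := wg_sum hK _ hv1 (fun f => Phi f)
    have h2 := hm n K hK
    set m := Psi (hh (n := n)) K (fun f => Phi f) (fun _ => 1) with hmdef
    have h3 : 0 ≤ ∑ f, wg n K (fun _ => 1) f * (Phi f - m) ^ 2 :=
      Finset.sum_nonneg fun f _ => mul_nonneg (wg_nonneg hK _ hv1 f) (sq_nonneg _)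
    have h4 : ∑ f, wg n K (fun _ => 1) f * (Phi f - m) ^ 2 =
        ∑ f, wg n K (fun _ => 1) f * Phi f ^ 2 - 2 * m * ∑ f, wg n K (fun _ => 1) f * Phi f +
          m ^ 2 * ∑ f, wg n K (fun _ => 1) f * 1 := by
      rw [Finset.mul_sum, Finset.mul_sum, ← Finset.sum_sub_distrib, ← Finset.sum_add_distrib]
      refine Finset.sum_congr rfl fun f _ => ?_
      ring
    rw [h4, e1, e2, hs1] at h3
    have h5 : (τ ^ K) ^ 2 ≤ m ^ 2 := pow_le_pow_left₀ (by positivity) h2 2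
    calc τ ^ (2 * K) = (τ ^ K) ^ 2 := by rw [← pow_mul, mul_comm]
      _ ≤ m ^ 2 := h5
      _ ≤ _ := by nlinarith
  · rw [wg_sum hK _ hv0 (fun f => Phi f ^ 2), H24QPhi.phiNull n K hK]
  · intro q d T hq hd hT
    rw [wg_sum hK _ hv1 (fun f => T.ind fun p => f p.1 p.2),
      wg_sum hK _ hv0 (fun f => T.ind fun p => f p.1 p.2)]
    set B : ℝ := Real.exp (4 ^ q) *
      (16 ^ q * (((K + 1 : ℕ) : ℝ) * (2 : ℝ) ^ n) * (d : ℝ) ^ q) ^ (K + 1) with hB
    have hB0 : 0 ≤ B := by positivity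
    have hq2 : 2 * q ≠ 0 := by omega
    have hI := H2Q.interp (XX n) (hh (n := n)) (1 / Real.sqrt (2 ^ n)) (by positivity) hh_le K
      (fun f => T.ind fun p => f p.1 p.2) (B ^ (((2 * q : ℕ) : ℝ)⁻¹)) hK (by
        intro z hz
        have hL := H24QLevel.main (XX n) (K + 1) d q T (Nat.succ_pos _) hq hd hT z hz
        have hc : (Fintype.card (XX n) : ℝ) = 2 ^ n := by
          simp
        rw [hc] at hL
        have hW : (B ^ (((2 * q : ℕ) : ℝ)⁻¹)) ^ (2 * q) = B := Real.rpow_inv_natCast_pow hB0 hq2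
        refine le_of_pow_le_pow_left₀ hq2 (by positivity) ?_
        rw [hW]
        exact hL)
    have h6 := pow_le_pow_left₀ (abs_nonneg _) hI (2 * q)
    refine h6.trans (le_of_eq ?_)
    rw [mul_pow, Real.rpow_inv_natCast_pow hB0 hq2, ← pow_mul]
    congr 2
    rw [div_div, mul_comm]

end Crest.Agent.H24QSingle
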