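import Crest.Prelude.Def_TwoAdicShift

set_option autoImplicit false
open MeasureTheory Crest.AnalysisR.TwoAdic
attribute [local instance] Crest.AnalysisR.TwoAdic.borelTwoAdic Crest.AnalysisR.TwoAdic.borelSpace_twoAdic

namespace Crest.R113

instance haarTwoAdic_isAddHaar : haarTwoAdic.IsAddHaarMeasure := by
  unfold haarTwoAdic; infer_instance

instance haarTwoAdic_isProb : IsProbabilityMeasure haarTwoAdic := by
  constructor
  have h := Measure.addHaarMeasure_self (K₀ := (⊤ : TopologicalSpace.PositiveCompacts ℤ_[2]))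
  simpa [haarTwoAdic] using h

theorem ergodic_odometer : Ergodic (fun x : ℤ_[2] => 1 + x) haarTwoAdic := by
  have hd : DenseRange (fun n : ℤ => n • (1 : ℤ_[2])) := by
    have := PadicInt.denseRange_intCast (p := 2)
    convert this using 2 with n
    simp
  exact ergodic_add_left_of_denseRange_zsmul hd haarTwoAdic

theorem erg (A : Set ℤ_[2]) (hA : MeasurableSet A)
    (h : ∀ᵐ x ∂haarTwoAdic, x ∈ A → x + 1 ∈ A) :
    haarTwoAdic A = 0 ∨ haarTwoAdic Aᶜ = 0 := by
  have h1 : A ≤ᵐ[haarTwoAdic] (fun x : ℤ_[2] => 1 + x) ⁻¹' A := by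
    filter_upwards [h] with x hx hxA
    have := hx hxA
    show 1 + x ∈ A
    rwa [add_comm]
  rcases ergodic_odometer.ae_empty_or_univ_of_ae_le_preimage hA.nullMeasurableSet h1 with h2 | h2
  · left
    rw [measure_congr h2]; simp
  · right
    rw [measure_congr (h2.compl)]; simp

end Crest.R113
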