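import Mathlib

/-! F₂-chains of lists of points, barycentric-type subdivision, and the Ky Fan parity lemma. -/

set_option autoImplicit false

namespace Crest.H25Fan

open Finsupp

universe u v

/-- F₂-chains of lists of points (augmented: the empty list is the (-1)-simplex). -/
abbrev Ch (V : Type u) := List V →₀ ZMod 2

variable {V : Type u} {W : Type v}

/-- linear extension of a map on lists -/
noncomputable def ext (f : List V → Ch W) : Ch V →ₗ[ZMod 2] Ch W :=
  Finsupp.linearCombination (ZMod 2) f

@[simp] lemma ext_single (f : List V → Ch W) (l : List V) :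
    ext f (single l 1) = f l := by
  simp [ext]

/-- linear functional from a function on lists -/
noncomputable def ev (φ : List V → ZMod 2) : Ch V →ₗ[ZMod 2] ZMod 2 :=
  Finsupp.linearCombination (ZMod 2) φ

@[simp] lemma ev_single (φ : List V → ZMod 2) (l : List V) :
    ev φ (single l 1) = φ l := by
  simp [ev]

/-- two linear maps agree if they agree on lists -/
lemma lin_ext {M : Type*} [AddCommMonoid M] [Module (ZMod 2) M] (f g : Ch V →ₗ[ZMod 2] M)
    (h : ∀ l, f (single l 1) = g (single l 1)) (c : Ch V) : f c = g c := by
  have : f = g := by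
    apply Finsupp.lhom_ext'
    intro l
    apply LinearMap.ext_ring
    simpa using h l
  rw [this]

/-- pushing a list map -/
noncomputable def push (f : List V → List W) : Ch V →ₗ[ZMod 2] Ch W :=
  ext (fun l => single (f l) 1)

@[simp] lemma push_single (f : List V → List W) (l : List V) :
    push f (single l 1) = single (f l) 1 := by
  simp [push]

/-- cone -/
noncomputable def cone (v : V) : Ch V →ₗ[ZMod 2] Ch V := push (List.cons v)

@[simp] lemma cone_single (v : V) (l : List V) : cone v (single l 1) = single (v :: l) 1 := by
  simp [cone]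

noncomputable def bd0 : List V → Ch V
  | [] => 0
  | v :: l => single l 1 + cone v (bd0 l)

noncomputable def bd : Ch V →ₗ[ZMod 2] Ch V := ext bd0

@[simp] lemma bd_single (l : List V) : bd (single l (1 : ZMod 2)) = bd0 l := by simp [bd]

lemma bd_cone (v : V) (c : Ch V) : bd (cone v c) = c + cone v (bd c) := by
  have := lin_ext (bd ∘ₗ cone v) (LinearMap.id + cone v ∘ₗ bd) (fun l => by
    simp [bd0]) c
  simpa using this

lemma add_self' (c : Ch V) : c + c = 0 := by
  ext l
  simp only [Finsupp.add_apply, Finsupp.zero_apply]
  exact CharTwo.add_self_eq_zero (c l)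

lemma bd_bd0 (l : List V) : bd (bd0 l) = 0 := by
  induction l with
  | nil => simp [bd0]
  | cons v l ih =>
    simp only [bd0, map_add, bd_single, bd_cone, ih, map_zero, add_zero]
    exact add_self' _

lemma bd_bd (c : Ch V) : bd (bd c) = 0 := by
  have := lin_ext (bd ∘ₗ bd) (0 : Ch V →ₗ[ZMod 2] Ch V) (fun l => by simp [bd_bd0]) c
  simpa using this

/-- naturality of the boundary -/
lemma bd0_map (f : V → W) (l : List V) : bd0 (l.map f) = push (List.map f) (bd0 l) := by
  induction l with
  | nil => simp [bd0]
  | cons v l ih =>
    have h : ∀ c : Ch V, push (List.map f) (cone v c) = cone (f v) (push (List.map f) c) :=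
      fun c => lin_ext (push (List.map f) ∘ₗ cone v) (cone (f v) ∘ₗ push (List.map f))
        (fun l => by simp) c
    simp [bd0, ih, h]

lemma bd_push (f : V → W) (c : Ch V) : bd (push (List.map f) c) = push (List.map f) (bd c) :=
  lin_ext (bd ∘ₗ push (List.map f)) (push (List.map f) ∘ₗ bd)
    (fun l => by simp [bd0_map]) c

/-! ### supports -/

/-- chains supported in a set of lists -/
abbrev Sup (P : List V → Prop) : Submodule (ZMod 2) (Ch V) :=
  Finsupp.supported (ZMod 2) (ZMod 2) {l | P l}

lemma single_mem {P : List V → Prop} {l : List V} (h : P l) : single l (1 : ZMod 2) ∈ Sup P :=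
  Finsupp.single_mem_supported _ _ h

lemma ext_mem {M : Type*} [AddCommMonoid M] [Module (ZMod 2) M] (f : Ch V →ₗ[ZMod 2] M)
    (S : Submodule (ZMod 2) M) (P : List V → Prop)
    (h : ∀ l, P l → f (single l 1) ∈ S) (c : Ch V) (hc : c ∈ Sup P) : f c ∈ S := by
  have hc' : ∀ l ∈ c.support, P l := fun l hl => by
    have := (Finsupp.mem_supported (ZMod 2) c).1 hc
    exact this hl
  have e : c = ∑ l ∈ c.support, (c l) • single l (1 : ZMod 2) := by
    conv_lhs => rw [← Finsupp.sum_single c]
    unfold Finsupp.sum
    refine Finset.sum_congr rfl fun l _ => ?_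
    simp
  rw [e, map_sum]
  refine Submodule.sum_mem _ fun l hl => ?_
  rw [map_smul]
  exact Submodule.smul_mem _ _ (h l (hc' l hl))

/-- two linear maps agree on a supported chain if they agree on its lists -/
lemma lin_congr {M : Type*} [AddCommGroup M] [Module (ZMod 2) M] (f g : Ch V →ₗ[ZMod 2] M)
    (P : List V → Prop)
    (h : ∀ l, P l → f (single l 1) = g (single l 1)) (c : Ch V) (hc : c ∈ Sup P) :
    f c = g c := by
  have := ext_mem (f - g) ⊥ P (fun l hl => by simp [h l hl]) c hc
  simpa [sub_eq_zero] using this

lemma Sup_mono {P Q : List V → Prop} (h : ∀ l, P l → Q l) {c : Ch V} (hc : c ∈ Sup P) :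
    c ∈ Sup Q :=
  Finsupp.supported_mono (show {l | P l} ⊆ {l | Q l} from fun l hl => h l hl) hc

/-- faces are sublists of one less length -/
lemma bd0_mem (l : List V) :
    bd0 l ∈ Sup (fun l' : List V => l'.Sublist l ∧ l'.length + 1 = l.length) := by
  induction l with
  | nil => simp [bd0]
  | cons v l ih =>
    refine Submodule.add_mem _ (single_mem ⟨List.sublist_cons_self v l, by simp⟩) ?_
    refine ext_mem (cone v) _ _ ?_ _ ih
    intro l' hl'
    simp only [cone_single]
    exact single_mem ⟨hl'.1.cons_cons v, by simp [hl'.2]⟩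

/-! ### subdivision -/

noncomputable def T0 (b : List V → V) : ℕ → List V → Ch V
  | 0, l => single l 1
  | (n + 1), l => cone (b l) (ext (T0 b n) (bd0 l))

noncomputable def T (b : List V → V) (l : List V) : Ch V := T0 b l.length l

noncomputable def sd (b : List V → V) : Ch V →ₗ[ZMod 2] Ch V := ext (T b)

@[simp] lemma sd_single (b : List V → V) (l : List V) : sd b (single l 1) = T b l := by
  simp [sd]

lemma T_nil (b : List V → V) : T b [] = single [] 1 := rfl

lemma T_cons (b : List V → V) (v : V) (l : List V) :
    T b (v :: l) = cone (b (v :: l)) (sd b (bd0 (v :: l))) := by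
  show cone (b (v :: l)) (ext (T0 b l.length) (bd0 (v :: l))) = _
  congr 1
  refine lin_congr _ _ _ ?_ _ (bd0_mem (v :: l))
  intro l' hl'
  have : l'.length = l.length := by simpa using hl'.2
  simp [T, this]

lemma bd_T (b : List V → V) : ∀ (n : ℕ) (l : List V), l.length = n → bd (T b l) = sd b (bd0 l) := by
  intro n
  induction n with
  | zero =>
    intro l hl
    have : l = [] := List.eq_nil_of_length_eq_zero hl
    subst this
    simp [T_nil, bd0]
  | succ n ih =>
    intro l hl
    cases l with
    | nil => simp at hl
    | cons v l =>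
      rw [T_cons, bd_cone]
      have h1 : bd (sd b (bd0 (v :: l))) = sd b (bd (bd0 (v :: l))) := by
        refine lin_congr (bd ∘ₗ sd b) (sd b ∘ₗ bd) _ ?_ _ (bd0_mem (v :: l))
        intro l' hl'
        have : l'.length = n := by
          have h2 := hl'.2
          rw [hl] at h2
          omega
        simp [ih l' this]
      rw [h1, bd_bd0]
      simp

lemma bd_sd (b : List V → V) (c : Ch V) : bd (sd b c) = sd b (bd c) :=
  lin_ext (bd ∘ₗ sd b) (sd b ∘ₗ bd) (fun l => by simp [bd_T b l.length l rfl]) c

/-- naturality of the subdivision under a map commuting with the centre -/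
lemma sd_push (b : List V → V) (f : V → V) (hf : ∀ l, b (l.map f) = f (b l)) (c : Ch V) :
    sd b (push (List.map f) c) = push (List.map f) (sd b c) := by
  have key : ∀ (n : ℕ) (l : List V), l.length = n →
      T b (l.map f) = push (List.map f) (T b l) := by
    intro n
    induction n with
    | zero =>
      intro l hl
      have : l = [] := List.eq_nil_of_length_eq_zero hl
      subst this
      simp [T_nil]
    | succ n ih =>
      intro l hl
      cases l with
      | nil => simp at hl
      | cons v l =>
        have h0 : ∀ c : Ch V, push (List.map f) (cone (b (v :: l)) c)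
            = cone (f (b (v :: l))) (push (List.map f) c) :=
          fun c => lin_ext (push (List.map f) ∘ₗ cone (b (v :: l)))
            (cone (f (b (v :: l))) ∘ₗ push (List.map f)) (fun l => by simp) c
        rw [T_cons, h0, ← hf]
        show T b (f v :: l.map f) = _
        rw [T_cons]
        have e1 : (f v :: l.map f) = (v :: l).map f := rfl
        rw [e1, bd0_map]
        congr 1
        refine lin_congr (sd b ∘ₗ push (List.map f)) (push (List.map f) ∘ₗ sd b) _ ?_ _
          (bd0_mem (v :: l))
        intro l' hl'
        have : l'.length = n := by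
          have h2 := hl'.2
          rw [hl] at h2
          omega
        simp [ih l' this]
  exact lin_ext (sd b ∘ₗ push (List.map f)) (push (List.map f) ∘ₗ sd b)
    (fun l => by simp [key l.length l rfl]) c

/-! ### sign lists -/

/-- `alt s l = 1` iff the list `l` of signs alternates, starting with `s`. -/
def alt : Bool → List Bool → ZMod 2
  | _, [] => 1
  | s, (x :: l) => if x = s then alt (!s) l else 0

lemma ev_cone (φ : List V → ZMod 2) (v : V) (c : Ch V) :
    ev φ (cone v c) = ev (fun l => φ (v :: l)) c :=
  lin_ext (ev φ ∘ₗ cone v) (ev (fun l => φ (v :: l))) (fun l => by simp) c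

lemma ev_push (φ : List W → ZMod 2) (f : List V → List W) (c : Ch V) :
    ev φ (push f c) = ev (fun l => φ (f l)) c :=
  lin_ext (ev φ ∘ₗ push f) (ev (fun l => φ (f l))) (fun l => by simp) c

lemma ev_bd0_cons (φ : List V → ZMod 2) (v : V) (l : List V) :
    ev φ (bd0 (v :: l)) = φ l + ev (fun l => φ (v :: l)) (bd0 l) := by
  simp [bd0, ev_cone]

lemma ev_alt (l : List Bool) : ∀ s, ev (alt s) (bd0 l) = alt s l + alt (!s) l := by
  induction l with
  | nil =>
    intro s
    simp only [bd0, map_zero, alt]
    decide
  | cons x l ih =>
    intro s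
    rw [ev_bd0_cons]
    by_cases h : x = s
    · subst h
      have : (fun l => alt x (x :: l)) = alt (!x) := by
        funext l; simp [alt]
      rw [this, ih]
      have e1 : alt x (x :: l) = alt (!x) l := by simp [alt]
      have e2 : alt (!x) (x :: l) = 0 := by cases x <;> simp [alt]
      rw [e1, e2, Bool.not_not, add_zero]
      rw [add_comm (alt (!x) l), ← add_assoc, CharTwo.add_self_eq_zero, zero_add]
    · have hx : x = !s := by
        cases x <;> cases s <;> simp_all
      subst hx
      have : (fun l => alt s ((!s) :: l)) = fun _ => 0 := by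
        funext l; cases s <;> simp [alt]
      rw [this]
      have h0 : ev (fun _ : List Bool => (0 : ZMod 2)) (bd0 l) = 0 := by
        have := lin_ext (ev (fun _ : List Bool => (0 : ZMod 2))) 0 (fun l => by simp) (bd0 l)
        simpa using this
      rw [h0]
      have e1 : alt s ((!s) :: l) = 0 := by cases s <;> simp [alt]
      have e2 : alt (!s) ((!s) :: l) = alt s l := by simp [alt]
      rw [e1, e2, add_zero, zero_add]

/-- permutation invariance of the evaluated boundary -/
lemma ev_bd0_perm {l l' : List V} (h : l.Perm l') : ∀ (φ : List V → ZMod 2)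
    (_ : ∀ a b : List V, a.Perm b → φ a = φ b), ev φ (bd0 l) = ev φ (bd0 l') := by
  induction h with
  | nil => intro φ _; rfl
  | cons x h ih =>
    intro φ hφ
    rw [ev_bd0_cons, ev_bd0_cons, hφ _ _ h, ih _ (fun a b hab => hφ _ _ (hab.cons x))]
  | swap x y l =>
    intro φ hφ
    rw [ev_bd0_cons, ev_bd0_cons, ev_bd0_cons, ev_bd0_cons]
    have : (fun l => φ (x :: y :: l)) = fun l => φ (y :: x :: l) := by
      funext l
      exact hφ _ _ (List.Perm.swap _ _ _)
    rw [this]
    ring
  | trans _ _ ih1 ih2 =>
    intro φ hφ
    rw [ih1 φ hφ, ih2 φ hφ]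

/-! ### labels `(i, sign)` -/

variable {m : ℕ}

/-- labels, ordered lexicographically -/
abbrev Lab (m : ℕ) := Fin m ×ₗ Bool

/-- negation of a label -/
def ng (a : Lab m) : Lab m := toLex ((ofLex a).1, !(ofLex a).2)

def sgn (a : Lab m) : Bool := (ofLex a).2

def idx (a : Lab m) : Fin m := (ofLex a).1

lemma sgn_ng (a : Lab m) : sgn (ng a) = !sgn a := rfl

lemma idx_ng (a : Lab m) : idx (ng a) = idx a := rfl

/-- no complementary pair in the list -/
def NC (l : List (Lab m)) : Prop := ∀ a ∈ l, ∀ b ∈ l, a ≠ ng b

lemma NC.sub {l l' : List (Lab m)} (h : NC l) (hs : ∀ a ∈ l', a ∈ l) : NC l' :=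
  fun a ha b hb => h a (hs a ha) b (hs b hb)

/-- the alternating functional on label lists (depends only on the multiset) -/
def A (s : Bool) (l : List (Lab m)) : ZMod 2 :=
  alt s (((l : Multiset (Lab m)).sort (· ≤ ·)).map sgn)

lemma A_perm (s : Bool) {a b : List (Lab m)} (h : a.Perm b) : A s a = A s b := by
  unfold A
  rw [Multiset.coe_eq_coe.2 h]

lemma le_iff (a b : Lab m) : a ≤ b ↔ idx a < idx b ∨ (idx a = idx b ∧ sgn a ≤ sgn b) :=
  Prod.Lex.le_iff

lemma sort_eq_self {l : List (Lab m)} (h : l.Pairwise (· ≤ ·)) :
    (l : Multiset (Lab m)).sort (· ≤ ·) = l := by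
  refine List.Perm.eq_of_pairwise' (r := (· ≤ ·)) ?_ ?_ ?_
  · exact Multiset.pairwise_sort _ _
  · exact h
  · rw [← Multiset.coe_eq_coe, Multiset.sort_eq]

lemma A_sorted (s : Bool) {l : List (Lab m)} (h : l.Pairwise (· ≤ ·)) :
    A s l = alt s (l.map sgn) := by
  unfold A
  rw [sort_eq_self h]

lemma NC_ng_sorted {l : List (Lab m)} (h : l.Pairwise (· ≤ ·)) (hn : NC l) :
    (l.map ng).Pairwise (· ≤ ·) := by
  rw [List.pairwise_map]
  refine (List.Pairwise.imp_of_mem ?_ h)
  intro a b ha hb hab
  rw [le_iff] at hab ⊢
  rcases hab with hab | ⟨hi, hs⟩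
  · exact Or.inl hab
  · right
    refine ⟨hi, ?_⟩
    have hne := hn a ha b hb
    have : sgn a = sgn b := by
      by_contra hc
      apply hne
      have h1 : sgn a = !sgn b := by
        cases h2 : sgn a <;> cases h3 : sgn b <;> simp_all
      exact Prod.ext hi h1
    rw [sgn_ng, sgn_ng, this]

/-- Ky Fan's local identity. -/
lemma ev_A (l : List (Lab m)) (hn : NC l) :
    ev (A true) (bd0 l) = A true l + A true (l.map ng) := by
  set s := (l : Multiset (Lab m)).sort (· ≤ ·) with hs
  have hp : l.Perm s := by
    rw [← Multiset.coe_eq_coe, Multiset.sort_eq]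
  have hsrt : s.Pairwise (· ≤ ·) := Multiset.pairwise_sort _ _
  have hns : NC s := hn.sub (fun a ha => hp.mem_iff.2 ha)
  rw [ev_bd0_perm hp _ (fun a b h => A_perm true h), A_perm true hp,
    A_perm true (hp.map ng)]
  rw [A_sorted true hsrt, A_sorted true (NC_ng_sorted hsrt hns)]
  have e1 : ev (A true) (bd0 s) = ev (fun l => alt true (l.map sgn)) (bd0 s) := by
    refine lin_congr _ _ _ ?_ _ (bd0_mem s)
    intro l' hl'
    simp only [ev_single]
    exact A_sorted true (hsrt.sublist hl'.1)
  rw [e1]
  have e2 : ev (fun l : List (Lab m) => alt true (l.map sgn)) (bd0 s)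
      = ev (alt true) (bd0 (s.map sgn)) := by
    rw [bd0_map, ev_push]
  rw [e2, ev_alt]
  congr 1
  have e3 : (s.map ng).map sgn = (s.map sgn).map (fun b => !b) := by
    simp [List.map_map, Function.comp_def, sgn_ng]
  rw [e3]
  generalize s.map sgn = t
  have : ∀ (t : List Bool) (b : Bool), alt (!b) t = alt b (t.map fun c => !c) := by
    intro t
    induction t with
    | nil => intro b; simp [alt]
    | cons x t ih =>
      intro b
      simp only [alt, List.map_cons]
      rw [ih (!b)]
      cases x <;> cases b <;> simp
  simpa using this t true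

/-- an alternating list has a strictly increasing subfamily of labels -/
lemma A_ne_zero {l : List (Lab m)} (hn : NC l) (h : A true l ≠ 0) :
    ∃ s : List (Lab m), s.Perm l ∧ s.Pairwise (fun a b => idx a < idx b) ∧
      (∀ j (hj : j < s.length), sgn s[j] = decide (j % 2 = 0)) := by
  set s := (l : Multiset (Lab m)).sort (· ≤ ·) with hs
  have hp : s.Perm l := by
    rw [← Multiset.coe_eq_coe, Multiset.sort_eq]
  have hsrt : s.Pairwise (· ≤ ·) := Multiset.pairwise_sort _ _
  have hns : NC s := hn.sub (fun a ha => hp.mem_iff.1 ha)
  have halt : alt true (s.map sgn) ≠ 0 := h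
  have key : ∀ (s : List (Lab m)) (b : Bool), s.Pairwise (· ≤ ·) → NC s → alt b (s.map sgn) ≠ 0 →
      s.Pairwise (fun a b => idx a < idx b) ∧
      (∀ j (hj : j < s.length), sgn s[j] = (decide (j % 2 = 0) == b)) := by
    intro s
    induction s with
    | nil => intro b _ _ _; simp
    | cons x t ih =>
      intro b hs hn ha
      simp only [List.map_cons, alt] at ha
      by_cases hx : sgn x = b
      · rw [if_pos hx] at ha
        have hst := List.pairwise_cons.1 hs
        have h1 := ih (!b) hst.2 (hn.sub (fun a ha => List.mem_cons_of_mem _ ha)) ha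
        constructor
        · rw [List.pairwise_cons]
          refine ⟨?_, h1.1⟩
          intro y hy
          -- first element of t has the opposite sign
          cases t with
          | nil => simp at hy
          | cons z t =>
            have hz : sgn z = !b := by
              have := h1.2 0 (by simp)
              simpa using this
            have hxz : idx x < idx z := by
              have h2 := hst.1 z (by simp)
              rw [le_iff] at h2
              rcases h2 with h2 | h2
              · exact h2
              · exfalso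
                apply hn x (by simp) z (by simp)
                refine Prod.ext h2.1 ?_
                show sgn x = !sgn z
                rw [hx, hz, Bool.not_not]
            rcases List.mem_cons.1 hy with rfl | hy'
            · exact hxz
            · exact lt_trans hxz ((List.pairwise_cons.1 h1.1).1 y hy')
        · intro j hj
          cases j with
          | zero => simp [hx]
          | succ j =>
            have h2 := h1.2 j (by simpa using hj)
            simp only [List.getElem_cons_succ]
            rw [h2]
            rcases Nat.mod_two_eq_zero_or_one j with h3 | h3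
            · have : (j + 1) % 2 = 1 := by omega
              simp [h3, this]
            · have : (j + 1) % 2 = 0 := by omega
              simp [h3, this]
      · rw [if_neg hx] at ha
        exact absurd rfl ha
  obtain ⟨k1, k2⟩ := key s true hsrt hns halt
  refine ⟨s, hp, k1, fun j hj => ?_⟩
  rw [k2 j hj]
  simp

/-- **Ky Fan parity lemma** for a tower of chains. -/
theorem fan_parity (nu : V → V) (L : V → Lab m) (n : ℕ) (h : ℕ → Ch V) (v0 : V)
    (h0 : h 0 = single [v0] 1)
    (hb : ∀ k < n, bd (h (k + 1)) = h k + push (List.map nu) (h k))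
    (G : ℕ → List V → Prop)
    (hG : ∀ k ≤ n, h k ∈ Sup (G k))
    (hL : ∀ k ≤ n, ∀ l, G k l → (∀ v ∈ l, L (nu v) = ng (L v)) ∧ NC (l.map L)) :
    ∀ k ≤ n, ev (fun l => A true (l.map L)) (h k + push (List.map nu) (h k)) = 1 := by
  intro k
  induction k with
  | zero =>
    intro hk
    have hv : G 0 [v0] := by
      have h1 := hG 0 hk
      rw [h0] at h1
      have h2 := (Finsupp.mem_supported (ZMod 2) _).1 h1
      apply h2
      simp
    have h3 : L (nu v0) = ng (L v0) := (hL 0 hk [v0] hv).1 v0 (by simp)
    rw [h0]
    simp only [push_single, map_add, ev_single, List.map_cons, List.map_nil, h3]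
    have e : ∀ a : Lab m, A true [a] = if sgn a = true then 1 else 0 := by
      intro a
      rw [A_sorted true (by simp)]
      simp [alt]
    rw [e, e, sgn_ng]
    cases sgn (L v0) <;> simp
  | succ k ih =>
    intro hk
    have ih' := ih (by omega)
    rw [← hb k (by omega)] at ih'
    rw [← ih', map_add, ev_push]
    have := lin_congr (ev (fun l : List V => A true (l.map L))
      + ev (fun l : List V => A true ((l.map nu).map L)))
      (ev (fun l : List V => A true (l.map L)) ∘ₗ bd) (G (k + 1)) ?_ (h (k + 1)) (hG _ hk)
    · simpa using this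
    · intro l hl
      obtain ⟨h1, h2⟩ := hL (k + 1) hk l hl
      have e1 : (l.map nu).map L = (l.map L).map ng := by
        rw [List.map_map, List.map_map]
        exact List.map_congr_left h1
      have e2 : ev (fun l : List V => A true (l.map L)) (bd0 l) = ev (A true) (bd0 (l.map L)) := by
        rw [bd0_map, ev_push]
      simp only [LinearMap.add_apply, ev_single, LinearMap.coe_comp, Function.comp_apply,
        bd_single, e1]
      rw [e2, ev_A _ h2]

end Crest.H25Fan
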