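import Mathlib
import Crest.Agent.H25FanA

/-! Ky Fan's theorem for closed covers of the sphere. -/

set_option autoImplicit false

namespace Crest.H25Fan

open Finsupp

section metric

variable {E : Type*} [NormedAddCommGroup E] [NormedSpace ℝ E]

noncomputable def bary (l : List E) : E := ((l.length : ℝ)⁻¹) • l.sum

lemma bary_singleton (v : E) : bary [v] = v := by simp [bary]

lemma bary_map_neg (l : List E) : bary (l.map (fun v => -v)) = - bary l := by
  have : (l.map (fun v => -v)).sum = - l.sum := by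
    induction l with
    | nil => simp
    | cons v l ih => simp [ih, add_comm]
  simp [bary, this]

lemma bary_mem {K : Set E} (hK : Convex ℝ K) : ∀ (l : List E), l ≠ [] → (∀ v ∈ l, v ∈ K) →
    bary l ∈ K := by
  intro l
  induction l with
  | nil => intro h; exact absurd rfl h
  | cons v t ih =>
    intro _ hl
    by_cases ht : t = []
    · subst ht
      rw [bary_singleton]
      exact hl v (by simp)
    · have h1 := ih ht (fun w hw => hl w (List.mem_cons_of_mem _ hw))
      have h2 := hl v (by simp)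
      have hpos : (0 : ℝ) < t.length := by
        have : 0 < t.length := List.length_pos_iff.2 ht
        exact_mod_cast this
      have e : bary (v :: t) = ((1 : ℝ) / (t.length + 1)) • v
          + ((t.length : ℝ) / (t.length + 1)) • bary t := by
        unfold bary
        simp only [List.length_cons, List.sum_cons, Nat.cast_add, Nat.cast_one, smul_smul,
          smul_add]
        congr 1
        · rw [one_div]
        · congr 1
          field_simp
      rw [e]
      apply hK h2 h1
      · positivity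
      · positivity
      · field_simp
        ring

lemma sum_norm_le (l : List E) (v : E) (hv : v ∈ l) (δ : ℝ) (h : ∀ x ∈ l, dist x v ≤ δ) :
    (l.map (fun w => ‖w - v‖)).sum ≤ (l.length - 1) * δ := by
  classical
  have hp := List.perm_cons_erase hv
  rw [(hp.map (fun w => ‖w - v‖)).sum_eq, List.map_cons, List.sum_cons, sub_self, norm_zero,
    zero_add]
  have h1 : ((l.erase v).map (fun w => ‖w - v‖)).sum ≤ ((l.erase v).length : ℝ) * δ := by
    have h2 : ∀ x ∈ l.erase v, ‖x - v‖ ≤ δ := fun x hx => by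
      rw [← dist_eq_norm]; exact h x (List.mem_of_mem_erase hx)
    have := List.sum_le_card_nsmul ((l.erase v).map (fun w => ‖w - v‖)) δ (by
      intro x hx
      obtain ⟨w, hw, rfl⟩ := List.mem_map.1 hx
      exact h2 w hw)
    simpa using this
  have h3 : ((l.erase v).length : ℝ) = l.length - 1 := by
    have := hp.length_eq
    rw [List.length_cons] at this
    rw [this]; push_cast; ring
  rw [← h3]
  exact h1

lemma dist_bary (l : List E) (v : E) (hv : v ∈ l) (δ : ℝ) (h : ∀ x ∈ l, dist x v ≤ δ) :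
    dist (bary l) v ≤ (1 - 1 / (l.length : ℝ)) * δ := by
  have hpos : (0 : ℝ) < l.length := by
    have : 0 < l.length := List.length_pos_of_mem hv
    exact_mod_cast this
  have e : bary l - v = ((l.length : ℝ)⁻¹) • (l.map (fun w => w - v)).sum := by
    have : (l.map (fun w => w - v)).sum = l.sum - (l.length : ℝ) • v := by
      clear hv h hpos
      induction l with
      | nil => simp
      | cons w l ih =>
        simp only [List.map_cons, List.sum_cons, ih, List.length_cons, Nat.cast_add,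
          Nat.cast_one, add_smul, one_smul]
        abel
    rw [this, smul_sub, smul_smul, inv_mul_cancel₀ hpos.ne', one_smul]
    rfl
  rw [dist_eq_norm, e, norm_smul, Real.norm_of_nonneg (by positivity)]
  have h1 : ‖(l.map (fun w => w - v)).sum‖ ≤ (l.map (fun w => ‖w - v‖)).sum := by
    clear hv h hpos e
    induction l with
    | nil => simp
    | cons w l ih =>
      simp only [List.map_cons, List.sum_cons]
      exact (norm_add_le _ _).trans (add_le_add le_rfl ih)
  have h2 := sum_norm_le l v hv δ h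
  calc ((l.length : ℝ)⁻¹) * ‖(l.map (fun w => w - v)).sum‖
      ≤ ((l.length : ℝ)⁻¹) * ((l.length - 1) * δ) := by
        apply mul_le_mul_of_nonneg_left (h1.trans h2) (by positivity)
    _ = (1 - 1 / (l.length : ℝ)) * δ := by
        field_simp

def GT (l : List E) (δ : ℝ) (l' : List E) : Prop :=
  l'.length = l.length ∧ (∀ x ∈ l', x ∈ convexHull ℝ {v | v ∈ l}) ∧
    ∀ x ∈ l', ∀ y ∈ l', dist x y ≤ (1 - 1 / (l.length : ℝ)) * δ

lemma T_supp (δ : ℝ) : ∀ (N : ℕ) (l : List E), l.length = N →
    (∀ x ∈ l, ∀ y ∈ l, dist x y ≤ δ) → T bary l ∈ Sup (GT l δ) := by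
  intro N
  induction N with
  | zero =>
    intro l hl _
    have : l = [] := List.eq_nil_of_length_eq_zero hl
    subst this
    rw [T_nil]
    exact single_mem ⟨rfl, by simp, by simp⟩
  | succ N ih =>
    intro l hl hd
    cases l with
    | nil => simp at hl
    | cons v t =>
      have hN : t.length = N := by simpa using hl
      have hδ : 0 ≤ δ := by simpa using hd v (by simp) v (by simp)
      rw [T_cons]
      set l := v :: t with hldef
      have hlne : l ≠ [] := by simp [hldef]
      refine ext_mem (cone (bary l) ∘ₗ sd bary) _ _ ?_ _ (bd0_mem l)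
      intro f hf
      have hfN : f.length = N := by
        have := hf.2
        omega
      have hfs : ∀ x ∈ f, x ∈ l := fun x hx => hf.1.subset hx
      have h1 := ih f hfN (fun x hx y hy => hd x (hfs x hx) y (hfs y hy))
      simp only [LinearMap.coe_comp, Function.comp_apply, sd_single]
      refine ext_mem (cone (bary l)) _ _ ?_ _ h1
      intro l' hl'
      obtain ⟨g1, g2, g3⟩ := hl'
      simp only [cone_single]
      apply single_mem
      have hb : bary l ∈ convexHull ℝ {v | v ∈ l} :=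
        bary_mem (convex_convexHull ℝ _) l hlne (fun w hw => subset_convexHull ℝ _ hw)
      have hball : convexHull ℝ {v | v ∈ l} ⊆ Metric.closedBall (bary l)
          ((1 - 1 / (l.length : ℝ)) * δ) := by
        apply convexHull_min _ (convex_closedBall _ _)
        intro w hw
        rw [Metric.mem_closedBall, dist_comm]
        exact dist_bary l w hw δ (fun x hx => hd x hx w hw)
      have hr : 0 ≤ (1 - 1 / (l.length : ℝ)) * δ := by
        apply mul_nonneg _ hδ
        have : (1 : ℝ) ≤ l.length := by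
          rw [hl]; push_cast; linarith [(Nat.cast_nonneg N : (0 : ℝ) ≤ N)]
        have : 1 / (l.length : ℝ) ≤ 1 := by
          rw [div_le_one (by linarith)]; exact this
        linarith
      have hull : ∀ x ∈ l', x ∈ convexHull ℝ {v | v ∈ l} := fun x hx =>
        convexHull_mono (fun w hw => hfs w hw) (g2 x hx)
      refine ⟨by simp [g1, hfN, hl], ?_, ?_⟩
      · intro x hx
        rcases List.mem_cons.1 hx with rfl | hx
        · exact hb
        · exact hull x hx
      · intro x hx y hy
        rcases List.mem_cons.1 hx with rfl | hx'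
        · rcases List.mem_cons.1 hy with rfl | hy'
          · rw [dist_self]; exact hr
          · rw [dist_comm]; exact hball (hull y hy')
        · rcases List.mem_cons.1 hy with rfl | hy'
          · exact hball (hull x hx')
          · refine (g3 x hx' y hy').trans ?_
            apply mul_le_mul_of_nonneg_right _ hδ
            have hpos : 0 < f.length := by
              rw [← g1]; exact List.length_pos_of_mem hx'
            have h4 : (f.length : ℝ) ≤ l.length := by
              rw [hfN, hl]; push_cast; linarith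
            have h5 : (0 : ℝ) < f.length := by exact_mod_cast hpos
            have := one_div_le_one_div_of_le h5 h4
            linarith

/-- lists of given length, contained in a member of a family, of small diameter -/
def Good (𝒦 : Set (Set E)) (N : ℕ) (δ : ℝ) (l : List E) : Prop :=
  l.length = N ∧ (∃ K ∈ 𝒦, ∀ x ∈ l, x ∈ K) ∧ ∀ x ∈ l, ∀ y ∈ l, dist x y ≤ δ

lemma sd_good (𝒦 : Set (Set E)) (h𝒦 : ∀ K ∈ 𝒦, Convex ℝ K) (n N : ℕ) (hN0 : 0 < N)
    (hN : N ≤ n + 1)
    (δ : ℝ) (hδ : 0 ≤ δ) (c : Ch E) (hc : c ∈ Sup (Good 𝒦 N δ)) :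
    sd bary c ∈ Sup (Good 𝒦 N ((1 - 1 / ((n : ℝ) + 1)) * δ)) := by
  refine ext_mem (sd bary) _ _ ?_ c hc
  intro l hl
  obtain ⟨h1, ⟨K, hK, h2⟩, h3⟩ := hl
  rw [sd_single]
  refine Sup_mono ?_ (T_supp δ N l h1 h3)
  intro l' hl'
  obtain ⟨g1, g2, g3⟩ := hl'
  refine ⟨g1.trans h1, ⟨K, hK, fun x hx => ?_⟩, fun x hx y hy => (g3 x hx y hy).trans ?_⟩
  · exact convexHull_min (fun w hw => h2 w hw) (h𝒦 K hK) (g2 x hx)
  · apply mul_le_mul_of_nonneg_right _ hδ
    rw [h1]
    have h5 : (0 : ℝ) < N := by exact_mod_cast hN0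
    have h4 : (N : ℝ) ≤ n + 1 := by exact_mod_cast hN
    have := one_div_le_one_div_of_le h5 h4
    linarith

lemma sd_iter_good (𝒦 : Set (Set E)) (h𝒦 : ∀ K ∈ 𝒦, Convex ℝ K) (n N : ℕ) (hN0 : 0 < N)
    (hN : N ≤ n + 1)
    (δ : ℝ) (hδ : 0 ≤ δ) (c : Ch E) (hc : c ∈ Sup (Good 𝒦 N δ)) (M : ℕ) :
    (sd bary)^[M] c ∈ Sup (Good 𝒦 N ((1 - 1 / ((n : ℝ) + 1)) ^ M * δ)) := by
  have hr : 0 ≤ 1 - 1 / ((n : ℝ) + 1) := by
    have : 1 / ((n : ℝ) + 1) ≤ 1 := by
      rw [div_le_one (by positivity)]; linarith [(Nat.cast_nonneg n : (0 : ℝ) ≤ n)]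
    linarith
  induction M with
  | zero => simpa using hc
  | succ M ih =>
    rw [Function.iterate_succ_apply']
    have := sd_good 𝒦 h𝒦 n N hN0 hN _ (by positivity) _ ih
    rw [pow_succ']
    rwa [mul_assoc]

end metric

/-! ### the tower of chains -/

section tower

variable {n : ℕ}

local notation "EE" => EuclideanSpace ℝ (Fin (n + 1))

noncomputable def bas (k : ℕ) : EE := WithLp.toLp 2 (fun i : Fin (n + 1) => if i.val = k then (1 : ℝ) else 0)

lemma bas_apply (k : ℕ) (i : Fin (n + 1)) : (bas k : EE) i = if i.val = k then (1 : ℝ) else 0 := rfl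

noncomputable def nu : Ch EE →ₗ[ZMod 2] Ch EE := push (List.map (fun v => -v))

lemma nu_single (l : List EE) : nu (single l 1) = single (l.map (fun v => -v)) 1 := by
  simp [nu]

lemma nu_nu (c : Ch EE) : nu (nu c) = c :=
  lin_ext (nu ∘ₗ nu) LinearMap.id (fun l => by simp [nu_single, Function.comp_def]) c

lemma bd_nu (c : Ch EE) : bd (nu c) = nu (bd c) := bd_push _ _

lemma sd_nu (c : Ch EE) : sd bary (nu c) = nu (sd bary c) :=
  sd_push bary (fun v => -v) bary_map_neg c

noncomputable def tw : ℕ → Ch EE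
  | 0 => single [bas 0] 1
  | (k + 1) => cone (bas (k + 1)) (tw k + nu (tw k))

lemma bd_tw_aux (k : ℕ) : bd (tw k + nu (tw k) : Ch EE) = 0 ∧
    bd (tw (k + 1) : Ch EE) = tw k + nu (tw k) := by
  induction k with
  | zero =>
    have h : bd (tw 0 + nu (tw 0) : Ch EE) = 0 := by
      simp only [tw, nu_single, map_add, bd_single, List.map_cons, List.map_nil, bd0, map_zero,
        add_zero]
      exact add_self' _
    refine ⟨h, ?_⟩
    show bd (cone (bas (0 + 1)) (tw 0 + nu (tw 0))) = _
    rw [bd_cone, h, map_zero, add_zero]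
  | succ k ih =>
    have h : bd (tw (k + 1) + nu (tw (k + 1)) : Ch EE) = 0 := by
      rw [map_add, bd_nu, ih.2, map_add, nu_nu, add_comm (nu (tw k)) (tw k)]
      exact add_self' _
    refine ⟨h, ?_⟩
    show bd (cone (bas (k + 1 + 1)) (tw (k + 1) + nu (tw (k + 1)))) = _
    rw [bd_cone, h, map_zero, add_zero]

lemma bd_tw (k : ℕ) : bd (tw (k + 1) : Ch EE) = tw k + nu (tw k) := (bd_tw_aux k).2

/-- facets of the cross polytope -/
def Kf (ε : Fin (n + 1) → ℝ) : Set EE := {v | (∀ i, 0 ≤ ε i * v i) ∧ ∑ i, ε i * v i = 1}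

def Fam : Set (Set EE) := {K | ∃ ε : Fin (n + 1) → ℝ, (∀ i, ε i = 1 ∨ ε i = -1) ∧ K = Kf ε}

lemma Kf_convex (ε : Fin (n + 1) → ℝ) : Convex ℝ (Kf ε) := by
  intro x hx y hy a b ha hb hab
  refine ⟨fun i => ?_, ?_⟩
  · have h1 := mul_nonneg ha (hx.1 i)
    have h2 := mul_nonneg hb (hy.1 i)
    have : ε i * (a • x + b • y) i = a * (ε i * x i) + b * (ε i * y i) := by
      simp only [PiLp.add_apply, PiLp.smul_apply, smul_eq_mul]; ring
    rw [this]; linarith
  · have : ∀ i, ε i * (a • x + b • y) i = a * (ε i * x i) + b * (ε i * y i) := by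
      intro i
      simp only [PiLp.add_apply, PiLp.smul_apply, smul_eq_mul]; ring
    simp only [this, Finset.sum_add_distrib, ← Finset.mul_sum, hx.2, hy.2]
    linarith

lemma Fam_convex : ∀ K ∈ (Fam : Set (Set EE)), Convex ℝ K := by
  rintro K ⟨ε, _, rfl⟩
  exact Kf_convex ε

/-- predicate for the lists of `tw k` -/
def PT (k : ℕ) (l : List EE) : Prop :=
  l.length = k + 1 ∧ (∃ ε : Fin (n + 1) → ℝ, (∀ i, ε i = 1 ∨ ε i = -1) ∧
    ∀ v ∈ l, v ∈ Kf ε ∧ ‖v‖ ≤ 1 ∧ ∀ i : Fin (n + 1), k < i.val → v i = 0)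

lemma norm_bas (k : ℕ) : ‖(bas k : EE)‖ ≤ 1 := by
  rw [EuclideanSpace.norm_eq]
  refine (Real.sqrt_le_sqrt (y := 1) ?_).trans_eq Real.sqrt_one
  have : ∀ i : Fin (n + 1), ‖(bas k : EE) i‖ ^ 2 = if i.val = k then (1 : ℝ) else 0 := by
    intro i
    rw [bas_apply]
    split_ifs <;> simp
  simp only [this]
  by_cases hk : k < n + 1
  · rw [Finset.sum_eq_single (⟨k, hk⟩ : Fin (n + 1))]
    · simp
    · intro b _ hb
      rw [if_neg]
      intro h
      exact hb (Fin.ext h)
    · simp
  · rw [Finset.sum_eq_zero]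
    · norm_num
    · intro i _
      rw [if_neg]
      have := i.2
      omega

lemma PT_neg (k : ℕ) (l : List EE) (h : PT k l) : PT k (l.map (fun v => -v)) := by
  obtain ⟨h1, ε, h2, h3⟩ := h
  refine ⟨by simp [h1], fun i => -ε i, fun i => ?_, ?_⟩
  · rcases h2 i with h | h <;> simp [h]
  · intro w hw
    obtain ⟨v, hv, rfl⟩ := List.mem_map.1 hw
    obtain ⟨g1, g2, g3⟩ := h3 v hv
    refine ⟨⟨fun i => ?_, ?_⟩, by simpa using g2, fun i hi => by simp [g3 i hi]⟩
    · simpa using g1.1 i
    · simpa using g1.2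

lemma tw_supp (k : ℕ) (hk : k ≤ n) : (tw k : Ch EE) ∈ Sup (PT k) := by
  induction k with
  | zero =>
    apply single_mem
    refine ⟨rfl, fun _ => 1, fun _ => Or.inl rfl, ?_⟩
    intro v hv
    rw [List.mem_singleton] at hv
    subst hv
    refine ⟨⟨fun i => ?_, ?_⟩, norm_bas 0, fun i hi => ?_⟩
    · rw [bas_apply]; split_ifs <;> simp
    · rw [Finset.sum_eq_single (⟨0, by omega⟩ : Fin (n + 1))]
      · rw [bas_apply]; simp
      · intro b _ hb
        rw [bas_apply, if_neg]
        · simp
        · intro h; exact hb (Fin.ext h)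
      · simp
    · rw [bas_apply, if_neg]; omega
  | succ k ih =>
    have ih' := ih (by omega)
    have h1 : (tw k + nu (tw k) : Ch EE) ∈ Sup (PT k) := by
      refine Submodule.add_mem _ ih' ?_
      refine ext_mem nu _ _ ?_ _ ih'
      intro l hl
      rw [nu_single]
      exact single_mem (PT_neg k l hl)
    refine ext_mem (cone (bas (k + 1))) _ _ ?_ _ h1
    intro l hl
    rw [cone_single]
    apply single_mem
    obtain ⟨g1, ε, g2, g3⟩ := hl
    refine ⟨by simp [g1], fun i => if i.val = k + 1 then 1 else ε i, fun i => ?_, ?_⟩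
    · by_cases h : i.val = k + 1
      · simp [h]
      · simpa [h] using g2 i
    · intro v hv
      rcases List.mem_cons.1 hv with rfl | hv
      · refine ⟨⟨fun i => ?_, ?_⟩, norm_bas _, fun i hi => ?_⟩
        · rw [bas_apply]
          by_cases h : i.val = k + 1
          · simp [h]
          · simp [h]
        · rw [Finset.sum_eq_single (⟨k + 1, by omega⟩ : Fin (n + 1))]
          · rw [bas_apply]; simp
          · intro b _ hb
            rw [bas_apply, if_neg (show ¬ (b.val = k + 1) from fun h => hb (Fin.ext h))]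
            simp
          · simp
        · rw [bas_apply, if_neg]; omega
      · obtain ⟨p1, p2, p3⟩ := g3 v hv
        have e : ∀ i : Fin (n + 1), (if i.val = k + 1 then (1 : ℝ) else ε i) * v i = ε i * v i := by
          intro i
          by_cases h : i.val = k + 1
          · have : v i = 0 := p3 i (by omega)
            simp [this]
          · simp [h]
        refine ⟨⟨fun i => ?_, ?_⟩, p2, fun i hi => p3 i (by omega)⟩
        · show 0 ≤ (if i.val = k + 1 then (1 : ℝ) else ε i) * v i
          rw [e]; exact p1.1 i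
        · show ∑ i, (if i.val = k + 1 then (1 : ℝ) else ε i) * v i = 1
          simp only [e]; exact p1.2

lemma PT_good (k : ℕ) (l : List EE) (h : PT k l) : Good Fam (k + 1) 2 l := by
  obtain ⟨h1, ε, h2, h3⟩ := h
  refine ⟨h1, ⟨Kf ε, ⟨ε, h2, rfl⟩, fun x hx => (h3 x hx).1⟩, fun x hx y hy => ?_⟩
  have := dist_le_norm_add_norm x y
  linarith [(h3 x hx).2.1, (h3 y hy).2.1]

/-- subdivided tower -/
noncomputable def tws (M k : ℕ) : Ch EE := (sd bary)^[M] (tw k)

lemma tws_supp (M k : ℕ) (hk : k ≤ n) :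
    (tws M k : Ch EE) ∈ Sup (Good Fam (k + 1) ((1 - 1 / ((n : ℝ) + 1)) ^ M * 2)) :=
  sd_iter_good Fam Fam_convex n (k + 1) (by omega) (by omega) 2 (by norm_num) _
    (Sup_mono (PT_good k) (tw_supp k hk)) M

lemma sd_iter_add (M : ℕ) (c d : Ch EE) :
    (sd bary)^[M] (c + d) = (sd bary)^[M] c + (sd bary)^[M] d := by
  induction M with
  | zero => rfl
  | succ M ih => rw [Function.iterate_succ_apply', Function.iterate_succ_apply',
      Function.iterate_succ_apply', ih, map_add]

lemma sd_iter_nu (M : ℕ) (c : Ch EE) :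
    (sd bary)^[M] (nu c) = nu ((sd bary)^[M] c) := by
  induction M with
  | zero => rfl
  | succ M ih => rw [Function.iterate_succ_apply', Function.iterate_succ_apply', ih, sd_nu]

lemma bd_iter (M : ℕ) (c : Ch EE) :
    bd ((sd bary)^[M] c) = (sd bary)^[M] (bd c) := by
  induction M with
  | zero => rfl
  | succ M ih => rw [Function.iterate_succ_apply', Function.iterate_succ_apply', bd_sd, ih]

lemma bd_tws (M k : ℕ) : bd (tws M (k + 1) : Ch EE) = tws M k + nu (tws M k) := by
  unfold tws
  rw [bd_iter, bd_tw, sd_iter_add, sd_iter_nu]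

lemma tws_zero (M : ℕ) : (tws M 0 : Ch EE) = single [bas 0] 1 := by
  unfold tws
  induction M with
  | zero => rfl
  | succ M ih =>
    rw [Function.iterate_succ_apply', ih, sd_single, T_cons, bary_singleton]
    simp [bd0, T_nil]

lemma Good_neg (N : ℕ) (δ : ℝ) (l : List EE) (h : Good Fam N δ l) :
    Good Fam N δ (l.map (fun v => -v)) := by
  obtain ⟨h1, ⟨K, ⟨ε, he, rfl⟩, h2⟩, h3⟩ := h
  refine ⟨by simp [h1], ⟨Kf (fun i => -ε i), ⟨_, fun i => ?_, rfl⟩, ?_⟩, ?_⟩
  · rcases he i with h | h <;> simp [h]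
  · intro w hw
    obtain ⟨v, hv, rfl⟩ := List.mem_map.1 hw
    have g1 := h2 v hv
    refine ⟨fun i => ?_, ?_⟩
    · simpa using g1.1 i
    · simpa using g1.2
  · intro x hx y hy
    obtain ⟨v, hv, rfl⟩ := List.mem_map.1 hx
    obtain ⟨w, hw, rfl⟩ := List.mem_map.1 hy
    rw [dist_neg_neg]
    exact h3 v hv w hw

lemma nu_good (N : ℕ) (δ : ℝ) (c : Ch EE) (hc : c ∈ Sup (Good Fam N δ)) :
    nu c ∈ Sup (Good Fam N δ) := by
  refine ext_mem nu _ _ ?_ _ hc
  intro l hl
  rw [nu_single]
  exact single_mem (Good_neg N δ l hl)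

end tower

/-! ### compactness -/

lemma fin_unif {ι : Type*} [Finite ι] (P : ι → ℝ → Prop) (h : ∀ i, ∃ δ > 0, P i δ)
    (mono : ∀ i δ δ', δ' ≤ δ → P i δ → P i δ') : ∃ δ > 0, ∀ i, P i δ := by
  classical
  choose d hd hP using h
  obtain ⟨x, hx⟩ := Finite.exists_min (fun o : Option ι => Option.elim o (1 : ℝ) d)
  refine ⟨Option.elim x (1 : ℝ) d, ?_, fun i => mono i (d i) _ (by simpa using hx (some i)) (hP i)⟩
  cases x with
  | none => simp
  | some i => simpa using hd i

lemma leb {E : Type*} [MetricSpace E] (K : Set E) (hK : IsCompact K) {p : ℕ}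
    (C : Fin (p + 1) → Set E) (hcl : ∀ j, IsClosed (C j)) (hsub : ∀ j, C j ⊆ K)
    (hemp : ¬ ∃ x, ∀ j, x ∈ C j) :
    ∃ δ > 0, ∀ q : Fin (p + 1) → E, (∀ j, q j ∈ C j) → (∀ i j, dist (q i) (q j) ≤ δ) → False := by
  by_contra hcon
  push Not at hcon
  have h1 : ∀ N : ℕ, ∃ q : Fin (p + 1) → E, (∀ j, q j ∈ C j) ∧
      (∀ i j, dist (q i) (q j) ≤ 1 / ((N : ℝ) + 1)) := fun N => by
    obtain ⟨q, h1, h2, _⟩ := hcon (1 / ((N : ℝ) + 1)) (by positivity)
    exact ⟨q, h1, h2⟩
  choose q hq1 hq2 using h1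
  obtain ⟨x, _, φ, hφ, hx⟩ := hK.tendsto_subseq (x := fun N => q N 0) (fun N => hsub 0 (hq1 N 0))
  apply hemp
  refine ⟨x, fun j => ?_⟩
  have hlim : Filter.Tendsto (fun N => q (φ N) j) Filter.atTop (nhds x) := by
    have h2 : Filter.Tendsto (fun N => dist (q (φ N) 0) (q (φ N) j)) Filter.atTop (nhds 0) := by
      have h3 : Filter.Tendsto (fun N : ℕ => 1 / ((φ N : ℝ) + 1)) Filter.atTop (nhds 0) :=
        (tendsto_one_div_add_atTop_nhds_zero_nat (𝕜 := ℝ)).comp hφ.tendsto_atTop
      exact squeeze_zero (fun _ => dist_nonneg) (fun N => hq2 (φ N) 0 j) h3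
    exact hx.congr_dist h2
  exact (hcl j).mem_of_tendsto hlim (Filter.Eventually.of_forall fun N => hq1 (φ N) j)

section main

variable {n m : ℕ}

local notation "EE" => EuclideanSpace ℝ (Fin (n + 1))

def K1 : Set EE := {v | ∑ i, |v i| = 1}

lemma K1_compact : IsCompact (K1 : Set EE) := by
  apply Metric.isCompact_of_isClosed_isBounded
  · apply isClosed_eq _ continuous_const
    fun_prop
  · rw [Metric.isBounded_iff_subset_closedBall 0]
    refine ⟨1, fun v hv => ?_⟩
    rw [mem_closedBall_zero_iff]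
    have h1 : ∑ i, |v i| = 1 := hv
    rw [EuclideanSpace.norm_eq]
    refine (Real.sqrt_le_sqrt (y := 1) ?_).trans_eq Real.sqrt_one
    have h2 : ∀ i, |v i| ≤ 1 := fun i => by
      rw [← h1]
      exact Finset.single_le_sum (f := fun i => |v i|) (fun j _ => abs_nonneg _)
        (Finset.mem_univ i)
    calc ∑ i, ‖v i‖ ^ 2 ≤ ∑ i, |v i| := by
          apply Finset.sum_le_sum
          intro i _
          rw [Real.norm_eq_abs, sq]
          calc |v i| * |v i| ≤ |v i| * 1 := mul_le_mul_of_nonneg_left (h2 i) (abs_nonneg _)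
            _ = |v i| := mul_one _
      _ = 1 := h1

lemma K1_ne {v : EE} (hv : v ∈ (K1 : Set EE)) : v ≠ 0 := by
  rintro rfl
  have : ∑ i : Fin (n + 1), |(0 : EE) i| = 1 := hv
  simp at this

lemma Fam_K1 {K : Set EE} (hK : K ∈ (Fam : Set (Set EE))) : K ⊆ K1 := by
  obtain ⟨ε, he, rfl⟩ := hK
  intro v hv
  show ∑ i, |v i| = 1
  rw [← hv.2]
  apply Finset.sum_congr rfl
  intro i _
  have h1 := hv.1 i
  rcases he i with h | h
  · rw [h, one_mul] at h1 ⊢
    exact abs_of_nonneg h1
  · rw [h] at h1 ⊢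
    rw [abs_of_nonpos (by linarith)]
    ring

noncomputable def nrm (v : EE) : EE := (‖v‖⁻¹) • v

lemma nrm_neg (v : EE) : nrm (-v) = - nrm v := by simp [nrm]

lemma norm_nrm {v : EE} (hv : v ≠ 0) : ‖nrm v‖ = 1 := by
  rw [nrm, norm_smul, norm_inv, norm_norm, inv_mul_cancel₀ (norm_ne_zero_iff.2 hv)]

lemma closed_pre (S : Set EE) (hS : IsClosed S) :
    IsClosed {v : EE | v ∈ (K1 : Set EE) ∧ nrm v ∈ S} := by
  have hc : ContinuousOn (nrm : EE → EE) K1 := by
    have h1 : ContinuousOn (fun v : EE => ‖v‖⁻¹) K1 := by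
      apply ContinuousOn.inv₀ continuous_norm.continuousOn
      intro v hv
      exact norm_ne_zero_iff.2 (K1_ne hv)
    exact ContinuousOn.smul h1 continuousOn_id
  exact hc.preimage_isClosed_of_isClosed K1_compact.isClosed hS

lemma ev_exists {P : List EE → Prop} (φ : List EE → ZMod 2) (c : Ch EE) (hc : c ∈ Sup P)
    (h : ev φ c ≠ 0) : ∃ l, P l ∧ φ l ≠ 0 := by
  by_contra hcon
  push Not at hcon
  apply h
  have := lin_congr (ev φ) 0 P (fun l hl => by simp [hcon l hl]) c hc
  simpa using this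

/-- **Ky Fan's theorem** for closed covers of the sphere `S^n`. -/
theorem fan (B : Fin m → Set EE) (hcl : ∀ i, IsClosed (B i))
    (hdis : ∀ i x, ‖x‖ = 1 → x ∈ B i → -x ∈ B i → False)
    (hcov : ∀ x : EE, ‖x‖ = 1 → ∃ i, x ∈ B i ∨ -x ∈ B i) :
    ∃ (ι : Fin (n + 1) → Fin m) (y : EE), StrictMono ι ∧ ‖y‖ = 1 ∧
      ∀ j : Fin (n + 1), if j.val % 2 = 0 then y ∈ B (ι j) else -y ∈ B (ι j) := by
  classical
  by_contra hcon
  push Not at hcon
  -- a unit vector
  have hu : ‖nrm (bas 0 : EE)‖ = 1 := by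
    apply norm_nrm
    intro h
    have := congrArg (fun v : EE => v (⟨0, by omega⟩ : Fin (n + 1))) h
    simp [bas_apply] at this
  obtain ⟨i₀, _⟩ := hcov _ hu
  -- the labelling
  let F : EE → Finset (Fin m) := fun x => Finset.univ.filter (fun i => x ∈ B i ∨ -x ∈ B i)
  let ix : EE → Fin m := fun x => if h : (F x).Nonempty then (F x).min' h else i₀
  have hFneg : ∀ x, F (-x) = F x := by
    intro x
    ext i
    simp [F, or_comm]
  have hixneg : ∀ x, ix (-x) = ix x := by
    intro x
    simp only [ix, hFneg]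
  have hix : ∀ x, ‖x‖ = 1 → x ∈ B (ix x) ∨ -x ∈ B (ix x) := by
    intro x hx
    obtain ⟨i, hi⟩ := hcov x hx
    have hne : (F x).Nonempty := ⟨i, by simp [F, hi]⟩
    have h1 : ix x = (F x).min' hne := by simp only [ix, dif_pos hne]
    have h2 := (F x).min'_mem hne
    rw [← h1] at h2
    simpa [F] using h2
  let L : EE → Lab m := fun v => toLex (ix (nrm v), decide (nrm v ∈ B (ix (nrm v))))
  have hLneg : ∀ v : EE, v ≠ 0 → L (-v) = ng (L v) := by
    intro v hv
    have h1 := norm_nrm hv
    apply Prod.ext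
    · show ix (nrm (-v)) = ix (nrm v)
      rw [nrm_neg, hixneg]
    · show decide (nrm (-v) ∈ B (ix (nrm (-v)))) = !decide (nrm v ∈ B (ix (nrm v)))
      rw [nrm_neg, hixneg]
      rcases hix _ h1 with h2 | h2
      · have h3 : -nrm v ∉ B (ix (nrm v)) := fun h3 => hdis _ _ h1 h2 h3
        simp [h2, h3]
      · have h3 : nrm v ∉ B (ix (nrm v)) := fun h3 => hdis _ _ h1 h3 h2
        simp [h2, h3]
  have hLpos : ∀ v : EE, v ≠ 0 → sgn (L v) = true → nrm v ∈ B (idx (L v)) := by
    intro v _ h
    exact of_decide_eq_true h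
  have hLnegm : ∀ v : EE, v ≠ 0 → sgn (L v) = false → -nrm v ∈ B (idx (L v)) := by
    intro v hv h
    have h1 : nrm v ∉ B (idx (L v)) := of_decide_eq_false h
    rcases hix _ (norm_nrm hv) with h2 | h2
    · exact absurd h2 h1
    · exact h2
  -- closed sets in K1
  have hneg : ∀ i, IsClosed {x : EE | -x ∈ B i} := fun i => (hcl i).preimage continuous_neg
  -- uniform constants
  obtain ⟨δ₁, hδ₁, H1⟩ := fin_unif (ι := Fin m)
    (fun i δ => ∀ v w : EE, v ∈ (K1 : Set EE) → w ∈ (K1 : Set EE) → nrm v ∈ B i → -nrm w ∈ B i →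
      dist v w ≤ δ → False) (by
      intro i
      obtain ⟨δ, hδ, h⟩ := leb (K1 : Set EE) K1_compact (p := 1)
        (fun j => if j = 0 then {v : EE | v ∈ (K1 : Set EE) ∧ nrm v ∈ B i}
          else {v : EE | v ∈ (K1 : Set EE) ∧ nrm v ∈ {x : EE | -x ∈ B i}}) (by
          intro j
          split_ifs
          · exact closed_pre _ (hcl i)
          · exact closed_pre _ (hneg i)) (by
          intro j v hv
          split_ifs at hv
          · exact hv.1
          · exact hv.1) (by
          rintro ⟨x, hx⟩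
          have h0 := hx 0
          have h1 := hx 1
          simp only [if_true, Set.mem_ofPred_eq] at h0
          simp only [Fin.isValue, one_ne_zero, if_false, Set.mem_ofPred_eq] at h1
          exact hdis i _ (norm_nrm (K1_ne h0.1)) h0.2 h1.2)
      refine ⟨δ, hδ, fun v w hv hw hvB hwB hd => ?_⟩
      apply h ![v, w]
      · intro j
        fin_cases j
        · simpa using ⟨hv, hvB⟩
        · simpa using ⟨hw, hwB⟩
      · intro a b
        fin_cases a <;> fin_cases b
        · simpa using hδ.le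
        · simpa using hd
        · simpa [dist_comm] using hd
        · simpa using hδ.le)
    (fun i δ δ' h hP v w hv hw hvB hwB hd => hP v w hv hw hvB hwB (hd.trans h))
  obtain ⟨δ₂, hδ₂, H2⟩ := fin_unif (ι := {ι : Fin (n + 1) → Fin m // StrictMono ι})
    (fun ι δ => ∀ q : Fin (n + 1) → EE,
      (∀ j, q j ∈ (K1 : Set EE) ∧ (if j.val % 2 = 0 then nrm (q j) ∈ B (ι.1 j)
        else -nrm (q j) ∈ B (ι.1 j))) → (∀ i j, dist (q i) (q j) ≤ δ) → False) (by
      rintro ⟨ι, hι⟩
      obtain ⟨δ, hδ, h⟩ := leb (K1 : Set EE) K1_compact (p := n)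
        (fun j => if j.val % 2 = 0 then {v : EE | v ∈ (K1 : Set EE) ∧ nrm v ∈ B (ι j)}
          else {v : EE | v ∈ (K1 : Set EE) ∧ nrm v ∈ {x : EE | -x ∈ B (ι j)}}) (by
          intro j
          split_ifs
          · exact closed_pre _ (hcl _)
          · exact closed_pre _ (hneg _)) (by
          intro j v hv
          split_ifs at hv
          · exact hv.1
          · exact hv.1) (by
          rintro ⟨x, hx⟩
          have hxK : x ∈ (K1 : Set EE) := by
            have := hx 0
            simp only [Fin.val_zero, Nat.zero_mod, if_true] at this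
            exact this.1
          obtain ⟨j, hj⟩ := hcon ι (nrm x) hι (norm_nrm (K1_ne hxK))
          have hxj := hx j
          by_cases hp : j.val % 2 = 0
          · simp only [hp, if_true] at hxj hj
            exact hj hxj.2
          · simp only [hp, if_false] at hxj hj
            exact hj hxj.2)
      refine ⟨δ, hδ, fun q hq hd => h q (fun j => ?_) hd⟩
      have := hq j
      by_cases hp : j.val % 2 = 0
      · simp only [hp, if_true] at this ⊢
        exact this
      · simp only [hp, if_false] at this ⊢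
        exact this)
    (fun i δ δ' h hP q hq hd => hP q hq (fun a b => (hd a b).trans h))
  -- choose the number of subdivisions
  obtain ⟨M, hM⟩ : ∃ M : ℕ, (1 - 1 / ((n : ℝ) + 1)) ^ M * 2 ≤ min δ₁ δ₂ := by
    have hr0 : 0 ≤ 1 - 1 / ((n : ℝ) + 1) := by
      have : 1 / ((n : ℝ) + 1) ≤ 1 := by
        rw [div_le_one (by positivity)]; linarith [(Nat.cast_nonneg n : (0 : ℝ) ≤ n)]
      linarith
    have hr1 : 1 - 1 / ((n : ℝ) + 1) < 1 := by
      have : 0 < 1 / ((n : ℝ) + 1) := by positivity
      linarith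
    have hpos : 0 < min δ₁ δ₂ / 2 := by
      have := lt_min hδ₁ hδ₂
      linarith
    obtain ⟨M, hM⟩ := exists_pow_lt_of_lt_one hpos hr1
    exact ⟨M, by linarith⟩
  set δ := (1 - 1 / ((n : ℝ) + 1)) ^ M * 2 with hδdef
  have hGK : ∀ (N : ℕ) (l : List EE), Good Fam N δ l → ∀ v ∈ l, v ∈ (K1 : Set EE) := by
    rintro N l ⟨_, ⟨K, hK, h2⟩, _⟩ v hv
    exact Fam_K1 hK (h2 v hv)
  have hNC : ∀ (N : ℕ) (l : List EE), Good Fam N δ l → NC (l.map L) := by
    intro N l hl a ha b hb hab
    obtain ⟨v, hv, rfl⟩ := List.mem_map.1 ha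
    obtain ⟨w, hw, rfl⟩ := List.mem_map.1 hb
    have hvK := hGK N l hl v hv
    have hwK := hGK N l hl w hw
    have hi : idx (L v) = idx (L w) := by rw [hab, idx_ng]
    have hs : sgn (L v) = !sgn (L w) := by rw [hab, sgn_ng]
    have hd : dist v w ≤ δ₁ := (hl.2.2 v hv w hw).trans (hM.trans (min_le_left _ _))
    cases h : sgn (L v) with
    | true =>
      have h2 : sgn (L w) = false := by
        rw [h] at hs
        cases h3 : sgn (L w) with
        | false => rfl
        | true => rw [h3] at hs; exact absurd hs (by decide)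
      refine H1 (idx (L v)) v w hvK hwK (hLpos v (K1_ne hvK) h) ?_ hd
      rw [hi]
      exact hLnegm w (K1_ne hwK) h2
    | false =>
      have h2 : sgn (L w) = true := by
        rw [h] at hs
        cases h3 : sgn (L w) with
        | true => rfl
        | false => rw [h3] at hs; exact absurd hs (by decide)
      refine H1 (idx (L v)) w v hwK hvK ?_ (hLnegm v (K1_ne hvK) h) (by rw [dist_comm]; exact hd)
      rw [hi]
      exact hLpos w (K1_ne hwK) h2
  have hpar := fan_parity (fun v : EE => -v) L n (fun k => tws M k) (bas 0) (tws_zero M)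
    (fun k _ => bd_tws M k) (fun k => Good Fam (k + 1) δ) (fun k hk => tws_supp M k hk)
    (fun k _ l hl => ⟨fun v hv => hLneg v (K1_ne (hGK _ l hl v hv)), hNC _ l hl⟩) n le_rfl
  obtain ⟨l, hl, hA⟩ := ev_exists (P := Good Fam (n + 1) δ) _ _
    (Submodule.add_mem _ (tws_supp M n le_rfl) (nu_good _ _ _ (tws_supp M n le_rfl)))
    (by rw [show (nu : Ch EE →ₗ[ZMod 2] Ch EE) = push (List.map (fun v : EE => -v)) from rfl]
        rw [hpar]; exact one_ne_zero)
  obtain ⟨s, hs1, hs2, hs3⟩ := A_ne_zero (hNC _ l hl) hA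
  have hslen : s.length = n + 1 := by
    rw [hs1.length_eq, List.length_map, hl.1]
  have hex : ∀ j : Fin (n + 1), ∃ v ∈ l, L v = s[j.val]'(by rw [hslen]; exact j.2) := by
    intro j
    have h1 : s[j.val]'(by rw [hslen]; exact j.2) ∈ l.map L := hs1.mem_iff.1 (List.getElem_mem _)
    exact List.mem_map.1 h1
  choose q hq1 hq2 using hex
  have hmono : StrictMono (fun j : Fin (n + 1) => idx (L (q j))) := by
    intro a b hab
    dsimp only
    rw [hq2, hq2]
    exact List.pairwise_iff_getElem.1 hs2 a.val b.val _ _ hab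
  refine H2 ⟨_, hmono⟩ q (fun j => ⟨hGK _ l hl _ (hq1 j), ?_⟩)
    (fun a b => (hl.2.2 _ (hq1 a) _ (hq1 b)).trans (hM.trans (min_le_right _ _)))
  have hsg : sgn (L (q j)) = decide (j.val % 2 = 0) := by
    rw [hq2]; exact hs3 _ _
  have hne := K1_ne (hGK _ l hl _ (hq1 j))
  by_cases hp : j.val % 2 = 0
  · simp only [hp, if_true]
    exact hLpos _ hne (by rw [hsg]; simp [hp])
  · simp only [hp, if_false]
    exact hLnegm _ hne (by rw [hsg]; simp [hp])

end main

end Crest.H25Fan
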