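import Mathlib
import Crest.Agent.H25Fan

/-! The tower of half-spheres as lists of tuples of unit vectors (rid 50). -/

set_option autoImplicit false

namespace Crest.H25Fan

open Finsupp

section fam

variable {n : ℕ}

local notation "EE" => EuclideanSpace ℝ (Fin (n + 1))

/-- facets of the cross polytope inside the first `k+1` coordinates -/
def Famk (k : ℕ) : Set (Set EE) :=
  {K | ∃ ε : Fin (n + 1) → ℝ, (∀ i, ε i = 1 ∨ ε i = -1) ∧
    K = {v | v ∈ Kf ε ∧ ∀ i : Fin (n + 1), k < i.val → v i = 0}}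

lemma Famk_convex (k : ℕ) : ∀ K ∈ (Famk k : Set (Set EE)), Convex ℝ K := by
  rintro K ⟨ε, _, rfl⟩
  intro x hx y hy a b ha hb hab
  refine ⟨Kf_convex ε hx.1 hy.1 ha hb hab, fun i hi => ?_⟩
  simp [hx.2 i hi, hy.2 i hi]

lemma PT_goodk (k : ℕ) (l : List EE) (h : PT k l) : Good (Famk k) (k + 1) 2 l := by
  obtain ⟨h1, ε, h2, h3⟩ := h
  refine ⟨h1, ⟨_, ⟨ε, h2, rfl⟩, fun x hx => ⟨(h3 x hx).1, (h3 x hx).2.2⟩⟩, fun x hx y hy => ?_⟩
  have := dist_le_norm_add_norm x y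
  linarith [(h3 x hx).2.1, (h3 y hy).2.1]

lemma tws_suppk (M k : ℕ) (hk : k ≤ n) :
    (tws M k : Ch EE) ∈ Sup (Good (Famk k) (k + 1) ((1 - 1 / ((n : ℝ) + 1)) ^ M * 2)) :=
  sd_iter_good (Famk k) (Famk_convex k) n (k + 1) (by omega) (by omega) 2 (by norm_num) _
    (Sup_mono (PT_goodk k) (tw_supp k hk)) M

lemma small_exists (n : ℕ) {δ : ℝ} (hδ : 0 < δ) :
    ∃ M : ℕ, (1 - 1 / ((n : ℝ) + 1)) ^ M * 2 ≤ δ := by
  have hr0 : 0 ≤ 1 - 1 / ((n : ℝ) + 1) := by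
    have : 1 / ((n : ℝ) + 1) ≤ 1 := by
      rw [div_le_one (by positivity)]; linarith [(Nat.cast_nonneg n : (0 : ℝ) ≤ n)]
    linarith
  have hr1 : 1 - 1 / ((n : ℝ) + 1) < 1 := by
    have : 0 < 1 / ((n : ℝ) + 1) := by positivity
    linarith
  obtain ⟨M, hM⟩ := exists_pow_lt_of_lt_one (show 0 < δ / 2 by positivity) hr1
  exact ⟨M, by linarith⟩

lemma K1_norm {v : EE} (hv : v ∈ (K1 : Set EE)) : 1 ≤ ((n : ℝ) + 1) * ‖v‖ := by
  have h1 : ∑ i, |v i| = 1 := hv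
  calc (1 : ℝ) = ∑ i, |v i| := h1.symm
    _ ≤ ∑ _i : Fin (n + 1), ‖v‖ := by
        apply Finset.sum_le_sum
        intro i _
        have := PiLp.norm_apply_le v i
        simpa using this
    _ = ((n : ℝ) + 1) * ‖v‖ := by simp

lemma nrm_dist {v w : EE} (hv : v ∈ (K1 : Set EE)) (hw : w ∈ (K1 : Set EE)) :
    ‖nrm v - nrm w‖ ≤ 2 * ((n : ℝ) + 1) * ‖v - w‖ := by
  have hv0 : 0 < ‖v‖ := norm_pos_iff.2 (K1_ne hv)
  have hw0 : 0 < ‖w‖ := norm_pos_iff.2 (K1_ne hw)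
  have e : nrm v - nrm w = (‖v‖⁻¹) • (v - w) + (‖v‖⁻¹ - ‖w‖⁻¹) • w := by
    unfold nrm
    rw [smul_sub, sub_smul]; abel
  have h1 : ‖(‖v‖⁻¹ - ‖w‖⁻¹) • w‖ ≤ ‖v‖⁻¹ * ‖v - w‖ := by
    rw [norm_smul, Real.norm_eq_abs]
    have e2 : ‖v‖⁻¹ - ‖w‖⁻¹ = (‖w‖ - ‖v‖) * (‖v‖⁻¹ * ‖w‖⁻¹) := by
      field_simp
    rw [e2, abs_mul, abs_of_pos (by positivity : 0 < ‖v‖⁻¹ * ‖w‖⁻¹)]
    have h3 : |‖w‖ - ‖v‖| ≤ ‖v - w‖ := by
      rw [norm_sub_rev]; exact abs_norm_sub_norm_le w v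
    calc |‖w‖ - ‖v‖| * (‖v‖⁻¹ * ‖w‖⁻¹) * ‖w‖ = ‖v‖⁻¹ * |‖w‖ - ‖v‖| := by
          field_simp
      _ ≤ ‖v‖⁻¹ * ‖v - w‖ := mul_le_mul_of_nonneg_left h3 (by positivity)
  have h2 : ‖(‖v‖⁻¹) • (v - w)‖ = ‖v‖⁻¹ * ‖v - w‖ := by
    rw [norm_smul, Real.norm_of_nonneg (by positivity)]
  have h4 : ‖v‖⁻¹ ≤ (n : ℝ) + 1 := by
    rw [inv_le_comm₀ hv0 (by positivity), inv_eq_one_div, div_le_iff₀ (by positivity)]
    have := K1_norm hv
    linarith
  calc ‖nrm v - nrm w‖ ≤ ‖v‖⁻¹ * ‖v - w‖ + ‖v‖⁻¹ * ‖v - w‖ := by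
        rw [e]
        refine (norm_add_le _ _).trans ?_
        rw [h2]
        linarith
    _ = 2 * ‖v‖⁻¹ * ‖v - w‖ := by ring
    _ ≤ 2 * ((n : ℝ) + 1) * ‖v - w‖ := by
        apply mul_le_mul_of_nonneg_right _ (norm_nonneg _)
        linarith

lemma Famk_K1 {k : ℕ} {K : Set EE} (hK : K ∈ (Famk k : Set (Set EE))) : K ⊆ K1 := by
  obtain ⟨ε, he, rfl⟩ := hK
  intro v hv
  exact Fam_K1 ⟨ε, he, rfl⟩ hv.1

end fam

section tolist

variable {V : Type*}

lemma ev_eq (φ : List V → ZMod 2) (c : Ch V) : ev φ c = (c.support.toList.map φ).sum := by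
  rw [Finset.sum_map_toList]
  unfold ev
  rw [Finsupp.linearCombination_apply, Finsupp.sum]
  refine Finset.sum_congr rfl fun l hl => ?_
  have h : c l ≠ 0 := Finsupp.mem_support_iff.1 hl
  have : c l = 1 := by
    revert h
    generalize c l = a
    revert a
    decide
  rw [this, one_smul]

lemma mem_supp {P : List V → Prop} {c : Ch V} (hc : c ∈ Sup P) {l : List V}
    (hl : l ∈ c.support.toList) : P l :=
  (Finsupp.mem_supported (ZMod 2) c).1 hc (by simpa using hl)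

end tolist

section tower

variable {E : Type*} [NormedAddCommGroup E] [InnerProductSpace ℝ E]

local notation "F4" => EuclideanSpace ℝ (Fin (3 + 1))

noncomputable def TT (e : Fin 4 → E) (v : F4) : E := ∑ i : Fin 4, v i • e i

lemma TT_neg (e : Fin 4 → E) (v : F4) : TT e (-v) = - TT e v := by
  simp [TT, Finset.sum_neg_distrib]

lemma TT_sub (e : Fin 4 → E) (v w : F4) : TT e v - TT e w = TT e (v - w) := by
  simp [TT, sub_smul, Finset.sum_sub_distrib]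

lemma TT_norm (e : Fin 4 → E) (he : Orthonormal ℝ e) (v : F4) : ‖TT e v‖ = ‖v‖ := by
  have h1 : inner ℝ (TT e v) (TT e v) = ∑ i : Fin 4, v i * v i := by
    have := he.inner_sum (fun i => v i) (fun i => v i) Finset.univ
    simpa [TT] using this
  have h2 : ‖TT e v‖ ^ 2 = ‖v‖ ^ 2 := by
    rw [← real_inner_self_eq_norm_sq, h1, EuclideanSpace.norm_sq_eq]
    refine Finset.sum_congr rfl fun i _ => ?_
    rw [Real.norm_eq_abs, sq_abs, sq]
  exact (sq_eq_sq₀ (norm_nonneg _) (norm_nonneg _)).1 h2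

lemma TT_inner (e : Fin 4 → E) (he : Orthonormal ℝ e) (v : F4) (j : Fin 4) :
    inner ℝ (e j) (TT e v) = v j := by
  exact he.inner_right_fintype (fun i => v i) j

noncomputable def pp (e : Fin 4 → E) (v : F4) : E := TT e (nrm v)

lemma pp_neg (e : Fin 4 → E) (v : F4) : pp e (-v) = - pp e v := by
  rw [pp, nrm_neg, TT_neg]; rfl

lemma pp_norm (e : Fin 4 → E) (he : Orthonormal ℝ e) {v : F4} (hv : v ≠ 0) : ‖pp e v‖ = 1 := by
  rw [pp, TT_norm e he, norm_nrm hv]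

lemma pp_bas (e : Fin 4 → E) : pp e (bas 0) = e 0 := by
  have hn : ‖(bas 0 : F4)‖ = 1 := by
    rw [EuclideanSpace.norm_eq, Real.sqrt_eq_one]
    have : ∀ i : Fin (3 + 1), ‖(bas 0 : F4) i‖ ^ 2 = if i.val = 0 then (1 : ℝ) else 0 := by
      intro i
      rw [bas_apply]
      split_ifs <;> simp
    simp only [this]
    rw [Finset.sum_eq_single (0 : Fin (3 + 1))]
    · simp
    · intro b _ hb
      rw [if_neg]
      intro h
      exact hb (Fin.ext h)
    · simp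
  have hnr : nrm (bas 0 : F4) = bas 0 := by
    unfold nrm
    rw [hn, inv_one, one_smul]
  unfold pp
  rw [hnr]
  unfold TT
  rw [Finset.sum_eq_single (0 : Fin 4)]
  · rw [bas_apply]; simp
  · intro b _ hb
    rw [bas_apply, if_neg]
    · simp
    · intro h; exact hb (Fin.ext h)
  · simp

/-- properties of the entries -/
def Ent (e : Fin 4 → E) (k : ℕ) (v : E) : Prop :=
  ‖v‖ = 1 ∧ ∀ j : Fin 4, k < j.val → inner ℝ (e j) v = 0

lemma pp_ent (e : Fin 4 → E) (he : Orthonormal ℝ e) {k : ℕ} {K : Set F4}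
    (hK : K ∈ (Famk k : Set (Set F4))) {v : F4} (hv : v ∈ K) : Ent e k (pp e v) := by
  have hK1 := Famk_K1 hK hv
  refine ⟨pp_norm e he (K1_ne hK1), fun j hj => ?_⟩
  obtain ⟨ε, _, rfl⟩ := hK
  rw [pp, TT_inner e he]
  have : v j = 0 := hv.2 j hj
  show (nrm v) j = 0
  unfold nrm
  simp [this]

lemma pp_dist (e : Fin 4 → E) (he : Orthonormal ℝ e) {v w : F4}
    (hv : v ∈ (K1 : Set F4)) (hw : w ∈ (K1 : Set F4)) : dist (pp e v) (pp e w) ≤ 8 * dist v w := by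
  rw [dist_eq_norm, dist_eq_norm, pp, pp, TT_sub, TT_norm e he]
  have := nrm_dist hv hw
  norm_num at this
  linarith

/-- all the vertices of `l` are good -/
def Gls (e : Fin 4 → E) (k : ℕ) (δ : ℝ) (l : List F4) : Prop :=
  l.length = k + 1 ∧ (∀ v ∈ l, Ent e k (pp e v)) ∧ ∀ v ∈ l, ∀ w ∈ l, dist (pp e v) (pp e w) ≤ δ

/-- **The tower** in tuple form. -/
theorem tower (e : Fin 4 → E) (he : Orthonormal ℝ e) (δ : ℝ) (hδ : 0 < δ) :
    ∃ (L1 : List (E × E)) (L2 : List (E × E × E)) (L3 : List (E × E × E × E)),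
      (∀ f : E → ZMod 2, (L1.map fun p => f p.1 + f p.2).sum = f (e 0) + f (-(e 0))) ∧
      (∀ f : E → E → ZMod 2,
        (L2.map fun t => f t.2.1 t.2.2 + f t.1 t.2.2 + f t.1 t.2.1).sum
          = (L1.map fun p => f p.1 p.2 + f (-p.1) (-p.2)).sum) ∧
      (∀ f : E → E → E → ZMod 2,
        (L3.map fun t => f t.2.1 t.2.2.1 t.2.2.2 + f t.1 t.2.2.1 t.2.2.2
          + f t.1 t.2.1 t.2.2.2 + f t.1 t.2.1 t.2.2.1).sum
          = (L2.map fun t => f t.1 t.2.1 t.2.2 + f (-t.1) (-t.2.1) (-t.2.2)).sum) ∧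
      (∀ p ∈ L1, (∀ v ∈ [p.1, p.2], Ent e 1 v) ∧
        ∀ v ∈ [p.1, p.2], ∀ w ∈ [p.1, p.2], dist v w ≤ δ) ∧
      (∀ t ∈ L2, (∀ v ∈ [t.1, t.2.1, t.2.2], Ent e 2 v) ∧
        ∀ v ∈ [t.1, t.2.1, t.2.2], ∀ w ∈ [t.1, t.2.1, t.2.2], dist v w ≤ δ) ∧
      (∀ t ∈ L3, (∀ v ∈ [t.1, t.2.1, t.2.2.1, t.2.2.2], Ent e 3 v) ∧
        ∀ v ∈ [t.1, t.2.1, t.2.2.1, t.2.2.2], ∀ w ∈ [t.1, t.2.1, t.2.2.1, t.2.2.2],
          dist v w ≤ δ) := by
  obtain ⟨M, hM⟩ := small_exists 3 (show 0 < δ / 8 by positivity)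
  have hS : ∀ k ≤ 3, (tws M k : Ch F4) ∈ Sup (Gls e k δ) := by
    intro k hk
    refine Sup_mono ?_ (tws_suppk M k hk)
    rintro l ⟨h1, ⟨K, hK, h2⟩, h3⟩
    refine ⟨h1, fun v hv => pp_ent e he hK (h2 v hv), fun v hv w hw => ?_⟩
    have := pp_dist e he (Famk_K1 hK (h2 v hv)) (Famk_K1 hK (h2 w hw))
    have h4 := (h3 v hv w hw).trans hM
    linarith
  let t2 : List F4 → E × E := fun l => (pp e (l.getD 0 0), pp e (l.getD 1 0))
  let t3 : List F4 → E × E × E := fun l => (pp e (l.getD 0 0), pp e (l.getD 1 0), pp e (l.getD 2 0))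
  let t4 : List F4 → E × E × E × E := fun l =>
    (pp e (l.getD 0 0), pp e (l.getD 1 0), pp e (l.getD 2 0), pp e (l.getD 3 0))
  refine ⟨(tws M 1 : Ch F4).support.toList.map t2, (tws M 2 : Ch F4).support.toList.map t3,
    (tws M 3 : Ch F4).support.toList.map t4, ?_, ?_, ?_, ?_, ?_, ?_⟩
  · intro f
    rw [List.map_map, ← ev_eq]
    have h := lin_congr (ev ((fun p : E × E => f p.1 + f p.2) ∘ t2))
      (ev (fun l : List F4 => f (pp e (l.getD 0 0))) ∘ₗ bd) (Gls e 1 δ) ?_ _ (hS 1 (by norm_num))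
    · rw [h]
      simp only [LinearMap.coe_comp, Function.comp_apply]
      rw [bd_tws, tws_zero, nu_single]
      simp [pp_bas, pp_neg]
    · rintro l ⟨hl, _⟩
      match l, hl with
      | [a, b], _ =>
        simp [t2, bd0, Function.comp]
        ring
  · intro f
    rw [List.map_map, ← ev_eq, List.map_map, ← ev_eq]
    have h := lin_congr (ev ((fun t : E × E × E => f t.2.1 t.2.2 + f t.1 t.2.2 + f t.1 t.2.1) ∘ t3))
      (ev (fun l : List F4 => f (pp e (l.getD 0 0)) (pp e (l.getD 1 0))) ∘ₗ bd) (Gls e 2 δ) ?_ _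
      (hS 2 (by norm_num))
    · rw [h]
      simp only [LinearMap.coe_comp, Function.comp_apply]
      rw [bd_tws, map_add, nu, ev_push]
      have h2 := lin_congr (ev (fun l : List F4 => f (pp e (l.getD 0 0)) (pp e (l.getD 1 0)))
          + ev (fun l : List F4 => f (pp e ((l.map (fun v => -v)).getD 0 0))
              (pp e ((l.map (fun v => -v)).getD 1 0))))
        (ev ((fun p : E × E => f p.1 p.2 + f (-p.1) (-p.2)) ∘ t2)) (Gls e 1 δ) ?_ _
        (hS 1 (by norm_num))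
      · simpa using h2
      · rintro l ⟨hl, _⟩
        match l, hl with
        | [a, b], _ => simp [t2, Function.comp, pp_neg]
    · rintro l ⟨hl, _⟩
      match l, hl with
      | [a, b, c], _ =>
        simp [t3, bd0, Function.comp]
        ring
  · intro f
    rw [List.map_map, ← ev_eq, List.map_map, ← ev_eq]
    have h := lin_congr (ev ((fun t : E × E × E × E => f t.2.1 t.2.2.1 t.2.2.2
          + f t.1 t.2.2.1 t.2.2.2 + f t.1 t.2.1 t.2.2.2 + f t.1 t.2.1 t.2.2.1) ∘ t4))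
      (ev (fun l : List F4 => f (pp e (l.getD 0 0)) (pp e (l.getD 1 0)) (pp e (l.getD 2 0))) ∘ₗ bd)
      (Gls e 3 δ) ?_ _ (hS 3 (by norm_num))
    · rw [h]
      simp only [LinearMap.coe_comp, Function.comp_apply]
      rw [bd_tws, map_add, nu, ev_push]
      have h2 := lin_congr (ev (fun l : List F4 => f (pp e (l.getD 0 0)) (pp e (l.getD 1 0))
            (pp e (l.getD 2 0)))
          + ev (fun l : List F4 => f (pp e ((l.map (fun v => -v)).getD 0 0))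
              (pp e ((l.map (fun v => -v)).getD 1 0)) (pp e ((l.map (fun v => -v)).getD 2 0))))
        (ev ((fun t : E × E × E => f t.1 t.2.1 t.2.2 + f (-t.1) (-t.2.1) (-t.2.2)) ∘ t3))
        (Gls e 2 δ) ?_ _ (hS 2 (by norm_num))
      · simpa using h2
      · rintro l ⟨hl, _⟩
        match l, hl with
        | [a, b, c], _ => simp [t3, Function.comp, pp_neg]
    · rintro l ⟨hl, _⟩
      match l, hl with
      | [a, b, c, d], _ =>
        simp [t4, bd0, Function.comp]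
        ring
  · intro p hp
    obtain ⟨l, hl, rfl⟩ := List.mem_map.1 hp
    obtain ⟨h1, h2, h3⟩ := mem_supp (hS 1 (by norm_num)) hl
    match l, h1, h2, h3 with
    | [a, b], _, h2, h3 =>
      simp only [t2, List.getD_cons_zero, List.getD_cons_succ]
      refine ⟨fun v hv => ?_, fun v hv w hw => ?_⟩
      · obtain ⟨u, hu, rfl⟩ : ∃ u ∈ [a, b], pp e u = v := by simpa [eq_comm] using hv
        exact h2 u hu
      · obtain ⟨u, hu, rfl⟩ : ∃ u ∈ [a, b], pp e u = v := by simpa [eq_comm] using hv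
        obtain ⟨u', hu', rfl⟩ : ∃ u ∈ [a, b], pp e u = w := by simpa [eq_comm] using hw
        exact h3 u hu u' hu'
  · intro p hp
    obtain ⟨l, hl, rfl⟩ := List.mem_map.1 hp
    obtain ⟨h1, h2, h3⟩ := mem_supp (hS 2 (by norm_num)) hl
    match l, h1, h2, h3 with
    | [a, b, c], _, h2, h3 =>
      simp only [t3, List.getD_cons_zero, List.getD_cons_succ]
      refine ⟨fun v hv => ?_, fun v hv w hw => ?_⟩
      · obtain ⟨u, hu, rfl⟩ : ∃ u ∈ [a, b, c], pp e u = v := by simpa [eq_comm] using hv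
        exact h2 u hu
      · obtain ⟨u, hu, rfl⟩ : ∃ u ∈ [a, b, c], pp e u = v := by simpa [eq_comm] using hv
        obtain ⟨u', hu', rfl⟩ : ∃ u ∈ [a, b, c], pp e u = w := by simpa [eq_comm] using hw
        exact h3 u hu u' hu'
  · intro p hp
    obtain ⟨l, hl, rfl⟩ := List.mem_map.1 hp
    obtain ⟨h1, h2, h3⟩ := mem_supp (hS 3 (by norm_num)) hl
    match l, h1, h2, h3 with
    | [a, b, c, d], _, h2, h3 =>
      simp only [t4, List.getD_cons_zero, List.getD_cons_succ]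
      refine ⟨fun v hv => ?_, fun v hv w hw => ?_⟩
      · obtain ⟨u, hu, rfl⟩ : ∃ u ∈ [a, b, c, d], pp e u = v := by simpa [eq_comm] using hv
        exact h2 u hu
      · obtain ⟨u, hu, rfl⟩ : ∃ u ∈ [a, b, c, d], pp e u = v := by simpa [eq_comm] using hv
        obtain ⟨u', hu', rfl⟩ : ∃ u ∈ [a, b, c, d], pp e u = w := by simpa [eq_comm] using hw
        exact h3 u hu u' hu'

end tower

end Crest.H25Fan
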