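import Mathlib
import Crest.Agent.BRSpec
import Crest.Agent.H25Tower

set_option autoImplicit false

namespace Crest.BR

open Crest.H25Fan

/-- MODULE TOWEREX. -/
theorem towerEx : TowerEx := by
  intro e he δ hδ
  obtain ⟨L1, L2, L3, h1, h2, h3, h4, h5, h6⟩ := tower e he δ hδ
  refine ⟨L1, L2, L3, ⟨h1, h2, h3⟩, ?_, ?_, ?_, ?_, ?_, ?_⟩
  · intro p hp
    obtain ⟨g, _⟩ := h4 p hp
    have a := g p.1 (by simp)
    have b := g p.2 (by simp)
    exact ⟨⟨a.1, a.2 2 (by decide), a.2 3 (by decide)⟩, b.1, b.2 2 (by decide), b.2 3 (by decide)⟩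
  · intro t ht
    obtain ⟨g, _⟩ := h5 t ht
    have a := g t.1 (by simp)
    have b := g t.2.1 (by simp)
    have c := g t.2.2 (by simp)
    exact ⟨⟨a.1, a.2 3 (by decide)⟩, ⟨b.1, b.2 3 (by decide)⟩, c.1, c.2 3 (by decide)⟩
  · intro q hq
    obtain ⟨g, _⟩ := h6 q hq
    exact ⟨(g q.1 (by simp)).1, (g q.2.1 (by simp)).1, (g q.2.2.1 (by simp)).1,
      (g q.2.2.2 (by simp)).1⟩
  · intro p hp
    obtain ⟨_, g⟩ := h4 p hp
    rw [← dist_eq_norm]
    exact g p.1 (by simp) p.2 (by simp)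
  · intro t ht
    obtain ⟨_, g⟩ := h5 t ht
    simp only [← dist_eq_norm]
    exact ⟨g t.1 (by simp) t.2.1 (by simp), g t.1 (by simp) t.2.2 (by simp),
      g t.2.1 (by simp) t.2.2 (by simp)⟩
  · intro q hq
    obtain ⟨_, g⟩ := h6 q hq
    simp only [← dist_eq_norm]
    exact ⟨g q.1 (by simp) q.2.1 (by simp), g q.1 (by simp) q.2.2.1 (by simp),
      g q.1 (by simp) q.2.2.2 (by simp), g q.2.1 (by simp) q.2.2.1 (by simp),
      g q.2.1 (by simp) q.2.2.2 (by simp), g q.2.2.1 (by simp) q.2.2.2 (by simp)⟩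

end Crest.BR
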