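import Mathlib

/-! rid 50: geometry lemma GC (orientation function relative to `v`). -/

set_option autoImplicit false

namespace Crest.H22Geo

abbrev SS := Metric.sphere (0 : EuclideanSpace ℝ (Fin 3)) 1

noncomputable def sgr (a : ℝ) : ZMod 2 := if a < 0 then 1 else 0

lemma sgr_neg {a : ℝ} (h : a ≠ 0) : sgr (-a) = sgr a + 1 := by
  unfold sgr
  rcases lt_or_gt_of_ne h with h1 | h1
  · rw [if_neg (by linarith), if_pos h1]; decide
  · rw [if_pos (by linarith), if_neg (by linarith)]; decide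

noncomputable def Lr (a b c : ℝ) : ZMod 2 :=
  if a ≠ 0 then sgr a else if b ≠ 0 then sgr b else sgr c

lemma Lr_neg {a b c : ℝ} (h : ¬ (a = 0 ∧ b = 0 ∧ c = 0)) : Lr (-a) (-b) (-c) = Lr a b c + 1 := by
  unfold Lr
  by_cases ha : a = 0
  · by_cases hb : b = 0
    · have hc : c ≠ 0 := fun hc => h ⟨ha, hb, hc⟩
      simp only [ha, hb, neg_zero, ne_eq, not_true_eq_false, if_false]
      exact sgr_neg hc
    · simp only [ha, neg_zero, ne_eq, not_true_eq_false, if_false, neg_eq_zero, hb,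
        not_false_eq_true, if_true]
      exact sgr_neg hb
  · simp only [ne_eq, neg_eq_zero, ha, not_false_eq_true, if_true]
    exact sgr_neg ha

lemma inner3 (x y : EuclideanSpace ℝ (Fin 3)) :
    inner ℝ x y = x 0 * y 0 + x 1 * y 1 + x 2 * y 2 := by
  rw [PiLp.inner_apply, Fin.sum_univ_three]
  simp only [RCLike.inner_apply, conj_trivial]
  ring

lemma norm3 (x : SS) : (x : EuclideanSpace ℝ (Fin 3)) 0 ^ 2 + (x : EuclideanSpace ℝ (Fin 3)) 1 ^ 2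
    + (x : EuclideanSpace ℝ (Fin 3)) 2 ^ 2 = 1 := by
  have h : ‖(x : EuclideanSpace ℝ (Fin 3))‖ = 1 := mem_sphere_zero_iff_norm.1 x.2
  have h2 := real_inner_self_eq_norm_sq (x : EuclideanSpace ℝ (Fin 3))
  rw [h, inner3] at h2
  nlinarith

noncomputable def Gor (v x y : EuclideanSpace ℝ (Fin 3)) : ZMod 2 :=
  if v 0 * (x 1 * y 2 - x 2 * y 1) + v 1 * (x 2 * y 0 - x 0 * y 2)
      + v 2 * (x 0 * y 1 - x 1 * y 0) = 0 then
    Lr (x 1 * y 2 - x 2 * y 1) (x 2 * y 0 - x 0 * y 2) (x 0 * y 1 - x 1 * y 0)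
  else sgr (v 0 * (x 1 * y 2 - x 2 * y 1) + v 1 * (x 2 * y 0 - x 0 * y 2)
      + v 2 * (x 0 * y 1 - x 1 * y 0))

lemma Gor_odd (v x y x' y' : EuclideanSpace ℝ (Fin 3))
    (h0 : x' 1 * y' 2 - x' 2 * y' 1 = -(x 1 * y 2 - x 2 * y 1))
    (h1 : x' 2 * y' 0 - x' 0 * y' 2 = -(x 2 * y 0 - x 0 * y 2))
    (h2 : x' 0 * y' 1 - x' 1 * y' 0 = -(x 0 * y 1 - x 1 * y 0))
    (hne : ¬ (x 1 * y 2 - x 2 * y 1 = 0 ∧ x 2 * y 0 - x 0 * y 2 = 0 ∧
      x 0 * y 1 - x 1 * y 0 = 0)) :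
    Gor v x' y' = Gor v x y + 1 := by
  unfold Gor
  rw [h0, h1, h2]
  set a := x 1 * y 2 - x 2 * y 1
  set b := x 2 * y 0 - x 0 * y 2
  set c := x 0 * y 1 - x 1 * y 0
  have e : v 0 * -a + v 1 * -b + v 2 * -c = -(v 0 * a + v 1 * b + v 2 * c) := by ring
  rw [e]
  by_cases h : v 0 * a + v 1 * b + v 2 * c = 0
  · rw [if_pos h, if_pos (by rw [h, neg_zero])]
    exact Lr_neg hne
  · rw [if_neg h, if_neg (neg_ne_zero.2 h)]
    exact sgr_neg h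

lemma cross_ne (x y : SS)
    (h : |inner ℝ (x : EuclideanSpace ℝ (Fin 3)) (y : EuclideanSpace ℝ (Fin 3))| ≤ 1 / 10) :
    ¬ ((x : EuclideanSpace ℝ (Fin 3)) 1 * (y : EuclideanSpace ℝ (Fin 3)) 2
        - (x : EuclideanSpace ℝ (Fin 3)) 2 * (y : EuclideanSpace ℝ (Fin 3)) 1 = 0 ∧
      (x : EuclideanSpace ℝ (Fin 3)) 2 * (y : EuclideanSpace ℝ (Fin 3)) 0
        - (x : EuclideanSpace ℝ (Fin 3)) 0 * (y : EuclideanSpace ℝ (Fin 3)) 2 = 0 ∧
      (x : EuclideanSpace ℝ (Fin 3)) 0 * (y : EuclideanSpace ℝ (Fin 3)) 1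
        - (x : EuclideanSpace ℝ (Fin 3)) 1 * (y : EuclideanSpace ℝ (Fin 3)) 0 = 0) := by
  rintro ⟨h0, h1, h2⟩
  have hx := norm3 x
  have hy := norm3 y
  rw [inner3] at h
  have h' := abs_le.1 h
  set a := (x : EuclideanSpace ℝ (Fin 3)) 0
  set b := (x : EuclideanSpace ℝ (Fin 3)) 1
  set c := (x : EuclideanSpace ℝ (Fin 3)) 2
  set p := (y : EuclideanSpace ℝ (Fin 3)) 0
  set q := (y : EuclideanSpace ℝ (Fin 3)) 1
  set r := (y : EuclideanSpace ℝ (Fin 3)) 2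
  have key : (b * r - c * q) ^ 2 + (c * p - a * r) ^ 2 + (a * q - b * p) ^ 2
      = (a ^ 2 + b ^ 2 + c ^ 2) * (p ^ 2 + q ^ 2 + r ^ 2) - (a * p + b * q + c * r) ^ 2 := by ring
  rw [h0, h1, h2, hx, hy] at key
  have h3 : (a * p + b * q + c * r) ^ 2 ≤ 1 / 100 := by
    nlinarith
  linarith

lemma gram (v0 v1 v2 x0 x1 x2 y0 y1 y2 : ℝ) :
    (v0 * (x1 * y2 - x2 * y1) + v1 * (x2 * y0 - x0 * y2) + v2 * (x0 * y1 - x1 * y0)) ^ 2
      = (v0 ^ 2 + v1 ^ 2 + v2 ^ 2) * (x0 ^ 2 + x1 ^ 2 + x2 ^ 2) * (y0 ^ 2 + y1 ^ 2 + y2 ^ 2)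
        + 2 * (v0 * x0 + v1 * x1 + v2 * x2) * (x0 * y0 + x1 * y1 + x2 * y2)
            * (v0 * y0 + v1 * y1 + v2 * y2)
        - (v0 ^ 2 + v1 ^ 2 + v2 ^ 2) * (x0 * y0 + x1 * y1 + x2 * y2) ^ 2
        - (x0 ^ 2 + x1 ^ 2 + x2 ^ 2) * (v0 * y0 + v1 * y1 + v2 * y2) ^ 2
        - (y0 ^ 2 + y1 ^ 2 + y2 ^ 2) * (v0 * x0 + v1 * x1 + v2 * x2) ^ 2 := by ring

lemma triple_low (a b c : ℝ) (ha : |a| ≤ 1 / 10) (hb : |b| ≤ 1 / 10) (hc : |c| ≤ 1 / 10) :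
    -(1 / 1000) ≤ a * b * c := by
  have h : |a * b * c| ≤ 1 / 1000 := by
    rw [abs_mul, abs_mul]
    have h1 : |a| * |b| ≤ (1 / 10) * (1 / 10) :=
      mul_le_mul ha hb (abs_nonneg _) (by norm_num)
    have h2 : |a| * |b| * |c| ≤ (1 / 10) * (1 / 10) * (1 / 10) :=
      mul_le_mul h1 hc (abs_nonneg _) (by norm_num)
    linarith
  exact (abs_le.1 h).1

lemma sq_low (t : ℝ) (ht : |t| ≤ 1 / 10) : t ^ 2 ≤ 1 / 100 := by
  have := abs_le.1 ht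
  nlinarith

lemma hadamard3 (a b c p q r : ℝ) :
    (a * p + b * q + c * r) ^ 2 ≤ (a ^ 2 + b ^ 2 + c ^ 2) * (p ^ 2 + q ^ 2 + r ^ 2) := by
  nlinarith [sq_nonneg (a * q - b * p), sq_nonneg (a * r - c * p), sq_nonneg (b * r - c * q)]

lemma sign_core (D D' : ℝ) (k1 : 1 / 4 ≤ D ^ 2) (k3 : (D - D') ^ 2 ≤ 1 / 10000) :
    (D < 0 ∧ D' < 0) ∨ (0 < D ∧ 0 < D') := by
  have hdd := abs_le_of_sq_le_sq (a := D - D') (b := 1 / 100) (by norm_num; linarith)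
    (by norm_num)
  have hdd' := abs_le.1 hdd
  rcases le_total D 0 with h | h
  · left
    have : D ≤ -(1 / 2) := by nlinarith
    exact ⟨by linarith, by linarith [hdd'.1]⟩
  · right
    have : 1 / 2 ≤ D := by nlinarith
    exact ⟨by linarith, by linarith [hdd'.2]⟩

set_option maxHeartbeats 1000000 in
/-- module GC -/
theorem exists_Gv (v : SS) : ∃ G : SS → SS → ZMod 2,
    (∀ x y : SS, |inner ℝ (x : EuclideanSpace ℝ (Fin 3)) (y : EuclideanSpace ℝ (Fin 3))| ≤ 1 / 10 →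
      G y x = G x y + 1) ∧
    (∀ x y : SS, |inner ℝ (x : EuclideanSpace ℝ (Fin 3)) (y : EuclideanSpace ℝ (Fin 3))| ≤ 1 / 10 →
      G (-x) y = G x y + 1) ∧
    ∀ x x' y : SS,
      |inner ℝ (v : EuclideanSpace ℝ (Fin 3)) (x : EuclideanSpace ℝ (Fin 3))| ≤ 1 / 10 →
      |inner ℝ (v : EuclideanSpace ℝ (Fin 3)) (x' : EuclideanSpace ℝ (Fin 3))| ≤ 1 / 10 →
      |inner ℝ (v : EuclideanSpace ℝ (Fin 3)) (y : EuclideanSpace ℝ (Fin 3))| ≤ 1 / 10 →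
      |inner ℝ (x : EuclideanSpace ℝ (Fin 3)) (y : EuclideanSpace ℝ (Fin 3))| ≤ 1 / 10 →
      |inner ℝ (x' : EuclideanSpace ℝ (Fin 3)) (y : EuclideanSpace ℝ (Fin 3))| ≤ 1 / 10 →
      dist x x' ≤ 1 / 100 → G x y = G x' y := by
  refine ⟨fun x y => Gor v x y, ?_, ?_, ?_⟩
  · intro x y h
    exact Gor_odd _ _ _ _ _ (by ring) (by ring) (by ring) (cross_ne x y h)
  · intro x y h
    have e : ∀ i, ((-x : SS) : EuclideanSpace ℝ (Fin 3)) i = -(x : EuclideanSpace ℝ (Fin 3)) i :=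
      fun i => rfl
    exact Gor_odd _ _ _ _ _ (by rw [e, e]; ring) (by rw [e, e]; ring) (by rw [e, e]; ring)
      (cross_ne x y h)
  · intro x x' y h1 h2 h3 h4 h5 h6
    have hv := norm3 v
    have hx := norm3 x
    have hx' := norm3 x'
    have hy := norm3 y
    have hd : ((x : EuclideanSpace ℝ (Fin 3)) 0 - (x' : EuclideanSpace ℝ (Fin 3)) 0) ^ 2
        + ((x : EuclideanSpace ℝ (Fin 3)) 1 - (x' : EuclideanSpace ℝ (Fin 3)) 1) ^ 2
        + ((x : EuclideanSpace ℝ (Fin 3)) 2 - (x' : EuclideanSpace ℝ (Fin 3)) 2) ^ 2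
          ≤ 1 / 10000 := by
      have e1 : dist x x' = ‖(x : EuclideanSpace ℝ (Fin 3)) - x'‖ := by
        rw [Subtype.dist_eq, dist_eq_norm]
      have e2 := real_inner_self_eq_norm_sq ((x : EuclideanSpace ℝ (Fin 3)) - x')
      rw [inner3] at e2
      simp only [PiLp.sub_apply] at e2
      rw [e1] at h6
      have e3 := norm_nonneg ((x : EuclideanSpace ℝ (Fin 3)) - x')
      nlinarith
    show Gor v x y = Gor v x' y
    unfold Gor
    rw [inner3] at h1 h2 h3 h4 h5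
    generalize (v : EuclideanSpace ℝ (Fin 3)) 0 = v0 at *
    generalize (v : EuclideanSpace ℝ (Fin 3)) 1 = v1 at *
    generalize (v : EuclideanSpace ℝ (Fin 3)) 2 = v2 at *
    generalize (x : EuclideanSpace ℝ (Fin 3)) 0 = x0 at *
    generalize (x : EuclideanSpace ℝ (Fin 3)) 1 = x1 at *
    generalize (x : EuclideanSpace ℝ (Fin 3)) 2 = x2 at *
    generalize (x' : EuclideanSpace ℝ (Fin 3)) 0 = w0 at *
    generalize (x' : EuclideanSpace ℝ (Fin 3)) 1 = w1 at *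
    generalize (x' : EuclideanSpace ℝ (Fin 3)) 2 = w2 at *
    generalize (y : EuclideanSpace ℝ (Fin 3)) 0 = y0 at *
    generalize (y : EuclideanSpace ℝ (Fin 3)) 1 = y1 at *
    generalize (y : EuclideanSpace ℝ (Fin 3)) 2 = y2 at *
    have g1 := gram v0 v1 v2 x0 x1 x2 y0 y1 y2
    have g2 := gram v0 v1 v2 w0 w1 w2 y0 y1 y2
    have g3 := gram v0 v1 v2 (x0 - w0) (x1 - w1) (x2 - w2) y0 y1 y2
    have eD : v0 * ((x1 - w1) * y2 - (x2 - w2) * y1) + v1 * ((x2 - w2) * y0 - (x0 - w0) * y2)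
        + v2 * ((x0 - w0) * y1 - (x1 - w1) * y0)
        = (v0 * (x1 * y2 - x2 * y1) + v1 * (x2 * y0 - x0 * y2) + v2 * (x0 * y1 - x1 * y0))
          - (v0 * (w1 * y2 - w2 * y1) + v1 * (w2 * y0 - w0 * y2) + v2 * (w0 * y1 - w1 * y0)) := by
      ring
    rw [eD] at g3
    rw [hv, hy] at g1 g2 g3
    rw [hx] at g1
    rw [hx'] at g2
    have q1 := triple_low _ _ _ h1 h4 h3
    have q2 := triple_low _ _ _ h2 h5 h3
    have s1 := sq_low _ h1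
    have s2 := sq_low _ h2
    have s3 := sq_low _ h3
    have s4 := sq_low _ h4
    have s5 := sq_low _ h5
    set D := v0 * (x1 * y2 - x2 * y1) + v1 * (x2 * y0 - x0 * y2) + v2 * (x0 * y1 - x1 * y0)
      with hD
    set D' := v0 * (w1 * y2 - w2 * y1) + v1 * (w2 * y0 - w0 * y2) + v2 * (w0 * y1 - w1 * y0)
      with hD'
    have k1 : 1 / 4 ≤ D ^ 2 := by linarith
    have k2 : 1 / 4 ≤ D' ^ 2 := by linarith
    have k3 : (D - D') ^ 2 ≤ 1 / 10000 := by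
      -- Hadamard
      have hc : (D - D') ^ 2 ≤ ((x0 - w0) ^ 2 + (x1 - w1) ^ 2 + (x2 - w2) ^ 2)
          * ((y1 * v2 - y2 * v1) ^ 2 + (y2 * v0 - y0 * v2) ^ 2 + (y0 * v1 - y1 * v0) ^ 2) := by
        have e1 : D - D' = (x0 - w0) * (y1 * v2 - y2 * v1) + (x1 - w1) * (y2 * v0 - y0 * v2)
            + (x2 - w2) * (y0 * v1 - y1 * v0) := by rw [hD, hD']; ring
        rw [e1]
        exact hadamard3 _ _ _ _ _ _
      have hc2 : (y1 * v2 - y2 * v1) ^ 2 + (y2 * v0 - y0 * v2) ^ 2 + (y0 * v1 - y1 * v0) ^ 2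
          ≤ 1 := by
        have : (y1 * v2 - y2 * v1) ^ 2 + (y2 * v0 - y0 * v2) ^ 2 + (y0 * v1 - y1 * v0) ^ 2
            = (y0 ^ 2 + y1 ^ 2 + y2 ^ 2) * (v0 ^ 2 + v1 ^ 2 + v2 ^ 2)
              - (v0 * y0 + v1 * y1 + v2 * y2) ^ 2 := by ring
        rw [this, hy, hv]
        linarith [sq_nonneg (v0 * y0 + v1 * y1 + v2 * y2)]
      have hn : 0 ≤ (x0 - w0) ^ 2 + (x1 - w1) ^ 2 + (x2 - w2) ^ 2 := by positivity
      calc (D - D') ^ 2 ≤ _ := hc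
        _ ≤ ((x0 - w0) ^ 2 + (x1 - w1) ^ 2 + (x2 - w2) ^ 2) * 1 :=
            mul_le_mul_of_nonneg_left hc2 hn
        _ ≤ 1 / 10000 := by linarith
    rcases sign_core D D' k1 k3 with ⟨a1, a2⟩ | ⟨a1, a2⟩
    · rw [if_neg a1.ne, if_neg a2.ne]
      unfold sgr
      rw [if_pos a1, if_pos a2]
    · rw [if_neg a1.ne', if_neg a2.ne']
      unfold sgr
      rw [if_neg (not_lt.2 a1.le), if_neg (not_lt.2 a2.le)]

end Crest.H22Geo
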