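import Mathlib
import Crest.Agent.H13AbsSpec

set_option autoImplicit false

open Filter Topology Set
open Crest.Agent.H13AbsSpec

namespace Crest.Agent.H25Kink

/-- a convex combination of three subgradients with mean slope `ρ` is a subgradient of the
Legendre transform -/
lemma sub_leg {G : ℝ → ℝ → ℝ} {φ : ℝ → ℝ} {bc hc ρ : ℝ}
    (hlow : ∀ b c : ℝ, 0 < b → (∀ h, c ≤ G b h - h * ρ) → c ≤ φ b)
    (hup : φ bc ≤ G bc hc - hc * ρ) {r₁ r₂ e₁ e₂ l₁ l₂ : ℝ}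
    (hs₁ : Sub G bc hc e₁ r₁) (hs₂ : Sub G bc hc e₂ r₂) (hl₁ : 0 ≤ l₁) (hl₂ : 0 ≤ l₂)
    (hl : l₁ + l₂ = 1) (hρ : l₁ * r₁ + l₂ * r₂ = ρ) {b : ℝ} (hb : 0 < b) :
    φ bc + (l₁ * e₁ + l₂ * e₂) * (b - bc) ≤ φ b := by
  apply hlow b _ hb
  intro h
  have h1 := mul_le_mul_of_nonneg_left (hs₁ b h hb) hl₁
  have h2 := mul_le_mul_of_nonneg_left (hs₂ b h hb) hl₂
  have h3 : l₁ * (G bc hc + e₁ * (b - bc) + r₁ * (h - hc)) +
      l₂ * (G bc hc + e₂ * (b - bc) + r₂ * (h - hc)) =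
      (l₁ + l₂) * G bc hc + (l₁ * e₁ + l₂ * e₂) * (b - bc) + (l₁ * r₁ + l₂ * r₂) * (h - hc) := by
    ring
  have h4 : l₁ * G b h + l₂ * G b h = (l₁ + l₂) * G b h := by ring
  rw [hl, hρ] at h3
  rw [hl] at h4
  linarith

/-- **Kink of the free energy at a triple point.** -/
theorem kink {G : ℝ → ℝ → ℝ} {φ : ℝ → ℝ} {bc hc ρ : ℝ} (hbc : 0 < bc)
    (hφ : ConvexOn ℝ (Ioi 0) φ)
    (hlow : ∀ b c : ℝ, 0 < b → (∀ h, c ≤ G b h - h * ρ) → c ≤ φ b)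
    (hup : φ bc ≤ G bc hc - hc * ρ) {r₀ r₁ r₂ e₀ e₁ e₂ : ℝ}
    (h01 : r₀ < r₁) (h12 : r₁ < r₂)
    (hs₀ : Sub G bc hc e₀ r₀) (hs₁ : Sub G bc hc e₁ r₁) (hs₂ : Sub G bc hc e₂ r₂)
    (hstrict : (r₂ - r₀) * e₁ < (r₂ - r₁) * e₀ + (r₁ - r₀) * e₂) (hρ0 : r₀ < ρ) (hρ2 : ρ < r₂) :
    ∃ Dl Dr : ℝ, HasDerivWithinAt φ Dl (Iio bc) bc ∧ HasDerivWithinAt φ Dr (Ioi bc) bc ∧
      Dl < Dr := by
  -- two different subgradients of φ
  obtain ⟨E₁, E₂, hE, hE₁, hE₂⟩ : ∃ E₁ E₂ : ℝ, E₁ < E₂ ∧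
      (∀ b, 0 < b → φ bc + E₁ * (b - bc) ≤ φ b) ∧ (∀ b, 0 < b → φ bc + E₂ * (b - bc) ≤ φ b) := by
    have d02 : 0 < r₂ - r₀ := by linarith
    have d01 : 0 < r₁ - r₀ := by linarith
    have d12 : 0 < r₂ - r₁ := by linarith
    have c02 : ∀ b, 0 < b → φ bc +
        ((r₂ - ρ) / (r₂ - r₀) * e₀ + (ρ - r₀) / (r₂ - r₀) * e₂) * (b - bc) ≤ φ b := by
      intro b hb
      apply sub_leg hlow hup hs₀ hs₂ (div_nonneg (by linarith) d02.le)
        (div_nonneg (by linarith) d02.le) _ _ hb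
      · field_simp; ring
      · field_simp; ring
    rcases le_total ρ r₁ with hρ1 | hρ1
    · refine ⟨(r₁ - ρ) / (r₁ - r₀) * e₀ + (ρ - r₀) / (r₁ - r₀) * e₁, _, ?_, ?_, c02⟩
      · have h1 : (r₂ - ρ) / (r₂ - r₀) * e₀ + (ρ - r₀) / (r₂ - r₀) * e₂ -
            ((r₁ - ρ) / (r₁ - r₀) * e₀ + (ρ - r₀) / (r₁ - r₀) * e₁) =
            (ρ - r₀) * (((r₂ - r₁) * e₀ + (r₁ - r₀) * e₂) - (r₂ - r₀) * e₁) /
              ((r₂ - r₀) * (r₁ - r₀)) := by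
          field_simp
          ring
        have h2 : 0 < (ρ - r₀) * (((r₂ - r₁) * e₀ + (r₁ - r₀) * e₂) - (r₂ - r₀) * e₁) /
              ((r₂ - r₀) * (r₁ - r₀)) := by
          apply div_pos _ (mul_pos d02 d01)
          apply mul_pos (by linarith) (by linarith)
        linarith
      · intro b hb
        apply sub_leg hlow hup hs₀ hs₁ (div_nonneg (by linarith) d01.le)
          (div_nonneg (by linarith) d01.le) _ _ hb
        · field_simp; ring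
        · field_simp; ring
    · refine ⟨(r₂ - ρ) / (r₂ - r₁) * e₁ + (ρ - r₁) / (r₂ - r₁) * e₂, _, ?_, ?_, c02⟩
      · have h1 : (r₂ - ρ) / (r₂ - r₀) * e₀ + (ρ - r₀) / (r₂ - r₀) * e₂ -
            ((r₂ - ρ) / (r₂ - r₁) * e₁ + (ρ - r₁) / (r₂ - r₁) * e₂) =
            (r₂ - ρ) * (((r₂ - r₁) * e₀ + (r₁ - r₀) * e₂) - (r₂ - r₀) * e₁) /
              ((r₂ - r₀) * (r₂ - r₁)) := by
          field_simp
          ring
        have h2 : 0 < (r₂ - ρ) * (((r₂ - r₁) * e₀ + (r₁ - r₀) * e₂) - (r₂ - r₀) * e₁) /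
              ((r₂ - r₀) * (r₂ - r₁)) := by
          apply div_pos _ (mul_pos d02 d12)
          apply mul_pos (by linarith) (by linarith)
        linarith
      · intro b hb
        apply sub_leg hlow hup hs₁ hs₂ (div_nonneg (by linarith) d12.le)
          (div_nonneg (by linarith) d12.le) _ _ hb
        · field_simp; ring
        · field_simp; ring
  have hint : bc ∈ interior (Ioi (0 : ℝ)) := by
    rw [interior_Ioi]; exact hbc
  have hR := hφ.hasDerivWithinAt_rightDeriv_of_mem_interior hint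
  have hL := hφ.hasDerivWithinAt_leftDeriv_of_mem_interior hint
  refine ⟨_, _, hL, hR, ?_⟩
  have h1 : E₂ ≤ derivWithin φ (Ioi bc) bc := by
    have ht := hR
    rw [hasDerivWithinAt_iff_tendsto_slope] at ht
    simp only [mem_Ioi, lt_self_iff_false, not_false_eq_true, sdiff_singleton_eq_self] at ht
    apply ge_of_tendsto ht
    filter_upwards [self_mem_nhdsWithin] with x hx
    have hxb : bc < x := hx
    rw [slope_def_field, le_div_iff₀ (by linarith)]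
    have := hE₂ x (by linarith)
    linarith
  have h2 : derivWithin φ (Iio bc) bc ≤ E₁ := by
    have ht := hL
    rw [hasDerivWithinAt_iff_tendsto_slope] at ht
    simp only [mem_Iio, lt_self_iff_false, not_false_eq_true, sdiff_singleton_eq_self] at ht
    apply le_of_tendsto ht
    have hmem : Ioi (0 : ℝ) ∈ 𝓝[<] bc := mem_nhdsWithin_of_mem_nhds (Ioi_mem_nhds hbc)
    filter_upwards [self_mem_nhdsWithin, hmem] with x hx hx0
    have hxb : x < bc := hx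
    rw [slope_def_field, div_le_iff_of_neg (by linarith)]
    have := hE₁ x hx0
    linarith
  linarith

/-- the same for the free energy `-φ b / b` -/
theorem kink_freeEnergy {G : ℝ → ℝ → ℝ} {φ : ℝ → ℝ} {bc hc ρ : ℝ} (hbc : 0 < bc)
    (hφ : ConvexOn ℝ (Ioi 0) φ)
    (hlow : ∀ b c : ℝ, 0 < b → (∀ h, c ≤ G b h - h * ρ) → c ≤ φ b)
    (hup : φ bc ≤ G bc hc - hc * ρ) {r₀ r₁ r₂ e₀ e₁ e₂ : ℝ}
    (h01 : r₀ < r₁) (h12 : r₁ < r₂)
    (hs₀ : Sub G bc hc e₀ r₀) (hs₁ : Sub G bc hc e₁ r₁) (hs₂ : Sub G bc hc e₂ r₂)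
    (hstrict : (r₂ - r₀) * e₁ < (r₂ - r₁) * e₀ + (r₁ - r₀) * e₂) (hρ0 : r₀ < ρ) (hρ2 : ρ < r₂) :
    ∃ Dl Dr : ℝ, HasDerivWithinAt (fun b => -(φ b / b)) Dl (Iio bc) bc ∧
      HasDerivWithinAt (fun b => -(φ b / b)) Dr (Ioi bc) bc ∧ Dr < Dl := by
  obtain ⟨Dl, Dr, h1, h2, h3⟩ := kink hbc hφ hlow hup h01 h12 hs₀ hs₁ hs₂ hstrict hρ0 hρ2
  refine ⟨-((Dl * bc - φ bc * 1) / bc ^ 2), -((Dr * bc - φ bc * 1) / bc ^ 2), ?_, ?_, ?_⟩
  · exact (h1.div (hasDerivWithinAt_id bc _) hbc.ne').neg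
  · exact (h2.div (hasDerivWithinAt_id bc _) hbc.ne').neg
  · rw [neg_lt_neg_iff, div_lt_div_iff_of_pos_right (by positivity)]
    nlinarith

/-- rescaled version: the potential multiplied by `c` (inverse temperature `c b`) -/
theorem kink_rescaled {G : ℝ → ℝ → ℝ} {φ : ℝ → ℝ} {bc hc ρ c : ℝ} (hbc : 0 < bc) (hc0 : 0 < c)
    (hφ : ConvexOn ℝ (Ioi 0) φ)
    (hlow : ∀ b c : ℝ, 0 < b → (∀ h, c ≤ G b h - h * ρ) → c ≤ φ b)
    (hup : φ bc ≤ G bc hc - hc * ρ) {r₀ r₁ r₂ e₀ e₁ e₂ : ℝ}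
    (h01 : r₀ < r₁) (h12 : r₁ < r₂)
    (hs₀ : Sub G bc hc e₀ r₀) (hs₁ : Sub G bc hc e₁ r₁) (hs₂ : Sub G bc hc e₂ r₂)
    (hstrict : (r₂ - r₀) * e₁ < (r₂ - r₁) * e₀ + (r₁ - r₀) * e₂) (hρ0 : r₀ < ρ) (hρ2 : ρ < r₂) :
    ∃ Dl Dr : ℝ, HasDerivWithinAt (fun b => -(φ (c * b) / b)) Dl (Iio (bc / c)) (bc / c) ∧
      HasDerivWithinAt (fun b => -(φ (c * b) / b)) Dr (Ioi (bc / c)) (bc / c) ∧ Dr < Dl := by
  obtain ⟨Dl, Dr, h1, h2, h3⟩ := kink_freeEnergy hbc hφ hlow hup h01 h12 hs₀ hs₁ hs₂ hstrict hρ0 hρ2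
  have hcc : c * (bc / c) = bc := by field_simp
  have key : ∀ (S T : Set ℝ) (D : ℝ), HasDerivWithinAt (fun b => -(φ b / b)) D T bc →
      MapsTo (fun b => c * b) S T →
      HasDerivWithinAt (fun b => -(φ (c * b) / b)) (c * (D * c)) S (bc / c) := by
    intro S T D hD hm
    have hlin : HasDerivWithinAt (fun b : ℝ => c * b) c S (bc / c) := by
      simpa using (hasDerivWithinAt_id (bc / c) S).const_mul c
    have hD' : HasDerivWithinAt (fun b => -(φ b / b)) D T (c * (bc / c)) := by rwa [hcc]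
    have hcomp := (HasDerivWithinAt.comp (bc / c) hD' hlin hm).const_mul c
    refine hcomp.congr_of_eventuallyEq ?_ ?_
    · have hpos : Ioi (0 : ℝ) ∈ 𝓝[S] (bc / c) :=
        mem_nhdsWithin_of_mem_nhds (Ioi_mem_nhds (by positivity))
      filter_upwards [hpos] with b hb
      have hb0 : (0 : ℝ) < b := hb
      simp only [Function.comp]
      field_simp
    · have : bc / c ≠ 0 := by positivity
      simp only [Function.comp]
      field_simp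
  refine ⟨_, _, key (Iio (bc / c)) (Iio bc) Dl h1 ?_, key (Ioi (bc / c)) (Ioi bc) Dr h2 ?_, ?_⟩
  · intro b hb
    simp only [mem_Iio] at hb ⊢
    rw [lt_div_iff₀ hc0] at hb
    linarith
  · intro b hb
    simp only [mem_Ioi] at hb ⊢
    rw [div_lt_iff₀ hc0] at hb
    linarith
  · have : 0 < c * c := by positivity
    nlinarith

end Crest.Agent.H25Kink
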