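import Crest.Agent.H25PrP1

/-! Module M1 (Spec.Red) of rid 215, by helper25. -/

set_option autoImplicit false
set_option linter.all false

open MeasureTheory ProbabilityTheory
open scoped InnerProductSpace

namespace Crest.Agent.H25PrRed

open Crest.Agent.H18Pr

section comb
variable {ι : Type*} [Fintype ι] {E : Type*} [NormedAddCommGroup E] [InnerProductSpace ℝ E]

open Classical in
/-- coarsened family -/
noncomputable def W (z : ι → E) (g : ι → ι) (j : ι) : E := ∑ i, if g i = j then z i else 0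

open Classical in
theorem W_merge (z : ι → E) (g : ι → ι) (a b : ι) (hab : a ≠ b) :
    W z (fun i => if g i = b then a else g i) a = W z g a + W z g b ∧
    W z (fun i => if g i = b then a else g i) b = 0 ∧
    ∀ j, j ≠ a → j ≠ b → W z (fun i => if g i = b then a else g i) j = W z g j := by
  refine ⟨?_, ?_, ?_⟩
  · unfold W
    rw [← Finset.sum_add_distrib]
    apply Finset.sum_congr rfl
    intro i _
    by_cases h1 : g i = b
    · have h2 : g i ≠ a := fun h => hab (h.symm.trans h1)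
      simp [h1, hab.symm]
    · by_cases h2 : g i = a
      · simp [h2, hab]
      · simp [h1, h2]
  · unfold W
    apply Finset.sum_eq_zero
    intro i _
    by_cases h1 : g i = b
    · simp [h1, hab]
    · simp [h1]
  · intro j ha hb
    unfold W
    apply Finset.sum_congr rfl
    intro i _
    by_cases h1 : g i = b
    · simp [h1, ha.symm, hb.symm]
    · simp [h1]

open Classical in
/-- best coarsening is pairwise obtuse -/
theorem exists_best (z : ι → E) : ∃ g : ι → ι,
    (∀ a b, a ≠ b → ⟪W z g a, W z g b⟫_ℝ ≤ 0) ∧ ∑ i, ‖z i‖ ^ 2 ≤ ∑ j, ‖W z g j‖ ^ 2 := by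
  haveI : Nonempty (ι → ι) := ⟨id⟩
  obtain ⟨g, hg⟩ := Finite.exists_max (fun g : ι → ι => ∑ j, ‖W z g j‖ ^ 2)
  refine ⟨g, ?_, ?_⟩
  · intro a b hab
    have h := hg (fun i => if g i = b then a else g i)
    obtain ⟨h1, h2, h3⟩ := W_merge z g a b hab
    have e : ∑ j, (‖W z (fun i => if g i = b then a else g i) j‖ ^ 2 - ‖W z g j‖ ^ 2)
        = ∑ j ∈ ({a, b} : Finset ι),
          (‖W z (fun i => if g i = b then a else g i) j‖ ^ 2 - ‖W z g j‖ ^ 2) := by
      symm
      apply Finset.sum_subset (Finset.subset_univ _)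
      intro j _ hj
      simp only [Finset.mem_insert, Finset.mem_singleton, not_or] at hj
      rw [h3 j hj.1 hj.2, sub_self]
    rw [Finset.sum_pair hab, h1, h2, Finset.sum_sub_distrib, norm_add_sq_real] at e
    simp only [norm_zero] at e
    have h' : ∑ j, ‖W z (fun i => if g i = b then a else g i) j‖ ^ 2 ≤ ∑ j, ‖W z g j‖ ^ 2 := h
    nlinarith
  · have h := hg id
    have e : ∀ j, W z id j = z j := by
      intro j
      unfold W
      simp
    simp only [e] at h
    exact h

open Classical in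
theorem sum_W (z : ι → E) (g : ι → ι) : ∑ j, W z g j = ∑ i, z i := by
  unfold W
  rw [Finset.sum_comm]
  apply Finset.sum_congr rfl
  intro i _
  simp

open Classical in
theorem sum_sq_W (z : ι → E) (g : ι → ι) : ∑ j, ‖W z g j‖ ^ 2 = ∑ i, ⟪W z g (g i), z i⟫_ℝ := by
  have : ∀ j, ‖W z g j‖ ^ 2 = ∑ i, if g i = j then ⟪W z g j, z i⟫_ℝ else 0 := by
    intro j
    rw [← real_inner_self_eq_norm_sq]
    conv_lhs => rw [show ⟪W z g j, W z g j⟫_ℝ = ⟪W z g j, ∑ i, if g i = j then z i else 0⟫_ℝ from rfl]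
    rw [inner_sum]
    apply Finset.sum_congr rfl
    intro i _
    split_ifs <;> simp
  simp_rw [this]
  rw [Finset.sum_comm]
  apply Finset.sum_congr rfl
  intro i _
  simp

end comb

/-- padding embedding -/
noncomputable def emb {d : ℕ} (x : Eu d) : Eu (d + 8) :=
  WithLp.toLp 2 (Fin.addCases (motive := fun _ => ℝ) (fun i => x i) (fun _ => 0))

theorem inner_emb {d : ℕ} (x y : Eu d) : ⟪emb x, emb y⟫_ℝ = ⟪x, y⟫_ℝ := by
  unfold emb
  rw [PiLp.inner_apply, PiLp.inner_apply, Fin.sum_univ_add]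
  simp

/-- from `Core`: the bound for an arbitrary obtuse centred family in `Eu d` indexed by `Fin (m+5)`,
sorted. -/
theorem core_use (hC : Spec.Core) (hLaw : Spec.Law) {d m : ℕ} (u : Fin (m + 5) → Eu d)
    (h0 : ∑ k, u k = 0) (hobt : ∀ k l, k ≠ l → ⟪u k, u l⟫_ℝ ≤ 0)
    (hs : ∀ k l, k ≤ l → ‖u l‖ ≤ ‖u k‖) (ht : ∑ k, ‖u k‖ ^ 2 = 16) : ex (mx u) ≤ 6 := by
  have hn : ∀ k, ‖emb (u k)‖ = ‖u k‖ := by
    intro k
    have := inner_emb (u k) (u k)
    rw [real_inner_self_eq_norm_sq, real_inner_self_eq_norm_sq] at this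
    exact (sq_eq_sq₀ (norm_nonneg _) (norm_nonneg _)).1 this
  have hcfg : Cfg (fun k => emb (u k)) := by
    refine ⟨?_, ?_, ?_, ?_⟩
    · have e : ‖∑ k, emb (u k)‖ ^ 2 = ‖∑ k, u k‖ ^ 2 := by
        rw [← real_inner_self_eq_norm_sq, ← real_inner_self_eq_norm_sq]
        simp only [sum_inner, inner_sum, inner_emb]
      rw [h0, norm_zero] at e
      have : ‖∑ k, emb (u k)‖ = 0 := by
        have := norm_nonneg (∑ k, emb (u k))
        nlinarith
      exact norm_eq_zero.1 this
    · intro i j hij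
      rw [inner_emb]
      exact hobt i j hij
    · intro i j hij
      rw [hn, hn]; exact hs i j hij
    · simp_rw [hn]; exact ht
  have h := hC (d + 8) m (fun k => emb (u k)) (by omega) hcfg
  have hlaw := hLaw d (d + 8) (Fin (m + 5)) inferInstance u (fun k => emb (u k))
    (fun i j => (inner_emb _ _).symm)
    (fun f => Finset.univ.sup' Finset.univ_nonempty f) (by
      apply Continuous.finset_sup'_apply
      intro i _
      fun_prop)
  unfold ex mx at h ⊢
  rw [hlaw]
  exact h

/-- the bound for centred obtuse families in `E`. -/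
theorem gauss_bound (hC : Spec.Core) (hLaw : Spec.Law) (hI : Spec.Int) {E : Type*}
    [NormedAddCommGroup E] [InnerProductSpace ℝ E] [FiniteDimensional ℝ E] [MeasurableSpace E]
    [BorelSpace E] {ι : Type*} [Fintype ι] (w : ι → E) (h0 : ∑ j, w j = 0)
    (hobt : ∀ a b, a ≠ b → ⟪w a, w b⟫_ℝ ≤ 0) (hpos : 0 < ∑ j, ‖w j‖ ^ 2) :
    ∃ M : E → ℝ, Integrable M (stdGaussian E) ∧ (∀ j x, ⟪w j, x⟫_ℝ ≤ M x) ∧
      √(2 * Real.pi) * ∫ x, M x ∂(stdGaussian E) ≤ 3 / 2 * √(∑ j, ‖w j‖ ^ 2) := by
  classical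
  set S := ∑ j, ‖w j‖ ^ 2 with hS
  set t : ℝ := 4 / √S with ht
  have hSpos : 0 < √S := Real.sqrt_pos.2 hpos
  have htpos : 0 < t := by positivity
  set n := Fintype.card ι
  set eqv := Fintype.equivFin ι
  set e : E ≃ₗᵢ[ℝ] Eu (Module.finrank ℝ E) := (stdOrthonormalBasis ℝ E).repr with he
  -- padded family
  set U : Fin (n + 5) → E := Fin.addCases (motive := fun _ => E) (fun i => w (eqv.symm i)) (fun _ => 0)
    with hU
  have hUl : ∀ i : Fin n, U (Fin.castAdd 5 i) = w (eqv.symm i) := by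
    intro i; rw [hU]; exact Fin.addCases_left _
  have hUr : ∀ i : Fin 5, U (Fin.natAdd n i) = 0 := by
    intro i; rw [hU]; exact Fin.addCases_right _
  have hUcase : ∀ k, (∃ i : Fin n, k = Fin.castAdd 5 i) ∨ U k = 0 := by
    intro k
    induction k using Fin.addCases with
    | left i => exact Or.inl ⟨i, rfl⟩
    | right i => exact Or.inr (hUr i)
  have hUobt : ∀ k l, k ≠ l → ⟪U k, U l⟫_ℝ ≤ 0 := by
    intro k l hkl
    rcases hUcase k with ⟨i, rfl⟩ | hk
    · rcases hUcase l with ⟨j, rfl⟩ | hl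
      · rw [hUl, hUl]
        apply hobt
        intro h
        exact hkl (congrArg _ (eqv.symm.injective h))
      · rw [hl, inner_zero_right]
    · rw [hk, inner_zero_left]
  have hUsum : ∑ k, U k = 0 := by
    rw [Fin.sum_univ_add]
    simp only [hUl, hUr, Finset.sum_const_zero, add_zero]
    rw [Equiv.sum_comp eqv.symm w]
    exact h0
  have hUtot : ∑ k, ‖U k‖ ^ 2 = S := by
    rw [Fin.sum_univ_add]
    simp only [hUl, hUr, norm_zero]
    rw [Equiv.sum_comp eqv.symm (fun j => ‖w j‖ ^ 2)]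
    simp [hS]
  set σ := Tuple.sort (fun k => - ‖U k‖) with hσ
  have hσm := Tuple.monotone_sort (fun k => - ‖U k‖)
  set u : Fin (n + 5) → Eu (Module.finrank ℝ E) := fun k => t • e (U (σ k)) with hu
  have hinner : ∀ k l, ⟪u k, u l⟫_ℝ = t ^ 2 * ⟪U (σ k), U (σ l)⟫_ℝ := by
    intro k l
    rw [hu]
    simp only [real_inner_smul_left, real_inner_smul_right, LinearIsometryEquiv.inner_map_map]
    ring
  have hnorm : ∀ k, ‖u k‖ = t * ‖U (σ k)‖ := by
    intro k
    rw [hu]
    simp only [norm_smul, LinearIsometryEquiv.norm_map, Real.norm_eq_abs, abs_of_pos htpos]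
  have hcore : ex (mx u) ≤ 6 := by
    apply core_use hC hLaw u
    · rw [hu]
      simp only
      rw [← Finset.smul_sum, ← map_sum, Equiv.sum_comp σ U, hUsum, map_zero, smul_zero]
    · intro k l hkl
      rw [hinner]
      have := hUobt (σ k) (σ l) (fun h => hkl (σ.injective h))
      have := sq_nonneg t
      nlinarith
    · intro k l hkl
      rw [hnorm, hnorm]
      have h := hσm hkl
      simp only [Function.comp] at h
      have : ‖U (σ l)‖ ≤ ‖U (σ k)‖ := by
        have h' : -‖U (σ k)‖ ≤ -‖U (σ l)‖ := h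
        linarith
      exact mul_le_mul_of_nonneg_left this htpos.le
    · simp only [hnorm, mul_pow]
      rw [← Finset.mul_sum, Equiv.sum_comp σ (fun k => ‖U k‖ ^ 2), hUtot, ht, div_pow,
        Real.sq_sqrt hpos.le]
      field_simp
      norm_num
  -- the majorant
  have hmp : MeasurePreserving (e : E → Eu (Module.finrank ℝ E)) (stdGaussian E)
      (stdGaussian (Eu (Module.finrank ℝ E))) := by
    refine ⟨e.continuous.measurable, ?_⟩
    exact stdGaussian_map e
  have hint : Integrable (fun x => mx u (e x)) (stdGaussian E) :=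
    (hmp.integrable_comp (H25PrP1.cont_mx u).aestronglyMeasurable).2 (H25PrP1.int_mx hI u)
  refine ⟨fun x => 1 / t * mx u (e x), hint.const_mul _, ?_, ?_⟩
  · intro j x
    set k := σ.symm (Fin.castAdd 5 (eqv j)) with hk
    have h1 : ⟪u k, e x⟫_ℝ ≤ mx u (e x) :=
      Finset.le_sup' (fun i => ⟪u i, e x⟫_ℝ) (Finset.mem_univ k)
    have h2 : ⟪u k, e x⟫_ℝ = t * ⟪w j, x⟫_ℝ := by
      rw [hu]
      simp only [real_inner_smul_left, LinearIsometryEquiv.inner_map_map, hk, Equiv.apply_symm_apply, hUl,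
        Equiv.symm_apply_apply]
    rw [h2] at h1
    show ⟪w j, x⟫_ℝ ≤ 1 / t * mx u (e x)
    rw [one_div, inv_mul_eq_div, le_div_iff₀ htpos]
    linarith
  · rw [integral_const_mul]
    have h1 : ∫ x, mx u (e x) ∂(stdGaussian E)
        = ∫ x, mx u x ∂(stdGaussian (Eu (Module.finrank ℝ E))) := by
      rw [← hmp.map_eq, integral_map hmp.measurable.aemeasurable
        (H25PrP1.cont_mx u).aestronglyMeasurable]
    rw [h1]
    unfold ex at hcore
    have h2 : √(2 * Real.pi) * (1 / t * ∫ x, mx u x ∂(stdGaussian (Eu (Module.finrank ℝ E))))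
        = 1 / t * (√(2 * Real.pi) * ∫ x, mx u x ∂(stdGaussian (Eu (Module.finrank ℝ E)))) := by ring
    rw [h2]
    have h3 : 1 / t * (√(2 * Real.pi) * ∫ x, mx u x ∂(stdGaussian (Eu (Module.finrank ℝ E))))
        ≤ 1 / t * 6 := mul_le_mul_of_nonneg_left hcore (by positivity)
    refine h3.trans (le_of_eq ?_)
    rw [ht]
    field_simp
    norm_num

/-- Module M1. -/
theorem red.{u, v} (hLaw : Spec.Law) (hI : Spec.Int) : Spec.Red.{u, v} := by
  intro hC E _ _ _ _ _ ι _ A hA hdisj hcov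
  classical
  have hid : Integrable (fun x : E => x) (stdGaussian E) := IsGaussian.integrable_id
  set z : ι → E := fun i => ∫ x in A i, x ∂stdGaussian E with hz
  have hz0 : ∑ i, z i = 0 := by
    rw [hz]
    simp only
    rw [← integral_iUnion_fintype hA hdisj (fun i => hid.integrableOn), hcov, setIntegral_univ,
      integral_id_stdGaussian]
  obtain ⟨g, hobt, hle⟩ := exists_best z
  have hw0 : ∑ j, W z g j = 0 := by rw [sum_W, hz0]
  refine le_trans hle ?_
  rcases (Finset.sum_nonneg (s := Finset.univ) (f := fun j => ‖W z g j‖ ^ 2)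
    (fun j _ => sq_nonneg _)).eq_or_lt with h | hpos
  · rw [← h]; positivity
  obtain ⟨M, hM, hWM, hMex⟩ := gauss_bound hC hLaw hI (W z g) hw0 hobt hpos
  set S := ∑ j, ‖W z g j‖ ^ 2 with hS
  have h1 : S ≤ ∫ x, M x ∂stdGaussian E := by
    rw [hS, sum_sq_W]
    have e1 : ∀ i, ⟪W z g (g i), z i⟫_ℝ = ∫ x in A i, ⟪W z g (g i), x⟫_ℝ ∂stdGaussian E := by
      intro i
      rw [hz]
      simp only
      rw [← integral_inner hid.integrableOn]
    have e2 : ∀ i, ⟪W z g (g i), z i⟫_ℝ ≤ ∫ x in A i, M x ∂stdGaussian E := by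
      intro i
      rw [e1]
      apply setIntegral_mono
      · exact (hid.const_inner _).integrableOn
      · exact hM.integrableOn
      · intro x
        exact hWM _ x
    calc ∑ i, ⟪W z g (g i), z i⟫_ℝ ≤ ∑ i, ∫ x in A i, M x ∂stdGaussian E :=
          Finset.sum_le_sum fun i _ => e2 i
      _ = ∫ x, M x ∂stdGaussian E := by
          rw [← integral_iUnion_fintype hA hdisj (fun i => hM.integrableOn), hcov, setIntegral_univ]
  have hs : 0 < √S := Real.sqrt_pos.2 hpos
  have hpi : 0 < √(2 * Real.pi) := by positivity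
  have h2 : √(2 * Real.pi) * S ≤ 3 / 2 * √S :=
    (mul_le_mul_of_nonneg_left h1 hpi.le).trans hMex
  have h3 : √(2 * Real.pi) * √S ≤ 3 / 2 := by
    have h4 : √(2 * Real.pi) * (√S * √S) ≤ 3 / 2 * √S := by
      rw [Real.mul_self_sqrt hpos.le]; exact h2
    nlinarith
  have h5 : 2 * Real.pi * S ≤ 9 / 4 := by
    have e : (√(2 * Real.pi) * √S) ^ 2 = 2 * Real.pi * S := by
      rw [mul_pow, Real.sq_sqrt (by positivity), Real.sq_sqrt hpos.le]
    rw [← e]
    have : 0 ≤ √(2 * Real.pi) * √S := by positivity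
    nlinarith
  rw [le_div_iff₀ (by positivity)]
  linarith

end Crest.Agent.H25PrRed
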