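import Crest.Agent.H19SLSpec

/-! Module NUM of rid 322 (S0499), by helper25. -/

set_option autoImplicit false
set_option linter.all false

open MeasureTheory ProbabilityTheory Crest.StreamLearn
open scoped ENNReal NNReal

namespace Crest.Agent.H25SlNum

theorem two_le_exp : (2 : ℝ) ≤ Real.exp 1 := by
  have := Real.exp_one_gt_d9; linarith

theorem two_pow_le (a : ℕ) : (2 : ℝ) ^ a ≤ Real.exp a := by
  calc (2 : ℝ) ^ a ≤ (Real.exp 1) ^ a := pow_le_pow_left₀ (by norm_num) two_le_exp a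
    _ = Real.exp a := by rw [← Real.exp_nat_mul, mul_one]

theorem c32_le : (32 : ℝ) ≤ Real.exp 4 := by
  have h : Real.exp 4 = (Real.exp 1) ^ 4 := by
    rw [← Real.exp_nat_mul]; norm_num
  rw [h]
  have h1 : (2.7 : ℝ) ≤ Real.exp 1 := by have := Real.exp_one_gt_d9; linarith
  calc (32 : ℝ) ≤ 2.7 ^ 4 := by norm_num
    _ ≤ Real.exp 1 ^ 4 := pow_le_pow_left₀ (by norm_num) h1 4

theorem main : Crest.Agent.H19SL.Num := by
  intro A C hA hC
  have hCr : (1 : ℝ) ≤ C := by exact_mod_cast hC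
  have hlogC : 0 ≤ Real.log C := Real.log_nonneg hCr
  set B : ℝ := Real.log C + 16 * A + 2 with hB
  have hBpos : 0 < B := by positivity
  set c : ℝ := 1 / (64 * (6 + B)) with hc
  have hcpos : 0 < c := by positivity
  refine ⟨c, hcpos, 32, ?_⟩
  intro d hd M T hM ε hε hε1 hT hdT
  set Λ : ℝ := Real.log (1 / ε) with hΛ
  have hεexp : ε = Real.exp (-Λ) := by
    rw [hΛ, one_div, Real.log_inv, neg_neg, Real.exp_log hε]
  have hdr : (32 : ℝ) ≤ d := by exact_mod_cast hd
  have hΛlow : 8 * (6 + B) < Λ := by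
    have h1 : (d : ℝ) < 8 * T := by exact_mod_cast hdT
    have h2 : (d : ℝ) < 8 * (c * d * Λ) := by linarith
    have h3 : (d : ℝ) * 1 < d * (8 * c * Λ) := by nlinarith
    have h4 : 1 < 8 * c * Λ := lt_of_mul_lt_mul_left h3 (by positivity)
    rw [hc] at h4
    have h5 : 8 * (1 / (64 * (6 + B))) * Λ = Λ / (8 * (6 + B)) := by
      field_simp
      ring
    rw [h5, one_lt_div (by positivity)] at h4
    exact h4
  have hΛpos : 0 < Λ := lt_trans (by positivity) hΛlow
  refine ⟨d / 16, T / (2 * (d / 16)) + 1, M / (2 * (d / 16) + 1) + 2, ?_, ?_, ?_, ?_, ?_, ?_⟩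
  · omega
  · omega
  · omega
  · have hk : 0 < 2 * (d / 16) := by omega
    have := Nat.lt_div_mul_add (a := T) hk
    rw [Nat.add_mul, one_mul]
    omega
  · have h1 : 2 * (d / 16) + 1 ≤ 2 ^ (2 * (d / 16) + 1) := (Nat.lt_two_pow_self).le
    rw [← pow_mul]
    calc 2 ^ M * (2 * (d / 16) + 1) ≤ 2 ^ M * 2 ^ (2 * (d / 16) + 1) := Nat.mul_le_mul_left _ h1
      _ = 2 ^ (M + (2 * (d / 16) + 1)) := (pow_add 2 M (2 * (d / 16) + 1)).symm
      _ ≤ 2 ^ ((M / (2 * (d / 16) + 1) + 2) * (2 * (d / 16) + 1)) := by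
          apply Nat.pow_le_pow_right (by norm_num)
          have hk : 0 < 2 * (d / 16) + 1 := by omega
          have := Nat.lt_div_mul_add (a := M) hk
          rw [Nat.add_mul]
          omega
  · obtain ⟨κ, hκ⟩ : ∃ κ, κ = d / 16 := ⟨_, rfl⟩
    rw [← hκ]
    have hκ1 : 16 * κ ≤ d := by omega
    have hκ2 : d ≤ 32 * κ := by omega
    have hκ1r : 16 * (κ : ℝ) ≤ d := by exact_mod_cast hκ1
    have hκ2r : (d : ℝ) ≤ 32 * κ := by exact_mod_cast hκ2
    have hκpos : (0 : ℝ) < κ := by linarith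
    obtain ⟨n, hn⟩ : ∃ n, n = T / (2 * κ) + 1 := ⟨_, rfl⟩
    obtain ⟨a, ha⟩ : ∃ a, a = M / (2 * κ + 1) + 2 := ⟨_, rfl⟩
    rw [← hn, ← ha]
    have hnr : (n : ℝ) ≤ 16 * c * Λ + 1 := by
      rw [hn]
      push_cast
      have h1 : ((T / (2 * κ) : ℕ) : ℝ) ≤ (T : ℝ) / ((2 * κ : ℕ) : ℝ) := Nat.cast_div_le
      have h2 : (T : ℝ) / ((2 * κ : ℕ) : ℝ) ≤ 16 * c * Λ := by
        rw [div_le_iff₀ (by push_cast; positivity)]
        push_cast
        calc (T : ℝ) ≤ c * d * Λ := hT.le
          _ ≤ c * (32 * κ) * Λ := by gcongr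
          _ = 16 * c * Λ * (2 * κ) := by ring
      linarith
    have har : (a : ℝ) ≤ 16 * A * d + 2 := by
      rw [ha]
      push_cast
      have h1 : ((M / (2 * κ + 1) : ℕ) : ℝ) ≤ (M : ℝ) / ((2 * κ + 1 : ℕ) : ℝ) := Nat.cast_div_le
      have h2 : (M : ℝ) / ((2 * κ + 1 : ℕ) : ℝ) ≤ 16 * A * d := by
        rw [div_le_iff₀ (by positivity)]
        push_cast
        calc (M : ℝ) ≤ A * (d : ℝ) ^ 2 := hM
          _ = A * d * d := by ring
          _ ≤ A * d * (32 * κ) := by gcongr
          _ ≤ 16 * A * d * (2 * κ + 1) := by nlinarith [mul_pos hA (by linarith : (0 : ℝ) < d)]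
      linarith
    have hn0 : (0 : ℝ) ≤ n := Nat.cast_nonneg _
    have e1 : (2 : ℝ) ^ (4 * κ) ≤ Real.exp d := by
      refine (two_pow_le _).trans (Real.exp_le_exp.2 ?_)
      push_cast; linarith
    have e2 : ((C : ℝ) ^ d * 2 ^ a) ^ n ≤ Real.exp (n * (B * d)) := by
      have h1 : (C : ℝ) ^ d = Real.exp (d * Real.log C) := by
        rw [Real.exp_nat_mul, Real.exp_log (by linarith)]
      have h2 : (C : ℝ) ^ d * 2 ^ a ≤ Real.exp (B * d) := by
        calc (C : ℝ) ^ d * 2 ^ a ≤ Real.exp (d * Real.log C) * Real.exp a := by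
              rw [h1]
              exact mul_le_mul_of_nonneg_left (two_pow_le a) (Real.exp_nonneg _)
          _ = Real.exp (d * Real.log C + a) := by rw [Real.exp_add]
          _ ≤ Real.exp (B * d) := by
              apply Real.exp_le_exp.2
              rw [hB]
              nlinarith
      calc ((C : ℝ) ^ d * 2 ^ a) ^ n ≤ (Real.exp (B * d)) ^ n :=
            pow_le_pow_left₀ (by positivity) h2 n
        _ = Real.exp (n * (B * d)) := by rw [Real.exp_nat_mul]
    have e3 : (32 : ℝ) ^ d ≤ Real.exp (4 * d) := by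
      calc (32 : ℝ) ^ d ≤ (Real.exp 4) ^ d := pow_le_pow_left₀ (by norm_num) c32_le d
        _ = Real.exp (4 * d) := by rw [← Real.exp_nat_mul]; ring_nf
    have e4 : ε ^ (d - 1 - 4 * κ) ≤ Real.exp (-(d / 2 * Λ)) := by
      conv_lhs => rw [hεexp]
      rw [← Real.exp_nat_mul]
      apply Real.exp_le_exp.2
      have h1 : (d : ℝ) / 2 ≤ ((d - 1 - 4 * κ : ℕ) : ℝ) := by
        have h2 : 1 + 4 * κ ≤ d := by omega
        have h3 : ((d - 1 - 4 * κ : ℕ) : ℝ) = (d : ℝ) - 1 - 4 * κ := by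
          rw [Nat.sub_sub, Nat.cast_sub h2]; push_cast; ring
        rw [h3]
        linarith
      nlinarith
    calc (2 : ℝ) ^ (4 * κ) * (((C : ℝ) ^ d * 2 ^ a) ^ n * (32 ^ d * ε ^ (d - 1 - 4 * κ)))
        ≤ Real.exp d * (Real.exp (n * (B * d)) * (Real.exp (4 * d) * Real.exp (-(d / 2 * Λ)))) := by
          gcongr
      _ = Real.exp (d + (n * (B * d) + (4 * d + -(d / 2 * Λ)))) := by
          rw [Real.exp_add, Real.exp_add, Real.exp_add]
      _ ≤ Real.exp (-1) := by
          apply Real.exp_le_exp.2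
          have h1 : (n : ℝ) * (B * d) ≤ (16 * c * Λ + 1) * (B * d) := by
            apply mul_le_mul_of_nonneg_right hnr
            positivity
          have h2 : 16 * c * B ≤ 1 / 4 := by
            rw [hc]
            have : 16 * (1 / (64 * (6 + B))) * B = (1 / 4) * (B / (6 + B)) := by
              field_simp
              ring
            rw [this]
            have h3 : B / (6 + B) ≤ 1 := by
              rw [div_le_one (by positivity)]; linarith
            linarith
          have h3 : 16 * c * B * (Λ * d) ≤ 1 / 4 * (Λ * d) :=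
            mul_le_mul_of_nonneg_right h2 (by positivity)
          have h4 : 8 * (6 + B) * d ≤ Λ * d := mul_le_mul_of_nonneg_right hΛlow.le (by positivity)
          have h5 : (16 * c * Λ + 1) * (B * d) = 16 * c * B * (Λ * d) + B * d := by ring
          have h6 : 0 < B * d := by positivity
          nlinarith
      _ < 2 / 3 := by
          rw [Real.exp_neg]
          have := two_le_exp
          have h1 : (Real.exp 1)⁻¹ ≤ 2⁻¹ := inv_anti₀ (by norm_num) this
          norm_num at h1 ⊢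
          linarith

end Crest.Agent.H25SlNum
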