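import Crest.Agent.H19SLCommon

/-! Module ROW of rid 322 (S0499), by helper25. -/

set_option autoImplicit false
set_option linter.all false

open MeasureTheory ProbabilityTheory Crest.StreamLearn
open scoped ENNReal NNReal

namespace Crest.Agent.H25SlRow

/-- split of the standard Gaussian along a unit vector -/
theorem split {d : ℕ} (u : E d) (hu : ‖u‖ = 1) :
    ((stdGaussian (E d)).prod (gaussianReal 0 1)).map
      (fun p : E d × ℝ => p.1 - (inner ℝ p.1 u : ℝ) • u + p.2 • u) = stdGaussian (E d) := by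
  apply Measure.ext_of_charFun
  ext t
  rw [charFun_stdGaussian, charFun_apply, integral_map (by fun_prop) (by fun_prop)]
  have h1 : ∀ p : E d × ℝ, Complex.exp ((inner ℝ (p.1 - (inner ℝ p.1 u : ℝ) • u + p.2 • u) t : ℝ) * Complex.I)
      = Complex.exp ((inner ℝ p.1 (t - (inner ℝ t u : ℝ) • u) : ℝ) * Complex.I)
        * Complex.exp ((inner ℝ p.2 (inner ℝ t u : ℝ) : ℝ) * Complex.I) := by
    intro p
    rw [← Complex.exp_add, ← add_mul, ← Complex.ofReal_add]
    congr 3
    rw [inner_add_left, inner_sub_left, inner_sub_right, real_inner_smul_left, real_inner_smul_left,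
      real_inner_smul_right, real_inner_comm u t]
    have : (inner ℝ p.2 (inner ℝ u t : ℝ) : ℝ) = p.2 * (inner ℝ u t : ℝ) := by
      simp [mul_comm]
    rw [this]
    ring
  simp_rw [h1]
  rw [integral_prod_mul (f := fun g : E d => Complex.exp ((inner ℝ g (t - (inner ℝ t u : ℝ) • u) : ℝ) * Complex.I))
    (g := fun x : ℝ => Complex.exp ((inner ℝ x (inner ℝ t u : ℝ) : ℝ) * Complex.I)), ← charFun_apply, ← charFun_apply,
    charFun_stdGaussian, charFun_gaussianReal, ← Complex.exp_add]
  congr 1
  have h2 : ‖t - (inner ℝ t u : ℝ) • u‖ ^ 2 = ‖t‖ ^ 2 - (inner ℝ t u : ℝ) ^ 2 := by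
    rw [norm_sub_sq_real, norm_smul, hu, real_inner_smul_right]
    simp only [Real.norm_eq_abs, mul_one, sq_abs]
    ring
  have h3 : ((‖t - (inner ℝ t u : ℝ) • u‖ : ℝ) : ℂ) ^ 2 = (‖t‖ : ℂ) ^ 2 - ((inner ℝ t u : ℝ) : ℂ) ^ 2 := by
    rw [← Complex.ofReal_pow, h2]; push_cast; ring
  rw [h3]
  push_cast
  ring

theorem gauss_interval (c ρ h : ℝ) (hρ : 0 < ρ) (hh : 0 < h) :
    gaussianReal 0 1 {x : ℝ | |c + ρ * x| ≤ h} ≤ ENNReal.ofReal (h / ρ) := by
  have hs : {x : ℝ | |c + ρ * x| ≤ h} = Set.Icc ((-h - c) / ρ) ((h - c) / ρ) := by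
    ext x
    simp only [Set.mem_setOf_eq, Set.mem_Icc, abs_le, div_le_iff₀ hρ, le_div_iff₀ hρ]
    constructor
    · rintro ⟨h1, h2⟩; constructor <;> linarith
    · rintro ⟨h1, h2⟩; constructor <;> linarith
  rw [hs, gaussianReal_apply _ one_ne_zero]
  calc ∫⁻ x in Set.Icc ((-h - c) / ρ) ((h - c) / ρ), gaussianPDF 0 1 x
      ≤ ∫⁻ x in Set.Icc ((-h - c) / ρ) ((h - c) / ρ), ENNReal.ofReal (1 / 2) := by
        apply lintegral_mono
        intro x
        rw [gaussianPDF_def]
        apply ENNReal.ofReal_le_ofReal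
        rw [gaussianPDFReal_def]
        have h1 : Real.exp (-(x - 0) ^ 2 / (2 * (1 : ℝ≥0))) ≤ 1 := by
          apply Real.exp_le_one_iff.2
          have : 0 ≤ (x - 0) ^ 2 := sq_nonneg _
          simp only [NNReal.coe_one, mul_one]
          linarith
        have h2 : (√(2 * Real.pi * (1 : ℝ≥0)))⁻¹ ≤ 1 / 2 := by
          rw [one_div]
          apply inv_anti₀ (by norm_num)
          apply Real.le_sqrt_of_sq_le
          have := Real.pi_gt_three
          simp only [NNReal.coe_one, mul_one]
          linarith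
        calc (√(2 * Real.pi * (1 : ℝ≥0)))⁻¹ * Real.exp (-(x - 0) ^ 2 / (2 * (1 : ℝ≥0)))
            ≤ (1 / 2) * 1 := by
              apply mul_le_mul h2 h1 (Real.exp_nonneg _) (by norm_num)
          _ = 1 / 2 := by norm_num
    _ = ENNReal.ofReal (1 / 2) * ENNReal.ofReal ((h - c) / ρ - (-h - c) / ρ) := by
        rw [setLIntegral_const, Real.volume_Icc]
    _ = ENNReal.ofReal (h / ρ) := by
        rw [← ENNReal.ofReal_mul (by norm_num)]
        congr 1
        field_simp
        ring

theorem main : Crest.Agent.H19SL.Row := by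
  intro d H D h S hh hS hinv
  rcases (Metric.infDist_nonneg (x := D) (s := (H : Set (E d)))).eq_or_lt with h0 | h0
  · rw [← h0, ENNReal.ofReal_zero, ENNReal.inv_zero]
    rcases eq_or_ne (stdGaussian (E d) S) 0 with h1 | h1
    · have : stdGaussian (E d) (S ∩ {g | |(inner ℝ g D : ℝ)| ≤ h}) ≤ 0 := by
        rw [← h1]; exact measure_mono Set.inter_subset_left
      exact this.trans zero_le
    · rw [ENNReal.mul_top (by simpa using hh), ENNReal.mul_top h1]
      exact le_top
  · set ρ : ℝ := ‖D - H.starProjection D‖ with hρd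
    have hle : Metric.infDist D H ≤ ρ := by
      have := Metric.infDist_le_dist_of_mem (x := D) (s := (H : Set (E d)))
        (y := H.starProjection D) (H.starProjection_apply_mem D)
      rwa [dist_eq_norm] at this
    have hρ : 0 < ρ := lt_of_lt_of_le h0 hle
    obtain ⟨u, hud⟩ : ∃ u : E d, u = ρ⁻¹ • (D - H.starProjection D) := ⟨_, rfl⟩
    have hu1 : ‖u‖ = 1 := by
      rw [hud, norm_smul, ← hρd, Real.norm_of_nonneg (inv_nonneg.2 hρ.le), inv_mul_cancel₀ hρ.ne']
    have hperp : ∀ v ∈ H, inner ℝ (D - H.starProjection D) v = 0 := by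
      intro v hv
      have := H.sub_starProjection_mem_orthogonal D
      rw [Submodule.mem_orthogonal'] at this
      exact this v hv
    have huH : ∀ v ∈ H, inner ℝ u v = 0 := by
      intro v hv
      rw [hud, real_inner_smul_left, hperp v hv, mul_zero]
    have huD : inner ℝ u D = ρ := by
      rw [hud, real_inner_smul_left]
      have h1 : (inner ℝ (D - H.starProjection D) D : ℝ)
          = inner ℝ (D - H.starProjection D) (D - H.starProjection D) := by
        rw [inner_sub_right (D - H.starProjection D) D (H.starProjection D),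
          hperp _ (H.starProjection_apply_mem D), sub_zero]
      rw [h1, real_inner_self_eq_norm_sq, ← hρd]
      field_simp
    have hcont : Measurable (fun p : E d × ℝ => p.1 - (inner ℝ p.1 u : ℝ) • u + p.2 • u) := by
      fun_prop
    have hmemS : ∀ (g : E d) (t : ℝ), (g + t • u ∈ S ↔ g ∈ S) := by
      intro g t
      constructor
      · intro hg
        have := hinv _ (-(t • u)) hg (by
          intro v hv
          rw [inner_neg_left, real_inner_smul_left, huH v hv]; simp)
        simpa using this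
      · intro hg
        exact hinv _ _ hg (by
          intro v hv
          rw [real_inner_smul_left, huH v hv]; simp)
    have hA : MeasurableSet (S ∩ {g : E d | |(inner ℝ g D : ℝ)| ≤ h}) := by
      apply hS.inter
      exact measurableSet_le (by fun_prop) (by fun_prop)
    conv_lhs => rw [← split u hu1]
    rw [Measure.map_apply hcont hA, Measure.prod_apply (hcont hA)]
    have key : ∀ g : E d, gaussianReal 0 1 (Prod.mk g ⁻¹' ((fun p : E d × ℝ =>
        p.1 - (inner ℝ p.1 u : ℝ) • u + p.2 • u) ⁻¹' (S ∩ {g : E d | |(inner ℝ g D : ℝ)| ≤ h})))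
        ≤ S.indicator (fun _ => ENNReal.ofReal (h / ρ)) g := by
      intro g
      by_cases hg : g ∈ S
      · rw [Set.indicator_of_mem hg]
        refine le_trans (measure_mono ?_) (gauss_interval (inner ℝ g D - inner ℝ g u * ρ) ρ h hρ hh)
        intro x hx
        have hx2 := hx.2
        simp only [Set.mem_setOf_eq] at hx2 ⊢
        rw [inner_add_left, inner_sub_left, real_inner_smul_left, real_inner_smul_left, huD] at hx2
        rw [mul_comm ρ x]
        exact hx2
      · rw [Set.indicator_of_notMem hg]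
        have : Prod.mk g ⁻¹' ((fun p : E d × ℝ =>
          p.1 - (inner ℝ p.1 u : ℝ) • u + p.2 • u) ⁻¹' (S ∩ {g : E d | |(inner ℝ g D : ℝ)| ≤ h})) = ∅ := by
          ext x
          simp only [Set.mem_preimage, Set.mem_inter_iff, Set.mem_empty_iff_false, iff_false]
          rintro ⟨h1, -⟩
          have h2 : g - (inner ℝ g u : ℝ) • u + x • u = g + (x - inner ℝ g u) • u := by
            rw [sub_smul]; abel
          rw [h2, hmemS] at h1
          exact hg h1
        rw [this, measure_empty]
    calc ∫⁻ g, gaussianReal 0 1 (Prod.mk g ⁻¹' ((fun p : E d × ℝ =>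
        p.1 - (inner ℝ p.1 u : ℝ) • u + p.2 • u) ⁻¹' (S ∩ {g : E d | |(inner ℝ g D : ℝ)| ≤ h})))
          ∂(stdGaussian (E d))
        ≤ ∫⁻ g, S.indicator (fun _ => ENNReal.ofReal (h / ρ)) g ∂(stdGaussian (E d)) :=
          lintegral_mono key
      _ = ENNReal.ofReal (h / ρ) * stdGaussian (E d) S := lintegral_indicator_const hS _
      _ ≤ stdGaussian (E d) S * (ENNReal.ofReal h * (ENNReal.ofReal (Metric.infDist D H))⁻¹) := by
          rw [mul_comm, ENNReal.ofReal_div_of_pos hρ, ENNReal.div_eq_inv_mul, mul_comm (ENNReal.ofReal ρ)⁻¹]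
          gcongr

end Crest.Agent.H25SlRow
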