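import Mathlib
import Crest.Agent.H25Tower
import Crest.Agent.H15BRSort
import Crest.Agent.H22Par

/-! Packagings of the tower (rid 50). -/

set_option autoImplicit false

namespace Crest.H25Fan

/-- The tower, packaged with `Crest.BRSort.Tower`. -/
theorem towerS {E : Type*} [NormedAddCommGroup E] [InnerProductSpace ℝ E]
    (e : Fin 4 → E) (he : Orthonormal ℝ e) (δ : ℝ) (hδ : 0 < δ) :
    ∃ (L1 : List (E × E)) (L2 : List (E × E × E)) (L3 : List (E × E × E × E)),
      Crest.BRSort.Tower (e 0) L1 L2 L3 ∧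
      (∀ p ∈ L1, (∀ v ∈ [p.1, p.2], Ent e 1 v) ∧
        ∀ v ∈ [p.1, p.2], ∀ w ∈ [p.1, p.2], dist v w ≤ δ) ∧
      (∀ t ∈ L2, (∀ v ∈ [t.1, t.2.1, t.2.2], Ent e 2 v) ∧
        ∀ v ∈ [t.1, t.2.1, t.2.2], ∀ w ∈ [t.1, t.2.1, t.2.2], dist v w ≤ δ) ∧
      (∀ t ∈ L3, (∀ v ∈ [t.1, t.2.1, t.2.2.1, t.2.2.2], Ent e 3 v) ∧
        ∀ v ∈ [t.1, t.2.1, t.2.2.1, t.2.2.2], ∀ w ∈ [t.1, t.2.1, t.2.2.1, t.2.2.2],
          dist v w ≤ δ) := by
  obtain ⟨L1, L2, L3, h1, h2, h3, h4, h5, h6⟩ := tower e he δ hδ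
  exact ⟨L1, L2, L3, ⟨h1, h2, h3⟩, h4, h5, h6⟩

abbrev V4 := EuclideanSpace ℝ (Fin 4)
abbrev V3 := EuclideanSpace ℝ (Fin 3)
abbrev S2 := Metric.sphere (0 : V3) 1

/-- coordinates in the first three vectors of the frame -/
noncomputable def co (e : Fin 4 → V4) (v : V4) : V3 :=
  WithLp.toLp 2 (fun i : Fin 3 => inner ℝ (e i.castSucc) v)

lemma co_neg (e : Fin 4 → V4) (v : V4) : co e (-v) = - co e v := by
  ext i
  simp [co]

lemma parseval (e : Fin 4 → V4) (he : Orthonormal ℝ e) (v w : V4) :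
    ∑ i, inner ℝ (e i) v * inner ℝ (e i) w = inner ℝ v w := by
  have hsp : ⊤ ≤ Submodule.span ℝ (Set.range e) := by
    rw [he.linearIndependent.span_eq_top_of_card_eq_finrank' (by simp)]
  have := (OrthonormalBasis.mk he hsp).sum_inner_mul_inner v w
  rw [← this]
  refine Finset.sum_congr rfl fun i _ => ?_
  rw [OrthonormalBasis.coe_mk, real_inner_comm v (e i)]

lemma co_inner (e : Fin 4 → V4) (he : Orthonormal ℝ e) (v w : V4)
    (hv : inner ℝ (e 3) v = 0) : inner ℝ (co e v) (co e w) = inner ℝ v w := by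
  rw [← parseval e he v w, Fin.sum_univ_castSucc]
  have : (Fin.last 3 : Fin 4) = 3 := rfl
  rw [this, hv, zero_mul, add_zero]
  simp only [co, PiLp.inner_apply]
  refine Finset.sum_congr rfl fun i _ => ?_
  simp [mul_comm]

lemma co_norm (e : Fin 4 → V4) (he : Orthonormal ℝ e) (v : V4)
    (hv : inner ℝ (e 3) v = 0) (hn : ‖v‖ = 1) : ‖co e v‖ = 1 := by
  have h := co_inner e he v v hv
  rw [real_inner_self_eq_norm_sq, real_inner_self_eq_norm_sq, hn] at h
  have h0 := norm_nonneg (co e v)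
  nlinarith

open Classical in
/-- coordinates as a point of the sphere `S²` (junk value if the vector is not a unit vector
of `(e 3)^⊥`) -/
noncomputable def P3 (e : Fin 4 → V4) (v : V4) : S2 :=
  if h : ‖co e v‖ = 1 then ⟨co e v, mem_sphere_zero_iff_norm.2 h⟩
  else ⟨EuclideanSpace.single 0 1, by simp⟩

lemma P3_val (e : Fin 4 → V4) (he : Orthonormal ℝ e) (v : V4)
    (hv : inner ℝ (e 3) v = 0) (hn : ‖v‖ = 1) : (P3 e v : V3) = co e v := by
  unfold P3
  rw [dif_pos (co_norm e he v hv hn)]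

lemma P3_neg (e : Fin 4 → V4) (he : Orthonormal ℝ e) (v : V4)
    (hv : inner ℝ (e 3) v = 0) (hn : ‖v‖ = 1) : P3 e (-v) = - P3 e v := by
  apply Subtype.ext
  rw [P3_val e he (-v) (by simp [hv]) (by simpa using hn), co_neg]
  show _ = -(P3 e v : V3)
  rw [P3_val e he v hv hn]

lemma P3_inner (e : Fin 4 → V4) (he : Orthonormal ℝ e) (v w : V4)
    (hv : inner ℝ (e 3) v = 0) (hn : ‖v‖ = 1) (hw : inner ℝ (e 3) w = 0) (hm : ‖w‖ = 1) :
    inner ℝ (P3 e v : V3) (P3 e w : V3) = inner ℝ v w := by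
  rw [P3_val e he v hv hn, P3_val e he w hw hm, co_inner e he v w hv]

/-- back from coordinates -/
noncomputable def Q3 (e : Fin 4 → V4) (y : V3) : V4 := ∑ i : Fin 3, y i • e i.castSucc

lemma Q3_neg (e : Fin 4 → V4) (y : V3) : Q3 e (-y) = - Q3 e y := by
  simp [Q3, Finset.sum_neg_distrib]

lemma Q3_inner (e : Fin 4 → V4) (he : Orthonormal ℝ e) (y y' : V3) :
    inner ℝ (Q3 e y) (Q3 e y') = inner ℝ y y' := by
  have he' : Orthonormal ℝ (fun i : Fin 3 => e i.castSucc) :=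
    he.comp _ (Fin.castSucc_injective 3)
  have := he'.inner_sum (fun i => y i) (fun i => y' i) Finset.univ
  simp only [Q3]
  rw [this, PiLp.inner_apply]
  refine Finset.sum_congr rfl fun i _ => ?_
  simp [mul_comm]

lemma Q3_perp (e : Fin 4 → V4) (he : Orthonormal ℝ e) (y : V3) : inner ℝ (e 3) (Q3 e y) = 0 := by
  simp only [Q3, inner_sum, inner_smul_right]
  apply Finset.sum_eq_zero
  intro i _
  have : inner ℝ (e 3) (e i.castSucc) = 0 := by
    apply he.2
    intro h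
    have := congrArg Fin.val h
    simp at this
    omega
  rw [this, mul_zero]

lemma Q3_co (e : Fin 4 → V4) (he : Orthonormal ℝ e) (v : V4) (hv : inner ℝ (e 3) v = 0) :
    Q3 e (co e v) = v := by
  apply ext_inner_left ℝ
  intro w
  rw [← parseval e he w v, Fin.sum_univ_castSucc]
  have : (Fin.last 3 : Fin 4) = 3 := rfl
  rw [this, hv, mul_zero, add_zero]
  simp only [Q3, inner_sum, inner_smul_right, co]
  refine Finset.sum_congr rfl fun i _ => ?_
  rw [real_inner_comm (e i.castSucc) w]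
  ring

/-- Conversion of the two lowest levels of a tower in `(e 3)^⊥` into `Tower2` on `S²`. -/
theorem toTower2 (e : Fin 4 → V4) (he : Orthonormal ℝ e)
    (L1 : List (V4 × V4)) (L2 : List (V4 × V4 × V4))
    (h1 : ∀ f : V4 → ZMod 2, (L1.map fun p => f p.1 + f p.2).sum = f (e 0) + f (-(e 0)))
    (h2 : ∀ f : V4 → V4 → ZMod 2,
      (L2.map fun t => f t.2.1 t.2.2 + f t.1 t.2.2 + f t.1 t.2.1).sum
        = (L1.map fun p => f p.1 p.2 + f (-p.1) (-p.2)).sum)
    (e1 : ∀ p ∈ L1, ∀ v ∈ [p.1, p.2], ‖v‖ = 1 ∧ inner ℝ (e 3) v = 0) :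
    Crest.H22Par.Tower2 (fun i : Fin L2.length => P3 e (L2[i.val].1))
      (fun i => P3 e (L2[i.val].2.1)) (fun i => P3 e (L2[i.val].2.2))
      (fun j : Fin L1.length => P3 e (L1[j.val].1)) (fun j => P3 e (L1[j.val].2))
      (P3 e (e 0)) := by
  constructor
  · intro f
    have h := h1 (fun v => f (P3 e v))
    rw [← Fin.sum_univ_fun_getElem] at h
    rw [P3_neg e he (e 0) (he.2 (by decide)) (he.1 0)] at h
    exact h
  · intro f
    have h := h2 (fun v w => f (P3 e v) (P3 e w))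
    rw [← Fin.sum_univ_fun_getElem, ← Fin.sum_univ_fun_getElem] at h
    rw [h]
    refine Finset.sum_congr rfl fun j _ => ?_
    have hj := e1 _ (List.getElem_mem j.2)
    have ha := hj (L1[j.val].1) (by simp)
    have hb := hj (L1[j.val].2) (by simp)
    rw [P3_neg e he _ ha.2 ha.1, P3_neg e he _ hb.2 hb.1]

end Crest.H25Fan
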