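import Mathlib
import Crest.Prelude.Def_TreePotentials
import Crest.Agent.H11AUC
import Crest.Agent.H11Mix
import Crest.Agent.H11Tree

set_option autoImplicit false

namespace Crest.Agent.H26Key

open Crest Crest.AnalysisR Crest.AnalysisR.TreePotential Crest.Agent.H11Tree

/-- The key inequality with two finitely supported points. -/
theorem key_ineq2 (m : PotentialModel) (T : Finset (List ℕ)) (hT0 : [] ∈ T)
    (hTc : ∀ (a : ℕ) (l : List ℕ), a :: l ∈ T → l ∈ T)
    (c₁ c₂ : List ℕ →₀ ℝ) (hc₁ : c₁.support ⊆ T) (hc₂ : c₂.support ⊆ T) (y : modelSpace m)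
    (hy : ∀ s ∈ T, D m s y = 0) (f g : PotentialTest m) (α β : ℝ)
    (hα0 : 0 ≤ α) (hβ0 : 0 ≤ β) (hαβ : α ^ 2 + β ^ 2 ≤ 1) :
    α * ev m f (c₁.sum (fun s a => a • e m s) + c₂.sum (fun s a => a • e m s)) + β * ev m g y ≤
      ‖(c₁.sum fun s a => a • e m s) + y‖ + ‖(c₂.sum fun s a => a • e m s) - y‖ := by
  classical
  have hα1 : α ≤ 1 := by nlinarith [sq_nonneg β]
  have hβ1 : β ≤ 1 := by nlinarith [sq_nonneg α]
  obtain ⟨hp, hm, h1, h2, h3, h4⟩ := H11Mix.mix (T : Set (List ℕ)) hT0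
    hTc f.1 g.1 (fun s _ => f.2.1 s) g.2.1 α β hα0 hα1 hβ0 hβ1
  have tp : IsTest m hp := ⟨fun s => (h4 s).1, extra_mix m T hT0 f g α β hαβ hp
    (fun s hs => (h1 s hs).1) (fun s hs => (h3 s hs).1)⟩
  have tm : IsTest m hm := ⟨fun s => (h4 s).2, extra_mix m T hT0 f g α β hαβ hm
    (fun s hs => (h1 s hs).2) (fun s hs => (h3 s hs).2)⟩
  set P : PotentialTest m := ⟨hp, tp⟩ with hP
  set Q : PotentialTest m := ⟨hm, tm⟩ with hQ
  have evx : ∀ (c : List ℕ →₀ ℝ) (φ : PotentialTest m),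
      ev m φ (c.sum fun s a => a • e m s) = ∑ s ∈ c.support, c s * φ.1 s := by
    intro c φ
    rw [Finsupp.sum, map_sum]
    refine Finset.sum_congr rfl fun s _ => ?_
    rw [map_smul, ev_e, smul_eq_mul]
  have hPx : ev m P (c₁.sum fun s a => a • e m s) = α * ev m f (c₁.sum fun s a => a • e m s) := by
    rw [evx, evx, Finset.mul_sum]
    refine Finset.sum_congr rfl fun s hs => ?_
    have : hp s = α * f.1 s := (h1 s (hc₁ hs)).1
    change c₁ s * hp s = _
    rw [this]; ring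
  have hQx : ev m Q (c₂.sum fun s a => a • e m s) = α * ev m f (c₂.sum fun s a => a • e m s) := by
    rw [evx, evx, Finset.mul_sum]
    refine Finset.sum_congr rfl fun s hs => ?_
    have : hm s = α * f.1 s := (h1 s (hc₂ hs)).2
    change c₂ s * hm s = _
    rw [this]; ring
  have hrel : ev m P y - ev m Q y = β * ev m g y := by
    have := clm_zero m (ev m P - ev m Q - β • ev m g + β • ∑ s ∈ T, g.1 s • D m s) (by
      intro v
      simp only [ContinuousLinearMap.add_apply, ContinuousLinearMap.sub_apply, smul_apply,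
        sum_apply, smul_eq_mul, ev_e, mul_D_e]
      simp only [mul_ite, mul_one, mul_zero, Finset.sum_ite_eq]
      by_cases hv : v ∈ T
      · rw [if_pos hv]
        have := h1 v hv
        change hp v - hm v - _ + _ = 0
        rw [this.1, this.2]; ring
      · rw [if_neg hv]
        have := h2 v hv
        change hp v - hm v - _ + _ = 0
        rw [this]; ring) y
    simp only [ContinuousLinearMap.add_apply, ContinuousLinearMap.sub_apply, smul_apply,
        sum_apply, smul_eq_mul] at this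
    have h0 : ∑ s ∈ T, g.1 s * D m s y = 0 :=
      Finset.sum_eq_zero fun s hs => by rw [hy s hs, mul_zero]
    rw [h0] at this
    linarith
  have hn1 := (le_abs_self _).trans (abs_ev_le m P ((c₁.sum fun s a => a • e m s) + y))
  have hn2 := (le_abs_self _).trans (abs_ev_le m Q ((c₂.sum fun s a => a • e m s) - y))
  rw [map_add, hPx] at hn1
  rw [map_sub, hQx] at hn2
  rw [map_add]
  linarith

theorem le_of_forall_sub {a b : ℝ} (h : ∀ ε : ℝ, 0 < ε → a - ε ≤ b) : a ≤ b := by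
  by_contra hcon
  push Not at hcon
  have := h ((a - b) / 2) (by linarith)
  linarith

/-- norming tests, without positivity -/
theorem exists_norming' (m : PotentialModel) (x : modelSpace m) (ε : ℝ) (hε : 0 < ε) :
    ∃ f : PotentialTest m, ‖x‖ - ε ≤ ev m f x := by
  rcases (norm_nonneg x).eq_or_lt with h | h
  · have hx : x = 0 := norm_eq_zero.mp h.symm
    refine ⟨⟨0, ?_⟩, ?_⟩
    · refine isTest_of_global m _ ?_ ?_ ?_ ?_
      · intro s
        have : pathPotential 0 s = 0 := by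
          induction s with
          | nil => simp [pathPotential]
          | cons a l ih => simp [pathPotential, ih]
        rw [this]; simp
      · simp
      · intro A; simp
      · intro _; rfl
    · rw [hx]; simp [hε.le]
  · obtain ⟨f, hf⟩ := exists_norming m x ε hε h
    exact ⟨f, hf.le⟩

/-- The inequality in norms for finitely supported points. -/
theorem norm_ineq_fin (m : PotentialModel) (T : Finset (List ℕ)) (hT0 : [] ∈ T)
    (hTc : ∀ (a : ℕ) (l : List ℕ), a :: l ∈ T → l ∈ T)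
    (c₁ c₂ : List ℕ →₀ ℝ) (hc₁ : c₁.support ⊆ T) (hc₂ : c₂.support ⊆ T) (y : modelSpace m)
    (hy : ∀ s ∈ T, D m s y = 0) (x₁ x₂ : modelSpace m)
    (hx₁ : x₁ = c₁.sum fun s a => a • e m s) (hx₂ : x₂ = c₂.sum fun s a => a • e m s) :
    Real.sqrt (‖x₁ + x₂‖ ^ 2 + ‖y‖ ^ 2) ≤ ‖x₁ + y‖ + ‖x₂ - y‖ := by
  set R := Real.sqrt (‖x₁ + x₂‖ ^ 2 + ‖y‖ ^ 2) with hR
  have hR0 : 0 ≤ R := Real.sqrt_nonneg _
  have hR2 : R ^ 2 = ‖x₁ + x₂‖ ^ 2 + ‖y‖ ^ 2 := Real.sq_sqrt (by positivity)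
  rcases hR0.eq_or_lt with h | hRpos
  · rw [← h]; positivity
  set α := ‖x₁ + x₂‖ / R with hα
  set β := ‖y‖ / R with hβ
  have hα0 : 0 ≤ α := by positivity
  have hβ0 : 0 ≤ β := by positivity
  have hαβ : α ^ 2 + β ^ 2 ≤ 1 := by
    rw [hα, hβ, div_pow, div_pow, ← add_div, ← hR2, div_self (by positivity)]
  have hαβR : α * ‖x₁ + x₂‖ + β * ‖y‖ = R := by
    rw [hα, hβ]
    field_simp
    linarith
  apply le_of_forall_sub
  intro ε hε
  obtain ⟨f, hf⟩ := exists_norming' m (x₁ + x₂) (ε / 2) (by linarith)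
  obtain ⟨g, hg⟩ := exists_norming' m y (ε / 2) (by linarith)
  have key := key_ineq2 m T hT0 hTc c₁ c₂ hc₁ hc₂ y hy f g α β hα0 hβ0 hαβ
  rw [← hx₁, ← hx₂] at key
  have hα1 : α ≤ 1 := by nlinarith [sq_nonneg β]
  have hβ1 : β ≤ 1 := by nlinarith [sq_nonneg α]
  have e1 : α * (‖x₁ + x₂‖ - ε / 2) ≤ α * ev m f (x₁ + x₂) := mul_le_mul_of_nonneg_left hf hα0
  have e2 : β * (‖y‖ - ε / 2) ≤ β * ev m g y := mul_le_mul_of_nonneg_left hg hβ0
  nlinarith

/-- sqrt of sum of two squares is Lipschitz in the first entry. -/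
theorem sqrt_lip (a a' b : ℝ) : Real.sqrt (a ^ 2 + b ^ 2) ≤ Real.sqrt (a' ^ 2 + b ^ 2) + |a - a'| := by
  set R := Real.sqrt (a' ^ 2 + b ^ 2) with hR
  have hR0 : 0 ≤ R := Real.sqrt_nonneg _
  have hR2 : R ^ 2 = a' ^ 2 + b ^ 2 := Real.sq_sqrt (by positivity)
  have hRa : |a'| ≤ R := by
    rw [hR, ← Real.sqrt_sq_eq_abs]
    exact Real.sqrt_le_sqrt (by nlinarith [sq_nonneg b])
  apply Real.sqrt_le_iff.mpr
  refine ⟨by positivity, ?_⟩
  have h1 : a ^ 2 = a' ^ 2 + 2 * a' * (a - a') + (a - a') ^ 2 := by ring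
  have h2 : a' * (a - a') ≤ R * |a - a'| := by
    calc a' * (a - a') ≤ |a' * (a - a')| := le_abs_self _
      _ = |a'| * |a - a'| := abs_mul _ _
      _ ≤ R * |a - a'| := mul_le_mul_of_nonneg_right hRa (abs_nonneg _)
  have h3 : |a - a'| ^ 2 = (a - a') ^ 2 := sq_abs _
  nlinarith

/-- General points, with an error. -/
theorem norm_ineq (m : PotentialModel) (x₁ x₂ : modelSpace m) (ε : ℝ) (hε : 0 < ε) :
    ∃ T : Finset (List ℕ), ∀ y : modelSpace m, (∀ s ∈ T, D m s y = 0) →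
      Real.sqrt (‖x₁ + x₂‖ ^ 2 + ‖y‖ ^ 2) ≤ ‖x₁ + y‖ + ‖x₂ - y‖ + ε := by
  classical
  obtain ⟨c₁, h₁⟩ := span_dense m x₁ (ε / 4) (by linarith)
  obtain ⟨c₂, h₂⟩ := span_dense m x₂ (ε / 4) (by linarith)
  refine ⟨sc c₁ ∪ sc c₂, fun y hy => ?_⟩
  set x₁' := c₁.sum fun s a => a • e m s with hx₁'
  set x₂' := c₂.sum fun s a => a • e m s with hx₂'
  have key := norm_ineq_fin m (sc c₁ ∪ sc c₂) (Finset.mem_union_left _ (sc_nil c₁))
    (fun a l h => by
      rcases Finset.mem_union.mp h with h | h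
      · exact Finset.mem_union_left _ (sc_cons c₁ a l h)
      · exact Finset.mem_union_right _ (sc_cons c₂ a l h))
    c₁ c₂ (fun s hs => Finset.mem_union_left _ (sc_supp c₁ s hs))
    (fun s hs => Finset.mem_union_right _ (sc_supp c₂ s hs)) y hy x₁' x₂' rfl rfl
  have e1 : ‖x₁' + y‖ ≤ ‖x₁ + y‖ + ε / 4 := by
    have h3 : x₁' + y = (x₁ + y) - (x₁ - x₁') := by abel
    rw [h3]
    exact (norm_sub_le _ _).trans (by linarith)
  have e2 : ‖x₂' - y‖ ≤ ‖x₂ - y‖ + ε / 4 := by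
    have h3 : x₂' - y = (x₂ - y) - (x₂ - x₂') := by abel
    rw [h3]
    exact (norm_sub_le _ _).trans (by linarith)
  have e3 : |‖x₁ + x₂‖ - ‖x₁' + x₂'‖| ≤ ε / 2 := by
    refine (abs_norm_sub_norm_le _ _).trans ?_
    have h3 : (x₁ + x₂) - (x₁' + x₂') = (x₁ - x₁') + (x₂ - x₂') := by abel
    rw [h3]
    exact (norm_add_le _ _).trans (by linarith)
  have e4 := sqrt_lip ‖x₁ + x₂‖ ‖x₁' + x₂'‖ ‖y‖
  linarith

end Crest.Agent.H26Key
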