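import Mathlib

set_option autoImplicit false

namespace Crest.Agent.H26Reflexive

open scoped InnerProductSpace

/-- Reflexivity: the canonical map into the bidual is onto. -/
def Refl (E : Type*) [NormedAddCommGroup E] [NormedSpace ℝ E] : Prop :=
  Function.Surjective (NormedSpace.inclusionInDoubleDual ℝ E)

theorem refl_of_equiv {E F : Type*} [NormedAddCommGroup E] [NormedSpace ℝ E]
    [NormedAddCommGroup F] [NormedSpace ℝ F] (e : E ≃L[ℝ] F) (h : Refl E) : Refl F := by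
  intro φ
  obtain ⟨x, hx⟩ := h (φ.comp
    ((ContinuousLinearMap.compL ℝ F E ℝ).flip (e.symm : F →L[ℝ] E)))
  refine ⟨e x, ?_⟩
  ext f
  have h1 := congrArg (fun ψ => ψ (f.comp (e : E →L[ℝ] F))) hx
  simp only [NormedSpace.dual_def, ContinuousLinearMap.comp_apply,
    ContinuousLinearMap.flip_apply, ContinuousLinearMap.compL_apply] at h1
  have h2 : (f.comp (e : E →L[ℝ] F)).comp (e.symm : F →L[ℝ] E) = f := by
    ext y; simp
  rw [h2] at h1
  rw [NormedSpace.dual_def]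
  simpa using h1

theorem hilbert_refl (H : Type*) [NormedAddCommGroup H] [InnerProductSpace ℝ H]
    [CompleteSpace H] : Refl H := by
  intro φ
  -- the functional z ↦ φ ⟪z, ·⟫
  let L : H →ₗ[ℝ] ℝ :=
    { toFun := fun z => φ (innerSL ℝ z)
      map_add' := fun a b => by rw [map_add, map_add]
      map_smul' := fun r a => by
        have h1 : innerSL ℝ (r • a) = r • innerSL ℝ a := by
          ext z; simp
        rw [h1, map_smul]; rfl }
  let Φ : H →L[ℝ] ℝ := L.mkContinuous ‖φ‖ (fun z => by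
    change ‖φ (innerSL ℝ z)‖ ≤ _
    calc ‖φ (innerSL ℝ z)‖ ≤ ‖φ‖ * ‖innerSL ℝ z‖ := φ.le_opNorm _
      _ = ‖φ‖ * ‖z‖ := by rw [innerSL_apply_norm])
  refine ⟨(InnerProductSpace.toDual ℝ H).symm Φ, ?_⟩
  ext f
  rw [NormedSpace.dual_def]
  set z := (InnerProductSpace.toDual ℝ H).symm f with hz
  have hf : ∀ y, f y = ⟪z, y⟫_ℝ := fun y => by
    rw [hz, InnerProductSpace.toDual_symm_apply]
  have hf' : f = innerSL ℝ z := by
    ext y; rw [hf]; simp
  rw [hf, real_inner_comm, InnerProductSpace.toDual_symm_apply]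
  change φ (innerSL ℝ z) = φ f
  rw [← hf']

section lpsum

variable {ι : Type*} [DecidableEq ι] (E : ι → Type*) [∀ i, NormedAddCommGroup (E i)]
  [∀ i, NormedSpace ℝ (E i)]

theorem two_pos' : 0 < (2 : ENNReal).toReal := by norm_num

/-- evaluation -/
noncomputable def P (i : ι) : lp E 2 →L[ℝ] E i := lp.evalCLM ℝ E 2 i

/-- inclusion -/
noncomputable def S (i : ι) : E i →L[ℝ] lp E 2 := lp.singleContinuousLinearMap ℝ E 2 i

theorem P_apply (i : ι) (x : lp E 2) : P E i x = x i := rfl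

theorem S_apply (i : ι) (a : E i) : S E i a = lp.single 2 i a := rfl

theorem P_S_self (i : ι) (a : E i) : P E i (S E i a) = a := by
  rw [P_apply, S_apply, lp.single_apply_self]

theorem P_S_ne (i j : ι) (a : E i) (h : j ≠ i) : P E j (S E i a) = 0 := by
  rw [P_apply, S_apply, lp.single_apply_ne _ _ _ h]

theorem norm_S (i : ι) (a : E i) : ‖S E i a‖ = ‖a‖ := by
  rw [S_apply, lp.norm_single (by norm_num)]

theorem norm_sq (x : lp E 2) : HasSum (fun i => ‖x i‖ ^ 2) (‖x‖ ^ 2) := by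
  have := lp.hasSum_norm (two_pos') x
  simpa using this

theorem sum_sq_le (x : lp E 2) (s : Finset ι) : ∑ i ∈ s, ‖x i‖ ^ 2 ≤ ‖x‖ ^ 2 :=
  sum_le_hasSum s (fun _ _ => sq_nonneg _) (norm_sq E x)

theorem norm_sum_S (a : ∀ i, E i) (s : Finset ι) :
    ‖∑ i ∈ s, S E i (a i)‖ ^ 2 = ∑ i ∈ s, ‖a i‖ ^ 2 := by
  have := lp.norm_sum_single (E := E) (two_pos') a s
  simpa [S_apply] using this

/-- Cauchy–Schwarz for finite sums against the norm of the sum space. -/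
theorem cs (s : Finset ι) (c : ι → ℝ) (x : lp E 2) :
    ∑ i ∈ s, c i * ‖x i‖ ≤ Real.sqrt (∑ i ∈ s, c i ^ 2) * ‖x‖ := by
  have h1 := Finset.sum_mul_sq_le_sq_mul_sq s c (fun i => ‖x i‖)
  have h2 : (∑ i ∈ s, c i * ‖x i‖) ^ 2 ≤ (Real.sqrt (∑ i ∈ s, c i ^ 2) * ‖x‖) ^ 2 := by
    rw [mul_pow, Real.sq_sqrt (Finset.sum_nonneg fun _ _ => sq_nonneg _)]
    exact h1.trans (mul_le_mul_of_nonneg_left (sum_sq_le E x s)
      (Finset.sum_nonneg fun _ _ => sq_nonneg _))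
  exact abs_le_of_sq_le_sq' h2 (by positivity) |>.2

/-- Square summability of the norms of the restrictions of a functional. -/
theorem sum_restrict_sq (F : StrongDual ℝ (lp E 2)) (s : Finset ι) :
    ∑ i ∈ s, ‖F.comp (S E i)‖ ^ 2 ≤ 4 * ‖F‖ ^ 2 := by
  set a : ι → ℝ := fun i => ‖F.comp (S E i)‖ with ha
  -- choose almost norming vectors
  have hy : ∀ i, ∃ y : E i, ‖y‖ ≤ 1 ∧ a i / 2 ≤ F (S E i y) := by
    intro i
    rcases (norm_nonneg (F.comp (S E i))).eq_or_lt with h | h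
    · refine ⟨0, by simp, ?_⟩
      simp only [ha, ← h]
      simp
    · have h1 : a i / 2 < ‖F.comp (S E i)‖ := by simp only [ha]; linarith
      obtain ⟨y, hy1, hy2⟩ := (F.comp (S E i)).exists_lt_apply_of_lt_opNorm h1
      rw [ContinuousLinearMap.comp_apply, Real.norm_eq_abs] at hy2
      rcases abs_cases (F (S E i y)) with ⟨h3, _⟩ | ⟨h3, _⟩
      · exact ⟨y, hy1.le, by rw [h3] at hy2; exact hy2.le⟩
      · refine ⟨-y, by rw [norm_neg]; exact hy1.le, ?_⟩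
        rw [map_neg, map_neg]
        rw [h3] at hy2; exact hy2.le
  choose y hy1 hy2 using hy
  set T := ∑ i ∈ s, a i ^ 2 with hT
  have hT0 : 0 ≤ T := Finset.sum_nonneg fun _ _ => sq_nonneg _
  set z : lp E 2 := ∑ i ∈ s, S E i (a i • y i) with hz
  have hz1 : ‖z‖ ^ 2 ≤ T := by
    rw [hz, norm_sum_S, hT]
    refine Finset.sum_le_sum fun i _ => ?_
    rw [norm_smul, mul_pow, Real.norm_eq_abs, sq_abs]
    have h1 : ‖y i‖ ^ 2 ≤ 1 := by
      have := hy1 i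
      have h0 := norm_nonneg (y i)
      nlinarith
    have h2 : 0 ≤ a i ^ 2 := sq_nonneg _
    nlinarith
  have hz2 : T / 2 ≤ F z := by
    rw [hz, map_sum, hT, Finset.sum_div]
    refine Finset.sum_le_sum fun i _ => ?_
    rw [map_smul, map_smul, smul_eq_mul]
    have h0 : 0 ≤ a i := norm_nonneg _
    have := mul_le_mul_of_nonneg_left (hy2 i) h0
    nlinarith
  have hz3 : F z ≤ ‖F‖ * ‖z‖ := (le_abs_self _).trans (F.le_opNorm z)
  have h4 : T / 2 ≤ ‖F‖ * ‖z‖ := hz2.trans hz3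
  have h5 : (T / 2) ^ 2 ≤ ‖F‖ ^ 2 * T := by
    calc (T / 2) ^ 2 ≤ (‖F‖ * ‖z‖) ^ 2 := pow_le_pow_left₀ (by positivity) h4 2
      _ = ‖F‖ ^ 2 * ‖z‖ ^ 2 := by rw [mul_pow]
      _ ≤ ‖F‖ ^ 2 * T := mul_le_mul_of_nonneg_left hz1 (sq_nonneg _)
  rcases hT0.eq_or_lt with h | h
  · rw [← h]; positivity
  · have h6 : T * (T / 4) ≤ T * ‖F‖ ^ 2 := by nlinarith
    have h7 := le_of_mul_le_mul_left h6 h
    linarith

/-- Finite sections of a functional converge in norm. -/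
theorem approx (F : StrongDual ℝ (lp E 2)) (ε : ℝ) (hε : 0 < ε) : ∃ s : Finset ι,
    ‖F - ∑ i ∈ s, (F.comp (S E i)).comp (P E i)‖ ≤ ε := by
  have hsum : Summable fun i => ‖F.comp (S E i)‖ ^ 2 :=
    summable_of_sum_le (fun _ => sq_nonneg _) (sum_restrict_sq E F)
  obtain ⟨s, hs⟩ := (summable_iff_vanishing_norm.mp hsum) (ε ^ 2) (by positivity)
  refine ⟨s, ContinuousLinearMap.opNorm_le_bound _ hε.le fun x => ?_⟩
  -- F x is the limit of finite sections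
  have h1 : HasSum (fun i => F (S E i (x i))) (F x) := by
    have := (lp.hasSum_single (p := 2) (by norm_num) x).mapL F
    exact this
  have h2 : (F - ∑ i ∈ s, (F.comp (S E i)).comp (P E i)) x = F x - ∑ i ∈ s, F (S E i (x i)) := by
    simp [P_apply]
  rw [h2]
  have h3 : Filter.Tendsto (fun t : Finset ι => ∑ i ∈ t, F (S E i (x i)) -
      ∑ i ∈ s, F (S E i (x i))) Filter.atTop (nhds (F x - ∑ i ∈ s, F (S E i (x i)))) :=
    h1.sub_const _
  refine le_of_tendsto h3.norm ?_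
  filter_upwards [Filter.eventually_ge_atTop s] with t ht
  have h4 : ∑ i ∈ t, F (S E i (x i)) - ∑ i ∈ s, F (S E i (x i)) =
      ∑ i ∈ t \ s, F (S E i (x i)) := by
    rw [← Finset.sum_sdiff ht]; ring
  rw [h4]
  calc ‖∑ i ∈ t \ s, F (S E i (x i))‖ ≤ ∑ i ∈ t \ s, ‖F (S E i (x i))‖ := norm_sum_le _ _
    _ ≤ ∑ i ∈ t \ s, ‖F.comp (S E i)‖ * ‖x i‖ :=
      Finset.sum_le_sum fun i _ => (F.comp (S E i)).le_opNorm (x i)
    _ ≤ Real.sqrt (∑ i ∈ t \ s, ‖F.comp (S E i)‖ ^ 2) * ‖x‖ := cs E _ _ x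
    _ ≤ ε * ‖x‖ := by
      refine mul_le_mul_of_nonneg_right ?_ (norm_nonneg _)
      apply Real.sqrt_le_iff.mpr ⟨hε.le, ?_⟩
      have := hs (t \ s) Finset.sdiff_disjoint
      rw [Real.norm_eq_abs] at this
      exact (le_abs_self _).trans this.le

theorem lp_refl (h : ∀ i, Refl (E i)) : Refl (lp E 2) := by
  intro φ
  have hx : ∀ i, ∃ x : E i, ∀ f : StrongDual ℝ (E i), φ (f.comp (P E i)) = f x := by
    intro i
    obtain ⟨x, hx⟩ := h i (φ.comp ((ContinuousLinearMap.compL ℝ (lp E 2) (E i) ℝ).flip (P E i)))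
    refine ⟨x, fun f => ?_⟩
    have h1 := congrArg (fun ψ => ψ f) hx
    simp only [NormedSpace.dual_def, ContinuousLinearMap.comp_apply,
      ContinuousLinearMap.flip_apply, ContinuousLinearMap.compL_apply] at h1
    exact h1.symm
  choose x hx using hx
  have hbd : ∀ s : Finset ι, ∑ i ∈ s, ‖x i‖ ^ 2 ≤ ‖φ‖ ^ 2 := by
    intro s
    have hf : ∀ i, ∃ f : StrongDual ℝ (E i), ‖f‖ ≤ 1 ∧ f (x i) = ‖x i‖ := fun i =>
      exists_dual_vector'' ℝ (x i)
    choose f hf1 hf2 using hf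
    set T := ∑ i ∈ s, ‖x i‖ ^ 2 with hT
    have hT0 : 0 ≤ T := Finset.sum_nonneg fun _ _ => sq_nonneg _
    set F : StrongDual ℝ (lp E 2) := ∑ i ∈ s, ‖x i‖ • (f i).comp (P E i) with hF
    have hFn : ‖F‖ ≤ Real.sqrt T := by
      refine ContinuousLinearMap.opNorm_le_bound _ (Real.sqrt_nonneg _) fun y => ?_
      have h1 : F y = ∑ i ∈ s, ‖x i‖ * f i (y i) := by
        simp [hF, P_apply]
      rw [h1]
      calc ‖∑ i ∈ s, ‖x i‖ * f i (y i)‖ ≤ ∑ i ∈ s, ‖‖x i‖ * f i (y i)‖ := norm_sum_le _ _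
        _ ≤ ∑ i ∈ s, ‖x i‖ * ‖y i‖ := by
          refine Finset.sum_le_sum fun i _ => ?_
          rw [norm_mul, norm_norm]
          refine mul_le_mul_of_nonneg_left ?_ (norm_nonneg _)
          calc ‖f i (y i)‖ ≤ ‖f i‖ * ‖y i‖ := (f i).le_opNorm _
            _ ≤ 1 * ‖y i‖ := mul_le_mul_of_nonneg_right (hf1 i) (norm_nonneg _)
            _ = ‖y i‖ := one_mul _
        _ ≤ Real.sqrt T * ‖y‖ := cs E s _ y
    have hφF : φ F = T := by
      rw [hF, map_sum, hT]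
      refine Finset.sum_congr rfl fun i _ => ?_
      rw [map_smul, hx, hf2, smul_eq_mul, sq]
    have h1 : T ≤ ‖φ‖ * Real.sqrt T := by
      calc T = φ F := hφF.symm
        _ ≤ ‖φ F‖ := le_abs_self _
        _ ≤ ‖φ‖ * ‖F‖ := φ.le_opNorm F
        _ ≤ ‖φ‖ * Real.sqrt T := mul_le_mul_of_nonneg_left hFn (norm_nonneg φ)
    have h2 : Real.sqrt T * Real.sqrt T = T := Real.mul_self_sqrt hT0
    rcases (Real.sqrt_nonneg T).eq_or_lt with h3 | h3
    · have : T = 0 := by rw [← h2, ← h3, mul_zero]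
      rw [this]; positivity
    · have h4 : Real.sqrt T ≤ ‖φ‖ := by nlinarith
      calc T = Real.sqrt T ^ 2 := by rw [sq, h2]
        _ ≤ ‖φ‖ ^ 2 := pow_le_pow_left₀ (Real.sqrt_nonneg _) h4 2
  have hmem : Memℓp x 2 := by
    refine memℓp_gen' (C := ‖φ‖ ^ 2) fun s => ?_
    have := hbd s
    simpa using this
  set X : lp E 2 := ⟨x, hmem⟩ with hX
  refine ⟨X, ?_⟩
  ext F
  rw [NormedSpace.dual_def]
  by_contra hne
  have hpos : 0 < |F X - φ F| := abs_pos.mpr (sub_ne_zero.mpr hne)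
  obtain ⟨s, hs⟩ := approx E F (|F X - φ F| / (2 * (‖φ‖ + ‖X‖ + 1))) (by positivity)
  set G := ∑ i ∈ s, (F.comp (S E i)).comp (P E i) with hG
  have hGX : φ G = G X := by
    rw [hG, map_sum]
    simp only [sum_apply, ContinuousLinearMap.comp_apply]
    refine Finset.sum_congr rfl fun i _ => ?_
    rw [hx]
    rfl
  have h1 : F X - φ F = (F - G) X - φ (F - G) := by
    rw [map_sub, sub_apply, hGX]; ring
  have h2 : |F X - φ F| ≤ ‖F - G‖ * ‖X‖ + ‖φ‖ * ‖F - G‖ := by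
    rw [h1]
    calc |(F - G) X - φ (F - G)| ≤ |(F - G) X| + |φ (F - G)| := abs_sub _ _
      _ ≤ ‖F - G‖ * ‖X‖ + ‖φ‖ * ‖F - G‖ := add_le_add ((F - G).le_opNorm X) (φ.le_opNorm _)
  have h3 : ‖F - G‖ * (‖φ‖ + ‖X‖ + 1) ≤ |F X - φ F| / 2 := by
    have h4 : 0 < ‖φ‖ + ‖X‖ + 1 := by positivity
    calc ‖F - G‖ * (‖φ‖ + ‖X‖ + 1) ≤
        (|F X - φ F| / (2 * (‖φ‖ + ‖X‖ + 1))) * (‖φ‖ + ‖X‖ + 1) :=
        mul_le_mul_of_nonneg_right hs h4.le
      _ = |F X - φ F| / 2 := by field_simp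
  have h5 : 0 ≤ ‖F - G‖ := norm_nonneg _
  nlinarith

end lpsum

end Crest.Agent.H26Reflexive
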