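import Mathlib
import Crest.Prelude.Def_AsymptoticConvexity
import Crest.Agent.H11AUC
import Crest.Agent.H26Key
import Crest.Agent.H26Reflexive

set_option autoImplicit false

namespace Crest.Agent.H26Abs

open Crest Crest.AnalysisR Filter
open Crest.Agent.H26Reflexive (Refl)

/-- asymptotically null sequences along a filter are close to closed finite-codimensional
subspaces -/
theorem near_of_weak {X : Type*} [NormedAddCommGroup X] [NormedSpace ℝ X] (l : Filter ℕ)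
    (e : ℕ → X) (h : ∀ φ : StrongDual ℝ X, Tendsto (fun n => φ (e n)) l (nhds 0))
    (V : Submodule ℝ X) (hcl : IsClosed (V : Set X)) (hfd : FiniteDimensional ℝ (X ⧸ V))
    (ε : ℝ) (hε : 0 < ε) :
    ∀ᶠ n in l, ∃ y ∈ V, ‖e n - y‖ ≤ ε := by
  have := hcl
  have hφ : ∀ φ : (X ⧸ V) →L[ℝ] ℝ,
      Tendsto (fun n => φ (Submodule.Quotient.mk (e n))) l (nhds 0) := by
    intro φ
    exact h (φ.comp V.mkQL)
  have hnorm : Tendsto (fun n => ‖(Submodule.Quotient.mk (e n) : X ⧸ V)‖) l (nhds 0) := by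
    let b := Module.finBasis ℝ (X ⧸ V)
    have hbound : ∀ z : X ⧸ V, ‖z‖ ≤ ∑ i, |b.coord i z| * ‖b i‖ := by
      intro z
      have hz := b.sum_repr z
      calc ‖z‖ = ‖∑ i, b.repr z i • b i‖ := by rw [hz]
        _ ≤ ∑ i, ‖b.repr z i • b i‖ := norm_sum_le _ _
        _ = ∑ i, |b.coord i z| * ‖b i‖ := by
          refine Finset.sum_congr rfl fun i _ => ?_
          rw [norm_smul, Real.norm_eq_abs, Module.Basis.coord_apply]
    have hlim : Tendsto
        (fun n => ∑ i, |b.coord i (Submodule.Quotient.mk (e n) : X ⧸ V)| * ‖b i‖)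
        l (nhds 0) := by
      have h1 : ∀ i, Tendsto
          (fun n => |b.coord i (Submodule.Quotient.mk (e n) : X ⧸ V)| * ‖b i‖)
          l (nhds 0) := by
        intro i
        have := hφ (LinearMap.toContinuousLinearMap (b.coord i))
        have h2 := this.abs.mul_const ‖b i‖
        simpa using h2
      have := tendsto_finsetSum Finset.univ (fun i _ => h1 i)
      simpa using this
    exact squeeze_zero (fun _ => norm_nonneg _) (fun n => hbound _) hlim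
  filter_upwards [hnorm.eventually_lt_const hε] with n hn
  exact H11AUC.near_of_quot V (e n) ε hn

/-- bounded sequences in reflexive spaces have weak limits along an ultrafilter -/
theorem exists_weak_limit {X : Type*} [NormedAddCommGroup X] [NormedSpace ℝ X] (hR : Refl X)
    (z : ℕ → X) (B : ℝ) (hB : ∀ i, ‖z i‖ ≤ B) :
    ∃ w : X, ∀ F : StrongDual ℝ X,
      Tendsto (fun i => F (z i)) (hyperfilter ℕ : Filter ℕ) (nhds (F w)) := by
  have hlim : ∀ F : StrongDual ℝ X, ∃ a : ℝ, |a| ≤ B * ‖F‖ ∧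
      Tendsto (fun i => F (z i)) (hyperfilter ℕ : Filter ℕ) (nhds a) := by
    intro F
    have hc : IsCompact (Set.Icc (-(B * ‖F‖)) (B * ‖F‖)) := isCompact_Icc
    have hmem : ((hyperfilter ℕ).map (fun i => F (z i)) : Filter ℝ) ≤
        Filter.principal (Set.Icc (-(B * ‖F‖)) (B * ‖F‖)) := by
      rw [Filter.le_principal_iff]
      refine Filter.mem_map.mpr (Filter.univ_mem' fun i => ?_)
      have h1 : |F (z i)| ≤ B * ‖F‖ := by
        calc |F (z i)| ≤ ‖F‖ * ‖z i‖ := F.le_opNorm _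
          _ ≤ ‖F‖ * B := mul_le_mul_of_nonneg_left (hB i) (norm_nonneg _)
          _ = B * ‖F‖ := mul_comm _ _
      exact Set.mem_Icc.mpr (abs_le.mp h1)
    obtain ⟨a, ha, ha'⟩ := hc.ultrafilter_le_nhds _ hmem
    exact ⟨a, abs_le.mpr (Set.mem_Icc.mp ha), ha'⟩
  choose L hL1 hL2 using hlim
  let φ : StrongDual ℝ X →ₗ[ℝ] ℝ :=
    { toFun := L
      map_add' := fun F G => by
        refine tendsto_nhds_unique (hL2 (F + G)) ?_
        exact (hL2 F).add (hL2 G)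
      map_smul' := fun r F => by
        refine tendsto_nhds_unique (hL2 (r • F)) ?_
        exact (hL2 F).const_mul r }
  let Φ : StrongDual ℝ X →L[ℝ] ℝ := φ.mkContinuous B (fun F => hL1 F)
  obtain ⟨w, hw⟩ := hR Φ
  refine ⟨w, fun F => ?_⟩
  have h1 := congrArg (fun ψ => ψ F) hw
  simp only [NormedSpace.dual_def] at h1
  rw [h1]
  exact hL2 F

/-- the key property -/
def KK (X : Type*) [NormedAddCommGroup X] [NormedSpace ℝ X] : Prop :=
  ∀ (x₁ x₂ : X) (ε : ℝ), 0 < ε → ∃ V : Submodule ℝ X, IsClosed (V : Set X) ∧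
    FiniteDimensional ℝ (X ⧸ V) ∧ ∀ y ∈ V,
      Real.sqrt (‖x₁ + x₂‖ ^ 2 + ‖y‖ ^ 2) ≤ ‖x₁ + y‖ + ‖x₂ - y‖ + ε

theorem hX {X : Type*} [NormedAddCommGroup X] [NormedSpace ℝ X] (hR : Refl X) (hK : KK X)
    (x y : X) (z : ℕ → X) (c : ℝ) (hc : 0 < c) (hbd : ∃ B, ∀ i, ‖z i‖ ≤ B)
    (hsep : ∀ i j, i ≠ j → 2 * c ≤ ‖z i - z j‖) (ε : ℝ) (hε : 0 < ε) :
    ∃ i, Real.sqrt (‖x - y‖ ^ 2 / 4 + c ^ 2 / 4) - ε ≤ max ‖x - z i‖ ‖z i - y‖ := by
  obtain ⟨B, hB⟩ := hbd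
  obtain ⟨w, hw⟩ := exists_weak_limit hR z B hB
  set η : ℝ := min (ε / 4) (c / 2) with hη
  have hη0 : 0 < η := lt_min (by linarith) (by linarith)
  have hη1 : η ≤ ε / 4 := min_le_left _ _
  have hη2 : η ≤ c / 2 := min_le_right _ _
  obtain ⟨V, hV1, hV2, hV3⟩ := hK (w - y) (x - w) η hη0
  have hnull : ∀ φ : StrongDual ℝ X,
      Tendsto (fun n => φ (z n - w)) (hyperfilter ℕ : Filter ℕ) (nhds 0) := by
    intro φ
    have h1 := (hw φ).sub_const (φ w)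
    rw [sub_self] at h1
    simpa using h1
  have hnear := near_of_weak (hyperfilter ℕ : Filter ℕ) (fun n => z n - w) hnull V hV1 hV2 η hη0
  have hbig : ∀ᶠ n in (hyperfilter ℕ : Filter ℕ), c ≤ ‖z n - w‖ := by
    have hfin : {n : ℕ | ¬ c ≤ ‖z n - w‖}.Finite := by
      refine Set.Subsingleton.finite ?_
      intro i hi j hj
      by_contra hne
      have h1 := hsep i j hne
      have h2 : ‖z i - z j‖ ≤ ‖z i - w‖ + ‖z j - w‖ := by
        have : z i - z j = (z i - w) - (z j - w) := by abel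
        rw [this]; exact norm_sub_le _ _
      simp only [Set.mem_setOf_eq, not_le] at hi hj
      linarith
    have h1 : {n : ℕ | ¬ c ≤ ‖z n - w‖}ᶜ ∈ (hyperfilter ℕ : Filter ℕ) :=
      hfin.compl_mem_hyperfilter
    filter_upwards [h1] with n hn
    simpa using hn
  obtain ⟨i, ⟨u, hu, hu'⟩, hi⟩ := (hnear.and hbig).exists
  refine ⟨i, ?_⟩
  have key := hV3 u hu
  have e0 : (w - y) + (x - w) = x - y := by abel
  rw [e0] at key
  have e1 : ‖(w - y) + u‖ ≤ ‖z i - y‖ + η := by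
    have h3 : (w - y) + u = (z i - y) - (z i - w - u) := by abel
    rw [h3]
    exact (norm_sub_le _ _).trans (by linarith)
  have e2 : ‖(x - w) - u‖ ≤ ‖x - z i‖ + η := by
    have h3 : (x - w) - u = (x - z i) + (z i - w - u) := by abel
    rw [h3]
    exact (norm_add_le _ _).trans (by linarith)
  have e3 : c - η ≤ ‖u‖ := by
    have h3 : z i - w = (z i - w - u) + u := by abel
    have h4 : ‖z i - w‖ ≤ ‖z i - w - u‖ + ‖u‖ := by
      conv_lhs => rw [h3]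
      exact norm_add_le _ _
    linarith
  have e4 : Real.sqrt (‖x - y‖ ^ 2 + (c - η) ^ 2) ≤ Real.sqrt (‖x - y‖ ^ 2 + ‖u‖ ^ 2) := by
    apply Real.sqrt_le_sqrt
    have : 0 ≤ c - η := by linarith
    nlinarith
  have e5 : Real.sqrt (‖x - y‖ ^ 2 + c ^ 2) ≤ Real.sqrt (‖x - y‖ ^ 2 + (c - η) ^ 2) + η := by
    have h5 := H26Key.sqrt_lip c (c - η) ‖x - y‖
    have h6 : |c - (c - η)| = η := by
      rw [show c - (c - η) = η by ring, abs_of_pos hη0]
    rw [h6] at h5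
    rw [add_comm (‖x - y‖ ^ 2), add_comm (‖x - y‖ ^ 2)]
    exact h5
  have e6 : Real.sqrt (‖x - y‖ ^ 2 / 4 + c ^ 2 / 4) = Real.sqrt (‖x - y‖ ^ 2 + c ^ 2) / 2 := by
    rw [← add_div, Real.sqrt_div' _ (by norm_num)]
    congr 1
    rw [show (4:ℝ) = 2 ^ 2 by norm_num, Real.sqrt_sq (by norm_num)]
  rw [e6]
  have e7 := le_max_left ‖x - z i‖ ‖z i - y‖
  have e8 := le_max_right ‖x - z i‖ ‖z i - y‖
  linarith

theorem avg {X : Type*} [NormedAddCommGroup X] [NormedSpace ℝ X] (hK : KK X)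
    (x : X) (hx : ‖x‖ = 1) (t : ℝ) (ht : 0 < t) (η : ℝ) (hη : 0 < η) :
    ∃ V : Submodule ℝ X, IsClosed (V : Set X) ∧ FiniteDimensional ℝ (X ⧸ V) ∧
      ∀ y ∈ V, ‖y‖ = 1 →
        Real.sqrt (1 + t ^ 2 / 4) - 1 - η ≤ (‖x + t • y‖ + ‖x - t • y‖) / 2 - 1 := by
  obtain ⟨V, hV1, hV2, hV3⟩ := hK x x η hη
  refine ⟨V, hV1, hV2, fun y hy hy1 => ?_⟩
  have h := hV3 (t • y) (V.smul_mem t hy)
  have h1 : ‖x + x‖ = 2 := by
    rw [← two_smul ℝ x, norm_smul, hx]; norm_num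
  have h2 : ‖t • y‖ = t := by
    rw [norm_smul, hy1, mul_one, Real.norm_eq_abs, abs_of_pos ht]
  rw [h1, h2] at h
  have h3 : Real.sqrt (2 ^ 2 + t ^ 2) = 2 * Real.sqrt (1 + t ^ 2 / 4) := by
    rw [show (2:ℝ) ^ 2 + t ^ 2 = 2 ^ 2 * (1 + t ^ 2 / 4) by ring,
      Real.sqrt_mul (by norm_num), Real.sqrt_sq (by norm_num)]
  rw [h3] at h
  linarith

theorem moduli (X : Type) [i1 : NormedAddCommGroup X] [i2 : NormedSpace ℝ X]
    [i3 : CompleteSpace X] (hK : KK X) (t : ℝ) (ht : 0 < t) :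
    (⟨X, i1, i2, i3⟩ : RealBanach).MidpointModulusGE (⟨X, i1, i2, i3⟩ : RealBanach).norm t
        (Real.sqrt (1 + t ^ 2 / 12) - 1) ∧
    (⟨X, i1, i2, i3⟩ : RealBanach).MidpointModulusGE (⟨X, i1, i2, i3⟩ : RealBanach).norm t
        ((Real.sqrt (1 + t ^ 2 / 4) - 1) / 2) ∧
    (⟨X, i1, i2, i3⟩ : RealBanach).MaxMidpointModulusGE (⟨X, i1, i2, i3⟩ : RealBanach).norm t
        (Real.sqrt (1 + t ^ 2 / 4) - 1) := by
  have h12 : Real.sqrt (1 + t ^ 2 / 12) ≤ Real.sqrt (1 + t ^ 2 / 4) := by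
    apply Real.sqrt_le_sqrt
    nlinarith [sq_nonneg t]
  have h1 : 1 ≤ Real.sqrt (1 + t ^ 2 / 4) := by
    rw [show (1:ℝ) = Real.sqrt 1 by simp]
    apply Real.sqrt_le_sqrt
    simp
    positivity
  refine ⟨?_, ?_, ?_⟩
  · intro x hx η hη
    obtain ⟨V, hV1, hV2, hV3⟩ := avg hK x hx t ht η hη
    refine ⟨V, ⟨V, rfl, hV1, hV2⟩, fun y hy hy1 => ?_⟩
    have := hV3 y hy hy1
    change Real.sqrt (1 + t ^ 2 / 12) - 1 - η ≤ (‖x + t • y‖ + ‖x - t • y‖) / 2 - 1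
    linarith
  · intro x hx η hη
    obtain ⟨V, hV1, hV2, hV3⟩ := avg hK x hx t ht η hη
    refine ⟨V, ⟨V, rfl, hV1, hV2⟩, fun y hy hy1 => ?_⟩
    have := hV3 y hy hy1
    change (Real.sqrt (1 + t ^ 2 / 4) - 1) / 2 - η ≤ (‖x + t • y‖ + ‖x - t • y‖) / 2 - 1
    linarith
  · intro x hx η hη
    obtain ⟨V, hV1, hV2, hV3⟩ := avg hK x hx t ht η hη
    refine ⟨V, ⟨V, rfl, hV1, hV2⟩, fun y hy hy1 => ?_⟩
    have := hV3 y hy hy1
    change Real.sqrt (1 + t ^ 2 / 4) - 1 - η ≤ max ‖x + t • y‖ ‖x - t • y‖ - 1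
    have e7 := le_max_left ‖x + t • y‖ ‖x - t • y‖
    have e8 := le_max_right ‖x + t • y‖ ‖x - t • y‖
    linarith

end Crest.Agent.H26Abs
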