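import Mathlib
import Crest.Agent.H26Reflexive

set_option autoImplicit false

namespace Crest.Agent.H26Riesz

open Crest.Agent.H26Reflexive Filter

variable {X : Type*} [NormedAddCommGroup X] [NormedSpace ℝ X] [CompleteSpace X] {ι : Type*}
  [DecidableEq ι]

/-- Hilbert space of coefficients -/
abbrev H (ι : Type*) := lp (fun _ : ι => ℝ) 2

theorem sqrt_sum_le (a : H ι) (s : Finset ι) : Real.sqrt (∑ i ∈ s, a i ^ 2) ≤ ‖a‖ := by
  apply Real.sqrt_le_iff.mpr ⟨norm_nonneg _, ?_⟩
  have := sum_sq_le (fun _ : ι => ℝ) a s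
  simpa using this

theorem summ (e : ι → X)
    (hup : ∀ (s : Finset ι) (c : ι → ℝ), ‖∑ i ∈ s, c i • e i‖ ≤ Real.sqrt (∑ i ∈ s, c i ^ 2))
    (a : H ι) : Summable (fun i => a i • e i) := by
  rw [summable_iff_vanishing_norm]
  intro ε hε
  have hs : Summable (fun i => ‖a i‖ ^ 2) := (norm_sq (fun _ : ι => ℝ) a).summable
  obtain ⟨s, hs⟩ := (summable_iff_vanishing_norm.mp hs) (ε ^ 2) (by positivity)
  refine ⟨s, fun t ht => lt_of_le_of_lt (hup t fun i => a i) ?_⟩
  have := hs t ht
  rw [Real.norm_eq_abs] at this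
  have h2 : ∑ i ∈ t, a i ^ 2 < ε ^ 2 := by
    have h3 := (le_abs_self _).trans_lt this
    simpa using h3
  rw [Real.sqrt_lt' hε]
  exact h2

/-- synthesis operator -/
noncomputable def T (e : ι → X)
    (hup : ∀ (s : Finset ι) (c : ι → ℝ), ‖∑ i ∈ s, c i • e i‖ ≤ Real.sqrt (∑ i ∈ s, c i ^ 2)) :
    H ι →L[ℝ] X :=
  LinearMap.mkContinuous
    { toFun := fun a => ∑' i, a i • e i
      map_add' := fun a b => by
        rw [← (summ e hup a).tsum_add (summ e hup b)]
        congr 1
        funext i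
        rw [lp.coeFn_add, Pi.add_apply, add_smul]
      map_smul' := fun r a => by
        rw [RingHom.id_apply, ← (summ e hup a).tsum_const_smul]
        congr 1
        funext i
        rw [lp.coeFn_smul, Pi.smul_apply, smul_smul, smul_eq_mul] } 1
    (fun a => by
      rw [one_mul]
      refine le_of_tendsto (summ e hup a).hasSum.norm (Eventually.of_forall fun s => ?_)
      exact (hup s fun i => a i).trans (sqrt_sum_le a s))

theorem T_hasSum (e : ι → X)
    (hup : ∀ (s : Finset ι) (c : ι → ℝ), ‖∑ i ∈ s, c i • e i‖ ≤ Real.sqrt (∑ i ∈ s, c i ^ 2))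
    (a : H ι) : HasSum (fun i => a i • e i) (T e hup a) := (summ e hup a).hasSum

theorem T_lower (e : ι → X)
    (hup : ∀ (s : Finset ι) (c : ι → ℝ), ‖∑ i ∈ s, c i • e i‖ ≤ Real.sqrt (∑ i ∈ s, c i ^ 2))
    (K : ℝ)
    (hlow : ∀ (s : Finset ι) (c : ι → ℝ),
      Real.sqrt (∑ i ∈ s, c i ^ 2) ≤ K * ‖∑ i ∈ s, c i • e i‖) (a : H ι) :
    ‖a‖ ≤ K * ‖T e hup a‖ := by
  have h1 : Tendsto (fun s : Finset ι => Real.sqrt (∑ i ∈ s, a i ^ 2)) atTop (nhds ‖a‖) := by
    have h2 : HasSum (fun i => a i ^ 2) (‖a‖ ^ 2) := by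
      have := norm_sq (fun _ : ι => ℝ) a
      simpa using this
    have h3 := (Real.continuous_sqrt.tendsto _).comp h2
    rw [Real.sqrt_sq (norm_nonneg _)] at h3
    exact h3
  have h4 := ((T_hasSum e hup a).norm).const_mul K
  exact le_of_tendsto_of_tendsto' h1 h4 fun s => hlow s fun i => a i

/-- the closed span of a Riesz sequence is reflexive -/
theorem refl_of_riesz (e : ι → X) (K : ℝ)
    (hup : ∀ (s : Finset ι) (c : ι → ℝ), ‖∑ i ∈ s, c i • e i‖ ≤ Real.sqrt (∑ i ∈ s, c i ^ 2))
    (hlow : ∀ (s : Finset ι) (c : ι → ℝ),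
      Real.sqrt (∑ i ∈ s, c i ^ 2) ≤ K * ‖∑ i ∈ s, c i • e i‖) :
    Refl ((Submodule.span ℝ (Set.range e)).topologicalClosure) := by
  have hK : ∀ a : H ι, ‖a‖ ≤ (‖K‖₊ : NNReal) * ‖T e hup a‖ := by
    intro a
    refine (T_lower e hup K hlow a).trans ?_
    refine mul_le_mul_of_nonneg_right ?_ (norm_nonneg _)
    rw [coe_nnnorm]
    exact le_abs_self K
  have hanti : AntilipschitzWith ‖K‖₊ (T e hup) :=
    ContinuousLinearMap.antilipschitz_of_bound _ hK
  have hclosed : IsClosed (Set.range (T e hup)) :=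
    hanti.isClosed_range (T e hup).uniformContinuous
  have heq : (Submodule.span ℝ (Set.range e)).topologicalClosure = (T e hup).range := by
    apply le_antisymm
    · refine Submodule.topologicalClosure_minimal _ ?_ ?_
      · rw [Submodule.span_le]
        rintro _ ⟨i, rfl⟩
        refine ⟨lp.single 2 i (1:ℝ), ?_⟩
        have h1 := T_hasSum e hup (lp.single 2 i (1:ℝ))
        refine h1.unique ?_
        have h2 := hasSum_single (f := fun j => (lp.single (E := fun _ : ι => ℝ) 2 i (1:ℝ)) j • e j)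
          i (fun j hj => by
            rw [lp.single_apply_ne _ _ _ hj, zero_smul])
        rwa [lp.single_apply_self, one_smul] at h2
      · exact hclosed
    · rintro _ ⟨a, rfl⟩
      change (T e hup a) ∈ closure ((Submodule.span ℝ (Set.range e) : Submodule ℝ X) : Set X)
      refine mem_closure_of_tendsto (T_hasSum e hup a) (Eventually.of_forall fun s => ?_)
      exact Submodule.sum_mem _ fun i _ => Submodule.smul_mem _ _
        (Submodule.subset_span ⟨i, rfl⟩)
  rw [heq]
  exact refl_of_equiv ((T e hup).equivRange hanti.injective hclosed) (hilbert_refl _)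

end Crest.Agent.H26Riesz
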