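import Mathlib
import Crest.Agent.H11Tree
import Crest.Agent.H26Riesz

set_option autoImplicit false

namespace Crest.Agent.H26Comp

open Crest Crest.AnalysisR Crest.AnalysisR.TreePotential Crest.Agent.H11Tree
open Crest.Agent

theorem pot_sq (f : List ℕ → ℝ) (k : ℕ) (hf : ∀ v : List ℕ, k < v.length → f v = 0) (S : ℝ)
    (hS : ∀ B : Finset (List ℕ), ∑ v ∈ B, f v ^ 2 ≤ S) (u : List ℕ) :
    pathPotential f u ^ 2 ≤ (k + 1) * S := by
  classical
  have key : ∀ u : List ℕ, ∃ B : Finset (List ℕ), (∀ v ∈ B, v.length ≤ u.length) ∧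
      pathPotential f u ^ 2 ≤ (min u.length k + 1 : ℕ) * ∑ v ∈ B, f v ^ 2 := by
    intro u
    induction u with
    | nil =>
      refine ⟨{[]}, by simp, ?_⟩
      simp [pathPotential]
    | cons a l ih =>
      obtain ⟨B, hB1, hB2⟩ := ih
      by_cases hk : k < (a :: l).length
      · refine ⟨B, fun v hv => (hB1 v hv).trans (by simp), ?_⟩
        have h1 : pathPotential f (a :: l) = pathPotential f l := by
          simp only [pathPotential, hf _ hk, add_zero]
        rw [h1]
        refine hB2.trans ?_
        refine mul_le_mul_of_nonneg_right ?_ (Finset.sum_nonneg fun _ _ => sq_nonneg _)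
        have : min l.length k + 1 ≤ min (a :: l).length k + 1 := by
          simp only [List.length_cons] at hk ⊢
          omega
        exact_mod_cast this
      · have hn : a :: l ∉ B := by
          intro h
          have := hB1 _ h
          simp at this
        refine ⟨insert (a :: l) B, ?_, ?_⟩
        · intro v hv
          rcases Finset.mem_insert.mp hv with rfl | hv
          · exact le_rfl
          · exact (hB1 v hv).trans (by simp)
        · rw [Finset.sum_insert hn]
          simp only [List.length_cons] at hk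
          have e1 : min l.length k = l.length := by omega
          have e2 : min (a :: l).length k = l.length + 1 := by
            simp only [List.length_cons]; omega
          rw [e1] at hB2
          rw [e2]
          simp only [pathPotential]
          set p := pathPotential f l
          set q := f (a :: l)
          set Q := ∑ v ∈ B, f v ^ 2
          push_cast at hB2 ⊢
          set n : ℝ := (l.length : ℝ) + 1 with hn
          have hn0 : 0 < n := by positivity
          have h3 : 2 * p * q ≤ p ^ 2 / n + n * q ^ 2 := by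
            have : 0 ≤ (p - n * q) ^ 2 / n := by positivity
            have h4 : (p - n * q) ^ 2 / n = p ^ 2 / n - 2 * p * q + n * q ^ 2 := by
              field_simp
              ring
            linarith
          have h5 : p ^ 2 / n ≤ Q := by
            rw [div_le_iff₀ hn0]; linarith
          nlinarith
  obtain ⟨B, _, hB⟩ := key u
  refine hB.trans ?_
  have h1 : ((min u.length k + 1 : ℕ) : ℝ) ≤ (k : ℝ) + 1 := by
    have : min u.length k + 1 ≤ k + 1 := by omega
    exact_mod_cast this
  have h2 : 0 ≤ ∑ v ∈ B, f v ^ 2 := Finset.sum_nonneg fun _ _ => sq_nonneg _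
  exact mul_le_mul h1 (hS B) h2 (by positivity)

/-- all finite families are dominated by `ℓ²` in the global model -/
theorem up (s : Finset (List ℕ)) (c : List ℕ → ℝ) :
    ‖∑ i ∈ s, c i • e .global i‖ ≤ Real.sqrt (∑ i ∈ s, c i ^ 2) := by
  refine norm_le_of_ev _ _ _ (Real.sqrt_nonneg _) ?_
  intro f
  rw [map_sum]
  simp only [map_smul, ev_e, smul_eq_mul]
  have hsib : ∑ i ∈ s, f.1 i ^ 2 ≤ 1 := f.2.2 s
  have hcs := Finset.sum_mul_sq_le_sq_mul_sq s c (fun i => f.1 i)
  have h3 : (∑ i ∈ s, c i * f.1 i) ^ 2 ≤ ∑ i ∈ s, c i ^ 2 := by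
    have h4 : 0 ≤ ∑ i ∈ s, c i ^ 2 := Finset.sum_nonneg fun _ _ => sq_nonneg _
    calc _ ≤ _ := hcs
      _ ≤ (∑ i ∈ s, c i ^ 2) * 1 := mul_le_mul_of_nonneg_left hsib h4
      _ = _ := mul_one _
  exact Real.abs_le_sqrt h3

/-- bounded length families dominate `ℓ²` -/
theorem low (k : ℕ) (s : Finset (List ℕ)) (hs : ∀ v ∈ s, v.length ≤ k) (c : List ℕ → ℝ) :
    Real.sqrt (∑ i ∈ s, c i ^ 2) ≤ Real.sqrt (k + 1) * ‖∑ i ∈ s, c i • e .global i‖ := by
  classical
  set N := Real.sqrt (∑ i ∈ s, c i ^ 2) with hN
  have hN2 : N ^ 2 = ∑ i ∈ s, c i ^ 2 :=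
    Real.sq_sqrt (Finset.sum_nonneg fun _ _ => sq_nonneg _)
  have hk0 : (0:ℝ) < (k:ℝ) + 1 := by positivity
  have hk1 : 0 < Real.sqrt ((k:ℝ) + 1) := Real.sqrt_pos.mpr hk0
  have hk2 : Real.sqrt ((k:ℝ) + 1) ^ 2 = (k:ℝ) + 1 := Real.sq_sqrt hk0.le
  rcases (Real.sqrt_nonneg (∑ i ∈ s, c i ^ 2)).eq_or_lt with h | hpos
  · rw [hN, ← h]; positivity
  change 0 < N at hpos
  set f : List ℕ → ℝ := fun v => if v ∈ s then c v / (N * Real.sqrt ((k:ℝ) + 1)) else 0 with hf
  have hfk : ∀ v : List ℕ, k < v.length → f v = 0 := by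
    intro v hv
    simp only [hf]
    rw [if_neg]
    intro h
    have := hs v h
    omega
  have hsq : ∀ B : Finset (List ℕ), ∑ v ∈ B, f v ^ 2 ≤ 1 / ((k:ℝ) + 1) := by
    intro B
    have h1 : ∑ v ∈ B, f v ^ 2 ≤ ∑ v ∈ s, f v ^ 2 := by
      have h2 : ∑ v ∈ B, f v ^ 2 = ∑ v ∈ B with v ∈ s, f v ^ 2 := by
        rw [Finset.sum_filter]
        refine Finset.sum_congr rfl fun v _ => ?_
        by_cases hv : v ∈ s
        · rw [if_pos hv]
        · rw [if_neg hv]
          simp [hf, hv]
      rw [h2]
      refine Finset.sum_le_sum_of_subset_of_nonneg ?_ fun _ _ _ => sq_nonneg _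
      intro v hv
      exact (Finset.mem_filter.mp hv).2
    refine h1.trans (le_of_eq ?_)
    have h3 : ∑ v ∈ s, f v ^ 2 = ∑ v ∈ s, c v ^ 2 / (N ^ 2 * ((k:ℝ) + 1)) := by
      refine Finset.sum_congr rfl fun v hv => ?_
      simp only [hf, if_pos hv]
      rw [div_pow, mul_pow, hk2]
    rw [h3, ← Finset.sum_div, ← hN2]
    field_simp
  have htest : IsTest .global f := by
    refine isTest_of_global _ f ?_ ?_ ?_ ?_
    · intro u
      have h1 := pot_sq f k hfk _ hsq u
      rw [mul_one_div, div_self hk0.ne'] at h1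
      exact (sq_le_one_iff_abs_le_one _).mp h1
    · refine s.finite_toSet.subset ?_
      intro v hv
      by_contra hne
      apply hv
      simp only [hf]
      exact if_neg hne
    · intro A
      refine (hsq A).trans ?_
      rw [div_le_one hk0]
      linarith [(Nat.cast_nonneg k : (0:ℝ) ≤ k)]
    · intro h; cases h
  have h1 := (le_abs_self _).trans (abs_ev_le .global ⟨f, htest⟩ (∑ i ∈ s, c i • e .global i))
  rw [map_sum] at h1
  simp only [map_smul, ev_e, smul_eq_mul] at h1
  have h2 : ∑ i ∈ s, c i * f i = N / Real.sqrt ((k:ℝ) + 1) := by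
    have h3 : ∑ i ∈ s, c i * f i = ∑ i ∈ s, c i ^ 2 / (N * Real.sqrt ((k:ℝ) + 1)) := by
      refine Finset.sum_congr rfl fun v hv => ?_
      simp only [hf, if_pos hv]
      ring
    rw [h3, ← Finset.sum_div, ← hN2]
    field_simp
  rw [h2, div_le_iff₀ hk1] at h1
  linarith

/-- vertices of height at most `k` -/
abbrev I (k : ℕ) := {s : List ℕ // s.length ≤ k}

/-- the components -/
noncomputable def V (k : ℕ) : Submodule ℝ (modelSpace .global) :=
  (Submodule.span ℝ (Set.range fun s : I k => e .global s.1)).topologicalClosure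

instance instCompleteG : CompleteSpace (modelSpace .global) :=
  (Submodule.isClosed_topologicalClosure _).completeSpace_coe

theorem V_refl (k : ℕ) : H26Reflexive.Refl (V k) := by
  classical
  refine H26Riesz.refl_of_riesz (fun s : I k => e .global s.1) (Real.sqrt (k + 1)) ?_ ?_
  · intro s c
    have h := up (s.map (Function.Embedding.subtype _))
      (fun v => if h : v.length ≤ k then c ⟨v, h⟩ else 0)
    rw [Finset.sum_map, Finset.sum_map] at h
    have e1 : ∀ x : I k, (if h : (x : List ℕ).length ≤ k then c ⟨x, h⟩ else 0) = c x := by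
      intro x
      rw [dif_pos x.2]
    simpa [e1] using h
  · intro s c
    have h := low k (s.map (Function.Embedding.subtype _)) (by
        intro v hv
        simp only [Finset.mem_map] at hv
        obtain ⟨a, _, rfl⟩ := hv
        exact a.2)
      (fun v => if h : v.length ≤ k then c ⟨v, h⟩ else 0)
    rw [Finset.sum_map, Finset.sum_map] at h
    have e1 : ∀ x : I k, (if h : (x : List ℕ).length ≤ k then c ⟨x, h⟩ else 0) = c x := by
      intro x
      rw [dif_pos x.2]
    simpa [e1] using h

theorem V_mem (k : ℕ) (s : List ℕ) (hs : s.length ≤ k) : e .global s ∈ V k :=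
  Submodule.le_topologicalClosure _ (Submodule.subset_span ⟨⟨s, hs⟩, rfl⟩)

theorem V_sep (k : ℕ) : TopologicalSpace.SeparableSpace (V k) := by
  have h1 : (Set.range fun s : I k => e .global s.1).Countable := Set.countable_range _
  have h2 : TopologicalSpace.IsSeparable ((V k : Submodule ℝ (modelSpace .global)) :
      Set (modelSpace .global)) := (h1.isSeparable.span (R := ℝ)).closure
  exact h2.separableSpace

/-- the component spaces as types -/
def C (k : ℕ) : Type := V k

noncomputable instance (k : ℕ) : NormedAddCommGroup (C k) :=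
  inferInstanceAs (NormedAddCommGroup (V k))

noncomputable instance (k : ℕ) : NormedSpace ℝ (C k) :=
  inferInstanceAs (NormedSpace ℝ (V k))

instance (k : ℕ) : CompleteSpace (C k) :=
  (Submodule.isClosed_topologicalClosure _).completeSpace_coe

theorem C_refl (k : ℕ) : H26Reflexive.Refl (C k) := V_refl k

instance (k : ℕ) : TopologicalSpace.SeparableSpace (C k) := V_sep k

/-- inclusion -/
noncomputable def J (k : ℕ) : C k →ₗᵢ[ℝ] modelSpace .global := (V k).subtypeₗᵢ

theorem J_surj (k : ℕ) (s : List ℕ) (hs : s.length ≤ k) : ∃ x : C k, J k x = e .global s :=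
  ⟨⟨e .global s, V_mem k s hs⟩, rfl⟩

end Crest.Agent.H26Comp
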