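import Mathlib
import Crest.Prelude.Def_AsymptoticConvexity
import Crest.Prelude.Def_Diamond

set_option autoImplicit false

namespace Crest.Agent.H26Diamond

open Crest Crest.AnalysisR

/-- old vertex -/
def vl {k : ℕ} (u : DiamondVertex k) : DiamondVertex (k + 1) := Sum.inl u

/-- middle vertex -/
def vr {k : ℕ} (e : DiamondEdge k) (i : ℕ) : DiamondVertex (k + 1) := Sum.inr (e, i)

/-- edge constructor -/
def ed {k : ℕ} (e : DiamondEdge k) (i : ℕ) (b : Bool) : DiamondEdge (k + 1) := (e, i, b)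

theorem src_false {k : ℕ} (e : DiamondEdge k) (i : ℕ) :
    diamondSrc (k + 1) (ed e i false) = vl (diamondSrc k e) := rfl

theorem tgt_false {k : ℕ} (e : DiamondEdge k) (i : ℕ) :
    diamondTgt (k + 1) (ed e i false) = vr e i := rfl

theorem src_true {k : ℕ} (e : DiamondEdge k) (i : ℕ) :
    diamondSrc (k + 1) (ed e i true) = vr e i := rfl

theorem tgt_true {k : ℕ} (e : DiamondEdge k) (i : ℕ) :
    diamondTgt (k + 1) (ed e i true) = vl (diamondTgt k e) := rfl

theorem vl_inj {k : ℕ} {u v : DiamondVertex k} (h : vl u = vl v) : u = v := Sum.inl.inj h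

theorem vr_inj {k : ℕ} {e e' : DiamondEdge k} {i i' : ℕ} (h : vr e i = vr e' i') :
    e = e' ∧ i = i' := by
  have := Sum.inr.inj h
  exact ⟨congrArg Prod.fst this, congrArg Prod.snd this⟩

theorem vl_ne_vr {k : ℕ} (u : DiamondVertex k) (e : DiamondEdge k) (i : ℕ) : vl u ≠ vr e i := by
  intro h
  exact Sum.inl_ne_inr h

theorem src_ne_tgt : ∀ (k : ℕ) (e : DiamondEdge k), diamondSrc k e ≠ diamondTgt k e
  | 0, _ => fun h => Bool.false_ne_true h
  | k + 1, (e, i, b) => by
    cases b
    · exact vl_ne_vr _ e i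
    · exact (vl_ne_vr _ e i).symm

theorem adj_edge (k : ℕ) (e : DiamondEdge k) :
    (diamondGraph k).Adj (diamondSrc k e) (diamondTgt k e) := by
  unfold diamondGraph
  rw [SimpleGraph.fromRel_adj]
  exact ⟨src_ne_tgt k e, Or.inl ⟨e, rfl, rfl⟩⟩

theorem adj_iff (k : ℕ) (u v : DiamondVertex k) :
    (diamondGraph k).Adj u v ↔ ∃ e : DiamondEdge k,
      (diamondSrc k e = u ∧ diamondTgt k e = v) ∨ (diamondSrc k e = v ∧ diamondTgt k e = u) := by
  unfold diamondGraph
  rw [SimpleGraph.fromRel_adj]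
  constructor
  · rintro ⟨_, ⟨e, he⟩ | ⟨e, he⟩⟩
    · exact ⟨e, Or.inl he⟩
    · exact ⟨e, Or.inr he⟩
  · rintro ⟨e, ⟨h1, h2⟩ | ⟨h1, h2⟩⟩
    · subst h1 h2
      exact ⟨src_ne_tgt k e, Or.inl ⟨e, rfl, rfl⟩⟩
    · subst h1 h2
      exact ⟨(src_ne_tgt k e).symm, Or.inr ⟨e, rfl, rfl⟩⟩

/-- A middle vertex is adjacent to the two endpoints of its edge. -/
theorem adj_mid_src (k : ℕ) (e : DiamondEdge k) (i : ℕ) :
    (diamondGraph (k + 1)).Adj (vl (diamondSrc k e)) (vr e i) :=
  adj_edge (k + 1) (ed e i false)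

theorem adj_mid_tgt (k : ℕ) (e : DiamondEdge k) (i : ℕ) :
    (diamondGraph (k + 1)).Adj (vr e i) (vl (diamondTgt k e)) :=
  adj_edge (k + 1) (ed e i true)

theorem edge_cases (k : ℕ) (e : DiamondEdge (k + 1)) :
    ∃ (e' : DiamondEdge k) (i : ℕ), e = ed e' i false ∨ e = ed e' i true := by
  obtain ⟨e', i, b⟩ := e
  cases b
  · exact ⟨e', i, Or.inl rfl⟩
  · exact ⟨e', i, Or.inr rfl⟩

theorem adj_inl_iff (k : ℕ) (u : DiamondVertex k) (w : DiamondVertex (k + 1)) :
    (diamondGraph (k + 1)).Adj (vl u) w ↔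
      ∃ (e : DiamondEdge k) (i : ℕ), w = vr e i ∧
        (diamondSrc k e = u ∨ diamondTgt k e = u) := by
  rw [adj_iff]
  constructor
  · rintro ⟨e, h⟩
    obtain ⟨e', i, rfl | rfl⟩ := edge_cases k e
    · rw [src_false, tgt_false] at h
      rcases h with ⟨h1, h2⟩ | ⟨h1, h2⟩
      · exact ⟨e', i, h2.symm, Or.inl (vl_inj h1)⟩
      · exact absurd h2.symm (vl_ne_vr _ _ _)
    · rw [src_true, tgt_true] at h
      rcases h with ⟨h1, h2⟩ | ⟨h1, h2⟩
      · exact absurd h1.symm (vl_ne_vr _ _ _)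
      · exact ⟨e', i, h1.symm, Or.inr (vl_inj h2)⟩
  · rintro ⟨e, i, rfl, h | h⟩
    · subst h
      exact ⟨ed e i false, Or.inl ⟨rfl, rfl⟩⟩
    · subst h
      exact ⟨ed e i true, Or.inr ⟨rfl, rfl⟩⟩

theorem not_adj_inr (k : ℕ) (e e' : DiamondEdge k) (i i' : ℕ) :
    ¬ (diamondGraph (k + 1)).Adj (vr e i) (vr e' i') := by
  rw [adj_iff]
  rintro ⟨e'', h⟩
  obtain ⟨e₃, j, rfl | rfl⟩ := edge_cases k e''
  · rw [src_false, tgt_false] at h
    rcases h with ⟨h1, _⟩ | ⟨h1, _⟩
    · exact vl_ne_vr _ _ _ h1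
    · exact vl_ne_vr _ _ _ h1
  · rw [src_true, tgt_true] at h
    rcases h with ⟨_, h1⟩ | ⟨_, h1⟩
    · exact vl_ne_vr _ _ _ h1
    · exact vl_ne_vr _ _ _ h1

theorem vertex_cases (k : ℕ) (w : DiamondVertex (k + 1)) :
    (∃ u : DiamondVertex k, w = vl u) ∨ ∃ (e : DiamondEdge k) (i : ℕ), w = vr e i := by
  rcases w with u | ⟨e, i⟩
  · exact Or.inl ⟨u, rfl⟩
  · exact Or.inr ⟨e, i, rfl⟩

/-- connectedness -/
theorem preconnected : ∀ k : ℕ, (diamondGraph k).Preconnected
  | 0 => by
    have h : (diamondGraph 0).Adj (false : Bool) (true : Bool) := adj_edge 0 ()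
    intro u v
    cases u <;> cases v
    · exact SimpleGraph.Reachable.refl _
    · exact h.reachable
    · exact h.symm.reachable
    · exact SimpleGraph.Reachable.refl _
  | k + 1 => by
    have ih := preconnected k
    have h1 : ∀ u v : DiamondVertex k, (diamondGraph k).Reachable u v →
        (diamondGraph (k + 1)).Reachable (vl u) (vl v) := by
      rintro u v ⟨p⟩
      induction p with
      | nil => exact SimpleGraph.Reachable.refl _
      | cons hadj _ ih' =>
        rw [adj_iff] at hadj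
        obtain ⟨e, ⟨h1, h2⟩ | ⟨h1, h2⟩⟩ := hadj
        · subst h1 h2
          exact ((adj_mid_src k e 0).reachable.trans (adj_mid_tgt k e 0).reachable).trans ih'
        · subst h1 h2
          exact ((adj_mid_tgt k e 0).symm.reachable.trans
            (adj_mid_src k e 0).symm.reachable).trans ih'
    have h2 : ∀ w : DiamondVertex (k + 1), ∃ u : DiamondVertex k,
        (diamondGraph (k + 1)).Reachable w (vl u) := by
      intro w
      rcases vertex_cases k w with ⟨u, rfl⟩ | ⟨e, i, rfl⟩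
      · exact ⟨u, SimpleGraph.Reachable.refl _⟩
      · exact ⟨diamondTgt k e, (adj_mid_tgt k e i).reachable⟩
    intro u v
    obtain ⟨u', hu⟩ := h2 u
    obtain ⟨v', hv⟩ := h2 v
    exact (hu.trans (h1 _ _ (ih u' v'))).trans hv.symm

theorem dist_triangle (k : ℕ) (u v w : DiamondVertex k) :
    (diamondGraph k).dist u w ≤ (diamondGraph k).dist u v + (diamondGraph k).dist v w := by
  have : (diamondGraph k).Connected := { preconnected := preconnected k, nonempty := ⟨u⟩ }
  exact this.dist_triangle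

/-- Walks between old vertices have at least twice the old distance. -/
theorem two_mul_dist_le_walk (k : ℕ) : ∀ (n : ℕ) (u' v' : DiamondVertex (k + 1))
    (p : (diamondGraph (k + 1)).Walk u' v'), p.length ≤ n →
    ∀ u v : DiamondVertex k, u' = vl u → v' = vl v →
    2 * (diamondGraph k).dist u v ≤ p.length := by
  intro n
  induction n using Nat.strong_induction_on with
  | _ n ih =>
    intro u' v' p hp u v hu hv
    cases p with
    | nil =>
      subst hu
      have := vl_inj hv
      subst this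
      simp
    | @cons _ w _ hadj q =>
      subst hu
      rw [adj_inl_iff] at hadj
      obtain ⟨e, i, rfl, he⟩ := hadj
      cases q with
      | nil => exact absurd hv.symm (vl_ne_vr _ _ _)
      | @cons _ w' _ hadj' r =>
        rcases vertex_cases k w' with ⟨w'', rfl⟩ | ⟨e'', i'', rfl⟩
        · have hadj2 := hadj'.symm
          rw [adj_inl_iff] at hadj2
          obtain ⟨e', i', hei, he'⟩ := hadj2
          obtain ⟨rfl, _⟩ := vr_inj hei
          simp only [SimpleGraph.Walk.length_cons] at hp ⊢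
          have h1 := ih (r.length) (by omega) _ _ r le_rfl w'' v rfl hv
          have h2 : (diamondGraph k).dist u w'' ≤ 1 := by
            rcases he with he | he <;> rcases he' with he' | he'
            · subst he he'; simp
            · subst he he'
              exact (SimpleGraph.dist_eq_one_iff_adj.mpr (adj_edge k e)).le
            · subst he he'
              exact (SimpleGraph.dist_eq_one_iff_adj.mpr (adj_edge k e).symm).le
            · subst he he'; simp
          have h3 := dist_triangle k u w'' v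
          omega
        · exact absurd hadj' (not_adj_inr _ _ _ _ _)

theorem dist_inl (k : ℕ) (u v : DiamondVertex k) :
    2 * diamondDist k u v ≤ diamondDist (k + 1) (vl u) (vl v) := by
  obtain ⟨p, hp⟩ := (preconnected (k + 1) (vl u) (vl v)).exists_walk_length_eq_dist
  have := two_mul_dist_le_walk k p.length _ _ p le_rfl u v rfl rfl
  unfold diamondDist
  omega

theorem dist_inr (k : ℕ) (e : DiamondEdge k) (i j : ℕ) (hij : i ≠ j) :
    2 ≤ diamondDist (k + 1) (vr e i) (vr e j) := by
  have hr := preconnected (k + 1) (vr e i) (vr e j)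
  have h0 : (diamondGraph (k + 1)).dist (vr e i) (vr e j) ≠ 0 := by
    intro h
    rw [hr.dist_eq_zero_iff] at h
    exact hij (vr_inj h).2
  have h1 : (diamondGraph (k + 1)).dist (vr e i) (vr e j) ≠ 1 := by
    intro h
    rw [SimpleGraph.dist_eq_one_iff_adj] at h
    exact not_adj_inr _ _ _ _ _ h
  unfold diamondDist
  omega

theorem dist_edge (k : ℕ) (e : DiamondEdge k) :
    diamondDist k (diamondSrc k e) (diamondTgt k e) = 1 :=
  SimpleGraph.dist_eq_one_iff_adj.mpr (adj_edge k e)

theorem growth_arith (c k S R ε ε' L : ℝ) (hc : 0 < c) (hk : 0 ≤ k) (hS : S = Real.sqrt (1 + k / 4))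
    (hR : R = Real.sqrt (1 + (k + 1) / 4)) (hε' : 0 < ε') (hε'ε : ε' ≤ ε) (hε'c : ε' ≤ c)
    (hL : 2 * c * S - ε' ≤ L) : c * R - ε / 2 ≤ Real.sqrt (L ^ 2 / 4 + c ^ 2 / 4) := by
  have hS2 : S ^ 2 = 1 + k / 4 := by rw [hS]; exact Real.sq_sqrt (by positivity)
  have hS0 : 0 ≤ S := by rw [hS]; exact Real.sqrt_nonneg _
  have hR2 : R ^ 2 = 1 + (k + 1) / 4 := by rw [hR]; exact Real.sq_sqrt (by positivity)
  have hR0 : 0 ≤ R := by rw [hR]; exact Real.sqrt_nonneg _
  have hS1 : 1 ≤ S := by nlinarith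
  have hSR : S ≤ R := by
    rw [hS, hR]
    apply Real.sqrt_le_sqrt
    linarith
  have h0 : 0 ≤ 2 * c * S - ε' := by nlinarith
  have h1 : (2 * c * S - ε') ^ 2 ≤ L ^ 2 := pow_le_pow_left₀ h0 hL 2
  have h2 : c * R - ε' / 2 ≤ Real.sqrt (L ^ 2 / 4 + c ^ 2 / 4) := by
    apply Real.le_sqrt_of_sq_le
    have h3 : (c * R - ε' / 2) ^ 2 = c ^ 2 * R ^ 2 - ε' * c * R + ε' ^ 2 / 4 := by ring
    have h4 : (2 * c * S - ε') ^ 2 = 4 * (c ^ 2 * S ^ 2) - 4 * (ε' * c * S) + ε' ^ 2 := by ring
    have h5 : ε' * c * S ≤ ε' * c * R := mul_le_mul_of_nonneg_left hSR (by positivity)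
    rw [h3, hR2]
    rw [h4, hS2] at h1
    nlinarith
  linarith

/-- The growth argument along the diamonds. -/
theorem growth {X : Type*} [NormedAddCommGroup X] [NormedSpace ℝ X]
    (hX : ∀ (x y : X) (z : ℕ → X) (c : ℝ), 0 < c → (∃ B : ℝ, ∀ i, ‖z i‖ ≤ B) →
      (∀ i j, i ≠ j → 2 * c ≤ ‖z i - z j‖) →
      ∀ ε : ℝ, 0 < ε → ∃ i, Real.sqrt (‖x - y‖ ^ 2 / 4 + c ^ 2 / 4) - ε ≤
        max ‖x - z i‖ ‖z i - y‖)
    (k : ℕ) : ∀ (g : DiamondVertex k → X) (c B : ℝ), 0 < c → (∀ v, ‖g v‖ ≤ B) →
      (∀ u v, c * (diamondDist k u v : ℝ) ≤ ‖g u - g v‖) → ∀ ε : ℝ, 0 < ε →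
      ∃ e : DiamondEdge k, c * Real.sqrt (1 + k / 4) - ε ≤
        ‖g (diamondSrc k e) - g (diamondTgt k e)‖ := by
  induction k with
  | zero =>
    intro g c B hc _ hg ε hε
    refine ⟨(), ?_⟩
    have h1 : (diamondDist 0 (diamondSrc 0 ()) (diamondTgt 0 ()) : ℝ) = 1 := by
      exact_mod_cast dist_edge 0 ()
    have h2 : c * 1 ≤ ‖g (diamondSrc 0 ()) - g (diamondTgt 0 ())‖ := by
      have := hg (diamondSrc 0 ()) (diamondTgt 0 ())
      rwa [h1] at this
    have h3 : c * Real.sqrt (1 + ((0 : ℕ) : ℝ) / 4) = c := by simp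
    rw [h3]
    linarith
  | succ k ih =>
    intro g c B hc hB hg ε hε
    obtain ⟨e, he⟩ := ih (fun v => g (vl v)) (2 * c) B (by linarith) (fun v => hB _)
      (fun u v => by
        have h1 := hg (vl u) (vl v)
        have h2 : (2 * diamondDist k u v : ℝ) ≤ diamondDist (k + 1) (vl u) (vl v) := by
          exact_mod_cast dist_inl k u v
        have h3 := mul_le_mul_of_nonneg_left h2 hc.le
        linarith) (min ε c) (lt_min hε hc)
    obtain ⟨i, hi⟩ := hX (g (vl (diamondSrc k e))) (g (vl (diamondTgt k e)))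
      (fun i => g (vr e i)) c hc ⟨B, fun i => hB _⟩
      (fun i j hij => by
        have h1 := hg (vr e i) (vr e j)
        have h2 : (2 : ℝ) ≤ diamondDist (k + 1) (vr e i) (vr e j) := by
          exact_mod_cast dist_inr k e i j hij
        have h3 := mul_le_mul_of_nonneg_left h2 hc.le
        linarith) (ε / 2) (by linarith)
    have hmain := growth_arith c k _ _ ε (min ε c)
      ‖g (vl (diamondSrc k e)) - g (vl (diamondTgt k e))‖ hc (Nat.cast_nonneg k) rfl rfl
      (lt_min hε hc) (min_le_left _ _) (min_le_right _ _) he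
    have hcast : ((k + 1 : ℕ) : ℝ) = (k : ℝ) + 1 := by push_cast; ring
    rw [hcast]
    rcases le_max_iff.mp hi with h | h
    · refine ⟨ed e i false, ?_⟩
      rw [src_false, tgt_false]
      linarith
    · refine ⟨ed e i true, ?_⟩
      rw [src_true, tgt_true]
      linarith

/-- The distortion bound, for a space satisfying the midpoint growth property. -/
theorem distortion (X : Type) [i1 : NormedAddCommGroup X] [i2 : NormedSpace ℝ X]
    [i3 : CompleteSpace X]
    (hX : ∀ (x y : X) (z : ℕ → X) (c : ℝ), 0 < c → (∃ B : ℝ, ∀ i, ‖z i‖ ≤ B) →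
      (∀ i j, i ≠ j → 2 * c ≤ ‖z i - z j‖) →
      ∀ ε : ℝ, 0 < ε → ∃ i, Real.sqrt (‖x - y‖ ^ 2 / 4 + c ^ 2 / 4) - ε ≤
        max ‖x - z i‖ ‖z i - y‖)
    (k : ℕ) (f : DiamondVertex k → X) (D : ℝ)
    (hf : (⟨X, i1, i2, i3⟩ : RealBanach).HasDistortionLE k f D) : 1 + (k : ℝ) / 4 ≤ D ^ 2 := by
  obtain ⟨s, hs, hf⟩ := hf
  have hf1 : ∀ u v, s * (diamondDist k u v : ℝ) ≤ ‖f u - f v‖ := fun u v => (hf u v).1
  have hf2 : ∀ u v, ‖f u - f v‖ ≤ D * s * (diamondDist k u v : ℝ) := fun u v => (hf u v).2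
  -- boundedness: distances in the diamond are bounded
  have hdiam : ∀ k : ℕ, ∃ M : ℕ, ∀ u v : DiamondVertex k, diamondDist k u v ≤ M := by
    intro k
    induction k with
    | zero =>
      refine ⟨1, fun u v => ?_⟩
      have h : (diamondGraph 0).Adj (false : Bool) (true : Bool) := adj_edge 0 ()
      unfold diamondDist
      cases u <;> cases v
      · exact (SimpleGraph.dist_self).le.trans (Nat.zero_le _)
      · exact (SimpleGraph.dist_eq_one_iff_adj.mpr h).le
      · exact (SimpleGraph.dist_eq_one_iff_adj.mpr h.symm).le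
      · exact (SimpleGraph.dist_self).le.trans (Nat.zero_le _)
    | succ k ih =>
      obtain ⟨M, hM⟩ := ih
      have hwalk : ∀ (n : ℕ) (u v : DiamondVertex k) (p : (diamondGraph k).Walk u v),
          p.length = n → (diamondGraph (k + 1)).dist (vl u) (vl v) ≤ 2 * n := by
        intro n u v p
        induction p generalizing n with
        | nil => intro _; simp
        | @cons a b c hadj q ih' =>
          intro hn
          have h1 := ih' q.length rfl
          have h2 : (diamondGraph (k + 1)).dist (vl a) (vl b) ≤ 2 := by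
            rw [adj_iff] at hadj
            obtain ⟨e, ⟨h1, h2⟩ | ⟨h1, h2⟩⟩ := hadj
            · subst h1 h2
              have h3 := dist_triangle (k + 1) (vl (diamondSrc k e)) (vr e 0)
                (vl (diamondTgt k e))
              rw [SimpleGraph.dist_eq_one_iff_adj.mpr (adj_mid_src k e 0),
                SimpleGraph.dist_eq_one_iff_adj.mpr (adj_mid_tgt k e 0)] at h3
              exact h3
            · subst h1 h2
              have h3 := dist_triangle (k + 1) (vl (diamondTgt k e)) (vr e 0)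
                (vl (diamondSrc k e))
              rw [SimpleGraph.dist_eq_one_iff_adj.mpr (adj_mid_src k e 0).symm,
                SimpleGraph.dist_eq_one_iff_adj.mpr (adj_mid_tgt k e 0).symm] at h3
              exact h3
          have h3 := dist_triangle (k + 1) (vl a) (vl b) (vl c)
          simp only [SimpleGraph.Walk.length_cons] at hn
          omega
      have h1 : ∀ u v : DiamondVertex k, (diamondGraph (k + 1)).dist (vl u) (vl v) ≤ 2 * M := by
        intro u v
        obtain ⟨p, hp⟩ := (preconnected k u v).exists_walk_length_eq_dist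
        have h2 := hwalk _ u v p rfl
        have h3 := hM u v
        unfold diamondDist at h3
        omega
      have h2 : ∀ w : DiamondVertex (k + 1), ∃ u : DiamondVertex k,
          (diamondGraph (k + 1)).dist w (vl u) ≤ 1 := by
        intro w
        rcases vertex_cases k w with ⟨u, rfl⟩ | ⟨e, i, rfl⟩
        · exact ⟨u, by simp⟩
        · exact ⟨diamondTgt k e, (SimpleGraph.dist_eq_one_iff_adj.mpr (adj_mid_tgt k e i)).le⟩
      refine ⟨2 * M + 2, fun u v => ?_⟩
      obtain ⟨u', hu⟩ := h2 u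
      obtain ⟨v', hv⟩ := h2 v
      have h3 := dist_triangle (k + 1) u (vl u') v
      have h4 := dist_triangle (k + 1) (vl u') (vl v') v
      have h5 := h1 u' v'
      rw [SimpleGraph.dist_comm] at hv
      unfold diamondDist
      omega
  obtain ⟨M, hM⟩ := hdiam k
  -- an edge exists
  have hedge : ∀ k : ℕ, Nonempty (DiamondEdge k) := by
    intro k
    induction k with
    | zero => exact ⟨()⟩
    | succ k ih => obtain ⟨e⟩ := ih; exact ⟨ed e 0 true⟩
  obtain ⟨e0⟩ := hedge k
  have hD1 : 1 ≤ D := by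
    have h1 := hf1 (diamondSrc k e0) (diamondTgt k e0)
    have h2 := hf2 (diamondSrc k e0) (diamondTgt k e0)
    rw [dist_edge] at h1 h2
    simp only [Nat.cast_one, mul_one] at h1 h2
    have h3 : 1 * s ≤ D * s := by linarith
    exact le_of_mul_le_mul_right h3 hs
  have hbound : ∀ v, ‖f v‖ ≤ ‖f (diamondSrc k e0)‖ + D * s * M := by
    intro v
    have h1 := hf2 v (diamondSrc k e0)
    have h2 : (diamondDist k v (diamondSrc k e0) : ℝ) ≤ M := by exact_mod_cast hM _ _
    have h3 : D * s * (diamondDist k v (diamondSrc k e0) : ℝ) ≤ D * s * M :=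
      mul_le_mul_of_nonneg_left h2 (by positivity)
    have h4 : ‖f v‖ ≤ ‖f v - f (diamondSrc k e0)‖ + ‖f (diamondSrc k e0)‖ := by
      have := norm_add_le (f v - f (diamondSrc k e0)) (f (diamondSrc k e0))
      simpa using this
    linarith
  have key : ∀ ε : ℝ, 0 < ε → s * Real.sqrt (1 + k / 4) - ε ≤ D * s := by
    intro ε hε
    obtain ⟨e, he⟩ := growth hX k f s _ hs hbound hf1 ε hε
    have h2 := hf2 (diamondSrc k e) (diamondTgt k e)
    rw [dist_edge] at h2
    simp only [Nat.cast_one, mul_one] at h2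
    linarith
  have key2 : s * Real.sqrt (1 + k / 4) ≤ D * s := by
    by_contra hcon
    push Not at hcon
    have := key ((s * Real.sqrt (1 + k / 4) - D * s) / 2) (by linarith)
    linarith
  have key3 : Real.sqrt (1 + k / 4) ≤ D := by
    have : Real.sqrt (1 + k / 4) * s ≤ D * s := by linarith
    exact le_of_mul_le_mul_right this hs
  have h4 : Real.sqrt (1 + (k : ℝ) / 4) ^ 2 = 1 + (k : ℝ) / 4 := Real.sq_sqrt (by positivity)
  calc 1 + (k : ℝ) / 4 = Real.sqrt (1 + (k : ℝ) / 4) ^ 2 := h4.symm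
    _ ≤ D ^ 2 := pow_le_pow_left₀ (Real.sqrt_nonneg _) key3 2

end Crest.Agent.H26Diamond
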