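import Mathlib
import Crest.Agent.H26Key
import Crest.Agent.H26Reflexive
import Crest.Agent.H26Abs

set_option autoImplicit false

namespace Crest.Agent.H26Sum

open Crest Crest.AnalysisR Crest.AnalysisR.TreePotential Crest.Agent.H11Tree Crest.Agent.H26Key
open Crest.Agent

theorem cs2 (t : Finset ℕ) (p q : ℕ → ℝ) (A B : ℝ) (hA : 0 ≤ A) (hB : 0 ≤ B)
    (hp : ∑ k ∈ t, p k ^ 2 ≤ A ^ 2) (hq : ∑ k ∈ t, q k ^ 2 ≤ B ^ 2) :
    ∑ k ∈ t, p k * q k ≤ A * B := by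
  have h1 := Finset.sum_mul_sq_le_sq_mul_sq t p q
  have h2 : (∑ k ∈ t, p k * q k) ^ 2 ≤ (A * B) ^ 2 := by
    rw [mul_pow]
    exact h1.trans (mul_le_mul hp hq (Finset.sum_nonneg fun _ _ => sq_nonneg _) (sq_nonneg _))
  exact (abs_le_of_sq_le_sq' h2 (by positivity)).2

theorem mink3 (t : Finset ℕ) (p q e : ℕ → ℝ) (A B C : ℝ) (hA : 0 ≤ A) (hB : 0 ≤ B) (hC : 0 ≤ C)
    (hp : ∑ k ∈ t, p k ^ 2 ≤ A ^ 2) (hq : ∑ k ∈ t, q k ^ 2 ≤ B ^ 2)
    (he : ∑ k ∈ t, e k ^ 2 ≤ C ^ 2) :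
    ∑ k ∈ t, (p k + q k + e k) ^ 2 ≤ (A + B + C) ^ 2 := by
  have h1 := cs2 t p q A B hA hB hp hq
  have h2 := cs2 t p e A C hA hC hp he
  have h3 := cs2 t q e B C hB hC hq he
  have h4 : ∑ k ∈ t, (p k + q k + e k) ^ 2 = ∑ k ∈ t, p k ^ 2 + ∑ k ∈ t, q k ^ 2 +
      ∑ k ∈ t, e k ^ 2 + 2 * ∑ k ∈ t, p k * q k + 2 * ∑ k ∈ t, p k * e k +
      2 * ∑ k ∈ t, q k * e k := by
    rw [Finset.mul_sum, Finset.mul_sum, Finset.mul_sum, ← Finset.sum_add_distrib,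
      ← Finset.sum_add_distrib, ← Finset.sum_add_distrib, ← Finset.sum_add_distrib,
      ← Finset.sum_add_distrib]
    refine Finset.sum_congr rfl fun k _ => ?_
    ring
  rw [h4]
  nlinarith

variable (m : PotentialModel) (E : ℕ → Type) [∀ k, NormedAddCommGroup (E k)]
  [∀ k, NormedSpace ℝ (E k)] (J : ∀ k, E k →ₗᵢ[ℝ] modelSpace m)

theorem norm_sq (x : lp E 2) : HasSum (fun i => ‖x i‖ ^ 2) (‖x‖ ^ 2) :=
  H26Reflexive.norm_sq _ x

theorem sum_sq_le (x : lp E 2) (s : Finset ℕ) : ∑ i ∈ s, ‖x i‖ ^ 2 ≤ ‖x‖ ^ 2 :=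
  H26Reflexive.sum_sq_le _ x s

/-- the inequality for points supported on finitely many components -/
theorem K_fin (s : Finset ℕ) (x₁ x₂ : lp E 2) (h₁ : ∀ k, k ∉ s → x₁ k = 0)
    (h₂ : ∀ k, k ∉ s → x₂ k = 0) (ε : ℝ) (hε : 0 < ε) :
    ∃ U : Finset (ℕ × List ℕ), ∀ y : lp E 2, (∀ p ∈ U, D m p.2 (J p.1 (y p.1)) = 0) →
      Real.sqrt (‖x₁ + x₂‖ ^ 2 + ‖y‖ ^ 2) ≤ ‖x₁ + y‖ + ‖x₂ - y‖ + ε := by
  classical
  have hη : 0 < ε / (s.card + 1) := by positivity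
  choose T hT using fun k => norm_ineq m (J k (x₁ k)) (J k (x₂ k))
    (ε / (s.card + 1)) hη
  refine ⟨s.biUnion fun k => (T k).image fun u => (k, u), fun y hy => ?_⟩
  have hyk : ∀ k ∈ s, ∀ u ∈ T k, D m u (J k (y k)) = 0 := by
    intro k hk u hu
    exact hy (k, u) (Finset.mem_biUnion.mpr ⟨k, hk, Finset.mem_image.mpr ⟨u, hu, rfl⟩⟩)
  set e : ℕ → ℝ := fun k => if k ∈ s then ε / (s.card + 1) else 0 with he
  have he0 : ∀ k, 0 ≤ e k := by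
    intro k; simp only [he]; split_ifs
    · exact hη.le
    · exact le_rfl
  have hpt : ∀ k, ‖(x₁ + x₂) k‖ ^ 2 + ‖y k‖ ^ 2 ≤ (‖(x₁ + y) k‖ + ‖(x₂ - y) k‖ + e k) ^ 2 := by
    intro k
    by_cases hk : k ∈ s
    · have h := hT k (J k (y k)) (hyk k hk)
      rw [← map_add, ← map_add, ← map_sub, LinearIsometry.norm_map, LinearIsometry.norm_map,
        LinearIsometry.norm_map, LinearIsometry.norm_map] at h
      have h3 : ‖(x₁ + x₂) k‖ ^ 2 + ‖y k‖ ^ 2 =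
          Real.sqrt (‖x₁ k + x₂ k‖ ^ 2 + ‖y k‖ ^ 2) ^ 2 := by
        rw [Real.sq_sqrt (by positivity)]
        rfl
      rw [h3]
      refine pow_le_pow_left₀ (Real.sqrt_nonneg _) ?_ 2
      refine h.trans (le_of_eq ?_)
      simp only [he, if_pos hk]
      rfl
    · have h3 : ‖(x₁ + x₂) k‖ = 0 := by
        rw [lp.coeFn_add, Pi.add_apply, h₁ k hk, h₂ k hk, add_zero, norm_zero]
      have h4 : ‖(x₁ + y) k‖ = ‖y k‖ := by
        rw [lp.coeFn_add, Pi.add_apply, h₁ k hk, zero_add]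
      have h5 : ‖(x₂ - y) k‖ = ‖y k‖ := by
        rw [lp.coeFn_sub, Pi.sub_apply, h₂ k hk, zero_sub, norm_neg]
      rw [h3, h4, h5]
      have h6 : 0 ≤ ‖y k‖ := norm_nonneg _
      have h7 := he0 k
      nlinarith
  have heC : ∀ t : Finset ℕ, ∑ k ∈ t, e k ^ 2 ≤ ε ^ 2 := by
    intro t
    have h6 : ∑ k ∈ t, e k ^ 2 = ∑ k ∈ t with k ∈ s, (ε / (s.card + 1)) ^ 2 := by
      rw [Finset.sum_filter]
      refine Finset.sum_congr rfl fun k _ => ?_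
      simp only [he]
      split_ifs <;> simp
    rw [h6, Finset.sum_const, nsmul_eq_mul]
    have h7 : ((t.filter fun k => k ∈ s).card : ℝ) ≤ s.card := by
      have : t.filter (fun k => k ∈ s) ⊆ s := fun k hk => (Finset.mem_filter.mp hk).2
      exact_mod_cast Finset.card_le_card this
    have h8 : (0:ℝ) < (s.card : ℝ) + 1 := by positivity
    have h9 : ((t.filter fun k => k ∈ s).card : ℝ) * (ε / (s.card + 1)) ^ 2 ≤
        (s.card : ℝ) * (ε / (s.card + 1)) ^ 2 := mul_le_mul_of_nonneg_right h7 (sq_nonneg _)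
    refine h9.trans ?_
    rw [div_pow, ← mul_div_assoc, div_le_iff₀ (by positivity)]
    have h10 : (0:ℝ) ≤ s.card := by positivity
    have h11 : 0 < ε ^ 2 := by positivity
    nlinarith [mul_nonneg h11.le h10, mul_nonneg h11.le (mul_nonneg h10 h10)]
  have hsum : ‖x₁ + x₂‖ ^ 2 + ‖y‖ ^ 2 ≤ (‖x₁ + y‖ + ‖x₂ - y‖ + ε) ^ 2 := by
    have h6 := (norm_sq E (x₁ + x₂)).add (norm_sq E y)
    refine hasSum_le_of_sum_le h6 fun t => ?_
    refine (Finset.sum_le_sum fun k _ => hpt k).trans ?_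
    exact mink3 t _ _ e _ _ ε (norm_nonneg _) (norm_nonneg _) hε.le
      (sum_sq_le E _ t) (sum_sq_le E _ t) (heC t)
  exact Real.sqrt_le_iff.mpr ⟨by positivity, hsum⟩

/-- finite truncations are dense -/
theorem trunc (x : lp E 2) (ε : ℝ) (hε : 0 < ε) :
    ∃ s : Finset ℕ, ∀ t : Finset ℕ, s ⊆ t → ‖x - ∑ i ∈ t, lp.single 2 i (x i)‖ ≤ ε := by
  have h := lp.hasSum_single (p := 2) (by norm_num) x
  have h1 := (Metric.tendsto_atTop.mp h) ε hε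
  obtain ⟨s, hs⟩ := h1
  refine ⟨s, fun t ht => ?_⟩
  have := hs t ht
  rw [dist_eq_norm, norm_sub_rev] at this
  exact this.le

theorem trunc_apply (x : lp E 2) (s : Finset ℕ) (k : ℕ) (hk : k ∉ s) :
    (∑ i ∈ s, lp.single (E := E) 2 i (x i)) k = 0 := by
  have h : H26Reflexive.P E k (∑ i ∈ s, H26Reflexive.S E i (x i)) = 0 := by
    rw [map_sum]
    refine Finset.sum_eq_zero fun i hi => ?_
    rw [H26Reflexive.P_S_ne]
    rintro rfl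
    exact hk hi
  exact h

/-- The inequality in the sum space. -/
theorem K (x₁ x₂ : lp E 2) (ε : ℝ) (hε : 0 < ε) :
    ∃ U : Finset (ℕ × List ℕ), ∀ y : lp E 2, (∀ p ∈ U, D m p.2 (J p.1 (y p.1)) = 0) →
      Real.sqrt (‖x₁ + x₂‖ ^ 2 + ‖y‖ ^ 2) ≤ ‖x₁ + y‖ + ‖x₂ - y‖ + ε := by
  classical
  obtain ⟨s₁, hs₁⟩ := trunc E x₁ (ε / 8) (by linarith)
  obtain ⟨s₂, hs₂⟩ := trunc E x₂ (ε / 8) (by linarith)
  have h₁ := hs₁ (s₁ ∪ s₂) Finset.subset_union_left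
  have h₂ := hs₂ (s₁ ∪ s₂) Finset.subset_union_right
  set s := s₁ ∪ s₂ with hs
  set x₁' : lp E 2 := ∑ i ∈ s, lp.single 2 i (x₁ i) with hx₁'
  set x₂' : lp E 2 := ∑ i ∈ s, lp.single 2 i (x₂ i) with hx₂'
  obtain ⟨U, hU⟩ := K_fin m E J s x₁' x₂' (fun k hk => trunc_apply E x₁ s k hk)
    (fun k hk => trunc_apply E x₂ s k hk) (ε / 4) (by linarith)
  refine ⟨U, fun y hy => ?_⟩
  have key := hU y hy
  have e1 : ‖x₁' + y‖ ≤ ‖x₁ + y‖ + ε / 8 := by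
    have h3 : x₁' + y = (x₁ + y) - (x₁ - x₁') := by abel
    rw [h3]
    exact (norm_sub_le _ _).trans (by linarith)
  have e2 : ‖x₂' - y‖ ≤ ‖x₂ - y‖ + ε / 8 := by
    have h3 : x₂' - y = (x₂ - y) - (x₂ - x₂') := by abel
    rw [h3]
    exact (norm_sub_le _ _).trans (by linarith)
  have e3 : |‖x₁ + x₂‖ - ‖x₁' + x₂'‖| ≤ ε / 4 := by
    refine (abs_norm_sub_norm_le _ _).trans ?_
    have h3 : (x₁ + x₂) - (x₁' + x₂') = (x₁ - x₁') + (x₂ - x₂') := by abel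
    rw [h3]
    exact (norm_add_le _ _).trans (by linarith)
  have e4 := sqrt_lip ‖x₁ + x₂‖ ‖x₁' + x₂'‖ ‖y‖
  linarith

/-- coordinate functionals of the sum space -/
noncomputable def Φ (p : ℕ × List ℕ) : lp E 2 →L[ℝ] ℝ :=
  (D m p.2).comp ((J p.1).toContinuousLinearMap.comp (lp.evalCLM ℝ E 2 p.1))

theorem Φ_apply (p : ℕ × List ℕ) (y : lp E 2) : Φ m E J p y = D m p.2 (J p.1 (y p.1)) := rfl

include m J in
theorem hKK : H26Abs.KK (lp E 2) := by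
  intro x₁ x₂ ε hε
  obtain ⟨U, hU⟩ := K m E J x₁ x₂ ε hε
  refine ⟨H11AUC.cker (fun p : U => Φ m E J p.1), H11AUC.isClosed_cker _,
    H11AUC.finite_quot_cker _, fun y hy => hU y fun p hp => ?_⟩
  rw [H11AUC.mem_cker] at hy
  exact hy ⟨p, hp⟩

end Crest.Agent.H26Sum
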