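import Mathlib
import Crest.Agent.H26Sum
import Crest.Agent.H26Comp

set_option autoImplicit false

namespace Crest.Agent.H26Fin

open Crest Crest.AnalysisR Crest.AnalysisR.TreePotential Crest.Agent.H11Tree
open Crest.Agent
open Crest.Agent.H26Reflexive (P S)

section

variable (E : ℕ → Type) [∀ k, NormedAddCommGroup (E k)]
  [∀ k, NormedSpace ℝ (E k)] (J : ∀ k, E k →ₗᵢ[ℝ] modelSpace .global)

include J in
theorem child_seq (hE : ∀ (k : ℕ) (s : List ℕ), s.length ≤ k → ∃ x : E k, J k x = e .global s)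
    (k : ℕ) (s : List ℕ) (hs : s.length < k) :
    ∃ a : ℕ → E k, (∀ n, J k (a n) = e .global (n :: s)) ∧ (∀ n, 1 ≤ ‖S E k (a n)‖) ∧
      ∀ (t : Finset ℕ) (c : ℕ → ℝ), ‖∑ n ∈ t, c n • S E k (a n)‖ ≤
        1 * Real.sqrt (∑ n ∈ t, c n ^ 2) := by
  choose a ha using fun n : ℕ => hE k (n :: s) (by simp only [List.length_cons]; omega)
  refine ⟨a, ha, fun n => ?_, fun t c => ?_⟩
  · rw [H26Reflexive.norm_S, ← (J k).norm_map, ha]
    exact norm_e _ _ (by intro h; cases h)
  · have h1 : ∑ n ∈ t, c n • S E k (a n) = S E k (∑ n ∈ t, c n • a n) := by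
      rw [map_sum]
      simp only [map_smul]
    rw [h1, H26Reflexive.norm_S, ← (J k).norm_map, map_sum]
    simp only [map_smul, ha]
    exact child_bound .global s t c

include J in
theorem infinite (hE : ∀ (k : ℕ) (s : List ℕ), s.length ≤ k → ∃ x : E k, J k x = e .global s) :
    ¬ FiniteDimensional ℝ (lp E 2) := by
  obtain ⟨a, _, h1, h2⟩ := child_seq E J hE 1 [] (by simp)
  exact H11AUC.not_finiteDimensional (fun n => S E 1 (a n)) 1 1 one_pos h2 h1

theorem separable (hsep : ∀ k, TopologicalSpace.SeparableSpace (E k)) :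
    TopologicalSpace.SeparableSpace (lp E 2) := by
  have h1 : TopologicalSpace.IsSeparable (⋃ k, Set.range (S E k)) :=
    TopologicalSpace.IsSeparable.iUnion fun k =>
      TopologicalSpace.isSeparable_range (S E k).continuous
  have h2 := (h1.span (R := ℝ)).closure
  rw [← TopologicalSpace.isSeparable_univ_iff]
  refine h2.mono ?_
  intro x _
  have h := lp.hasSum_single (p := 2) (by norm_num) x
  refine mem_closure_of_tendsto h (Filter.Eventually.of_forall fun s => ?_)
  refine Submodule.sum_mem _ fun i _ => Submodule.subset_span ?_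
  exact Set.mem_iUnion.mpr ⟨i, ⟨x i, rfl⟩⟩

include J in
theorem notAUC [i3 : CompleteSpace (lp E 2)]
    (hE : ∀ (k : ℕ) (s : List ℕ), s.length ≤ k → ∃ x : E k, J k x = e .global s)
    (N : lp E 2 → ℝ)
    (hN : (⟨lp E 2, inferInstance, inferInstance, i3⟩ : RealBanach).IsEquivNorm N) :
    ¬ (⟨lp E 2, inferInstance, inferInstance, i3⟩ : RealBanach).IsAUC N := by
  refine H11AUC.not_isAUC (lp E 2) N hN (‖e .global []‖ + 2) 1 one_pos
    (fun K j => {x | ∃ s : List ℕ, s.length = j ∧ ∃ a : E K,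
      J K a = e .global [] + pathVec .global s ∧ x = S E K a}) ?_ ?_ ?_
  · intro K
    obtain ⟨a, ha⟩ := hE K [] (by simp)
    refine ⟨S E K a, ⟨[], rfl, a, ?_, rfl⟩, ?_⟩
    · rw [ha]; simp [pathVec]
    · rw [H26Reflexive.norm_S, ← (J K).norm_map, ha]
      exact norm_e _ _ (by intro h; cases h)
  · rintro K j x _ ⟨s, _, a, ha, rfl⟩
    rw [H26Reflexive.norm_S, ← (J K).norm_map, ha]
    exact (norm_add_le _ _).trans (by linarith [norm_pathVec .global s])
  · rintro K j x hj ⟨s, hs, a, ha, rfl⟩ V hV1 hV2 ε hε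
    obtain ⟨b, h1, h2, h3⟩ := child_seq E J hE K s (by omega)
    obtain ⟨n, y, hy, hn⟩ := (H11AUC.near_of_l2_bound (fun n => S E K (b n)) 1 h3 V hV1 hV2 ε
      hε).exists
    refine ⟨S E K (b n), ⟨n :: s, by simp [hs], a + b n, ?_, ?_⟩, h2 n, y, hy, hn⟩
    · rw [map_add, ha, h1, pathVec]; abel
    · rw [map_add]

end

end Crest.Agent.H26Fin
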