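import Mathlib

/-!
rid 311 (S0483, Gotsman-Linial up to a constant), helper26.
Characters of the cube, polynomials of bounded degree, and a Gram-Schmidt basis of
`w * chi_S` adapted to the degree filtration.
-/

set_option autoImplicit false
open scoped BigOperators symmDiff
open Finset

namespace Crest.H26GL

variable {n : ℕ}

/-- sign of a bit -/
def eps (x : Fin n → Bool) (i : Fin n) : ℝ := if x i then 1 else -1

/-- characters -/
def chi (S : Finset (Fin n)) (x : Fin n → Bool) : ℝ := ∏ j ∈ S, (if x j then (1 : ℝ) else -1)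

theorem eps_sq (x : Fin n → Bool) (i : Fin n) : eps x i * eps x i = 1 := by
  unfold eps; split_ifs <;> norm_num

theorem chi_mul (S T : Finset (Fin n)) (x : Fin n → Bool) :
    chi S x * chi T x = chi (S ∆ T) x := by
  unfold chi
  have h1 : ∏ j ∈ S, (if x j then (1 : ℝ) else -1)
      = (∏ j ∈ S \ T, (if x j then (1 : ℝ) else -1)) * ∏ j ∈ S ∩ T, (if x j then (1 : ℝ) else -1) := by
    rw [← Finset.prod_union (Finset.disjoint_sdiff_inter S T), Finset.sdiff_union_inter]
  have h2 : ∏ j ∈ T, (if x j then (1 : ℝ) else -1)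
      = (∏ j ∈ T \ S, (if x j then (1 : ℝ) else -1)) * ∏ j ∈ S ∩ T, (if x j then (1 : ℝ) else -1) := by
    rw [Finset.inter_comm S T, ← Finset.prod_union (Finset.disjoint_sdiff_inter T S),
      Finset.sdiff_union_inter]
  have h3 : (∏ j ∈ S ∩ T, (if x j then (1 : ℝ) else -1)) * (∏ j ∈ S ∩ T, (if x j then (1 : ℝ) else -1)) = 1 := by
    rw [← Finset.prod_mul_distrib]
    apply Finset.prod_eq_one
    intro j _
    split_ifs <;> norm_num
  have h4 : ∏ j ∈ S ∆ T, (if x j then (1 : ℝ) else -1)
      = (∏ j ∈ S \ T, (if x j then (1 : ℝ) else -1)) * ∏ j ∈ T \ S, (if x j then (1 : ℝ) else -1) := by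
    rw [symmDiff_def, Finset.sup_eq_union, Finset.prod_union]
    rw [Finset.disjoint_left]
    intro a ha hb
    simp only [Finset.mem_sdiff] at ha hb
    exact ha.2 hb.1
  rw [h1, h2, h4]
  linear_combination (∏ j ∈ S \ T, (if x j then (1 : ℝ) else -1)) *
    (∏ j ∈ T \ S, (if x j then (1 : ℝ) else -1)) * h3

theorem chi_empty (x : Fin n → Bool) : chi ∅ x = 1 := by simp [chi]

theorem chi_sq (S : Finset (Fin n)) (x : Fin n → Bool) : chi S x * chi S x = 1 := by
  rw [chi_mul, symmDiff_self]; exact chi_empty x

theorem chi_singleton (i : Fin n) (x : Fin n → Bool) : chi {i} x = eps x i := by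
  simp [chi, eps]

/-- flip a coordinate -/
def flip (x : Fin n → Bool) (i : Fin n) : Fin n → Bool := Function.update x i (!(x i))

theorem flip_flip (x : Fin n → Bool) (i : Fin n) : flip (flip x i) i = x := by
  unfold flip; funext j
  by_cases h : j = i
  · subst h; simp
  · simp [Function.update_of_ne h]

theorem eps_flip_self (x : Fin n → Bool) (i : Fin n) : eps (flip x i) i = - eps x i := by
  unfold eps flip
  simp only [Function.update_self]
  cases x i <;> simp

theorem eps_flip_ne (x : Fin n → Bool) {i j : Fin n} (h : j ≠ i) : eps (flip x i) j = eps x j := by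
  unfold eps flip
  simp [Function.update_of_ne h]

theorem chi_flip_mem (S : Finset (Fin n)) (x : Fin n → Bool) {i : Fin n} (hi : i ∈ S) :
    chi S (flip x i) = - chi S x := by
  have e1 : ∀ y : Fin n → Bool, chi S y = eps y i * ∏ j ∈ S.erase i, eps y j := by
    intro y
    unfold chi eps
    rw [← Finset.mul_prod_erase S _ hi]
  rw [e1, e1, eps_flip_self]
  have : ∏ j ∈ S.erase i, eps (flip x i) j = ∏ j ∈ S.erase i, eps x j := by
    apply Finset.prod_congr rfl
    intro j hj
    exact eps_flip_ne x (Finset.ne_of_mem_erase hj)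
  rw [this]; ring

theorem sum_chi_ne (S : Finset (Fin n)) (hS : S ≠ ∅) : ∑ x : Fin n → Bool, chi S x = 0 := by
  obtain ⟨i, hi⟩ := Finset.nonempty_iff_ne_empty.mpr hS
  have h : ∑ x : Fin n → Bool, chi S x = ∑ x : Fin n → Bool, chi S (flip x i) := by
    symm
    apply Finset.sum_nbij' (fun x => flip x i) (fun x => flip x i)
    · intro x _; exact Finset.mem_univ _
    · intro x _; exact Finset.mem_univ _
    · intro x _; exact flip_flip x i
    · intro x _; exact flip_flip x i
    · intro x _; rfl
  have h2 : ∑ x : Fin n → Bool, chi S (flip x i) = - ∑ x : Fin n → Bool, chi S x := by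
    rw [← Finset.sum_neg_distrib]
    exact Finset.sum_congr rfl (fun x _ => chi_flip_mem S x hi)
  linarith

theorem sum_chi_mul (S T : Finset (Fin n)) :
    ∑ x : Fin n → Bool, chi S x * chi T x = if S = T then (2 : ℝ) ^ n else 0 := by
  split_ifs with h
  · subst h
    simp [chi_sq]
  · have : ∀ x : Fin n → Bool, chi S x * chi T x = chi (S ∆ T) x := chi_mul S T
    rw [Finset.sum_congr rfl (fun x _ => this x)]
    apply sum_chi_ne
    intro h'
    exact h (symmDiff_eq_bot.mp h')

/-- polynomials of degree at most `m` -/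
def P (n m : ℕ) : Submodule ℝ ((Fin n → Bool) → ℝ) :=
  Submodule.span ℝ {q | ∃ S : Finset (Fin n), S.card ≤ m ∧ q = chi S}

theorem chi_mem (S : Finset (Fin n)) (m : ℕ) (h : S.card ≤ m) : chi S ∈ P n m :=
  Submodule.subset_span ⟨S, h, rfl⟩

theorem P_mono {a b : ℕ} (h : a ≤ b) : P n a ≤ P n b := by
  apply Submodule.span_mono
  rintro q ⟨S, hS, rfl⟩
  exact ⟨S, hS.trans h, rfl⟩

theorem card_symmDiff_le (S T : Finset (Fin n)) : (S ∆ T).card ≤ S.card + T.card := by
  rw [symmDiff_def, Finset.sup_eq_union]
  refine (Finset.card_union_le _ _).trans ?_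
  exact Nat.add_le_add (Finset.card_le_card Finset.sdiff_subset)
    (Finset.card_le_card Finset.sdiff_subset)

theorem P_mul {a b : ℕ} {q r : (Fin n → Bool) → ℝ} (hq : q ∈ P n a) (hr : r ∈ P n b) :
    q * r ∈ P n (a + b) := by
  unfold P at hq
  induction hq using Submodule.span_induction with
  | mem q hq =>
    obtain ⟨S, hS, rfl⟩ := hq
    unfold P at hr
    induction hr using Submodule.span_induction with
    | mem r hr =>
      obtain ⟨T, hT, rfl⟩ := hr
      have : (chi S * chi T : (Fin n → Bool) → ℝ) = chi (S ∆ T) := by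
        funext x; exact chi_mul S T x
      rw [this]
      exact chi_mem _ _ ((card_symmDiff_le S T).trans (Nat.add_le_add hS hT))
    | zero => simp
    | add r1 r2 _ _ h1 h2 => rw [mul_add]; exact Submodule.add_mem _ h1 h2
    | smul c r _ h => rw [mul_smul_comm]; exact Submodule.smul_mem _ _ h
  | zero => simp
  | add q1 q2 _ _ h1 h2 => rw [add_mul]; exact Submodule.add_mem _ h1 h2
  | smul c q _ h => rw [smul_mul_assoc]; exact Submodule.smul_mem _ _ h

theorem eps_mem (i : Fin n) : (fun x : Fin n → Bool => eps x i) ∈ P n 1 := by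
  have : (fun x : Fin n → Bool => eps x i) = chi {i} := by
    funext x; exact (chi_singleton i x).symm
  rw [this]; exact chi_mem _ _ (by simp)

theorem sum_chi_univ_mul {m : ℕ} (hm : m < n) {q : (Fin n → Bool) → ℝ} (hq : q ∈ P n m) :
    ∑ x : Fin n → Bool, chi Finset.univ x * q x = 0 := by
  unfold P at hq
  induction hq using Submodule.span_induction with
  | mem q hq =>
    obtain ⟨S, hS, rfl⟩ := hq
    rw [sum_chi_mul]
    rw [if_neg]
    intro h
    have := congrArg Finset.card h
    simp at this
    omega
  | zero => simp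
  | add q1 q2 _ _ h1 h2 =>
    simp only [Pi.add_apply, mul_add, Finset.sum_add_distrib, h1, h2, add_zero]
  | smul c q _ h =>
    simp only [Pi.smul_apply, smul_eq_mul]
    have : ∀ x : Fin n → Bool, chi Finset.univ x * (c * q x) = c * (chi Finset.univ x * q x) := by
      intro x; ring
    rw [Finset.sum_congr rfl (fun x _ => this x), ← Finset.mul_sum, h, mul_zero]

open InnerProductSpace in
/-- Gram-Schmidt basis adapted to the degree filtration, for the weight `w`. -/
theorem exists_basis (w : (Fin n → Bool) → ℝ) (hw : ∀ x, 0 < w x) :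
    ∃ u : Finset (Fin n) → (Fin n → Bool) → ℝ,
      (∀ S T, ∑ x, u S x * u T x = if S = T then 1 else 0) ∧
      (∀ S, ∃ q ∈ P n S.card, ∀ x, u S x = w x * q x) ∧
      (∀ (S : Finset (Fin n)) (m : ℕ) (q : (Fin n → Bool) → ℝ), q ∈ P n m → m < S.card →
        ∑ x, u S x * (w x * q x) = 0) := by
  classical
  set N := Fintype.card (Finset (Fin n)) with hN
  let e0 : Fin N ≃ Finset (Fin n) := (Fintype.equivFin _).symm
  let lev : Fin N → ℕ := fun k => (e0 k).card
  let e : Fin N ≃ Finset (Fin n) := (Tuple.sort lev).trans e0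
  have hmono : Monotone (fun k => (e k).card) := Tuple.monotone_sort lev
  let E := EuclideanSpace ℝ (Fin n → Bool)
  let v : Fin N → E := fun k => WithLp.toLp 2 (fun x => w x * chi (e k) x)
  have hlin : LinearIndependent ℝ v := by
    rw [Fintype.linearIndependent_iff]
    intro g hg k
    have h1 : ∀ x : Fin n → Bool, ∑ j, g j * chi (e j) x = 0 := by
      intro x
      have := congrArg (fun z : E => z x) hg
      simp only [PiLp.zero_apply] at this
      rw [WithLp.ofLp_sum, Finset.sum_apply] at this
      have this : ∑ j, g j * (w x * chi (e j) x) = 0 := by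
        rw [← this]
        apply Finset.sum_congr rfl
        intro j _
        rw [WithLp.ofLp_smul, Pi.smul_apply, smul_eq_mul]
      have h2 : ∑ j, g j * (w x * chi (e j) x) = w x * ∑ j, g j * chi (e j) x := by
        rw [Finset.mul_sum]; exact Finset.sum_congr rfl (fun j _ => by ring)
      rw [h2] at this
      exact (mul_eq_zero.mp this).resolve_left (hw x).ne'
    have h3 : ∑ x : Fin n → Bool, (∑ j, g j * chi (e j) x) * chi (e k) x = 0 := by
      simp [h1]
    have h4 : ∑ x : Fin n → Bool, (∑ j, g j * chi (e j) x) * chi (e k) x = g k * 2 ^ n := by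
      simp only [Finset.sum_mul]
      rw [Finset.sum_comm]
      have : ∀ j, ∑ x : Fin n → Bool, g j * chi (e j) x * chi (e k) x
          = if j = k then g j * 2 ^ n else 0 := by
        intro j
        have h5 : ∀ x : Fin n → Bool, g j * chi (e j) x * chi (e k) x = g j * (chi (e j) x * chi (e k) x) := by
          intro x; ring
        rw [Finset.sum_congr rfl (fun x _ => h5 x), ← Finset.mul_sum, sum_chi_mul]
        by_cases hjk : j = k
        · subst hjk; simp
        · have : e j ≠ e k := fun h => hjk (e.injective h)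
          simp [hjk]
      rw [Finset.sum_congr rfl (fun j _ => this j)]
      simp
    rw [h4] at h3
    exact (mul_eq_zero.mp h3).resolve_right (by positivity)
  let G : Fin N → E := gramSchmidtNormed ℝ v
  have hG : Orthonormal ℝ G := gramSchmidtNormed_orthonormal hlin
  -- elements of the span of the first vectors
  have hspan : ∀ k, ∃ q ∈ P n (e k).card, ∀ x, G k x = w x * q x := by
    intro k
    have h1 : G k ∈ Submodule.span ℝ (v '' Set.Iic k) := by
      have h2 : gramSchmidt ℝ v k ∈ Submodule.span ℝ (v '' Set.Iic k) := by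
        have := gramSchmidt_mem_span ℝ v (le_refl k)
        exact this
      exact Submodule.smul_mem _ _ h2
    have h3 : ∀ z ∈ Submodule.span ℝ (v '' Set.Iic k), ∃ q ∈ P n (e k).card, ∀ x, z x = w x * q x := by
      intro z hz
      induction hz using Submodule.span_induction with
      | mem z hz =>
        obtain ⟨j, hj, rfl⟩ := hz
        exact ⟨chi (e j), chi_mem _ _ (hmono hj), fun x => rfl⟩
      | zero => exact ⟨0, Submodule.zero_mem _, fun x => by simp⟩
      | add z1 z2 _ _ h1 h2 =>
        obtain ⟨q1, hq1, e1⟩ := h1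
        obtain ⟨q2, hq2, e2⟩ := h2
        exact ⟨q1 + q2, Submodule.add_mem _ hq1 hq2, fun x => by
          rw [PiLp.add_apply, e1, e2, Pi.add_apply]; ring⟩
      | smul c z _ h =>
        obtain ⟨q, hq, e1⟩ := h
        exact ⟨c • q, Submodule.smul_mem _ _ hq, fun x => by
          rw [PiLp.smul_apply, e1, Pi.smul_apply, smul_eq_mul, smul_eq_mul]; ring⟩
    exact h3 _ h1
  have horth : ∀ k (m : ℕ) (q : (Fin n → Bool) → ℝ), q ∈ P n m → m < (e k).card →
      ∑ x, G k x * (w x * q x) = 0 := by
    intro k m q hq hm
    unfold P at hq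
    induction hq using Submodule.span_induction with
    | mem q hq =>
      obtain ⟨S, hS, rfl⟩ := hq
      have hlt : e.symm S < k := by
        by_contra hcon
        have h5 := hmono (not_lt.mp hcon)
        simp only [Equiv.apply_symm_apply] at h5
        omega
      have h6 : inner ℝ (gramSchmidt ℝ v k) (v (e.symm S)) = 0 :=
        gramSchmidt_inv_triangular ℝ v hlt
      have h7 : inner ℝ (G k) (v (e.symm S)) = 0 := by
        change inner ℝ (((‖gramSchmidt ℝ v k‖ : ℝ)⁻¹) • gramSchmidt ℝ v k) (v (e.symm S)) = 0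
        rw [inner_smul_left, h6, mul_zero]
      rw [PiLp.inner_apply] at h7
      rw [← h7]
      apply Finset.sum_congr rfl
      intro x _
      simp [v, mul_comm]
    | zero => simp
    | add q1 q2 _ _ h1 h2 =>
      have : ∀ x, G k x * (w x * (q1 + q2) x) = G k x * (w x * q1 x) + G k x * (w x * q2 x) := by
        intro x; rw [Pi.add_apply]; ring
      rw [Finset.sum_congr rfl (fun x _ => this x), Finset.sum_add_distrib, h1, h2, add_zero]
    | smul c q _ h =>
      have : ∀ x, G k x * (w x * (c • q) x) = c * (G k x * (w x * q x)) := by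
        intro x; rw [Pi.smul_apply, smul_eq_mul]; ring
      rw [Finset.sum_congr rfl (fun x _ => this x), ← Finset.mul_sum, h, mul_zero]
  refine ⟨fun S x => G (e.symm S) x, ?_, ?_, ?_⟩
  · intro S T
    have h := (orthonormal_iff_ite.mp hG) (e.symm S) (e.symm T)
    rw [PiLp.inner_apply] at h
    have h2 : ∑ x, G (e.symm S) x * G (e.symm T) x = if e.symm S = e.symm T then 1 else 0 := by
      rw [← h]
      apply Finset.sum_congr rfl
      intro x _
      simp [mul_comm]
    rw [h2]
    simp
  · intro S
    obtain ⟨q, hq, h⟩ := hspan (e.symm S)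
    simp only [Equiv.apply_symm_apply] at hq
    exact ⟨q, hq, h⟩
  · intro S m q hq hm
    exact horth (e.symm S) m q hq (by simpa using hm)

end Crest.H26GL
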