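import Mathlib
import Crest.Agent.H26GLBasis

/-!
rid 311 (S0483), helper26: linear algebra core.
-/

set_option autoImplicit false
open scoped BigOperators symmDiff
open Finset

namespace Crest.H26GL

variable {n : ℕ}

/-- squared Frobenius norm -/
def F2 {α β : Type*} [Fintype α] [Fintype β] (B : Matrix α β ℝ) : ℝ := ∑ a, ∑ b, B a b ^ 2

theorem F2_trace {α β : Type*} [Fintype α] [Fintype β] (B : Matrix α β ℝ) :
    F2 B = Matrix.trace (B * B.transpose) := by
  unfold F2 Matrix.trace
  apply Finset.sum_congr rfl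
  intro a _
  simp only [Matrix.diag_apply, Matrix.mul_apply, Matrix.transpose_apply]
  exact Finset.sum_congr rfl (fun b _ => by ring)

theorem F2_conj {α β : Type*} [Fintype α] [Fintype β] [DecidableEq α] [DecidableEq β]
    (O : Matrix α β ℝ) (hO : O * O.transpose = 1) (B : Matrix α α ℝ) :
    F2 (O.transpose * B * O) = F2 B := by
  rw [F2_trace, F2_trace]
  rw [Matrix.transpose_mul, Matrix.transpose_mul, Matrix.transpose_transpose]
  have h1 : O.transpose * B * O * (O.transpose * (B.transpose * O))
      = O.transpose * (B * B.transpose * O) := by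
    calc O.transpose * B * O * (O.transpose * (B.transpose * O))
        = O.transpose * B * (O * O.transpose) * (B.transpose * O) := by
          simp only [Matrix.mul_assoc]
      _ = O.transpose * (B * B.transpose * O) := by
          rw [hO, Matrix.mul_one]; simp only [Matrix.mul_assoc]
  rw [h1, Matrix.trace_mul_comm, Matrix.mul_assoc, hO, Matrix.mul_one]

/-- the matrix of the family `u` -/
def Om (u : Finset (Fin n) → (Fin n → Bool) → ℝ) : Matrix (Finset (Fin n)) (Fin n → Bool) ℝ :=
  Matrix.of u

theorem Om_mul (u : Finset (Fin n) → (Fin n → Bool) → ℝ)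
    (hu : ∀ S T, ∑ x, u S x * u T x = if S = T then 1 else 0) : Om u * (Om u).transpose = 1 := by
  ext S T
  rw [Matrix.mul_apply, Matrix.one_apply]
  exact hu S T

theorem Om_mul' (u : Finset (Fin n) → (Fin n → Bool) → ℝ)
    (hu : ∀ S T, ∑ x, u S x * u T x = if S = T then 1 else 0) : (Om u).transpose * Om u = 1 := by
  have hcard : Fintype.card (Finset (Fin n)) = Fintype.card (Fin n → Bool) := by simp
  exact (Matrix.mul_eq_one_comm_of_equiv (Fintype.equivOfCardEq hcard)).mp (Om_mul u hu)

/-- the levels -/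
def sv (S : Finset (Fin n)) : ℝ := (n : ℝ) - 2 * (S.card : ℝ)

/-- diagonal matrix of the levels -/
def Dm (n : ℕ) : Matrix (Finset (Fin n)) (Finset (Fin n)) ℝ := Matrix.diagonal (fun S => sv S)

theorem Dm_transpose : (Dm n).transpose = Dm n := Matrix.diagonal_transpose _

theorem Dm_eq (S : Finset (Fin n)) : Dm n S S = sv S := Matrix.diagonal_apply_eq _ _

theorem Dm_ne {S T : Finset (Fin n)} (h : S ≠ T) : Dm n S T = 0 := Matrix.diagonal_apply_ne _ h

theorem mul_Dm {α : Type*} (B : Matrix α (Finset (Fin n)) ℝ) (a : α) (S : Finset (Fin n)) :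
    (B * Dm n) a S = B a S * sv S := Matrix.mul_diagonal _ _ _ _

theorem Dm_mul {α : Type*} (B : Matrix (Finset (Fin n)) α ℝ) (a : α) (S : Finset (Fin n)) :
    (Dm n * B) S a = sv S * B S a := Matrix.diagonal_mul _ _ _ _

/-- dressed hopping matrix -/
def Mm (u : Finset (Fin n) → (Fin n → Bool) → ℝ) : Matrix (Fin n → Bool) (Fin n → Bool) ℝ :=
  (Om u).transpose * Dm n * Om u

/-- a diagonal matrix in the basis `u` -/
def Lf (u : Finset (Fin n) → (Fin n → Bool) → ℝ) (g : (Fin n → Bool) → ℝ) :
    Matrix (Finset (Fin n)) (Finset (Fin n)) ℝ :=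
  Om u * Matrix.diagonal g * (Om u).transpose

theorem Lf_apply (u : Finset (Fin n) → (Fin n → Bool) → ℝ) (g : (Fin n → Bool) → ℝ)
    (S T : Finset (Fin n)) : Lf u g S T = ∑ x, u S x * g x * u T x := by
  unfold Lf
  rw [Matrix.mul_apply]
  apply Finset.sum_congr rfl
  intro x _
  rw [Matrix.mul_diagonal, Matrix.transpose_apply]
  rfl

theorem Lf_symm (u : Finset (Fin n) → (Fin n → Bool) → ℝ) (g : (Fin n → Bool) → ℝ)
    (S T : Finset (Fin n)) : Lf u g S T = Lf u g T S := by
  rw [Lf_apply, Lf_apply]
  exact Finset.sum_congr rfl (fun x _ => by ring)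

theorem Lf_transpose (u : Finset (Fin n) → (Fin n → Bool) → ℝ) (g : (Fin n → Bool) → ℝ) :
    (Lf u g).transpose = Lf u g := by
  ext S T; exact Lf_symm u g T S

theorem Mm_symm (u : Finset (Fin n) → (Fin n → Bool) → ℝ) (x y : Fin n → Bool) :
    Mm u x y = Mm u y x := by
  have : (Mm u).transpose = Mm u := by
    unfold Mm
    rw [Matrix.transpose_mul, Matrix.transpose_mul, Matrix.transpose_transpose,
      Dm_transpose, Matrix.mul_assoc]
  calc Mm u x y = (Mm u).transpose y x := rfl
    _ = Mm u y x := by rw [this]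

section core

variable (u : Finset (Fin n) → (Fin n → Bool) → ℝ)
  (hu : ∀ S T, ∑ x, u S x * u T x = if S = T then 1 else 0)

include hu

/-- back to the cube -/
theorem back (g : (Fin n → Bool) → ℝ) : (Om u).transpose * Lf u g * Om u = Matrix.diagonal g := by
  unfold Lf
  have h := Om_mul' u hu
  calc (Om u).transpose * (Om u * Matrix.diagonal g * (Om u).transpose) * Om u
      = ((Om u).transpose * Om u) * Matrix.diagonal g * ((Om u).transpose * Om u) := by simp only [Matrix.mul_assoc]
    _ = Matrix.diagonal g := by rw [h, Matrix.one_mul, Matrix.mul_one]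

theorem sum_M_sq : ∑ x, ∑ y, Mm u x y ^ 2 = ∑ S : Finset (Fin n), sv S ^ 2 := by
  have h := F2_conj (Om u) (Om_mul u hu) (Dm n)
  have h2 : F2 (Dm n) = ∑ S : Finset (Fin n), sv S ^ 2 := by
    unfold F2
    apply Finset.sum_congr rfl
    intro S _
    rw [Finset.sum_eq_single S]
    · rw [Dm_eq]
    · intro T _ hT
      rw [Dm_ne (Ne.symm hT)]; ring
    · intro h; exact absurd (Finset.mem_univ S) h
  rw [← h2, ← h]
  unfold F2 Mm
  rfl

/-- rows of `A` are unit vectors -/
theorem Lf_row (g : (Fin n → Bool) → ℝ) (hg : ∀ x, g x * g x = 1) (S : Finset (Fin n)) :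
    ∑ T, Lf u g S T ^ 2 = 1 := by
  have h : Lf u g * Lf u g = 1 := by
    unfold Lf
    have h := Om_mul' u hu
    calc Om u * Matrix.diagonal g * (Om u).transpose * (Om u * Matrix.diagonal g * (Om u).transpose)
        = Om u * Matrix.diagonal g * ((Om u).transpose * Om u) * Matrix.diagonal g * (Om u).transpose := by
          simp only [Matrix.mul_assoc]
      _ = Om u * (Matrix.diagonal g * Matrix.diagonal g) * (Om u).transpose := by
          rw [h, Matrix.mul_one]; simp only [Matrix.mul_assoc]
      _ = 1 := by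
          rw [Matrix.diagonal_mul_diagonal]
          simp only [hg]
          rw [Matrix.diagonal_one, Matrix.mul_one, Om_mul u hu]
  have h2 := congrFun (congrFun h S) S
  rw [Matrix.mul_apply, Matrix.one_apply_eq] at h2
  rw [← h2]
  apply Finset.sum_congr rfl
  intro T _
  rw [Lf_symm u g T S]; ring

/-- `sum g g M^2` in the basis -/
theorem sum_ggM (g : (Fin n → Bool) → ℝ) :
    ∑ x, ∑ y, g x * g y * Mm u x y ^ 2 = ∑ S : Finset (Fin n), ∑ T, sv S * sv T * Lf u g S T ^ 2 := by
  have h1 : ∑ x, ∑ y, g x * g y * Mm u x y ^ 2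
      = Matrix.trace (Matrix.diagonal g * Mm u * (Matrix.diagonal g * Mm u)) := by
    unfold Matrix.trace
    apply Finset.sum_congr rfl
    intro x _
    rw [Matrix.diag_apply, Matrix.mul_apply]
    apply Finset.sum_congr rfl
    intro y _
    rw [Matrix.diagonal_mul, Matrix.diagonal_mul, Mm_symm u y x]; ring
  have h2 : ∑ S : Finset (Fin n), ∑ T, sv S * sv T * Lf u g S T ^ 2
      = Matrix.trace (Lf u g * Dm n * (Lf u g * Dm n)) := by
    unfold Matrix.trace
    apply Finset.sum_congr rfl
    intro S _
    rw [Matrix.diag_apply, Matrix.mul_apply]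
    apply Finset.sum_congr rfl
    intro T _
    rw [mul_Dm, mul_Dm, Lf_symm u g T S]; ring
  rw [h1, h2]
  unfold Mm Lf
  have e1 : Matrix.diagonal g * ((Om u).transpose * Dm n * Om u) *
      (Matrix.diagonal g * ((Om u).transpose * Dm n * Om u))
      = (Matrix.diagonal g * (Om u).transpose * Dm n * Om u *
        Matrix.diagonal g * (Om u).transpose * Dm n) * Om u := by
    simp only [Matrix.mul_assoc]
  have e2 : Om u * Matrix.diagonal g * (Om u).transpose * Dm n *
      (Om u * Matrix.diagonal g * (Om u).transpose * Dm n)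
      = Om u * (Matrix.diagonal g * (Om u).transpose * Dm n * Om u *
        Matrix.diagonal g * (Om u).transpose * Dm n) := by
    simp only [Matrix.mul_assoc]
  rw [e1, e2, Matrix.trace_mul_comm]

/-- level-preserving part -/
def z0 (u : Finset (Fin n) → (Fin n → Bool) → ℝ) (i : Fin n) :
    Matrix (Finset (Fin n)) (Finset (Fin n)) ℝ :=
  Matrix.of (fun S T => if S.card = T.card then Lf u (fun x => eps x i) S T else 0)

end core

end Crest.H26GL
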