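import Mathlib
import Crest.Agent.H26GLCore

/-!
rid 311 (S0483), helper26: the double commutator identity and the main inequality.
-/

set_option autoImplicit false
open scoped BigOperators symmDiff
open Finset

namespace Crest.H26GL

variable {n : ℕ}

theorem conj_mul {α β : Type*} [Fintype α] [Fintype β] [DecidableEq α] [DecidableEq β]
    (O : Matrix α β ℝ) (hO : O * O.transpose = 1) (B C : Matrix α α ℝ) :
    (O.transpose * B * O) * (O.transpose * C * O) = O.transpose * (B * C) * O := by
  calc (O.transpose * B * O) * (O.transpose * C * O)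
      = O.transpose * B * (O * O.transpose) * C * O := by simp only [Matrix.mul_assoc]
    _ = O.transpose * (B * C) * O := by rw [hO, Matrix.mul_one]; simp only [Matrix.mul_assoc]

/-- multiplication by the sign of the bit `i`, in the basis `u` -/
def zm (u : Finset (Fin n) → (Fin n → Bool) → ℝ) (i : Fin n) :
    Matrix (Finset (Fin n)) (Finset (Fin n)) ℝ := Lf u (fun x => eps x i)

/-- diagonal entry of the level preserving part -/
def zeta (u : Finset (Fin n) → (Fin n → Bool) → ℝ) (i : Fin n) (x : Fin n → Bool) : ℝ :=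
  ((Om u).transpose * z0 u i * Om u) x x

section star

variable (u : Finset (Fin n) → (Fin n → Bool) → ℝ)
  (hu : ∀ S T, ∑ x, u S x * u T x = if S = T then 1 else 0)
  (i : Fin n)
  (hband : ∀ S T : Finset (Fin n), T.card + 1 < S.card → zm u i S T = 0)

theorem z0_apply (S T : Finset (Fin n)) :
    z0 u i S T = if S.card = T.card then zm u i S T else 0 := rfl

theorem z0_symm (S T : Finset (Fin n)) : z0 u i S T = z0 u i T S := by
  rw [z0_apply, z0_apply]
  by_cases h : S.card = T.card
  · rw [if_pos h, if_pos h.symm]; exact Lf_symm u _ S T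
  · rw [if_neg h, if_neg (Ne.symm h)]

include hband in
theorem comm_entries :
    Dm n * Dm n * zm u i - (2 : ℝ) • (Dm n * zm u i * Dm n) + zm u i * (Dm n * Dm n)
      = (4 : ℝ) • (zm u i - z0 u i) := by
  ext S T
  rw [Matrix.add_apply, Matrix.sub_apply, Matrix.smul_apply, Matrix.smul_apply, Matrix.sub_apply]
  rw [Matrix.mul_assoc, Dm_mul, Dm_mul, mul_Dm, Dm_mul, ← Matrix.mul_assoc, mul_Dm, mul_Dm]
  simp only [smul_eq_mul]
  rw [z0_apply]
  by_cases h : S.card = T.card
  · rw [if_pos h]
    have : sv S = sv T := by unfold sv; rw [h]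
    rw [this]; ring
  · rw [if_neg h]
    rcases Nat.lt_or_gt_of_ne h with h1 | h1
    · by_cases h2 : S.card + 1 = T.card
      · have : sv S = sv T + 2 := by
          unfold sv
          rw [← h2]; push_cast; ring
        rw [this]; ring
      · have h3 : zm u i S T = 0 := by
          have h4 := hband T S (by omega)
          unfold zm at h4 ⊢
          rw [Lf_symm]; exact h4
        rw [h3]; ring
    · by_cases h2 : T.card + 1 = S.card
      · have : sv S = sv T - 2 := by
          unfold sv
          rw [← h2]; push_cast; ring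
        rw [this]; ring
      · have h3 : zm u i S T = 0 := hband S T (by omega)
        rw [h3]; ring

include hu hband in
theorem comm_cube :
    Mm u * Mm u * Matrix.diagonal (fun x => eps x i)
      - (2 : ℝ) • (Mm u * Matrix.diagonal (fun x => eps x i) * Mm u)
      + Matrix.diagonal (fun x => eps x i) * (Mm u * Mm u)
      = (4 : ℝ) • (Matrix.diagonal (fun x => eps x i) - (Om u).transpose * z0 u i * Om u) := by
  have hO := Om_mul u hu
  have hb : (Om u).transpose * zm u i * Om u = Matrix.diagonal (fun x => eps x i) :=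
    back u hu (fun x => eps x i)
  rw [← hb]
  have hM : Mm u = (Om u).transpose * Dm n * Om u := rfl
  rw [hM]
  rw [conj_mul (Om u) hO, conj_mul (Om u) hO, conj_mul (Om u) hO, conj_mul (Om u) hO,
    conj_mul (Om u) hO]
  have h := comm_entries u i hband
  have h2 : (Om u).transpose * (Dm n * Dm n * zm u i) * Om u
      - (2 : ℝ) • ((Om u).transpose * (Dm n * zm u i * Dm n) * Om u)
      + (Om u).transpose * (zm u i * (Dm n * Dm n)) * Om u
      = (Om u).transpose * (Dm n * Dm n * zm u i - (2 : ℝ) • (Dm n * zm u i * Dm n)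
        + zm u i * (Dm n * Dm n)) * Om u := by
    rw [Matrix.mul_add, Matrix.mul_sub, Matrix.add_mul, Matrix.sub_mul, Matrix.mul_smul,
      Matrix.smul_mul]
  rw [h2, h, Matrix.mul_smul, Matrix.smul_mul, Matrix.mul_sub, Matrix.sub_mul]

include hu hband in
/-- the double commutator identity -/
theorem star (x : Fin n → Bool) :
    ∑ y, Mm u x y ^ 2 * ((1 - eps x i * eps y i) / 2) = 1 - eps x i * zeta u i x := by
  have h := congrFun (congrFun (comm_cube u hu i hband) x) x
  rw [Matrix.add_apply, Matrix.sub_apply, Matrix.smul_apply, Matrix.smul_apply, Matrix.sub_apply,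
    Matrix.mul_diagonal, Matrix.diagonal_mul, Matrix.diagonal_apply_eq] at h
  simp only [smul_eq_mul] at h
  have e1 : (Mm u * Mm u) x x = ∑ y, Mm u x y ^ 2 := by
    rw [Matrix.mul_apply]
    exact Finset.sum_congr rfl (fun y _ => by rw [Mm_symm u y x]; ring)
  have e2 : (Mm u * Matrix.diagonal (fun x => eps x i) * Mm u) x x
      = ∑ y, Mm u x y ^ 2 * eps y i := by
    rw [Matrix.mul_apply]
    apply Finset.sum_congr rfl
    intro y _
    rw [Matrix.mul_diagonal, Mm_symm u y x]; ring
  rw [e1, e2] at h
  have e3 : ∑ y, Mm u x y ^ 2 * ((1 - eps x i * eps y i) / 2)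
      = (1 / 2) * ∑ y, Mm u x y ^ 2 - (eps x i / 2) * ∑ y, Mm u x y ^ 2 * eps y i := by
    rw [Finset.mul_sum, Finset.mul_sum, ← Finset.sum_sub_distrib]
    exact Finset.sum_congr rfl (fun y _ => by ring)
  rw [e3]
  have e4 := eps_sq x i
  unfold zeta
  have h5 : (eps x i / 4) * ((∑ y, Mm u x y ^ 2) * eps x i - 2 * ∑ y, Mm u x y ^ 2 * eps y i
      + eps x i * ∑ y, Mm u x y ^ 2)
      = (eps x i / 4) * (4 * (eps x i - ((Om u).transpose * z0 u i * Om u) x x)) := by
    rw [h]
  linear_combination h5 + (1 - (1 / 2) * ∑ y, Mm u x y ^ 2) * e4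

include hu in
theorem sum_eps_zeta : ∑ x, eps x i * zeta u i x = F2 (z0 u i) := by
  have hO := Om_mul u hu
  have h1 : ∑ x, eps x i * zeta u i x
      = Matrix.trace (Matrix.diagonal (fun x => eps x i) * ((Om u).transpose * z0 u i * Om u)) := by
    unfold Matrix.trace zeta
    apply Finset.sum_congr rfl
    intro x _
    rw [Matrix.diag_apply, Matrix.diagonal_mul]
  have hb : (Om u).transpose * zm u i * Om u = Matrix.diagonal (fun x => eps x i) :=
    back u hu (fun x => eps x i)
  rw [h1, ← hb, conj_mul (Om u) hO, Matrix.mul_assoc, Matrix.trace_mul_comm, Matrix.mul_assoc, hO,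
    Matrix.mul_one]
  unfold Matrix.trace F2
  apply Finset.sum_congr rfl
  intro S _
  rw [Matrix.diag_apply, Matrix.mul_apply]
  apply Finset.sum_congr rfl
  intro T _
  rw [z0_symm u i T S, z0_apply]
  split_ifs
  · ring
  · ring

include hu in
theorem sum_zeta_sq : ∑ x, zeta u i x ^ 2 ≤ F2 (z0 u i) := by
  rw [← F2_conj (Om u) (Om_mul u hu) (z0 u i)]
  unfold F2 zeta
  apply Finset.sum_le_sum
  intro x _
  exact Finset.single_le_sum (f := fun y => ((Om u).transpose * z0 u i * Om u) x y ^ 2)
    (fun y _ => sq_nonneg _) (Finset.mem_univ x)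

end star

theorem half_eps (x y : Fin n → Bool) (i : Fin n) :
    (1 - eps x i * eps y i) / 2 = if x i = y i then 0 else 1 := by
  unfold eps
  cases x i <;> cases y i <;> norm_num

theorem pair_ineq (f : (Fin n → Bool) → ℝ) (hf : ∀ x, f x * f x = 1) (x y : Fin n → Bool) :
    ∑ i, (if f x = f (flip x i) then (0 : ℝ) else 1) * ((1 - eps x i * eps y i) / 2)
      ≤ 2 * (∑ i, (1 - eps x i * eps y i) / 2 - 1)
        + (1 + (f x * chi univ x) * (f y * chi univ y)) := by
  classical
  have hfv : ∀ x, f x = 1 ∨ f x = -1 := by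
    intro x
    have h := hf x
    have : (f x - 1) * (f x + 1) = 0 := by linear_combination h
    rcases mul_eq_zero.mp this with h | h
    · left; linarith
    · right; linarith
  have hcv : ∀ x : Fin n → Bool, chi univ x = 1 ∨ chi univ x = -1 := by
    intro x
    have h := chi_sq (univ : Finset (Fin n)) x
    have : (chi univ x - 1) * (chi univ x + 1) = 0 := by linear_combination h
    rcases mul_eq_zero.mp this with h | h
    · left; linarith
    · right; linarith
  have hgg : -1 ≤ (f x * chi univ x) * (f y * chi univ y) := by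
    rcases hfv x with h1 | h1 <;> rcases hfv y with h2 | h2 <;> rcases hcv x with h3 | h3 <;>
      rcases hcv y with h4 | h4 <;> rw [h1, h2, h3, h4] <;> norm_num
  have hsum : ∑ i, (1 - eps x i * eps y i) / 2 = ((univ.filter (fun i => x i ≠ y i)).card : ℝ) := by
    rw [Finset.card_filter]
    push_cast
    apply Finset.sum_congr rfl
    intro i _
    rw [half_eps]
    by_cases h : x i = y i <;> simp [h]
  have hL : ∑ i, (if f x = f (flip x i) then (0 : ℝ) else 1) * ((1 - eps x i * eps y i) / 2)
      = ∑ i ∈ univ.filter (fun i => x i ≠ y i), (if f x = f (flip x i) then (0 : ℝ) else 1) := by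
    rw [Finset.sum_filter]
    apply Finset.sum_congr rfl
    intro i _
    rw [half_eps]
    by_cases h : x i = y i <;> simp [h]
  rw [hsum, hL]
  set D := univ.filter (fun i => x i ≠ y i) with hD
  have hLle : ∑ i ∈ D, (if f x = f (flip x i) then (0 : ℝ) else 1) ≤ (D.card : ℝ) := by
    calc ∑ i ∈ D, (if f x = f (flip x i) then (0 : ℝ) else 1) ≤ ∑ i ∈ D, (1 : ℝ) := by
          apply Finset.sum_le_sum
          intro i _
          split_ifs <;> norm_num
      _ = (D.card : ℝ) := by simp
  rcases Nat.lt_or_ge D.card 2 with hc | hc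
  · interval_cases hdc : D.card
    · have hDe : D = ∅ := Finset.card_eq_zero.mp hdc
      have hxy : x = y := by
        funext i
        by_contra hne
        have : i ∈ D := by rw [hD]; simp [hne]
        rw [hDe] at this
        simp at this
      rw [hDe]
      subst hxy
      have h1 := hf x
      have h2 := chi_sq (univ : Finset (Fin n)) x
      have h3 : f x * chi univ x * (f x * chi univ x) = 1 := by
        linear_combination h1 * (chi univ x * chi univ x) + h2
      rw [h3]; norm_num
    · obtain ⟨j, hj⟩ := Finset.card_eq_one.mp hdc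
      have hy : y = flip x j := by
        funext i
        unfold flip
        by_cases hij : i = j
        · subst hij
          rw [Function.update_self]
          have : i ∈ D := by rw [hj]; simp
          rw [hD] at this
          have h1 : x i ≠ y i := by simpa using this
          revert h1
          cases x i <;> cases y i <;> simp
        · rw [Function.update_of_ne hij]
          have : i ∉ D := by rw [hj]; simpa using hij
          rw [hD] at this
          have h1 : x i = y i := by simpa using this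
          exact h1.symm
      rw [hj, Finset.sum_singleton]
      by_cases hs : f x = f (flip x j)
      · rw [if_pos hs]
        push_cast
        linarith
      · rw [if_neg hs]
        have h1 : chi univ y = - chi univ x := by
          rw [hy]; exact chi_flip_mem _ _ (Finset.mem_univ j)
        have h2 : f y = - f x := by
          rw [hy]
          rcases hfv x with h3 | h3 <;> rcases hfv (flip x j) with h4 | h4
          · exact absurd (h3.trans h4.symm) hs
          · rw [h3, h4]
          · rw [h3, h4]; norm_num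
          · exact absurd (h3.trans h4.symm) hs
        rw [h1, h2]
        have h5 := hf x
        have h6 := chi_sq (univ : Finset (Fin n)) x
        have h7 : f x * chi univ x * (-f x * -chi univ x) = 1 := by
          linear_combination h5 * (chi univ x * chi univ x) + h6
        rw [h7]; norm_num
  · have : (2 : ℝ) ≤ (D.card : ℝ) := by exact_mod_cast hc
    linarith

/-- the number of sensitive pairs is controlled by the same-sign entries of `M` -/
theorem main_ineq (u : Finset (Fin n) → (Fin n → Bool) → ℝ)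
    (hu : ∀ S T, ∑ x, u S x * u T x = if S = T then 1 else 0)
    (hband : ∀ (i : Fin n) (S T : Finset (Fin n)), T.card + 1 < S.card → zm u i S T = 0)
    (hs2 : ∑ S : Finset (Fin n), sv S ^ 2 = (n : ℝ) * 2 ^ n)
    (f : (Fin n → Bool) → ℝ) (hf : ∀ x, f x * f x = 1) :
    (7 / 8) * ∑ x, ∑ i, (if f x = f (flip x i) then (0 : ℝ) else 1)
      ≤ (1 / 2) * ∑ S : Finset (Fin n), ∑ T,
          Lf u (fun x => f x * chi univ x) S T ^ 2 * (sv S + sv T) ^ 2 := by
  set g : (Fin n → Bool) → ℝ := fun x => f x * chi univ x with hg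
  have hgg : ∀ x, g x * g x = 1 := by
    intro x
    have h1 := hf x
    have h2 := chi_sq (univ : Finset (Fin n)) x
    simp only [hg]
    linear_combination h1 * (chi univ x * chi univ x) + h2
  set se : (Fin n → Bool) → Fin n → ℝ := fun x i => if f x = f (flip x i) then (0 : ℝ) else 1 with hse
  -- total
  have hM2 := sum_M_sq u hu
  rw [hs2] at hM2
  -- T = sum se * (star)
  have hT : ∑ x, ∑ i, se x i
      = ∑ x, ∑ i, se x i * ∑ y, Mm u x y ^ 2 * ((1 - eps x i * eps y i) / 2)
        + ∑ x, ∑ i, se x i * (eps x i * zeta u i x) := by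
    rw [← Finset.sum_add_distrib]
    apply Finset.sum_congr rfl
    intro x _
    rw [← Finset.sum_add_distrib]
    apply Finset.sum_congr rfl
    intro i _
    rw [star u hu i (hband i) x]; ring
  -- first part
  have h1 : ∑ x, ∑ i, se x i * ∑ y, Mm u x y ^ 2 * ((1 - eps x i * eps y i) / 2)
      ≤ ∑ x, ∑ y, Mm u x y ^ 2 * (2 * (∑ i, (1 - eps x i * eps y i) / 2 - 1) + (1 + g x * g y)) := by
    apply Finset.sum_le_sum
    intro x _
    have e : ∑ i, se x i * ∑ y, Mm u x y ^ 2 * ((1 - eps x i * eps y i) / 2)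
        = ∑ y, Mm u x y ^ 2 * ∑ i, se x i * ((1 - eps x i * eps y i) / 2) := by
      simp only [Finset.mul_sum]
      rw [Finset.sum_comm]
      exact Finset.sum_congr rfl (fun y _ => Finset.sum_congr rfl (fun i _ => by ring))
    rw [e]
    apply Finset.sum_le_sum
    intro y _
    exact mul_le_mul_of_nonneg_left (pair_ineq f hf x y) (sq_nonneg _)
  have h2 : ∑ x, ∑ y, Mm u x y ^ 2 * (2 * (∑ i, (1 - eps x i * eps y i) / 2 - 1) + (1 + g x * g y))
      = 2 * (∑ i, ∑ x, ∑ y, Mm u x y ^ 2 * ((1 - eps x i * eps y i) / 2))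
        - ∑ x, ∑ y, Mm u x y ^ 2 + ∑ x, ∑ y, g x * g y * Mm u x y ^ 2 := by
    have e : ∑ i, ∑ x, ∑ y, Mm u x y ^ 2 * ((1 - eps x i * eps y i) / 2)
        = ∑ x, ∑ y, Mm u x y ^ 2 * ∑ i, (1 - eps x i * eps y i) / 2 := by
      rw [Finset.sum_comm]
      apply Finset.sum_congr rfl
      intro x _
      rw [Finset.sum_comm]
      apply Finset.sum_congr rfl
      intro y _
      rw [Finset.mul_sum]
    rw [e, Finset.mul_sum, ← Finset.sum_sub_distrib, ← Finset.sum_add_distrib]
    apply Finset.sum_congr rfl
    intro x _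
    rw [Finset.mul_sum, ← Finset.sum_sub_distrib, ← Finset.sum_add_distrib]
    apply Finset.sum_congr rfl
    intro y _
    ring
  have h3 : ∑ i, ∑ x, ∑ y, Mm u x y ^ 2 * ((1 - eps x i * eps y i) / 2)
      = (n : ℝ) * 2 ^ n - ∑ i, F2 (z0 u i) := by
    have : ∀ i, ∑ x, ∑ y, Mm u x y ^ 2 * ((1 - eps x i * eps y i) / 2)
        = 2 ^ n - F2 (z0 u i) := by
      intro i
      rw [← sum_eps_zeta u hu i]
      have e : (2 : ℝ) ^ n = ∑ x : Fin n → Bool, (1 : ℝ) := by simp
      rw [e, ← Finset.sum_sub_distrib]
      exact Finset.sum_congr rfl (fun x _ => star u hu i (hband i) x)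
    rw [Finset.sum_congr rfl (fun i _ => this i), Finset.sum_sub_distrib]
    simp
  -- second part
  have h4 : ∑ x, ∑ i, se x i * (eps x i * zeta u i x)
      ≤ (1 / 8) * ∑ x, ∑ i, se x i + 2 * ∑ i, F2 (z0 u i) := by
    have e1 : ∑ x, ∑ i, se x i * (eps x i * zeta u i x)
        ≤ ∑ x, ∑ i, ((1 / 8) * se x i + 2 * zeta u i x ^ 2) := by
      apply Finset.sum_le_sum
      intro x _
      apply Finset.sum_le_sum
      intro i _
      have e2 := eps_sq x i
      simp only [hse]
      split_ifs
      · nlinarith [sq_nonneg (zeta u i x)]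
      · have e3 : zeta u i x ^ 2 = (eps x i * zeta u i x) ^ 2 := by
          linear_combination (- zeta u i x ^ 2) * e2
        rw [e3]
        nlinarith [sq_nonneg (eps x i * zeta u i x - 1 / 4)]
    have e4 : ∑ x, ∑ i, ((1 / 8) * se x i + 2 * zeta u i x ^ 2)
        = (1 / 8) * ∑ x, ∑ i, se x i + 2 * ∑ i, ∑ x, zeta u i x ^ 2 := by
      rw [Finset.sum_comm (s := (univ : Finset (Fin n)))]
      rw [Finset.mul_sum, Finset.mul_sum, ← Finset.sum_add_distrib]
      apply Finset.sum_congr rfl
      intro x _
      rw [Finset.mul_sum, Finset.mul_sum, ← Finset.sum_add_distrib]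
    have e5 : ∑ i, ∑ x, zeta u i x ^ 2 ≤ ∑ i, F2 (z0 u i) :=
      Finset.sum_le_sum (fun i _ => sum_zeta_sq u hu i)
    linarith
  -- the quadratic form
  have h5 : ∑ S : Finset (Fin n), ∑ T, Lf u g S T ^ 2 * (sv S + sv T) ^ 2
      = 2 * ((n : ℝ) * 2 ^ n) + 2 * ∑ x, ∑ y, g x * g y * Mm u x y ^ 2 := by
    rw [sum_ggM u hu g]
    have e1 : ∑ S : Finset (Fin n), ∑ T, Lf u g S T ^ 2 * sv S ^ 2 = (n : ℝ) * 2 ^ n := by
      rw [← hs2]
      apply Finset.sum_congr rfl
      intro S _
      rw [← Finset.sum_mul, Lf_row u hu g hgg S, one_mul]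
    have e2 : ∑ S : Finset (Fin n), ∑ T, Lf u g S T ^ 2 * sv T ^ 2 = (n : ℝ) * 2 ^ n := by
      rw [Finset.sum_comm, ← e1]
      apply Finset.sum_congr rfl
      intro S _
      apply Finset.sum_congr rfl
      intro T _
      rw [Lf_symm u g T S]
    have e3 : ∑ S : Finset (Fin n), ∑ T, Lf u g S T ^ 2 * (sv S + sv T) ^ 2
        = ∑ S : Finset (Fin n), ∑ T, Lf u g S T ^ 2 * sv S ^ 2
          + ∑ S : Finset (Fin n), ∑ T, Lf u g S T ^ 2 * sv T ^ 2
          + 2 * ∑ S : Finset (Fin n), ∑ T, sv S * sv T * Lf u g S T ^ 2 := by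
      rw [Finset.mul_sum, ← Finset.sum_add_distrib, ← Finset.sum_add_distrib]
      apply Finset.sum_congr rfl
      intro S _
      rw [Finset.mul_sum, ← Finset.sum_add_distrib, ← Finset.sum_add_distrib]
      apply Finset.sum_congr rfl
      intro T _
      ring
    rw [e3, e1, e2]; ring
  rw [h5]
  rw [h2, h3, hM2] at h1
  have h6 : ∑ x, ∑ i, se x i ≤ 2 * ((n : ℝ) * 2 ^ n - ∑ i, F2 (z0 u i)) - (n : ℝ) * 2 ^ n
      + ∑ x, ∑ y, g x * g y * Mm u x y ^ 2
      + ((1 / 8) * ∑ x, ∑ i, se x i + 2 * ∑ i, F2 (z0 u i)) := by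
    calc ∑ x, ∑ i, se x i = _ := hT
      _ ≤ _ := add_le_add h1 h4
  linarith

end Crest.H26GL
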