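import Mathlib

/-!
H26PRConn: Connes / Powers-Stormer type double sum inequality for rectangular complex matrices.
-/

set_option autoImplicit false
set_option linter.unusedSectionVars false

namespace Crest.H26PRConn

open scoped BigOperators ComplexOrder
open Matrix

variable {α β : Type*} [Fintype α] [DecidableEq α] [Fintype β]

/-- squared Hilbert-Schmidt norm -/
noncomputable def hs {γ δ : Type*} [Fintype γ] [Fintype δ] (U : Matrix γ δ ℂ) : ℝ :=
  ∑ a, ∑ b, ‖U a b‖ ^ 2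

theorem hs_nonneg {γ δ : Type*} [Fintype γ] [Fintype δ] (U : Matrix γ δ ℂ) : 0 ≤ hs U :=
  Finset.sum_nonneg fun _ _ => Finset.sum_nonneg fun _ _ => by positivity

/-- `hs U = tr (U Uᴴ)` -/
theorem hs_eq_trace {γ δ : Type*} [Fintype γ] [Fintype δ] (U : Matrix γ δ ℂ) :
    ((hs U : ℝ) : ℂ) = (U * Uᴴ).trace := by
  unfold hs Matrix.trace
  push_cast
  refine Finset.sum_congr rfl fun a _ => ?_
  rw [Matrix.diag_apply, Matrix.mul_apply]
  refine Finset.sum_congr rfl fun b _ => ?_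
  rw [Matrix.conjTranspose_apply, Complex.star_def, Complex.mul_conj']

/-- `E` is unitary, its columns diagonalise `U Uᴴ` with eigenvalues `lam i ^ 2`, `lam ≥ 0` -/
structure IsDiag (U : Matrix α β ℂ) (E : Matrix α α ℂ) (lam : α → ℝ) : Prop where
  unit_left : Eᴴ * E = 1
  unit_right : E * Eᴴ = 1
  nonneg : ∀ i, 0 ≤ lam i
  diag : (Eᴴ * U) * (Eᴴ * U)ᴴ = diagonal (fun i => ((lam i ^ 2 : ℝ) : ℂ))

/-- existence of the eigenbasis -/
theorem exists_isDiag (U : Matrix α β ℂ) : ∃ (E : Matrix α α ℂ) (lam : α → ℝ), IsDiag U E lam := by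
  classical
  have hps : (U * Uᴴ).PosSemidef := Matrix.posSemidef_self_mul_conjTranspose U
  have hH : (U * Uᴴ).IsHermitian := hps.1
  have e1 : (hH.eigenvectorUnitary : Matrix α α ℂ)ᴴ * (hH.eigenvectorUnitary : Matrix α α ℂ) = 1 := by
    have := Unitary.coe_star_mul_self hH.eigenvectorUnitary
    simpa [Matrix.star_eq_conjTranspose] using this
  have e2 : (hH.eigenvectorUnitary : Matrix α α ℂ) * (hH.eigenvectorUnitary : Matrix α α ℂ)ᴴ = 1 := by
    have := Unitary.coe_mul_star_self hH.eigenvectorUnitary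
    simpa [Matrix.star_eq_conjTranspose] using this
  refine ⟨hH.eigenvectorUnitary, fun i => Real.sqrt (hH.eigenvalues i), e1, e2,
    fun i => Real.sqrt_nonneg _, ?_⟩
  have key : (hH.eigenvectorUnitary : Matrix α α ℂ)ᴴ * (U * Uᴴ) *
      (hH.eigenvectorUnitary : Matrix α α ℂ) = diagonal (fun i => ((hH.eigenvalues i : ℝ) : ℂ)) := by
    have h := hH.conjStarAlgAut_star_eigenvectorUnitary
    rw [Unitary.conjStarAlgAut_star_apply] at h
    rw [Matrix.star_eq_conjTranspose] at h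
    exact h
  rw [Matrix.conjTranspose_mul, Matrix.conjTranspose_conjTranspose]
  rw [show ((hH.eigenvectorUnitary : Matrix α α ℂ)ᴴ * U) *
      (Uᴴ * (hH.eigenvectorUnitary : Matrix α α ℂ))
    = (hH.eigenvectorUnitary : Matrix α α ℂ)ᴴ * (U * Uᴴ) *
      (hH.eigenvectorUnitary : Matrix α α ℂ) by simp only [Matrix.mul_assoc]]
  rw [key]
  congr 1
  funext i
  rw [Real.sq_sqrt (hps.eigenvalues_nonneg i)]

namespace IsDiag

variable {U V : Matrix α β ℂ} {E F : Matrix α α ℂ} {lam mu : α → ℝ}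

/-- rows of `Eᴴ U` are orthogonal with norms `lam` -/
theorem row_inner (h : IsDiag U E lam) (i j : α) :
    ∑ b, (Eᴴ * U) i b * star ((Eᴴ * U) j b) = if i = j then ((lam i ^ 2 : ℝ) : ℂ) else 0 := by
  have := congrFun (congrFun h.diag i) j
  rw [Matrix.mul_apply] at this
  simp only [Matrix.conjTranspose_apply] at this
  rw [this, Matrix.diagonal_apply]

theorem row_norm (h : IsDiag U E lam) (i : α) :
    ∑ b, ‖(Eᴴ * U) i b‖ ^ 2 = lam i ^ 2 := by
  have h1 := h.row_inner i i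
  rw [if_pos rfl] at h1
  have h2 : ((∑ b, ‖(Eᴴ * U) i b‖ ^ 2 : ℝ) : ℂ) = ((lam i ^ 2 : ℝ) : ℂ) := by
    rw [← h1]
    push_cast
    refine Finset.sum_congr rfl fun b _ => ?_
    rw [Complex.star_def, Complex.mul_conj']
  exact_mod_cast h2

theorem recon (h : IsDiag U E lam) : E * (Eᴴ * U) = U := by
  rw [← Matrix.mul_assoc, h.unit_right, Matrix.one_mul]

/-- `∑ lam² = ‖U‖²` -/
theorem sum_sq (h : IsDiag U E lam) : ∑ i, lam i ^ 2 = hs U := by
  have h1 : ((hs U : ℝ) : ℂ) = ((hs (Eᴴ * U) : ℝ) : ℂ) := by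
    rw [hs_eq_trace, hs_eq_trace, Matrix.conjTranspose_mul, Matrix.conjTranspose_conjTranspose]
    have e : (Eᴴ * U * (Uᴴ * E)).trace = (E * (Eᴴ * U * Uᴴ)).trace := by
      rw [show Eᴴ * U * (Uᴴ * E) = (Eᴴ * U * Uᴴ) * E by simp only [Matrix.mul_assoc]]
      exact Matrix.trace_mul_comm _ _
    rw [e, show E * (Eᴴ * U * Uᴴ) = (E * Eᴴ) * (U * Uᴴ) by simp only [Matrix.mul_assoc],
      h.unit_right, Matrix.one_mul]
  have h2 : hs U = hs (Eᴴ * U) := by exact_mod_cast h1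
  rw [h2]
  unfold hs
  exact (Finset.sum_congr rfl fun i _ => h.row_norm i).symm

end IsDiag

/-- `m_ij = |⟨e_i, f_j⟩|²` -/
noncomputable def ovl (E F : Matrix α α ℂ) (i j : α) : ℝ := ‖(Eᴴ * F) i j‖ ^ 2

theorem ovl_nonneg (E F : Matrix α α ℂ) (i j : α) : 0 ≤ ovl E F i j := by
  unfold ovl; positivity

theorem ovl_row {U V : Matrix α β ℂ} {E F : Matrix α α ℂ} {lam mu : α → ℝ}
    (hU : IsDiag U E lam) (hV : IsDiag V F mu) (i : α) : ∑ j, ovl E F i j = 1 := by
  have h1 : (Eᴴ * F) * (Eᴴ * F)ᴴ = 1 := by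
    rw [Matrix.conjTranspose_mul, Matrix.conjTranspose_conjTranspose,
      show Eᴴ * F * (Fᴴ * E) = Eᴴ * (F * Fᴴ) * E by simp only [Matrix.mul_assoc],
      hV.unit_right, Matrix.mul_one, hU.unit_left]
  have h2 := congrFun (congrFun h1 i) i
  rw [Matrix.mul_apply, Matrix.one_apply_eq] at h2
  have h3 : ((∑ j, ovl E F i j : ℝ) : ℂ) = 1 := by
    rw [← h2]
    push_cast
    refine Finset.sum_congr rfl fun b _ => ?_
    unfold ovl
    rw [Matrix.conjTranspose_apply, Complex.star_def, Complex.mul_conj']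
    push_cast; rfl
  exact_mod_cast h3

theorem ovl_col {U V : Matrix α β ℂ} {E F : Matrix α α ℂ} {lam mu : α → ℝ}
    (hU : IsDiag U E lam) (hV : IsDiag V F mu) (j : α) : ∑ i, ovl E F i j = 1 := by
  have h1 : (Eᴴ * F)ᴴ * (Eᴴ * F) = 1 := by
    rw [Matrix.conjTranspose_mul, Matrix.conjTranspose_conjTranspose,
      show Fᴴ * E * (Eᴴ * F) = Fᴴ * (E * Eᴴ) * F by simp only [Matrix.mul_assoc],
      hU.unit_right, Matrix.mul_one, hV.unit_left]
  have h2 := congrFun (congrFun h1 j) j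
  rw [Matrix.mul_apply, Matrix.one_apply_eq] at h2
  have h3 : ((∑ i, ovl E F i j : ℝ) : ℂ) = 1 := by
    rw [← h2]
    push_cast
    refine Finset.sum_congr rfl fun b _ => ?_
    unfold ovl
    rw [Matrix.conjTranspose_apply, Complex.star_def, mul_comm, Complex.mul_conj']
    push_cast; rfl
  exact_mod_cast h3

/-- Bessel inequality in summed form: `A` arbitrary, `B` with orthogonal rows of norms `mu` -/
theorem bessel {γ : Type*} [Fintype γ] (A : Matrix γ β ℂ) {B : Matrix α β ℂ} {mu : α → ℝ}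
    (hB : B * Bᴴ = diagonal (fun i => ((mu i ^ 2 : ℝ) : ℂ))) :
    ∑ i, ∑ j, ‖(A * Bᴴ) i j‖ ^ 2 * ((mu j) ^ 2)⁻¹ ≤ hs A := by
  classical
  set D : Matrix α α ℂ := diagonal (fun i => ((((mu i) ^ 2)⁻¹ : ℝ) : ℂ)) with hD
  set P : Matrix β β ℂ := Bᴴ * D * B with hP
  have hDD : D * (B * Bᴴ) * D = D := by
    rw [hB, hD, Matrix.diagonal_mul_diagonal, Matrix.diagonal_mul_diagonal]
    congr 1
    funext i
    by_cases h : mu i = 0
    · simp [h]
    · have : (mu i : ℂ) ≠ 0 := by exact_mod_cast h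
      push_cast
      field_simp
  have hPP : P * P = P := by
    rw [hP, show Bᴴ * D * B * (Bᴴ * D * B) = Bᴴ * (D * (B * Bᴴ) * D) * B by
      simp only [Matrix.mul_assoc], hDD]
  have hDh : Dᴴ = D := by
    rw [hD, Matrix.diagonal_conjTranspose]
    congr 1
    funext i
    simp
  have hPh : Pᴴ = P := by
    rw [hP, Matrix.conjTranspose_mul, Matrix.conjTranspose_mul, Matrix.conjTranspose_conjTranspose,
      hDh, ← Matrix.mul_assoc]
  have hR : (A - A * P) * (A - A * P)ᴴ = A * Aᴴ - (A * Bᴴ) * D * (A * Bᴴ)ᴴ := by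
    have h1 : (A - A * P)ᴴ = Aᴴ - P * Aᴴ := by
      rw [Matrix.conjTranspose_sub, Matrix.conjTranspose_mul, hPh]
    rw [h1, Matrix.sub_mul, Matrix.mul_sub, Matrix.mul_sub]
    have h2 : A * P * (P * Aᴴ) = A * P * Aᴴ := by
      rw [show A * P * (P * Aᴴ) = A * (P * P) * Aᴴ by simp only [Matrix.mul_assoc], hPP]
    rw [h2, show A * (P * Aᴴ) = A * P * Aᴴ by simp only [Matrix.mul_assoc]]
    rw [sub_self, sub_zero]
    congr 1
    rw [hP, Matrix.conjTranspose_mul, Matrix.conjTranspose_conjTranspose]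
    simp only [Matrix.mul_assoc]
  have ht := congrArg Matrix.trace hR
  rw [← hs_eq_trace, Matrix.trace_sub, ← hs_eq_trace] at ht
  have h3 : (A * Bᴴ * D * (A * Bᴴ)ᴴ).trace
      = ((∑ i, ∑ j, ‖(A * Bᴴ) i j‖ ^ 2 * ((mu j) ^ 2)⁻¹ : ℝ) : ℂ) := by
    unfold Matrix.trace
    push_cast
    refine Finset.sum_congr rfl fun i _ => ?_
    rw [Matrix.diag_apply, Matrix.mul_apply]
    refine Finset.sum_congr rfl fun j _ => ?_
    rw [hD, Matrix.mul_diagonal, Matrix.conjTranspose_apply, Complex.star_def]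
    rw [show (A * Bᴴ) i j * ((((mu j) ^ 2)⁻¹ : ℝ) : ℂ) * (starRingEnd ℂ) ((A * Bᴴ) i j)
      = ((A * Bᴴ) i j * (starRingEnd ℂ) ((A * Bᴴ) i j)) * ((((mu j) ^ 2)⁻¹ : ℝ) : ℂ) by ring]
    rw [Complex.mul_conj']
    push_cast; rfl
  rw [h3] at ht
  have h4 : hs (A - A * P) = hs A - ∑ i, ∑ j, ‖(A * Bᴴ) i j‖ ^ 2 * ((mu j) ^ 2)⁻¹ := by
    exact_mod_cast ht
  have := hs_nonneg (A - A * P)
  linarith

theorem hs_sub_eq (U V : Matrix α β ℂ) :
    hs (U - V) = hs U + hs V - 2 * ((U * Vᴴ).trace).re := by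
  have h1 : ((hs (U - V) : ℝ) : ℂ) = (U * Uᴴ).trace + (V * Vᴴ).trace - (U * Vᴴ).trace
      - (V * Uᴴ).trace := by
    rw [hs_eq_trace, Matrix.conjTranspose_sub, Matrix.sub_mul, Matrix.mul_sub, Matrix.mul_sub,
      Matrix.trace_sub, Matrix.trace_sub, Matrix.trace_sub]
    ring
  have h2 : (V * Uᴴ).trace = star ((U * Vᴴ).trace) := by
    rw [← Matrix.trace_conjTranspose, Matrix.conjTranspose_mul, Matrix.conjTranspose_conjTranspose]
  rw [h2, ← hs_eq_trace, ← hs_eq_trace] at h1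
  have h3 := congrArg Complex.re h1
  simp only [Complex.ofReal_re, Complex.sub_re, Complex.add_re, Complex.star_def,
    Complex.conj_re] at h3
  linarith

/-- **CONN**: the double sum inequality -/
theorem conn {U V : Matrix α β ℂ} {E F : Matrix α α ℂ} {lam mu : α → ℝ}
    (hU : IsDiag U E lam) (hV : IsDiag V F mu) :
    ∑ i, ∑ j, ovl E F i j * (lam i - mu j) ^ 2 ≤ 2 * hs (U - V) := by
  classical
  set A : Matrix α β ℂ := Eᴴ * U with hA
  set B : Matrix α β ℂ := Fᴴ * V with hB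
  set W : Matrix α α ℂ := Eᴴ * F with hW
  set Gm : Matrix α α ℂ := A * Bᴴ with hG
  have htr : (U * Vᴴ).trace = ∑ i, ∑ j, Gm i j * star (W i j) := by
    have h1 : U * Vᴴ = E * Gm * Fᴴ := by
      have a1 : U = E * A := hU.recon.symm
      have a2 : V = F * B := hV.recon.symm
      calc U * Vᴴ = (E * A) * (F * B)ᴴ := by rw [← a1, ← a2]
        _ = E * Gm * Fᴴ := by
          rw [hG, Matrix.conjTranspose_mul]
          simp only [Matrix.mul_assoc]
    rw [h1, Matrix.mul_assoc, Matrix.trace_mul_comm, Matrix.mul_assoc]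
    have h2 : Fᴴ * E = Wᴴ := by
      rw [hW, Matrix.conjTranspose_mul, Matrix.conjTranspose_conjTranspose]
    rw [h2]
    unfold Matrix.trace
    refine Finset.sum_congr rfl fun i _ => ?_
    rw [Matrix.diag_apply, Matrix.mul_apply]
    rfl
  -- entries of G vanish with lam or mu
  have hGz : ∀ i j, lam i * mu j = 0 → Gm i j = 0 := by
    intro i j h
    rw [hG, Matrix.mul_apply]
    refine Finset.sum_eq_zero fun b _ => ?_
    rcases mul_eq_zero.1 h with h | h
    · have h1 := hU.row_norm i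
      rw [h] at h1
      have h2 := (Finset.sum_eq_zero_iff_of_nonneg (fun b _ => by positivity)).1
        (h1.trans (by norm_num)) b (Finset.mem_univ b)
      have h3 : A i b = 0 := by simpa using h2
      rw [h3, zero_mul]
    · have h1 := hV.row_norm j
      rw [h] at h1
      have h2 := (Finset.sum_eq_zero_iff_of_nonneg (fun b _ => by positivity)).1
        (h1.trans (by norm_num)) b (Finset.mem_univ b)
      have h3 : B j b = 0 := by simpa using h2
      rw [Matrix.conjTranspose_apply, h3, star_zero, mul_zero]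
  -- termwise bound
  have hterm : ∀ i j, (Gm i j * star (W i j)).re ≤ (1 / 2) * (lam i * mu j * ‖W i j‖ ^ 2)
      + (1 / 4) * (‖Gm i j‖ ^ 2 * ((mu j) ^ 2)⁻¹ + ‖Gm i j‖ ^ 2 * ((lam i) ^ 2)⁻¹) := by
    intro i j
    have h0 : (Gm i j * star (W i j)).re ≤ ‖Gm i j‖ * ‖W i j‖ := by
      refine (Complex.re_le_norm _).trans ?_
      rw [norm_mul, norm_star]
    refine h0.trans ?_
    by_cases hz : lam i * mu j = 0
    · rw [hGz i j hz, hz]; simp
    · have hl : 0 < lam i := lt_of_le_of_ne (hU.nonneg i) (fun h => hz (by rw [← h]; ring))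
      have hm : 0 < mu j := lt_of_le_of_ne (hV.nonneg j) (fun h => hz (by rw [← h]; ring))
      set a := ‖Gm i j‖
      set w := ‖W i j‖
      set l := lam i
      set m := mu j
      have key : 0 ≤ (l * m * w - a) ^ 2 / (2 * (l * m)) + (a ^ 2 / 4) * (l⁻¹ - m⁻¹) ^ 2 := by
        positivity
      have : (1 / 2) * (l * m * w ^ 2) + (1 / 4) * (a ^ 2 * (m ^ 2)⁻¹ + a ^ 2 * (l ^ 2)⁻¹) - a * w
          = (l * m * w - a) ^ 2 / (2 * (l * m)) + (a ^ 2 / 4) * (l⁻¹ - m⁻¹) ^ 2 := by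
        field_simp
        ring
      linarith
  have hb1 := bessel A (B := B) hV.diag
  have hb2 := bessel B (B := A) hU.diag
  have hb2' : ∑ i, ∑ j, ‖Gm i j‖ ^ 2 * ((lam i) ^ 2)⁻¹ ≤ hs B := by
    refine le_trans (le_of_eq ?_) hb2
    rw [Finset.sum_comm]
    refine Finset.sum_congr rfl fun j _ => Finset.sum_congr rfl fun i _ => ?_
    have : (B * Aᴴ) j i = star (Gm i j) := by
      rw [← Matrix.conjTranspose_apply, hG]
      have e : (A * Bᴴ)ᴴ = B * Aᴴ := by
        rw [Matrix.conjTranspose_mul, Matrix.conjTranspose_conjTranspose]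
      rw [e]
    rw [this, norm_star]
  have hsA : hs A = hs U := by
    have h := hU.sum_sq
    rw [← h]
    unfold hs
    exact Finset.sum_congr rfl fun i _ => hU.row_norm i
  have hsB : hs B = hs V := by
    have h := hV.sum_sq
    rw [← h]
    unfold hs
    exact Finset.sum_congr rfl fun i _ => hV.row_norm i
  have hre : ((U * Vᴴ).trace).re ≤ (1 / 2) * (∑ i, ∑ j, lam i * mu j * ‖W i j‖ ^ 2)
      + (1 / 4) * (hs U + hs V) := by
    rw [htr, Complex.re_sum]
    have : ∑ i, (∑ j, Gm i j * star (W i j)).re ≤ ∑ i, ∑ j, ((1 / 2) * (lam i * mu j * ‖W i j‖ ^ 2)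
      + (1 / 4) * (‖Gm i j‖ ^ 2 * ((mu j) ^ 2)⁻¹ + ‖Gm i j‖ ^ 2 * ((lam i) ^ 2)⁻¹)) := by
      refine Finset.sum_le_sum fun i _ => ?_
      rw [Complex.re_sum]
      exact Finset.sum_le_sum fun j _ => hterm i j
    refine this.trans ?_
    have e : ∑ i, ∑ j, ((1 / 2) * (lam i * mu j * ‖W i j‖ ^ 2)
      + (1 / 4) * (‖Gm i j‖ ^ 2 * ((mu j) ^ 2)⁻¹ + ‖Gm i j‖ ^ 2 * ((lam i) ^ 2)⁻¹))
      = (1 / 2) * (∑ i, ∑ j, lam i * mu j * ‖W i j‖ ^ 2)
        + (1 / 4) * ((∑ i, ∑ j, ‖Gm i j‖ ^ 2 * ((mu j) ^ 2)⁻¹)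
          + ∑ i, ∑ j, ‖Gm i j‖ ^ 2 * ((lam i) ^ 2)⁻¹) := by
      simp only [Finset.sum_add_distrib, Finset.mul_sum, mul_add]
    rw [e]
    have := hb1
    rw [hsA] at this
    rw [hsB] at hb2'
    have h5 : ∑ i, ∑ j, ‖Gm i j‖ ^ 2 * ((mu j) ^ 2)⁻¹ ≤ hs U := this
    linarith
  -- expand the left side
  have hexp : ∑ i, ∑ j, ovl E F i j * (lam i - mu j) ^ 2
      = hs U + hs V - 2 * ∑ i, ∑ j, lam i * mu j * ‖W i j‖ ^ 2 := by
    have e : ∀ i j, ovl E F i j * (lam i - mu j) ^ 2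
        = ovl E F i j * lam i ^ 2 + ovl E F i j * mu j ^ 2 - 2 * (lam i * mu j * ‖W i j‖ ^ 2) := by
      intro i j; unfold ovl; rw [← hW]; ring
    simp only [e, Finset.sum_add_distrib, Finset.sum_sub_distrib, ← Finset.mul_sum]
    congr 1
    congr 1
    · rw [← hU.sum_sq]
      refine Finset.sum_congr rfl fun i _ => ?_
      rw [← Finset.sum_mul, ovl_row hU hV, one_mul]
    · rw [Finset.sum_comm, ← hV.sum_sq]
      refine Finset.sum_congr rfl fun j _ => ?_
      rw [← Finset.sum_mul, ovl_col hU hV, one_mul]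
  rw [hexp, hs_sub_eq]
  linarith

/-- second form: `∑ m |lam² - mu²| ≤ 2 ‖U - V‖ sqrt(‖U‖² + ‖V‖²)` -/
theorem conn_abs {U V : Matrix α β ℂ} {E F : Matrix α α ℂ} {lam mu : α → ℝ}
    (hU : IsDiag U E lam) (hV : IsDiag V F mu) :
    ∑ i, ∑ j, ovl E F i j * |lam i ^ 2 - mu j ^ 2|
      ≤ 2 * Real.sqrt (hs (U - V)) * Real.sqrt (hs U + hs V) := by
  have h1 := conn hU hV
  have hsum2 : ∑ i, ∑ j, ovl E F i j * (lam i + mu j) ^ 2 ≤ 2 * (hs U + hs V) := by
    have : ∑ i, ∑ j, ovl E F i j * (lam i + mu j) ^ 2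
        ≤ ∑ i, ∑ j, (2 * (ovl E F i j * lam i ^ 2) + 2 * (ovl E F i j * mu j ^ 2)) := by
      refine Finset.sum_le_sum fun i _ => Finset.sum_le_sum fun j _ => ?_
      have := ovl_nonneg E F i j
      nlinarith [mul_nonneg this (sq_nonneg (lam i - mu j))]
    refine this.trans (le_of_eq ?_)
    simp only [Finset.sum_add_distrib, ← Finset.mul_sum]
    rw [mul_add]
    congr 1
    · congr 1
      rw [← hU.sum_sq]
      refine Finset.sum_congr rfl fun i _ => ?_
      rw [← Finset.sum_mul, ovl_row hU hV, one_mul]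
    · congr 1
      rw [Finset.sum_comm, ← hV.sum_sq]
      refine Finset.sum_congr rfl fun j _ => ?_
      rw [← Finset.sum_mul, ovl_col hU hV, one_mul]
  -- Cauchy-Schwarz over the product
  have hCS : (∑ p : α × α, (Real.sqrt (ovl E F p.1 p.2) * |lam p.1 - mu p.2|)
      * (Real.sqrt (ovl E F p.1 p.2) * (lam p.1 + mu p.2))) ^ 2
      ≤ (∑ p : α × α, (Real.sqrt (ovl E F p.1 p.2) * |lam p.1 - mu p.2|) ^ 2)
        * ∑ p : α × α, (Real.sqrt (ovl E F p.1 p.2) * (lam p.1 + mu p.2)) ^ 2 :=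
    Finset.sum_mul_sq_le_sq_mul_sq _ _ _
  have e1 : (∑ p : α × α, (Real.sqrt (ovl E F p.1 p.2) * |lam p.1 - mu p.2|)
      * (Real.sqrt (ovl E F p.1 p.2) * (lam p.1 + mu p.2)))
      = ∑ i, ∑ j, ovl E F i j * |lam i ^ 2 - mu j ^ 2| := by
    rw [Fintype.sum_prod_type]
    refine Finset.sum_congr rfl fun i _ => Finset.sum_congr rfl fun j _ => ?_
    dsimp only
    have : lam i ^ 2 - mu j ^ 2 = (lam i - mu j) * (lam i + mu j) := by ring
    rw [this, abs_mul, abs_of_nonneg (add_nonneg (hU.nonneg i) (hV.nonneg j))]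
    have hs := Real.mul_self_sqrt (ovl_nonneg E F i j)
    calc Real.sqrt (ovl E F i j) * |lam i - mu j| * (Real.sqrt (ovl E F i j) * (lam i + mu j))
        = (Real.sqrt (ovl E F i j) * Real.sqrt (ovl E F i j)) * (|lam i - mu j| * (lam i + mu j)) := by
          ring
      _ = _ := by rw [hs]
  have e2 : (∑ p : α × α, (Real.sqrt (ovl E F p.1 p.2) * |lam p.1 - mu p.2|) ^ 2)
      = ∑ i, ∑ j, ovl E F i j * (lam i - mu j) ^ 2 := by
    rw [Fintype.sum_prod_type]
    refine Finset.sum_congr rfl fun i _ => Finset.sum_congr rfl fun j _ => ?_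
    dsimp only
    rw [mul_pow, Real.sq_sqrt (ovl_nonneg E F i j), sq_abs]
  have e3 : (∑ p : α × α, (Real.sqrt (ovl E F p.1 p.2) * (lam p.1 + mu p.2)) ^ 2)
      = ∑ i, ∑ j, ovl E F i j * (lam i + mu j) ^ 2 := by
    rw [Fintype.sum_prod_type]
    refine Finset.sum_congr rfl fun i _ => Finset.sum_congr rfl fun j _ => ?_
    dsimp only
    rw [mul_pow, Real.sq_sqrt (ovl_nonneg E F i j)]
  rw [e1, e2, e3] at hCS
  have hd := hs_nonneg (U - V)
  have hn : 0 ≤ hs U + hs V := add_nonneg (hs_nonneg U) (hs_nonneg V)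
  have hbound : (∑ i, ∑ j, ovl E F i j * |lam i ^ 2 - mu j ^ 2|) ^ 2
      ≤ (2 * Real.sqrt (hs (U - V)) * Real.sqrt (hs U + hs V)) ^ 2 := by
    refine hCS.trans ?_
    rw [mul_pow, mul_pow, Real.sq_sqrt hd, Real.sq_sqrt hn]
    have hA0 : 0 ≤ ∑ i, ∑ j, ovl E F i j * (lam i + mu j) ^ 2 :=
      Finset.sum_nonneg fun i _ => Finset.sum_nonneg fun j _ =>
        mul_nonneg (ovl_nonneg _ _ _ _) (sq_nonneg _)
    calc (∑ i, ∑ j, ovl E F i j * (lam i - mu j) ^ 2) * ∑ i, ∑ j, ovl E F i j * (lam i + mu j) ^ 2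
        ≤ (2 * hs (U - V)) * (2 * (hs U + hs V)) := mul_le_mul h1 hsum2 hA0 (by linarith)
      _ = _ := by ring
  refine le_of_sq_le_sq ?_ ?_ |> fun h => h
  all_goals first | exact hbound | positivity

end Crest.H26PRConn
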