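import Crest.Agent.H26SnakyTree

/-! certificate data for S0047, part A 0 (computer generated) -/

set_option autoImplicit false
set_option maxRecDepth 100000

namespace Crest.Agent.H26Snaky

open T

def nA_0 : ℕ := 0x1000000010000000000000000000000000000000000000000000000000000000000000000000000000000000000000000000000000000000000000000000000000000
def cA_0 : ℕ := 0x8000000380000003800000028000003ef000001fe000003fe0000007e000000380000000000000000000000000000000000000000000000000000000000000000000000000000000000000000000
theorem lA_0 : S nA_0 cA_0 13 := S_of_chk [] trivial (node 464 (merge (node 559 (merge (node 527 (merge (leaf 5 431 432) (node 591 (merge (leaf 6 463 495) (leaf 6 495 623))))) (merge (node 591 (merge (leaf 5 463 560) (node 527 (merge (leaf 6 463 495) (leaf 6 495 623))))) (merge (node 560 (merge (leaf 5 463 591) (node 561 (merge (leaf 4 464 593) (node 432 (merge (leaf 4 432 529) (node 433 (merge (leaf 6 400 401) (leaf 6 432 465))))))))) (node 432 (merge (leaf 5 431 527) (node 561 (merge (leaf 4 432 529) (node 433 (merge (leaf 6 400 401) (node 560 (merge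 (leaf 6 432 465) (leaf 4 464 593))))))))))))) (merge (node 432 (merge (node 561 (merge (leaf 4 432 529) (node 433 (merge (leaf 6 400 401) (node 560 (merge (leaf 6 432 465) (leaf 4 464 593))))))) (merge (node 529 (merge (leaf 4 432 561) (node 400 (merge (leaf 4 400 497) (node 399 (merge (leaf 7 367 367) (leaf 7 399 431))))))) (node 401 (merge (leaf 6 400 433) (node 400 (merge (leaf 6 368 369) (node 399 (merge (leaf 7 367 367) (leaf 7 399 431)))))))))) (merge (node 432 (merge (node 561 (merge (leaf 4 432 529) (node 560 (merge (leaf 4 464 593) (node 559 (merge (leaf 5 431 527) (leaf 5 463 591))))))) (merge (node 529 (merge (leaf 4 432 561) (node 400 (merge (leaf 4 400 497) (node 399 (merge (leaf 7 367 367) (leaf 7 399 431))))))) (node 527 (merge (leaf 5 431 559) (node 400 (merge (leaf 5 399 495) (node 399 (merge (leaf 7 367 367) (leaf 7 399 431)))))))))) (merge (node 465 (merge (node 560 (merge (leaf 6 432 433) (node 592 (merge (leaf 6 464 497) (node 591 (merge (leaf 5 463 559) (leaf 5 495 623))))))) (merge (node 560 (merge (leaf 6 432 433) (node 591 (merge (leaf 5 463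 559) (node 463 (merge (leaf 7 431 431) (node 592 (merge (leaf 7 463 495) (leaf 5 495 623))))))))) (merge (node 463 (merge (node 431 (merge (leaf 7 431 560) (node 399 (merge (leaf 4 367 367) (leaf 4 399 495))))) (merge (node 560 (merge (leaf 7 431 431) (node 497 (merge (leaf 6 464 592) (node 498 (merge (leaf 0 462 462) (leaf 3 463 499))))))) (merge (node 466 (merge (node 431 (merge (leaf 3 430 430) (node 399 (merge (leaf 4 367 367) (leaf 4 399 495))))) (merge (node 499 (merge (leaf 0 463 498) (node 467 (merge (leaf 1 463 495) (leaf 0 464 500))))) (node 499 (merge (leaf 0 463 498) (node 467 (merge (leaf 0 464 500) (node 435 (merge (leaf 2 431 434) (leaf 2 432 436)))))))))) (node 498 (merge (node 497 (merge (leaf 0 462 462) (leaf 3 463 499))) (merge (node 466 (merge (leaf 0 463 499) (node 495 (merge (leaf 1 463 467) (leaf 1 462 494))))) (node 462 (merge (leaf 0 462 497) (node 494 (merge (leaf 1 461 493) (node 495 (merge (leaf 1 462 466) (node 430 (merge (leaf 3 429 429) (node 527 (merge (leaf 4 398 398) (leaf 7 430 559)))))))))))))))))) (node 466 (merge (node 495 (merge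 (leaf 1 463 467) (node 494 (merge (leaf 1 462 463) (leaf 2 461 493))))) (merge (node 467 (merge (leaf 1 463 495) (node 500 (merge (leaf 0 464 499) (node 468 (merge (leaf 1 464 497) (leaf 0 465 501))))))) (merge (node 463 (merge (node 431 (merge (leaf 3 430 430) (node 399 (merge (leaf 4 367 367) (leaf 4 399 495))))) (merge (node 434 (merge (leaf 2 431 435) (node 462 (merge (leaf 2 430 433) (node 494 (merge (leaf 1 461 493) (leaf 1 462 495))))))) (node 434 (merge (leaf 2 431 435) (node 462 (merge (leaf 2 430 433) (node 461 (merge (leaf 0 461 497) (node 493 (merge (leaf 1 460 492) (leaf 1 461 494)))))))))))) (node 435 (merge (node 434 (merge (leaf 2 431 463) (node 436 (merge (leaf 1 432 433) (leaf 1 433 437))))) (merge (node 467 (merge (leaf 2 432 436) (node 500 (merge (leaf 0 464 499) (node 468 (merge (leaf 1 464 497) (leaf 0 465 501))))))) (node 463 (merge (leaf 2 431 434) (node 430 (merge (leaf 3 430 431) (node 462 (merge (leaf 3 429 429) (node 497 (merge (leaf 0 461 461) (leaf 0 462 498)))))))))))))))))))) (node 465 (merge (node 432 (merge (node 401 (merge (leaf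 6 400 433) (node 400 (merge (leaf 6 368 369) (node 497 (merge (leaf 4 368 368) (leaf 4 400 529))))))) (merge (node 399 (merge (leaf 7 399 431) (node 400 (merge (leaf 7 367 367) (node 497 (merge (leaf 4 368 368) (leaf 4 400 529))))))) (node 433 (merge (leaf 6 400 401) (node 431 (merge (leaf 7 399 399) (node 430 (merge (leaf 0 429 429) (leaf 0 430 466)))))))))) (merge (node 432 (merge (node 527 (merge (leaf 5 431 559) (node 400 (merge (leaf 5 399 495) (node 497 (merge (leaf 4 368 368) (leaf 4 400 529))))))) (node 431 (merge (leaf 7 399 399) (node 430 (merge (leaf 0 429 429) (node 466 (merge (leaf 3 430 463) (leaf 3 431 467))))))))) (merge (node 466 (merge (node 495 (merge (leaf 1 463 467) (node 494 (merge (leaf 1 462 463) (leaf 2 461 493))))) (merge (node 467 (merge (leaf 1 463 495) (node 436 (merge (leaf 2 432 435) (node 468 (merge (leaf 2 433 437) (leaf 1 464 497))))))) (merge (node 467 (merge (node 500 (merge (leaf 0 464 499) (node 468 (merge (leaf 1 464 497) (leaf 0 465 501))))) (merge (node 436 (merge (leaf 2 432 435) (node 468 (merge (leaf 2 433 437) (leaf 1 464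 497))))) (node 499 (merge (leaf 0 464 500) (node 463 (merge (leaf 0 463 498) (node 435 (merge (leaf 2 431 434) (leaf 2 432 436)))))))))) (node 529 (merge (node 432 (merge (leaf 4 432 561) (node 400 (merge (leaf 4 400 497) (node 527 (merge (leaf 5 399 495) (leaf 5 431 559))))))) (merge (node 432 (merge (leaf 4 432 561) (node 497 (merge (leaf 4 400 400) (node 433 (merge (leaf 5 400 401) (node 434 (merge (leaf 6 401 402) (node 435 (merge (leaf 1 432 436) (leaf 1 431 463))))))))))) (merge (node 432 (merge (leaf 4 432 561) (node 527 (merge (leaf 5 431 559) (node 400 (merge (leaf 5 399 495) (node 401 (merge (leaf 6 368 369) (leaf 6 400 433))))))))) (merge (node 463 (merge (node 434 (merge (leaf 2 431 435) (node 497 (merge (leaf 6 433 561) (node 433 (merge (leaf 5 400 401) (leaf 6 401 402))))))) (merge (node 494 (merge (leaf 1 462 495) (node 462 (merge (leaf 1 461 493) (node 497 (merge (leaf 0 461 461) (leaf 0 462 498))))))) (node 434 (merge (leaf 2 431 435) (node 462 (merge (leaf 2 430 433) (node 494 (merge (leaf 1 461 493) (leaf 1 462 495)))))))))) (node 463 (merge (node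 434 (merge (leaf 2 431 435) (node 462 (merge (leaf 2 430 433) (node 497 (merge (leaf 0 461 461) (leaf 0 462 498))))))) (merge (node 494 (merge (leaf 1 462 495) (node 462 (merge (leaf 1 461 493) (node 497 (merge (leaf 0 461 461) (leaf 0 462 498))))))) (merge (node 434 (merge (leaf 2 431 435) (node 462 (merge (leaf 2 430 433) (node 494 (merge (leaf 1 461 493) (leaf 1 462 495))))))) (node 498 (merge (leaf 0 463 499) (node 495 (merge (leaf 1 462 494) (node 434 (merge (leaf 2 431 435) (node 402 (merge (leaf 5 401 497) (node 401 (merge (leaf 7 369 369) (node 432 (merge (leaf 6 400 433) (node 527 (merge (leaf 5 399 400) (leaf 5 431 559)))))))))))))))))))))))))))) (merge (node 466 (merge (node 495 (merge (leaf 1 463 467) (node 494 (merge (leaf 1 462 463) (leaf 2 461 493))))) (merge (node 467 (merge (leaf 1 463 495) (node 436 (merge (leaf 2 432 435) (node 468 (merge (leaf 2 433 437) (leaf 1 464 497))))))) (merge (node 467 (merge (node 500 (merge (leaf 0 464 499) (node 468 (merge (leaf 1 464 497) (leaf 0 465 501))))) (merge (node 436 (merge (leaf 2 432 435) (node 468 (merge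 (leaf 2 433 437) (leaf 1 464 497))))) (node 499 (merge (leaf 0 464 500) (node 463 (merge (leaf 0 463 498) (node 435 (merge (leaf 2 431 434) (leaf 2 432 436)))))))))) (node 463 (merge (node 434 (merge (leaf 2 431 435) (node 462 (merge (leaf 2 430 433) (node 494 (merge (leaf 1 461 493) (leaf 1 462 495))))))) (merge (node 431 (merge (leaf 3 430 430) (node 399 (merge (leaf 4 367 367) (leaf 4 399 495))))) (node 434 (merge (leaf 2 431 435) (node 433 (merge (leaf 2 430 462) (node 401 (merge (leaf 5 368 369) (leaf 5 400 497)))))))))))))) (node 432 (merge (node 527 (merge (leaf 5 431 559) (node 400 (merge (leaf 5 399 495) (node 399 (merge (leaf 7 367 367) (leaf 7 399 431))))))) (merge (node 401 (merge (leaf 6 400 433) (node 400 (merge (leaf 6 368 369) (node 399 (merge (leaf 7 367 367) (leaf 7 399 431))))))) (merge (node 401 (merge (leaf 6 400 433) (node 400 (merge (leaf 6 368 369) (node 527 (merge (leaf 5 399 495) (leaf 5 431 559))))))) (node 527 (merge (leaf 5 431 559) (node 433 (merge (leaf 6 400 401) (node 431 (merge (leaf 7 399 399) (node 430 (merge (leaf 0 429 429) (node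 462 (merge (leaf 1 429 461) (node 463 (merge (leaf 1 430 434) (node 398 (merge (leaf 3 397 397) (leaf 7 398 495))))))))))))))))))))))))))))) nA_0 cA_0 13 (by decide +kernel)
def nA_1 : ℕ := 0x100000001000000010000000000000000000000000000000000000000000000000000000000000000000000000000000000000000000000000000000000000000000000000000
def cA_1 : ℕ := 0x280000003e0000003e0000003e000001ff800000ef8000002f80000068000000280000000800000008000000000000000000000000000000000000000000000000000000000000000000000000000000000000000000000000000
theorem lA_1 : S nA_1 cA_1 12 := S_of_chk [] trivial (node 559 (merge (node 592 (merge (node 593 (merge (leaf 4 496 625) (node 594 (merge (leaf 3 559 595) (node 591 (merge (leaf 3 558 558) (leaf 5 495 623))))))) (merge (node 625 (merge (leaf 4 496 593) (node 624 (merge (leaf 4 528 657) (node 495 (merge (leaf 7 463 463) (leaf 7 495 527))))))) (node 623 (merge (leaf 5 495 591) (node 495 (merge (leaf 7 463 463) (node 624 (merge (leaf 7 495 527) (leaf 5 527 655)))))))))) (merge (node 592 (merge (node 593 (merge (leaf 4 496 625) (node 558 (merge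 (leaf 0 557 557) (node 594 (merge (leaf 0 558 561) (leaf 3 559 595))))))) (node 497 (merge (leaf 6 464 465) (node 624 (merge (leaf 6 496 529) (node 623 (merge (leaf 5 495 591) (leaf 5 527 655))))))))) (merge (node 558 (merge (node 557 (merge (leaf 2 525 529) (node 556 (merge (leaf 2 524 527) (node 588 (merge (leaf 1 555 587) (leaf 1 556 589))))))) (merge (node 525 (merge (node 557 (merge (leaf 3 524 524) (leaf 2 525 529))) (merge (node 561 (merge (leaf 3 525 526) (node 593 (merge (leaf 0 558 594) (node 625 (merge (leaf 7 496 529) (leaf 7 528 657))))))) (node 524 (merge (leaf 3 524 557) (node 526 (merge (leaf 0 523 523) (leaf 3 525 561)))))))) (merge (node 561 (merge (node 590 (merge (leaf 1 557 589) (node 562 (merge (leaf 1 558 591) (node 526 (merge (leaf 3 525 525) (leaf 3 526 527))))))) (merge (node 593 (merge (leaf 0 558 594) (node 625 (merge (leaf 7 496 529) (leaf 7 528 657))))) (node 594 (merge (leaf 0 558 593) (node 562 (merge (leaf 0 559 595) (node 590 (merge (leaf 1 557 589) (leaf 1 558 591)))))))))) (node 525 (merge (node 526 (merge (leaf 3 525 561) (node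 524 (merge (leaf 0 523 523) (leaf 0 524 527))))) (merge (node 557 (merge (leaf 3 524 524) (node 556 (merge (leaf 2 524 527) (node 588 (merge (leaf 1 555 587) (leaf 1 556 589))))))) (node 561 (merge (leaf 3 525 526) (node 594 (merge (leaf 0 558 593) (node 562 (merge (leaf 0 559 595) (node 590 (merge (leaf 1 557 589) (leaf 1 558 591)))))))))))))))) (merge (node 591 (merge (node 623 (merge (leaf 6 495 527) (leaf 6 527 655))) (merge (node 623 (merge (leaf 5 495 592) (leaf 6 527 655))) (node 561 (merge (node 590 (merge (leaf 1 558 562) (node 589 (merge (leaf 1 557 558) (leaf 2 556 588))))) (merge (node 562 (merge (leaf 1 558 590) (node 563 (merge (leaf 3 527 527) (leaf 1 559 592))))) (merge (node 592 (merge (node 495 (merge (leaf 7 463 463) (node 527 (merge (leaf 7 495 624) (node 562 (merge (leaf 3 526 526) (leaf 3 527 563))))))) (merge (node 625 (merge (leaf 4 496 593) (node 624 (merge (leaf 4 528 657) (node 497 (merge (leaf 6 464 465) (leaf 6 496 529))))))) (node 562 (merge (leaf 1 559 563) (node 526 (merge (leaf 3 526 527) (node 558 (merge (leaf 3 525 525) (node 593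 (merge (leaf 0 557 557) (leaf 4 496 625)))))))))))) (node 592 (merge (node 497 (merge (leaf 6 464 465) (node 624 (merge (leaf 6 496 529) (node 656 (merge (leaf 7 527 527) (leaf 7 559 688))))))) (merge (node 625 (merge (leaf 4 496 593) (node 624 (merge (leaf 4 528 657) (node 656 (merge (leaf 7 527 527) (leaf 7 559 688))))))) (merge (node 625 (merge (leaf 4 496 593) (node 624 (merge (leaf 4 528 657) (node 497 (merge (leaf 6 464 465) (leaf 6 496 529))))))) (node 590 (merge (leaf 2 557 589) (node 497 (merge (leaf 6 464 465) (node 495 (merge (leaf 7 463 463) (node 527 (merge (leaf 5 494 622) (node 526 (merge (leaf 1 494 498) (leaf 0 525 525)))))))))))))))))))))) (merge (node 592 (merge (node 497 (merge (leaf 6 464 465) (node 624 (merge (leaf 6 496 529) (node 495 (merge (leaf 7 463 463) (leaf 7 495 527))))))) (merge (node 625 (merge (leaf 4 496 593) (node 624 (merge (leaf 4 528 657) (node 623 (merge (leaf 5 495 591) (leaf 5 527 655))))))) (node 593 (merge (leaf 4 496 625) (node 594 (merge (leaf 3 559 595) (node 591 (merge (leaf 5 495 623) (node 562 (merge (leaf 2 559 563)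 (node 590 (merge (leaf 1 558 561) (node 622 (merge (leaf 1 589 621) (node 495 (merge (leaf 7 463 463) (leaf 5 494 527)))))))))))))))))) (merge (node 592 (merge (node 593 (merge (leaf 4 496 625) (node 558 (merge (leaf 0 557 557) (node 594 (merge (leaf 0 558 561) (leaf 3 559 595))))))) (merge (node 625 (merge (leaf 4 496 593) (node 624 (merge (leaf 4 528 657) (node 495 (merge (leaf 7 463 463) (leaf 7 495 527))))))) (merge (node 495 (merge (leaf 7 463 463) (node 624 (merge (leaf 7 495 527) (node 657 (merge (leaf 4 528 625) (node 656 (merge (leaf 4 560 689) (node 655 (merge (leaf 5 527 623) (leaf 5 559 687))))))))))) (node 495 (merge (leaf 7 463 463) (node 624 (merge (leaf 7 495 527) (node 655 (merge (leaf 5 527 623) (node 656 (merge (leaf 5 559 687) (node 689 (merge (leaf 4 560 657) (node 688 (merge (leaf 4 592 721) (node 561 (merge (leaf 6 528 529) (leaf 6 560 593))))))))))))))))))) (merge (node 495 (merge (node 463 (merge (leaf 7 463 592) (node 431 (merge (leaf 4 399 399) (leaf 4 431 527))))) (merge (node 592 (merge (leaf 7 463 463) (node 497 (merge (leaf 6 464 465)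 (node 624 (merge (leaf 6 496 529) (node 623 (merge (leaf 5 495 591) (leaf 5 527 655))))))))) (node 558 (merge (node 557 (merge (leaf 2 525 529) (node 556 (merge (leaf 2 524 527) (node 588 (merge (leaf 1 555 587) (leaf 1 556 589))))))) (merge (node 557 (merge (leaf 2 525 529) (node 527 (merge (leaf 2 524 556) (node 525 (merge (leaf 3 524 524) (node 526 (merge (leaf 2 493 497) (leaf 0 525 561))))))))) (merge (node 557 (merge (leaf 2 525 529) (node 588 (merge (leaf 1 556 589) (node 556 (merge (leaf 1 555 587) (node 524 (merge (leaf 3 523 523) (leaf 3 524 525))))))))) (node 561 (merge (node 594 (merge (leaf 0 558 593) (node 562 (merge (leaf 0 559 595) (node 526 (merge (leaf 3 525 525) (leaf 3 526 527))))))) (merge (node 594 (merge (leaf 0 558 593) (node 562 (merge (leaf 0 559 595) (node 590 (merge (leaf 1 557 589) (leaf 1 558 591))))))) (node 590 (merge (leaf 1 557 589) (node 526 (merge (leaf 3 525 525) (node 622 (merge (leaf 6 494 527) (node 653 (merge (leaf 5 525 621) (node 654 (merge (leaf 5 557 685) (node 687 (merge (leaf 4 558 655) (node 686 (merge (leaf 6 558 591)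 (leaf 4 590 719))))))))))))))))))))))))) (node 558 (merge (node 557 (merge (leaf 2 525 529) (node 556 (merge (leaf 2 524 527) (node 588 (merge (leaf 1 555 587) (leaf 1 556 589))))))) (merge (node 557 (merge (leaf 2 525 529) (node 527 (merge (leaf 2 524 556) (node 525 (merge (leaf 3 524 524) (node 526 (merge (leaf 2 493 497) (leaf 0 525 561))))))))) (merge (node 557 (merge (leaf 2 525 529) (node 589 (merge (leaf 1 556 588) (node 561 (merge (leaf 1 557 590) (node 525 (merge (leaf 3 524 524) (leaf 3 525 526))))))))) (merge (node 525 (merge (node 526 (merge (leaf 3 525 561) (node 524 (merge (leaf 0 523 523) (leaf 0 524 527))))) (merge (node 557 (merge (leaf 3 524 524) (node 556 (merge (leaf 2 524 527) (node 588 (merge (leaf 1 555 587) (leaf 1 556 589))))))) (merge (node 561 (merge (leaf 3 525 526) (node 590 (merge (leaf 1 557 589) (node 562 (merge (leaf 1 558 591) (node 595 (merge (leaf 0 559 594) (node 563 (merge (leaf 3 527 527) (leaf 0 560 596))))))))))) (node 557 (merge (leaf 3 524 524) (node 561 (merge (leaf 3 525 526) (node 590 (merge (leaf 1 557 589) (node 591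 (merge (leaf 1 558 562) (node 556 (merge (leaf 0 555 555) (leaf 0 556 592))))))))))))))) (node 590 (merge (node 589 (merge (leaf 1 557 561) (node 588 (merge (leaf 2 555 587) (leaf 2 556 591))))) (merge (node 561 (merge (leaf 1 557 589) (node 526 (merge (leaf 3 525 525) (node 527 (merge (leaf 3 526 562) (node 622 (merge (leaf 6 494 495) (leaf 6 526 654))))))))) (node 592 (merge (node 623 (merge (leaf 5 495 591) (node 495 (merge (leaf 7 463 463) (node 624 (merge (leaf 7 495 527) (leaf 5 527 655))))))) (merge (node 497 (merge (leaf 6 464 465) (node 624 (merge (leaf 6 496 529) (node 656 (merge (leaf 7 527 527) (node 688 (merge (leaf 7 559 591) (node 687 (merge (leaf 5 559 655) (leaf 5 591 719))))))))))) (merge (node 623 (merge (leaf 5 495 591) (node 624 (merge (leaf 5 527 655) (node 497 (merge (leaf 6 464 465) (leaf 6 496 529))))))) (merge (node 591 (merge (leaf 5 495 623) (node 497 (merge (leaf 6 464 465) (node 495 (merge (leaf 7 463 463) (node 527 (merge (leaf 5 494 622) (node 526 (merge (leaf 1 494 498) (leaf 2 493 525))))))))))) (node 495 (merge (leaf 7 463 463) (node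 624 (merge (leaf 7 495 527) (node 657 (merge (leaf 4 528 625) (node 656 (merge (leaf 4 560 689) (node 655 (merge (leaf 5 527 623) (leaf 5 559 687)))))))))))))))))))))))))))))))) nA_1 cA_1 12 (by decide +kernel)
def nA_2 : ℕ := 0x100000001000000010000000000000000000000000000000000000000000000000000000000000000000000000000000000000000000000000000000000000000000000000000
def cA_2 : ℕ := 0x28000000380000003a0000003e000003ff800001ef800003af8000000f0000000e0000000000000000000000000000000000000000000000000000000000000000000000000000000000000000000000000000000000000000000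
theorem lA_2 : S nA_2 cA_2 12 := S_of_chk [] trivial (node 559 (merge (node 592 (merge (node 593 (merge (leaf 4 496 625) (node 594 (merge (leaf 3 559 595) (node 591 (merge (leaf 3 558 558) (leaf 5 495 623))))))) (merge (node 625 (merge (leaf 4 496 593) (node 624 (merge (leaf 4 528 657) (node 495 (merge (leaf 7 463 463) (leaf 7 495 527))))))) (node 623 (merge (leaf 5 495 591) (node 495 (merge (leaf 7 463 463) (node 624 (merge (leaf 7 495 527) (leaf 5 527 655)))))))))) (merge (node 558 (merge (node 557 (merge (leaf 2 525 529) (node 556 (merge (leaf 2 524 527) (node 588 (merge (leaf 1 555 587) (leaf 1 556 589))))))) (merge (node 557 (merge (leaf 2 525 529) (node 589 (merge (leaf 1 556 588) (node 525 (merge (leaf 3 524 524) (node 526 (merge (leaf 3 525 561) (node 621 (merge (leaf 6 493 494) (leaf 6 525 653))))))))))) (merge (node 561 (merge (node 590 (merge (leaf 1 557 589) (node 562 (merge (leaf 1 558 591) (node 526 (merge (leaf 3 525 525) (leaf 3 526 527))))))) (merge (node 593 (merge (leaf 0 558 594) (node 625 (merge (leaf 7 496 529) (leaf 7 528 657))))) (node 594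 (merge (leaf 0 558 593) (node 562 (merge (leaf 0 559 595) (node 590 (merge (leaf 1 557 589) (leaf 1 558 591)))))))))) (merge (node 525 (merge (node 526 (merge (leaf 3 525 561) (node 524 (merge (leaf 0 523 523) (leaf 0 524 527))))) (merge (node 557 (merge (leaf 3 524 524) (node 556 (merge (leaf 2 524 527) (node 588 (merge (leaf 1 555 587) (leaf 1 556 589))))))) (node 561 (merge (leaf 3 525 526) (node 594 (merge (leaf 0 558 593) (node 562 (merge (leaf 0 559 595) (node 590 (merge (leaf 1 557 589) (leaf 1 558 591)))))))))))) (node 557 (merge (leaf 2 525 529) (node 527 (merge (leaf 2 524 556) (node 525 (merge (leaf 3 524 524) (node 561 (merge (leaf 0 525 526) (node 562 (merge (leaf 3 527 563) (node 591 (merge (leaf 1 558 590) (leaf 6 495 623)))))))))))))))))) (merge (node 558 (merge (node 557 (merge (leaf 2 525 529) (node 588 (merge (leaf 1 556 589) (node 556 (merge (leaf 1 555 587) (node 524 (merge (leaf 3 523 523) (leaf 3 524 525))))))))) (merge (node 593 (merge (node 625 (merge (leaf 4 496 592) (node 561 (merge (leaf 7 496 529) (leaf 7 528 657))))) (merge (node 594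 (merge (leaf 0 558 561) (node 592 (merge (leaf 3 558 591) (leaf 3 559 595))))) (merge (node 561 (merge (leaf 0 558 594) (node 625 (merge (leaf 7 496 529) (leaf 7 528 657))))) (node 592 (merge (leaf 4 496 625) (node 594 (merge (leaf 3 559 595) (node 591 (merge (leaf 3 558 558) (leaf 5 495 623))))))))))) (node 593 (merge (node 592 (merge (leaf 0 557 557) (leaf 4 496 625))) (merge (node 594 (merge (leaf 0 558 561) (node 592 (merge (leaf 3 558 591) (leaf 3 559 595))))) (node 561 (merge (leaf 0 558 594) (node 590 (merge (leaf 1 557 589) (node 591 (merge (leaf 1 558 562) (node 526 (merge (leaf 3 525 525) (node 623 (merge (leaf 4 494 494) (leaf 7 526 655))))))))))))))))) (merge (node 558 (merge (node 557 (merge (leaf 2 525 529) (node 556 (merge (leaf 2 524 527) (node 588 (merge (leaf 1 555 587) (leaf 1 556 589))))))) (merge (node 557 (merge (leaf 2 525 529) (node 593 (merge (leaf 0 557 592) (node 561 (merge (leaf 0 558 594) (node 525 (merge (leaf 3 524 524) (leaf 3 525 526))))))))) (merge (node 525 (merge (node 526 (merge (leaf 3 525 561) (node 524 (merge (leaf 0 523 523)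 (leaf 0 524 527))))) (merge (node 557 (merge (leaf 3 524 524) (node 556 (merge (leaf 2 524 527) (node 588 (merge (leaf 1 555 587) (leaf 1 556 589))))))) (node 561 (merge (leaf 3 525 526) (node 594 (merge (leaf 0 558 593) (node 562 (merge (leaf 0 559 595) (node 590 (merge (leaf 1 557 589) (leaf 1 558 591)))))))))))) (node 591 (merge (node 623 (merge (leaf 5 495 592) (leaf 6 527 655))) (node 561 (merge (node 594 (merge (leaf 0 558 593) (node 562 (merge (leaf 0 559 595) (node 590 (merge (leaf 1 557 589) (leaf 1 558 591))))))) (merge (node 594 (merge (leaf 0 558 593) (node 562 (merge (leaf 0 559 595) (node 526 (merge (leaf 3 525 525) (leaf 3 526 527))))))) (node 590 (merge (leaf 1 557 589) (node 526 (merge (leaf 3 525 525) (node 494 (merge (leaf 4 462 462) (node 493 (merge (leaf 7 461 461) (node 529 (merge (leaf 0 493 495) (leaf 3 493 527)))))))))))))))))))) (merge (node 592 (merge (node 625 (merge (leaf 4 496 593) (node 624 (merge (leaf 4 528 657) (node 623 (merge (leaf 5 495 591) (leaf 5 527 655))))))) (merge (node 625 (merge (leaf 4 496 593) (node 624 (merge (leaf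 4 528 657) (node 495 (merge (leaf 7 463 463) (leaf 7 495 527))))))) (merge (node 623 (merge (leaf 5 495 591) (node 495 (merge (leaf 7 463 463) (node 624 (merge (leaf 7 495 527) (leaf 5 527 655))))))) (node 593 (merge (leaf 4 496 625) (node 591 (merge (leaf 5 495 623) (node 594 (merge (leaf 3 558 558) (node 562 (merge (leaf 2 559 563) (node 590 (merge (leaf 1 558 561) (node 495 (merge (leaf 7 463 463) (node 527 (merge (leaf 5 494 622) (node 494 (merge (leaf 7 462 462) (node 493 (merge (leaf 0 492 492) (leaf 0 493 529))))))))))))))))))))))) (merge (node 592 (merge (node 625 (merge (leaf 4 496 593) (node 624 (merge (leaf 4 528 657) (node 623 (merge (leaf 5 495 591) (leaf 5 527 655))))))) (merge (node 625 (merge (leaf 4 496 593) (node 624 (merge (leaf 4 528 657) (node 495 (merge (leaf 7 463 463) (leaf 7 495 527))))))) (merge (node 623 (merge (leaf 5 495 591) (node 495 (merge (leaf 7 463 463) (node 624 (merge (leaf 7 495 527) (leaf 5 527 655))))))) (node 593 (merge (leaf 4 496 625) (node 594 (merge (leaf 3 559 595) (node 591 (merge (leaf 5 495 623) (node 562 (merge (leaf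 2 559 563) (node 590 (merge (leaf 1 558 561) (node 495 (merge (leaf 7 463 463) (node 527 (merge (leaf 5 494 622) (node 494 (merge (leaf 7 462 462) (node 493 (merge (leaf 0 492 492) (leaf 0 493 529))))))))))))))))))))))) (merge (node 592 (merge (node 593 (merge (leaf 4 496 625) (node 558 (merge (leaf 0 557 557) (node 594 (merge (leaf 0 558 561) (leaf 3 559 595))))))) (merge (node 625 (merge (leaf 4 496 593) (node 624 (merge (leaf 4 528 657) (node 495 (merge (leaf 7 463 463) (leaf 7 495 527))))))) (merge (node 495 (merge (leaf 7 463 463) (node 624 (merge (leaf 7 495 527) (node 657 (merge (leaf 4 528 625) (node 656 (merge (leaf 4 560 689) (node 655 (merge (leaf 5 527 623) (leaf 5 559 687))))))))))) (node 495 (merge (leaf 7 463 463) (node 624 (merge (leaf 7 495 527) (node 655 (merge (leaf 5 527 623) (node 656 (merge (leaf 5 559 687) (node 689 (merge (leaf 4 560 657) (node 688 (merge (leaf 4 592 721) (node 561 (merge (leaf 6 528 529) (leaf 6 560 593))))))))))))))))))) (merge (node 592 (merge (node 593 (merge (leaf 4 496 625) (node 558 (merge (leaf 0 557 557) (node 594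 (merge (leaf 0 558 561) (leaf 3 559 595))))))) (merge (node 495 (merge (leaf 7 463 463) (node 624 (merge (leaf 7 495 527) (node 657 (merge (leaf 4 528 625) (node 656 (merge (leaf 4 560 689) (node 688 (merge (leaf 7 559 591) (node 687 (merge (leaf 5 559 655) (leaf 5 591 719))))))))))))) (node 561 (merge (node 495 (merge (leaf 7 463 463) (node 527 (merge (leaf 7 495 624) (node 562 (merge (leaf 3 526 526) (leaf 3 527 563))))))) (merge (node 495 (merge (leaf 7 463 463) (node 624 (merge (leaf 7 495 527) (node 656 (merge (leaf 6 528 529) (node 687 (merge (leaf 5 559 655) (node 688 (merge (leaf 6 560 593) (leaf 5 591 719))))))))))) (node 594 (merge (node 595 (merge (leaf 0 559 562) (leaf 3 559 593))) (merge (node 558 (merge (leaf 0 558 593) (node 589 (merge (leaf 1 557 590) (node 557 (merge (leaf 2 525 529) (leaf 1 556 588))))))) (node 562 (merge (leaf 0 559 595) (node 563 (merge (leaf 1 559 591) (node 532 (merge (leaf 2 528 531) (node 564 (merge (leaf 3 528 529) (leaf 2 529 533)))))))))))))))))) (merge (node 558 (merge (node 557 (merge (leaf 2 525 529) (node 556 (merge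 (leaf 2 524 527) (node 588 (merge (leaf 1 555 587) (leaf 1 556 589))))))) (merge (node 557 (merge (leaf 2 525 529) (node 589 (merge (leaf 1 556 588) (node 525 (merge (leaf 3 524 524) (node 526 (merge (leaf 3 525 561) (node 621 (merge (leaf 6 493 494) (leaf 6 525 653))))))))))) (merge (node 557 (merge (leaf 2 525 529) (node 527 (merge (leaf 2 524 556) (node 525 (merge (leaf 3 524 524) (node 561 (merge (leaf 0 525 526) (node 590 (merge (leaf 1 557 589) (node 562 (merge (leaf 3 527 563) (leaf 1 558 591))))))))))))) (merge (node 557 (merge (leaf 2 525 529) (node 556 (merge (leaf 2 524 527) (node 591 (merge (leaf 0 556 592) (node 590 (merge (leaf 0 555 555) (node 561 (merge (leaf 1 558 562) (node 525 (merge (leaf 3 524 524) (leaf 3 525 526))))))))))))) (merge (node 525 (merge (node 526 (merge (leaf 3 525 561) (node 524 (merge (leaf 0 523 523) (leaf 0 524 527))))) (merge (node 557 (merge (leaf 3 524 524) (node 556 (merge (leaf 2 524 527) (node 588 (merge (leaf 1 555 587) (leaf 1 556 589))))))) (merge (node 561 (merge (leaf 3 525 526) (node 590 (merge (leaf 1 557 589) (node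 562 (merge (leaf 1 558 591) (node 595 (merge (leaf 0 559 594) (node 563 (merge (leaf 3 527 527) (leaf 0 560 596))))))))))) (node 557 (merge (leaf 3 524 524) (node 561 (merge (leaf 3 525 526) (node 590 (merge (leaf 1 557 589) (node 591 (merge (leaf 1 558 562) (node 556 (merge (leaf 0 555 555) (leaf 0 556 592))))))))))))))) (node 526 (merge (node 525 (merge (leaf 3 525 561) (node 524 (merge (leaf 0 523 523) (leaf 0 524 527))))) (merge (node 561 (merge (leaf 3 525 525) (node 590 (merge (leaf 1 557 589) (node 591 (merge (leaf 1 558 562) (node 623 (merge (leaf 4 494 494) (leaf 7 526 655))))))))) (merge (node 592 (merge (node 591 (merge (leaf 5 495 623) (node 494 (merge (leaf 4 462 462) (node 495 (merge (leaf 7 463 463) (node 493 (merge (leaf 0 493 529) (node 590 (merge (leaf 7 461 461) (node 589 (merge (leaf 1 557 561) (leaf 2 556 588))))))))))))) (merge (node 623 (merge (leaf 5 495 591) (node 624 (merge (leaf 5 527 655) (node 656 (merge (leaf 7 527 527) (node 657 (merge (leaf 4 528 625) (leaf 4 560 689))))))))) (merge (node 495 (merge (leaf 7 463 463) (node 624 (merge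 (leaf 7 495 527) (node 657 (merge (leaf 4 528 625) (node 656 (merge (leaf 4 560 689) (node 655 (merge (leaf 5 527 623) (leaf 5 559 687))))))))))) (node 495 (merge (leaf 7 463 463) (node 624 (merge (leaf 7 495 527) (node 657 (merge (leaf 4 528 625) (node 656 (merge (leaf 4 560 689) (node 688 (merge (leaf 7 559 591) (node 687 (merge (leaf 5 559 655) (leaf 5 591 719))))))))))))))))) (node 592 (merge (node 623 (merge (leaf 5 495 591) (node 624 (merge (leaf 5 527 655) (node 656 (merge (leaf 7 527 527) (node 657 (merge (leaf 4 528 625) (leaf 4 560 689))))))))) (merge (node 495 (merge (leaf 7 463 463) (node 624 (merge (leaf 7 495 527) (node 657 (merge (leaf 4 528 625) (node 656 (merge (leaf 4 560 689) (node 655 (merge (leaf 5 527 623) (leaf 5 559 687))))))))))) (merge (node 495 (merge (leaf 7 463 463) (node 624 (merge (leaf 7 495 527) (node 657 (merge (leaf 4 528 625) (node 656 (merge (leaf 4 560 689) (node 688 (merge (leaf 7 559 591) (node 687 (merge (leaf 5 559 655) (leaf 5 591 719))))))))))))) (node 591 (merge (leaf 5 495 623) (node 494 (merge (leaf 4 462 462) (node 495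 (merge (leaf 7 463 463) (node 493 (merge (leaf 0 493 529) (node 590 (merge (leaf 7 461 461) (node 621 (merge (leaf 5 493 589) (node 622 (merge (leaf 7 493 525) (leaf 5 525 653))))))))))))))))))))))))))))) (node 558 (merge (node 557 (merge (leaf 2 525 529) (node 556 (merge (leaf 2 524 527) (node 588 (merge (leaf 1 555 587) (leaf 1 556 589))))))) (merge (node 557 (merge (leaf 2 525 529) (node 589 (merge (leaf 1 556 588) (node 525 (merge (leaf 3 524 524) (node 526 (merge (leaf 3 525 561) (node 621 (merge (leaf 6 493 494) (leaf 6 525 653))))))))))) (merge (node 557 (merge (leaf 2 525 529) (node 527 (merge (leaf 2 524 556) (node 525 (merge (leaf 3 524 524) (node 561 (merge (leaf 0 525 526) (node 590 (merge (leaf 1 557 589) (node 562 (merge (leaf 3 527 563) (leaf 1 558 591))))))))))))) (merge (node 557 (merge (leaf 2 525 529) (node 556 (merge (leaf 2 524 527) (node 591 (merge (leaf 0 556 592) (node 590 (merge (leaf 0 555 555) (node 561 (merge (leaf 1 558 562) (node 525 (merge (leaf 3 524 524) (leaf 3 525 526))))))))))))) (merge (node 525 (merge (node 526 (merge (leaf 3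 525 561) (node 524 (merge (leaf 0 523 523) (leaf 0 524 527))))) (merge (node 557 (merge (leaf 3 524 524) (node 556 (merge (leaf 2 524 527) (node 588 (merge (leaf 1 555 587) (leaf 1 556 589))))))) (merge (node 557 (merge (leaf 3 524 524) (node 561 (merge (leaf 3 525 526) (node 590 (merge (leaf 1 557 589) (node 591 (merge (leaf 1 558 562) (node 556 (merge (leaf 0 555 555) (leaf 0 556 592))))))))))) (node 561 (merge (leaf 3 525 526) (node 590 (merge (leaf 1 557 589) (node 562 (merge (leaf 1 558 591) (node 563 (merge (leaf 3 527 527) (node 596 (merge (leaf 0 560 595) (node 564 (merge (leaf 0 561 597) (node 532 (merge (leaf 2 528 531) (leaf 2 529 533))))))))))))))))))) (node 526 (merge (node 525 (merge (leaf 3 525 561) (node 524 (merge (leaf 0 523 523) (leaf 0 524 527))))) (merge (node 561 (merge (leaf 3 525 525) (node 590 (merge (leaf 1 557 589) (node 591 (merge (leaf 1 558 562) (node 623 (merge (leaf 4 494 494) (leaf 7 526 655))))))))) (merge (node 592 (merge (node 591 (merge (leaf 5 495 623) (node 494 (merge (leaf 4 462 462) (node 495 (merge (leaf 7 463 463) (node 493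 (merge (leaf 0 493 529) (node 590 (merge (leaf 7 461 461) (node 589 (merge (leaf 1 557 561) (leaf 2 556 588))))))))))))) (merge (node 623 (merge (leaf 5 495 591) (node 624 (merge (leaf 5 527 655) (node 656 (merge (leaf 7 527 527) (node 657 (merge (leaf 4 528 625) (leaf 4 560 689))))))))) (merge (node 495 (merge (leaf 7 463 463) (node 624 (merge (leaf 7 495 527) (node 657 (merge (leaf 4 528 625) (node 656 (merge (leaf 4 560 689) (node 655 (merge (leaf 5 527 623) (leaf 5 559 687))))))))))) (node 495 (merge (leaf 7 463 463) (node 624 (merge (leaf 7 495 527) (node 657 (merge (leaf 4 528 625) (node 656 (merge (leaf 4 560 689) (node 688 (merge (leaf 7 559 591) (node 687 (merge (leaf 5 559 655) (leaf 5 591 719))))))))))))))))) (node 592 (merge (node 623 (merge (leaf 5 495 591) (node 624 (merge (leaf 5 527 655) (node 656 (merge (leaf 7 527 527) (node 657 (merge (leaf 4 528 625) (leaf 4 560 689))))))))) (merge (node 495 (merge (leaf 7 463 463) (node 624 (merge (leaf 7 495 527) (node 657 (merge (leaf 4 528 625) (node 656 (merge (leaf 4 560 689) (node 655 (merge (leaf 5 527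 623) (leaf 5 559 687))))))))))) (merge (node 495 (merge (leaf 7 463 463) (node 624 (merge (leaf 7 495 527) (node 657 (merge (leaf 4 528 625) (node 656 (merge (leaf 4 560 689) (node 688 (merge (leaf 7 559 591) (node 687 (merge (leaf 5 559 655) (leaf 5 591 719))))))))))))) (node 591 (merge (leaf 5 495 623) (node 494 (merge (leaf 4 462 462) (node 495 (merge (leaf 7 463 463) (node 493 (merge (leaf 0 493 529) (node 590 (merge (leaf 7 461 461) (node 621 (merge (leaf 5 493 589) (node 622 (merge (leaf 7 493 525) (leaf 5 525 653))))))))))))))))))))))))))))))))))))))) nA_2 cA_2 12 (by decide +kernel)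
def nA_3 : ℕ := 0x1000000010000000000000000000000000000000000000000000000000000000000000000000000000000000000000000000000000000000000000000000000000000
def cA_3 : ℕ := 0xa0000003e0000003f000003ff800001ff000003af800000e60000003e0000003e00000038000000280000000000000000000000000000000000000000000000000000000000000000000000000000000000000000000
theorem lA_3 : S nA_3 cA_3 12 := S_of_chk [] trivial (node 560 (merge (node 464 (merge (node 433 (merge (leaf 6 432 465) (node 432 (merge (leaf 6 400 401) (node 431 (merge (leaf 7 399 399) (leaf 7 431 463))))))) (merge (node 593 (merge (leaf 4 464 561) (node 465 (merge (leaf 6 432 433) (node 592 (merge (leaf 6 464 497) (leaf 4 496 625))))))) (node 561 (merge (leaf 4 464 593) (node 432 (merge (leaf 4 432 529) (node 431 (merge (leaf 7 399 399) (leaf 7 431 463)))))))))) (merge (node 592 (merge (node 625 (merge (leaf 4 496 593) (node 497 (merge (leaf 6 464 465) (node 624 (merge (leaf 6 496 529) (leaf 4 528 657))))))) (merge (node 497 (merge (leaf 6 464 465) (node 624 (merge (leaf 6 496 529) (node 623 (merge (leaf 5 495 591) (leaf 5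 527 655))))))) (node 593 (merge (leaf 4 496 625) (node 464 (merge (leaf 4 464 561) (node 591 (merge (leaf 5 463 559) (leaf 5 495 623)))))))))) (merge (node 464 (merge (node 433 (merge (leaf 6 432 465) (node 432 (merge (leaf 6 400 401) (node 431 (merge (leaf 7 399 399) (leaf 7 431 463))))))) (merge (node 465 (merge (leaf 6 432 433) (node 592 (merge (leaf 6 464 497) (node 591 (merge (leaf 5 463 559) (leaf 5 495 623))))))) (node 559 (merge (leaf 5 463 591) (node 432 (merge (leaf 5 431 527) (node 431 (merge (leaf 7 399 399) (leaf 7 431 463)))))))))) (merge (node 464 (merge (node 593 (merge (leaf 4 464 561) (node 592 (merge (leaf 4 496 625) (node 591 (merge (leaf 5 463 559) (leaf 5 495 623))))))) (merge (node 559 (merge (leaf 5 463 591) (node 432 (merge (leaf 5 431 527) (node 401 (merge (leaf 6 400 433) (node 400 (merge (leaf 6 368 369) (node 399 (merge (leaf 7 367 367) (leaf 7 399 431))))))))))) (node 561 (merge (leaf 4 464 593) (node 432 (merge (leaf 4 432 529) (node 401 (merge (leaf 6 400 433) (node 400 (merge (leaf 6 368 369) (node 399 (merge (leaf 7 367 367) (leaf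 7 399 431)))))))))))))) (merge (node 561 (merge (node 464 (merge (leaf 4 464 593) (node 433 (merge (leaf 6 432 465) (node 432 (merge (leaf 6 400 401) (node 431 (merge (leaf 7 399 399) (leaf 7 431 463))))))))) (merge (node 559 (merge (node 591 (merge (leaf 5 463 464) (node 623 (merge (leaf 6 495 527) (leaf 6 527 655))))) (merge (node 526 (merge (node 527 (merge (leaf 0 525 525) (leaf 3 526 562))) (merge (node 558 (merge (leaf 3 525 525) (node 557 (merge (leaf 2 525 529) (node 589 (merge (leaf 1 556 588) (leaf 1 557 590))))))) (node 562 (merge (leaf 3 526 527) (node 595 (merge (leaf 0 559 594) (node 563 (merge (leaf 0 560 596) (node 532 (merge (leaf 2 528 531) (node 564 (merge (leaf 3 528 529) (leaf 2 529 533)))))))))))))) (node 591 (merge (leaf 5 463 464) (node 562 (merge (leaf 1 558 590) (node 595 (merge (leaf 0 559 594) (node 563 (merge (leaf 0 560 596) (node 532 (merge (leaf 2 528 531) (node 564 (merge (leaf 3 528 529) (leaf 2 529 533)))))))))))))))) (node 562 (merge (node 527 (merge (leaf 3 527 563) (node 526 (merge (leaf 0 525 525) (leaf 3 526 559))))) (merge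 (node 563 (merge (leaf 3 527 527) (node 596 (merge (leaf 0 560 595) (node 564 (merge (leaf 3 528 529) (leaf 0 561 597))))))) (merge (node 563 (merge (node 596 (merge (leaf 0 560 595) (node 564 (merge (leaf 3 528 529) (leaf 0 561 597))))) (merge (node 532 (merge (leaf 2 528 531) (node 564 (merge (leaf 3 528 529) (leaf 2 529 533))))) (merge (node 596 (merge (leaf 0 560 595) (node 564 (merge (leaf 0 561 597) (node 532 (merge (leaf 2 528 531) (leaf 2 529 533))))))) (node 595 (merge (leaf 0 560 596) (node 559 (merge (leaf 0 559 594) (node 590 (merge (leaf 1 558 591) (node 558 (merge (leaf 1 557 589) (node 557 (merge (leaf 2 525 529) (node 525 (merge (leaf 3 524 524) (leaf 3 525 526))))))))))))))))) (node 559 (merge (node 591 (merge (leaf 1 558 590) (node 623 (merge (leaf 6 527 655) (node 527 (merge (leaf 6 495 496) (leaf 3 526 526))))))) (merge (node 594 (merge (leaf 0 559 595) (node 558 (merge (leaf 0 558 593) (node 557 (merge (leaf 2 525 529) (node 525 (merge (leaf 3 524 524) (leaf 3 525 526))))))))) (node 594 (merge (leaf 0 559 595) (node 558 (merge (leaf 0 558 593)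 (node 557 (merge (leaf 2 525 529) (node 588 (merge (leaf 1 556 589) (node 556 (merge (leaf 2 524 527) (leaf 1 555 587))))))))))))))))))))) (node 559 (merge (node 592 (merge (node 593 (merge (leaf 4 496 625) (node 594 (merge (leaf 3 559 595) (node 591 (merge (leaf 3 558 558) (leaf 5 495 623))))))) (merge (node 625 (merge (leaf 4 496 593) (node 497 (merge (leaf 6 464 465) (node 624 (merge (leaf 6 496 529) (leaf 4 528 657))))))) (node 497 (merge (leaf 6 464 465) (node 624 (merge (leaf 6 496 529) (node 623 (merge (leaf 5 495 591) (leaf 5 527 655)))))))))) (merge (node 558 (merge (node 557 (merge (leaf 2 525 529) (node 556 (merge (leaf 2 524 527) (node 588 (merge (leaf 1 555 587) (leaf 1 556 589))))))) (merge (node 525 (merge (node 557 (merge (leaf 3 524 524) (leaf 2 525 529))) (merge (node 561 (merge (leaf 3 525 526) (node 593 (merge (leaf 0 558 594) (node 625 (merge (leaf 7 496 529) (leaf 7 528 657))))))) (node 524 (merge (leaf 3 524 557) (node 526 (merge (leaf 0 523 523) (leaf 3 525 561)))))))) (merge (node 561 (merge (node 590 (merge (leaf 1 557 589) (node 562 (merge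 (leaf 1 558 591) (node 526 (merge (leaf 3 525 525) (leaf 3 526 527))))))) (merge (node 593 (merge (leaf 0 558 594) (node 625 (merge (leaf 7 496 529) (leaf 7 528 657))))) (node 594 (merge (leaf 0 558 593) (node 562 (merge (leaf 0 559 595) (node 590 (merge (leaf 1 557 589) (leaf 1 558 591)))))))))) (node 525 (merge (node 526 (merge (leaf 3 525 561) (node 524 (merge (leaf 0 523 523) (leaf 0 524 527))))) (merge (node 557 (merge (leaf 3 524 524) (node 556 (merge (leaf 2 524 527) (node 588 (merge (leaf 1 555 587) (leaf 1 556 589))))))) (node 561 (merge (leaf 3 525 526) (node 594 (merge (leaf 0 558 593) (node 562 (merge (leaf 0 559 595) (node 590 (merge (leaf 1 557 589) (leaf 1 558 591)))))))))))))))) (merge (node 592 (merge (node 593 (merge (leaf 4 496 625) (node 558 (merge (leaf 0 557 557) (node 594 (merge (leaf 0 558 561) (leaf 3 559 595))))))) (node 497 (merge (leaf 6 464 465) (node 624 (merge (leaf 6 496 529) (node 656 (merge (leaf 7 527 527) (node 655 (merge (leaf 5 527 623) (leaf 5 559 687))))))))))) (merge (node 592 (merge (node 625 (merge (leaf 4 496 593) (node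 624 (merge (leaf 4 528 657) (node 623 (merge (leaf 5 495 591) (leaf 5 527 655))))))) (merge (node 625 (merge (leaf 4 496 593) (node 497 (merge (leaf 6 464 465) (node 624 (merge (leaf 6 496 529) (leaf 4 528 657))))))) (merge (node 497 (merge (leaf 6 464 465) (node 624 (merge (leaf 6 496 529) (node 623 (merge (leaf 5 495 591) (leaf 5 527 655))))))) (node 593 (merge (leaf 4 496 625) (node 594 (merge (leaf 3 559 595) (node 591 (merge (leaf 5 495 623) (node 562 (merge (leaf 2 559 563) (node 590 (merge (leaf 1 558 561) (node 621 (merge (leaf 1 589 622) (node 589 (merge (leaf 2 556 588) (leaf 1 588 620))))))))))))))))))) (merge (node 558 (merge (node 557 (merge (leaf 2 525 529) (node 556 (merge (leaf 2 524 527) (node 588 (merge (leaf 1 555 587) (leaf 1 556 589))))))) (merge (node 557 (merge (leaf 2 525 529) (node 527 (merge (leaf 2 524 556) (node 525 (merge (leaf 3 524 524) (node 526 (merge (leaf 2 493 497) (leaf 0 525 561))))))))) (merge (node 557 (merge (leaf 2 525 529) (node 589 (merge (leaf 1 556 588) (node 561 (merge (leaf 1 557 590) (node 525 (merge (leaf 3 524 524)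 (leaf 3 525 526))))))))) (merge (node 525 (merge (node 524 (merge (leaf 3 524 557) (node 526 (merge (leaf 0 523 523) (leaf 0 524 527))))) (merge (node 557 (merge (leaf 3 524 524) (node 589 (merge (leaf 1 556 588) (node 590 (merge (leaf 1 557 561) (node 622 (merge (leaf 4 493 493) (leaf 7 525 654))))))))) (node 561 (merge (leaf 3 525 526) (node 590 (merge (leaf 1 557 589) (node 591 (merge (leaf 1 558 562) (node 623 (merge (leaf 5 495 592) (leaf 6 527 655)))))))))))) (node 526 (merge (node 525 (merge (leaf 3 525 561) (node 524 (merge (leaf 0 523 523) (leaf 0 524 527))))) (merge (node 561 (merge (leaf 3 525 525) (node 590 (merge (leaf 1 557 589) (node 591 (merge (leaf 1 558 562) (node 623 (merge (leaf 4 494 494) (leaf 5 495 592))))))))) (merge (node 497 (merge (node 465 (merge (leaf 6 464 592) (node 433 (merge (leaf 5 400 401) (leaf 5 432 529))))) (merge (node 527 (merge (leaf 2 493 525) (node 498 (merge (leaf 1 495 499) (leaf 2 494 529))))) (node 527 (merge (leaf 2 493 525) (node 592 (merge (leaf 6 464 465) (node 624 (merge (leaf 7 527 656) (node 623 (merge (leaf 5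 495 591) (leaf 5 527 655)))))))))))) (node 590 (merge (node 589 (merge (leaf 1 557 561) (node 588 (merge (leaf 2 555 587) (leaf 2 556 591))))) (merge (node 623 (merge (node 655 (merge (leaf 7 526 591) (leaf 4 526 622))) (merge (node 591 (merge (leaf 4 494 494) (leaf 6 495 527))) (node 622 (merge (leaf 4 526 655) (node 653 (merge (leaf 5 525 621) (node 654 (merge (leaf 6 526 527) (leaf 5 557 685)))))))))) (node 589 (merge (leaf 1 557 561) (node 494 (merge (leaf 5 493 621) (node 461 (merge (leaf 7 461 493) (node 462 (merge (leaf 7 429 429) (node 430 (merge (leaf 4 430 527) (node 431 (merge (leaf 6 398 399) (leaf 6 430 463))))))))))))))))))))))))) (node 561 (merge (node 591 (merge (node 623 (merge (leaf 5 495 592) (leaf 6 527 655))) (node 590 (merge (leaf 1 558 562) (node 589 (merge (leaf 1 557 558) (leaf 2 556 588))))))) (merge (node 594 (merge (node 593 (merge (leaf 0 558 558) (node 595 (merge (leaf 0 559 562) (leaf 3 560 596))))) (merge (node 562 (merge (leaf 0 559 595) (node 527 (merge (leaf 3 526 526) (leaf 3 527 563))))) (node 558 (merge (leaf 0 558 593) (node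 525 (merge (leaf 3 525 526) (node 557 (merge (leaf 3 524 524) (node 588 (merge (leaf 1 556 589) (node 556 (merge (leaf 2 524 527) (leaf 1 555 587)))))))))))))) (merge (node 562 (merge (node 591 (merge (leaf 1 558 590) (node 527 (merge (leaf 3 526 526) (leaf 6 495 623))))) (merge (node 595 (merge (leaf 0 559 594) (node 563 (merge (leaf 3 527 527) (leaf 0 560 596))))) (node 595 (merge (leaf 0 559 594) (node 563 (merge (leaf 0 560 596) (node 591 (merge (leaf 1 558 590) (leaf 1 559 592)))))))))) (node 558 (merge (node 589 (merge (leaf 1 557 590) (node 557 (merge (leaf 1 556 588) (node 525 (merge (leaf 3 524 524) (leaf 3 525 526))))))) (merge (node 593 (merge (leaf 0 558 594) (node 625 (merge (leaf 4 496 592) (leaf 7 528 657))))) (merge (node 593 (merge (leaf 0 558 594) (node 557 (merge (leaf 0 557 592) (node 525 (merge (leaf 3 524 524) (leaf 3 525 526))))))) (node 593 (merge (leaf 0 558 594) (node 557 (merge (leaf 0 557 592) (node 589 (merge (leaf 1 556 588) (leaf 1 557 590))))))))))))))))))))))))))) nA_3 cA_3 12 (by decide +kernel)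
def nA_4 : ℕ := 0x100000001000000010000000000000000000000000000000000000000000000000000000000000000000000000000000000000000000000000000000000000000000000000000
def cA_4 : ℕ := 0x2000000060000000e0000001e0000003af800007ef000003ff0000007e0000003c0000003c0000002000000000000000000000000000000000000000000000000000000000000000000000000000000000000
theorem lA_4 : S nA_4 cA_4 10 := S_of_chk [] trivial (node 497 (merge (node 464 (merge (node 463 (merge (leaf 7 431 431) (node 462 (merge (leaf 0 461 461) (node 498 (merge (leaf 0 462 465) (leaf 3 463 499))))))) (merge (node 561 (merge (leaf 4 464 593) (node 432 (merge (leaf 4 432 529) (node 433 (merge (leaf 6 400 401) (leaf 6 432 465))))))) (node 561 (merge (leaf 4 464 593) (node 432 (merge (leaf 4 432 529) (node 431 (merge (leaf 7 399 399) (leaf 7 431 463)))))))))) (merge (node 464 (merge (node 561 (merge (leaf 4 464 593) (node 432 (merge (leaf 4 432 529) (node 433 (merge (leaf 6 400 401) (leaf 6 432 465))))))) (merge (node 561 (merge (leaf 4 464 593) (node 432 (merge (leaf 4 432 529) (node 431 (merge (leaf 7 399 399) (leaf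 7 431 463))))))) (node 465 (merge (leaf 6 432 433) (node 463 (merge (leaf 7 431 431) (node 462 (merge (leaf 0 461 461) (node 494 (merge (leaf 1 461 493) (node 495 (merge (leaf 1 462 466) (node 430 (merge (leaf 3 429 429) (node 398 (merge (leaf 4 366 366) (leaf 4 398 527)))))))))))))))))) (merge (node 464 (merge (node 561 (merge (leaf 4 464 593) (node 432 (merge (leaf 4 432 529) (node 433 (merge (leaf 6 400 401) (leaf 6 432 465))))))) (merge (node 463 (merge (leaf 7 431 431) (node 498 (merge (leaf 3 463 499) (node 495 (merge (leaf 3 462 462) (node 526 (merge (leaf 1 494 527) (node 494 (merge (leaf 1 493 525) (node 493 (merge (leaf 2 460 492) (leaf 0 493 529))))))))))))) (node 465 (merge (leaf 6 432 433) (node 463 (merge (leaf 7 431 431) (node 462 (merge (leaf 0 461 461) (leaf 0 462 498)))))))))) (merge (node 498 (merge (node 527 (merge (leaf 1 495 499) (node 526 (merge (leaf 1 494 495) (leaf 2 493 525))))) (merge (node 499 (merge (leaf 1 495 527) (node 468 (merge (leaf 2 464 467) (node 500 (merge (leaf 2 465 469) (leaf 1 496 529))))))) (merge (node 499 (merge (node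 468 (merge (leaf 2 464 467) (node 500 (merge (leaf 2 465 469) (leaf 1 496 529))))) (merge (node 532 (merge (leaf 0 496 531) (node 500 (merge (leaf 1 496 529) (leaf 0 497 533))))) (node 531 (merge (leaf 0 496 532) (node 467 (merge (leaf 2 464 468) (node 466 (merge (leaf 2 463 495) (node 563 (merge (leaf 7 434 434) (leaf 7 466 595)))))))))))) (node 495 (merge (node 463 (merge (leaf 3 462 462) (node 431 (merge (leaf 4 399 399) (leaf 4 431 527))))) (merge (node 494 (merge (node 526 (merge (leaf 1 493 525) (leaf 1 494 527))) (merge (node 493 (merge (leaf 0 493 529) (node 525 (merge (leaf 1 492 524) (leaf 1 493 526))))) (merge (node 493 (merge (leaf 0 493 529) (node 527 (merge (leaf 0 492 492) (leaf 1 494 526))))) (node 493 (merge (leaf 0 493 529) (node 492 (merge (leaf 0 492 527) (node 524 (merge (leaf 1 491 523) (leaf 1 492 525))))))))))) (node 462 (merge (leaf 3 462 463) (node 494 (merge (leaf 3 461 461) (node 493 (merge (leaf 0 493 529) (node 525 (merge (leaf 1 492 524) (leaf 1 493 526)))))))))))))))) (merge (node 495 (merge (node 465 (merge (node 433 (merge (leaf 5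 400 401) (leaf 6 432 464))) (merge (node 466 (merge (leaf 2 462 494) (node 467 (merge (leaf 1 463 464) (leaf 1 464 468))))) (node 466 (merge (leaf 2 462 494) (node 467 (merge (leaf 1 464 468) (leaf 2 463 498)))))))) (merge (node 463 (merge (node 431 (merge (leaf 4 399 399) (leaf 7 431 464))) (node 462 (merge (leaf 3 462 498) (node 461 (merge (leaf 0 460 460) (leaf 3 461 494))))))) (merge (node 498 (merge (node 527 (merge (leaf 1 494 526) (node 463 (merge (leaf 4 431 431) (leaf 3 462 462))))) (merge (node 527 (merge (leaf 1 495 499) (leaf 1 494 526))) (node 466 (merge (leaf 2 463 467) (node 494 (merge (leaf 2 462 465) (node 462 (merge (leaf 3 461 461) (leaf 3 462 463)))))))))) (merge (node 498 (merge (node 463 (merge (leaf 3 462 462) (node 431 (merge (leaf 4 399 399) (leaf 4 431 527))))) (merge (node 527 (merge (leaf 1 495 499) (leaf 1 494 526))) (node 463 (merge (leaf 3 462 462) (node 464 (merge (leaf 7 431 431) (leaf 3 463 499)))))))) (node 464 (merge (node 465 (merge (leaf 6 432 433) (node 494 (merge (leaf 2 462 466) (leaf 2 461 493))))) (merge (node 431 (merge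 (leaf 7 431 463) (node 432 (merge (leaf 7 399 399) (node 401 (merge (leaf 6 400 433) (node 400 (merge (leaf 6 368 369) (leaf 5 399 527))))))))) (node 431 (merge (leaf 7 431 463) (node 432 (merge (leaf 7 399 399) (node 400 (merge (leaf 5 399 527) (node 465 (merge (leaf 4 368 368) (node 466 (merge (leaf 1 463 467) (leaf 2 462 494))))))))))))))))))) (merge (node 465 (merge (node 433 (merge (leaf 5 400 401) (leaf 6 432 464))) (merge (node 433 (merge (leaf 5 400 401) (leaf 5 432 529))) (merge (node 464 (merge (leaf 6 432 433) (node 561 (merge (leaf 4 464 593) (node 432 (merge (leaf 4 432 529) (node 431 (merge (leaf 7 399 399) (leaf 7 431 463))))))))) (node 561 (merge (node 593 (merge (leaf 4 464 464) (node 625 (merge (leaf 7 496 529) (leaf 7 528 657))))) (merge (node 529 (merge (node 562 (merge (leaf 4 465 594) (node 563 (merge (leaf 3 527 527) (leaf 3 528 564))))) (merge (node 594 (merge (leaf 4 465 562) (node 593 (merge (leaf 4 497 626) (node 466 (merge (leaf 6 433 434) (leaf 6 465 498))))))) (merge (node 466 (merge (leaf 6 433 434) (node 593 (merge (leaf 6 465 498)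 (leaf 7 496 625))))) (node 562 (merge (leaf 4 465 594) (node 527 (merge (leaf 0 526 526) (node 563 (merge (leaf 3 527 560) (leaf 3 528 564))))))))))) (merge (node 527 (merge (node 526 (merge (leaf 0 525 525) (node 562 (merge (leaf 0 526 529) (leaf 3 527 563))))) (merge (node 526 (merge (leaf 0 525 525) (node 498 (merge (leaf 1 494 495) (leaf 1 495 499))))) (node 498 (merge (leaf 1 495 499) (node 562 (merge (leaf 3 527 563) (node 529 (merge (leaf 4 465 594) (node 466 (merge (leaf 6 433 434) (node 495 (merge (leaf 2 463 467) (leaf 2 462 494)))))))))))))) (node 464 (merge (leaf 4 464 593) (node 431 (merge (leaf 7 431 463) (node 432 (merge (leaf 7 399 399) (node 400 (merge (leaf 4 368 368) (node 495 (merge (leaf 5 399 527) (node 494 (merge (leaf 2 462 466) (leaf 2 461 493))))))))))))))))))))) (merge (node 495 (merge (node 465 (merge (node 433 (merge (leaf 5 400 401) (leaf 6 432 464))) (merge (node 466 (merge (leaf 2 462 494) (node 467 (merge (leaf 1 463 464) (leaf 1 464 468))))) (node 466 (merge (leaf 2 462 494) (node 467 (merge (leaf 1 464 468) (leaf 2 463 498))))))))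 (merge (node 494 (merge (node 493 (merge (leaf 0 493 529) (node 525 (merge (leaf 1 492 524) (leaf 1 493 526))))) (merge (node 465 (merge (leaf 2 462 466) (node 433 (merge (leaf 5 400 401) (node 560 (merge (leaf 6 432 464) (leaf 5 432 529))))))) (node 525 (merge (leaf 1 493 526) (node 493 (merge (leaf 1 492 524) (node 465 (merge (leaf 2 461 464) (leaf 2 462 466)))))))))) (merge (node 526 (merge (node 527 (merge (leaf 1 494 498) (leaf 2 493 525))) (merge (node 494 (merge (leaf 1 493 525) (node 493 (merge (leaf 0 493 529) (node 461 (merge (leaf 3 460 460) (leaf 3 461 462))))))) (node 498 (merge (leaf 1 494 527) (node 467 (merge (leaf 2 463 466) (node 499 (merge (leaf 2 464 468) (node 532 (merge (leaf 0 496 531) (node 500 (merge (leaf 1 496 529) (leaf 0 497 533)))))))))))))) (merge (node 561 (merge (node 593 (merge (leaf 4 464 464) (node 625 (merge (leaf 7 496 529) (leaf 7 528 657))))) (merge (node 526 (merge (node 527 (merge (leaf 1 494 498) (node 562 (merge (leaf 0 526 529) (leaf 3 527 563))))) (merge (node 527 (merge (leaf 0 525 525) (node 498 (merge (leaf 1 494 495)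 (leaf 1 495 499))))) (node 494 (merge (leaf 1 493 525) (node 493 (merge (leaf 0 493 529) (node 461 (merge (leaf 3 460 460) (leaf 3 461 462)))))))))) (node 464 (merge (leaf 4 464 593) (node 433 (merge (leaf 6 432 465) (node 432 (merge (leaf 6 400 401) (node 527 (merge (leaf 5 399 400) (node 526 (merge (leaf 1 494 498) (leaf 0 525 525)))))))))))))) (node 464 (merge (node 433 (merge (leaf 6 432 465) (node 432 (merge (leaf 6 400 401) (node 400 (merge (leaf 4 400 529) (node 399 (merge (leaf 7 367 367) (leaf 7 399 431))))))))) (merge (node 561 (merge (leaf 4 464 593) (node 432 (merge (leaf 4 432 529) (node 400 (merge (leaf 5 399 527) (node 401 (merge (leaf 6 368 369) (leaf 6 400 433))))))))) (merge (node 561 (merge (leaf 4 464 593) (node 432 (merge (leaf 4 432 529) (node 400 (merge (leaf 5 399 527) (node 368 (merge (leaf 4 368 465) (node 369 (merge (leaf 6 336 337) (leaf 6 368 401))))))))))) (merge (node 433 (merge (leaf 6 432 465) (node 432 (merge (leaf 6 400 401) (node 527 (merge (leaf 5 399 400) (node 526 (merge (leaf 1 494 498) (leaf 2 493 525))))))))) (node 561 (merge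 (leaf 4 464 593) (node 465 (merge (leaf 6 432 433) (node 466 (merge (leaf 1 463 467) (node 529 (merge (leaf 6 433 434) (node 562 (merge (leaf 4 465 594) (node 563 (merge (leaf 3 527 527) (leaf 3 528 564))))))))))))))))))))))) (node 561 (merge (node 593 (merge (leaf 4 464 464) (node 625 (merge (leaf 7 496 529) (leaf 7 528 657))))) (merge (node 529 (merge (node 593 (merge (leaf 7 496 625) (node 498 (merge (leaf 6 465 466) (node 499 (merge (leaf 1 496 500) (leaf 1 495 527))))))) (merge (node 593 (merge (leaf 7 496 625) (node 594 (merge (leaf 4 497 626) (node 465 (merge (leaf 4 465 562) (node 433 (merge (leaf 5 400 401) (leaf 5 432 560))))))))) (node 465 (merge (leaf 5 432 433) (node 562 (merge (leaf 4 465 594) (node 563 (merge (leaf 3 527 527) (leaf 3 528 564)))))))))) (merge (node 498 (merge (node 527 (merge (leaf 1 495 499) (node 526 (merge (leaf 1 494 495) (leaf 0 525 525))))) (merge (node 499 (merge (leaf 1 495 527) (node 532 (merge (leaf 0 496 531) (node 500 (merge (leaf 1 496 529) (leaf 0 497 533))))))) (merge (node 499 (merge (node 532 (merge (leaf 0 496 531)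 (node 500 (merge (leaf 1 496 529) (leaf 0 497 533))))) (merge (node 531 (merge (leaf 0 496 532) (node 467 (merge (leaf 2 464 468) (node 466 (merge (leaf 2 463 495) (node 563 (merge (leaf 7 434 434) (leaf 7 466 595))))))))) (node 500 (merge (leaf 1 496 529) (node 467 (merge (leaf 2 464 468) (node 466 (merge (leaf 2 463 495) (node 501 (merge (leaf 3 465 465) (leaf 3 466 502)))))))))))) (node 465 (merge (node 433 (merge (leaf 5 400 401) (leaf 6 432 464))) (merge (node 433 (merge (leaf 5 400 401) (leaf 5 432 529))) (node 527 (merge (node 526 (merge (leaf 2 493 525) (leaf 2 494 529))) (merge (node 526 (merge (leaf 1 494 495) (leaf 2 493 525))) (node 562 (merge (leaf 3 527 563) (node 529 (merge (leaf 4 465 594) (node 466 (merge (leaf 6 433 434) (node 495 (merge (leaf 2 463 467) (leaf 2 462 494))))))))))))))))))) (node 495 (merge (node 464 (merge (leaf 4 464 593) (node 465 (merge (leaf 6 432 433) (node 494 (merge (leaf 2 462 466) (leaf 2 461 493))))))) (merge (node 498 (merge (node 527 (merge (leaf 1 495 499) (leaf 1 494 526))) (merge (node 463 (merge (leaf 3 462 462) (node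 499 (merge (leaf 3 463 464) (node 532 (merge (leaf 0 496 531) (node 500 (merge (leaf 0 497 533) (node 468 (merge (leaf 2 464 467) (leaf 2 465 469))))))))))) (node 526 (merge (leaf 1 494 527) (node 494 (merge (leaf 1 493 525) (node 462 (merge (leaf 3 461 461) (leaf 3 462 463)))))))))) (merge (node 494 (merge (node 525 (merge (leaf 1 493 526) (node 493 (merge (leaf 1 492 524) (node 461 (merge (leaf 3 460 460) (leaf 3 461 462))))))) (merge (node 466 (merge (leaf 2 462 465) (node 498 (merge (leaf 2 463 467) (node 527 (merge (leaf 1 495 499) (leaf 1 494 526))))))) (node 466 (merge (leaf 2 462 465) (node 498 (merge (leaf 2 463 467) (node 527 (merge (leaf 1 495 499) (node 493 (merge (leaf 0 492 492) (node 461 (merge (leaf 3 460 460) (leaf 3 461 462)))))))))))))) (node 464 (merge (leaf 4 464 593) (node 433 (merge (leaf 6 432 465) (node 432 (merge (leaf 6 400 401) (node 400 (merge (leaf 5 399 527) (node 463 (merge (leaf 5 367 368) (node 498 (merge (leaf 3 462 462) (leaf 3 463 499))))))))))))))))))))))))))))) nA_4 cA_4 10 (by decide +kernel)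
def nA_5 : ℕ := 0x1000000010000000000000000000000000000000000000000000000000000000000000000000000000000000000000000000000000000000000000000000000000000
def cA_5 : ℕ := 0x80000002e0000003e0000003e000000ff8000007f000000278000006f000000ff8000003e0000002e0000000e0000000800000000000000000000000000000000000000000000000000000000000000000000000000000000000
theorem lA_5 : S nA_5 cA_5 12 := S_of_chk [] trivial (node 560 (merge (node 465 (merge (node 497 (merge (leaf 6 464 592) (node 433 (merge (leaf 5 400 401) (leaf 5 432 529))))) (merge (node 433 (merge (leaf 6 432 464) (node 497 (merge (leaf 5 400 401) (leaf 5 432 529))))) (merge (node 592 (merge (leaf 6 464 497) (node 591 (merge (leaf 5 495 623) (node 464 (merge (leaf 5 463 559) (node 463 (merge (leaf 7 431 431) (leaf 7 463 495))))))))) (node 464 (merge (leaf 6 432 433) (node 591 (merge (leaf 5 463 559) (node 463 (merge (leaf 7 431 431) (node 592 (merge (leaf 7 463 495) (leaf 5 495 623))))))))))))) (merge (node 592 (merge (node 625 (merge (leaf 4 496 593) (node 497 (merge (leaf 6 464 465) (node 624 (merge (leaf 6 496 529)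 (leaf 4 528 657))))))) (merge (node 497 (merge (leaf 6 464 465) (node 624 (merge (leaf 6 496 529) (node 623 (merge (leaf 5 495 591) (leaf 5 527 655))))))) (node 593 (merge (leaf 4 496 625) (node 464 (merge (leaf 4 464 561) (node 591 (merge (leaf 5 463 559) (leaf 5 495 623)))))))))) (merge (node 464 (merge (node 433 (merge (leaf 6 432 465) (node 432 (merge (leaf 6 400 401) (node 431 (merge (leaf 7 399 399) (leaf 7 431 463))))))) (merge (node 593 (merge (leaf 4 464 561) (node 592 (merge (leaf 4 496 625) (node 463 (merge (leaf 7 431 431) (leaf 7 463 495))))))) (node 593 (merge (leaf 4 464 561) (node 465 (merge (leaf 6 432 433) (node 592 (merge (leaf 6 464 497) (leaf 4 496 625)))))))))) (merge (node 464 (merge (node 433 (merge (leaf 6 432 465) (node 432 (merge (leaf 6 400 401) (node 431 (merge (leaf 7 399 399) (leaf 7 431 463))))))) (node 593 (merge (leaf 4 464 561) (node 592 (merge (leaf 4 496 625) (node 591 (merge (leaf 5 463 559) (leaf 5 495 623))))))))) (merge (node 592 (merge (node 625 (merge (leaf 4 496 593) (node 624 (merge (leaf 4 528 657) (node 623 (merge (leaf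 5 495 591) (leaf 5 527 655))))))) (merge (node 593 (merge (leaf 4 496 625) (node 464 (merge (leaf 4 464 561) (node 591 (merge (leaf 5 463 559) (leaf 5 495 623))))))) (merge (node 463 (merge (leaf 7 463 495) (node 464 (merge (leaf 7 431 431) (node 561 (merge (leaf 4 464 593) (node 529 (merge (leaf 4 432 432) (node 624 (merge (leaf 6 496 497) (leaf 6 528 656))))))))))) (merge (node 623 (merge (leaf 5 495 591) (node 624 (merge (leaf 5 527 655) (node 657 (merge (leaf 4 528 625) (node 656 (merge (leaf 4 560 689) (node 529 (merge (leaf 6 496 497) (leaf 6 528 561))))))))))) (node 625 (merge (leaf 4 496 593) (node 624 (merge (leaf 4 528 657) (node 655 (merge (leaf 5 527 623) (node 656 (merge (leaf 5 559 687) (node 529 (merge (leaf 6 496 497) (leaf 6 528 561)))))))))))))))) (merge (node 559 (merge (node 464 (merge (leaf 5 463 591) (node 433 (merge (leaf 6 432 465) (node 432 (merge (leaf 6 400 401) (node 431 (merge (leaf 7 399 399) (leaf 7 431 463))))))))) (merge (node 464 (merge (leaf 5 463 591) (node 561 (merge (leaf 4 464 593) (node 432 (merge (leaf 4 432 529) (node 433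 (merge (leaf 6 400 401) (leaf 6 432 465))))))))) (merge (node 558 (merge (node 557 (merge (leaf 2 525 529) (node 588 (merge (leaf 1 556 589) (node 556 (merge (leaf 1 555 587) (node 524 (merge (leaf 3 523 523) (leaf 3 524 525))))))))) (merge (node 525 (merge (node 557 (merge (leaf 3 524 524) (leaf 2 525 529))) (merge (node 561 (merge (leaf 3 525 526) (node 593 (merge (leaf 0 558 594) (node 625 (merge (leaf 7 496 529) (leaf 7 528 657))))))) (node 524 (merge (leaf 3 524 557) (node 526 (merge (leaf 0 523 523) (leaf 3 525 561)))))))) (merge (node 557 (merge (leaf 2 525 529) (node 589 (merge (leaf 1 556 588) (node 561 (merge (leaf 1 557 590) (node 464 (merge (leaf 4 464 593) (node 433 (merge (leaf 6 432 465) (node 432 (merge (leaf 6 400 401) (node 431 (merge (leaf 7 399 399) (leaf 7 431 463))))))))))))))) (merge (node 561 (merge (node 589 (merge (leaf 1 557 590) (node 557 (merge (leaf 1 556 588) (node 525 (merge (leaf 3 524 524) (leaf 3 525 526))))))) (node 464 (merge (leaf 4 464 593) (node 433 (merge (leaf 6 432 465) (node 432 (merge (leaf 6 400 401) (node 431 (merge (leaf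 7 399 399) (leaf 7 431 463))))))))))) (node 464 (merge (node 433 (merge (leaf 6 432 465) (node 432 (merge (leaf 6 400 401) (node 431 (merge (leaf 7 399 399) (leaf 7 431 463))))))) (merge (node 561 (merge (leaf 4 464 593) (node 432 (merge (leaf 4 432 529) (node 433 (merge (leaf 6 400 401) (leaf 6 432 465))))))) (merge (node 561 (merge (leaf 4 464 593) (node 590 (merge (leaf 1 557 589) (node 526 (merge (leaf 3 525 525) (node 463 (merge (leaf 7 431 431) (node 494 (merge (leaf 6 462 495) (node 461 (merge (leaf 7 461 493) (node 462 (merge (leaf 7 429 429) (leaf 0 461 497))))))))))))))) (node 561 (merge (leaf 4 464 593) (node 590 (merge (leaf 1 557 589) (node 526 (merge (leaf 3 525 525) (node 465 (merge (leaf 6 432 433) (node 463 (merge (leaf 7 431 431) (node 494 (merge (leaf 6 462 495) (node 493 (merge (leaf 7 461 461) (leaf 1 461 462)))))))))))))))))))))))) (node 558 (merge (node 557 (merge (leaf 2 525 529) (node 588 (merge (leaf 1 556 589) (node 556 (merge (leaf 1 555 587) (node 524 (merge (leaf 3 523 523) (leaf 3 524 525))))))))) (merge (node 525 (merge (node 557 (merge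 (leaf 3 524 524) (leaf 2 525 529))) (merge (node 561 (merge (leaf 3 525 526) (node 593 (merge (leaf 0 558 594) (node 625 (merge (leaf 7 496 529) (leaf 7 528 657))))))) (node 524 (merge (leaf 3 524 557) (node 526 (merge (leaf 0 523 523) (leaf 3 525 561)))))))) (merge (node 561 (merge (node 593 (merge (leaf 0 558 594) (node 625 (merge (leaf 7 496 529) (leaf 7 528 657))))) (merge (node 557 (merge (leaf 2 525 529) (node 589 (merge (leaf 1 556 588) (leaf 1 557 590))))) (node 594 (merge (leaf 0 558 593) (node 562 (merge (leaf 0 559 595) (node 590 (merge (leaf 1 557 589) (leaf 1 558 591)))))))))) (merge (node 561 (merge (node 593 (merge (leaf 0 558 594) (node 625 (merge (leaf 7 496 529) (leaf 7 528 657))))) (merge (node 594 (merge (leaf 0 558 593) (node 562 (merge (leaf 0 559 595) (node 590 (merge (leaf 1 557 589) (leaf 1 558 591))))))) (node 590 (merge (leaf 1 557 589) (node 591 (merge (leaf 1 558 562) (node 526 (merge (leaf 3 525 525) (node 623 (merge (leaf 4 494 494) (leaf 7 526 655)))))))))))) (node 526 (merge (node 525 (merge (leaf 3 525 561) (node 524 (merge (leaf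 0 523 523) (leaf 3 524 557))))) (merge (node 561 (merge (leaf 3 525 525) (node 594 (merge (leaf 0 558 593) (node 562 (merge (leaf 0 559 595) (node 590 (merge (leaf 1 557 589) (leaf 1 558 591))))))))) (merge (node 494 (merge (node 591 (merge (leaf 4 462 462) (node 623 (merge (leaf 4 494 590) (leaf 7 526 655))))) (merge (node 462 (merge (leaf 4 462 591) (node 461 (merge (leaf 7 429 429) (node 495 (merge (leaf 3 461 497) (node 460 (merge (leaf 0 459 459) (leaf 0 460 463))))))))) (node 525 (merge (node 524 (merge (leaf 0 523 523) (leaf 3 524 557))) (node 495 (merge (leaf 1 493 497) (node 590 (merge (leaf 6 462 463) (node 621 (merge (leaf 5 493 589) (node 622 (merge (leaf 7 493 493) (leaf 5 525 653)))))))))))))) (node 590 (merge (node 589 (merge (leaf 1 557 561) (node 588 (merge (leaf 1 556 557) (leaf 2 555 587))))) (node 622 (merge (node 655 (merge (leaf 4 526 623) (node 654 (merge (leaf 4 558 687) (node 653 (merge (leaf 5 525 621) (leaf 5 557 685))))))) (merge (node 623 (merge (leaf 4 526 655) (node 494 (merge (leaf 4 494 591) (node 463 (merge (leaf 6 462 495) (node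 462 (merge (leaf 6 430 431) (node 461 (merge (leaf 7 429 429) (leaf 7 461 493))))))))))) (merge (node 653 (merge (leaf 5 525 621) (node 654 (merge (leaf 5 557 685) (node 591 (merge (leaf 6 558 686) (node 494 (merge (leaf 4 462 462) (leaf 4 494 623))))))))) (node 653 (merge (leaf 5 525 621) (node 654 (merge (leaf 5 557 685) (node 687 (merge (leaf 4 558 655) (node 686 (merge (leaf 6 558 591) (leaf 4 590 719)))))))))))))))))))))))))))) (node 495 (merge (node 592 (merge (leaf 7 463 463) (node 625 (merge (leaf 4 496 593) (node 497 (merge (leaf 6 464 465) (node 624 (merge (leaf 6 496 529) (leaf 4 528 657))))))))) (merge (node 592 (merge (leaf 7 463 463) (node 625 (merge (leaf 4 496 593) (node 624 (merge (leaf 4 528 657) (node 623 (merge (leaf 5 495 591) (leaf 5 527 655))))))))) (merge (node 494 (merge (node 493 (merge (leaf 0 493 529) (node 524 (merge (leaf 1 492 525) (node 492 (merge (leaf 1 491 523) (node 460 (merge (leaf 3 459 459) (leaf 3 460 461))))))))) (merge (node 592 (merge (node 625 (merge (leaf 4 496 593) (node 624 (merge (leaf 4 528 657) (node 497 (merge (leaf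 6 464 465) (leaf 6 496 529))))))) (merge (node 625 (merge (leaf 4 496 593) (node 624 (merge (leaf 4 528 657) (node 623 (merge (leaf 5 495 591) (leaf 5 527 655))))))) (merge (node 623 (merge (leaf 5 495 591) (node 624 (merge (leaf 5 527 655) (node 497 (merge (leaf 6 464 465) (leaf 6 496 529))))))) (node 593 (merge (leaf 4 496 625) (node 591 (merge (leaf 5 495 623) (node 497 (merge (leaf 6 464 465) (node 526 (merge (leaf 1 493 525) (node 462 (merge (leaf 3 461 461) (node 558 (merge (leaf 4 462 559) (node 557 (merge (leaf 5 461 589) (leaf 3 557 590))))))))))))))))))) (merge (node 497 (merge (node 525 (merge (leaf 1 493 526) (node 493 (merge (leaf 1 492 524) (node 461 (merge (leaf 3 460 460) (leaf 3 461 462))))))) (node 592 (merge (leaf 6 464 465) (node 625 (merge (leaf 4 496 593) (node 624 (merge (leaf 4 528 657) (node 623 (merge (leaf 5 495 591) (leaf 5 527 655))))))))))) (merge (node 493 (merge (leaf 0 493 529) (node 461 (merge (leaf 3 460 460) (node 497 (merge (leaf 3 461 462) (node 592 (merge (leaf 6 464 465) (node 625 (merge (leaf 4 496 593) (node 624 (merge (leaf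 4 528 657) (node 623 (merge (leaf 5 495 591) (leaf 5 527 655))))))))))))))) (node 493 (merge (leaf 0 493 529) (node 525 (merge (leaf 1 492 524) (node 497 (merge (leaf 1 493 526) (node 592 (merge (leaf 6 464 465) (node 625 (merge (leaf 4 496 593) (node 624 (merge (leaf 4 528 657) (node 623 (merge (leaf 5 495 591) (leaf 5 527 655)))))))))))))))))))) (node 494 (merge (node 493 (merge (leaf 0 493 529) (node 524 (merge (leaf 1 492 525) (node 492 (merge (leaf 1 491 523) (node 460 (merge (leaf 3 459 459) (leaf 3 460 461))))))))) (merge (node 525 (merge (node 493 (merge (leaf 1 492 524) (leaf 0 493 529))) (merge (node 497 (merge (leaf 1 493 526) (node 465 (merge (leaf 2 462 466) (node 433 (merge (leaf 5 400 401) (leaf 5 432 529))))))) (node 524 (merge (leaf 1 492 493) (node 526 (merge (leaf 1 493 497) (leaf 2 491 523)))))))) (merge (node 497 (merge (node 465 (merge (leaf 2 462 466) (node 433 (merge (leaf 5 400 401) (leaf 5 432 529))))) (merge (node 493 (merge (leaf 0 493 529) (node 461 (merge (leaf 3 460 460) (leaf 3 461 462))))) (node 466 (merge (leaf 2 462 465) (node 498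 (merge (leaf 2 463 467) (node 462 (merge (leaf 3 461 461) (leaf 3 462 463)))))))))) (merge (node 497 (merge (node 465 (merge (leaf 2 462 466) (node 433 (merge (leaf 5 400 401) (leaf 5 432 529))))) (merge (node 466 (merge (leaf 2 462 465) (node 498 (merge (leaf 2 463 467) (node 462 (merge (leaf 3 461 461) (leaf 3 462 463))))))) (node 526 (merge (leaf 1 493 525) (node 462 (merge (leaf 3 461 461) (node 463 (merge (leaf 3 462 498) (node 431 (merge (leaf 4 399 399) (leaf 6 430 558)))))))))))) (node 526 (merge (node 525 (merge (leaf 1 493 497) (node 524 (merge (leaf 1 492 493) (leaf 2 491 523))))) (merge (node 497 (merge (leaf 1 493 525) (node 466 (merge (leaf 2 462 465) (node 498 (merge (leaf 2 463 467) (node 462 (merge (leaf 3 461 461) (leaf 3 462 463))))))))) (merge (node 558 (merge (node 590 (merge (leaf 6 462 463) (node 623 (merge (leaf 4 494 591) (node 622 (merge (leaf 4 526 655) (node 493 (merge (leaf 7 461 461) (leaf 7 493 525))))))))) (merge (node 590 (merge (leaf 6 462 463) (node 589 (merge (leaf 5 493 621) (node 559 (merge (leaf 1 557 561) (node 462 (merge (leaf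 5 461 557) (leaf 4 462 591))))))))) (merge (node 590 (merge (leaf 6 462 463) (node 589 (merge (leaf 5 493 621) (node 559 (merge (leaf 1 557 561) (node 588 (merge (leaf 1 556 557) (leaf 2 555 587))))))))) (node 525 (merge (node 524 (merge (leaf 1 492 493) (leaf 2 491 523))) (merge (node 559 (merge (leaf 3 525 561) (node 557 (merge (leaf 3 524 524) (node 462 (merge (leaf 5 429 430) (leaf 4 462 591))))))) (node 559 (merge (leaf 3 525 561) (node 462 (merge (leaf 4 462 591) (node 557 (merge (leaf 5 429 430) (leaf 5 461 589)))))))))))))) (node 462 (merge (node 497 (merge (leaf 3 461 461) (node 466 (merge (leaf 2 462 465) (node 498 (merge (leaf 3 462 463) (leaf 2 463 467))))))) (merge (node 461 (merge (leaf 3 461 497) (node 558 (merge (leaf 7 429 429) (node 589 (merge (leaf 5 461 557) (node 590 (merge (leaf 7 461 493) (leaf 5 493 621))))))))) (node 430 (merge (node 399 (merge (leaf 6 398 431) (node 398 (merge (leaf 6 366 367) (node 397 (merge (leaf 7 365 365) (leaf 7 397 429))))))) (merge (node 431 (merge (leaf 6 398 399) (node 558 (merge (leaf 6 430 463) (node 591 (merge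 (leaf 4 462 559) (node 590 (merge (leaf 4 494 623) (node 589 (merge (leaf 5 461 557) (leaf 5 493 621))))))))))) (merge (node 397 (merge (leaf 7 397 429) (node 398 (merge (leaf 7 365 365) (node 463 (merge (leaf 4 366 366) (node 558 (merge (leaf 6 430 431) (leaf 6 462 590))))))))) (node 397 (merge (leaf 7 397 429) (node 398 (merge (leaf 7 365 365) (node 366 (merge (leaf 4 366 463) (node 367 (merge (leaf 6 334 335) (leaf 6 366 399)))))))))))))))))))))))))))))))))))) nA_5 cA_5 12 (by decide +kernel)
def nA_6 : ℕ := 0x1000000010000000000000000000000000000000000000000000000000000000000000000000000000000000000000000000000000000000000000000000000000000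
def cA_6 : ℕ := 0x80000007e0000007e000003ff800001ff800003af000000ef800000770000003e0000003e0000003a0000000000000000000000000000000000000000000000000000000000000000000000000000000000000000000
theorem lA_6 : S nA_6 cA_6 13 := S_of_chk [] trivial (node 464 (merge (node 559 (merge (node 527 (merge (leaf 5 431 432) (node 591 (merge (leaf 6 463 495) (leaf 6 495 623))))) (merge (node 591 (merge (leaf 5 463 560) (node 527 (merge (leaf 6 463 495) (leaf 6 495 623))))) (merge (node 560 (merge (leaf 5 463 591) (node 561 (merge (leaf 4 464 593) (node 432 (merge (leaf 4 432 529) (node 433 (merge (leaf 6 400 401) (leaf 6 432 465))))))))) (node 432 (merge (leaf 5 431 527) (node 561 (merge (leaf 4 432 529) (node 433 (merge (leaf 6 400 401) (node 560 (merge (leaf 6 432 465) (leaf 4 464 593))))))))))))) (merge (node 432 (merge (node 561 (merge (leaf 4 432 529) (node 433 (merge (leaf 6 400 401) (node 560 (merge (leaf 6 432 465) (leaf 4 464 593))))))) (merge (node 529 (merge (leaf 4 432 561) (node 400 (merge (leaf 4 400 497) (node 399 (merge (leaf 7 367 367) (leaf 7 399 431))))))) (node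 401 (merge (leaf 6 400 433) (node 400 (merge (leaf 6 368 369) (node 399 (merge (leaf 7 367 367) (leaf 7 399 431)))))))))) (merge (node 432 (merge (node 561 (merge (leaf 4 432 529) (node 560 (merge (leaf 4 464 593) (node 559 (merge (leaf 5 431 527) (leaf 5 463 591))))))) (merge (node 529 (merge (leaf 4 432 561) (node 400 (merge (leaf 4 400 497) (node 399 (merge (leaf 7 367 367) (leaf 7 399 431))))))) (node 527 (merge (leaf 5 431 559) (node 400 (merge (leaf 5 399 495) (node 399 (merge (leaf 7 367 367) (leaf 7 399 431)))))))))) (merge (node 560 (merge (node 433 (merge (leaf 6 432 465) (node 432 (merge (leaf 6 400 401) (node 559 (merge (leaf 5 431 527) (leaf 5 463 591))))))) (merge (node 593 (merge (leaf 4 464 561) (node 465 (merge (leaf 6 432 433) (node 592 (merge (leaf 6 464 497) (leaf 4 496 625))))))) (node 593 (merge (leaf 4 464 561) (node 592 (merge (leaf 4 496 625) (node 591 (merge (leaf 5 463 559) (leaf 5 495 623)))))))))) (merge (node 560 (merge (node 465 (merge (leaf 6 432 433) (node 592 (merge (leaf 6 464 497) (node 591 (merge (leaf 5 463 559) (leaf 5 495 623)))))))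 (merge (node 433 (merge (leaf 6 432 465) (node 432 (merge (leaf 6 400 401) (node 529 (merge (leaf 4 432 561) (node 400 (merge (leaf 4 400 497) (node 399 (merge (leaf 7 367 367) (leaf 7 399 431))))))))))) (merge (node 559 (merge (leaf 5 463 591) (node 432 (merge (leaf 5 431 527) (node 401 (merge (leaf 6 400 433) (node 400 (merge (leaf 6 368 369) (node 399 (merge (leaf 7 367 367) (leaf 7 399 431))))))))))) (node 559 (merge (leaf 5 463 591) (node 432 (merge (leaf 5 431 527) (node 399 (merge (leaf 7 399 431) (node 400 (merge (leaf 7 367 367) (node 497 (merge (leaf 4 400 529) (node 465 (merge (leaf 4 368 368) (leaf 6 464 592))))))))))))))))) (merge (node 560 (merge (node 465 (merge (leaf 6 432 433) (node 592 (merge (leaf 6 464 497) (node 591 (merge (leaf 5 463 559) (leaf 5 495 623))))))) (merge (node 559 (merge (leaf 5 463 591) (node 432 (merge (leaf 5 431 527) (node 401 (merge (leaf 6 400 433) (node 400 (merge (leaf 6 368 369) (node 399 (merge (leaf 7 367 367) (leaf 7 399 431))))))))))) (merge (node 559 (merge (leaf 5 463 591) (node 432 (merge (leaf 5 431 527) (node 399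 (merge (leaf 7 399 431) (node 400 (merge (leaf 7 367 367) (node 497 (merge (leaf 4 400 529) (node 465 (merge (leaf 4 368 368) (leaf 6 464 592))))))))))))) (merge (node 465 (merge (leaf 6 432 433) (node 592 (merge (leaf 6 464 497) (node 625 (merge (leaf 4 496 593) (node 624 (merge (leaf 4 528 657) (node 623 (merge (leaf 5 495 591) (leaf 5 527 655))))))))))) (node 465 (merge (leaf 6 432 433) (node 592 (merge (leaf 6 464 497) (node 625 (merge (leaf 4 496 593) (node 624 (merge (leaf 4 528 657) (node 655 (merge (leaf 5 527 623) (node 656 (merge (leaf 5 559 687) (node 527 (merge (leaf 7 495 495) (leaf 7 527 559)))))))))))))))))))) (merge (node 560 (merge (node 593 (merge (leaf 4 464 561) (node 465 (merge (leaf 6 432 433) (node 592 (merge (leaf 6 464 497) (leaf 4 496 625))))))) (merge (node 465 (merge (leaf 6 432 433) (node 592 (merge (leaf 6 464 497) (node 591 (merge (leaf 5 463 559) (leaf 5 495 623))))))) (node 561 (merge (node 593 (merge (leaf 4 464 464) (node 625 (merge (leaf 7 496 529) (leaf 7 528 657))))) (merge (node 559 (merge (node 591 (merge (leaf 5 463 464) (node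 623 (merge (leaf 6 495 527) (leaf 6 527 655))))) (merge (node 526 (merge (node 527 (merge (leaf 0 525 525) (leaf 3 526 562))) (merge (node 558 (merge (leaf 3 525 525) (node 557 (merge (leaf 2 525 529) (node 589 (merge (leaf 1 556 588) (leaf 1 557 590))))))) (node 562 (merge (leaf 3 526 527) (node 595 (merge (leaf 0 559 594) (node 563 (merge (leaf 0 560 596) (node 532 (merge (leaf 2 528 531) (node 564 (merge (leaf 3 528 529) (leaf 2 529 533)))))))))))))) (node 591 (merge (leaf 5 463 464) (node 562 (merge (leaf 1 558 590) (node 595 (merge (leaf 0 559 594) (node 563 (merge (leaf 0 560 596) (node 532 (merge (leaf 2 528 531) (node 564 (merge (leaf 3 528 529) (leaf 2 529 533)))))))))))))))) (merge (node 559 (merge (node 464 (merge (leaf 5 463 591) (leaf 4 464 593))) (merge (node 591 (merge (leaf 5 463 464) (node 623 (merge (leaf 6 495 527) (leaf 6 527 655))))) (merge (node 558 (merge (node 589 (merge (leaf 1 557 590) (node 557 (merge (leaf 1 556 588) (node 525 (merge (leaf 3 524 524) (leaf 3 525 526))))))) (merge (node 594 (merge (leaf 0 558 593) (node 562 (merge (leaf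 0 559 595) (node 526 (merge (leaf 3 525 525) (leaf 3 526 527))))))) (node 594 (merge (leaf 0 558 593) (node 562 (merge (leaf 0 559 595) (node 590 (merge (leaf 1 557 589) (leaf 1 558 591)))))))))) (node 593 (merge (leaf 4 464 464) (node 558 (merge (leaf 0 558 594) (node 590 (merge (leaf 1 557 589) (node 526 (merge (leaf 3 525 525) (node 527 (merge (leaf 3 526 562) (node 622 (merge (leaf 6 494 495) (leaf 6 526 654))))))))))))))))) (node 562 (merge (node 527 (merge (leaf 3 527 563) (node 526 (merge (leaf 0 525 525) (leaf 3 526 559))))) (merge (node 563 (merge (leaf 3 527 527) (node 596 (merge (leaf 0 560 595) (node 564 (merge (leaf 3 528 529) (leaf 0 561 597))))))) (merge (node 563 (merge (node 596 (merge (leaf 0 560 595) (node 564 (merge (leaf 3 528 529) (leaf 0 561 597))))) (merge (node 532 (merge (leaf 2 528 531) (node 564 (merge (leaf 3 528 529) (leaf 2 529 533))))) (node 595 (merge (leaf 0 560 596) (node 594 (merge (leaf 0 559 559) (node 531 (merge (leaf 2 528 532) (node 626 (merge (leaf 5 498 499) (leaf 6 530 658)))))))))))) (node 559 (merge (node 591 (merge (leaf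 1 558 590) (node 623 (merge (leaf 6 527 655) (node 527 (merge (leaf 6 495 496) (leaf 3 526 526))))))) (merge (node 594 (merge (leaf 0 559 595) (node 558 (merge (leaf 0 558 593) (node 557 (merge (leaf 2 525 529) (node 525 (merge (leaf 3 524 524) (leaf 3 525 526))))))))) (node 594 (merge (leaf 0 559 595) (node 558 (merge (leaf 0 558 593) (node 557 (merge (leaf 2 525 529) (node 588 (merge (leaf 1 556 589) (node 556 (merge (leaf 2 524 527) (leaf 1 555 587))))))))))))))))))))))))) (node 527 (merge (node 559 (merge (leaf 5 431 432) (node 591 (merge (leaf 6 463 495) (leaf 6 495 623))))) (merge (node 432 (merge (leaf 5 431 559) (node 529 (merge (leaf 4 432 561) (node 497 (merge (leaf 4 400 400) (node 526 (merge (leaf 2 494 498) (leaf 2 493 525))))))))) (merge (node 526 (merge (node 497 (merge (leaf 2 493 525) (node 498 (merge (leaf 1 495 499) (leaf 2 494 529))))) (merge (node 525 (merge (leaf 2 493 497) (node 524 (merge (leaf 2 492 495) (node 492 (merge (leaf 3 491 491) (leaf 3 492 493))))))) (merge (node 525 (merge (node 524 (merge (leaf 2 492 495) (node 492 (merge (leaf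 3 491 491) (leaf 3 492 493))))) (merge (node 524 (merge (leaf 2 492 495) (node 556 (merge (leaf 1 523 555) (leaf 1 524 557))))) (node 557 (merge (leaf 1 524 556) (node 529 (merge (leaf 1 525 558) (node 493 (merge (leaf 3 492 492) (leaf 3 493 494)))))))))) (node 494 (merge (node 493 (merge (leaf 3 493 529) (node 495 (merge (leaf 2 461 465) (leaf 0 492 492))))) (merge (node 529 (merge (leaf 3 493 493) (node 561 (merge (leaf 0 526 562) (node 497 (merge (leaf 2 494 498) (leaf 7 464 593))))))) (merge (node 495 (merge (node 493 (merge (leaf 2 461 465) (leaf 0 492 492))) (node 497 (merge (leaf 1 494 498) (node 462 (merge (leaf 3 461 461) (node 430 (merge (leaf 4 398 398) (leaf 4 430 559))))))))) (node 558 (merge (node 529 (merge (leaf 1 525 557) (node 561 (merge (leaf 0 526 562) (node 593 (merge (leaf 7 464 497) (leaf 7 496 625))))))) (merge (node 557 (merge (node 556 (merge (leaf 2 523 555) (leaf 2 524 559))) (node 589 (merge (leaf 5 461 462) (node 621 (merge (leaf 5 493 590) (leaf 6 525 653))))))) (node 559 (merge (node 591 (merge (leaf 4 462 462) (leaf 6 495 623))) (merge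 (node 591 (merge (leaf 6 463 495) (leaf 6 495 623))) (node 462 (merge (leaf 4 430 430) (node 461 (merge (leaf 7 429 429) (node 497 (merge (leaf 3 461 495) (node 529 (merge (leaf 2 494 498) (node 561 (merge (leaf 0 526 562) (leaf 7 464 593))))))))))))))))))))))))) (node 526 (merge (node 497 (merge (leaf 2 493 525) (node 498 (merge (leaf 1 495 499) (leaf 2 494 529))))) (merge (node 525 (merge (leaf 2 493 497) (node 524 (merge (leaf 2 492 495) (node 492 (merge (leaf 3 491 491) (leaf 3 492 493))))))) (merge (node 525 (merge (node 524 (merge (leaf 2 492 495) (node 492 (merge (leaf 3 491 491) (leaf 3 492 493))))) (merge (node 524 (merge (leaf 2 492 495) (node 556 (merge (leaf 1 523 555) (leaf 1 524 557))))) (node 557 (merge (leaf 1 524 556) (node 529 (merge (leaf 1 525 558) (node 493 (merge (leaf 3 492 492) (leaf 3 493 494)))))))))) (node 494 (merge (node 529 (merge (leaf 3 493 493) (node 561 (merge (leaf 4 432 432) (leaf 0 526 562))))) (merge (node 493 (merge (leaf 3 493 529) (node 495 (merge (leaf 2 461 465) (leaf 0 492 492))))) (merge (node 495 (merge (node 493 (merge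 (leaf 2 461 465) (leaf 0 492 492))) (merge (node 497 (merge (leaf 1 494 498) (node 465 (merge (leaf 2 462 466) (node 462 (merge (leaf 3 461 461) (node 430 (merge (leaf 4 398 398) (node 431 (merge (leaf 6 398 399) (node 429 (merge (leaf 7 397 397) (leaf 0 429 432))))))))))))) (node 493 (merge (leaf 0 492 492) (node 497 (merge (leaf 1 494 498) (node 461 (merge (leaf 3 460 460) (leaf 3 461 462)))))))))) (node 558 (merge (node 529 (merge (leaf 1 525 557) (node 561 (merge (leaf 0 526 562) (node 593 (merge (leaf 7 464 497) (leaf 7 496 625))))))) (merge (node 462 (merge (node 461 (merge (leaf 7 429 429) (node 497 (merge (leaf 3 461 495) (node 529 (merge (leaf 2 494 498) (node 561 (merge (leaf 0 526 562) (leaf 7 464 593))))))))) (merge (node 429 (merge (leaf 7 429 461) (node 430 (merge (leaf 7 397 397) (node 431 (merge (leaf 6 398 399) (node 432 (merge (leaf 0 429 465) (node 401 (merge (leaf 2 397 400) (leaf 6 400 433))))))))))) (merge (node 529 (merge (node 561 (merge (leaf 0 526 562) (node 497 (merge (leaf 2 494 498) (leaf 7 464 593))))) (merge (node 432 (merge (leaf 4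 432 561) (node 433 (merge (leaf 6 400 401) (node 431 (merge (leaf 7 399 399) (node 430 (merge (leaf 1 429 461) (node 398 (merge (leaf 3 397 397) (leaf 4 398 495))))))))))) (node 497 (merge (leaf 2 494 498) (node 461 (merge (leaf 3 461 495) (node 432 (merge (leaf 4 400 400) (node 433 (merge (leaf 6 400 401) (node 431 (merge (leaf 7 399 399) (leaf 1 429 430)))))))))))))) (node 430 (merge (node 398 (merge (leaf 4 398 495) (node 397 (merge (leaf 7 365 365) (leaf 7 397 429))))) (merge (node 398 (merge (leaf 4 398 495) (node 399 (merge (leaf 6 366 367) (leaf 6 398 431))))) (node 431 (merge (leaf 6 398 399) (node 429 (merge (leaf 7 397 397) (node 432 (merge (leaf 0 429 465) (node 401 (merge (leaf 2 397 400) (leaf 6 400 433)))))))))))))))) (node 590 (merge (node 623 (merge (leaf 4 494 591) (node 622 (merge (leaf 6 494 495) (leaf 4 526 655))))) (merge (node 623 (merge (leaf 4 494 591) (node 622 (merge (leaf 4 526 655) (node 621 (merge (leaf 5 493 589) (leaf 5 525 653))))))) (node 589 (merge (leaf 5 493 621) (node 462 (merge (leaf 5 461 557) (node 429 (merge (leaf 7 429 461)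 (node 430 (merge (leaf 7 397 397) (node 398 (merge (leaf 4 398 495) (node 399 (merge (leaf 6 366 367) (leaf 6 398 431))))))))))))))))))))))))))))))))))))))) nA_6 cA_6 13 (by decide +kernel)
def nA_7 : ℕ := 0x1000000010000000100000000000000000000000000000000000000000000000000000000000000000000000000000000000000000000000000000000000000000000
def cA_7 : ℕ := 0x280000002c000003ef000001ee000003fe000000fe000000f80000001800000000000000000000000000000000000000000000000000000000000000000000000000000000000
theorem lA_7 : S nA_7 cA_7 12 := S_of_chk [] trivial (node 465 (merge (node 432 (merge (node 431 (merge (leaf 7 399 399) (node 430 (merge (leaf 0 429 429) (node 466 (merge (leaf 3 430 463) (leaf 3 431 467))))))) (merge (node 527 (merge (leaf 5 431 559) (node 400 (merge (leaf 5 399 495) (node 399 (merge (leaf 7 367 367) (leaf 7 399 431))))))) (node 527 (merge (leaf 5 431 559) (node 495 (merge (leaf 5 399 400) (node 466 (merge (leaf 1 463 467) (node 494 (merge (leaf 1 462 463) (leaf 2 461 493)))))))))))) (merge (node 432 (merge (node 431 (merge (leaf 7 399 399) (node 430 (merge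 (leaf 0 429 429) (node 466 (merge (leaf 0 430 433) (leaf 3 431 467))))))) (merge (node 529 (merge (leaf 4 432 561) (node 400 (merge (leaf 4 400 497) (node 401 (merge (leaf 6 368 369) (leaf 6 400 433))))))) (node 529 (merge (leaf 4 432 561) (node 400 (merge (leaf 4 400 497) (node 399 (merge (leaf 7 367 367) (leaf 7 399 431)))))))))) (merge (node 432 (merge (node 527 (merge (leaf 5 431 559) (node 400 (merge (leaf 5 399 495) (node 399 (merge (leaf 7 367 367) (leaf 7 399 431))))))) (merge (node 401 (merge (leaf 6 400 433) (node 400 (merge (leaf 6 368 369) (node 399 (merge (leaf 7 367 367) (leaf 7 399 431))))))) (merge (node 401 (merge (leaf 6 400 433) (node 400 (merge (leaf 6 368 369) (node 527 (merge (leaf 5 399 495) (leaf 5 431 559))))))) (node 527 (merge (leaf 5 431 559) (node 433 (merge (leaf 6 400 401) (node 431 (merge (leaf 7 399 399) (node 430 (merge (leaf 0 429 429) (node 462 (merge (leaf 1 429 461) (node 463 (merge (leaf 1 430 434) (node 398 (merge (leaf 3 397 397) (leaf 7 398 495))))))))))))))))))) (merge (node 466 (merge (node 495 (merge (leaf 1 463 467) (node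 494 (merge (leaf 1 462 463) (leaf 2 461 493))))) (merge (node 467 (merge (leaf 1 463 495) (node 500 (merge (leaf 0 464 499) (node 468 (merge (leaf 1 464 497) (leaf 0 465 501))))))) (merge (node 463 (merge (node 431 (merge (leaf 3 430 430) (node 399 (merge (leaf 4 367 367) (leaf 4 399 495))))) (merge (node 434 (merge (leaf 2 431 435) (node 462 (merge (leaf 2 430 433) (node 494 (merge (leaf 1 461 493) (leaf 1 462 495))))))) (node 434 (merge (leaf 2 431 435) (node 462 (merge (leaf 2 430 433) (node 461 (merge (leaf 0 461 497) (node 493 (merge (leaf 1 460 492) (leaf 1 461 494)))))))))))) (node 435 (merge (node 434 (merge (leaf 2 431 463) (node 436 (merge (leaf 1 432 433) (leaf 1 433 437))))) (merge (node 467 (merge (leaf 2 432 436) (node 500 (merge (leaf 0 464 499) (node 468 (merge (leaf 1 464 497) (leaf 0 465 501))))))) (node 463 (merge (leaf 2 431 434) (node 430 (merge (leaf 3 430 431) (node 462 (merge (leaf 3 429 429) (node 497 (merge (leaf 0 461 461) (leaf 0 462 498)))))))))))))))) (merge (node 529 (merge (node 432 (merge (leaf 4 432 561) (node 400 (merge (leaf 4 400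 497) (node 399 (merge (leaf 7 367 367) (leaf 7 399 431))))))) (merge (node 432 (merge (leaf 4 432 561) (node 401 (merge (leaf 6 400 433) (node 400 (merge (leaf 6 368 369) (node 399 (merge (leaf 7 367 367) (leaf 7 399 431))))))))) (merge (node 466 (merge (node 467 (merge (leaf 1 463 495) (node 432 (merge (leaf 3 431 431) (node 433 (merge (leaf 6 400 401) (leaf 3 432 468))))))) (merge (node 467 (merge (leaf 1 463 495) (node 499 (merge (leaf 0 464 500) (node 463 (merge (leaf 0 463 498) (node 435 (merge (leaf 2 431 434) (leaf 2 432 436))))))))) (merge (node 467 (merge (node 432 (merge (leaf 3 431 431) (node 433 (merge (leaf 6 400 401) (leaf 3 432 468))))) (node 499 (merge (leaf 0 464 500) (node 463 (merge (leaf 0 463 498) (node 435 (merge (leaf 2 431 434) (leaf 2 432 436))))))))) (node 463 (merge (node 434 (merge (leaf 2 431 435) (node 462 (merge (leaf 2 430 433) (node 497 (merge (leaf 0 461 461) (leaf 0 462 498))))))) (merge (node 494 (merge (leaf 1 462 495) (node 462 (merge (leaf 1 461 493) (node 497 (merge (leaf 0 461 461) (leaf 0 462 498))))))) (merge (node 434 (merge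 (leaf 2 431 435) (node 462 (merge (leaf 2 430 433) (node 494 (merge (leaf 1 461 493) (leaf 1 462 495))))))) (node 498 (merge (leaf 0 463 499) (node 495 (merge (leaf 1 462 494) (node 434 (merge (leaf 2 431 435) (node 402 (merge (leaf 5 401 497) (node 401 (merge (leaf 7 369 369) (node 432 (merge (leaf 6 400 433) (node 527 (merge (leaf 5 399 400) (leaf 5 431 559))))))))))))))))))))))) (node 466 (merge (node 467 (merge (leaf 1 463 495) (node 500 (merge (leaf 0 464 499) (node 468 (merge (leaf 1 464 497) (leaf 0 465 501))))))) (merge (node 467 (merge (leaf 1 463 495) (node 499 (merge (leaf 0 464 500) (node 463 (merge (leaf 0 463 498) (node 435 (merge (leaf 2 431 434) (leaf 2 432 436))))))))) (merge (node 463 (merge (node 434 (merge (leaf 2 431 435) (node 497 (merge (leaf 6 433 561) (node 433 (merge (leaf 5 400 401) (leaf 6 401 402))))))) (merge (node 494 (merge (leaf 1 462 495) (node 462 (merge (leaf 1 461 493) (node 497 (merge (leaf 0 461 461) (leaf 0 462 498))))))) (node 434 (merge (leaf 2 431 435) (node 462 (merge (leaf 2 430 433) (node 494 (merge (leaf 1 461 493) (leaf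 1 462 495)))))))))) (node 435 (merge (node 434 (merge (leaf 2 431 463) (node 436 (merge (leaf 1 432 433) (leaf 1 433 437))))) (merge (node 467 (merge (leaf 2 432 436) (node 500 (merge (leaf 0 464 499) (node 468 (merge (leaf 1 464 497) (leaf 0 465 501))))))) (node 434 (merge (leaf 2 431 463) (node 497 (merge (leaf 6 433 561) (node 433 (merge (leaf 5 400 401) (leaf 6 401 402)))))))))))))))))) (merge (node 466 (merge (node 495 (merge (leaf 1 463 467) (node 494 (merge (leaf 1 462 463) (leaf 2 461 493))))) (merge (node 467 (merge (leaf 1 463 495) (node 432 (merge (leaf 3 431 431) (node 433 (merge (leaf 6 400 401) (leaf 3 432 468))))))) (merge (node 435 (merge (node 434 (merge (leaf 2 431 463) (node 436 (merge (leaf 1 432 433) (leaf 1 433 437))))) (merge (node 467 (merge (leaf 2 432 436) (node 500 (merge (leaf 0 464 499) (node 468 (merge (leaf 1 464 497) (leaf 0 465 501))))))) (node 463 (merge (leaf 2 431 434) (node 430 (merge (leaf 3 430 431) (node 462 (merge (leaf 3 429 429) (node 497 (merge (leaf 0 461 461) (leaf 0 462 498)))))))))))) (node 529 (merge (node 432 (merge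 (leaf 4 432 561) (node 400 (merge (leaf 4 400 497) (node 527 (merge (leaf 5 399 495) (leaf 5 431 559))))))) (merge (node 432 (merge (leaf 4 432 561) (node 497 (merge (leaf 4 400 400) (node 433 (merge (leaf 5 400 401) (node 434 (merge (leaf 6 401 402) (node 463 (merge (leaf 1 431 435) (leaf 2 430 462))))))))))) (merge (node 463 (merge (node 434 (merge (leaf 2 431 435) (node 462 (merge (leaf 2 430 433) (node 494 (merge (leaf 1 461 493) (leaf 1 462 495))))))) (merge (node 434 (merge (leaf 2 431 435) (node 497 (merge (leaf 6 433 561) (node 402 (merge (leaf 5 369 370) (leaf 5 401 498))))))) (node 494 (merge (leaf 1 462 495) (node 462 (merge (leaf 1 461 493) (node 497 (merge (leaf 0 461 461) (leaf 0 462 498)))))))))) (merge (node 432 (merge (leaf 4 432 561) (node 527 (merge (leaf 5 431 559) (node 495 (merge (leaf 5 399 400) (node 494 (merge (leaf 1 462 463) (leaf 0 493 493))))))))) (node 463 (merge (node 434 (merge (leaf 2 431 435) (node 462 (merge (leaf 2 430 433) (node 494 (merge (leaf 1 461 493) (leaf 1 462 495))))))) (merge (node 494 (merge (leaf 1 462 495) (node 462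 (merge (leaf 1 461 493) (node 497 (merge (leaf 0 461 461) (leaf 0 462 498))))))) (node 498 (merge (leaf 0 463 499) (node 434 (merge (leaf 2 431 435) (node 431 (merge (leaf 3 430 430) (node 402 (merge (leaf 5 401 497) (node 403 (merge (leaf 6 370 371) (node 432 (merge (leaf 2 399 433) (node 401 (merge (leaf 7 369 369) (leaf 1 399 400))))))))))))))))))))))))))) (node 433 (merge (node 401 (merge (leaf 5 368 369) (leaf 6 400 432))) (merge (node 401 (merge (leaf 5 368 369) (leaf 5 400 497))) (node 463 (merge (node 462 (merge (leaf 2 430 434) (node 498 (merge (leaf 0 462 497) (node 466 (merge (leaf 0 463 499) (node 494 (merge (leaf 1 461 493) (leaf 1 462 495))))))))) (merge (node 462 (merge (leaf 2 430 434) (node 461 (merge (leaf 2 429 432) (node 493 (merge (leaf 1 460 492) (leaf 1 461 494))))))) (merge (node 498 (merge (node 497 (merge (leaf 3 463 499) (node 462 (merge (leaf 0 461 461) (leaf 3 462 495))))) (merge (node 462 (merge (leaf 0 462 497) (node 493 (merge (leaf 1 461 494) (node 461 (merge (leaf 2 429 432) (leaf 1 460 492))))))) (node 466 (merge (leaf 0 463 499)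 (node 467 (merge (leaf 1 463 495) (node 436 (merge (leaf 2 432 435) (node 468 (merge (leaf 3 432 432) (leaf 2 433 437)))))))))))) (node 432 (merge (node 434 (merge (leaf 1 431 435) (node 529 (merge (leaf 4 432 561) (node 497 (merge (leaf 4 400 400) (leaf 6 401 402))))))) (merge (node 527 (merge (leaf 5 431 559) (node 400 (merge (leaf 5 399 495) (node 368 (merge (leaf 4 336 336) (node 367 (merge (leaf 7 335 335) (leaf 7 367 399))))))))) (node 434 (merge (leaf 1 431 435) (node 529 (merge (leaf 4 432 561) (node 527 (merge (leaf 5 431 559) (node 497 (merge (leaf 6 401 402) (node 498 (merge (leaf 1 495 499) (leaf 2 494 526)))))))))))))))))))))))))))) nA_7 cA_7 12 (by decide +kernel)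
def nA_8 : ℕ := 0x100000001000000010000000000000000000000000000000000000000000000000000000000000000000000000000000000000000000000000000000000000000000000000000
def cA_8 : ℕ := 0xe0000000f000003afe00001efc00001ff800000fe0000006c000000440000000000000000000000000000000000000000000000000000000000000000000000000000000000000000000
theorem lA_8 : S nA_8 cA_8 12 := S_of_chk [] trivial (node 495 (merge (node 464 (merge (node 465 (merge (leaf 6 432 433) (node 466 (merge (leaf 1 463 467) (node 463 (merge (leaf 7 431 431) (leaf 1 462 494))))))) (merge (node 433 (merge (leaf 6 432 465) (node 432 (merge (leaf 6 400 401) (node 559 (merge (leaf 5 431 527) (leaf 5 463 591))))))) (node 559 (merge (leaf 5 463 591) (node 432 (merge (leaf 5 431 527) (node 431 (merge (leaf 7 399 399) (leaf 7 431 463)))))))))) (merge (node 494 (merge (node 493 (merge (leaf 0 493 529) (node 492 (merge (leaf 0 492 527) (node 460 (merge (leaf 3 459 459) (leaf 3 460 461))))))) (merge (node 493 (merge (leaf 0 493 529) (node 525 (merge (leaf 1 492 524) (node 497 (merge (leaf 1 493 526) (node 465 (merge (leaf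 2 461 464) (leaf 2 462 466))))))))) (merge (node 525 (merge (node 526 (merge (leaf 1 493 497) (node 524 (merge (leaf 2 491 523) (leaf 2 492 527))))) (merge (node 493 (merge (leaf 1 492 524) (node 492 (merge (leaf 0 492 527) (node 460 (merge (leaf 3 459 459) (leaf 3 460 461))))))) (node 497 (merge (leaf 1 493 526) (node 465 (merge (leaf 2 462 466) (node 464 (merge (leaf 2 461 493) (node 433 (merge (leaf 5 400 401) (leaf 6 432 560)))))))))))) (node 497 (merge (node 465 (merge (leaf 2 462 466) (node 433 (merge (leaf 5 400 401) (node 560 (merge (leaf 6 432 464) (leaf 5 432 529))))))) (node 526 (merge (leaf 1 493 525) (node 527 (merge (leaf 1 494 498) (node 462 (merge (leaf 3 461 461) (node 559 (merge (leaf 4 430 430) (leaf 7 462 591))))))))))))))) (merge (node 494 (merge (node 493 (merge (leaf 0 493 529) (node 524 (merge (leaf 1 492 525) (node 492 (merge (leaf 1 491 523) (node 460 (merge (leaf 3 459 459) (leaf 3 460 461))))))))) (merge (node 493 (merge (leaf 0 493 529) (node 465 (merge (leaf 2 461 464) (node 497 (merge (leaf 2 462 466) (node 461 (merge (leaf 3 460 460)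 (leaf 3 461 462))))))))) (merge (node 493 (merge (leaf 0 493 529) (node 525 (merge (leaf 1 492 524) (node 497 (merge (leaf 1 493 526) (node 465 (merge (leaf 2 461 464) (leaf 2 462 466))))))))) (merge (node 461 (merge (node 462 (merge (leaf 3 461 497) (node 460 (merge (leaf 0 459 459) (leaf 0 460 463))))) (merge (node 497 (merge (leaf 3 461 462) (node 525 (merge (leaf 1 493 526) (node 493 (merge (leaf 1 492 524) (node 465 (merge (leaf 2 461 464) (leaf 2 462 466))))))))) (node 493 (merge (leaf 3 460 460) (node 464 (merge (leaf 2 461 465) (node 492 (merge (leaf 2 460 463) (node 524 (merge (leaf 1 491 523) (leaf 1 492 525)))))))))))) (node 497 (merge (node 465 (merge (leaf 2 462 466) (node 433 (merge (leaf 5 400 401) (node 560 (merge (leaf 6 432 464) (leaf 5 432 529))))))) (merge (node 466 (merge (leaf 2 462 465) (node 498 (merge (leaf 2 463 467) (node 462 (merge (leaf 3 461 461) (leaf 3 462 463))))))) (node 526 (merge (leaf 1 493 525) (node 462 (merge (leaf 3 461 461) (node 463 (merge (leaf 3 462 498) (node 431 (merge (leaf 4 399 399) (leaf 6 430 558)))))))))))))))))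 (merge (node 463 (merge (node 431 (merge (leaf 4 399 399) (leaf 7 431 464))) (merge (node 431 (merge (leaf 4 399 399) (leaf 4 431 527))) (node 497 (merge (node 462 (merge (leaf 3 462 498) (node 461 (merge (leaf 0 460 460) (leaf 3 461 494))))) (merge (node 498 (merge (leaf 3 462 462) (node 499 (merge (leaf 3 463 464) (leaf 1 495 527))))) (merge (node 494 (merge (node 493 (merge (leaf 0 493 529) (node 492 (merge (leaf 0 492 527) (node 462 (merge (leaf 3 461 461) (leaf 2 459 491))))))) (merge (node 525 (merge (leaf 1 493 526) (node 493 (merge (leaf 1 492 524) (node 461 (merge (leaf 3 460 460) (leaf 3 461 462))))))) (merge (node 493 (merge (leaf 0 493 529) (node 492 (merge (leaf 2 460 464) (leaf 0 492 527))))) (node 526 (merge (leaf 1 493 525) (node 462 (merge (leaf 3 461 461) (node 558 (merge (leaf 6 462 590) (node 559 (merge (leaf 4 462 591) (node 557 (merge (leaf 2 525 529) (leaf 5 461 589))))))))))))))) (node 498 (merge (node 499 (merge (leaf 3 463 464) (leaf 1 495 527))) (merge (node 499 (merge (leaf 3 463 464) (node 532 (merge (leaf 0 496 531) (node 500 (merge (leaf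 1 496 529) (leaf 0 497 533))))))) (merge (node 499 (merge (leaf 1 495 527) (node 532 (merge (leaf 0 496 531) (node 500 (merge (leaf 1 496 529) (leaf 0 497 533))))))) (node 526 (merge (leaf 1 494 527) (node 494 (merge (leaf 1 493 525) (node 493 (merge (leaf 0 493 529) (node 492 (merge (leaf 2 460 464) (node 460 (merge (leaf 3 459 459) (leaf 3 460 461)))))))))))))))))))))) (merge (node 463 (merge (node 431 (merge (leaf 4 399 399) (leaf 4 431 527))) (merge (node 497 (merge (node 462 (merge (leaf 3 462 498) (node 461 (merge (leaf 0 460 460) (leaf 3 461 494))))) (merge (node 498 (merge (leaf 3 462 462) (node 467 (merge (leaf 2 463 466) (node 499 (merge (leaf 2 464 468) (node 532 (merge (leaf 0 496 531) (node 500 (merge (leaf 1 496 529) (leaf 0 497 533))))))))))) (merge (node 494 (merge (node 465 (merge (leaf 2 462 466) (node 433 (merge (leaf 5 400 401) (leaf 5 432 529))))) (node 525 (merge (leaf 1 493 526) (node 493 (merge (leaf 1 492 524) (node 461 (merge (leaf 3 460 460) (leaf 3 461 462))))))))) (node 466 (merge (node 465 (merge (leaf 2 462 494) (node 467 (merge (leaf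 1 464 468) (leaf 2 463 498))))) (merge (node 498 (merge (leaf 2 463 467) (node 527 (merge (leaf 1 495 499) (leaf 1 494 526))))) (node 494 (merge (leaf 2 462 465) (node 493 (merge (leaf 0 493 529) (node 492 (merge (leaf 0 492 527) (node 460 (merge (leaf 3 459 459) (leaf 3 460 461)))))))))))))))) (node 494 (merge (node 493 (merge (leaf 0 493 529) (node 525 (merge (leaf 1 492 524) (node 526 (merge (leaf 1 493 497) (node 461 (merge (leaf 3 460 460) (node 558 (merge (leaf 4 429 429) (leaf 6 462 590))))))))))) (merge (node 493 (merge (leaf 0 493 529) (node 525 (merge (leaf 1 492 524) (node 497 (merge (leaf 1 493 526) (node 466 (merge (leaf 2 462 465) (node 498 (merge (leaf 3 462 462) (leaf 2 463 467))))))))))) (merge (node 497 (merge (node 465 (merge (leaf 2 462 466) (node 433 (merge (leaf 5 400 401) (leaf 5 432 529))))) (merge (node 466 (merge (leaf 2 462 465) (node 498 (merge (leaf 2 463 467) (node 462 (merge (leaf 3 461 461) (leaf 3 462 463))))))) (node 526 (merge (leaf 1 493 525) (node 462 (merge (leaf 3 461 461) (node 463 (merge (leaf 3 462 498) (node 431 (merge (leaf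 4 399 399) (leaf 6 430 558)))))))))))) (merge (node 493 (merge (leaf 0 493 529) (node 460 (merge (leaf 3 460 461) (node 492 (merge (leaf 3 459 459) (node 523 (merge (leaf 1 491 524) (node 491 (merge (leaf 2 459 462) (leaf 1 490 522))))))))))) (node 525 (merge (node 524 (merge (leaf 1 492 493) (node 526 (merge (leaf 1 493 497) (leaf 2 491 523))))) (merge (node 497 (merge (leaf 1 493 526) (node 466 (merge (leaf 2 462 465) (node 498 (merge (leaf 2 463 467) (node 462 (merge (leaf 3 461 461) (leaf 3 462 463))))))))) (merge (node 493 (merge (leaf 1 492 524) (node 461 (merge (leaf 3 460 460) (node 462 (merge (leaf 3 461 497) (node 557 (merge (leaf 6 429 430) (leaf 6 461 589))))))))) (node 493 (merge (leaf 1 492 524) (node 460 (merge (leaf 3 460 461) (node 492 (merge (leaf 3 459 459) (node 491 (merge (leaf 2 459 462) (node 490 (merge (leaf 0 490 526) (node 522 (merge (leaf 1 489 521) (leaf 1 490 523))))))))))))))))))))))))) (merge (node 463 (merge (node 431 (merge (leaf 4 399 399) (leaf 7 431 464))) (merge (node 431 (merge (leaf 4 399 399) (leaf 4 431 527))) (node 497 (merge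 (node 462 (merge (leaf 3 462 498) (node 461 (merge (leaf 0 460 460) (leaf 3 461 494))))) (merge (node 498 (merge (leaf 3 462 462) (node 499 (merge (leaf 3 463 464) (leaf 1 495 527))))) (merge (node 498 (merge (node 499 (merge (leaf 3 463 464) (leaf 1 495 527))) (merge (node 499 (merge (leaf 3 463 464) (node 532 (merge (leaf 0 496 531) (node 500 (merge (leaf 1 496 529) (leaf 0 497 533))))))) (merge (node 499 (merge (leaf 1 495 527) (node 532 (merge (leaf 0 496 531) (node 500 (merge (leaf 1 496 529) (leaf 0 497 533))))))) (node 526 (merge (leaf 1 494 527) (node 494 (merge (leaf 1 493 525) (node 493 (merge (leaf 0 493 529) (node 464 (merge (leaf 2 461 465) (leaf 2 460 492))))))))))))) (node 464 (merge (node 559 (merge (leaf 5 463 591) (node 527 (merge (leaf 5 431 432) (node 558 (merge (leaf 5 462 590) (node 557 (merge (leaf 2 525 529) (leaf 2 524 556))))))))) (merge (node 462 (merge (leaf 0 461 461) (node 465 (merge (leaf 6 432 433) (node 494 (merge (leaf 1 461 493) (node 430 (merge (leaf 3 429 429) (node 398 (merge (leaf 4 366 366) (leaf 4 398 527))))))))))) (node 462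 (merge (leaf 0 461 461) (node 559 (merge (leaf 5 463 591) (node 465 (merge (leaf 6 432 433) (node 494 (merge (leaf 1 461 493) (node 526 (merge (leaf 1 493 525) (node 558 (merge (leaf 6 462 590) (node 557 (merge (leaf 2 525 529) (leaf 5 461 589))))))))))))))))))))))))) (node 464 (merge (node 433 (merge (leaf 6 432 465) (node 432 (merge (leaf 6 400 401) (node 559 (merge (leaf 5 431 527) (leaf 5 463 591))))))) (merge (node 559 (merge (leaf 5 463 591) (node 432 (merge (leaf 5 431 527) (node 431 (merge (leaf 7 399 399) (leaf 7 431 463))))))) (node 465 (merge (leaf 6 432 433) (node 466 (merge (leaf 1 463 467) (node 463 (merge (leaf 7 431 431) (node 498 (merge (leaf 0 463 499) (node 497 (merge (leaf 0 462 462) (node 434 (merge (leaf 2 431 435) (node 402 (merge (leaf 5 369 370) (leaf 5 401 529))))))))))))))))))))))))) nA_8 cA_8 12 (by decide +kernel)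
def nA_9 : ℕ := 0x1000000010000000000000000000000000000000000000000000000000000000000000000000000000000000000000000000000000000000000000000000000000000
def cA_9 : ℕ := 0xa0000002e0000002e0000007f800003afc00001ef800003ffc00000ff0000007e000000780000000000000000000000000000000000000000000000000000000000000000000000000000000000000000000
theorem lA_9 : S nA_9 cA_9 13 := S_of_chk [] trivial (node 495 (merge (node 494 (merge (node 493 (merge (leaf 0 493 529) (node 492 (merge (leaf 0 492 527) (node 460 (merge (leaf 3 459 459) (leaf 3 460 461))))))) (merge (node 493 (merge (leaf 0 493 529) (node 525 (merge (leaf 1 492 524) (node 497 (merge (leaf 1 493 526) (node 465 (merge (leaf 2 461 464) (leaf 2 462 466))))))))) (merge (node 525 (merge (node 526 (merge (leaf 1 493 497) (node 524 (merge (leaf 2 491 523) (leaf 2 492 527))))) (merge (node 493 (merge (leaf 1 492 524) (node 492 (merge (leaf 0 492 527) (node 460 (merge (leaf 3 459 459) (leaf 3 460 461))))))) (node 497 (merge (leaf 1 493 526) (node 465 (merge (leaf 2 462 466) (node 464 (merge (leaf 2 461 493) (node 433 (merge (leaf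 5 400 401) (leaf 6 432 560)))))))))))) (node 497 (merge (node 465 (merge (leaf 2 462 466) (node 433 (merge (leaf 5 400 401) (node 560 (merge (leaf 6 432 464) (leaf 5 432 529))))))) (node 526 (merge (leaf 1 493 525) (node 527 (merge (leaf 1 494 498) (node 462 (merge (leaf 3 461 461) (node 559 (merge (leaf 4 430 430) (leaf 7 462 591))))))))))))))) (merge (node 494 (merge (node 493 (merge (leaf 0 493 529) (node 524 (merge (leaf 1 492 525) (node 492 (merge (leaf 1 491 523) (node 460 (merge (leaf 3 459 459) (leaf 3 460 461))))))))) (merge (node 493 (merge (leaf 0 493 529) (node 465 (merge (leaf 2 461 464) (node 497 (merge (leaf 2 462 466) (node 461 (merge (leaf 3 460 460) (leaf 3 461 462))))))))) (merge (node 493 (merge (leaf 0 493 529) (node 525 (merge (leaf 1 492 524) (node 497 (merge (leaf 1 493 526) (node 465 (merge (leaf 2 461 464) (leaf 2 462 466))))))))) (merge (node 461 (merge (node 462 (merge (leaf 3 461 497) (node 460 (merge (leaf 0 459 459) (leaf 0 460 463))))) (merge (node 497 (merge (leaf 3 461 462) (node 525 (merge (leaf 1 493 526) (node 493 (merge (leaf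 1 492 524) (node 465 (merge (leaf 2 461 464) (leaf 2 462 466))))))))) (node 493 (merge (leaf 3 460 460) (node 464 (merge (leaf 2 461 465) (node 492 (merge (leaf 2 460 463) (node 524 (merge (leaf 1 491 523) (leaf 1 492 525)))))))))))) (node 497 (merge (node 465 (merge (leaf 2 462 466) (node 433 (merge (leaf 5 400 401) (node 560 (merge (leaf 6 432 464) (leaf 5 432 529))))))) (merge (node 466 (merge (leaf 2 462 465) (node 498 (merge (leaf 2 463 467) (node 462 (merge (leaf 3 461 461) (leaf 3 462 463))))))) (node 526 (merge (leaf 1 493 525) (node 462 (merge (leaf 3 461 461) (node 463 (merge (leaf 3 462 498) (node 431 (merge (leaf 4 399 399) (leaf 6 430 558))))))))))))))))) (merge (node 494 (merge (node 493 (merge (leaf 0 493 529) (node 492 (merge (leaf 0 492 527) (node 524 (merge (leaf 1 491 523) (leaf 1 492 525))))))) (merge (node 493 (merge (leaf 0 493 529) (node 492 (merge (leaf 0 492 527) (node 460 (merge (leaf 3 459 459) (leaf 3 460 461))))))) (merge (node 493 (merge (leaf 0 493 529) (node 525 (merge (leaf 1 492 524) (node 497 (merge (leaf 1 493 526) (node 461 (merge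 (leaf 3 460 460) (leaf 3 461 462))))))))) (merge (node 461 (merge (node 493 (merge (leaf 3 460 460) (node 492 (merge (leaf 0 492 527) (node 524 (merge (leaf 1 491 523) (leaf 1 492 525))))))) (merge (node 497 (merge (leaf 3 461 462) (node 466 (merge (leaf 2 462 465) (node 498 (merge (leaf 2 463 467) (node 527 (merge (leaf 1 495 499) (leaf 1 494 526))))))))) (node 493 (merge (leaf 3 460 460) (node 525 (merge (leaf 1 492 524) (node 497 (merge (leaf 3 461 462) (leaf 1 493 526)))))))))) (node 526 (merge (node 497 (merge (leaf 1 493 525) (node 466 (merge (leaf 2 462 465) (node 498 (merge (leaf 2 463 467) (leaf 1 494 527))))))) (merge (node 497 (merge (leaf 1 493 525) (node 466 (merge (leaf 2 462 465) (node 498 (merge (leaf 2 463 467) (node 462 (merge (leaf 3 461 461) (leaf 3 462 463))))))))) (node 558 (merge (node 590 (merge (leaf 6 462 463) (node 623 (merge (leaf 4 494 591) (node 622 (merge (leaf 6 494 527) (leaf 4 526 655))))))) (merge (node 590 (merge (leaf 6 462 463) (node 623 (merge (leaf 4 494 591) (node 622 (merge (leaf 4 526 655) (node 621 (merge (leaf 5 493 589)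 (leaf 5 525 653))))))))) (merge (node 590 (merge (node 623 (merge (leaf 4 494 591) (node 622 (merge (leaf 6 494 527) (leaf 4 526 655))))) (merge (node 622 (merge (leaf 6 494 527) (node 621 (merge (leaf 5 493 589) (leaf 5 525 653))))) (node 591 (merge (leaf 4 494 623) (node 462 (merge (leaf 4 462 559) (node 589 (merge (leaf 5 461 557) (leaf 5 493 621)))))))))) (node 557 (merge (node 527 (merge (leaf 1 525 529) (node 556 (merge (leaf 2 523 555) (leaf 2 524 559))))) (node 462 (merge (leaf 5 461 589) (node 461 (merge (leaf 7 429 429) (node 460 (merge (leaf 0 459 459) (leaf 0 460 463))))))))))))))))))))) (merge (node 464 (merge (node 559 (merge (node 527 (merge (leaf 5 431 432) (node 591 (merge (leaf 6 463 495) (leaf 6 495 623))))) (merge (node 591 (merge (leaf 5 463 560) (node 527 (merge (leaf 6 463 495) (leaf 6 495 623))))) (merge (node 560 (merge (leaf 5 463 591) (node 561 (merge (leaf 4 464 593) (node 432 (merge (leaf 4 432 529) (node 433 (merge (leaf 6 400 401) (leaf 6 432 465))))))))) (node 432 (merge (leaf 5 431 527) (node 561 (merge (leaf 4 432 529) (node 433 (merge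 (leaf 6 400 401) (node 560 (merge (leaf 6 432 465) (leaf 4 464 593))))))))))))) (merge (node 431 (merge (node 463 (merge (leaf 4 399 399) (leaf 7 431 560))) (merge (node 432 (merge (leaf 7 399 399) (node 527 (merge (leaf 5 399 400) (leaf 5 431 559))))) (node 560 (merge (leaf 7 431 463) (node 561 (merge (leaf 4 464 593) (node 432 (merge (leaf 4 432 529) (node 559 (merge (leaf 5 431 527) (leaf 5 463 591)))))))))))) (merge (node 527 (merge (node 559 (merge (leaf 5 431 432) (leaf 6 463 591))) (merge (node 559 (merge (leaf 6 463 591) (node 463 (merge (node 462 (merge (leaf 7 430 430) (node 497 (merge (leaf 0 461 461) (leaf 3 462 498))))) (node 431 (merge (leaf 4 399 399) (node 558 (merge (leaf 5 430 526) (leaf 5 462 590))))))))) (node 526 (merge (node 525 (merge (leaf 2 493 497) (leaf 2 492 524))) (node 432 (merge (leaf 5 399 400) (node 433 (merge (leaf 6 400 401) (node 431 (merge (leaf 7 399 399) (node 463 (merge (leaf 5 430 558) (node 462 (merge (leaf 1 430 434) (leaf 2 429 461)))))))))))))))) (node 463 (merge (node 431 (merge (leaf 4 399 399) (leaf 7 431 560))) (merge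 (node 465 (merge (node 466 (merge (leaf 1 463 467) (leaf 1 462 494))) (node 433 (merge (leaf 6 432 560) (node 401 (merge (leaf 5 368 369) (leaf 5 400 497))))))) (node 462 (merge (node 497 (merge (leaf 0 461 461) (leaf 3 462 498))) (merge (node 461 (merge (leaf 0 460 460) (node 429 (merge (leaf 3 428 428) (node 465 (merge (leaf 3 429 430) (node 466 (merge (leaf 1 463 467) (leaf 1 462 494))))))))) (node 465 (merge (node 433 (merge (leaf 2 430 434) (node 401 (merge (leaf 5 368 369) (leaf 5 400 497))))) (node 430 (merge (leaf 3 429 429) (node 466 (merge (leaf 3 430 431) (node 499 (merge (leaf 0 463 498) (node 467 (merge (leaf 1 463 495) (leaf 0 464 500))))))))))))))))))))) (merge (node 463 (merge (node 431 (merge (leaf 4 399 399) (node 560 (merge (leaf 7 431 464) (leaf 4 431 527))))) (merge (node 431 (merge (leaf 4 399 399) (node 527 (merge (leaf 4 431 560) (node 430 (merge (leaf 7 398 398) (node 559 (merge (leaf 7 430 462) (node 590 (merge (leaf 5 462 558) (node 591 (merge (leaf 5 494 622) (leaf 6 495 623))))))))))))) (merge (node 497 (merge (node 462 (merge (leaf 3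 462 498) (node 461 (merge (leaf 0 460 460) (leaf 0 461 464))))) (merge (node 498 (merge (leaf 3 462 462) (node 466 (merge (leaf 2 463 467) (node 494 (merge (leaf 2 462 465) (node 526 (merge (leaf 1 493 525) (leaf 1 494 527))))))))) (merge (node 498 (merge (node 499 (merge (leaf 3 463 464) (leaf 1 495 527))) (merge (node 466 (merge (leaf 2 463 467) (node 494 (merge (leaf 2 462 465) (node 526 (merge (leaf 1 493 525) (leaf 1 494 527))))))) (node 467 (merge (leaf 2 463 466) (node 499 (merge (leaf 3 463 464) (leaf 2 464 468)))))))) (node 465 (merge (node 433 (merge (leaf 5 400 401) (node 464 (merge (leaf 6 432 560) (node 462 (merge (leaf 2 430 434) (leaf 0 461 461))))))) (merge (node 466 (merge (leaf 2 462 494) (node 467 (merge (leaf 1 463 464) (leaf 1 464 468))))) (node 494 (merge (leaf 2 462 466) (node 525 (merge (leaf 1 493 526) (node 493 (merge (leaf 1 492 524) (node 492 (merge (leaf 0 492 527) (node 460 (merge (leaf 3 459 459) (leaf 3 460 461)))))))))))))))))) (merge (node 527 (merge (node 431 (merge (leaf 4 399 399) (node 526 (merge (leaf 5 430 558) (node 525 (merge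 (leaf 2 493 497) (leaf 2 492 524))))))) (merge (node 431 (merge (leaf 4 399 399) (node 430 (merge (leaf 7 398 398) (node 559 (merge (leaf 7 430 462) (node 591 (merge (leaf 6 463 464) (leaf 6 495 623))))))))) (merge (node 431 (merge (leaf 4 399 399) (node 558 (merge (leaf 5 430 526) (node 559 (merge (leaf 5 462 590) (node 432 (merge (leaf 6 399 400) (leaf 5 431 464))))))))) (node 559 (merge (node 591 (merge (leaf 6 463 464) (leaf 6 495 623))) (merge (node 591 (merge (leaf 6 495 623) (node 462 (merge (leaf 7 430 430) (leaf 7 462 494))))) (node 464 (merge (leaf 5 431 432) (node 462 (merge (leaf 7 430 430) (node 461 (merge (leaf 0 460 460) (leaf 0 461 497)))))))))))))) (node 464 (merge (node 431 (merge (leaf 4 399 399) (leaf 7 431 560))) (merge (node 465 (merge (node 466 (merge (leaf 1 463 467) (leaf 1 462 494))) (node 433 (merge (leaf 6 432 560) (node 401 (merge (leaf 5 368 369) (leaf 5 400 497))))))) (node 462 (merge (node 497 (merge (leaf 0 461 461) (leaf 3 462 498))) (merge (node 461 (merge (leaf 0 460 460) (node 429 (merge (leaf 3 428 428) (node 465 (merge (leaf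 3 429 430) (node 466 (merge (leaf 1 463 467) (leaf 1 462 494))))))))) (node 465 (merge (node 433 (merge (leaf 2 430 434) (node 401 (merge (leaf 5 368 369) (leaf 5 400 497))))) (node 430 (merge (leaf 3 429 429) (node 466 (merge (leaf 3 430 431) (node 499 (merge (leaf 0 463 498) (node 467 (merge (leaf 1 463 495) (leaf 0 464 500)))))))))))))))))))))) (merge (node 494 (merge (node 493 (merge (leaf 0 493 529) (node 492 (merge (leaf 0 492 527) (node 524 (merge (leaf 1 491 523) (leaf 1 492 525))))))) (merge (node 493 (merge (leaf 0 493 529) (node 492 (merge (leaf 0 492 527) (node 460 (merge (leaf 3 459 459) (leaf 3 460 461))))))) (merge (node 493 (merge (leaf 0 493 529) (node 525 (merge (leaf 1 492 524) (node 497 (merge (leaf 1 493 526) (node 461 (merge (leaf 3 460 460) (leaf 3 461 462))))))))) (merge (node 525 (merge (node 526 (merge (leaf 1 493 497) (node 524 (merge (leaf 2 491 523) (leaf 2 492 527))))) (merge (node 493 (merge (leaf 1 492 524) (node 497 (merge (leaf 1 493 526) (node 461 (merge (leaf 3 460 460) (leaf 3 461 462))))))) (merge (node 493 (merge (leaf 1 492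 524) (node 492 (merge (leaf 0 492 527) (node 460 (merge (leaf 3 459 459) (leaf 3 460 461))))))) (node 497 (merge (leaf 1 493 526) (node 462 (merge (leaf 3 461 461) (node 498 (merge (leaf 3 462 463) (node 499 (merge (leaf 1 495 527) (node 467 (merge (leaf 2 463 466) (leaf 2 464 468))))))))))))))) (node 526 (merge (node 525 (merge (leaf 1 493 497) (node 524 (merge (leaf 2 491 523) (leaf 2 492 527))))) (merge (node 497 (merge (leaf 1 493 525) (node 462 (merge (leaf 3 461 461) (node 463 (merge (leaf 3 462 498) (node 558 (merge (leaf 6 430 431) (leaf 6 462 590))))))))) (merge (node 462 (merge (node 497 (merge (leaf 3 461 461) (node 463 (merge (leaf 3 462 498) (node 558 (merge (leaf 6 430 431) (leaf 6 462 590))))))) (merge (node 497 (merge (leaf 3 461 461) (node 527 (merge (leaf 1 494 498) (node 559 (merge (leaf 4 430 430) (leaf 7 462 591))))))) (node 559 (merge (node 527 (merge (leaf 4 430 430) (leaf 7 462 591))) (merge (node 558 (merge (leaf 4 462 591) (node 590 (merge (leaf 6 462 463) (node 589 (merge (leaf 5 461 557) (leaf 5 493 621))))))) (node 430 (merge (leaf 4 430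 527) (node 431 (merge (leaf 6 398 399) (node 463 (merge (leaf 6 430 558) (node 429 (merge (leaf 7 397 397) (node 464 (merge (leaf 0 428 428) (leaf 7 431 560))))))))))))))))) (node 558 (merge (node 590 (merge (leaf 6 462 463) (node 623 (merge (leaf 4 494 591) (node 622 (merge (leaf 6 494 527) (leaf 4 526 655))))))) (merge (node 590 (merge (leaf 6 462 463) (node 622 (merge (leaf 6 494 527) (node 621 (merge (leaf 5 493 589) (leaf 5 525 653))))))) (merge (node 590 (merge (leaf 6 462 463) (node 591 (merge (leaf 4 494 623) (node 462 (merge (leaf 4 462 559) (node 589 (merge (leaf 5 461 557) (leaf 5 493 621))))))))) (merge (node 590 (merge (node 623 (merge (leaf 4 494 591) (node 622 (merge (leaf 6 494 527) (leaf 4 526 655))))) (merge (node 622 (merge (leaf 6 494 527) (node 621 (merge (leaf 5 493 589) (leaf 5 525 653))))) (node 591 (merge (leaf 4 494 623) (node 462 (merge (leaf 4 462 559) (node 589 (merge (leaf 5 461 557) (leaf 5 493 621)))))))))) (node 462 (merge (node 461 (merge (leaf 7 429 429) (node 460 (merge (leaf 0 459 459) (leaf 0 460 463))))) (merge (node 559 (merge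 (leaf 4 462 591) (node 430 (merge (leaf 4 430 527) (node 557 (merge (leaf 5 429 525) (leaf 5 461 589))))))) (node 557 (merge (leaf 5 461 589) (node 527 (merge (leaf 1 525 529) (node 430 (merge (leaf 4 398 398) (leaf 5 429 525)))))))))))))))))))))))) (merge (node 463 (merge (node 431 (merge (leaf 4 399 399) (node 560 (merge (leaf 7 431 464) (leaf 4 431 527))))) (merge (node 431 (merge (leaf 4 399 399) (node 527 (merge (leaf 4 431 560) (node 430 (merge (leaf 7 398 398) (node 559 (merge (leaf 7 430 462) (node 590 (merge (leaf 5 462 558) (node 591 (merge (leaf 5 494 622) (leaf 6 495 623))))))))))))) (merge (node 464 (merge (node 432 (merge (node 527 (merge (leaf 5 399 400) (leaf 5 431 559))) (merge (node 561 (merge (leaf 4 432 529) (node 560 (merge (leaf 4 464 593) (node 559 (merge (leaf 6 431 527) (leaf 5 463 591))))))) (node 561 (merge (leaf 4 432 529) (node 433 (merge (leaf 6 400 401) (node 560 (merge (leaf 6 432 465) (leaf 4 464 593)))))))))) (merge (node 465 (merge (node 494 (merge (leaf 1 462 466) (leaf 2 461 493))) (node 432 (merge (node 527 (merge (leaf 5 399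 400) (leaf 6 431 559))) (node 433 (merge (leaf 6 400 401) (node 462 (merge (leaf 2 430 434) (leaf 2 429 461))))))))) (merge (node 494 (merge (node 493 (merge (leaf 2 460 492) (leaf 0 493 529))) (merge (node 493 (merge (leaf 2 461 465) (leaf 2 460 492))) (node 465 (merge (leaf 1 462 466) (node 560 (merge (leaf 6 432 433) (node 561 (merge (leaf 4 464 593) (node 432 (merge (leaf 4 432 529) (node 400 (merge (leaf 5 367 368) (leaf 5 399 527)))))))))))))) (merge (node 494 (merge (node 493 (merge (leaf 2 460 492) (leaf 0 493 529))) (merge (node 493 (merge (leaf 2 461 465) (leaf 2 460 492))) (node 465 (merge (leaf 1 462 466) (node 560 (merge (leaf 6 432 433) (node 561 (merge (leaf 4 464 593) (node 529 (merge (leaf 4 432 432) (node 559 (merge (leaf 5 463 591) (node 558 (merge (leaf 2 525 557) (node 590 (merge (leaf 6 462 526) (leaf 1 557 589)))))))))))))))))) (merge (node 559 (merge (node 591 (merge (leaf 6 463 527) (leaf 5 463 560))) (merge (node 527 (merge (leaf 5 431 432) (leaf 6 463 591))) (merge (node 560 (merge (leaf 5 463 591) (node 561 (merge (leaf 4 464 593) (node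 529 (merge (leaf 4 432 432) (node 558 (merge (leaf 2 525 557) (node 590 (merge (leaf 1 557 589) (node 526 (merge (leaf 6 462 494) (leaf 3 525 525))))))))))))) (node 527 (merge (leaf 5 431 432) (node 558 (merge (leaf 5 462 590) (node 557 (merge (leaf 2 524 556) (node 529 (merge (leaf 1 525 526) (leaf 2 525 560))))))))))))) (node 462 (merge (node 461 (merge (leaf 0 460 460) (node 429 (merge (leaf 3 428 428) (node 465 (merge (leaf 3 429 430) (node 433 (merge (leaf 2 430 434) (leaf 6 432 560))))))))) (merge (node 461 (merge (leaf 0 460 460) (node 493 (merge (leaf 1 460 492) (node 494 (merge (leaf 0 493 529) (node 429 (merge (leaf 3 428 428) (node 526 (merge (leaf 4 397 397) (leaf 7 429 558))))))))))) (node 560 (merge (node 465 (merge (leaf 6 432 433) (node 466 (merge (leaf 1 463 467) (leaf 1 462 494))))) (node 559 (merge (leaf 5 463 591) (node 527 (merge (leaf 7 430 430) (node 558 (merge (leaf 5 462 590) (node 557 (merge (leaf 2 525 529) (leaf 2 524 556)))))))))))))))))))) (merge (node 527 (merge (node 431 (merge (leaf 4 399 399) (node 558 (merge (leaf 5 430 526) (node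 559 (merge (leaf 5 462 590) (node 432 (merge (leaf 6 399 400) (leaf 5 431 464))))))))) (merge (node 431 (merge (leaf 4 399 399) (node 558 (merge (leaf 5 430 526) (node 559 (merge (leaf 5 462 590) (node 430 (merge (leaf 7 398 398) (leaf 7 430 462))))))))) (merge (node 559 (merge (node 591 (merge (leaf 6 463 464) (leaf 6 495 623))) (merge (node 591 (merge (leaf 6 495 623) (node 462 (merge (leaf 7 430 430) (leaf 7 462 494))))) (node 464 (merge (leaf 5 431 432) (node 462 (merge (leaf 7 430 430) (node 461 (merge (leaf 0 460 460) (node 493 (merge (leaf 1 460 492) (node 494 (merge (leaf 1 461 465) (leaf 0 493 529)))))))))))))) (node 431 (merge (leaf 4 399 399) (node 526 (merge (leaf 5 430 558) (node 525 (merge (leaf 2 492 524) (node 493 (merge (leaf 3 492 492) (node 529 (merge (leaf 0 493 494) (node 432 (merge (leaf 6 399 400) (node 464 (merge (leaf 4 432 561) (node 430 (merge (leaf 7 398 398) (node 465 (merge (leaf 0 429 429) (leaf 3 430 466))))))))))))))))))))))) (node 464 (merge (node 431 (merge (leaf 4 399 399) (leaf 7 431 560))) (merge (node 432 (merge (node 399 (merge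 (leaf 4 399 431) (node 400 (merge (leaf 7 367 367) (leaf 5 367 368))))) (node 433 (merge (leaf 6 400 401) (node 462 (merge (leaf 2 429 461) (node 465 (merge (leaf 2 430 434) (node 494 (merge (leaf 1 462 466) (leaf 1 461 493))))))))))) (node 494 (merge (node 493 (merge (leaf 2 460 492) (leaf 0 493 529))) (merge (node 493 (merge (leaf 2 461 465) (leaf 2 460 492))) (node 465 (merge (leaf 1 462 466) (node 560 (merge (leaf 6 432 433) (node 561 (merge (leaf 4 464 593) (node 529 (merge (leaf 4 432 432) (node 559 (merge (leaf 5 463 591) (node 558 (merge (leaf 2 525 557) (node 590 (merge (leaf 6 462 526) (leaf 1 557 589)))))))))))))))))))))))))) (merge (node 494 (merge (node 493 (merge (leaf 0 493 529) (node 492 (merge (leaf 0 492 527) (node 460 (merge (leaf 3 459 459) (leaf 3 460 461))))))) (merge (node 493 (merge (leaf 0 493 529) (node 492 (merge (leaf 0 492 527) (node 464 (merge (leaf 2 460 463) (leaf 2 461 465))))))) (merge (node 493 (merge (leaf 0 493 529) (node 465 (merge (leaf 2 461 464) (node 497 (merge (leaf 2 462 466) (node 461 (merge (leaf 3 460 460) (leaf 3 461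 462))))))))) (merge (node 493 (merge (node 492 (merge (leaf 0 492 527) (node 464 (merge (leaf 2 460 463) (leaf 2 461 465))))) (merge (node 465 (merge (leaf 2 461 464) (node 497 (merge (leaf 2 462 466) (node 461 (merge (leaf 3 460 460) (leaf 3 461 462))))))) (node 492 (merge (leaf 0 492 527) (node 523 (merge (leaf 1 491 524) (node 491 (merge (leaf 1 490 522) (node 459 (merge (leaf 3 458 458) (leaf 3 459 460)))))))))))) (node 497 (merge (node 465 (merge (leaf 2 462 466) (node 433 (merge (leaf 5 400 401) (node 560 (merge (leaf 6 432 464) (leaf 5 432 529))))))) (merge (node 466 (merge (leaf 2 462 465) (node 498 (merge (leaf 2 463 467) (node 462 (merge (leaf 3 461 461) (leaf 3 462 463))))))) (node 462 (merge (leaf 3 461 461) (node 498 (merge (leaf 3 462 463) (node 499 (merge (leaf 1 495 527) (node 532 (merge (leaf 0 496 531) (node 500 (merge (leaf 1 496 529) (leaf 0 497 533))))))))))))))))))) (merge (node 494 (merge (node 493 (merge (leaf 0 493 529) (node 492 (merge (leaf 0 492 527) (node 460 (merge (leaf 3 459 459) (leaf 3 460 461))))))) (merge (node 493 (merge (leaf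 0 493 529) (node 492 (merge (leaf 0 492 527) (node 464 (merge (leaf 2 460 463) (leaf 2 461 465))))))) (merge (node 493 (merge (leaf 0 493 529) (node 465 (merge (leaf 2 461 464) (node 497 (merge (leaf 2 462 466) (node 461 (merge (leaf 3 460 460) (leaf 3 461 462))))))))) (merge (node 493 (merge (node 492 (merge (leaf 0 492 527) (node 464 (merge (leaf 2 460 463) (leaf 2 461 465))))) (merge (node 465 (merge (leaf 2 461 464) (node 497 (merge (leaf 2 462 466) (node 461 (merge (leaf 3 460 460) (leaf 3 461 462))))))) (node 527 (merge (leaf 0 492 492) (node 461 (merge (leaf 3 460 460) (node 497 (merge (leaf 3 461 462) (node 526 (merge (leaf 1 494 498) (leaf 1 493 525)))))))))))) (node 497 (merge (node 526 (merge (leaf 1 493 525) (node 498 (merge (leaf 1 494 527) (node 462 (merge (leaf 3 461 461) (leaf 3 462 463))))))) (merge (node 526 (merge (leaf 1 493 525) (node 498 (merge (leaf 1 494 527) (node 467 (merge (leaf 2 463 466) (node 499 (merge (leaf 2 464 468) (node 532 (merge (leaf 0 496 531) (node 500 (merge (leaf 1 496 529) (leaf 0 497 533))))))))))))) (node 465 (merge (leaf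 2 462 466) (node 433 (merge (leaf 5 400 401) (node 560 (merge (leaf 6 432 464) (leaf 5 432 529))))))))))))))) (merge (node 494 (merge (node 493 (merge (leaf 0 493 529) (node 492 (merge (leaf 0 492 527) (node 464 (merge (leaf 2 460 463) (leaf 2 461 465))))))) (merge (node 493 (merge (leaf 0 493 529) (node 525 (merge (leaf 1 492 524) (node 497 (merge (leaf 1 493 526) (node 461 (merge (leaf 3 460 460) (leaf 3 461 462))))))))) (merge (node 525 (merge (node 526 (merge (leaf 1 493 497) (node 524 (merge (leaf 2 491 523) (leaf 2 492 527))))) (merge (node 493 (merge (leaf 1 492 524) (node 497 (merge (leaf 1 493 526) (node 461 (merge (leaf 3 460 460) (leaf 3 461 462))))))) (merge (node 493 (merge (leaf 1 492 524) (node 492 (merge (leaf 0 492 527) (node 460 (merge (leaf 3 459 459) (leaf 3 460 461))))))) (node 497 (merge (leaf 1 493 526) (node 462 (merge (leaf 3 461 461) (node 498 (merge (leaf 3 462 463) (node 499 (merge (leaf 1 495 527) (node 532 (merge (leaf 0 496 531) (node 500 (merge (leaf 0 497 533) (node 468 (merge (leaf 2 464 467) (leaf 2 465 469))))))))))))))))))) (node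 526 (merge (node 525 (merge (leaf 1 493 497) (node 524 (merge (leaf 2 491 523) (leaf 2 492 527))))) (merge (node 497 (merge (leaf 1 493 525) (node 462 (merge (leaf 3 461 461) (node 463 (merge (leaf 3 462 498) (node 558 (merge (leaf 6 430 431) (leaf 6 462 590))))))))) (merge (node 462 (merge (node 497 (merge (leaf 3 461 461) (node 463 (merge (leaf 3 462 498) (node 558 (merge (leaf 6 430 431) (leaf 6 462 590))))))) (merge (node 497 (merge (leaf 3 461 461) (node 527 (merge (leaf 1 494 498) (node 559 (merge (leaf 4 430 430) (leaf 7 462 591))))))) (node 559 (merge (node 527 (merge (leaf 4 430 430) (leaf 7 462 591))) (merge (node 558 (merge (leaf 4 462 591) (node 590 (merge (leaf 6 462 463) (node 589 (merge (leaf 5 461 557) (leaf 5 493 621))))))) (node 430 (merge (leaf 4 430 527) (node 431 (merge (leaf 6 398 399) (node 463 (merge (leaf 6 430 558) (node 429 (merge (leaf 7 397 397) (node 464 (merge (leaf 0 428 428) (leaf 7 431 560))))))))))))))))) (node 558 (merge (node 590 (merge (leaf 6 462 463) (node 623 (merge (leaf 4 494 591) (node 622 (merge (leaf 6 494 527) (leaf 4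 526 655))))))) (merge (node 590 (merge (leaf 6 462 463) (node 622 (merge (leaf 6 494 527) (node 621 (merge (leaf 5 493 589) (leaf 5 525 653))))))) (merge (node 590 (merge (leaf 6 462 463) (node 591 (merge (leaf 4 494 623) (node 462 (merge (leaf 4 462 559) (node 589 (merge (leaf 5 461 557) (leaf 5 493 621))))))))) (merge (node 590 (merge (node 623 (merge (leaf 4 494 591) (node 622 (merge (leaf 6 494 527) (leaf 4 526 655))))) (merge (node 622 (merge (leaf 6 494 527) (node 621 (merge (leaf 5 493 589) (leaf 5 525 653))))) (node 591 (merge (leaf 4 494 623) (node 462 (merge (leaf 4 462 559) (node 589 (merge (leaf 5 461 557) (leaf 5 493 621)))))))))) (node 462 (merge (node 461 (merge (leaf 7 429 429) (node 460 (merge (leaf 0 459 459) (leaf 0 460 463))))) (merge (node 559 (merge (leaf 4 462 591) (node 430 (merge (leaf 4 430 527) (node 557 (merge (leaf 5 429 525) (leaf 5 461 589))))))) (node 557 (merge (leaf 5 461 589) (node 527 (merge (leaf 1 525 529) (node 430 (merge (leaf 4 398 398) (leaf 5 429 525))))))))))))))))))))))) (merge (node 463 (merge (node 431 (merge (leaf 4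 399 399) (node 560 (merge (leaf 7 431 464) (leaf 4 431 527))))) (merge (node 431 (merge (leaf 4 399 399) (node 527 (merge (leaf 4 431 560) (node 430 (merge (leaf 7 398 398) (node 559 (merge (leaf 7 430 462) (node 590 (merge (leaf 5 462 558) (node 591 (merge (leaf 5 494 622) (leaf 6 495 623))))))))))))) (merge (node 527 (merge (node 431 (merge (leaf 4 399 399) (node 526 (merge (leaf 5 430 558) (node 525 (merge (leaf 2 493 497) (leaf 2 492 524))))))) (merge (node 431 (merge (leaf 4 399 399) (node 430 (merge (leaf 7 398 398) (node 559 (merge (leaf 7 430 462) (node 591 (merge (leaf 6 463 464) (leaf 6 495 623))))))))) (merge (node 431 (merge (leaf 4 399 399) (node 558 (merge (leaf 5 430 526) (node 559 (merge (leaf 5 462 590) (node 432 (merge (leaf 6 399 400) (leaf 5 431 464))))))))) (node 559 (merge (node 591 (merge (leaf 6 463 464) (leaf 6 495 623))) (node 558 (merge (leaf 5 462 590) (node 557 (merge (leaf 2 524 556) (node 526 (merge (leaf 1 525 529) (node 497 (merge (leaf 1 494 498) (leaf 2 493 525))))))))))))))) (merge (node 464 (merge (node 431 (merge (leaf 4 399 399)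 (leaf 7 431 560))) (merge (node 462 (merge (node 497 (merge (leaf 0 461 461) (leaf 3 462 498))) (merge (node 461 (merge (leaf 0 460 460) (node 433 (merge (leaf 2 429 432) (node 465 (merge (leaf 2 430 434) (node 429 (merge (leaf 3 428 428) (leaf 3 429 430))))))))) (node 465 (merge (node 433 (merge (leaf 2 430 434) (node 401 (merge (leaf 5 368 369) (leaf 5 400 497))))) (node 430 (merge (leaf 3 429 429) (node 466 (merge (leaf 3 430 431) (node 499 (merge (leaf 0 463 498) (node 467 (merge (leaf 1 463 495) (leaf 0 464 500)))))))))))))) (node 465 (merge (node 433 (merge (leaf 6 432 560) (node 401 (merge (leaf 5 368 369) (leaf 5 400 497))))) (merge (node 466 (merge (leaf 1 463 467) (node 498 (merge (leaf 0 463 499) (node 497 (merge (leaf 0 462 462) (node 434 (merge (leaf 2 431 435) (node 402 (merge (leaf 5 369 370) (leaf 5 401 529))))))))))) (node 466 (merge (leaf 1 463 467) (node 434 (merge (leaf 2 431 435) (node 462 (merge (leaf 2 430 433) (node 461 (merge (leaf 0 460 460) (node 429 (merge (leaf 3 428 428) (leaf 3 429 430))))))))))))))))) (node 464 (merge (node 432 (merge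 (node 527 (merge (leaf 5 399 400) (leaf 5 431 559))) (merge (node 561 (merge (leaf 4 432 529) (node 560 (merge (leaf 4 464 593) (node 559 (merge (leaf 6 431 527) (leaf 5 463 591))))))) (node 561 (merge (leaf 4 432 529) (node 433 (merge (leaf 6 400 401) (node 560 (merge (leaf 6 432 465) (leaf 4 464 593)))))))))) (merge (node 465 (merge (node 433 (merge (leaf 6 432 560) (node 401 (merge (leaf 5 368 369) (leaf 5 400 497))))) (merge (node 466 (merge (leaf 1 463 467) (node 498 (merge (leaf 0 463 499) (node 497 (merge (leaf 0 462 462) (node 434 (merge (leaf 2 431 435) (node 402 (merge (leaf 5 369 370) (leaf 5 401 529))))))))))) (node 466 (merge (leaf 1 463 467) (node 434 (merge (leaf 2 431 435) (node 462 (merge (leaf 2 430 433) (node 461 (merge (leaf 0 460 460) (node 429 (merge (leaf 3 428 428) (leaf 3 429 430)))))))))))))) (merge (node 465 (merge (node 433 (merge (leaf 6 432 560) (node 401 (merge (leaf 5 368 369) (leaf 5 400 497))))) (merge (node 466 (merge (leaf 1 463 467) (node 434 (merge (leaf 2 431 435) (node 462 (merge (leaf 2 430 433) (node 461 (merge (leaf 0 460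 460) (node 429 (merge (leaf 3 428 428) (leaf 3 429 430))))))))))) (node 466 (merge (leaf 1 463 467) (node 498 (merge (leaf 0 463 499) (node 497 (merge (leaf 0 462 462) (node 527 (merge (leaf 1 494 526) (node 559 (merge (leaf 5 431 432) (leaf 6 463 591)))))))))))))) (merge (node 561 (merge (node 593 (merge (leaf 4 464 560) (node 529 (merge (leaf 7 464 497) (leaf 7 496 625))))) (merge (node 432 (merge (leaf 4 432 529) (node 527 (merge (leaf 5 399 400) (leaf 5 431 559))))) (node 560 (merge (leaf 4 464 593) (node 559 (merge (leaf 5 463 591) (node 527 (merge (leaf 5 431 432) (node 526 (merge (leaf 0 525 525) (leaf 3 526 562)))))))))))) (node 462 (merge (node 497 (merge (leaf 0 461 461) (leaf 3 462 498))) (merge (node 461 (merge (leaf 0 460 460) (node 433 (merge (leaf 2 429 432) (node 465 (merge (leaf 2 430 434) (node 429 (merge (leaf 3 428 428) (leaf 3 429 430))))))))) (node 527 (merge (node 559 (merge (leaf 7 430 430) (leaf 6 463 591))) (merge (node 498 (merge (leaf 3 462 497) (node 432 (merge (leaf 5 399 400) (node 433 (merge (leaf 6 400 401) (node 465 (merge (leaf 2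 430 434) (node 466 (merge (leaf 1 463 467) (leaf 0 463 499))))))))))) (node 559 (merge (leaf 6 463 591) (node 558 (merge (leaf 5 462 590) (node 557 (merge (leaf 2 524 556) (node 526 (merge (leaf 1 525 529) (node 525 (merge (leaf 2 493 497) (leaf 2 492 524))))))))))))))))))))))))))) (node 464 (merge (node 431 (merge (node 463 (merge (leaf 4 399 399) (leaf 7 431 560))) (merge (node 432 (merge (leaf 7 399 399) (node 527 (merge (leaf 5 399 400) (leaf 5 431 559))))) (node 560 (merge (leaf 7 431 463) (node 433 (merge (leaf 6 432 465) (node 432 (merge (leaf 6 400 401) (node 527 (merge (leaf 5 399 400) (leaf 5 431 559)))))))))))) (merge (node 431 (merge (node 463 (merge (leaf 4 399 399) (leaf 7 431 560))) (merge (node 432 (merge (leaf 7 399 399) (node 527 (merge (leaf 5 399 400) (leaf 5 431 559))))) (node 560 (merge (leaf 7 431 463) (node 561 (merge (leaf 4 464 593) (node 432 (merge (leaf 4 432 529) (node 559 (merge (leaf 5 431 527) (leaf 5 463 591)))))))))))) (merge (node 432 (merge (node 561 (merge (leaf 4 432 529) (node 433 (merge (leaf 6 400 401) (node 560 (merge (leaf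 6 432 465) (leaf 4 464 593))))))) (merge (node 529 (merge (leaf 4 432 561) (node 400 (merge (leaf 4 400 497) (node 399 (merge (leaf 7 367 367) (leaf 7 399 431))))))) (node 401 (merge (leaf 6 400 433) (node 400 (merge (leaf 6 368 369) (node 399 (merge (leaf 7 367 367) (leaf 7 399 431)))))))))) (merge (node 494 (merge (node 493 (merge (leaf 2 461 465) (leaf 0 493 529))) (merge (node 493 (merge (leaf 0 493 529) (node 492 (merge (leaf 2 460 463) (leaf 0 492 527))))) (node 465 (merge (node 466 (merge (leaf 1 462 463) (leaf 1 463 467))) (node 433 (merge (leaf 6 432 560) (node 401 (merge (leaf 5 368 369) (leaf 5 400 497)))))))))) (node 494 (merge (node 493 (merge (leaf 2 461 465) (leaf 0 493 529))) (merge (node 493 (merge (leaf 0 493 529) (node 492 (merge (leaf 2 460 463) (leaf 0 492 527))))) (merge (node 493 (merge (leaf 2 461 465) (node 492 (merge (leaf 2 460 463) (leaf 0 492 527))))) (node 526 (merge (node 525 (merge (leaf 1 493 497) (node 524 (merge (leaf 2 491 523) (leaf 2 492 527))))) (merge (node 497 (merge (leaf 1 493 525) (node 466 (merge (leaf 2 462 465) (node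 498 (merge (leaf 2 463 467) (node 499 (merge (leaf 3 463 463) (node 532 (merge (leaf 0 496 531) (node 500 (merge (leaf 1 496 529) (leaf 0 497 533))))))))))))) (merge (node 527 (merge (node 559 (merge (leaf 5 431 432) (leaf 6 463 591))) (node 525 (merge (leaf 2 492 524) (node 557 (merge (leaf 1 524 556) (node 558 (merge (leaf 1 525 529) (node 590 (merge (leaf 6 462 463) (leaf 6 494 622))))))))))) (node 432 (merge (node 527 (merge (leaf 5 399 400) (leaf 5 431 559))) (merge (node 527 (merge (leaf 5 399 400) (leaf 5 431 559))) (merge (node 529 (merge (leaf 4 432 561) (node 400 (merge (leaf 4 400 497) (node 399 (merge (leaf 7 367 367) (leaf 7 399 431))))))) (node 527 (merge (leaf 5 431 559) (node 433 (merge (leaf 6 400 401) (node 431 (merge (leaf 7 399 399) (node 463 (merge (leaf 5 430 558) (node 434 (merge (leaf 1 431 435) (node 466 (merge (leaf 0 431 467) (node 430 (merge (leaf 7 398 398) (leaf 0 430 465)))))))))))))))))))))))))))))))))))))))))))) nA_9 cA_9 13 (by decide +kernel)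
def nA_10 : ℕ := 0x1000000010000000100000000800000000000000000000000000000000000000000000000000000000000000000000000000000000000000000000000000000000000
def cA_10 : ℕ := 0xc0000000f000003ef000001ef000003f7800000360000003c0000003c00000008000000000000000000000000000000000000000000000000000000000000000000000000000
theorem lA_10 : S nA_10 cA_10 10 := S_of_chk [] trivial (node 465 (merge (node 466 (merge (node 495 (merge (leaf 1 463 467) (node 494 (merge (leaf 2 461 493) (leaf 2 462 497))))) (merge (node 463 (merge (leaf 3 430 430) (node 434 (merge (leaf 2 431 435) (node 462 (merge (leaf 2 430 433) (node 497 (merge (leaf 0 461 461) (leaf 0 462 498))))))))) (node 463 (merge (leaf 3 430 430) (node 494 (merge (leaf 1 462 495) (node 462 (merge (leaf 1 461 493) (node 434 (merge (leaf 2 430 433) (leaf 2 431 435)))))))))))) (merge (node 466 (merge (node 495 (merge (leaf 1 463 467) (node 494 (merge (leaf 2 461 493) (leaf 2 462 497))))) (merge (node 463 (merge (leaf 3 430 430) (node 435 (merge (leaf 2 431 434) (node 467 (merge (leaf 3 431 432) (leaf 2 432 436))))))) (node 463 (merge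 (leaf 3 430 430) (node 494 (merge (leaf 1 462 495) (node 462 (merge (leaf 1 461 493) (node 497 (merge (leaf 0 461 461) (leaf 0 462 498)))))))))))) (merge (node 466 (merge (node 432 (merge (leaf 3 431 467) (node 433 (merge (leaf 6 400 401) (leaf 0 430 430))))) (merge (node 495 (merge (leaf 1 463 467) (node 494 (merge (leaf 2 461 493) (leaf 2 462 497))))) (node 433 (merge (node 401 (merge (leaf 5 368 369) (leaf 5 400 497))) (merge (node 432 (merge (leaf 6 400 401) (leaf 0 430 430))) (node 432 (merge (leaf 0 430 430) (node 527 (merge (leaf 5 431 559) (node 400 (merge (leaf 5 399 495) (node 368 (merge (leaf 4 336 336) (leaf 4 368 497))))))))))))))) (merge (node 432 (merge (node 430 (merge (leaf 0 429 429) (node 433 (merge (leaf 6 400 401) (leaf 0 430 466))))) (merge (node 527 (merge (leaf 5 431 559) (node 495 (merge (leaf 5 399 400) (node 466 (merge (leaf 1 463 467) (node 494 (merge (leaf 1 462 463) (leaf 2 461 493))))))))) (node 430 (merge (leaf 0 429 429) (node 433 (merge (leaf 6 400 401) (node 462 (merge (leaf 1 429 461) (node 463 (merge (leaf 1 430 434) (node 398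 (merge (leaf 3 397 397) (node 366 (merge (leaf 4 334 334) (leaf 4 366 495)))))))))))))))) (merge (node 432 (merge (node 527 (merge (leaf 5 431 559) (node 400 (merge (leaf 5 399 495) (node 368 (merge (leaf 4 368 497) (node 433 (merge (leaf 4 336 336) (leaf 6 400 401))))))))) (merge (node 430 (merge (leaf 0 429 429) (node 433 (merge (leaf 6 400 401) (node 462 (merge (leaf 1 429 461) (node 463 (merge (leaf 1 430 434) (node 398 (merge (leaf 3 397 397) (node 366 (merge (leaf 4 334 334) (leaf 4 366 495))))))))))))) (merge (node 527 (merge (leaf 5 431 559) (node 400 (merge (leaf 5 399 495) (node 368 (merge (leaf 4 368 497) (node 336 (merge (leaf 4 336 433) (leaf 5 335 463))))))))) (merge (node 401 (merge (leaf 6 400 433) (node 400 (merge (leaf 6 368 369) (node 368 (merge (leaf 4 368 497) (node 336 (merge (leaf 5 335 463) (node 335 (merge (leaf 7 303 303) (leaf 7 335 367))))))))))) (node 527 (merge (leaf 5 431 559) (node 400 (merge (leaf 5 399 495) (node 369 (merge (leaf 6 368 401) (node 368 (merge (leaf 6 336 337) (node 336 (merge (leaf 5 335 463) (node 335 (merge (leaf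 7 303 303) (leaf 7 335 367)))))))))))))))))) (merge (node 527 (merge (node 432 (merge (leaf 5 431 559) (node 430 (merge (leaf 0 429 429) (node 433 (merge (leaf 6 400 401) (leaf 0 430 466))))))) (merge (node 432 (merge (leaf 5 431 559) (node 401 (merge (leaf 6 400 433) (node 400 (merge (leaf 6 368 369) (node 368 (merge (leaf 4 368 497) (node 336 (merge (leaf 5 335 463) (node 335 (merge (leaf 7 303 303) (leaf 7 335 367))))))))))))) (merge (node 432 (merge (leaf 5 431 559) (node 466 (merge (leaf 3 431 467) (node 463 (merge (leaf 3 430 430) (node 498 (merge (leaf 0 463 499) (node 462 (merge (leaf 0 462 497) (node 493 (merge (leaf 1 461 494) (node 461 (merge (leaf 2 428 460) (leaf 1 460 492))))))))))))))) (node 463 (merge (node 466 (merge (leaf 3 430 430) (node 499 (merge (leaf 0 463 498) (node 467 (merge (leaf 0 464 500) (node 435 (merge (leaf 2 431 434) (leaf 2 432 436))))))))) (merge (node 430 (merge (leaf 3 430 466) (node 462 (merge (leaf 3 429 429) (node 433 (merge (leaf 2 430 434) (node 401 (merge (leaf 5 368 369) (leaf 5 400 497))))))))) (merge (node 466 (merge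 (leaf 3 430 430) (node 499 (merge (leaf 0 463 498) (node 467 (merge (leaf 0 464 500) (node 468 (merge (leaf 1 464 497) (node 436 (merge (leaf 2 432 435) (leaf 2 433 437))))))))))) (merge (node 466 (merge (node 499 (merge (leaf 0 463 498) (node 467 (merge (leaf 0 464 500) (node 435 (merge (leaf 2 431 434) (leaf 2 432 436))))))) (merge (node 499 (merge (leaf 0 463 498) (node 467 (merge (leaf 0 464 500) (node 468 (merge (leaf 1 464 497) (node 436 (merge (leaf 2 432 435) (leaf 2 433 437))))))))) (merge (node 499 (merge (leaf 0 463 498) (node 467 (merge (leaf 0 464 500) (node 497 (merge (leaf 1 464 468) (node 462 (merge (leaf 0 461 461) (node 433 (merge (leaf 5 400 401) (leaf 2 430 434))))))))))) (node 434 (merge (leaf 2 431 435) (node 433 (merge (leaf 2 430 462) (node 401 (merge (leaf 5 368 369) (leaf 5 400 497))))))))))) (node 433 (merge (node 401 (merge (leaf 5 368 369) (leaf 5 400 497))) (merge (node 462 (merge (leaf 2 430 434) (node 497 (merge (leaf 0 461 461) (leaf 0 462 498))))) (node 462 (merge (leaf 2 430 434) (node 493 (merge (leaf 1 461 494) (node 461 (merge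 (leaf 1 460 492) (node 429 (merge (leaf 3 428 428) (leaf 3 429 430))))))))))))))))))))) (node 463 (merge (node 466 (merge (node 495 (merge (leaf 1 463 467) (leaf 1 462 494))) (merge (node 499 (merge (leaf 0 463 498) (node 467 (merge (leaf 0 464 500) (node 435 (merge (leaf 2 431 434) (leaf 2 432 436))))))) (node 434 (merge (leaf 2 431 435) (node 462 (merge (leaf 2 430 433) (node 494 (merge (leaf 1 461 493) (leaf 1 462 495)))))))))) (merge (node 434 (merge (node 433 (merge (leaf 2 430 462) (node 401 (merge (leaf 5 368 369) (leaf 6 400 432))))) (node 466 (merge (leaf 2 431 435) (node 499 (merge (leaf 0 463 498) (node 467 (merge (leaf 1 463 495) (leaf 0 464 500))))))))) (merge (node 433 (merge (node 401 (merge (leaf 5 368 369) (leaf 6 400 432))) (merge (node 462 (merge (leaf 2 430 434) (node 461 (merge (leaf 2 429 432) (node 493 (merge (leaf 1 460 492) (leaf 1 461 494))))))) (node 434 (merge (leaf 2 430 462) (node 435 (merge (leaf 1 432 436) (leaf 2 431 466)))))))) (merge (node 494 (merge (node 495 (merge (leaf 2 461 493) (node 466 (merge (leaf 1 462 463) (leaf 1 463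 467))))) (merge (node 462 (merge (leaf 1 461 493) (node 497 (merge (leaf 0 461 461) (leaf 0 462 498))))) (node 466 (merge (leaf 1 462 495) (node 499 (merge (leaf 0 463 498) (node 467 (merge (leaf 0 464 500) (node 432 (merge (leaf 3 431 431) (node 433 (merge (leaf 6 400 401) (leaf 3 432 468)))))))))))))) (merge (node 494 (merge (node 495 (merge (leaf 2 461 493) (node 466 (merge (leaf 1 462 463) (leaf 1 463 467))))) (merge (node 462 (merge (leaf 1 461 493) (node 497 (merge (leaf 0 461 461) (leaf 0 462 498))))) (node 466 (merge (leaf 1 462 495) (node 435 (merge (leaf 2 431 434) (node 467 (merge (leaf 2 432 436) (node 500 (merge (leaf 0 464 499) (node 468 (merge (leaf 1 464 497) (leaf 0 465 501)))))))))))))) (merge (node 433 (merge (node 401 (merge (leaf 5 368 369) (leaf 6 400 432))) (merge (node 462 (merge (leaf 2 430 434) (node 461 (merge (leaf 2 429 432) (node 493 (merge (leaf 1 460 492) (leaf 1 461 494))))))) (node 462 (merge (leaf 2 430 434) (node 493 (merge (leaf 1 461 494) (node 461 (merge (leaf 1 460 492) (node 460 (merge (leaf 0 460 495) (node 428 (merge (leaf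 3 427 427) (leaf 3 428 429)))))))))))))) (node 432 (merge (node 527 (merge (leaf 5 431 559) (node 495 (merge (leaf 5 399 400) (node 466 (merge (leaf 1 463 467) (leaf 1 462 494))))))) (merge (node 401 (merge (leaf 6 400 433) (node 400 (merge (leaf 6 368 369) (node 368 (merge (leaf 4 368 497) (node 336 (merge (leaf 5 335 463) (node 335 (merge (leaf 7 303 303) (leaf 7 335 367))))))))))) (node 466 (merge (leaf 3 431 467) (node 495 (merge (leaf 1 462 494) (node 527 (merge (leaf 5 431 559) (node 526 (merge (leaf 5 430 558) (node 525 (merge (leaf 2 493 497) (leaf 2 492 524)))))))))))))))))))))))))))) nA_10 cA_10 10 (by decide +kernel)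
def nA_11 : ℕ := 0x1000000010000000000000000000000000000000000000000000000000000000000000000000000000000000000000000000000000000000000000000000000000000
def cA_11 : ℕ := 0x28000000380000003e0000000f000003efe00001ffc00003ffc000007e0000003c0000003c00000008000000000000000000000000000000000000000000000000000000000000000000000000000
theorem lA_11 : S nA_11 cA_11 12 := S_of_chk [(nA_10, cA_10, 10)] ⟨lA_10, trivial⟩ (node 464 (merge (node 560 (merge (node 559 (merge (leaf 5 463 591) (node 432 (merge (leaf 5 431 527) (node 431 (merge (leaf 7 399 399) (leaf 7 431 463))))))) (merge (node 593 (merge (leaf 4 464 561) (node 592 (merge (leaf 4 496 625) (node 463 (merge (leaf 7 431 431) (leaf 7 463 495))))))) (node 593 (merge (leaf 4 464 561) (node 592 (merge (leaf 4 496 625) (node 591 (merge (leaf 5 463 559) (leaf 5 495 623)))))))))) (merge (node 560 (merge (node 433 (merge (leaf 6 432 465) (node 432 (merge (leaf 6 400 401) (node 559 (merge (leaf 5 431 527) (leaf 5 463 591))))))) (merge (node 593 (merge (leaf 4 464 561) (node 465 (merge (leaf 6 432 433) (node 592 (merge (leaf 6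 464 497) (leaf 4 496 625))))))) (node 593 (merge (leaf 4 464 561) (node 592 (merge (leaf 4 496 625) (node 591 (merge (leaf 5 463 559) (leaf 5 495 623)))))))))) (merge (node 560 (merge (node 433 (merge (leaf 6 432 465) (node 432 (merge (leaf 6 400 401) (node 431 (merge (leaf 7 399 399) (leaf 7 431 463))))))) (merge (node 593 (merge (leaf 4 464 561) (node 592 (merge (leaf 4 496 625) (node 463 (merge (leaf 7 431 431) (leaf 7 463 495))))))) (node 593 (merge (leaf 4 464 561) (node 465 (merge (leaf 6 432 433) (node 592 (merge (leaf 6 464 497) (leaf 4 496 625)))))))))) (merge (node 465 (merge (node 560 (merge (leaf 6 432 433) (node 592 (merge (leaf 6 464 497) (node 591 (merge (leaf 5 463 559) (leaf 5 495 623))))))) (merge (node 560 (merge (leaf 6 432 433) (node 591 (merge (leaf 5 463 559) (node 463 (merge (leaf 7 431 431) (node 592 (merge (leaf 7 463 495) (leaf 5 495 623))))))))) (merge (node 463 (merge (node 431 (merge (leaf 7 431 560) (node 399 (merge (leaf 4 367 367) (leaf 4 399 495))))) (merge (node 560 (merge (leaf 7 431 431) (node 497 (merge (leaf 6 464 592) (node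 498 (merge (leaf 0 462 462) (leaf 3 463 499))))))) (merge (node 466 (merge (node 431 (merge (leaf 3 430 430) (node 399 (merge (leaf 4 367 367) (leaf 4 399 495))))) (merge (node 499 (merge (leaf 0 463 498) (node 467 (merge (leaf 1 463 495) (leaf 0 464 500))))) (node 499 (merge (leaf 0 463 498) (node 467 (merge (leaf 0 464 500) (node 435 (merge (leaf 2 431 434) (leaf 2 432 436)))))))))) (node 498 (merge (node 497 (merge (leaf 0 462 462) (leaf 3 463 499))) (merge (node 466 (merge (leaf 0 463 499) (node 495 (merge (leaf 1 463 467) (leaf 1 462 494))))) (node 462 (merge (leaf 0 462 497) (node 494 (merge (leaf 1 461 493) (node 495 (merge (leaf 1 462 466) (node 430 (merge (leaf 3 429 429) (node 527 (merge (leaf 4 398 398) (leaf 7 430 559)))))))))))))))))) (node 466 (merge (node 495 (merge (leaf 1 463 467) (node 494 (merge (leaf 1 462 463) (leaf 2 461 493))))) (merge (node 467 (merge (leaf 1 463 495) (node 500 (merge (leaf 0 464 499) (node 468 (merge (leaf 1 464 497) (leaf 0 465 501))))))) (merge (node 463 (merge (node 431 (merge (leaf 3 430 430) (node 399 (merge (leaf 4 367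 367) (leaf 4 399 495))))) (merge (node 434 (merge (leaf 2 431 435) (node 462 (merge (leaf 2 430 433) (node 494 (merge (leaf 1 461 493) (leaf 1 462 495))))))) (node 434 (merge (leaf 2 431 435) (node 462 (merge (leaf 2 430 433) (node 461 (merge (leaf 0 461 497) (node 493 (merge (leaf 1 460 492) (leaf 1 461 494)))))))))))) (node 435 (merge (node 434 (merge (leaf 2 431 463) (node 436 (merge (leaf 1 432 433) (leaf 1 433 437))))) (merge (node 467 (merge (leaf 2 432 436) (node 500 (merge (leaf 0 464 499) (node 468 (merge (leaf 1 464 497) (leaf 0 465 501))))))) (node 463 (merge (leaf 2 431 434) (node 430 (merge (leaf 3 430 431) (node 462 (merge (leaf 3 429 429) (node 497 (merge (leaf 0 461 461) (leaf 0 462 498)))))))))))))))))))) (node 431 (merge (node 399 (merge (leaf 7 399 432) (node 463 (merge (leaf 4 367 367) (leaf 4 399 495))))) (merge (node 432 (merge (leaf 7 399 399) (node 401 (merge (leaf 6 400 433) (node 400 (merge (leaf 6 368 369) (node 527 (merge (leaf 5 399 495) (leaf 5 431 559))))))))) (merge (node 463 (merge (node 399 (merge (leaf 4 367 367) (leaf 7 399 432)))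 (merge (node 465 (merge (node 430 (merge (leaf 3 430 466) (node 429 (merge (leaf 0 428 428) (leaf 0 429 432))))) (merge (node 466 (merge (leaf 3 430 430) (node 499 (merge (leaf 0 463 498) (node 467 (merge (leaf 0 464 500) (node 435 (merge (leaf 2 431 434) (leaf 2 432 436))))))))) (merge (node 433 (merge (node 401 (merge (leaf 5 368 369) (leaf 6 400 432))) (merge (node 462 (merge (leaf 2 430 434) (node 461 (merge (leaf 2 429 432) (node 493 (merge (leaf 1 460 492) (leaf 1 461 494))))))) (node 434 (merge (leaf 2 430 462) (node 435 (merge (leaf 1 432 436) (leaf 2 431 466)))))))) (node 462 (merge (node 433 (merge (leaf 2 430 434) (node 432 (merge (leaf 6 400 401) (leaf 2 429 461))))) (merge (node 493 (merge (leaf 1 461 494) (node 461 (merge (leaf 1 460 492) (node 429 (merge (leaf 3 428 428) (leaf 3 429 430))))))) (node 433 (merge (leaf 2 430 434) (node 401 (merge (leaf 5 368 369) (leaf 6 400 432)))))))))))) (node 465 (merge (node 430 (merge (leaf 3 430 466) (node 429 (merge (leaf 0 428 428) (leaf 3 429 462))))) (merge (node 466 (merge (leaf 3 430 430) (node 499 (merge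 (leaf 0 463 498) (node 467 (merge (leaf 0 464 500) (node 435 (merge (leaf 2 431 434) (leaf 2 432 436))))))))) (merge (node 466 (merge (node 499 (merge (leaf 0 463 498) (node 467 (merge (leaf 0 464 500) (node 435 (merge (leaf 2 431 434) (leaf 2 432 436))))))) (merge (node 499 (merge (leaf 0 463 498) (node 467 (merge (leaf 0 464 500) (node 468 (merge (leaf 1 464 497) (node 436 (merge (leaf 2 432 435) (leaf 2 433 437))))))))) (merge (node 499 (merge (leaf 0 463 498) (node 467 (merge (leaf 0 464 500) (node 497 (merge (leaf 1 464 468) (node 462 (merge (leaf 0 461 461) (node 433 (merge (leaf 5 400 401) (leaf 2 430 434))))))))))) (node 434 (merge (leaf 2 431 435) (node 433 (merge (leaf 2 430 462) (node 401 (merge (leaf 5 368 369) (leaf 5 400 497))))))))))) (node 433 (merge (node 401 (merge (leaf 5 368 369) (leaf 5 400 497))) (merge (node 462 (merge (leaf 2 430 434) (node 497 (merge (leaf 0 461 461) (leaf 0 462 498))))) (node 434 (merge (leaf 2 430 462) (node 435 (merge (leaf 1 432 436) (node 399 (merge (leaf 4 367 367) (node 401 (merge (leaf 5 368 369) (node 400 (merge (leaf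 0 398 398) (leaf 0 399 402))))))))))))))))))))) (merge (node 463 (merge (node 399 (merge (leaf 4 367 367) (leaf 4 399 495))) (merge (node 465 (merge (node 466 (merge (leaf 3 430 430) (node 494 (merge (leaf 1 462 495) (node 462 (merge (leaf 1 461 493) (node 434 (merge (leaf 2 430 433) (leaf 2 431 435))))))))) (merge (node 466 (merge (leaf 3 430 430) (node 499 (merge (leaf 0 463 498) (node 467 (merge (leaf 0 464 500) (node 468 (merge (leaf 1 464 497) (node 436 (merge (leaf 2 432 435) (leaf 2 433 437))))))))))) (merge (node 433 (merge (node 401 (merge (leaf 5 368 369) (leaf 5 400 497))) (merge (node 462 (merge (leaf 2 430 434) (node 498 (merge (leaf 0 462 497) (node 466 (merge (leaf 0 463 499) (node 494 (merge (leaf 1 461 493) (leaf 1 462 495))))))))) (node 462 (merge (leaf 2 430 434) (node 493 (merge (leaf 1 461 494) (node 461 (merge (leaf 1 460 492) (node 460 (merge (leaf 0 460 495) (node 428 (merge (leaf 3 427 427) (leaf 3 428 429)))))))))))))) (node 433 (merge (node 401 (merge (leaf 5 368 369) (leaf 5 400 497))) (merge (node 462 (merge (leaf 2 430 434) (node 497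 (merge (leaf 0 461 461) (leaf 0 462 498))))) (node 462 (merge (leaf 2 430 434) (node 493 (merge (leaf 1 461 494) (node 461 (merge (leaf 1 460 492) (node 460 (merge (leaf 0 460 495) (node 428 (merge (leaf 3 427 427) (leaf 3 428 429)))))))))))))))))) (node 462 (merge (node 461 (merge (leaf 0 461 497) (node 493 (merge (leaf 1 460 492) (node 494 (merge (leaf 1 461 465) (node 429 (merge (leaf 3 428 428) (node 526 (merge (leaf 4 397 397) (leaf 6 430 558))))))))))) (merge (node 461 (merge (leaf 0 461 497) (node 492 (merge (leaf 1 460 493) (node 460 (merge (leaf 1 459 491) (node 459 (merge (leaf 2 427 430) (node 427 (merge (leaf 3 426 426) (leaf 3 427 428))))))))))) (merge (node 461 (merge (leaf 0 461 497) (node 428 (merge (leaf 3 428 429) (node 460 (merge (leaf 3 427 427) (node 491 (merge (leaf 1 459 492) (node 459 (merge (leaf 2 427 430) (leaf 1 458 490))))))))))) (merge (node 465 (merge (node 498 (merge (leaf 0 462 497) (node 466 (merge (leaf 3 430 430) (leaf 0 463 499))))) (merge (node 498 (merge (leaf 0 462 497) (node 466 (merge (leaf 0 463 499) (node 434 (merge (leaf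 2 430 433) (leaf 2 431 435))))))) (node 494 (merge (leaf 1 461 493) (node 430 (merge (leaf 3 429 429) (node 526 (merge (leaf 6 398 399) (leaf 6 430 558)))))))))) (node 493 (merge (node 465 (merge (leaf 1 461 494) (node 434 (merge (leaf 2 430 433) (node 466 (merge (leaf 3 430 430) (leaf 2 431 435))))))) (merge (node 492 (merge (leaf 1 460 461) (node 494 (merge (leaf 1 461 465) (leaf 2 459 491))))) (merge (node 461 (merge (leaf 1 460 492) (node 429 (merge (leaf 3 428 428) (node 430 (merge (leaf 3 429 465) (node 525 (merge (leaf 6 397 398) (leaf 6 429 557))))))))) (node 461 (merge (leaf 1 460 492) (node 428 (merge (leaf 3 428 429) (node 460 (merge (leaf 3 427 427) (node 459 (merge (leaf 2 427 430) (node 458 (merge (leaf 0 458 494) (node 490 (merge (leaf 1 457 489) (leaf 1 458 491))))))))))))))))))))))))) (hyp 0))))))))))) nA_11 cA_11 12 (by decide +kernel)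
def nA_12 : ℕ := 0x1800000010000000000000000000000000000000000000000000000000000000000000000000000000000000000000000000000000000000000000000000000000000
def cA_12 : ℕ := 0x38000001ff800000ff000000ff80000023000000ef000000ef0000002c00000024000000000000000000000000000000000000000000000000000000000000000000000000000000000000000000000000000
theorem lA_12 : S nA_12 cA_12 12 := S_of_chk [] trivial (node 495 (merge (node 494 (merge (node 493 (merge (leaf 0 492 492) (leaf 0 493 529))) (node 462 (merge (node 430 (merge (leaf 4 398 398) (node 559 (merge (leaf 7 430 463) (leaf 7 462 591))))) (node 497 (merge (leaf 3 461 461) (node 466 (merge (leaf 2 462 465) (node 498 (merge (leaf 2 463 467) (leaf 1 495 499))))))))))) (merge (node 559 (merge (node 591 (merge (leaf 6 495 623) (node 592 (merge (leaf 4 495 624) (node 560 (merge (leaf 4 463 463) (node 593 (merge (leaf 4 496 625) (node 558 (merge (leaf 0 557 557) (leaf 3 558 594))))))))))) (merge (node 591 (merge (leaf 6 495 623) (node 592 (merge (leaf 4 495 624) (node 590 (merge (leaf 5 494 622) (node 558 (merge (leaf 5 462 463)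 (node 593 (merge (leaf 3 557 557) (leaf 3 558 594))))))))))) (merge (node 560 (merge (node 463 (merge (leaf 4 431 431) (leaf 7 463 592))) (merge (node 463 (merge (leaf 4 431 431) (node 558 (merge (leaf 5 462 590) (node 557 (merge (leaf 2 525 529) (leaf 2 524 556))))))) (node 592 (merge (leaf 7 495 624) (node 593 (merge (leaf 4 496 625) (node 558 (merge (leaf 0 557 557) (node 594 (merge (leaf 0 558 561) (leaf 3 559 595)))))))))))) (merge (node 591 (merge (leaf 6 495 623) (node 590 (merge (leaf 5 494 622) (node 558 (merge (leaf 5 462 463) (node 557 (merge (leaf 2 524 556) (node 560 (merge (leaf 2 525 529) (node 589 (merge (leaf 1 557 561) (leaf 1 556 588))))))))))))) (merge (node 591 (merge (leaf 6 495 623) (node 592 (merge (leaf 4 495 624) (node 560 (merge (leaf 4 463 463) (node 590 (merge (leaf 5 494 622) (node 589 (merge (leaf 2 557 561) (leaf 2 556 588))))))))))) (node 560 (merge (node 592 (merge (leaf 7 495 624) (node 593 (merge (leaf 4 496 625) (node 558 (merge (leaf 0 557 557) (node 594 (merge (leaf 3 558 591) (leaf 3 559 595))))))))) (merge (node 591 (merge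 (leaf 6 495 623) (node 590 (merge (leaf 5 494 622) (node 561 (merge (leaf 1 558 562) (node 589 (merge (leaf 2 556 588) (leaf 2 557 592))))))))) (merge (node 592 (merge (leaf 7 495 624) (node 593 (merge (leaf 4 496 625) (node 558 (merge (leaf 0 557 557) (node 594 (merge (leaf 0 558 561) (leaf 3 559 595))))))))) (node 591 (merge (leaf 6 495 623) (node 590 (merge (leaf 5 494 622) (node 561 (merge (leaf 1 558 562) (node 589 (merge (leaf 1 557 558) (leaf 2 556 588))))))))))))))))))) (merge (node 494 (merge (node 493 (merge (leaf 0 492 492) (leaf 0 493 529))) (merge (node 497 (merge (node 466 (merge (leaf 2 462 465) (node 498 (merge (leaf 2 463 467) (leaf 1 495 499))))) (merge (node 498 (merge (leaf 1 495 499) (node 462 (merge (leaf 3 461 461) (leaf 3 462 463))))) (node 465 (merge (leaf 2 462 466) (node 433 (merge (leaf 5 400 401) (node 560 (merge (leaf 5 432 529) (leaf 6 464 592)))))))))) (node 493 (merge (leaf 0 492 492) (node 461 (merge (leaf 3 460 460) (node 497 (merge (leaf 3 461 462) (node 498 (merge (leaf 1 495 499) (node 466 (merge (leaf 2 462 465) (leaf 2 463 467))))))))))))))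 (merge (node 560 (merge (node 592 (merge (leaf 7 463 463) (leaf 7 495 624))) (merge (node 463 (merge (leaf 4 431 431) (node 462 (merge (node 461 (merge (leaf 0 460 460) (node 497 (merge (leaf 3 461 494) (leaf 3 462 498))))) (node 559 (merge (leaf 7 430 430) (node 591 (merge (leaf 6 495 623) (node 590 (merge (leaf 5 462 558) (leaf 5 494 622))))))))))) (node 559 (merge (node 592 (merge (leaf 7 495 624) (node 593 (merge (leaf 4 496 625) (node 558 (merge (leaf 0 557 557) (node 594 (merge (leaf 0 558 561) (leaf 3 559 595))))))))) (merge (node 591 (merge (leaf 6 495 623) (node 590 (merge (leaf 5 494 622) (node 561 (merge (leaf 1 558 562) (node 589 (merge (leaf 1 557 558) (leaf 2 556 588))))))))) (merge (node 592 (merge (node 624 (merge (leaf 7 527 656) (node 623 (merge (leaf 6 495 591) (leaf 5 527 655))))) (merge (node 624 (merge (leaf 7 527 656) (node 625 (merge (leaf 4 496 593) (leaf 4 528 657))))) (node 593 (merge (leaf 4 496 625) (node 594 (merge (leaf 3 559 595) (node 591 (merge (leaf 3 558 558) (leaf 5 495 623)))))))))) (node 591 (merge (leaf 6 495 623) (node 592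 (merge (leaf 4 495 624) (node 590 (merge (leaf 5 494 622) (node 589 (merge (leaf 2 557 561) (leaf 2 556 588)))))))))))))))) (node 591 (merge (node 592 (merge (node 560 (merge (leaf 5 495 623) (leaf 7 495 624))) (merge (node 559 (merge (leaf 6 495 623) (leaf 4 495 624))) (merge (node 624 (merge (leaf 4 495 559) (leaf 7 495 560))) (node 623 (merge (leaf 6 495 559) (leaf 5 495 560))))))) (merge (node 494 (merge (node 493 (merge (leaf 0 492 492) (leaf 0 493 529))) (node 462 (merge (leaf 7 462 559) (node 497 (merge (leaf 3 461 461) (node 498 (merge (leaf 1 495 499) (node 466 (merge (leaf 2 462 465) (leaf 2 463 467))))))))))) (node 592 (merge (node 560 (merge (leaf 5 495 623) (leaf 7 495 624))) (merge (node 560 (merge (leaf 5 495 623) (node 593 (merge (leaf 4 496 625) (node 497 (merge (leaf 6 464 465) (node 498 (merge (leaf 1 495 499) (node 466 (merge (leaf 2 463 467) (node 561 (merge (leaf 6 465 529) (node 562 (merge (leaf 1 559 563) (leaf 2 558 590))))))))))))))) (merge (node 560 (merge (leaf 7 495 624) (node 593 (merge (leaf 4 496 625) (node 497 (merge (leaf 6 464 465)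 (node 498 (merge (leaf 1 495 499) (node 466 (merge (leaf 2 463 467) (node 561 (merge (leaf 6 465 529) (node 562 (merge (leaf 1 559 563) (leaf 2 558 590))))))))))))))) (node 590 (merge (node 593 (merge (node 625 (merge (leaf 0 590 626) (node 561 (merge (leaf 7 496 529) (leaf 2 558 562))))) (merge (node 622 (merge (leaf 1 589 621) (node 594 (merge (leaf 1 590 623) (node 562 (merge (leaf 2 558 561) (leaf 2 559 563))))))) (node 626 (merge (leaf 0 590 625) (node 594 (merge (leaf 0 591 627) (node 622 (merge (leaf 1 589 621) (leaf 1 590 623)))))))))) (merge (node 625 (merge (node 593 (merge (leaf 0 590 626) (node 561 (merge (leaf 7 496 529) (leaf 2 558 562))))) (merge (node 624 (merge (leaf 0 589 589) (node 626 (merge (leaf 3 590 623) (leaf 3 591 627))))) (node 589 (merge (leaf 0 589 624) (node 557 (merge (leaf 3 556 556) (node 593 (merge (leaf 3 557 558) (node 561 (merge (leaf 7 496 529) (leaf 2 558 562)))))))))))) (merge (node 589 (merge (node 625 (merge (leaf 0 589 624) (node 593 (merge (leaf 0 590 626) (node 621 (merge (leaf 1 588 620) (leaf 1 589 622))))))) (merge (node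 620 (merge (leaf 1 588 621) (node 588 (merge (leaf 1 587 619) (node 556 (merge (leaf 3 555 555) (leaf 3 556 557))))))) (node 625 (merge (leaf 0 589 624) (node 593 (merge (leaf 0 590 626) (node 557 (merge (leaf 3 556 556) (leaf 3 557 558)))))))))) (merge (node 593 (merge (node 562 (merge (leaf 2 558 561) (node 594 (merge (leaf 2 559 563) (node 627 (merge (leaf 0 591 626) (node 595 (merge (leaf 0 592 628) (node 623 (merge (leaf 1 590 622) (leaf 1 591 624))))))))))) (node 557 (merge (leaf 3 557 558) (node 589 (merge (leaf 3 556 556) (node 620 (merge (leaf 1 588 621) (node 588 (merge (leaf 1 587 619) (node 493 (merge (leaf 5 492 525) (node 494 (merge (leaf 0 492 492) (leaf 0 493 529))))))))))))))) (node 493 (merge (node 494 (merge (leaf 0 492 492) (leaf 0 493 529))) (merge (node 589 (merge (node 624 (merge (leaf 0 589 625) (node 588 (merge (leaf 0 588 623) (node 556 (merge (leaf 3 555 555) (leaf 3 556 557))))))) (merge (node 624 (merge (leaf 0 589 625) (node 588 (merge (leaf 0 588 623) (node 620 (merge (leaf 1 587 619) (leaf 1 588 621))))))) (node 621 (merge (leaf 1 588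 620) (node 557 (merge (leaf 3 556 556) (node 525 (merge (leaf 4 493 622) (node 492 (merge (leaf 7 460 460) (leaf 7 492 524)))))))))))) (node 494 (merge (leaf 0 493 529) (node 461 (merge (leaf 3 460 460) (node 497 (merge (leaf 3 461 462) (node 498 (merge (leaf 1 495 499) (node 466 (merge (leaf 2 462 465) (leaf 2 463 467))))))))))))))))))))))))))))))) nA_12 cA_12 12 (by decide +kernel)
def nA_13 : ℕ := 0x1800000010000000000000000000000000000000000000000000000000000000000000000000000000000000000000000000000000000000000000000000000000000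
def cA_13 : ℕ := 0x2a0000003e000001fe000001ff000000ffc00000278000000fc000000f0000000f0000000c000000000000000000000000000000000000000000000000000000000000000000000000000000000000000000000000000
theorem lA_13 : S nA_13 cA_13 12 := S_of_chk [] trivial (node 526 (merge (node 561 (merge (node 560 (merge (leaf 0 525 525) (node 562 (merge (leaf 3 526 559) (leaf 3 527 563))))) (merge (node 562 (merge (leaf 0 526 529) (node 560 (merge (leaf 3 526 559) (leaf 3 527 563))))) (merge (node 529 (merge (leaf 0 526 562) (node 557 (merge (leaf 1 525 558) (node 525 (merge (leaf 1 524 556) (node 493 (merge (leaf 3 492 492) (leaf 3 493 494))))))))) (node 525 (merge (leaf 0 525 560) (node 557 (merge (leaf 1 524 556) (node 529 (merge (leaf 1 525 558) (node 493 (merge (leaf 3 492 492) (leaf 3 493 494))))))))))))) (merge (node 525 (merge (node 524 (merge (leaf 2 492 495) (node 492 (merge (leaf 3 491 491) (leaf 3 492 493))))) (merge (node 524 (merge (leaf 2 492 495) (node 556 (merge (leaf 1 523 555) (leaf 1 524 557))))) (node 557 (merge (leaf 1 524 556) (node 493 (merge (leaf 3 492 492) (node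 494 (merge (leaf 3 493 529) (node 589 (merge (leaf 6 461 462) (leaf 6 493 621)))))))))))) (merge (node 525 (merge (node 524 (merge (leaf 2 492 495) (node 492 (merge (leaf 3 491 491) (leaf 3 492 493))))) (merge (node 524 (merge (leaf 2 492 495) (node 556 (merge (leaf 1 523 555) (leaf 1 524 557))))) (node 557 (merge (leaf 1 524 556) (node 558 (merge (leaf 1 525 529) (node 493 (merge (leaf 3 492 492) (node 590 (merge (leaf 4 461 461) (leaf 7 493 622)))))))))))) (merge (node 525 (merge (node 561 (merge (leaf 0 525 560) (node 529 (merge (leaf 0 526 562) (node 493 (merge (leaf 3 492 492) (leaf 3 493 494))))))) (merge (node 524 (merge (leaf 2 492 495) (node 555 (merge (leaf 1 523 556) (node 523 (merge (leaf 1 522 554) (node 491 (merge (leaf 3 490 490) (leaf 3 491 492))))))))) (node 524 (merge (leaf 2 492 495) (node 559 (merge (leaf 0 524 560) (node 558 (merge (leaf 0 523 523) (node 591 (merge (leaf 6 495 623) (node 494 (merge (leaf 4 462 462) (node 493 (merge (leaf 3 493 529) (node 590 (merge (leaf 7 461 461) (leaf 7 493 622)))))))))))))))))) (merge (node 560 (merge (node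 525 (merge (leaf 0 525 561) (node 524 (merge (leaf 2 492 495) (leaf 0 524 559))))) (merge (node 561 (merge (leaf 0 525 525) (node 562 (merge (leaf 0 526 529) (leaf 3 527 563))))) (merge (node 495 (merge (node 592 (merge (leaf 7 463 463) (leaf 7 495 624))) (merge (node 558 (merge (node 590 (merge (leaf 6 494 622) (node 463 (merge (leaf 5 430 431) (leaf 6 462 494))))) (node 557 (merge (leaf 1 525 529) (node 556 (merge (leaf 2 523 555) (leaf 2 524 559))))))) (node 525 (merge (leaf 2 492 524) (node 557 (merge (leaf 1 524 556) (node 592 (merge (leaf 7 495 624) (node 593 (merge (leaf 4 496 625) (node 558 (merge (leaf 0 557 559) (node 590 (merge (leaf 3 557 591) (leaf 6 494 622)))))))))))))))) (node 561 (merge (node 562 (merge (leaf 0 526 529) (leaf 3 527 563))) (merge (node 562 (merge (leaf 3 526 559) (leaf 3 527 563))) (node 592 (merge (node 623 (merge (leaf 5 495 591) (node 624 (merge (leaf 5 527 655) (node 656 (merge (leaf 6 528 529) (leaf 7 527 559))))))) (merge (node 625 (merge (leaf 4 496 593) (node 624 (merge (leaf 4 528 657) (node 656 (merge (leaf 6 528 529) (leaf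 7 527 559))))))) (merge (node 625 (merge (leaf 4 496 593) (node 624 (merge (leaf 4 528 657) (node 623 (merge (leaf 5 495 591) (leaf 5 527 655))))))) (node 593 (merge (leaf 4 496 625) (node 591 (merge (leaf 5 495 623) (node 590 (merge (leaf 2 557 589) (node 558 (merge (leaf 3 557 557) (node 594 (merge (leaf 0 558 559) (node 627 (merge (leaf 0 591 626) (node 595 (merge (leaf 3 560 596) (leaf 0 592 628)))))))))))))))))))))))))) (merge (node 560 (merge (node 525 (merge (leaf 0 525 561) (node 524 (merge (leaf 2 492 495) (leaf 0 524 559))))) (merge (node 561 (merge (leaf 0 525 525) (node 562 (merge (leaf 0 526 529) (leaf 3 527 563))))) (merge (node 561 (merge (node 562 (merge (leaf 0 526 529) (leaf 3 527 563))) (merge (node 562 (merge (leaf 3 526 559) (leaf 3 527 563))) (node 592 (merge (node 623 (merge (leaf 5 495 591) (node 624 (merge (leaf 5 527 655) (node 656 (merge (leaf 6 528 529) (leaf 7 527 559))))))) (merge (node 625 (merge (leaf 4 496 593) (node 624 (merge (leaf 4 528 657) (node 656 (merge (leaf 6 528 529) (leaf 7 527 559))))))) (merge (node 625 (merge (leaf 4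 496 593) (node 624 (merge (leaf 4 528 657) (node 623 (merge (leaf 5 495 591) (leaf 5 527 655))))))) (node 593 (merge (leaf 4 496 625) (node 591 (merge (leaf 5 495 623) (node 590 (merge (leaf 2 557 589) (node 558 (merge (leaf 3 557 557) (node 594 (merge (leaf 0 558 559) (node 627 (merge (leaf 0 591 626) (node 595 (merge (leaf 3 560 596) (leaf 0 592 628)))))))))))))))))))))) (node 592 (merge (node 495 (merge (leaf 7 463 463) (leaf 7 495 624))) (merge (node 623 (merge (leaf 5 495 591) (node 624 (merge (leaf 5 527 655) (node 656 (merge (leaf 7 527 559) (node 657 (merge (leaf 4 528 625) (leaf 4 560 689))))))))) (node 591 (merge (leaf 5 495 623) (node 495 (merge (leaf 7 463 463) (node 525 (merge (leaf 2 492 524) (node 493 (merge (leaf 3 492 492) (node 494 (merge (leaf 0 493 529) (node 461 (merge (leaf 3 460 460) (node 590 (merge (leaf 7 461 558) (node 559 (merge (leaf 7 462 462) (leaf 5 494 622)))))))))))))))))))))))) (merge (node 558 (merge (node 557 (merge (leaf 1 525 529) (node 556 (merge (leaf 2 523 555) (leaf 2 524 559))))) (merge (node 590 (merge (node 495 (merge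 (leaf 6 494 622) (node 494 (merge (leaf 6 462 463) (node 493 (merge (leaf 7 461 461) (leaf 0 492 492))))))) (merge (node 622 (merge (leaf 6 494 495) (node 655 (merge (leaf 4 526 623) (node 654 (merge (leaf 4 558 687) (node 653 (merge (leaf 5 525 621) (leaf 5 557 685))))))))) (merge (node 529 (merge (leaf 1 525 557) (node 494 (merge (leaf 3 493 493) (node 623 (merge (leaf 4 494 591) (node 622 (merge (leaf 4 526 655) (node 621 (merge (leaf 5 493 589) (leaf 5 525 653))))))))))) (node 557 (merge (leaf 1 525 529) (node 494 (merge (node 589 (merge (leaf 5 461 462) (leaf 5 493 621))) (node 493 (merge (leaf 7 461 461) (node 492 (merge (leaf 0 491 491) (leaf 0 492 495))))))))))))) (merge (node 590 (merge (node 622 (merge (leaf 6 494 495) (node 655 (merge (leaf 4 526 623) (node 654 (merge (leaf 6 526 559) (leaf 4 558 687))))))) (merge (node 623 (merge (node 591 (merge (leaf 4 494 494) (leaf 6 495 559))) (merge (node 622 (merge (leaf 4 526 655) (node 653 (merge (leaf 5 525 621) (node 654 (merge (leaf 6 526 559) (leaf 5 557 685))))))) (node 494 (merge (leaf 4 494 591) (node 622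 (merge (leaf 4 526 655) (node 621 (merge (leaf 5 493 589) (leaf 5 525 653)))))))))) (merge (node 622 (merge (leaf 6 494 495) (node 623 (merge (leaf 4 526 655) (node 494 (merge (leaf 4 494 591) (node 621 (merge (leaf 5 493 589) (leaf 5 525 653))))))))) (node 557 (merge (node 556 (merge (leaf 2 523 555) (leaf 2 524 559))) (node 494 (merge (node 589 (merge (leaf 5 461 462) (leaf 5 493 621))) (node 493 (merge (leaf 7 461 461) (node 492 (merge (leaf 0 491 491) (leaf 0 492 495))))))))))))) (node 590 (merge (node 622 (merge (leaf 6 494 495) (node 655 (merge (leaf 4 526 623) (node 654 (merge (leaf 6 526 559) (leaf 4 558 687))))))) (merge (node 495 (merge (leaf 6 494 622) (node 494 (merge (leaf 6 462 463) (node 493 (merge (leaf 7 461 461) (leaf 0 492 492))))))) (merge (node 494 (merge (node 493 (merge (leaf 7 461 461) (leaf 3 493 529))) (node 591 (merge (leaf 4 494 623) (node 462 (merge (leaf 4 462 559) (node 463 (merge (leaf 6 430 431) (leaf 6 462 495))))))))) (node 623 (merge (node 591 (merge (leaf 4 494 494) (leaf 6 495 559))) (merge (node 622 (merge (leaf 4 526 655) (node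 653 (merge (leaf 5 525 621) (node 654 (merge (leaf 6 526 559) (leaf 5 557 685))))))) (node 494 (merge (leaf 4 494 591) (node 622 (merge (leaf 4 526 655) (node 621 (merge (leaf 5 493 589) (leaf 5 525 653)))))))))))))))))) (node 495 (merge (node 525 (merge (leaf 2 492 524) (node 560 (merge (leaf 0 525 561) (node 592 (merge (leaf 7 463 463) (leaf 7 495 624))))))) (merge (node 558 (merge (node 590 (merge (leaf 6 494 622) (node 463 (merge (leaf 5 430 431) (leaf 5 462 559))))) (merge (node 525 (merge (leaf 2 492 524) (node 493 (merge (leaf 3 492 492) (node 461 (merge (leaf 4 429 429) (node 590 (merge (leaf 4 461 557) (leaf 6 494 622))))))))) (node 525 (merge (leaf 2 492 524) (node 557 (merge (leaf 1 524 556) (node 493 (merge (leaf 3 492 492) (node 461 (merge (leaf 4 429 429) (node 463 (merge (leaf 5 430 431) (node 460 (merge (leaf 7 428 428) (leaf 0 460 462)))))))))))))))) (merge (node 525 (merge (leaf 2 492 524) (node 560 (merge (leaf 0 525 561) (node 557 (merge (leaf 1 524 556) (node 592 (merge (leaf 7 495 624) (node 593 (merge (leaf 4 496 625) (node 558 (merge (leaf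 0 557 559) (node 591 (merge (leaf 3 557 590) (leaf 5 495 623))))))))))))))) (node 559 (merge (node 591 (merge (leaf 6 495 623) (node 592 (merge (leaf 4 495 624) (node 463 (merge (leaf 4 463 560) (node 590 (merge (leaf 5 462 558) (leaf 5 494 622))))))))) (merge (node 591 (merge (leaf 6 495 623) (node 592 (merge (leaf 4 495 624) (node 463 (merge (leaf 4 463 560) (node 431 (merge (leaf 4 399 399) (node 430 (merge (leaf 7 398 398) (leaf 7 430 462))))))))))) (merge (node 591 (merge (leaf 6 495 623) (node 590 (merge (leaf 5 494 622) (node 494 (merge (leaf 7 462 462) (node 493 (merge (leaf 0 492 492) (node 461 (merge (leaf 3 460 460) (leaf 7 461 558))))))))))) (node 560 (merge (node 592 (merge (leaf 4 463 463) (leaf 7 495 624))) (merge (node 592 (merge (leaf 7 495 624) (node 593 (merge (leaf 4 496 625) (node 558 (merge (leaf 0 557 557) (node 594 (merge (leaf 0 558 561) (leaf 3 559 595))))))))) (node 463 (merge (leaf 4 431 431) (node 558 (merge (leaf 5 462 590) (node 557 (merge (leaf 2 524 556) (node 589 (merge (leaf 1 556 588) (node 462 (merge (leaf 7 430 430) (leaf 5 461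 494)))))))))))))))))))))))))))))) nA_13 cA_13 12 (by decide +kernel)
def nA_14 : ℕ := 0x1c00000010000000000000000000000000000000000000000000000000000000000000000000000000000000000000000000000000000000000000000000000000000
def cA_14 : ℕ := 0xa0000000e0000001e000000ffe000007fc00000ffe0000020000000660000006e0000006e0000006a000000000000000000000000000000000000000000000000000000000000000000000000000000000000000000000000000
theorem lA_14 : S nA_14 cA_14 11 := S_of_chk [] trivial (node 558 (merge (node 557 (merge (leaf 1 525 529) (node 556 (merge (leaf 2 523 555) (leaf 2 524 559))))) (merge (node 529 (merge (leaf 1 525 557) (node 561 (merge (leaf 0 526 562) (node 497 (merge (leaf 2 494 498) (node 593 (merge (leaf 7 496 625) (node 592 (merge (leaf 5 496 624) (node 465 (merge (leaf 5 464 560) (node 433 (merge (leaf 5 400 401) (node 434 (merge (leaf 6 401 402) (leaf 6 433 466))))))))))))))))) (merge (node 494 (merge (node 529 (merge (leaf 3 493 493) (node 561 (merge (leaf 0 526 562) (node 497 (merge (leaf 2 494 498) (node 593 (merge (leaf 7 496 625) (node 592 (merge (leaf 5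 496 624) (node 465 (merge (leaf 5 464 560) (node 433 (merge (leaf 5 400 401) (node 434 (merge (leaf 6 401 402) (leaf 6 433 466))))))))))))))))) (node 590 (merge (node 623 (merge (leaf 4 494 591) (node 622 (merge (leaf 4 526 655) (node 621 (merge (leaf 5 493 589) (leaf 5 525 653))))))) (merge (node 591 (merge (leaf 4 494 623) (node 462 (merge (leaf 4 462 559) (node 431 (merge (leaf 6 430 463) (node 430 (merge (leaf 6 398 399) (node 429 (merge (leaf 7 397 397) (leaf 7 429 461))))))))))) (merge (node 621 (merge (leaf 5 493 589) (node 622 (merge (leaf 5 525 653) (node 559 (merge (leaf 6 526 654) (node 462 (merge (leaf 4 430 430) (leaf 4 462 591))))))))) (node 621 (merge (leaf 5 493 589) (node 622 (merge (leaf 5 525 653) (node 655 (merge (leaf 4 526 623) (node 654 (merge (leaf 6 526 559) (leaf 4 558 687))))))))))))))) (node 590 (merge (node 622 (merge (node 655 (merge (leaf 4 526 623) (node 654 (merge (leaf 6 526 559) (leaf 4 558 687))))) (merge (node 654 (merge (leaf 6 526 559) (node 653 (merge (leaf 5 525 621) (leaf 5 557 685))))) (merge (node 655 (merge (leaf 4 526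 623) (node 654 (merge (leaf 4 558 687) (node 653 (merge (leaf 5 525 621) (leaf 5 557 685))))))) (node 623 (merge (leaf 4 526 655) (node 621 (merge (leaf 5 525 653) (node 591 (merge (leaf 6 495 559) (node 620 (merge (leaf 2 588 592) (leaf 2 587 619))))))))))))) (merge (node 621 (merge (node 589 (merge (leaf 5 493 494) (node 653 (merge (leaf 6 525 557) (leaf 6 557 685))))) (merge (node 622 (merge (leaf 5 525 653) (node 655 (merge (leaf 4 526 623) (node 654 (merge (leaf 6 526 559) (leaf 4 558 687))))))) (node 494 (merge (leaf 5 493 589) (node 461 (merge (leaf 7 461 493) (node 462 (merge (leaf 7 429 429) (node 430 (merge (leaf 4 430 559) (node 431 (merge (leaf 6 398 399) (leaf 6 430 463)))))))))))))) (merge (node 494 (merge (node 589 (merge (leaf 5 493 621) (node 462 (merge (leaf 5 461 557) (node 559 (merge (leaf 4 430 430) (leaf 4 462 591))))))) (merge (node 591 (merge (leaf 4 494 623) (node 462 (merge (leaf 4 462 559) (node 461 (merge (leaf 7 429 429) (leaf 7 461 493))))))) (merge (node 589 (merge (leaf 5 493 621) (node 462 (merge (leaf 5 461 557) (node 461 (merge (leaf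 7 429 429) (leaf 7 461 493))))))) (node 623 (merge (leaf 4 494 591) (node 622 (merge (leaf 4 526 655) (node 589 (merge (leaf 5 493 621) (node 588 (merge (leaf 0 587 587) (node 559 (merge (leaf 6 526 654) (node 560 (merge (leaf 1 556 557) (leaf 1 557 561))))))))))))))))) (merge (node 589 (merge (node 621 (merge (leaf 5 493 494) (node 653 (merge (leaf 5 525 622) (leaf 6 557 685))))) (node 588 (merge (node 587 (merge (leaf 2 555 559) (node 618 (merge (leaf 1 586 619) (node 586 (merge (leaf 2 554 557) (leaf 1 585 617))))))) (merge (node 587 (merge (leaf 2 555 559) (node 618 (merge (leaf 1 586 619) (node 586 (merge (leaf 1 585 617) (node 554 (merge (leaf 3 553 553) (leaf 3 554 555))))))))) (merge (node 587 (merge (node 555 (merge (leaf 3 554 554) (node 556 (merge (leaf 2 523 557) (leaf 3 555 591))))) (merge (node 618 (merge (leaf 1 586 619) (node 586 (merge (leaf 2 554 557) (leaf 1 585 617))))) (node 619 (merge (leaf 1 586 618) (node 591 (merge (leaf 1 587 620) (node 555 (merge (leaf 3 554 554) (leaf 3 555 556)))))))))) (node 591 (merge (node 559 (merge (leaf 2 556 560)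 (node 556 (merge (leaf 3 555 555) (leaf 2 524 557))))) (merge (node 556 (merge (leaf 3 555 555) (node 557 (merge (leaf 2 524 559) (leaf 3 556 592))))) (merge (node 560 (merge (leaf 2 556 559) (node 592 (merge (leaf 2 557 561) (node 593 (merge (leaf 3 557 557) (leaf 4 496 625))))))) (merge (node 556 (merge (leaf 3 555 555) (node 592 (merge (leaf 3 556 557) (node 625 (merge (leaf 0 589 624) (node 560 (merge (leaf 2 557 561) (leaf 4 496 593))))))))) (node 560 (merge (leaf 2 556 559) (node 592 (merge (leaf 2 557 561) (node 625 (merge (leaf 4 496 593) (leaf 0 589 624)))))))))))))))))) (merge (node 622 (merge (node 654 (merge (leaf 6 526 559) (node 687 (merge (leaf 4 558 655) (node 686 (merge (leaf 4 590 719) (node 685 (merge (leaf 5 557 653) (leaf 5 589 717))))))))) (merge (node 623 (merge (leaf 4 526 655) (node 591 (merge (leaf 4 494 494) (node 592 (merge (leaf 5 495 560) (node 593 (merge (leaf 3 557 557) (leaf 1 590 594))))))))) (node 589 (merge (node 654 (merge (leaf 6 526 559) (node 686 (merge (leaf 7 557 557) (node 685 (merge (leaf 5 557 653) (leaf 5 589 717)))))))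 (merge (node 559 (merge (leaf 6 526 654) (node 588 (merge (leaf 2 555 587) (node 591 (merge (leaf 2 556 560) (leaf 6 495 623))))))) (node 591 (merge (node 494 (merge (leaf 4 494 623) (node 462 (merge (leaf 5 461 557) (node 461 (merge (leaf 7 429 429) (leaf 7 461 493))))))) (merge (node 623 (merge (leaf 4 494 494) (node 624 (merge (leaf 0 588 588) (leaf 3 589 625))))) (node 588 (merge (node 619 (merge (leaf 1 587 620) (node 587 (merge (leaf 1 586 618) (node 555 (merge (leaf 3 554 554) (leaf 3 555 556))))))) (merge (node 556 (merge (leaf 3 555 555) (node 592 (merge (leaf 3 556 557) (node 625 (merge (leaf 0 589 624) (node 560 (merge (leaf 2 557 561) (leaf 4 496 593))))))))) (merge (node 619 (merge (leaf 1 587 620) (node 587 (merge (leaf 1 586 618) (node 557 (merge (leaf 2 554 586) (node 592 (merge (leaf 3 556 556) (leaf 3 557 593))))))))) (node 619 (merge (leaf 1 587 620) (node 587 (merge (leaf 1 586 618) (node 586 (merge (leaf 2 554 557) (node 554 (merge (leaf 3 553 553) (leaf 3 554 555)))))))))))))))))))))) (merge (node 623 (merge (node 494 (merge (leaf 4 494 591)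 (node 589 (merge (leaf 5 493 621) (node 462 (merge (leaf 5 461 557) (node 461 (merge (leaf 7 429 429) (leaf 7 461 493))))))))) (merge (node 622 (merge (leaf 4 526 655) (node 621 (merge (leaf 5 525 653) (node 589 (merge (leaf 5 493 494) (node 624 (merge (leaf 3 588 588) (leaf 3 589 625))))))))) (node 655 (merge (leaf 4 526 622) (node 591 (merge (leaf 7 558 687) (node 592 (merge (leaf 5 495 560) (node 593 (merge (leaf 3 557 557) (node 626 (merge (leaf 0 590 625) (node 594 (merge (leaf 0 591 627) (node 562 (merge (leaf 2 558 561) (leaf 2 559 563)))))))))))))))))) (node 591 (merge (node 623 (merge (leaf 4 494 494) (leaf 6 495 559))) (merge (node 494 (merge (leaf 4 494 623) (node 589 (merge (leaf 5 493 621) (node 557 (merge (leaf 5 461 462) (node 592 (merge (leaf 3 556 556) (leaf 3 557 593))))))))) (merge (node 623 (merge (leaf 6 495 559) (node 592 (merge (leaf 5 495 560) (node 557 (merge (leaf 3 557 593) (node 589 (merge (leaf 3 556 556) (node 621 (merge (leaf 1 588 620) (leaf 6 525 653))))))))))) (node 589 (merge (node 494 (merge (leaf 5 493 621) (node 462 (merge (leaf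 5 461 557) (node 559 (merge (leaf 4 430 430) (leaf 4 462 591))))))) (merge (node 494 (merge (leaf 5 493 621) (node 559 (merge (leaf 4 462 462) (node 588 (merge (leaf 2 556 560) (leaf 2 555 587))))))) (merge (node 557 (merge (node 556 (merge (leaf 0 555 555) (node 592 (merge (leaf 3 556 589) (leaf 3 557 593))))) (merge (node 556 (merge (leaf 0 555 555) (leaf 2 524 559))) (node 592 (merge (leaf 3 557 593) (node 624 (merge (leaf 0 589 625) (node 560 (merge (leaf 2 557 561) (node 559 (merge (leaf 1 556 588) (leaf 7 527 656)))))))))))) (node 621 (merge (node 653 (merge (leaf 6 525 557) (leaf 6 557 685))) (merge (node 592 (merge (leaf 1 588 620) (node 625 (merge (leaf 0 589 624) (node 593 (merge (leaf 3 557 557) (leaf 0 590 626))))))) (node 620 (merge (leaf 1 588 592) (node 619 (merge (leaf 1 587 588) (leaf 2 586 618))))))))))))))))))))))))))) nA_14 cA_14 11 (by decide +kernel)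
def nA_15 : ℕ := 0x1000000010000000000000000000000000000000000000000000000000000000000000000000000000000000000000000000000000000000000000000000000000000
def cA_15 : ℕ := 0xa0000002e0000003e000001ffe00001ffc00001ffe00003afc00001efc00003efc000007f0000007e000000000000000000000000000000000000000000000000000000000000000000000000000000000000000000000000000
theorem lA_15 : S nA_15 cA_15 13 := S_of_chk [(nA_12, cA_12, 12), (nA_13, cA_13, 12), (nA_14, cA_14, 11)] ⟨lA_12, lA_13, lA_14, trivial⟩ (node 527 (merge (node 526 (merge (node 525 (merge (leaf 2 493 497) (node 524 (merge (leaf 2 492 495) (node 492 (merge (leaf 3 491 491) (leaf 3 492 493))))))) (merge (node 525 (merge (leaf 2 493 497) (node 524 (merge (leaf 2 492 495) (node 556 (merge (leaf 1 523 555) (leaf 1 524 557))))))) (merge (node 525 (merge (leaf 2 493 497) (node 557 (merge (leaf 1 524 556) (node 529 (merge (leaf 1 525 558) (node 493 (merge (leaf 3 492 492) (leaf 3 493 494))))))))) (node 558 (merge (node 557 (merge (leaf 1 525 529) (node 556 (merge (leaf 2 523 555) (leaf 2 524 559))))) (merge (node 590 (merge (node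 495 (merge (leaf 6 494 622) (node 494 (merge (leaf 6 462 463) (node 493 (merge (leaf 7 461 461) (leaf 0 492 492))))))) (merge (node 622 (merge (leaf 6 494 495) (node 655 (merge (leaf 4 526 623) (node 654 (merge (leaf 4 558 687) (node 653 (merge (leaf 5 525 621) (leaf 5 557 685))))))))) (merge (node 529 (merge (leaf 1 525 557) (node 494 (merge (leaf 3 493 493) (node 623 (merge (leaf 4 494 591) (node 622 (merge (leaf 4 526 655) (node 621 (merge (leaf 5 493 589) (leaf 5 525 653))))))))))) (node 557 (merge (leaf 1 525 529) (node 494 (merge (node 589 (merge (leaf 5 461 462) (leaf 5 493 621))) (node 493 (merge (leaf 7 461 461) (node 492 (merge (leaf 0 491 491) (leaf 0 492 495))))))))))))) (merge (node 590 (merge (node 622 (merge (leaf 6 494 495) (node 655 (merge (leaf 4 526 623) (node 654 (merge (leaf 6 526 559) (leaf 4 558 687))))))) (merge (node 623 (merge (node 591 (merge (leaf 4 494 494) (leaf 6 495 559))) (merge (node 622 (merge (leaf 4 526 655) (node 653 (merge (leaf 5 525 621) (node 654 (merge (leaf 6 526 559) (leaf 5 557 685))))))) (node 494 (merge (leaf 4 494 591)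 (node 622 (merge (leaf 4 526 655) (node 621 (merge (leaf 5 493 589) (leaf 5 525 653)))))))))) (merge (node 622 (merge (leaf 6 494 495) (node 623 (merge (leaf 4 526 655) (node 494 (merge (leaf 4 494 591) (node 621 (merge (leaf 5 493 589) (leaf 5 525 653))))))))) (node 557 (merge (node 556 (merge (leaf 2 523 555) (leaf 2 524 559))) (node 494 (merge (node 589 (merge (leaf 5 461 462) (leaf 5 493 621))) (node 493 (merge (leaf 7 461 461) (node 492 (merge (leaf 0 491 491) (leaf 0 492 495))))))))))))) (node 590 (merge (node 622 (merge (leaf 6 494 495) (node 655 (merge (leaf 4 526 623) (node 654 (merge (leaf 6 526 559) (leaf 4 558 687))))))) (merge (node 495 (merge (leaf 6 494 622) (node 494 (merge (leaf 6 462 463) (node 493 (merge (leaf 7 461 461) (leaf 0 492 492))))))) (merge (node 494 (merge (node 493 (merge (leaf 7 461 461) (leaf 3 493 529))) (node 591 (merge (leaf 4 494 623) (node 462 (merge (leaf 4 462 559) (node 463 (merge (leaf 6 430 431) (leaf 6 462 495))))))))) (node 623 (merge (node 591 (merge (leaf 4 494 494) (leaf 6 495 559))) (merge (node 622 (merge (leaf 4 526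 655) (node 653 (merge (leaf 5 525 621) (node 654 (merge (leaf 6 526 559) (leaf 5 557 685))))))) (node 494 (merge (leaf 4 494 591) (node 622 (merge (leaf 4 526 655) (node 621 (merge (leaf 5 493 589) (leaf 5 525 653)))))))))))))))))))))) (merge (node 497 (merge (node 526 (merge (leaf 2 493 525) (node 498 (merge (leaf 1 495 499) (leaf 2 494 529))))) (merge (node 526 (merge (leaf 2 493 525) (node 498 (merge (leaf 1 494 495) (leaf 1 495 499))))) (merge (node 498 (merge (leaf 1 495 499) (node 495 (merge (node 463 (merge (leaf 3 462 462) (node 431 (merge (leaf 4 399 399) (leaf 4 431 560))))) (node 466 (merge (leaf 2 463 467) (node 494 (merge (leaf 2 462 465) (node 493 (merge (leaf 0 492 492) (leaf 0 493 529))))))))))) (node 494 (merge (node 526 (merge (leaf 2 493 525) (node 493 (merge (leaf 3 493 529) (node 492 (merge (leaf 0 491 491) (leaf 0 492 495))))))) (merge (node 495 (merge (node 462 (merge (leaf 3 461 461) (node 430 (merge (leaf 4 398 398) (node 559 (merge (leaf 7 430 463) (leaf 7 462 591))))))) (node 465 (merge (leaf 2 462 466) (node 560 (merge (leaf 6 464 592)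 (node 433 (merge (leaf 5 400 401) (leaf 5 432 529))))))))) (merge (node 495 (merge (node 493 (merge (leaf 0 492 492) (node 525 (merge (leaf 1 492 524) (leaf 2 493 526))))) (merge (node 493 (merge (leaf 0 492 492) (node 461 (merge (leaf 3 460 460) (leaf 3 461 462))))) (node 526 (merge (leaf 1 493 525) (node 465 (merge (leaf 2 462 466) (node 462 (merge (leaf 3 461 461) (node 430 (merge (leaf 4 398 398) (node 431 (merge (leaf 6 398 399) (node 560 (merge (leaf 4 431 463) (leaf 6 464 592)))))))))))))))) (node 526 (merge (leaf 2 493 525) (node 529 (merge (leaf 3 493 493) (node 561 (merge (leaf 0 526 562) (node 593 (merge (leaf 7 496 625) (node 592 (merge (leaf 5 496 624) (node 465 (merge (leaf 5 464 560) (node 433 (merge (leaf 5 400 401) (node 434 (merge (leaf 6 401 402) (leaf 6 433 466))))))))))))))))))))))))) (merge (node 526 (merge (node 497 (merge (leaf 2 493 525) (node 498 (merge (leaf 1 495 499) (leaf 2 494 529))))) (merge (node 525 (merge (leaf 2 493 497) (node 524 (merge (leaf 2 492 495) (node 492 (merge (leaf 3 491 491) (leaf 3 492 493))))))) (merge (node 525 (merge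 (node 524 (merge (leaf 2 492 495) (node 492 (merge (leaf 3 491 491) (leaf 3 492 493))))) (merge (node 524 (merge (leaf 2 492 495) (node 556 (merge (leaf 1 523 555) (leaf 1 524 557))))) (node 557 (merge (leaf 1 524 556) (node 529 (merge (leaf 1 525 558) (node 493 (merge (leaf 3 492 492) (leaf 3 493 494)))))))))) (node 497 (merge (node 498 (merge (leaf 1 495 499) (leaf 2 494 529))) (merge (node 498 (merge (leaf 1 494 495) (leaf 1 495 499))) (node 494 (merge (node 493 (merge (leaf 3 493 529) (node 492 (merge (leaf 0 491 491) (leaf 0 492 495))))) (merge (node 495 (merge (node 462 (merge (leaf 3 461 461) (node 559 (merge (leaf 4 430 430) (leaf 7 462 591))))) (node 465 (merge (leaf 2 462 466) (node 433 (merge (leaf 5 400 401) (node 560 (merge (leaf 5 432 529) (leaf 6 464 592))))))))) (merge (node 462 (merge (node 559 (merge (leaf 4 430 430) (node 591 (merge (leaf 7 462 495) (leaf 6 495 623))))) (merge (node 559 (merge (leaf 4 430 430) (node 591 (merge (leaf 4 462 558) (leaf 6 495 623))))) (node 461 (merge (leaf 3 461 495) (node 558 (merge (leaf 7 429 429) (node 589 (merge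 (leaf 5 461 557) (node 590 (merge (leaf 7 461 493) (leaf 5 493 621)))))))))))) (node 529 (merge (leaf 3 493 493) (node 561 (merge (leaf 0 526 562) (node 558 (merge (leaf 1 525 557) (node 593 (merge (leaf 7 496 625) (node 594 (merge (leaf 4 497 626) (node 559 (merge (leaf 0 558 560) (node 591 (merge (leaf 4 462 462) (leaf 6 495 623)))))))))))))))))))))))))) (merge (node 526 (merge (node 497 (merge (leaf 2 493 525) (node 498 (merge (leaf 1 495 499) (leaf 2 494 529))))) (merge (node 525 (merge (leaf 2 493 497) (node 524 (merge (leaf 2 492 495) (node 492 (merge (leaf 3 491 491) (leaf 3 492 493))))))) (merge (node 525 (merge (node 524 (merge (leaf 2 492 495) (node 492 (merge (leaf 3 491 491) (leaf 3 492 493))))) (merge (node 524 (merge (leaf 2 492 495) (node 556 (merge (leaf 1 523 555) (leaf 1 524 557))))) (node 557 (merge (leaf 1 524 556) (node 558 (merge (leaf 1 525 529) (node 493 (merge (leaf 3 492 492) (node 590 (merge (leaf 4 461 461) (leaf 7 493 622)))))))))))) (node 558 (merge (node 557 (merge (leaf 1 525 529) (node 556 (merge (leaf 2 523 555) (leaf 2 524 559)))))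 (merge (node 529 (merge (leaf 1 525 557) (node 561 (merge (leaf 0 526 562) (node 497 (merge (leaf 2 494 498) (node 593 (merge (leaf 7 496 625) (node 592 (merge (leaf 5 496 624) (node 465 (merge (leaf 5 464 560) (node 433 (merge (leaf 5 400 401) (node 434 (merge (leaf 6 401 402) (leaf 6 433 466))))))))))))))))) (merge (node 590 (merge (node 622 (merge (leaf 6 494 495) (node 655 (merge (leaf 4 526 623) (node 654 (merge (leaf 6 526 559) (leaf 4 558 687))))))) (merge (node 622 (merge (leaf 6 494 495) (node 654 (merge (leaf 6 526 559) (node 653 (merge (leaf 5 525 621) (leaf 5 557 685))))))) (merge (node 622 (merge (leaf 6 494 495) (node 655 (merge (leaf 4 526 623) (node 654 (merge (leaf 4 558 687) (node 653 (merge (leaf 5 525 621) (leaf 5 557 685))))))))) (merge (node 622 (merge (node 655 (merge (leaf 4 526 623) (node 654 (merge (leaf 6 526 559) (leaf 4 558 687))))) (merge (node 654 (merge (leaf 6 526 559) (node 653 (merge (leaf 5 525 621) (leaf 5 557 685))))) (merge (node 655 (merge (leaf 4 526 623) (node 654 (merge (leaf 4 558 687) (node 653 (merge (leaf 5 525 621) (leaf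 5 557 685))))))) (node 623 (merge (leaf 4 526 655) (node 621 (merge (leaf 5 525 653) (node 591 (merge (leaf 6 495 559) (node 620 (merge (leaf 2 588 592) (leaf 2 587 619))))))))))))) (node 560 (merge (node 495 (merge (node 463 (merge (leaf 4 431 431) (leaf 5 462 559))) (node 497 (merge (leaf 1 494 498) (node 592 (merge (leaf 6 464 465) (leaf 7 495 624))))))) (merge (node 561 (merge (node 562 (merge (leaf 3 526 559) (leaf 3 527 563))) (merge (node 562 (merge (leaf 0 526 529) (leaf 3 527 563))) (node 559 (merge (leaf 1 557 589) (node 593 (merge (leaf 0 558 594) (node 625 (merge (leaf 7 496 529) (leaf 7 528 657)))))))))) (merge (node 592 (merge (node 625 (merge (leaf 4 496 593) (node 624 (merge (leaf 7 495 495) (leaf 4 528 657))))) (merge (node 623 (merge (leaf 5 495 591) (node 624 (merge (leaf 5 527 655) (node 497 (merge (leaf 6 464 465) (leaf 6 496 529))))))) (node 591 (merge (leaf 5 495 623) (node 561 (merge (leaf 2 557 589) (node 562 (merge (leaf 0 526 529) (leaf 1 559 563)))))))))) (node 497 (merge (node 498 (merge (leaf 1 495 499) (leaf 2 494 529))) (node 592 (merge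 (leaf 6 464 465) (node 591 (merge (leaf 5 495 623) (node 589 (merge (leaf 2 557 561) (node 620 (merge (leaf 1 588 621) (node 588 (merge (leaf 2 556 559) (leaf 1 587 619)))))))))))))))))))))) (node 592 (merge (node 560 (merge (node 497 (merge (leaf 6 464 465) (node 498 (merge (leaf 1 494 495) (leaf 1 495 499))))) (node 625 (merge (leaf 4 496 593) (node 624 (merge (leaf 4 528 657) (node 623 (merge (leaf 5 495 591) (leaf 5 527 655))))))))) (merge (node 497 (merge (node 498 (merge (leaf 1 494 495) (leaf 1 495 499))) (node 560 (merge (leaf 6 464 465) (node 593 (merge (leaf 4 496 625) (node 559 (merge (leaf 0 557 557) (node 594 (merge (leaf 0 558 561) (leaf 3 559 595))))))))))) (merge (node 497 (merge (node 498 (merge (leaf 1 494 495) (leaf 1 495 499))) (node 560 (merge (leaf 6 464 465) (node 623 (merge (leaf 5 495 591) (node 624 (merge (leaf 5 527 655) (node 656 (merge (leaf 7 527 559) (node 657 (merge (leaf 4 528 625) (leaf 4 560 689))))))))))))) (merge (node 560 (merge (node 625 (merge (leaf 4 496 593) (node 624 (merge (leaf 4 528 657) (node 623 (merge (leaf 5 495 591)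 (leaf 5 527 655))))))) (merge (node 593 (merge (leaf 4 496 625) (node 559 (merge (leaf 0 557 557) (node 594 (merge (leaf 0 558 561) (leaf 3 559 595))))))) (merge (node 623 (merge (leaf 5 495 591) (node 624 (merge (leaf 5 527 655) (node 656 (merge (leaf 7 527 559) (node 657 (merge (leaf 4 528 625) (leaf 4 560 689))))))))) (node 623 (merge (leaf 5 495 591) (node 624 (merge (leaf 5 527 655) (node 559 (merge (leaf 7 527 656) (node 557 (merge (leaf 2 524 556) (leaf 0 557 593))))))))))))) (merge (node 497 (merge (node 498 (merge (leaf 1 494 495) (leaf 1 495 499))) (node 560 (merge (leaf 6 464 465) (node 593 (merge (leaf 4 496 625) (node 557 (merge (leaf 0 557 559) (node 591 (merge (leaf 3 557 590) (leaf 5 495 623))))))))))) (node 590 (merge (node 622 (merge (leaf 6 494 495) (node 655 (merge (leaf 4 526 623) (node 654 (merge (leaf 6 526 559) (leaf 4 558 687))))))) (merge (node 622 (merge (leaf 6 494 495) (node 654 (merge (leaf 6 526 559) (node 653 (merge (leaf 5 525 621) (leaf 5 557 685))))))) (merge (node 622 (merge (leaf 6 494 495) (node 655 (merge (leaf 4 526 623) (node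 654 (merge (leaf 4 558 687) (node 653 (merge (leaf 5 525 621) (leaf 5 557 685))))))))) (merge (node 622 (merge (node 655 (merge (leaf 4 526 623) (node 654 (merge (leaf 6 526 559) (leaf 4 558 687))))) (merge (node 654 (merge (leaf 6 526 559) (node 653 (merge (leaf 5 525 621) (leaf 5 557 685))))) (merge (node 655 (merge (leaf 4 526 623) (node 654 (merge (leaf 4 558 687) (node 653 (merge (leaf 5 525 621) (leaf 5 557 685))))))) (node 623 (merge (leaf 4 526 655) (node 621 (merge (leaf 5 525 653) (node 591 (merge (leaf 6 495 559) (node 620 (merge (leaf 2 588 592) (leaf 2 587 619))))))))))))) (node 591 (merge (node 557 (merge (leaf 3 557 593) (node 589 (merge (leaf 3 556 556) (node 621 (merge (leaf 1 588 620) (leaf 6 525 653))))))) (node 559 (merge (leaf 6 495 623) (node 495 (merge (leaf 4 495 624) (node 463 (merge (leaf 5 430 431) (leaf 5 462 590)))))))))))))))))))))))))))) (merge (node 526 (merge (node 497 (merge (leaf 2 493 525) (node 498 (merge (leaf 1 495 499) (leaf 2 494 529))))) (merge (node 525 (merge (leaf 2 493 497) (node 524 (merge (leaf 2 492 495) (node 492 (merge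 (leaf 3 491 491) (leaf 3 492 493))))))) (merge (node 525 (merge (node 524 (merge (leaf 2 492 495) (node 492 (merge (leaf 3 491 491) (leaf 3 492 493))))) (merge (node 524 (merge (leaf 2 492 495) (node 556 (merge (leaf 1 523 555) (leaf 1 524 557))))) (node 557 (merge (leaf 1 524 556) (node 529 (merge (leaf 1 525 558) (node 493 (merge (leaf 3 492 492) (leaf 3 493 494)))))))))) (node 558 (merge (node 557 (merge (leaf 1 525 529) (node 556 (merge (leaf 2 523 555) (leaf 2 524 559))))) (merge (node 529 (merge (leaf 1 525 557) (node 561 (merge (leaf 0 526 562) (node 497 (merge (leaf 2 494 498) (node 593 (merge (leaf 7 496 625) (node 592 (merge (leaf 5 496 624) (node 465 (merge (leaf 5 464 560) (node 433 (merge (leaf 5 400 401) (node 434 (merge (leaf 6 401 402) (leaf 6 433 466))))))))))))))))) (merge (node 590 (merge (node 622 (merge (leaf 6 494 495) (node 655 (merge (leaf 4 526 623) (node 654 (merge (leaf 6 526 559) (leaf 4 558 687))))))) (merge (node 622 (merge (leaf 6 494 495) (node 654 (merge (leaf 6 526 559) (node 653 (merge (leaf 5 525 621) (leaf 5 557 685))))))) (merge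 (node 622 (merge (leaf 6 494 495) (node 655 (merge (leaf 4 526 623) (node 654 (merge (leaf 4 558 687) (node 653 (merge (leaf 5 525 621) (leaf 5 557 685))))))))) (merge (node 622 (merge (node 655 (merge (leaf 4 526 623) (node 654 (merge (leaf 6 526 559) (leaf 4 558 687))))) (merge (node 654 (merge (leaf 6 526 559) (node 653 (merge (leaf 5 525 621) (leaf 5 557 685))))) (merge (node 655 (merge (leaf 4 526 623) (node 654 (merge (leaf 4 558 687) (node 653 (merge (leaf 5 525 621) (leaf 5 557 685))))))) (node 623 (merge (leaf 4 526 655) (node 621 (merge (leaf 5 525 653) (node 591 (merge (leaf 6 495 559) (node 620 (merge (leaf 2 588 592) (leaf 2 587 619))))))))))))) (node 560 (merge (node 495 (merge (node 463 (merge (leaf 4 431 431) (leaf 5 462 559))) (node 497 (merge (leaf 1 494 498) (node 592 (merge (leaf 6 464 465) (leaf 7 495 624))))))) (merge (node 561 (merge (node 562 (merge (leaf 3 526 559) (leaf 3 527 563))) (merge (node 562 (merge (leaf 0 526 529) (leaf 3 527 563))) (node 559 (merge (leaf 1 557 589) (node 593 (merge (leaf 0 558 594) (node 625 (merge (leaf 7 496 529)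 (leaf 7 528 657)))))))))) (merge (node 592 (merge (node 625 (merge (leaf 4 496 593) (node 624 (merge (leaf 7 495 495) (leaf 4 528 657))))) (merge (node 623 (merge (leaf 5 495 591) (node 624 (merge (leaf 5 527 655) (node 497 (merge (leaf 6 464 465) (leaf 6 496 529))))))) (node 591 (merge (leaf 5 495 623) (node 561 (merge (leaf 2 557 589) (node 562 (merge (leaf 0 526 529) (leaf 1 559 563)))))))))) (node 497 (merge (node 498 (merge (leaf 1 495 499) (leaf 2 494 529))) (node 592 (merge (leaf 6 464 465) (node 591 (merge (leaf 5 495 623) (node 589 (merge (leaf 2 557 561) (node 620 (merge (leaf 1 588 621) (node 588 (merge (leaf 2 556 559) (leaf 1 587 619)))))))))))))))))))))) (node 592 (merge (node 560 (merge (node 497 (merge (leaf 6 464 465) (node 498 (merge (leaf 1 494 495) (leaf 1 495 499))))) (node 625 (merge (leaf 4 496 593) (node 624 (merge (leaf 4 528 657) (node 623 (merge (leaf 5 495 591) (leaf 5 527 655))))))))) (merge (node 497 (merge (node 498 (merge (leaf 1 494 495) (leaf 1 495 499))) (node 560 (merge (leaf 6 464 465) (node 593 (merge (leaf 4 496 625) (node 559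 (merge (leaf 0 557 557) (node 594 (merge (leaf 0 558 561) (leaf 3 559 595))))))))))) (merge (node 497 (merge (node 498 (merge (leaf 1 494 495) (leaf 1 495 499))) (node 560 (merge (leaf 6 464 465) (node 623 (merge (leaf 5 495 591) (node 624 (merge (leaf 5 527 655) (node 656 (merge (leaf 7 527 559) (node 657 (merge (leaf 4 528 625) (leaf 4 560 689))))))))))))) (merge (node 560 (merge (node 625 (merge (leaf 4 496 593) (node 624 (merge (leaf 4 528 657) (node 623 (merge (leaf 5 495 591) (leaf 5 527 655))))))) (merge (node 593 (merge (leaf 4 496 625) (node 559 (merge (leaf 0 557 557) (node 594 (merge (leaf 0 558 561) (leaf 3 559 595))))))) (merge (node 623 (merge (leaf 5 495 591) (node 624 (merge (leaf 5 527 655) (node 656 (merge (leaf 7 527 559) (node 657 (merge (leaf 4 528 625) (leaf 4 560 689))))))))) (node 623 (merge (leaf 5 495 591) (node 624 (merge (leaf 5 527 655) (node 559 (merge (leaf 7 527 656) (node 557 (merge (leaf 2 524 556) (leaf 0 557 593))))))))))))) (merge (node 497 (merge (node 498 (merge (leaf 1 494 495) (leaf 1 495 499))) (node 560 (merge (leaf 6 464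 465) (node 593 (merge (leaf 4 496 625) (node 557 (merge (leaf 0 557 559) (node 591 (merge (leaf 3 557 590) (leaf 5 495 623))))))))))) (node 590 (merge (node 622 (merge (leaf 6 494 495) (node 655 (merge (leaf 4 526 623) (node 654 (merge (leaf 6 526 559) (leaf 4 558 687))))))) (merge (node 622 (merge (leaf 6 494 495) (node 654 (merge (leaf 6 526 559) (node 653 (merge (leaf 5 525 621) (leaf 5 557 685))))))) (merge (node 622 (merge (leaf 6 494 495) (node 655 (merge (leaf 4 526 623) (node 654 (merge (leaf 4 558 687) (node 653 (merge (leaf 5 525 621) (leaf 5 557 685))))))))) (merge (node 622 (merge (node 655 (merge (leaf 4 526 623) (node 654 (merge (leaf 6 526 559) (leaf 4 558 687))))) (merge (node 654 (merge (leaf 6 526 559) (node 653 (merge (leaf 5 525 621) (leaf 5 557 685))))) (merge (node 655 (merge (leaf 4 526 623) (node 654 (merge (leaf 4 558 687) (node 653 (merge (leaf 5 525 621) (leaf 5 557 685))))))) (node 623 (merge (leaf 4 526 655) (node 621 (merge (leaf 5 525 653) (node 591 (merge (leaf 6 495 559) (node 620 (merge (leaf 2 588 592) (leaf 2 587 619)))))))))))))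 (node 591 (merge (node 557 (merge (leaf 3 557 593) (node 589 (merge (leaf 3 556 556) (node 621 (merge (leaf 1 588 620) (leaf 6 525 653))))))) (node 559 (merge (leaf 6 495 623) (node 495 (merge (leaf 4 495 624) (node 463 (merge (leaf 5 430 431) (leaf 5 462 590)))))))))))))))))))))))))))) (merge (node 495 (merge (node 463 (merge (node 560 (merge (leaf 4 431 431) (leaf 7 463 592))) (merge (node 431 (merge (leaf 4 399 399) (node 526 (merge (leaf 5 430 558) (node 497 (merge (leaf 1 494 498) (leaf 2 493 525))))))) (node 559 (merge (node 592 (merge (leaf 4 463 560) (node 591 (merge (leaf 6 495 623) (leaf 4 495 624))))) (merge (node 591 (merge (leaf 6 495 623) (node 590 (merge (leaf 5 462 558) (leaf 5 494 622))))) (node 560 (merge (leaf 4 463 592) (node 558 (merge (leaf 5 462 590) (node 557 (merge (leaf 2 524 556) (node 525 (merge (leaf 3 524 524) (node 561 (merge (leaf 0 525 526) (node 594 (merge (leaf 0 558 593) (node 562 (merge (leaf 3 527 563) (leaf 0 559 595))))))))))))))))))))) (merge (node 494 (merge (node 493 (merge (leaf 0 492 492) (node 525 (merge (leaf 1 492 524)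 (node 526 (merge (leaf 1 493 497) (node 557 (merge (leaf 1 524 556) (node 589 (merge (leaf 6 461 462) (leaf 6 493 621))))))))))) (merge (node 493 (merge (leaf 0 492 492) (node 525 (merge (leaf 1 492 524) (node 461 (merge (leaf 3 460 460) (node 462 (merge (leaf 3 461 497) (node 430 (merge (leaf 4 398 398) (leaf 6 429 557))))))))))) (merge (node 462 (merge (node 430 (merge (leaf 4 398 398) (node 559 (merge (leaf 4 430 526) (leaf 7 462 591))))) (node 497 (merge (leaf 3 461 461) (node 466 (merge (leaf 2 462 465) (node 498 (merge (leaf 2 463 467) (leaf 1 495 499))))))))) (merge (node 493 (merge (leaf 0 492 492) (node 525 (merge (leaf 1 492 524) (node 497 (merge (leaf 1 493 526) (node 498 (merge (leaf 1 495 499) (node 466 (merge (leaf 2 462 465) (leaf 2 463 467))))))))))) (node 462 (merge (node 430 (merge (leaf 4 398 398) (node 559 (merge (leaf 4 430 526) (leaf 7 462 591))))) (merge (node 493 (merge (leaf 0 492 492) (node 525 (merge (leaf 1 492 524) (node 461 (merge (leaf 3 460 460) (node 557 (merge (leaf 6 429 430) (leaf 6 461 589))))))))) (merge (node 493 (merge (leaf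 0 492 492) (node 525 (merge (leaf 1 492 524) (node 461 (merge (leaf 3 460 460) (node 430 (merge (leaf 4 398 398) (leaf 6 429 557))))))))) (node 493 (merge (leaf 0 492 492) (node 525 (merge (leaf 1 492 524) (node 461 (merge (leaf 3 460 460) (node 557 (merge (leaf 6 461 589) (node 556 (merge (leaf 1 524 526) (leaf 5 460 588)))))))))))))))))))) (merge (node 497 (merge (node 498 (merge (leaf 1 495 499) (leaf 1 494 526))) (merge (node 498 (merge (leaf 1 495 499) (node 463 (merge (leaf 3 462 462) (node 431 (merge (leaf 4 399 399) (leaf 4 431 560))))))) (node 494 (merge (node 493 (merge (leaf 0 492 492) (node 525 (merge (leaf 1 492 524) (leaf 2 493 526))))) (merge (node 493 (merge (leaf 0 492 492) (node 461 (merge (leaf 3 460 460) (leaf 3 461 462))))) (node 526 (merge (leaf 1 493 525) (node 465 (merge (leaf 2 462 466) (node 462 (merge (leaf 3 461 461) (node 430 (merge (leaf 4 398 398) (node 431 (merge (leaf 6 398 399) (node 560 (merge (leaf 4 431 463) (leaf 6 464 592))))))))))))))))))) (merge (node 560 (merge (node 592 (merge (leaf 7 463 463) (leaf 7 495 624))) (merge (node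 559 (merge (node 592 (merge (leaf 7 495 624) (node 593 (merge (leaf 4 496 625) (node 558 (merge (leaf 0 557 557) (node 594 (merge (leaf 0 558 561) (leaf 3 559 595))))))))) (merge (node 591 (merge (leaf 6 495 623) (node 590 (merge (leaf 5 494 622) (node 561 (merge (leaf 1 558 562) (node 589 (merge (leaf 1 557 558) (leaf 2 556 588))))))))) (merge (node 592 (merge (node 624 (merge (leaf 7 527 656) (node 623 (merge (leaf 6 495 591) (leaf 5 527 655))))) (merge (node 624 (merge (leaf 7 527 656) (node 625 (merge (leaf 4 496 593) (leaf 4 528 657))))) (node 593 (merge (leaf 4 496 625) (node 594 (merge (leaf 3 559 595) (node 591 (merge (leaf 3 558 558) (leaf 5 495 623)))))))))) (node 591 (merge (leaf 6 495 623) (node 592 (merge (leaf 4 495 624) (node 590 (merge (leaf 5 494 622) (node 589 (merge (leaf 2 557 561) (leaf 2 556 588))))))))))))) (node 559 (merge (node 591 (merge (leaf 6 495 623) (node 590 (merge (leaf 5 494 622) (node 561 (merge (leaf 1 558 562) (node 589 (merge (leaf 1 557 558) (leaf 2 556 588))))))))) (merge (node 463 (merge (leaf 4 431 431) (node 462 (merge (leaf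 7 430 430) (node 591 (merge (leaf 7 462 494) (node 622 (merge (leaf 5 494 590) (node 623 (merge (leaf 6 495 496) (leaf 5 526 654))))))))))) (merge (node 463 (merge (leaf 4 431 431) (node 558 (merge (leaf 5 462 590) (node 557 (merge (leaf 2 524 556) (node 589 (merge (leaf 1 556 588) (node 525 (merge (leaf 3 524 524) (node 526 (merge (leaf 0 525 561) (node 462 (merge (leaf 7 430 430) (leaf 5 461 494))))))))))))))) (node 591 (merge (leaf 6 495 623) (node 494 (merge (leaf 7 462 462) (node 493 (merge (leaf 0 492 492) (node 525 (merge (leaf 1 492 524) (node 526 (merge (leaf 0 525 561) (node 461 (merge (leaf 3 460 460) (node 429 (merge (leaf 4 397 397) (leaf 4 429 558)))))))))))))))))))))) (node 560 (merge (node 592 (merge (leaf 7 463 463) (leaf 7 495 624))) (merge (node 463 (merge (leaf 4 431 431) (node 462 (merge (node 461 (merge (leaf 0 460 460) (node 497 (merge (leaf 3 461 494) (leaf 3 462 498))))) (node 559 (merge (leaf 7 430 430) (node 591 (merge (leaf 6 495 623) (node 590 (merge (leaf 5 462 558) (leaf 5 494 622))))))))))) (node 559 (merge (node 592 (merge (leaf 7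 495 624) (node 593 (merge (leaf 4 496 625) (node 558 (merge (leaf 0 557 557) (node 594 (merge (leaf 0 558 561) (leaf 3 559 595))))))))) (merge (node 591 (merge (leaf 6 495 623) (node 590 (merge (leaf 5 494 622) (node 561 (merge (leaf 1 558 562) (node 589 (merge (leaf 1 557 558) (leaf 2 556 588))))))))) (merge (node 592 (merge (node 624 (merge (leaf 7 527 656) (node 623 (merge (leaf 6 495 591) (leaf 5 527 655))))) (merge (node 624 (merge (leaf 7 527 656) (node 625 (merge (leaf 4 496 593) (leaf 4 528 657))))) (node 593 (merge (leaf 4 496 625) (node 594 (merge (leaf 3 559 595) (node 591 (merge (leaf 3 558 558) (leaf 5 495 623)))))))))) (node 591 (merge (leaf 6 495 623) (node 592 (merge (leaf 4 495 624) (node 590 (merge (leaf 5 494 622) (node 589 (merge (leaf 2 557 561) (leaf 2 556 588))))))))))))))))))))) (merge (node 526 (merge (node 497 (merge (leaf 2 493 525) (node 498 (merge (leaf 1 495 499) (leaf 2 494 529))))) (merge (node 525 (merge (leaf 2 493 497) (node 524 (merge (leaf 2 492 495) (node 492 (merge (leaf 3 491 491) (leaf 3 492 493))))))) (merge (node 525 (merge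 (node 524 (merge (leaf 2 492 495) (node 492 (merge (leaf 3 491 491) (leaf 3 492 493))))) (merge (node 524 (merge (leaf 2 492 495) (node 556 (merge (leaf 1 523 555) (leaf 1 524 557))))) (node 557 (merge (leaf 1 524 556) (node 529 (merge (leaf 1 525 558) (node 493 (merge (leaf 3 492 492) (leaf 3 493 494)))))))))) (node 560 (merge (node 497 (merge (node 498 (merge (leaf 1 494 495) (leaf 2 494 529))) (merge (node 465 (merge (leaf 6 464 592) (node 433 (merge (leaf 5 400 401) (leaf 5 432 529))))) (node 592 (merge (leaf 6 464 465) (node 495 (merge (leaf 7 463 463) (leaf 1 494 498)))))))) (merge (node 592 (merge (node 497 (merge (leaf 6 464 465) (node 498 (merge (leaf 1 494 495) (leaf 1 495 499))))) (node 625 (merge (leaf 4 496 593) (node 624 (merge (leaf 4 528 657) (node 656 (merge (leaf 7 527 559) (node 655 (merge (leaf 5 527 623) (leaf 5 559 687))))))))))) (merge (node 497 (merge (node 498 (merge (leaf 1 495 499) (leaf 2 494 529))) (node 592 (merge (leaf 6 464 465) (node 625 (merge (leaf 4 496 593) (node 624 (merge (leaf 4 528 657) (node 656 (merge (leaf 7 527 559) (node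 655 (merge (leaf 5 527 623) (leaf 5 559 687))))))))))))) (merge (node 558 (merge (node 557 (merge (leaf 1 525 529) (node 556 (merge (leaf 2 523 555) (leaf 2 524 559))))) (merge (node 495 (merge (node 590 (merge (leaf 6 494 622) (node 463 (merge (leaf 5 430 431) (leaf 6 462 494))))) (node 592 (merge (leaf 7 495 624) (node 593 (merge (leaf 4 496 625) (node 559 (merge (leaf 0 557 557) (node 594 (merge (leaf 0 558 561) (leaf 3 559 595))))))))))) (merge (node 494 (merge (node 529 (merge (leaf 3 493 493) (leaf 1 525 557))) (merge (node 493 (merge (node 492 (merge (leaf 0 491 491) (leaf 0 492 495))) (node 461 (merge (leaf 7 461 590) (node 429 (merge (leaf 4 397 397) (leaf 7 429 462))))))) (node 557 (merge (leaf 1 525 529) (node 462 (merge (leaf 5 461 589) (node 463 (merge (leaf 6 430 431) (node 495 (merge (leaf 6 462 590) (node 461 (merge (leaf 7 429 429) (leaf 0 460 460)))))))))))))) (node 494 (merge (node 493 (merge (leaf 3 493 529) (node 492 (merge (leaf 0 491 491) (leaf 0 492 495))))) (merge (node 493 (merge (leaf 3 493 529) (node 590 (merge (leaf 7 461 461) (node 621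 (merge (leaf 5 493 589) (node 622 (merge (leaf 5 525 653) (node 655 (merge (leaf 4 526 623) (node 654 (merge (leaf 6 526 559) (leaf 4 558 687))))))))))))) (node 590 (merge (node 622 (merge (leaf 6 494 495) (node 621 (merge (leaf 5 493 589) (leaf 5 525 653))))) (merge (node 621 (merge (leaf 5 493 589) (node 622 (merge (leaf 5 525 653) (node 655 (merge (leaf 4 526 623) (node 654 (merge (leaf 6 526 559) (leaf 4 558 687))))))))) (node 463 (merge (leaf 6 462 495) (node 462 (merge (leaf 6 430 431) (node 430 (merge (leaf 4 430 559) (node 429 (merge (leaf 7 397 397) (leaf 7 429 461))))))))))))))))))) (node 529 (merge (node 561 (merge (leaf 0 526 562) (node 558 (merge (leaf 1 525 557) (node 593 (merge (leaf 7 496 625) (node 559 (merge (leaf 0 558 594) (node 590 (merge (leaf 1 557 589) (node 622 (merge (leaf 6 494 495) (leaf 6 526 654))))))))))))) (merge (node 561 (merge (leaf 0 526 562) (node 558 (merge (leaf 1 525 557) (node 497 (merge (leaf 2 494 498) (node 593 (merge (leaf 7 496 625) (node 594 (merge (leaf 0 558 559) (leaf 4 497 626))))))))))) (node 497 (merge (leaf 2 494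 498) (node 494 (merge (leaf 3 493 493) (node 465 (merge (leaf 5 432 433) (node 495 (merge (leaf 2 462 466) (node 462 (merge (leaf 3 461 461) (node 430 (merge (leaf 4 398 398) (node 431 (merge (leaf 6 398 399) (leaf 4 431 463))))))))))))))))))))))))))) (merge (node 526 (merge (node 497 (merge (leaf 2 493 525) (node 498 (merge (leaf 1 495 499) (leaf 2 494 529))))) (merge (node 525 (merge (leaf 2 493 497) (node 524 (merge (leaf 2 492 495) (node 492 (merge (leaf 3 491 491) (leaf 3 492 493))))))) (merge (node 525 (merge (node 524 (merge (leaf 2 492 495) (node 492 (merge (leaf 3 491 491) (leaf 3 492 493))))) (merge (node 524 (merge (leaf 2 492 495) (node 556 (merge (leaf 1 523 555) (leaf 1 524 557))))) (node 557 (merge (leaf 1 524 556) (node 529 (merge (leaf 1 525 558) (node 493 (merge (leaf 3 492 492) (leaf 3 493 494)))))))))) (node 558 (merge (node 529 (merge (leaf 1 525 557) (node 561 (merge (leaf 0 526 562) (node 497 (merge (leaf 2 494 498) (node 593 (merge (leaf 7 496 625) (node 592 (merge (leaf 5 496 624) (node 465 (merge (leaf 5 464 560) (node 433 (merge (leaf 5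 400 401) (node 434 (merge (leaf 6 401 402) (leaf 6 433 466))))))))))))))))) (merge (node 590 (merge (node 495 (merge (leaf 6 494 622) (node 494 (merge (leaf 6 462 463) (node 493 (merge (leaf 7 461 461) (leaf 0 492 492))))))) (merge (node 622 (merge (leaf 6 494 495) (node 655 (merge (leaf 4 526 623) (node 654 (merge (leaf 4 558 687) (node 653 (merge (leaf 5 525 621) (leaf 5 557 685))))))))) (merge (node 529 (merge (leaf 1 525 557) (node 494 (merge (leaf 3 493 493) (node 623 (merge (leaf 4 494 591) (node 622 (merge (leaf 4 526 655) (node 621 (merge (leaf 5 493 589) (leaf 5 525 653))))))))))) (node 557 (merge (leaf 1 525 529) (node 494 (merge (node 589 (merge (leaf 5 461 462) (leaf 5 493 621))) (node 493 (merge (leaf 7 461 461) (node 492 (merge (leaf 0 491 491) (leaf 0 492 495))))))))))))) (merge (node 497 (merge (node 498 (merge (leaf 1 495 499) (leaf 2 494 529))) (merge (node 498 (merge (leaf 1 494 495) (leaf 1 495 499))) (node 494 (merge (node 495 (merge (node 590 (merge (leaf 6 462 463) (leaf 6 494 622))) (node 465 (merge (leaf 2 462 466) (node 433 (merge (leaf 5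 400 401) (node 560 (merge (leaf 5 432 529) (leaf 6 464 592))))))))) (merge (node 529 (merge (leaf 3 493 493) (node 561 (merge (leaf 0 526 562) (node 593 (merge (leaf 7 496 625) (node 592 (merge (leaf 5 496 624) (node 465 (merge (leaf 5 464 560) (node 433 (merge (leaf 5 400 401) (node 434 (merge (leaf 6 401 402) (leaf 6 433 466))))))))))))))) (node 590 (merge (node 493 (merge (leaf 7 461 461) (node 492 (merge (leaf 0 491 491) (leaf 0 492 495))))) (node 623 (merge (leaf 4 494 591) (node 622 (merge (leaf 4 526 655) (node 621 (merge (leaf 5 493 589) (leaf 5 525 653))))))))))))))) (node 590 (merge (node 495 (merge (leaf 6 494 622) (node 494 (merge (leaf 6 462 463) (node 493 (merge (leaf 7 461 461) (leaf 0 492 492))))))) (merge (node 622 (merge (leaf 6 494 495) (node 655 (merge (leaf 4 526 623) (node 654 (merge (leaf 4 558 687) (node 653 (merge (leaf 5 525 621) (leaf 5 557 685))))))))) (merge (node 494 (merge (node 493 (merge (leaf 7 461 461) (node 492 (merge (leaf 0 491 491) (leaf 0 492 495))))) (merge (node 463 (merge (leaf 6 462 495) (node 462 (merge (leaf 6 430 431)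 (node 589 (merge (leaf 5 461 557) (leaf 5 493 621))))))) (node 589 (merge (leaf 5 493 621) (node 462 (merge (leaf 5 461 557) (node 461 (merge (leaf 7 429 429) (leaf 7 461 493)))))))))) (node 623 (merge (node 494 (merge (leaf 4 494 591) (node 589 (merge (leaf 5 493 621) (node 462 (merge (leaf 5 461 557) (node 461 (merge (leaf 7 429 429) (leaf 7 461 493))))))))) (merge (node 622 (merge (leaf 4 526 655) (node 621 (merge (leaf 5 525 653) (node 589 (merge (leaf 5 493 494) (node 624 (merge (leaf 3 588 588) (leaf 3 589 625))))))))) (node 655 (merge (leaf 4 526 622) (node 591 (merge (leaf 7 558 687) (node 592 (merge (leaf 5 495 560) (node 593 (merge (leaf 3 557 557) (node 626 (merge (leaf 0 590 625) (node 594 (merge (leaf 0 591 627) (node 562 (merge (leaf 2 558 561) (leaf 2 559 563)))))))))))))))))))))))))))))) (merge (hyp 0) (merge (node 497 (merge (node 526 (merge (leaf 2 493 525) (node 498 (merge (leaf 1 495 499) (leaf 2 494 529))))) (merge (node 526 (merge (leaf 2 493 525) (node 498 (merge (leaf 1 494 495) (leaf 1 495 499))))) (merge (node 498 (merge (node 499 (merge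 (leaf 1 495 527) (node 532 (merge (leaf 0 496 531) (node 500 (merge (leaf 1 496 529) (leaf 0 497 533))))))) (merge (node 499 (merge (node 468 (merge (leaf 2 464 467) (node 500 (merge (leaf 2 465 469) (leaf 1 496 529))))) (merge (node 532 (merge (leaf 0 496 531) (node 500 (merge (leaf 1 496 529) (leaf 0 497 533))))) (node 531 (merge (leaf 0 496 532) (node 467 (merge (leaf 2 464 468) (node 466 (merge (leaf 2 463 495) (node 563 (merge (leaf 7 434 434) (leaf 7 466 595)))))))))))) (merge (node 499 (merge (leaf 1 495 527) (node 531 (merge (leaf 0 496 532) (node 467 (merge (leaf 2 464 468) (node 466 (merge (leaf 2 463 495) (node 563 (merge (leaf 7 434 434) (leaf 7 466 595))))))))))) (node 495 (merge (node 463 (merge (leaf 3 462 462) (node 431 (merge (leaf 4 399 399) (node 560 (merge (leaf 4 431 527) (leaf 7 463 592))))))) (merge (node 466 (merge (leaf 2 463 467) (node 494 (merge (leaf 2 462 465) (node 462 (merge (leaf 3 461 461) (leaf 3 462 463))))))) (node 466 (merge (leaf 2 463 467) (node 465 (merge (leaf 2 462 494) (node 433 (merge (leaf 5 400 401) (node 560 (merge (leaf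 5 432 529) (leaf 6 464 592)))))))))))))))) (node 529 (merge (node 526 (merge (leaf 2 493 525) (node 561 (merge (leaf 0 526 562) (node 593 (merge (leaf 7 496 625) (node 592 (merge (leaf 5 496 624) (node 465 (merge (leaf 5 464 560) (node 433 (merge (leaf 5 400 401) (node 434 (merge (leaf 6 401 402) (leaf 6 433 466))))))))))))))) (merge (node 465 (merge (node 433 (merge (leaf 5 400 401) (leaf 5 432 560))) (node 526 (merge (leaf 2 493 525) (node 561 (merge (leaf 0 526 562) (node 558 (merge (leaf 1 525 557) (node 466 (merge (leaf 6 433 434) (node 495 (merge (leaf 2 462 494) (node 463 (merge (leaf 5 430 431) (node 590 (merge (leaf 5 462 559) (leaf 6 494 622))))))))))))))))) (merge (node 526 (merge (leaf 2 493 525) (node 561 (merge (leaf 0 526 562) (node 558 (merge (leaf 1 525 557) (node 593 (merge (leaf 7 496 625) (node 594 (merge (leaf 4 497 626) (node 592 (merge (leaf 5 496 624) (node 591 (merge (leaf 3 558 559) (node 622 (merge (leaf 1 590 623) (node 590 (merge (leaf 6 494 495) (leaf 1 589 621))))))))))))))))))) (merge (node 561 (merge (node 593 (merge (leaf 7 496 625)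 (node 594 (merge (leaf 4 497 626) (node 465 (merge (leaf 4 465 562) (node 433 (merge (leaf 5 400 401) (leaf 5 432 560))))))))) (merge (node 593 (merge (leaf 7 496 625) (node 592 (merge (leaf 5 496 624) (node 560 (merge (leaf 5 464 465) (node 591 (merge (leaf 5 495 623) (node 590 (merge (leaf 2 558 562) (leaf 2 557 589))))))))))) (merge (node 593 (merge (leaf 7 496 625) (node 594 (merge (leaf 4 497 626) (node 562 (merge (leaf 4 465 465) (node 592 (merge (leaf 5 496 624) (node 591 (merge (leaf 2 559 563) (leaf 2 558 590))))))))))) (merge (node 560 (merge (node 592 (merge (leaf 5 464 465) (leaf 6 496 624))) (merge (node 465 (merge (leaf 5 432 433) (node 562 (merge (leaf 4 465 594) (node 563 (merge (leaf 3 527 527) (leaf 3 528 564))))))) (node 592 (merge (leaf 6 496 624) (node 591 (merge (leaf 5 495 623) (node 562 (merge (leaf 1 559 563) (node 590 (merge (leaf 1 558 559) (leaf 2 557 589)))))))))))) (merge (node 593 (merge (leaf 7 496 625) (node 594 (merge (leaf 4 497 626) (node 592 (merge (leaf 5 496 624) (node 560 (merge (leaf 5 464 465) (node 595 (merge (leaf 3 559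 559) (leaf 3 560 596))))))))))) (node 560 (merge (node 593 (merge (leaf 7 496 625) (node 594 (merge (leaf 4 497 626) (node 559 (merge (leaf 0 558 558) (node 595 (merge (leaf 3 559 592) (leaf 3 560 596))))))))) (merge (node 592 (merge (leaf 6 496 624) (node 591 (merge (leaf 5 495 623) (node 562 (merge (leaf 1 559 563) (node 590 (merge (leaf 1 558 559) (leaf 2 557 589))))))))) (merge (node 593 (merge (leaf 7 496 625) (node 594 (merge (leaf 4 497 626) (node 559 (merge (leaf 0 558 558) (node 595 (merge (leaf 0 559 562) (leaf 3 560 596))))))))) (node 592 (merge (leaf 6 496 624) (node 593 (merge (leaf 4 496 625) (node 591 (merge (leaf 5 495 623) (node 562 (merge (leaf 1 559 563) (leaf 2 558 590))))))))))))))))))) (node 495 (merge (node 526 (merge (leaf 2 493 525) (node 558 (merge (leaf 1 525 557) (node 463 (merge (leaf 5 430 431) (node 590 (merge (leaf 6 462 494) (leaf 6 494 622))))))))) (merge (node 526 (merge (leaf 2 493 525) (node 494 (merge (node 462 (merge (leaf 3 461 461) (node 559 (merge (leaf 4 430 430) (leaf 7 462 591))))) (node 465 (merge (leaf 2 462 466) (node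 433 (merge (leaf 5 400 401) (node 560 (merge (leaf 5 432 529) (leaf 6 464 592))))))))))) (node 463 (merge (node 560 (merge (leaf 4 431 431) (leaf 7 463 592))) (merge (node 559 (merge (node 560 (merge (leaf 4 463 592) (node 558 (merge (leaf 2 525 557) (leaf 5 462 590))))) (merge (node 592 (merge (leaf 4 463 560) (node 591 (merge (leaf 6 495 623) (leaf 4 495 624))))) (node 591 (merge (leaf 6 495 623) (node 590 (merge (leaf 5 462 558) (leaf 5 494 622)))))))) (node 431 (merge (leaf 4 399 399) (node 432 (merge (leaf 6 399 400) (node 430 (merge (leaf 7 398 398) (node 462 (merge (leaf 7 430 559) (node 461 (merge (leaf 1 429 433) (leaf 0 460 460)))))))))))))))))))))))))) (merge (hyp 1) (merge (node 495 (merge (node 497 (merge (node 498 (merge (leaf 1 495 499) (leaf 1 494 526))) (node 559 (merge (node 591 (merge (leaf 6 495 623) (node 592 (merge (leaf 4 495 624) (node 560 (merge (leaf 4 463 463) (leaf 6 464 465))))))) (merge (node 591 (merge (leaf 6 495 623) (node 590 (merge (leaf 5 494 622) (node 463 (merge (leaf 5 462 558) (node 431 (merge (leaf 4 399 399) (leaf 4 431 560)))))))))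 (merge (node 560 (merge (node 592 (merge (leaf 6 464 465) (leaf 7 495 624))) (node 463 (merge (leaf 4 431 431) (node 558 (merge (leaf 5 462 590) (node 557 (merge (leaf 2 525 529) (leaf 2 524 556))))))))) (merge (node 591 (merge (leaf 6 495 623) (node 592 (merge (leaf 4 495 624) (node 590 (merge (leaf 5 494 622) (node 558 (merge (leaf 5 462 463) (node 557 (merge (leaf 0 556 556) (leaf 3 557 593))))))))))) (node 591 (merge (leaf 6 495 623) (node 592 (merge (leaf 4 495 624) (node 590 (merge (leaf 5 494 622) (node 560 (merge (leaf 6 464 465) (node 589 (merge (leaf 2 557 561) (leaf 2 556 588)))))))))))))))))) (merge (node 559 (merge (node 591 (merge (leaf 6 495 623) (node 494 (merge (leaf 7 462 462) (node 493 (merge (leaf 0 492 492) (leaf 0 493 529))))))) (merge (node 591 (merge (leaf 6 495 623) (node 590 (merge (leaf 5 494 622) (node 463 (merge (leaf 5 462 558) (node 431 (merge (leaf 4 399 399) (leaf 4 431 560))))))))) (node 558 (merge (node 463 (merge (leaf 5 462 590) (node 431 (merge (leaf 4 399 399) (node 430 (merge (leaf 7 398 398) (leaf 7 430 462))))))) (merge (node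 557 (merge (leaf 2 524 556) (node 560 (merge (leaf 2 525 529) (node 592 (merge (leaf 4 463 463) (leaf 0 557 593))))))) (node 557 (merge (leaf 2 524 556) (node 560 (merge (leaf 2 525 529) (node 592 (merge (leaf 0 557 593) (leaf 7 495 624))))))))))))) (merge (node 560 (merge (node 592 (merge (leaf 7 463 463) (leaf 7 495 624))) (merge (node 592 (merge (leaf 7 495 624) (node 497 (merge (leaf 6 464 465) (node 498 (merge (leaf 1 495 499) (leaf 1 494 526))))))) (node 463 (merge (leaf 4 431 431) (node 462 (merge (node 461 (merge (leaf 0 460 460) (node 497 (merge (leaf 3 461 494) (leaf 3 462 498))))) (node 559 (merge (leaf 7 430 430) (node 591 (merge (leaf 6 495 623) (node 590 (merge (leaf 5 462 558) (leaf 5 494 622)))))))))))))) (merge (node 497 (merge (node 498 (merge (leaf 1 495 499) (leaf 1 494 526))) (merge (node 494 (merge (node 493 (merge (leaf 0 492 492) (leaf 0 493 529))) (node 462 (merge (leaf 3 461 461) (node 430 (merge (leaf 4 398 398) (node 559 (merge (leaf 4 430 526) (leaf 7 462 591))))))))) (node 498 (merge (leaf 1 495 499) (node 466 (merge (leaf 2 463 467)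 (node 494 (merge (leaf 2 462 465) (node 493 (merge (leaf 0 492 492) (leaf 0 493 529)))))))))))) (node 494 (merge (node 493 (merge (leaf 0 493 529) (node 492 (merge (leaf 0 492 527) (node 460 (merge (leaf 3 459 459) (leaf 3 460 461))))))) (merge (node 497 (merge (node 465 (merge (leaf 2 462 466) (node 560 (merge (leaf 6 464 592) (node 433 (merge (leaf 5 400 401) (leaf 5 432 529))))))) (merge (node 466 (merge (leaf 2 462 465) (node 498 (merge (leaf 2 463 467) (node 462 (merge (leaf 3 461 461) (leaf 3 462 463))))))) (node 463 (merge (node 462 (merge (leaf 3 462 498) (node 461 (merge (leaf 0 460 460) (leaf 3 461 494))))) (node 431 (merge (leaf 4 399 399) (node 560 (merge (leaf 4 431 527) (leaf 7 463 592)))))))))) (merge (node 461 (merge (node 493 (merge (leaf 3 460 460) (leaf 0 493 529))) (merge (node 462 (merge (leaf 3 461 497) (node 460 (merge (leaf 0 459 459) (leaf 0 460 463))))) (node 497 (merge (leaf 3 461 462) (node 465 (merge (leaf 2 462 466) (node 433 (merge (leaf 5 400 401) (node 560 (merge (leaf 5 432 529) (leaf 6 464 592)))))))))))) (merge (node 493 (merge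 (leaf 0 493 529) (node 492 (merge (leaf 0 492 527) (node 523 (merge (leaf 1 491 524) (node 491 (merge (leaf 1 490 522) (node 459 (merge (leaf 3 458 458) (leaf 3 459 460))))))))))) (merge (node 493 (merge (leaf 0 493 529) (node 492 (merge (leaf 0 492 527) (node 523 (merge (leaf 1 491 524) (node 491 (merge (leaf 1 490 522) (node 462 (merge (leaf 2 459 463) (node 461 (merge (leaf 2 458 490) (leaf 3 461 497))))))))))))) (node 493 (merge (node 461 (merge (leaf 3 460 460) (node 497 (merge (leaf 3 461 462) (node 466 (merge (leaf 2 462 465) (node 498 (merge (leaf 2 463 467) (node 527 (merge (leaf 1 495 499) (leaf 1 494 526))))))))))) (merge (node 492 (merge (leaf 0 492 527) (node 523 (merge (leaf 1 491 524) (node 491 (merge (leaf 1 490 522) (node 459 (merge (leaf 3 458 458) (leaf 3 459 460))))))))) (merge (node 492 (merge (leaf 0 492 527) (node 523 (merge (leaf 1 491 524) (node 491 (merge (leaf 1 490 522) (node 462 (merge (leaf 2 459 463) (node 461 (merge (leaf 2 458 490) (leaf 3 461 497))))))))))) (node 492 (merge (node 460 (merge (leaf 3 459 459) (leaf 3 460 461))) (merge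 (node 523 (merge (leaf 1 491 524) (node 491 (merge (leaf 1 490 522) (node 459 (merge (leaf 3 458 458) (leaf 3 459 460))))))) (merge (node 523 (merge (leaf 1 491 524) (node 491 (merge (leaf 1 490 522) (node 462 (merge (leaf 2 459 463) (node 461 (merge (leaf 2 458 490) (leaf 3 461 497))))))))) (node 461 (merge (leaf 3 460 460) (node 462 (merge (leaf 3 461 497) (node 491 (merge (leaf 2 459 463) (leaf 2 458 490)))))))))))))))))))))))))) (node 526 (merge (node 497 (merge (leaf 2 493 525) (node 498 (merge (leaf 1 495 499) (leaf 2 494 529))))) (merge (node 525 (merge (leaf 2 493 497) (node 560 (merge (leaf 0 525 561) (node 524 (merge (leaf 0 524 559) (node 492 (merge (leaf 3 491 491) (leaf 3 492 493))))))))) (merge (node 561 (merge (node 562 (merge (leaf 0 526 529) (node 560 (merge (leaf 3 526 559) (leaf 3 527 563))))) (merge (node 529 (merge (leaf 0 526 562) (node 557 (merge (leaf 1 525 558) (node 525 (merge (leaf 1 524 556) (node 493 (merge (leaf 3 492 492) (leaf 3 493 494))))))))) (node 525 (merge (leaf 0 525 560) (node 556 (merge (leaf 1 524 557) (node 524 (merge (leaf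 1 523 555) (node 492 (merge (leaf 3 491 491) (leaf 3 492 493)))))))))))) (hyp 2)))))))))))))))))) nA_15 cA_15 13 (by decide +kernel)
def nA_16 : ℕ := 0x1000000018000000000000000000000000000000000000000000000000000000000000000000000000000000000000000000000000000000000000000000000000000
def cA_16 : ℕ := 0x80000001e0000003e0000006f8000002f000000070000007f0000007f0000003e000000000000000000000000000000000000000000000000000000000000000000000000000000000000000000000000000
theorem lA_16 : S nA_16 cA_16 11 := S_of_chk [] trivial (node 527 (merge (node 559 (merge (node 591 (merge (leaf 6 463 464) (leaf 6 495 623))) (merge (node 591 (merge (leaf 6 495 623) (node 494 (merge (leaf 7 462 462) (node 493 (merge (leaf 0 492 492) (leaf 0 493 529))))))) (node 463 (merge (node 431 (merge (leaf 4 399 399) (node 432 (merge (leaf 6 399 400) (leaf 6 431 464))))) (merge (node 431 (merge (leaf 4 399 399) (node 430 (merge (leaf 7 398 398) (leaf 7 430 462))))) (node 464 (merge (leaf 5 431 432) (node 462 (merge (leaf 7 430 430) (node 461 (merge (leaf 0 460 460) (node 493 (merge (leaf 1 460 492)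 (node 494 (merge (leaf 1 461 465) (leaf 0 493 529))))))))))))))))) (merge (node 526 (merge (node 558 (merge (node 557 (merge (leaf 1 525 529) (node 556 (merge (leaf 2 523 555) (leaf 2 524 559))))) (merge (node 590 (merge (leaf 6 494 622) (node 463 (merge (leaf 5 430 431) (leaf 5 462 559))))) (node 557 (merge (leaf 1 525 529) (node 556 (merge (leaf 1 524 525) (leaf 2 523 555)))))))) (merge (node 558 (merge (node 557 (merge (leaf 1 525 529) (node 556 (merge (leaf 2 523 555) (leaf 2 524 559))))) (merge (node 463 (merge (leaf 5 430 431) (node 590 (merge (leaf 6 462 494) (leaf 5 462 559))))) (node 529 (merge (leaf 1 525 557) (node 494 (merge (leaf 3 493 493) (node 463 (merge (leaf 5 430 431) (leaf 6 462 590)))))))))) (merge (node 525 (merge (leaf 2 492 524) (node 493 (merge (leaf 3 492 492) (node 494 (merge (leaf 0 493 529) (node 461 (merge (leaf 3 460 460) (node 558 (merge (leaf 4 429 429) (leaf 7 461 590))))))))))) (merge (node 558 (merge (node 590 (merge (leaf 6 494 622) (node 463 (merge (leaf 5 430 431) (leaf 5 462 559))))) (merge (node 525 (merge (leaf 2 492 524)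 (node 493 (merge (leaf 3 492 492) (node 461 (merge (leaf 4 429 429) (node 590 (merge (leaf 4 461 557) (leaf 6 494 622))))))))) (node 525 (merge (leaf 2 492 524) (node 557 (merge (leaf 1 524 556) (node 493 (merge (leaf 3 492 492) (node 461 (merge (leaf 4 429 429) (node 463 (merge (leaf 5 430 431) (node 460 (merge (leaf 7 428 428) (leaf 0 460 462)))))))))))))))) (node 525 (merge (leaf 2 492 524) (node 557 (merge (leaf 1 524 556) (node 493 (merge (leaf 3 492 492) (node 494 (merge (leaf 0 493 529) (node 589 (merge (leaf 6 461 462) (leaf 6 493 621)))))))))))))))) (merge (node 526 (merge (node 525 (merge (leaf 2 492 524) (node 557 (merge (leaf 1 524 556) (node 529 (merge (leaf 1 525 558) (node 493 (merge (leaf 3 492 492) (leaf 0 493 494))))))))) (merge (node 558 (merge (node 557 (merge (leaf 1 525 529) (node 556 (merge (leaf 2 523 555) (leaf 2 524 559))))) (merge (node 590 (merge (leaf 6 494 622) (node 463 (merge (leaf 5 430 431) (leaf 5 462 559))))) (node 557 (merge (leaf 1 525 529) (node 556 (merge (leaf 1 524 525) (leaf 2 523 555)))))))) (merge (node 558 (merge (node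 557 (merge (leaf 1 525 529) (node 556 (merge (leaf 2 523 555) (leaf 2 524 559))))) (merge (node 463 (merge (leaf 5 430 431) (node 590 (merge (leaf 6 462 494) (leaf 5 462 559))))) (node 529 (merge (leaf 1 525 557) (node 494 (merge (leaf 3 493 493) (node 463 (merge (leaf 5 430 431) (leaf 6 462 590)))))))))) (merge (node 525 (merge (leaf 2 492 524) (node 493 (merge (leaf 3 492 492) (node 494 (merge (leaf 0 493 529) (node 464 (merge (leaf 2 461 465) (node 559 (merge (leaf 5 431 432) (leaf 6 463 591))))))))))) (node 558 (merge (node 590 (merge (leaf 6 494 622) (node 559 (merge (leaf 5 462 463) (node 591 (merge (leaf 6 463 464) (leaf 6 495 623))))))) (merge (node 525 (merge (leaf 2 492 524) (node 493 (merge (leaf 3 492 492) (node 461 (merge (leaf 4 429 429) (node 590 (merge (leaf 4 461 557) (leaf 6 494 622))))))))) (node 525 (merge (leaf 2 492 524) (node 493 (merge (leaf 3 492 492) (node 461 (merge (leaf 4 429 429) (node 494 (merge (leaf 3 460 460) (node 464 (merge (leaf 2 461 465) (node 432 (merge (leaf 5 399 400) (leaf 5 431 559))))))))))))))))))))) (merge (node 463 (merge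 (node 431 (merge (leaf 4 399 399) (node 432 (merge (leaf 6 399 400) (node 559 (merge (leaf 6 431 464) (node 430 (merge (leaf 7 398 398) (leaf 7 430 462))))))))) (merge (node 431 (merge (leaf 4 399 399) (node 558 (merge (leaf 5 430 526) (node 430 (merge (leaf 7 398 398) (node 559 (merge (leaf 7 430 462) (leaf 5 462 590))))))))) (merge (node 431 (merge (leaf 4 399 399) (node 558 (merge (leaf 5 430 526) (node 559 (merge (leaf 5 462 590) (node 432 (merge (leaf 6 399 400) (leaf 5 431 464))))))))) (merge (node 431 (merge (leaf 4 399 399) (node 526 (merge (leaf 5 430 558) (node 525 (merge (leaf 2 492 524) (node 493 (merge (leaf 3 492 492) (node 529 (merge (leaf 0 493 494) (node 561 (merge (leaf 0 526 562) (node 432 (merge (leaf 6 399 400) (leaf 4 432 464))))))))))))))) (node 559 (merge (node 591 (merge (leaf 6 495 623) (node 590 (merge (leaf 5 462 558) (leaf 5 494 622))))) (merge (node 462 (merge (leaf 7 430 430) (node 494 (merge (leaf 7 462 591) (node 493 (merge (leaf 0 492 492) (leaf 0 493 529))))))) (node 464 (merge (leaf 5 431 432) (node 558 (merge (leaf 5 462 590) (node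 557 (merge (leaf 2 524 556) (node 526 (merge (leaf 1 525 529) (node 462 (merge (leaf 7 430 430) (node 494 (merge (leaf 5 461 589) (node 493 (merge (leaf 1 461 465) (leaf 0 492 492))))))))))))))))))))))) (merge (node 463 (merge (node 431 (merge (leaf 4 399 399) (node 432 (merge (leaf 6 399 400) (node 559 (merge (leaf 6 431 464) (node 430 (merge (leaf 7 398 398) (leaf 7 430 462))))))))) (merge (node 431 (merge (leaf 4 399 399) (node 558 (merge (leaf 5 430 526) (node 430 (merge (leaf 7 398 398) (node 559 (merge (leaf 7 430 462) (leaf 5 462 590))))))))) (merge (node 431 (merge (leaf 4 399 399) (node 558 (merge (leaf 5 430 526) (node 559 (merge (leaf 5 462 590) (node 432 (merge (leaf 6 399 400) (leaf 5 431 464))))))))) (merge (node 431 (merge (leaf 4 399 399) (node 526 (merge (leaf 5 430 558) (node 525 (merge (leaf 2 492 524) (node 557 (merge (leaf 1 524 556) (node 432 (merge (leaf 6 399 400) (node 430 (merge (leaf 7 398 398) (node 462 (merge (leaf 5 429 494) (node 461 (merge (leaf 1 429 433) (leaf 0 460 460))))))))))))))))) (node 559 (merge (node 591 (merge (leaf 6 495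 623) (node 590 (merge (leaf 5 462 558) (leaf 5 494 622))))) (merge (node 591 (merge (leaf 6 463 464) (leaf 6 495 623))) (node 464 (merge (leaf 5 431 432) (node 558 (merge (leaf 5 462 590) (node 557 (merge (leaf 2 524 556) (node 526 (merge (leaf 1 525 529) (node 462 (merge (leaf 7 430 430) (node 461 (merge (leaf 0 460 460) (node 429 (merge (leaf 3 428 428) (leaf 7 429 494))))))))))))))))))))))) (merge (node 463 (merge (node 431 (merge (leaf 4 399 399) (node 432 (merge (leaf 6 399 400) (node 559 (merge (leaf 6 431 464) (node 430 (merge (leaf 7 398 398) (leaf 7 430 462))))))))) (merge (node 431 (merge (leaf 4 399 399) (node 558 (merge (leaf 5 430 526) (node 430 (merge (leaf 7 398 398) (node 559 (merge (leaf 7 430 462) (leaf 5 462 590))))))))) (merge (node 431 (merge (leaf 4 399 399) (node 558 (merge (leaf 5 430 526) (node 559 (merge (leaf 5 462 590) (node 432 (merge (leaf 6 399 400) (leaf 5 431 464))))))))) (merge (node 431 (merge (leaf 4 399 399) (node 526 (merge (leaf 5 430 558) (node 525 (merge (leaf 2 492 524) (node 557 (merge (leaf 1 524 556) (node 432 (merge (leaf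 6 399 400) (node 430 (merge (leaf 7 398 398) (node 462 (merge (leaf 5 429 494) (node 461 (merge (leaf 1 429 433) (leaf 0 460 460))))))))))))))))) (node 559 (merge (node 591 (merge (leaf 6 495 623) (node 590 (merge (leaf 5 462 558) (leaf 5 494 622))))) (merge (node 591 (merge (leaf 6 463 464) (leaf 6 495 623))) (node 464 (merge (leaf 5 431 432) (node 558 (merge (leaf 5 462 590) (node 462 (merge (leaf 7 430 430) (node 461 (merge (leaf 0 460 460) (node 429 (merge (leaf 3 428 428) (node 526 (merge (leaf 7 429 494) (node 525 (merge (leaf 4 429 493) (leaf 2 492 524))))))))))))))))))))))) (merge (node 559 (merge (node 591 (merge (leaf 6 463 464) (leaf 6 495 623))) (node 463 (merge (node 431 (merge (leaf 4 399 399) (node 430 (merge (leaf 7 398 398) (leaf 7 430 462))))) (merge (node 431 (merge (leaf 4 399 399) (node 558 (merge (leaf 5 430 526) (leaf 5 462 590))))) (node 558 (merge (leaf 5 462 590) (node 557 (merge (leaf 2 524 556) (node 526 (merge (leaf 1 525 529) (node 525 (merge (leaf 2 492 524) (node 493 (merge (leaf 3 492 492) (node 461 (merge (leaf 4 429 429) (node 462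 (merge (leaf 6 429 430) (leaf 0 460 460)))))))))))))))))))) (merge (node 526 (merge (node 525 (merge (leaf 2 492 524) (node 493 (merge (leaf 3 492 492) (node 494 (merge (leaf 0 493 529) (node 464 (merge (leaf 2 461 465) (node 559 (merge (leaf 5 431 432) (leaf 6 463 591))))))))))) (merge (node 525 (merge (leaf 2 492 524) (node 557 (merge (leaf 1 524 556) (node 558 (merge (leaf 1 525 529) (node 493 (merge (leaf 3 492 492) (node 461 (merge (leaf 4 429 429) (leaf 4 461 590))))))))))) (merge (node 591 (merge (node 559 (merge (leaf 6 463 464) (leaf 6 495 623))) (merge (node 525 (merge (leaf 2 492 524) (node 557 (merge (leaf 1 524 556) (node 558 (merge (leaf 1 525 529) (node 590 (merge (leaf 6 494 622) (node 494 (merge (leaf 4 494 623) (node 589 (merge (leaf 5 461 462) (leaf 5 493 621))))))))))))) (node 525 (merge (leaf 2 492 524) (node 557 (merge (leaf 1 524 556) (node 558 (merge (leaf 1 525 529) (node 559 (merge (leaf 6 463 464) (node 592 (merge (leaf 4 495 624) (node 590 (merge (leaf 3 557 593) (leaf 5 494 622)))))))))))))))) (merge (node 464 (merge (node 559 (merge (leaf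 5 431 432) (leaf 6 463 591))) (merge (node 525 (merge (leaf 2 492 524) (node 557 (merge (leaf 1 524 556) (node 493 (merge (leaf 3 492 492) (node 494 (merge (leaf 2 461 465) (node 589 (merge (leaf 6 461 462) (leaf 6 493 621))))))))))) (node 525 (merge (leaf 2 492 524) (node 557 (merge (leaf 1 524 556) (node 493 (merge (leaf 3 492 492) (node 494 (merge (leaf 2 461 465) (node 589 (merge (leaf 6 461 462) (leaf 6 493 621)))))))))))))) (node 494 (merge (node 493 (merge (leaf 0 492 492) (leaf 3 493 529))) (merge (node 493 (merge (leaf 0 492 492) (node 464 (merge (leaf 2 461 465) (node 559 (merge (leaf 5 431 432) (leaf 6 463 591))))))) (node 558 (merge (node 557 (merge (leaf 1 525 529) (node 556 (merge (leaf 2 523 555) (leaf 2 524 559))))) (merge (node 590 (merge (leaf 6 494 622) (node 591 (merge (leaf 4 494 623) (node 559 (merge (leaf 4 462 462) (leaf 6 463 464))))))) (node 557 (merge (leaf 1 525 529) (node 462 (merge (leaf 5 461 589) (node 430 (merge (leaf 4 398 398) (node 429 (merge (leaf 7 397 397) (leaf 7 429 461)))))))))))))))))))) (node 526 (merge (node 525 (merge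 (leaf 2 492 524) (node 493 (merge (leaf 3 492 492) (node 494 (merge (leaf 0 493 529) (node 461 (merge (leaf 3 460 460) (node 429 (merge (leaf 4 397 397) (leaf 4 429 558))))))))))) (merge (node 525 (merge (leaf 2 492 524) (node 557 (merge (leaf 1 524 556) (node 558 (merge (leaf 1 525 529) (node 493 (merge (leaf 3 492 492) (node 461 (merge (leaf 4 429 429) (leaf 4 461 590))))))))))) (merge (node 525 (merge (leaf 2 492 524) (node 557 (merge (leaf 1 524 556) (node 558 (merge (leaf 1 525 529) (node 590 (merge (leaf 6 494 622) (node 494 (merge (leaf 6 462 463) (node 589 (merge (leaf 5 461 462) (leaf 5 493 621))))))))))))) (merge (node 525 (merge (leaf 2 492 524) (node 557 (merge (leaf 1 524 556) (node 493 (merge (leaf 3 492 492) (node 494 (merge (leaf 0 493 529) (node 589 (merge (leaf 6 461 462) (leaf 6 493 621))))))))))) (merge (node 494 (merge (node 493 (merge (leaf 0 492 492) (leaf 3 493 529))) (merge (node 493 (merge (node 492 (merge (leaf 0 492 527) (node 464 (merge (leaf 2 460 463) (leaf 2 461 465))))) (node 461 (merge (leaf 3 460 460) (node 429 (merge (leaf 4 397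 397) (node 558 (merge (leaf 7 429 462) (leaf 7 461 590))))))))) (node 558 (merge (node 590 (merge (leaf 6 462 463) (node 623 (merge (leaf 4 494 591) (node 622 (merge (leaf 6 494 527) (leaf 4 526 655))))))) (merge (node 557 (merge (leaf 1 525 529) (node 462 (merge (leaf 5 461 589) (node 430 (merge (leaf 4 398 398) (node 429 (merge (leaf 7 397 397) (leaf 7 429 461))))))))) (node 557 (merge (leaf 1 525 529) (node 431 (merge (leaf 5 430 463) (node 462 (merge (leaf 5 461 589) (node 430 (merge (leaf 4 398 398) (leaf 6 398 399))))))))))))))) (node 464 (merge (node 432 (merge (leaf 5 399 400) (node 431 (merge (leaf 7 399 399) (node 463 (merge (leaf 5 430 558) (node 430 (merge (leaf 7 398 398) (node 465 (merge (leaf 0 429 429) (leaf 3 430 466))))))))))) (merge (node 432 (merge (leaf 5 399 400) (node 433 (merge (leaf 6 400 401) (node 431 (merge (leaf 7 399 399) (node 463 (merge (leaf 5 430 558) (node 462 (merge (leaf 1 430 434) (leaf 2 429 461))))))))))) (merge (node 525 (merge (leaf 2 492 524) (node 557 (merge (leaf 1 524 556) (node 493 (merge (leaf 3 492 492) (node 494 (merge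 (leaf 2 461 465) (node 461 (merge (leaf 3 460 460) (node 590 (merge (leaf 4 461 558) (node 589 (merge (leaf 6 461 462) (leaf 4 493 622))))))))))))))) (node 525 (merge (leaf 2 492 524) (node 557 (merge (leaf 1 524 556) (node 493 (merge (leaf 3 492 492) (node 494 (merge (leaf 2 461 465) (node 589 (merge (leaf 6 461 462) (leaf 6 493 621)))))))))))))))))))))))))))))) nA_16 cA_16 11 (by decide +kernel)

end Crest.Agent.H26Snaky
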