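import Crest.Agent.H26SnA00

/-! certificate data for S0047, part A 1 (computer generated) -/

set_option autoImplicit false
set_option maxRecDepth 100000

namespace Crest.Agent.H26Snaky

open T

def nA_17 : ℕ := 0x100000001c000000000000000000000000000000000000000000000000000000000000000000000000000000000000000000000000000000000000000000000000000
def cA_17 : ℕ := 0x2800000028000003a8000001e0000003ff800001ff000001ff8000003c0000000000000000000000000000000000000000000000000000000000000000000000000000000000000000000
theorem lA_17 : S nA_17 cA_17 11 := S_of_chk [] trivial (node 464 (merge (node 465 (merge (node 466 (merge (leaf 1 463 467) (leaf 2 462 497))) (node 432 (merge (node 527 (merge (leaf 5 399 400) (leaf 5 431 559))) (merge (node 401 (merge (leaf 6 400 433) (node 400 (merge (leaf 6 368 369) (node 399 (merge (leaf 7 367 367) (leaf 7 399 431))))))) (node 527 (merge (leaf 5 431 559) (node 433 (merge (leaf 6 400 401) (node 431 (merge (leaf 7 399 399) (node 430 (merge (leaf 0 429 429) (node 398 (merge (leaf 3 397 397) (leaf 7 398 463)))))))))))))))) (merge (node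 497 (merge (node 466 (merge (leaf 2 462 465) (node 498 (merge (leaf 2 463 467) (node 499 (merge (leaf 3 463 463) (node 529 (merge (leaf 1 496 500) (node 561 (merge (leaf 4 432 432) (leaf 6 465 593))))))))))) (merge (node 462 (merge (leaf 3 461 461) (node 498 (merge (leaf 3 462 463) (node 499 (merge (leaf 1 495 527) (node 468 (merge (leaf 2 464 467) (node 500 (merge (leaf 3 464 465) (leaf 2 465 469))))))))))) (merge (node 465 (merge (leaf 2 462 466) (node 462 (merge (leaf 3 461 461) (node 433 (merge (leaf 5 400 401) (node 434 (merge (leaf 2 430 463) (node 529 (merge (leaf 6 401 402) (node 561 (merge (leaf 4 432 432) (leaf 7 464 593))))))))))))) (merge (node 466 (merge (leaf 2 462 465) (node 498 (merge (leaf 2 463 467) (node 499 (merge (leaf 1 495 527) (node 532 (merge (leaf 0 496 531) (node 500 (merge (leaf 1 496 529) (leaf 0 497 533))))))))))) (node 462 (merge (leaf 3 461 461) (node 498 (merge (leaf 3 462 463) (node 499 (merge (leaf 1 495 527) (node 532 (merge (leaf 0 496 531) (node 500 (merge (leaf 1 496 529) (leaf 0 497 533)))))))))))))))) (merge (node 497 (merge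 (node 466 (merge (leaf 2 462 465) (node 498 (merge (leaf 2 463 467) (node 499 (merge (leaf 3 463 463) (node 532 (merge (leaf 0 496 531) (node 500 (merge (leaf 1 496 529) (leaf 0 497 533))))))))))) (merge (node 462 (merge (leaf 3 461 461) (node 498 (merge (leaf 3 462 463) (node 499 (merge (leaf 1 495 527) (node 532 (merge (leaf 0 496 531) (node 500 (merge (leaf 1 496 529) (leaf 0 497 533))))))))))) (merge (node 465 (merge (leaf 2 462 466) (node 462 (merge (leaf 3 461 461) (node 433 (merge (leaf 5 400 401) (node 463 (merge (leaf 2 430 434) (node 430 (merge (leaf 3 429 429) (node 527 (merge (leaf 4 398 398) (leaf 7 430 559))))))))))))) (node 466 (merge (leaf 2 462 465) (node 498 (merge (leaf 2 463 467) (node 499 (merge (leaf 1 495 527) (node 532 (merge (leaf 0 496 531) (node 500 (merge (leaf 1 496 529) (leaf 0 497 533))))))))))))))) (merge (node 465 (merge (node 466 (merge (leaf 1 463 467) (leaf 2 462 497))) (merge (node 432 (merge (node 527 (merge (leaf 5 399 400) (leaf 5 431 559))) (merge (node 401 (merge (leaf 6 400 433) (node 400 (merge (leaf 6 368 369) (node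 497 (merge (leaf 4 368 368) (leaf 4 400 529))))))) (node 527 (merge (leaf 5 431 559) (node 433 (merge (leaf 6 400 401) (node 431 (merge (leaf 7 399 399) (node 430 (merge (leaf 0 429 429) (node 398 (merge (leaf 3 397 397) (leaf 4 398 462)))))))))))))) (node 432 (merge (node 527 (merge (leaf 5 399 400) (leaf 5 431 559))) (node 431 (merge (leaf 7 399 399) (node 430 (merge (leaf 0 429 429) (node 466 (merge (leaf 0 430 433) (leaf 3 431 467)))))))))))) (merge (node 465 (merge (node 466 (merge (leaf 1 462 463) (leaf 1 463 467))) (merge (node 432 (merge (node 527 (merge (leaf 5 399 400) (leaf 5 431 559))) (merge (node 527 (merge (leaf 5 399 400) (leaf 5 431 559))) (node 433 (merge (leaf 6 400 401) (node 431 (merge (leaf 7 399 399) (node 430 (merge (leaf 0 429 429) (node 462 (merge (leaf 1 429 461) (node 463 (merge (leaf 1 430 434) (node 398 (merge (leaf 4 366 366) (leaf 3 397 397)))))))))))))))) (node 466 (merge (leaf 1 463 467) (node 432 (merge (node 527 (merge (leaf 5 399 400) (leaf 5 431 559))) (merge (node 431 (merge (leaf 7 399 399) (node 430 (merge (leaf 0 429 429)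 (leaf 0 430 433))))) (node 527 (merge (leaf 5 399 400) (leaf 5 431 559))))))))))) (merge (node 463 (merge (node 432 (merge (node 527 (merge (leaf 5 399 400) (leaf 5 431 559))) (node 433 (merge (leaf 6 400 401) (node 462 (merge (leaf 2 429 461) (node 434 (merge (leaf 1 431 435) (leaf 2 430 465))))))))) (merge (node 462 (merge (node 461 (merge (leaf 3 461 497) (node 460 (merge (leaf 0 459 459) (leaf 0 460 463))))) (node 465 (merge (leaf 1 462 466) (node 430 (merge (leaf 3 429 429) (node 398 (merge (leaf 4 366 366) (node 399 (merge (leaf 6 366 367) (leaf 4 399 431))))))))))) (merge (node 432 (merge (node 527 (merge (leaf 5 399 400) (leaf 5 431 559))) (node 433 (merge (leaf 6 400 401) (node 462 (merge (leaf 2 429 461) (node 434 (merge (leaf 1 430 431) (leaf 1 431 435))))))))) (node 432 (merge (node 529 (merge (leaf 4 432 561) (node 400 (merge (leaf 5 367 368) (leaf 4 400 497))))) (node 431 (merge (leaf 4 399 399) (node 527 (merge (leaf 5 431 559) (node 430 (merge (leaf 7 398 398) (node 465 (merge (leaf 0 429 429) (leaf 3 430 466))))))))))))))) (merge (node 463 (merge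 (node 432 (merge (node 401 (merge (leaf 6 400 433) (node 400 (merge (leaf 5 367 368) (leaf 6 368 369))))) (merge (node 399 (merge (leaf 4 399 431) (node 400 (merge (leaf 7 367 367) (leaf 5 367 368))))) (node 431 (merge (leaf 4 399 399) (node 433 (merge (leaf 6 400 401) (node 434 (merge (leaf 1 431 435) (leaf 1 430 462)))))))))) (merge (node 462 (merge (node 461 (merge (leaf 3 461 497) (node 460 (merge (leaf 0 459 459) (leaf 0 460 463))))) (node 465 (merge (leaf 1 462 466) (node 430 (merge (leaf 3 429 429) (node 398 (merge (leaf 4 366 366) (node 399 (merge (leaf 6 366 367) (leaf 4 399 431))))))))))) (merge (node 432 (merge (node 529 (merge (leaf 4 432 561) (node 400 (merge (leaf 5 367 368) (leaf 4 400 497))))) (merge (node 401 (merge (leaf 6 400 433) (node 400 (merge (leaf 5 367 368) (leaf 6 368 369))))) (node 433 (merge (leaf 6 400 401) (node 434 (merge (leaf 1 431 435) (node 462 (merge (leaf 2 429 461) (leaf 2 430 465)))))))))) (node 432 (merge (node 401 (merge (leaf 6 400 433) (node 400 (merge (leaf 5 367 368) (leaf 6 368 369))))) (merge (node 399 (merge (leaf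 4 399 431) (node 400 (merge (leaf 7 367 367) (leaf 5 367 368))))) (node 431 (merge (leaf 4 399 399) (node 433 (merge (leaf 6 400 401) (node 434 (merge (leaf 1 431 435) (node 466 (merge (leaf 0 431 467) (node 465 (merge (leaf 0 430 430) (leaf 1 462 494)))))))))))))))))) (merge (node 462 (merge (node 461 (merge (leaf 3 461 497) (node 460 (merge (leaf 0 459 459) (leaf 0 460 463))))) (merge (node 432 (merge (node 527 (merge (leaf 5 399 400) (leaf 5 431 559))) (merge (node 527 (merge (leaf 5 399 400) (leaf 5 431 559))) (merge (node 401 (merge (leaf 6 400 433) (node 400 (merge (leaf 6 368 369) (node 399 (merge (leaf 7 367 367) (leaf 7 399 431))))))) (node 433 (merge (leaf 6 400 401) (node 431 (merge (leaf 7 399 399) (node 430 (merge (leaf 1 429 461) (node 398 (merge (leaf 3 397 397) (leaf 4 398 527))))))))))))) (node 432 (merge (node 527 (merge (leaf 5 399 400) (leaf 5 431 559))) (merge (node 527 (merge (leaf 5 399 400) (leaf 5 431 559))) (node 433 (merge (leaf 6 400 401) (node 431 (merge (leaf 7 399 399) (node 434 (merge (leaf 1 430 463) (node 467 (merge (leaf 0 431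 466) (node 435 (merge (leaf 0 432 468) (node 403 (merge (leaf 2 399 402) (leaf 2 400 404))))))))))))))))))) (merge (node 462 (merge (node 461 (merge (leaf 3 461 497) (node 460 (merge (leaf 0 459 459) (leaf 0 460 463))))) (merge (node 432 (merge (node 527 (merge (leaf 5 399 400) (leaf 5 431 559))) (merge (node 527 (merge (leaf 5 399 400) (leaf 5 431 559))) (merge (node 401 (merge (leaf 6 400 433) (node 400 (merge (leaf 6 368 369) (node 399 (merge (leaf 7 367 367) (leaf 7 399 431))))))) (node 433 (merge (leaf 6 400 401) (node 431 (merge (leaf 7 399 399) (node 430 (merge (leaf 1 429 461) (node 398 (merge (leaf 3 397 397) (leaf 4 398 527))))))))))))) (node 432 (merge (node 527 (merge (leaf 5 399 400) (leaf 5 431 559))) (merge (node 527 (merge (leaf 5 399 400) (leaf 5 431 559))) (node 433 (merge (leaf 6 400 401) (node 431 (merge (leaf 7 399 399) (node 434 (merge (leaf 1 430 463) (node 403 (merge (leaf 2 399 402) (node 435 (merge (leaf 2 400 404) (node 468 (merge (leaf 0 432 467) (node 436 (merge (leaf 1 432 465) (leaf 0 433 469))))))))))))))))))))) (merge (node 462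 (merge (node 461 (merge (leaf 3 461 497) (node 460 (merge (leaf 0 459 459) (leaf 0 460 463))))) (merge (node 497 (merge (leaf 3 461 461) (node 466 (merge (leaf 2 462 465) (node 498 (merge (leaf 2 463 467) (node 527 (merge (leaf 1 495 499) (node 559 (merge (leaf 5 431 432) (leaf 6 463 591))))))))))) (merge (node 432 (merge (node 527 (merge (leaf 5 399 400) (leaf 5 431 559))) (merge (node 399 (merge (leaf 7 399 431) (node 400 (merge (leaf 7 367 367) (node 497 (merge (leaf 4 400 529) (node 465 (merge (leaf 4 368 368) (leaf 2 462 466))))))))) (node 527 (merge (leaf 5 431 559) (node 430 (merge (leaf 4 398 398) (node 431 (merge (leaf 7 399 399) (node 429 (merge (leaf 0 429 465) (node 428 (merge (leaf 0 428 463) (node 396 (merge (leaf 3 395 395) (leaf 3 396 397)))))))))))))))) (node 432 (merge (node 527 (merge (leaf 5 399 400) (leaf 5 431 559))) (merge (node 399 (merge (leaf 7 399 431) (node 400 (merge (leaf 7 367 367) (node 463 (merge (leaf 5 367 368) (node 461 (merge (leaf 0 460 460) (node 429 (merge (leaf 3 428 428) (node 430 (merge (leaf 3 429 465) (node 401 (merge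 (leaf 6 368 369) (leaf 1 397 398))))))))))))))) (node 527 (merge (leaf 5 431 559) (node 430 (merge (leaf 4 398 398) (node 431 (merge (leaf 7 399 399) (node 429 (merge (leaf 0 429 465) (node 428 (merge (leaf 0 428 463) (node 396 (merge (leaf 3 395 395) (leaf 3 396 397)))))))))))))))))))) (node 462 (merge (node 461 (merge (leaf 3 461 497) (node 460 (merge (leaf 0 459 459) (leaf 0 460 463))))) (merge (node 497 (merge (leaf 3 461 461) (node 466 (merge (leaf 2 462 465) (node 498 (merge (leaf 2 463 467) (node 527 (merge (leaf 1 495 499) (node 559 (merge (leaf 5 431 432) (leaf 6 463 591))))))))))) (merge (node 432 (merge (node 527 (merge (leaf 5 399 400) (leaf 5 431 559))) (merge (node 399 (merge (leaf 7 399 431) (node 400 (merge (leaf 7 367 367) (node 463 (merge (leaf 5 367 368) (node 461 (merge (leaf 2 429 433) (leaf 0 460 460))))))))) (node 527 (merge (leaf 5 431 559) (node 430 (merge (leaf 4 398 398) (node 431 (merge (leaf 7 399 399) (node 429 (merge (leaf 0 429 465) (node 428 (merge (leaf 0 428 463) (node 396 (merge (leaf 3 395 395) (leaf 3 396 397))))))))))))))))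 (node 432 (merge (node 527 (merge (leaf 5 399 400) (leaf 5 431 559))) (merge (node 399 (merge (leaf 7 399 431) (node 400 (merge (leaf 7 367 367) (node 497 (merge (leaf 4 400 529) (node 465 (merge (leaf 4 368 368) (leaf 2 462 466))))))))) (node 527 (merge (leaf 5 431 559) (node 430 (merge (leaf 4 398 398) (node 431 (merge (leaf 7 399 399) (node 429 (merge (leaf 0 429 465) (node 428 (merge (leaf 0 428 463) (node 396 (merge (leaf 3 395 395) (leaf 3 396 397))))))))))))))))))))))))))))))) nA_17 cA_17 11 (by decide +kernel)
def nA_18 : ℕ := 0x1000000018000000000000000000000000000000000000000000000000000000000000000000000000000000000000000000000000000000000000000000000000000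
def cA_18 : ℕ := 0xf0000000f0000000f0000038f800001e7000001ff000000ff0000003f0000003f0000000800000000000000000000000000000000000000000000000000000000000000000000000000000000000
theorem lA_18 : S nA_18 cA_18 12 := S_of_chk [] trivial (node 497 (merge (node 498 (merge (node 527 (merge (leaf 1 495 499) (leaf 1 494 526))) (node 466 (merge (leaf 2 463 467) (node 494 (merge (leaf 2 462 465) (node 462 (merge (leaf 3 461 461) (leaf 3 462 463))))))))) (merge (node 462 (merge (node 498 (merge (leaf 3 462 463) (node 527 (merge (leaf 1 495 499) (leaf 1 494 526))))) (merge (node 461 (merge (leaf 3 461 494) (node 463 (merge (leaf 0 460 460) (leaf 0 461 464))))) (node 494 (merge (leaf 3 461 461) (node 526 (merge (leaf 1 493 525) (node 527 (merge (leaf 1 494 498) (node 559 (merge (leaf 4 430 430) (leaf 7 462 591)))))))))))) (merge (node 498 (merge (node 527 (merge (leaf 1 495 499) (leaf 1 494 526))) (merge (node 466 (merge (leaf 2 463 467) (node 494 (merge (leaf 2 462 465) (node 526 (merge (leaf 1 493 525) (leaf 1 494 527))))))) (node 467 (merge (leaf 2 463 466) (node 499 (merge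 (leaf 2 464 468) (node 532 (merge (leaf 0 496 531) (node 500 (merge (leaf 0 497 533) (node 464 (merge (leaf 3 463 463) (leaf 3 464 465)))))))))))))) (merge (node 498 (merge (node 527 (merge (leaf 1 495 499) (leaf 1 494 526))) (merge (node 467 (merge (leaf 2 463 466) (node 499 (merge (leaf 2 464 468) (leaf 1 495 527))))) (node 466 (merge (leaf 2 463 467) (node 494 (merge (leaf 2 462 465) (node 525 (merge (leaf 1 493 526) (node 493 (merge (leaf 1 492 524) (node 461 (merge (leaf 3 460 460) (leaf 3 461 462)))))))))))))) (merge (node 494 (merge (node 525 (merge (leaf 1 493 526) (node 493 (merge (leaf 1 492 524) (node 461 (merge (leaf 3 460 460) (leaf 3 461 462))))))) (merge (node 466 (merge (leaf 2 462 465) (node 498 (merge (leaf 2 463 467) (node 462 (merge (leaf 3 461 461) (leaf 3 462 463))))))) (node 525 (merge (leaf 1 493 526) (node 493 (merge (leaf 1 492 524) (node 465 (merge (leaf 2 461 464) (leaf 2 462 466)))))))))) (merge (node 462 (merge (node 498 (merge (leaf 3 462 463) (node 467 (merge (leaf 2 463 466) (node 499 (merge (leaf 2 464 468) (leaf 1 495 527)))))))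 (merge (node 461 (merge (leaf 3 461 494) (node 463 (merge (leaf 0 460 460) (leaf 0 461 464))))) (node 494 (merge (leaf 3 461 461) (node 465 (merge (leaf 2 462 466) (node 493 (merge (leaf 2 461 464) (node 492 (merge (leaf 0 492 527) (node 524 (merge (leaf 1 491 523) (leaf 1 492 525)))))))))))))) (merge (node 527 (merge (node 498 (merge (leaf 1 495 499) (leaf 1 494 526))) (merge (node 498 (merge (leaf 1 495 499) (node 463 (merge (leaf 3 462 462) (node 431 (merge (leaf 4 399 399) (node 432 (merge (leaf 6 399 400) (node 464 (merge (leaf 5 431 559) (node 430 (merge (leaf 7 398 398) (node 429 (merge (leaf 0 428 428) (leaf 0 429 465))))))))))))))) (node 463 (merge (node 431 (merge (leaf 4 399 399) (node 526 (merge (leaf 2 493 525) (leaf 5 430 558))))) (merge (node 431 (merge (leaf 4 399 399) (node 432 (merge (leaf 6 399 400) (node 559 (merge (leaf 6 431 464) (node 430 (merge (leaf 7 398 398) (leaf 7 430 462))))))))) (node 559 (merge (node 462 (merge (leaf 7 430 430) (node 461 (merge (leaf 0 460 460) (leaf 0 461 464))))) (node 591 (merge (leaf 6 495 623) (node 590 (merge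 (leaf 5 462 558) (leaf 5 494 622))))))))))))) (node 464 (merge (node 494 (merge (node 465 (merge (leaf 2 462 466) (leaf 2 461 493))) (merge (node 525 (merge (leaf 1 493 526) (node 493 (merge (leaf 1 492 524) (node 461 (merge (leaf 3 460 460) (leaf 3 461 462))))))) (node 526 (merge (leaf 1 493 525) (node 465 (merge (leaf 2 462 466) (node 462 (merge (leaf 3 461 461) (node 433 (merge (leaf 5 400 401) (node 463 (merge (leaf 2 430 434) (node 431 (merge (leaf 4 399 399) (leaf 6 430 558)))))))))))))))) (merge (node 432 (merge (node 527 (merge (leaf 5 399 400) (leaf 5 431 559))) (merge (node 401 (merge (leaf 6 400 433) (node 400 (merge (leaf 6 368 369) (node 368 (merge (leaf 5 367 463) (leaf 4 368 465))))))) (node 527 (merge (leaf 5 431 559) (node 526 (merge (leaf 2 493 525) (node 433 (merge (leaf 6 400 401) (node 431 (merge (leaf 7 399 399) (node 463 (merge (leaf 5 430 558) (node 462 (merge (leaf 1 430 434) (leaf 0 461 461)))))))))))))))) (merge (node 465 (merge (node 494 (merge (leaf 2 462 466) (leaf 2 461 493))) (node 432 (merge (node 400 (merge (leaf 4 368 368) (leaf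 5 399 527))) (merge (node 401 (merge (leaf 6 400 433) (node 400 (merge (leaf 6 368 369) (node 399 (merge (leaf 7 367 367) (leaf 7 399 431))))))) (node 527 (merge (leaf 5 431 559) (node 433 (merge (leaf 6 400 401) (node 431 (merge (leaf 7 399 399) (node 430 (merge (leaf 0 429 429) (node 398 (merge (leaf 3 397 397) (leaf 7 398 463)))))))))))))))) (merge (node 494 (merge (node 465 (merge (leaf 2 462 466) (leaf 2 461 493))) (merge (node 461 (merge (leaf 3 461 462) (node 493 (merge (leaf 3 460 460) (node 492 (merge (leaf 0 492 527) (node 524 (merge (leaf 1 491 523) (leaf 1 492 525))))))))) (node 465 (merge (leaf 2 462 466) (node 462 (merge (leaf 3 461 461) (node 433 (merge (leaf 5 400 401) (node 463 (merge (leaf 2 430 434) (node 430 (merge (leaf 3 429 429) (node 527 (merge (leaf 4 398 398) (leaf 7 430 559)))))))))))))))) (merge (node 465 (merge (node 494 (merge (leaf 2 462 466) (leaf 2 461 493))) (merge (node 466 (merge (leaf 1 463 467) (node 432 (merge (node 527 (merge (leaf 5 399 400) (leaf 5 431 559))) (merge (node 431 (merge (leaf 7 399 399) (node 430 (merge (leaf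 0 429 429) (leaf 0 430 433))))) (node 527 (merge (leaf 5 399 400) (leaf 5 431 559)))))))) (node 494 (merge (leaf 2 461 493) (node 432 (merge (node 527 (merge (leaf 5 399 400) (leaf 5 431 559))) (merge (node 401 (merge (leaf 6 400 433) (node 400 (merge (leaf 6 368 369) (node 399 (merge (leaf 7 367 367) (leaf 7 399 431))))))) (node 433 (merge (leaf 6 400 401) (node 431 (merge (leaf 7 399 399) (node 430 (merge (leaf 0 429 429) (node 462 (merge (leaf 1 429 461) (node 398 (merge (leaf 3 397 397) (leaf 4 398 527))))))))))))))))))) (merge (node 461 (merge (node 494 (merge (leaf 3 461 462) (node 465 (merge (leaf 2 462 466) (leaf 2 461 493))))) (merge (node 527 (merge (node 559 (merge (leaf 5 431 432) (leaf 6 463 591))) (node 463 (merge (leaf 0 461 462) (node 526 (merge (leaf 2 493 525) (node 431 (merge (leaf 4 399 399) (leaf 5 430 558))))))))) (node 525 (merge (node 526 (merge (leaf 1 493 494) (leaf 2 493 527))) (merge (node 493 (merge (node 494 (merge (leaf 3 460 460) (leaf 1 492 524))) (merge (node 460 (merge (leaf 3 460 494) (node 557 (merge (leaf 7 428 428) (node 588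 (merge (leaf 5 460 556) (node 589 (merge (leaf 7 460 492) (leaf 5 492 620))))))))) (merge (node 524 (merge (leaf 1 492 494) (node 429 (merge (leaf 5 428 556) (node 397 (merge (leaf 5 396 492) (node 398 (merge (leaf 6 365 366) (leaf 6 397 430))))))))) (node 556 (merge (node 524 (merge (leaf 5 428 429) (node 588 (merge (leaf 6 460 492) (leaf 6 492 620))))) (merge (node 557 (merge (leaf 5 460 588) (node 590 (merge (leaf 4 461 558) (node 589 (merge (leaf 4 493 622) (node 460 (merge (leaf 7 428 428) (leaf 7 460 492))))))))) (node 429 (merge (leaf 5 428 524) (node 398 (merge (leaf 6 397 430) (node 397 (merge (leaf 6 365 366) (node 396 (merge (leaf 7 364 364) (leaf 7 396 428)))))))))))))))) (node 493 (merge (node 526 (merge (leaf 2 493 527) (node 558 (merge (leaf 4 429 429) (node 590 (merge (leaf 4 461 557) (leaf 7 493 622))))))) (merge (node 526 (merge (leaf 2 493 527) (node 429 (merge (leaf 4 429 558) (node 524 (merge (leaf 5 428 556) (node 397 (merge (leaf 5 396 492) (node 398 (merge (leaf 6 365 366) (leaf 6 397 430))))))))))) (merge (node 556 (merge (node 524 (merge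 (leaf 5 428 429) (node 588 (merge (leaf 6 460 492) (leaf 6 492 620))))) (merge (node 557 (merge (leaf 5 460 588) (node 590 (merge (leaf 4 461 558) (node 589 (merge (leaf 4 493 622) (node 460 (merge (leaf 7 428 428) (leaf 7 460 492))))))))) (node 429 (merge (leaf 5 428 524) (node 398 (merge (leaf 6 397 430) (node 397 (merge (leaf 6 365 366) (node 396 (merge (leaf 7 364 364) (leaf 7 396 428)))))))))))) (merge (node 527 (merge (leaf 2 493 526) (node 429 (merge (node 398 (merge (leaf 6 397 430) (node 397 (merge (leaf 6 365 366) (node 396 (merge (leaf 7 364 364) (leaf 7 396 428))))))) (merge (node 556 (merge (leaf 5 428 524) (node 557 (merge (leaf 5 460 588) (node 428 (merge (leaf 7 396 396) (leaf 7 428 460))))))) (node 524 (merge (leaf 5 428 556) (node 397 (merge (leaf 5 396 492) (node 398 (merge (leaf 6 365 366) (leaf 6 397 430)))))))))))) (node 557 (merge (node 527 (merge (leaf 2 493 526) (node 558 (merge (leaf 4 461 590) (node 556 (merge (leaf 2 524 559) (leaf 5 460 588))))))) (merge (node 588 (merge (leaf 5 460 556) (node 589 (merge (leaf 5 492 620) (node 460 (merge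 (leaf 7 428 428) (leaf 7 460 492))))))) (node 590 (merge (leaf 4 461 558) (node 589 (merge (leaf 4 493 622) (node 460 (merge (leaf 7 428 428) (leaf 7 460 492))))))))))))))))))))) (node 526 (merge (node 525 (merge (leaf 1 493 494) (leaf 2 493 527))) (merge (node 432 (merge (node 527 (merge (leaf 5 399 400) (leaf 5 431 559))) (merge (node 401 (merge (leaf 6 400 433) (node 400 (merge (leaf 6 368 369) (node 399 (merge (leaf 7 367 367) (leaf 7 399 431))))))) (node 527 (merge (leaf 5 431 559) (node 433 (merge (leaf 6 400 401) (node 431 (merge (leaf 7 399 399) (node 463 (merge (leaf 5 430 558) (node 434 (merge (leaf 1 431 435) (leaf 1 430 462)))))))))))))) (node 494 (merge (leaf 1 493 525) (node 462 (merge (leaf 3 461 461) (node 430 (merge (node 399 (merge (leaf 6 398 431) (node 398 (merge (leaf 6 366 367) (node 397 (merge (leaf 7 365 365) (leaf 7 397 429))))))) (merge (node 431 (merge (leaf 6 398 399) (node 558 (merge (leaf 6 430 463) (node 591 (merge (leaf 4 462 559) (node 590 (merge (leaf 4 494 623) (node 589 (merge (leaf 5 461 557) (leaf 5 493 621))))))))))) (merge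 (node 397 (merge (leaf 7 397 429) (node 398 (merge (leaf 7 365 365) (node 463 (merge (leaf 4 366 366) (node 558 (merge (leaf 6 430 431) (leaf 6 462 590))))))))) (node 397 (merge (leaf 7 397 429) (node 398 (merge (leaf 7 365 365) (node 366 (merge (leaf 4 366 463) (node 367 (merge (leaf 6 334 335) (leaf 6 366 399))))))))))))))))))))))))))))))))))) nA_18 cA_18 12 (by decide +kernel)
def nA_19 : ℕ := 0x1000000018000000000000000800000000000000000000000000000000000000000000000000000000000000000000000000000000000000000000000000000000000
def cA_19 : ℕ := 0x7c0000007c0000006f800000af000000e2000001ff800001f7000001f7800000740000007400000050000000000000000000000000000000000000000000000000000000000000000000000000000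
theorem lA_19 : S nA_19 cA_19 11 := S_of_chk [] trivial (node 432 (merge (node 433 (merge (node 401 (merge (leaf 6 400 464) (node 430 (merge (leaf 2 398 402) (node 429 (merge (leaf 2 397 400) (node 397 (merge (leaf 3 396 396) (leaf 3 397 398))))))))) (merge (node 430 (merge (node 465 (merge (leaf 0 430 466) (node 401 (merge (leaf 2 398 402) (leaf 5 400 497))))) (node 461 (merge (leaf 1 429 462) (node 429 (merge (leaf 1 428 460) (node 397 (merge (leaf 3 396 396) (leaf 3 397 398))))))))) (merge (node 464 (merge (leaf 6 400 401) (node 529 (merge (leaf 4 432 561) (node 400 (merge (leaf 4 400 497) (node 463 (merge (leaf 5 367 368) (node 434 (merge (leaf 1 431 435) (node 462 (merge (leaf 1 430 431) (leaf 2 429 461))))))))))))) (node 430 (merge (node 461 (merge (leaf 1 429 462) (node 429 (merge (leaf 1 428 460) (node 397 (merge (leaf 3 396 396) (leaf 3 397 398))))))) (merge (node 466 (merge (leaf 0 430 465) (node 434 (merge (leaf 0 431 467) (node 462 (merge (leaf 1 429 461) (leaf 1 430 463))))))) (node 465 (merge (leaf 0 430 466) (node 464 (merge (leaf 0 429 429) (node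 529 (merge (leaf 4 432 561) (node 497 (merge (leaf 4 400 400) (node 434 (merge (leaf 6 401 402) (node 435 (merge (leaf 1 432 436) (leaf 1 431 463)))))))))))))))))))) (merge (node 527 (merge (node 464 (merge (leaf 5 399 400) (leaf 5 431 559))) (merge (node 463 (merge (leaf 6 399 400) (node 526 (merge (leaf 5 430 558) (node 525 (merge (leaf 2 493 497) (leaf 2 492 524))))))) (node 559 (merge (leaf 5 431 464) (node 591 (merge (leaf 6 495 623) (node 592 (merge (leaf 4 495 624) (node 590 (merge (leaf 5 494 622) (node 558 (merge (leaf 5 462 463) (node 593 (merge (leaf 3 557 557) (leaf 3 558 594)))))))))))))))) (merge (node 433 (merge (node 464 (merge (leaf 6 400 401) (node 527 (merge (leaf 5 399 400) (leaf 5 431 559))))) (merge (node 430 (merge (node 465 (merge (leaf 0 430 466) (node 401 (merge (leaf 2 398 402) (leaf 5 400 497))))) (node 461 (merge (leaf 1 429 462) (node 429 (merge (leaf 1 428 460) (node 397 (merge (leaf 3 396 396) (leaf 3 397 398))))))))) (node 497 (merge (node 527 (merge (node 498 (merge (leaf 1 495 499) (leaf 1 494 526))) (node 464 (merge (leaf 5 399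 400) (leaf 5 431 559))))) (merge (node 465 (merge (node 400 (merge (leaf 7 400 529) (node 368 (merge (leaf 4 336 336) (leaf 4 368 464))))) (node 466 (merge (leaf 0 430 430) (node 467 (merge (leaf 0 431 434) (leaf 1 464 468))))))) (node 498 (merge (node 527 (merge (leaf 1 495 499) (leaf 1 494 526))) (node 466 (merge (leaf 2 463 467) (node 430 (merge (leaf 0 430 465) (node 461 (merge (leaf 1 429 462) (node 429 (merge (leaf 1 428 460) (node 397 (merge (leaf 3 396 396) (leaf 3 397 398))))))))))))))))))) (merge (node 430 (merge (node 398 (merge (node 463 (merge (leaf 7 398 527) (node 366 (merge (leaf 4 334 334) (leaf 4 366 462))))) (node 397 (merge (leaf 3 397 433) (node 396 (merge (leaf 0 395 395) (leaf 3 396 429))))))) (merge (node 433 (merge (node 401 (merge (leaf 2 398 402) (leaf 6 400 464))) (node 466 (merge (leaf 0 430 465) (node 434 (merge (leaf 0 431 467) (node 462 (merge (leaf 1 429 461) (leaf 1 430 463))))))))) (merge (node 433 (merge (node 401 (merge (leaf 2 398 402) (leaf 6 400 464))) (node 461 (merge (leaf 1 429 462) (node 429 (merge (leaf 1 428 460) (node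 397 (merge (leaf 3 396 396) (leaf 3 397 398))))))))) (node 429 (merge (node 460 (merge (leaf 1 428 461) (node 428 (merge (leaf 1 427 459) (node 396 (merge (leaf 3 395 395) (leaf 3 396 397))))))) (merge (node 400 (merge (leaf 2 397 401) (node 527 (merge (leaf 6 399 463) (leaf 5 399 464))))) (node 464 (merge (leaf 0 429 465) (node 400 (merge (leaf 2 397 401) (node 527 (merge (leaf 5 399 495) (leaf 5 431 559)))))))))))))) (merge (node 527 (merge (node 559 (merge (leaf 5 431 464) (node 591 (merge (leaf 6 495 623) (node 592 (merge (leaf 4 495 624) (node 590 (merge (leaf 5 494 622) (node 558 (merge (leaf 5 462 463) (node 593 (merge (leaf 3 557 557) (leaf 3 558 594))))))))))))) (merge (node 526 (merge (node 525 (merge (leaf 2 493 497) (leaf 2 492 524))) (merge (node 463 (merge (leaf 5 430 558) (node 430 (merge (leaf 7 398 398) (node 462 (merge (leaf 7 430 559) (node 461 (merge (leaf 1 429 433) (leaf 0 460 460))))))))) (node 525 (merge (leaf 2 492 524) (node 557 (merge (leaf 1 524 556) (node 463 (merge (leaf 5 430 558) (node 430 (merge (leaf 7 398 398) (node 462 (merge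 (leaf 7 430 559) (node 461 (merge (leaf 0 460 460) (leaf 6 429 493)))))))))))))))) (merge (node 526 (merge (node 525 (merge (leaf 2 493 497) (leaf 2 492 524))) (merge (node 558 (merge (leaf 5 430 463) (node 557 (merge (leaf 1 525 529) (node 556 (merge (leaf 1 524 525) (leaf 2 523 555))))))) (node 497 (merge (leaf 1 494 498) (node 558 (merge (leaf 5 430 463) (node 529 (merge (leaf 1 525 557) (node 561 (merge (leaf 0 526 562) (node 593 (merge (leaf 7 464 464) (leaf 7 496 625)))))))))))))) (merge (node 559 (merge (leaf 5 431 464) (node 558 (merge (node 557 (merge (leaf 2 524 556) (node 526 (merge (leaf 1 525 529) (node 525 (merge (leaf 2 493 497) (leaf 2 492 524))))))) (merge (node 591 (merge (leaf 6 495 623) (node 592 (merge (leaf 4 495 624) (node 593 (merge (leaf 3 558 594) (node 590 (merge (leaf 3 557 557) (leaf 5 494 622))))))))) (node 591 (merge (leaf 6 495 623) (node 592 (merge (leaf 4 495 624) (node 593 (merge (leaf 3 558 594) (node 590 (merge (leaf 5 494 622) (node 625 (merge (leaf 0 590 626) (node 561 (merge (leaf 7 496 529) (leaf 2 558 562))))))))))))))))))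 (node 463 (merge (node 464 (merge (leaf 5 431 559) (node 433 (merge (leaf 6 400 401) (node 462 (merge (leaf 1 430 434) (leaf 2 429 461))))))) (merge (node 430 (merge (leaf 7 398 398) (node 559 (merge (leaf 7 430 462) (node 591 (merge (leaf 6 463 464) (leaf 6 495 623))))))) (merge (node 430 (merge (leaf 7 398 398) (node 462 (merge (leaf 7 430 559) (node 461 (merge (leaf 1 429 433) (leaf 0 460 460))))))) (merge (node 462 (merge (node 461 (merge (leaf 0 460 460) (node 433 (merge (leaf 1 429 430) (leaf 1 430 434))))) (merge (node 461 (merge (leaf 0 460 460) (node 497 (merge (leaf 0 461 464) (leaf 3 462 498))))) (node 433 (merge (leaf 1 430 434) (node 401 (merge (leaf 6 400 464) (node 430 (merge (leaf 2 398 402) (node 465 (merge (leaf 0 430 466) (leaf 5 400 497)))))))))))) (node 464 (merge (leaf 5 431 559) (node 430 (merge (leaf 7 398 398) (node 465 (merge (leaf 0 429 429) (leaf 3 430 466))))))))))))))))) (node 463 (merge (node 527 (merge (leaf 6 399 400) (node 526 (merge (leaf 5 430 558) (node 525 (merge (leaf 2 493 497) (leaf 2 492 524))))))) (merge (node 527 (merge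 (leaf 6 399 400) (node 430 (merge (leaf 7 398 398) (node 462 (merge (leaf 7 430 559) (node 461 (merge (leaf 1 429 433) (leaf 0 460 460))))))))) (merge (node 433 (merge (node 462 (merge (leaf 1 430 434) (node 461 (merge (leaf 1 429 430) (leaf 2 428 460))))) (merge (node 434 (merge (leaf 1 430 462) (node 467 (merge (leaf 0 431 466) (node 435 (merge (leaf 0 432 468) (node 403 (merge (leaf 2 399 402) (leaf 2 400 404))))))))) (merge (node 430 (merge (node 465 (merge (leaf 0 430 466) (node 401 (merge (leaf 2 398 402) (leaf 5 400 497))))) (node 398 (merge (leaf 3 397 397) (node 366 (merge (leaf 4 334 334) (leaf 4 366 462))))))) (node 465 (merge (node 466 (merge (leaf 0 430 430) (node 467 (merge (leaf 0 431 434) (leaf 3 432 468))))) (merge (node 401 (merge (leaf 5 400 497) (node 430 (merge (leaf 2 398 402) (node 429 (merge (leaf 2 397 400) (node 397 (merge (leaf 3 396 396) (leaf 3 397 398))))))))) (node 497 (merge (leaf 5 400 401) (node 529 (merge (leaf 7 400 400) (node 434 (merge (leaf 6 401 402) (node 561 (merge (leaf 6 433 466) (node 594 (merge (leaf 4 465 562) (node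 593 (merge (leaf 7 496 625) (leaf 4 497 626)))))))))))))))))))) (node 433 (merge (node 462 (merge (leaf 1 430 434) (node 461 (merge (leaf 1 429 430) (leaf 2 428 460))))) (merge (node 434 (merge (leaf 1 430 462) (node 467 (merge (leaf 0 431 466) (node 435 (merge (leaf 0 432 468) (node 403 (merge (leaf 2 399 402) (leaf 2 400 404))))))))) (merge (node 430 (merge (node 465 (merge (leaf 0 430 466) (node 401 (merge (leaf 2 398 402) (leaf 5 400 497))))) (node 398 (merge (leaf 3 397 397) (node 366 (merge (leaf 4 334 334) (leaf 4 366 462))))))) (node 466 (merge (node 465 (merge (leaf 0 430 430) (node 467 (merge (leaf 0 431 434) (leaf 3 432 468))))) (merge (node 467 (merge (leaf 0 431 434) (node 497 (merge (leaf 2 463 498) (node 465 (merge (leaf 5 400 401) (leaf 1 464 468))))))) (merge (node 465 (merge (leaf 0 430 430) (node 401 (merge (leaf 5 400 497) (node 369 (merge (leaf 4 369 498) (node 338 (merge (leaf 6 337 370) (node 337 (merge (leaf 6 305 306) (node 336 (merge (leaf 7 304 304) (leaf 7 336 368))))))))))))) (node 434 (merge (leaf 0 431 467) (node 402 (merge (leaf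 2 399 403) (node 401 (merge (leaf 2 398 430) (node 498 (merge (leaf 7 369 369) (node 499 (merge (leaf 4 402 531) (node 497 (merge (leaf 1 495 527) (leaf 5 401 529))))))))))))))))))))))))))))))) nA_19 cA_19 11 (by decide +kernel)
def nA_20 : ℕ := 0x1000000018000000000000000000000000000000000000000000000000000000000000000000000000000000000000000000000000000000000000000000000000000
def cA_20 : ℕ := 0x7c0000007c0000006f800000af000000e3000003ff800001ff000001ff800000f40000007400000050000000000000000000000000000000000000000000000000000000000000000000000000000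
theorem lA_20 : S nA_20 cA_20 12 := S_of_chk [(nA_19, cA_19, 11)] ⟨lA_19, trivial⟩ (node 431 (merge (node 463 (merge (leaf 4 399 399) (node 527 (merge (node 526 (merge (leaf 5 430 558) (node 525 (merge (leaf 2 493 497) (leaf 2 492 524))))) (node 430 (merge (leaf 7 398 398) (node 559 (merge (leaf 7 430 462) (node 591 (merge (leaf 6 463 464) (leaf 6 495 623))))))))))) (merge (node 432 (merge (node 399 (merge (leaf 4 399 463) (leaf 7 399 464))) (merge (node 464 (merge (leaf 7 399 399) (node 529 (merge (leaf 4 432 561) (node 400 (merge (leaf 4 400 497) (node 401 (merge (leaf 6 368 369) (leaf 6 400 433))))))))) (merge (node 433 (merge (node 463 (merge (leaf 4 399 399) (node 462 (merge (leaf 1 430 434) (node 461 (merge (leaf 1 429 430) (leaf 0 460 460))))))) (merge (node 399 (merge (leaf 4 399 463) (node 398 (merge (leaf 3 398 434) (node 397 (merge (leaf 0 396 396) (leaf 0 397 400))))))) (node 430 (merge (node 465 (merge (leaf 0 430 466) (node 401 (merge (leaf 2 398 402) (leaf 5 400 497))))) (node 461 (merge (leaf 1 429 462) (node 429 (merge (leaf 1 428 460) (node 397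 (merge (leaf 3 396 396) (leaf 3 397 398)))))))))))) (node 433 (merge (node 401 (merge (leaf 6 400 464) (node 430 (merge (leaf 2 398 402) (node 429 (merge (leaf 2 397 400) (node 397 (merge (leaf 3 396 396) (leaf 3 397 398))))))))) (merge (node 430 (merge (node 465 (merge (leaf 0 430 466) (node 401 (merge (leaf 2 398 402) (leaf 5 400 497))))) (node 461 (merge (leaf 1 429 462) (node 429 (merge (leaf 1 428 460) (node 397 (merge (leaf 3 396 396) (leaf 3 397 398))))))))) (merge (node 464 (merge (leaf 6 400 401) (node 529 (merge (leaf 4 432 561) (node 400 (merge (leaf 4 400 497) (node 463 (merge (leaf 5 367 368) (node 434 (merge (leaf 1 431 435) (node 462 (merge (leaf 1 430 431) (leaf 2 429 461))))))))))))) (node 430 (merge (node 461 (merge (leaf 1 429 462) (node 429 (merge (leaf 1 428 460) (node 397 (merge (leaf 3 396 396) (leaf 3 397 398))))))) (merge (node 466 (merge (leaf 0 430 465) (node 434 (merge (leaf 0 431 467) (node 462 (merge (leaf 1 429 461) (leaf 1 430 463))))))) (node 465 (merge (leaf 0 430 466) (node 464 (merge (leaf 0 429 429) (node 529 (merge (leaf 4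 432 561) (node 497 (merge (leaf 4 400 400) (node 434 (merge (leaf 6 401 402) (node 435 (merge (leaf 1 432 436) (leaf 1 431 463)))))))))))))))))))))))) (merge (node 463 (merge (leaf 4 399 399) (node 527 (merge (node 526 (merge (leaf 5 430 558) (node 525 (merge (leaf 2 493 497) (leaf 2 492 524))))) (merge (node 558 (merge (leaf 5 430 526) (node 559 (merge (leaf 5 462 590) (node 430 (merge (leaf 7 398 398) (leaf 7 430 462))))))) (node 432 (merge (leaf 6 399 400) (node 430 (merge (leaf 7 398 398) (node 462 (merge (leaf 7 430 559) (node 461 (merge (leaf 1 429 433) (leaf 0 460 460)))))))))))))) (merge (node 432 (merge (node 399 (merge (leaf 4 399 463) (leaf 7 399 464))) (merge (node 464 (merge (leaf 7 399 399) (node 527 (merge (leaf 5 399 400) (leaf 5 431 559))))) (merge (node 463 (merge (leaf 4 399 399) (node 527 (merge (leaf 6 399 400) (node 526 (merge (leaf 5 430 558) (node 497 (merge (leaf 1 494 498) (leaf 2 493 525))))))))) (node 527 (merge (node 464 (merge (leaf 5 399 400) (leaf 5 431 559))) (merge (node 463 (merge (leaf 6 399 400) (node 526 (merge (leaf 5 430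 558) (node 525 (merge (leaf 2 493 497) (leaf 2 492 524))))))) (node 559 (merge (leaf 5 431 464) (node 591 (merge (leaf 6 495 623) (node 592 (merge (leaf 4 495 624) (node 590 (merge (leaf 5 494 622) (node 558 (merge (leaf 5 462 463) (node 593 (merge (leaf 3 557 557) (leaf 3 558 594)))))))))))))))))))) (merge (node 463 (merge (leaf 4 399 399) (node 527 (merge (node 558 (merge (leaf 5 430 526) (node 559 (merge (leaf 5 462 590) (node 591 (merge (leaf 6 463 464) (leaf 6 495 623))))))) (merge (node 432 (merge (leaf 6 399 400) (node 464 (merge (leaf 5 431 559) (node 430 (merge (leaf 7 398 398) (node 465 (merge (leaf 0 429 429) (leaf 3 430 466))))))))) (node 526 (merge (leaf 5 430 558) (node 525 (merge (leaf 2 492 524) (node 557 (merge (leaf 1 524 556) (node 493 (merge (leaf 3 492 492) (node 432 (merge (leaf 6 399 400) (node 430 (merge (leaf 7 398 398) (node 461 (merge (leaf 6 429 462) (node 460 (merge (leaf 7 428 428) (leaf 1 428 429)))))))))))))))))))))) (merge (node 432 (merge (node 464 (merge (leaf 7 399 399) (node 527 (merge (leaf 5 399 400) (leaf 5 431 559))))) (merge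 (node 430 (merge (node 464 (merge (leaf 7 399 399) (node 465 (merge (leaf 0 429 429) (node 433 (merge (leaf 6 400 401) (leaf 0 430 466))))))) (merge (node 433 (merge (node 401 (merge (leaf 2 398 402) (leaf 6 400 464))) (node 461 (merge (leaf 1 429 462) (node 429 (merge (leaf 1 428 460) (node 397 (merge (leaf 3 396 396) (leaf 3 397 398))))))))) (merge (node 464 (merge (leaf 7 399 399) (node 429 (merge (leaf 0 429 465) (node 460 (merge (leaf 1 428 461) (node 428 (merge (leaf 1 427 459) (node 396 (merge (leaf 3 395 395) (leaf 3 396 397))))))))))) (node 433 (merge (node 465 (merge (leaf 0 430 466) (node 401 (merge (leaf 2 398 402) (leaf 5 400 497))))) (merge (node 402 (merge (leaf 2 398 401) (node 434 (merge (leaf 2 399 403) (node 398 (merge (leaf 3 397 397) (leaf 3 398 399))))))) (node 466 (merge (leaf 0 430 465) (node 434 (merge (leaf 0 431 467) (node 398 (merge (leaf 3 397 397) (leaf 3 398 399)))))))))))))) (merge (node 433 (merge (node 464 (merge (leaf 6 400 401) (node 527 (merge (leaf 5 399 400) (leaf 5 431 559))))) (merge (node 430 (merge (node 465 (merge (leaf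 0 430 466) (node 401 (merge (leaf 2 398 402) (leaf 5 400 497))))) (node 461 (merge (leaf 1 429 462) (node 429 (merge (leaf 1 428 460) (node 397 (merge (leaf 3 396 396) (leaf 3 397 398))))))))) (node 497 (merge (node 527 (merge (node 498 (merge (leaf 1 495 499) (leaf 1 494 526))) (node 464 (merge (leaf 5 399 400) (leaf 5 431 559))))) (merge (node 465 (merge (node 400 (merge (leaf 7 400 529) (node 368 (merge (leaf 4 336 336) (leaf 4 368 464))))) (node 466 (merge (leaf 0 430 430) (node 467 (merge (leaf 0 431 434) (leaf 1 464 468))))))) (node 498 (merge (node 527 (merge (leaf 1 495 499) (leaf 1 494 526))) (node 466 (merge (leaf 2 463 467) (node 430 (merge (leaf 0 430 465) (node 461 (merge (leaf 1 429 462) (node 429 (merge (leaf 1 428 460) (node 397 (merge (leaf 3 396 396) (leaf 3 397 398))))))))))))))))))) (node 433 (merge (node 430 (merge (node 465 (merge (leaf 0 430 466) (node 401 (merge (leaf 2 398 402) (leaf 5 400 497))))) (node 461 (merge (leaf 1 429 462) (node 429 (merge (leaf 1 428 460) (node 397 (merge (leaf 3 396 396) (leaf 3 397 398))))))))) (merge (node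 430 (merge (node 461 (merge (leaf 1 429 462) (node 429 (merge (leaf 1 428 460) (node 401 (merge (leaf 2 397 400) (leaf 2 398 402))))))) (merge (node 461 (merge (leaf 1 429 462) (node 429 (merge (leaf 1 428 460) (node 397 (merge (leaf 3 396 396) (leaf 3 397 398))))))) (node 402 (merge (leaf 2 398 401) (node 434 (merge (leaf 2 399 403) (node 398 (merge (leaf 3 397 397) (leaf 3 398 399)))))))))) (merge (node 434 (merge (node 467 (merge (leaf 0 431 466) (node 435 (merge (leaf 0 432 468) (node 399 (merge (leaf 3 398 398) (leaf 3 399 400))))))) (merge (node 403 (merge (leaf 2 399 402) (node 435 (merge (leaf 2 400 404) (node 399 (merge (leaf 3 398 398) (leaf 3 399 400))))))) (node 466 (merge (leaf 0 431 467) (node 465 (merge (leaf 0 430 430) (node 402 (merge (leaf 2 399 403) (node 497 (merge (leaf 5 369 370) (leaf 6 401 529)))))))))))) (merge (node 430 (merge (node 466 (merge (leaf 0 430 465) (node 434 (merge (leaf 0 431 467) (node 398 (merge (leaf 3 397 397) (leaf 3 398 399))))))) (merge (node 397 (merge (leaf 3 397 398) (node 429 (merge (leaf 3 396 396) (node 460 (merge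 (leaf 1 428 461) (node 428 (merge (leaf 1 427 459) (node 400 (merge (leaf 2 396 399) (leaf 2 397 401))))))))))) (merge (node 466 (merge (leaf 0 430 465) (node 434 (merge (leaf 0 431 467) (node 399 (merge (leaf 3 398 398) (node 400 (merge (leaf 3 399 435) (node 429 (merge (leaf 2 397 401) (leaf 2 396 428))))))))))) (node 465 (merge (leaf 0 430 466) (node 401 (merge (leaf 5 400 497) (node 429 (merge (leaf 2 397 400) (node 460 (merge (leaf 1 428 461) (node 428 (merge (leaf 1 427 459) (node 396 (merge (leaf 3 395 395) (leaf 3 396 397))))))))))))))))) (merge (node 434 (merge (node 467 (merge (leaf 0 431 466) (node 435 (merge (leaf 0 432 468) (node 403 (merge (leaf 2 399 402) (leaf 2 400 404))))))) (merge (node 466 (merge (leaf 0 431 467) (node 430 (merge (leaf 0 430 465) (node 402 (merge (leaf 2 398 401) (leaf 2 399 403))))))) (merge (node 466 (merge (leaf 0 431 467) (node 430 (merge (leaf 0 430 465) (node 461 (merge (leaf 1 429 462) (node 429 (merge (leaf 1 428 460) (node 400 (merge (leaf 2 397 401) (node 399 (merge (leaf 2 396 428) (leaf 3 399 435))))))))))))) (merge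 (node 403 (merge (leaf 2 399 402) (node 435 (merge (leaf 2 400 404) (node 468 (merge (leaf 0 432 467) (node 436 (merge (leaf 0 433 469) (node 400 (merge (leaf 3 399 399) (leaf 3 400 401))))))))))) (node 403 (merge (leaf 2 399 402) (node 435 (merge (leaf 2 400 404) (node 400 (merge (leaf 3 399 399) (node 401 (merge (leaf 3 400 436) (node 430 (merge (leaf 2 397 429) (node 465 (merge (leaf 0 430 466) (leaf 5 400 497)))))))))))))))))) (node 434 (merge (node 467 (merge (leaf 0 431 466) (node 435 (merge (leaf 0 432 468) (node 399 (merge (leaf 3 398 398) (leaf 3 399 400))))))) (merge (node 467 (merge (leaf 0 431 466) (node 435 (merge (leaf 0 432 468) (node 403 (merge (leaf 2 399 402) (leaf 2 400 404))))))) (merge (node 403 (merge (leaf 2 399 402) (node 435 (merge (leaf 2 400 404) (node 399 (merge (leaf 3 398 398) (leaf 3 399 400))))))) (node 497 (merge (node 465 (merge (leaf 5 400 401) (node 529 (merge (leaf 7 400 400) (leaf 6 401 402))))) (merge (node 498 (merge (node 527 (merge (leaf 1 495 499) (leaf 1 494 526))) (node 466 (merge (leaf 2 463 467) (node 402 (merge (leaf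 5 401 529) (node 403 (merge (leaf 6 370 371) (leaf 2 399 431))))))))) (merge (node 498 (merge (node 527 (merge (leaf 1 495 499) (node 526 (merge (leaf 1 494 495) (leaf 2 493 525))))) (node 466 (merge (leaf 2 463 467) (node 401 (merge (leaf 5 400 465) (node 369 (merge (leaf 4 337 337) (leaf 7 369 402))))))))) (node 465 (merge (leaf 5 400 401) (node 529 (merge (leaf 7 400 400) (node 561 (merge (leaf 6 433 466) (node 594 (merge (leaf 4 465 562) (node 593 (merge (leaf 7 496 625) (leaf 4 497 626))))))))))))))))))))))))))))) (hyp 0)))))))) nA_20 cA_20 12 (by decide +kernel)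
def nA_21 : ℕ := 0x1000000018000000000000001000000000000000000000000000000000000000000000000000000000000000000000000000000000000000000000000000000000000
def cA_21 : ℕ := 0x600000006000000068000000ae000000e0000003f7000001ee000003ff000000e8000000a000000000000000000000000000000000000000000000000000000000000000000000000000000000000
theorem lA_21 : S nA_21 cA_21 10 := S_of_chk [] trivial (node 433 (merge (node 464 (merge (leaf 6 400 401) (node 527 (merge (leaf 5 399 400) (leaf 5 431 559))))) (merge (node 431 (merge (node 464 (merge (leaf 7 399 399) (leaf 6 400 401))) (merge (node 401 (merge (leaf 6 400 464) (node 430 (merge (leaf 2 398 402) (node 465 (merge (leaf 0 430 466) (leaf 5 400 497))))))) (merge (node 430 (merge (node 465 (merge (leaf 0 430 466) (node 401 (merge (leaf 2 398 402) (leaf 5 400 497))))) (merge (node 402 (merge (leaf 2 398 401) (node 434 (merge (leaf 2 399 403) (node 398 (merge (leaf 3 397 397) (leaf 3 398 399))))))) (node 466 (merge (leaf 0 430 465) (node 434 (merge (leaf 0 431 467) (node 398 (merge (leaf 3 397 397) (leaf 3 398 399)))))))))) (node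 399 (merge (leaf 7 399 464) (node 434 (merge (leaf 3 398 398) (node 466 (merge (leaf 0 431 467) (node 465 (merge (leaf 0 430 430) (node 402 (merge (leaf 2 399 403) (node 497 (merge (leaf 5 369 370) (leaf 6 401 529))))))))))))))))) (merge (node 466 (merge (node 431 (merge (node 465 (merge (leaf 0 430 430) (node 467 (merge (leaf 0 431 434) (leaf 3 432 468))))) (merge (node 434 (merge (leaf 0 431 467) (node 399 (merge (leaf 3 398 398) (leaf 7 399 464))))) (node 430 (merge (leaf 0 430 465) (node 461 (merge (leaf 1 429 462) (node 429 (merge (leaf 1 428 460) (node 397 (merge (leaf 3 396 396) (leaf 3 397 398)))))))))))) (merge (node 431 (merge (node 464 (merge (leaf 7 399 399) (node 527 (merge (leaf 5 399 400) (leaf 5 431 559))))) (node 430 (merge (leaf 0 430 465) (node 461 (merge (leaf 1 429 462) (node 429 (merge (leaf 1 428 460) (node 397 (merge (leaf 3 396 396) (leaf 3 397 398))))))))))) (merge (node 497 (merge (node 467 (merge (leaf 2 463 498) (node 468 (merge (leaf 1 464 465) (node 434 (merge (leaf 0 432 435) (leaf 3 433 469))))))) (merge (node 527 (merge (node 526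 (merge (leaf 1 494 498) (leaf 2 493 525))) (node 464 (merge (leaf 5 399 400) (leaf 5 431 559))))) (node 465 (merge (node 467 (merge (leaf 1 463 464) (leaf 1 464 468))) (node 529 (merge (leaf 7 400 400) (node 434 (merge (leaf 6 401 402) (leaf 6 433 561)))))))))) (merge (node 431 (merge (node 465 (merge (leaf 0 430 430) (node 467 (merge (leaf 0 431 434) (leaf 3 432 468))))) (merge (node 430 (merge (leaf 0 430 465) (node 461 (merge (leaf 1 429 462) (node 429 (merge (leaf 1 428 460) (node 397 (merge (leaf 3 396 396) (leaf 3 397 398))))))))) (node 434 (merge (leaf 0 431 467) (node 403 (merge (leaf 2 399 402) (node 435 (merge (leaf 2 400 404) (node 399 (merge (leaf 3 398 398) (leaf 3 399 400)))))))))))) (node 434 (merge (node 467 (merge (leaf 0 431 431) (node 468 (merge (leaf 0 432 435) (leaf 3 433 469))))) (merge (node 431 (merge (leaf 0 431 467) (node 402 (merge (leaf 2 399 403) (node 464 (merge (leaf 7 399 399) (node 529 (merge (leaf 4 432 561) (node 497 (merge (leaf 4 400 400) (leaf 5 401 498))))))))))) (merge (node 400 (merge (node 464 (merge (leaf 5 399 527) (node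 529 (merge (leaf 4 400 497) (leaf 4 432 561))))) (node 435 (merge (leaf 3 399 399) (node 403 (merge (leaf 2 400 404) (node 371 (merge (leaf 5 338 339) (node 498 (merge (leaf 6 370 402) (leaf 5 370 467))))))))))) (node 399 (merge (node 431 (merge (leaf 3 398 398) (leaf 7 399 464))) (merge (node 400 (merge (leaf 3 399 435) (node 464 (merge (leaf 7 367 367) (leaf 5 399 527))))) (node 431 (merge (leaf 3 398 398) (node 403 (merge (leaf 2 399 402) (node 435 (merge (leaf 3 399 400) (leaf 2 400 404))))))))))))))))))) (node 434 (merge (node 435 (merge (node 403 (merge (leaf 2 400 404) (node 431 (merge (leaf 2 399 402) (node 399 (merge (leaf 3 398 398) (leaf 3 399 400))))))) (merge (node 468 (merge (leaf 0 432 467) (node 436 (merge (leaf 0 433 469) (node 404 (merge (leaf 2 400 403) (leaf 2 401 405))))))) (node 468 (merge (leaf 0 432 467) (node 436 (merge (leaf 0 433 469) (node 400 (merge (leaf 3 399 399) (leaf 3 400 401)))))))))) (merge (node 435 (merge (node 467 (merge (leaf 0 432 468) (node 431 (merge (leaf 0 431 466) (node 399 (merge (leaf 3 398 398) (leaf 3 399 400)))))))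 (merge (node 468 (merge (leaf 0 432 467) (node 436 (merge (leaf 0 433 469) (node 404 (merge (leaf 2 400 403) (leaf 2 401 405))))))) (node 404 (merge (leaf 2 400 403) (node 436 (merge (leaf 2 401 405) (node 400 (merge (leaf 3 399 399) (leaf 3 400 401)))))))))) (merge (node 435 (merge (node 403 (merge (leaf 2 400 404) (node 431 (merge (leaf 2 399 402) (node 399 (merge (leaf 3 398 398) (leaf 3 399 400))))))) (merge (node 468 (merge (leaf 0 432 467) (node 436 (merge (leaf 0 433 469) (node 404 (merge (leaf 2 400 403) (leaf 2 401 405))))))) (node 467 (merge (leaf 0 432 468) (node 431 (merge (leaf 0 431 466) (node 399 (merge (leaf 3 398 398) (leaf 3 399 400)))))))))) (merge (node 399 (merge (node 400 (merge (leaf 3 399 435) (node 398 (merge (leaf 0 397 397) (leaf 0 398 401))))) (merge (node 431 (merge (leaf 3 398 398) (node 467 (merge (leaf 0 431 466) (node 435 (merge (leaf 3 399 400) (leaf 0 432 468))))))) (merge (node 435 (merge (leaf 3 399 400) (node 467 (merge (leaf 0 432 468) (node 466 (merge (leaf 0 431 431) (node 497 (merge (leaf 2 463 498) (node 465 (merge (leaf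 5 400 401) (node 529 (merge (leaf 6 401 402) (leaf 6 433 561))))))))))))) (node 431 (merge (leaf 3 398 398) (node 466 (merge (leaf 0 431 467) (node 465 (merge (leaf 0 430 430) (node 401 (merge (leaf 5 400 497) (node 369 (merge (leaf 4 337 337) (leaf 4 369 498))))))))))))))) (merge (node 497 (merge (node 465 (merge (leaf 5 400 401) (node 529 (merge (leaf 7 400 400) (leaf 6 401 402))))) (merge (node 498 (merge (node 527 (merge (leaf 1 495 499) (leaf 1 494 526))) (node 467 (merge (leaf 2 463 466) (node 435 (merge (leaf 0 432 468) (node 404 (merge (leaf 2 400 403) (node 436 (merge (leaf 2 401 405) (node 400 (merge (leaf 3 399 399) (leaf 3 400 401))))))))))))) (node 498 (merge (node 527 (merge (leaf 1 495 499) (node 526 (merge (leaf 2 493 525) (leaf 2 494 529))))) (merge (node 527 (merge (leaf 1 495 499) (node 526 (merge (leaf 1 494 495) (leaf 2 493 525))))) (node 466 (merge (node 467 (merge (leaf 2 463 495) (node 468 (merge (leaf 1 464 465) (leaf 1 465 469))))) (node 402 (merge (leaf 5 401 529) (node 403 (merge (leaf 6 370 371) (node 404 (merge (leaf 1 401 405) (leaf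 2 400 435))))))))))))))) (merge (node 497 (merge (node 465 (merge (leaf 5 400 401) (node 529 (merge (leaf 7 400 400) (leaf 6 401 402))))) (merge (node 498 (merge (node 527 (merge (leaf 1 495 499) (leaf 1 494 526))) (node 466 (merge (leaf 2 463 467) (node 402 (merge (leaf 5 401 529) (node 403 (merge (leaf 6 370 371) (leaf 2 399 431))))))))) (merge (node 498 (merge (node 527 (merge (leaf 1 495 499) (node 526 (merge (leaf 1 494 495) (leaf 2 493 525))))) (node 466 (merge (leaf 2 463 467) (node 401 (merge (leaf 5 400 465) (node 369 (merge (leaf 4 337 337) (leaf 7 369 402))))))))) (node 465 (merge (leaf 5 400 401) (node 529 (merge (leaf 7 400 400) (node 561 (merge (leaf 6 433 466) (node 594 (merge (leaf 4 465 562) (node 593 (merge (leaf 7 496 625) (leaf 4 497 626))))))))))))))) (merge (node 467 (merge (node 468 (merge (leaf 0 432 435) (node 466 (merge (leaf 3 432 465) (leaf 3 433 469))))) (merge (node 435 (merge (leaf 0 432 468) (node 403 (merge (leaf 2 400 404) (node 402 (merge (leaf 2 399 431) (node 499 (merge (leaf 7 370 370) (leaf 7 402 531))))))))) (node 431 (merge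 (leaf 0 431 466) (node 402 (merge (leaf 2 399 403) (node 430 (merge (leaf 2 398 401) (node 398 (merge (leaf 3 397 397) (leaf 3 398 399)))))))))))) (node 431 (merge (node 403 (merge (leaf 2 399 402) (node 435 (merge (leaf 2 400 404) (node 399 (merge (leaf 3 398 398) (leaf 3 399 400))))))) (merge (node 402 (merge (leaf 2 399 403) (node 430 (merge (leaf 2 398 401) (node 461 (merge (leaf 1 429 462) (node 429 (merge (leaf 1 428 460) (node 397 (merge (leaf 3 396 396) (leaf 3 397 398))))))))))) (merge (node 398 (merge (leaf 3 398 399) (node 430 (merge (leaf 3 397 397) (node 465 (merge (leaf 0 430 466) (node 461 (merge (leaf 1 429 462) (node 429 (merge (leaf 1 428 460) (node 401 (merge (leaf 2 397 400) (leaf 5 400 497))))))))))))) (node 403 (merge (leaf 2 399 402) (node 435 (merge (leaf 2 400 404) (node 400 (merge (leaf 3 399 399) (node 401 (merge (leaf 3 400 436) (node 430 (merge (leaf 2 397 429) (node 465 (merge (leaf 0 430 466) (leaf 5 400 497))))))))))))))))))))))))))))) nA_21 cA_21 10 (by decide +kernel)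
def nA_22 : ℕ := 0x1000000018000000000000000000000000000000000000000000000000000000000000000000000000000000000000000000000000000000000000000000000000000
def cA_22 : ℕ := 0xa0000007e0000007e000001ef800003af800001e7000003f7800001fe000003ff000000fa000000b000000000000000000000000000000000000000000000000000000000000000000000000000000000000
theorem lA_22 : S nA_22 cA_22 12 := S_of_chk [(nA_21, cA_21, 10)] ⟨lA_21, trivial⟩ (node 432 (merge (node 464 (merge (node 527 (merge (leaf 5 399 400) (leaf 5 431 559))) (node 431 (merge (leaf 7 399 399) (node 433 (merge (leaf 6 400 401) (node 434 (merge (node 467 (merge (leaf 0 431 466) (node 435 (merge (leaf 0 432 468) (node 403 (merge (leaf 2 399 402) (leaf 2 400 404))))))) (merge (node 466 (merge (leaf 0 431 467) (node 430 (merge (leaf 0 430 465) (node 461 (merge (leaf 1 429 462) (node 429 (merge (leaf 1 428 460) (node 397 (merge (leaf 3 396 396) (leaf 3 397 398))))))))))) (merge (node 403 (merge (leaf 2 399 402) (node 435 (merge (leaf 2 400 404) (node 468 (merge (leaf 0 432 467) (node 436 (merge (leaf 1 432 465) (leaf 0 433 469)))))))))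 (node 403 (merge (leaf 2 399 402) (node 435 (merge (leaf 2 400 404) (node 465 (merge (leaf 1 432 436) (node 430 (merge (leaf 0 429 429) (leaf 0 430 466))))))))))))))))))) (merge (node 527 (merge (node 464 (merge (leaf 5 399 400) (leaf 5 431 559))) (merge (node 526 (merge (node 525 (merge (leaf 2 493 497) (leaf 2 492 524))) (merge (node 525 (merge (leaf 2 492 524) (node 557 (merge (leaf 1 524 556) (node 529 (merge (leaf 1 525 558) (node 493 (merge (leaf 3 492 492) (leaf 0 493 494))))))))) (node 497 (merge (leaf 1 494 498) (node 494 (merge (node 493 (merge (leaf 0 492 492) (leaf 0 493 529))) (node 462 (merge (leaf 3 461 461) (node 430 (merge (leaf 4 398 398) (node 559 (merge (leaf 4 430 526) (leaf 7 462 591)))))))))))))) (node 526 (merge (node 525 (merge (leaf 2 493 497) (leaf 2 492 524))) (merge (node 525 (merge (leaf 2 492 524) (node 557 (merge (leaf 1 524 556) (node 529 (merge (leaf 1 525 558) (node 561 (merge (leaf 4 432 464) (leaf 0 526 562))))))))) (node 497 (merge (leaf 1 494 498) (node 464 (merge (leaf 5 399 400) (node 529 (merge (leaf 4 432 561) (node 494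 (merge (leaf 0 493 493) (node 462 (merge (leaf 3 461 461) (node 430 (merge (leaf 4 398 398) (node 431 (merge (leaf 6 398 399) (node 429 (merge (leaf 7 397 397) (leaf 0 429 465))))))))))))))))))))))) (merge (node 464 (merge (node 529 (merge (leaf 4 432 561) (node 400 (merge (leaf 4 400 497) (node 401 (merge (leaf 6 368 369) (leaf 6 400 433))))))) (merge (node 529 (merge (leaf 4 432 561) (node 400 (merge (leaf 4 400 497) (node 399 (merge (leaf 7 367 367) (leaf 7 399 431))))))) (merge (node 401 (merge (leaf 6 400 433) (node 400 (merge (leaf 6 368 369) (node 399 (merge (leaf 7 367 367) (leaf 7 399 431))))))) (node 431 (merge (leaf 7 399 399) (node 433 (merge (leaf 6 400 401) (node 434 (merge (node 467 (merge (leaf 0 431 466) (node 435 (merge (leaf 0 432 468) (node 403 (merge (leaf 2 399 402) (leaf 2 400 404))))))) (merge (node 403 (merge (leaf 2 399 402) (node 435 (merge (leaf 2 400 404) (node 468 (merge (leaf 0 432 467) (node 436 (merge (leaf 1 432 465) (leaf 0 433 469))))))))) (merge (node 466 (merge (leaf 0 431 467) (node 430 (merge (leaf 0 430 465) (node 461 (merge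 (leaf 1 429 462) (node 429 (merge (leaf 1 428 460) (node 397 (merge (leaf 3 396 396) (leaf 3 397 398))))))))))) (node 402 (merge (leaf 2 399 403) (node 529 (merge (leaf 4 432 561) (node 465 (merge (leaf 6 401 497) (node 430 (merge (leaf 0 429 429) (leaf 0 430 466))))))))))))))))))))) (merge (node 497 (merge (node 527 (merge (node 526 (merge (leaf 1 494 498) (leaf 2 493 525))) (node 464 (merge (leaf 5 399 400) (leaf 5 431 559))))) (merge (node 465 (merge (node 466 (merge (leaf 2 462 494) (node 467 (merge (leaf 1 463 464) (leaf 1 464 468))))) (merge (node 433 (merge (leaf 5 400 401) (node 400 (merge (leaf 7 400 529) (node 368 (merge (leaf 4 336 336) (leaf 4 368 464))))))) (node 433 (merge (leaf 5 400 401) (node 529 (merge (leaf 7 400 400) (node 434 (merge (leaf 6 401 402) (node 466 (merge (leaf 6 433 561) (node 467 (merge (leaf 0 431 431) (leaf 1 464 468)))))))))))))) (node 498 (merge (node 527 (merge (leaf 1 495 499) (leaf 1 494 526))) (merge (node 467 (merge (leaf 2 463 466) (node 499 (merge (leaf 2 464 468) (node 532 (merge (leaf 0 496 531) (node 500 (merge (leaf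 1 496 529) (leaf 0 497 533))))))))) (node 466 (merge (leaf 2 463 467) (node 494 (merge (leaf 2 462 465) (node 526 (merge (leaf 1 493 525) (leaf 1 494 527))))))))))))) (merge (node 527 (merge (node 464 (merge (leaf 5 399 400) (leaf 5 431 559))) (merge (node 526 (merge (node 525 (merge (leaf 2 493 497) (leaf 2 492 524))) (merge (node 525 (merge (leaf 2 492 524) (node 557 (merge (leaf 1 524 556) (node 529 (merge (leaf 1 525 558) (node 493 (merge (leaf 3 492 492) (leaf 0 493 494))))))))) (node 497 (merge (leaf 1 494 498) (node 494 (merge (node 493 (merge (leaf 0 492 492) (leaf 0 493 529))) (node 462 (merge (leaf 3 461 461) (node 430 (merge (leaf 4 398 398) (node 559 (merge (leaf 4 430 526) (leaf 7 462 591)))))))))))))) (node 494 (merge (node 493 (merge (leaf 0 492 492) (leaf 0 493 529))) (node 526 (merge (node 525 (merge (leaf 1 493 497) (node 524 (merge (leaf 2 491 523) (leaf 2 492 527))))) (merge (node 525 (merge (leaf 2 492 524) (node 557 (merge (leaf 1 524 556) (node 462 (merge (leaf 5 429 430) (node 589 (merge (leaf 5 461 558) (leaf 6 493 621))))))))) (node 497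 (merge (leaf 1 494 498) (node 462 (merge (leaf 3 461 461) (node 430 (merge (leaf 4 398 398) (node 400 (merge (leaf 5 399 464) (node 431 (merge (leaf 6 398 399) (node 429 (merge (leaf 7 397 397) (leaf 2 397 401))))))))))))))))))))) (merge (node 494 (merge (node 493 (merge (leaf 0 493 529) (node 492 (merge (leaf 0 492 527) (node 524 (merge (leaf 1 491 523) (leaf 1 492 525))))))) (merge (node 493 (merge (leaf 0 493 529) (node 492 (merge (leaf 0 492 527) (node 460 (merge (leaf 3 459 459) (leaf 3 460 461))))))) (merge (node 493 (merge (leaf 0 493 529) (node 525 (merge (leaf 1 492 524) (node 497 (merge (leaf 1 493 526) (node 461 (merge (leaf 3 460 460) (leaf 3 461 462))))))))) (merge (node 493 (merge (node 492 (merge (leaf 0 492 527) (node 524 (merge (leaf 1 491 523) (leaf 1 492 525))))) (merge (node 492 (merge (leaf 0 492 527) (node 460 (merge (leaf 3 459 459) (leaf 3 460 461))))) (node 525 (merge (leaf 1 492 524) (node 526 (merge (leaf 1 493 497) (node 461 (merge (leaf 3 460 460) (node 558 (merge (leaf 4 429 429) (leaf 7 461 590)))))))))))) (node 526 (merge (node 525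 (merge (leaf 1 493 497) (node 524 (merge (leaf 2 491 523) (leaf 2 492 527))))) (merge (node 462 (merge (node 497 (merge (leaf 3 461 461) (leaf 1 493 525))) (merge (node 461 (merge (leaf 3 461 497) (node 558 (merge (leaf 7 429 429) (node 591 (merge (leaf 4 462 559) (node 590 (merge (leaf 4 494 623) (node 589 (merge (leaf 5 461 557) (leaf 5 493 621))))))))))) (merge (node 525 (merge (leaf 1 493 497) (node 430 (merge (leaf 5 429 557) (node 399 (merge (leaf 6 398 431) (node 398 (merge (leaf 6 366 367) (node 397 (merge (leaf 7 365 365) (leaf 7 397 429))))))))))) (node 430 (merge (node 557 (merge (leaf 5 429 525) (node 558 (merge (leaf 5 461 589) (node 429 (merge (leaf 7 397 397) (leaf 7 429 461))))))) (merge (node 399 (merge (leaf 6 398 431) (node 398 (merge (leaf 6 366 367) (node 397 (merge (leaf 7 365 365) (leaf 7 397 429))))))) (node 431 (merge (leaf 6 398 399) (node 433 (merge (leaf 1 429 461) (node 466 (merge (leaf 0 430 465) (node 434 (merge (leaf 0 431 467) (node 402 (merge (leaf 2 398 401) (leaf 2 399 403)))))))))))))))))) (merge (node 462 (merge (node 527 (merge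 (node 559 (merge (leaf 4 430 430) (leaf 7 462 591))) (node 525 (merge (leaf 2 492 524) (node 557 (merge (leaf 1 524 556) (node 589 (merge (leaf 5 461 558) (leaf 6 493 621))))))))) (merge (node 430 (merge (node 527 (merge (leaf 4 398 398) (leaf 4 430 559))) (merge (node 399 (merge (leaf 6 398 431) (node 398 (merge (leaf 6 366 367) (node 397 (merge (leaf 7 365 365) (leaf 7 397 429))))))) (node 559 (merge (leaf 4 430 527) (node 558 (merge (leaf 4 462 591) (node 429 (merge (leaf 7 397 397) (leaf 7 429 461)))))))))) (merge (node 430 (merge (node 527 (merge (leaf 4 398 398) (leaf 4 430 559))) (merge (node 399 (merge (leaf 6 398 431) (node 398 (merge (leaf 6 366 367) (node 397 (merge (leaf 7 365 365) (leaf 7 397 429))))))) (node 525 (merge (leaf 5 429 557) (node 524 (merge (leaf 2 491 523) (leaf 2 492 527)))))))) (merge (node 430 (merge (node 557 (merge (leaf 5 429 525) (node 558 (merge (leaf 5 461 589) (node 429 (merge (leaf 7 397 397) (leaf 7 429 461))))))) (merge (node 399 (merge (leaf 6 398 431) (node 398 (merge (leaf 6 366 367) (node 397 (merge (leaf 7 365 365) (leaf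 7 397 429))))))) (node 431 (merge (leaf 6 398 399) (node 433 (merge (leaf 1 429 461) (node 466 (merge (leaf 0 430 465) (node 434 (merge (leaf 0 431 467) (node 402 (merge (leaf 2 398 401) (leaf 2 399 403)))))))))))))) (node 558 (merge (node 591 (merge (leaf 4 462 559) (node 590 (merge (leaf 4 494 623) (node 589 (merge (leaf 5 461 557) (leaf 5 493 621))))))) (merge (node 557 (merge (leaf 5 461 589) (node 527 (merge (leaf 1 525 529) (node 556 (merge (leaf 1 524 525) (leaf 2 523 555))))))) (merge (node 559 (merge (leaf 4 462 591) (node 557 (merge (leaf 5 461 589) (node 527 (merge (leaf 1 525 529) (leaf 2 524 556))))))) (merge (node 591 (merge (leaf 4 462 559) (node 590 (merge (leaf 4 494 623) (node 621 (merge (leaf 5 493 589) (node 622 (merge (leaf 6 494 527) (leaf 5 525 653))))))))) (node 591 (merge (leaf 4 462 559) (node 590 (merge (leaf 4 494 623) (node 527 (merge (leaf 6 494 622) (node 557 (merge (leaf 1 525 529) (node 525 (merge (leaf 2 492 524) (leaf 1 524 556))))))))))))))))))))) (node 462 (merge (node 461 (merge (leaf 3 461 497) (node 558 (merge (leaf 7 429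 429) (node 591 (merge (leaf 4 462 559) (node 590 (merge (leaf 4 494 623) (node 589 (merge (leaf 5 461 557) (leaf 5 493 621))))))))))) (merge (node 558 (merge (node 591 (merge (leaf 4 462 559) (node 590 (merge (leaf 4 494 623) (node 589 (merge (leaf 5 461 557) (leaf 5 493 621))))))) (merge (node 559 (merge (leaf 4 462 591) (node 430 (merge (leaf 4 430 527) (node 399 (merge (leaf 6 398 431) (node 398 (merge (leaf 6 366 367) (node 397 (merge (leaf 7 365 365) (leaf 7 397 429))))))))))) (merge (node 589 (merge (leaf 5 461 557) (node 590 (merge (leaf 5 493 621) (node 527 (merge (leaf 6 494 622) (node 430 (merge (leaf 4 398 398) (leaf 4 430 559))))))))) (node 589 (merge (leaf 5 461 557) (node 590 (merge (leaf 5 493 621) (node 623 (merge (leaf 4 494 591) (node 622 (merge (leaf 6 494 527) (leaf 4 526 655))))))))))))) (node 497 (merge (leaf 3 461 461) (node 498 (merge (leaf 1 494 527) (node 467 (merge (leaf 2 463 466) (node 499 (merge (leaf 2 464 468) (node 532 (merge (leaf 0 496 531) (node 500 (merge (leaf 1 496 529) (leaf 0 497 533))))))))))))))))))))))))) (merge (node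 497 (merge (node 494 (merge (node 493 (merge (leaf 0 493 529) (node 461 (merge (leaf 3 460 460) (leaf 3 461 462))))) (merge (node 493 (merge (leaf 0 493 529) (node 525 (merge (leaf 1 492 524) (leaf 1 493 526))))) (node 526 (merge (leaf 1 493 525) (node 527 (merge (leaf 1 494 498) (node 462 (merge (leaf 3 461 461) (node 559 (merge (leaf 4 430 430) (leaf 7 462 591)))))))))))) (merge (node 498 (merge (node 527 (merge (leaf 1 495 499) (leaf 1 494 526))) (merge (node 467 (merge (leaf 2 463 466) (node 499 (merge (leaf 2 464 468) (leaf 1 495 527))))) (node 466 (merge (leaf 2 463 467) (node 494 (merge (leaf 2 462 465) (node 525 (merge (leaf 1 493 526) (node 493 (merge (leaf 1 492 524) (node 461 (merge (leaf 3 460 460) (leaf 3 461 462)))))))))))))) (node 433 (merge (node 401 (merge (leaf 6 400 464) (leaf 5 400 465))) (merge (node 464 (merge (leaf 6 400 401) (node 529 (merge (leaf 4 400 400) (leaf 4 432 561))))) (merge (node 465 (merge (leaf 5 400 401) (node 529 (merge (leaf 7 400 400) (node 434 (merge (leaf 6 401 402) (node 561 (merge (leaf 6 433 466) (node 594 (merge (leaf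 4 465 562) (node 593 (merge (leaf 7 496 625) (leaf 4 497 626))))))))))))) (node 529 (merge (node 400 (merge (leaf 4 400 464) (leaf 7 400 465))) (merge (node 464 (merge (leaf 4 400 400) (leaf 4 432 561))) (merge (node 465 (merge (leaf 7 400 400) (node 434 (merge (leaf 6 401 402) (node 561 (merge (leaf 6 433 466) (node 594 (merge (leaf 4 465 562) (node 593 (merge (leaf 7 496 625) (leaf 4 497 626))))))))))) (node 561 (merge (leaf 4 432 464) (node 593 (merge (leaf 7 496 625) (node 594 (merge (leaf 4 497 626) (node 562 (merge (leaf 4 465 465) (node 563 (merge (leaf 3 528 564) (node 592 (merge (leaf 2 559 591) (leaf 5 496 624)))))))))))))))))))))))) (hyp 0))))))))) nA_22 cA_22 12 (by decide +kernel)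
def nA_23 : ℕ := 0x1000000038000000000000000000000000000000000000000000000000000000000000000000000000000000000000000000000000000000000000000000000000000
def cA_23 : ℕ := 0xa0000003e0000007e0000006f8000002f00000007000001fb800001ff000001ff800000700000005000000000000000000000000000000000000000000000000000000000000000000000000000000000000
theorem lA_23 : S nA_23 cA_23 11 := S_of_chk [] trivial (node 431 (merge (node 494 (merge (node 493 (merge (leaf 0 493 529) (node 525 (merge (leaf 1 492 524) (leaf 1 493 526))))) (merge (node 526 (merge (leaf 1 493 525) (node 463 (merge (leaf 4 399 399) (node 558 (merge (leaf 5 430 527) (leaf 6 462 590))))))) (node 493 (merge (leaf 0 493 529) (node 492 (merge (leaf 0 492 527) (node 460 (merge (leaf 3 459 459) (leaf 3 460 461)))))))))) (merge (node 465 (merge (node 466 (merge (leaf 2 462 494) (node 467 (merge (leaf 1 463 464) (leaf 1 464 468))))) (merge (node 399 (merge (leaf 4 399 463) (node 433 (merge (leaf 5 400 401) (node 432 (merge (leaf 7 399 464) (node 434 (merge (leaf 3 398 398) (node 403 (merge (leaf 2 399 402) (node 435 (merge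 (leaf 3 399 400) (leaf 2 400 404))))))))))))) (node 466 (merge (leaf 2 462 494) (node 467 (merge (leaf 1 464 468) (node 433 (merge (leaf 5 400 401) (node 432 (merge (leaf 0 430 430) (leaf 0 431 434)))))))))))) (merge (node 432 (merge (node 399 (merge (leaf 4 399 463) (leaf 7 399 464))) (merge (node 464 (merge (leaf 7 399 399) (node 400 (merge (leaf 5 399 527) (leaf 4 400 529))))) (merge (node 463 (merge (leaf 4 399 399) (node 527 (merge (leaf 6 399 400) (node 526 (merge (leaf 2 493 525) (leaf 5 430 558))))))) (node 527 (merge (node 464 (merge (leaf 5 399 400) (leaf 5 431 559))) (merge (node 463 (merge (leaf 6 399 400) (node 526 (merge (leaf 5 430 558) (node 525 (merge (leaf 2 493 497) (leaf 2 492 524))))))) (node 559 (merge (leaf 5 431 464) (node 591 (merge (leaf 6 495 623) (node 592 (merge (leaf 4 495 624) (node 590 (merge (leaf 5 494 622) (node 558 (merge (leaf 5 462 463) (node 593 (merge (leaf 3 557 557) (leaf 3 558 594)))))))))))))))))))) (merge (node 432 (merge (node 464 (merge (leaf 7 399 399) (node 527 (merge (leaf 5 399 400) (leaf 5 431 559))))) (merge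 (node 465 (merge (node 466 (merge (leaf 2 462 494) (node 467 (merge (leaf 1 463 464) (leaf 1 464 468))))) (merge (node 433 (merge (leaf 5 400 401) (node 400 (merge (leaf 7 400 529) (node 368 (merge (leaf 4 336 336) (leaf 4 368 464))))))) (node 433 (merge (leaf 5 400 401) (node 529 (merge (leaf 7 400 400) (node 434 (merge (leaf 6 401 402) (node 466 (merge (leaf 6 433 561) (node 467 (merge (leaf 0 431 431) (leaf 1 464 468)))))))))))))) (merge (node 433 (merge (node 464 (merge (leaf 7 399 399) (leaf 6 400 401))) (merge (node 401 (merge (leaf 6 400 464) (leaf 5 400 465))) (merge (node 399 (merge (leaf 7 399 464) (node 434 (merge (leaf 3 398 398) (node 402 (merge (leaf 2 399 403) (node 465 (merge (leaf 6 401 529) (node 370 (merge (leaf 5 337 338) (leaf 5 369 466))))))))))) (node 430 (merge (node 465 (merge (leaf 0 430 466) (node 401 (merge (leaf 2 398 402) (leaf 5 400 497))))) (merge (node 402 (merge (leaf 2 398 401) (node 434 (merge (leaf 2 399 403) (node 398 (merge (leaf 3 397 397) (leaf 3 398 399))))))) (node 466 (merge (leaf 0 430 465) (node 434 (merge (leaf 0 431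 467) (node 398 (merge (leaf 3 397 397) (leaf 3 398 399)))))))))))))) (node 433 (merge (node 465 (merge (leaf 5 400 401) (node 466 (merge (leaf 2 462 494) (node 467 (merge (leaf 0 431 434) (leaf 1 464 468))))))) (merge (node 401 (merge (leaf 5 400 465) (node 402 (merge (leaf 2 398 430) (node 403 (merge (leaf 1 399 400) (leaf 1 400 404))))))) (merge (node 434 (merge (node 467 (merge (leaf 0 431 466) (node 435 (merge (leaf 0 432 468) (node 399 (merge (leaf 3 398 398) (leaf 3 399 400))))))) (merge (node 403 (merge (leaf 2 399 402) (node 435 (merge (leaf 2 400 404) (node 399 (merge (leaf 3 398 398) (leaf 3 399 400))))))) (node 466 (merge (leaf 0 431 467) (node 465 (merge (leaf 0 430 430) (node 402 (merge (leaf 2 399 403) (node 497 (merge (leaf 5 369 370) (leaf 6 401 529)))))))))))) (node 430 (merge (node 402 (merge (leaf 2 398 401) (node 434 (merge (leaf 2 399 403) (node 467 (merge (leaf 0 431 466) (node 435 (merge (leaf 0 432 468) (node 399 (merge (leaf 3 398 398) (leaf 3 399 400))))))))))) (merge (node 398 (merge (leaf 3 397 397) (node 434 (merge (leaf 3 398 399)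 (node 467 (merge (leaf 0 431 466) (node 435 (merge (leaf 0 432 468) (node 403 (merge (leaf 2 399 402) (leaf 2 400 404))))))))))) (merge (node 397 (merge (leaf 3 397 398) (node 429 (merge (leaf 3 396 396) (node 460 (merge (leaf 1 428 461) (node 428 (merge (leaf 1 427 459) (node 400 (merge (leaf 2 396 399) (leaf 2 397 401))))))))))) (node 401 (merge (leaf 2 398 402) (node 429 (merge (leaf 2 397 400) (node 460 (merge (leaf 1 428 461) (node 428 (merge (leaf 1 427 459) (node 396 (merge (leaf 3 395 395) (leaf 3 396 397))))))))))))))))))))))) (node 464 (merge (node 465 (merge (node 466 (merge (leaf 1 463 467) (leaf 2 462 494))) (node 432 (merge (node 529 (merge (leaf 4 400 400) (leaf 4 432 561))) (merge (node 400 (merge (leaf 4 368 368) (node 401 (merge (leaf 6 368 369) (leaf 6 400 433))))) (node 529 (merge (leaf 4 432 561) (node 433 (merge (leaf 5 400 401) (node 434 (merge (leaf 6 401 402) (node 435 (merge (leaf 1 432 436) (leaf 1 431 463)))))))))))))) (merge (node 432 (merge (node 527 (merge (leaf 5 399 400) (leaf 5 431 559))) (merge (node 529 (merge (leaf 4 400 400)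 (leaf 4 432 561))) (node 529 (merge (leaf 4 432 561) (node 527 (merge (leaf 5 431 559) (node 526 (merge (leaf 2 493 525) (node 558 (merge (leaf 1 525 557) (node 463 (merge (leaf 5 430 431) (node 590 (merge (leaf 6 462 494) (leaf 6 494 622)))))))))))))))) (merge (node 527 (merge (node 559 (merge (leaf 5 431 432) (node 591 (merge (leaf 6 463 495) (leaf 6 495 623))))) (merge (node 526 (merge (leaf 2 493 525) (node 558 (merge (leaf 5 430 463) (node 591 (merge (leaf 6 463 559) (node 590 (merge (leaf 6 494 622) (node 494 (merge (leaf 4 494 623) (node 493 (merge (leaf 2 461 465) (leaf 0 492 492))))))))))))) (node 526 (merge (leaf 2 493 525) (node 432 (merge (leaf 5 399 400) (node 463 (merge (leaf 5 430 558) (node 433 (merge (leaf 6 400 401) (node 434 (merge (leaf 1 431 435) (node 466 (merge (leaf 0 431 467) (node 430 (merge (leaf 7 398 398) (leaf 0 430 465)))))))))))))))))) (merge (node 527 (merge (node 559 (merge (leaf 5 431 432) (node 591 (merge (leaf 6 463 495) (leaf 6 495 623))))) (merge (node 526 (merge (leaf 2 493 525) (node 558 (merge (leaf 5 430 463) (node 557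 (merge (leaf 1 525 529) (node 556 (merge (leaf 2 523 555) (leaf 2 524 559))))))))) (node 526 (merge (leaf 2 493 525) (node 432 (merge (leaf 5 399 400) (node 463 (merge (leaf 5 430 558) (node 433 (merge (leaf 6 400 401) (node 434 (merge (leaf 1 431 435) (node 466 (merge (leaf 0 431 467) (node 430 (merge (leaf 7 398 398) (leaf 0 430 465)))))))))))))))))) (merge (node 433 (merge (node 432 (merge (leaf 6 400 401) (node 529 (merge (leaf 4 400 400) (leaf 4 432 561))))) (merge (node 465 (merge (leaf 5 400 401) (node 466 (merge (leaf 1 463 467) (leaf 2 462 494))))) (node 432 (merge (node 527 (merge (leaf 5 399 400) (leaf 5 431 559))) (merge (node 529 (merge (leaf 4 400 400) (leaf 4 432 561))) (node 434 (merge (node 402 (merge (leaf 2 399 403) (node 529 (merge (leaf 6 401 465) (leaf 4 432 561))))) (merge (node 467 (merge (leaf 0 431 466) (node 435 (merge (leaf 0 432 468) (node 403 (merge (leaf 2 399 402) (leaf 2 400 404))))))) (node 466 (merge (leaf 0 431 467) (node 494 (merge (leaf 2 462 465) (node 493 (merge (leaf 0 493 529) (node 527 (merge (leaf 0 492 492) (leaf 5 431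 559)))))))))))))))))) (node 526 (merge (node 494 (merge (leaf 1 493 525) (node 465 (merge (leaf 2 462 466) (leaf 2 461 493))))) (merge (node 527 (merge (leaf 2 493 525) (node 558 (merge (leaf 5 430 463) (node 529 (merge (leaf 1 525 557) (node 561 (merge (leaf 0 526 562) (leaf 7 464 593))))))))) (node 558 (merge (node 527 (merge (leaf 5 430 463) (node 529 (merge (leaf 1 525 557) (node 561 (merge (leaf 0 526 562) (leaf 7 464 593))))))) (merge (node 527 (merge (leaf 5 430 463) (node 529 (merge (leaf 1 525 557) (node 561 (merge (leaf 0 526 562) (node 593 (merge (leaf 7 464 464) (leaf 7 496 625))))))))) (merge (node 494 (merge (node 465 (merge (leaf 2 462 466) (leaf 2 461 493))) (node 590 (merge (leaf 6 462 463) (node 623 (merge (leaf 4 494 591) (node 622 (merge (leaf 4 526 655) (node 621 (merge (leaf 5 493 589) (leaf 5 525 653))))))))))) (node 527 (merge (node 529 (merge (leaf 1 525 557) (node 561 (merge (leaf 0 526 562) (leaf 7 464 593))))) (node 591 (merge (leaf 6 463 559) (node 590 (merge (leaf 6 494 622) (node 494 (merge (leaf 4 494 623) (node 493 (merge (leaf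 2 461 465) (leaf 0 492 492))))))))))))))))))))))))))))) nA_23 cA_23 11 (by decide +kernel)
def nA_24 : ℕ := 0x1000000018000000000000000000000000000000000000000000000000000000000000000000000000000000000000000000000000000000000000000000000000000
def cA_24 : ℕ := 0xa0000003e0000007e000001ef800003af000001e7000003fb800001ff000003ff800001f8000001d000000000000000000000000000000000000000000000000000000000000000000000000000000000000
theorem lA_24 : S nA_24 cA_24 12 := S_of_chk [(nA_23, cA_23, 11)] ⟨lA_23, trivial⟩ (node 497 (merge (node 498 (merge (node 467 (merge (leaf 2 463 466) (node 499 (merge (leaf 2 464 468) (leaf 1 495 527))))) (merge (node 499 (merge (leaf 1 495 527) (node 500 (merge (leaf 1 496 529) (node 464 (merge (leaf 3 463 463) (leaf 3 464 465))))))) (merge (node 467 (merge (leaf 2 463 466) (node 499 (merge (leaf 2 464 468) (node 500 (merge (leaf 1 496 529) (node 464 (merge (leaf 3 463 463) (leaf 3 464 465))))))))) (node 466 (merge (leaf 2 463 467) (node 494 (merge (leaf 2 462 465) (node 493 (merge (leaf 0 493 529) (node 492 (merge (leaf 0 492 527) (node 460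 (merge (leaf 3 459 459) (leaf 3 460 461))))))))))))))) (merge (node 498 (merge (node 527 (merge (leaf 1 495 499) (leaf 1 494 526))) (merge (node 466 (merge (leaf 2 463 467) (node 494 (merge (leaf 2 462 465) (node 526 (merge (leaf 1 493 525) (leaf 1 494 527))))))) (node 467 (merge (leaf 2 463 466) (node 499 (merge (leaf 2 464 468) (node 532 (merge (leaf 0 496 531) (node 500 (merge (leaf 0 497 533) (node 464 (merge (leaf 3 463 463) (leaf 3 464 465)))))))))))))) (merge (node 494 (merge (node 493 (merge (leaf 0 493 529) (node 525 (merge (leaf 1 492 524) (leaf 1 493 526))))) (merge (node 493 (merge (leaf 0 493 529) (node 492 (merge (leaf 0 492 527) (node 460 (merge (leaf 3 459 459) (leaf 3 460 461))))))) (merge (node 525 (merge (leaf 1 493 526) (node 493 (merge (leaf 1 492 524) (node 492 (merge (leaf 0 492 527) (node 460 (merge (leaf 3 459 459) (leaf 3 460 461))))))))) (node 526 (merge (leaf 1 493 525) (node 498 (merge (leaf 1 494 527) (node 467 (merge (leaf 2 463 466) (node 499 (merge (leaf 2 464 468) (node 532 (merge (leaf 0 496 531) (node 500 (merge (leaf 1 496 529)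 (leaf 0 497 533))))))))))))))))) (merge (node 526 (merge (node 527 (merge (leaf 1 494 498) (leaf 2 493 525))) (merge (node 494 (merge (leaf 1 493 525) (node 493 (merge (leaf 0 493 529) (node 464 (merge (leaf 2 461 465) (node 492 (merge (leaf 2 460 463) (node 460 (merge (leaf 3 459 459) (leaf 3 460 461))))))))))) (node 527 (merge (leaf 1 494 498) (node 558 (merge (node 557 (merge (leaf 1 525 529) (node 556 (merge (leaf 2 523 555) (leaf 2 524 559))))) (merge (node 463 (merge (leaf 5 430 431) (node 590 (merge (leaf 6 462 494) (leaf 5 462 559))))) (node 529 (merge (leaf 1 525 557) (node 494 (merge (leaf 3 493 493) (node 463 (merge (leaf 5 430 431) (leaf 6 462 590))))))))))))))) (merge (node 527 (merge (node 498 (merge (leaf 1 495 499) (leaf 1 494 526))) (merge (node 432 (merge (node 464 (merge (leaf 5 399 400) (leaf 5 431 559))) (merge (node 431 (merge (node 463 (merge (leaf 4 399 399) (leaf 6 399 400))) (merge (node 498 (merge (leaf 1 495 499) (node 466 (merge (leaf 2 463 467) (node 463 (merge (leaf 4 399 399) (node 430 (merge (leaf 7 398 398) (node 433 (merge (leaf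 0 430 465) (node 402 (merge (leaf 2 398 401) (node 434 (merge (leaf 2 399 403) (leaf 5 401 529))))))))))))))) (merge (node 498 (merge (leaf 1 495 499) (node 466 (merge (leaf 2 463 467) (node 463 (merge (leaf 6 399 400) (node 430 (merge (leaf 7 398 398) (node 433 (merge (leaf 0 430 465) (node 402 (merge (leaf 2 398 401) (node 434 (merge (leaf 2 399 403) (leaf 5 401 529))))))))))))))) (node 433 (merge (node 401 (merge (leaf 5 400 465) (node 402 (merge (leaf 2 398 430) (node 403 (merge (leaf 1 400 404) (leaf 2 399 434))))))) (merge (node 401 (merge (leaf 5 400 465) (node 402 (merge (leaf 2 398 430) (node 403 (merge (leaf 1 399 400) (leaf 1 400 404))))))) (merge (node 465 (merge (leaf 5 400 401) (node 466 (merge (leaf 0 430 430) (node 529 (merge (leaf 7 400 400) (node 561 (merge (leaf 6 433 434) (node 593 (merge (leaf 6 465 498) (leaf 7 496 625))))))))))) (node 434 (merge (node 467 (merge (leaf 0 431 466) (node 435 (merge (leaf 0 432 468) (node 399 (merge (leaf 3 398 398) (leaf 3 399 400))))))) (merge (node 403 (merge (leaf 2 399 402) (node 435 (merge (leaf 2 400 404)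 (node 399 (merge (leaf 3 398 398) (leaf 3 399 400))))))) (node 466 (merge (leaf 0 431 467) (node 402 (merge (leaf 2 399 403) (node 498 (merge (leaf 5 401 529) (node 499 (merge (leaf 1 495 527) (leaf 4 402 531)))))))))))))))))))) (node 498 (merge (leaf 1 495 499) (node 466 (merge (leaf 2 463 467) (node 464 (merge (leaf 5 431 559) (node 433 (merge (leaf 6 400 401) (node 431 (merge (leaf 7 399 399) (node 430 (merge (leaf 0 430 465) (node 398 (merge (leaf 3 397 397) (leaf 7 398 463)))))))))))))))))) (node 529 (merge (node 526 (merge (leaf 2 493 525) (node 561 (merge (leaf 0 526 562) (node 593 (merge (leaf 7 464 464) (leaf 7 496 625))))))) (merge (node 526 (merge (leaf 2 493 525) (node 558 (merge (leaf 1 525 557) (node 463 (merge (leaf 5 430 431) (node 590 (merge (leaf 5 462 559) (leaf 6 494 622))))))))) (node 465 (merge (node 433 (merge (leaf 5 400 401) (node 432 (merge (leaf 7 400 400) (node 464 (merge (leaf 5 431 559) (leaf 4 432 561))))))) (merge (node 433 (merge (leaf 5 400 401) (node 434 (merge (leaf 6 401 402) (node 561 (merge (leaf 6 433 466) (node 593 (merge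 (leaf 7 464 464) (leaf 7 496 625))))))))) (merge (node 464 (merge (node 559 (merge (leaf 5 431 432) (leaf 6 463 591))) (node 561 (merge (leaf 7 464 593) (node 466 (merge (leaf 6 433 434) (node 467 (merge (leaf 1 464 468) (leaf 1 463 495))))))))) (merge (node 433 (merge (leaf 5 400 401) (node 434 (merge (leaf 6 401 402) (node 466 (merge (leaf 6 433 561) (node 467 (merge (leaf 1 464 468) (node 432 (merge (leaf 7 400 400) (leaf 0 431 431))))))))))) (node 433 (merge (leaf 5 400 401) (node 434 (merge (leaf 6 401 402) (node 432 (merge (leaf 7 400 400) (node 464 (merge (leaf 5 431 559) (node 435 (merge (leaf 1 432 436) (node 467 (merge (leaf 1 463 466) (leaf 0 432 468)))))))))))))))))))))))) (merge (node 464 (merge (node 465 (merge (node 494 (merge (leaf 2 462 466) (leaf 2 461 493))) (node 432 (merge (node 529 (merge (leaf 4 400 400) (leaf 4 432 561))) (merge (node 400 (merge (leaf 4 368 368) (node 401 (merge (leaf 6 368 369) (leaf 6 400 433))))) (node 529 (merge (leaf 4 432 561) (node 433 (merge (leaf 5 400 401) (node 434 (merge (leaf 6 401 402) (node 435 (merge (leaf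 1 432 436) (leaf 1 431 463)))))))))))))) (merge (node 432 (merge (node 529 (merge (leaf 4 400 400) (leaf 4 432 561))) (merge (node 401 (merge (leaf 6 400 433) (node 400 (merge (leaf 6 368 369) (node 368 (merge (leaf 5 367 463) (leaf 4 368 465))))))) (node 431 (merge (leaf 7 399 399) (node 433 (merge (leaf 6 400 401) (node 434 (merge (node 402 (merge (leaf 2 399 403) (node 529 (merge (leaf 6 401 465) (leaf 4 432 561))))) (merge (node 435 (merge (leaf 1 431 463) (node 468 (merge (leaf 0 432 467) (node 436 (merge (leaf 1 432 465) (leaf 0 433 469))))))) (node 435 (merge (leaf 1 431 463) (node 468 (merge (leaf 0 432 467) (node 436 (merge (leaf 0 433 469) (node 404 (merge (leaf 2 400 403) (leaf 2 401 405))))))))))))))))))) (merge (node 432 (merge (node 529 (merge (leaf 4 400 400) (leaf 4 432 561))) (merge (node 401 (merge (leaf 6 400 433) (node 400 (merge (leaf 6 368 369) (node 399 (merge (leaf 7 367 367) (leaf 7 399 431))))))) (node 529 (merge (leaf 4 432 561) (node 494 (merge (leaf 0 493 493) (node 466 (merge (leaf 2 462 465) (node 467 (merge (leaf 2 463 498) (node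 433 (merge (leaf 6 400 401) (node 431 (merge (leaf 7 399 399) (leaf 0 431 434)))))))))))))))) (merge (node 498 (merge (node 467 (merge (leaf 2 463 466) (node 499 (merge (leaf 3 463 463) (leaf 2 464 468))))) (merge (node 499 (merge (leaf 3 463 463) (node 532 (merge (leaf 0 496 531) (node 500 (merge (leaf 3 464 465) (leaf 0 497 533))))))) (merge (node 467 (merge (leaf 2 463 466) (node 499 (merge (leaf 2 464 468) (node 532 (merge (leaf 0 496 531) (node 500 (merge (leaf 3 464 465) (leaf 0 497 533))))))))) (node 466 (merge (leaf 2 463 467) (node 494 (merge (leaf 2 462 465) (node 525 (merge (leaf 1 493 526) (node 493 (merge (leaf 1 492 524) (node 492 (merge (leaf 2 460 463) (node 460 (merge (leaf 3 459 459) (leaf 3 460 461))))))))))))))))) (node 467 (merge (node 498 (merge (leaf 2 463 466) (node 499 (merge (leaf 3 463 463) (leaf 2 464 468))))) (merge (node 432 (merge (node 529 (merge (leaf 4 400 400) (leaf 4 432 561))) (node 433 (merge (leaf 6 400 401) (node 431 (merge (leaf 7 399 399) (node 434 (merge (leaf 0 431 466) (node 435 (merge (leaf 0 432 468) (node 403 (merge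 (leaf 2 399 402) (leaf 2 400 404))))))))))))) (merge (node 498 (merge (leaf 2 463 466) (node 499 (merge (leaf 3 463 463) (node 532 (merge (leaf 0 496 531) (node 500 (merge (leaf 1 496 529) (leaf 0 497 533))))))))) (node 499 (merge (node 498 (merge (leaf 3 463 463) (leaf 2 464 468))) (merge (node 498 (merge (leaf 3 463 463) (node 532 (merge (leaf 0 496 531) (node 500 (merge (leaf 1 496 529) (leaf 0 497 533))))))) (merge (node 498 (merge (leaf 2 464 468) (node 532 (merge (leaf 0 496 531) (node 500 (merge (leaf 1 496 529) (leaf 0 497 533))))))) (node 435 (merge (node 432 (merge (node 529 (merge (leaf 4 400 400) (leaf 4 432 561))) (node 433 (merge (leaf 6 400 401) (node 434 (merge (leaf 1 431 463) (leaf 0 432 468))))))) (merge (node 403 (merge (node 532 (merge (leaf 4 403 500) (node 531 (merge (leaf 4 435 564) (node 402 (merge (leaf 7 370 370) (leaf 7 402 434))))))) (merge (node 372 (merge (leaf 6 371 404) (node 371 (merge (leaf 6 339 340) (node 370 (merge (leaf 7 338 338) (leaf 7 370 402))))))) (node 532 (merge (leaf 4 403 500) (node 531 (merge (leaf 4 435 564) (node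 404 (merge (leaf 6 371 372) (leaf 6 403 436)))))))))) (node 403 (merge (node 532 (merge (leaf 4 403 500) (node 531 (merge (leaf 4 435 564) (node 404 (merge (leaf 6 371 372) (leaf 6 403 436))))))) (merge (node 372 (merge (leaf 6 371 404) (node 371 (merge (leaf 6 339 340) (node 370 (merge (leaf 7 338 338) (leaf 7 370 402))))))) (merge (node 500 (merge (leaf 4 403 532) (node 371 (merge (leaf 4 371 468) (node 370 (merge (leaf 7 338 338) (leaf 7 370 402))))))) (node 370 (merge (leaf 7 370 402) (node 371 (merge (leaf 7 338 338) (node 468 (merge (leaf 4 371 500) (node 436 (merge (leaf 4 339 339) (node 531 (merge (leaf 6 403 404) (leaf 6 435 563))))))))))))))))))))))))))))))) (hyp 0)))))))) nA_24 cA_24 12 (by decide +kernel)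
def nA_25 : ℕ := 0x1000000038000000000000000000000000000000000000000000000000000000000000000000000000000000000000000000000000000000000000000000000000000
def cA_25 : ℕ := 0x7a0000007e000001ee0000002e00000004000001ff000003fe000001ff0000006e0000004800000000000000000000000000000000000000000000000000000000000000000000000000000000000
theorem lA_25 : S nA_25 cA_25 11 := S_of_chk [] trivial (node 432 (merge (node 433 (merge (node 401 (merge (leaf 6 400 464) (leaf 5 400 465))) (merge (node 464 (merge (leaf 6 400 401) (node 529 (merge (leaf 4 400 400) (leaf 4 432 561))))) (merge (node 465 (merge (leaf 5 400 401) (node 529 (merge (leaf 7 400 400) (node 434 (merge (leaf 6 401 402) (node 561 (merge (leaf 6 433 466) (node 594 (merge (leaf 4 465 562) (node 593 (merge (leaf 7 496 625) (leaf 4 497 626))))))))))))) (node 529 (merge (node 400 (merge (leaf 4 400 464) (leaf 7 400 465))) (merge (node 464 (merge (leaf 4 400 400) (leaf 4 432 561))) (merge (node 465 (merge (leaf 7 400 400) (node 434 (merge (leaf 6 401 402) (node 561 (merge (leaf 6 433 466) (node 594 (merge (leaf 4 465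 562) (node 593 (merge (leaf 7 496 625) (leaf 4 497 626))))))))))) (node 561 (merge (leaf 4 432 464) (node 593 (merge (leaf 7 496 625) (node 594 (merge (leaf 4 497 626) (node 562 (merge (leaf 4 465 465) (node 563 (merge (leaf 3 528 564) (node 592 (merge (leaf 2 559 591) (leaf 5 496 624))))))))))))))))))))) (merge (node 526 (merge (node 525 (merge (leaf 1 493 494) (leaf 2 493 527))) (merge (node 464 (merge (node 527 (merge (leaf 5 399 400) (leaf 5 431 559))) (merge (node 401 (merge (leaf 6 400 433) (node 400 (merge (leaf 6 368 369) (node 399 (merge (leaf 7 367 367) (leaf 7 399 431))))))) (node 527 (merge (leaf 5 431 559) (node 433 (merge (leaf 6 400 401) (node 431 (merge (leaf 7 399 399) (node 463 (merge (leaf 5 430 558) (node 462 (merge (leaf 1 430 434) (leaf 2 429 461)))))))))))))) (node 494 (merge (leaf 1 493 525) (node 462 (merge (leaf 3 461 461) (node 430 (merge (node 399 (merge (leaf 6 398 431) (node 398 (merge (leaf 6 366 367) (node 397 (merge (leaf 7 365 365) (leaf 7 397 429))))))) (merge (node 431 (merge (leaf 6 398 399) (node 558 (merge (leaf 6 430 463)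 (node 591 (merge (leaf 4 462 559) (node 590 (merge (leaf 4 494 623) (node 589 (merge (leaf 5 461 557) (leaf 5 493 621))))))))))) (merge (node 397 (merge (leaf 7 397 429) (node 398 (merge (leaf 7 365 365) (node 463 (merge (leaf 4 366 366) (node 558 (merge (leaf 6 430 431) (leaf 6 462 590))))))))) (node 397 (merge (leaf 7 397 429) (node 398 (merge (leaf 7 365 365) (node 366 (merge (leaf 4 366 463) (node 367 (merge (leaf 6 334 335) (leaf 6 366 399)))))))))))))))))))) (merge (node 526 (merge (node 525 (merge (leaf 1 493 494) (leaf 2 493 527))) (merge (node 464 (merge (node 527 (merge (leaf 5 399 400) (leaf 5 431 559))) (merge (node 529 (merge (leaf 4 432 561) (node 400 (merge (leaf 4 400 497) (node 399 (merge (leaf 7 367 367) (leaf 7 399 431))))))) (node 527 (merge (leaf 5 431 559) (node 431 (merge (leaf 7 399 399) (node 463 (merge (leaf 5 430 558) (node 430 (merge (leaf 7 398 398) (node 465 (merge (leaf 0 429 429) (leaf 3 430 466)))))))))))))) (node 494 (merge (leaf 1 493 525) (node 462 (merge (leaf 3 461 461) (node 430 (merge (node 399 (merge (leaf 6 398 431) (node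 398 (merge (leaf 6 366 367) (node 397 (merge (leaf 7 365 365) (leaf 7 397 429))))))) (merge (node 431 (merge (leaf 6 398 399) (node 558 (merge (leaf 6 430 463) (node 591 (merge (leaf 4 462 559) (node 590 (merge (leaf 4 494 623) (node 589 (merge (leaf 5 461 557) (leaf 5 493 621))))))))))) (merge (node 397 (merge (leaf 7 397 429) (node 398 (merge (leaf 7 365 365) (node 463 (merge (leaf 4 366 366) (node 558 (merge (leaf 6 430 431) (leaf 6 462 590))))))))) (node 397 (merge (leaf 7 397 429) (node 398 (merge (leaf 7 365 365) (node 366 (merge (leaf 4 366 463) (node 367 (merge (leaf 6 334 335) (leaf 6 366 399)))))))))))))))))))) (merge (node 431 (merge (node 399 (merge (leaf 4 399 463) (leaf 7 399 464))) (merge (node 433 (merge (node 464 (merge (leaf 7 399 399) (leaf 6 400 401))) (merge (node 401 (merge (leaf 6 400 464) (leaf 5 400 465))) (merge (node 399 (merge (leaf 7 399 464) (node 434 (merge (leaf 3 398 398) (node 402 (merge (leaf 2 399 403) (node 465 (merge (leaf 6 401 529) (node 370 (merge (leaf 5 337 338) (leaf 5 369 466))))))))))) (node 430 (merge (node 465 (merge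 (leaf 0 430 466) (node 401 (merge (leaf 2 398 402) (leaf 5 400 497))))) (merge (node 402 (merge (leaf 2 398 401) (node 434 (merge (leaf 2 399 403) (node 398 (merge (leaf 3 397 397) (leaf 3 398 399))))))) (node 466 (merge (leaf 0 430 465) (node 434 (merge (leaf 0 431 467) (node 398 (merge (leaf 3 397 397) (leaf 3 398 399)))))))))))))) (merge (node 433 (merge (node 399 (merge (leaf 4 399 463) (node 398 (merge (leaf 3 398 434) (node 397 (merge (leaf 0 396 396) (leaf 3 397 430))))))) (merge (node 430 (merge (node 465 (merge (leaf 0 430 466) (node 401 (merge (leaf 2 398 402) (leaf 5 400 497))))) (node 461 (merge (leaf 1 429 462) (node 429 (merge (leaf 1 428 460) (node 397 (merge (leaf 3 396 396) (leaf 3 397 398))))))))) (node 463 (merge (leaf 4 399 399) (node 434 (merge (leaf 1 430 462) (node 467 (merge (leaf 0 431 466) (node 435 (merge (leaf 0 432 468) (node 403 (merge (leaf 2 399 402) (leaf 2 400 404)))))))))))))) (node 433 (merge (node 401 (merge (leaf 6 400 464) (leaf 5 400 465))) (merge (node 401 (merge (leaf 5 400 465) (node 430 (merge (leaf 2 398 402) (node 461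 (merge (leaf 1 429 462) (node 429 (merge (leaf 1 428 460) (node 397 (merge (leaf 3 396 396) (leaf 3 397 398))))))))))) (merge (node 401 (merge (leaf 6 400 464) (node 430 (merge (leaf 2 398 402) (node 462 (merge (leaf 1 429 461) (node 463 (merge (leaf 1 430 434) (node 398 (merge (leaf 3 397 397) (node 495 (merge (leaf 4 366 366) (leaf 7 398 527))))))))))))) (node 434 (merge (node 402 (merge (leaf 2 399 403) (node 465 (merge (leaf 6 401 529) (node 370 (merge (leaf 5 337 338) (leaf 5 369 466))))))) (merge (node 467 (merge (leaf 0 431 466) (node 435 (merge (leaf 0 432 468) (node 463 (merge (leaf 1 430 462) (leaf 1 431 464))))))) (node 463 (merge (leaf 1 430 462) (node 464 (merge (leaf 1 431 435) (node 402 (merge (leaf 2 399 403) (node 529 (merge (leaf 6 401 465) (leaf 4 432 561)))))))))))))))))))) (node 433 (merge (node 465 (merge (leaf 5 400 401) (node 466 (merge (leaf 2 462 494) (node 431 (merge (leaf 0 430 430) (node 467 (merge (leaf 0 431 434) (leaf 1 464 468))))))))) (merge (node 465 (merge (leaf 5 400 401) (node 529 (merge (leaf 7 400 400) (node 434 (merge (leaf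 6 401 402) (node 561 (merge (leaf 6 433 466) (node 594 (merge (leaf 4 465 562) (node 593 (merge (leaf 7 496 625) (leaf 4 497 626))))))))))))) (merge (node 431 (merge (node 463 (merge (leaf 4 399 399) (node 527 (merge (leaf 6 399 400) (node 526 (merge (leaf 2 493 525) (leaf 5 430 558))))))) (node 401 (merge (leaf 5 400 465) (node 430 (merge (leaf 2 398 402) (node 461 (merge (leaf 1 429 462) (node 429 (merge (leaf 1 428 460) (node 397 (merge (leaf 3 396 396) (leaf 3 397 398))))))))))))) (merge (node 431 (merge (node 399 (merge (leaf 4 399 463) (node 398 (merge (leaf 3 398 434) (node 397 (merge (leaf 0 396 396) (leaf 3 397 430))))))) (merge (node 463 (merge (leaf 4 399 399) (node 527 (merge (leaf 6 399 400) (node 526 (merge (leaf 2 493 525) (leaf 5 430 558))))))) (merge (node 434 (merge (node 402 (merge (leaf 2 399 403) (node 465 (merge (leaf 6 401 529) (node 370 (merge (leaf 5 337 338) (leaf 5 369 466))))))) (merge (node 466 (merge (leaf 0 431 467) (node 465 (merge (leaf 0 430 430) (node 529 (merge (leaf 7 400 400) (leaf 6 433 561))))))) (node 463 (merge (leaf 1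 430 462) (node 527 (merge (leaf 6 399 400) (node 526 (merge (leaf 2 493 525) (leaf 5 430 558)))))))))) (node 434 (merge (node 467 (merge (leaf 0 431 466) (node 435 (merge (leaf 0 432 468) (node 399 (merge (leaf 3 398 398) (leaf 3 399 400))))))) (merge (node 402 (merge (leaf 2 399 403) (node 465 (merge (leaf 6 401 529) (node 370 (merge (leaf 5 337 338) (leaf 5 369 466))))))) (node 403 (merge (leaf 2 399 402) (node 435 (merge (leaf 2 400 404) (node 399 (merge (leaf 3 398 398) (leaf 3 399 400)))))))))))))) (node 431 (merge (node 399 (merge (leaf 4 399 463) (node 398 (merge (leaf 3 398 434) (node 397 (merge (leaf 0 396 396) (leaf 3 397 430))))))) (merge (node 463 (merge (leaf 4 399 399) (node 527 (merge (leaf 6 399 400) (node 526 (merge (leaf 2 493 525) (leaf 5 430 558))))))) (merge (node 402 (merge (node 401 (merge (leaf 2 398 430) (node 403 (merge (leaf 1 399 400) (leaf 1 400 404))))) (merge (node 430 (merge (leaf 2 398 401) (node 461 (merge (leaf 1 429 462) (node 429 (merge (leaf 1 428 460) (node 397 (merge (leaf 3 396 396) (leaf 3 397 398))))))))) (node 434 (merge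 (leaf 2 399 403) (node 463 (merge (leaf 1 430 462) (node 527 (merge (leaf 6 399 400) (node 526 (merge (leaf 2 493 525) (leaf 5 430 558)))))))))))) (node 434 (merge (node 467 (merge (leaf 0 431 466) (node 435 (merge (leaf 0 432 468) (node 399 (merge (leaf 3 398 398) (leaf 3 399 400))))))) (merge (node 467 (merge (leaf 0 431 466) (node 435 (merge (leaf 0 432 468) (node 403 (merge (leaf 2 399 402) (leaf 2 400 404))))))) (merge (node 467 (merge (leaf 0 431 466) (node 435 (merge (leaf 0 432 468) (node 402 (merge (leaf 2 399 403) (node 401 (merge (leaf 2 398 430) (node 436 (merge (leaf 3 400 400) (leaf 3 401 437))))))))))) (node 398 (merge (leaf 3 398 399) (node 430 (merge (leaf 3 397 397) (node 461 (merge (leaf 1 429 462) (node 429 (merge (leaf 1 428 460) (node 401 (merge (leaf 2 397 400) (leaf 2 398 402))))))))))))))))))))))))))))) nA_25 cA_25 11 (by decide +kernel)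
def nA_26 : ℕ := 0x18000000000000002000000020000000200000000000000000000000000000000000000000000000000000000000000000000000000000000000000000000
def cA_26 : ℕ := 0x60000003c0000003d8000007de000007dc000003fe000001f8000000780000006000000000000000000000000000000000000000000000000000000000000
theorem lA_26 : S nA_26 cA_26 9 := S_of_chk [] trivial (node 368 (merge (node 337 (merge (node 338 (merge (leaf 6 305 306) (node 339 (merge (leaf 1 336 340) (node 336 (merge (leaf 7 304 304) (leaf 1 335 367))))))) (merge (node 434 (merge (leaf 4 337 466) (node 305 (merge (leaf 4 305 402) (node 306 (merge (leaf 6 273 274) (leaf 6 305 338))))))) (node 434 (merge (leaf 4 337 466) (node 305 (merge (leaf 4 305 402) (node 304 (merge (leaf 7 272 272) (leaf 7 304 336)))))))))) (merge (node 337 (merge (node 304 (merge (leaf 7 304 336) (node 305 (merge (leaf 7 272 272) (node 400 (merge (leaf 5 272 273) (leaf 5 304 432))))))) (node 338 (merge (leaf 6 305 306) (node 339 (merge (leaf 1 336 340) (node 367 (merge (leaf 2 334 366) (leaf 2 335 370))))))))) (merge (node 337 (merge (node 338 (merge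 (leaf 6 305 306) (node 339 (merge (leaf 1 336 340) (node 367 (merge (leaf 2 334 366) (leaf 2 335 370))))))) (merge (node 434 (merge (leaf 4 337 466) (node 305 (merge (leaf 4 305 402) (node 306 (merge (leaf 6 273 274) (leaf 6 305 338))))))) (node 434 (merge (leaf 4 337 466) (node 402 (merge (leaf 4 305 305) (node 403 (merge (leaf 3 368 404) (node 400 (merge (leaf 3 367 367) (node 435 (merge (leaf 0 399 399) (leaf 0 400 436)))))))))))))) (merge (node 370 (merge (node 399 (merge (node 400 (merge (leaf 1 367 371) (leaf 2 366 398))) (merge (node 398 (merge (leaf 1 366 367) (leaf 2 366 400))) (merge (node 367 (merge (leaf 1 366 398) (node 403 (merge (leaf 0 367 402) (node 371 (merge (leaf 0 368 404) (node 335 (merge (leaf 3 334 334) (leaf 3 335 336))))))))) (node 371 (merge (leaf 1 367 400) (node 335 (merge (leaf 3 335 336) (node 367 (merge (leaf 3 334 334) (node 402 (merge (leaf 0 366 366) (leaf 0 367 403))))))))))))) (merge (node 371 (merge (node 336 (merge (leaf 3 335 335) (node 304 (merge (leaf 4 272 272) (leaf 4 304 400))))) (merge (node 404 (merge (leaf 0 368 403)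 (node 372 (merge (leaf 1 368 400) (leaf 0 369 405))))) (node 404 (merge (leaf 0 368 403) (node 372 (merge (leaf 0 369 405) (node 340 (merge (leaf 2 336 339) (leaf 2 337 341)))))))))) (merge (node 367 (merge (node 338 (merge (leaf 2 335 339) (node 306 (merge (leaf 5 273 274) (leaf 5 305 402))))) (node 398 (merge (leaf 1 366 399) (node 366 (merge (leaf 1 365 397) (node 334 (merge (leaf 3 333 333) (leaf 3 334 335))))))))) (node 399 (merge (node 400 (merge (leaf 1 367 371) (leaf 2 366 398))) (merge (node 367 (merge (leaf 1 366 398) (node 338 (merge (leaf 2 335 339) (node 306 (merge (leaf 5 273 274) (leaf 5 305 402))))))) (node 371 (merge (leaf 1 367 400) (node 339 (merge (leaf 2 336 340) (node 367 (merge (leaf 2 335 338) (node 402 (merge (leaf 0 366 366) (leaf 0 367 403)))))))))))))))) (merge (node 400 (merge (node 402 (merge (node 403 (merge (leaf 3 367 367) (leaf 3 368 404))) (node 434 (merge (node 435 (merge (leaf 0 399 399) (leaf 3 400 436))) (node 337 (merge (leaf 4 305 305) (leaf 4 337 466))))))) (merge (node 402 (merge (node 403 (merge (leaf 3 367 367) (leaf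 3 368 404))) (merge (node 403 (merge (leaf 3 368 404) (node 432 (merge (leaf 1 399 431) (node 371 (merge (leaf 2 368 372) (node 336 (merge (leaf 4 304 304) (node 335 (merge (leaf 7 303 303) (leaf 3 335 370))))))))))) (node 370 (merge (node 399 (merge (leaf 2 367 371) (leaf 2 366 398))) (merge (node 371 (merge (leaf 1 368 372) (node 336 (merge (leaf 4 304 304) (leaf 3 335 335))))) (node 367 (merge (leaf 0 366 366) (node 399 (merge (leaf 1 366 398) (node 335 (merge (leaf 3 334 334) (node 303 (merge (leaf 4 271 271) (leaf 4 303 432))))))))))))))) (merge (node 432 (merge (node 336 (merge (leaf 4 304 304) (node 337 (merge (leaf 5 304 305) (node 335 (merge (leaf 7 303 303) (node 334 (merge (leaf 0 333 333) (leaf 0 334 370))))))))) (merge (node 337 (merge (leaf 5 304 305) (node 434 (merge (leaf 4 337 466) (node 435 (merge (leaf 3 400 436) (node 403 (merge (leaf 2 400 404) (node 402 (merge (leaf 3 367 367) (leaf 1 399 431))))))))))) (node 336 (merge (leaf 4 304 304) (node 335 (merge (leaf 7 303 303) (node 370 (merge (leaf 3 335 371) (node 367 (merge (leaf 3 334 334) (node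 402 (merge (leaf 0 366 366) (leaf 0 367 403)))))))))))))) (node 337 (merge (node 305 (merge (leaf 5 272 273) (leaf 5 304 432))) (merge (node 434 (merge (leaf 4 337 466) (node 399 (merge (leaf 0 398 398) (node 435 (merge (leaf 3 399 432) (leaf 3 400 436))))))) (node 304 (merge (leaf 7 304 336) (node 305 (merge (leaf 7 272 272) (node 273 (merge (leaf 5 272 400) (node 274 (merge (leaf 6 241 242) (leaf 6 273 306)))))))))))))))) (merge (node 370 (merge (node 336 (merge (node 304 (merge (leaf 4 272 272) (leaf 4 304 400))) (node 335 (merge (leaf 3 335 371) (node 334 (merge (leaf 0 333 333) (leaf 0 334 337))))))) (merge (node 371 (merge (node 336 (merge (leaf 3 335 335) (node 304 (merge (leaf 4 272 272) (leaf 4 304 400))))) (merge (node 404 (merge (leaf 0 368 403) (node 372 (merge (leaf 1 368 400) (leaf 0 369 405))))) (node 404 (merge (leaf 0 368 403) (node 372 (merge (leaf 0 369 405) (node 340 (merge (leaf 2 336 339) (leaf 2 337 341)))))))))) (merge (node 434 (merge (node 337 (merge (leaf 4 337 466) (node 402 (merge (leaf 4 305 305) (node 338 (merge (leaf 5 305 306) (node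 339 (merge (leaf 6 306 307) (leaf 1 336 340))))))))) (merge (node 337 (merge (leaf 4 337 466) (node 306 (merge (leaf 6 305 338) (node 305 (merge (leaf 6 273 274) (node 400 (merge (leaf 5 272 273) (node 399 (merge (leaf 1 367 371) (leaf 0 398 398))))))))))) (merge (node 400 (merge (node 399 (merge (leaf 1 367 371) (leaf 2 366 398))) (merge (node 399 (merge (leaf 0 398 398) (node 435 (merge (leaf 0 399 402) (leaf 3 400 436))))) (node 371 (merge (leaf 1 368 372) (node 339 (merge (leaf 2 336 340) (node 435 (merge (leaf 3 400 436) (node 466 (merge (leaf 6 338 402) (leaf 5 338 403)))))))))))) (node 338 (merge (node 306 (merge (leaf 5 273 274) (leaf 6 305 337))) (merge (node 306 (merge (leaf 5 273 274) (leaf 5 305 402))) (node 402 (merge (node 337 (merge (leaf 4 305 305) (node 339 (merge (leaf 6 306 307) (leaf 1 336 340))))) (merge (node 435 (merge (leaf 4 338 467) (node 436 (merge (leaf 3 400 400) (leaf 3 401 437))))) (node 339 (merge (leaf 6 306 307) (node 371 (merge (leaf 2 336 340) (node 400 (merge (leaf 1 368 372) (leaf 1 367 399))))))))))))))))) (merge (node 337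 (merge (node 434 (merge (leaf 4 337 466) (node 402 (merge (leaf 4 305 305) (node 338 (merge (leaf 5 305 306) (node 339 (merge (leaf 6 306 307) (leaf 1 336 340))))))))) (merge (node 304 (merge (leaf 7 304 336) (node 305 (merge (leaf 7 272 272) (node 273 (merge (leaf 5 272 400) (node 274 (merge (leaf 6 241 242) (leaf 6 273 306))))))))) (merge (node 434 (merge (leaf 4 337 466) (node 338 (merge (leaf 6 305 306) (node 339 (merge (leaf 1 336 340) (node 307 (merge (leaf 6 306 402) (node 336 (merge (leaf 7 304 304) (leaf 2 304 308))))))))))) (node 434 (merge (leaf 4 337 466) (node 305 (merge (leaf 4 305 402) (node 273 (merge (leaf 5 272 400) (node 336 (merge (leaf 5 240 241) (leaf 7 304 304))))))))))))) (node 371 (merge (node 404 (merge (leaf 0 368 403) (node 372 (merge (leaf 0 369 405) (node 373 (merge (leaf 1 369 402) (node 339 (merge (leaf 2 336 340) (node 338 (merge (leaf 3 337 337) (leaf 3 338 374))))))))))) (merge (node 404 (merge (leaf 0 368 403) (node 372 (merge (leaf 0 369 405) (node 340 (merge (leaf 2 336 339) (leaf 2 337 341))))))) (node 336 (merge (leaf 3 335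 335) (node 337 (merge (leaf 7 304 304) (node 306 (merge (leaf 6 305 338) (node 305 (merge (leaf 6 273 274) (node 273 (merge (leaf 5 240 241) (leaf 4 273 402))))))))))))))))))) (node 370 (merge (node 336 (merge (node 304 (merge (leaf 4 272 272) (leaf 4 304 400))) (node 335 (merge (leaf 3 335 371) (node 334 (merge (leaf 0 333 333) (leaf 0 334 337))))))) (merge (node 399 (merge (node 398 (merge (leaf 1 366 367) (leaf 2 366 400))) (merge (node 367 (merge (leaf 1 366 398) (node 402 (merge (leaf 0 366 366) (leaf 0 367 403))))) (node 371 (merge (leaf 1 367 400) (node 340 (merge (leaf 2 336 339) (node 372 (merge (leaf 2 337 341) (node 405 (merge (leaf 0 369 404) (node 373 (merge (leaf 1 369 402) (leaf 0 370 406)))))))))))))) (merge (node 403 (merge (node 404 (merge (leaf 0 368 371) (leaf 3 368 402))) (merge (node 371 (merge (leaf 0 368 404) (node 336 (merge (leaf 3 335 335) (node 337 (merge (leaf 7 304 304) (leaf 3 336 372))))))) (node 367 (merge (leaf 0 367 402) (node 398 (merge (leaf 1 366 399) (node 366 (merge (leaf 1 365 397) (node 338 (merge (leaf 2 334 337) (leaf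 2 335 339)))))))))))) (node 434 (merge (node 337 (merge (leaf 4 337 466) (node 304 (merge (leaf 7 304 336) (node 305 (merge (leaf 7 272 272) (node 400 (merge (leaf 5 272 273) (leaf 5 304 432))))))))) (merge (node 466 (merge (leaf 4 337 337) (node 498 (merge (leaf 7 369 402) (node 467 (merge (leaf 2 463 497) (node 432 (merge (leaf 0 431 431) (node 468 (merge (leaf 0 432 435) (leaf 3 433 469))))))))))) (node 367 (merge (node 402 (merge (leaf 0 366 366) (leaf 0 367 403))) (merge (node 398 (merge (leaf 1 366 399) (node 366 (merge (leaf 1 365 397) (node 334 (merge (leaf 3 333 333) (leaf 3 334 335))))))) (node 402 (merge (leaf 0 367 403) (node 399 (merge (leaf 1 366 398) (node 435 (merge (leaf 0 399 400) (node 338 (merge (leaf 2 335 339) (leaf 4 338 467)))))))))))))))))))))))))) nA_26 cA_26 9 (by decide +kernel)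
def nA_27 : ℕ := 0x1000000018000000000000002000000000000000000000000000000000000000000000000000000000000000000000000000000000000000000000000000000000000
def cA_27 : ℕ := 0x60000007f7000003de000007ff000007fc000003fe000001f8000000780000007000000000000000000000000000000000000000000000000000000000000
theorem lA_27 : S nA_27 cA_27 11 := S_of_chk [(nA_26, cA_26, 9)] ⟨lA_26, trivial⟩ (node 401 (merge (node 464 (merge (leaf 6 400 432) (node 465 (merge (leaf 5 368 369) (leaf 5 400 497))))) (merge (node 465 (merge (leaf 5 400 497) (node 369 (merge (leaf 5 368 464) (node 466 (merge (leaf 4 369 498) (node 337 (merge (leaf 4 337 434) (node 338 (merge (leaf 6 305 306) (leaf 6 337 370))))))))))) (merge (node 432 (merge (leaf 6 400 464) (node 431 (merge (node 430 (merge (leaf 2 398 402) (node 461 (merge (leaf 1 429 462) (node 429 (merge (leaf 2 397 400) (leaf 1 428 460))))))) (merge (node 430 (merge (leaf 2 398 402) (node 461 (merge (leaf 1 429 462) (node 429 (merge (leaf 1 428 460) (node 397 (merge (leaf 3 396 396) (leaf 3 397 398))))))))) (merge (node 398 (merge (node 397 (merge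 (leaf 3 397 430) (node 399 (merge (leaf 0 396 396) (leaf 3 398 434))))) (merge (node 430 (merge (leaf 3 397 397) (node 461 (merge (leaf 1 429 462) (node 429 (merge (leaf 2 397 400) (leaf 1 428 460))))))) (node 434 (merge (leaf 3 398 399) (node 467 (merge (leaf 0 431 466) (node 435 (merge (leaf 0 432 468) (node 404 (merge (leaf 2 400 403) (node 436 (merge (leaf 3 400 400) (leaf 2 401 405)))))))))))))) (node 434 (merge (node 403 (merge (leaf 2 399 402) (node 435 (merge (leaf 2 400 404) (node 399 (merge (leaf 3 398 398) (leaf 3 399 400))))))) (merge (node 467 (merge (leaf 0 431 466) (node 435 (merge (leaf 0 432 468) (node 399 (merge (leaf 3 398 398) (leaf 3 399 400))))))) (merge (node 466 (merge (leaf 0 431 467) (node 402 (merge (leaf 2 399 403) (node 369 (merge (leaf 4 337 337) (leaf 7 369 498))))))) (node 435 (merge (node 404 (merge (leaf 2 400 403) (node 436 (merge (leaf 3 400 400) (leaf 2 401 405))))) (merge (node 467 (merge (leaf 0 432 468) (node 431 (merge (leaf 0 431 466) (node 403 (merge (leaf 2 399 402) (leaf 2 400 404))))))) (node 436 (merge (leaf 3 400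 400) (node 469 (merge (leaf 0 433 468) (node 437 (merge (leaf 3 401 402) (leaf 0 434 470)))))))))))))))))))) (merge (node 432 (merge (leaf 6 400 464) (node 431 (merge (node 402 (merge (leaf 2 398 430) (node 403 (merge (leaf 1 399 400) (leaf 1 400 404))))) (merge (node 430 (merge (leaf 2 398 402) (node 465 (merge (leaf 0 430 466) (leaf 5 400 497))))) (merge (node 465 (merge (leaf 5 400 497) (node 430 (merge (leaf 0 430 466) (node 461 (merge (leaf 1 429 462) (node 429 (merge (leaf 2 397 400) (leaf 1 428 460))))))))) (node 434 (merge (node 403 (merge (leaf 2 399 402) (node 435 (merge (leaf 2 400 404) (node 399 (merge (leaf 3 398 398) (leaf 3 399 400))))))) (merge (node 467 (merge (leaf 0 431 466) (node 435 (merge (leaf 0 432 468) (node 399 (merge (leaf 3 398 398) (leaf 3 399 400))))))) (merge (node 467 (merge (leaf 0 431 466) (node 435 (merge (leaf 0 432 468) (node 403 (merge (leaf 2 399 402) (leaf 2 400 404))))))) (merge (node 435 (merge (node 404 (merge (leaf 2 400 403) (node 436 (merge (leaf 3 400 400) (leaf 2 401 405))))) (merge (node 467 (merge (leaf 0 432 468)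 (node 431 (merge (leaf 0 431 466) (node 403 (merge (leaf 2 399 402) (leaf 2 400 404))))))) (node 436 (merge (leaf 3 400 400) (node 469 (merge (leaf 0 433 468) (node 437 (merge (leaf 3 401 402) (leaf 0 434 470)))))))))) (node 466 (merge (leaf 0 431 467) (node 402 (merge (leaf 2 399 403) (node 399 (merge (leaf 3 398 398) (node 465 (merge (leaf 5 400 497) (node 370 (merge (leaf 5 337 338) (node 371 (merge (leaf 6 338 339) (leaf 2 367 400)))))))))))))))))))))))) (node 369 (merge (node 465 (merge (leaf 5 400 497) (node 466 (merge (leaf 4 369 498) (node 337 (merge (leaf 4 337 434) (node 338 (merge (leaf 6 305 306) (leaf 6 337 370))))))))) (merge (node 337 (merge (node 466 (merge (leaf 4 337 434) (node 465 (merge (leaf 4 369 498) (node 338 (merge (leaf 6 305 306) (leaf 6 337 370))))))) (merge (node 306 (merge (leaf 6 305 338) (node 305 (merge (leaf 6 273 274) (node 400 (merge (leaf 5 304 432) (node 273 (merge (leaf 5 272 368) (node 272 (merge (leaf 7 240 240) (leaf 7 272 304))))))))))) (node 434 (merge (leaf 4 337 466) (node 305 (merge (leaf 4 305 402) (node 400 (merge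 (leaf 5 304 432) (node 273 (merge (leaf 5 272 368) (node 272 (merge (leaf 7 240 240) (leaf 7 272 304)))))))))))))) (merge (node 337 (merge (node 466 (merge (leaf 4 337 434) (node 465 (merge (leaf 4 369 498) (node 336 (merge (leaf 7 304 304) (leaf 7 336 368))))))) (merge (node 306 (merge (leaf 6 305 338) (node 305 (merge (leaf 6 273 274) (node 400 (merge (leaf 5 304 432) (node 273 (merge (leaf 5 272 368) (node 272 (merge (leaf 7 240 240) (leaf 7 272 304))))))))))) (merge (node 434 (merge (leaf 4 337 466) (node 305 (merge (leaf 4 305 402) (node 306 (merge (leaf 6 273 274) (leaf 6 305 338))))))) (node 434 (merge (leaf 4 337 466) (node 305 (merge (leaf 4 305 402) (node 274 (merge (leaf 6 273 306) (node 273 (merge (leaf 6 241 242) (node 368 (merge (leaf 5 272 400) (node 336 (merge (leaf 5 240 241) (leaf 7 336 465))))))))))))))))) (merge (node 337 (merge (node 466 (merge (leaf 4 337 434) (node 465 (merge (leaf 4 369 498) (node 336 (merge (leaf 7 304 304) (leaf 7 336 368))))))) (merge (node 304 (merge (leaf 7 304 336) (node 305 (merge (leaf 7 272 272) (node 400 (merge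 (leaf 5 304 432) (node 273 (merge (leaf 5 272 368) (node 274 (merge (leaf 6 241 242) (leaf 6 273 306))))))))))) (merge (node 434 (merge (leaf 4 337 466) (node 305 (merge (leaf 4 305 402) (node 400 (merge (leaf 5 304 432) (node 273 (merge (leaf 5 272 368) (node 272 (merge (leaf 7 240 240) (leaf 7 272 304))))))))))) (merge (node 434 (merge (leaf 4 337 466) (node 305 (merge (leaf 4 305 402) (node 274 (merge (leaf 6 273 306) (node 273 (merge (leaf 6 241 242) (node 368 (merge (leaf 5 272 400) (node 336 (merge (leaf 5 240 241) (leaf 7 336 465))))))))))))) (node 304 (merge (leaf 7 304 336) (node 305 (merge (leaf 7 272 272) (node 402 (merge (leaf 4 305 434) (node 370 (merge (leaf 4 273 273) (node 400 (merge (leaf 5 304 432) (node 399 (merge (leaf 2 367 371) (leaf 2 366 398)))))))))))))))))) (merge (node 337 (merge (node 466 (merge (leaf 4 337 434) (node 465 (merge (leaf 4 369 498) (node 336 (merge (leaf 7 304 304) (leaf 7 336 368))))))) (merge (node 434 (merge (leaf 4 337 466) (node 305 (merge (leaf 4 305 402) (node 400 (merge (leaf 5 304 432) (node 273 (merge (leaf 5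 272 368) (node 272 (merge (leaf 7 240 240) (leaf 7 272 304))))))))))) (merge (node 304 (merge (leaf 7 304 336) (node 305 (merge (leaf 7 272 272) (node 400 (merge (leaf 5 304 432) (node 273 (merge (leaf 5 272 368) (node 370 (merge (leaf 4 273 402) (node 338 (merge (leaf 4 241 241) (leaf 6 337 465))))))))))))) (merge (node 304 (merge (leaf 7 304 336) (node 305 (merge (leaf 7 272 272) (node 402 (merge (leaf 4 305 434) (node 370 (merge (leaf 4 273 273) (node 400 (merge (leaf 5 304 432) (node 399 (merge (leaf 2 367 371) (leaf 2 366 398))))))))))))) (node 434 (merge (leaf 4 337 466) (node 305 (merge (leaf 4 305 402) (node 400 (merge (leaf 5 304 432) (node 399 (merge (leaf 0 398 398) (node 368 (merge (leaf 5 272 273) (node 370 (merge (leaf 1 367 371) (node 465 (merge (leaf 7 336 336) (leaf 6 337 338)))))))))))))))))))) (merge (node 337 (merge (node 466 (merge (leaf 4 337 434) (node 465 (merge (leaf 4 369 498) (node 338 (merge (leaf 6 305 306) (leaf 6 337 370))))))) (merge (node 338 (merge (leaf 6 305 306) (node 370 (merge (leaf 6 337 465) (node 336 (merge (leaf 7 304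 304) (node 371 (merge (leaf 0 335 335) (leaf 3 336 372))))))))) (merge (node 434 (merge (leaf 4 337 466) (node 305 (merge (leaf 4 305 402) (node 306 (merge (leaf 6 273 274) (leaf 6 305 338))))))) (merge (node 304 (merge (leaf 7 304 336) (node 305 (merge (leaf 7 272 272) (node 402 (merge (leaf 4 305 434) (node 370 (merge (leaf 4 273 273) (node 400 (merge (leaf 5 304 432) (node 399 (merge (leaf 2 367 371) (leaf 2 366 398))))))))))))) (node 304 (merge (leaf 7 304 336) (node 305 (merge (leaf 7 272 272) (node 402 (merge (leaf 4 305 434) (node 370 (merge (leaf 4 273 273) (node 400 (merge (leaf 5 304 432) (node 399 (merge (leaf 2 367 371) (leaf 2 366 398)))))))))))))))))) (merge (node 368 (merge (node 465 (merge (leaf 7 336 336) (leaf 5 400 497))) (merge (node 403 (merge (node 402 (merge (leaf 3 368 404) (node 367 (merge (leaf 0 366 366) (leaf 3 367 400))))) (merge (node 465 (merge (leaf 5 400 497) (node 370 (merge (leaf 6 337 338) (node 371 (merge (leaf 0 368 404) (node 400 (merge (leaf 1 368 372) (leaf 1 367 399))))))))) (node 465 (merge (leaf 5 400 497) (node 370 (merge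 (leaf 6 337 338) (node 367 (merge (leaf 0 367 402) (node 398 (merge (leaf 1 366 399) (node 366 (merge (leaf 1 365 397) (node 334 (merge (leaf 3 333 333) (leaf 3 334 335)))))))))))))))) (node 370 (merge (node 399 (merge (node 400 (merge (leaf 1 367 371) (leaf 2 366 398))) (merge (node 398 (merge (leaf 1 366 367) (leaf 2 366 400))) (merge (node 367 (merge (leaf 1 366 398) (node 403 (merge (leaf 0 367 402) (node 371 (merge (leaf 0 368 404) (node 335 (merge (leaf 3 334 334) (leaf 3 335 336))))))))) (node 371 (merge (leaf 1 367 400) (node 335 (merge (leaf 3 335 336) (node 367 (merge (leaf 3 334 334) (node 402 (merge (leaf 0 366 366) (leaf 0 367 403))))))))))))) (merge (node 371 (merge (node 336 (merge (leaf 3 335 335) (node 304 (merge (leaf 4 272 272) (leaf 4 304 400))))) (merge (node 404 (merge (leaf 0 368 403) (node 372 (merge (leaf 1 368 400) (leaf 0 369 405))))) (node 404 (merge (leaf 0 368 403) (node 372 (merge (leaf 0 369 405) (node 340 (merge (leaf 2 336 339) (leaf 2 337 341)))))))))) (merge (node 367 (merge (node 338 (merge (leaf 2 335 339) (node 306 (merge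 (leaf 5 273 274) (leaf 5 305 402))))) (node 398 (merge (leaf 1 366 399) (node 366 (merge (leaf 1 365 397) (node 334 (merge (leaf 3 333 333) (leaf 3 334 335))))))))) (node 399 (merge (node 400 (merge (leaf 1 367 371) (leaf 2 366 398))) (merge (node 367 (merge (leaf 1 366 398) (node 338 (merge (leaf 2 335 339) (node 306 (merge (leaf 5 273 274) (leaf 5 305 402))))))) (node 371 (merge (leaf 1 367 400) (node 339 (merge (leaf 2 336 340) (node 367 (merge (leaf 2 335 338) (node 402 (merge (leaf 0 366 366) (leaf 0 367 403))))))))))))))))))) (hyp 0)))))))))))))) nA_27 cA_27 11 (by decide +kernel)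
def nA_28 : ℕ := 0x1000000018000000000000002000000020000000200000000000000000000000000000000000000000000000000000000000000000000000000000000000000000000
def cA_28 : ℕ := 0xcc000003cc000003de000007de000003fe000001f0000000700000006000000000000000000000000000000000000000000000000000000000000
theorem lA_28 : S nA_28 cA_28 9 := S_of_chk [] trivial (node 368 (merge (node 337 (merge (node 338 (merge (leaf 6 305 306) (node 367 (merge (leaf 2 334 366) (node 336 (merge (leaf 7 304 304) (leaf 1 335 339))))))) (merge (node 434 (merge (leaf 4 337 466) (node 305 (merge (leaf 4 305 402) (node 306 (merge (leaf 6 273 274) (leaf 6 305 338))))))) (node 434 (merge (leaf 4 337 466) (node 305 (merge (leaf 4 305 402) (node 304 (merge (leaf 7 272 272) (leaf 7 304 336)))))))))) (merge (node 337 (merge (node 338 (merge (leaf 6 305 306) (node 339 (merge (leaf 1 336 340) (node 367 (merge (leaf 2 334 366) (leaf 2 335 370))))))) (merge (node 434 (merge (leaf 4 337 466) (node 305 (merge (leaf 4 305 402) (node 306 (merge (leaf 6 273 274) (leaf 6 305 338))))))) (node 434 (merge (leaf 4 337 466)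 (node 402 (merge (leaf 4 305 305) (node 403 (merge (leaf 3 368 404) (node 400 (merge (leaf 3 367 367) (node 435 (merge (leaf 0 399 399) (leaf 0 400 436)))))))))))))) (merge (node 370 (merge (node 399 (merge (node 398 (merge (leaf 1 366 367) (leaf 2 366 400))) (merge (node 367 (merge (leaf 1 366 398) (node 335 (merge (leaf 3 334 334) (node 336 (merge (leaf 3 335 371) (node 431 (merge (leaf 6 303 304) (leaf 4 399 463))))))))) (node 371 (merge (leaf 1 367 400) (node 336 (merge (leaf 3 335 335) (node 304 (merge (leaf 4 272 272) (leaf 7 304 337)))))))))) (merge (node 371 (merge (node 336 (merge (leaf 3 335 335) (node 304 (merge (leaf 4 272 272) (leaf 4 304 400))))) (merge (node 336 (merge (leaf 3 335 335) (node 337 (merge (leaf 7 304 304) (leaf 3 336 372))))) (node 404 (merge (leaf 0 368 403) (node 372 (merge (leaf 1 368 400) (leaf 0 369 405)))))))) (merge (node 399 (merge (node 398 (merge (leaf 1 366 367) (leaf 2 366 400))) (merge (node 367 (merge (leaf 1 366 398) (node 402 (merge (leaf 0 366 366) (leaf 0 367 403))))) (node 371 (merge (leaf 1 367 400) (node 404 (merge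 (leaf 0 368 403) (node 372 (merge (leaf 0 369 405) (node 340 (merge (leaf 2 336 339) (leaf 2 337 341)))))))))))) (merge (node 367 (merge (node 398 (merge (leaf 1 366 399) (node 366 (merge (leaf 1 365 397) (node 334 (merge (leaf 3 333 333) (leaf 3 334 335))))))) (merge (node 402 (merge (leaf 0 366 366) (leaf 0 367 403))) (node 403 (merge (leaf 0 367 402) (node 371 (merge (leaf 0 368 404) (node 335 (merge (leaf 3 334 334) (leaf 3 335 336)))))))))) (node 367 (merge (node 402 (merge (leaf 0 366 366) (leaf 0 367 403))) (merge (node 398 (merge (leaf 1 366 399) (node 366 (merge (leaf 1 365 397) (node 334 (merge (leaf 3 333 333) (leaf 3 334 335))))))) (merge (node 402 (merge (leaf 0 366 366) (leaf 0 367 403))) (node 402 (merge (leaf 0 367 403) (node 399 (merge (leaf 1 366 398) (node 335 (merge (leaf 3 334 334) (node 431 (merge (leaf 4 399 463) (node 430 (merge (leaf 1 398 400) (leaf 5 334 462)))))))))))))))))))) (merge (node 370 (merge (node 399 (merge (node 400 (merge (leaf 1 367 371) (leaf 2 366 398))) (merge (node 398 (merge (leaf 1 366 367) (leaf 2 366 400))) (merge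 (node 367 (merge (leaf 1 366 398) (node 403 (merge (leaf 0 367 402) (node 371 (merge (leaf 0 368 404) (node 335 (merge (leaf 3 334 334) (leaf 3 335 336))))))))) (node 371 (merge (leaf 1 367 400) (node 335 (merge (leaf 3 335 336) (node 367 (merge (leaf 3 334 334) (node 402 (merge (leaf 0 366 366) (leaf 0 367 403))))))))))))) (merge (node 371 (merge (node 336 (merge (leaf 3 335 335) (node 304 (merge (leaf 4 272 272) (leaf 4 304 400))))) (merge (node 404 (merge (leaf 0 368 403) (node 372 (merge (leaf 1 368 400) (leaf 0 369 405))))) (node 404 (merge (leaf 0 368 403) (node 372 (merge (leaf 0 369 405) (node 340 (merge (leaf 2 336 339) (leaf 2 337 341)))))))))) (merge (node 367 (merge (node 338 (merge (leaf 2 335 339) (node 306 (merge (leaf 5 273 274) (leaf 5 305 402))))) (node 398 (merge (leaf 1 366 399) (node 366 (merge (leaf 1 365 397) (node 334 (merge (leaf 3 333 333) (leaf 3 334 335))))))))) (node 399 (merge (node 400 (merge (leaf 1 367 371) (leaf 2 366 398))) (merge (node 367 (merge (leaf 1 366 398) (node 338 (merge (leaf 2 335 339) (node 306 (merge (leaf 5 273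 274) (leaf 5 305 402))))))) (node 371 (merge (leaf 1 367 400) (node 339 (merge (leaf 2 336 340) (node 367 (merge (leaf 2 335 338) (node 402 (merge (leaf 0 366 366) (leaf 0 367 403)))))))))))))))) (merge (node 370 (merge (node 367 (merge (node 338 (merge (leaf 2 335 339) (node 337 (merge (leaf 6 305 306) (leaf 2 334 366))))) (merge (node 398 (merge (leaf 1 366 399) (node 366 (merge (leaf 1 365 397) (node 334 (merge (leaf 3 333 333) (leaf 3 334 335))))))) (node 338 (merge (leaf 2 335 339) (node 306 (merge (leaf 5 273 274) (leaf 6 305 337)))))))) (merge (node 371 (merge (node 336 (merge (leaf 3 335 335) (node 304 (merge (leaf 4 272 272) (leaf 4 304 400))))) (merge (node 336 (merge (leaf 3 335 335) (node 337 (merge (leaf 7 304 304) (leaf 3 336 372))))) (node 404 (merge (leaf 0 368 403) (node 372 (merge (leaf 1 368 400) (leaf 0 369 405)))))))) (merge (node 336 (merge (node 304 (merge (leaf 4 272 272) (leaf 4 304 400))) (merge (node 371 (merge (leaf 3 335 335) (node 372 (merge (leaf 3 336 337) (leaf 1 368 400))))) (node 335 (merge (leaf 3 335 371) (node 334 (merge (leaf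 0 334 337) (leaf 3 334 367)))))))) (merge (node 336 (merge (node 304 (merge (leaf 4 272 272) (leaf 4 304 400))) (merge (node 371 (merge (leaf 3 335 335) (node 399 (merge (leaf 1 367 400) (node 367 (merge (leaf 1 366 398) (node 339 (merge (leaf 2 335 338) (leaf 2 336 340))))))))) (node 371 (merge (leaf 3 335 335) (node 404 (merge (leaf 0 368 403) (node 372 (merge (leaf 0 369 405) (node 340 (merge (leaf 2 336 339) (leaf 2 337 341)))))))))))) (node 399 (merge (node 398 (merge (leaf 1 366 367) (leaf 2 366 400))) (merge (node 400 (merge (leaf 1 367 371) (leaf 2 366 398))) (merge (node 367 (merge (leaf 1 366 398) (node 338 (merge (leaf 2 335 339) (node 337 (merge (leaf 6 305 306) (leaf 2 334 366))))))) (node 371 (merge (leaf 1 367 400) (node 339 (merge (leaf 2 336 340) (node 338 (merge (leaf 2 335 367) (node 306 (merge (leaf 5 273 274) (leaf 6 305 337)))))))))))))))))) (merge (node 370 (merge (node 336 (merge (node 304 (merge (leaf 4 272 272) (leaf 4 304 400))) (merge (node 371 (merge (leaf 3 335 335) (node 372 (merge (leaf 3 336 337) (leaf 1 368 400))))) (node 335 (merge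 (leaf 3 335 371) (node 334 (merge (leaf 0 334 337) (leaf 3 334 367)))))))) (merge (node 399 (merge (node 398 (merge (leaf 1 366 367) (leaf 2 366 400))) (merge (node 400 (merge (leaf 1 367 371) (leaf 2 366 398))) (merge (node 367 (merge (leaf 1 366 398) (node 402 (merge (leaf 0 366 366) (leaf 0 367 403))))) (node 400 (merge (leaf 1 367 371) (node 431 (merge (leaf 4 399 463) (node 402 (merge (leaf 1 398 430) (node 403 (merge (leaf 0 367 367) (leaf 3 368 404))))))))))))) (merge (node 367 (merge (node 402 (merge (leaf 0 366 366) (leaf 0 367 403))) (merge (node 398 (merge (leaf 1 366 399) (node 366 (merge (leaf 1 365 397) (node 334 (merge (leaf 3 333 333) (leaf 3 334 335))))))) (merge (node 402 (merge (leaf 0 366 366) (leaf 0 367 403))) (node 402 (merge (leaf 0 367 403) (node 399 (merge (leaf 1 366 398) (node 335 (merge (leaf 3 334 334) (node 431 (merge (leaf 4 399 463) (node 430 (merge (leaf 1 398 400) (leaf 5 334 462))))))))))))))) (merge (node 367 (merge (node 366 (merge (leaf 0 366 402) (node 337 (merge (leaf 2 334 338) (node 336 (merge (leaf 7 304 304) (leaf 2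 333 365))))))) (merge (node 403 (merge (leaf 0 367 402) (node 371 (merge (leaf 0 368 404) (node 335 (merge (leaf 3 334 334) (leaf 3 335 336))))))) (node 398 (merge (leaf 1 366 399) (node 366 (merge (leaf 1 365 397) (node 334 (merge (leaf 3 333 333) (leaf 3 334 335)))))))))) (node 400 (merge (node 371 (merge (leaf 1 368 372) (node 336 (merge (leaf 4 304 304) (leaf 3 335 335))))) (node 399 (merge (leaf 2 366 398) (node 431 (merge (leaf 4 399 463) (node 402 (merge (leaf 1 398 430) (node 435 (merge (leaf 0 399 434) (node 403 (merge (leaf 3 368 404) (leaf 0 400 436)))))))))))))))))) (node 370 (merge (node 336 (merge (node 304 (merge (leaf 4 272 272) (leaf 4 304 400))) (node 335 (merge (leaf 3 335 371) (node 334 (merge (leaf 0 333 333) (leaf 0 334 337))))))) (merge (node 371 (merge (node 336 (merge (leaf 3 335 335) (node 304 (merge (leaf 4 272 272) (leaf 4 304 400))))) (merge (node 404 (merge (leaf 0 368 403) (node 372 (merge (leaf 1 368 400) (leaf 0 369 405))))) (node 404 (merge (leaf 0 368 403) (node 372 (merge (leaf 0 369 405) (node 340 (merge (leaf 2 336 339) (leaf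 2 337 341)))))))))) (merge (node 434 (merge (node 337 (merge (leaf 4 337 466) (node 402 (merge (leaf 4 305 305) (node 338 (merge (leaf 5 305 306) (node 339 (merge (leaf 6 306 307) (leaf 1 336 340))))))))) (merge (node 337 (merge (leaf 4 337 466) (node 306 (merge (leaf 6 305 338) (node 305 (merge (leaf 6 273 274) (node 400 (merge (leaf 5 272 273) (node 399 (merge (leaf 1 367 371) (leaf 0 398 398))))))))))) (merge (node 400 (merge (node 399 (merge (leaf 1 367 371) (leaf 2 366 398))) (merge (node 399 (merge (leaf 0 398 398) (node 435 (merge (leaf 0 399 402) (leaf 3 400 436))))) (node 371 (merge (leaf 1 368 372) (node 339 (merge (leaf 2 336 340) (node 435 (merge (leaf 3 400 436) (node 466 (merge (leaf 6 338 402) (leaf 5 338 403)))))))))))) (node 338 (merge (node 306 (merge (leaf 5 273 274) (leaf 6 305 337))) (merge (node 306 (merge (leaf 5 273 274) (leaf 5 305 402))) (node 402 (merge (node 337 (merge (leaf 4 305 305) (node 339 (merge (leaf 6 306 307) (leaf 1 336 340))))) (merge (node 435 (merge (leaf 4 338 467) (node 436 (merge (leaf 3 400 400) (leaf 3 401 437)))))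 (node 339 (merge (leaf 6 306 307) (node 371 (merge (leaf 2 336 340) (node 400 (merge (leaf 1 368 372) (leaf 1 367 399))))))))))))))))) (merge (node 337 (merge (node 434 (merge (leaf 4 337 466) (node 402 (merge (leaf 4 305 305) (node 338 (merge (leaf 5 305 306) (node 339 (merge (leaf 6 306 307) (leaf 1 336 340))))))))) (merge (node 304 (merge (leaf 7 304 336) (node 305 (merge (leaf 7 272 272) (node 273 (merge (leaf 5 272 400) (node 274 (merge (leaf 6 241 242) (leaf 6 273 306))))))))) (merge (node 434 (merge (leaf 4 337 466) (node 338 (merge (leaf 6 305 306) (node 339 (merge (leaf 1 336 340) (node 307 (merge (leaf 6 306 402) (node 336 (merge (leaf 7 304 304) (leaf 2 304 308))))))))))) (node 434 (merge (leaf 4 337 466) (node 305 (merge (leaf 4 305 402) (node 273 (merge (leaf 5 272 400) (node 336 (merge (leaf 5 240 241) (leaf 7 304 304))))))))))))) (node 371 (merge (node 404 (merge (leaf 0 368 403) (node 372 (merge (leaf 0 369 405) (node 373 (merge (leaf 1 369 402) (node 339 (merge (leaf 2 336 340) (node 338 (merge (leaf 3 337 337) (leaf 3 338 374))))))))))) (merge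 (node 404 (merge (leaf 0 368 403) (node 372 (merge (leaf 0 369 405) (node 340 (merge (leaf 2 336 339) (leaf 2 337 341))))))) (node 336 (merge (leaf 3 335 335) (node 337 (merge (leaf 7 304 304) (node 306 (merge (leaf 6 305 338) (node 305 (merge (leaf 6 273 274) (node 273 (merge (leaf 5 240 241) (leaf 4 273 402)))))))))))))))))))))))))) nA_28 cA_28 9 (by decide +kernel)
def nA_29 : ℕ := 0x1000000018000000000000002000000020000000000000000000000000000000000000000000000000000000000000000000000000000000000000000000000000000
def cA_29 : ℕ := 0xc0000003e8000003df000003df000007fe000003f8000001f8000000700000007000000000000000000000000000000000000000000000000000000000000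
theorem lA_29 : S nA_29 cA_29 10 := S_of_chk [] trivial (node 369 (merge (node 338 (merge (node 370 (merge (leaf 6 337 465) (node 306 (merge (leaf 5 273 274) (leaf 5 305 402))))) (merge (node 306 (merge (leaf 6 305 337) (node 370 (merge (leaf 5 273 274) (leaf 5 305 402))))) (merge (node 465 (merge (leaf 6 337 370) (node 466 (merge (leaf 4 369 498) (node 337 (merge (leaf 4 337 434) (node 336 (merge (leaf 7 304 304) (leaf 7 336 368))))))))) (node 337 (merge (leaf 6 305 306) (node 466 (merge (leaf 4 337 434) (node 465 (merge (leaf 4 369 498) (node 336 (merge (leaf 7 304 304) (leaf 7 336 368))))))))))))) (merge (node 336 (merge (node 304 (merge (leaf 7 304 337) (node 368 (merge (leaf 4 272 272) (leaf 4 304 400))))) (merge (node 368 (merge (leaf 7 336 465) (node 304 (merge (leaf 4 272 272) (leaf 4 304 400))))) (merge (node 337 (merge (leaf 7 304 304) (node 466 (merge (leaf 4 337 434) (node 465 (merge (leaf 4 369 498) (node 338 (merge (leaf 6 305 306) (leaf 6 337 370))))))))) (node 465 (merge (leaf 7 336 368) (node 466 (merge (leaf 4 369 498) (node 337 (merge (leaf 4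 337 434) (node 338 (merge (leaf 6 305 306) (leaf 6 337 370))))))))))))) (merge (node 337 (merge (node 466 (merge (leaf 4 337 434) (node 465 (merge (leaf 4 369 498) (node 336 (merge (leaf 7 304 304) (leaf 7 336 368))))))) (merge (node 306 (merge (leaf 6 305 338) (node 305 (merge (leaf 6 273 274) (node 400 (merge (leaf 5 304 432) (node 273 (merge (leaf 5 272 368) (node 272 (merge (leaf 7 240 240) (leaf 7 272 304))))))))))) (merge (node 434 (merge (leaf 4 337 466) (node 305 (merge (leaf 4 305 402) (node 306 (merge (leaf 6 273 274) (leaf 6 305 338))))))) (node 434 (merge (leaf 4 337 466) (node 305 (merge (leaf 4 305 402) (node 274 (merge (leaf 6 273 306) (node 273 (merge (leaf 6 241 242) (node 368 (merge (leaf 5 272 400) (node 336 (merge (leaf 5 240 241) (leaf 7 336 465))))))))))))))))) (merge (node 337 (merge (node 466 (merge (leaf 4 337 434) (node 465 (merge (leaf 4 369 498) (node 338 (merge (leaf 6 305 306) (leaf 6 337 370))))))) (merge (node 306 (merge (leaf 6 305 338) (node 305 (merge (leaf 6 273 274) (node 400 (merge (leaf 5 304 432) (node 273 (merge (leaf 5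 272 368) (node 272 (merge (leaf 7 240 240) (leaf 7 272 304))))))))))) (node 434 (merge (leaf 4 337 466) (node 305 (merge (leaf 4 305 402) (node 400 (merge (leaf 5 304 432) (node 273 (merge (leaf 5 272 368) (node 272 (merge (leaf 7 240 240) (leaf 7 272 304)))))))))))))) (merge (node 337 (merge (node 466 (merge (leaf 4 337 434) (node 465 (merge (leaf 4 369 498) (node 338 (merge (leaf 6 305 306) (leaf 6 337 370))))))) (merge (node 338 (merge (leaf 6 305 306) (node 370 (merge (leaf 6 337 465) (node 336 (merge (leaf 7 304 304) (node 371 (merge (leaf 0 335 335) (leaf 3 336 372))))))))) (merge (node 434 (merge (leaf 4 337 466) (node 305 (merge (leaf 4 305 402) (node 306 (merge (leaf 6 273 274) (leaf 6 305 338))))))) (merge (node 304 (merge (leaf 7 304 336) (node 305 (merge (leaf 7 272 272) (node 402 (merge (leaf 4 305 434) (node 370 (merge (leaf 4 273 273) (node 400 (merge (leaf 5 304 432) (node 399 (merge (leaf 2 367 371) (leaf 2 366 398))))))))))))) (node 304 (merge (leaf 7 304 336) (node 305 (merge (leaf 7 272 272) (node 402 (merge (leaf 4 305 434) (node 370 (merge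 (leaf 4 273 273) (node 400 (merge (leaf 5 304 432) (node 399 (merge (leaf 2 367 371) (leaf 2 366 398)))))))))))))))))) (merge (node 337 (merge (node 466 (merge (leaf 4 337 434) (node 465 (merge (leaf 4 369 498) (node 336 (merge (leaf 7 304 304) (leaf 7 336 368))))))) (merge (node 304 (merge (leaf 7 304 336) (node 305 (merge (leaf 7 272 272) (node 400 (merge (leaf 5 304 432) (node 273 (merge (leaf 5 272 368) (node 274 (merge (leaf 6 241 242) (leaf 6 273 306))))))))))) (merge (node 434 (merge (leaf 4 337 466) (node 305 (merge (leaf 4 305 402) (node 400 (merge (leaf 5 304 432) (node 273 (merge (leaf 5 272 368) (node 272 (merge (leaf 7 240 240) (leaf 7 272 304))))))))))) (merge (node 434 (merge (leaf 4 337 466) (node 305 (merge (leaf 4 305 402) (node 274 (merge (leaf 6 273 306) (node 273 (merge (leaf 6 241 242) (node 368 (merge (leaf 5 272 400) (node 336 (merge (leaf 5 240 241) (leaf 7 336 465))))))))))))) (node 304 (merge (leaf 7 304 336) (node 305 (merge (leaf 7 272 272) (node 402 (merge (leaf 4 305 434) (node 370 (merge (leaf 4 273 273) (node 400 (merge (leaf 5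 304 432) (node 399 (merge (leaf 2 367 371) (leaf 2 366 398)))))))))))))))))) (merge (node 337 (merge (node 466 (merge (leaf 4 337 434) (node 465 (merge (leaf 4 369 498) (node 336 (merge (leaf 7 304 304) (leaf 7 336 368))))))) (merge (node 434 (merge (leaf 4 337 466) (node 305 (merge (leaf 4 305 402) (node 400 (merge (leaf 5 304 432) (node 273 (merge (leaf 5 272 368) (node 272 (merge (leaf 7 240 240) (leaf 7 272 304))))))))))) (merge (node 304 (merge (leaf 7 304 336) (node 305 (merge (leaf 7 272 272) (node 400 (merge (leaf 5 304 432) (node 273 (merge (leaf 5 272 368) (node 370 (merge (leaf 4 273 402) (node 338 (merge (leaf 4 241 241) (leaf 6 337 465))))))))))))) (merge (node 304 (merge (leaf 7 304 336) (node 305 (merge (leaf 7 272 272) (node 402 (merge (leaf 4 305 434) (node 370 (merge (leaf 4 273 273) (node 400 (merge (leaf 5 304 432) (node 399 (merge (leaf 2 367 371) (leaf 2 366 398))))))))))))) (node 434 (merge (leaf 4 337 466) (node 305 (merge (leaf 4 305 402) (node 400 (merge (leaf 5 304 432) (node 399 (merge (leaf 0 398 398) (node 368 (merge (leaf 5 272 273)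 (node 370 (merge (leaf 1 367 371) (node 465 (merge (leaf 7 336 336) (leaf 6 337 338)))))))))))))))))))) (merge (node 400 (merge (node 370 (merge (node 371 (merge (leaf 1 368 372) (node 399 (merge (leaf 1 367 368) (leaf 2 366 398))))) (node 338 (merge (leaf 6 337 465) (node 306 (merge (leaf 5 273 274) (leaf 6 305 337))))))) (merge (node 399 (merge (node 431 (merge (leaf 4 399 463) (node 402 (merge (leaf 1 398 430) (node 403 (merge (leaf 1 399 432) (node 367 (merge (leaf 3 366 366) (leaf 3 367 368))))))))) (merge (node 398 (merge (leaf 2 366 370) (node 429 (merge (leaf 1 397 430) (node 397 (merge (leaf 2 365 368) (leaf 1 396 428))))))) (merge (node 398 (merge (leaf 2 366 370) (node 432 (merge (leaf 0 397 397) (node 366 (merge (leaf 3 365 365) (node 402 (merge (leaf 3 366 367) (node 431 (merge (leaf 1 399 403) (leaf 1 398 430))))))))))) (node 398 (merge (leaf 2 366 370) (node 397 (merge (leaf 2 365 368) (node 432 (merge (leaf 0 397 433) (node 431 (merge (leaf 0 396 396) (leaf 4 399 463))))))))))))) (merge (node 337 (merge (node 306 (merge (leaf 6 305 338) (node 305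 (merge (leaf 6 273 274) (node 304 (merge (leaf 7 272 272) (leaf 7 304 336))))))) (merge (node 338 (merge (leaf 6 305 306) (node 336 (merge (leaf 7 304 304) (node 368 (merge (leaf 7 336 465) (node 367 (merge (leaf 1 335 339) (leaf 2 334 366))))))))) (merge (node 305 (merge (leaf 5 304 432) (node 368 (merge (leaf 5 272 273) (node 338 (merge (leaf 6 305 306) (node 339 (merge (leaf 1 336 340) (node 336 (merge (leaf 1 335 367) (leaf 7 336 465))))))))))) (merge (node 306 (merge (leaf 6 305 338) (node 305 (merge (leaf 6 273 274) (node 400 (merge (leaf 5 304 432) (node 273 (merge (leaf 5 272 368) (node 272 (merge (leaf 7 240 240) (leaf 7 272 304))))))))))) (node 432 (merge (leaf 5 304 305) (node 336 (merge (leaf 7 304 304) (node 368 (merge (leaf 4 336 465) (node 431 (merge (leaf 5 335 463) (node 430 (merge (leaf 2 398 402) (leaf 2 397 429)))))))))))))))) (node 338 (merge (node 337 (merge (leaf 6 305 306) (node 305 (merge (leaf 5 304 432) (node 304 (merge (leaf 7 272 272) (leaf 7 304 336))))))) (node 370 (merge (leaf 6 337 465) (node 399 (merge (leaf 2 366 398) (node 402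 (merge (leaf 2 367 371) (node 431 (merge (leaf 1 398 430) (leaf 4 399 463))))))))))))))) (merge (node 402 (merge (node 399 (merge (node 431 (merge (leaf 4 399 463) (node 430 (merge (leaf 1 398 400) (leaf 2 398 432))))) (merge (node 434 (merge (node 466 (merge (leaf 4 337 337) (leaf 7 369 498))) (merge (node 400 (merge (leaf 0 398 398) (leaf 0 399 435))) (node 400 (merge (leaf 0 398 398) (leaf 0 399 435)))))) (node 431 (merge (leaf 4 399 463) (node 432 (merge (leaf 2 398 430) (node 434 (merge (leaf 3 398 398) (node 466 (merge (leaf 0 431 467) (leaf 7 369 498)))))))))))) (merge (node 368 (merge (node 367 (merge (leaf 0 366 366) (node 403 (merge (leaf 0 367 370) (leaf 3 368 404))))) (merge (node 337 (merge (node 338 (merge (leaf 6 305 306) (node 339 (merge (leaf 1 336 340) (node 336 (merge (leaf 7 304 304) (leaf 1 335 367))))))) (merge (node 434 (merge (leaf 4 337 466) (node 305 (merge (leaf 4 305 402) (node 306 (merge (leaf 6 273 274) (leaf 6 305 338))))))) (node 434 (merge (leaf 4 337 466) (node 305 (merge (leaf 4 305 402) (node 304 (merge (leaf 7 272 272) (leaf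 7 304 336)))))))))) (node 337 (merge (node 434 (merge (leaf 4 305 305) (leaf 4 337 466))) (merge (node 306 (merge (leaf 6 305 338) (node 305 (merge (leaf 6 273 274) (node 273 (merge (leaf 4 273 370) (node 272 (merge (leaf 7 240 240) (leaf 7 272 304))))))))) (node 434 (merge (leaf 4 337 466) (node 338 (merge (leaf 6 305 306) (node 339 (merge (leaf 1 336 340) (node 307 (merge (leaf 6 306 370) (node 336 (merge (leaf 7 304 304) (leaf 2 304 308))))))))))))))))) (node 403 (merge (node 404 (merge (leaf 3 368 368) (leaf 1 400 432))) (merge (node 404 (merge (leaf 1 400 432) (node 373 (merge (leaf 2 369 372) (node 405 (merge (leaf 3 369 370) (leaf 2 370 374))))))) (merge (node 404 (merge (leaf 3 368 368) (node 373 (merge (leaf 2 369 372) (node 405 (merge (leaf 3 369 370) (leaf 2 370 374))))))) (node 400 (merge (node 371 (merge (leaf 2 368 372) (node 399 (merge (leaf 2 367 370) (node 431 (merge (leaf 1 398 430) (leaf 4 399 463))))))) (merge (node 371 (merge (leaf 2 368 372) (node 370 (merge (leaf 2 367 399) (node 368 (merge (leaf 0 367 367) (node 336 (merge (leaf 4 304 304)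 (leaf 3 335 335))))))))) (merge (node 431 (merge (leaf 1 399 432) (node 399 (merge (leaf 1 398 430) (leaf 4 399 463))))) (node 432 (merge (leaf 1 399 431) (node 371 (merge (leaf 2 368 372) (node 368 (merge (leaf 3 367 367) (node 336 (merge (leaf 4 304 304) (node 335 (merge (leaf 7 303 303) (leaf 3 335 370)))))))))))))))))))))) (merge (node 402 (merge (node 434 (merge (node 466 (merge (leaf 4 337 337) (leaf 7 369 498))) (node 431 (merge (node 399 (merge (leaf 4 399 463) (node 400 (merge (leaf 0 398 398) (leaf 1 398 430))))) (merge (node 432 (merge (leaf 2 398 430) (node 403 (merge (leaf 1 399 400) (leaf 1 400 404))))) (node 432 (merge (leaf 2 399 403) (node 399 (merge (leaf 3 398 398) (leaf 4 399 463)))))))))) (merge (node 399 (merge (node 431 (merge (leaf 4 399 463) (node 430 (merge (leaf 1 398 400) (leaf 2 398 432))))) (merge (node 370 (merge (node 400 (merge (leaf 2 367 371) (leaf 2 366 398))) (node 338 (merge (leaf 5 305 306) (leaf 6 337 465))))) (node 431 (merge (leaf 4 399 463) (node 432 (merge (leaf 2 398 430) (node 434 (merge (leaf 3 398 398) (node 466 (merge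 (leaf 0 431 467) (leaf 7 369 498)))))))))))) (merge (node 368 (merge (node 367 (merge (leaf 0 366 366) (node 403 (merge (leaf 0 367 370) (leaf 3 368 404))))) (merge (node 465 (merge (leaf 7 336 336) (node 338 (merge (leaf 6 337 370) (node 337 (merge (leaf 6 305 306) (node 305 (merge (leaf 4 305 434) (node 400 (merge (leaf 5 272 273) (leaf 5 304 432))))))))))) (node 403 (merge (leaf 3 368 404) (node 400 (merge (leaf 3 367 367) (node 431 (merge (leaf 1 399 432) (node 399 (merge (leaf 1 398 430) (leaf 4 399 463)))))))))))) (merge (node 466 (merge (node 434 (merge (leaf 4 337 337) (leaf 7 369 498))) (merge (node 465 (merge (leaf 4 369 498) (node 368 (merge (leaf 7 336 336) (node 367 (merge (leaf 0 366 366) (node 403 (merge (leaf 0 367 370) (leaf 3 367 400))))))))) (node 337 (merge (leaf 4 337 434) (node 338 (merge (leaf 6 305 306) (node 465 (merge (leaf 6 337 370) (node 368 (merge (leaf 7 336 336) (node 367 (merge (leaf 0 366 366) (node 403 (merge (leaf 3 367 400) (leaf 3 368 404)))))))))))))))) (merge (node 403 (merge (node 404 (merge (leaf 3 368 368) (leaf 1 400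 432))) (merge (node 404 (merge (leaf 1 400 432) (node 373 (merge (leaf 2 369 372) (node 405 (merge (leaf 3 369 370) (leaf 2 370 374))))))) (merge (node 404 (merge (leaf 3 368 368) (node 373 (merge (leaf 2 369 372) (node 405 (merge (leaf 3 369 370) (leaf 2 370 374))))))) (node 400 (merge (node 371 (merge (leaf 2 368 372) (node 399 (merge (leaf 2 367 370) (node 431 (merge (leaf 1 398 430) (leaf 4 399 463))))))) (merge (node 431 (merge (leaf 1 399 432) (node 399 (merge (leaf 1 398 430) (leaf 4 399 463))))) (node 368 (merge (leaf 3 367 367) (node 465 (merge (leaf 7 336 336) (node 338 (merge (leaf 6 337 370) (node 337 (merge (leaf 6 305 306) (node 305 (merge (leaf 5 272 273) (leaf 5 304 432)))))))))))))))))) (node 370 (merge (node 338 (merge (leaf 5 305 306) (leaf 6 337 465))) (merge (node 337 (merge (node 434 (merge (leaf 4 305 305) (leaf 4 337 466))) (merge (node 305 (merge (leaf 4 273 273) (node 306 (merge (leaf 6 273 274) (leaf 5 305 338))))) (node 434 (merge (leaf 4 337 466) (node 338 (merge (leaf 5 305 306) (node 339 (merge (leaf 6 306 307) (node 368 (merge (leaf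 1 336 340) (leaf 2 335 367)))))))))))) (node 368 (merge (node 403 (merge (leaf 0 367 367) (leaf 3 368 404))) (node 465 (merge (leaf 7 336 336) (node 466 (merge (leaf 4 369 498) (node 434 (merge (leaf 4 337 337) (node 467 (merge (leaf 4 370 499) (node 468 (merge (leaf 3 432 432) (leaf 3 433 469)))))))))))))))))))))) (node 402 (merge (node 399 (merge (node 431 (merge (leaf 4 399 463) (node 430 (merge (leaf 1 398 400) (leaf 2 398 432))))) (merge (node 370 (merge (node 400 (merge (leaf 2 367 371) (leaf 2 366 398))) (node 338 (merge (leaf 5 305 306) (leaf 6 337 465))))) (node 431 (merge (leaf 4 399 463) (node 432 (merge (leaf 2 398 430) (node 434 (merge (leaf 3 398 398) (node 466 (merge (leaf 0 431 467) (leaf 7 369 498)))))))))))) (merge (node 368 (merge (node 336 (merge (leaf 7 336 465) (node 304 (merge (leaf 4 272 272) (leaf 4 304 400))))) (node 367 (merge (leaf 0 366 366) (node 403 (merge (leaf 0 367 370) (leaf 3 368 404))))))) (merge (node 403 (merge (node 404 (merge (leaf 3 368 368) (leaf 1 400 432))) (merge (node 404 (merge (leaf 3 368 368) (node 436 (merge (leaf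 0 401 437) (node 400 (merge (leaf 0 400 435) (node 372 (merge (leaf 2 368 371) (leaf 2 369 373))))))))) (merge (node 404 (merge (leaf 1 400 432) (node 436 (merge (leaf 0 401 437) (node 400 (merge (leaf 0 400 435) (node 372 (merge (leaf 2 368 371) (leaf 2 369 373))))))))) (node 431 (merge (node 432 (merge (leaf 1 399 400) (leaf 2 398 430))) (merge (node 432 (merge (leaf 2 398 430) (node 434 (merge (leaf 2 399 403) (node 466 (merge (leaf 0 431 467) (leaf 7 369 498))))))) (merge (node 432 (merge (leaf 1 399 400) (leaf 2 399 434))) (node 399 (merge (leaf 4 399 463) (node 400 (merge (leaf 1 398 430) (node 435 (merge (leaf 0 399 434) (node 403 (merge (leaf 0 400 436) (node 367 (merge (leaf 3 366 366) (leaf 3 367 368))))))))))))))))))) (node 370 (merge (node 338 (merge (leaf 5 305 306) (leaf 6 337 465))) (merge (node 403 (merge (node 404 (merge (leaf 3 368 368) (leaf 1 400 432))) (merge (node 404 (merge (leaf 1 400 432) (node 405 (merge (leaf 3 369 370) (leaf 1 401 434))))) (node 368 (merge (leaf 0 367 367) (node 336 (merge (leaf 7 336 465) (node 371 (merge (leaf 3 335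 335) (node 339 (merge (leaf 2 336 340) (node 434 (merge (leaf 5 306 307) (leaf 6 338 466)))))))))))))) (node 434 (merge (node 338 (merge (leaf 5 305 306) (node 467 (merge (leaf 4 338 435) (node 466 (merge (leaf 7 369 498) (leaf 4 370 499))))))) (merge (node 338 (merge (leaf 5 305 306) (node 339 (merge (leaf 6 306 307) (node 340 (merge (leaf 1 337 341) (node 368 (merge (leaf 2 335 367) (leaf 2 336 371))))))))) (node 466 (merge (leaf 7 369 498) (node 371 (merge (leaf 6 338 339) (node 372 (merge (leaf 1 369 373) (node 404 (merge (leaf 0 369 405) (node 403 (merge (leaf 0 368 368) (leaf 1 400 432)))))))))))))))))))))))))))))))) nA_29 cA_29 10 (by decide +kernel)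
def nA_30 : ℕ := 0x1000000018000000000000002000000000000000000000000000000000000000000000000000000000000000000000000000000000000000000000000000000000000
def cA_30 : ℕ := 0x700000007c000001e4000003a7800001e7000007ff800003df000003df000000de0000009e0000000a000000000000000000000000000000000000000000000000000000000000000000000000000
theorem lA_30 : S nA_30 cA_30 11 := S_of_chk [] trivial (node 432 (merge (node 431 (merge (node 399 (merge (leaf 4 399 463) (leaf 7 399 464))) (merge (node 399 (merge (leaf 4 399 463) (node 398 (merge (leaf 3 398 434) (node 397 (merge (leaf 0 396 396) (leaf 3 397 430))))))) (merge (node 399 (merge (leaf 7 399 464) (node 434 (merge (leaf 3 398 398) (node 467 (merge (leaf 0 431 466) (node 435 (merge (leaf 3 399 400) (leaf 0 432 468))))))))) (node 466 (merge (node 467 (merge (leaf 0 431 434) (node 465 (merge (leaf 1 463 464) (leaf 3 432 468))))) (merge (node 430 (merge (leaf 0 430 465) (node 461 (merge (leaf 1 429 462) (node 429 (merge (leaf 1 428 460) (node 397 (merge (leaf 3 396 396) (leaf 3 397 398))))))))) (node 434 (merge (leaf 0 431 467)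 (node 463 (merge (leaf 1 430 462) (node 435 (merge (leaf 1 431 464) (node 403 (merge (leaf 2 399 402) (leaf 2 400 404)))))))))))))))) (merge (node 431 (merge (node 399 (merge (leaf 4 399 463) (leaf 7 399 464))) (merge (node 399 (merge (leaf 4 399 463) (node 398 (merge (leaf 3 398 434) (node 397 (merge (leaf 0 396 396) (leaf 3 397 430))))))) (merge (node 399 (merge (leaf 7 399 464) (node 434 (merge (leaf 3 398 398) (node 467 (merge (leaf 0 431 466) (node 435 (merge (leaf 3 399 400) (leaf 0 432 468))))))))) (node 434 (merge (node 467 (merge (leaf 0 431 466) (node 435 (merge (leaf 0 432 468) (node 403 (merge (leaf 2 399 402) (leaf 2 400 404))))))) (merge (node 467 (merge (leaf 0 431 466) (node 435 (merge (leaf 0 432 468) (node 463 (merge (leaf 1 430 462) (leaf 1 431 464))))))) (merge (node 463 (merge (leaf 1 430 462) (node 464 (merge (leaf 1 431 435) (node 529 (merge (leaf 4 432 561) (node 400 (merge (leaf 5 367 368) (leaf 4 400 497))))))))) (node 466 (merge (leaf 0 431 467) (node 462 (merge (leaf 1 430 463) (node 461 (merge (leaf 1 429 430) (node 402 (merge (leaf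 2 399 403) (node 497 (merge (leaf 3 461 494) (node 529 (merge (leaf 5 401 498) (node 464 (merge (leaf 4 400 400) (leaf 4 432 561))))))))))))))))))))))) (merge (node 431 (merge (node 399 (merge (leaf 4 399 463) (leaf 7 399 464))) (merge (node 430 (merge (node 465 (merge (leaf 0 430 466) (node 464 (merge (leaf 7 399 399) (leaf 0 429 429))))) (merge (node 461 (merge (leaf 1 429 462) (node 429 (merge (leaf 1 428 460) (node 397 (merge (leaf 3 396 396) (leaf 3 397 398))))))) (merge (node 465 (merge (leaf 0 430 466) (node 464 (merge (leaf 7 399 399) (leaf 0 429 429))))) (node 462 (merge (leaf 1 429 461) (node 398 (merge (leaf 3 397 397) (node 399 (merge (leaf 7 399 464) (node 494 (merge (leaf 6 366 367) (leaf 6 398 526))))))))))))) (merge (node 494 (merge (node 493 (merge (leaf 0 493 529) (node 524 (merge (leaf 1 492 525) (node 492 (merge (leaf 1 491 523) (node 460 (merge (leaf 3 459 459) (leaf 3 460 461))))))))) (merge (node 526 (merge (node 525 (merge (leaf 1 493 497) (node 524 (merge (leaf 1 492 493) (leaf 2 491 523))))) (node 463 (merge (leaf 4 399 399) (node 558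 (merge (leaf 6 430 462) (leaf 6 462 590))))))) (node 462 (merge (node 461 (merge (leaf 3 461 497) (node 460 (merge (leaf 0 459 459) (leaf 0 460 463))))) (merge (node 399 (merge (leaf 4 399 463) (node 430 (merge (leaf 6 398 526) (node 367 (merge (leaf 5 334 335) (leaf 6 366 398))))))) (node 461 (merge (leaf 3 461 497) (node 460 (merge (leaf 0 459 459) (node 430 (merge (leaf 1 428 429) (node 399 (merge (leaf 6 398 526) (node 398 (merge (leaf 6 366 367) (node 397 (merge (leaf 7 365 365) (leaf 0 396 396))))))))))))))))))) (node 430 (merge (node 461 (merge (leaf 1 429 462) (node 429 (merge (leaf 1 428 460) (node 397 (merge (leaf 3 396 396) (leaf 3 397 398))))))) (merge (node 397 (merge (leaf 3 397 398) (node 429 (merge (leaf 3 396 396) (node 464 (merge (leaf 0 429 465) (node 463 (merge (leaf 0 428 428) (node 529 (merge (leaf 4 432 561) (node 400 (merge (leaf 5 367 368) (leaf 4 400 497))))))))))))) (merge (node 461 (merge (leaf 1 429 462) (node 429 (merge (leaf 1 428 460) (node 464 (merge (leaf 0 429 465) (node 463 (merge (leaf 0 428 428) (node 529 (merge (leaf 4 432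 561) (node 400 (merge (leaf 5 367 368) (leaf 4 400 497))))))))))))) (node 462 (merge (leaf 1 429 461) (node 398 (merge (leaf 3 397 397) (node 366 (merge (leaf 4 366 463) (node 335 (merge (leaf 6 334 367) (node 334 (merge (leaf 6 302 303) (node 333 (merge (leaf 7 301 301) (leaf 7 333 365))))))))))))))))))))) (merge (node 431 (merge (node 399 (merge (leaf 4 399 463) (leaf 7 399 464))) (merge (node 430 (merge (node 465 (merge (leaf 0 430 466) (node 464 (merge (leaf 7 399 399) (leaf 0 429 429))))) (merge (node 461 (merge (leaf 1 429 462) (node 429 (merge (leaf 1 428 460) (node 397 (merge (leaf 3 396 396) (leaf 3 397 398))))))) (merge (node 465 (merge (leaf 0 430 466) (node 464 (merge (leaf 7 399 399) (leaf 0 429 429))))) (node 462 (merge (leaf 1 429 461) (node 398 (merge (leaf 3 397 397) (node 399 (merge (leaf 7 399 464) (node 494 (merge (leaf 6 366 367) (leaf 6 398 526))))))))))))) (node 466 (merge (node 465 (merge (leaf 0 430 430) (node 467 (merge (leaf 0 431 434) (leaf 3 432 468))))) (merge (node 430 (merge (leaf 0 430 465) (node 461 (merge (leaf 1 429 462) (node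 429 (merge (leaf 1 428 460) (node 397 (merge (leaf 3 396 396) (leaf 3 397 398))))))))) (merge (node 434 (merge (leaf 0 431 467) (node 462 (merge (leaf 1 430 463) (node 461 (merge (leaf 1 429 430) (node 494 (merge (leaf 3 461 497) (node 493 (merge (leaf 3 460 460) (leaf 0 493 529))))))))))) (node 467 (merge (leaf 0 431 434) (node 465 (merge (leaf 3 432 468) (node 494 (merge (leaf 2 462 497) (node 493 (merge (leaf 0 493 529) (node 524 (merge (leaf 1 492 525) (node 492 (merge (leaf 1 491 523) (node 460 (merge (leaf 3 459 459) (leaf 3 460 461)))))))))))))))))))))) (merge (node 431 (merge (node 399 (merge (leaf 4 399 463) (leaf 7 399 464))) (merge (node 399 (merge (leaf 4 399 463) (node 398 (merge (leaf 3 398 434) (node 397 (merge (leaf 0 396 396) (leaf 3 397 430))))))) (merge (node 399 (merge (leaf 7 399 464) (node 434 (merge (leaf 3 398 398) (node 403 (merge (leaf 2 399 402) (node 435 (merge (leaf 3 399 400) (leaf 2 400 404))))))))) (node 430 (merge (node 461 (merge (leaf 1 429 462) (node 429 (merge (leaf 1 428 460) (node 397 (merge (leaf 3 396 396) (leaf 3 397 398)))))))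 (merge (node 397 (merge (leaf 3 397 398) (node 429 (merge (leaf 3 396 396) (node 464 (merge (leaf 0 429 465) (node 463 (merge (leaf 0 428 428) (node 529 (merge (leaf 4 432 561) (node 400 (merge (leaf 5 367 368) (leaf 4 400 497))))))))))))) (merge (node 461 (merge (leaf 1 429 462) (node 429 (merge (leaf 1 428 460) (node 464 (merge (leaf 0 429 465) (node 463 (merge (leaf 0 428 428) (node 529 (merge (leaf 4 432 561) (node 400 (merge (leaf 5 367 368) (leaf 4 400 497))))))))))))) (node 462 (merge (leaf 1 429 461) (node 398 (merge (leaf 3 397 397) (node 366 (merge (leaf 4 366 463) (node 335 (merge (leaf 6 334 367) (node 334 (merge (leaf 6 302 303) (node 333 (merge (leaf 7 301 301) (leaf 7 333 365))))))))))))))))))))) (merge (node 494 (merge (node 493 (merge (leaf 0 493 529) (node 524 (merge (leaf 1 492 525) (node 492 (merge (leaf 1 491 523) (node 460 (merge (leaf 3 459 459) (leaf 3 460 461))))))))) (merge (node 493 (merge (leaf 0 493 529) (node 525 (merge (leaf 1 492 524) (node 497 (merge (leaf 1 493 526) (node 466 (merge (leaf 2 462 465) (node 467 (merge (leaf 2 463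 498) (node 434 (merge (leaf 0 431 431) (node 468 (merge (leaf 0 432 435) (leaf 3 433 469))))))))))))))) (merge (node 497 (merge (node 525 (merge (leaf 1 493 526) (node 493 (merge (leaf 1 492 524) (node 461 (merge (leaf 3 460 460) (leaf 3 461 462))))))) (node 466 (merge (leaf 2 462 465) (node 467 (merge (leaf 2 463 498) (node 434 (merge (leaf 0 431 431) (node 468 (merge (leaf 0 432 435) (leaf 3 433 469))))))))))) (merge (node 497 (merge (node 462 (merge (leaf 3 461 461) (node 463 (merge (leaf 3 462 498) (node 431 (merge (leaf 4 399 399) (leaf 1 430 434))))))) (merge (node 466 (merge (leaf 2 462 465) (node 498 (merge (leaf 2 463 467) (node 462 (merge (leaf 3 461 461) (leaf 3 462 463))))))) (merge (node 466 (merge (leaf 2 462 465) (node 467 (merge (leaf 2 463 498) (node 434 (merge (leaf 0 431 431) (node 468 (merge (leaf 0 432 435) (leaf 3 433 469))))))))) (node 526 (merge (leaf 1 493 525) (node 465 (merge (leaf 2 462 466) (node 462 (merge (leaf 3 461 461) (node 529 (merge (leaf 7 400 400) (node 434 (merge (leaf 6 401 402) (node 431 (merge (leaf 1 430 463) (node 399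 (merge (leaf 3 398 398) (leaf 6 398 430))))))))))))))))))) (node 493 (merge (leaf 0 493 529) (node 461 (merge (leaf 3 460 460) (node 462 (merge (leaf 3 461 497) (node 431 (merge (leaf 1 429 430) (node 463 (merge (leaf 4 399 399) (leaf 1 430 434)))))))))))))))) (merge (node 431 (merge (node 399 (merge (leaf 4 399 463) (leaf 7 399 464))) (merge (node 399 (merge (leaf 4 399 463) (node 398 (merge (leaf 3 398 434) (node 397 (merge (leaf 0 396 396) (leaf 3 397 430))))))) (merge (node 399 (merge (leaf 7 399 464) (node 434 (merge (leaf 3 398 398) (node 467 (merge (leaf 0 431 466) (node 435 (merge (leaf 3 399 400) (leaf 0 432 468))))))))) (node 434 (merge (node 467 (merge (leaf 0 431 466) (node 435 (merge (leaf 0 432 468) (node 403 (merge (leaf 2 399 402) (leaf 2 400 404))))))) (merge (node 466 (merge (leaf 0 431 467) (node 465 (merge (leaf 0 430 430) (node 494 (merge (leaf 2 462 497) (node 493 (merge (leaf 2 461 464) (leaf 0 493 529))))))))) (merge (node 403 (merge (leaf 2 399 402) (node 435 (merge (leaf 2 400 404) (node 464 (merge (leaf 1 431 463) (node 465 (merge (leaf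 1 432 436) (node 430 (merge (leaf 0 429 429) (leaf 0 430 466))))))))))) (node 403 (merge (leaf 2 399 402) (node 435 (merge (leaf 2 400 404) (node 468 (merge (leaf 0 432 467) (node 436 (merge (leaf 0 433 469) (node 464 (merge (leaf 1 431 463) (leaf 1 432 465))))))))))))))))))) (merge (node 497 (merge (node 494 (merge (node 525 (merge (leaf 1 493 526) (node 493 (merge (leaf 1 492 524) (node 465 (merge (leaf 2 461 464) (leaf 2 462 466))))))) (merge (node 466 (merge (leaf 2 462 465) (node 498 (merge (leaf 2 463 467) (node 462 (merge (leaf 3 461 461) (leaf 3 462 463))))))) (node 525 (merge (leaf 1 493 526) (node 493 (merge (leaf 1 492 524) (node 461 (merge (leaf 3 460 460) (leaf 3 461 462)))))))))) (merge (node 529 (merge (node 400 (merge (leaf 4 400 464) (leaf 7 400 465))) (merge (node 464 (merge (leaf 4 400 400) (leaf 4 432 561))) (merge (node 465 (merge (leaf 7 400 400) (node 434 (merge (leaf 6 401 402) (node 561 (merge (leaf 6 433 466) (node 594 (merge (leaf 4 465 562) (node 593 (merge (leaf 7 496 625) (leaf 4 497 626))))))))))) (node 561 (merge (leaf 4 432 464)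 (node 593 (merge (leaf 7 496 625) (node 594 (merge (leaf 4 497 626) (node 562 (merge (leaf 4 465 465) (node 563 (merge (leaf 3 528 564) (node 592 (merge (leaf 2 559 591) (leaf 5 496 624))))))))))))))))) (merge (node 464 (merge (node 529 (merge (leaf 4 400 400) (leaf 4 432 561))) (merge (node 462 (merge (node 461 (merge (leaf 0 461 463) (leaf 3 461 494))) (merge (node 463 (merge (leaf 3 462 498) (node 434 (merge (leaf 1 431 435) (leaf 2 430 465))))) (node 494 (merge (leaf 3 461 461) (node 493 (merge (leaf 2 461 465) (node 525 (merge (leaf 1 492 524) (leaf 1 493 526)))))))))) (node 529 (merge (leaf 4 432 561) (node 494 (merge (leaf 0 493 493) (node 462 (merge (leaf 3 461 461) (node 463 (merge (leaf 3 462 498) (node 434 (merge (leaf 1 431 435) (leaf 2 430 465)))))))))))))) (node 494 (merge (node 493 (merge (leaf 0 493 529) (node 525 (merge (leaf 1 492 524) (leaf 1 493 526))))) (merge (node 525 (merge (leaf 1 493 526) (node 493 (merge (leaf 1 492 524) (node 461 (merge (leaf 3 460 460) (leaf 3 461 462))))))) (node 462 (merge (leaf 3 461 461) (node 498 (merge (leaf 3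 462 463) (node 467 (merge (leaf 2 463 466) (node 499 (merge (leaf 2 464 468) (node 532 (merge (leaf 0 496 531) (node 500 (merge (leaf 1 496 529) (leaf 0 497 533)))))))))))))))))))) (node 434 (merge (node 467 (merge (node 431 (merge (leaf 0 431 466) (node 399 (merge (leaf 3 398 398) (leaf 7 399 464))))) (merge (node 468 (merge (leaf 0 432 435) (node 466 (merge (leaf 3 432 465) (leaf 3 433 469))))) (node 435 (merge (leaf 0 432 468) (node 399 (merge (leaf 3 399 400) (node 431 (merge (leaf 3 398 398) (leaf 7 399 464)))))))))) (merge (node 431 (merge (node 399 (merge (leaf 3 398 398) (leaf 7 399 464))) (node 466 (merge (leaf 0 431 467) (node 465 (merge (leaf 0 430 430) (node 402 (merge (leaf 2 399 403) (node 497 (merge (leaf 5 369 370) (leaf 6 401 529))))))))))) (merge (node 435 (merge (node 403 (merge (leaf 2 400 404) (node 431 (merge (leaf 2 399 402) (node 399 (merge (leaf 3 398 398) (leaf 3 399 400))))))) (merge (node 468 (merge (leaf 0 432 467) (node 436 (merge (leaf 0 433 469) (node 404 (merge (leaf 2 400 403) (leaf 2 401 405))))))) (node 467 (merge (leaf 0 432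 468) (node 431 (merge (leaf 0 431 466) (node 399 (merge (leaf 3 398 398) (leaf 3 399 400)))))))))) (merge (node 399 (merge (node 431 (merge (leaf 3 398 398) (leaf 7 399 464))) (node 435 (merge (leaf 3 399 400) (node 468 (merge (leaf 0 432 467) (node 436 (merge (leaf 0 433 469) (node 404 (merge (leaf 2 400 403) (leaf 2 401 405))))))))))) (merge (node 464 (merge (node 399 (merge (leaf 7 399 431) (node 400 (merge (leaf 7 367 367) (leaf 3 399 435))))) (merge (node 529 (merge (leaf 4 432 561) (node 494 (merge (leaf 0 493 493) (node 497 (merge (leaf 4 400 400) (node 465 (merge (leaf 6 401 402) (leaf 2 462 466))))))))) (node 431 (merge (leaf 7 399 399) (node 403 (merge (leaf 2 399 402) (node 435 (merge (leaf 2 400 404) (node 465 (merge (leaf 1 432 436) (node 430 (merge (leaf 0 429 429) (leaf 0 430 466)))))))))))))) (merge (node 467 (merge (node 468 (merge (leaf 0 432 435) (node 466 (merge (leaf 3 432 465) (leaf 3 433 469))))) (merge (node 435 (merge (leaf 0 432 468) (node 403 (merge (leaf 2 400 404) (node 402 (merge (leaf 2 399 431) (node 499 (merge (leaf 7 370 370) (leaf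 7 402 531))))))))) (node 466 (merge (leaf 0 431 431) (node 465 (merge (leaf 1 463 464) (node 497 (merge (leaf 2 462 494) (leaf 2 463 498)))))))))) (node 465 (merge (node 466 (merge (node 467 (merge (leaf 1 463 464) (leaf 3 432 468))) (node 497 (merge (leaf 2 462 494) (node 529 (merge (leaf 6 401 402) (leaf 6 433 561))))))) (merge (node 435 (merge (node 468 (merge (leaf 0 432 467) (node 436 (merge (leaf 1 432 464) (leaf 0 433 469))))) (merge (node 436 (merge (leaf 1 432 464) (node 404 (merge (leaf 2 400 403) (leaf 2 401 405))))) (merge (node 404 (merge (leaf 2 400 403) (node 436 (merge (leaf 2 401 405) (node 469 (merge (leaf 0 433 468) (node 437 (merge (leaf 1 433 466) (leaf 0 434 470))))))))) (node 467 (merge (leaf 0 432 468) (node 466 (merge (leaf 1 463 464) (node 403 (merge (leaf 2 400 404) (node 371 (merge (leaf 5 338 339) (leaf 5 370 498))))))))))))) (merge (node 435 (merge (node 468 (merge (leaf 0 432 467) (node 436 (merge (leaf 1 432 464) (leaf 0 433 469))))) (merge (node 400 (merge (leaf 3 399 399) (node 368 (merge (leaf 4 336 336) (node 497 (merge (leaf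 4 368 464) (leaf 7 400 529))))))) (node 468 (merge (leaf 0 432 467) (node 436 (merge (leaf 0 433 469) (node 404 (merge (leaf 2 400 403) (leaf 2 401 405)))))))))) (merge (node 497 (merge (node 529 (merge (leaf 7 400 400) (leaf 6 401 402))) (merge (node 494 (merge (leaf 2 462 466) (node 493 (merge (leaf 0 493 529) (node 525 (merge (leaf 1 492 524) (leaf 1 493 526))))))) (node 466 (merge (leaf 2 462 494) (node 467 (merge (leaf 1 464 468) (leaf 2 463 498)))))))) (node 494 (merge (node 529 (merge (leaf 0 493 493) (node 497 (merge (leaf 7 400 400) (leaf 2 462 466))))) (merge (node 493 (merge (leaf 2 461 464) (node 524 (merge (leaf 1 492 525) (node 492 (merge (leaf 1 491 523) (node 460 (merge (leaf 3 459 459) (leaf 3 460 461))))))))) (node 497 (merge (leaf 2 462 466) (node 529 (merge (leaf 7 400 400) (node 561 (merge (leaf 4 432 464) (node 594 (merge (leaf 4 465 562) (node 593 (merge (leaf 7 496 625) (leaf 4 497 626))))))))))))))))))))))))))))))))))) nA_30 cA_30 11 (by decide +kernel)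
def nA_31 : ℕ := 0x1000000018000000000000000000000000000000000000000000000000000000000000000000000000000000000000000000000000000000000000000000000000000
def cA_31 : ℕ := 0x700000007c000001e4000003a7800001e7000007ff800003ff000007ff000007fe000003fe000001fa000000780000007000000000000000000000000000000000000000000000000000000000000
theorem lA_31 : S nA_31 cA_31 12 := S_of_chk [(nA_27, cA_27, 11), (nA_28, cA_28, 9), (nA_29, cA_29, 10), (nA_30, cA_30, 11)] ⟨lA_27, lA_28, lA_29, lA_30, trivial⟩ (node 433 (merge (node 465 (merge (node 401 (merge (leaf 5 400 497) (node 464 (merge (leaf 5 368 369) (leaf 6 400 432))))) (merge (node 497 (merge (leaf 5 400 401) (node 466 (merge (leaf 2 462 494) (node 467 (merge (leaf 1 464 468) (leaf 2 463 498))))))) (merge (node 464 (merge (node 401 (merge (leaf 5 368 369) (leaf 6 400 432))) (node 494 (merge (leaf 2 461 493) (node 466 (merge (leaf 1 462 463) (leaf 1 463 467))))))) (node 466 (merge (node 494 (merge (leaf 2 462 497) (node 493 (merge (leaf 2 461 464) (leaf 0 493 529))))) (merge (node 497 (merge (leaf 2 462 494) (node 467 (merge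 (leaf 1 464 468) (leaf 2 463 498))))) (merge (node 467 (merge (leaf 1 463 464) (node 497 (merge (leaf 1 464 468) (leaf 2 463 498))))) (node 464 (merge (leaf 1 463 467) (node 494 (merge (leaf 1 462 463) (leaf 2 461 493))))))))))))) (merge (node 494 (merge (node 493 (merge (leaf 0 493 529) (node 465 (merge (leaf 2 461 464) (node 497 (merge (leaf 5 400 401) (leaf 2 462 466))))))) (merge (node 493 (merge (leaf 0 493 529) (node 524 (merge (leaf 1 492 525) (node 492 (merge (leaf 1 491 523) (node 460 (merge (leaf 3 459 459) (leaf 3 460 461))))))))) (node 497 (merge (node 465 (merge (leaf 5 400 401) (leaf 2 462 466))) (node 526 (merge (leaf 1 493 525) (node 462 (merge (leaf 3 461 461) (node 463 (merge (leaf 3 462 498) (node 431 (merge (leaf 4 399 399) (leaf 6 430 558)))))))))))))) (merge (node 465 (merge (node 401 (merge (leaf 5 400 497) (node 464 (merge (leaf 5 368 369) (leaf 6 400 432))))) (merge (node 497 (merge (leaf 5 400 401) (node 494 (merge (leaf 2 462 466) (node 493 (merge (leaf 0 493 529) (node 461 (merge (leaf 3 460 460) (leaf 3 461 462))))))))) (merge (node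 464 (merge (node 401 (merge (leaf 5 368 369) (leaf 6 400 432))) (node 494 (merge (leaf 2 461 493) (node 466 (merge (leaf 1 462 463) (leaf 1 463 467))))))) (node 494 (merge (node 493 (merge (leaf 2 461 464) (leaf 0 493 529))) (merge (node 466 (merge (leaf 2 462 497) (node 464 (merge (leaf 1 462 463) (leaf 1 463 467))))) (node 493 (merge (leaf 0 493 529) (node 525 (merge (leaf 1 492 524) (node 497 (merge (leaf 1 493 526) (node 461 (merge (leaf 3 460 460) (leaf 3 461 462)))))))))))))))) (merge (hyp 0) (merge (node 432 (merge (node 464 (merge (leaf 6 400 401) (node 529 (merge (leaf 4 432 561) (node 400 (merge (leaf 4 400 497) (node 399 (merge (leaf 7 367 367) (leaf 7 399 431))))))))) (merge (node 431 (merge (node 464 (merge (leaf 7 399 399) (leaf 6 400 401))) (merge (node 399 (merge (leaf 7 399 464) (node 463 (merge (leaf 4 399 495) (node 434 (merge (leaf 3 398 398) (leaf 1 430 462))))))) (merge (node 401 (merge (leaf 6 400 464) (node 430 (merge (leaf 2 398 402) (node 429 (merge (leaf 2 397 400) (node 397 (merge (leaf 3 396 396) (leaf 3 397 398))))))))) (node 430 (merge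 (node 461 (merge (leaf 1 429 462) (node 429 (merge (leaf 1 428 460) (node 401 (merge (leaf 2 397 400) (leaf 2 398 402))))))) (merge (node 461 (merge (leaf 1 429 462) (node 429 (merge (leaf 1 428 460) (node 397 (merge (leaf 3 396 396) (leaf 3 397 398))))))) (node 402 (merge (leaf 2 398 401) (node 434 (merge (leaf 2 399 403) (node 398 (merge (leaf 3 397 397) (leaf 3 398 399)))))))))))))) (merge (node 464 (merge (leaf 6 400 401) (node 529 (merge (leaf 4 432 561) (node 400 (merge (leaf 4 400 497) (node 463 (merge (leaf 5 367 368) (node 434 (merge (leaf 1 431 435) (node 462 (merge (leaf 1 430 431) (leaf 2 429 461))))))))))))) (merge (node 464 (merge (leaf 6 400 401) (node 529 (merge (leaf 4 432 561) (node 400 (merge (leaf 4 400 497) (node 368 (merge (leaf 5 367 463) (node 367 (merge (leaf 7 335 335) (leaf 7 367 399))))))))))) (merge (node 431 (merge (node 399 (merge (leaf 4 399 463) (leaf 7 399 464))) (merge (node 399 (merge (leaf 4 399 463) (node 398 (merge (leaf 3 398 434) (node 397 (merge (leaf 0 396 396) (leaf 3 397 430))))))) (merge (node 399 (merge (leaf 7 399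 464) (node 434 (merge (leaf 3 398 398) (node 467 (merge (leaf 0 431 466) (node 435 (merge (leaf 3 399 400) (leaf 0 432 468))))))))) (node 434 (merge (node 467 (merge (leaf 0 431 466) (node 435 (merge (leaf 0 432 468) (node 403 (merge (leaf 2 399 402) (leaf 2 400 404))))))) (merge (node 467 (merge (leaf 0 431 466) (node 435 (merge (leaf 0 432 468) (node 463 (merge (leaf 1 430 462) (leaf 1 431 464))))))) (merge (node 463 (merge (leaf 1 430 462) (node 464 (merge (leaf 1 431 435) (node 529 (merge (leaf 4 432 561) (node 400 (merge (leaf 5 367 368) (leaf 4 400 497))))))))) (node 466 (merge (leaf 0 431 467) (node 462 (merge (leaf 1 430 463) (node 461 (merge (leaf 1 429 430) (node 402 (merge (leaf 2 399 403) (node 497 (merge (leaf 3 461 494) (node 529 (merge (leaf 5 401 498) (node 464 (merge (leaf 4 400 400) (leaf 4 432 561))))))))))))))))))))))) (merge (node 434 (merge (node 464 (merge (leaf 6 400 401) (node 463 (merge (leaf 1 431 435) (node 431 (merge (leaf 7 399 399) (leaf 1 430 462))))))) (merge (node 464 (merge (leaf 6 400 401) (node 431 (merge (leaf 7 399 399) (node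 467 (merge (leaf 0 431 466) (node 435 (merge (leaf 0 432 468) (node 403 (merge (leaf 2 399 402) (leaf 2 400 404))))))))))) (merge (node 431 (merge (node 463 (merge (leaf 4 399 399) (leaf 1 430 462))) (merge (node 399 (merge (leaf 3 398 398) (leaf 7 399 464))) (node 467 (merge (leaf 0 431 466) (node 435 (merge (leaf 0 432 468) (node 463 (merge (leaf 1 430 462) (leaf 1 431 464)))))))))) (merge (node 403 (merge (node 404 (merge (leaf 2 400 435) (node 402 (merge (leaf 1 400 401) (leaf 1 401 405))))) (merge (node 435 (merge (leaf 2 400 404) (node 467 (merge (leaf 0 432 468) (node 431 (merge (leaf 0 431 466) (node 463 (merge (leaf 1 430 462) (node 399 (merge (leaf 3 398 398) (leaf 4 399 495))))))))))) (node 431 (merge (leaf 2 399 402) (node 463 (merge (leaf 1 430 462) (node 399 (merge (leaf 3 398 398) (leaf 4 399 495)))))))))) (merge (node 464 (merge (leaf 6 400 401) (node 435 (merge (leaf 1 431 463) (node 468 (merge (leaf 0 432 467) (node 436 (merge (leaf 0 433 469) (node 404 (merge (leaf 2 400 403) (leaf 2 401 405))))))))))) (node 464 (merge (leaf 6 400 401) (node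 529 (merge (leaf 4 432 561) (node 431 (merge (leaf 7 399 399) (node 466 (merge (leaf 0 431 467) (node 462 (merge (leaf 1 430 463) (node 461 (merge (leaf 1 429 430) (node 402 (merge (leaf 2 399 403) (node 497 (merge (leaf 3 461 494) (leaf 5 401 498))))))))))))))))))))))) (node 431 (merge (node 463 (merge (leaf 4 399 399) (node 462 (merge (leaf 1 430 434) (node 461 (merge (leaf 1 429 430) (leaf 0 460 460))))))) (merge (node 399 (merge (leaf 4 399 463) (node 398 (merge (leaf 3 398 434) (node 397 (merge (leaf 0 396 396) (leaf 0 397 400))))))) (merge (node 430 (merge (node 461 (merge (leaf 1 429 462) (node 429 (merge (leaf 1 428 460) (node 401 (merge (leaf 2 397 400) (leaf 2 398 402))))))) (merge (node 461 (merge (leaf 1 429 462) (node 429 (merge (leaf 1 428 460) (node 397 (merge (leaf 3 396 396) (leaf 3 397 398))))))) (node 402 (merge (leaf 2 398 401) (node 434 (merge (leaf 2 399 403) (node 398 (merge (leaf 3 397 397) (leaf 3 398 399)))))))))) (node 430 (merge (node 401 (merge (leaf 2 398 402) (node 429 (merge (leaf 2 397 400) (node 397 (merge (leaf 3 396 396) (leaf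 3 397 398))))))) (merge (node 461 (merge (leaf 1 429 462) (node 429 (merge (leaf 1 428 460) (node 401 (merge (leaf 2 397 400) (leaf 2 398 402))))))) (merge (node 461 (merge (leaf 1 429 462) (node 429 (merge (leaf 1 428 460) (node 397 (merge (leaf 3 396 396) (leaf 3 397 398))))))) (node 462 (merge (leaf 1 429 461) (node 398 (merge (leaf 3 397 397) (node 366 (merge (leaf 4 366 463) (node 335 (merge (leaf 6 334 367) (node 334 (merge (leaf 6 302 303) (node 333 (merge (leaf 7 301 301) (leaf 7 333 365)))))))))))))))))))))))))))) (merge (node 432 (merge (node 464 (merge (leaf 6 400 401) (node 529 (merge (leaf 4 432 561) (node 400 (merge (leaf 4 400 497) (node 399 (merge (leaf 7 367 367) (leaf 7 399 431))))))))) (merge (node 464 (merge (leaf 6 400 401) (node 529 (merge (leaf 4 432 561) (node 400 (merge (leaf 4 400 497) (node 368 (merge (leaf 5 367 463) (node 336 (merge (leaf 4 336 465) (node 337 (merge (leaf 6 304 305) (leaf 6 336 369))))))))))))) (merge (node 464 (merge (leaf 6 400 401) (node 399 (merge (leaf 7 399 431) (node 400 (merge (leaf 7 367 367) (node 368 (merge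 (leaf 5 367 463) (node 336 (merge (leaf 4 336 465) (node 337 (merge (leaf 6 304 305) (leaf 6 336 369))))))))))))) (merge (node 494 (merge (node 493 (merge (leaf 0 493 529) (node 464 (merge (leaf 6 400 401) (leaf 2 461 465))))) (merge (node 493 (merge (leaf 0 493 529) (node 525 (merge (leaf 1 492 524) (node 497 (merge (leaf 1 493 526) (node 461 (merge (leaf 3 460 460) (leaf 3 461 462))))))))) (node 401 (merge (leaf 6 400 464) (node 497 (merge (leaf 5 400 465) (node 462 (merge (leaf 3 461 461) (node 463 (merge (leaf 3 462 498) (node 431 (merge (leaf 4 399 399) (leaf 1 430 434)))))))))))))) (merge (node 431 (merge (node 463 (merge (leaf 4 399 399) (node 462 (merge (leaf 1 430 434) (node 461 (merge (leaf 1 429 430) (leaf 0 460 460))))))) (merge (node 399 (merge (leaf 4 399 463) (node 398 (merge (leaf 3 398 434) (node 397 (merge (leaf 0 396 396) (leaf 0 397 400))))))) (merge (node 430 (merge (node 461 (merge (leaf 1 429 462) (node 429 (merge (leaf 1 428 460) (node 401 (merge (leaf 2 397 400) (leaf 2 398 402))))))) (merge (node 461 (merge (leaf 1 429 462) (node 429 (merge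 (leaf 1 428 460) (node 397 (merge (leaf 3 396 396) (leaf 3 397 398))))))) (node 402 (merge (leaf 2 398 401) (node 434 (merge (leaf 2 399 403) (node 398 (merge (leaf 3 397 397) (leaf 3 398 399)))))))))) (node 430 (merge (node 401 (merge (leaf 2 398 402) (node 429 (merge (leaf 2 397 400) (node 397 (merge (leaf 3 396 396) (leaf 3 397 398))))))) (merge (node 461 (merge (leaf 1 429 462) (node 429 (merge (leaf 1 428 460) (node 401 (merge (leaf 2 397 400) (leaf 2 398 402))))))) (merge (node 461 (merge (leaf 1 429 462) (node 429 (merge (leaf 1 428 460) (node 397 (merge (leaf 3 396 396) (leaf 3 397 398))))))) (node 462 (merge (leaf 1 429 461) (node 398 (merge (leaf 3 397 397) (node 366 (merge (leaf 4 366 463) (node 335 (merge (leaf 6 334 367) (node 334 (merge (leaf 6 302 303) (node 333 (merge (leaf 7 301 301) (leaf 7 333 365))))))))))))))))))))) (node 431 (merge (node 399 (merge (leaf 4 399 463) (leaf 7 399 464))) (merge (node 399 (merge (leaf 4 399 463) (node 398 (merge (leaf 3 398 434) (node 397 (merge (leaf 0 396 396) (leaf 3 397 430))))))) (merge (node 399 (merge (leaf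 7 399 464) (node 434 (merge (leaf 3 398 398) (node 403 (merge (leaf 2 399 402) (node 435 (merge (leaf 3 399 400) (leaf 2 400 404))))))))) (node 430 (merge (node 461 (merge (leaf 1 429 462) (node 429 (merge (leaf 1 428 460) (node 397 (merge (leaf 3 396 396) (leaf 3 397 398))))))) (merge (node 397 (merge (leaf 3 397 398) (node 429 (merge (leaf 3 396 396) (node 464 (merge (leaf 0 429 465) (node 463 (merge (leaf 0 428 428) (node 529 (merge (leaf 4 432 561) (node 400 (merge (leaf 5 367 368) (leaf 4 400 497))))))))))))) (merge (node 461 (merge (leaf 1 429 462) (node 429 (merge (leaf 1 428 460) (node 464 (merge (leaf 0 429 465) (node 463 (merge (leaf 0 428 428) (node 529 (merge (leaf 4 432 561) (node 400 (merge (leaf 5 367 368) (leaf 4 400 497))))))))))))) (node 462 (merge (leaf 1 429 461) (node 398 (merge (leaf 3 397 397) (node 366 (merge (leaf 4 366 463) (node 335 (merge (leaf 6 334 367) (node 334 (merge (leaf 6 302 303) (node 333 (merge (leaf 7 301 301) (leaf 7 333 365))))))))))))))))))))))))))) (merge (node 401 (merge (node 464 (merge (leaf 6 400 432) (node 465 (merge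 (leaf 5 368 369) (node 466 (merge (leaf 1 463 467) (node 494 (merge (leaf 1 462 463) (leaf 2 461 493))))))))) (merge (node 432 (merge (leaf 6 400 464) (node 431 (merge (node 402 (merge (leaf 2 398 430) (node 403 (merge (leaf 1 399 400) (leaf 1 400 404))))) (merge (node 463 (merge (leaf 4 399 399) (node 462 (merge (leaf 1 430 434) (node 461 (merge (leaf 1 429 430) (leaf 0 460 460))))))) (node 399 (merge (leaf 4 399 463) (node 434 (merge (leaf 3 398 398) (node 403 (merge (leaf 2 399 402) (node 435 (merge (leaf 3 399 400) (leaf 2 400 404)))))))))))))) (merge (node 432 (merge (leaf 6 400 464) (node 431 (merge (node 430 (merge (leaf 2 398 402) (node 461 (merge (leaf 1 429 462) (node 429 (merge (leaf 2 397 400) (leaf 1 428 460))))))) (merge (node 430 (merge (leaf 2 398 402) (node 461 (merge (leaf 1 429 462) (node 429 (merge (leaf 1 428 460) (node 397 (merge (leaf 3 396 396) (leaf 3 397 398))))))))) (merge (node 398 (merge (node 397 (merge (leaf 3 397 430) (node 399 (merge (leaf 0 396 396) (leaf 3 398 434))))) (merge (node 430 (merge (leaf 3 397 397) (node 461 (merge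 (leaf 1 429 462) (node 429 (merge (leaf 2 397 400) (leaf 1 428 460))))))) (node 434 (merge (leaf 3 398 399) (node 467 (merge (leaf 0 431 466) (node 435 (merge (leaf 0 432 468) (node 404 (merge (leaf 2 400 403) (node 436 (merge (leaf 3 400 400) (leaf 2 401 405)))))))))))))) (node 434 (merge (node 403 (merge (leaf 2 399 402) (node 435 (merge (leaf 2 400 404) (node 399 (merge (leaf 3 398 398) (leaf 3 399 400))))))) (merge (node 467 (merge (leaf 0 431 466) (node 435 (merge (leaf 0 432 468) (node 399 (merge (leaf 3 398 398) (leaf 3 399 400))))))) (merge (node 466 (merge (leaf 0 431 467) (node 402 (merge (leaf 2 399 403) (node 369 (merge (leaf 4 337 337) (leaf 7 369 498))))))) (node 435 (merge (node 404 (merge (leaf 2 400 403) (node 436 (merge (leaf 3 400 400) (leaf 2 401 405))))) (merge (node 467 (merge (leaf 0 432 468) (node 431 (merge (leaf 0 431 466) (node 403 (merge (leaf 2 399 402) (leaf 2 400 404))))))) (node 436 (merge (leaf 3 400 400) (node 469 (merge (leaf 0 433 468) (node 437 (merge (leaf 3 401 402) (leaf 0 434 470)))))))))))))))))))) (merge (node 369 (merge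 (node 465 (merge (leaf 5 368 464) (node 338 (merge (leaf 6 337 370) (node 337 (merge (leaf 6 305 306) (node 336 (merge (leaf 7 304 304) (leaf 7 336 368))))))))) (merge (node 465 (merge (leaf 5 368 464) (node 466 (merge (leaf 4 369 498) (node 337 (merge (leaf 4 337 434) (node 338 (merge (leaf 6 305 306) (leaf 6 337 370))))))))) (merge (node 465 (merge (leaf 5 368 464) (node 466 (merge (leaf 4 369 498) (node 337 (merge (leaf 4 337 434) (node 336 (merge (leaf 7 304 304) (leaf 7 336 368))))))))) (merge (node 368 (merge (node 465 (merge (leaf 7 336 336) (leaf 5 368 464))) (merge (node 403 (merge (node 404 (merge (leaf 3 368 402) (node 370 (merge (leaf 0 368 371) (node 465 (merge (leaf 6 337 338) (leaf 5 368 464))))))) (merge (node 465 (merge (leaf 5 368 464) (node 370 (merge (leaf 6 337 338) (node 371 (merge (leaf 0 368 404) (node 400 (merge (leaf 1 368 372) (leaf 1 367 399))))))))) (merge (node 465 (merge (leaf 5 368 464) (node 370 (merge (leaf 6 337 338) (node 367 (merge (leaf 0 367 402) (node 398 (merge (leaf 1 366 399) (node 366 (merge (leaf 1 365 397) (node 334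 (merge (leaf 3 333 333) (leaf 3 334 335))))))))))))) (node 402 (merge (leaf 3 368 404) (node 400 (merge (leaf 3 367 367) (node 435 (merge (leaf 0 400 436) (node 399 (merge (leaf 0 399 434) (node 431 (merge (leaf 1 398 430) (leaf 4 399 463))))))))))))))) (node 370 (merge (node 399 (merge (node 398 (merge (leaf 1 366 367) (leaf 2 366 400))) (merge (node 400 (merge (leaf 1 367 371) (leaf 2 366 398))) (merge (node 367 (merge (leaf 1 366 398) (node 335 (merge (leaf 3 334 334) (node 336 (merge (leaf 3 335 371) (node 431 (merge (leaf 6 303 304) (leaf 4 399 463))))))))) (node 371 (merge (leaf 1 367 400) (node 339 (merge (leaf 2 336 340) (node 367 (merge (leaf 2 335 338) (node 335 (merge (leaf 3 334 334) (leaf 3 335 336))))))))))))) (merge (node 403 (merge (node 402 (merge (leaf 0 367 367) (leaf 3 368 404))) (merge (node 371 (merge (leaf 0 368 404) (node 336 (merge (leaf 3 335 335) (node 304 (merge (leaf 4 272 272) (leaf 4 304 400))))))) (node 367 (merge (leaf 0 367 402) (node 339 (merge (leaf 2 335 338) (node 371 (merge (leaf 2 336 340) (node 335 (merge (leaf 3 334 334)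 (leaf 3 335 336)))))))))))) (merge (node 399 (merge (node 398 (merge (leaf 1 366 367) (leaf 2 366 400))) (merge (node 400 (merge (leaf 1 367 371) (leaf 2 366 398))) (merge (node 367 (merge (leaf 1 366 398) (node 338 (merge (leaf 2 335 339) (node 306 (merge (leaf 5 273 274) (leaf 5 305 402))))))) (node 371 (merge (leaf 1 367 400) (node 339 (merge (leaf 2 336 340) (node 367 (merge (leaf 2 335 338) (node 402 (merge (leaf 0 366 366) (leaf 0 367 403))))))))))))) (merge (node 338 (merge (node 306 (merge (leaf 5 273 274) (leaf 5 305 402))) (merge (node 367 (merge (leaf 2 335 339) (node 402 (merge (leaf 0 366 366) (leaf 0 367 403))))) (node 367 (merge (leaf 2 335 339) (node 398 (merge (leaf 1 366 399) (node 366 (merge (leaf 1 365 397) (node 334 (merge (leaf 3 333 333) (leaf 3 334 335)))))))))))) (node 400 (merge (node 371 (merge (leaf 1 368 372) (node 336 (merge (leaf 4 304 304) (leaf 3 335 335))))) (node 399 (merge (leaf 2 366 398) (node 431 (merge (leaf 4 399 463) (node 402 (merge (leaf 1 398 430) (node 435 (merge (leaf 0 399 434) (node 403 (merge (leaf 3 368 404) (leaf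 0 400 436))))))))))))))))))))) (hyp 1)))))) (hyp 2)))))) (merge (node 497 (merge (node 465 (merge (leaf 5 400 401) (node 466 (merge (leaf 2 462 494) (node 467 (merge (leaf 1 464 468) (leaf 2 463 498))))))) (merge (node 465 (merge (leaf 5 400 401) (node 494 (merge (leaf 2 462 466) (node 493 (merge (leaf 0 493 529) (node 525 (merge (leaf 1 492 524) (leaf 1 493 526))))))))) (merge (node 494 (merge (node 493 (merge (leaf 0 493 529) (node 461 (merge (leaf 3 460 460) (leaf 3 461 462))))) (merge (node 493 (merge (leaf 0 493 529) (node 525 (merge (leaf 1 492 524) (leaf 1 493 526))))) (node 526 (merge (leaf 1 493 525) (node 462 (merge (leaf 3 461 461) (node 463 (merge (leaf 3 462 498) (node 431 (merge (leaf 4 399 399) (leaf 6 430 558)))))))))))) (node 432 (merge (node 465 (merge (leaf 5 400 401) (node 529 (merge (leaf 7 400 400) (node 434 (merge (leaf 6 401 402) (node 561 (merge (leaf 6 433 466) (node 594 (merge (leaf 4 465 562) (node 593 (merge (leaf 7 496 625) (leaf 4 497 626))))))))))))) (merge (node 431 (merge (node 399 (merge (leaf 4 399 463) (node 398 (merge (leaf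 3 398 434) (node 397 (merge (leaf 0 396 396) (leaf 3 397 430))))))) (merge (node 401 (merge (leaf 5 400 465) (node 430 (merge (leaf 2 398 402) (node 461 (merge (leaf 1 429 462) (node 429 (merge (leaf 1 428 460) (node 397 (merge (leaf 3 396 396) (leaf 3 397 398))))))))))) (node 463 (merge (leaf 4 399 399) (node 434 (merge (leaf 1 430 462) (node 467 (merge (leaf 0 431 466) (node 435 (merge (leaf 0 432 468) (node 403 (merge (leaf 2 399 402) (leaf 2 400 404)))))))))))))) (merge (node 434 (merge (node 465 (merge (leaf 5 400 401) (node 529 (merge (leaf 7 400 400) (leaf 6 401 402))))) (merge (node 435 (merge (node 399 (merge (leaf 3 399 400) (node 431 (merge (leaf 3 398 398) (leaf 4 399 463))))) (node 468 (merge (leaf 0 432 467) (node 436 (merge (leaf 0 433 469) (node 404 (merge (leaf 2 400 403) (leaf 2 401 405))))))))) (node 465 (merge (leaf 5 400 401) (node 402 (merge (leaf 6 401 529) (node 431 (merge (leaf 2 399 403) (node 462 (merge (leaf 1 430 463) (node 430 (merge (leaf 1 429 461) (node 398 (merge (leaf 3 397 397) (leaf 3 398 399)))))))))))))))) (merge (node 431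 (merge (node 399 (merge (leaf 4 399 463) (node 398 (merge (leaf 3 398 434) (node 397 (merge (leaf 0 396 396) (leaf 0 397 400))))))) (merge (node 430 (merge (node 461 (merge (leaf 1 429 462) (node 429 (merge (leaf 1 428 460) (node 397 (merge (leaf 3 396 396) (leaf 3 397 398))))))) (merge (node 466 (merge (leaf 0 430 465) (node 467 (merge (leaf 0 431 434) (leaf 2 463 498))))) (node 466 (merge (leaf 0 430 465) (node 498 (merge (leaf 2 463 467) (node 462 (merge (leaf 1 429 461) (leaf 3 462 463)))))))))) (merge (node 434 (merge (node 467 (merge (leaf 0 431 466) (node 435 (merge (leaf 0 432 468) (node 399 (merge (leaf 3 398 398) (leaf 3 399 400))))))) (merge (node 467 (merge (leaf 0 431 466) (node 435 (merge (leaf 0 432 468) (node 403 (merge (leaf 2 399 402) (leaf 2 400 404))))))) (merge (node 403 (merge (leaf 2 399 402) (node 435 (merge (leaf 2 400 404) (node 399 (merge (leaf 3 398 398) (leaf 3 399 400))))))) (node 466 (merge (leaf 0 431 467) (node 430 (merge (leaf 0 430 465) (node 461 (merge (leaf 1 429 462) (node 429 (merge (leaf 1 428 460) (node 397 (merge (leaf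 3 396 396) (leaf 3 397 398))))))))))))))) (node 463 (merge (leaf 4 399 399) (node 498 (merge (leaf 3 462 462) (node 467 (merge (leaf 2 463 466) (node 499 (merge (leaf 2 464 468) (node 532 (merge (leaf 0 496 531) (node 500 (merge (leaf 1 496 529) (leaf 0 497 533))))))))))))))))) (merge (node 498 (merge (node 467 (merge (leaf 2 463 466) (node 499 (merge (leaf 2 464 468) (node 532 (merge (leaf 0 496 531) (node 500 (merge (leaf 1 496 529) (leaf 0 497 533))))))))) (node 463 (merge (leaf 3 462 462) (node 431 (merge (leaf 4 399 399) (node 401 (merge (leaf 5 400 465) (node 430 (merge (leaf 2 398 402) (node 429 (merge (leaf 2 397 400) (node 397 (merge (leaf 3 396 396) (leaf 3 397 398))))))))))))))) (merge (node 463 (merge (node 431 (merge (leaf 4 399 399) (node 434 (merge (leaf 1 430 462) (node 466 (merge (leaf 0 431 467) (node 465 (merge (leaf 5 400 401) (leaf 0 430 430))))))))) (merge (node 431 (merge (leaf 4 399 399) (node 462 (merge (leaf 1 430 434) (node 461 (merge (leaf 1 429 430) (leaf 0 460 460))))))) (merge (node 498 (merge (leaf 3 462 462) (node 467 (merge (leaf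 2 463 466) (node 499 (merge (leaf 2 464 468) (node 532 (merge (leaf 0 496 531) (node 500 (merge (leaf 1 496 529) (leaf 0 497 533))))))))))) (node 431 (merge (leaf 4 399 399) (node 465 (merge (leaf 5 400 401) (node 466 (merge (leaf 0 430 430) (node 467 (merge (leaf 0 431 434) (leaf 1 464 468))))))))))))) (node 431 (merge (node 399 (merge (leaf 4 399 463) (node 398 (merge (leaf 3 398 434) (node 397 (merge (leaf 0 396 396) (leaf 0 397 400))))))) (merge (node 430 (merge (node 402 (merge (leaf 2 398 401) (node 434 (merge (leaf 2 399 403) (node 398 (merge (leaf 3 397 397) (leaf 3 398 399))))))) (merge (node 461 (merge (leaf 1 429 462) (node 429 (merge (leaf 1 428 460) (node 397 (merge (leaf 3 396 396) (leaf 3 397 398))))))) (node 461 (merge (leaf 1 429 462) (node 429 (merge (leaf 1 428 460) (node 401 (merge (leaf 2 397 400) (leaf 2 398 402)))))))))) (merge (node 462 (merge (node 463 (merge (leaf 1 430 434) (leaf 3 462 498))) (node 430 (merge (leaf 1 429 461) (node 401 (merge (leaf 2 398 402) (node 429 (merge (leaf 2 397 400) (node 397 (merge (leaf 3 396 396) (leaf 3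 397 398))))))))))) (node 463 (merge (leaf 4 399 399) (node 498 (merge (leaf 3 462 462) (node 467 (merge (leaf 2 463 466) (node 499 (merge (leaf 2 464 468) (node 532 (merge (leaf 0 496 531) (node 500 (merge (leaf 1 496 529) (leaf 0 497 533)))))))))))))))))))))))))))) (hyp 3)))))))))) nA_31 cA_31 12 (by decide +kernel)
def nA_32 : ℕ := 0x1000000010000000000000000000000000000000000000000000000000000000000000000000000000000000000000000000000000000000000000000000000000000
def cA_32 : ℕ := 0xa0000007f0000007fc00001ef800003afc00001ef800007ffc00003ff000007ff800007ff000003fe000001fa000000780000007000000000000000000000000000000000000000000000000000000000000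
theorem lA_32 : S nA_32 cA_32 13 := S_of_chk [(nA_16, cA_16, 11), (nA_17, cA_17, 11), (nA_18, cA_18, 12), (nA_20, cA_20, 12), (nA_22, cA_22, 12), (nA_24, cA_24, 12), (nA_25, cA_25, 11), (nA_31, cA_31, 12)] ⟨lA_16, lA_17, lA_18, lA_20, lA_22, lA_24, lA_25, lA_31, trivial⟩ (node 495 (merge (node 494 (merge (node 493 (merge (leaf 0 493 529) (node 492 (merge (leaf 0 492 527) (node 460 (merge (leaf 3 459 459) (leaf 3 460 461))))))) (merge (node 493 (merge (leaf 0 493 529) (node 492 (merge (leaf 0 492 527) (node 464 (merge (leaf 2 460 463) (leaf 2 461 465))))))) (merge (node 493 (merge (leaf 0 493 529) (node 465 (merge (leaf 2 461 464) (node 497 (merge (leaf 2 462 466) (node 461 (merge (leaf 3 460 460) (leaf 3 461 462))))))))) (merge (node 493 (merge (node 492 (merge (leaf 0 492 527) (node 464 (merge (leaf 2 460 463) (leaf 2 461 465))))) (merge (node 465 (merge (leaf 2 461 464) (node 497 (merge (leaf 2 462 466) (node 461 (merge (leaf 3 460 460) (leaf 3 461 462))))))) (node 527 (merge (leaf 0 492 492) (node 461 (merge (leaf 3 460 460) (node 497 (merge (leaf 3 461 462)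 (node 526 (merge (leaf 1 494 498) (leaf 1 493 525)))))))))))) (node 526 (merge (node 497 (merge (leaf 1 493 525) (node 466 (merge (leaf 2 462 465) (node 498 (merge (leaf 2 463 467) (leaf 1 494 527))))))) (merge (node 497 (merge (leaf 1 493 525) (node 466 (merge (leaf 2 462 465) (node 498 (merge (leaf 2 463 467) (node 462 (merge (leaf 3 461 461) (leaf 3 462 463))))))))) (node 558 (merge (node 590 (merge (leaf 6 462 463) (node 623 (merge (leaf 4 494 591) (node 622 (merge (leaf 6 494 527) (leaf 4 526 655))))))) (merge (node 590 (merge (leaf 6 462 463) (node 623 (merge (leaf 4 494 591) (node 622 (merge (leaf 4 526 655) (node 621 (merge (leaf 5 493 589) (leaf 5 525 653))))))))) (merge (node 590 (merge (node 623 (merge (leaf 4 494 591) (node 622 (merge (leaf 6 494 527) (leaf 4 526 655))))) (merge (node 622 (merge (leaf 6 494 527) (node 621 (merge (leaf 5 493 589) (leaf 5 525 653))))) (node 591 (merge (leaf 4 494 623) (node 462 (merge (leaf 4 462 559) (node 589 (merge (leaf 5 461 557) (leaf 5 493 621)))))))))) (node 557 (merge (node 527 (merge (leaf 1 525 529) (node 556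 (merge (leaf 2 523 555) (leaf 2 524 559))))) (node 462 (merge (leaf 5 461 589) (node 461 (merge (leaf 7 429 429) (node 460 (merge (leaf 0 459 459) (leaf 0 460 463))))))))))))))))))))) (merge (node 494 (merge (node 493 (merge (leaf 0 493 529) (node 492 (merge (leaf 0 492 527) (node 524 (merge (leaf 1 491 523) (leaf 1 492 525))))))) (merge (node 493 (merge (leaf 0 493 529) (node 492 (merge (leaf 0 492 527) (node 460 (merge (leaf 3 459 459) (leaf 3 460 461))))))) (merge (node 493 (merge (leaf 0 493 529) (node 525 (merge (leaf 1 492 524) (node 497 (merge (leaf 1 493 526) (node 461 (merge (leaf 3 460 460) (leaf 3 461 462))))))))) (merge (node 461 (merge (node 493 (merge (leaf 3 460 460) (node 492 (merge (leaf 0 492 527) (node 524 (merge (leaf 1 491 523) (leaf 1 492 525))))))) (merge (node 497 (merge (leaf 3 461 462) (node 466 (merge (leaf 2 462 465) (node 498 (merge (leaf 2 463 467) (node 527 (merge (leaf 1 495 499) (leaf 1 494 526))))))))) (node 493 (merge (leaf 3 460 460) (node 525 (merge (leaf 1 492 524) (node 497 (merge (leaf 3 461 462) (leaf 1 493 526))))))))))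 (node 526 (merge (node 497 (merge (leaf 1 493 525) (node 466 (merge (leaf 2 462 465) (node 498 (merge (leaf 2 463 467) (leaf 1 494 527))))))) (merge (node 497 (merge (leaf 1 493 525) (node 466 (merge (leaf 2 462 465) (node 498 (merge (leaf 2 463 467) (node 462 (merge (leaf 3 461 461) (leaf 3 462 463))))))))) (merge (node 527 (merge (node 497 (merge (leaf 1 494 498) (node 462 (merge (leaf 3 461 461) (node 559 (merge (leaf 4 430 430) (leaf 7 462 591))))))) (merge (node 558 (merge (node 590 (merge (leaf 6 494 622) (node 463 (merge (leaf 5 430 431) (leaf 6 462 494))))) (node 557 (merge (leaf 1 525 529) (node 556 (merge (leaf 2 523 555) (leaf 2 524 559))))))) (node 497 (merge (leaf 1 494 498) (node 462 (merge (leaf 3 461 461) (node 430 (merge (leaf 4 398 398) (node 431 (merge (leaf 6 398 399) (node 558 (merge (leaf 5 430 463) (node 557 (merge (leaf 1 525 529) (leaf 5 461 589)))))))))))))))) (node 558 (merge (node 463 (merge (leaf 6 462 590) (node 431 (merge (leaf 4 399 399) (leaf 6 430 462))))) (merge (node 590 (merge (leaf 6 462 463) (node 623 (merge (leaf 4 494 591)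 (node 622 (merge (leaf 6 494 527) (leaf 4 526 655))))))) (merge (node 590 (merge (node 623 (merge (leaf 4 494 591) (node 622 (merge (leaf 6 494 527) (leaf 4 526 655))))) (merge (node 622 (merge (leaf 6 494 527) (node 621 (merge (leaf 5 493 589) (leaf 5 525 653))))) (node 591 (merge (leaf 4 494 623) (node 462 (merge (leaf 4 462 559) (node 589 (merge (leaf 5 461 557) (leaf 5 493 621)))))))))) (node 462 (merge (node 431 (merge (leaf 6 430 463) (node 430 (merge (leaf 6 398 399) (node 527 (merge (leaf 4 398 398) (leaf 4 430 559))))))) (merge (node 557 (merge (leaf 5 461 589) (node 527 (merge (leaf 1 525 529) (node 559 (merge (leaf 4 430 430) (leaf 2 524 556))))))) (merge (node 557 (merge (leaf 5 461 589) (node 430 (merge (leaf 5 429 525) (node 431 (merge (leaf 6 398 399) (leaf 6 430 463))))))) (node 559 (merge (leaf 4 462 591) (node 557 (merge (leaf 5 461 589) (node 527 (merge (leaf 1 525 529) (leaf 2 524 556)))))))))))))))))))))))) (merge (node 494 (merge (node 493 (merge (leaf 0 493 529) (node 492 (merge (leaf 0 492 527) (node 524 (merge (leaf 1 491 523) (leaf 1 492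 525))))))) (merge (node 493 (merge (leaf 0 493 529) (node 492 (merge (leaf 0 492 527) (node 460 (merge (leaf 3 459 459) (leaf 3 460 461))))))) (merge (node 493 (merge (leaf 0 493 529) (node 525 (merge (leaf 1 492 524) (node 497 (merge (leaf 1 493 526) (node 461 (merge (leaf 3 460 460) (leaf 3 461 462))))))))) (merge (node 493 (merge (node 492 (merge (leaf 0 492 527) (node 524 (merge (leaf 1 491 523) (leaf 1 492 525))))) (merge (node 492 (merge (leaf 0 492 527) (node 460 (merge (leaf 3 459 459) (leaf 3 460 461))))) (node 525 (merge (leaf 1 492 524) (node 526 (merge (leaf 1 493 497) (node 461 (merge (leaf 3 460 460) (node 558 (merge (leaf 4 429 429) (leaf 7 461 590)))))))))))) (node 526 (merge (node 497 (merge (leaf 1 493 525) (node 466 (merge (leaf 2 462 465) (node 498 (merge (leaf 2 463 467) (leaf 1 494 527))))))) (merge (node 497 (merge (leaf 1 493 525) (node 466 (merge (leaf 2 462 465) (node 498 (merge (leaf 2 463 467) (node 462 (merge (leaf 3 461 461) (leaf 3 462 463))))))))) (merge (node 558 (merge (node 463 (merge (leaf 6 462 590) (node 431 (merge (leaf 4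 399 399) (leaf 6 430 462))))) (merge (node 590 (merge (leaf 6 462 463) (node 622 (merge (leaf 6 494 527) (node 621 (merge (leaf 5 493 589) (leaf 5 525 653))))))) (node 557 (merge (node 527 (merge (leaf 1 525 529) (node 556 (merge (leaf 2 523 555) (leaf 2 524 559))))) (node 462 (merge (leaf 5 461 589) (node 430 (merge (leaf 5 429 525) (node 429 (merge (leaf 7 397 397) (leaf 7 429 461)))))))))))) (node 462 (merge (node 497 (merge (leaf 3 461 461) (node 466 (merge (leaf 2 462 465) (node 498 (merge (leaf 3 462 463) (leaf 2 463 467))))))) (merge (node 497 (merge (leaf 3 461 461) (node 466 (merge (leaf 2 462 465) (node 498 (merge (leaf 2 463 467) (node 527 (merge (leaf 1 495 499) (leaf 1 494 526))))))))) (merge (node 431 (merge (node 399 (merge (leaf 6 398 430) (leaf 4 399 463))) (merge (node 463 (merge (leaf 4 399 399) (leaf 6 430 558))) (merge (node 430 (merge (leaf 6 398 399) (node 527 (merge (leaf 4 398 398) (node 429 (merge (leaf 7 397 397) (node 558 (merge (leaf 7 429 461) (node 557 (merge (leaf 1 525 529) (leaf 5 461 589))))))))))) (node 558 (merge (leaf 6 430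 463) (node 557 (merge (leaf 5 461 589) (node 527 (merge (leaf 1 525 529) (node 430 (merge (leaf 4 398 398) (leaf 4 430 559))))))))))))) (node 463 (merge (node 431 (merge (leaf 4 399 399) (leaf 6 430 558))) (merge (node 497 (merge (leaf 3 462 498) (node 465 (merge (leaf 2 462 466) (node 433 (merge (leaf 5 400 401) (node 464 (merge (leaf 2 430 434) (node 430 (merge (leaf 3 429 429) (node 527 (merge (leaf 4 398 398) (leaf 4 430 559))))))))))))) (node 497 (merge (leaf 3 462 498) (node 465 (merge (leaf 2 462 466) (node 433 (merge (leaf 5 400 401) (node 464 (merge (leaf 2 430 434) (node 430 (merge (leaf 3 429 429) (node 527 (merge (leaf 4 398 398) (leaf 7 430 559))))))))))))))))))))))))))))) (merge (node 494 (merge (node 493 (merge (leaf 0 493 529) (node 492 (merge (leaf 0 492 527) (node 524 (merge (leaf 1 491 523) (leaf 1 492 525))))))) (merge (node 493 (merge (leaf 0 493 529) (node 492 (merge (leaf 0 492 527) (node 460 (merge (leaf 3 459 459) (leaf 3 460 461))))))) (merge (node 493 (merge (leaf 0 493 529) (node 525 (merge (leaf 1 492 524) (node 497 (merge (leaf 1 493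 526) (node 461 (merge (leaf 3 460 460) (leaf 3 461 462))))))))) (merge (node 493 (merge (node 492 (merge (leaf 0 492 527) (node 524 (merge (leaf 1 491 523) (leaf 1 492 525))))) (merge (node 492 (merge (leaf 0 492 527) (node 460 (merge (leaf 3 459 459) (leaf 3 460 461))))) (node 525 (merge (leaf 1 492 524) (node 526 (merge (leaf 1 493 497) (node 461 (merge (leaf 3 460 460) (node 558 (merge (leaf 4 429 429) (leaf 7 461 590)))))))))))) (node 527 (merge (node 462 (merge (node 461 (merge (leaf 3 461 497) (node 460 (merge (leaf 0 459 459) (leaf 0 460 463))))) (merge (node 430 (merge (leaf 4 398 398) (node 559 (merge (leaf 7 430 463) (leaf 7 462 591))))) (node 461 (merge (leaf 3 461 497) (node 460 (merge (leaf 0 459 459) (node 430 (merge (leaf 4 398 398) (node 559 (merge (leaf 7 462 591) (node 432 (merge (leaf 5 431 464) (node 431 (merge (leaf 1 428 429) (leaf 1 429 433)))))))))))))))) (merge (node 526 (merge (node 525 (merge (leaf 2 493 497) (leaf 2 492 524))) (node 558 (merge (node 590 (merge (leaf 6 494 622) (node 463 (merge (leaf 5 430 431) (leaf 6 462 494))))) (node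 557 (merge (leaf 1 525 529) (node 556 (merge (leaf 2 523 555) (leaf 2 524 559))))))))) (merge (node 526 (merge (node 525 (merge (leaf 1 493 497) (leaf 2 492 524))) (node 558 (merge (node 557 (merge (leaf 1 525 529) (node 556 (merge (leaf 2 523 555) (leaf 2 524 559))))) (merge (node 590 (merge (leaf 6 494 622) (node 591 (merge (leaf 4 494 623) (node 559 (merge (leaf 4 462 462) (leaf 6 463 464))))))) (node 557 (merge (leaf 1 525 529) (node 462 (merge (leaf 5 461 589) (node 430 (merge (leaf 4 398 398) (node 429 (merge (leaf 7 397 397) (leaf 7 429 461)))))))))))))) (merge (node 526 (merge (node 525 (merge (leaf 1 493 497) (leaf 2 492 524))) (node 558 (merge (node 590 (merge (leaf 6 462 463) (node 623 (merge (leaf 4 494 591) (node 622 (merge (leaf 6 494 527) (leaf 4 526 655))))))) (merge (node 557 (merge (leaf 1 525 529) (node 462 (merge (leaf 5 461 589) (node 430 (merge (leaf 4 398 398) (node 429 (merge (leaf 7 397 397) (leaf 7 429 461))))))))) (node 557 (merge (leaf 1 525 529) (node 431 (merge (leaf 5 430 463) (node 462 (merge (leaf 5 461 589) (node 430 (merge (leaf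 4 398 398) (leaf 6 398 399)))))))))))))) (node 463 (merge (node 431 (merge (leaf 4 399 399) (node 432 (merge (leaf 6 399 400) (node 559 (merge (leaf 6 431 464) (node 430 (merge (leaf 7 398 398) (leaf 7 430 462))))))))) (merge (node 431 (merge (leaf 4 399 399) (node 558 (merge (leaf 5 430 526) (node 430 (merge (leaf 7 398 398) (node 559 (merge (leaf 7 430 462) (leaf 5 462 590))))))))) (merge (node 431 (merge (leaf 4 399 399) (node 558 (merge (leaf 5 430 526) (node 559 (merge (leaf 5 462 590) (node 432 (merge (leaf 6 399 400) (leaf 5 431 464))))))))) (merge (node 431 (merge (leaf 4 399 399) (node 526 (merge (leaf 5 430 558) (node 525 (merge (leaf 2 492 524) (node 557 (merge (leaf 1 524 556) (node 432 (merge (leaf 6 399 400) (node 430 (merge (leaf 7 398 398) (node 462 (merge (leaf 5 429 494) (node 461 (merge (leaf 1 429 433) (leaf 0 460 460))))))))))))))))) (node 559 (merge (node 591 (merge (leaf 6 495 623) (node 590 (merge (leaf 5 462 558) (leaf 5 494 622))))) (merge (node 591 (merge (leaf 6 463 464) (leaf 6 495 623))) (node 464 (merge (leaf 5 431 432) (node 558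 (merge (leaf 5 462 590) (node 557 (merge (leaf 2 524 556) (node 526 (merge (leaf 1 525 529) (node 462 (merge (leaf 7 430 430) (node 461 (merge (leaf 0 460 460) (node 429 (merge (leaf 3 428 428) (leaf 7 429 494))))))))))))))))))))))))))))))))) (merge (hyp 0) (merge (node 494 (merge (node 493 (merge (leaf 0 493 529) (node 492 (merge (leaf 0 492 527) (node 460 (merge (leaf 3 459 459) (leaf 3 460 461))))))) (merge (node 493 (merge (leaf 0 493 529) (node 492 (merge (leaf 0 492 527) (node 464 (merge (leaf 2 460 463) (leaf 2 461 465))))))) (merge (node 493 (merge (leaf 0 493 529) (node 465 (merge (leaf 2 461 464) (node 497 (merge (leaf 2 462 466) (node 461 (merge (leaf 3 460 460) (leaf 3 461 462))))))))) (merge (node 493 (merge (node 492 (merge (leaf 0 492 527) (node 464 (merge (leaf 2 460 463) (leaf 2 461 465))))) (merge (node 465 (merge (leaf 2 461 464) (node 497 (merge (leaf 2 462 466) (node 461 (merge (leaf 3 460 460) (leaf 3 461 462))))))) (node 492 (merge (leaf 0 492 527) (node 523 (merge (leaf 1 491 524) (node 491 (merge (leaf 1 490 522) (node 459 (merge (leaf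 3 458 458) (leaf 3 459 460)))))))))))) (hyp 1)))))) (merge (node 494 (merge (node 493 (merge (leaf 0 493 529) (node 492 (merge (leaf 0 492 527) (node 524 (merge (leaf 1 491 523) (leaf 1 492 525))))))) (merge (node 493 (merge (leaf 0 493 529) (node 492 (merge (leaf 0 492 527) (node 464 (merge (leaf 2 460 463) (leaf 2 461 465))))))) (merge (node 493 (merge (leaf 0 493 529) (node 525 (merge (leaf 1 492 524) (node 497 (merge (leaf 1 493 526) (node 465 (merge (leaf 2 461 464) (leaf 2 462 466))))))))) (merge (node 493 (merge (node 492 (merge (leaf 0 492 527) (node 464 (merge (leaf 2 460 463) (leaf 2 461 465))))) (merge (node 525 (merge (leaf 1 492 524) (node 497 (merge (leaf 1 493 526) (node 465 (merge (leaf 2 461 464) (leaf 2 462 466))))))) (node 492 (merge (leaf 0 492 527) (node 523 (merge (leaf 1 491 524) (node 491 (merge (leaf 1 490 522) (node 459 (merge (leaf 3 458 458) (leaf 3 459 460)))))))))))) (node 526 (merge (node 497 (merge (leaf 1 493 525) (node 466 (merge (leaf 2 462 465) (node 498 (merge (leaf 2 463 467) (leaf 1 494 527))))))) (merge (node 497 (merge (leaf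 1 493 525) (node 466 (merge (leaf 2 462 465) (node 498 (merge (leaf 2 463 467) (node 463 (merge (leaf 3 462 462) (node 499 (merge (leaf 3 463 464) (node 532 (merge (leaf 0 496 531) (node 500 (merge (leaf 1 496 529) (leaf 0 497 533))))))))))))))) (merge (node 558 (merge (node 463 (merge (leaf 6 462 590) (node 431 (merge (leaf 4 399 399) (leaf 6 430 462))))) (merge (node 590 (merge (leaf 6 462 463) (node 623 (merge (leaf 4 494 591) (node 622 (merge (leaf 6 494 527) (leaf 4 526 655))))))) (merge (node 590 (merge (node 623 (merge (leaf 4 494 591) (node 622 (merge (leaf 6 494 527) (leaf 4 526 655))))) (merge (node 622 (merge (leaf 6 494 527) (node 621 (merge (leaf 5 493 589) (leaf 5 525 653))))) (node 591 (merge (leaf 4 494 623) (node 462 (merge (leaf 4 462 559) (node 589 (merge (leaf 5 461 557) (leaf 5 493 621)))))))))) (node 462 (merge (node 557 (merge (leaf 5 461 589) (node 527 (merge (leaf 1 525 529) (node 559 (merge (leaf 4 430 430) (leaf 2 524 556))))))) (merge (node 557 (merge (leaf 5 461 589) (node 430 (merge (leaf 5 429 525) (node 431 (merge (leaf 6 398 399)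 (leaf 6 430 463))))))) (merge (node 431 (merge (leaf 6 430 463) (node 430 (merge (leaf 6 398 399) (node 398 (merge (leaf 4 398 527) (node 397 (merge (leaf 7 365 365) (leaf 7 397 429))))))))) (node 559 (merge (leaf 4 462 591) (node 557 (merge (leaf 5 461 589) (node 527 (merge (leaf 1 525 529) (leaf 2 524 556))))))))))))))) (node 558 (merge (node 463 (merge (leaf 6 462 590) (node 431 (merge (leaf 4 399 399) (leaf 6 430 462))))) (merge (node 590 (merge (leaf 6 462 463) (node 623 (merge (leaf 4 494 591) (node 622 (merge (leaf 6 494 527) (leaf 4 526 655))))))) (merge (node 590 (merge (node 623 (merge (leaf 4 494 591) (node 622 (merge (leaf 6 494 527) (leaf 4 526 655))))) (merge (node 622 (merge (leaf 6 494 527) (node 621 (merge (leaf 5 493 589) (leaf 5 525 653))))) (node 591 (merge (leaf 4 494 623) (node 462 (merge (leaf 4 462 559) (node 589 (merge (leaf 5 461 557) (leaf 5 493 621)))))))))) (node 527 (merge (node 557 (merge (leaf 1 525 529) (node 556 (merge (leaf 2 523 555) (leaf 2 524 559))))) (merge (node 557 (merge (leaf 1 525 529) (node 431 (merge (leaf 5 430 463)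 (node 462 (merge (leaf 5 461 589) (node 430 (merge (leaf 4 398 398) (leaf 6 398 399))))))))) (node 559 (merge (node 462 (merge (leaf 4 430 430) (leaf 4 462 591))) (merge (node 464 (merge (leaf 5 431 432) (leaf 6 463 591))) (node 497 (merge (leaf 1 494 498) (node 465 (merge (leaf 2 462 466) (node 462 (merge (leaf 4 430 430) (node 433 (merge (leaf 5 400 401) (node 463 (merge (leaf 5 430 431) (node 464 (merge (leaf 5 431 432) (leaf 2 430 434)))))))))))))))))))))))))))))))) (merge (node 494 (merge (node 493 (merge (leaf 0 493 529) (node 492 (merge (leaf 0 492 527) (node 524 (merge (leaf 1 491 523) (leaf 1 492 525))))))) (merge (node 493 (merge (leaf 0 493 529) (node 492 (merge (leaf 0 492 527) (node 464 (merge (leaf 2 460 463) (leaf 2 461 465))))))) (merge (node 493 (merge (leaf 0 493 529) (node 525 (merge (leaf 1 492 524) (node 497 (merge (leaf 1 493 526) (node 465 (merge (leaf 2 461 464) (leaf 2 462 466))))))))) (node 526 (merge (node 497 (merge (leaf 1 493 525) (node 466 (merge (leaf 2 462 465) (node 498 (merge (leaf 2 463 467) (leaf 1 494 527))))))) (merge (node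 497 (merge (leaf 1 493 525) (node 466 (merge (leaf 2 462 465) (node 498 (merge (leaf 2 463 467) (node 462 (merge (leaf 3 461 461) (leaf 3 462 463))))))))) (node 558 (merge (node 463 (merge (leaf 6 462 590) (node 431 (merge (leaf 4 399 399) (leaf 6 430 462))))) (merge (node 590 (merge (leaf 6 462 463) (node 623 (merge (leaf 4 494 591) (node 622 (merge (leaf 6 494 527) (leaf 4 526 655))))))) (merge (node 590 (merge (node 623 (merge (leaf 4 494 591) (node 622 (merge (leaf 6 494 527) (leaf 4 526 655))))) (merge (node 622 (merge (leaf 6 494 527) (node 621 (merge (leaf 5 493 589) (leaf 5 525 653))))) (node 591 (merge (leaf 4 494 623) (node 462 (merge (leaf 4 462 559) (node 589 (merge (leaf 5 461 557) (leaf 5 493 621)))))))))) (node 462 (merge (node 431 (merge (leaf 6 430 463) (node 430 (merge (leaf 6 398 399) (node 429 (merge (leaf 7 397 397) (leaf 7 429 461))))))) (node 559 (merge (leaf 4 462 591) (node 557 (merge (leaf 5 461 589) (node 556 (merge (leaf 2 524 527) (node 587 (merge (leaf 1 555 588) (node 555 (merge (leaf 1 554 586) (node 523 (merge (leaf 3 522 522) (leaf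 3 523 524)))))))))))))))))))))))))) (merge (hyp 2) (merge (hyp 3) (merge (hyp 4) (merge (hyp 5) (merge (node 497 (merge (node 462 (merge (node 463 (merge (leaf 3 462 498) (node 461 (merge (leaf 0 460 460) (leaf 0 461 464))))) (merge (node 461 (merge (leaf 3 461 494) (node 463 (merge (leaf 0 460 460) (leaf 0 461 464))))) (merge (node 494 (merge (leaf 3 461 461) (node 526 (merge (leaf 1 493 525) (node 527 (merge (leaf 1 494 498) (node 430 (merge (leaf 4 398 398) (leaf 4 430 559))))))))) (node 498 (merge (leaf 3 462 463) (node 466 (merge (leaf 2 463 467) (node 494 (merge (leaf 2 462 465) (node 526 (merge (leaf 1 493 525) (leaf 1 494 527))))))))))))) (merge (node 498 (merge (node 527 (merge (leaf 1 495 499) (leaf 1 494 526))) (merge (node 467 (merge (leaf 2 463 466) (node 499 (merge (leaf 2 464 468) (node 532 (merge (leaf 0 496 531) (node 500 (merge (leaf 1 496 529) (leaf 0 497 533))))))))) (node 466 (merge (leaf 2 463 467) (node 494 (merge (leaf 2 462 465) (node 526 (merge (leaf 1 493 525) (leaf 1 494 527)))))))))) (merge (node 498 (merge (node 466 (merge (leaf 2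 463 467) (node 494 (merge (leaf 2 462 465) (node 462 (merge (leaf 3 461 461) (leaf 3 462 463))))))) (merge (node 467 (merge (leaf 2 463 466) (node 499 (merge (leaf 2 464 468) (node 532 (merge (leaf 0 496 531) (node 500 (merge (leaf 1 496 529) (leaf 0 497 533))))))))) (node 463 (merge (leaf 3 462 462) (node 499 (merge (leaf 3 463 464) (node 532 (merge (leaf 0 496 531) (node 500 (merge (leaf 1 496 529) (leaf 0 497 533)))))))))))) (merge (node 498 (merge (node 527 (merge (leaf 1 495 499) (leaf 1 494 526))) (merge (node 463 (merge (leaf 3 462 462) (node 499 (merge (leaf 3 463 464) (node 532 (merge (leaf 0 496 531) (node 500 (merge (leaf 1 496 529) (leaf 0 497 533))))))))) (node 527 (merge (leaf 1 494 526) (node 463 (merge (leaf 3 462 462) (node 431 (merge (leaf 4 399 399) (node 432 (merge (leaf 6 399 400) (node 559 (merge (leaf 5 431 464) (node 590 (merge (leaf 5 462 558) (node 591 (merge (leaf 5 494 622) (leaf 6 495 623)))))))))))))))))) (hyp 6)))))) (hyp 7))))))))))))))) nA_32 cA_32 13 (by decide +kernel)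
def nA_33 : ℕ := 0x1000000000000000000000000000000000000000000000000000000000000000000000000000000000000000000000000000000000000000000000000000000000000
def cA_33 : ℕ := 0x2a0000003e0000007e000001ffe00003ffc00001ffe00003afe00007ffe00007ffc00003ffc00007ff800007ff000003fe000001fa000000780000007000000000000000000000000000000000000000000000000000000000000
theorem lA_33 : S nA_33 cA_33 14 := S_of_chk [(nA_0, cA_0, 13), (nA_1, cA_1, 12), (nA_2, cA_2, 12), (nA_3, cA_3, 12), (nA_4, cA_4, 10), (nA_5, cA_5, 12), (nA_6, cA_6, 13), (nA_7, cA_7, 12), (nA_8, cA_8, 12), (nA_9, cA_9, 13), (nA_11, cA_11, 12), (nA_15, cA_15, 13), (nA_32, cA_32, 13)] ⟨lA_0, lA_1, lA_2, lA_3, lA_4, lA_5, lA_6, lA_7, lA_8, lA_9, lA_11, lA_15, lA_32, trivial⟩ (node 496 (merge (hyp 0) (merge (node 560 (merge (node 465 (merge (node 497 (merge (leaf 6 464 592) (node 433 (merge (leaf 5 400 401) (leaf 5 432 529))))) (merge (node 433 (merge (leaf 6 432 464) (node 497 (merge (leaf 5 400 401) (leaf 5 432 529))))) (merge (node 592 (merge (leaf 6 464 497) (node 591 (merge (leaf 5 495 623) (node 464 (merge (leaf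 5 463 559) (node 463 (merge (leaf 7 431 431) (leaf 7 463 495))))))))) (node 464 (merge (leaf 6 432 433) (node 591 (merge (leaf 5 463 559) (node 463 (merge (leaf 7 431 431) (node 592 (merge (leaf 7 463 495) (leaf 5 495 623))))))))))))) (merge (node 592 (merge (node 625 (merge (leaf 4 496 593) (node 624 (merge (leaf 4 528 657) (node 495 (merge (leaf 7 463 463) (leaf 7 495 527))))))) (merge (node 593 (merge (leaf 4 496 625) (node 464 (merge (leaf 4 464 561) (node 591 (merge (leaf 5 463 559) (leaf 5 495 623))))))) (node 623 (merge (leaf 5 495 591) (node 495 (merge (leaf 7 463 463) (node 624 (merge (leaf 7 495 527) (leaf 5 527 655)))))))))) (merge (node 592 (merge (node 625 (merge (leaf 4 496 593) (node 497 (merge (leaf 6 464 465) (node 624 (merge (leaf 6 496 529) (leaf 4 528 657))))))) (merge (node 497 (merge (leaf 6 464 465) (node 624 (merge (leaf 6 496 529) (node 623 (merge (leaf 5 495 591) (leaf 5 527 655))))))) (node 593 (merge (leaf 4 496 625) (node 464 (merge (leaf 4 464 561) (node 591 (merge (leaf 5 463 559) (leaf 5 495 623)))))))))) (merge (node 464 (merge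 (node 433 (merge (leaf 6 432 465) (node 432 (merge (leaf 6 400 401) (node 431 (merge (leaf 7 399 399) (leaf 7 431 463))))))) (merge (node 593 (merge (leaf 4 464 561) (node 592 (merge (leaf 4 496 625) (node 463 (merge (leaf 7 431 431) (leaf 7 463 495))))))) (node 593 (merge (leaf 4 464 561) (node 465 (merge (leaf 6 432 433) (node 592 (merge (leaf 6 464 497) (leaf 4 496 625)))))))))) (merge (node 561 (merge (node 464 (merge (leaf 4 464 593) (node 433 (merge (leaf 6 432 465) (node 432 (merge (leaf 6 400 401) (node 431 (merge (leaf 7 399 399) (leaf 7 431 463))))))))) (merge (node 559 (merge (node 591 (merge (leaf 5 463 464) (node 623 (merge (leaf 6 495 527) (leaf 6 527 655))))) (merge (node 526 (merge (node 527 (merge (leaf 0 525 525) (leaf 3 526 562))) (merge (node 558 (merge (leaf 3 525 525) (node 557 (merge (leaf 2 525 529) (node 589 (merge (leaf 1 556 588) (leaf 1 557 590))))))) (node 562 (merge (leaf 3 526 527) (node 595 (merge (leaf 0 559 594) (node 563 (merge (leaf 0 560 596) (node 532 (merge (leaf 2 528 531) (node 564 (merge (leaf 3 528 529) (leaf 2 529 533))))))))))))))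 (node 591 (merge (leaf 5 463 464) (node 562 (merge (leaf 1 558 590) (node 595 (merge (leaf 0 559 594) (node 563 (merge (leaf 0 560 596) (node 532 (merge (leaf 2 528 531) (node 564 (merge (leaf 3 528 529) (leaf 2 529 533)))))))))))))))) (node 562 (merge (node 527 (merge (leaf 3 527 563) (node 526 (merge (leaf 0 525 525) (leaf 3 526 559))))) (merge (node 563 (merge (leaf 3 527 527) (node 596 (merge (leaf 0 560 595) (node 564 (merge (leaf 3 528 529) (leaf 0 561 597))))))) (merge (node 563 (merge (node 596 (merge (leaf 0 560 595) (node 564 (merge (leaf 3 528 529) (leaf 0 561 597))))) (merge (node 532 (merge (leaf 2 528 531) (node 564 (merge (leaf 3 528 529) (leaf 2 529 533))))) (merge (node 596 (merge (leaf 0 560 595) (node 564 (merge (leaf 0 561 597) (node 532 (merge (leaf 2 528 531) (leaf 2 529 533))))))) (node 595 (merge (leaf 0 560 596) (node 559 (merge (leaf 0 559 594) (node 590 (merge (leaf 1 558 591) (node 558 (merge (leaf 1 557 589) (node 557 (merge (leaf 2 525 529) (node 525 (merge (leaf 3 524 524) (leaf 3 525 526))))))))))))))))) (node 559 (merge (node 591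 (merge (leaf 1 558 590) (node 623 (merge (leaf 6 527 655) (node 527 (merge (leaf 6 495 496) (leaf 3 526 526))))))) (merge (node 594 (merge (leaf 0 559 595) (node 558 (merge (leaf 0 558 593) (node 557 (merge (leaf 2 525 529) (node 525 (merge (leaf 3 524 524) (leaf 3 525 526))))))))) (node 594 (merge (leaf 0 559 595) (node 558 (merge (leaf 0 558 593) (node 557 (merge (leaf 2 525 529) (node 588 (merge (leaf 1 556 589) (node 556 (merge (leaf 2 524 527) (leaf 1 555 587))))))))))))))))))))) (hyp 1))))))) (merge (node 560 (merge (node 592 (merge (node 625 (merge (leaf 4 496 593) (node 624 (merge (leaf 4 528 657) (node 495 (merge (leaf 7 463 463) (leaf 7 495 527))))))) (merge (node 593 (merge (leaf 4 496 625) (node 464 (merge (leaf 4 464 561) (node 591 (merge (leaf 5 463 559) (leaf 5 495 623))))))) (node 623 (merge (leaf 5 495 591) (node 495 (merge (leaf 7 463 463) (node 624 (merge (leaf 7 495 527) (leaf 5 527 655)))))))))) (merge (node 592 (merge (node 497 (merge (leaf 6 464 465) (node 624 (merge (leaf 6 496 529) (node 495 (merge (leaf 7 463 463) (leaf 7 495 527)))))))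 (merge (node 623 (merge (leaf 5 495 591) (node 495 (merge (leaf 7 463 463) (node 624 (merge (leaf 7 495 527) (leaf 5 527 655))))))) (merge (node 497 (merge (leaf 6 464 465) (node 624 (merge (leaf 6 496 529) (node 623 (merge (leaf 5 495 591) (leaf 5 527 655))))))) (node 465 (merge (leaf 6 464 497) (node 464 (merge (leaf 6 432 433) (node 591 (merge (leaf 5 463 559) (leaf 5 495 623))))))))))) (merge (node 592 (merge (node 497 (merge (leaf 6 464 465) (node 624 (merge (leaf 6 496 529) (node 495 (merge (leaf 7 463 463) (leaf 7 495 527))))))) (merge (node 625 (merge (leaf 4 496 593) (node 497 (merge (leaf 6 464 465) (node 624 (merge (leaf 6 496 529) (leaf 4 528 657))))))) (merge (node 625 (merge (leaf 4 496 593) (node 624 (merge (leaf 4 528 657) (node 495 (merge (leaf 7 463 463) (leaf 7 495 527))))))) (node 465 (merge (leaf 6 464 497) (node 464 (merge (leaf 6 432 433) (node 561 (merge (leaf 4 464 593) (node 432 (merge (leaf 4 432 529) (node 527 (merge (leaf 5 431 559) (node 495 (merge (leaf 5 399 400) (leaf 7 463 463))))))))))))))))) (merge (node 592 (merge (node 625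 (merge (leaf 4 496 593) (node 497 (merge (leaf 6 464 465) (node 624 (merge (leaf 6 496 529) (leaf 4 528 657))))))) (merge (node 497 (merge (leaf 6 464 465) (node 624 (merge (leaf 6 496 529) (node 623 (merge (leaf 5 495 591) (leaf 5 527 655))))))) (node 593 (merge (leaf 4 496 625) (node 561 (merge (leaf 4 464 464) (node 591 (merge (leaf 5 495 623) (node 590 (merge (leaf 2 558 562) (leaf 2 557 589)))))))))))) (merge (node 561 (merge (node 593 (merge (leaf 4 464 464) (node 625 (merge (leaf 7 496 529) (leaf 7 528 657))))) (merge (node 464 (merge (leaf 4 464 593) (node 433 (merge (leaf 6 432 465) (node 432 (merge (leaf 6 400 401) (node 559 (merge (leaf 5 431 527) (leaf 5 463 591))))))))) (merge (node 559 (merge (node 591 (merge (leaf 5 463 464) (node 623 (merge (leaf 6 495 527) (leaf 6 527 655))))) (merge (node 526 (merge (node 527 (merge (leaf 0 525 525) (leaf 3 526 562))) (merge (node 558 (merge (leaf 3 525 525) (node 557 (merge (leaf 2 525 529) (node 589 (merge (leaf 1 556 588) (leaf 1 557 590))))))) (node 562 (merge (leaf 3 526 527) (node 595 (merge (leaf 0 559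 594) (node 563 (merge (leaf 0 560 596) (node 532 (merge (leaf 2 528 531) (node 564 (merge (leaf 3 528 529) (leaf 2 529 533)))))))))))))) (node 591 (merge (leaf 5 463 464) (node 562 (merge (leaf 1 558 590) (node 595 (merge (leaf 0 559 594) (node 563 (merge (leaf 0 560 596) (node 532 (merge (leaf 2 528 531) (node 564 (merge (leaf 3 528 529) (leaf 2 529 533)))))))))))))))) (node 562 (merge (node 527 (merge (leaf 3 527 563) (node 526 (merge (leaf 0 525 525) (leaf 3 526 559))))) (merge (node 563 (merge (leaf 3 527 527) (node 596 (merge (leaf 0 560 595) (node 564 (merge (leaf 3 528 529) (leaf 0 561 597))))))) (merge (node 563 (merge (node 596 (merge (leaf 0 560 595) (node 564 (merge (leaf 3 528 529) (leaf 0 561 597))))) (merge (node 532 (merge (leaf 2 528 531) (node 564 (merge (leaf 3 528 529) (leaf 2 529 533))))) (node 595 (merge (leaf 0 560 596) (node 594 (merge (leaf 0 559 559) (node 531 (merge (leaf 2 528 532) (node 626 (merge (leaf 5 498 499) (leaf 6 530 658)))))))))))) (node 559 (merge (node 591 (merge (leaf 1 558 590) (node 623 (merge (leaf 6 527 655) (node 527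 (merge (leaf 6 495 496) (leaf 3 526 526))))))) (merge (node 594 (merge (leaf 0 559 595) (node 558 (merge (leaf 0 558 593) (node 557 (merge (leaf 2 525 529) (node 525 (merge (leaf 3 524 524) (leaf 3 525 526))))))))) (node 594 (merge (leaf 0 559 595) (node 558 (merge (leaf 0 558 593) (node 557 (merge (leaf 2 525 529) (node 588 (merge (leaf 1 556 589) (node 556 (merge (leaf 2 524 527) (leaf 1 555 587)))))))))))))))))))))) (hyp 2))))))) (merge (node 560 (merge (node 464 (merge (node 433 (merge (leaf 6 432 465) (node 432 (merge (leaf 6 400 401) (node 431 (merge (leaf 7 399 399) (leaf 7 431 463))))))) (merge (node 591 (merge (leaf 5 463 559) (node 463 (merge (leaf 7 431 431) (node 592 (merge (leaf 7 463 495) (leaf 5 495 623))))))) (node 433 (merge (leaf 6 432 465) (node 432 (merge (leaf 6 400 401) (node 559 (merge (leaf 5 431 527) (leaf 5 463 591)))))))))) (merge (node 464 (merge (node 433 (merge (leaf 6 432 465) (node 432 (merge (leaf 6 400 401) (node 431 (merge (leaf 7 399 399) (leaf 7 431 463))))))) (merge (node 593 (merge (leaf 4 464 561) (node 592 (merge (leaf 4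 496 625) (node 463 (merge (leaf 7 431 431) (leaf 7 463 495))))))) (node 561 (merge (leaf 4 464 593) (node 432 (merge (leaf 4 432 529) (node 433 (merge (leaf 6 400 401) (leaf 6 432 465)))))))))) (merge (node 464 (merge (node 593 (merge (leaf 4 464 561) (node 592 (merge (leaf 4 496 625) (node 591 (merge (leaf 5 463 559) (leaf 5 495 623))))))) (merge (node 559 (merge (leaf 5 463 591) (node 432 (merge (leaf 5 431 527) (node 401 (merge (leaf 6 400 433) (node 400 (merge (leaf 6 368 369) (node 399 (merge (leaf 7 367 367) (leaf 7 399 431))))))))))) (node 561 (merge (leaf 4 464 593) (node 432 (merge (leaf 4 432 529) (node 401 (merge (leaf 6 400 433) (node 400 (merge (leaf 6 368 369) (node 399 (merge (leaf 7 367 367) (leaf 7 399 431)))))))))))))) (merge (node 561 (merge (node 464 (merge (leaf 4 464 593) (node 433 (merge (leaf 6 432 465) (node 432 (merge (leaf 6 400 401) (node 431 (merge (leaf 7 399 399) (leaf 7 431 463))))))))) (merge (node 559 (merge (node 591 (merge (leaf 5 463 464) (node 623 (merge (leaf 6 495 527) (leaf 6 527 655))))) (merge (node 464 (merge (leaf 5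 463 591) (node 432 (merge (leaf 4 432 529) (node 433 (merge (leaf 6 400 401) (leaf 6 432 465))))))) (node 526 (merge (node 527 (merge (leaf 0 525 525) (leaf 3 526 562))) (merge (node 558 (merge (leaf 3 525 525) (node 557 (merge (leaf 2 525 529) (node 589 (merge (leaf 1 556 588) (leaf 1 557 590))))))) (node 562 (merge (leaf 3 526 527) (node 595 (merge (leaf 0 559 594) (node 563 (merge (leaf 0 560 596) (node 532 (merge (leaf 2 528 531) (node 564 (merge (leaf 3 528 529) (leaf 2 529 533))))))))))))))))) (node 562 (merge (node 527 (merge (leaf 3 527 563) (node 526 (merge (leaf 0 525 525) (leaf 3 526 559))))) (merge (node 563 (merge (leaf 3 527 527) (node 596 (merge (leaf 0 560 595) (node 564 (merge (leaf 3 528 529) (leaf 0 561 597))))))) (merge (node 563 (merge (node 596 (merge (leaf 0 560 595) (node 564 (merge (leaf 3 528 529) (leaf 0 561 597))))) (merge (node 532 (merge (leaf 2 528 531) (node 564 (merge (leaf 3 528 529) (leaf 2 529 533))))) (node 595 (merge (leaf 0 560 596) (node 594 (merge (leaf 0 559 559) (node 531 (merge (leaf 2 528 532) (node 626 (merge (leaf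 5 498 499) (leaf 6 530 658)))))))))))) (node 559 (merge (node 591 (merge (leaf 1 558 590) (node 623 (merge (leaf 6 527 655) (node 527 (merge (leaf 6 495 496) (leaf 3 526 526))))))) (merge (node 594 (merge (leaf 0 559 595) (node 558 (merge (leaf 0 558 593) (node 557 (merge (leaf 2 525 529) (node 525 (merge (leaf 3 524 524) (leaf 3 525 526))))))))) (node 594 (merge (leaf 0 559 595) (node 558 (merge (leaf 0 558 593) (node 557 (merge (leaf 2 525 529) (node 588 (merge (leaf 1 556 589) (node 556 (merge (leaf 2 524 527) (leaf 1 555 587))))))))))))))))))))) (hyp 2)))))) (merge (node 560 (merge (node 465 (merge (node 497 (merge (leaf 6 464 592) (node 433 (merge (leaf 5 400 401) (leaf 5 432 529))))) (merge (node 433 (merge (leaf 6 432 464) (node 497 (merge (leaf 5 400 401) (leaf 5 432 529))))) (merge (node 592 (merge (leaf 6 464 497) (node 591 (merge (leaf 5 495 623) (node 464 (merge (leaf 5 463 559) (node 463 (merge (leaf 7 431 431) (leaf 7 463 495))))))))) (node 464 (merge (leaf 6 432 433) (node 591 (merge (leaf 5 463 559) (node 463 (merge (leaf 7 431 431) (node 592 (merge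 (leaf 7 463 495) (leaf 5 495 623))))))))))))) (merge (node 592 (merge (node 625 (merge (leaf 4 496 593) (node 624 (merge (leaf 4 528 657) (node 495 (merge (leaf 7 463 463) (leaf 7 495 527))))))) (merge (node 593 (merge (leaf 4 496 625) (node 464 (merge (leaf 4 464 561) (node 591 (merge (leaf 5 463 559) (leaf 5 495 623))))))) (node 623 (merge (leaf 5 495 591) (node 495 (merge (leaf 7 463 463) (node 624 (merge (leaf 7 495 527) (leaf 5 527 655)))))))))) (merge (node 592 (merge (node 625 (merge (leaf 4 496 593) (node 497 (merge (leaf 6 464 465) (node 624 (merge (leaf 6 496 529) (leaf 4 528 657))))))) (merge (node 497 (merge (leaf 6 464 465) (node 624 (merge (leaf 6 496 529) (node 623 (merge (leaf 5 495 591) (leaf 5 527 655))))))) (node 593 (merge (leaf 4 496 625) (node 464 (merge (leaf 4 464 561) (node 591 (merge (leaf 5 463 559) (leaf 5 495 623)))))))))) (merge (node 464 (merge (node 433 (merge (leaf 6 432 465) (node 432 (merge (leaf 6 400 401) (node 431 (merge (leaf 7 399 399) (leaf 7 431 463))))))) (merge (node 593 (merge (leaf 4 464 561) (node 592 (merge (leaf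 4 496 625) (node 463 (merge (leaf 7 431 431) (leaf 7 463 495))))))) (node 593 (merge (leaf 4 464 561) (node 465 (merge (leaf 6 432 433) (node 592 (merge (leaf 6 464 497) (leaf 4 496 625)))))))))) (merge (node 561 (merge (node 464 (merge (leaf 4 464 593) (node 433 (merge (leaf 6 432 465) (node 432 (merge (leaf 6 400 401) (node 431 (merge (leaf 7 399 399) (leaf 7 431 463))))))))) (merge (node 559 (merge (node 591 (merge (leaf 5 463 464) (node 623 (merge (leaf 6 495 527) (leaf 6 527 655))))) (merge (node 526 (merge (node 527 (merge (leaf 0 525 525) (leaf 3 526 562))) (merge (node 558 (merge (leaf 3 525 525) (node 557 (merge (leaf 2 525 529) (node 589 (merge (leaf 1 556 588) (leaf 1 557 590))))))) (node 562 (merge (leaf 3 526 527) (node 595 (merge (leaf 0 559 594) (node 563 (merge (leaf 0 560 596) (node 532 (merge (leaf 2 528 531) (node 564 (merge (leaf 3 528 529) (leaf 2 529 533)))))))))))))) (node 591 (merge (leaf 5 463 464) (node 562 (merge (leaf 1 558 590) (node 595 (merge (leaf 0 559 594) (node 563 (merge (leaf 0 560 596) (node 532 (merge (leaf 2 528 531) (node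 564 (merge (leaf 3 528 529) (leaf 2 529 533)))))))))))))))) (node 562 (merge (node 527 (merge (leaf 3 527 563) (node 526 (merge (leaf 0 525 525) (leaf 3 526 559))))) (merge (node 563 (merge (leaf 3 527 527) (node 596 (merge (leaf 0 560 595) (node 564 (merge (leaf 3 528 529) (leaf 0 561 597))))))) (merge (node 563 (merge (node 596 (merge (leaf 0 560 595) (node 564 (merge (leaf 3 528 529) (leaf 0 561 597))))) (merge (node 532 (merge (leaf 2 528 531) (node 564 (merge (leaf 3 528 529) (leaf 2 529 533))))) (node 595 (merge (leaf 0 560 596) (node 594 (merge (leaf 0 559 559) (node 531 (merge (leaf 2 528 532) (node 626 (merge (leaf 5 498 499) (leaf 6 530 658)))))))))))) (node 559 (merge (node 591 (merge (leaf 1 558 590) (node 527 (merge (leaf 3 526 526) (leaf 6 495 623))))) (merge (node 594 (merge (leaf 0 559 595) (node 558 (merge (leaf 0 558 593) (node 590 (merge (leaf 1 557 589) (leaf 1 558 591))))))) (node 594 (merge (leaf 0 559 595) (node 558 (merge (leaf 0 558 593) (node 557 (merge (leaf 2 525 529) (node 527 (merge (leaf 3 526 526) (leaf 2 524 556)))))))))))))))))))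 (node 497 (merge (node 592 (merge (leaf 6 464 465) (node 625 (merge (leaf 4 496 593) (node 624 (merge (leaf 4 528 657) (node 623 (merge (leaf 5 495 591) (leaf 5 527 655))))))))) (merge (node 498 (merge (node 527 (merge (leaf 1 495 499) (node 526 (merge (leaf 1 494 495) (leaf 2 493 525))))) (merge (node 499 (merge (leaf 1 495 527) (node 532 (merge (leaf 0 496 531) (node 500 (merge (leaf 1 496 529) (leaf 0 497 533))))))) (merge (node 467 (merge (node 499 (merge (leaf 2 464 468) (node 532 (merge (leaf 0 496 531) (node 500 (merge (leaf 1 496 529) (leaf 0 497 533))))))) (merge (node 495 (merge (leaf 2 463 466) (node 592 (merge (leaf 7 463 463) (node 623 (merge (leaf 5 495 591) (node 624 (merge (leaf 6 496 529) (leaf 5 527 655))))))))) (node 495 (merge (leaf 2 463 466) (node 592 (merge (leaf 7 463 463) (node 625 (merge (leaf 4 496 593) (node 624 (merge (leaf 4 528 657) (node 623 (merge (leaf 5 495 591) (leaf 5 527 655)))))))))))))) (node 592 (merge (node 625 (merge (leaf 4 496 593) (node 624 (merge (leaf 6 496 529) (leaf 4 528 657))))) (merge (node 623 (merge (leaf 5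 495 591) (node 624 (merge (leaf 5 527 655) (node 495 (merge (leaf 7 463 463) (leaf 7 495 527))))))) (node 593 (merge (leaf 4 496 625) (node 591 (merge (leaf 5 495 623) (node 495 (merge (leaf 7 463 463) (node 466 (merge (leaf 2 463 467) (node 561 (merge (leaf 6 465 529) (node 590 (merge (leaf 2 558 562) (leaf 2 557 589)))))))))))))))))))) (node 498 (merge (node 499 (merge (leaf 1 495 527) (node 532 (merge (leaf 0 496 531) (node 500 (merge (leaf 1 496 529) (leaf 0 497 533))))))) (merge (node 499 (merge (node 532 (merge (leaf 0 496 531) (node 500 (merge (leaf 1 496 529) (leaf 0 497 533))))) (merge (node 531 (merge (leaf 0 496 532) (node 467 (merge (leaf 2 464 468) (node 466 (merge (leaf 2 463 495) (node 563 (merge (leaf 7 434 434) (leaf 7 466 595))))))))) (node 500 (merge (leaf 1 496 529) (node 467 (merge (leaf 2 464 468) (node 466 (merge (leaf 2 463 495) (node 501 (merge (leaf 3 465 465) (leaf 3 466 502)))))))))))) (node 495 (merge (node 463 (merge (leaf 3 462 462) (node 431 (merge (leaf 4 399 399) (leaf 4 431 527))))) (merge (node 466 (merge (leaf 2 463 467) (node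 494 (merge (leaf 2 462 465) (node 526 (merge (leaf 1 493 525) (leaf 1 494 527))))))) (node 466 (merge (leaf 2 463 467) (node 494 (merge (leaf 2 462 465) (node 462 (merge (leaf 3 461 461) (leaf 3 462 463)))))))))))))))))))))) (merge (node 560 (merge (node 465 (merge (node 497 (merge (leaf 6 464 592) (node 433 (merge (leaf 5 400 401) (leaf 5 432 529))))) (merge (node 433 (merge (leaf 6 432 464) (node 497 (merge (leaf 5 400 401) (leaf 5 432 529))))) (merge (node 592 (merge (leaf 6 464 497) (node 591 (merge (leaf 5 495 623) (node 464 (merge (leaf 5 463 559) (node 463 (merge (leaf 7 431 431) (leaf 7 463 495))))))))) (node 464 (merge (leaf 6 432 433) (node 591 (merge (leaf 5 463 559) (node 463 (merge (leaf 7 431 431) (node 592 (merge (leaf 7 463 495) (leaf 5 495 623))))))))))))) (merge (node 592 (merge (node 625 (merge (leaf 4 496 593) (node 497 (merge (leaf 6 464 465) (node 624 (merge (leaf 6 496 529) (leaf 4 528 657))))))) (merge (node 497 (merge (leaf 6 464 465) (node 624 (merge (leaf 6 496 529) (node 623 (merge (leaf 5 495 591) (leaf 5 527 655))))))) (node 593 (merge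 (leaf 4 496 625) (node 464 (merge (leaf 4 464 561) (node 591 (merge (leaf 5 463 559) (leaf 5 495 623)))))))))) (merge (node 464 (merge (node 433 (merge (leaf 6 432 465) (node 432 (merge (leaf 6 400 401) (node 431 (merge (leaf 7 399 399) (leaf 7 431 463))))))) (merge (node 593 (merge (leaf 4 464 561) (node 592 (merge (leaf 4 496 625) (node 463 (merge (leaf 7 431 431) (leaf 7 463 495))))))) (node 593 (merge (leaf 4 464 561) (node 465 (merge (leaf 6 432 433) (node 592 (merge (leaf 6 464 497) (leaf 4 496 625)))))))))) (merge (node 497 (merge (node 592 (merge (leaf 6 464 465) (node 625 (merge (leaf 4 496 593) (node 624 (merge (leaf 4 528 657) (node 623 (merge (leaf 5 495 591) (leaf 5 527 655))))))))) (merge (node 498 (merge (node 527 (merge (leaf 1 495 499) (node 526 (merge (leaf 1 494 495) (leaf 2 493 525))))) (merge (node 499 (merge (leaf 1 495 527) (node 532 (merge (leaf 0 496 531) (node 500 (merge (leaf 1 496 529) (leaf 0 497 533))))))) (merge (node 467 (merge (node 499 (merge (leaf 2 464 468) (node 532 (merge (leaf 0 496 531) (node 500 (merge (leaf 1 496 529) (leaf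 0 497 533))))))) (merge (node 495 (merge (leaf 2 463 466) (node 592 (merge (leaf 7 463 463) (node 623 (merge (leaf 5 495 591) (node 624 (merge (leaf 6 496 529) (leaf 5 527 655))))))))) (node 495 (merge (leaf 2 463 466) (node 592 (merge (leaf 7 463 463) (node 625 (merge (leaf 4 496 593) (node 624 (merge (leaf 4 528 657) (node 623 (merge (leaf 5 495 591) (leaf 5 527 655)))))))))))))) (node 592 (merge (node 625 (merge (leaf 4 496 593) (node 624 (merge (leaf 6 496 529) (leaf 4 528 657))))) (merge (node 623 (merge (leaf 5 495 591) (node 624 (merge (leaf 5 527 655) (node 495 (merge (leaf 7 463 463) (leaf 7 495 527))))))) (node 593 (merge (leaf 4 496 625) (node 591 (merge (leaf 5 495 623) (node 495 (merge (leaf 7 463 463) (node 466 (merge (leaf 2 463 467) (node 561 (merge (leaf 6 465 529) (node 590 (merge (leaf 2 558 562) (leaf 2 557 589)))))))))))))))))))) (node 498 (merge (node 527 (merge (leaf 1 495 499) (node 526 (merge (leaf 1 494 495) (leaf 2 493 525))))) (merge (node 499 (merge (leaf 1 495 527) (node 532 (merge (leaf 0 496 531) (node 500 (merge (leaf 1 496 529)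 (leaf 0 497 533))))))) (merge (node 499 (merge (node 532 (merge (leaf 0 496 531) (node 500 (merge (leaf 1 496 529) (leaf 0 497 533))))) (merge (node 531 (merge (leaf 0 496 532) (node 467 (merge (leaf 2 464 468) (node 466 (merge (leaf 2 463 495) (node 563 (merge (leaf 7 434 434) (leaf 7 466 595))))))))) (node 500 (merge (leaf 1 496 529) (node 467 (merge (leaf 2 464 468) (node 466 (merge (leaf 2 463 495) (node 501 (merge (leaf 3 465 465) (leaf 3 466 502)))))))))))) (node 495 (merge (node 463 (merge (leaf 3 462 462) (node 431 (merge (leaf 4 399 399) (leaf 4 431 527))))) (node 466 (merge (leaf 2 463 467) (node 494 (merge (leaf 2 462 465) (node 493 (merge (leaf 0 493 529) (node 525 (merge (leaf 1 492 524) (leaf 1 493 526)))))))))))))))))) (node 561 (merge (node 464 (merge (leaf 4 464 593) (node 432 (merge (leaf 4 432 529) (node 431 (merge (leaf 7 399 399) (leaf 7 431 463))))))) (merge (node 464 (merge (leaf 4 464 593) (node 559 (merge (leaf 5 463 591) (node 527 (merge (leaf 5 431 432) (node 562 (merge (leaf 3 526 526) (leaf 3 527 563))))))))) (merge (node 559 (merge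 (node 591 (merge (leaf 5 463 464) (node 623 (merge (leaf 6 495 527) (leaf 6 527 655))))) (merge (node 526 (merge (node 527 (merge (leaf 0 525 525) (leaf 3 526 562))) (merge (node 558 (merge (leaf 3 525 525) (node 557 (merge (leaf 2 525 529) (node 589 (merge (leaf 1 556 588) (leaf 1 557 590))))))) (node 562 (merge (leaf 3 526 527) (node 595 (merge (leaf 0 559 594) (node 563 (merge (leaf 0 560 596) (node 532 (merge (leaf 2 528 531) (node 564 (merge (leaf 3 528 529) (leaf 2 529 533)))))))))))))) (node 591 (merge (leaf 5 463 464) (node 562 (merge (leaf 1 558 590) (node 595 (merge (leaf 0 559 594) (node 563 (merge (leaf 0 560 596) (node 532 (merge (leaf 2 528 531) (node 564 (merge (leaf 3 528 529) (leaf 2 529 533)))))))))))))))) (node 562 (merge (node 527 (merge (leaf 3 527 563) (node 526 (merge (leaf 0 525 525) (leaf 3 526 559))))) (merge (node 563 (merge (leaf 3 527 527) (node 596 (merge (leaf 0 560 595) (node 564 (merge (leaf 3 528 529) (leaf 0 561 597))))))) (merge (node 563 (merge (node 596 (merge (leaf 0 560 595) (node 564 (merge (leaf 3 528 529) (leaf 0 561 597)))))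 (merge (node 532 (merge (leaf 2 528 531) (node 564 (merge (leaf 3 528 529) (leaf 2 529 533))))) (node 595 (merge (leaf 0 560 596) (node 594 (merge (leaf 0 559 559) (node 531 (merge (leaf 2 528 532) (node 626 (merge (leaf 5 498 499) (leaf 6 530 658)))))))))))) (node 559 (merge (node 591 (merge (leaf 1 558 590) (node 623 (merge (leaf 6 527 655) (node 527 (merge (leaf 6 495 496) (leaf 3 526 526))))))) (merge (node 594 (merge (leaf 0 559 595) (node 558 (merge (leaf 0 558 593) (node 557 (merge (leaf 2 525 529) (node 525 (merge (leaf 3 524 524) (leaf 3 525 526))))))))) (node 594 (merge (leaf 0 559 595) (node 558 (merge (leaf 0 558 593) (node 557 (merge (leaf 2 525 529) (node 588 (merge (leaf 1 556 589) (node 556 (merge (leaf 2 524 527) (leaf 1 555 587))))))))))))))))))))))))))) (merge (hyp 3) (merge (node 560 (merge (node 464 (merge (node 593 (merge (leaf 4 464 561) (node 592 (merge (leaf 4 496 625) (node 591 (merge (leaf 5 463 559) (leaf 5 495 623))))))) (merge (node 559 (merge (leaf 5 463 591) (node 432 (merge (leaf 5 431 527) (node 401 (merge (leaf 6 400 433) (node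 400 (merge (leaf 6 368 369) (node 399 (merge (leaf 7 367 367) (leaf 7 399 431))))))))))) (node 561 (merge (leaf 4 464 593) (node 432 (merge (leaf 4 432 529) (node 401 (merge (leaf 6 400 433) (node 400 (merge (leaf 6 368 369) (node 399 (merge (leaf 7 367 367) (leaf 7 399 431)))))))))))))) (merge (node 464 (merge (node 593 (merge (leaf 4 464 561) (node 592 (merge (leaf 4 496 625) (node 463 (merge (leaf 7 431 431) (leaf 7 463 495))))))) (merge (node 431 (merge (leaf 7 431 463) (node 432 (merge (leaf 7 399 399) (node 527 (merge (leaf 5 431 559) (node 400 (merge (leaf 5 399 495) (node 401 (merge (leaf 6 368 369) (leaf 6 400 433))))))))))) (merge (node 561 (merge (leaf 4 464 593) (node 432 (merge (leaf 4 432 529) (node 527 (merge (leaf 5 431 559) (node 495 (merge (leaf 5 399 400) (node 592 (merge (leaf 7 463 463) (leaf 7 495 624))))))))))) (node 561 (merge (leaf 4 464 593) (node 432 (merge (leaf 4 432 529) (node 401 (merge (leaf 6 400 433) (node 400 (merge (leaf 6 368 369) (node 399 (merge (leaf 7 367 367) (leaf 7 399 431))))))))))))))) (merge (node 592 (merge (node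 625 (merge (leaf 4 496 593) (node 624 (merge (leaf 4 528 657) (node 495 (merge (leaf 7 463 463) (leaf 7 495 527))))))) (merge (node 623 (merge (leaf 5 495 591) (node 495 (merge (leaf 7 463 463) (node 624 (merge (leaf 7 495 527) (leaf 5 527 655))))))) (node 593 (merge (leaf 4 496 625) (node 591 (merge (leaf 5 495 623) (node 559 (merge (leaf 5 463 464) (node 594 (merge (leaf 3 558 558) (leaf 3 559 595)))))))))))) (merge (node 592 (merge (node 625 (merge (leaf 4 496 593) (node 624 (merge (leaf 4 528 657) (node 495 (merge (leaf 7 463 463) (leaf 7 495 527))))))) (merge (node 623 (merge (leaf 5 495 591) (node 495 (merge (leaf 7 463 463) (node 624 (merge (leaf 7 495 527) (leaf 5 527 655))))))) (node 593 (merge (leaf 4 496 625) (node 561 (merge (leaf 4 464 464) (node 591 (merge (leaf 5 495 623) (node 590 (merge (leaf 2 558 562) (leaf 2 557 589)))))))))))) (merge (node 592 (merge (node 625 (merge (leaf 4 496 593) (node 624 (merge (leaf 4 528 657) (node 623 (merge (leaf 5 495 591) (leaf 5 527 655))))))) (merge (node 593 (merge (leaf 4 496 625) (node 464 (merge (leaf 4 464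 561) (node 591 (merge (leaf 5 463 559) (leaf 5 495 623))))))) (merge (node 463 (merge (leaf 7 463 495) (node 464 (merge (leaf 7 431 431) (node 561 (merge (leaf 4 464 593) (node 529 (merge (leaf 4 432 432) (node 624 (merge (leaf 6 496 497) (leaf 6 528 656))))))))))) (merge (node 623 (merge (leaf 5 495 591) (node 624 (merge (leaf 5 527 655) (node 657 (merge (leaf 4 528 625) (node 656 (merge (leaf 4 560 689) (node 529 (merge (leaf 6 496 497) (leaf 6 528 561))))))))))) (node 625 (merge (leaf 4 496 593) (node 624 (merge (leaf 4 528 657) (node 655 (merge (leaf 5 527 623) (node 656 (merge (leaf 5 559 687) (node 529 (merge (leaf 6 496 497) (leaf 6 528 561)))))))))))))))) (merge (node 464 (merge (node 591 (merge (leaf 5 463 559) (node 463 (merge (leaf 7 431 431) (node 592 (merge (leaf 7 463 495) (leaf 5 495 623))))))) (merge (node 559 (merge (leaf 5 463 591) (node 432 (merge (leaf 5 431 527) (node 529 (merge (leaf 4 432 561) (node 400 (merge (leaf 4 400 497) (node 369 (merge (leaf 6 368 401) (node 368 (merge (leaf 6 336 337) (node 367 (merge (leaf 7 335 335) (leaf 7 367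 399))))))))))))))) (merge (node 431 (merge (leaf 7 431 463) (node 432 (merge (leaf 7 399 399) (node 529 (merge (leaf 4 432 561) (node 400 (merge (leaf 4 400 497) (node 527 (merge (leaf 5 399 495) (leaf 5 431 559))))))))))) (node 463 (merge (leaf 7 431 431) (node 592 (merge (leaf 7 463 495) (node 623 (merge (leaf 5 495 591) (node 624 (merge (leaf 5 527 655) (node 657 (merge (leaf 4 528 625) (node 656 (merge (leaf 4 560 689) (node 529 (merge (leaf 6 496 497) (leaf 6 528 561))))))))))))))))))) (merge (node 561 (merge (node 464 (merge (leaf 4 464 593) (node 432 (merge (leaf 4 432 529) (node 431 (merge (leaf 7 399 399) (leaf 7 431 463))))))) (merge (node 464 (merge (leaf 4 464 593) (node 559 (merge (leaf 5 463 591) (node 527 (merge (leaf 5 431 432) (node 562 (merge (leaf 3 526 526) (leaf 3 527 563))))))))) (merge (node 559 (merge (node 591 (merge (leaf 5 463 464) (node 623 (merge (leaf 6 495 527) (leaf 6 527 655))))) (merge (node 526 (merge (node 527 (merge (leaf 0 525 525) (leaf 3 526 562))) (merge (node 558 (merge (leaf 3 525 525) (node 557 (merge (leaf 2 525 529)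 (node 589 (merge (leaf 1 556 588) (leaf 1 557 590))))))) (node 562 (merge (leaf 3 526 527) (node 595 (merge (leaf 0 559 594) (node 563 (merge (leaf 0 560 596) (node 532 (merge (leaf 2 528 531) (node 564 (merge (leaf 3 528 529) (leaf 2 529 533)))))))))))))) (node 591 (merge (leaf 5 463 464) (node 562 (merge (leaf 1 558 590) (node 595 (merge (leaf 0 559 594) (node 563 (merge (leaf 0 560 596) (node 532 (merge (leaf 2 528 531) (node 564 (merge (leaf 3 528 529) (leaf 2 529 533)))))))))))))))) (node 562 (merge (node 527 (merge (leaf 3 527 563) (node 526 (merge (leaf 0 525 525) (leaf 3 526 559))))) (merge (node 563 (merge (leaf 3 527 527) (node 596 (merge (leaf 0 560 595) (node 564 (merge (leaf 3 528 529) (leaf 0 561 597))))))) (merge (node 563 (merge (node 596 (merge (leaf 0 560 595) (node 564 (merge (leaf 3 528 529) (leaf 0 561 597))))) (merge (node 532 (merge (leaf 2 528 531) (node 564 (merge (leaf 3 528 529) (leaf 2 529 533))))) (node 595 (merge (leaf 0 560 596) (node 594 (merge (leaf 0 559 559) (node 531 (merge (leaf 2 528 532) (node 626 (merge (leaf 5 498 499) (leaf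 6 530 658)))))))))))) (node 559 (merge (node 591 (merge (leaf 1 558 590) (node 623 (merge (leaf 6 527 655) (node 527 (merge (leaf 6 495 496) (leaf 3 526 526))))))) (merge (node 594 (merge (leaf 0 559 595) (node 558 (merge (leaf 0 558 593) (node 557 (merge (leaf 2 525 529) (node 525 (merge (leaf 3 524 524) (leaf 3 525 526))))))))) (node 594 (merge (leaf 0 559 595) (node 558 (merge (leaf 0 558 593) (node 557 (merge (leaf 2 525 529) (node 588 (merge (leaf 1 556 589) (node 556 (merge (leaf 2 524 527) (leaf 1 555 587)))))))))))))))))))))) (hyp 2))))))))) (merge (node 560 (merge (node 465 (merge (node 497 (merge (leaf 6 464 592) (node 433 (merge (leaf 5 400 401) (leaf 5 432 529))))) (merge (node 433 (merge (leaf 6 432 464) (node 497 (merge (leaf 5 400 401) (leaf 5 432 529))))) (merge (node 592 (merge (leaf 6 464 497) (node 591 (merge (leaf 5 495 623) (node 464 (merge (leaf 5 463 559) (node 463 (merge (leaf 7 431 431) (leaf 7 463 495))))))))) (node 464 (merge (leaf 6 432 433) (node 591 (merge (leaf 5 463 559) (node 463 (merge (leaf 7 431 431) (node 592 (merge (leaf 7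 463 495) (leaf 5 495 623))))))))))))) (merge (node 592 (merge (node 625 (merge (leaf 4 496 593) (node 624 (merge (leaf 4 528 657) (node 495 (merge (leaf 7 463 463) (leaf 7 495 527))))))) (merge (node 593 (merge (leaf 4 496 625) (node 464 (merge (leaf 4 464 561) (node 591 (merge (leaf 5 463 559) (leaf 5 495 623))))))) (node 623 (merge (leaf 5 495 591) (node 495 (merge (leaf 7 463 463) (node 624 (merge (leaf 7 495 527) (leaf 5 527 655)))))))))) (merge (node 592 (merge (node 625 (merge (leaf 4 496 593) (node 497 (merge (leaf 6 464 465) (node 624 (merge (leaf 6 496 529) (leaf 4 528 657))))))) (merge (node 497 (merge (leaf 6 464 465) (node 624 (merge (leaf 6 496 529) (node 623 (merge (leaf 5 495 591) (leaf 5 527 655))))))) (node 593 (merge (leaf 4 496 625) (node 464 (merge (leaf 4 464 561) (node 591 (merge (leaf 5 463 559) (leaf 5 495 623)))))))))) (merge (node 463 (merge (node 431 (merge (leaf 7 431 464) (node 495 (merge (leaf 4 399 399) (leaf 4 431 527))))) (merge (node 464 (merge (leaf 7 431 431) (node 465 (merge (leaf 6 432 433) (node 497 (merge (leaf 6 464 592)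 (node 498 (merge (leaf 0 462 462) (leaf 3 463 499))))))))) (node 592 (merge (leaf 7 463 495) (node 625 (merge (leaf 4 496 593) (node 497 (merge (leaf 6 464 465) (node 624 (merge (leaf 6 496 529) (leaf 4 528 657)))))))))))) (merge (node 497 (merge (node 592 (merge (leaf 6 464 465) (node 625 (merge (leaf 4 496 593) (node 624 (merge (leaf 4 528 657) (node 623 (merge (leaf 5 495 591) (leaf 5 527 655))))))))) (merge (node 495 (merge (node 592 (merge (leaf 7 463 463) (node 625 (merge (leaf 4 496 593) (node 624 (merge (leaf 6 496 529) (leaf 4 528 657))))))) (merge (node 592 (merge (leaf 7 463 463) (node 623 (merge (leaf 5 495 591) (node 624 (merge (leaf 7 495 527) (leaf 5 527 655))))))) (node 526 (merge (node 527 (merge (leaf 1 494 498) (leaf 2 493 525))) (merge (node 494 (merge (leaf 1 493 525) (node 493 (merge (leaf 0 493 529) (node 461 (merge (leaf 3 460 460) (leaf 3 461 462))))))) (node 498 (merge (leaf 1 494 527) (node 467 (merge (leaf 2 463 466) (node 499 (merge (leaf 2 464 468) (node 532 (merge (leaf 0 496 531) (node 500 (merge (leaf 1 496 529) (leaf 0 497 533)))))))))))))))))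 (node 498 (merge (node 499 (merge (leaf 1 495 527) (node 532 (merge (leaf 0 496 531) (node 500 (merge (leaf 1 496 529) (leaf 0 497 533))))))) (merge (node 495 (merge (node 463 (merge (leaf 3 462 462) (node 431 (merge (leaf 4 399 399) (leaf 4 431 527))))) (merge (node 466 (merge (leaf 2 463 467) (node 494 (merge (leaf 2 462 465) (node 526 (merge (leaf 1 493 525) (leaf 1 494 527))))))) (node 466 (merge (leaf 2 463 467) (node 494 (merge (leaf 2 462 465) (node 462 (merge (leaf 3 461 461) (leaf 3 462 463)))))))))) (node 467 (merge (node 466 (merge (leaf 2 463 495) (node 468 (merge (leaf 1 464 465) (leaf 1 465 469))))) (merge (node 499 (merge (leaf 2 464 468) (node 532 (merge (leaf 0 496 531) (node 500 (merge (leaf 1 496 529) (leaf 0 497 533))))))) (node 495 (merge (leaf 2 463 466) (node 462 (merge (leaf 3 462 463) (node 494 (merge (leaf 3 461 461) (node 493 (merge (leaf 0 493 529) (node 525 (merge (leaf 1 492 524) (leaf 1 493 526)))))))))))))))))))) (node 561 (merge (node 593 (merge (leaf 4 464 464) (node 625 (merge (leaf 7 496 529) (leaf 7 528 657))))) (merge (node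 559 (merge (node 591 (merge (leaf 5 463 464) (node 623 (merge (leaf 6 495 527) (leaf 6 527 655))))) (merge (node 526 (merge (node 527 (merge (leaf 0 525 525) (leaf 3 526 562))) (merge (node 558 (merge (leaf 3 525 525) (node 557 (merge (leaf 2 525 529) (node 589 (merge (leaf 1 556 588) (leaf 1 557 590))))))) (node 562 (merge (leaf 3 526 527) (node 595 (merge (leaf 0 559 594) (node 563 (merge (leaf 0 560 596) (node 532 (merge (leaf 2 528 531) (node 564 (merge (leaf 3 528 529) (leaf 2 529 533)))))))))))))) (node 591 (merge (leaf 5 463 464) (node 562 (merge (leaf 1 558 590) (node 595 (merge (leaf 0 559 594) (node 563 (merge (leaf 0 560 596) (node 532 (merge (leaf 2 528 531) (node 564 (merge (leaf 3 528 529) (leaf 2 529 533)))))))))))))))) (merge (node 559 (merge (node 464 (merge (leaf 5 463 591) (leaf 4 464 593))) (merge (node 591 (merge (leaf 5 463 464) (node 623 (merge (leaf 6 495 527) (leaf 6 527 655))))) (merge (node 558 (merge (node 589 (merge (leaf 1 557 590) (node 557 (merge (leaf 1 556 588) (node 525 (merge (leaf 3 524 524) (leaf 3 525 526))))))) (merge (node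 594 (merge (leaf 0 558 593) (node 562 (merge (leaf 0 559 595) (node 526 (merge (leaf 3 525 525) (leaf 3 526 527))))))) (node 594 (merge (leaf 0 558 593) (node 562 (merge (leaf 0 559 595) (node 590 (merge (leaf 1 557 589) (leaf 1 558 591)))))))))) (node 593 (merge (leaf 4 464 464) (node 558 (merge (leaf 0 558 594) (node 590 (merge (leaf 1 557 589) (node 526 (merge (leaf 3 525 525) (node 527 (merge (leaf 3 526 562) (node 622 (merge (leaf 6 494 495) (leaf 6 526 654))))))))))))))))) (node 562 (merge (node 527 (merge (leaf 3 527 563) (node 526 (merge (leaf 0 525 525) (leaf 3 526 559))))) (merge (node 563 (merge (leaf 3 527 527) (node 596 (merge (leaf 0 560 595) (node 564 (merge (leaf 3 528 529) (leaf 0 561 597))))))) (merge (node 563 (merge (node 596 (merge (leaf 0 560 595) (node 564 (merge (leaf 3 528 529) (leaf 0 561 597))))) (merge (node 532 (merge (leaf 2 528 531) (node 564 (merge (leaf 3 528 529) (leaf 2 529 533))))) (node 595 (merge (leaf 0 560 596) (node 594 (merge (leaf 0 559 559) (node 531 (merge (leaf 2 528 532) (node 626 (merge (leaf 5 498 499) (leaf 6 530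 658)))))))))))) (node 559 (merge (node 591 (merge (leaf 1 558 590) (node 623 (merge (leaf 6 527 655) (node 527 (merge (leaf 6 495 496) (leaf 3 526 526))))))) (merge (node 594 (merge (leaf 0 559 595) (node 558 (merge (leaf 0 558 593) (node 557 (merge (leaf 2 525 529) (node 525 (merge (leaf 3 524 524) (leaf 3 525 526))))))))) (node 594 (merge (leaf 0 559 595) (node 558 (merge (leaf 0 558 593) (node 557 (merge (leaf 2 525 529) (node 588 (merge (leaf 1 556 589) (node 556 (merge (leaf 2 524 527) (leaf 1 555 587)))))))))))))))))))))))))))) (merge (node 560 (merge (node 592 (merge (node 625 (merge (leaf 4 496 593) (node 497 (merge (leaf 6 464 465) (node 624 (merge (leaf 6 496 529) (leaf 4 528 657))))))) (merge (node 497 (merge (leaf 6 464 465) (node 624 (merge (leaf 6 496 529) (node 623 (merge (leaf 5 495 591) (leaf 5 527 655))))))) (node 593 (merge (leaf 4 496 625) (node 464 (merge (leaf 4 464 561) (node 591 (merge (leaf 5 463 559) (leaf 5 495 623)))))))))) (merge (node 592 (merge (node 625 (merge (leaf 4 496 593) (node 624 (merge (leaf 4 528 657) (node 495 (merge (leaf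 7 463 463) (leaf 7 495 527))))))) (merge (node 593 (merge (leaf 4 496 625) (node 464 (merge (leaf 4 464 561) (node 591 (merge (leaf 5 463 559) (leaf 5 495 623))))))) (node 623 (merge (leaf 5 495 591) (node 495 (merge (leaf 7 463 463) (node 624 (merge (leaf 7 495 527) (leaf 5 527 655)))))))))) (merge (node 592 (merge (node 497 (merge (leaf 6 464 465) (node 624 (merge (leaf 6 496 529) (node 495 (merge (leaf 7 463 463) (leaf 7 495 527))))))) (merge (node 623 (merge (leaf 5 495 591) (node 495 (merge (leaf 7 463 463) (node 624 (merge (leaf 7 495 527) (leaf 5 527 655))))))) (merge (node 497 (merge (leaf 6 464 465) (node 624 (merge (leaf 6 496 529) (node 623 (merge (leaf 5 495 591) (leaf 5 527 655))))))) (node 465 (merge (leaf 6 464 497) (node 464 (merge (leaf 6 432 433) (node 591 (merge (leaf 5 463 559) (leaf 5 495 623))))))))))) (merge (node 463 (merge (node 431 (merge (leaf 7 431 464) (node 495 (merge (leaf 4 399 399) (leaf 4 431 527))))) (merge (node 464 (merge (leaf 7 431 431) (node 465 (merge (leaf 6 432 433) (node 497 (merge (leaf 6 464 592) (node 498 (merge (leaf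 0 462 462) (leaf 3 463 499))))))))) (node 592 (merge (leaf 7 463 495) (node 625 (merge (leaf 4 496 593) (node 497 (merge (leaf 6 464 465) (node 624 (merge (leaf 6 496 529) (leaf 4 528 657)))))))))))) (merge (node 497 (merge (node 592 (merge (leaf 6 464 465) (node 625 (merge (leaf 4 496 593) (node 624 (merge (leaf 4 528 657) (node 623 (merge (leaf 5 495 591) (leaf 5 527 655))))))))) (merge (node 495 (merge (node 592 (merge (leaf 7 463 463) (node 625 (merge (leaf 4 496 593) (node 624 (merge (leaf 6 496 529) (leaf 4 528 657))))))) (merge (node 592 (merge (leaf 7 463 463) (node 623 (merge (leaf 5 495 591) (node 624 (merge (leaf 7 495 527) (leaf 5 527 655))))))) (node 526 (merge (node 527 (merge (leaf 1 494 498) (leaf 2 493 525))) (merge (node 494 (merge (leaf 1 493 525) (node 493 (merge (leaf 0 493 529) (node 461 (merge (leaf 3 460 460) (leaf 3 461 462))))))) (node 498 (merge (leaf 1 494 527) (node 467 (merge (leaf 2 463 466) (node 499 (merge (leaf 2 464 468) (node 532 (merge (leaf 0 496 531) (node 500 (merge (leaf 1 496 529) (leaf 0 497 533))))))))))))))))) (node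 498 (merge (node 499 (merge (leaf 1 495 527) (node 532 (merge (leaf 0 496 531) (node 500 (merge (leaf 1 496 529) (leaf 0 497 533))))))) (merge (node 495 (merge (node 463 (merge (leaf 3 462 462) (node 431 (merge (leaf 4 399 399) (leaf 4 431 527))))) (merge (node 466 (merge (leaf 2 463 467) (node 494 (merge (leaf 2 462 465) (node 526 (merge (leaf 1 493 525) (leaf 1 494 527))))))) (node 466 (merge (leaf 2 463 467) (node 494 (merge (leaf 2 462 465) (node 462 (merge (leaf 3 461 461) (leaf 3 462 463)))))))))) (node 467 (merge (node 466 (merge (leaf 2 463 495) (node 468 (merge (leaf 1 464 465) (leaf 1 465 469))))) (merge (node 499 (merge (leaf 2 464 468) (node 532 (merge (leaf 0 496 531) (node 500 (merge (leaf 1 496 529) (leaf 0 497 533))))))) (node 495 (merge (leaf 2 463 466) (node 462 (merge (leaf 3 462 463) (node 494 (merge (leaf 3 461 461) (node 493 (merge (leaf 0 493 529) (node 525 (merge (leaf 1 492 524) (leaf 1 493 526)))))))))))))))))))) (node 561 (merge (node 464 (merge (leaf 4 464 593) (node 432 (merge (leaf 4 432 529) (node 431 (merge (leaf 7 399 399) (leaf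 7 431 463))))))) (merge (node 464 (merge (leaf 4 464 593) (node 559 (merge (leaf 5 463 591) (node 527 (merge (leaf 5 431 432) (node 562 (merge (leaf 3 526 526) (leaf 3 527 563))))))))) (merge (node 559 (merge (node 591 (merge (leaf 5 463 464) (node 623 (merge (leaf 6 495 527) (leaf 6 527 655))))) (merge (node 526 (merge (node 527 (merge (leaf 0 525 525) (leaf 3 526 562))) (merge (node 558 (merge (leaf 3 525 525) (node 557 (merge (leaf 2 525 529) (node 589 (merge (leaf 1 556 588) (leaf 1 557 590))))))) (node 562 (merge (leaf 3 526 527) (node 595 (merge (leaf 0 559 594) (node 563 (merge (leaf 0 560 596) (node 532 (merge (leaf 2 528 531) (node 564 (merge (leaf 3 528 529) (leaf 2 529 533)))))))))))))) (node 591 (merge (leaf 5 463 464) (node 562 (merge (leaf 1 558 590) (node 595 (merge (leaf 0 559 594) (node 563 (merge (leaf 0 560 596) (node 532 (merge (leaf 2 528 531) (node 564 (merge (leaf 3 528 529) (leaf 2 529 533)))))))))))))))) (node 562 (merge (node 527 (merge (leaf 3 527 563) (node 526 (merge (leaf 0 525 525) (leaf 3 526 559))))) (merge (node 563 (merge (leaf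 3 527 527) (node 596 (merge (leaf 0 560 595) (node 564 (merge (leaf 3 528 529) (leaf 0 561 597))))))) (merge (node 563 (merge (node 596 (merge (leaf 0 560 595) (node 564 (merge (leaf 3 528 529) (leaf 0 561 597))))) (merge (node 532 (merge (leaf 2 528 531) (node 564 (merge (leaf 3 528 529) (leaf 2 529 533))))) (node 595 (merge (leaf 0 560 596) (node 594 (merge (leaf 0 559 559) (node 531 (merge (leaf 2 528 532) (node 626 (merge (leaf 5 498 499) (leaf 6 530 658)))))))))))) (node 559 (merge (node 591 (merge (leaf 1 558 590) (node 623 (merge (leaf 6 527 655) (node 527 (merge (leaf 6 495 496) (leaf 3 526 526))))))) (merge (node 594 (merge (leaf 0 559 595) (node 558 (merge (leaf 0 558 593) (node 557 (merge (leaf 2 525 529) (node 525 (merge (leaf 3 524 524) (leaf 3 525 526))))))))) (node 594 (merge (leaf 0 559 595) (node 558 (merge (leaf 0 558 593) (node 557 (merge (leaf 2 525 529) (node 588 (merge (leaf 1 556 589) (node 556 (merge (leaf 2 524 527) (leaf 1 555 587)))))))))))))))))))))))))))) (merge (node 560 (merge (node 464 (merge (node 561 (merge (leaf 4 464 593) (node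 432 (merge (leaf 4 432 529) (node 559 (merge (leaf 5 431 527) (leaf 5 463 591))))))) (merge (node 593 (merge (leaf 4 464 561) (node 592 (merge (leaf 4 496 625) (node 463 (merge (leaf 7 431 431) (leaf 7 463 495))))))) (node 559 (merge (leaf 5 463 591) (node 432 (merge (leaf 5 431 527) (node 431 (merge (leaf 7 399 399) (leaf 7 431 463)))))))))) (merge (node 592 (merge (node 625 (merge (leaf 4 496 593) (node 624 (merge (leaf 4 528 657) (node 495 (merge (leaf 7 463 463) (leaf 7 495 527))))))) (merge (node 593 (merge (leaf 4 496 625) (node 464 (merge (leaf 4 464 561) (node 591 (merge (leaf 5 463 559) (leaf 5 495 623))))))) (node 623 (merge (leaf 5 495 591) (node 495 (merge (leaf 7 463 463) (node 624 (merge (leaf 7 495 527) (leaf 5 527 655)))))))))) (merge (node 592 (merge (node 625 (merge (leaf 4 496 593) (node 497 (merge (leaf 6 464 465) (node 624 (merge (leaf 6 496 529) (leaf 4 528 657))))))) (merge (node 497 (merge (leaf 6 464 465) (node 624 (merge (leaf 6 496 529) (node 623 (merge (leaf 5 495 591) (leaf 5 527 655))))))) (node 593 (merge (leaf 4 496 625) (node 561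 (merge (leaf 4 464 464) (node 591 (merge (leaf 5 495 623) (node 590 (merge (leaf 2 558 562) (leaf 2 557 589)))))))))))) (merge (node 592 (merge (node 497 (merge (leaf 6 464 465) (node 624 (merge (leaf 6 496 529) (node 495 (merge (leaf 7 463 463) (leaf 7 495 527))))))) (merge (node 623 (merge (leaf 5 495 591) (node 495 (merge (leaf 7 463 463) (node 624 (merge (leaf 7 495 527) (leaf 5 527 655))))))) (merge (node 497 (merge (leaf 6 464 465) (node 624 (merge (leaf 6 496 529) (node 623 (merge (leaf 5 495 591) (leaf 5 527 655))))))) (node 463 (merge (leaf 7 463 495) (node 464 (merge (leaf 7 431 431) (node 559 (merge (leaf 5 463 591) (node 432 (merge (leaf 5 431 527) (node 529 (merge (leaf 4 432 561) (node 400 (merge (leaf 4 400 497) (node 369 (merge (leaf 6 368 401) (node 368 (merge (leaf 6 336 337) (node 367 (merge (leaf 7 335 335) (leaf 7 367 399))))))))))))))))))))))) (merge (node 464 (merge (node 561 (merge (leaf 4 464 593) (node 432 (merge (leaf 4 432 529) (node 431 (merge (leaf 7 399 399) (leaf 7 431 463))))))) (merge (node 593 (merge (leaf 4 464 561) (node 592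 (merge (leaf 4 496 625) (node 463 (merge (leaf 7 431 431) (leaf 7 463 495))))))) (merge (node 561 (merge (leaf 4 464 593) (node 432 (merge (leaf 4 432 529) (node 527 (merge (leaf 5 431 559) (node 400 (merge (leaf 5 399 495) (node 369 (merge (leaf 6 368 401) (node 368 (merge (leaf 6 336 337) (node 367 (merge (leaf 7 335 335) (leaf 7 367 399))))))))))))))) (node 463 (merge (leaf 7 431 431) (node 592 (merge (leaf 7 463 495) (node 497 (merge (leaf 6 464 465) (node 624 (merge (leaf 6 496 529) (node 657 (merge (leaf 4 528 625) (node 656 (merge (leaf 4 560 689) (node 655 (merge (leaf 5 527 623) (leaf 5 559 687))))))))))))))))))) (merge (node 497 (merge (node 592 (merge (leaf 6 464 465) (node 625 (merge (leaf 4 496 593) (node 624 (merge (leaf 4 528 657) (node 623 (merge (leaf 5 495 591) (leaf 5 527 655))))))))) (merge (node 495 (merge (node 592 (merge (leaf 7 463 463) (node 625 (merge (leaf 4 496 593) (node 624 (merge (leaf 6 496 529) (leaf 4 528 657))))))) (merge (node 592 (merge (leaf 7 463 463) (node 623 (merge (leaf 5 495 591) (node 624 (merge (leaf 7 495 527) (leaf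 5 527 655))))))) (node 526 (merge (node 527 (merge (leaf 1 494 498) (leaf 2 493 525))) (merge (node 494 (merge (leaf 1 493 525) (node 493 (merge (leaf 0 493 529) (node 461 (merge (leaf 3 460 460) (leaf 3 461 462))))))) (node 498 (merge (leaf 1 494 527) (node 467 (merge (leaf 2 463 466) (node 499 (merge (leaf 2 464 468) (node 532 (merge (leaf 0 496 531) (node 500 (merge (leaf 1 496 529) (leaf 0 497 533))))))))))))))))) (node 498 (merge (node 499 (merge (leaf 1 495 527) (node 532 (merge (leaf 0 496 531) (node 500 (merge (leaf 1 496 529) (leaf 0 497 533))))))) (merge (node 495 (merge (node 463 (merge (leaf 3 462 462) (node 431 (merge (leaf 4 399 399) (leaf 4 431 527))))) (merge (node 466 (merge (leaf 2 463 467) (node 494 (merge (leaf 2 462 465) (node 526 (merge (leaf 1 493 525) (leaf 1 494 527))))))) (node 466 (merge (leaf 2 463 467) (node 494 (merge (leaf 2 462 465) (node 462 (merge (leaf 3 461 461) (leaf 3 462 463)))))))))) (node 467 (merge (node 466 (merge (leaf 2 463 495) (node 468 (merge (leaf 1 464 465) (leaf 1 465 469))))) (merge (node 499 (merge (leaf 2 464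 468) (node 532 (merge (leaf 0 496 531) (node 500 (merge (leaf 1 496 529) (leaf 0 497 533))))))) (node 495 (merge (leaf 2 463 466) (node 462 (merge (leaf 3 462 463) (node 494 (merge (leaf 3 461 461) (node 493 (merge (leaf 0 493 529) (node 525 (merge (leaf 1 492 524) (leaf 1 493 526)))))))))))))))))))) (node 561 (merge (node 464 (merge (leaf 4 464 593) (node 432 (merge (leaf 4 432 529) (node 431 (merge (leaf 7 399 399) (leaf 7 431 463))))))) (merge (node 464 (merge (leaf 4 464 593) (node 559 (merge (leaf 5 463 591) (node 527 (merge (leaf 5 431 432) (node 562 (merge (leaf 3 526 526) (leaf 3 527 563))))))))) (merge (node 559 (merge (node 591 (merge (leaf 5 463 464) (node 623 (merge (leaf 6 495 527) (leaf 6 527 655))))) (merge (node 526 (merge (node 527 (merge (leaf 0 525 525) (leaf 3 526 562))) (merge (node 558 (merge (leaf 3 525 525) (node 557 (merge (leaf 2 525 529) (node 589 (merge (leaf 1 556 588) (leaf 1 557 590))))))) (node 562 (merge (leaf 3 526 527) (node 595 (merge (leaf 0 559 594) (node 563 (merge (leaf 0 560 596) (node 532 (merge (leaf 2 528 531) (node 564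 (merge (leaf 3 528 529) (leaf 2 529 533)))))))))))))) (node 591 (merge (leaf 5 463 464) (node 562 (merge (leaf 1 558 590) (node 595 (merge (leaf 0 559 594) (node 563 (merge (leaf 0 560 596) (node 532 (merge (leaf 2 528 531) (node 564 (merge (leaf 3 528 529) (leaf 2 529 533)))))))))))))))) (node 562 (merge (node 527 (merge (leaf 3 527 563) (node 526 (merge (leaf 0 525 525) (leaf 3 526 559))))) (merge (node 563 (merge (leaf 3 527 527) (node 596 (merge (leaf 0 560 595) (node 564 (merge (leaf 3 528 529) (leaf 0 561 597))))))) (merge (node 563 (merge (node 596 (merge (leaf 0 560 595) (node 564 (merge (leaf 3 528 529) (leaf 0 561 597))))) (merge (node 532 (merge (leaf 2 528 531) (node 564 (merge (leaf 3 528 529) (leaf 2 529 533))))) (node 595 (merge (leaf 0 560 596) (node 594 (merge (leaf 0 559 559) (node 531 (merge (leaf 2 528 532) (node 626 (merge (leaf 5 498 499) (leaf 6 530 658)))))))))))) (node 559 (merge (node 591 (merge (leaf 1 558 590) (node 623 (merge (leaf 6 527 655) (node 527 (merge (leaf 6 495 496) (leaf 3 526 526))))))) (merge (node 594 (merge (leaf 0 559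 595) (node 558 (merge (leaf 0 558 593) (node 557 (merge (leaf 2 525 529) (node 525 (merge (leaf 3 524 524) (leaf 3 525 526))))))))) (node 594 (merge (leaf 0 559 595) (node 558 (merge (leaf 0 558 593) (node 557 (merge (leaf 2 525 529) (node 588 (merge (leaf 1 556 589) (node 556 (merge (leaf 2 524 527) (leaf 1 555 587))))))))))))))))))))))))))))) (merge (node 560 (merge (node 592 (merge (node 625 (merge (leaf 4 496 593) (node 497 (merge (leaf 6 464 465) (node 624 (merge (leaf 6 496 529) (leaf 4 528 657))))))) (merge (node 497 (merge (leaf 6 464 465) (node 624 (merge (leaf 6 496 529) (node 623 (merge (leaf 5 495 591) (leaf 5 527 655))))))) (node 593 (merge (leaf 4 496 625) (node 561 (merge (leaf 4 464 464) (node 591 (merge (leaf 5 495 623) (node 590 (merge (leaf 2 558 562) (leaf 2 557 589)))))))))))) (merge (node 592 (merge (node 625 (merge (leaf 4 496 593) (node 624 (merge (leaf 4 528 657) (node 495 (merge (leaf 7 463 463) (leaf 7 495 527))))))) (merge (node 623 (merge (leaf 5 495 591) (node 495 (merge (leaf 7 463 463) (node 624 (merge (leaf 7 495 527) (leaf 5 527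 655))))))) (node 593 (merge (leaf 4 496 625) (node 561 (merge (leaf 4 464 464) (node 591 (merge (leaf 5 495 623) (node 590 (merge (leaf 2 558 562) (leaf 2 557 589)))))))))))) (merge (node 497 (merge (node 592 (merge (leaf 6 464 465) (node 624 (merge (leaf 6 496 529) (node 623 (merge (leaf 5 495 591) (leaf 5 527 655))))))) (merge (node 592 (merge (leaf 6 464 465) (node 623 (merge (leaf 5 495 591) (node 495 (merge (leaf 7 463 463) (node 624 (merge (leaf 7 495 527) (leaf 5 527 655))))))))) (merge (node 498 (merge (node 527 (merge (leaf 1 495 499) (node 526 (merge (leaf 1 494 495) (leaf 2 493 525))))) (merge (node 499 (merge (leaf 1 495 527) (node 532 (merge (leaf 0 496 531) (node 500 (merge (leaf 1 496 529) (leaf 0 497 533))))))) (merge (node 495 (merge (node 463 (merge (leaf 3 462 462) (leaf 7 463 592))) (node 467 (merge (leaf 2 463 466) (node 499 (merge (leaf 2 464 468) (node 532 (merge (leaf 0 496 531) (node 500 (merge (leaf 1 496 529) (leaf 0 497 533))))))))))) (node 495 (merge (node 527 (merge (leaf 1 494 526) (node 463 (merge (leaf 4 431 431) (leaf 3 462 462)))))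 (merge (node 592 (merge (leaf 7 463 463) (node 624 (merge (leaf 6 496 529) (node 623 (merge (leaf 5 495 591) (leaf 5 527 655))))))) (node 526 (merge (leaf 1 494 527) (node 494 (merge (leaf 1 493 525) (node 493 (merge (leaf 0 493 529) (node 461 (merge (leaf 3 460 460) (leaf 3 461 462)))))))))))))))) (node 498 (merge (node 499 (merge (leaf 1 495 527) (node 532 (merge (leaf 0 496 531) (node 500 (merge (leaf 1 496 529) (leaf 0 497 533))))))) (merge (node 495 (merge (node 463 (merge (leaf 3 462 462) (node 431 (merge (leaf 4 399 399) (leaf 4 431 527))))) (merge (node 466 (merge (leaf 2 463 467) (node 494 (merge (leaf 2 462 465) (node 526 (merge (leaf 1 493 525) (leaf 1 494 527))))))) (node 466 (merge (leaf 2 463 467) (node 494 (merge (leaf 2 462 465) (node 462 (merge (leaf 3 461 461) (leaf 3 462 463)))))))))) (node 467 (merge (node 466 (merge (leaf 2 463 495) (node 468 (merge (leaf 1 464 465) (leaf 1 465 469))))) (merge (node 499 (merge (leaf 2 464 468) (node 532 (merge (leaf 0 496 531) (node 500 (merge (leaf 1 496 529) (leaf 0 497 533))))))) (node 495 (merge (leaf 2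 463 466) (node 462 (merge (leaf 3 462 463) (node 494 (merge (leaf 3 461 461) (node 493 (merge (leaf 0 493 529) (node 525 (merge (leaf 1 492 524) (leaf 1 493 526))))))))))))))))))))) (hyp 4))))) (merge (hyp 5) (merge (hyp 6) (merge (node 464 (merge (node 432 (merge (node 561 (merge (leaf 4 432 529) (node 560 (merge (leaf 4 464 593) (node 559 (merge (leaf 5 431 527) (leaf 5 463 591))))))) (merge (node 529 (merge (leaf 4 432 561) (node 400 (merge (leaf 4 400 497) (node 399 (merge (leaf 7 367 367) (leaf 7 399 431))))))) (node 527 (merge (leaf 5 431 559) (node 400 (merge (leaf 5 399 495) (node 399 (merge (leaf 7 367 367) (leaf 7 399 431)))))))))) (merge (node 560 (merge (node 433 (merge (leaf 6 432 465) (node 432 (merge (leaf 6 400 401) (node 431 (merge (leaf 7 399 399) (leaf 7 431 463))))))) (merge (node 593 (merge (leaf 4 464 561) (node 592 (merge (leaf 4 496 625) (node 463 (merge (leaf 7 431 431) (leaf 7 463 495))))))) (node 593 (merge (leaf 4 464 561) (node 465 (merge (leaf 6 432 433) (node 592 (merge (leaf 6 464 497) (leaf 4 496 625)))))))))) (merge (node 432 (merge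 (node 401 (merge (leaf 6 400 433) (node 400 (merge (leaf 6 368 369) (node 399 (merge (leaf 7 367 367) (leaf 7 399 431))))))) (merge (node 559 (merge (leaf 5 431 527) (node 431 (merge (leaf 7 399 399) (node 560 (merge (leaf 7 431 463) (leaf 5 463 591))))))) (node 433 (merge (leaf 6 400 401) (node 560 (merge (leaf 6 432 465) (node 559 (merge (leaf 5 431 527) (leaf 5 463 591)))))))))) (merge (node 433 (merge (node 465 (merge (leaf 6 432 560) (node 401 (merge (leaf 5 368 369) (leaf 5 400 497))))) (merge (node 432 (merge (leaf 6 400 401) (node 529 (merge (leaf 4 432 561) (node 400 (merge (leaf 4 400 497) (node 527 (merge (leaf 5 399 495) (leaf 5 431 559))))))))) (node 560 (merge (leaf 6 432 465) (node 561 (merge (leaf 4 464 593) (node 432 (merge (leaf 4 432 529) (node 527 (merge (leaf 5 431 559) (node 495 (merge (leaf 5 399 400) (node 592 (merge (leaf 7 463 463) (leaf 7 495 624)))))))))))))))) (merge (node 465 (merge (node 560 (merge (leaf 6 432 433) (node 593 (merge (leaf 4 464 561) (node 592 (merge (leaf 6 464 497) (leaf 4 496 625))))))) (merge (node 560 (merge (leaf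 6 432 433) (node 593 (merge (leaf 4 464 561) (node 592 (merge (leaf 4 496 625) (node 463 (merge (leaf 7 431 431) (leaf 7 463 495))))))))) (merge (node 463 (merge (node 431 (merge (leaf 7 431 560) (node 399 (merge (leaf 4 367 367) (leaf 4 399 495))))) (merge (node 560 (merge (leaf 7 431 431) (node 497 (merge (leaf 6 464 592) (node 498 (merge (leaf 0 462 462) (leaf 3 463 499))))))) (merge (node 466 (merge (node 431 (merge (leaf 3 430 430) (node 399 (merge (leaf 4 367 367) (leaf 4 399 495))))) (merge (node 499 (merge (leaf 0 463 498) (node 467 (merge (leaf 1 463 495) (leaf 0 464 500))))) (node 499 (merge (leaf 0 463 498) (node 467 (merge (leaf 0 464 500) (node 435 (merge (leaf 2 431 434) (leaf 2 432 436)))))))))) (node 498 (merge (node 497 (merge (leaf 0 462 462) (leaf 3 463 499))) (merge (node 466 (merge (leaf 0 463 499) (node 495 (merge (leaf 1 463 467) (leaf 1 462 494))))) (node 462 (merge (leaf 0 462 497) (node 494 (merge (leaf 1 461 493) (node 495 (merge (leaf 1 462 466) (node 430 (merge (leaf 3 429 429) (node 527 (merge (leaf 4 398 398) (leaf 7 430 559))))))))))))))))))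 (node 466 (merge (node 495 (merge (leaf 1 463 467) (node 494 (merge (leaf 1 462 463) (leaf 2 461 493))))) (merge (node 467 (merge (leaf 1 463 495) (node 500 (merge (leaf 0 464 499) (node 468 (merge (leaf 1 464 497) (leaf 0 465 501))))))) (merge (node 463 (merge (node 431 (merge (leaf 3 430 430) (node 399 (merge (leaf 4 367 367) (leaf 4 399 495))))) (merge (node 434 (merge (leaf 2 431 435) (node 462 (merge (leaf 2 430 433) (node 494 (merge (leaf 1 461 493) (leaf 1 462 495))))))) (node 434 (merge (leaf 2 431 435) (node 462 (merge (leaf 2 430 433) (node 461 (merge (leaf 0 461 497) (node 493 (merge (leaf 1 460 492) (leaf 1 461 494)))))))))))) (node 435 (merge (node 434 (merge (leaf 2 431 463) (node 436 (merge (leaf 1 432 433) (leaf 1 433 437))))) (merge (node 467 (merge (leaf 2 432 436) (node 500 (merge (leaf 0 464 499) (node 468 (merge (leaf 1 464 497) (leaf 0 465 501))))))) (node 463 (merge (leaf 2 431 434) (node 430 (merge (leaf 3 430 431) (node 462 (merge (leaf 3 429 429) (node 497 (merge (leaf 0 461 461) (leaf 0 462 498)))))))))))))))))))) (hyp 7))))))) (merge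 (node 464 (merge (node 432 (merge (node 401 (merge (leaf 6 400 433) (node 400 (merge (leaf 6 368 369) (node 399 (merge (leaf 7 367 367) (leaf 7 399 431))))))) (merge (node 559 (merge (leaf 5 431 527) (node 431 (merge (leaf 7 399 399) (node 560 (merge (leaf 7 431 463) (leaf 5 463 591))))))) (node 433 (merge (leaf 6 400 401) (node 560 (merge (leaf 6 432 465) (node 559 (merge (leaf 5 431 527) (leaf 5 463 591)))))))))) (merge (node 560 (merge (node 433 (merge (leaf 6 432 465) (node 432 (merge (leaf 6 400 401) (node 559 (merge (leaf 5 431 527) (leaf 5 463 591))))))) (merge (node 465 (merge (leaf 6 432 433) (node 592 (merge (leaf 6 464 497) (node 463 (merge (leaf 7 431 431) (leaf 7 463 495))))))) (node 591 (merge (leaf 5 463 559) (node 463 (merge (leaf 7 431 431) (node 592 (merge (leaf 7 463 495) (leaf 5 495 623)))))))))) (merge (node 432 (merge (node 529 (merge (leaf 4 432 561) (node 400 (merge (leaf 4 400 497) (node 401 (merge (leaf 6 368 369) (leaf 6 400 433))))))) (merge (node 529 (merge (leaf 4 432 561) (node 400 (merge (leaf 4 400 497) (node 399 (merge (leaf 7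 367 367) (leaf 7 399 431))))))) (node 433 (merge (leaf 6 400 401) (node 431 (merge (leaf 7 399 399) (node 463 (merge (leaf 7 431 560) (node 462 (merge (leaf 1 430 434) (leaf 2 429 461)))))))))))) (merge (node 431 (merge (node 463 (merge (leaf 7 431 560) (node 399 (merge (leaf 4 367 367) (leaf 4 399 495))))) (merge (node 432 (merge (leaf 7 399 399) (node 529 (merge (leaf 4 432 561) (node 400 (merge (leaf 4 400 497) (node 527 (merge (leaf 5 399 495) (leaf 5 431 559))))))))) (node 560 (merge (leaf 7 431 463) (node 559 (merge (leaf 5 463 591) (node 432 (merge (leaf 5 431 527) (node 529 (merge (leaf 4 432 561) (node 497 (merge (leaf 4 400 400) (node 592 (merge (leaf 6 464 465) (leaf 6 496 624)))))))))))))))) (merge (node 560 (merge (node 465 (merge (leaf 6 432 433) (node 592 (merge (leaf 6 464 497) (node 591 (merge (leaf 5 463 559) (leaf 5 495 623))))))) (merge (node 433 (merge (leaf 6 432 465) (node 432 (merge (leaf 6 400 401) (node 529 (merge (leaf 4 432 561) (node 400 (merge (leaf 4 400 497) (node 399 (merge (leaf 7 367 367) (leaf 7 399 431))))))))))) (merge (node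 559 (merge (leaf 5 463 591) (node 432 (merge (leaf 5 431 527) (node 401 (merge (leaf 6 400 433) (node 400 (merge (leaf 6 368 369) (node 399 (merge (leaf 7 367 367) (leaf 7 399 431))))))))))) (node 559 (merge (leaf 5 463 591) (node 432 (merge (leaf 5 431 527) (node 399 (merge (leaf 7 399 431) (node 400 (merge (leaf 7 367 367) (node 497 (merge (leaf 4 400 529) (node 465 (merge (leaf 4 368 368) (leaf 6 464 592))))))))))))))))) (merge (node 465 (merge (node 560 (merge (leaf 6 432 433) (node 592 (merge (leaf 6 464 497) (node 591 (merge (leaf 5 463 559) (leaf 5 495 623))))))) (merge (node 560 (merge (leaf 6 432 433) (node 591 (merge (leaf 5 463 559) (node 463 (merge (leaf 7 431 431) (node 592 (merge (leaf 7 463 495) (leaf 5 495 623))))))))) (merge (node 463 (merge (node 431 (merge (leaf 7 431 560) (node 399 (merge (leaf 4 367 367) (leaf 4 399 495))))) (merge (node 560 (merge (leaf 7 431 431) (node 497 (merge (leaf 6 464 592) (node 498 (merge (leaf 0 462 462) (leaf 3 463 499))))))) (merge (node 466 (merge (node 431 (merge (leaf 3 430 430) (node 399 (merge (leaf 4 367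 367) (leaf 4 399 495))))) (merge (node 499 (merge (leaf 0 463 498) (node 467 (merge (leaf 1 463 495) (leaf 0 464 500))))) (node 499 (merge (leaf 0 463 498) (node 467 (merge (leaf 0 464 500) (node 435 (merge (leaf 2 431 434) (leaf 2 432 436)))))))))) (node 498 (merge (node 497 (merge (leaf 0 462 462) (leaf 3 463 499))) (merge (node 466 (merge (leaf 0 463 499) (node 495 (merge (leaf 1 463 467) (leaf 1 462 494))))) (node 462 (merge (leaf 0 462 497) (node 494 (merge (leaf 1 461 493) (node 495 (merge (leaf 1 462 466) (node 430 (merge (leaf 3 429 429) (node 527 (merge (leaf 4 398 398) (leaf 7 430 559)))))))))))))))))) (node 466 (merge (node 495 (merge (leaf 1 463 467) (node 494 (merge (leaf 1 462 463) (leaf 2 461 493))))) (merge (node 467 (merge (leaf 1 463 495) (node 500 (merge (leaf 0 464 499) (node 468 (merge (leaf 1 464 497) (leaf 0 465 501))))))) (merge (node 463 (merge (node 431 (merge (leaf 3 430 430) (node 399 (merge (leaf 4 367 367) (leaf 4 399 495))))) (merge (node 434 (merge (leaf 2 431 435) (node 462 (merge (leaf 2 430 433) (node 494 (merge (leaf 1 461 493)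 (leaf 1 462 495))))))) (node 434 (merge (leaf 2 431 435) (node 462 (merge (leaf 2 430 433) (node 461 (merge (leaf 0 461 497) (node 493 (merge (leaf 1 460 492) (leaf 1 461 494)))))))))))) (node 435 (merge (node 434 (merge (leaf 2 431 463) (node 436 (merge (leaf 1 432 433) (leaf 1 433 437))))) (merge (node 467 (merge (leaf 2 432 436) (node 500 (merge (leaf 0 464 499) (node 468 (merge (leaf 1 464 497) (leaf 0 465 501))))))) (node 463 (merge (leaf 2 431 434) (node 430 (merge (leaf 3 430 431) (node 462 (merge (leaf 3 429 429) (node 497 (merge (leaf 0 461 461) (leaf 0 462 498)))))))))))))))))))) (merge (node 465 (merge (node 433 (merge (leaf 6 432 560) (node 401 (merge (leaf 5 368 369) (leaf 6 400 432))))) (merge (node 560 (merge (leaf 6 432 433) (node 592 (merge (leaf 6 464 497) (node 591 (merge (leaf 5 463 559) (leaf 5 495 623))))))) (merge (node 495 (merge (node 494 (merge (leaf 2 461 493) (node 466 (merge (leaf 1 463 467) (leaf 2 462 497))))) (merge (node 494 (merge (leaf 2 461 493) (node 466 (merge (leaf 1 462 463) (leaf 1 463 467))))) (node 432 (merge (node 527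 (merge (leaf 5 399 400) (leaf 5 431 559))) (merge (node 529 (merge (leaf 4 432 561) (node 400 (merge (leaf 4 400 497) (node 368 (merge (leaf 5 367 463) (node 369 (merge (leaf 6 336 337) (leaf 6 368 401))))))))) (node 559 (merge (leaf 5 431 527) (node 560 (merge (leaf 5 463 591) (node 592 (merge (leaf 7 463 463) (leaf 6 464 497))))))))))))) (node 433 (merge (node 401 (merge (leaf 5 368 369) (leaf 6 400 432))) (merge (node 401 (merge (leaf 5 368 369) (leaf 5 400 497))) (node 463 (merge (node 462 (merge (leaf 2 430 434) (node 498 (merge (leaf 0 462 497) (node 466 (merge (leaf 0 463 499) (node 494 (merge (leaf 1 461 493) (leaf 1 462 495))))))))) (merge (node 462 (merge (leaf 2 430 434) (node 461 (merge (leaf 2 429 432) (node 493 (merge (leaf 1 460 492) (leaf 1 461 494))))))) (merge (node 498 (merge (node 497 (merge (leaf 3 463 499) (node 462 (merge (leaf 0 461 461) (leaf 3 462 495))))) (merge (node 462 (merge (leaf 0 462 497) (node 493 (merge (leaf 1 461 494) (node 461 (merge (leaf 2 429 432) (leaf 1 460 492))))))) (node 466 (merge (leaf 0 463 499) (node 467 (merge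 (leaf 1 463 495) (node 436 (merge (leaf 2 432 435) (node 468 (merge (leaf 3 432 432) (leaf 2 433 437)))))))))))) (node 432 (merge (node 434 (merge (leaf 1 431 435) (node 529 (merge (leaf 4 432 561) (node 497 (merge (leaf 4 400 400) (leaf 6 401 402))))))) (merge (node 527 (merge (leaf 5 431 559) (node 400 (merge (leaf 5 399 495) (node 368 (merge (leaf 4 336 336) (node 367 (merge (leaf 7 335 335) (leaf 7 367 399))))))))) (node 434 (merge (leaf 1 431 435) (node 529 (merge (leaf 4 432 561) (node 527 (merge (leaf 5 431 559) (node 497 (merge (leaf 6 401 402) (node 498 (merge (leaf 1 495 499) (leaf 2 494 526))))))))))))))))))))))))) (hyp 7))))))))) (merge (node 464 (merge (node 432 (merge (node 561 (merge (leaf 4 432 529) (node 433 (merge (leaf 6 400 401) (node 560 (merge (leaf 6 432 465) (leaf 4 464 593))))))) (merge (node 529 (merge (leaf 4 432 561) (node 400 (merge (leaf 4 400 497) (node 399 (merge (leaf 7 367 367) (leaf 7 399 431))))))) (node 401 (merge (leaf 6 400 433) (node 400 (merge (leaf 6 368 369) (node 399 (merge (leaf 7 367 367) (leaf 7 399 431)))))))))) (merge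 (node 560 (merge (node 433 (merge (leaf 6 432 465) (node 432 (merge (leaf 6 400 401) (node 431 (merge (leaf 7 399 399) (leaf 7 431 463))))))) (merge (node 593 (merge (leaf 4 464 561) (node 592 (merge (leaf 4 496 625) (node 463 (merge (leaf 7 431 431) (leaf 7 463 495))))))) (node 561 (merge (leaf 4 464 593) (node 432 (merge (leaf 4 432 529) (node 433 (merge (leaf 6 400 401) (leaf 6 432 465)))))))))) (merge (node 432 (merge (node 529 (merge (leaf 4 432 561) (node 400 (merge (leaf 4 400 497) (node 401 (merge (leaf 6 368 369) (leaf 6 400 433))))))) (merge (node 529 (merge (leaf 4 432 561) (node 400 (merge (leaf 4 400 497) (node 399 (merge (leaf 7 367 367) (leaf 7 399 431))))))) (node 433 (merge (leaf 6 400 401) (node 431 (merge (leaf 7 399 399) (node 463 (merge (leaf 7 431 560) (node 462 (merge (leaf 1 430 434) (leaf 2 429 461)))))))))))) (merge (node 433 (merge (node 465 (merge (leaf 6 432 560) (node 401 (merge (leaf 5 368 369) (leaf 5 400 497))))) (merge (node 432 (merge (leaf 6 400 401) (node 529 (merge (leaf 4 432 561) (node 400 (merge (leaf 4 400 497) (node 527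 (merge (leaf 5 399 495) (leaf 5 431 559))))))))) (node 560 (merge (leaf 6 432 465) (node 561 (merge (leaf 4 464 593) (node 432 (merge (leaf 4 432 529) (node 527 (merge (leaf 5 431 559) (node 495 (merge (leaf 5 399 400) (node 592 (merge (leaf 7 463 463) (leaf 7 495 624)))))))))))))))) (merge (node 560 (merge (node 433 (merge (leaf 6 432 465) (node 432 (merge (leaf 6 400 401) (node 431 (merge (leaf 7 399 399) (leaf 7 431 463))))))) (merge (node 431 (merge (leaf 7 431 463) (node 432 (merge (leaf 7 399 399) (node 527 (merge (leaf 5 431 559) (node 400 (merge (leaf 5 399 495) (node 401 (merge (leaf 6 368 369) (leaf 6 400 433))))))))))) (merge (node 465 (merge (leaf 6 432 433) (node 592 (merge (leaf 6 464 497) (node 625 (merge (leaf 4 496 593) (node 624 (merge (leaf 4 528 657) (node 655 (merge (leaf 5 527 623) (node 656 (merge (leaf 5 559 687) (node 527 (merge (leaf 7 495 495) (leaf 7 527 559))))))))))))))) (node 463 (merge (leaf 7 431 431) (node 592 (merge (leaf 7 463 495) (node 625 (merge (leaf 4 496 593) (node 624 (merge (leaf 4 528 657) (node 497 (merge (leaf 6 464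 465) (leaf 6 496 529))))))))))))))) (merge (node 560 (merge (node 561 (merge (leaf 4 464 593) (node 432 (merge (leaf 4 432 529) (node 431 (merge (leaf 7 399 399) (leaf 7 431 463))))))) (merge (node 593 (merge (leaf 4 464 561) (node 592 (merge (leaf 4 496 625) (node 463 (merge (leaf 7 431 431) (leaf 7 463 495))))))) (merge (node 561 (merge (leaf 4 464 593) (node 432 (merge (leaf 4 432 529) (node 527 (merge (leaf 5 431 559) (node 400 (merge (leaf 5 399 495) (node 369 (merge (leaf 6 368 401) (node 368 (merge (leaf 6 336 337) (node 367 (merge (leaf 7 335 335) (leaf 7 367 399))))))))))))))) (node 463 (merge (leaf 7 431 431) (node 592 (merge (leaf 7 463 495) (node 497 (merge (leaf 6 464 465) (node 624 (merge (leaf 6 496 529) (node 657 (merge (leaf 4 528 625) (node 656 (merge (leaf 4 560 689) (node 655 (merge (leaf 5 527 623) (leaf 5 559 687))))))))))))))))))) (merge (node 465 (merge (node 560 (merge (leaf 6 432 433) (node 593 (merge (leaf 4 464 561) (node 592 (merge (leaf 6 464 497) (leaf 4 496 625))))))) (merge (node 560 (merge (leaf 6 432 433) (node 593 (merge (leaf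 4 464 561) (node 592 (merge (leaf 4 496 625) (node 463 (merge (leaf 7 431 431) (leaf 7 463 495))))))))) (merge (node 463 (merge (node 431 (merge (leaf 7 431 560) (node 399 (merge (leaf 4 367 367) (leaf 4 399 495))))) (merge (node 560 (merge (leaf 7 431 431) (node 497 (merge (leaf 6 464 592) (node 498 (merge (leaf 0 462 462) (leaf 3 463 499))))))) (merge (node 466 (merge (node 431 (merge (leaf 3 430 430) (node 399 (merge (leaf 4 367 367) (leaf 4 399 495))))) (merge (node 499 (merge (leaf 0 463 498) (node 467 (merge (leaf 1 463 495) (leaf 0 464 500))))) (node 499 (merge (leaf 0 463 498) (node 467 (merge (leaf 0 464 500) (node 435 (merge (leaf 2 431 434) (leaf 2 432 436)))))))))) (node 498 (merge (node 497 (merge (leaf 0 462 462) (leaf 3 463 499))) (merge (node 466 (merge (leaf 0 463 499) (node 495 (merge (leaf 1 463 467) (leaf 1 462 494))))) (node 462 (merge (leaf 0 462 497) (node 494 (merge (leaf 1 461 493) (node 495 (merge (leaf 1 462 466) (node 430 (merge (leaf 3 429 429) (node 527 (merge (leaf 4 398 398) (leaf 7 430 559)))))))))))))))))) (node 466 (merge (node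 495 (merge (leaf 1 463 467) (node 494 (merge (leaf 1 462 463) (leaf 2 461 493))))) (merge (node 467 (merge (leaf 1 463 495) (node 500 (merge (leaf 0 464 499) (node 468 (merge (leaf 1 464 497) (leaf 0 465 501))))))) (merge (node 463 (merge (node 431 (merge (leaf 3 430 430) (node 399 (merge (leaf 4 367 367) (leaf 4 399 495))))) (merge (node 434 (merge (leaf 2 431 435) (node 462 (merge (leaf 2 430 433) (node 494 (merge (leaf 1 461 493) (leaf 1 462 495))))))) (node 434 (merge (leaf 2 431 435) (node 462 (merge (leaf 2 430 433) (node 461 (merge (leaf 0 461 497) (node 493 (merge (leaf 1 460 492) (leaf 1 461 494)))))))))))) (node 435 (merge (node 434 (merge (leaf 2 431 463) (node 436 (merge (leaf 1 432 433) (leaf 1 433 437))))) (merge (node 467 (merge (leaf 2 432 436) (node 500 (merge (leaf 0 464 499) (node 468 (merge (leaf 1 464 497) (leaf 0 465 501))))))) (node 463 (merge (leaf 2 431 434) (node 430 (merge (leaf 3 430 431) (node 462 (merge (leaf 3 429 429) (node 497 (merge (leaf 0 461 461) (leaf 0 462 498)))))))))))))))))))) (hyp 7))))))))) (merge (node 560 (merge (node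 465 (merge (node 497 (merge (leaf 6 464 592) (node 433 (merge (leaf 5 400 401) (leaf 5 432 529))))) (merge (node 433 (merge (leaf 6 432 464) (node 497 (merge (leaf 5 400 401) (leaf 5 432 529))))) (merge (node 592 (merge (leaf 6 464 497) (node 591 (merge (leaf 5 495 623) (node 464 (merge (leaf 5 463 559) (node 463 (merge (leaf 7 431 431) (leaf 7 463 495))))))))) (node 464 (merge (leaf 6 432 433) (node 591 (merge (leaf 5 463 559) (node 463 (merge (leaf 7 431 431) (node 592 (merge (leaf 7 463 495) (leaf 5 495 623))))))))))))) (merge (node 592 (merge (node 625 (merge (leaf 4 496 593) (node 624 (merge (leaf 4 528 657) (node 495 (merge (leaf 7 463 463) (leaf 7 495 527))))))) (merge (node 623 (merge (leaf 5 495 591) (node 495 (merge (leaf 7 463 463) (node 624 (merge (leaf 7 495 527) (leaf 5 527 655))))))) (node 593 (merge (leaf 4 496 625) (node 591 (merge (leaf 5 495 623) (node 559 (merge (leaf 5 463 464) (node 594 (merge (leaf 3 558 558) (leaf 3 559 595)))))))))))) (merge (node 463 (merge (node 431 (merge (leaf 7 431 464) (node 495 (merge (leaf 4 399 399) (leaf 4 431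 527))))) (merge (node 464 (merge (leaf 7 431 431) (node 465 (merge (leaf 6 432 433) (node 497 (merge (leaf 6 464 592) (node 498 (merge (leaf 0 462 462) (leaf 3 463 499))))))))) (node 592 (merge (leaf 7 463 495) (node 625 (merge (leaf 4 496 593) (node 497 (merge (leaf 6 464 465) (node 624 (merge (leaf 6 496 529) (leaf 4 528 657)))))))))))) (merge (node 464 (merge (node 433 (merge (leaf 6 432 465) (node 432 (merge (leaf 6 400 401) (node 431 (merge (leaf 7 399 399) (leaf 7 431 463))))))) (merge (node 465 (merge (leaf 6 432 433) (node 592 (merge (leaf 6 464 497) (node 591 (merge (leaf 5 463 559) (leaf 5 495 623))))))) (node 559 (merge (leaf 5 463 591) (node 432 (merge (leaf 5 431 527) (node 431 (merge (leaf 7 399 399) (leaf 7 431 463)))))))))) (merge (node 464 (merge (node 465 (merge (leaf 6 432 433) (node 592 (merge (leaf 6 464 497) (node 591 (merge (leaf 5 463 559) (leaf 5 495 623))))))) (merge (node 559 (merge (leaf 5 463 591) (node 432 (merge (leaf 5 431 527) (node 401 (merge (leaf 6 400 433) (node 400 (merge (leaf 6 368 369) (node 399 (merge (leaf 7 367 367) (leaf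 7 399 431))))))))))) (merge (node 559 (merge (leaf 5 463 591) (node 432 (merge (leaf 5 431 527) (node 399 (merge (leaf 7 399 431) (node 400 (merge (leaf 7 367 367) (node 497 (merge (leaf 4 400 529) (node 465 (merge (leaf 4 368 368) (leaf 6 464 592))))))))))))) (merge (node 465 (merge (leaf 6 432 433) (node 592 (merge (leaf 6 464 497) (node 625 (merge (leaf 4 496 593) (node 624 (merge (leaf 4 528 657) (node 623 (merge (leaf 5 495 591) (leaf 5 527 655))))))))))) (node 465 (merge (leaf 6 432 433) (node 592 (merge (leaf 6 464 497) (node 625 (merge (leaf 4 496 593) (node 624 (merge (leaf 4 528 657) (node 655 (merge (leaf 5 527 623) (node 656 (merge (leaf 5 559 687) (node 527 (merge (leaf 7 495 495) (leaf 7 527 559)))))))))))))))))))) (merge (node 497 (merge (node 592 (merge (leaf 6 464 465) (node 625 (merge (leaf 4 496 593) (node 624 (merge (leaf 4 528 657) (node 623 (merge (leaf 5 495 591) (leaf 5 527 655))))))))) (merge (node 495 (merge (node 592 (merge (leaf 7 463 463) (node 625 (merge (leaf 4 496 593) (node 624 (merge (leaf 6 496 529) (leaf 4 528 657))))))) (merge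 (node 592 (merge (leaf 7 463 463) (node 623 (merge (leaf 5 495 591) (node 624 (merge (leaf 7 495 527) (leaf 5 527 655))))))) (node 526 (merge (node 527 (merge (leaf 1 494 498) (leaf 2 493 525))) (merge (node 494 (merge (leaf 1 493 525) (node 493 (merge (leaf 0 493 529) (node 461 (merge (leaf 3 460 460) (leaf 3 461 462))))))) (node 498 (merge (leaf 1 494 527) (node 467 (merge (leaf 2 463 466) (node 499 (merge (leaf 2 464 468) (node 532 (merge (leaf 0 496 531) (node 500 (merge (leaf 1 496 529) (leaf 0 497 533))))))))))))))))) (node 498 (merge (node 499 (merge (leaf 1 495 527) (node 532 (merge (leaf 0 496 531) (node 500 (merge (leaf 1 496 529) (leaf 0 497 533))))))) (merge (node 495 (merge (node 463 (merge (leaf 3 462 462) (node 431 (merge (leaf 4 399 399) (leaf 4 431 527))))) (merge (node 466 (merge (leaf 2 463 467) (node 494 (merge (leaf 2 462 465) (node 526 (merge (leaf 1 493 525) (leaf 1 494 527))))))) (node 466 (merge (leaf 2 463 467) (node 494 (merge (leaf 2 462 465) (node 462 (merge (leaf 3 461 461) (leaf 3 462 463)))))))))) (node 467 (merge (node 466 (merge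 (leaf 2 463 495) (node 468 (merge (leaf 1 464 465) (leaf 1 465 469))))) (merge (node 499 (merge (leaf 2 464 468) (node 532 (merge (leaf 0 496 531) (node 500 (merge (leaf 1 496 529) (leaf 0 497 533))))))) (node 495 (merge (leaf 2 463 466) (node 462 (merge (leaf 3 462 463) (node 494 (merge (leaf 3 461 461) (node 493 (merge (leaf 0 493 529) (node 525 (merge (leaf 1 492 524) (leaf 1 493 526)))))))))))))))))))) (hyp 8)))))))) (merge (hyp 9) (merge (hyp 10) (merge (hyp 11) (hyp 12))))))))))))))))))))))) nA_33 cA_33 14 (by decide +kernel)

end Crest.Agent.H26Snaky
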