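import Crest.Agent.H26SnakyTree

/-! certificate data for S0047, part B 0 (computer generated) -/

set_option autoImplicit false
set_option maxRecDepth 100000

namespace Crest.Agent.H26Snaky

open T

def nB_0 : ℕ := 0x100000001000000000000000000000000000000000000000000000000000000000000000000000000000000000000000000000000000000000000000000000000000000000000
def cB_0 : ℕ := 0x280000003800000038000003eb800001ef800000ff000001ff000000fe0000003c000000000000000000000000000000000000000000000000000000000000000000000000000000000000000000000000000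
theorem lB_0 : S nB_0 cB_0 12 := S_of_chk [] trivial (node 496 (merge (node 465 (merge (node 497 (merge (leaf 6 464 592) (node 433 (merge (leaf 5 400 401) (leaf 5 432 529))))) (merge (node 433 (merge (leaf 6 432 464) (node 497 (merge (leaf 5 400 401) (leaf 5 432 529))))) (merge (node 592 (merge (leaf 6 464 497) (node 591 (merge (leaf 5 495 623) (node 464 (merge (leaf 5 463 559) (node 463 (merge (leaf 7 431 431) (leaf 7 463 495))))))))) (node 464 (merge (leaf 6 432 433) (node 591 (merge (leaf 5 463 559) (node 463 (merge (leaf 7 431 431) (node 592 (merge (leaf 7 463 495) (leaf 5 495 623))))))))))))) (merge (node 592 (merge (node 593 (merge (leaf 4 496 625) (node 464 (merge (leaf 4 464 561) (node 591 (merge (leaf 5 463 559) (leaf 5 495 623))))))) (merge (node 625 (merge (leaf 4 496 593) (node 624 (merge (leaf 4 528 657) (node 495 (merge (leaf 7 463 463) (leaf 7 495 527))))))) (node 623 (merge (leaf 5 495 591) (node 495 (merge (leaf 7 463 463) (node 624 (merge (leaf 7 495 527) (leaf 5 527 655)))))))))) (merge (node 592 (merge (node 593 (merge (leaf 4 496 625) (node 464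 (merge (leaf 4 464 561) (node 465 (merge (leaf 6 432 433) (leaf 6 464 497))))))) (merge (node 625 (merge (leaf 4 496 593) (node 624 (merge (leaf 4 528 657) (node 623 (merge (leaf 5 495 591) (leaf 5 527 655))))))) (node 497 (merge (leaf 6 464 465) (node 624 (merge (leaf 6 496 529) (node 623 (merge (leaf 5 495 591) (leaf 5 527 655)))))))))) (merge (node 464 (merge (node 593 (merge (leaf 4 464 561) (node 592 (merge (leaf 4 496 625) (node 463 (merge (leaf 7 431 431) (leaf 7 463 495))))))) (merge (node 433 (merge (leaf 6 432 465) (node 432 (merge (leaf 6 400 401) (node 431 (merge (leaf 7 399 399) (leaf 7 431 463))))))) (node 593 (merge (leaf 4 464 561) (node 465 (merge (leaf 6 432 433) (node 592 (merge (leaf 6 464 497) (leaf 4 496 625)))))))))) (merge (node 495 (merge (node 592 (merge (leaf 7 463 463) (node 625 (merge (leaf 4 496 593) (node 624 (merge (leaf 7 495 527) (leaf 4 528 657))))))) (merge (node 592 (merge (leaf 7 463 463) (node 625 (merge (leaf 4 496 593) (node 497 (merge (leaf 6 464 465) (node 624 (merge (leaf 6 496 529) (leaf 4 528 657))))))))) (merge (node 494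 (merge (node 529 (merge (leaf 0 493 493) (node 530 (merge (leaf 3 494 527) (leaf 3 495 531))))) (merge (node 493 (merge (leaf 0 493 529) (node 492 (merge (leaf 0 492 527) (node 524 (merge (leaf 1 491 523) (leaf 1 492 525))))))) (merge (node 497 (merge (node 466 (merge (leaf 2 462 465) (node 498 (merge (leaf 2 463 467) (node 462 (merge (leaf 3 461 461) (leaf 3 462 463))))))) (merge (node 461 (merge (leaf 3 461 462) (node 493 (merge (leaf 3 460 460) (node 492 (merge (leaf 0 492 527) (node 524 (merge (leaf 1 491 523) (leaf 1 492 525))))))))) (node 466 (merge (leaf 2 462 465) (node 498 (merge (leaf 2 463 467) (node 531 (merge (leaf 0 495 530) (node 499 (merge (leaf 1 495 527) (leaf 0 496 532)))))))))))) (node 497 (merge (node 465 (merge (leaf 2 462 466) (node 433 (merge (leaf 5 400 401) (leaf 5 432 529))))) (merge (node 530 (merge (leaf 0 494 529) (node 498 (merge (leaf 0 495 531) (node 462 (merge (leaf 3 461 461) (leaf 3 462 463))))))) (node 466 (merge (leaf 2 462 465) (node 498 (merge (leaf 2 463 467) (node 462 (merge (leaf 3 461 461) (leaf 3 462 463)))))))))))))) (node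 497 (merge (node 465 (merge (leaf 6 464 592) (node 433 (merge (leaf 5 400 401) (leaf 5 432 529))))) (merge (node 592 (merge (leaf 6 464 465) (node 623 (merge (leaf 5 495 591) (node 624 (merge (leaf 7 495 527) (leaf 5 527 655))))))) (node 530 (merge (node 531 (merge (leaf 0 495 498) (leaf 3 495 529))) (merge (node 498 (merge (leaf 0 495 531) (node 467 (merge (leaf 2 463 466) (node 499 (merge (leaf 2 464 468) (leaf 1 495 527))))))) (node 494 (merge (leaf 0 494 529) (node 461 (merge (leaf 3 461 462) (node 493 (merge (leaf 3 460 460) (node 492 (merge (leaf 0 492 527) (node 524 (merge (leaf 1 491 523) (leaf 1 492 525))))))))))))))))))))) (node 527 (merge (node 561 (merge (node 526 (merge (leaf 0 525 525) (node 562 (merge (leaf 3 526 559) (leaf 3 527 563))))) (node 593 (merge (leaf 4 464 464) (node 625 (merge (leaf 7 496 529) (leaf 7 528 657))))))) (merge (node 464 (merge (node 561 (merge (leaf 4 464 593) (node 526 (merge (leaf 0 525 525) (node 562 (merge (leaf 0 526 529) (leaf 3 527 563))))))) (node 433 (merge (leaf 6 432 465) (node 432 (merge (leaf 6 400 401) (node 431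 (merge (leaf 7 399 399) (leaf 7 431 463))))))))) (merge (node 464 (merge (node 433 (merge (leaf 6 432 465) (node 432 (merge (leaf 6 400 401) (node 431 (merge (leaf 7 399 399) (leaf 7 431 463))))))) (node 561 (merge (leaf 4 464 593) (node 562 (merge (leaf 3 527 563) (node 559 (merge (leaf 3 526 526) (leaf 5 463 591))))))))) (merge (node 526 (merge (node 497 (merge (leaf 2 493 525) (node 498 (merge (leaf 1 494 495) (leaf 1 495 499))))) (merge (node 525 (merge (leaf 2 493 497) (node 524 (merge (leaf 0 524 559) (node 556 (merge (leaf 1 523 555) (leaf 1 524 557))))))) (merge (node 464 (merge (node 559 (merge (leaf 5 431 432) (leaf 5 463 591))) (merge (node 433 (merge (leaf 6 432 465) (node 432 (merge (leaf 6 400 401) (node 431 (merge (leaf 7 399 399) (leaf 7 431 463))))))) (node 559 (merge (leaf 5 463 591) (node 525 (merge (leaf 0 524 524) (node 493 (merge (leaf 3 492 492) (node 465 (merge (leaf 6 432 433) (node 494 (merge (leaf 2 461 495) (node 463 (merge (leaf 7 431 431) (leaf 1 461 462)))))))))))))))) (node 497 (merge (node 498 (merge (leaf 1 495 499) (leaf 2 494 529)))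 (merge (node 498 (merge (leaf 1 494 495) (leaf 1 495 499))) (node 464 (merge (node 559 (merge (leaf 5 431 432) (leaf 5 463 591))) (merge (node 432 (merge (leaf 5 431 559) (node 400 (merge (leaf 5 399 495) (leaf 4 400 529))))) (merge (node 433 (merge (leaf 6 432 465) (node 432 (merge (leaf 6 400 401) (node 431 (merge (leaf 7 399 399) (leaf 7 431 463))))))) (node 559 (merge (leaf 5 463 591) (node 465 (merge (leaf 6 432 433) (node 463 (merge (leaf 7 431 431) (node 462 (merge (leaf 0 461 461) (node 430 (merge (leaf 3 429 429) (leaf 4 430 494)))))))))))))))))))))) (merge (node 526 (merge (node 525 (merge (leaf 2 493 497) (leaf 0 525 561))) (merge (node 525 (merge (leaf 2 493 497) (node 524 (merge (leaf 2 492 495) (leaf 0 524 559))))) (merge (node 525 (merge (leaf 0 525 561) (node 524 (merge (leaf 2 492 495) (leaf 0 524 559))))) (node 529 (merge (node 562 (merge (leaf 0 526 561) (node 530 (merge (leaf 0 527 563) (node 498 (merge (leaf 2 494 497) (leaf 2 495 499))))))) (merge (node 498 (merge (leaf 2 494 497) (node 530 (merge (leaf 2 495 499) (node 563 (merge (leaf 0 527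 562) (node 531 (merge (leaf 1 527 559) (leaf 0 528 564))))))))) (merge (node 494 (merge (leaf 3 493 493) (node 530 (merge (leaf 3 494 495) (node 531 (merge (leaf 1 527 559) (node 564 (merge (leaf 0 528 563) (node 532 (merge (leaf 1 528 561) (leaf 0 529 565))))))))))) (node 497 (merge (leaf 2 494 498) (node 494 (merge (leaf 3 493 493) (node 465 (merge (leaf 5 432 433) (node 495 (merge (leaf 2 462 466) (node 462 (merge (leaf 3 461 461) (node 430 (merge (leaf 4 398 398) (leaf 4 430 559))))))))))))))))))))) (node 495 (merge (node 464 (merge (node 559 (merge (leaf 5 431 432) (leaf 5 463 591))) (node 465 (merge (leaf 6 432 433) (node 494 (merge (leaf 2 461 493) (node 466 (merge (leaf 1 463 467) (leaf 2 462 497))))))))) (merge (node 464 (merge (node 465 (merge (leaf 6 432 433) (node 494 (merge (leaf 2 461 493) (node 463 (merge (leaf 7 431 431) (leaf 1 462 466))))))) (merge (node 561 (merge (leaf 4 464 593) (node 432 (merge (leaf 4 432 529) (node 433 (merge (leaf 6 400 401) (leaf 6 432 465))))))) (node 561 (merge (leaf 4 464 593) (node 432 (merge (leaf 4 432 529) (node 431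 (merge (leaf 7 399 399) (leaf 7 431 463)))))))))) (merge (node 464 (merge (node 561 (merge (leaf 4 464 593) (node 432 (merge (leaf 4 432 529) (node 433 (merge (leaf 6 400 401) (leaf 6 432 465))))))) (merge (node 561 (merge (leaf 4 464 593) (node 432 (merge (leaf 4 432 529) (node 431 (merge (leaf 7 399 399) (leaf 7 431 463))))))) (merge (node 433 (merge (leaf 6 432 465) (node 432 (merge (leaf 6 400 401) (node 431 (merge (leaf 7 399 399) (leaf 7 431 463))))))) (node 561 (merge (leaf 4 464 593) (node 465 (merge (leaf 6 432 433) (node 466 (merge (leaf 1 463 467) (node 463 (merge (leaf 7 431 431) (node 498 (merge (leaf 0 463 499) (node 497 (merge (leaf 0 462 462) (node 434 (merge (leaf 2 431 435) (leaf 6 433 529))))))))))))))))))) (merge (node 464 (merge (node 559 (merge (leaf 5 431 432) (leaf 5 463 591))) (merge (node 432 (merge (leaf 5 399 400) (node 529 (merge (leaf 4 432 561) (node 530 (merge (leaf 3 494 494) (leaf 3 495 531))))))) (node 463 (merge (leaf 4 431 431) (node 559 (merge (leaf 5 463 591) (node 462 (merge (leaf 7 430 430) (node 461 (merge (leaf 0 460 460)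 (leaf 0 461 497)))))))))))) (node 494 (merge (node 529 (merge (leaf 0 493 493) (node 530 (merge (leaf 3 494 527) (leaf 3 495 531))))) (merge (node 493 (merge (leaf 0 493 529) (node 492 (merge (leaf 0 492 527) (node 524 (merge (leaf 1 491 523) (leaf 1 492 525))))))) (merge (node 497 (merge (node 466 (merge (leaf 2 462 465) (node 498 (merge (leaf 2 463 467) (node 462 (merge (leaf 3 461 461) (leaf 3 462 463))))))) (merge (node 461 (merge (leaf 3 461 462) (node 493 (merge (leaf 3 460 460) (node 492 (merge (leaf 0 492 527) (node 524 (merge (leaf 1 491 523) (leaf 1 492 525))))))))) (node 466 (merge (leaf 2 462 465) (node 498 (merge (leaf 2 463 467) (node 531 (merge (leaf 0 495 530) (node 499 (merge (leaf 1 495 527) (leaf 0 496 532)))))))))))) (node 497 (merge (node 465 (merge (leaf 2 462 466) (node 433 (merge (leaf 5 400 401) (leaf 5 432 529))))) (merge (node 530 (merge (leaf 0 494 529) (node 498 (merge (leaf 0 495 531) (node 462 (merge (leaf 3 461 461) (leaf 3 462 463))))))) (node 466 (merge (leaf 2 462 465) (node 498 (merge (leaf 2 463 467) (node 462 (merge (leaf 3 461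 461) (leaf 3 462 463))))))))))))))))))))))))))))))) nB_0 cB_0 12 (by decide +kernel)
def nB_1 : ℕ := 0x100000001000000010000000000000000000000000000000000000000000000000000000000000000000000000000000000000000000000000000000000000000000000000000
def cB_1 : ℕ := 0x2600000066000003ef800001ef800003ff800000fa00000038000000100000000000000000000000000000000000000000000000000000000000000000000000000000000000000000000
theorem lB_1 : S nB_1 cB_1 11 := S_of_chk [] trivial (node 463 (merge (node 431 (merge (leaf 7 431 464) (node 495 (merge (leaf 4 399 399) (leaf 4 431 527))))) (merge (node 464 (merge (leaf 7 431 431) (node 561 (merge (leaf 4 464 593) (node 432 (merge (leaf 4 432 529) (node 433 (merge (leaf 6 400 401) (leaf 6 432 465))))))))) (merge (node 495 (merge (node 431 (merge (leaf 4 399 399) (leaf 4 431 527))) (merge (node 497 (merge (node 498 (merge (leaf 3 462 462) (node 526 (merge (leaf 1 494 527) (node 494 (merge (leaf 1 493 525) (node 466 (merge (leaf 2 462 465) (leaf 2 463 467))))))))) (merge (node 498 (merge (leaf 3 462 462) (node 531 (merge (leaf 0 495 530) (node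 499 (merge (leaf 0 496 532) (node 500 (merge (leaf 1 496 529) (node 468 (merge (leaf 2 464 467) (leaf 2 465 469))))))))))) (merge (node 526 (merge (node 527 (merge (leaf 1 494 498) (leaf 2 493 525))) (merge (node 494 (merge (leaf 1 493 525) (node 465 (merge (leaf 2 462 466) (node 433 (merge (leaf 5 400 401) (leaf 5 432 529))))))) (node 498 (merge (leaf 1 494 527) (node 466 (merge (leaf 2 463 467) (node 494 (merge (leaf 2 462 465) (node 529 (merge (leaf 0 493 493) (leaf 0 494 530)))))))))))) (node 465 (merge (node 433 (merge (leaf 5 400 401) (leaf 5 432 529))) (merge (node 494 (merge (leaf 2 462 466) (node 529 (merge (leaf 0 493 493) (leaf 0 494 530))))) (node 494 (merge (leaf 2 462 466) (node 525 (merge (leaf 1 493 526) (node 493 (merge (leaf 1 492 524) (node 492 (merge (leaf 0 492 527) (node 462 (merge (leaf 3 461 461) (leaf 2 459 491)))))))))))))))))) (node 497 (merge (node 498 (merge (leaf 3 462 462) (node 466 (merge (leaf 2 463 467) (node 494 (merge (leaf 2 462 465) (node 493 (merge (leaf 0 493 529) (node 525 (merge (leaf 1 492 524) (leaf 1 493 526))))))))))) (merge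 (node 498 (merge (leaf 3 462 462) (node 531 (merge (leaf 0 495 530) (node 499 (merge (leaf 0 496 532) (node 500 (merge (leaf 1 496 529) (node 468 (merge (leaf 2 464 467) (leaf 2 465 469))))))))))) (merge (node 498 (merge (leaf 3 462 462) (node 530 (merge (leaf 0 495 531) (node 466 (merge (leaf 2 463 467) (node 465 (merge (leaf 2 462 494) (node 433 (merge (leaf 4 401 401) (leaf 7 433 562))))))))))) (merge (node 465 (merge (node 433 (merge (leaf 5 400 401) (leaf 5 432 529))) (merge (node 494 (merge (leaf 2 462 466) (node 529 (merge (leaf 0 493 493) (leaf 0 494 530))))) (node 466 (merge (leaf 2 462 494) (node 467 (merge (leaf 1 464 468) (leaf 2 463 498)))))))) (node 465 (merge (node 433 (merge (leaf 5 400 401) (leaf 5 432 529))) (merge (node 494 (merge (leaf 2 462 466) (node 529 (merge (leaf 0 493 493) (leaf 0 494 530))))) (node 494 (merge (leaf 2 462 466) (node 526 (merge (leaf 1 493 525) (node 462 (merge (leaf 3 461 461) (node 558 (merge (leaf 6 430 431) (leaf 6 462 590)))))))))))))))))))) (node 495 (merge (node 464 (merge (node 465 (merge (leaf 6 432 433) (node 466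 (merge (leaf 1 463 467) (leaf 1 462 494))))) (node 561 (merge (leaf 4 464 593) (node 432 (merge (leaf 4 432 529) (node 400 (merge (leaf 5 367 368) (leaf 5 399 527))))))))) (merge (node 494 (merge (node 529 (merge (leaf 0 493 493) (node 530 (merge (leaf 0 494 497) (leaf 3 495 531))))) (merge (node 493 (merge (leaf 0 493 529) (node 464 (merge (leaf 2 461 465) (node 492 (merge (leaf 2 460 463) (node 524 (merge (leaf 1 491 523) (leaf 1 492 525))))))))) (merge (node 497 (merge (node 465 (merge (leaf 2 462 466) (node 433 (merge (leaf 5 400 401) (leaf 5 432 529))))) (merge (node 530 (merge (leaf 0 494 529) (node 498 (merge (leaf 0 495 531) (node 462 (merge (leaf 3 461 461) (leaf 3 462 463))))))) (node 466 (merge (leaf 2 462 465) (node 498 (merge (leaf 2 463 467) (node 462 (merge (leaf 3 461 461) (leaf 3 462 463)))))))))) (node 497 (merge (node 525 (merge (leaf 1 493 526) (node 493 (merge (leaf 1 492 524) (node 461 (merge (leaf 3 460 460) (leaf 3 461 462))))))) (merge (node 466 (merge (leaf 2 462 465) (node 498 (merge (leaf 2 463 467) (node 462 (merge (leaf 3 461 461) (leaf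 3 462 463))))))) (node 525 (merge (leaf 1 493 526) (node 493 (merge (leaf 1 492 524) (node 465 (merge (leaf 2 461 464) (leaf 2 462 466)))))))))))))) (merge (node 464 (merge (node 433 (merge (leaf 6 432 465) (node 432 (merge (leaf 6 400 401) (node 400 (merge (leaf 5 367 368) (leaf 5 399 527))))))) (merge (node 561 (merge (leaf 4 464 593) (node 529 (merge (leaf 4 432 432) (node 494 (merge (leaf 0 493 493) (node 530 (merge (leaf 0 494 497) (leaf 3 495 531))))))))) (node 465 (merge (leaf 6 432 433) (node 494 (merge (leaf 2 461 493) (node 497 (merge (leaf 2 462 466) (node 530 (merge (leaf 0 494 529) (node 498 (merge (leaf 0 495 531) (node 526 (merge (leaf 1 493 525) (leaf 1 494 527)))))))))))))))) (merge (node 494 (merge (node 529 (merge (leaf 0 493 493) (node 530 (merge (leaf 3 494 527) (leaf 3 495 531))))) (merge (node 493 (merge (leaf 0 493 529) (node 492 (merge (leaf 0 492 527) (node 524 (merge (leaf 1 491 523) (leaf 1 492 525))))))) (merge (node 497 (merge (node 466 (merge (leaf 2 462 465) (node 498 (merge (leaf 2 463 467) (node 462 (merge (leaf 3 461 461) (leaf 3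 462 463))))))) (merge (node 461 (merge (leaf 3 461 462) (node 493 (merge (leaf 3 460 460) (node 492 (merge (leaf 0 492 527) (node 524 (merge (leaf 1 491 523) (leaf 1 492 525))))))))) (node 466 (merge (leaf 2 462 465) (node 498 (merge (leaf 2 463 467) (node 531 (merge (leaf 0 495 530) (node 499 (merge (leaf 1 495 527) (leaf 0 496 532)))))))))))) (node 497 (merge (node 465 (merge (leaf 2 462 466) (node 433 (merge (leaf 5 400 401) (leaf 5 432 529))))) (merge (node 530 (merge (leaf 0 494 529) (node 498 (merge (leaf 0 495 531) (node 462 (merge (leaf 3 461 461) (leaf 3 462 463))))))) (node 466 (merge (leaf 2 462 465) (node 498 (merge (leaf 2 463 467) (node 462 (merge (leaf 3 461 461) (leaf 3 462 463)))))))))))))) (merge (node 497 (merge (node 498 (merge (leaf 3 462 462) (node 499 (merge (leaf 3 463 464) (leaf 1 495 527))))) (merge (node 494 (merge (node 529 (merge (leaf 0 493 493) (leaf 0 494 530))) (merge (node 529 (merge (leaf 0 493 493) (leaf 0 494 530))) (merge (node 525 (merge (leaf 1 493 526) (node 493 (merge (leaf 1 492 524) (node 461 (merge (leaf 3 460 460) (leaf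 3 461 462))))))) (node 529 (merge (leaf 0 494 530) (node 526 (merge (leaf 1 493 525) (node 462 (merge (leaf 3 461 461) (node 558 (merge (leaf 6 462 590) (node 557 (merge (leaf 1 525 527) (leaf 5 461 589))))))))))))))) (merge (node 526 (merge (node 525 (merge (leaf 1 493 494) (leaf 2 493 527))) (merge (node 494 (merge (leaf 1 493 525) (node 529 (merge (leaf 0 493 493) (leaf 0 494 530))))) (node 498 (merge (leaf 1 494 527) (node 499 (merge (leaf 3 463 464) (node 532 (merge (leaf 0 496 531) (node 500 (merge (leaf 1 496 529) (leaf 0 497 533)))))))))))) (node 498 (merge (leaf 3 462 462) (node 531 (merge (leaf 0 495 530) (node 499 (merge (leaf 0 496 532) (node 500 (merge (leaf 1 496 529) (node 468 (merge (leaf 2 464 467) (leaf 2 465 469))))))))))))))) (merge (node 494 (merge (node 465 (merge (node 464 (merge (leaf 6 432 433) (leaf 1 462 466))) (merge (node 466 (merge (leaf 2 462 497) (node 464 (merge (leaf 1 462 463) (leaf 1 463 467))))) (merge (node 497 (merge (leaf 2 462 466) (node 498 (merge (leaf 3 462 462) (node 531 (merge (leaf 0 495 530) (node 499 (merge (leaf 1 495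 527) (leaf 0 496 532))))))))) (node 433 (merge (leaf 6 432 464) (node 497 (merge (leaf 5 400 401) (node 498 (merge (leaf 3 462 462) (node 531 (merge (leaf 0 495 530) (node 499 (merge (leaf 1 495 527) (leaf 0 496 532))))))))))))))) (merge (node 461 (merge (node 460 (merge (leaf 3 460 493) (node 462 (merge (leaf 0 459 459) (leaf 0 460 463))))) (merge (node 462 (merge (leaf 3 461 497) (node 460 (merge (leaf 0 459 459) (leaf 0 460 463))))) (merge (node 497 (merge (leaf 3 461 462) (node 525 (merge (leaf 1 493 526) (node 493 (merge (leaf 1 492 524) (node 465 (merge (leaf 2 461 464) (leaf 2 462 466))))))))) (node 493 (merge (leaf 3 460 460) (node 525 (merge (leaf 1 492 524) (node 526 (merge (leaf 1 493 497) (node 558 (merge (leaf 4 429 429) (leaf 7 461 590))))))))))))) (merge (node 461 (merge (node 460 (merge (leaf 3 460 493) (node 462 (merge (leaf 0 459 459) (leaf 0 460 463))))) (merge (node 493 (merge (leaf 3 460 460) (node 525 (merge (leaf 1 492 524) (node 526 (merge (leaf 1 493 497) (node 558 (merge (leaf 4 429 429) (leaf 7 461 590))))))))) (node 497 (merge (leaf 3 461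 462) (node 526 (merge (leaf 1 493 525) (node 498 (merge (leaf 1 494 527) (node 531 (merge (leaf 0 495 530) (node 499 (merge (leaf 3 463 464) (leaf 0 496 532)))))))))))))) (merge (node 464 (merge (node 465 (merge (leaf 6 432 433) (leaf 1 462 466))) (node 493 (merge (leaf 2 460 492) (node 525 (merge (leaf 1 492 524) (node 461 (merge (leaf 3 460 460) (node 561 (merge (leaf 4 464 593) (node 526 (merge (leaf 0 525 527) (node 558 (merge (leaf 4 429 429) (leaf 6 462 590))))))))))))))) (node 497 (merge (node 466 (merge (leaf 2 462 465) (node 498 (merge (leaf 2 463 467) (node 462 (merge (leaf 3 461 461) (leaf 3 462 463))))))) (merge (node 461 (merge (leaf 3 461 462) (node 493 (merge (leaf 3 460 460) (node 492 (merge (leaf 0 492 527) (node 524 (merge (leaf 1 491 523) (leaf 1 492 525))))))))) (node 466 (merge (leaf 2 462 465) (node 498 (merge (leaf 2 463 467) (node 531 (merge (leaf 0 495 530) (node 499 (merge (leaf 1 495 527) (leaf 0 496 532))))))))))))))))) (node 464 (merge (node 433 (merge (leaf 6 432 465) (node 432 (merge (leaf 6 400 401) (node 400 (merge (leaf 5 367 368)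 (leaf 5 399 527))))))) (merge (node 561 (merge (leaf 4 464 593) (node 432 (merge (leaf 4 432 529) (node 400 (merge (leaf 5 367 368) (leaf 5 399 527))))))) (node 561 (merge (leaf 4 464 593) (node 465 (merge (leaf 6 432 433) (node 466 (merge (leaf 1 463 467) (node 498 (merge (leaf 0 463 499) (node 497 (merge (leaf 0 462 462) (node 434 (merge (leaf 2 431 435) (leaf 6 433 529))))))))))))))))))))))))))) nB_1 cB_1 11 (by decide +kernel)
def nB_2 : ℕ := 0x10000000100000001000000000000000000000000000000000000000000000000000000000000000000000000000000000000000000000000000000000000000000000000000000000000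
def cB_2 : ℕ := 0x800000008000000080000000e000003ef000001ef000003ff000000fe0000007800000048000000000000000000000000000000000000000000000000000000000000000000000000000000000000000000000000000
theorem lB_2 : S nB_2 cB_2 11 := S_of_chk [] trivial (node 529 (merge (node 496 (merge (node 497 (merge (leaf 6 464 465) (node 495 (merge (leaf 7 463 463) (node 530 (merge (leaf 0 494 494) (leaf 3 495 531))))))) (merge (node 591 (merge (leaf 5 495 623) (node 464 (merge (leaf 5 463 559) (node 463 (merge (leaf 7 431 431) (leaf 7 463 495))))))) (node 465 (merge (leaf 6 464 497) (node 464 (merge (leaf 6 432 433) (node 591 (merge (leaf 5 463 559) (leaf 5 495 623)))))))))) (merge (node 496 (merge (node 495 (merge (leaf 7 463 463) (node 494 (merge (leaf 0 493 493) (node 530 (merge (leaf 3 494 527) (leaf 3 495 531))))))) (merge (node 591 (merge (leaf 5 495 623) (node 464 (merge (leaf 5 463 559) (node 463 (merge (leaf 7 431 431) (leaf 7 463 495))))))) (node 591 (merge (leaf 5 495 623) (node 559 (merge (leaf 5 463 464) (node 530 (merge (leaf 1 527 531) (node 558 (merge (leaf 1 526 527) (leaf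 2 525 557)))))))))))) (merge (node 530 (merge (node 531 (merge (leaf 1 527 559) (node 564 (merge (leaf 0 528 563) (node 532 (merge (leaf 1 528 561) (leaf 0 529 565))))))) (merge (node 531 (merge (node 500 (merge (leaf 2 496 499) (node 532 (merge (leaf 2 497 501) (leaf 1 528 561))))) (merge (node 564 (merge (leaf 0 528 563) (node 532 (merge (leaf 1 528 561) (leaf 0 529 565))))) (node 563 (merge (leaf 0 528 564) (node 527 (merge (leaf 0 527 562) (node 499 (merge (leaf 2 495 498) (leaf 2 496 500)))))))))) (node 527 (merge (node 559 (merge (leaf 1 526 558) (node 495 (merge (leaf 4 463 463) (leaf 3 494 494))))) (merge (node 498 (merge (leaf 2 495 499) (node 526 (merge (leaf 2 494 497) (node 494 (merge (leaf 3 493 493) (leaf 3 494 495))))))) (node 498 (merge (leaf 2 495 499) (node 526 (merge (leaf 2 494 497) (node 558 (merge (leaf 1 525 557) (leaf 1 526 559))))))))))))) (merge (node 496 (merge (node 591 (merge (leaf 5 495 623) (node 464 (merge (leaf 5 463 559) (node 463 (merge (leaf 7 431 431) (leaf 7 463 495))))))) (merge (node 465 (merge (leaf 6 464 497) (node 464 (merge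 (leaf 6 432 433) (node 463 (merge (leaf 7 431 431) (leaf 7 463 495))))))) (merge (node 465 (merge (leaf 6 464 497) (node 464 (merge (leaf 6 432 433) (node 591 (merge (leaf 5 463 559) (leaf 5 495 623))))))) (node 591 (merge (leaf 5 495 623) (node 497 (merge (leaf 6 464 465) (node 495 (merge (leaf 7 463 463) (node 494 (merge (leaf 0 493 493) (node 526 (merge (leaf 1 493 525) (node 527 (merge (leaf 1 494 498) (node 462 (merge (leaf 3 461 461) (leaf 7 462 559))))))))))))))))))) (merge (node 591 (merge (node 623 (merge (leaf 5 495 496) (node 655 (merge (leaf 6 527 559) (leaf 6 559 687))))) (merge (node 496 (merge (leaf 5 495 623) (node 465 (merge (leaf 6 464 497) (node 464 (merge (leaf 6 432 433) (node 432 (merge (leaf 4 432 561) (node 431 (merge (leaf 7 399 399) (leaf 7 431 463))))))))))) (merge (node 530 (merge (node 531 (merge (leaf 1 527 559) (node 564 (merge (leaf 0 528 563) (node 532 (merge (leaf 1 528 561) (leaf 0 529 565))))))) (merge (node 531 (merge (leaf 1 527 559) (node 561 (merge (leaf 1 528 532) (node 499 (merge (leaf 2 496 500) (node 527 (merge (leaf 2 495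 498) (node 526 (merge (leaf 0 525 525) (leaf 0 526 562))))))))))) (merge (node 531 (merge (leaf 1 527 559) (node 564 (merge (leaf 0 528 563) (node 532 (merge (leaf 0 529 565) (node 500 (merge (leaf 2 496 499) (leaf 2 497 501))))))))) (merge (node 531 (merge (node 500 (merge (leaf 2 496 499) (node 532 (merge (leaf 2 497 501) (leaf 1 528 561))))) (merge (node 564 (merge (leaf 0 528 563) (node 532 (merge (leaf 1 528 561) (leaf 0 529 565))))) (node 563 (merge (leaf 0 528 564) (node 527 (merge (leaf 0 527 562) (node 499 (merge (leaf 2 495 498) (leaf 2 496 500)))))))))) (node 527 (merge (node 498 (merge (leaf 2 495 499) (node 526 (merge (leaf 2 494 497) (node 561 (merge (leaf 0 525 525) (leaf 0 526 562))))))) (merge (node 498 (merge (leaf 2 495 499) (node 526 (merge (leaf 2 494 497) (node 558 (merge (leaf 1 525 557) (leaf 1 526 559))))))) (merge (node 562 (merge (leaf 0 527 563) (node 561 (merge (leaf 0 526 526) (node 559 (merge (leaf 1 526 558) (leaf 1 558 590))))))) (node 562 (merge (leaf 0 527 563) (node 559 (merge (leaf 1 526 558) (node 561 (merge (leaf 1 558 590) (node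 498 (merge (leaf 2 495 499) (node 466 (merge (leaf 5 433 434) (node 465 (merge (leaf 7 433 433) (leaf 5 464 497)))))))))))))))))))))) (node 530 (merge (node 559 (merge (leaf 1 527 531) (node 558 (merge (leaf 2 525 557) (leaf 2 526 561))))) (merge (node 531 (merge (leaf 1 527 559) (node 564 (merge (leaf 0 528 563) (node 532 (merge (leaf 0 529 565) (node 500 (merge (leaf 2 496 499) (leaf 2 497 501))))))))) (merge (node 531 (merge (node 500 (merge (leaf 2 496 499) (node 532 (merge (leaf 2 497 501) (leaf 1 528 561))))) (merge (node 564 (merge (leaf 0 528 563) (node 532 (merge (leaf 1 528 561) (leaf 0 529 565))))) (node 563 (merge (leaf 0 528 564) (node 527 (merge (leaf 0 527 562) (node 499 (merge (leaf 2 495 498) (leaf 2 496 500)))))))))) (node 527 (merge (node 498 (merge (leaf 2 495 499) (node 526 (merge (leaf 2 494 497) (node 561 (merge (leaf 0 525 525) (leaf 0 526 562))))))) (merge (node 498 (merge (leaf 2 495 499) (node 526 (merge (leaf 2 494 497) (node 558 (merge (leaf 1 525 557) (leaf 1 526 559))))))) (merge (node 562 (merge (leaf 0 527 563) (node 561 (merge (leaf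 0 526 526) (node 559 (merge (leaf 1 526 558) (leaf 1 558 590))))))) (node 562 (merge (leaf 0 527 563) (node 559 (merge (leaf 1 526 558) (node 561 (merge (leaf 1 558 590) (node 498 (merge (leaf 2 495 499) (node 466 (merge (leaf 5 433 434) (node 465 (merge (leaf 7 433 433) (leaf 5 464 497))))))))))))))))))))))))) (merge (node 530 (merge (node 559 (merge (leaf 1 527 531) (node 558 (merge (leaf 1 526 527) (leaf 2 525 557))))) (merge (node 531 (merge (leaf 1 527 559) (node 564 (merge (leaf 0 528 563) (node 532 (merge (leaf 1 528 561) (leaf 0 529 565))))))) (merge (node 531 (merge (node 500 (merge (leaf 2 496 499) (node 532 (merge (leaf 2 497 501) (leaf 1 528 561))))) (merge (node 564 (merge (leaf 0 528 563) (node 532 (merge (leaf 1 528 561) (leaf 0 529 565))))) (node 563 (merge (leaf 0 528 564) (node 527 (merge (leaf 0 527 562) (node 499 (merge (leaf 2 495 498) (leaf 2 496 500)))))))))) (node 562 (merge (node 563 (merge (leaf 0 527 527) (node 564 (merge (leaf 3 528 561) (leaf 3 529 565))))) (merge (node 527 (merge (leaf 0 527 563) (node 558 (merge (leaf 1 526 559) (node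 526 (merge (leaf 1 525 557) (node 498 (merge (leaf 2 494 497) (leaf 2 495 499))))))))) (merge (node 591 (merge (node 561 (merge (leaf 1 559 563) (node 590 (merge (leaf 1 558 559) (leaf 2 557 589))))) (merge (node 623 (merge (leaf 5 495 496) (node 655 (merge (leaf 6 527 559) (leaf 6 559 687))))) (node 561 (merge (leaf 1 559 563) (node 465 (merge (leaf 5 464 497) (node 496 (merge (leaf 5 495 623) (node 464 (merge (leaf 4 432 432) (leaf 6 432 433)))))))))))) (node 561 (merge (node 559 (merge (leaf 2 526 558) (node 591 (merge (leaf 1 558 590) (node 623 (merge (leaf 5 495 496) (leaf 6 527 655))))))) (merge (node 527 (merge (leaf 0 526 526) (node 498 (merge (leaf 2 495 499) (node 466 (merge (leaf 5 433 434) (node 465 (merge (leaf 7 433 433) (leaf 5 464 497))))))))) (node 559 (merge (leaf 2 526 558) (node 591 (merge (leaf 1 558 590) (node 623 (merge (leaf 5 495 496) (leaf 6 527 655)))))))))))))))))) (node 527 (merge (node 496 (merge (node 497 (merge (leaf 6 464 465) (node 526 (merge (leaf 2 494 498) (leaf 2 493 525))))) (node 495 (merge (leaf 7 463 463) (node 494 (merge (leaf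 0 493 493) (node 530 (merge (leaf 3 494 527) (leaf 3 495 531))))))))) (merge (node 562 (merge (node 563 (merge (leaf 0 527 530) (leaf 3 527 561))) (merge (node 526 (merge (leaf 0 526 561) (node 497 (merge (leaf 2 494 498) (node 496 (merge (leaf 6 464 465) (leaf 2 493 525))))))) (node 530 (merge (leaf 0 527 563) (node 498 (merge (leaf 2 495 499) (node 497 (merge (leaf 2 494 526) (node 496 (merge (leaf 6 464 465) (node 495 (merge (leaf 7 463 463) (leaf 0 495 531)))))))))))))) (merge (node 526 (merge (node 497 (merge (leaf 2 494 498) (node 465 (merge (leaf 5 432 433) (leaf 5 464 561))))) (node 557 (merge (leaf 1 525 558) (node 525 (merge (leaf 1 524 556) (node 493 (merge (leaf 3 492 492) (leaf 3 493 494))))))))) (merge (node 562 (merge (node 561 (merge (leaf 0 526 526) (leaf 3 527 563))) (merge (node 530 (merge (leaf 0 527 563) (node 495 (merge (leaf 3 494 494) (node 496 (merge (leaf 7 463 463) (leaf 3 495 531))))))) (node 526 (merge (leaf 0 526 561) (node 557 (merge (leaf 1 525 558) (node 525 (merge (leaf 1 524 556) (node 494 (merge (leaf 3 493 493) (node 495 (merge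 (leaf 3 494 530) (node 496 (merge (leaf 7 463 463) (leaf 2 492 524)))))))))))))))) (node 530 (merge (node 495 (merge (leaf 3 494 494) (node 496 (merge (leaf 7 463 463) (leaf 3 495 531))))) (merge (node 563 (merge (leaf 0 527 562) (node 531 (merge (leaf 0 528 564) (node 499 (merge (leaf 2 495 498) (leaf 2 496 500))))))) (node 498 (merge (leaf 2 495 499) (node 495 (merge (leaf 3 494 494) (node 496 (merge (leaf 7 463 463) (node 497 (merge (leaf 6 464 465) (node 466 (merge (leaf 2 463 467) (node 434 (merge (leaf 5 401 402) (leaf 5 433 561)))))))))))))))))))))))))))) nB_2 cB_2 11 (by decide +kernel)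
def nB_3 : ℕ := 0x100000001000000000000000000000000000000000000000000000000000000000000000000000000000000000000000000000000000000000000000000000000000000000000
def cB_3 : ℕ := 0x60000002e0000003e000000ff8000003f000001ef800000ef000000ff800000360000003000000000000000000000000000000000000000000000000000000000000000000000000000000000000000000000000000000000000
theorem lB_3 : S nB_3 cB_3 13 := S_of_chk [] trivial (node 592 (merge (node 624 (merge (node 529 (merge (leaf 6 496 497) (node 656 (merge (leaf 6 528 561) (node 527 (merge (leaf 7 495 495) (leaf 7 527 559))))))) (merge (node 657 (merge (leaf 4 528 625) (node 529 (merge (leaf 6 496 497) (node 656 (merge (leaf 6 528 561) (leaf 4 560 689))))))) (merge (node 657 (merge (leaf 4 528 625) (node 656 (merge (leaf 4 560 689) (node 527 (merge (leaf 7 495 495) (leaf 7 527 559))))))) (node 625 (merge (leaf 4 528 657) (node 496 (merge (leaf 4 496 593) (node 497 (merge (leaf 6 464 465) (leaf 6 496 529))))))))))) (merge (node 624 (merge (node 657 (merge (leaf 4 528 625) (node 656 (merge (leaf 4 560 689) (node 655 (merge (leaf 5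 527 623) (leaf 5 559 687))))))) (merge (node 657 (merge (leaf 4 528 625) (node 656 (merge (leaf 4 560 689) (node 527 (merge (leaf 7 495 495) (leaf 7 527 559))))))) (merge (node 655 (merge (leaf 5 527 623) (node 656 (merge (leaf 5 559 687) (node 527 (merge (leaf 7 495 495) (leaf 7 527 559))))))) (node 625 (merge (leaf 4 528 657) (node 623 (merge (leaf 5 527 655) (node 591 (merge (leaf 5 495 496) (node 626 (merge (leaf 3 590 590) (leaf 3 591 627))))))))))))) (merge (node 624 (merge (node 657 (merge (leaf 4 528 625) (node 529 (merge (leaf 6 496 497) (node 656 (merge (leaf 6 528 561) (leaf 4 560 689))))))) (merge (node 657 (merge (leaf 4 528 625) (node 656 (merge (leaf 4 560 689) (node 655 (merge (leaf 5 527 623) (leaf 5 559 687))))))) (merge (node 529 (merge (leaf 6 496 497) (node 656 (merge (leaf 6 528 561) (node 655 (merge (leaf 5 527 623) (leaf 5 559 687))))))) (node 625 (merge (leaf 4 528 657) (node 623 (merge (leaf 5 527 655) (node 591 (merge (leaf 5 495 496) (node 626 (merge (leaf 3 590 590) (leaf 3 591 627))))))))))))) (merge (node 497 (merge (node 465 (merge (leaf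 6 464 496) (node 529 (merge (leaf 5 432 433) (leaf 5 464 561))))) (merge (node 624 (merge (leaf 6 496 529) (node 655 (merge (leaf 5 527 623) (node 656 (merge (leaf 5 559 687) (node 527 (merge (leaf 7 495 495) (leaf 7 527 559))))))))) (node 496 (merge (leaf 6 464 465) (node 623 (merge (leaf 5 495 591) (node 624 (merge (leaf 5 527 655) (node 527 (merge (leaf 7 495 495) (node 559 (merge (leaf 7 527 656) (node 464 (merge (leaf 5 431 432) (node 561 (merge (leaf 4 464 593) (node 562 (merge (leaf 3 526 526) (leaf 3 527 563)))))))))))))))))))) (merge (node 527 (merge (node 624 (merge (leaf 7 495 495) (node 656 (merge (leaf 7 527 559) (node 657 (merge (leaf 4 528 625) (leaf 4 560 689))))))) (merge (node 624 (merge (leaf 7 495 495) (node 657 (merge (leaf 4 528 625) (node 529 (merge (leaf 6 496 497) (node 656 (merge (leaf 6 528 561) (leaf 4 560 689))))))))) (merge (node 526 (merge (node 561 (merge (leaf 0 525 525) (node 562 (merge (leaf 0 526 529) (leaf 3 527 563))))) (merge (node 561 (merge (leaf 0 525 525) (node 562 (merge (leaf 3 526 559) (leaf 3 527 563))))) (merge (node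 525 (merge (node 524 (merge (leaf 0 524 559) (node 556 (merge (leaf 1 523 555) (leaf 1 524 557))))) (merge (node 524 (merge (leaf 0 524 559) (node 492 (merge (leaf 3 491 491) (leaf 3 492 493))))) (node 557 (merge (leaf 1 524 556) (node 529 (merge (leaf 1 525 558) (node 493 (merge (leaf 3 492 492) (leaf 3 493 494)))))))))) (node 529 (merge (node 561 (merge (leaf 0 526 562) (node 497 (merge (leaf 5 464 465) (leaf 2 494 498))))) (merge (node 498 (merge (leaf 2 494 497) (node 530 (merge (leaf 2 495 499) (node 494 (merge (leaf 3 493 493) (leaf 3 494 495))))))) (node 494 (merge (leaf 3 493 493) (node 530 (merge (leaf 3 494 495) (node 563 (merge (leaf 0 527 562) (node 531 (merge (leaf 1 527 559) (leaf 0 528 564)))))))))))))))) (node 561 (merge (node 526 (merge (leaf 0 525 525) (node 562 (merge (leaf 3 526 559) (leaf 3 527 563))))) (merge (node 562 (merge (leaf 3 527 563) (node 529 (merge (leaf 0 526 526) (node 624 (merge (leaf 6 496 497) (leaf 6 528 656))))))) (merge (node 624 (merge (node 656 (merge (leaf 6 528 529) (node 655 (merge (leaf 5 527 623) (leaf 5 559 687)))))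 (merge (node 656 (merge (leaf 7 527 559) (node 657 (merge (leaf 4 528 625) (leaf 4 560 689))))) (node 526 (merge (leaf 0 525 525) (node 623 (merge (leaf 5 527 655) (node 529 (merge (leaf 6 496 497) (node 558 (merge (leaf 1 525 557) (node 494 (merge (leaf 3 493 493) (node 591 (merge (leaf 7 494 559) (leaf 4 494 590)))))))))))))))) (node 559 (merge (node 624 (merge (leaf 7 527 656) (node 529 (merge (leaf 6 496 497) (node 558 (merge (leaf 1 526 530) (leaf 2 525 557))))))) (merge (node 562 (merge (leaf 3 527 563) (node 590 (merge (leaf 1 558 591) (node 558 (merge (leaf 1 557 589) (node 557 (merge (leaf 2 524 556) (leaf 0 557 593))))))))) (node 624 (merge (leaf 7 527 656) (node 562 (merge (leaf 3 527 563) (node 591 (merge (leaf 1 558 590) (node 623 (merge (leaf 5 527 655) (node 622 (merge (leaf 5 526 654) (node 621 (merge (leaf 2 589 593) (leaf 2 588 620)))))))))))))))))))))))) (node 591 (merge (node 496 (merge (leaf 5 495 623) (node 465 (merge (leaf 6 464 497) (node 464 (merge (leaf 6 432 433) (leaf 5 463 559))))))) (merge (node 496 (merge (leaf 5 495 623) (node 593 (merge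 (leaf 4 496 625) (node 561 (merge (leaf 4 464 464) (node 590 (merge (leaf 2 558 562) (leaf 2 557 589))))))))) (merge (node 590 (merge (node 561 (merge (leaf 2 557 589) (node 562 (merge (leaf 1 558 559) (leaf 1 559 563))))) (merge (node 561 (merge (leaf 2 557 589) (node 593 (merge (leaf 2 558 562) (node 625 (merge (leaf 0 590 626) (leaf 7 528 657))))))) (merge (node 589 (merge (node 588 (merge (leaf 2 556 559) (node 620 (merge (leaf 1 587 619) (leaf 1 588 621))))) (merge (node 621 (merge (leaf 1 588 620) (node 593 (merge (leaf 1 589 622) (node 557 (merge (leaf 3 556 556) (leaf 3 557 558))))))) (node 559 (merge (leaf 2 556 588) (node 557 (merge (leaf 3 556 556) (node 558 (merge (leaf 2 525 529) (leaf 0 557 593)))))))))) (node 558 (merge (node 593 (merge (leaf 3 557 557) (node 625 (merge (leaf 4 496 496) (leaf 0 590 626))))) (merge (node 557 (merge (leaf 3 557 593) (node 559 (merge (leaf 2 525 529) (leaf 0 556 556))))) (merge (node 559 (merge (node 557 (merge (leaf 2 525 529) (leaf 0 556 556))) (merge (node 561 (merge (leaf 1 558 562) (node 529 (merge (leaf 2 526 530)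 (node 526 (merge (leaf 3 525 525) (node 494 (merge (leaf 4 462 462) (node 493 (merge (leaf 7 461 461) (leaf 3 493 527))))))))))) (node 557 (merge (leaf 0 556 556) (node 561 (merge (leaf 1 558 562) (node 525 (merge (leaf 3 524 524) (leaf 3 525 526)))))))))) (node 559 (merge (node 561 (merge (leaf 1 558 562) (node 529 (merge (leaf 2 526 530) (node 526 (merge (leaf 3 525 525) (node 494 (merge (leaf 4 462 462) (node 493 (merge (leaf 7 461 461) (leaf 3 493 527))))))))))) (merge (node 496 (merge (leaf 5 463 464) (node 593 (merge (leaf 4 496 625) (node 622 (merge (leaf 1 589 621) (node 527 (merge (leaf 5 494 495) (node 654 (merge (leaf 6 526 558) (leaf 6 558 686))))))))))) (node 561 (merge (leaf 1 558 562) (node 529 (merge (leaf 2 526 530) (node 526 (merge (leaf 3 525 525) (node 494 (merge (leaf 4 462 462) (node 496 (merge (leaf 5 463 464) (node 493 (merge (leaf 7 461 461) (leaf 0 493 495)))))))))))))))))))))))) (node 590 (merge (node 561 (merge (leaf 2 557 589) (node 562 (merge (leaf 1 559 563) (leaf 2 558 593))))) (merge (node 589 (merge (leaf 2 557 561) (node 588 (merge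 (leaf 2 556 559) (node 556 (merge (leaf 3 555 555) (leaf 3 556 557))))))) (merge (node 589 (merge (node 588 (merge (leaf 2 556 559) (node 620 (merge (leaf 1 587 619) (leaf 1 588 621))))) (merge (node 621 (merge (leaf 1 588 620) (node 593 (merge (leaf 1 589 622) (node 557 (merge (leaf 3 556 556) (leaf 3 557 558))))))) (node 559 (merge (leaf 2 556 588) (node 557 (merge (leaf 3 556 556) (node 558 (merge (leaf 0 557 593) (node 525 (merge (leaf 3 524 524) (node 622 (merge (leaf 4 493 493) (leaf 7 525 654)))))))))))))) (node 623 (merge (node 655 (merge (leaf 6 527 559) (leaf 6 559 687))) (merge (node 593 (merge (node 561 (merge (leaf 2 558 562) (node 558 (merge (leaf 3 557 557) (node 526 (merge (leaf 4 494 494) (node 525 (merge (leaf 0 525 527) (leaf 3 525 559))))))))) (merge (node 625 (merge (leaf 0 590 626) (node 657 (merge (leaf 7 528 561) (leaf 7 560 689))))) (node 622 (merge (leaf 1 589 621) (node 558 (merge (leaf 3 557 557) (node 526 (merge (leaf 4 494 494) (node 527 (merge (leaf 6 494 495) (node 654 (merge (leaf 5 526 559) (node 685 (merge (leaf 5 557 653) (node 686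 (merge (leaf 5 589 717) (leaf 6 590 718)))))))))))))))))) (node 593 (merge (node 625 (merge (leaf 0 590 626) (node 561 (merge (leaf 2 558 562) (leaf 7 528 657))))) (node 558 (merge (leaf 3 557 557) (node 655 (merge (leaf 7 558 687) (node 526 (merge (leaf 4 494 494) (leaf 4 526 622)))))))))))))))))))))))))) nB_3 cB_3 13 (by decide +kernel)
def nB_4 : ℕ := 0x100000001000000000000000000000000000000000000000000000000000000000000000000000000000000000000000000000000000000000000000000000000000000000000
def cB_4 : ℕ := 0x60000002e0000003e0000007f8000003f800003ef800001ef000003ff0000003e0000000800000000000000000000000000000000000000000000000000000000000000000000000000000000000000000000000000000000000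
theorem lB_4 : S nB_4 cB_4 13 := S_of_chk [] trivial (node 592 (merge (node 623 (merge (node 655 (merge (leaf 5 527 624) (node 591 (merge (leaf 6 527 559) (leaf 6 559 687))))) (merge (node 591 (merge (leaf 5 495 496) (node 655 (merge (leaf 6 527 559) (leaf 6 559 687))))) (merge (node 496 (merge (leaf 5 495 591) (node 625 (merge (leaf 4 496 593) (node 497 (merge (leaf 6 464 465) (node 624 (merge (leaf 6 496 529) (leaf 4 528 657))))))))) (node 624 (merge (leaf 5 527 655) (node 625 (merge (leaf 4 528 657) (node 496 (merge (leaf 4 496 593) (node 497 (merge (leaf 6 464 465) (leaf 6 496 529))))))))))))) (merge (node 496 (merge (node 593 (merge (leaf 4 496 625) (node 464 (merge (leaf 4 464 561) (node 463 (merge (leaf 7 431 431) (leaf 7 463 495))))))) (merge (node 625 (merge (leaf 4 496 593) (node 624 (merge (leaf 4 528 657) (node 623 (merge (leaf 5 495 591) (leaf 5 527 655))))))) (node 591 (merge (leaf 5 495 623) (node 464 (merge (leaf 5 463 559) (node 463 (merge (leaf 7 431 431) (leaf 7 463 495)))))))))) (merge (node 495 (merge (node 463 (merge (leaf 7 463 496) (node 527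 (merge (leaf 4 431 431) (leaf 4 463 559))))) (merge (node 496 (merge (leaf 7 463 463) (node 497 (merge (leaf 6 464 465) (node 529 (merge (leaf 6 496 624) (node 530 (merge (leaf 0 494 494) (leaf 3 495 531))))))))) (node 624 (merge (leaf 7 495 527) (node 529 (merge (leaf 6 496 497) (node 656 (merge (leaf 6 528 561) (node 655 (merge (leaf 5 527 623) (leaf 5 559 687)))))))))))) (merge (node 496 (merge (node 625 (merge (leaf 4 496 593) (node 497 (merge (leaf 6 464 465) (node 624 (merge (leaf 6 496 529) (leaf 4 528 657))))))) (merge (node 623 (merge (leaf 5 495 591) (node 495 (merge (leaf 7 463 463) (node 624 (merge (leaf 7 495 527) (leaf 5 527 655))))))) (node 593 (merge (leaf 4 496 625) (node 561 (merge (leaf 4 464 464) (node 591 (merge (leaf 5 495 623) (node 590 (merge (leaf 2 558 562) (leaf 2 557 589)))))))))))) (merge (node 529 (merge (node 624 (merge (leaf 6 496 497) (node 657 (merge (leaf 4 528 625) (node 656 (merge (leaf 6 528 561) (leaf 4 560 689))))))) (merge (node 624 (merge (leaf 6 496 497) (node 657 (merge (leaf 4 528 625) (node 656 (merge (leaf 4 560 689) (node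 527 (merge (leaf 7 495 495) (leaf 7 527 559))))))))) (merge (node 527 (merge (node 495 (merge (leaf 7 495 624) (node 463 (merge (leaf 4 431 431) (leaf 4 463 559))))) (merge (node 624 (merge (leaf 7 495 495) (node 657 (merge (leaf 4 528 625) (node 656 (merge (leaf 6 528 561) (leaf 4 560 689))))))) (node 558 (merge (node 557 (merge (leaf 1 525 526) (leaf 2 525 559))) (merge (node 526 (merge (leaf 1 525 557) (node 525 (merge (leaf 0 525 561) (node 493 (merge (leaf 3 492 492) (leaf 3 493 494))))))) (node 530 (merge (leaf 1 526 559) (node 499 (merge (leaf 2 495 498) (node 531 (merge (leaf 2 496 500) (node 564 (merge (leaf 0 528 563) (node 532 (merge (leaf 1 528 561) (leaf 0 529 565))))))))))))))))) (node 530 (merge (node 559 (merge (leaf 1 527 531) (node 558 (merge (leaf 1 526 527) (leaf 2 525 557))))) (merge (node 531 (merge (leaf 1 527 559) (node 500 (merge (leaf 2 496 499) (node 532 (merge (leaf 2 497 501) (leaf 1 528 561))))))) (merge (node 527 (merge (node 559 (merge (leaf 1 526 558) (node 495 (merge (leaf 4 463 463) (leaf 3 494 494))))) (merge (node 498 (merge (leaf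 2 495 499) (node 526 (merge (leaf 2 494 497) (node 494 (merge (leaf 3 493 493) (leaf 3 494 495))))))) (node 498 (merge (leaf 2 495 499) (node 526 (merge (leaf 2 494 497) (node 558 (merge (leaf 1 525 557) (leaf 1 526 559)))))))))) (node 531 (merge (node 564 (merge (leaf 0 528 563) (node 532 (merge (leaf 1 528 561) (leaf 0 529 565))))) (merge (node 564 (merge (leaf 0 528 563) (node 532 (merge (leaf 0 529 565) (node 500 (merge (leaf 2 496 499) (leaf 2 497 501))))))) (node 499 (merge (leaf 2 496 500) (node 527 (merge (leaf 2 495 498) (node 494 (merge (leaf 3 494 495) (node 526 (merge (leaf 3 493 493) (node 525 (merge (leaf 0 525 561) (node 557 (merge (leaf 1 524 556) (leaf 1 525 558)))))))))))))))))))))))) (node 591 (merge (node 623 (merge (leaf 5 495 496) (node 655 (merge (leaf 6 527 559) (leaf 6 559 687))))) (merge (node 590 (merge (node 589 (merge (leaf 2 557 561) (node 557 (merge (leaf 3 556 556) (node 593 (merge (leaf 3 557 558) (node 496 (merge (leaf 5 495 623) (leaf 4 496 625))))))))) (merge (node 589 (merge (leaf 2 557 561) (node 621 (merge (leaf 1 588 620) (node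 593 (merge (leaf 1 589 622) (node 496 (merge (leaf 5 495 623) (leaf 4 496 625))))))))) (merge (node 589 (merge (leaf 2 557 561) (node 621 (merge (leaf 1 588 620) (node 593 (merge (leaf 1 589 622) (node 557 (merge (leaf 3 556 556) (leaf 3 557 558))))))))) (merge (node 496 (merge (leaf 5 495 623) (node 593 (merge (leaf 4 496 625) (node 622 (merge (leaf 1 589 621) (node 558 (merge (leaf 3 557 557) (node 497 (merge (leaf 6 464 465) (node 495 (merge (leaf 7 463 463) (node 526 (merge (leaf 6 494 527) (node 525 (merge (leaf 7 493 493) (leaf 1 493 494))))))))))))))))) (node 589 (merge (leaf 2 557 561) (node 620 (merge (leaf 1 588 621) (node 588 (merge (leaf 1 587 619) (node 557 (merge (leaf 3 556 556) (node 525 (merge (leaf 5 492 493) (node 623 (merge (leaf 5 495 496) (node 622 (merge (leaf 0 587 587) (node 654 (merge (leaf 7 525 558) (leaf 7 557 686)))))))))))))))))))))) (merge (node 623 (merge (node 655 (merge (leaf 6 527 559) (leaf 6 559 687))) (merge (node 590 (merge (node 561 (merge (leaf 2 557 589) (node 593 (merge (leaf 2 558 562) (node 625 (merge (leaf 0 590 626) (leaf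 7 528 657))))))) (merge (node 589 (merge (node 588 (merge (leaf 2 556 559) (node 620 (merge (leaf 1 587 619) (leaf 1 588 621))))) (merge (node 621 (merge (leaf 1 588 620) (node 593 (merge (leaf 1 589 622) (node 557 (merge (leaf 3 556 556) (leaf 3 557 558))))))) (node 559 (merge (leaf 2 556 588) (node 557 (merge (leaf 3 556 556) (node 558 (merge (leaf 2 525 529) (leaf 0 557 593)))))))))) (merge (node 589 (merge (leaf 2 557 561) (node 620 (merge (leaf 1 588 621) (node 588 (merge (leaf 1 587 619) (node 622 (merge (leaf 0 587 587) (node 557 (merge (leaf 3 556 556) (node 654 (merge (leaf 7 557 686) (node 525 (merge (leaf 4 493 493) (leaf 7 525 558))))))))))))))) (node 593 (merge (node 561 (merge (leaf 2 558 562) (node 558 (merge (leaf 3 557 557) (node 526 (merge (leaf 4 494 494) (node 525 (merge (leaf 0 525 527) (leaf 3 525 559))))))))) (merge (node 625 (merge (leaf 0 590 626) (node 657 (merge (leaf 7 528 561) (leaf 7 560 689))))) (node 622 (merge (leaf 1 589 621) (node 558 (merge (leaf 3 557 557) (node 526 (merge (leaf 4 494 494) (node 527 (merge (leaf 6 494 495) (node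 654 (merge (leaf 5 526 559) (node 685 (merge (leaf 5 557 653) (node 686 (merge (leaf 5 589 717) (leaf 6 590 718)))))))))))))))))))))) (node 590 (merge (node 561 (merge (leaf 2 557 589) (node 593 (merge (leaf 2 558 562) (node 625 (merge (leaf 0 590 626) (leaf 7 528 657))))))) (merge (node 593 (merge (node 625 (merge (leaf 0 590 626) (node 561 (merge (leaf 2 558 562) (leaf 7 528 657))))) (node 558 (merge (leaf 3 557 557) (node 655 (merge (leaf 7 558 687) (node 526 (merge (leaf 4 494 494) (leaf 4 526 622))))))))) (merge (node 558 (merge (node 655 (merge (leaf 7 558 687) (node 526 (merge (leaf 4 494 494) (leaf 4 526 622))))) (node 557 (merge (leaf 3 557 593) (node 556 (merge (leaf 0 555 555) (leaf 3 556 589))))))) (node 589 (merge (leaf 2 557 561) (node 620 (merge (leaf 1 588 621) (node 588 (merge (leaf 1 587 619) (node 622 (merge (leaf 0 587 587) (node 557 (merge (leaf 3 556 556) (node 654 (merge (leaf 7 557 686) (node 525 (merge (leaf 4 493 493) (leaf 7 525 558)))))))))))))))))))))) (node 590 (merge (node 561 (merge (leaf 2 557 589) (node 562 (merge (leaf 1 559 563)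 (leaf 2 558 593))))) (merge (node 589 (merge (leaf 2 557 561) (node 588 (merge (leaf 2 556 559) (node 556 (merge (leaf 3 555 555) (leaf 3 556 557))))))) (merge (node 589 (merge (node 588 (merge (leaf 2 556 559) (node 620 (merge (leaf 1 587 619) (leaf 1 588 621))))) (merge (node 621 (merge (leaf 1 588 620) (node 593 (merge (leaf 1 589 622) (node 557 (merge (leaf 3 556 556) (leaf 3 557 558))))))) (node 559 (merge (leaf 2 556 588) (node 557 (merge (leaf 3 556 556) (node 558 (merge (leaf 2 525 529) (leaf 0 557 593)))))))))) (node 558 (merge (node 557 (merge (leaf 3 557 593) (node 556 (merge (leaf 0 555 555) (leaf 0 556 559))))) (merge (node 593 (merge (leaf 3 557 557) (node 625 (merge (leaf 4 496 496) (leaf 0 590 626))))) (merge (node 559 (merge (node 557 (merge (leaf 2 525 529) (leaf 0 556 556))) (merge (node 561 (merge (leaf 1 558 562) (node 529 (merge (leaf 2 526 530) (node 526 (merge (leaf 3 525 525) (node 494 (merge (leaf 4 462 462) (node 493 (merge (leaf 7 461 461) (leaf 3 493 527))))))))))) (node 557 (merge (leaf 0 556 556) (node 561 (merge (leaf 1 558 562) (node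 525 (merge (leaf 3 524 524) (leaf 3 525 526)))))))))) (node 559 (merge (node 561 (merge (leaf 1 558 562) (node 529 (merge (leaf 2 526 530) (node 526 (merge (leaf 3 525 525) (node 494 (merge (leaf 4 462 462) (node 493 (merge (leaf 7 461 461) (leaf 3 493 527))))))))))) (merge (node 561 (merge (leaf 1 558 562) (node 529 (merge (leaf 2 526 530) (node 526 (merge (leaf 3 525 525) (node 497 (merge (leaf 5 464 465) (node 527 (merge (leaf 2 494 498) (node 622 (merge (leaf 5 494 495) (leaf 6 526 654))))))))))))) (merge (node 561 (merge (leaf 1 558 562) (node 526 (merge (leaf 3 525 525) (node 494 (merge (leaf 4 462 462) (node 495 (merge (leaf 6 462 463) (node 622 (merge (leaf 5 494 527) (node 621 (merge (leaf 1 589 593) (leaf 5 525 653))))))))))))) (merge (node 527 (merge (node 622 (merge (leaf 5 494 495) (leaf 6 526 654))) (merge (node 529 (merge (leaf 1 526 530) (node 495 (merge (leaf 4 463 463) (node 494 (merge (leaf 7 462 462) (node 493 (merge (leaf 0 492 492) (leaf 0 493 496))))))))) (node 529 (merge (leaf 1 526 530) (node 622 (merge (leaf 6 526 654) (node 593 (merge (leaf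 1 589 621) (node 496 (merge (leaf 4 496 625) (node 497 (merge (leaf 6 464 465) (node 526 (merge (leaf 2 494 498) (leaf 2 493 525)))))))))))))))) (merge (node 561 (merge (leaf 1 558 562) (node 529 (merge (leaf 2 526 530) (node 526 (merge (leaf 3 525 525) (node 494 (merge (leaf 4 462 462) (node 495 (merge (leaf 6 462 463) (node 493 (merge (leaf 7 461 461) (leaf 0 493 496))))))))))))) (node 527 (merge (node 529 (merge (leaf 1 526 530) (node 495 (merge (leaf 4 463 463) (node 494 (merge (leaf 7 462 462) (node 493 (merge (leaf 0 492 492) (leaf 0 493 496))))))))) (node 561 (merge (leaf 1 558 562) (node 622 (merge (leaf 6 526 654) (node 593 (merge (leaf 1 589 621) (node 625 (merge (leaf 0 590 626) (leaf 7 528 657))))))))))))))))))))))))))))))))))) nB_4 cB_4 13 (by decide +kernel)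
def nB_5 : ℕ := 0x100000001000000000000000000000000000000000000000000000000000000000000000000000000000000000000000000000000000000000000000000000000000000000000
def cB_5 : ℕ := 0x60000002e0000003e000000ff8000003f800003ef800001ef000000ff8000006e0000002000000000000000000000000000000000000000000000000000000000000000000000000000000000000000000000000000000000000
theorem lB_5 : S nB_5 cB_5 13 := S_of_chk [] trivial (node 592 (merge (node 497 (merge (node 465 (merge (leaf 6 464 496) (node 529 (merge (leaf 5 432 433) (leaf 5 464 561))))) (merge (node 529 (merge (leaf 6 496 624) (node 465 (merge (leaf 5 432 433) (leaf 5 464 561))))) (merge (node 624 (merge (leaf 6 496 529) (node 623 (merge (leaf 5 527 655) (node 496 (merge (leaf 5 495 591) (node 495 (merge (leaf 7 463 463) (leaf 7 495 527))))))))) (node 496 (merge (leaf 6 464 465) (node 623 (merge (leaf 5 495 591) (node 495 (merge (leaf 7 463 463) (node 624 (merge (leaf 7 495 527) (leaf 5 527 655))))))))))))) (merge (node 623 (merge (node 655 (merge (leaf 5 527 624) (node 591 (merge (leaf 6 527 559) (leaf 6 559 687))))) (merge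 (node 591 (merge (leaf 5 495 496) (node 655 (merge (leaf 6 527 559) (leaf 6 559 687))))) (merge (node 496 (merge (leaf 5 495 591) (node 625 (merge (leaf 4 496 593) (node 497 (merge (leaf 6 464 465) (node 624 (merge (leaf 6 496 529) (leaf 4 528 657))))))))) (node 624 (merge (leaf 5 527 655) (node 625 (merge (leaf 4 528 657) (node 496 (merge (leaf 4 496 593) (node 497 (merge (leaf 6 464 465) (leaf 6 496 529))))))))))))) (merge (node 624 (merge (node 529 (merge (leaf 6 496 497) (node 656 (merge (leaf 6 528 561) (node 527 (merge (leaf 7 495 495) (leaf 7 527 559))))))) (merge (node 657 (merge (leaf 4 528 625) (node 529 (merge (leaf 6 496 497) (node 656 (merge (leaf 6 528 561) (leaf 4 560 689))))))) (merge (node 657 (merge (leaf 4 528 625) (node 656 (merge (leaf 4 560 689) (node 527 (merge (leaf 7 495 495) (leaf 7 527 559))))))) (node 625 (merge (leaf 4 528 657) (node 496 (merge (leaf 4 496 593) (node 497 (merge (leaf 6 464 465) (leaf 6 496 529))))))))))) (merge (node 624 (merge (node 657 (merge (leaf 4 528 625) (node 656 (merge (leaf 4 560 689) (node 655 (merge (leaf 5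 527 623) (leaf 5 559 687))))))) (merge (node 657 (merge (leaf 4 528 625) (node 656 (merge (leaf 4 560 689) (node 527 (merge (leaf 7 495 495) (leaf 7 527 559))))))) (merge (node 655 (merge (leaf 5 527 623) (node 656 (merge (leaf 5 559 687) (node 527 (merge (leaf 7 495 495) (leaf 7 527 559))))))) (node 625 (merge (leaf 4 528 657) (node 623 (merge (leaf 5 527 655) (node 591 (merge (leaf 5 495 496) (node 626 (merge (leaf 3 590 590) (leaf 3 591 627))))))))))))) (merge (node 527 (merge (node 624 (merge (leaf 7 495 495) (node 656 (merge (leaf 7 527 559) (node 657 (merge (leaf 4 528 625) (leaf 4 560 689))))))) (merge (node 624 (merge (leaf 7 495 495) (node 529 (merge (leaf 6 496 497) (node 656 (merge (leaf 6 528 561) (node 655 (merge (leaf 5 527 623) (leaf 5 559 687))))))))) (merge (node 529 (merge (node 497 (merge (leaf 6 496 624) (node 465 (merge (leaf 5 432 433) (leaf 5 464 561))))) (merge (node 624 (merge (leaf 6 496 497) (node 656 (merge (leaf 7 527 559) (node 655 (merge (leaf 5 527 623) (leaf 5 559 687))))))) (merge (node 558 (merge (node 559 (merge (leaf 1 526 530)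 (leaf 2 525 557))) (merge (node 526 (merge (leaf 1 525 557) (node 561 (merge (leaf 0 525 525) (leaf 0 526 562))))) (node 530 (merge (leaf 1 526 559) (node 498 (merge (leaf 2 495 499) (node 526 (merge (leaf 2 494 497) (node 561 (merge (leaf 0 525 525) (leaf 0 526 562)))))))))))) (node 558 (merge (node 559 (merge (leaf 1 526 530) (leaf 2 525 557))) (merge (node 526 (merge (leaf 1 525 557) (node 561 (merge (leaf 0 525 525) (leaf 0 526 562))))) (node 530 (merge (leaf 1 526 559) (node 562 (merge (leaf 0 527 563) (node 561 (merge (leaf 0 526 526) (node 498 (merge (leaf 2 495 499) (node 593 (merge (leaf 5 465 466) (leaf 6 497 625)))))))))))))))))) (node 526 (merge (node 561 (merge (leaf 0 525 525) (node 562 (merge (leaf 3 526 559) (leaf 3 527 563))))) (merge (node 525 (merge (leaf 0 525 561) (node 557 (merge (leaf 1 524 556) (node 529 (merge (leaf 1 525 558) (node 493 (merge (leaf 3 492 492) (leaf 3 493 494))))))))) (merge (node 529 (merge (node 498 (merge (leaf 2 494 497) (node 530 (merge (leaf 2 495 499) (node 494 (merge (leaf 3 493 493) (leaf 3 494 495))))))) (merge (node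 557 (merge (leaf 1 525 558) (node 525 (merge (leaf 1 524 556) (node 524 (merge (leaf 0 524 559) (node 492 (merge (leaf 3 491 491) (leaf 3 492 493))))))))) (merge (node 557 (merge (leaf 1 525 558) (node 525 (merge (leaf 1 524 556) (node 559 (merge (leaf 0 524 524) (node 530 (merge (leaf 1 527 531) (node 495 (merge (leaf 4 463 463) (leaf 3 494 494))))))))))) (node 494 (merge (leaf 3 493 493) (node 530 (merge (leaf 3 494 495) (node 563 (merge (leaf 0 527 562) (node 531 (merge (leaf 1 527 559) (leaf 0 528 564))))))))))))) (node 529 (merge (node 497 (merge (leaf 2 494 498) (node 465 (merge (leaf 5 432 433) (leaf 5 464 561))))) (merge (node 498 (merge (leaf 2 494 497) (node 530 (merge (leaf 2 495 499) (node 494 (merge (leaf 3 493 493) (leaf 3 494 495))))))) (node 494 (merge (leaf 3 493 493) (node 530 (merge (leaf 3 494 495) (node 531 (merge (leaf 1 527 559) (node 564 (merge (leaf 0 528 563) (node 532 (merge (leaf 1 528 561) (leaf 0 529 565)))))))))))))))))))))) (node 591 (merge (node 623 (merge (leaf 5 495 496) (node 655 (merge (leaf 6 527 559) (leaf 6 559 687))))) (merge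 (node 590 (merge (node 589 (merge (leaf 2 557 561) (node 557 (merge (leaf 3 556 556) (node 593 (merge (leaf 3 557 558) (node 496 (merge (leaf 5 495 623) (leaf 4 496 625))))))))) (merge (node 589 (merge (leaf 2 557 561) (node 621 (merge (leaf 1 588 620) (node 593 (merge (leaf 1 589 622) (node 496 (merge (leaf 5 495 623) (leaf 4 496 625))))))))) (merge (node 589 (merge (leaf 2 557 561) (node 621 (merge (leaf 1 588 620) (node 593 (merge (leaf 1 589 622) (node 557 (merge (leaf 3 556 556) (leaf 3 557 558))))))))) (merge (node 496 (merge (leaf 5 495 623) (node 593 (merge (leaf 4 496 625) (node 622 (merge (leaf 1 589 621) (node 558 (merge (leaf 3 557 557) (node 497 (merge (leaf 6 464 465) (node 495 (merge (leaf 7 463 463) (node 526 (merge (leaf 6 494 527) (node 525 (merge (leaf 7 493 493) (leaf 1 493 494))))))))))))))))) (node 589 (merge (leaf 2 557 561) (node 620 (merge (leaf 1 588 621) (node 588 (merge (leaf 1 587 619) (node 557 (merge (leaf 3 556 556) (node 525 (merge (leaf 5 492 493) (node 623 (merge (leaf 5 495 496) (node 622 (merge (leaf 0 587 587) (node 654 (merge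 (leaf 7 525 558) (leaf 7 557 686)))))))))))))))))))))) (merge (node 623 (merge (node 655 (merge (leaf 6 527 559) (leaf 6 559 687))) (merge (node 590 (merge (node 561 (merge (leaf 2 557 589) (node 593 (merge (leaf 2 558 562) (node 625 (merge (leaf 0 590 626) (leaf 7 528 657))))))) (merge (node 589 (merge (node 588 (merge (leaf 2 556 559) (node 620 (merge (leaf 1 587 619) (leaf 1 588 621))))) (merge (node 621 (merge (leaf 1 588 620) (node 593 (merge (leaf 1 589 622) (node 557 (merge (leaf 3 556 556) (leaf 3 557 558))))))) (node 559 (merge (leaf 2 556 588) (node 557 (merge (leaf 3 556 556) (node 558 (merge (leaf 2 525 529) (leaf 0 557 593)))))))))) (merge (node 589 (merge (leaf 2 557 561) (node 620 (merge (leaf 1 588 621) (node 588 (merge (leaf 1 587 619) (node 622 (merge (leaf 0 587 587) (node 557 (merge (leaf 3 556 556) (node 654 (merge (leaf 7 557 686) (node 525 (merge (leaf 4 493 493) (leaf 7 525 558))))))))))))))) (node 593 (merge (node 561 (merge (leaf 2 558 562) (node 558 (merge (leaf 3 557 557) (node 526 (merge (leaf 4 494 494) (node 525 (merge (leaf 0 525 527)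 (leaf 3 525 559))))))))) (merge (node 625 (merge (leaf 0 590 626) (node 657 (merge (leaf 7 528 561) (leaf 7 560 689))))) (node 622 (merge (leaf 1 589 621) (node 558 (merge (leaf 3 557 557) (node 526 (merge (leaf 4 494 494) (node 527 (merge (leaf 6 494 495) (node 654 (merge (leaf 5 526 559) (node 685 (merge (leaf 5 557 653) (node 686 (merge (leaf 5 589 717) (leaf 6 590 718)))))))))))))))))))))) (node 590 (merge (node 561 (merge (leaf 2 557 589) (node 593 (merge (leaf 2 558 562) (node 625 (merge (leaf 0 590 626) (leaf 7 528 657))))))) (merge (node 593 (merge (node 625 (merge (leaf 0 590 626) (node 561 (merge (leaf 2 558 562) (leaf 7 528 657))))) (node 558 (merge (leaf 3 557 557) (node 655 (merge (leaf 7 558 687) (node 526 (merge (leaf 4 494 494) (leaf 4 526 622))))))))) (merge (node 558 (merge (node 655 (merge (leaf 7 558 687) (node 526 (merge (leaf 4 494 494) (leaf 4 526 622))))) (node 557 (merge (leaf 3 557 593) (node 556 (merge (leaf 0 555 555) (leaf 3 556 589))))))) (node 589 (merge (leaf 2 557 561) (node 620 (merge (leaf 1 588 621) (node 588 (merge (leaf 1 587 619)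 (node 622 (merge (leaf 0 587 587) (node 557 (merge (leaf 3 556 556) (node 654 (merge (leaf 7 557 686) (node 525 (merge (leaf 4 493 493) (leaf 7 525 558)))))))))))))))))))))) (node 590 (merge (node 561 (merge (leaf 2 557 589) (node 562 (merge (leaf 1 559 563) (leaf 2 558 593))))) (merge (node 589 (merge (leaf 2 557 561) (node 588 (merge (leaf 2 556 559) (node 556 (merge (leaf 3 555 555) (leaf 3 556 557))))))) (merge (node 589 (merge (node 588 (merge (leaf 2 556 559) (node 620 (merge (leaf 1 587 619) (leaf 1 588 621))))) (merge (node 621 (merge (leaf 1 588 620) (node 593 (merge (leaf 1 589 622) (node 557 (merge (leaf 3 556 556) (leaf 3 557 558))))))) (node 559 (merge (leaf 2 556 588) (node 557 (merge (leaf 3 556 556) (node 558 (merge (leaf 2 525 529) (leaf 0 557 593)))))))))) (node 558 (merge (node 557 (merge (leaf 3 557 593) (node 556 (merge (leaf 0 555 555) (leaf 0 556 559))))) (merge (node 593 (merge (leaf 3 557 557) (node 625 (merge (leaf 4 496 496) (leaf 0 590 626))))) (merge (node 559 (merge (node 557 (merge (leaf 2 525 529) (leaf 0 556 556))) (merge (node 561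 (merge (leaf 1 558 562) (node 529 (merge (leaf 2 526 530) (node 526 (merge (leaf 3 525 525) (node 494 (merge (leaf 4 462 462) (node 493 (merge (leaf 7 461 461) (leaf 3 493 527))))))))))) (node 557 (merge (leaf 0 556 556) (node 561 (merge (leaf 1 558 562) (node 525 (merge (leaf 3 524 524) (leaf 3 525 526)))))))))) (node 559 (merge (node 561 (merge (leaf 1 558 562) (node 529 (merge (leaf 2 526 530) (node 526 (merge (leaf 3 525 525) (node 494 (merge (leaf 4 462 462) (node 493 (merge (leaf 7 461 461) (leaf 3 493 527))))))))))) (merge (node 561 (merge (leaf 1 558 562) (node 529 (merge (leaf 2 526 530) (node 526 (merge (leaf 3 525 525) (node 497 (merge (leaf 5 464 465) (node 527 (merge (leaf 2 494 498) (node 622 (merge (leaf 5 494 495) (leaf 6 526 654))))))))))))) (merge (node 561 (merge (leaf 1 558 562) (node 526 (merge (leaf 3 525 525) (node 494 (merge (leaf 4 462 462) (node 495 (merge (leaf 6 462 463) (node 622 (merge (leaf 5 494 527) (node 621 (merge (leaf 1 589 593) (leaf 5 525 653))))))))))))) (merge (node 527 (merge (node 622 (merge (leaf 5 494 495) (leaf 6 526 654)))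 (merge (node 529 (merge (leaf 1 526 530) (node 495 (merge (leaf 4 463 463) (node 494 (merge (leaf 7 462 462) (node 493 (merge (leaf 0 492 492) (leaf 0 493 496))))))))) (node 529 (merge (leaf 1 526 530) (node 622 (merge (leaf 6 526 654) (node 593 (merge (leaf 1 589 621) (node 496 (merge (leaf 4 496 625) (node 497 (merge (leaf 6 464 465) (node 526 (merge (leaf 2 494 498) (leaf 2 493 525)))))))))))))))) (merge (node 561 (merge (leaf 1 558 562) (node 529 (merge (leaf 2 526 530) (node 526 (merge (leaf 3 525 525) (node 494 (merge (leaf 4 462 462) (node 495 (merge (leaf 6 462 463) (node 493 (merge (leaf 7 461 461) (leaf 0 493 496))))))))))))) (node 527 (merge (node 529 (merge (leaf 1 526 530) (node 495 (merge (leaf 4 463 463) (node 494 (merge (leaf 7 462 462) (node 493 (merge (leaf 0 492 492) (leaf 0 493 496))))))))) (node 561 (merge (leaf 1 558 562) (node 622 (merge (leaf 6 526 654) (node 593 (merge (leaf 1 589 621) (node 625 (merge (leaf 0 590 626) (leaf 7 528 657))))))))))))))))))))))))))))))))))) nB_5 cB_5 13 (by decide +kernel)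
def nB_6 : ℕ := 0x10000000100000001000000000000000000000000000000000000000000000000000000000000000000000000000000000000000000000000000000000000000000000000000000000000
def cB_6 : ℕ := 0x280000003e0000003e000001ff000001ff800003af000000ef8000000f0000000e000000080000000800000000000000000000000000000000000000000000000000000000000000000000000000000000000000000000000000000000000
theorem lB_6 : S nB_6 cB_6 12 := S_of_chk [] trivial (node 590 (merge (node 624 (merge (node 657 (merge (leaf 4 528 625) (node 656 (merge (leaf 4 560 689) (node 655 (merge (leaf 5 527 623) (leaf 5 559 687))))))) (merge (node 657 (merge (leaf 4 528 625) (node 656 (merge (leaf 4 560 689) (node 527 (merge (leaf 7 495 495) (leaf 7 527 559))))))) (merge (node 655 (merge (leaf 5 527 623) (node 656 (merge (leaf 5 559 687) (node 527 (merge (leaf 7 495 495) (leaf 7 527 559))))))) (node 625 (merge (leaf 4 528 657) (node 623 (merge (leaf 5 527 655) (node 622 (merge (leaf 3 589 589) (node 653 (merge (leaf 1 621 654) (node 621 (merge (leaf 2 589 593) (leaf 1 620 652))))))))))))))) (merge (node 624 (merge (node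 657 (merge (leaf 4 528 625) (node 656 (merge (leaf 4 560 689) (node 655 (merge (leaf 5 527 623) (leaf 5 559 687))))))) (merge (node 657 (merge (leaf 4 528 625) (node 656 (merge (leaf 4 560 689) (node 527 (merge (leaf 7 495 495) (leaf 7 527 559))))))) (merge (node 655 (merge (leaf 5 527 623) (node 656 (merge (leaf 5 559 687) (node 527 (merge (leaf 7 495 495) (leaf 7 527 559))))))) (node 625 (merge (leaf 4 528 657) (node 623 (merge (leaf 5 527 655) (node 626 (merge (leaf 3 590 591) (node 659 (merge (leaf 0 623 658) (node 627 (merge (leaf 0 624 660) (node 596 (merge (leaf 2 592 595) (node 628 (merge (leaf 3 592 593) (leaf 2 593 597))))))))))))))))))) (merge (node 591 (merge (node 561 (merge (leaf 2 557 589) (node 562 (merge (leaf 1 558 559) (leaf 1 559 563))))) (merge (node 625 (merge (node 657 (merge (leaf 4 528 624) (node 593 (merge (leaf 7 528 561) (leaf 7 560 689))))) (merge (node 626 (merge (leaf 0 590 593) (node 624 (merge (leaf 3 590 623) (leaf 3 591 627))))) (merge (node 593 (merge (leaf 0 590 626) (node 657 (merge (leaf 7 528 561) (leaf 7 560 689))))) (node 624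 (merge (leaf 4 528 657) (node 626 (merge (leaf 3 591 627) (node 623 (merge (leaf 3 590 590) (leaf 5 527 655))))))))))) (node 557 (merge (node 556 (merge (leaf 3 556 589) (node 558 (merge (leaf 0 555 555) (leaf 3 557 593))))) (merge (node 589 (merge (leaf 3 556 556) (node 588 (merge (leaf 2 556 559) (node 620 (merge (leaf 1 587 619) (leaf 1 588 621))))))) (node 593 (merge (leaf 3 557 558) (node 625 (merge (leaf 0 590 626) (node 657 (merge (leaf 4 528 624) (leaf 7 560 689))))))))))))) (merge (node 591 (merge (node 561 (merge (leaf 2 557 589) (node 562 (merge (leaf 1 558 559) (leaf 1 559 563))))) (merge (node 561 (merge (leaf 2 557 589) (node 593 (merge (leaf 2 558 562) (node 625 (merge (leaf 0 590 626) (leaf 7 528 657))))))) (merge (node 625 (merge (node 657 (merge (leaf 4 528 624) (node 593 (merge (leaf 7 528 561) (leaf 7 560 689))))) (merge (node 626 (merge (leaf 0 590 593) (node 624 (merge (leaf 3 590 623) (leaf 3 591 627))))) (merge (node 593 (merge (leaf 0 590 626) (node 657 (merge (leaf 7 528 561) (leaf 7 560 689))))) (node 624 (merge (leaf 4 528 657) (node 626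 (merge (leaf 3 590 623) (leaf 3 591 627))))))))) (node 557 (merge (node 556 (merge (leaf 3 556 589) (node 558 (merge (leaf 0 555 555) (leaf 3 557 593))))) (merge (node 589 (merge (leaf 3 556 556) (node 588 (merge (leaf 2 556 559) (node 620 (merge (leaf 1 587 619) (leaf 1 588 621))))))) (node 593 (merge (leaf 3 557 558) (node 625 (merge (leaf 0 590 626) (node 657 (merge (leaf 4 528 624) (leaf 7 560 689)))))))))))))) (merge (node 591 (merge (node 589 (merge (leaf 2 557 561) (node 620 (merge (leaf 1 588 621) (node 588 (merge (leaf 1 587 619) (node 556 (merge (leaf 3 555 555) (leaf 3 556 557))))))))) (merge (node 625 (merge (node 657 (merge (leaf 4 528 624) (node 593 (merge (leaf 7 528 561) (leaf 7 560 689))))) (merge (node 626 (merge (leaf 0 590 593) (node 624 (merge (leaf 3 590 623) (leaf 3 591 627))))) (merge (node 593 (merge (leaf 0 590 626) (node 657 (merge (leaf 7 528 561) (leaf 7 560 689))))) (node 624 (merge (leaf 4 528 657) (node 626 (merge (leaf 3 591 627) (node 623 (merge (leaf 3 590 590) (leaf 5 527 655))))))))))) (node 557 (merge (node 556 (merge (leaf 3 556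 589) (node 558 (merge (leaf 0 555 555) (leaf 3 557 593))))) (merge (node 593 (merge (leaf 3 557 558) (node 625 (merge (leaf 0 590 626) (node 657 (merge (leaf 4 528 624) (leaf 7 560 689))))))) (node 589 (merge (leaf 3 556 556) (node 624 (merge (leaf 0 589 625) (node 623 (merge (leaf 0 588 588) (leaf 5 527 655))))))))))))) (merge (node 624 (merge (node 657 (merge (leaf 4 528 625) (node 656 (merge (leaf 4 560 689) (node 655 (merge (leaf 5 527 623) (leaf 5 559 687))))))) (merge (node 657 (merge (leaf 4 528 625) (node 656 (merge (leaf 4 560 689) (node 527 (merge (leaf 7 495 495) (leaf 7 527 559))))))) (merge (node 655 (merge (leaf 5 527 623) (node 656 (merge (leaf 5 559 687) (node 527 (merge (leaf 7 495 495) (leaf 7 527 559))))))) (node 625 (merge (leaf 4 528 657) (node 591 (merge (leaf 0 589 589) (node 623 (merge (leaf 3 590 626) (leaf 5 527 655))))))))))) (merge (node 591 (merge (node 561 (merge (leaf 2 557 589) (node 562 (merge (leaf 1 559 563) (leaf 2 558 593))))) (merge (node 589 (merge (leaf 2 557 561) (node 588 (merge (leaf 2 556 559) (node 556 (merge (leaf 3 555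 555) (leaf 3 556 557))))))) (merge (node 589 (merge (node 588 (merge (leaf 2 556 559) (node 620 (merge (leaf 1 587 619) (leaf 1 588 621))))) (merge (node 621 (merge (leaf 1 588 620) (node 593 (merge (leaf 1 589 622) (node 557 (merge (leaf 3 556 556) (leaf 3 557 558))))))) (node 559 (merge (leaf 2 556 588) (node 557 (merge (leaf 3 556 556) (node 558 (merge (leaf 0 557 593) (node 525 (merge (leaf 3 524 524) (node 622 (merge (leaf 4 493 493) (leaf 7 525 654)))))))))))))) (node 527 (merge (node 495 (merge (leaf 7 495 624) (node 559 (merge (leaf 4 463 463) (leaf 5 494 622))))) (merge (node 624 (merge (leaf 7 495 495) (node 656 (merge (leaf 7 527 559) (node 655 (merge (leaf 5 527 623) (leaf 5 559 687))))))) (merge (node 623 (merge (node 655 (merge (leaf 6 527 559) (leaf 6 559 687))) (merge (node 655 (merge (leaf 5 527 624) (leaf 6 559 687))) (node 561 (merge (node 562 (merge (leaf 1 559 563) (leaf 2 558 593))) (merge (node 562 (merge (leaf 1 558 559) (leaf 1 559 563))) (node 526 (merge (leaf 0 525 525) (node 559 (merge (leaf 7 494 494) (node 622 (merge (leaf 5 526 654) (node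 621 (merge (leaf 1 589 593) (leaf 2 588 620))))))))))))))) (merge (node 622 (merge (node 621 (merge (leaf 1 589 593) (node 620 (merge (leaf 2 587 619) (leaf 2 588 623))))) (merge (node 593 (merge (leaf 1 589 621) (node 558 (merge (leaf 3 557 557) (node 526 (merge (leaf 6 494 495) (node 525 (merge (leaf 7 493 493) (leaf 0 525 561))))))))) (node 624 (merge (leaf 7 495 495) (node 655 (merge (leaf 5 527 623) (node 687 (merge (leaf 5 559 656) (node 654 (merge (leaf 4 558 558) (node 719 (merge (leaf 4 590 686) (leaf 7 622 751)))))))))))))) (node 559 (merge (node 623 (merge (leaf 6 527 655) (node 622 (merge (leaf 5 526 654) (node 621 (merge (leaf 1 589 593) (leaf 2 588 620))))))) (merge (node 495 (merge (leaf 5 494 622) (node 463 (merge (leaf 4 431 431) (leaf 5 462 558))))) (node 561 (merge (leaf 1 558 562) (node 526 (merge (leaf 0 525 525) (node 623 (merge (leaf 7 494 494) (leaf 6 527 655))))))))))))))))))) (merge (node 591 (merge (node 561 (merge (leaf 2 557 589) (node 562 (merge (leaf 1 559 563) (leaf 2 558 593))))) (merge (node 589 (merge (leaf 2 557 561) (node 588 (merge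 (leaf 2 556 559) (node 556 (merge (leaf 3 555 555) (leaf 3 556 557))))))) (merge (node 589 (merge (node 588 (merge (leaf 2 556 559) (node 620 (merge (leaf 1 587 619) (leaf 1 588 621))))) (merge (node 621 (merge (leaf 1 588 620) (node 593 (merge (leaf 1 589 622) (node 557 (merge (leaf 3 556 556) (leaf 3 557 558))))))) (node 559 (merge (leaf 2 556 588) (node 557 (merge (leaf 3 556 556) (node 558 (merge (leaf 0 557 593) (node 525 (merge (leaf 3 524 524) (node 622 (merge (leaf 4 493 493) (leaf 7 525 654)))))))))))))) (node 623 (merge (node 655 (merge (leaf 6 527 559) (leaf 6 559 687))) (merge (node 593 (merge (node 561 (merge (leaf 2 558 562) (node 558 (merge (leaf 3 557 557) (node 526 (merge (leaf 4 494 494) (node 525 (merge (leaf 0 525 527) (leaf 3 525 559))))))))) (merge (node 625 (merge (leaf 0 590 626) (node 657 (merge (leaf 7 528 561) (leaf 7 560 689))))) (node 622 (merge (leaf 1 589 621) (node 558 (merge (leaf 3 557 557) (node 526 (merge (leaf 4 494 494) (node 527 (merge (leaf 6 494 495) (node 654 (merge (leaf 5 526 559) (node 685 (merge (leaf 5 557 653) (node 686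 (merge (leaf 5 589 717) (leaf 6 590 718)))))))))))))))))) (node 593 (merge (node 625 (merge (leaf 0 590 626) (node 561 (merge (leaf 2 558 562) (leaf 7 528 657))))) (node 558 (merge (leaf 3 557 557) (node 655 (merge (leaf 7 558 687) (node 526 (merge (leaf 4 494 494) (leaf 4 526 622)))))))))))))))) (node 591 (merge (node 561 (merge (leaf 2 557 589) (node 593 (merge (leaf 2 558 562) (node 625 (merge (leaf 0 590 626) (leaf 7 528 657))))))) (merge (node 589 (merge (leaf 2 557 561) (node 588 (merge (leaf 2 556 559) (node 556 (merge (leaf 3 555 555) (leaf 3 556 557))))))) (merge (node 557 (merge (node 556 (merge (leaf 3 556 589) (node 558 (merge (leaf 0 555 555) (leaf 3 557 593))))) (merge (node 589 (merge (leaf 3 556 556) (node 588 (merge (leaf 2 556 559) (node 620 (merge (leaf 1 587 619) (leaf 1 588 621))))))) (node 593 (merge (leaf 3 557 558) (node 625 (merge (leaf 0 590 626) (node 657 (merge (leaf 4 528 624) (leaf 7 560 689)))))))))) (node 624 (merge (node 625 (merge (leaf 4 528 657) (node 626 (merge (leaf 0 590 593) (leaf 3 591 627))))) (merge (node 657 (merge (leaf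 4 528 625) (node 656 (merge (leaf 4 560 689) (node 527 (merge (leaf 7 495 495) (leaf 7 527 559))))))) (merge (node 527 (merge (leaf 7 495 495) (node 656 (merge (leaf 7 527 559) (node 687 (merge (leaf 5 559 655) (node 688 (merge (leaf 5 591 719) (node 721 (merge (leaf 4 592 689) (node 720 (merge (leaf 4 624 753) (node 593 (merge (leaf 6 560 561) (leaf 6 592 625))))))))))))))) (node 527 (merge (leaf 7 495 495) (node 656 (merge (leaf 7 527 559) (node 689 (merge (leaf 4 560 657) (node 688 (merge (leaf 4 592 721) (node 687 (merge (leaf 5 559 655) (leaf 5 591 719)))))))))))))))))))))))))))) nB_6 cB_6 12 (by decide +kernel)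
def nB_7 : ℕ := 0x100000001000000000000000000000000000000000000000000000000000000000000000000000000000000000000000000000000000000000000000000000000000000000000
def cB_7 : ℕ := 0x280000003e0000003e000001ff000001ff800003bf000000ef8000002f0000001e000000380000003800000038000000000000000000000000000000000000000000000000000000000000000000000000000000000000000000000000000
theorem lB_7 : S nB_7 cB_7 13 := S_of_chk [(nB_6, cB_6, 12)] ⟨lB_6, trivial⟩ (node 592 (merge (node 496 (merge (node 593 (merge (leaf 4 496 625) (node 464 (merge (leaf 4 464 561) (node 463 (merge (leaf 7 431 431) (leaf 7 463 495))))))) (merge (node 625 (merge (leaf 4 496 593) (node 624 (merge (leaf 4 528 657) (node 623 (merge (leaf 5 495 591) (leaf 5 527 655))))))) (node 591 (merge (leaf 5 495 623) (node 464 (merge (leaf 5 463 559) (node 463 (merge (leaf 7 431 431) (leaf 7 463 495)))))))))) (merge (node 624 (merge (node 657 (merge (leaf 4 528 625) (node 656 (merge (leaf 4 560 689) (node 655 (merge (leaf 5 527 623) (leaf 5 559 687))))))) (merge (node 657 (merge (leaf 4 528 625) (node 656 (merge (leaf 4 560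 689) (node 527 (merge (leaf 7 495 495) (leaf 7 527 559))))))) (merge (node 655 (merge (leaf 5 527 623) (node 656 (merge (leaf 5 559 687) (node 527 (merge (leaf 7 495 495) (leaf 7 527 559))))))) (node 625 (merge (leaf 4 528 657) (node 623 (merge (leaf 5 527 655) (node 591 (merge (leaf 5 495 496) (node 626 (merge (leaf 3 590 590) (leaf 3 591 627))))))))))))) (merge (node 496 (merge (node 625 (merge (leaf 4 496 593) (node 624 (merge (leaf 4 528 657) (node 495 (merge (leaf 7 463 463) (leaf 7 495 527))))))) (merge (node 463 (merge (leaf 7 463 495) (node 464 (merge (leaf 7 431 431) (node 433 (merge (leaf 6 432 465) (node 432 (merge (leaf 6 400 401) (node 559 (merge (leaf 5 431 527) (leaf 5 463 591))))))))))) (merge (node 593 (merge (leaf 4 496 625) (node 464 (merge (leaf 4 464 561) (node 433 (merge (leaf 6 432 465) (node 432 (merge (leaf 6 400 401) (node 431 (merge (leaf 7 399 399) (leaf 7 431 463))))))))))) (node 593 (merge (leaf 4 496 625) (node 464 (merge (leaf 4 464 561) (node 433 (merge (leaf 6 432 465) (node 432 (merge (leaf 6 400 401) (node 527 (merge (leaf 5 431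 559) (node 495 (merge (leaf 5 399 400) (leaf 7 495 624))))))))))))))))) (merge (node 496 (merge (node 625 (merge (leaf 4 496 593) (node 624 (merge (leaf 4 528 657) (node 495 (merge (leaf 7 463 463) (leaf 7 495 527))))))) (merge (node 593 (merge (leaf 4 496 625) (node 464 (merge (leaf 4 464 561) (node 433 (merge (leaf 6 432 465) (node 432 (merge (leaf 6 400 401) (node 431 (merge (leaf 7 399 399) (leaf 7 431 463))))))))))) (merge (node 593 (merge (leaf 4 496 625) (node 464 (merge (leaf 4 464 561) (node 433 (merge (leaf 6 432 465) (node 432 (merge (leaf 6 400 401) (node 527 (merge (leaf 5 431 559) (node 495 (merge (leaf 5 399 400) (leaf 7 495 624))))))))))))) (merge (node 495 (merge (leaf 7 463 463) (node 624 (merge (leaf 7 495 527) (node 657 (merge (leaf 4 528 625) (node 656 (merge (leaf 4 560 689) (node 655 (merge (leaf 5 527 623) (leaf 5 559 687))))))))))) (node 495 (merge (leaf 7 463 463) (node 624 (merge (leaf 7 495 527) (node 655 (merge (leaf 5 527 623) (node 656 (merge (leaf 5 559 687) (node 689 (merge (leaf 4 560 657) (node 688 (merge (leaf 4 592 721) (node 561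 (merge (leaf 6 528 529) (leaf 6 560 593)))))))))))))))))))) (merge (node 623 (merge (node 591 (merge (leaf 5 495 496) (node 655 (merge (leaf 6 527 559) (leaf 6 559 687))))) (merge (node 496 (merge (leaf 5 495 591) (node 495 (merge (leaf 7 463 463) (node 624 (merge (leaf 7 495 527) (leaf 5 527 655))))))) (merge (node 496 (merge (leaf 5 495 591) (node 463 (merge (leaf 7 463 495) (node 464 (merge (leaf 7 431 431) (node 561 (merge (leaf 4 464 593) (node 432 (merge (leaf 4 432 529) (node 433 (merge (leaf 6 400 401) (leaf 6 432 465))))))))))))) (node 624 (merge (leaf 5 527 655) (node 527 (merge (leaf 7 495 495) (node 656 (merge (leaf 7 527 559) (node 689 (merge (leaf 4 560 657) (node 688 (merge (leaf 4 592 721) (node 561 (merge (leaf 6 528 529) (leaf 6 560 593))))))))))))))))) (merge (node 624 (merge (node 657 (merge (leaf 4 528 625) (node 656 (merge (leaf 4 560 689) (node 655 (merge (leaf 5 527 623) (leaf 5 559 687))))))) (merge (node 655 (merge (leaf 5 527 623) (node 656 (merge (leaf 5 559 687) (node 689 (merge (leaf 4 560 657) (node 688 (merge (leaf 4 592 721) (node 561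 (merge (leaf 6 528 529) (leaf 6 560 593))))))))))) (merge (node 657 (merge (leaf 4 528 625) (node 656 (merge (leaf 4 560 689) (node 687 (merge (leaf 5 559 655) (node 688 (merge (leaf 5 591 719) (node 561 (merge (leaf 6 528 529) (leaf 6 560 593))))))))))) (merge (node 657 (merge (leaf 4 528 625) (node 656 (merge (leaf 4 560 689) (node 561 (merge (leaf 6 528 529) (node 593 (merge (leaf 6 560 688) (node 496 (merge (leaf 4 464 464) (node 591 (merge (leaf 5 495 623) (node 590 (merge (leaf 2 558 562) (leaf 2 557 589))))))))))))))) (node 623 (merge (leaf 5 527 655) (node 496 (merge (leaf 5 495 591) (node 495 (merge (leaf 7 463 463) (leaf 7 495 527)))))))))))) (merge (node 623 (merge (node 591 (merge (leaf 5 495 496) (node 655 (merge (leaf 6 527 559) (leaf 6 559 687))))) (merge (node 496 (merge (leaf 5 495 591) (node 593 (merge (leaf 4 496 625) (node 464 (merge (leaf 4 464 561) (node 463 (merge (leaf 7 431 431) (leaf 7 463 495))))))))) (node 624 (merge (leaf 5 527 655) (node 527 (merge (leaf 7 495 495) (node 656 (merge (leaf 7 527 559) (node 561 (merge (leaf 6 528 529) (node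 688 (merge (leaf 6 560 593) (node 721 (merge (leaf 4 592 689) (node 720 (merge (leaf 4 624 753) (node 719 (merge (leaf 5 591 687) (leaf 5 623 751)))))))))))))))))))) (merge (node 624 (merge (node 657 (merge (leaf 4 528 625) (node 656 (merge (leaf 4 560 689) (node 655 (merge (leaf 5 527 623) (leaf 5 559 687))))))) (merge (node 625 (merge (leaf 4 528 657) (node 496 (merge (leaf 4 496 593) (node 591 (merge (leaf 5 495 623) (node 464 (merge (leaf 5 463 559) (node 433 (merge (leaf 6 432 465) (node 432 (merge (leaf 6 400 401) (node 431 (merge (leaf 7 399 399) (leaf 7 431 463))))))))))))))) (merge (node 655 (merge (leaf 5 527 623) (node 656 (merge (leaf 5 559 687) (node 559 (merge (leaf 7 527 527) (node 688 (merge (leaf 7 559 591) (node 689 (merge (leaf 4 560 657) (leaf 4 592 721))))))))))) (merge (node 657 (merge (leaf 4 528 625) (node 656 (merge (leaf 4 560 689) (node 559 (merge (leaf 7 527 527) (node 688 (merge (leaf 7 559 591) (node 687 (merge (leaf 5 559 655) (leaf 5 591 719))))))))))) (node 655 (merge (leaf 5 527 623) (node 656 (merge (leaf 5 559 687) (node 559 (merge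 (leaf 7 527 527) (node 688 (merge (leaf 7 559 591) (node 721 (merge (leaf 4 592 689) (node 720 (merge (leaf 4 624 753) (node 593 (merge (leaf 6 560 561) (leaf 6 592 625)))))))))))))))))))) (merge (node 591 (merge (node 623 (merge (leaf 5 495 496) (node 655 (merge (leaf 6 527 559) (leaf 6 559 687))))) (merge (node 496 (merge (leaf 5 495 623) (node 593 (merge (leaf 4 496 625) (node 561 (merge (leaf 4 464 464) (node 590 (merge (leaf 2 558 562) (leaf 2 557 589))))))))) (merge (node 590 (merge (node 561 (merge (leaf 2 557 589) (node 562 (merge (leaf 1 558 559) (leaf 1 559 563))))) (merge (node 561 (merge (leaf 2 557 589) (node 593 (merge (leaf 2 558 562) (node 625 (merge (leaf 0 590 626) (leaf 7 528 657))))))) (merge (node 589 (merge (node 588 (merge (leaf 2 556 559) (node 620 (merge (leaf 1 587 619) (leaf 1 588 621))))) (merge (node 621 (merge (leaf 1 588 620) (node 593 (merge (leaf 1 589 622) (node 557 (merge (leaf 3 556 556) (leaf 3 557 558))))))) (node 559 (merge (leaf 2 556 588) (node 557 (merge (leaf 3 556 556) (node 558 (merge (leaf 2 525 529) (leaf 0 557 593))))))))))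 (node 593 (merge (node 625 (merge (leaf 4 496 496) (leaf 0 590 626))) (merge (node 625 (merge (leaf 0 590 626) (node 561 (merge (leaf 2 558 562) (leaf 7 528 657))))) (node 622 (merge (leaf 1 589 621) (node 561 (merge (leaf 2 558 562) (node 558 (merge (leaf 3 557 557) (node 496 (merge (leaf 4 464 464) (node 495 (merge (leaf 7 463 463) (node 527 (merge (leaf 6 494 526) (leaf 5 494 559)))))))))))))))))))) (node 590 (merge (node 561 (merge (leaf 2 557 589) (node 562 (merge (leaf 1 559 563) (leaf 2 558 593))))) (merge (node 589 (merge (leaf 2 557 561) (node 588 (merge (leaf 2 556 559) (node 556 (merge (leaf 3 555 555) (leaf 3 556 557))))))) (merge (node 589 (merge (node 588 (merge (leaf 2 556 559) (node 620 (merge (leaf 1 587 619) (leaf 1 588 621))))) (merge (node 621 (merge (leaf 1 588 620) (node 593 (merge (leaf 1 589 622) (node 557 (merge (leaf 3 556 556) (leaf 3 557 558))))))) (node 559 (merge (leaf 2 556 588) (node 557 (merge (leaf 3 556 556) (node 558 (merge (leaf 0 557 593) (node 525 (merge (leaf 3 524 524) (node 622 (merge (leaf 4 493 493) (leaf 7 525 654))))))))))))))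 (node 623 (merge (node 655 (merge (leaf 6 527 559) (leaf 6 559 687))) (merge (node 593 (merge (node 561 (merge (leaf 2 558 562) (node 558 (merge (leaf 3 557 557) (node 526 (merge (leaf 4 494 494) (node 525 (merge (leaf 0 525 527) (leaf 3 525 559))))))))) (merge (node 625 (merge (leaf 0 590 626) (node 657 (merge (leaf 7 528 561) (leaf 7 560 689))))) (node 622 (merge (leaf 1 589 621) (node 558 (merge (leaf 3 557 557) (node 526 (merge (leaf 4 494 494) (node 527 (merge (leaf 6 494 495) (node 654 (merge (leaf 5 526 559) (node 685 (merge (leaf 5 557 653) (node 686 (merge (leaf 5 589 717) (leaf 6 590 718)))))))))))))))))) (node 593 (merge (node 625 (merge (leaf 0 590 626) (node 561 (merge (leaf 2 558 562) (leaf 7 528 657))))) (node 558 (merge (leaf 3 557 557) (node 655 (merge (leaf 7 558 687) (node 526 (merge (leaf 4 494 494) (leaf 4 526 622)))))))))))))))))))) (hyp 0))))))))))) nB_7 cB_7 13 (by decide +kernel)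
def nB_8 : ℕ := 0x100000001000000000000000000000000000000000000000000000000000000000000000000000000000000000000000000000000000000000000000000000000000000000000
def cB_8 : ℕ := 0x2800000038000000380000003000000038000003ef800001ef800000ff000001ff000000fe0000003c000000380000002800000000000000000000000000000000000000000000000000000000000000000000000000000000000
theorem lB_8 : S nB_8 cB_8 12 := S_of_chk [] trivial (node 496 (merge (node 464 (merge (node 593 (merge (leaf 4 464 561) (node 592 (merge (leaf 4 496 625) (node 463 (merge (leaf 7 431 431) (leaf 7 463 495))))))) (merge (node 433 (merge (leaf 6 432 465) (node 432 (merge (leaf 6 400 401) (node 431 (merge (leaf 7 399 399) (leaf 7 431 463))))))) (node 593 (merge (leaf 4 464 561) (node 465 (merge (leaf 6 432 433) (node 592 (merge (leaf 6 464 497) (leaf 4 496 625)))))))))) (merge (node 463 (merge (node 495 (merge (leaf 7 463 592) (node 431 (merge (leaf 4 399 399) (leaf 4 431 527))))) (merge (node 464 (merge (leaf 7 431 431) (node 593 (merge (leaf 4 464 561) (node 592 (merge (leaf 7 463 495) (leaf 4 496 625))))))) (merge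 (node 464 (merge (leaf 7 431 431) (node 561 (merge (leaf 4 464 593) (node 432 (merge (leaf 4 432 529) (node 559 (merge (leaf 5 431 527) (leaf 5 463 591))))))))) (node 592 (merge (leaf 7 463 495) (node 593 (merge (leaf 4 496 625) (node 464 (merge (leaf 4 464 561) (node 559 (merge (leaf 5 463 591) (node 558 (merge (leaf 0 557 557) (node 527 (merge (leaf 5 431 432) (node 624 (merge (leaf 7 527 656) (node 529 (merge (leaf 6 496 497) (leaf 1 526 530))))))))))))))))))))) (merge (node 593 (merge (node 625 (merge (leaf 4 496 592) (node 561 (merge (leaf 7 496 529) (leaf 7 528 657))))) (merge (node 464 (merge (leaf 4 464 561) (node 433 (merge (leaf 6 432 465) (node 432 (merge (leaf 6 400 401) (node 559 (merge (leaf 5 431 527) (leaf 5 463 591))))))))) (node 592 (merge (leaf 4 496 625) (node 497 (merge (leaf 6 464 465) (node 624 (merge (leaf 6 496 529) (node 527 (merge (leaf 7 495 495) (node 656 (merge (leaf 7 527 559) (node 689 (merge (leaf 4 560 657) (node 688 (merge (leaf 4 592 721) (node 687 (merge (leaf 5 559 655) (leaf 5 591 719)))))))))))))))))))) (merge (node 592 (merge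 (node 465 (merge (leaf 6 464 497) (node 464 (merge (leaf 6 432 433) (node 463 (merge (leaf 7 431 431) (leaf 7 463 495))))))) (merge (node 495 (merge (leaf 7 463 463) (node 624 (merge (leaf 7 495 527) (node 657 (merge (leaf 4 528 625) (node 656 (merge (leaf 4 560 689) (node 529 (merge (leaf 6 496 497) (leaf 6 528 561))))))))))) (merge (node 463 (merge (leaf 7 463 495) (node 464 (merge (leaf 7 431 431) (node 433 (merge (leaf 6 432 465) (node 432 (merge (leaf 6 400 401) (node 559 (merge (leaf 5 431 527) (leaf 5 463 591))))))))))) (node 497 (merge (leaf 6 464 465) (node 624 (merge (leaf 6 496 529) (node 657 (merge (leaf 4 528 625) (node 656 (merge (leaf 4 560 689) (node 559 (merge (leaf 7 527 527) (node 688 (merge (leaf 7 559 591) (node 687 (merge (leaf 5 559 655) (leaf 5 591 719))))))))))))))))))) (merge (node 593 (merge (node 561 (merge (leaf 4 464 464) (node 625 (merge (leaf 7 496 529) (leaf 7 528 657))))) (merge (node 625 (merge (leaf 4 496 592) (node 561 (merge (leaf 7 496 529) (leaf 7 528 657))))) (merge (node 464 (merge (leaf 4 464 561) (node 465 (merge (leaf 6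 432 433) (node 497 (merge (leaf 6 464 592) (node 463 (merge (leaf 7 431 431) (node 498 (merge (leaf 0 462 462) (leaf 3 463 499))))))))))) (node 592 (merge (leaf 4 496 625) (node 465 (merge (leaf 6 464 497) (node 464 (merge (leaf 6 432 433) (node 559 (merge (leaf 5 463 591) (node 432 (merge (leaf 5 431 527) (node 431 (merge (leaf 7 399 399) (leaf 7 431 463))))))))))))))))) (merge (node 464 (merge (node 433 (merge (leaf 6 432 465) (node 432 (merge (leaf 6 400 401) (node 431 (merge (leaf 7 399 399) (leaf 7 431 463))))))) (merge (node 561 (merge (leaf 4 464 593) (node 432 (merge (leaf 4 432 529) (node 559 (merge (leaf 5 431 527) (leaf 5 463 591))))))) (merge (node 561 (merge (leaf 4 464 593) (node 432 (merge (leaf 4 432 529) (node 559 (merge (leaf 5 431 527) (leaf 5 463 591))))))) (node 561 (merge (leaf 4 464 593) (node 559 (merge (leaf 5 463 591) (node 463 (merge (leaf 7 431 431) (node 592 (merge (leaf 7 463 495) (node 497 (merge (leaf 6 464 465) (node 624 (merge (leaf 6 496 529) (node 527 (merge (leaf 7 527 656) (node 526 (merge (leaf 0 525 525) (leaf 3 526 562)))))))))))))))))))))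 (merge (node 464 (merge (node 593 (merge (leaf 4 464 561) (node 592 (merge (leaf 4 496 625) (node 463 (merge (leaf 7 431 431) (leaf 7 463 495))))))) (merge (node 433 (merge (leaf 6 432 465) (node 432 (merge (leaf 6 400 401) (node 431 (merge (leaf 7 399 399) (leaf 7 431 463))))))) (node 561 (merge (leaf 4 464 593) (node 432 (merge (leaf 4 432 529) (node 527 (merge (leaf 5 431 559) (node 400 (merge (leaf 5 399 495) (node 369 (merge (leaf 6 368 401) (node 368 (merge (leaf 6 336 337) (node 367 (merge (leaf 7 335 335) (leaf 7 367 399)))))))))))))))))) (merge (node 495 (merge (node 592 (merge (leaf 7 463 463) (node 625 (merge (leaf 4 496 593) (node 624 (merge (leaf 7 495 527) (leaf 4 528 657))))))) (merge (node 592 (merge (leaf 7 463 463) (node 625 (merge (leaf 4 496 593) (node 497 (merge (leaf 6 464 465) (node 624 (merge (leaf 6 496 529) (leaf 4 528 657))))))))) (merge (node 494 (merge (node 529 (merge (leaf 0 493 493) (node 530 (merge (leaf 3 494 527) (leaf 3 495 531))))) (merge (node 493 (merge (leaf 0 493 529) (node 525 (merge (leaf 1 492 524) (node 497 (merge (leaf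 1 493 526) (node 461 (merge (leaf 3 460 460) (leaf 3 461 462))))))))) (merge (node 497 (merge (node 465 (merge (leaf 2 462 466) (node 433 (merge (leaf 5 400 401) (leaf 5 432 529))))) (node 462 (merge (leaf 3 461 461) (node 498 (merge (leaf 3 462 463) (node 531 (merge (leaf 0 495 530) (node 499 (merge (leaf 1 495 527) (leaf 0 496 532))))))))))) (node 493 (merge (node 492 (merge (leaf 0 492 527) (node 524 (merge (leaf 1 491 523) (leaf 1 492 525))))) (merge (node 527 (merge (leaf 0 492 492) (node 461 (merge (leaf 3 460 460) (node 497 (merge (leaf 3 461 462) (node 498 (merge (leaf 1 495 499) (leaf 1 494 526))))))))) (merge (node 527 (merge (leaf 0 492 492) (node 525 (merge (leaf 1 492 524) (node 497 (merge (leaf 1 493 526) (node 498 (merge (leaf 1 495 499) (node 463 (merge (leaf 4 431 431) (leaf 3 462 462))))))))))) (node 525 (merge (leaf 1 492 524) (node 497 (merge (leaf 1 493 526) (node 461 (merge (leaf 3 460 460) (leaf 3 461 462))))))))))))))) (node 497 (merge (node 465 (merge (leaf 6 464 592) (node 433 (merge (leaf 5 400 401) (leaf 5 432 529))))) (merge (node 498 (merge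 (node 527 (merge (leaf 1 495 499) (node 526 (merge (leaf 1 494 495) (leaf 2 493 525))))) (merge (node 531 (merge (leaf 0 495 530) (node 499 (merge (leaf 0 496 532) (node 467 (merge (leaf 2 463 466) (leaf 2 464 468))))))) (node 466 (merge (leaf 2 463 467) (node 494 (merge (leaf 2 462 465) (node 526 (merge (leaf 1 493 525) (leaf 1 494 527)))))))))) (node 494 (merge (node 529 (merge (leaf 0 493 493) (leaf 0 494 530))) (merge (node 529 (merge (leaf 0 493 493) (leaf 0 494 530))) (merge (node 461 (merge (leaf 3 461 462) (node 493 (merge (leaf 3 460 460) (node 492 (merge (leaf 0 492 527) (node 524 (merge (leaf 1 491 523) (leaf 1 492 525))))))))) (node 530 (merge (leaf 0 494 529) (node 498 (merge (leaf 0 495 531) (node 526 (merge (leaf 1 493 525) (leaf 1 494 527)))))))))))))))))) (node 527 (merge (node 561 (merge (node 526 (merge (leaf 0 525 525) (node 562 (merge (leaf 3 526 559) (leaf 3 527 563))))) (node 593 (merge (leaf 4 464 464) (node 625 (merge (leaf 7 496 529) (leaf 7 528 657))))))) (merge (node 464 (merge (node 561 (merge (leaf 4 464 593) (node 526 (merge (leaf 0 525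 525) (node 562 (merge (leaf 0 526 529) (leaf 3 527 563))))))) (node 433 (merge (leaf 6 432 465) (node 432 (merge (leaf 6 400 401) (node 431 (merge (leaf 7 399 399) (leaf 7 431 463))))))))) (merge (node 464 (merge (node 433 (merge (leaf 6 432 465) (node 432 (merge (leaf 6 400 401) (node 431 (merge (leaf 7 399 399) (leaf 7 431 463))))))) (node 561 (merge (leaf 4 464 593) (node 562 (merge (leaf 3 527 563) (node 559 (merge (leaf 3 526 526) (leaf 5 463 591))))))))) (merge (node 526 (merge (node 497 (merge (leaf 2 493 525) (node 498 (merge (leaf 1 494 495) (leaf 1 495 499))))) (merge (node 525 (merge (leaf 2 493 497) (node 524 (merge (leaf 0 524 559) (node 556 (merge (leaf 1 523 555) (leaf 1 524 557))))))) (merge (node 464 (merge (node 559 (merge (leaf 5 431 432) (leaf 5 463 591))) (merge (node 433 (merge (leaf 6 432 465) (node 432 (merge (leaf 6 400 401) (node 431 (merge (leaf 7 399 399) (leaf 7 431 463))))))) (node 559 (merge (leaf 5 463 591) (node 525 (merge (leaf 0 524 524) (node 493 (merge (leaf 3 492 492) (node 465 (merge (leaf 6 432 433) (node 494 (merge (leaf 2 461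 495) (node 463 (merge (leaf 7 431 431) (leaf 1 461 462)))))))))))))))) (node 497 (merge (node 498 (merge (leaf 1 495 499) (leaf 2 494 529))) (merge (node 498 (merge (leaf 1 494 495) (leaf 1 495 499))) (node 464 (merge (node 559 (merge (leaf 5 431 432) (leaf 5 463 591))) (merge (node 432 (merge (leaf 5 431 559) (node 400 (merge (leaf 5 399 495) (leaf 4 400 529))))) (merge (node 433 (merge (leaf 6 432 465) (node 432 (merge (leaf 6 400 401) (node 431 (merge (leaf 7 399 399) (leaf 7 431 463))))))) (node 559 (merge (leaf 5 463 591) (node 465 (merge (leaf 6 432 433) (node 463 (merge (leaf 7 431 431) (node 462 (merge (leaf 0 461 461) (node 430 (merge (leaf 3 429 429) (leaf 4 430 494)))))))))))))))))))))) (merge (node 526 (merge (node 525 (merge (leaf 2 493 497) (leaf 0 525 561))) (merge (node 525 (merge (leaf 2 493 497) (node 524 (merge (leaf 2 492 495) (leaf 0 524 559))))) (merge (node 525 (merge (leaf 0 525 561) (node 524 (merge (leaf 2 492 495) (leaf 0 524 559))))) (node 529 (merge (node 562 (merge (leaf 0 526 561) (node 530 (merge (leaf 0 527 563) (node 498 (merge (leaf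 2 494 497) (leaf 2 495 499))))))) (merge (node 498 (merge (leaf 2 494 497) (node 530 (merge (leaf 2 495 499) (node 563 (merge (leaf 0 527 562) (node 531 (merge (leaf 1 527 559) (leaf 0 528 564))))))))) (merge (node 494 (merge (leaf 3 493 493) (node 530 (merge (leaf 3 494 495) (node 531 (merge (leaf 1 527 559) (node 564 (merge (leaf 0 528 563) (node 532 (merge (leaf 1 528 561) (leaf 0 529 565))))))))))) (node 497 (merge (leaf 2 494 498) (node 494 (merge (leaf 3 493 493) (node 465 (merge (leaf 5 432 433) (node 495 (merge (leaf 2 462 466) (node 462 (merge (leaf 3 461 461) (node 430 (merge (leaf 4 398 398) (leaf 4 430 559))))))))))))))))))))) (node 495 (merge (node 464 (merge (node 559 (merge (leaf 5 431 432) (leaf 5 463 591))) (node 465 (merge (leaf 6 432 433) (node 494 (merge (leaf 2 461 493) (node 466 (merge (leaf 1 463 467) (leaf 2 462 497))))))))) (merge (node 464 (merge (node 465 (merge (leaf 6 432 433) (node 494 (merge (leaf 2 461 493) (node 463 (merge (leaf 7 431 431) (leaf 1 462 466))))))) (merge (node 561 (merge (leaf 4 464 593) (node 432 (merge (leaf 4 432 529)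 (node 433 (merge (leaf 6 400 401) (leaf 6 432 465))))))) (node 561 (merge (leaf 4 464 593) (node 432 (merge (leaf 4 432 529) (node 431 (merge (leaf 7 399 399) (leaf 7 431 463)))))))))) (merge (node 464 (merge (node 561 (merge (leaf 4 464 593) (node 432 (merge (leaf 4 432 529) (node 433 (merge (leaf 6 400 401) (leaf 6 432 465))))))) (merge (node 561 (merge (leaf 4 464 593) (node 432 (merge (leaf 4 432 529) (node 431 (merge (leaf 7 399 399) (leaf 7 431 463))))))) (merge (node 433 (merge (leaf 6 432 465) (node 432 (merge (leaf 6 400 401) (node 431 (merge (leaf 7 399 399) (leaf 7 431 463))))))) (node 561 (merge (leaf 4 464 593) (node 465 (merge (leaf 6 432 433) (node 466 (merge (leaf 1 463 467) (node 463 (merge (leaf 7 431 431) (node 498 (merge (leaf 0 463 499) (node 497 (merge (leaf 0 462 462) (node 434 (merge (leaf 2 431 435) (leaf 6 433 529))))))))))))))))))) (merge (node 464 (merge (node 559 (merge (leaf 5 431 432) (leaf 5 463 591))) (merge (node 432 (merge (leaf 5 399 400) (node 529 (merge (leaf 4 432 561) (node 530 (merge (leaf 3 494 494) (leaf 3 495 531))))))) (node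 463 (merge (leaf 4 431 431) (node 559 (merge (leaf 5 463 591) (node 462 (merge (leaf 7 430 430) (node 461 (merge (leaf 0 460 460) (leaf 0 461 497)))))))))))) (node 494 (merge (node 529 (merge (leaf 0 493 493) (node 530 (merge (leaf 3 494 527) (leaf 3 495 531))))) (merge (node 493 (merge (leaf 0 493 529) (node 492 (merge (leaf 0 492 527) (node 524 (merge (leaf 1 491 523) (leaf 1 492 525))))))) (merge (node 497 (merge (node 466 (merge (leaf 2 462 465) (node 498 (merge (leaf 2 463 467) (node 462 (merge (leaf 3 461 461) (leaf 3 462 463))))))) (merge (node 461 (merge (leaf 3 461 462) (node 493 (merge (leaf 3 460 460) (node 492 (merge (leaf 0 492 527) (node 524 (merge (leaf 1 491 523) (leaf 1 492 525))))))))) (node 466 (merge (leaf 2 462 465) (node 498 (merge (leaf 2 463 467) (node 531 (merge (leaf 0 495 530) (node 499 (merge (leaf 1 495 527) (leaf 0 496 532)))))))))))) (node 497 (merge (node 465 (merge (leaf 2 462 466) (node 433 (merge (leaf 5 400 401) (leaf 5 432 529))))) (merge (node 530 (merge (leaf 0 494 529) (node 498 (merge (leaf 0 495 531) (node 462 (merge (leaf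 3 461 461) (leaf 3 462 463))))))) (node 466 (merge (leaf 2 462 465) (node 498 (merge (leaf 2 463 467) (node 462 (merge (leaf 3 461 461) (leaf 3 462 463)))))))))))))))))))))))))))))))))) nB_8 cB_8 12 (by decide +kernel)
def nB_9 : ℕ := 0x100000001000000010000000000000000000000000000000000000000000000000000000000000000000000000000000000000000000000000000000000000000000000000000
def cB_9 : ℕ := 0xe0000004f000003ef000001ef000003ff000000fc0000007c000000500000000000000000000000000000000000000000000000000000000000000000000000000000000000000000000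
theorem lB_9 : S nB_9 cB_9 11 := S_of_chk [] trivial (node 465 (merge (node 433 (merge (leaf 6 432 464) (node 497 (merge (leaf 5 400 401) (leaf 5 432 529))))) (merge (node 464 (merge (leaf 6 432 433) (node 559 (merge (leaf 5 463 591) (node 432 (merge (leaf 5 431 527) (node 431 (merge (leaf 7 399 399) (leaf 7 431 463))))))))) (merge (node 497 (merge (node 433 (merge (leaf 5 400 401) (leaf 5 432 529))) (merge (node 498 (merge (node 527 (merge (leaf 1 495 499) (node 526 (merge (leaf 1 494 495) (leaf 2 493 525))))) (merge (node 499 (merge (leaf 1 495 527) (node 532 (merge (leaf 0 496 531) (node 500 (merge (leaf 1 496 529) (leaf 0 497 533))))))) (merge (node 495 (merge (node 463 (merge (leaf 3 462 462) (node 431 (merge (leaf 4 399 399) (leaf 4 431 527))))) (node 466 (merge (leaf 2 463 467) (node 494 (merge (leaf 2 462 465) (node 529 (merge (leaf 0 493 493) (leaf 0 494 530))))))))) (node 531 (merge (node 495 (merge (leaf 0 495 530) (node 499 (merge (leaf 0 496 532) (node 467 (merge (leaf 2 463 466) (leaf 2 464 468))))))) (merge (node 495 (merge (leaf 0 495 530) (node 466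 (merge (leaf 2 463 467) (node 494 (merge (leaf 2 462 465) (node 493 (merge (leaf 0 493 529) (node 525 (merge (leaf 1 492 524) (leaf 1 493 526))))))))))) (merge (node 499 (merge (leaf 0 496 532) (node 529 (merge (leaf 1 496 500) (node 467 (merge (leaf 2 464 468) (node 495 (merge (leaf 2 463 466) (node 494 (merge (leaf 0 493 493) (node 462 (merge (leaf 3 461 461) (leaf 3 462 463))))))))))))) (node 532 (merge (leaf 0 496 499) (node 530 (merge (leaf 3 496 529) (leaf 3 497 533))))))))))))) (node 495 (merge (node 466 (merge (leaf 2 462 494) (node 467 (merge (leaf 1 464 468) (leaf 2 463 498))))) (merge (node 463 (merge (node 431 (merge (leaf 4 399 399) (leaf 4 431 527))) (merge (node 498 (merge (leaf 3 462 462) (node 531 (merge (leaf 0 495 530) (node 499 (merge (leaf 1 495 527) (leaf 0 496 532))))))) (node 498 (merge (leaf 3 462 462) (node 530 (merge (leaf 0 495 531) (node 466 (merge (leaf 2 463 467) (node 433 (merge (leaf 4 401 401) (leaf 7 433 562)))))))))))) (merge (node 463 (merge (node 431 (merge (leaf 4 399 399) (leaf 4 431 527))) (merge (node 498 (merge (leaf 3 462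 462) (node 531 (merge (leaf 0 495 530) (node 499 (merge (leaf 1 495 527) (leaf 0 496 532))))))) (node 462 (merge (leaf 3 462 498) (node 461 (merge (leaf 0 460 460) (leaf 3 461 494)))))))) (node 494 (merge (leaf 2 462 466) (node 525 (merge (leaf 1 493 526) (node 493 (merge (leaf 1 492 524) (node 527 (merge (leaf 0 492 492) (node 462 (merge (leaf 3 461 461) (node 430 (merge (leaf 4 398 398) (node 463 (merge (leaf 4 431 431) (leaf 7 430 559)))))))))))))))))))))) (node 495 (merge (node 466 (merge (node 464 (merge (leaf 1 463 467) (node 463 (merge (leaf 7 431 431) (leaf 1 462 494))))) (merge (node 467 (merge (leaf 1 463 464) (node 497 (merge (leaf 1 464 468) (leaf 2 463 498))))) (merge (node 494 (merge (leaf 2 462 497) (node 463 (merge (leaf 1 462 464) (node 431 (merge (leaf 4 399 399) (leaf 4 431 527))))))) (node 497 (merge (leaf 2 462 494) (node 498 (merge (leaf 2 463 467) (node 463 (merge (leaf 3 462 462) (node 431 (merge (leaf 4 399 399) (leaf 4 431 527))))))))))))) (merge (node 494 (merge (node 529 (merge (leaf 0 493 493) (node 530 (merge (leaf 3 494 527) (leaf 3 495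 531))))) (merge (node 497 (merge (leaf 2 462 466) (node 530 (merge (leaf 0 494 529) (node 498 (merge (leaf 0 495 531) (node 526 (merge (leaf 1 493 525) (leaf 1 494 527))))))))) (node 493 (merge (leaf 2 461 464) (node 497 (merge (leaf 2 462 466) (node 525 (merge (leaf 1 492 524) (leaf 1 493 526)))))))))) (merge (node 494 (merge (node 529 (merge (leaf 0 493 493) (node 530 (merge (leaf 3 494 527) (leaf 3 495 531))))) (node 497 (merge (leaf 2 462 466) (node 526 (merge (leaf 1 493 525) (node 462 (merge (leaf 3 461 461) (node 463 (merge (leaf 3 462 498) (node 431 (merge (leaf 4 399 399) (leaf 6 430 558))))))))))))) (merge (node 497 (merge (node 494 (merge (leaf 2 462 466) (node 529 (merge (leaf 0 493 493) (leaf 0 494 530))))) (merge (node 494 (merge (leaf 2 462 466) (node 493 (merge (leaf 2 461 464) (leaf 0 493 529))))) (merge (node 498 (merge (node 463 (merge (leaf 3 462 462) (node 431 (merge (leaf 4 399 399) (leaf 7 431 464))))) (node 531 (merge (leaf 0 495 530) (node 499 (merge (leaf 0 496 532) (node 467 (merge (leaf 2 463 466) (leaf 2 464 468))))))))) (node 530 (merge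 (node 531 (merge (leaf 0 495 498) (leaf 3 495 529))) (merge (node 498 (merge (leaf 0 495 531) (node 463 (merge (leaf 3 462 462) (node 464 (merge (leaf 7 431 431) (leaf 3 463 499))))))) (node 494 (merge (leaf 0 494 529) (node 525 (merge (leaf 1 493 526) (node 493 (merge (leaf 2 461 464) (leaf 1 492 524)))))))))))))) (merge (node 464 (merge (node 466 (merge (leaf 1 463 467) (node 463 (merge (leaf 7 431 431) (leaf 1 462 494))))) (merge (node 431 (merge (leaf 7 431 463) (node 432 (merge (leaf 7 399 399) (node 527 (merge (leaf 5 431 559) (node 400 (merge (leaf 5 399 495) (node 497 (merge (leaf 4 368 368) (leaf 4 400 529))))))))))) (node 494 (merge (leaf 2 461 493) (node 497 (merge (leaf 2 462 466) (node 559 (merge (leaf 5 463 591) (node 432 (merge (leaf 5 431 527) (node 400 (merge (leaf 4 368 368) (leaf 4 400 529)))))))))))))) (merge (node 463 (merge (node 431 (merge (leaf 4 399 399) (leaf 7 431 464))) (merge (node 431 (merge (leaf 4 399 399) (leaf 4 431 527))) (node 497 (merge (node 498 (merge (leaf 3 462 462) (node 499 (merge (leaf 3 463 464) (leaf 1 495 527))))) (merge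 (node 494 (merge (node 529 (merge (leaf 0 493 493) (leaf 0 494 530))) (merge (node 529 (merge (leaf 0 493 493) (leaf 0 494 530))) (merge (node 525 (merge (leaf 1 493 526) (node 493 (merge (leaf 1 492 524) (node 461 (merge (leaf 3 460 460) (leaf 3 461 462))))))) (node 529 (merge (leaf 0 494 530) (node 526 (merge (leaf 1 493 525) (node 462 (merge (leaf 3 461 461) (node 558 (merge (leaf 6 462 590) (node 557 (merge (leaf 1 525 527) (leaf 5 461 589))))))))))))))) (merge (node 526 (merge (node 525 (merge (leaf 1 493 494) (leaf 2 493 527))) (merge (node 494 (merge (leaf 1 493 525) (node 529 (merge (leaf 0 493 493) (leaf 0 494 530))))) (node 498 (merge (leaf 1 494 527) (node 499 (merge (leaf 3 463 464) (node 532 (merge (leaf 0 496 531) (node 500 (merge (leaf 1 496 529) (leaf 0 497 533)))))))))))) (node 498 (merge (leaf 3 462 462) (node 531 (merge (leaf 0 495 530) (node 499 (merge (leaf 0 496 532) (node 500 (merge (leaf 1 496 529) (node 468 (merge (leaf 2 464 467) (leaf 2 465 469)))))))))))))))))) (merge (node 463 (merge (node 431 (merge (leaf 4 399 399) (leaf 7 431 464)))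 (merge (node 431 (merge (leaf 4 399 399) (leaf 4 431 527))) (node 464 (merge (node 466 (merge (leaf 1 462 494) (node 499 (merge (leaf 0 463 498) (node 467 (merge (leaf 1 463 496) (leaf 0 464 500))))))) (node 559 (merge (leaf 5 463 591) (node 527 (merge (leaf 5 431 432) (node 558 (merge (leaf 5 462 590) (node 557 (merge (leaf 2 525 529) (leaf 2 524 556)))))))))))))) (node 463 (merge (node 431 (merge (leaf 4 399 399) (leaf 7 431 464))) (merge (node 431 (merge (leaf 4 399 399) (leaf 4 431 527))) (node 464 (merge (node 559 (merge (leaf 5 463 591) (node 527 (merge (leaf 5 431 432) (node 558 (merge (leaf 5 462 590) (node 557 (merge (leaf 2 525 529) (leaf 2 524 556))))))))) (merge (node 466 (merge (leaf 1 463 467) (node 498 (merge (leaf 0 463 499) (node 497 (merge (leaf 0 462 462) (node 434 (merge (leaf 2 431 435) (node 402 (merge (leaf 5 369 370) (leaf 5 401 529))))))))))) (node 466 (merge (leaf 1 463 467) (node 498 (merge (leaf 0 463 499) (node 462 (merge (leaf 0 462 497) (node 559 (merge (leaf 5 463 591) (node 527 (merge (leaf 7 430 430) (leaf 5 431 432)))))))))))))))))))))))))))))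 nB_9 cB_9 11 (by decide +kernel)
def nB_10 : ℕ := 0x300000001000000000000000000000000000000000000000000000000000000000000000000000000000000000000000000000000000000000000000000000000000000000000
def cB_10 : ℕ := 0x280000003800000078000000be0000008e000007ee000003f0000007fe0000007800000078000000280000000000000000000000000000000000000000000000000000000000000000000000000000000000000000000
theorem lB_10 : S nB_10 cB_10 12 := S_of_chk [] trivial (node 497 (merge (node 592 (merge (node 529 (merge (leaf 5 464 465) (leaf 6 496 624))) (merge (node 496 (merge (leaf 6 464 465) (node 593 (merge (leaf 4 464 464) (leaf 4 496 625))))) (node 624 (merge (leaf 6 496 529) (node 623 (merge (leaf 5 527 655) (node 496 (merge (leaf 5 495 591) (node 593 (merge (leaf 4 464 464) (leaf 4 496 625)))))))))))) (merge (node 465 (merge (node 592 (merge (leaf 6 464 496) (node 529 (merge (leaf 5 464 561) (leaf 6 496 624))))) (merge (node 433 (merge (leaf 5 432 529) (node 496 (merge (leaf 5 400 401) (leaf 6 432 464))))) (merge (node 529 (merge (leaf 5 432 433) (node 592 (merge (leaf 5 464 561) (leaf 6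 496 624))))) (node 496 (merge (leaf 6 464 592) (node 464 (merge (leaf 6 432 433) (node 463 (merge (leaf 7 431 431) (node 498 (merge (leaf 0 462 462) (leaf 3 463 499))))))))))))) (merge (node 496 (merge (node 593 (merge (leaf 4 464 464) (node 625 (merge (leaf 4 496 592) (leaf 7 528 657))))) (merge (node 464 (merge (leaf 4 464 593) (node 463 (merge (leaf 7 431 431) (node 462 (merge (leaf 0 461 461) (node 498 (merge (leaf 0 462 465) (leaf 3 463 499))))))))) (merge (node 465 (merge (leaf 6 464 592) (node 464 (merge (leaf 6 432 433) (node 463 (merge (leaf 7 431 431) (node 498 (merge (leaf 0 462 462) (leaf 3 463 499))))))))) (node 592 (merge (leaf 6 464 465) (node 625 (merge (leaf 4 496 593) (node 624 (merge (leaf 4 528 657) (node 623 (merge (leaf 5 495 591) (leaf 5 527 655))))))))))))) (merge (node 592 (merge (node 465 (merge (leaf 6 464 496) (node 529 (merge (leaf 5 432 433) (leaf 5 464 561))))) (merge (node 496 (merge (leaf 6 464 465) (node 625 (merge (leaf 4 496 593) (node 624 (merge (leaf 4 528 657) (node 623 (merge (leaf 5 495 591) (leaf 5 527 655))))))))) (node 624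 (merge (leaf 6 496 529) (node 657 (merge (leaf 4 528 625) (node 656 (merge (leaf 4 560 689) (node 655 (merge (leaf 5 527 623) (leaf 5 559 687)))))))))))) (merge (node 529 (merge (node 592 (merge (leaf 5 464 465) (leaf 6 496 624))) (merge (node 465 (merge (leaf 5 432 433) (node 466 (merge (leaf 6 433 434) (node 498 (merge (leaf 6 465 593) (node 464 (merge (leaf 7 432 432) (node 463 (merge (leaf 0 462 462) (leaf 0 463 499))))))))))) (node 498 (merge (node 593 (merge (leaf 6 465 466) (node 625 (merge (leaf 6 497 530) (leaf 7 528 657))))) (merge (node 499 (merge (leaf 1 496 500) (node 527 (merge (leaf 2 494 526) (leaf 2 495 530))))) (node 593 (merge (leaf 6 465 466) (node 625 (merge (leaf 7 528 657) (node 624 (merge (leaf 6 496 592) (leaf 5 528 656))))))))))))) (merge (node 529 (merge (node 593 (merge (node 625 (merge (leaf 7 496 496) (leaf 7 528 657))) (merge (node 625 (merge (leaf 7 528 657) (node 498 (merge (leaf 6 465 466) (leaf 6 497 530))))) (node 496 (merge (leaf 4 464 464) (node 498 (merge (leaf 6 465 466) (node 499 (merge (leaf 1 496 500) (leaf 1 495 527))))))))))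 (merge (node 465 (merge (leaf 5 432 433) (node 466 (merge (leaf 6 433 434) (node 593 (merge (leaf 6 465 498) (node 625 (merge (leaf 7 496 496) (leaf 7 528 657))))))))) (merge (node 465 (merge (leaf 5 432 433) (node 466 (merge (leaf 6 433 434) (node 498 (merge (leaf 6 465 593) (node 499 (merge (leaf 1 496 500) (node 527 (merge (leaf 2 494 526) (leaf 2 495 530))))))))))) (merge (node 498 (merge (node 499 (merge (leaf 1 496 500) (node 530 (merge (leaf 2 495 527) (node 559 (merge (leaf 1 527 531) (leaf 2 526 558))))))) (merge (node 499 (merge (leaf 1 496 500) (node 465 (merge (leaf 5 432 433) (node 464 (merge (leaf 7 432 432) (node 463 (merge (leaf 0 462 462) (leaf 0 463 466))))))))) (node 465 (merge (leaf 5 432 433) (node 464 (merge (leaf 7 432 432) (node 463 (merge (leaf 0 462 462) (node 496 (merge (leaf 7 431 431) (node 559 (merge (leaf 5 463 591) (node 558 (merge (leaf 2 526 530) (leaf 2 525 557)))))))))))))))) (node 465 (merge (leaf 5 432 433) (node 464 (merge (leaf 7 432 432) (node 496 (merge (leaf 4 464 593) (node 559 (merge (leaf 5 463 591) (node 558 (merge (leaf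 2 526 530) (leaf 2 525 557)))))))))))))))) (node 498 (merge (node 529 (merge (node 593 (merge (leaf 6 465 466) (node 625 (merge (leaf 6 497 530) (leaf 7 528 657))))) (merge (node 499 (merge (leaf 1 496 500) (node 527 (merge (leaf 2 494 526) (leaf 2 495 530))))) (node 593 (merge (leaf 6 465 466) (node 625 (merge (leaf 7 528 657) (node 624 (merge (leaf 6 496 592) (leaf 5 528 656)))))))))) (merge (node 496 (merge (node 464 (merge (leaf 4 464 593) (node 463 (merge (leaf 7 431 431) (leaf 3 463 499))))) (merge (node 499 (merge (leaf 1 495 527) (node 532 (merge (leaf 0 496 531) (node 500 (merge (leaf 0 497 533) (node 468 (merge (leaf 2 464 467) (leaf 2 465 469))))))))) (node 464 (merge (leaf 4 464 593) (node 559 (merge (leaf 5 463 591) (node 432 (merge (leaf 5 431 527) (node 431 (merge (leaf 7 399 399) (leaf 7 431 463)))))))))))) (merge (node 593 (merge (node 625 (merge (leaf 7 528 657) (node 496 (merge (leaf 4 464 464) (leaf 4 496 592))))) (merge (node 529 (merge (leaf 6 465 466) (node 625 (merge (leaf 7 496 496) (leaf 6 497 530))))) (merge (node 625 (merge (leaf 7 528 657)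 (node 529 (merge (leaf 6 497 530) (node 497 (merge (leaf 6 465 466) (node 624 (merge (leaf 6 496 592) (leaf 5 528 656))))))))) (node 496 (merge (leaf 4 464 464) (node 529 (merge (leaf 6 465 466) (node 526 (merge (leaf 2 494 527) (node 592 (merge (leaf 5 496 624) (node 591 (merge (leaf 5 495 623) (node 590 (merge (leaf 2 557 589) (node 558 (merge (leaf 3 557 557) (node 559 (merge (leaf 3 525 525) (leaf 2 526 530))))))))))))))))))))) (merge (node 499 (merge (node 496 (merge (leaf 1 495 527) (node 532 (merge (leaf 0 496 531) (node 500 (merge (leaf 0 497 533) (node 468 (merge (leaf 2 464 467) (leaf 2 465 469))))))))) (merge (node 500 (merge (leaf 1 496 529) (node 533 (merge (leaf 0 497 532) (node 501 (merge (leaf 0 498 534) (node 469 (merge (leaf 2 465 468) (leaf 2 466 470))))))))) (node 496 (merge (leaf 1 495 527) (node 464 (merge (leaf 3 463 463) (node 432 (merge (leaf 4 432 529) (node 401 (merge (leaf 6 400 433) (node 400 (merge (leaf 6 368 369) (node 399 (merge (leaf 7 367 367) (leaf 7 399 431)))))))))))))))) (node 592 (merge (node 529 (merge (leaf 6 496 624) (node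 466 (merge (leaf 6 465 593) (node 434 (merge (leaf 5 401 402) (leaf 5 433 530))))))) (merge (node 624 (merge (leaf 6 496 529) (node 625 (merge (leaf 4 528 657) (node 623 (merge (leaf 5 527 655) (node 591 (merge (leaf 5 495 496) (node 590 (merge (leaf 0 589 589) (leaf 3 590 626))))))))))) (merge (node 496 (merge (node 464 (merge (leaf 4 464 593) (node 463 (merge (leaf 7 431 431) (leaf 3 463 499))))) (merge (node 591 (merge (leaf 5 495 623) (node 464 (merge (leaf 5 463 559) (node 463 (merge (leaf 7 431 431) (leaf 3 463 499))))))) (node 625 (merge (leaf 4 496 593) (node 624 (merge (leaf 4 528 657) (node 623 (merge (leaf 5 495 591) (leaf 5 527 655)))))))))) (node 499 (merge (node 500 (merge (leaf 1 496 529) (node 532 (merge (leaf 0 497 533) (node 496 (merge (leaf 0 496 531) (node 464 (merge (leaf 3 463 463) (leaf 4 464 593))))))))) (merge (node 500 (merge (leaf 1 496 529) (node 533 (merge (leaf 0 497 532) (node 501 (merge (leaf 0 498 534) (node 469 (merge (leaf 2 465 468) (leaf 2 466 470))))))))) (merge (node 500 (merge (leaf 1 496 529) (node 468 (merge (leaf 2 465 469)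 (node 496 (merge (leaf 2 464 467) (node 464 (merge (leaf 3 463 463) (leaf 4 464 593))))))))) (merge (node 496 (merge (node 593 (merge (leaf 4 464 464) (leaf 4 496 625))) (merge (node 464 (merge (leaf 3 463 463) (node 591 (merge (leaf 5 463 559) (leaf 5 495 623))))) (node 532 (merge (leaf 0 496 531) (node 500 (merge (leaf 0 497 533) (node 468 (merge (leaf 2 464 467) (leaf 2 465 469)))))))))) (node 496 (merge (node 593 (merge (leaf 4 464 464) (leaf 4 496 625))) (merge (node 464 (merge (leaf 3 463 463) (node 591 (merge (leaf 5 463 559) (leaf 5 495 623))))) (node 531 (merge (leaf 0 496 532) (node 467 (merge (leaf 2 464 468) (node 593 (merge (leaf 4 496 625) (node 466 (merge (leaf 6 465 529) (node 563 (merge (leaf 7 434 434) (leaf 7 466 595))))))))))))))))))))))))))))))))))) nB_10 cB_10 12 (by decide +kernel)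
def nB_11 : ℕ := 0x300000001000000000000000000000000000000000000000000000000000000000000000000000000000000000000000000000000000000000000000000000000000000000000
def cB_11 : ℕ := 0x800000008000000ff0000007f0000003f000001ce000001ee000003e6000001fc000003f400000000000000000000000000000000000000000000000000000000000000000000000000000000000000000000000000000000000
theorem lB_11 : S nB_11 cB_11 12 := S_of_chk [] trivial (node 529 (merge (node 530 (merge (node 531 (merge (leaf 1 528 532) (leaf 1 527 559))) (node 498 (merge (node 593 (merge (leaf 6 497 625) (node 466 (merge (leaf 5 433 434) (leaf 5 465 562))))) (merge (node 499 (merge (leaf 2 495 527) (node 500 (merge (leaf 1 496 497) (leaf 1 497 501))))) (node 499 (merge (leaf 2 495 527) (node 500 (merge (leaf 1 496 497) (leaf 1 497 501)))))))))) (merge (node 497 (merge (node 592 (merge (leaf 5 464 465) (leaf 6 496 624))) (merge (node 465 (merge (leaf 5 432 433) (node 466 (merge (leaf 6 433 434) (node 498 (merge (leaf 6 465 593) (node 464 (merge (leaf 7 432 432) (node 463 (merge (leaf 0 462 462) (leaf 0 463 499)))))))))))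 (node 498 (merge (node 593 (merge (leaf 6 465 466) (node 625 (merge (leaf 6 497 530) (leaf 7 528 657))))) (merge (node 499 (merge (leaf 1 496 500) (node 527 (merge (leaf 2 494 526) (leaf 2 495 530))))) (node 593 (merge (leaf 6 465 466) (node 625 (merge (leaf 7 528 657) (node 624 (merge (leaf 6 496 592) (leaf 5 528 656))))))))))))) (merge (node 527 (merge (node 562 (merge (leaf 0 526 526) (leaf 3 527 563))) (merge (node 526 (merge (leaf 0 525 525) (node 558 (merge (leaf 1 525 557) (node 559 (merge (leaf 1 526 530) (node 494 (merge (leaf 3 493 493) (node 462 (merge (leaf 4 430 430) (leaf 4 462 591))))))))))) (node 530 (merge (node 531 (merge (leaf 1 528 532) (leaf 1 527 559))) (merge (node 563 (merge (leaf 0 527 562) (node 531 (merge (leaf 1 528 532) (leaf 0 528 564))))) (node 562 (merge (leaf 0 527 563) (node 559 (merge (leaf 1 526 558) (node 591 (merge (leaf 1 558 590) (node 623 (merge (leaf 6 527 655) (node 624 (merge (leaf 4 527 656) (node 622 (merge (leaf 5 526 654) (node 592 (merge (leaf 6 496 497) (node 621 (merge (leaf 2 589 593) (leaf 2 588 620)))))))))))))))))))))))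 (merge (node 530 (merge (node 531 (merge (leaf 1 528 532) (leaf 1 527 559))) (merge (node 531 (merge (leaf 1 528 532) (node 499 (merge (leaf 2 496 500) (node 527 (merge (leaf 2 495 498) (node 526 (merge (leaf 0 525 525) (leaf 0 526 562))))))))) (node 527 (merge (node 526 (merge (leaf 0 525 525) (leaf 0 526 562))) (merge (node 526 (merge (leaf 0 525 525) (node 558 (merge (leaf 1 525 557) (leaf 2 526 559))))) (node 498 (merge (leaf 2 495 499) (node 466 (merge (leaf 5 433 434) (node 593 (merge (leaf 5 465 562) (leaf 6 497 625))))))))))))) (merge (node 559 (merge (node 558 (merge (leaf 2 525 557) (node 526 (merge (leaf 3 525 525) (node 527 (merge (leaf 0 526 562) (node 497 (merge (leaf 2 494 498) (node 592 (merge (leaf 5 464 465) (leaf 6 496 624))))))))))) (merge (node 558 (merge (leaf 2 525 557) (node 590 (merge (leaf 1 557 589) (node 562 (merge (leaf 1 558 591) (node 563 (merge (leaf 3 527 527) (leaf 3 528 564))))))))) (merge (node 558 (merge (leaf 2 525 557) (node 590 (merge (leaf 1 557 589) (node 591 (merge (leaf 1 558 562) (node 526 (merge (leaf 3 525 525) (node 494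 (merge (leaf 4 462 462) (leaf 4 494 623))))))))))) (merge (node 497 (merge (node 465 (merge (leaf 5 432 433) (leaf 5 464 592))) (node 558 (merge (leaf 2 525 557) (node 526 (merge (leaf 3 525 525) (node 527 (merge (leaf 2 494 498) (node 494 (merge (leaf 3 493 493) (node 591 (merge (leaf 4 462 462) (leaf 7 494 623))))))))))))) (node 562 (merge (node 563 (merge (leaf 3 527 527) (leaf 3 528 564))) (merge (node 591 (merge (leaf 1 558 590) (node 563 (merge (leaf 3 528 564) (leaf 1 559 592))))) (node 527 (merge (leaf 0 526 526) (node 591 (merge (leaf 1 558 590) (node 623 (merge (leaf 6 527 655) (node 624 (merge (leaf 4 527 656) (node 622 (merge (leaf 5 526 654) (node 592 (merge (leaf 6 496 497) (node 621 (merge (leaf 2 589 593) (leaf 2 588 620))))))))))))))))))))))) (merge (node 559 (merge (node 558 (merge (leaf 2 526 530) (leaf 2 525 557))) (merge (node 558 (merge (leaf 2 525 557) (node 590 (merge (leaf 1 557 589) (node 562 (merge (leaf 1 558 591) (node 527 (merge (leaf 0 526 526) (leaf 3 527 563))))))))) (node 497 (merge (node 592 (merge (leaf 5 464 465) (leaf 6 496 624)))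 (merge (node 562 (merge (node 563 (merge (leaf 3 527 527) (leaf 3 528 564))) (merge (node 591 (merge (leaf 1 558 590) (node 592 (merge (leaf 1 559 563) (node 624 (merge (leaf 6 496 497) (leaf 6 528 656))))))) (node 527 (merge (leaf 0 526 526) (node 591 (merge (leaf 1 558 590) (node 624 (merge (leaf 6 496 592) (node 623 (merge (leaf 6 527 655) (leaf 4 527 656)))))))))))) (node 499 (merge (node 498 (merge (leaf 1 496 500) (node 527 (merge (leaf 2 494 526) (leaf 2 495 530))))) (merge (node 500 (merge (leaf 1 496 498) (node 465 (merge (leaf 5 432 433) (node 466 (merge (leaf 6 433 434) (node 464 (merge (leaf 7 432 432) (leaf 0 464 467))))))))) (merge (node 465 (merge (leaf 5 432 433) (node 466 (merge (leaf 6 433 434) (node 464 (merge (leaf 7 432 432) (node 498 (merge (leaf 0 463 463) (node 527 (merge (leaf 2 494 526) (leaf 2 495 530))))))))))) (node 531 (merge (leaf 1 527 530) (node 465 (merge (leaf 5 432 433) (node 466 (merge (leaf 6 433 434) (node 464 (merge (leaf 7 432 432) (node 467 (merge (leaf 0 464 500) (node 436 (merge (leaf 2 432 435) (node 468 (merge (leaf 2 433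 437) (leaf 6 435 563))))))))))))))))))))))))) (node 625 (merge (node 624 (merge (node 592 (merge (leaf 6 528 656) (leaf 4 528 657))) (merge (node 593 (merge (leaf 5 528 656) (leaf 7 528 657))) (merge (node 656 (merge (leaf 6 528 592) (leaf 5 528 593))) (node 657 (merge (leaf 4 528 592) (leaf 7 528 593))))))) (merge (node 593 (merge (leaf 7 528 657) (node 530 (merge (leaf 6 497 498) (node 531 (merge (leaf 1 528 532) (leaf 1 527 559))))))) (merge (node 497 (merge (node 592 (merge (leaf 5 464 465) (leaf 6 496 624))) (merge (node 624 (merge (leaf 6 496 592) (node 593 (merge (leaf 5 528 656) (node 498 (merge (leaf 6 465 466) (leaf 6 497 530))))))) (node 465 (merge (leaf 5 432 433) (node 466 (merge (leaf 6 433 434) (node 498 (merge (leaf 6 465 593) (node 464 (merge (leaf 7 432 432) (node 463 (merge (leaf 0 462 462) (leaf 0 463 499)))))))))))))) (node 623 (merge (node 624 (merge (node 592 (merge (leaf 6 496 497) (leaf 6 528 656))) (merge (node 592 (merge (leaf 6 496 497) (leaf 4 528 657))) (node 622 (merge (node 653 (merge (leaf 1 621 654) (node 621 (merge (leaf 1 620 652)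 (node 589 (merge (leaf 3 588 588) (leaf 3 589 590))))))) (merge (node 658 (merge (leaf 0 622 657) (node 626 (merge (leaf 0 623 659) (node 590 (merge (leaf 3 589 589) (leaf 3 590 591))))))) (node 657 (merge (leaf 0 622 658) (node 621 (merge (leaf 0 621 656) (node 653 (merge (leaf 1 620 652) (leaf 1 621 654))))))))))))) (merge (node 624 (merge (node 592 (merge (leaf 6 496 497) (leaf 6 528 656))) (node 559 (merge (node 558 (merge (leaf 2 525 557) (node 530 (merge (leaf 1 527 531) (leaf 2 526 561))))) (node 655 (merge (leaf 6 527 591) (node 654 (merge (leaf 1 622 626) (node 653 (merge (leaf 1 621 622) (leaf 2 620 652))))))))))) (merge (node 559 (merge (node 558 (merge (leaf 2 526 530) (leaf 2 525 557))) (merge (node 591 (merge (leaf 6 527 655) (node 590 (merge (leaf 1 558 562) (node 589 (merge (leaf 1 557 558) (leaf 2 556 588))))))) (node 531 (merge (leaf 1 527 530) (node 591 (merge (leaf 6 527 655) (node 562 (merge (leaf 1 558 590) (node 563 (merge (leaf 2 528 532) (leaf 3 528 564)))))))))))) (node 624 (merge (node 592 (merge (leaf 6 496 497) (leaf 6 528 656))) (merge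 (node 592 (merge (leaf 5 527 655) (leaf 4 528 657))) (node 622 (merge (node 657 (merge (leaf 0 622 658) (node 621 (merge (leaf 0 621 656) (node 653 (merge (leaf 1 620 652) (leaf 1 621 654))))))) (merge (node 654 (merge (leaf 1 621 653) (node 655 (merge (leaf 1 622 626) (node 590 (merge (leaf 3 589 589) (node 687 (merge (leaf 4 558 558) (leaf 7 590 719))))))))) (merge (node 657 (merge (leaf 0 622 658) (node 621 (merge (leaf 0 621 656) (node 653 (merge (leaf 1 620 652) (node 590 (merge (leaf 3 589 589) (node 558 (merge (leaf 5 525 526) (node 559 (merge (leaf 2 526 530) (leaf 2 525 557))))))))))))) (node 658 (merge (leaf 0 622 657) (node 626 (merge (leaf 0 623 659) (node 655 (merge (leaf 1 622 654) (node 590 (merge (leaf 3 589 589) (node 558 (merge (leaf 4 526 526) (node 559 (merge (leaf 2 526 530) (leaf 2 525 557))))))))))))))))))))))))))))))))))) nB_11 cB_11 12 (by decide +kernel)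
def nB_12 : ℕ := 0x100000001000000000000000000000000000000000000000000000000000000000000000000000000000000000000000000000000000000000000000000000000000000000000
def cB_12 : ℕ := 0x800000028000000ff000000ff000003bf000001ef000007ef800003f6000007fe000003fc00000078000000280000000000000000000000000000000000000000000000000000000000000000000000000000000000000000000
theorem lB_12 : S nB_12 cB_12 13 := S_of_chk [(nB_10, cB_10, 12), (nB_11, cB_11, 12)] ⟨lB_10, lB_11, trivial⟩ (node 561 (merge (node 496 (merge (node 593 (merge (leaf 4 464 464) (node 625 (merge (leaf 4 496 592) (leaf 7 528 657))))) (merge (node 464 (merge (leaf 4 464 593) (node 432 (merge (leaf 4 432 529) (node 431 (merge (leaf 7 399 399) (leaf 7 431 463))))))) (merge (node 464 (merge (node 432 (merge (leaf 4 432 529) (node 433 (merge (leaf 6 400 401) (leaf 6 432 465))))) (merge (node 432 (merge (leaf 4 432 529) (node 431 (merge (leaf 7 399 399) (leaf 7 431 463))))) (node 465 (merge (leaf 6 432 433) (node 497 (merge (leaf 6 464 592) (node 463 (merge (leaf 7 431 431) (node 498 (merge (leaf 0 462 462) (leaf 3 463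 499)))))))))))) (node 592 (merge (node 593 (merge (leaf 4 496 625) (node 591 (merge (leaf 5 495 623) (node 590 (merge (leaf 2 558 562) (leaf 2 557 589))))))) (merge (node 625 (merge (leaf 4 496 593) (node 497 (merge (leaf 6 464 465) (node 624 (merge (leaf 6 496 529) (leaf 4 528 657))))))) (node 497 (merge (leaf 6 464 465) (node 624 (merge (leaf 6 496 529) (node 623 (merge (leaf 5 495 591) (leaf 5 527 655)))))))))))))) (merge (node 562 (merge (node 563 (merge (leaf 3 527 527) (node 596 (merge (leaf 0 560 595) (node 564 (merge (leaf 3 528 529) (leaf 0 561 597))))))) (merge (node 563 (merge (leaf 3 527 527) (node 596 (merge (leaf 0 560 595) (node 564 (merge (leaf 0 561 597) (node 532 (merge (leaf 2 528 531) (leaf 2 529 533))))))))) (merge (node 559 (merge (node 526 (merge (leaf 3 526 527) (node 558 (merge (leaf 3 525 525) (node 529 (merge (leaf 2 526 530) (leaf 2 525 557))))))) (merge (node 591 (merge (leaf 1 558 590) (node 623 (merge (leaf 6 527 655) (node 527 (merge (leaf 6 495 496) (leaf 3 526 526))))))) (node 530 (merge (leaf 2 527 531) (node 558 (merge (leaf 2 526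 529) (node 590 (merge (leaf 1 557 589) (leaf 1 558 591)))))))))) (node 531 (merge (node 563 (merge (leaf 2 528 532) (node 596 (merge (leaf 0 560 595) (node 564 (merge (leaf 3 528 529) (leaf 0 561 597))))))) (merge (node 530 (merge (leaf 2 527 559) (node 563 (merge (leaf 2 528 532) (node 595 (merge (leaf 0 560 596) (node 627 (merge (leaf 7 498 498) (leaf 7 530 659))))))))) (node 559 (merge (leaf 2 527 530) (node 590 (merge (leaf 1 558 591) (node 558 (merge (leaf 1 557 589) (node 557 (merge (leaf 2 525 529) (node 525 (merge (leaf 3 524 524) (leaf 3 525 526)))))))))))))))))) (merge (node 562 (merge (node 563 (merge (leaf 3 527 527) (node 596 (merge (leaf 0 560 595) (node 564 (merge (leaf 0 561 597) (node 532 (merge (leaf 2 528 531) (leaf 2 529 533))))))))) (merge (node 531 (merge (node 530 (merge (leaf 2 527 559) (node 532 (merge (leaf 1 529 533) (leaf 2 528 563))))) (merge (node 559 (merge (leaf 2 527 530) (node 591 (merge (leaf 1 558 590) (node 496 (merge (leaf 5 463 464) (node 623 (merge (leaf 5 495 592) (leaf 6 527 655))))))))) (node 563 (merge (leaf 2 528 532) (node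 596 (merge (leaf 0 560 595) (node 564 (merge (leaf 0 561 597) (node 592 (merge (leaf 1 559 591) (leaf 1 560 593)))))))))))) (node 496 (merge (node 593 (merge (leaf 4 464 464) (node 625 (merge (leaf 4 496 592) (leaf 7 528 657))))) (merge (node 464 (merge (leaf 4 464 593) (node 559 (merge (leaf 5 463 591) (node 527 (merge (leaf 5 431 432) (leaf 3 526 526))))))) (merge (node 591 (merge (node 623 (merge (leaf 5 495 592) (node 559 (merge (leaf 6 495 527) (leaf 6 527 655))))) (merge (node 590 (merge (leaf 1 558 559) (node 592 (merge (leaf 2 557 589) (leaf 2 558 593))))) (merge (node 559 (merge (leaf 1 558 590) (node 623 (merge (leaf 6 527 655) (node 527 (merge (leaf 6 495 496) (leaf 3 526 526))))))) (node 592 (merge (leaf 5 495 623) (node 590 (merge (leaf 2 557 589) (node 593 (merge (leaf 2 558 562) (leaf 4 496 625))))))))))) (node 464 (merge (node 433 (merge (leaf 6 432 465) (node 432 (merge (leaf 6 400 401) (node 431 (merge (leaf 7 399 399) (leaf 7 431 463))))))) (merge (node 559 (merge (leaf 5 463 591) (node 527 (merge (leaf 5 431 432) (leaf 3 526 526))))) (merge (node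 559 (merge (leaf 5 463 591) (node 527 (merge (leaf 5 431 432) (leaf 3 526 526))))) (node 591 (merge (leaf 5 463 559) (node 592 (merge (leaf 5 495 623) (node 465 (merge (leaf 6 432 433) (leaf 6 464 497)))))))))))))))))) (merge (node 562 (merge (node 527 (merge (leaf 3 527 563) (node 526 (merge (leaf 0 525 525) (leaf 3 526 559))))) (merge (node 563 (merge (leaf 3 527 527) (node 596 (merge (leaf 0 560 595) (node 564 (merge (leaf 3 528 529) (leaf 0 561 597))))))) (merge (node 563 (merge (node 596 (merge (leaf 0 560 595) (node 564 (merge (leaf 3 528 529) (leaf 0 561 597))))) (merge (node 532 (merge (leaf 2 528 531) (node 564 (merge (leaf 3 528 529) (leaf 2 529 533))))) (node 595 (merge (leaf 0 560 596) (node 531 (merge (leaf 2 528 532) (node 530 (merge (leaf 2 527 559) (node 627 (merge (leaf 7 498 498) (leaf 7 530 659)))))))))))) (node 559 (merge (node 526 (merge (leaf 3 526 527) (node 558 (merge (leaf 3 525 525) (node 529 (merge (leaf 2 526 530) (leaf 2 525 557))))))) (merge (node 591 (merge (leaf 1 558 590) (node 623 (merge (leaf 6 527 655) (node 496 (merge (leaf 5 463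 464) (leaf 6 495 527))))))) (node 591 (merge (leaf 1 558 590) (node 496 (merge (leaf 5 463 464) (node 623 (merge (leaf 5 495 592) (leaf 6 527 655)))))))))))))) (merge (node 496 (merge (node 593 (merge (leaf 4 464 464) (node 625 (merge (leaf 4 496 592) (leaf 7 528 657))))) (merge (node 464 (merge (leaf 4 464 593) (node 432 (merge (leaf 4 432 529) (node 431 (merge (leaf 7 399 399) (leaf 7 431 463))))))) (merge (node 464 (merge (node 432 (merge (leaf 4 432 529) (node 433 (merge (leaf 6 400 401) (leaf 6 432 465))))) (merge (node 432 (merge (leaf 4 432 529) (node 431 (merge (leaf 7 399 399) (leaf 7 431 463))))) (node 465 (merge (leaf 6 432 433) (node 497 (merge (leaf 6 464 592) (node 463 (merge (leaf 7 431 431) (node 498 (merge (leaf 0 462 462) (leaf 3 463 499)))))))))))) (node 593 (merge (node 625 (merge (leaf 4 496 592) (leaf 7 528 657))) (merge (node 625 (merge (leaf 7 496 529) (leaf 7 528 657))) (node 562 (merge (node 563 (merge (leaf 3 527 527) (node 564 (merge (leaf 3 528 529) (leaf 1 560 592))))) (merge (node 563 (merge (leaf 3 527 527) (node 595 (merge (leaf 0 560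 596) (node 531 (merge (leaf 2 528 532) (node 530 (merge (leaf 2 527 559) (node 498 (merge (leaf 4 466 466) (leaf 7 498 627))))))))))) (merge (node 563 (merge (node 596 (merge (leaf 0 560 595) (node 564 (merge (leaf 3 528 529) (leaf 0 561 597))))) (merge (node 532 (merge (leaf 2 528 531) (node 564 (merge (leaf 3 528 529) (leaf 2 529 533))))) (node 595 (merge (leaf 0 560 596) (node 531 (merge (leaf 2 528 532) (node 530 (merge (leaf 2 527 559) (node 627 (merge (leaf 7 498 498) (leaf 7 530 659)))))))))))) (node 559 (merge (node 530 (merge (leaf 2 527 531) (node 527 (merge (leaf 3 526 526) (node 498 (merge (leaf 5 465 466) (node 499 (merge (leaf 1 495 497) (leaf 2 495 529))))))))) (merge (node 526 (merge (leaf 3 526 527) (node 558 (merge (leaf 3 525 525) (node 557 (merge (leaf 0 557 592) (node 589 (merge (leaf 1 556 588) (leaf 1 557 590))))))))) (merge (node 530 (merge (leaf 2 527 531) (node 558 (merge (leaf 2 526 529) (node 589 (merge (leaf 1 557 590) (node 557 (merge (leaf 1 556 588) (node 525 (merge (leaf 3 524 524) (leaf 3 525 526))))))))))) (node 530 (merge (leaf 2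 527 531) (node 558 (merge (leaf 2 526 529) (node 557 (merge (leaf 0 557 592) (node 556 (merge (leaf 2 524 527) (node 524 (merge (leaf 3 523 523) (leaf 3 524 525)))))))))))))))))))))))))) (merge (node 562 (merge (node 527 (merge (leaf 3 527 563) (node 526 (merge (leaf 0 525 525) (leaf 3 526 559))))) (merge (node 563 (merge (leaf 3 527 527) (node 596 (merge (leaf 0 560 595) (node 564 (merge (leaf 3 528 529) (leaf 0 561 597))))))) (merge (node 563 (merge (node 596 (merge (leaf 0 560 595) (node 564 (merge (leaf 3 528 529) (leaf 0 561 597))))) (merge (node 532 (merge (leaf 2 528 531) (node 564 (merge (leaf 3 528 529) (leaf 2 529 533))))) (node 595 (merge (leaf 0 560 596) (node 531 (merge (leaf 2 528 532) (node 530 (merge (leaf 2 527 559) (node 627 (merge (leaf 7 498 498) (leaf 7 530 659)))))))))))) (node 496 (merge (node 593 (merge (leaf 4 464 464) (node 625 (merge (leaf 4 496 592) (leaf 7 528 657))))) (merge (node 559 (merge (node 526 (merge (leaf 3 526 527) (node 558 (merge (leaf 3 525 525) (node 529 (merge (leaf 2 526 530) (leaf 2 525 557))))))) (merge (node 464 (merge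 (leaf 5 463 591) (node 529 (merge (leaf 4 432 432) (node 558 (merge (leaf 2 526 530) (leaf 2 525 557))))))) (node 527 (merge (leaf 3 526 526) (node 464 (merge (leaf 5 431 432) (leaf 5 463 591)))))))) (node 497 (merge (node 465 (merge (leaf 6 464 592) (node 433 (merge (leaf 5 400 401) (leaf 5 432 529))))) (merge (node 592 (merge (leaf 6 464 465) (node 625 (merge (leaf 4 496 593) (node 624 (merge (leaf 4 528 657) (node 623 (merge (leaf 5 495 591) (leaf 5 527 655))))))))) (merge (node 559 (merge (node 526 (merge (leaf 3 526 527) (node 558 (merge (leaf 3 525 525) (node 529 (merge (leaf 2 526 530) (leaf 2 525 557))))))) (merge (node 530 (merge (leaf 2 527 531) (node 529 (merge (leaf 2 526 558) (node 465 (merge (leaf 4 433 433) (node 466 (merge (leaf 6 433 434) (node 593 (merge (leaf 5 465 498) (leaf 7 496 625))))))))))) (merge (node 526 (merge (leaf 3 526 527) (node 558 (merge (leaf 3 525 525) (node 529 (merge (leaf 2 525 557) (node 465 (merge (leaf 5 432 433) (node 466 (merge (leaf 6 433 434) (node 593 (merge (leaf 6 465 498) (leaf 7 496 625))))))))))))) (node 530 (merge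 (leaf 2 527 531) (node 527 (merge (leaf 3 526 526) (node 498 (merge (leaf 1 495 499) (node 466 (merge (leaf 5 465 593) (node 467 (merge (leaf 6 434 435) (node 465 (merge (leaf 7 433 433) (leaf 1 464 468))))))))))))))))) (node 559 (merge (node 526 (merge (leaf 3 526 527) (node 558 (merge (leaf 3 525 525) (node 529 (merge (leaf 2 526 530) (leaf 2 525 557))))))) (merge (node 530 (merge (leaf 2 527 531) (node 527 (merge (leaf 3 526 526) (node 498 (merge (leaf 1 495 499) (node 593 (merge (leaf 5 465 466) (node 625 (merge (leaf 4 496 592) (leaf 7 528 657))))))))))) (merge (node 530 (merge (leaf 2 527 531) (node 529 (merge (leaf 2 526 558) (node 593 (merge (leaf 7 496 625) (node 498 (merge (leaf 5 465 466) (node 499 (merge (leaf 2 495 527) (node 500 (merge (leaf 1 496 497) (leaf 1 497 501))))))))))))) (merge (node 530 (merge (leaf 2 527 531) (node 558 (merge (leaf 2 526 529) (node 525 (merge (leaf 3 525 526) (node 557 (merge (leaf 3 524 524) (node 592 (merge (leaf 0 557 593) (node 591 (merge (leaf 0 556 556) (leaf 5 495 623))))))))))))) (node 526 (merge (leaf 3 526 527) (node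 558 (merge (leaf 3 525 525) (node 557 (merge (leaf 2 525 529) (node 592 (merge (leaf 0 557 593) (node 591 (merge (leaf 0 556 556) (leaf 5 495 623))))))))))))))))))))))))))) (merge (hyp 0) (hyp 1))))))))) nB_12 cB_12 13 (by decide +kernel)
def nB_13 : ℕ := 0x100000001800000000000000000000000000000000000000000000000000000000000000000000000000000000000000000000000000000000000000000000000000000000000
def cB_13 : ℕ := 0x2c0000002c0000002f000000ef000001e3000001ff000001ff0000007c00000064000000000000000000000000000000000000000000000000000000000000000000000000000000000000000000000000000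
theorem lB_13 : S nB_13 cB_13 12 := S_of_chk [] trivial (node 559 (merge (node 591 (merge (node 623 (merge (leaf 6 495 496) (leaf 6 527 655))) (node 558 (merge (node 529 (merge (leaf 1 526 530) (leaf 2 525 557))) (node 590 (merge (node 622 (merge (leaf 5 494 495) (leaf 6 526 654))) (node 561 (merge (leaf 1 557 589) (node 562 (merge (leaf 3 527 563) (leaf 1 558 591))))))))))) (merge (node 591 (merge (node 623 (merge (leaf 6 495 496) (leaf 6 527 655))) (node 590 (merge (node 589 (merge (leaf 2 556 588) (node 561 (merge (leaf 1 557 558) (leaf 1 558 562))))) (node 495 (merge (leaf 5 494 622) (node 463 (merge (leaf 4 431 431) (node 462 (merge (leaf 7 430 430) (leaf 7 462 494))))))))))) (merge (node 591 (merge (node 623 (merge (leaf 6 495 496) (leaf 6 527 655))) (merge (node 623 (merge (leaf 6 527 655) (node 622 (merge (leaf 5 526 654) (node 495 (merge (leaf 5 494 590) (node 463 (merge (leaf 4 431 431) (node 462 (merge (leaf 7 430 430) (leaf 7 462 494))))))))))) (node 495 (merge (node 463 (merge (leaf 4 431 431) (node 462 (merge (leaf 7 430 430) (leaf 7 462 494))))) (merge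 (node 463 (merge (leaf 4 431 431) (node 464 (merge (leaf 6 431 432) (leaf 6 463 496))))) (node 494 (merge (leaf 7 462 462) (node 493 (merge (leaf 0 492 492) (node 529 (merge (leaf 0 493 496) (leaf 3 494 530))))))))))))) (merge (node 558 (merge (node 529 (merge (leaf 1 526 530) (leaf 2 525 557))) (merge (node 557 (merge (leaf 2 524 556) (node 589 (merge (leaf 1 556 588) (node 590 (merge (leaf 1 557 561) (node 495 (merge (leaf 5 462 463) (node 622 (merge (leaf 5 494 591) (leaf 6 526 654))))))))))) (node 590 (merge (node 622 (merge (leaf 6 526 654) (node 495 (merge (leaf 5 462 463) (leaf 5 494 591))))) (merge (node 561 (merge (leaf 1 557 589) (node 562 (merge (leaf 1 558 591) (node 531 (merge (leaf 2 527 530) (node 563 (merge (leaf 3 527 527) (leaf 2 528 532))))))))) (node 530 (merge (leaf 1 526 529) (node 561 (merge (leaf 1 557 589) (node 562 (merge (leaf 2 527 531) (leaf 3 527 563))))))))))))) (merge (node 495 (merge (node 463 (merge (leaf 4 431 431) (node 462 (merge (leaf 7 430 430) (node 591 (merge (leaf 7 462 494) (node 623 (merge (leaf 6 495 496) (leaf 6 527 655)))))))))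 (merge (node 463 (merge (leaf 4 431 431) (node 464 (merge (leaf 6 431 432) (node 496 (merge (leaf 5 463 591) (node 465 (merge (leaf 6 432 433) (node 494 (merge (leaf 1 462 466) (leaf 2 461 493))))))))))) (merge (node 463 (merge (leaf 4 431 431) (node 464 (merge (leaf 6 431 432) (node 462 (merge (leaf 7 430 430) (node 494 (merge (leaf 7 462 591) (node 493 (merge (leaf 1 461 465) (leaf 0 492 492))))))))))) (merge (node 494 (merge (node 591 (merge (leaf 7 462 462) (node 496 (merge (leaf 6 463 464) (leaf 6 495 623))))) (merge (node 493 (merge (leaf 0 492 492) (node 529 (merge (leaf 0 493 496) (leaf 3 494 530))))) (node 493 (merge (leaf 0 492 492) (node 529 (merge (leaf 3 494 530) (node 557 (merge (leaf 2 525 558) (node 462 (merge (leaf 7 462 591) (node 430 (merge (leaf 4 398 398) (node 525 (merge (leaf 6 429 461) (leaf 6 461 589)))))))))))))))) (merge (node 494 (merge (node 493 (merge (leaf 0 492 492) (node 529 (merge (leaf 0 493 496) (leaf 3 494 530))))) (merge (node 463 (merge (leaf 4 431 431) (node 464 (merge (leaf 6 431 432) (node 465 (merge (leaf 1 462 466) (node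 462 (merge (leaf 7 430 430) (leaf 1 461 493))))))))) (node 529 (merge (leaf 3 494 530) (node 463 (merge (leaf 4 431 431) (node 464 (merge (leaf 6 431 432) (node 465 (merge (leaf 1 462 466) (node 433 (merge (leaf 5 432 497) (node 462 (merge (leaf 7 430 430) (leaf 2 430 434)))))))))))))))) (node 463 (merge (leaf 4 431 431) (node 464 (merge (leaf 6 431 432) (node 496 (merge (leaf 5 463 591) (node 462 (merge (leaf 7 430 430) (node 497 (merge (leaf 0 461 461) (leaf 3 462 498))))))))))))))))) (merge (node 561 (merge (node 562 (merge (leaf 3 527 563) (node 591 (merge (leaf 1 558 590) (node 623 (merge (leaf 6 495 496) (leaf 6 527 655))))))) (merge (node 562 (merge (leaf 3 527 563) (node 530 (merge (leaf 2 527 531) (node 529 (merge (leaf 1 526 558) (node 498 (merge (leaf 2 495 499) (node 466 (merge (leaf 5 433 434) (leaf 5 465 593))))))))))) (node 529 (merge (node 558 (merge (leaf 2 526 530) (leaf 2 525 557))) (node 497 (merge (node 465 (merge (leaf 5 432 433) (node 464 (merge (leaf 7 432 432) (node 496 (merge (leaf 5 463 591) (leaf 4 464 593))))))) (merge (node 496 (merge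 (node 591 (merge (leaf 5 463 464) (leaf 6 495 623))) (node 498 (merge (leaf 1 495 499) (node 593 (merge (leaf 6 465 466) (leaf 7 496 625))))))) (merge (node 465 (merge (leaf 5 432 433) (node 466 (merge (leaf 6 433 434) (node 593 (merge (leaf 6 465 498) (node 625 (merge (leaf 7 496 496) (leaf 7 528 657))))))))) (merge (node 465 (merge (leaf 5 432 433) (node 466 (merge (leaf 6 433 434) (node 498 (merge (leaf 6 465 593) (node 499 (merge (leaf 1 496 500) (node 464 (merge (leaf 7 432 432) (leaf 0 463 463))))))))))) (node 465 (merge (leaf 5 432 433) (node 466 (merge (leaf 6 433 434) (node 464 (merge (leaf 7 432 432) (node 496 (merge (leaf 5 463 591) (node 467 (merge (leaf 1 464 468) (node 499 (merge (leaf 1 495 498) (leaf 0 464 500))))))))))))))))))))))) (node 496 (merge (node 464 (merge (leaf 5 431 432) (node 561 (merge (leaf 4 464 593) (node 562 (merge (leaf 3 527 563) (node 530 (merge (leaf 2 527 531) (node 558 (merge (leaf 1 526 529) (node 589 (merge (leaf 1 557 590) (node 557 (merge (leaf 2 524 556) (leaf 1 556 588))))))))))))))) (merge (node 495 (merge (node 464 (merge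 (leaf 5 431 432) (node 465 (merge (leaf 6 432 433) (node 466 (merge (leaf 1 463 467) (node 494 (merge (leaf 2 461 493) (leaf 2 462 497))))))))) (merge (node 463 (merge (leaf 4 431 431) (node 558 (merge (leaf 5 462 590) (node 557 (merge (leaf 2 524 556) (node 525 (merge (leaf 3 524 524) (node 462 (merge (leaf 7 430 430) (node 497 (merge (leaf 3 462 498) (node 494 (merge (leaf 3 461 461) (node 493 (merge (leaf 0 492 492) (leaf 6 461 589))))))))))))))))) (merge (node 463 (merge (leaf 4 431 431) (node 464 (merge (leaf 5 431 432) (node 462 (merge (leaf 7 430 430) (node 461 (merge (leaf 0 460 460) (leaf 0 461 497))))))))) (node 463 (merge (leaf 4 431 431) (node 464 (merge (leaf 5 431 432) (node 465 (merge (leaf 6 432 433) (node 494 (merge (leaf 1 462 466) (leaf 2 461 493))))))))))))) (merge (node 495 (merge (node 463 (merge (leaf 4 431 431) (node 558 (merge (leaf 5 462 590) (node 557 (merge (leaf 2 525 529) (leaf 2 524 556))))))) (merge (node 463 (merge (leaf 4 431 431) (node 462 (merge (leaf 7 430 430) (node 461 (merge (leaf 0 460 460) (node 497 (merge (leaf 3 461 494)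 (leaf 3 462 498))))))))) (node 497 (merge (node 498 (merge (leaf 1 495 499) (node 530 (merge (leaf 0 495 531) (node 529 (merge (leaf 0 494 494) (leaf 1 526 558))))))) (merge (node 498 (merge (leaf 1 495 499) (node 466 (merge (leaf 2 463 467) (node 494 (merge (leaf 2 462 465) (node 493 (merge (leaf 0 492 492) (leaf 0 493 529))))))))) (merge (node 529 (merge (node 530 (merge (leaf 1 527 531) (leaf 1 526 558))) (node 494 (merge (leaf 0 493 493) (node 465 (merge (leaf 5 432 433) (leaf 2 462 466))))))) (merge (node 498 (merge (leaf 1 495 499) (node 530 (merge (leaf 0 495 531) (node 466 (merge (leaf 2 463 467) (node 465 (merge (leaf 2 462 494) (node 433 (merge (leaf 4 401 401) (leaf 7 433 562))))))))))) (node 498 (merge (leaf 1 495 499) (node 530 (merge (leaf 0 495 531) (node 529 (merge (leaf 1 526 558) (node 466 (merge (leaf 2 463 467) (node 434 (merge (leaf 5 401 402) (node 433 (merge (leaf 7 401 401) (leaf 5 432 465))))))))))))))))))))) (node 494 (merge (node 464 (merge (leaf 5 431 432) (node 465 (merge (leaf 6 432 433) (node 495 (merge (leaf 2 461 493) (node 463 (merge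 (leaf 4 431 431) (leaf 1 462 466))))))))) (merge (node 464 (merge (leaf 5 431 432) (node 561 (merge (leaf 4 464 593) (node 562 (merge (leaf 3 527 563) (node 530 (merge (leaf 2 527 531) (node 495 (merge (leaf 3 494 529) (node 463 (merge (leaf 4 431 431) (node 462 (merge (leaf 7 430 430) (node 497 (merge (leaf 0 461 461) (leaf 3 462 498))))))))))))))))) (merge (node 464 (merge (leaf 5 431 432) (node 465 (merge (leaf 6 432 433) (node 495 (merge (leaf 2 461 493) (node 497 (merge (leaf 2 462 466) (node 530 (merge (leaf 0 494 529) (node 498 (merge (leaf 1 495 499) (leaf 0 495 531))))))))))))) (merge (node 464 (merge (leaf 5 431 432) (node 465 (merge (leaf 6 432 433) (node 463 (merge (leaf 7 431 431) (node 462 (merge (leaf 1 461 493) (node 497 (merge (leaf 0 461 461) (leaf 0 462 498))))))))))) (node 495 (merge (node 529 (merge (leaf 0 493 493) (leaf 3 494 530))) (merge (node 493 (merge (leaf 0 492 492) (node 461 (merge (leaf 3 460 460) (node 497 (merge (leaf 3 461 462) (node 498 (merge (leaf 1 495 499) (node 466 (merge (leaf 2 462 465) (leaf 2 463 467))))))))))) (node 497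 (merge (node 465 (merge (leaf 2 462 466) (node 433 (merge (leaf 5 400 401) (leaf 5 432 529))))) (merge (node 530 (merge (leaf 0 494 529) (node 498 (merge (leaf 0 495 531) (node 462 (merge (leaf 3 461 461) (leaf 3 462 463))))))) (node 466 (merge (leaf 2 462 465) (node 498 (merge (leaf 2 463 467) (node 462 (merge (leaf 3 461 461) (leaf 3 462 463))))))))))))))))))))))))))))) nB_13 cB_13 12 (by decide +kernel)
def nB_14 : ℕ := 0x100000001800000000000000000000000000000000000000000000000000000000000000000000000000000000000000000000000000000000000000000000000000000000000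
def cB_14 : ℕ := 0x1c0000003c0000002f000000ef000000c7000000ff000000ff0000003e00000026000000000000000000000000000000000000000000000000000000000000000000000000000000000000000000000000000
theorem lB_14 : S nB_14 cB_14 12 := S_of_chk [] trivial (node 559 (merge (node 591 (merge (node 623 (merge (leaf 6 495 496) (leaf 6 527 655))) (node 590 (merge (node 589 (merge (leaf 2 556 588) (node 561 (merge (leaf 1 557 558) (leaf 1 558 562))))) (node 495 (merge (leaf 5 494 622) (node 463 (merge (leaf 4 431 431) (node 462 (merge (leaf 7 430 430) (leaf 7 462 494))))))))))) (merge (node 591 (merge (node 623 (merge (leaf 6 495 496) (leaf 6 527 655))) (merge (node 623 (merge (leaf 6 527 655) (node 526 (merge (leaf 7 494 494) (node 525 (merge (leaf 0 524 524) (leaf 0 525 561))))))) (node 495 (merge (node 463 (merge (leaf 4 431 431) (node 462 (merge (leaf 7 430 430) (leaf 7 462 494))))) (merge (node 463 (merge (leaf 4 431 431) (node 464 (merge (leaf 6 431 432) (leaf 6 463 496))))) (node 496 (merge (leaf 5 463 464) (node 494 (merge (leaf 7 462 462) (node 493 (merge (leaf 0 492 492) (node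 525 (merge (leaf 1 492 524) (node 526 (merge (leaf 1 493 497) (leaf 0 525 561))))))))))))))))) (merge (node 496 (merge (node 591 (merge (leaf 5 463 464) (leaf 6 495 623))) (merge (node 464 (merge (leaf 5 431 432) (node 561 (merge (leaf 4 464 593) (node 562 (merge (leaf 3 526 526) (leaf 3 527 563))))))) (node 561 (merge (node 562 (merge (leaf 3 526 526) (leaf 3 527 563))) (merge (node 591 (merge (leaf 6 495 623) (node 562 (merge (leaf 3 527 563) (leaf 1 558 590))))) (node 558 (merge (node 525 (merge (leaf 0 525 526) (node 557 (merge (leaf 3 524 524) (leaf 2 524 556))))) (merge (node 557 (merge (leaf 2 524 556) (node 589 (merge (leaf 1 556 588) (leaf 1 557 590))))) (node 526 (merge (leaf 0 525 525) (node 590 (merge (leaf 1 557 589) (node 622 (merge (leaf 6 494 495) (leaf 6 526 654)))))))))))))))) (merge (node 495 (merge (node 463 (merge (leaf 4 431 431) (node 462 (merge (leaf 7 430 430) (node 591 (merge (leaf 7 462 494) (node 623 (merge (leaf 6 495 496) (leaf 6 527 655))))))))) (merge (node 463 (merge (leaf 4 431 431) (node 464 (merge (leaf 6 431 432) (node 591 (merge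 (leaf 5 463 496) (node 622 (merge (leaf 5 494 590) (node 623 (merge (leaf 5 526 654) (leaf 6 527 655))))))))))) (merge (node 591 (merge (node 623 (merge (leaf 6 527 655) (node 494 (merge (leaf 7 462 462) (leaf 7 494 526))))) (merge (node 623 (merge (leaf 6 527 655) (node 622 (merge (leaf 5 494 590) (leaf 5 526 654))))) (node 496 (merge (leaf 5 463 464) (node 590 (merge (leaf 5 494 622) (node 494 (merge (leaf 7 462 462) (node 493 (merge (leaf 0 492 492) (node 525 (merge (leaf 1 492 524) (node 526 (merge (leaf 1 493 497) (node 461 (merge (leaf 3 460 460) (leaf 7 461 558)))))))))))))))))) (node 463 (merge (leaf 4 431 431) (node 558 (merge (leaf 5 462 590) (node 557 (merge (leaf 2 524 556) (node 589 (merge (leaf 1 556 588) (node 525 (merge (leaf 3 524 524) (node 462 (merge (leaf 7 430 430) (node 494 (merge (leaf 6 461 493) (leaf 5 461 526))))))))))))))))))) (merge (node 558 (merge (node 557 (merge (leaf 2 524 556) (node 589 (merge (leaf 1 556 588) (node 561 (merge (leaf 1 557 590) (node 562 (merge (leaf 3 526 526) (leaf 3 527 563))))))))) (merge (node 557 (merge (leaf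 2 524 556) (node 525 (merge (leaf 3 524 524) (node 526 (merge (leaf 0 525 561) (node 496 (merge (leaf 2 493 497) (node 591 (merge (leaf 5 463 464) (leaf 6 495 623))))))))))) (merge (node 561 (merge (node 562 (merge (leaf 3 526 526) (leaf 3 527 563))) (merge (node 590 (merge (leaf 1 557 589) (node 562 (merge (leaf 3 527 563) (leaf 1 558 591))))) (node 526 (merge (leaf 0 525 525) (node 590 (merge (leaf 1 557 589) (node 622 (merge (leaf 6 526 654) (node 623 (merge (leaf 4 526 655) (node 591 (merge (leaf 4 494 494) (leaf 6 495 496)))))))))))))) (merge (node 557 (merge (leaf 2 524 556) (node 589 (merge (leaf 1 556 588) (node 590 (merge (leaf 1 557 561) (node 525 (merge (leaf 3 524 524) (node 622 (merge (leaf 4 493 493) (leaf 7 525 654))))))))))) (node 496 (merge (node 591 (merge (leaf 5 463 464) (leaf 6 495 623))) (node 557 (merge (leaf 2 524 556) (node 525 (merge (leaf 3 524 524) (node 526 (merge (leaf 2 493 497) (node 493 (merge (leaf 3 492 492) (node 461 (merge (leaf 4 429 429) (leaf 4 461 590)))))))))))))))))) (merge (node 496 (merge (node 464 (merge (leaf 5 431 432)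 (node 561 (merge (leaf 4 464 593) (node 562 (merge (leaf 3 526 526) (leaf 3 527 563))))))) (merge (node 495 (merge (node 464 (merge (leaf 5 431 432) (node 465 (merge (leaf 6 432 433) (node 466 (merge (leaf 1 463 467) (node 494 (merge (leaf 2 461 493) (leaf 2 462 497))))))))) (merge (node 463 (merge (leaf 4 431 431) (node 558 (merge (leaf 5 462 590) (node 557 (merge (leaf 2 524 556) (node 525 (merge (leaf 3 524 524) (node 462 (merge (leaf 7 430 430) (node 497 (merge (leaf 3 462 498) (node 494 (merge (leaf 3 461 461) (node 493 (merge (leaf 0 492 492) (leaf 6 461 589))))))))))))))))) (merge (node 463 (merge (leaf 4 431 431) (node 464 (merge (leaf 5 431 432) (node 462 (merge (leaf 7 430 430) (node 461 (merge (leaf 0 460 460) (leaf 0 461 497))))))))) (node 463 (merge (leaf 4 431 431) (node 464 (merge (leaf 5 431 432) (node 465 (merge (leaf 6 432 433) (node 494 (merge (leaf 1 462 466) (leaf 2 461 493))))))))))))) (node 495 (merge (node 463 (merge (leaf 4 431 431) (node 462 (merge (leaf 7 430 430) (node 461 (merge (leaf 0 460 460) (node 497 (merge (leaf 3 461 494) (leaf 3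 462 498))))))))) (merge (node 463 (merge (leaf 4 431 431) (node 558 (merge (leaf 5 462 590) (node 557 (merge (leaf 2 524 556) (node 525 (merge (leaf 3 524 524) (node 526 (merge (leaf 2 493 497) (leaf 0 525 561))))))))))) (merge (node 463 (merge (leaf 4 431 431) (node 558 (merge (leaf 5 462 590) (node 557 (merge (leaf 2 524 556) (node 589 (merge (leaf 1 556 588) (node 525 (merge (leaf 3 524 524) (node 526 (merge (leaf 0 525 561) (node 462 (merge (leaf 7 430 430) (leaf 5 461 494))))))))))))))) (node 494 (merge (node 493 (merge (leaf 0 492 492) (node 525 (merge (leaf 1 492 524) (node 526 (merge (leaf 2 493 497) (leaf 0 525 561))))))) (merge (node 493 (merge (leaf 0 492 492) (node 461 (merge (leaf 3 460 460) (node 497 (merge (leaf 3 461 462) (node 498 (merge (leaf 1 495 499) (node 466 (merge (leaf 2 462 465) (leaf 2 463 467))))))))))) (merge (node 493 (merge (leaf 0 492 492) (node 525 (merge (leaf 1 492 524) (node 526 (merge (leaf 0 525 561) (node 461 (merge (leaf 3 460 460) (node 429 (merge (leaf 4 397 397) (leaf 4 429 558))))))))))) (node 497 (merge (node 462 (merge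 (leaf 3 461 461) (node 430 (merge (leaf 4 398 398) (leaf 4 430 526))))) (node 498 (merge (leaf 1 495 499) (node 530 (merge (leaf 0 495 531) (node 466 (merge (leaf 2 463 467) (node 465 (merge (leaf 2 462 494) (node 433 (merge (leaf 4 401 401) (leaf 7 433 562)))))))))))))))))))))))) (node 591 (merge (node 623 (merge (leaf 6 527 655) (node 526 (merge (leaf 7 494 494) (node 561 (merge (leaf 0 525 525) (leaf 3 526 562))))))) (merge (node 623 (merge (leaf 6 527 655) (node 622 (merge (leaf 5 526 654) (node 495 (merge (leaf 5 494 590) (node 463 (merge (leaf 4 431 431) (node 462 (merge (leaf 7 430 430) (leaf 7 462 494))))))))))) (merge (node 495 (merge (node 590 (merge (leaf 5 494 622) (node 589 (merge (leaf 2 556 588) (node 561 (merge (leaf 1 557 558) (leaf 1 558 562))))))) (node 463 (merge (leaf 4 431 431) (node 464 (merge (leaf 6 431 432) (node 462 (merge (leaf 7 430 430) (node 494 (merge (leaf 7 462 591) (node 493 (merge (leaf 1 461 465) (leaf 0 492 492))))))))))))) (node 623 (merge (leaf 6 527 655) (node 624 (merge (leaf 4 527 656) (node 622 (merge (leaf 5 526 654) (node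 590 (merge (leaf 5 494 495) (node 589 (merge (leaf 0 588 588) (leaf 3 589 625)))))))))))))))))))))) nB_14 cB_14 12 (by decide +kernel)
def nB_15 : ℕ := 0x100000001800000000000000000000000000000000000000000000000000000000000000000000000000000000000000000000000000000000000000000000000000000000000
def cB_15 : ℕ := 0x20000000e0000000f0000000f000001cf800000e7000000ff8000003f0000003f8000000e000000080000000000000000000000000000000000000000000000000000000000000000000000000000000000000000000
theorem lB_15 : S nB_15 cB_15 11 := S_of_chk [] trivial (node 526 (merge (node 525 (merge (node 524 (merge (leaf 0 524 559) (node 556 (merge (leaf 1 523 555) (leaf 1 524 557))))) (merge (node 524 (merge (leaf 0 524 559) (node 492 (merge (leaf 3 491 491) (leaf 3 492 493))))) (node 557 (merge (leaf 1 524 556) (node 529 (merge (leaf 1 525 558) (node 493 (merge (leaf 3 492 492) (leaf 3 493 494)))))))))) (merge (node 529 (merge (node 557 (merge (leaf 1 525 558) (node 525 (merge (leaf 1 524 556) (node 493 (merge (leaf 3 492 492) (leaf 3 493 494))))))) (merge (node 498 (merge (leaf 2 494 497)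 (node 530 (merge (leaf 2 495 499) (node 494 (merge (leaf 3 493 493) (leaf 3 494 495))))))) (node 497 (merge (leaf 2 494 498) (node 525 (merge (leaf 2 493 496) (node 557 (merge (leaf 1 524 556) (leaf 1 525 558)))))))))) (merge (node 493 (merge (node 525 (merge (leaf 3 492 492) (node 524 (merge (leaf 0 524 559) (node 496 (merge (leaf 2 492 495) (leaf 2 493 497))))))) (merge (node 494 (merge (leaf 3 493 529) (node 492 (merge (leaf 0 491 491) (leaf 0 492 495))))) (node 529 (merge (leaf 3 493 494) (node 498 (merge (leaf 2 494 497) (node 530 (merge (leaf 2 495 499) (node 559 (merge (leaf 1 527 531) (leaf 1 526 558)))))))))))) (merge (node 525 (merge (node 524 (merge (leaf 0 524 559) (node 556 (merge (leaf 1 523 555) (leaf 1 524 557))))) (merge (node 524 (merge (leaf 0 524 559) (node 496 (merge (leaf 2 492 495) (leaf 2 493 497))))) (merge (node 496 (merge (leaf 2 493 497) (node 524 (merge (leaf 2 492 495) (node 556 (merge (leaf 1 523 555) (leaf 1 524 557))))))) (node 557 (merge (leaf 1 524 556) (node 529 (merge (leaf 1 525 558) (node 498 (merge (leaf 2 494 497) (node 530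 (merge (leaf 2 495 499) (node 563 (merge (leaf 0 527 562) (node 531 (merge (leaf 1 527 559) (leaf 0 528 564))))))))))))))))) (merge (node 525 (merge (node 524 (merge (leaf 0 524 559) (node 556 (merge (leaf 1 523 555) (leaf 1 524 557))))) (merge (node 556 (merge (leaf 1 524 557) (node 524 (merge (leaf 1 523 555) (node 492 (merge (leaf 3 491 491) (leaf 3 492 493))))))) (node 493 (merge (leaf 3 492 492) (node 529 (merge (leaf 3 493 494) (node 498 (merge (leaf 2 494 497) (node 530 (merge (leaf 2 495 499) (node 563 (merge (leaf 0 527 562) (node 531 (merge (leaf 1 527 559) (leaf 0 528 564)))))))))))))))) (merge (node 559 (merge (node 525 (merge (leaf 0 524 524) (node 496 (merge (leaf 2 493 497) (node 591 (merge (leaf 5 463 464) (leaf 6 495 623))))))) (merge (node 494 (merge (node 462 (merge (leaf 4 430 430) (node 591 (merge (leaf 4 462 558) (leaf 7 494 623))))) (merge (node 525 (merge (leaf 0 524 524) (node 557 (merge (leaf 1 524 556) (node 493 (merge (leaf 3 492 492) (node 589 (merge (leaf 6 493 621) (node 588 (merge (leaf 1 556 558) (leaf 5 492 620))))))))))) (node 525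 (merge (leaf 0 524 524) (node 557 (merge (leaf 1 524 556) (node 493 (merge (leaf 3 492 492) (node 462 (merge (leaf 4 430 430) (leaf 6 461 589)))))))))))) (merge (node 525 (merge (leaf 0 524 524) (node 496 (merge (leaf 2 493 497) (node 493 (merge (leaf 3 492 492) (node 464 (merge (leaf 5 431 432) (node 465 (merge (leaf 6 432 433) (node 494 (merge (leaf 2 461 495) (node 463 (merge (leaf 7 431 431) (leaf 1 461 462))))))))))))))) (node 495 (merge (node 463 (merge (leaf 4 431 431) (node 462 (merge (leaf 7 430 430) (node 591 (merge (leaf 7 462 494) (node 623 (merge (leaf 6 495 496) (leaf 6 527 655))))))))) (merge (node 463 (merge (leaf 4 431 431) (node 464 (merge (leaf 6 431 432) (node 591 (merge (leaf 5 463 496) (node 622 (merge (leaf 5 494 590) (node 623 (merge (leaf 5 526 654) (leaf 6 527 655))))))))))) (merge (node 591 (merge (node 623 (merge (leaf 7 494 494) (leaf 6 527 655))) (merge (node 623 (merge (leaf 6 527 655) (node 622 (merge (leaf 5 494 590) (leaf 5 526 654))))) (node 496 (merge (leaf 5 463 464) (node 590 (merge (leaf 5 494 622) (node 494 (merge (leaf 7 462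 462) (node 493 (merge (leaf 0 492 492) (node 461 (merge (leaf 3 460 460) (leaf 7 461 558)))))))))))))) (node 463 (merge (leaf 4 431 431) (node 558 (merge (leaf 5 462 590) (node 557 (merge (leaf 2 524 556) (node 464 (merge (leaf 6 431 432) (node 462 (merge (leaf 7 430 430) (node 494 (merge (leaf 5 461 589) (node 493 (merge (leaf 1 461 465) (leaf 0 492 492))))))))))))))))))))))) (node 494 (merge (node 493 (merge (leaf 3 493 529) (node 492 (merge (leaf 0 491 491) (leaf 0 492 495))))) (merge (node 529 (merge (leaf 3 493 493) (node 498 (merge (leaf 2 494 497) (node 530 (merge (leaf 2 495 499) (node 563 (merge (leaf 0 527 562) (node 531 (merge (leaf 1 527 559) (leaf 0 528 564))))))))))) (merge (node 558 (merge (node 557 (merge (leaf 1 525 529) (node 556 (merge (leaf 2 523 555) (leaf 2 524 559))))) (merge (node 529 (merge (leaf 1 525 557) (node 498 (merge (leaf 2 494 497) (node 530 (merge (leaf 3 494 495) (leaf 2 495 499))))))) (merge (node 591 (merge (node 559 (merge (leaf 4 462 462) (leaf 7 494 623))) (merge (node 590 (merge (leaf 4 494 623) (node 622 (merge (leaf 6 494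 495) (node 621 (merge (leaf 5 493 589) (leaf 5 525 653))))))) (node 462 (merge (leaf 4 462 559) (node 589 (merge (leaf 5 461 557) (node 590 (merge (leaf 5 493 621) (node 463 (merge (leaf 6 430 431) (leaf 6 462 495)))))))))))) (node 591 (merge (node 559 (merge (leaf 4 462 462) (leaf 7 494 623))) (merge (node 590 (merge (leaf 4 494 623) (node 622 (merge (leaf 6 494 495) (node 621 (merge (leaf 5 493 589) (leaf 5 525 653))))))) (node 462 (merge (leaf 4 462 559) (node 463 (merge (leaf 6 430 431) (node 495 (merge (leaf 6 462 590) (node 461 (merge (leaf 7 429 429) (node 496 (merge (leaf 0 460 460) (leaf 3 461 497)))))))))))))))))) (node 462 (merge (node 430 (merge (leaf 4 430 559) (node 431 (merge (leaf 6 398 399) (node 558 (merge (leaf 6 430 463) (node 429 (merge (leaf 7 397 397) (leaf 7 429 461))))))))) (merge (node 558 (merge (node 463 (merge (leaf 6 430 431) (node 590 (merge (leaf 6 462 495) (node 589 (merge (leaf 5 461 557) (leaf 5 493 621))))))) (merge (node 557 (merge (leaf 5 461 589) (node 556 (merge (leaf 2 523 555) (leaf 2 524 559))))) (node 461 (merge (leaf 7 429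 429) (node 590 (merge (leaf 7 461 493) (node 622 (merge (leaf 6 494 495) (node 653 (merge (leaf 5 525 621) (node 654 (merge (leaf 6 526 559) (leaf 5 557 685)))))))))))))) (merge (node 430 (merge (leaf 4 430 559) (node 495 (merge (leaf 4 398 398) (node 429 (merge (leaf 7 397 397) (node 558 (merge (leaf 7 429 461) (node 590 (merge (leaf 6 462 463) (leaf 6 494 622))))))))))) (merge (node 430 (merge (leaf 4 430 559) (node 495 (merge (leaf 4 398 398) (node 493 (merge (leaf 0 492 492) (node 431 (merge (leaf 6 398 399) (node 558 (merge (leaf 5 430 463) (node 590 (merge (leaf 7 461 461) (leaf 6 494 622))))))))))))) (merge (node 430 (merge (leaf 4 430 559) (node 398 (merge (leaf 4 398 495) (node 399 (merge (leaf 6 366 367) (leaf 6 398 431))))))) (merge (node 558 (merge (node 589 (merge (leaf 5 461 557) (node 590 (merge (leaf 5 493 621) (node 461 (merge (leaf 7 429 429) (leaf 7 461 493))))))) (merge (node 463 (merge (leaf 6 430 431) (node 590 (merge (leaf 6 462 495) (node 589 (merge (leaf 5 461 557) (leaf 5 493 621))))))) (node 431 (merge (leaf 6 430 463) (node 430 (merge (leaf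 6 398 399) (node 429 (merge (leaf 7 397 397) (leaf 7 429 461)))))))))) (merge (node 559 (merge (leaf 4 430 430) (node 591 (merge (leaf 7 462 495) (leaf 4 462 558))))) (node 430 (merge (leaf 4 430 559) (node 495 (merge (leaf 4 398 398) (node 431 (merge (leaf 6 398 399) (node 463 (merge (leaf 4 431 560) (node 429 (merge (leaf 7 397 397) (node 428 (merge (leaf 0 427 427) (leaf 0 428 464)))))))))))))))))))))))))))))))) nB_15 cB_15 11 (by decide +kernel)
def nB_16 : ℕ := 0x100000001000000000000000000000000000000000000000000000000000000000000000000000000000000000000000000000000000000000000000000000000000000000000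
def cB_16 : ℕ := 0xa000000be000000bf000003af000003ef800003ef800003ff800001ff000000ff8000007e000000080000000000000000000000000000000000000000000000000000000000000000000000000000000000000000000
theorem lB_16 : S nB_16 cB_16 13 := S_of_chk [(nB_13, cB_13, 12), (nB_14, cB_14, 12), (nB_15, cB_15, 11)] ⟨lB_13, lB_14, lB_15, trivial⟩ (node 527 (merge (node 526 (merge (node 561 (merge (leaf 0 525 525) (node 562 (merge (leaf 0 526 529) (leaf 3 527 563))))) (merge (node 525 (merge (leaf 0 525 561) (node 496 (merge (leaf 2 493 497) (node 524 (merge (leaf 2 492 495) (node 556 (merge (leaf 1 523 555) (leaf 1 524 557))))))))) (merge (node 529 (merge (node 557 (merge (leaf 1 525 558) (node 525 (merge (leaf 1 524 556) (node 493 (merge (leaf 3 492 492) (leaf 3 493 494))))))) (merge (node 498 (merge (leaf 2 494 497) (node 530 (merge (leaf 2 495 499) (node 494 (merge (leaf 3 493 493) (leaf 3 494 495))))))) (node 497 (merge (leaf 2 494 498) (node 525 (merge (leaf 2 493 496) (node 557 (merge (leaf 1 524 556) (leaf 1 525 558)))))))))) (node 529 (merge (node 562 (merge (leaf 0 526 561) (node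 530 (merge (leaf 0 527 563) (node 498 (merge (leaf 2 494 497) (leaf 2 495 499))))))) (merge (node 562 (merge (leaf 0 526 561) (node 530 (merge (leaf 0 527 563) (node 494 (merge (leaf 3 493 493) (leaf 3 494 495))))))) (merge (node 498 (merge (leaf 2 494 497) (node 530 (merge (leaf 2 495 499) (node 494 (merge (leaf 3 493 493) (leaf 3 494 495))))))) (node 561 (merge (leaf 0 526 562) (node 497 (merge (leaf 2 494 498) (node 494 (merge (leaf 3 493 493) (node 465 (merge (leaf 5 432 433) (node 466 (merge (leaf 6 433 434) (node 496 (merge (leaf 2 462 495) (node 464 (merge (leaf 4 432 432) (leaf 4 464 593))))))))))))))))))))))) (merge (node 526 (merge (node 561 (merge (leaf 0 525 525) (node 562 (merge (leaf 0 526 529) (leaf 3 527 563))))) (merge (node 525 (merge (leaf 0 525 561) (node 524 (merge (leaf 0 524 559) (node 556 (merge (leaf 1 523 555) (leaf 1 524 557))))))) (merge (node 525 (merge (node 524 (merge (leaf 0 524 559) (node 556 (merge (leaf 1 523 555) (leaf 1 524 557))))) (merge (node 524 (merge (leaf 0 524 559) (node 496 (merge (leaf 2 492 495) (leaf 2 493 497))))) (merge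 (node 496 (merge (leaf 2 493 497) (node 524 (merge (leaf 2 492 495) (node 556 (merge (leaf 1 523 555) (leaf 1 524 557))))))) (node 557 (merge (leaf 1 524 556) (node 529 (merge (leaf 1 525 558) (node 498 (merge (leaf 2 494 497) (node 530 (merge (leaf 2 495 499) (node 563 (merge (leaf 0 527 562) (node 531 (merge (leaf 1 527 559) (leaf 0 528 564))))))))))))))))) (node 529 (merge (node 498 (merge (leaf 2 494 497) (node 530 (merge (leaf 2 495 499) (node 558 (merge (leaf 1 525 557) (leaf 1 526 559))))))) (merge (node 562 (merge (leaf 0 526 561) (node 530 (merge (leaf 0 527 563) (node 498 (merge (leaf 2 494 497) (leaf 2 495 499))))))) (merge (node 562 (merge (leaf 0 526 561) (node 530 (merge (leaf 0 527 563) (node 558 (merge (leaf 1 525 557) (leaf 1 526 559))))))) (node 561 (merge (leaf 0 526 562) (node 558 (merge (leaf 1 525 557) (node 497 (merge (leaf 2 494 498) (node 465 (merge (leaf 5 432 433) (node 464 (merge (leaf 7 432 432) (node 496 (merge (leaf 4 464 593) (node 559 (merge (leaf 5 463 591) (node 590 (merge (leaf 1 557 589) (node 463 (merge (leaf 7 431 431) (leaf 5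 462 495))))))))))))))))))))))))))) (merge (node 561 (merge (node 526 (merge (leaf 0 525 525) (node 562 (merge (leaf 3 526 559) (leaf 3 527 563))))) (merge (node 526 (merge (leaf 0 525 525) (node 562 (merge (leaf 0 526 529) (leaf 3 527 563))))) (merge (node 559 (merge (node 562 (merge (leaf 3 527 563) (node 591 (merge (leaf 1 558 590) (node 623 (merge (leaf 6 495 496) (leaf 6 527 655))))))) (merge (node 558 (merge (node 557 (merge (leaf 2 525 529) (leaf 2 524 556))) (node 590 (merge (leaf 1 557 589) (node 622 (merge (leaf 6 526 654) (node 495 (merge (leaf 5 462 463) (leaf 5 494 591))))))))) (node 562 (merge (leaf 3 527 563) (node 530 (merge (leaf 2 527 531) (node 529 (merge (leaf 1 526 558) (node 498 (merge (leaf 2 495 499) (node 466 (merge (leaf 5 433 434) (leaf 5 465 593)))))))))))))) (node 529 (merge (node 526 (merge (leaf 0 525 525) (node 498 (merge (leaf 2 494 497) (node 530 (merge (leaf 2 495 499) (node 494 (merge (leaf 3 493 493) (leaf 3 494 495))))))))) (merge (node 559 (merge (node 530 (merge (leaf 1 527 531) (node 498 (merge (leaf 2 495 499) (node 466 (merge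 (leaf 5 433 434) (node 593 (merge (leaf 6 465 497) (leaf 6 497 625))))))))) (node 558 (merge (leaf 2 525 557) (node 590 (merge (leaf 1 557 589) (node 495 (merge (leaf 5 462 463) (node 622 (merge (leaf 5 494 591) (leaf 6 526 654))))))))))) (merge (node 559 (merge (node 558 (merge (leaf 2 525 557) (node 590 (merge (leaf 1 557 589) (node 495 (merge (leaf 5 462 463) (node 622 (merge (leaf 5 494 591) (leaf 6 526 654))))))))) (merge (node 526 (merge (leaf 0 525 525) (node 558 (merge (leaf 1 525 557) (node 590 (merge (leaf 1 557 589) (node 622 (merge (leaf 6 494 495) (leaf 6 526 654))))))))) (merge (node 526 (merge (leaf 0 525 525) (node 494 (merge (leaf 3 493 493) (node 462 (merge (leaf 4 430 430) (node 591 (merge (leaf 4 462 558) (leaf 7 494 623))))))))) (node 526 (merge (leaf 0 525 525) (node 494 (merge (leaf 3 493 493) (node 462 (merge (leaf 4 430 430) (node 591 (merge (leaf 7 462 495) (leaf 7 494 623))))))))))))) (node 526 (merge (leaf 0 525 525) (node 558 (merge (leaf 1 525 557) (node 559 (merge (leaf 1 526 530) (node 494 (merge (leaf 3 493 493) (node 462 (merge (leaf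 4 430 430) (leaf 4 462 591))))))))))))))))))) (merge (node 529 (merge (node 562 (merge (node 561 (merge (leaf 0 526 526) (leaf 3 527 563))) (merge (node 563 (merge (leaf 0 527 530) (leaf 3 527 561))) (merge (node 530 (merge (leaf 0 527 563) (node 498 (merge (leaf 2 495 499) (node 526 (merge (leaf 2 494 497) (node 494 (merge (leaf 3 493 493) (leaf 3 494 495))))))))) (node 526 (merge (leaf 0 526 561) (node 498 (merge (leaf 2 494 497) (node 530 (merge (leaf 2 495 499) (node 494 (merge (leaf 3 493 493) (leaf 3 494 495))))))))))))) (merge (node 530 (merge (node 563 (merge (leaf 0 527 562) (node 531 (merge (leaf 1 527 559) (leaf 0 528 564))))) (merge (node 559 (merge (leaf 1 527 531) (node 558 (merge (leaf 1 526 527) (leaf 2 525 557))))) (node 562 (merge (leaf 0 527 563) (node 526 (merge (leaf 0 526 561) (node 494 (merge (leaf 3 493 493) (leaf 3 494 495)))))))))) (merge (node 530 (merge (node 559 (merge (leaf 1 527 531) (node 558 (merge (leaf 1 526 527) (leaf 2 525 557))))) (merge (node 498 (merge (leaf 2 495 499) (node 526 (merge (leaf 2 494 497) (node 558 (merge (leaf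 1 525 557) (leaf 1 526 559))))))) (node 499 (merge (leaf 2 495 498) (node 531 (merge (leaf 2 496 500) (node 564 (merge (leaf 0 528 563) (node 532 (merge (leaf 1 528 561) (leaf 0 529 565)))))))))))) (merge (node 558 (merge (node 559 (merge (leaf 1 526 530) (leaf 2 525 557))) (merge (node 526 (merge (leaf 1 525 557) (node 561 (merge (leaf 0 525 525) (leaf 0 526 562))))) (node 530 (merge (leaf 1 526 559) (node 498 (merge (leaf 2 495 499) (node 526 (merge (leaf 2 494 497) (node 561 (merge (leaf 0 525 525) (leaf 0 526 562)))))))))))) (merge (node 530 (merge (node 559 (merge (leaf 1 527 531) (node 558 (merge (leaf 1 526 527) (leaf 2 525 557))))) (merge (node 563 (merge (leaf 0 527 562) (node 531 (merge (leaf 0 528 564) (node 499 (merge (leaf 2 495 498) (leaf 2 496 500))))))) (node 562 (merge (leaf 0 527 563) (node 559 (merge (leaf 1 526 558) (node 498 (merge (leaf 2 495 499) (node 495 (merge (leaf 3 494 494) (node 463 (merge (leaf 4 431 431) (node 464 (merge (leaf 6 431 432) (node 462 (merge (leaf 7 430 430) (node 465 (merge (leaf 0 462 497) (node 433 (merge (leaf 2 430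 434) (leaf 7 433 466)))))))))))))))))))))) (node 526 (merge (node 561 (merge (leaf 0 525 525) (node 562 (merge (leaf 0 526 529) (leaf 3 527 563))))) (merge (node 557 (merge (leaf 1 525 558) (node 525 (merge (leaf 1 524 556) (node 493 (merge (leaf 3 492 492) (leaf 3 493 494))))))) (node 561 (merge (leaf 0 526 562) (node 558 (merge (leaf 1 525 557) (node 497 (merge (leaf 2 494 498) (node 494 (merge (leaf 3 493 493) (node 465 (merge (leaf 5 432 433) (node 466 (merge (leaf 6 433 434) (node 464 (merge (leaf 7 432 432) (node 463 (merge (leaf 1 462 495) (node 431 (merge (leaf 3 430 430) (leaf 6 430 462)))))))))))))))))))))))))))) (merge (node 561 (merge (node 562 (merge (leaf 3 527 563) (node 526 (merge (leaf 0 526 529) (leaf 3 526 559))))) (merge (node 562 (merge (leaf 3 527 563) (node 559 (merge (leaf 3 526 526) (node 591 (merge (leaf 1 558 590) (node 623 (merge (leaf 6 495 496) (leaf 6 527 655))))))))) (merge (node 559 (merge (node 562 (merge (leaf 3 527 563) (node 591 (merge (leaf 1 558 590) (node 623 (merge (leaf 6 495 496) (leaf 6 527 655))))))) (merge (node 558 (merge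 (node 557 (merge (leaf 2 525 529) (leaf 2 524 556))) (node 590 (merge (leaf 1 557 589) (node 622 (merge (leaf 6 526 654) (node 495 (merge (leaf 5 462 463) (leaf 5 494 591))))))))) (node 562 (merge (leaf 3 527 563) (node 530 (merge (leaf 2 527 531) (node 529 (merge (leaf 1 526 558) (node 498 (merge (leaf 2 495 499) (node 466 (merge (leaf 5 433 434) (leaf 5 465 593)))))))))))))) (merge (node 529 (merge (node 562 (merge (leaf 0 526 526) (leaf 3 527 563))) (node 530 (merge (node 499 (merge (leaf 2 495 498) (node 531 (merge (leaf 2 496 500) (leaf 1 528 532))))) (merge (node 531 (merge (leaf 1 528 532) (node 496 (merge (leaf 3 495 495) (node 593 (merge (leaf 4 464 464) (leaf 7 496 625))))))) (node 498 (merge (leaf 2 495 499) (node 466 (merge (leaf 5 433 434) (node 593 (merge (leaf 6 465 497) (leaf 6 497 625)))))))))))) (merge (node 529 (merge (node 526 (merge (leaf 0 526 562) (node 558 (merge (leaf 1 525 557) (node 559 (merge (leaf 1 526 530) (node 494 (merge (leaf 3 493 493) (node 591 (merge (leaf 4 462 462) (leaf 7 494 623))))))))))) (merge (node 559 (merge (node 530 (merge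 (leaf 1 527 531) (node 498 (merge (leaf 2 495 499) (node 466 (merge (leaf 5 433 434) (node 593 (merge (leaf 6 465 497) (leaf 6 497 625))))))))) (node 558 (merge (leaf 2 525 557) (node 590 (merge (leaf 1 557 589) (node 495 (merge (leaf 5 462 463) (node 622 (merge (leaf 5 494 591) (leaf 6 526 654))))))))))) (node 526 (merge (leaf 0 526 562) (node 497 (merge (leaf 2 494 498) (node 494 (merge (leaf 3 493 493) (node 465 (merge (leaf 5 432 433) (node 466 (merge (leaf 6 433 434) (node 495 (merge (leaf 2 462 496) (node 463 (merge (leaf 4 431 431) (leaf 1 462 464)))))))))))))))))) (node 529 (merge (node 530 (merge (node 559 (merge (leaf 1 527 531) (node 558 (merge (leaf 1 526 527) (leaf 2 525 557))))) (merge (node 498 (merge (leaf 2 495 499) (node 526 (merge (leaf 2 494 497) (node 558 (merge (leaf 1 525 557) (leaf 1 526 559))))))) (node 499 (merge (leaf 2 495 498) (node 531 (merge (leaf 2 496 500) (node 564 (merge (leaf 0 528 563) (node 532 (merge (leaf 1 528 561) (leaf 0 529 565)))))))))))) (merge (node 530 (merge (node 499 (merge (leaf 2 495 498) (node 531 (merge (leaf 2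 496 500) (leaf 1 528 532))))) (merge (node 531 (merge (leaf 1 528 532) (node 496 (merge (leaf 3 495 495) (node 593 (merge (leaf 4 464 464) (leaf 7 496 625))))))) (node 498 (merge (leaf 2 495 499) (node 466 (merge (leaf 5 433 434) (node 593 (merge (leaf 6 465 497) (leaf 6 497 625)))))))))) (merge (node 494 (merge (node 493 (merge (leaf 3 493 526) (node 495 (merge (leaf 0 492 492) (leaf 0 493 496))))) (merge (node 530 (merge (leaf 3 494 495) (node 559 (merge (leaf 1 527 531) (leaf 1 526 558))))) (node 526 (merge (leaf 3 493 493) (node 558 (merge (leaf 1 525 557) (node 559 (merge (leaf 1 526 530) (node 462 (merge (leaf 4 430 430) (leaf 4 462 591)))))))))))) (node 559 (merge (node 558 (merge (leaf 2 525 557) (node 590 (merge (leaf 1 557 589) (node 495 (merge (leaf 5 462 463) (node 622 (merge (leaf 6 494 526) (leaf 6 526 654))))))))) (merge (node 558 (merge (leaf 2 525 557) (node 590 (merge (leaf 1 557 589) (node 495 (merge (leaf 5 462 463) (node 622 (merge (leaf 5 494 591) (leaf 6 526 654))))))))) (merge (node 497 (merge (node 465 (merge (leaf 5 432 433) (node 464 (merge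 (leaf 7 432 432) (node 496 (merge (leaf 5 463 591) (leaf 4 464 593))))))) (merge (node 498 (merge (leaf 2 494 526) (node 496 (merge (leaf 1 495 499) (node 593 (merge (leaf 4 464 464) (leaf 6 465 466))))))) (node 526 (merge (leaf 2 494 498) (node 494 (merge (leaf 3 493 493) (node 462 (merge (leaf 4 430 430) (node 591 (merge (leaf 4 462 558) (leaf 7 494 623)))))))))))) (node 497 (merge (node 465 (merge (leaf 5 432 433) (node 464 (merge (leaf 7 432 432) (node 496 (merge (leaf 5 463 591) (leaf 4 464 593))))))) (merge (node 498 (merge (leaf 2 494 526) (node 496 (merge (leaf 1 495 499) (node 593 (merge (leaf 4 464 464) (leaf 6 465 466))))))) (node 526 (merge (leaf 2 494 498) (node 494 (merge (leaf 3 493 493) (node 462 (merge (leaf 4 430 430) (node 591 (merge (leaf 7 462 495) (leaf 7 494 623)))))))))))))))))))))))))) (merge (node 529 (merge (node 526 (merge (node 561 (merge (leaf 0 525 525) (leaf 0 526 562))) (node 558 (merge (leaf 1 525 557) (node 530 (merge (leaf 1 526 559) (node 494 (merge (leaf 3 493 493) (leaf 3 494 495))))))))) (merge (node 530 (merge (node 559 (merge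 (leaf 1 527 531) (leaf 1 526 558))) (merge (node 558 (merge (leaf 1 526 559) (node 526 (merge (leaf 1 525 557) (node 561 (merge (leaf 0 525 525) (leaf 0 526 562))))))) (node 563 (merge (leaf 0 527 562) (node 531 (merge (leaf 0 528 564) (node 500 (merge (leaf 2 496 499) (node 532 (merge (leaf 2 497 501) (leaf 1 528 561)))))))))))) (merge (node 494 (merge (node 526 (merge (leaf 3 493 493) (node 561 (merge (leaf 0 525 525) (leaf 0 526 562))))) (merge (node 493 (merge (leaf 3 493 526) (node 495 (merge (leaf 0 492 492) (leaf 3 494 530))))) (node 530 (merge (leaf 3 494 495) (node 563 (merge (leaf 0 527 562) (node 531 (merge (leaf 0 528 564) (node 532 (merge (leaf 1 528 561) (node 500 (merge (leaf 2 496 499) (leaf 2 497 501)))))))))))))) (merge (node 558 (merge (node 557 (merge (leaf 1 525 526) (leaf 2 525 559))) (merge (node 526 (merge (leaf 1 525 557) (node 525 (merge (leaf 0 525 561) (node 493 (merge (leaf 3 492 492) (leaf 3 493 494))))))) (node 530 (merge (leaf 1 526 559) (node 495 (merge (leaf 3 494 494) (node 531 (merge (leaf 3 495 496) (node 564 (merge (leaf 0 528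 563) (node 532 (merge (leaf 1 528 561) (leaf 0 529 565)))))))))))))) (merge (node 494 (merge (node 493 (merge (leaf 3 493 526) (node 495 (merge (leaf 0 492 492) (leaf 0 493 496))))) (merge (node 530 (merge (leaf 3 494 495) (node 563 (merge (leaf 0 527 562) (node 531 (merge (leaf 0 528 564) (node 559 (merge (leaf 1 526 558) (leaf 1 527 560))))))))) (node 526 (merge (leaf 3 493 493) (node 558 (merge (leaf 1 525 557) (node 559 (merge (leaf 1 526 530) (node 591 (merge (leaf 4 462 462) (leaf 7 494 623)))))))))))) (merge (node 530 (merge (node 559 (merge (leaf 1 527 531) (leaf 1 526 558))) (merge (node 563 (merge (leaf 0 527 562) (node 531 (merge (leaf 0 528 564) (node 500 (merge (leaf 2 496 499) (node 532 (merge (leaf 2 497 501) (leaf 1 528 561))))))))) (node 562 (merge (leaf 0 527 563) (node 559 (merge (leaf 1 526 558) (node 495 (merge (leaf 3 494 494) (node 463 (merge (leaf 4 431 431) (node 464 (merge (leaf 6 431 432) (node 591 (merge (leaf 5 463 496) (node 590 (merge (leaf 1 558 561) (leaf 5 494 622)))))))))))))))))) (node 559 (merge (node 526 (merge (node 561 (merge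 (leaf 0 525 525) (leaf 3 526 562))) (merge (node 525 (merge (leaf 0 524 524) (node 493 (merge (leaf 3 492 492) (leaf 3 493 494))))) (node 494 (merge (leaf 3 493 493) (node 462 (merge (leaf 4 430 430) (node 591 (merge (leaf 7 462 495) (leaf 7 494 623)))))))))) (merge (node 561 (merge (node 562 (merge (leaf 0 526 526) (leaf 3 527 563))) (node 558 (merge (leaf 2 525 557) (node 590 (merge (leaf 1 557 589) (node 495 (merge (leaf 5 462 463) (node 622 (merge (leaf 5 494 591) (leaf 6 526 654))))))))))) (merge (node 526 (merge (node 525 (merge (leaf 0 524 524) (node 493 (merge (leaf 3 492 492) (leaf 3 493 494))))) (merge (node 494 (merge (leaf 3 493 493) (node 462 (merge (leaf 4 430 430) (node 591 (merge (leaf 4 462 558) (leaf 7 494 623))))))) (merge (node 557 (merge (leaf 1 525 558) (node 525 (merge (leaf 1 524 556) (node 524 (merge (leaf 0 524 559) (node 492 (merge (leaf 3 491 491) (leaf 3 492 493))))))))) (node 525 (merge (leaf 0 524 524) (node 557 (merge (leaf 1 524 556) (node 558 (merge (leaf 1 525 529) (node 589 (merge (leaf 1 556 588) (node 621 (merge (leaf 6 493 494)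 (leaf 6 525 653))))))))))))))) (merge (node 558 (merge (leaf 2 525 557) (node 526 (merge (node 561 (merge (leaf 0 525 525) (leaf 3 526 562))) (merge (node 561 (merge (leaf 3 526 562) (node 590 (merge (leaf 1 557 589) (node 622 (merge (leaf 6 494 495) (leaf 6 526 654))))))) (node 525 (merge (leaf 0 524 524) (node 493 (merge (leaf 3 492 492) (node 590 (merge (leaf 7 493 622) (node 463 (merge (leaf 5 462 495) (node 494 (merge (leaf 7 461 461) (node 462 (merge (leaf 4 430 430) (leaf 6 430 431)))))))))))))))))) (node 591 (merge (node 623 (merge (leaf 6 495 496) (leaf 6 527 655))) (node 495 (merge (node 590 (merge (leaf 5 494 622) (node 589 (merge (leaf 2 556 588) (node 561 (merge (leaf 1 557 558) (leaf 1 558 562))))))) (node 463 (merge (leaf 4 431 431) (node 464 (merge (leaf 6 431 432) (node 462 (merge (leaf 7 430 430) (node 494 (merge (leaf 7 462 591) (node 493 (merge (leaf 1 461 465) (leaf 0 492 492))))))))))))))))))))))))))) (merge (node 526 (merge (node 561 (merge (leaf 0 525 525) (node 562 (merge (leaf 0 526 529) (leaf 3 527 563))))) (merge (node 525 (merge (leaf 0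 525 561) (node 524 (merge (leaf 0 524 559) (node 556 (merge (leaf 1 523 555) (leaf 1 524 557))))))) (merge (node 525 (merge (node 524 (merge (leaf 0 524 559) (node 556 (merge (leaf 1 523 555) (leaf 1 524 557))))) (merge (node 524 (merge (leaf 0 524 559) (node 492 (merge (leaf 3 491 491) (leaf 3 492 493))))) (node 557 (merge (leaf 1 524 556) (node 529 (merge (leaf 1 525 558) (node 493 (merge (leaf 3 492 492) (leaf 3 493 494)))))))))) (node 529 (merge (node 498 (merge (leaf 2 494 497) (node 530 (merge (leaf 2 495 499) (node 558 (merge (leaf 1 525 557) (leaf 1 526 559))))))) (merge (node 562 (merge (leaf 0 526 561) (node 530 (merge (leaf 0 527 563) (node 498 (merge (leaf 2 494 497) (leaf 2 495 499))))))) (merge (node 562 (merge (leaf 0 526 561) (node 530 (merge (leaf 0 527 563) (node 558 (merge (leaf 1 525 557) (leaf 1 526 559))))))) (node 561 (merge (leaf 0 526 562) (node 497 (merge (leaf 2 494 498) (node 494 (merge (leaf 3 493 493) (node 465 (merge (leaf 5 432 433) (node 464 (merge (leaf 7 432 432) (node 496 (merge (leaf 4 464 593) (node 463 (merge (leaf 7 431 431)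 (node 462 (merge (leaf 0 461 461) (node 430 (merge (leaf 3 429 429) (leaf 4 430 559))))))))))))))))))))))))))) (merge (node 559 (merge (node 591 (merge (node 623 (merge (leaf 6 495 496) (leaf 6 527 655))) (merge (node 623 (merge (leaf 6 527 655) (node 624 (merge (leaf 4 527 656) (node 622 (merge (leaf 5 526 654) (node 590 (merge (leaf 5 494 495) (node 589 (merge (leaf 0 588 588) (leaf 3 589 625))))))))))) (node 495 (merge (node 463 (merge (leaf 4 431 431) (node 462 (merge (leaf 7 430 430) (leaf 7 462 494))))) (merge (node 463 (merge (leaf 4 431 431) (node 464 (merge (leaf 6 431 432) (leaf 6 463 496))))) (node 494 (merge (leaf 7 462 462) (node 493 (merge (leaf 0 492 492) (node 529 (merge (leaf 0 493 496) (leaf 3 494 530))))))))))))) (merge (node 591 (merge (node 623 (merge (leaf 6 495 496) (leaf 6 527 655))) (merge (node 623 (merge (leaf 6 527 655) (node 624 (merge (leaf 4 527 656) (node 622 (merge (leaf 5 526 654) (node 590 (merge (leaf 5 494 495) (node 589 (merge (leaf 0 588 588) (leaf 3 589 625))))))))))) (node 495 (merge (node 463 (merge (leaf 4 431 431) (node 464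 (merge (leaf 6 431 432) (leaf 6 463 496))))) (node 590 (merge (leaf 5 494 622) (node 589 (merge (leaf 2 556 588) (node 558 (merge (leaf 1 557 561) (node 557 (merge (leaf 2 525 529) (leaf 2 524 556)))))))))))))) (merge (node 529 (merge (node 558 (merge (leaf 1 526 530) (leaf 2 525 557))) (merge (node 530 (merge (leaf 1 527 531) (node 498 (merge (leaf 2 495 499) (node 526 (merge (leaf 2 494 497) (node 525 (merge (leaf 0 524 524) (node 493 (merge (leaf 3 492 492) (leaf 3 493 494))))))))))) (node 526 (merge (node 525 (merge (leaf 0 524 524) (node 493 (merge (leaf 3 492 492) (leaf 3 493 494))))) (merge (node 494 (merge (leaf 3 493 493) (node 462 (merge (leaf 4 430 430) (node 591 (merge (leaf 4 462 558) (leaf 7 494 623))))))) (merge (node 557 (merge (leaf 1 525 558) (node 525 (merge (leaf 1 524 556) (node 524 (merge (leaf 0 524 559) (node 492 (merge (leaf 3 491 491) (leaf 3 492 493))))))))) (node 525 (merge (leaf 0 524 524) (node 557 (merge (leaf 1 524 556) (node 558 (merge (leaf 1 525 529) (node 589 (merge (leaf 1 556 588) (node 621 (merge (leaf 6 493 494) (leaf 6 525 653))))))))))))))))))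 (merge (node 529 (merge (node 558 (merge (leaf 1 526 530) (leaf 2 525 557))) (merge (node 530 (merge (leaf 1 527 531) (node 498 (merge (leaf 2 495 499) (node 526 (merge (leaf 2 494 497) (node 525 (merge (leaf 0 524 524) (leaf 0 525 561))))))))) (node 526 (merge (node 525 (merge (leaf 0 524 524) (leaf 0 525 561))) (node 558 (merge (leaf 1 525 557) (node 497 (merge (leaf 2 494 498) (node 494 (merge (leaf 3 493 493) (node 462 (merge (leaf 4 430 430) (node 461 (merge (leaf 7 429 429) (node 496 (merge (leaf 3 461 495) (node 464 (merge (leaf 5 431 432) (leaf 0 461 463)))))))))))))))))))) (node 561 (merge (node 558 (merge (node 525 (merge (leaf 0 525 526) (node 557 (merge (leaf 3 524 524) (leaf 2 524 556))))) (merge (node 557 (merge (leaf 2 524 556) (node 589 (merge (leaf 1 556 588) (leaf 1 557 590))))) (node 526 (merge (leaf 0 525 525) (node 590 (merge (leaf 1 557 589) (node 622 (merge (leaf 6 494 495) (leaf 6 526 654)))))))))) (merge (node 495 (merge (node 463 (merge (leaf 4 431 431) (node 464 (merge (leaf 6 431 432) (node 496 (merge (leaf 6 463 591) (leaf 4 464 593)))))))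 (merge (node 591 (merge (node 623 (merge (leaf 6 495 496) (leaf 6 527 655))) (node 590 (merge (leaf 5 494 622) (node 589 (merge (leaf 1 557 558) (leaf 2 556 588))))))) (merge (node 463 (merge (leaf 4 431 431) (node 590 (merge (leaf 5 462 558) (node 591 (merge (leaf 5 494 622) (node 462 (merge (leaf 7 430 430) (leaf 7 462 494))))))))) (node 463 (merge (leaf 4 431 431) (node 464 (merge (leaf 6 431 432) (node 496 (merge (leaf 4 464 593) (node 462 (merge (leaf 7 430 430) (node 497 (merge (leaf 0 461 461) (leaf 3 462 498))))))))))))))) (merge (node 495 (merge (node 463 (merge (leaf 4 431 431) (node 462 (merge (leaf 7 430 430) (node 591 (merge (leaf 7 462 494) (node 623 (merge (leaf 6 495 496) (leaf 6 527 655))))))))) (merge (node 463 (merge (leaf 4 431 431) (node 464 (merge (leaf 6 431 432) (node 496 (merge (leaf 4 464 593) (node 465 (merge (leaf 6 432 433) (node 494 (merge (leaf 1 462 466) (leaf 2 461 493))))))))))) (merge (node 463 (merge (leaf 4 431 431) (node 464 (merge (leaf 6 431 432) (node 462 (merge (leaf 7 430 430) (node 494 (merge (leaf 7 462 591) (node 493 (merge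 (leaf 1 461 465) (leaf 0 492 492))))))))))) (merge (node 463 (merge (leaf 4 431 431) (node 464 (merge (leaf 6 431 432) (node 496 (merge (leaf 4 464 593) (node 462 (merge (leaf 7 430 430) (node 497 (merge (leaf 0 461 461) (leaf 3 462 498))))))))))) (node 494 (merge (node 591 (merge (leaf 7 462 462) (node 623 (merge (leaf 6 495 496) (leaf 6 527 655))))) (merge (node 462 (merge (leaf 7 462 591) (node 430 (merge (leaf 4 398 398) (leaf 4 430 526))))) (merge (node 493 (merge (leaf 0 492 492) (node 525 (merge (leaf 0 525 526) (node 496 (merge (leaf 1 492 524) (node 464 (merge (leaf 2 461 465) (leaf 5 463 591))))))))) (node 493 (merge (leaf 0 492 492) (node 525 (merge (leaf 0 525 526) (node 496 (merge (leaf 1 492 524) (node 461 (merge (leaf 3 460 460) (node 462 (merge (leaf 3 461 497) (node 430 (merge (leaf 4 398 398) (leaf 6 429 557)))))))))))))))))))))) (node 558 (merge (node 525 (merge (leaf 0 525 526) (node 557 (merge (leaf 3 524 524) (leaf 2 524 556))))) (merge (node 557 (merge (leaf 2 524 556) (node 589 (merge (leaf 1 556 588) (leaf 1 557 590))))) (node 526 (merge (leaf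 0 525 525) (node 590 (merge (leaf 1 557 589) (node 622 (merge (leaf 6 526 654) (node 623 (merge (leaf 4 526 655) (node 591 (merge (leaf 4 494 494) (leaf 6 495 496))))))))))))))))))))))) (merge (node 561 (merge (node 526 (merge (leaf 0 525 525) (node 562 (merge (leaf 0 526 529) (leaf 3 527 563))))) (merge (node 559 (merge (node 562 (merge (leaf 3 527 563) (node 591 (merge (leaf 1 558 590) (node 623 (merge (leaf 6 495 496) (leaf 6 527 655))))))) (merge (node 558 (merge (node 557 (merge (leaf 2 525 529) (leaf 2 524 556))) (node 590 (merge (leaf 1 557 589) (node 622 (merge (leaf 6 526 654) (node 495 (merge (leaf 5 462 463) (leaf 5 494 591))))))))) (merge (node 562 (merge (leaf 3 527 563) (node 530 (merge (leaf 2 527 531) (node 558 (merge (leaf 1 526 529) (node 589 (merge (leaf 1 557 590) (node 557 (merge (leaf 2 524 556) (leaf 1 556 588))))))))))) (node 562 (merge (leaf 3 527 563) (node 530 (merge (leaf 2 527 531) (node 529 (merge (leaf 1 526 558) (node 495 (merge (leaf 3 494 494) (node 463 (merge (leaf 4 431 431) (node 464 (merge (leaf 6 431 432) (node 496 (merge (leaf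 5 463 591) (leaf 4 464 593))))))))))))))))))) (node 559 (merge (node 558 (merge (node 525 (merge (leaf 0 525 526) (node 557 (merge (leaf 3 524 524) (leaf 2 524 556))))) (merge (node 557 (merge (leaf 2 524 556) (node 589 (merge (leaf 1 556 588) (leaf 1 557 590))))) (node 526 (merge (leaf 0 525 525) (node 590 (merge (leaf 1 557 589) (node 622 (merge (leaf 6 494 495) (leaf 6 526 654)))))))))) (merge (node 495 (merge (node 463 (merge (leaf 4 431 431) (node 464 (merge (leaf 6 431 432) (node 496 (merge (leaf 6 463 591) (leaf 4 464 593))))))) (merge (node 591 (merge (node 623 (merge (leaf 6 495 496) (leaf 6 527 655))) (node 590 (merge (leaf 5 494 622) (node 589 (merge (leaf 1 557 558) (leaf 2 556 588))))))) (merge (node 463 (merge (leaf 4 431 431) (node 590 (merge (leaf 5 462 558) (node 591 (merge (leaf 5 494 622) (node 462 (merge (leaf 7 430 430) (leaf 7 462 494))))))))) (node 463 (merge (leaf 4 431 431) (node 464 (merge (leaf 6 431 432) (node 496 (merge (leaf 4 464 593) (node 462 (merge (leaf 7 430 430) (node 497 (merge (leaf 0 461 461) (leaf 3 462 498))))))))))))))) (merge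 (node 495 (merge (node 463 (merge (leaf 4 431 431) (node 462 (merge (leaf 7 430 430) (node 591 (merge (leaf 7 462 494) (node 623 (merge (leaf 6 495 496) (leaf 6 527 655))))))))) (merge (node 463 (merge (leaf 4 431 431) (node 464 (merge (leaf 6 431 432) (node 496 (merge (leaf 4 464 593) (node 465 (merge (leaf 6 432 433) (node 494 (merge (leaf 1 462 466) (leaf 2 461 493))))))))))) (merge (node 463 (merge (leaf 4 431 431) (node 464 (merge (leaf 6 431 432) (node 462 (merge (leaf 7 430 430) (node 494 (merge (leaf 7 462 591) (node 493 (merge (leaf 1 461 465) (leaf 0 492 492))))))))))) (merge (node 463 (merge (leaf 4 431 431) (node 464 (merge (leaf 6 431 432) (node 496 (merge (leaf 4 464 593) (node 462 (merge (leaf 7 430 430) (node 497 (merge (leaf 0 461 461) (leaf 3 462 498))))))))))) (node 494 (merge (node 591 (merge (leaf 7 462 462) (node 623 (merge (leaf 6 495 496) (leaf 6 527 655))))) (merge (node 462 (merge (leaf 7 462 591) (node 430 (merge (leaf 4 398 398) (leaf 4 430 526))))) (merge (node 493 (merge (leaf 0 492 492) (node 525 (merge (leaf 0 525 526) (node 496 (merge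 (leaf 1 492 524) (node 464 (merge (leaf 2 461 465) (leaf 5 463 591))))))))) (node 493 (merge (leaf 0 492 492) (node 525 (merge (leaf 0 525 526) (node 496 (merge (leaf 1 492 524) (node 461 (merge (leaf 3 460 460) (node 462 (merge (leaf 3 461 497) (node 430 (merge (leaf 4 398 398) (leaf 6 429 557)))))))))))))))))))))) (node 558 (merge (node 525 (merge (leaf 0 525 526) (node 557 (merge (leaf 3 524 524) (leaf 2 524 556))))) (merge (node 557 (merge (leaf 2 524 556) (node 589 (merge (leaf 1 556 588) (leaf 1 557 590))))) (node 526 (merge (leaf 0 525 525) (node 590 (merge (leaf 1 557 589) (node 622 (merge (leaf 6 526 654) (node 623 (merge (leaf 4 526 655) (node 591 (merge (leaf 4 494 494) (leaf 6 495 496))))))))))))))))))))) (merge (node 561 (merge (node 526 (merge (leaf 0 525 525) (node 562 (merge (leaf 3 526 559) (leaf 3 527 563))))) (merge (node 526 (merge (leaf 0 525 525) (node 562 (merge (leaf 0 526 529) (leaf 3 527 563))))) (merge (node 529 (merge (node 526 (merge (leaf 0 525 525) (node 494 (merge (leaf 3 493 493) (node 530 (merge (leaf 3 494 495) (node 559 (merge (leaf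 1 527 531) (leaf 2 526 558))))))))) (merge (node 530 (merge (node 531 (merge (leaf 1 528 532) (leaf 1 527 559))) (node 498 (merge (leaf 2 495 499) (node 466 (merge (leaf 5 433 434) (node 593 (merge (leaf 6 465 497) (leaf 6 497 625))))))))) (merge (node 526 (merge (leaf 0 525 525) (node 497 (merge (leaf 2 494 498) (node 465 (merge (leaf 5 432 433) (node 466 (merge (leaf 6 433 434) (node 464 (merge (leaf 7 432 432) (node 496 (merge (leaf 4 464 593) (node 467 (merge (leaf 1 464 468) (leaf 1 463 495))))))))))))))) (node 526 (merge (leaf 0 525 525) (node 497 (merge (leaf 2 494 498) (node 494 (merge (leaf 3 493 493) (node 465 (merge (leaf 5 432 433) (node 464 (merge (leaf 7 432 432) (node 496 (merge (leaf 4 464 593) (node 463 (merge (leaf 7 431 431) (node 462 (merge (leaf 0 461 461) (node 430 (merge (leaf 3 429 429) (leaf 4 430 559))))))))))))))))))))))) (node 562 (merge (node 563 (merge (leaf 3 527 527) (node 596 (merge (leaf 0 560 595) (node 564 (merge (leaf 3 528 529) (leaf 0 561 597))))))) (merge (node 563 (merge (node 596 (merge (leaf 0 560 595) (node 564 (merge (leaf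 3 528 529) (leaf 0 561 597))))) (merge (node 532 (merge (leaf 2 528 531) (node 564 (merge (leaf 3 528 529) (leaf 2 529 533))))) (node 595 (merge (leaf 0 560 596) (node 531 (merge (leaf 2 528 532) (node 530 (merge (leaf 2 527 559) (node 627 (merge (leaf 7 498 498) (leaf 7 530 659)))))))))))) (merge (node 563 (merge (leaf 3 527 527) (node 595 (merge (leaf 0 560 596) (node 531 (merge (leaf 2 528 532) (node 530 (merge (leaf 2 527 559) (node 627 (merge (leaf 7 498 498) (leaf 7 530 659))))))))))) (node 530 (merge (node 559 (merge (leaf 2 527 531) (node 558 (merge (leaf 2 526 529) (node 590 (merge (leaf 1 557 589) (leaf 1 558 591))))))) (merge (node 559 (merge (leaf 2 527 531) (node 591 (merge (leaf 1 558 590) (node 496 (merge (leaf 5 463 464) (node 623 (merge (leaf 6 495 527) (leaf 6 527 655))))))))) (merge (node 559 (merge (node 558 (merge (leaf 2 526 529) (node 590 (merge (leaf 1 557 589) (leaf 1 558 591))))) (merge (node 591 (merge (leaf 1 558 590) (node 623 (merge (leaf 6 527 655) (node 496 (merge (leaf 5 463 464) (leaf 6 495 527))))))) (node 529 (merge (leaf 2 526 558)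 (node 498 (merge (node 593 (merge (leaf 6 497 625) (node 466 (merge (leaf 5 433 434) (leaf 5 465 562))))) (merge (node 499 (merge (leaf 2 495 527) (node 500 (merge (leaf 1 496 497) (leaf 1 497 501))))) (node 499 (merge (leaf 2 495 527) (node 500 (merge (leaf 1 496 497) (leaf 1 497 501))))))))))))) (node 529 (merge (node 531 (merge (leaf 1 528 532) (node 496 (merge (leaf 3 495 495) (node 593 (merge (leaf 4 464 464) (leaf 7 496 625))))))) (merge (node 498 (merge (node 593 (merge (leaf 6 497 625) (node 466 (merge (leaf 5 433 434) (leaf 5 465 562))))) (merge (node 499 (merge (leaf 2 495 527) (node 500 (merge (leaf 1 496 497) (leaf 1 497 501))))) (node 499 (merge (leaf 2 495 527) (node 500 (merge (leaf 1 496 497) (leaf 1 497 501)))))))) (node 531 (merge (leaf 1 528 532) (node 499 (merge (leaf 2 496 500) (node 496 (merge (leaf 3 495 495) (node 464 (merge (leaf 4 432 432) (node 465 (merge (leaf 6 432 433) (node 463 (merge (leaf 7 431 431) (node 498 (merge (leaf 0 463 466) (leaf 3 463 497)))))))))))))))))))))))))))))) (merge (hyp 0) (merge (hyp 1) (merge (node 496 (merge (node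 561 (merge (node 526 (merge (leaf 0 525 525) (node 562 (merge (leaf 3 526 559) (leaf 3 527 563))))) (node 593 (merge (leaf 4 464 464) (node 625 (merge (leaf 7 496 529) (leaf 7 528 657))))))) (merge (node 464 (merge (node 559 (merge (leaf 5 431 432) (leaf 5 463 591))) (merge (node 561 (merge (leaf 4 464 593) (node 432 (merge (leaf 4 432 529) (node 431 (merge (leaf 7 399 399) (leaf 7 431 463))))))) (node 561 (merge (leaf 4 464 593) (node 562 (merge (leaf 3 527 563) (node 559 (merge (leaf 3 526 526) (leaf 5 463 591)))))))))) (merge (node 464 (merge (node 561 (merge (leaf 4 464 593) (node 526 (merge (leaf 0 525 525) (node 562 (merge (leaf 0 526 529) (leaf 3 527 563))))))) (node 433 (merge (leaf 6 432 465) (node 432 (merge (leaf 6 400 401) (node 431 (merge (leaf 7 399 399) (leaf 7 431 463))))))))) (merge (node 526 (merge (node 497 (merge (leaf 2 493 525) (node 498 (merge (leaf 1 494 495) (leaf 1 495 499))))) (merge (node 525 (merge (leaf 2 493 497) (node 524 (merge (leaf 0 524 559) (node 556 (merge (leaf 1 523 555) (leaf 1 524 557))))))) (merge (node 464 (merge (node 559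 (merge (leaf 5 431 432) (leaf 5 463 591))) (merge (node 433 (merge (leaf 6 432 465) (node 432 (merge (leaf 6 400 401) (node 431 (merge (leaf 7 399 399) (leaf 7 431 463))))))) (node 559 (merge (leaf 5 463 591) (node 525 (merge (leaf 0 524 524) (node 493 (merge (leaf 3 492 492) (node 465 (merge (leaf 6 432 433) (node 494 (merge (leaf 2 461 495) (node 463 (merge (leaf 7 431 431) (leaf 1 461 462)))))))))))))))) (node 497 (merge (node 498 (merge (leaf 1 495 499) (leaf 2 494 529))) (merge (node 498 (merge (leaf 1 494 495) (leaf 1 495 499))) (node 464 (merge (node 559 (merge (leaf 5 431 432) (leaf 5 463 591))) (merge (node 432 (merge (leaf 5 431 559) (node 400 (merge (leaf 5 399 495) (leaf 4 400 529))))) (merge (node 433 (merge (leaf 6 432 465) (node 432 (merge (leaf 6 400 401) (node 431 (merge (leaf 7 399 399) (leaf 7 431 463))))))) (node 559 (merge (leaf 5 463 591) (node 465 (merge (leaf 6 432 433) (node 463 (merge (leaf 7 431 431) (node 462 (merge (leaf 0 461 461) (node 430 (merge (leaf 3 429 429) (leaf 4 430 494)))))))))))))))))))))) (merge (node 559 (merge (node 591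 (merge (leaf 5 463 464) (leaf 6 495 623))) (merge (node 495 (merge (node 463 (merge (leaf 4 431 431) (node 462 (merge (leaf 7 430 430) (node 591 (merge (leaf 7 462 494) (node 623 (merge (leaf 6 495 496) (leaf 6 527 655))))))))) (merge (node 463 (merge (leaf 4 431 431) (node 590 (merge (leaf 5 462 558) (node 591 (merge (leaf 5 494 622) (leaf 6 495 623))))))) (merge (node 591 (merge (leaf 6 495 623) (node 590 (merge (leaf 5 494 622) (node 561 (merge (leaf 1 558 562) (node 589 (merge (leaf 1 557 558) (leaf 2 556 588))))))))) (node 463 (merge (leaf 4 431 431) (node 558 (merge (leaf 5 462 590) (node 557 (merge (leaf 2 524 556) (node 525 (merge (leaf 3 524 524) (node 462 (merge (leaf 7 430 430) (node 497 (merge (leaf 3 462 498) (node 494 (merge (leaf 3 461 461) (node 493 (merge (leaf 0 492 492) (leaf 6 461 589))))))))))))))))))))) (node 495 (merge (node 464 (merge (leaf 5 431 432) (node 465 (merge (leaf 6 432 433) (node 466 (merge (leaf 1 463 467) (node 494 (merge (leaf 2 461 493) (leaf 2 462 497))))))))) (merge (node 463 (merge (leaf 4 431 431) (node 558 (merge (leaf 5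 462 590) (node 557 (merge (leaf 2 524 556) (node 525 (merge (leaf 3 524 524) (node 462 (merge (leaf 7 430 430) (node 497 (merge (leaf 3 462 498) (node 494 (merge (leaf 3 461 461) (node 493 (merge (leaf 0 492 492) (leaf 6 461 589))))))))))))))))) (merge (node 463 (merge (leaf 4 431 431) (node 464 (merge (leaf 5 431 432) (node 462 (merge (leaf 7 430 430) (node 461 (merge (leaf 0 460 460) (leaf 0 461 497))))))))) (node 463 (merge (leaf 4 431 431) (node 464 (merge (leaf 5 431 432) (node 465 (merge (leaf 6 432 433) (node 494 (merge (leaf 1 462 466) (leaf 2 461 493)))))))))))))))) (node 526 (merge (node 525 (merge (leaf 2 493 497) (leaf 0 525 561))) (merge (node 525 (merge (leaf 2 493 497) (node 524 (merge (leaf 2 492 495) (leaf 0 524 559))))) (merge (node 525 (merge (leaf 0 525 561) (node 524 (merge (leaf 2 492 495) (leaf 0 524 559))))) (node 558 (merge (node 557 (merge (leaf 1 525 529) (node 556 (merge (leaf 2 523 555) (leaf 2 524 559))))) (merge (node 529 (merge (leaf 1 525 557) (node 497 (merge (leaf 2 494 498) (node 494 (merge (leaf 3 493 493) (node 465 (merge (leaf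 5 432 433) (node 495 (merge (leaf 2 462 466) (node 590 (merge (leaf 6 462 463) (leaf 6 494 622))))))))))))) (merge (node 559 (merge (node 561 (merge (leaf 3 526 562) (node 590 (merge (leaf 1 557 589) (node 622 (merge (leaf 6 494 495) (leaf 6 526 654))))))) (merge (node 561 (merge (leaf 3 526 562) (node 591 (merge (leaf 6 495 623) (node 494 (merge (leaf 4 462 462) (node 529 (merge (leaf 3 493 493) (node 497 (merge (leaf 2 494 498) (node 465 (merge (leaf 5 432 433) (node 466 (merge (leaf 6 433 434) (leaf 2 462 495))))))))))))))) (merge (node 591 (merge (leaf 6 495 623) (node 494 (merge (leaf 4 462 462) (node 529 (merge (leaf 3 493 493) (node 497 (merge (leaf 2 494 498) (node 465 (merge (leaf 5 432 433) (node 495 (merge (leaf 2 462 466) (node 590 (merge (leaf 5 462 463) (leaf 5 494 622))))))))))))))) (node 561 (merge (leaf 3 526 562) (node 590 (merge (leaf 1 557 589) (node 622 (merge (leaf 6 526 654) (node 623 (merge (leaf 4 526 655) (node 591 (merge (leaf 4 494 494) (leaf 6 495 496))))))))))))))) (node 590 (merge (node 622 (merge (leaf 6 494 495) (node 655 (merge (leaf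 4 526 623) (node 654 (merge (leaf 6 526 559) (leaf 4 558 687))))))) (merge (node 622 (merge (leaf 6 494 495) (node 654 (merge (leaf 6 526 559) (node 653 (merge (leaf 5 525 621) (leaf 5 557 685))))))) (merge (node 622 (merge (leaf 6 494 495) (node 623 (merge (leaf 4 526 655) (node 494 (merge (leaf 4 494 591) (node 621 (merge (leaf 5 493 589) (leaf 5 525 653))))))))) (merge (node 622 (merge (node 654 (merge (leaf 6 526 559) (node 653 (merge (leaf 5 525 621) (leaf 5 557 685))))) (merge (node 655 (merge (leaf 4 526 623) (node 654 (merge (leaf 6 526 559) (leaf 4 558 687))))) (node 623 (merge (leaf 4 526 655) (node 494 (merge (leaf 4 494 591) (node 589 (merge (leaf 5 493 621) (node 462 (merge (leaf 5 461 557) (node 461 (merge (leaf 7 429 429) (leaf 7 461 493)))))))))))))) (node 494 (merge (node 493 (merge (leaf 7 461 461) (node 492 (merge (leaf 0 491 491) (leaf 0 492 495))))) (merge (node 591 (merge (leaf 4 494 623) (node 462 (merge (leaf 4 462 559) (node 589 (merge (leaf 5 461 557) (leaf 5 493 621))))))) (node 589 (merge (leaf 5 493 621) (node 462 (merge (leaf 5 461 557)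 (node 461 (merge (leaf 7 429 429) (leaf 7 461 493))))))))))))))))))))))))))))) (merge (node 496 (merge (node 561 (merge (node 526 (merge (leaf 0 525 525) (node 562 (merge (leaf 3 526 559) (leaf 3 527 563))))) (node 593 (merge (leaf 4 464 464) (node 625 (merge (leaf 7 496 529) (leaf 7 528 657))))))) (merge (node 464 (merge (node 561 (merge (leaf 4 464 593) (node 526 (merge (leaf 0 525 525) (node 562 (merge (leaf 0 526 529) (leaf 3 527 563))))))) (node 433 (merge (leaf 6 432 465) (node 432 (merge (leaf 6 400 401) (node 431 (merge (leaf 7 399 399) (leaf 7 431 463))))))))) (merge (node 464 (merge (node 433 (merge (leaf 6 432 465) (node 432 (merge (leaf 6 400 401) (node 431 (merge (leaf 7 399 399) (leaf 7 431 463))))))) (node 561 (merge (leaf 4 464 593) (node 562 (merge (leaf 3 527 563) (node 559 (merge (leaf 3 526 526) (leaf 5 463 591))))))))) (merge (node 526 (merge (node 497 (merge (leaf 2 493 525) (node 498 (merge (leaf 1 494 495) (leaf 1 495 499))))) (merge (node 525 (merge (leaf 2 493 497) (node 524 (merge (leaf 0 524 559) (node 556 (merge (leaf 1 523 555) (leaf 1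 524 557))))))) (merge (node 464 (merge (node 559 (merge (leaf 5 431 432) (leaf 5 463 591))) (merge (node 433 (merge (leaf 6 432 465) (node 432 (merge (leaf 6 400 401) (node 431 (merge (leaf 7 399 399) (leaf 7 431 463))))))) (node 559 (merge (leaf 5 463 591) (node 525 (merge (leaf 0 524 524) (node 493 (merge (leaf 3 492 492) (node 465 (merge (leaf 6 432 433) (node 494 (merge (leaf 2 461 495) (node 463 (merge (leaf 7 431 431) (leaf 1 461 462)))))))))))))))) (node 497 (merge (node 498 (merge (leaf 1 495 499) (leaf 2 494 529))) (merge (node 498 (merge (leaf 1 494 495) (leaf 1 495 499))) (node 464 (merge (node 559 (merge (leaf 5 431 432) (leaf 5 463 591))) (merge (node 432 (merge (leaf 5 431 559) (node 400 (merge (leaf 5 399 495) (leaf 4 400 529))))) (merge (node 433 (merge (leaf 6 432 465) (node 432 (merge (leaf 6 400 401) (node 431 (merge (leaf 7 399 399) (leaf 7 431 463))))))) (node 559 (merge (leaf 5 463 591) (node 465 (merge (leaf 6 432 433) (node 463 (merge (leaf 7 431 431) (node 462 (merge (leaf 0 461 461) (node 430 (merge (leaf 3 429 429) (leaf 4 430 494))))))))))))))))))))))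 (merge (node 526 (merge (node 525 (merge (leaf 2 493 497) (leaf 0 525 561))) (merge (node 525 (merge (leaf 2 493 497) (node 524 (merge (leaf 2 492 495) (leaf 0 524 559))))) (merge (node 525 (merge (leaf 0 525 561) (node 524 (merge (leaf 2 492 495) (leaf 0 524 559))))) (node 529 (merge (node 562 (merge (leaf 0 526 561) (node 530 (merge (leaf 0 527 563) (node 498 (merge (leaf 2 494 497) (leaf 2 495 499))))))) (merge (node 498 (merge (leaf 2 494 497) (node 530 (merge (leaf 2 495 499) (node 563 (merge (leaf 0 527 562) (node 531 (merge (leaf 1 527 559) (leaf 0 528 564))))))))) (merge (node 494 (merge (leaf 3 493 493) (node 530 (merge (leaf 3 494 495) (node 531 (merge (leaf 1 527 559) (node 564 (merge (leaf 0 528 563) (node 532 (merge (leaf 1 528 561) (leaf 0 529 565))))))))))) (node 497 (merge (leaf 2 494 498) (node 494 (merge (leaf 3 493 493) (node 465 (merge (leaf 5 432 433) (node 495 (merge (leaf 2 462 466) (node 462 (merge (leaf 3 461 461) (node 430 (merge (leaf 4 398 398) (leaf 4 430 559))))))))))))))))))))) (node 495 (merge (node 464 (merge (node 559 (merge (leaf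 5 431 432) (leaf 5 463 591))) (node 465 (merge (leaf 6 432 433) (node 494 (merge (leaf 2 461 493) (node 466 (merge (leaf 1 463 467) (leaf 2 462 497))))))))) (merge (node 464 (merge (node 465 (merge (leaf 6 432 433) (node 494 (merge (leaf 2 461 493) (node 463 (merge (leaf 7 431 431) (leaf 1 462 466))))))) (merge (node 561 (merge (leaf 4 464 593) (node 432 (merge (leaf 4 432 529) (node 433 (merge (leaf 6 400 401) (leaf 6 432 465))))))) (node 561 (merge (leaf 4 464 593) (node 432 (merge (leaf 4 432 529) (node 431 (merge (leaf 7 399 399) (leaf 7 431 463)))))))))) (merge (node 464 (merge (node 561 (merge (leaf 4 464 593) (node 432 (merge (leaf 4 432 529) (node 433 (merge (leaf 6 400 401) (leaf 6 432 465))))))) (merge (node 561 (merge (leaf 4 464 593) (node 432 (merge (leaf 4 432 529) (node 431 (merge (leaf 7 399 399) (leaf 7 431 463))))))) (merge (node 433 (merge (leaf 6 432 465) (node 432 (merge (leaf 6 400 401) (node 431 (merge (leaf 7 399 399) (leaf 7 431 463))))))) (node 561 (merge (leaf 4 464 593) (node 465 (merge (leaf 6 432 433) (node 466 (merge (leaf 1 463 467)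 (node 463 (merge (leaf 7 431 431) (node 498 (merge (leaf 0 463 499) (node 497 (merge (leaf 0 462 462) (node 434 (merge (leaf 2 431 435) (leaf 6 433 529))))))))))))))))))) (merge (node 464 (merge (node 559 (merge (leaf 5 431 432) (leaf 5 463 591))) (merge (node 432 (merge (leaf 5 399 400) (node 529 (merge (leaf 4 432 561) (node 530 (merge (leaf 3 494 494) (leaf 3 495 531))))))) (node 463 (merge (leaf 4 431 431) (node 559 (merge (leaf 5 463 591) (node 462 (merge (leaf 7 430 430) (node 461 (merge (leaf 0 460 460) (leaf 0 461 497)))))))))))) (node 494 (merge (node 529 (merge (leaf 0 493 493) (node 530 (merge (leaf 3 494 527) (leaf 3 495 531))))) (merge (node 493 (merge (leaf 0 493 529) (node 492 (merge (leaf 0 492 527) (node 524 (merge (leaf 1 491 523) (leaf 1 492 525))))))) (merge (node 497 (merge (node 466 (merge (leaf 2 462 465) (node 498 (merge (leaf 2 463 467) (node 462 (merge (leaf 3 461 461) (leaf 3 462 463))))))) (merge (node 461 (merge (leaf 3 461 462) (node 493 (merge (leaf 3 460 460) (node 492 (merge (leaf 0 492 527) (node 524 (merge (leaf 1 491 523) (leaf 1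 492 525))))))))) (node 466 (merge (leaf 2 462 465) (node 498 (merge (leaf 2 463 467) (node 531 (merge (leaf 0 495 530) (node 499 (merge (leaf 1 495 527) (leaf 0 496 532)))))))))))) (node 497 (merge (node 465 (merge (leaf 2 462 466) (node 433 (merge (leaf 5 400 401) (leaf 5 432 529))))) (merge (node 530 (merge (leaf 0 494 529) (node 498 (merge (leaf 0 495 531) (node 462 (merge (leaf 3 461 461) (leaf 3 462 463))))))) (node 466 (merge (leaf 2 462 465) (node 498 (merge (leaf 2 463 467) (node 462 (merge (leaf 3 461 461) (leaf 3 462 463))))))))))))))))))))))))) (hyp 2)))))))))))))))) nB_16 cB_16 13 (by decide +kernel)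
def nB_17 : ℕ := 0x100000001000000010000000000000000000000000000000000000000000000000000000000000000000000000000000000000000000000000000000000000000000000000000
def cB_17 : ℕ := 0xa0000000e0000002e0000002e000003e7c00001ef800001ffc00000ff0000003e0000003e0000000800000000000000000000000000000000000000000000000000000000000000000000000000000000000
theorem lB_17 : S nB_17 cB_17 12 := S_of_chk [] trivial (node 495 (merge (node 464 (merge (node 465 (merge (leaf 6 432 433) (node 494 (merge (leaf 2 461 493) (node 463 (merge (leaf 7 431 431) (leaf 1 462 466))))))) (merge (node 561 (merge (leaf 4 464 593) (node 432 (merge (leaf 4 432 529) (node 433 (merge (leaf 6 400 401) (leaf 6 432 465))))))) (node 561 (merge (leaf 4 464 593) (node 432 (merge (leaf 4 432 529) (node 431 (merge (leaf 7 399 399) (leaf 7 431 463)))))))))) (merge (node 494 (merge (node 529 (merge (leaf 0 493 493) (node 530 (merge (leaf 0 494 497) (leaf 3 495 531))))) (merge (node 493 (merge (leaf 0 493 529) (node 464 (merge (leaf 2 461 465) (node 492 (merge (leaf 2 460 463) (node 524 (merge (leaf 1 491 523) (leaf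 1 492 525))))))))) (merge (node 497 (merge (node 465 (merge (leaf 2 462 466) (node 433 (merge (leaf 5 400 401) (leaf 5 432 529))))) (merge (node 530 (merge (leaf 0 494 529) (node 498 (merge (leaf 0 495 531) (node 462 (merge (leaf 3 461 461) (leaf 3 462 463))))))) (node 466 (merge (leaf 2 462 465) (node 498 (merge (leaf 2 463 467) (node 462 (merge (leaf 3 461 461) (leaf 3 462 463)))))))))) (node 497 (merge (node 525 (merge (leaf 1 493 526) (node 493 (merge (leaf 1 492 524) (node 461 (merge (leaf 3 460 460) (leaf 3 461 462))))))) (merge (node 466 (merge (leaf 2 462 465) (node 498 (merge (leaf 2 463 467) (node 462 (merge (leaf 3 461 461) (leaf 3 462 463))))))) (node 525 (merge (leaf 1 493 526) (node 493 (merge (leaf 1 492 524) (node 465 (merge (leaf 2 461 464) (leaf 2 462 466)))))))))))))) (merge (node 464 (merge (node 561 (merge (leaf 4 464 593) (node 432 (merge (leaf 4 432 529) (node 433 (merge (leaf 6 400 401) (leaf 6 432 465))))))) (merge (node 561 (merge (leaf 4 464 593) (node 432 (merge (leaf 4 432 529) (node 431 (merge (leaf 7 399 399) (leaf 7 431 463))))))) (merge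 (node 433 (merge (leaf 6 432 465) (node 432 (merge (leaf 6 400 401) (node 431 (merge (leaf 7 399 399) (leaf 7 431 463))))))) (node 561 (merge (leaf 4 464 593) (node 465 (merge (leaf 6 432 433) (node 466 (merge (leaf 1 463 467) (node 463 (merge (leaf 7 431 431) (node 498 (merge (leaf 0 463 499) (node 497 (merge (leaf 0 462 462) (node 434 (merge (leaf 2 431 435) (leaf 6 433 529))))))))))))))))))) (merge (node 494 (merge (node 493 (merge (leaf 0 493 529) (node 524 (merge (leaf 1 492 525) (node 492 (merge (leaf 1 491 523) (node 460 (merge (leaf 3 459 459) (leaf 3 460 461))))))))) (merge (node 465 (merge (node 497 (merge (leaf 2 462 466) (node 433 (merge (leaf 5 400 401) (leaf 5 432 529))))) (merge (node 464 (merge (leaf 6 432 433) (node 561 (merge (leaf 4 464 593) (node 529 (merge (leaf 4 432 432) (node 530 (merge (leaf 3 495 531) (node 559 (merge (leaf 2 526 558) (leaf 5 463 591))))))))))) (merge (node 466 (merge (leaf 2 462 497) (node 464 (merge (leaf 1 463 467) (node 561 (merge (leaf 4 464 593) (node 529 (merge (leaf 4 432 432) (node 530 (merge (leaf 3 495 531) (node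 559 (merge (leaf 2 526 558) (leaf 5 463 591))))))))))))) (node 466 (merge (leaf 2 462 497) (node 464 (merge (leaf 6 432 433) (leaf 1 463 467))))))))) (node 465 (merge (node 464 (merge (leaf 6 432 433) (leaf 2 461 493))) (merge (node 493 (merge (leaf 2 461 464) (node 497 (merge (leaf 2 462 466) (node 525 (merge (leaf 1 492 524) (leaf 1 493 526))))))) (merge (node 497 (merge (leaf 2 462 466) (node 525 (merge (leaf 1 493 526) (node 493 (merge (leaf 1 492 524) (node 461 (merge (leaf 3 460 460) (leaf 3 461 462))))))))) (node 466 (merge (leaf 2 462 497) (node 464 (merge (leaf 6 432 433) (leaf 1 463 467)))))))))))) (merge (node 529 (merge (node 494 (merge (leaf 0 493 493) (node 530 (merge (leaf 0 494 497) (leaf 3 495 531))))) (merge (node 464 (merge (node 561 (merge (leaf 4 432 432) (leaf 4 464 593))) (merge (node 433 (merge (leaf 6 432 465) (node 432 (merge (leaf 6 400 401) (node 431 (merge (leaf 7 399 399) (leaf 7 431 463))))))) (node 561 (merge (leaf 4 464 593) (node 559 (merge (leaf 5 463 591) (node 530 (merge (leaf 1 527 531) (leaf 2 526 558)))))))))) (node 464 (merge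 (node 561 (merge (leaf 4 432 432) (leaf 4 464 593))) (merge (node 431 (merge (leaf 7 431 463) (node 432 (merge (leaf 7 399 399) (node 400 (merge (leaf 4 400 497) (node 401 (merge (leaf 6 368 369) (leaf 6 400 433))))))))) (node 561 (merge (leaf 4 464 593) (node 559 (merge (leaf 5 463 591) (node 558 (merge (leaf 2 525 557) (node 590 (merge (leaf 1 557 589) (node 526 (merge (leaf 3 525 525) (node 463 (merge (leaf 7 431 431) (leaf 6 462 494))))))))))))))))))) (merge (node 497 (merge (node 498 (merge (node 463 (merge (leaf 3 462 462) (node 431 (merge (leaf 4 399 399) (leaf 7 431 464))))) (node 531 (merge (leaf 0 495 530) (node 499 (merge (leaf 0 496 532) (node 467 (merge (leaf 2 463 466) (leaf 2 464 468))))))))) (merge (node 498 (merge (node 531 (merge (leaf 0 495 530) (node 499 (merge (leaf 0 496 532) (node 467 (merge (leaf 2 463 466) (leaf 2 464 468))))))) (merge (node 530 (merge (leaf 0 495 531) (node 494 (merge (leaf 0 494 529) (node 525 (merge (leaf 1 493 526) (node 493 (merge (leaf 1 492 524) (node 461 (merge (leaf 3 460 460) (leaf 3 461 462))))))))))) (merge (node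 467 (merge (leaf 2 463 466) (node 499 (merge (leaf 2 464 468) (node 529 (merge (leaf 1 496 500) (node 494 (merge (leaf 0 493 493) (leaf 0 494 530))))))))) (node 467 (merge (leaf 2 463 466) (node 499 (merge (leaf 2 464 468) (node 532 (merge (leaf 0 496 531) (node 500 (merge (leaf 1 496 529) (leaf 0 497 533))))))))))))) (merge (node 464 (merge (node 463 (merge (leaf 7 431 431) (node 498 (merge (leaf 3 462 462) (leaf 3 463 499))))) (merge (node 561 (merge (leaf 4 464 593) (node 432 (merge (leaf 4 432 529) (node 401 (merge (leaf 6 400 433) (node 400 (merge (leaf 6 368 369) (node 399 (merge (leaf 7 367 367) (leaf 7 399 431))))))))))) (node 561 (merge (leaf 4 464 593) (node 432 (merge (leaf 4 432 529) (node 401 (merge (leaf 6 400 433) (node 400 (merge (leaf 6 368 369) (node 368 (merge (leaf 5 367 463) (node 367 (merge (leaf 7 335 335) (leaf 7 367 399)))))))))))))))) (node 529 (merge (node 530 (merge (leaf 0 494 494) (leaf 3 495 531))) (merge (node 559 (merge (node 558 (merge (leaf 2 525 557) (node 530 (merge (leaf 1 527 531) (leaf 2 526 561))))) (node 464 (merge (leaf 5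 463 591) (node 432 (merge (leaf 4 400 400) (node 431 (merge (leaf 7 399 399) (leaf 7 431 463))))))))) (node 464 (merge (node 561 (merge (leaf 4 432 432) (leaf 4 464 593))) (merge (node 431 (merge (leaf 7 431 463) (node 432 (merge (leaf 7 399 399) (node 400 (merge (leaf 4 400 497) (node 401 (merge (leaf 6 368 369) (leaf 6 400 433))))))))) (node 561 (merge (leaf 4 464 593) (node 559 (merge (leaf 5 463 591) (node 558 (merge (leaf 2 525 557) (node 590 (merge (leaf 1 557 589) (node 526 (merge (leaf 3 525 525) (node 463 (merge (leaf 7 431 431) (leaf 6 462 494))))))))))))))))))))))) (merge (node 494 (merge (node 529 (merge (leaf 0 493 493) (node 530 (merge (leaf 0 494 497) (leaf 3 495 531))))) (merge (node 493 (merge (leaf 0 493 529) (node 464 (merge (leaf 2 461 465) (node 463 (merge (leaf 7 431 431) (leaf 2 460 492))))))) (merge (node 461 (merge (node 460 (merge (leaf 3 460 493) (node 462 (merge (leaf 0 459 459) (leaf 0 460 463))))) (merge (node 462 (merge (leaf 3 461 497) (node 460 (merge (leaf 0 459 459) (leaf 0 460 463))))) (merge (node 497 (merge (leaf 3 461 462) (node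 525 (merge (leaf 1 493 526) (node 493 (merge (leaf 1 492 524) (node 465 (merge (leaf 2 461 464) (leaf 2 462 466))))))))) (node 493 (merge (leaf 3 460 460) (node 525 (merge (leaf 1 492 524) (node 526 (merge (leaf 1 493 497) (node 558 (merge (leaf 4 429 429) (leaf 7 461 590))))))))))))) (node 526 (merge (node 497 (merge (leaf 1 493 525) (node 530 (merge (leaf 0 494 529) (node 498 (merge (leaf 0 495 531) (node 466 (merge (leaf 2 462 465) (leaf 2 463 467))))))))) (merge (node 497 (merge (leaf 1 493 525) (node 462 (merge (leaf 3 461 461) (node 463 (merge (leaf 3 462 498) (node 431 (merge (leaf 4 399 399) (leaf 6 430 558))))))))) (merge (node 464 (merge (node 561 (merge (leaf 4 464 593) (node 432 (merge (leaf 4 432 529) (node 431 (merge (leaf 7 399 399) (leaf 7 431 463))))))) (merge (node 561 (merge (leaf 4 464 593) (node 559 (merge (leaf 5 463 591) (node 558 (merge (leaf 3 525 525) (node 463 (merge (leaf 7 431 431) (leaf 6 462 590))))))))) (merge (node 559 (merge (leaf 5 463 591) (node 463 (merge (leaf 7 431 431) (node 558 (merge (leaf 6 462 590) (node 557 (merge (leaf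 2 525 529) (node 462 (merge (leaf 5 461 589) (node 461 (merge (leaf 7 429 429) (leaf 0 460 460))))))))))))) (merge (node 561 (merge (leaf 4 464 593) (node 529 (merge (leaf 4 432 432) (node 559 (merge (leaf 5 463 591) (node 558 (merge (leaf 3 525 525) (leaf 2 525 557))))))))) (node 561 (merge (leaf 4 464 593) (node 529 (merge (leaf 4 432 432) (node 530 (merge (leaf 3 495 531) (node 559 (merge (leaf 2 526 558) (leaf 5 463 591)))))))))))))) (node 462 (merge (node 497 (merge (leaf 3 461 461) (node 530 (merge (leaf 0 494 529) (node 498 (merge (leaf 0 495 531) (node 466 (merge (leaf 2 462 465) (leaf 2 463 467))))))))) (node 430 (merge (node 399 (merge (leaf 6 398 431) (node 398 (merge (leaf 6 366 367) (node 397 (merge (leaf 7 365 365) (leaf 7 397 429))))))) (merge (node 431 (merge (leaf 6 398 399) (node 558 (merge (leaf 6 430 463) (node 591 (merge (leaf 4 462 559) (node 590 (merge (leaf 4 494 623) (node 589 (merge (leaf 5 461 557) (leaf 5 493 621))))))))))) (merge (node 397 (merge (leaf 7 397 429) (node 398 (merge (leaf 7 365 365) (node 463 (merge (leaf 4 366 366) (node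 558 (merge (leaf 6 430 431) (leaf 6 462 590))))))))) (node 397 (merge (leaf 7 397 429) (node 398 (merge (leaf 7 365 365) (node 366 (merge (leaf 4 366 463) (node 367 (merge (leaf 6 334 335) (leaf 6 366 399))))))))))))))))))))))) (merge (node 494 (merge (node 529 (merge (leaf 0 493 493) (node 530 (merge (leaf 0 494 497) (leaf 3 495 531))))) (merge (node 493 (merge (leaf 0 493 529) (node 524 (merge (leaf 1 492 525) (node 492 (merge (leaf 1 491 523) (node 460 (merge (leaf 3 459 459) (leaf 3 460 461))))))))) (merge (node 497 (merge (node 465 (merge (leaf 2 462 466) (node 433 (merge (leaf 5 400 401) (leaf 5 432 529))))) (merge (node 530 (merge (leaf 0 494 529) (node 498 (merge (leaf 0 495 531) (node 462 (merge (leaf 3 461 461) (leaf 3 462 463))))))) (node 466 (merge (leaf 2 462 465) (node 498 (merge (leaf 2 463 467) (node 462 (merge (leaf 3 461 461) (leaf 3 462 463)))))))))) (node 526 (merge (node 525 (merge (leaf 1 493 497) (node 524 (merge (leaf 1 492 493) (leaf 2 491 523))))) (merge (node 497 (merge (leaf 1 493 525) (node 466 (merge (leaf 2 462 465) (node 498 (merge (leaf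 2 463 467) (node 462 (merge (leaf 3 461 461) (leaf 3 462 463))))))))) (merge (node 558 (merge (node 590 (merge (leaf 6 462 463) (node 623 (merge (leaf 4 494 591) (node 622 (merge (leaf 4 526 655) (node 493 (merge (leaf 7 461 461) (leaf 7 493 525))))))))) (merge (node 590 (merge (leaf 6 462 463) (node 591 (merge (leaf 4 494 623) (node 462 (merge (leaf 4 462 559) (node 589 (merge (leaf 5 461 557) (leaf 5 493 621))))))))) (merge (node 590 (merge (leaf 6 462 463) (node 621 (merge (leaf 5 493 589) (node 622 (merge (leaf 5 525 653) (node 493 (merge (leaf 7 461 461) (leaf 7 493 525))))))))) (node 525 (merge (node 524 (merge (leaf 1 492 493) (leaf 2 491 523))) (merge (node 559 (merge (leaf 3 525 561) (node 557 (merge (leaf 3 524 524) (node 462 (merge (leaf 5 429 430) (leaf 4 462 591))))))) (node 559 (merge (leaf 3 525 561) (node 462 (merge (leaf 4 462 591) (node 557 (merge (leaf 5 429 430) (leaf 5 461 589)))))))))))))) (node 462 (merge (node 497 (merge (leaf 3 461 461) (node 466 (merge (leaf 2 462 465) (node 498 (merge (leaf 3 462 463) (leaf 2 463 467))))))) (merge (node 461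 (merge (leaf 3 461 497) (node 558 (merge (leaf 7 429 429) (node 589 (merge (leaf 5 461 557) (node 590 (merge (leaf 7 461 493) (leaf 5 493 621))))))))) (node 430 (merge (node 399 (merge (leaf 6 398 431) (node 398 (merge (leaf 6 366 367) (node 397 (merge (leaf 7 365 365) (leaf 7 397 429))))))) (merge (node 431 (merge (leaf 6 398 399) (node 558 (merge (leaf 6 430 463) (node 591 (merge (leaf 4 462 559) (node 590 (merge (leaf 4 494 623) (node 589 (merge (leaf 5 461 557) (leaf 5 493 621))))))))))) (merge (node 397 (merge (leaf 7 397 429) (node 398 (merge (leaf 7 365 365) (node 463 (merge (leaf 4 366 366) (node 558 (merge (leaf 6 430 431) (leaf 6 462 590))))))))) (node 397 (merge (leaf 7 397 429) (node 398 (merge (leaf 7 365 365) (node 366 (merge (leaf 4 366 463) (node 367 (merge (leaf 6 334 335) (leaf 6 366 399)))))))))))))))))))))))) (node 494 (merge (node 464 (merge (node 465 (merge (leaf 6 432 433) (node 466 (merge (leaf 1 463 467) (leaf 2 462 497))))) (merge (node 493 (merge (leaf 2 461 465) (node 463 (merge (leaf 7 431 431) (leaf 2 460 492))))) (node 463 (merge (leaf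 7 431 431) (node 493 (merge (leaf 2 460 492) (node 525 (merge (leaf 1 492 524) (node 497 (merge (leaf 1 493 526) (node 498 (merge (leaf 3 462 462) (leaf 3 463 499)))))))))))))) (merge (node 464 (merge (node 465 (merge (leaf 6 432 433) (node 466 (merge (leaf 1 463 467) (leaf 2 462 497))))) (merge (node 493 (merge (leaf 2 461 465) (node 463 (merge (leaf 7 431 431) (leaf 2 460 492))))) (node 463 (merge (leaf 7 431 431) (node 493 (merge (leaf 2 460 492) (node 461 (merge (leaf 3 460 460) (node 462 (merge (leaf 0 461 497) (node 429 (merge (leaf 3 428 428) (node 526 (merge (leaf 4 397 397) (leaf 7 429 558)))))))))))))))) (merge (node 464 (merge (node 465 (merge (leaf 6 432 433) (node 466 (merge (leaf 1 463 467) (leaf 2 462 497))))) (merge (node 493 (merge (leaf 2 461 465) (node 463 (merge (leaf 7 431 431) (leaf 2 460 492))))) (node 463 (merge (leaf 7 431 431) (node 493 (merge (leaf 2 460 492) (node 525 (merge (leaf 1 492 524) (node 461 (merge (leaf 3 460 460) (node 462 (merge (leaf 0 461 497) (node 557 (merge (leaf 6 429 430) (leaf 6 461 589)))))))))))))))) (merge (node 464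 (merge (node 465 (merge (leaf 6 432 433) (leaf 2 461 493))) (merge (node 465 (merge (leaf 6 432 433) (node 463 (merge (leaf 7 431 431) (leaf 1 462 466))))) (node 561 (merge (leaf 4 464 593) (node 559 (merge (leaf 5 463 591) (node 463 (merge (leaf 7 431 431) (node 493 (merge (leaf 2 460 492) (node 525 (merge (leaf 1 492 524) (node 461 (merge (leaf 3 460 460) (node 558 (merge (leaf 3 525 526) (node 590 (merge (leaf 4 461 557) (leaf 1 557 589)))))))))))))))))))) (merge (node 465 (merge (node 464 (merge (leaf 6 432 433) (leaf 2 461 493))) (merge (node 493 (merge (leaf 2 461 464) (node 497 (merge (leaf 2 462 466) (node 525 (merge (leaf 1 492 524) (leaf 1 493 526))))))) (merge (node 497 (merge (leaf 2 462 466) (node 525 (merge (leaf 1 493 526) (node 493 (merge (leaf 1 492 524) (node 461 (merge (leaf 3 460 460) (leaf 3 461 462))))))))) (node 466 (merge (leaf 2 462 497) (node 464 (merge (leaf 6 432 433) (leaf 1 463 467))))))))) (merge (node 465 (merge (node 464 (merge (leaf 6 432 433) (node 463 (merge (leaf 7 431 431) (leaf 1 462 466))))) (merge (node 466 (merge (leaf 2 462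 497) (node 464 (merge (leaf 6 432 433) (leaf 1 463 467))))) (merge (node 497 (merge (leaf 2 462 466) (node 526 (merge (leaf 1 493 525) (node 462 (merge (leaf 3 461 461) (node 463 (merge (leaf 3 462 498) (node 431 (merge (leaf 4 399 399) (leaf 6 430 558))))))))))) (node 433 (merge (leaf 6 432 464) (node 497 (merge (leaf 5 400 401) (node 526 (merge (leaf 1 493 525) (node 462 (merge (leaf 3 461 461) (node 463 (merge (leaf 3 462 498) (node 431 (merge (leaf 4 399 399) (leaf 6 430 558))))))))))))))))) (merge (node 493 (merge (node 525 (merge (leaf 1 492 524) (node 526 (merge (leaf 1 493 497) (node 461 (merge (leaf 3 460 460) (node 558 (merge (leaf 4 429 429) (leaf 7 461 590))))))))) (merge (node 460 (merge (leaf 3 460 461) (node 492 (merge (leaf 3 459 459) (node 523 (merge (leaf 1 491 524) (node 491 (merge (leaf 1 490 522) (node 463 (merge (leaf 2 459 462) (leaf 2 460 464))))))))))) (merge (node 460 (merge (leaf 3 460 461) (node 492 (merge (leaf 3 459 459) (node 463 (merge (leaf 2 460 464) (node 462 (merge (leaf 2 459 491) (node 497 (merge (leaf 3 462 498) (node 526 (merge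 (leaf 1 493 525) (node 431 (merge (leaf 4 399 399) (leaf 6 430 558))))))))))))))) (merge (node 525 (merge (leaf 1 492 524) (node 497 (merge (leaf 1 493 526) (node 462 (merge (leaf 3 461 461) (node 463 (merge (leaf 3 462 498) (node 464 (merge (leaf 7 431 431) (leaf 2 460 492))))))))))) (node 524 (merge (leaf 1 492 525) (node 492 (merge (leaf 1 491 523) (node 463 (merge (leaf 2 460 464) (node 491 (merge (leaf 2 459 462) (node 459 (merge (leaf 3 458 458) (leaf 3 459 460)))))))))))))))) (node 526 (merge (node 525 (merge (leaf 1 493 497) (node 524 (merge (leaf 1 492 493) (leaf 2 491 523))))) (merge (node 497 (merge (leaf 1 493 525) (node 466 (merge (leaf 2 462 465) (node 498 (merge (leaf 2 463 467) (node 462 (merge (leaf 3 461 461) (leaf 3 462 463))))))))) (merge (node 558 (merge (node 590 (merge (leaf 6 462 463) (node 623 (merge (leaf 4 494 591) (node 622 (merge (leaf 4 526 655) (node 493 (merge (leaf 7 461 461) (leaf 7 493 525))))))))) (merge (node 590 (merge (leaf 6 462 463) (node 591 (merge (leaf 4 494 623) (node 462 (merge (leaf 4 462 559) (node 589 (merge (leaf 5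 461 557) (leaf 5 493 621))))))))) (merge (node 590 (merge (leaf 6 462 463) (node 621 (merge (leaf 5 493 589) (node 622 (merge (leaf 5 525 653) (node 493 (merge (leaf 7 461 461) (leaf 7 493 525))))))))) (node 525 (merge (node 524 (merge (leaf 1 492 493) (leaf 2 491 523))) (merge (node 559 (merge (leaf 3 525 561) (node 557 (merge (leaf 3 524 524) (node 462 (merge (leaf 5 429 430) (leaf 4 462 591))))))) (node 559 (merge (leaf 3 525 561) (node 462 (merge (leaf 4 462 591) (node 557 (merge (leaf 5 429 430) (leaf 5 461 589)))))))))))))) (node 462 (merge (node 497 (merge (leaf 3 461 461) (node 466 (merge (leaf 2 462 465) (node 498 (merge (leaf 3 462 463) (leaf 2 463 467))))))) (merge (node 461 (merge (leaf 3 461 497) (node 558 (merge (leaf 7 429 429) (node 589 (merge (leaf 5 461 557) (node 590 (merge (leaf 7 461 493) (leaf 5 493 621))))))))) (node 430 (merge (node 399 (merge (leaf 6 398 431) (node 398 (merge (leaf 6 366 367) (node 397 (merge (leaf 7 365 365) (leaf 7 397 429))))))) (merge (node 431 (merge (leaf 6 398 399) (node 558 (merge (leaf 6 430 463) (node 591 (merge (leaf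 4 462 559) (node 590 (merge (leaf 4 494 623) (node 589 (merge (leaf 5 461 557) (leaf 5 493 621))))))))))) (merge (node 397 (merge (leaf 7 397 429) (node 398 (merge (leaf 7 365 365) (node 463 (merge (leaf 4 366 366) (node 558 (merge (leaf 6 430 431) (leaf 6 462 590))))))))) (node 397 (merge (leaf 7 397 429) (node 398 (merge (leaf 7 365 365) (node 366 (merge (leaf 4 366 463) (node 367 (merge (leaf 6 334 335) (leaf 6 366 399))))))))))))))))))))))))))))))))))))) nB_17 cB_17 12 (by decide +kernel)
def nB_18 : ℕ := 0x180000001000000000000000000000000000000000000000000000000000000000000000000000000000000000000000000000000000000000000000000000000000000000000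
def cB_18 : ℕ := 0x40000003e000000ff0000003f000001e3800001ef000003ef8000007c0000007c00000000000000000000000000000000000000000000000000000000000000000000000000000000000000000000000000000000000
theorem lB_18 : S nB_18 cB_18 12 := S_of_chk [] trivial (node 527 (merge (node 526 (merge (node 561 (merge (leaf 0 525 525) (node 562 (merge (leaf 3 526 559) (leaf 3 527 563))))) (merge (node 525 (merge (leaf 0 525 561) (node 524 (merge (leaf 0 524 559) (node 556 (merge (leaf 1 523 555) (leaf 1 524 557))))))) (merge (node 525 (merge (node 524 (merge (leaf 0 524 559) (node 556 (merge (leaf 1 523 555) (leaf 1 524 557))))) (merge (node 556 (merge (leaf 1 524 557) (node 524 (merge (leaf 1 523 555) (node 492 (merge (leaf 3 491 491) (leaf 3 492 493))))))) (node 493 (merge (leaf 3 492 492) (node 529 (merge (leaf 3 493 494) (node 498 (merge (leaf 2 494 497) (node 530 (merge (leaf 2 495 499) (node 563 (merge (leaf 0 527 562) (node 531 (merge (leaf 1 527 559) (leaf 0 528 564)))))))))))))))) (node 529 (merge (node 497 (merge (leaf 2 494 498) (node 592 (merge (leaf 6 496 624) (node 465 (merge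 (leaf 5 432 433) (leaf 5 464 561))))))) (merge (node 562 (merge (leaf 0 526 561) (node 530 (merge (leaf 0 527 563) (node 494 (merge (leaf 3 493 493) (leaf 3 494 495))))))) (node 498 (merge (leaf 2 494 497) (node 530 (merge (leaf 2 495 499) (node 494 (merge (leaf 3 493 493) (leaf 3 494 495)))))))))))))) (merge (node 530 (merge (node 562 (merge (node 561 (merge (leaf 2 527 531) (leaf 3 527 563))) (merge (node 529 (merge (leaf 1 527 531) (leaf 0 527 563))) (merge (node 531 (merge (leaf 1 527 529) (leaf 2 527 561))) (node 563 (merge (leaf 0 527 529) (leaf 3 527 561))))))) (merge (node 529 (merge (leaf 1 527 531) (node 495 (merge (leaf 3 494 494) (node 463 (merge (leaf 4 431 431) (leaf 4 463 592))))))) (node 591 (merge (node 623 (merge (leaf 6 527 655) (node 526 (merge (leaf 7 494 494) (node 525 (merge (leaf 0 524 524) (leaf 0 525 561))))))) (merge (node 623 (merge (leaf 6 527 655) (node 622 (merge (leaf 5 526 654) (node 495 (merge (leaf 5 494 590) (node 592 (merge (leaf 4 463 463) (leaf 4 495 624))))))))) (node 495 (merge (node 592 (merge (leaf 4 463 463) (leaf 4 495 624)))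 (merge (node 463 (merge (leaf 4 431 431) (node 462 (merge (leaf 7 430 430) (leaf 7 462 494))))) (node 592 (merge (leaf 4 495 624) (node 590 (merge (leaf 5 494 622) (node 589 (merge (leaf 2 557 561) (leaf 2 556 588)))))))))))))))) (merge (node 495 (merge (node 592 (merge (leaf 4 463 463) (leaf 7 495 624))) (merge (node 463 (merge (leaf 4 431 431) (node 464 (merge (leaf 6 431 432) (node 462 (merge (leaf 7 430 430) (node 494 (merge (leaf 7 462 591) (node 493 (merge (leaf 1 461 465) (leaf 0 492 492))))))))))) (node 591 (merge (node 624 (merge (leaf 4 495 592) (node 623 (merge (leaf 4 527 656) (node 655 (merge (leaf 6 527 560) (node 654 (merge (leaf 5 526 622) (leaf 5 558 686))))))))) (merge (node 592 (merge (leaf 4 495 624) (node 590 (merge (leaf 5 494 622) (node 589 (merge (leaf 2 557 561) (leaf 2 556 588))))))) (merge (node 622 (merge (leaf 5 494 590) (node 623 (merge (leaf 5 526 654) (leaf 6 527 655))))) (node 623 (merge (leaf 6 527 655) (node 624 (merge (leaf 4 527 656) (node 592 (merge (leaf 4 495 495) (node 625 (merge (leaf 4 528 657) (node 626 (merge (leaf 3 590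 590) (leaf 3 591 627)))))))))))))))))) (merge (node 591 (merge (node 623 (merge (leaf 6 527 655) (node 622 (merge (leaf 5 526 654) (node 495 (merge (leaf 5 494 590) (node 463 (merge (leaf 4 431 431) (node 462 (merge (leaf 7 430 430) (leaf 7 462 494))))))))))) (merge (node 623 (merge (leaf 6 527 655) (node 624 (merge (leaf 4 527 656) (node 495 (merge (leaf 4 495 592) (node 622 (merge (leaf 5 494 590) (leaf 5 526 654))))))))) (merge (node 495 (merge (node 463 (merge (leaf 4 431 431) (leaf 4 463 592))) (merge (node 463 (merge (leaf 4 431 431) (node 462 (merge (leaf 7 430 430) (leaf 7 462 494))))) (node 494 (merge (leaf 7 462 462) (node 493 (merge (leaf 0 492 492) (node 529 (merge (leaf 3 493 526) (leaf 3 494 530)))))))))) (node 623 (merge (leaf 6 527 655) (node 624 (merge (leaf 4 527 656) (node 622 (merge (leaf 5 526 654) (node 526 (merge (leaf 7 494 494) (node 525 (merge (leaf 0 524 524) (node 557 (merge (leaf 1 524 556) (node 493 (merge (leaf 3 492 492) (node 589 (merge (leaf 4 493 590) (node 588 (merge (leaf 5 492 620) (leaf 3 588 621))))))))))))))))))))))) (merge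 (node 591 (merge (node 623 (merge (leaf 6 527 655) (node 622 (merge (leaf 5 526 654) (node 495 (merge (leaf 5 494 590) (node 463 (merge (leaf 4 431 431) (leaf 4 463 592))))))))) (merge (node 623 (merge (leaf 6 527 655) (node 624 (merge (leaf 4 527 656) (node 592 (merge (leaf 4 495 495) (node 625 (merge (leaf 4 528 657) (node 626 (merge (leaf 3 590 590) (leaf 3 591 627))))))))))) (merge (node 623 (merge (leaf 6 527 655) (node 624 (merge (leaf 4 527 656) (node 622 (merge (leaf 5 526 654) (node 590 (merge (leaf 5 494 495) (node 589 (merge (leaf 0 588 588) (leaf 3 589 625))))))))))) (merge (node 623 (merge (leaf 6 527 655) (node 624 (merge (leaf 4 527 656) (node 592 (merge (leaf 4 495 495) (node 622 (merge (leaf 5 526 654) (node 621 (merge (leaf 2 589 593) (leaf 2 588 620))))))))))) (merge (node 590 (merge (node 495 (merge (leaf 5 494 622) (node 592 (merge (leaf 4 463 463) (leaf 4 495 624))))) (merge (node 589 (merge (leaf 2 556 588) (node 592 (merge (leaf 2 557 561) (node 624 (merge (leaf 4 495 495) (leaf 0 589 625))))))) (merge (node 561 (merge (leaf 1 558 562) (node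 525 (merge (leaf 0 525 526) (node 589 (merge (leaf 2 556 588) (node 622 (merge (leaf 5 494 495) (node 557 (merge (leaf 4 493 493) (node 654 (merge (leaf 4 525 621) (leaf 7 557 686))))))))))))) (node 589 (merge (leaf 2 556 588) (node 592 (merge (leaf 2 557 561) (node 621 (merge (leaf 1 588 620) (node 622 (merge (leaf 1 589 593) (node 557 (merge (leaf 3 556 556) (node 654 (merge (leaf 4 525 525) (leaf 7 557 686))))))))))))))))) (node 590 (merge (node 589 (merge (leaf 2 556 588) (node 561 (merge (leaf 1 558 562) (leaf 2 557 592))))) (merge (node 623 (merge (leaf 6 527 655) (node 624 (merge (leaf 4 527 656) (node 625 (merge (leaf 3 590 626) (node 622 (merge (leaf 3 589 589) (leaf 5 526 654))))))))) (merge (node 561 (merge (leaf 1 558 562) (node 623 (merge (leaf 6 527 655) (node 624 (merge (leaf 4 527 656) (node 625 (merge (leaf 3 590 626) (node 657 (merge (leaf 4 528 592) (leaf 7 528 593))))))))))) (node 589 (merge (leaf 2 556 588) (node 592 (merge (leaf 2 557 561) (node 621 (merge (leaf 1 588 620) (node 622 (merge (leaf 1 589 593) (node 557 (merge (leaf 3 556 556) (node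 654 (merge (leaf 4 525 525) (leaf 7 557 686))))))))))))))))))))))) (merge (node 592 (merge (node 624 (merge (leaf 7 527 656) (node 625 (merge (leaf 4 528 657) (node 529 (merge (leaf 6 496 497) (node 530 (merge (leaf 1 527 531) (node 498 (merge (leaf 2 495 499) (node 561 (merge (leaf 6 497 593) (node 526 (merge (leaf 0 525 525) (leaf 0 526 562))))))))))))))) (merge (node 624 (merge (leaf 7 527 656) (node 625 (merge (leaf 4 528 657) (node 623 (merge (leaf 5 527 655) (node 529 (merge (leaf 6 496 497) (node 530 (merge (leaf 1 527 531) (node 498 (merge (leaf 2 495 499) (node 593 (merge (leaf 6 497 561) (node 622 (merge (leaf 2 589 621) (node 654 (merge (leaf 5 526 591) (leaf 1 621 653))))))))))))))))))) (merge (node 624 (merge (leaf 7 527 656) (node 623 (merge (leaf 5 527 655) (node 529 (merge (leaf 6 496 497) (node 530 (merge (leaf 1 527 531) (node 562 (merge (leaf 0 527 563) (node 526 (merge (leaf 0 526 561) (node 494 (merge (leaf 3 493 493) (leaf 7 494 591))))))))))))))) (merge (node 591 (merge (node 623 (merge (leaf 6 527 655) (node 526 (merge (leaf 7 494 494) (node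 561 (merge (leaf 0 525 525) (leaf 3 526 562))))))) (merge (node 623 (merge (leaf 6 527 655) (node 622 (merge (leaf 5 526 654) (node 621 (merge (leaf 2 588 620) (node 590 (merge (leaf 1 589 593) (node 561 (merge (leaf 1 558 562) (leaf 2 557 589))))))))))) (merge (node 623 (merge (leaf 6 527 655) (node 622 (merge (leaf 5 526 654) (node 620 (merge (leaf 2 588 621) (node 526 (merge (leaf 7 494 494) (node 525 (merge (leaf 0 524 524) (node 557 (merge (leaf 1 524 556) (node 493 (merge (leaf 3 492 492) (node 589 (merge (leaf 5 492 588) (leaf 4 493 590))))))))))))))))) (node 529 (merge (node 530 (merge (leaf 1 527 531) (node 562 (merge (leaf 0 527 563) (node 561 (merge (leaf 0 526 526) (leaf 1 558 590))))))) (merge (node 526 (merge (node 525 (merge (leaf 0 524 524) (node 493 (merge (leaf 3 492 492) (leaf 3 493 494))))) (node 561 (merge (leaf 0 526 562) (node 497 (merge (leaf 5 464 465) (leaf 2 494 498))))))) (merge (node 530 (merge (leaf 1 527 531) (node 498 (merge (leaf 2 495 499) (node 526 (merge (leaf 2 494 497) (node 525 (merge (leaf 0 524 524) (node 493 (merge (leaf 3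 492 492) (leaf 3 493 494))))))))))) (node 530 (merge (leaf 1 527 531) (node 562 (merge (leaf 0 527 563) (node 561 (merge (leaf 1 558 590) (node 498 (merge (leaf 2 495 499) (node 593 (merge (leaf 5 465 466) (leaf 6 497 625))))))))))))))))))) (node 591 (merge (node 624 (merge (leaf 7 527 656) (node 625 (merge (leaf 4 528 657) (node 590 (merge (leaf 0 589 589) (node 626 (merge (leaf 0 590 593) (leaf 3 591 627))))))))) (merge (node 624 (merge (leaf 7 527 656) (node 623 (merge (leaf 5 527 655) (node 622 (merge (leaf 5 526 654) (node 621 (merge (leaf 2 589 593) (leaf 2 588 620))))))))) (node 623 (merge (leaf 6 527 655) (node 622 (merge (leaf 5 526 654) (node 620 (merge (leaf 2 588 621) (node 526 (merge (leaf 7 494 494) (node 525 (merge (leaf 0 524 524) (node 557 (merge (leaf 1 524 556) (node 493 (merge (leaf 3 492 492) (node 589 (merge (leaf 5 492 588) (leaf 4 493 590))))))))))))))))))))))))) (node 529 (merge (node 530 (merge (leaf 1 527 531) (node 562 (merge (leaf 0 527 563) (node 526 (merge (leaf 0 526 561) (node 498 (merge (leaf 2 494 497) (leaf 2 495 499))))))))) (merge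 (node 530 (merge (leaf 1 527 531) (node 498 (merge (leaf 2 495 499) (node 526 (merge (leaf 2 494 497) (node 525 (merge (leaf 0 524 524) (node 493 (merge (leaf 3 492 492) (leaf 3 493 494))))))))))) (merge (node 494 (merge (node 526 (merge (leaf 3 493 493) (node 561 (merge (leaf 0 525 525) (leaf 0 526 562))))) (merge (node 493 (merge (leaf 3 493 526) (node 495 (merge (leaf 0 492 492) (leaf 3 494 530))))) (node 530 (merge (leaf 3 494 495) (node 563 (merge (leaf 0 527 562) (node 531 (merge (leaf 0 528 564) (node 532 (merge (leaf 1 528 561) (node 500 (merge (leaf 2 496 499) (leaf 2 497 501)))))))))))))) (merge (node 526 (merge (node 525 (merge (leaf 0 524 524) (leaf 0 525 561))) (merge (node 525 (merge (leaf 0 524 524) (node 493 (merge (leaf 3 492 492) (leaf 3 493 494))))) (node 497 (merge (leaf 2 494 498) (node 494 (merge (leaf 3 493 493) (node 465 (merge (leaf 5 432 433) (node 591 (merge (leaf 7 494 623) (node 495 (merge (leaf 7 462 462) (node 463 (merge (leaf 4 431 431) (node 464 (merge (leaf 6 431 432) (leaf 1 462 466)))))))))))))))))) (node 530 (merge (leaf 1 527 531)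 (node 562 (merge (leaf 0 527 563) (node 498 (merge (leaf 2 495 499) (node 495 (merge (leaf 3 494 494) (node 463 (merge (leaf 4 431 431) (node 464 (merge (leaf 6 431 432) (node 462 (merge (leaf 7 430 430) (node 465 (merge (leaf 0 462 497) (node 433 (merge (leaf 2 430 434) (leaf 7 433 466))))))))))))))))))))))))))))))) nB_18 cB_18 12 (by decide +kernel)
def nB_19 : ℕ := 0x180000001000000000000000000000000000000000000000000000000000000000000000000000000000000000000000000000000000000000000000000000000000000000000
def cB_19 : ℕ := 0x2a0000003e000000ff000003bf800001e7000001ef800000e70000006e0000002e00000008000000000000000000000000000000000000000000000000000000000000000000000000000000000000000000000000000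
theorem lB_19 : S nB_19 cB_19 12 := S_of_chk [] trivial (node 592 (merge (node 529 (merge (node 497 (merge (leaf 6 496 624) (node 465 (merge (leaf 5 432 433) (leaf 5 464 561))))) (node 558 (merge (leaf 2 525 557) (node 530 (merge (leaf 1 526 527) (leaf 1 527 531))))))) (merge (node 624 (merge (node 656 (merge (leaf 7 527 527) (node 655 (merge (leaf 5 527 623) (leaf 5 559 687))))) (merge (node 529 (merge (leaf 6 496 497) (node 530 (merge (leaf 1 527 531) (node 558 (merge (leaf 1 526 527) (leaf 2 526 561))))))) (node 529 (merge (leaf 6 496 497) (node 656 (merge (leaf 6 528 561) (node 655 (merge (leaf 5 527 623) (leaf 5 559 687)))))))))) (merge (node 624 (merge (node 529 (merge (leaf 6 496 497) (node 558 (merge (leaf 2 525 557) (node 530 (merge (leaf 1 526 527) (leaf 1 527 531))))))) (node 657 (merge (leaf 4 528 625) (node 656 (merge (leaf 4 560 689) (node 655 (merge (leaf 5 527 623) (leaf 5 559 687))))))))) (merge (node 624 (merge (node 657 (merge (leaf 4 528 625) (node 529 (merge (leaf 6 496 497) (node 656 (merge (leaf 6 528 561) (leaf 4 560 689))))))) (merge (node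 657 (merge (leaf 4 528 625) (node 656 (merge (leaf 4 560 689) (node 655 (merge (leaf 5 527 623) (leaf 5 559 687))))))) (merge (node 529 (merge (leaf 6 496 497) (node 656 (merge (leaf 6 528 561) (node 655 (merge (leaf 5 527 623) (leaf 5 559 687))))))) (node 625 (merge (leaf 4 528 657) (node 623 (merge (leaf 5 527 655) (node 529 (merge (leaf 6 496 497) (node 558 (merge (leaf 2 525 557) (node 561 (merge (leaf 2 526 530) (node 590 (merge (leaf 1 557 589) (node 591 (merge (leaf 1 558 562) (leaf 3 590 626))))))))))))))))))) (merge (node 558 (merge (node 557 (merge (leaf 2 525 529) (leaf 0 557 593))) (merge (node 557 (merge (leaf 0 557 593) (node 556 (merge (leaf 2 524 527) (leaf 0 556 591))))) (node 561 (merge (node 530 (merge (leaf 2 526 529) (node 562 (merge (leaf 2 527 531) (node 527 (merge (leaf 3 526 526) (leaf 3 527 563))))))) (merge (node 590 (merge (leaf 1 557 589) (node 562 (merge (leaf 1 558 591) (node 529 (merge (leaf 2 526 530) (node 563 (merge (leaf 3 527 527) (leaf 3 528 564))))))))) (merge (node 590 (merge (leaf 1 557 589) (node 591 (merge (leaf 1 558 562)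 (node 526 (merge (leaf 3 525 525) (node 623 (merge (leaf 4 494 494) (leaf 7 526 655))))))))) (node 590 (merge (leaf 1 557 589) (node 529 (merge (leaf 2 526 530) (node 526 (merge (leaf 3 525 525) (node 497 (merge (leaf 5 464 465) (node 527 (merge (leaf 2 494 498) (node 494 (merge (leaf 3 493 493) (node 623 (merge (leaf 4 494 591) (node 622 (merge (leaf 6 526 654) (leaf 4 526 655)))))))))))))))))))))))) (merge (node 527 (merge (node 624 (merge (leaf 7 527 656) (node 625 (merge (leaf 4 528 657) (node 529 (merge (leaf 6 496 497) (node 530 (merge (leaf 1 527 531) (node 498 (merge (leaf 2 495 499) (node 561 (merge (leaf 6 497 593) (node 526 (merge (leaf 0 525 525) (leaf 0 526 562))))))))))))))) (merge (node 624 (merge (leaf 7 527 656) (node 625 (merge (leaf 4 528 657) (node 623 (merge (leaf 5 527 655) (node 529 (merge (leaf 6 496 497) (node 530 (merge (leaf 1 527 531) (node 498 (merge (leaf 2 495 499) (node 593 (merge (leaf 6 497 561) (node 622 (merge (leaf 2 589 621) (node 654 (merge (leaf 5 526 591) (leaf 1 621 653))))))))))))))))))) (merge (node 624 (merge (leaf 7 527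 656) (node 623 (merge (leaf 5 527 655) (node 529 (merge (leaf 6 496 497) (node 530 (merge (leaf 1 527 531) (node 562 (merge (leaf 0 527 563) (node 526 (merge (leaf 0 526 561) (node 494 (merge (leaf 3 493 493) (leaf 7 494 591))))))))))))))) (merge (node 591 (merge (node 623 (merge (leaf 6 527 655) (node 526 (merge (leaf 7 494 494) (node 561 (merge (leaf 0 525 525) (leaf 3 526 562))))))) (merge (node 623 (merge (leaf 6 527 655) (node 622 (merge (leaf 5 526 654) (node 621 (merge (leaf 2 588 620) (node 590 (merge (leaf 1 589 593) (node 561 (merge (leaf 1 558 562) (leaf 2 557 589))))))))))) (merge (node 623 (merge (leaf 6 527 655) (node 622 (merge (leaf 5 526 654) (node 620 (merge (leaf 2 588 621) (node 526 (merge (leaf 7 494 494) (node 525 (merge (leaf 0 524 524) (node 557 (merge (leaf 1 524 556) (node 493 (merge (leaf 3 492 492) (node 589 (merge (leaf 5 492 588) (leaf 4 493 590))))))))))))))))) (node 529 (merge (node 530 (merge (leaf 1 527 531) (node 562 (merge (leaf 0 527 563) (node 561 (merge (leaf 0 526 526) (leaf 1 558 590))))))) (merge (node 526 (merge (node 525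 (merge (leaf 0 524 524) (node 493 (merge (leaf 3 492 492) (leaf 3 493 494))))) (node 561 (merge (leaf 0 526 562) (node 497 (merge (leaf 5 464 465) (leaf 2 494 498))))))) (merge (node 530 (merge (leaf 1 527 531) (node 498 (merge (leaf 2 495 499) (node 526 (merge (leaf 2 494 497) (node 525 (merge (leaf 0 524 524) (node 493 (merge (leaf 3 492 492) (leaf 3 493 494))))))))))) (node 530 (merge (leaf 1 527 531) (node 562 (merge (leaf 0 527 563) (node 561 (merge (leaf 1 558 590) (node 498 (merge (leaf 2 495 499) (node 593 (merge (leaf 5 465 466) (leaf 6 497 625))))))))))))))))))) (node 591 (merge (node 624 (merge (leaf 7 527 656) (node 625 (merge (leaf 4 528 657) (node 590 (merge (leaf 0 589 589) (node 626 (merge (leaf 0 590 593) (leaf 3 591 627))))))))) (merge (node 624 (merge (leaf 7 527 656) (node 623 (merge (leaf 5 527 655) (node 622 (merge (leaf 5 526 654) (node 621 (merge (leaf 2 589 593) (leaf 2 588 620))))))))) (node 623 (merge (leaf 6 527 655) (node 622 (merge (leaf 5 526 654) (node 620 (merge (leaf 2 588 621) (node 526 (merge (leaf 7 494 494) (node 525 (merge (leaf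 0 524 524) (node 557 (merge (leaf 1 524 556) (node 493 (merge (leaf 3 492 492) (node 589 (merge (leaf 5 492 588) (leaf 4 493 590))))))))))))))))))))))))) (merge (node 558 (merge (node 557 (merge (leaf 2 525 529) (leaf 0 557 593))) (merge (node 557 (merge (leaf 0 557 593) (node 556 (merge (leaf 2 524 527) (leaf 0 556 591))))) (merge (node 557 (merge (leaf 2 525 529) (node 556 (merge (leaf 2 524 527) (leaf 0 556 591))))) (node 526 (merge (node 525 (merge (leaf 3 525 561) (node 524 (merge (leaf 0 523 523) (leaf 0 524 527))))) (merge (node 561 (merge (leaf 3 525 525) (node 590 (merge (leaf 1 557 589) (node 591 (merge (leaf 1 558 562) (node 623 (merge (leaf 4 494 494) (leaf 7 526 655))))))))) (merge (node 527 (merge (node 624 (merge (leaf 7 527 656) (node 529 (merge (leaf 6 496 497) (node 494 (merge (leaf 3 493 493) (node 462 (merge (leaf 4 430 430) (leaf 4 462 591))))))))) (merge (node 529 (merge (node 561 (merge (leaf 0 526 562) (node 497 (merge (leaf 5 464 465) (leaf 2 494 498))))) (node 494 (merge (leaf 3 493 493) (node 462 (merge (leaf 4 430 430) (node 591 (merge (leaf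 4 462 558) (leaf 7 494 623))))))))) (node 624 (merge (leaf 7 527 656) (node 561 (merge (leaf 3 526 562) (node 590 (merge (leaf 1 557 589) (node 623 (merge (leaf 5 527 655) (node 622 (merge (leaf 6 526 654) (node 621 (merge (leaf 2 589 593) (leaf 5 525 653)))))))))))))))) (node 527 (merge (node 525 (merge (leaf 0 524 524) (node 493 (merge (leaf 3 492 492) (node 461 (merge (leaf 4 429 429) (node 590 (merge (leaf 7 461 494) (leaf 7 493 622))))))))) (merge (node 624 (merge (leaf 7 527 656) (node 625 (merge (leaf 4 528 657) (node 623 (merge (leaf 5 527 655) (node 591 (merge (leaf 7 494 494) (node 626 (merge (leaf 3 590 590) (leaf 3 591 627))))))))))) (merge (node 525 (merge (leaf 0 524 524) (node 493 (merge (leaf 3 492 492) (node 590 (merge (leaf 7 493 622) (node 494 (merge (leaf 7 461 461) (node 591 (merge (leaf 4 462 462) (leaf 4 494 623))))))))))) (merge (node 624 (merge (leaf 7 527 656) (node 525 (merge (leaf 0 524 524) (node 493 (merge (leaf 3 492 492) (node 625 (merge (leaf 4 528 657) (node 623 (merge (leaf 5 527 655) (node 622 (merge (leaf 7 493 590) (node 654 (merge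 (leaf 5 526 591) (leaf 1 621 653))))))))))))))) (node 624 (merge (leaf 7 527 656) (node 623 (merge (leaf 5 527 655) (node 591 (merge (leaf 7 494 494) (node 622 (merge (leaf 5 526 654) (node 621 (merge (leaf 2 589 593) (leaf 2 588 620)))))))))))))))))))))))) (node 558 (merge (node 557 (merge (leaf 0 557 593) (node 556 (merge (leaf 2 524 527) (leaf 0 556 591))))) (merge (node 557 (merge (leaf 0 557 593) (node 589 (merge (leaf 1 556 588) (node 561 (merge (leaf 1 557 590) (node 525 (merge (leaf 3 524 524) (leaf 3 525 526))))))))) (merge (node 557 (merge (node 556 (merge (leaf 2 524 527) (node 524 (merge (leaf 3 523 523) (leaf 3 524 525))))) (merge (node 556 (merge (leaf 2 524 527) (node 588 (merge (leaf 1 555 587) (leaf 1 556 589))))) (node 589 (merge (leaf 1 556 588) (node 561 (merge (leaf 1 557 590) (node 525 (merge (leaf 3 524 524) (leaf 3 525 526)))))))))) (node 526 (merge (node 525 (merge (leaf 3 525 561) (node 524 (merge (leaf 0 523 523) (leaf 0 524 527))))) (merge (node 561 (merge (leaf 3 525 525) (node 590 (merge (leaf 1 557 589) (node 591 (merge (leaf 1 558 562)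 (node 623 (merge (leaf 4 494 494) (leaf 7 526 655))))))))) (merge (node 527 (merge (node 525 (merge (leaf 0 524 524) (node 493 (merge (leaf 3 492 492) (node 461 (merge (leaf 4 429 429) (node 590 (merge (leaf 7 461 494) (leaf 7 493 622))))))))) (merge (node 624 (merge (leaf 7 527 656) (node 625 (merge (leaf 4 528 657) (node 623 (merge (leaf 5 527 655) (node 591 (merge (leaf 7 494 494) (node 626 (merge (leaf 3 590 590) (leaf 3 591 627))))))))))) (merge (node 525 (merge (leaf 0 524 524) (node 493 (merge (leaf 3 492 492) (node 590 (merge (leaf 7 493 622) (node 494 (merge (leaf 7 461 461) (node 591 (merge (leaf 4 462 462) (leaf 4 494 623))))))))))) (merge (node 624 (merge (leaf 7 527 656) (node 525 (merge (leaf 0 524 524) (node 493 (merge (leaf 3 492 492) (node 625 (merge (leaf 4 528 657) (node 623 (merge (leaf 5 527 655) (node 622 (merge (leaf 7 493 590) (node 654 (merge (leaf 5 526 591) (leaf 1 621 653))))))))))))))) (node 624 (merge (leaf 7 527 656) (node 623 (merge (leaf 5 527 655) (node 591 (merge (leaf 7 494 494) (node 622 (merge (leaf 5 526 654) (node 621 (merge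 (leaf 2 589 593) (leaf 2 588 620)))))))))))))))) (node 590 (merge (node 589 (merge (node 588 (merge (leaf 2 555 587) (leaf 2 556 591))) (node 621 (merge (leaf 5 493 494) (node 653 (merge (leaf 5 525 622) (leaf 6 557 685))))))) (merge (node 623 (merge (node 655 (merge (leaf 4 526 622) (leaf 5 527 624))) (node 494 (merge (leaf 4 494 591) (node 461 (merge (leaf 7 461 493) (node 462 (merge (leaf 7 429 429) (node 430 (merge (leaf 4 430 527) (node 431 (merge (leaf 6 398 399) (leaf 6 430 463))))))))))))) (node 561 (merge (leaf 1 557 589) (node 562 (merge (leaf 3 526 527) (node 531 (merge (leaf 2 527 530) (node 563 (merge (leaf 2 528 532) (node 596 (merge (leaf 0 560 595) (node 564 (merge (leaf 1 560 593) (leaf 0 561 597)))))))))))))))))))))))))))))))) nB_19 cB_19 12 (by decide +kernel)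

end Crest.Agent.H26Snaky
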