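import Crest.Agent.H26SnB00

/-! certificate data for S0047, part B 1 (computer generated) -/

set_option autoImplicit false
set_option maxRecDepth 100000

namespace Crest.Agent.H26Snaky

open T

def nB_20 : ℕ := 0x1c0000001000000000000000000000000000000000000000000000000000000000000000000000000000000000000000000000000000000000000000000000000000000000000
def cB_20 : ℕ := 0xa0000007e0000007f0000007f000003b7800001e0000000ef8000006f0000006a0000006800000000000000000000000000000000000000000000000000000000000000000000000000000000000000000000000000000000000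
theorem lB_20 : S nB_20 cB_20 11 := S_of_chk [] trivial (node 590 (merge (node 561 (merge (leaf 1 557 589) (node 530 (merge (leaf 2 526 529) (node 562 (merge (leaf 2 527 531) (node 527 (merge (leaf 3 526 526) (leaf 3 527 563))))))))) (merge (node 622 (merge (node 527 (merge (leaf 6 526 654) (node 526 (merge (leaf 6 494 495) (node 525 (merge (leaf 7 493 493) (leaf 0 524 524))))))) (merge (node 654 (merge (leaf 6 526 527) (node 687 (merge (leaf 4 558 655) (node 686 (merge (leaf 4 590 719) (node 685 (merge (leaf 5 557 653) (leaf 5 589 717))))))))) (merge (node 526 (merge (node 525 (merge (leaf 7 493 493) (node 524 (merge (leaf 0 523 523) (leaf 0 524 527))))) (node 623 (merge (leaf 4 526 655) (node 621 (merge (leaf 5 525 653) (node 589 (merge (leaf 5 493 494) (node 588 (merge (leaf 0 587 587) (leaf 3 588 624))))))))))) (node 655 (merge (node 623 (merge (leaf 4 526 526) (node 654 (merge (leaf 4 558 687) (node 624 (merge (leaf 5 527 592) (node 625 (merge (leaf 3 589 589) (leaf 1 622 626))))))))) (merge (node 526 (merge (leaf 4 526 623) (node 621 (merge (leaf 5 525 653)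 (node 494 (merge (leaf 5 493 589) (node 493 (merge (leaf 7 461 461) (leaf 7 493 525))))))))) (merge (node 654 (merge (leaf 4 558 687) (node 653 (merge (leaf 5 557 685) (node 621 (merge (leaf 5 525 526) (node 656 (merge (leaf 3 620 620) (leaf 3 621 657))))))))) (node 687 (merge (leaf 4 558 654) (node 623 (merge (leaf 7 590 719) (node 624 (merge (leaf 5 527 592) (node 589 (merge (leaf 3 589 625) (node 621 (merge (leaf 3 588 588) (node 656 (merge (leaf 0 620 620) (leaf 0 621 657))))))))))))))))))))) (merge (node 526 (merge (node 561 (merge (leaf 3 525 525) (node 530 (merge (leaf 2 526 529) (node 562 (merge (leaf 3 526 527) (leaf 2 527 531))))))) (merge (node 525 (merge (leaf 3 525 561) (node 622 (merge (leaf 7 493 493) (node 655 (merge (leaf 4 526 623) (node 654 (merge (leaf 4 558 687) (node 653 (merge (leaf 5 525 621) (leaf 5 557 685))))))))))) (merge (node 527 (merge (node 495 (merge (leaf 6 494 622) (node 463 (merge (leaf 4 431 431) (leaf 5 462 559))))) (node 525 (merge (leaf 0 524 524) (node 529 (merge (leaf 1 526 530) (node 493 (merge (leaf 3 492 492) (leaf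 3 493 494))))))))) (node 622 (merge (node 527 (merge (leaf 6 494 495) (node 529 (merge (leaf 1 526 530) (node 561 (merge (leaf 0 526 562) (node 497 (merge (leaf 2 494 498) (node 592 (merge (leaf 5 464 465) (leaf 6 496 624))))))))))) (node 655 (merge (leaf 4 526 623) (node 654 (merge (leaf 4 558 687) (node 653 (merge (leaf 5 525 621) (leaf 5 557 685))))))))))))) (merge (node 592 (merge (node 561 (merge (leaf 1 557 589) (node 529 (merge (leaf 2 526 530) (node 624 (merge (leaf 6 496 497) (leaf 6 528 656))))))) (merge (node 624 (merge (node 656 (merge (leaf 7 527 527) (node 657 (merge (leaf 4 528 625) (leaf 4 560 689))))) (merge (node 656 (merge (leaf 7 527 527) (node 655 (merge (leaf 5 527 623) (leaf 5 559 687))))) (merge (node 657 (merge (leaf 4 528 625) (node 656 (merge (leaf 4 560 689) (node 655 (merge (leaf 5 527 623) (leaf 5 559 687))))))) (node 625 (merge (leaf 4 528 657) (node 623 (merge (leaf 5 527 655) (node 622 (merge (leaf 3 589 589) (node 527 (merge (leaf 7 495 495) (leaf 6 526 654))))))))))))) (merge (node 529 (merge (node 530 (merge (leaf 1 526 527)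 (leaf 1 527 531))) (node 624 (merge (leaf 6 496 497) (node 657 (merge (leaf 4 528 625) (node 656 (merge (leaf 4 560 689) (node 655 (merge (leaf 5 527 623) (leaf 5 559 687))))))))))) (node 561 (merge (leaf 1 557 589) (node 530 (merge (leaf 2 526 529) (node 562 (merge (leaf 2 527 531) (node 563 (merge (leaf 3 527 527) (node 596 (merge (leaf 0 560 595) (node 564 (merge (leaf 1 560 593) (leaf 0 561 597))))))))))))))))) (node 622 (merge (node 526 (merge (node 525 (merge (leaf 7 493 493) (leaf 3 525 561))) (merge (node 589 (merge (leaf 1 557 561) (node 621 (merge (leaf 5 493 494) (leaf 5 525 653))))) (node 621 (merge (leaf 5 525 653) (node 494 (merge (leaf 5 493 589) (node 493 (merge (leaf 7 461 461) (leaf 7 493 525)))))))))) (merge (node 526 (merge (node 525 (merge (leaf 7 493 493) (leaf 3 525 561))) (node 655 (merge (leaf 4 526 623) (node 654 (merge (leaf 4 558 687) (node 653 (merge (leaf 5 525 621) (leaf 5 557 685))))))))) (merge (node 623 (merge (node 655 (merge (leaf 4 526 526) (node 687 (merge (leaf 4 558 654) (leaf 7 590 719))))) (node 589 (merge (leaf 1 557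 561) (node 588 (merge (leaf 0 587 587) (node 624 (merge (leaf 3 588 621) (leaf 3 589 625))))))))) (merge (node 655 (merge (node 623 (merge (leaf 4 526 526) (node 654 (merge (leaf 4 558 687) (node 624 (merge (leaf 5 527 592) (node 625 (merge (leaf 3 589 589) (leaf 1 622 626))))))))) (merge (node 526 (merge (leaf 4 526 623) (node 621 (merge (leaf 5 525 653) (node 494 (merge (leaf 5 493 589) (node 493 (merge (leaf 7 461 461) (leaf 7 493 525))))))))) (merge (node 654 (merge (leaf 4 558 687) (node 653 (merge (leaf 5 557 685) (node 621 (merge (leaf 5 525 526) (node 656 (merge (leaf 3 620 620) (leaf 3 621 657))))))))) (node 687 (merge (leaf 4 558 654) (node 623 (merge (leaf 7 590 719) (node 624 (merge (leaf 5 527 592) (node 589 (merge (leaf 3 589 625) (node 621 (merge (leaf 3 588 588) (node 656 (merge (leaf 0 620 620) (leaf 0 621 657))))))))))))))))) (merge (node 624 (merge (node 561 (merge (leaf 1 557 589) (node 529 (merge (leaf 2 526 530) (node 592 (merge (leaf 6 496 497) (leaf 6 528 656))))))) (merge (node 529 (merge (node 530 (merge (leaf 1 527 531) (leaf 2 526 561)))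 (node 592 (merge (leaf 6 496 497) (node 625 (merge (leaf 4 528 657) (node 623 (merge (leaf 5 527 655) (node 653 (merge (leaf 1 621 654) (node 621 (merge (leaf 2 589 593) (leaf 1 620 652))))))))))))) (merge (node 623 (merge (node 625 (merge (leaf 3 589 589) (node 657 (merge (leaf 4 528 592) (leaf 0 622 658))))) (merge (node 589 (merge (leaf 3 589 625) (node 588 (merge (leaf 0 587 587) (leaf 3 588 621))))) (merge (node 592 (merge (leaf 5 527 655) (node 621 (merge (leaf 2 589 593) (node 653 (merge (leaf 1 620 652) (node 589 (merge (leaf 3 588 588) (leaf 6 557 685))))))))) (node 592 (merge (leaf 5 527 655) (node 621 (merge (leaf 2 589 593) (node 653 (merge (leaf 1 620 652) (node 625 (merge (leaf 1 621 654) (leaf 4 528 657))))))))))))) (node 589 (merge (leaf 1 557 561) (node 623 (merge (leaf 3 589 625) (node 621 (merge (leaf 3 588 588) (node 656 (merge (leaf 0 621 657) (node 655 (merge (leaf 0 620 620) (node 687 (merge (leaf 4 558 654) (leaf 7 590 719))))))))))))))))) (node 625 (merge (node 589 (merge (leaf 1 557 561) (node 623 (merge (leaf 3 589 624) (node 655 (merge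 (leaf 4 526 526) (node 687 (merge (leaf 4 558 654) (leaf 7 590 719))))))))) (merge (node 561 (merge (leaf 1 557 589) (node 593 (merge (leaf 7 528 657) (node 529 (merge (leaf 2 526 530) (node 624 (merge (leaf 5 528 656) (node 497 (merge (leaf 5 496 592) (node 465 (merge (leaf 5 432 433) (node 466 (merge (leaf 6 433 434) (leaf 6 465 498))))))))))))))) (merge (node 623 (merge (node 624 (merge (leaf 3 589 589) (node 657 (merge (leaf 4 528 592) (leaf 0 622 658))))) (node 655 (merge (leaf 4 526 526) (node 687 (merge (leaf 4 558 654) (leaf 7 590 719))))))) (merge (node 561 (merge (leaf 1 557 589) (node 657 (merge (leaf 7 528 593) (node 526 (merge (leaf 3 525 525) (node 655 (merge (leaf 4 526 623) (node 654 (merge (leaf 4 558 687) (node 685 (merge (leaf 5 557 653) (node 686 (merge (leaf 1 653 656) (leaf 5 589 717))))))))))))))) (node 526 (merge (node 525 (merge (leaf 7 493 493) (leaf 3 525 561))) (node 655 (merge (leaf 4 526 623) (node 654 (merge (leaf 4 558 687) (node 653 (merge (leaf 5 557 685) (node 656 (merge (leaf 2 621 624) (node 689 (merge (leaf 0 653 688) (node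 657 (merge (leaf 2 622 626) (leaf 0 654 690))))))))))))))))))))))))))))))) nB_20 cB_20 11 (by decide +kernel)
def nB_21 : ℕ := 0x180000001000000000000000000000000000000000000000000000000000000000000000000000000000000000000000000000000000000000000000000000000000000000000
def cB_21 : ℕ := 0x260000003f000000ff0000003f000000e7000001cf0000000fc000003f8000001f00000005000000000000000000000000000000000000000000000000000000000000000000000000000000000000000000000000000
theorem lB_21 : S nB_21 cB_21 12 := S_of_chk [] trivial (node 527 (merge (node 558 (merge (node 557 (merge (leaf 2 524 556) (node 592 (merge (leaf 0 557 593) (node 624 (merge (leaf 7 495 495) (leaf 7 527 656))))))) (merge (node 557 (merge (leaf 2 524 556) (node 525 (merge (leaf 3 524 524) (node 526 (merge (leaf 0 525 561) (node 493 (merge (leaf 3 492 492) (node 590 (merge (leaf 4 461 461) (leaf 7 493 622))))))))))) (node 526 (merge (node 561 (merge (leaf 0 525 525) (leaf 3 526 562))) (merge (node 561 (merge (leaf 3 526 562) (node 590 (merge (leaf 1 557 589) (node 622 (merge (leaf 6 494 495) (leaf 6 526 654)))))))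 (node 525 (merge (leaf 0 524 524) (node 493 (merge (leaf 3 492 492) (node 590 (merge (leaf 7 493 622) (node 463 (merge (leaf 5 462 495) (node 494 (merge (leaf 7 461 461) (node 462 (merge (leaf 4 430 430) (leaf 6 430 431))))))))))))))))))) (merge (node 591 (merge (node 623 (merge (leaf 6 527 655) (node 526 (merge (leaf 7 494 494) (node 561 (merge (leaf 0 525 525) (leaf 3 526 562))))))) (merge (node 623 (merge (leaf 6 527 655) (node 622 (merge (leaf 5 526 654) (node 495 (merge (leaf 5 494 590) (node 463 (merge (leaf 4 431 431) (leaf 4 463 592))))))))) (node 495 (merge (node 590 (merge (leaf 5 494 622) (node 589 (merge (leaf 2 556 588) (node 561 (merge (leaf 1 557 558) (leaf 1 558 562))))))) (node 463 (merge (leaf 4 431 431) (node 464 (merge (leaf 6 431 432) (node 462 (merge (leaf 7 430 430) (node 494 (merge (leaf 7 462 591) (node 493 (merge (leaf 1 461 465) (leaf 0 492 492)))))))))))))))) (merge (node 495 (merge (node 592 (merge (leaf 4 463 463) (leaf 7 495 624))) (merge (node 463 (merge (leaf 4 431 431) (node 464 (merge (leaf 6 431 432) (node 462 (merge (leaf 7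 430 430) (node 494 (merge (leaf 7 462 591) (node 493 (merge (leaf 1 461 465) (leaf 0 492 492))))))))))) (node 591 (merge (node 623 (merge (leaf 6 527 655) (node 622 (merge (leaf 5 494 590) (leaf 5 526 654))))) (merge (node 624 (merge (leaf 4 495 592) (node 623 (merge (leaf 4 527 656) (node 494 (merge (leaf 7 462 462) (leaf 7 494 526))))))) (node 592 (merge (leaf 4 495 624) (node 590 (merge (leaf 5 494 622) (node 561 (merge (leaf 1 558 562) (node 526 (merge (leaf 0 525 525) (node 494 (merge (leaf 7 462 462) (node 493 (merge (leaf 0 492 492) (node 558 (merge (leaf 7 461 461) (node 557 (merge (leaf 0 556 556) (leaf 0 557 593))))))))))))))))))))))) (merge (node 495 (merge (node 592 (merge (leaf 4 463 463) (leaf 7 495 624))) (merge (node 463 (merge (leaf 4 431 431) (node 464 (merge (leaf 6 431 432) (node 462 (merge (leaf 7 430 430) (node 494 (merge (leaf 7 462 591) (node 493 (merge (leaf 1 461 465) (leaf 0 492 492))))))))))) (node 591 (merge (node 623 (merge (leaf 6 527 655) (node 526 (merge (leaf 7 494 494) (node 561 (merge (leaf 0 525 525) (leaf 3 526 562)))))))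 (merge (node 624 (merge (leaf 4 495 592) (node 623 (merge (leaf 4 527 656) (node 655 (merge (leaf 6 527 560) (node 654 (merge (leaf 5 526 622) (leaf 5 558 686))))))))) (node 592 (merge (leaf 4 495 624) (node 590 (merge (leaf 5 494 622) (node 589 (merge (leaf 2 557 561) (leaf 2 556 588))))))))))))) (merge (node 591 (merge (node 623 (merge (leaf 6 527 655) (node 624 (merge (leaf 4 527 656) (node 592 (merge (leaf 4 495 495) (node 625 (merge (leaf 4 528 657) (node 626 (merge (leaf 3 590 590) (leaf 3 591 627))))))))))) (merge (node 623 (merge (leaf 6 527 655) (node 624 (merge (leaf 4 527 656) (node 592 (merge (leaf 4 495 495) (node 622 (merge (leaf 5 526 654) (node 621 (merge (leaf 2 589 593) (leaf 2 588 620))))))))))) (merge (node 495 (merge (node 592 (merge (leaf 4 463 463) (leaf 7 495 624))) (merge (node 463 (merge (leaf 4 431 431) (node 590 (merge (leaf 5 462 558) (leaf 5 494 622))))) (node 592 (merge (leaf 4 495 624) (node 590 (merge (leaf 5 494 622) (node 589 (merge (leaf 2 556 588) (node 621 (merge (leaf 1 588 620) (node 557 (merge (leaf 3 556 556) (node 558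 (merge (leaf 0 557 593) (node 494 (merge (leaf 7 462 462) (leaf 5 493 526)))))))))))))))))) (node 623 (merge (leaf 6 527 655) (node 622 (merge (leaf 5 526 654) (node 526 (merge (leaf 7 494 494) (node 525 (merge (leaf 0 524 524) (node 557 (merge (leaf 1 524 556) (node 493 (merge (leaf 3 492 492) (node 590 (merge (leaf 7 493 558) (leaf 4 493 589))))))))))))))))))) (merge (node 624 (merge (node 592 (merge (leaf 7 495 495) (leaf 7 527 656))) (merge (node 623 (merge (node 591 (merge (leaf 6 527 655) (leaf 4 527 656))) (merge (node 656 (merge (leaf 4 527 591) (leaf 7 527 592))) (merge (node 655 (merge (leaf 6 527 591) (leaf 5 527 592))) (node 592 (merge (leaf 5 527 655) (node 656 (merge (leaf 7 527 559) (node 657 (merge (leaf 4 528 625) (leaf 4 560 689))))))))))) (merge (node 495 (merge (leaf 7 495 592) (node 463 (merge (leaf 4 431 431) (node 462 (merge (leaf 7 430 430) (node 591 (merge (leaf 7 462 494) (node 622 (merge (leaf 5 494 590) (node 623 (merge (leaf 5 526 654) (leaf 6 527 655))))))))))))) (node 591 (merge (node 623 (merge (leaf 6 527 655) (leaf 4 527 656)))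 (node 495 (merge (node 590 (merge (leaf 5 494 622) (node 589 (merge (leaf 2 556 588) (node 561 (merge (leaf 1 557 558) (leaf 1 558 562))))))) (node 463 (merge (leaf 4 431 431) (node 464 (merge (leaf 6 431 432) (node 462 (merge (leaf 7 430 430) (node 494 (merge (leaf 7 462 591) (node 493 (merge (leaf 1 461 465) (leaf 0 492 492))))))))))))))))))) (merge (node 591 (merge (node 623 (merge (leaf 6 527 655) (node 526 (merge (leaf 7 494 494) (node 561 (merge (leaf 0 525 525) (leaf 3 526 562))))))) (merge (node 623 (merge (leaf 6 527 655) (node 622 (merge (leaf 5 526 654) (node 495 (merge (leaf 5 494 590) (node 463 (merge (leaf 4 431 431) (node 462 (merge (leaf 7 430 430) (leaf 7 462 494))))))))))) (merge (node 495 (merge (node 590 (merge (leaf 5 494 622) (node 589 (merge (leaf 2 556 588) (node 561 (merge (leaf 1 557 558) (leaf 1 558 562))))))) (node 463 (merge (leaf 4 431 431) (node 464 (merge (leaf 6 431 432) (node 462 (merge (leaf 7 430 430) (node 494 (merge (leaf 7 462 591) (node 493 (merge (leaf 1 461 465) (leaf 0 492 492))))))))))))) (node 623 (merge (leaf 6 527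 655) (node 624 (merge (leaf 4 527 656) (node 622 (merge (leaf 5 526 654) (node 590 (merge (leaf 5 494 495) (node 589 (merge (leaf 0 588 588) (leaf 3 589 625))))))))))))))) (merge (node 558 (merge (node 557 (merge (leaf 2 524 556) (node 589 (merge (leaf 1 556 588) (node 561 (merge (leaf 1 557 590) (node 562 (merge (leaf 3 526 526) (leaf 3 527 563))))))))) (merge (node 557 (merge (leaf 2 524 556) (node 525 (merge (leaf 3 524 524) (node 526 (merge (leaf 0 525 561) (node 493 (merge (leaf 3 492 492) (node 590 (merge (leaf 4 461 461) (leaf 7 493 622))))))))))) (merge (node 557 (merge (leaf 2 524 556) (node 592 (merge (leaf 0 557 593) (node 624 (merge (leaf 7 527 656) (node 589 (merge (leaf 1 556 588) (node 625 (merge (leaf 4 528 657) (node 590 (merge (leaf 0 589 591) (node 623 (merge (leaf 3 589 622) (leaf 5 527 655))))))))))))))) (merge (node 561 (merge (node 562 (merge (leaf 3 526 526) (leaf 3 527 563))) (merge (node 590 (merge (leaf 1 557 589) (node 562 (merge (leaf 1 558 591) (node 531 (merge (leaf 2 527 530) (node 563 (merge (leaf 3 527 527) (leaf 2 528 532)))))))))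 (node 526 (merge (leaf 0 525 525) (node 590 (merge (leaf 1 557 589) (node 622 (merge (leaf 6 526 654) (node 623 (merge (leaf 4 526 655) (node 591 (merge (leaf 4 494 494) (node 621 (merge (leaf 5 525 653) (node 592 (merge (leaf 1 589 593) (leaf 2 588 620)))))))))))))))))) (node 557 (merge (leaf 2 524 556) (node 589 (merge (leaf 1 556 588) (node 525 (merge (leaf 3 524 524) (node 526 (merge (leaf 0 525 561) (node 621 (merge (leaf 6 493 494) (leaf 6 525 653)))))))))))))))) (merge (node 558 (merge (node 557 (merge (leaf 2 524 556) (node 592 (merge (leaf 0 557 593) (node 624 (merge (leaf 7 495 495) (leaf 7 527 656))))))) (merge (node 557 (merge (leaf 2 524 556) (node 589 (merge (leaf 1 556 588) (node 561 (merge (leaf 1 557 590) (node 562 (merge (leaf 3 526 526) (leaf 3 527 563))))))))) (node 590 (merge (node 622 (merge (leaf 6 526 654) (node 495 (merge (leaf 5 462 463) (leaf 5 494 591))))) (merge (node 561 (merge (leaf 1 557 589) (node 562 (merge (leaf 1 558 591) (node 531 (merge (leaf 2 527 530) (node 563 (merge (leaf 3 527 527) (leaf 2 528 532))))))))) (node 589 (merge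 (leaf 1 557 561) (node 495 (merge (leaf 5 462 463) (node 622 (merge (leaf 6 526 654) (node 624 (merge (leaf 7 495 592) (node 623 (merge (leaf 3 589 625) (node 621 (merge (leaf 3 588 588) (node 653 (merge (leaf 1 620 652) (leaf 6 557 685))))))))))))))))))))) (node 525 (merge (node 526 (merge (leaf 0 524 524) (leaf 0 525 561))) (merge (node 494 (merge (node 526 (merge (leaf 0 525 561) (node 557 (merge (leaf 1 524 556) (node 462 (merge (leaf 5 429 430) (node 589 (merge (leaf 5 461 558) (leaf 6 493 621))))))))) (merge (node 495 (merge (node 592 (merge (leaf 4 463 463) (leaf 7 495 624))) (merge (node 591 (merge (leaf 7 462 462) (node 624 (merge (leaf 4 495 592) (node 623 (merge (leaf 6 527 655) (leaf 4 527 656))))))) (node 493 (merge (leaf 0 492 492) (node 463 (merge (leaf 4 431 431) (node 464 (merge (leaf 6 431 432) (node 462 (merge (leaf 7 430 430) (leaf 1 461 465)))))))))))) (node 526 (merge (leaf 0 525 561) (node 557 (merge (leaf 1 524 556) (node 493 (merge (leaf 3 492 492) (node 589 (merge (leaf 6 493 621) (node 588 (merge (leaf 1 556 558) (leaf 5 492 620))))))))))))))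 (node 493 (merge (node 495 (merge (node 592 (merge (leaf 4 463 463) (leaf 7 495 624))) (merge (node 494 (merge (leaf 0 492 492) (node 463 (merge (leaf 4 431 431) (node 462 (merge (leaf 7 430 430) (leaf 7 462 591))))))) (node 494 (merge (leaf 0 492 492) (node 591 (merge (leaf 7 462 462) (node 624 (merge (leaf 4 495 592) (node 623 (merge (leaf 6 527 655) (leaf 4 527 656)))))))))))) (merge (node 557 (merge (node 558 (merge (leaf 3 524 524) (leaf 2 524 556))) (merge (node 558 (merge (leaf 3 524 524) (node 589 (merge (leaf 1 556 588) (node 462 (merge (leaf 6 461 494) (node 461 (merge (leaf 6 429 430) (node 460 (merge (leaf 7 428 428) (leaf 7 460 492))))))))))) (merge (node 556 (merge (leaf 2 524 558) (node 461 (merge (leaf 5 460 588) (node 462 (merge (leaf 6 429 430) (node 589 (merge (leaf 6 461 494) (node 460 (merge (leaf 7 428 428) (leaf 7 460 492))))))))))) (node 461 (merge (node 462 (merge (leaf 6 429 430) (node 589 (merge (leaf 6 461 494) (node 460 (merge (leaf 7 428 428) (leaf 7 460 492))))))) (merge (node 588 (merge (leaf 5 460 556) (node 589 (merge (leaf 5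 492 620) (node 462 (merge (leaf 6 429 430) (leaf 6 461 494))))))) (merge (node 588 (merge (leaf 5 460 556) (node 589 (merge (leaf 5 492 620) (node 460 (merge (leaf 7 428 428) (leaf 7 460 492))))))) (node 556 (merge (leaf 5 460 588) (node 429 (merge (leaf 5 428 524) (node 430 (merge (leaf 6 397 398) (leaf 6 429 462))))))))))))))) (merge (node 557 (merge (node 558 (merge (leaf 3 524 524) (leaf 2 524 556))) (merge (node 558 (merge (leaf 2 524 556) (node 589 (merge (leaf 1 556 588) (node 492 (merge (leaf 7 460 460) (node 495 (merge (leaf 0 492 494) (node 592 (merge (leaf 4 463 463) (leaf 7 495 624))))))))))) (node 495 (merge (node 463 (merge (leaf 4 431 431) (node 592 (merge (leaf 4 463 559) (leaf 7 495 624))))) (merge (node 492 (merge (leaf 0 492 494) (node 589 (merge (leaf 7 460 460) (node 620 (merge (leaf 5 492 588) (node 621 (merge (leaf 7 492 524) (leaf 5 524 652))))))))) (node 492 (merge (leaf 0 492 494) (node 589 (merge (leaf 7 460 460) (node 620 (merge (leaf 5 492 588) (node 621 (merge (leaf 7 492 524) (leaf 5 524 652))))))))))))))) (merge (node 557 (merge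 (node 558 (merge (leaf 3 524 524) (node 592 (merge (leaf 0 557 593) (node 624 (merge (leaf 7 495 495) (leaf 7 527 656))))))) (merge (node 556 (merge (leaf 2 524 558) (node 461 (merge (leaf 5 460 588) (node 462 (merge (leaf 6 429 430) (node 460 (merge (leaf 7 428 428) (node 492 (merge (leaf 7 460 589) (node 491 (merge (leaf 1 459 463) (leaf 2 458 490))))))))))))) (node 461 (merge (node 588 (merge (leaf 5 460 556) (node 589 (merge (leaf 5 492 620) (node 460 (merge (leaf 7 428 428) (leaf 7 460 492))))))) (merge (node 462 (merge (leaf 6 429 430) (node 460 (merge (leaf 7 428 428) (node 492 (merge (leaf 7 460 589) (node 491 (merge (leaf 1 459 463) (leaf 2 458 490))))))))) (merge (node 588 (merge (leaf 5 460 556) (node 589 (merge (leaf 5 492 620) (node 462 (merge (leaf 6 429 430) (node 492 (merge (leaf 7 460 460) (node 463 (merge (leaf 1 460 464) (node 495 (merge (leaf 4 431 431) (leaf 4 463 592))))))))))))) (node 556 (merge (leaf 5 460 588) (node 429 (merge (leaf 5 428 524) (node 462 (merge (leaf 6 429 430) (node 428 (merge (leaf 7 396 396) (node 463 (merge (leaf 3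 428 464) (node 495 (merge (leaf 4 431 431) (leaf 4 463 592)))))))))))))))))))) (node 557 (merge (node 558 (merge (leaf 3 524 524) (leaf 2 524 556))) (merge (node 558 (merge (leaf 3 524 524) (node 592 (merge (leaf 0 557 593) (node 624 (merge (leaf 7 495 495) (leaf 7 527 656))))))) (merge (node 556 (merge (leaf 2 524 558) (node 461 (merge (leaf 5 460 588) (node 462 (merge (leaf 6 429 430) (node 494 (merge (leaf 6 461 589) (node 460 (merge (leaf 7 428 428) (node 495 (merge (leaf 0 459 459) (leaf 7 462 591))))))))))))) (node 462 (merge (node 461 (merge (leaf 6 429 430) (node 588 (merge (leaf 5 460 556) (node 589 (merge (leaf 6 461 494) (leaf 5 492 620))))))) (merge (node 494 (merge (leaf 6 461 589) (node 495 (merge (leaf 7 462 591) (node 463 (merge (leaf 4 431 431) (leaf 4 463 592))))))) (node 461 (merge (leaf 6 429 430) (node 428 (merge (leaf 7 428 460) (node 429 (merge (leaf 7 396 396) (node 463 (merge (leaf 3 428 464) (node 495 (merge (leaf 4 431 431) (leaf 4 463 592)))))))))))))))))))))))))))))))))))) nB_21 cB_21 12 (by decide +kernel)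
def nB_22 : ℕ := 0x1000000000000000180000001000000000000000000000000000000000000000000000000000000000000000000000000000000000000000000000000000000000000000000000000000000000000
def cB_22 : ℕ := 0x2000000060000000e000000ffc000006f800003afc00001e7000001eb800000ce0000004c0000000c00000000000000000000000000000000000000000000000000000000000000000000000000000000000000000000000000000000000
theorem lB_22 : S nB_22 cB_22 11 := S_of_chk [] trivial (node 623 (merge (node 591 (merge (leaf 6 527 655) (node 527 (merge (leaf 4 527 656) (node 622 (merge (leaf 5 526 654) (node 495 (merge (leaf 5 494 590) (node 463 (merge (leaf 4 431 431) (node 462 (merge (leaf 7 430 430) (leaf 7 462 494))))))))))))) (merge (node 591 (merge (leaf 6 527 655) (node 590 (merge (node 589 (merge (leaf 0 588 588) (node 625 (merge (leaf 3 589 622) (leaf 3 590 626))))) (merge (node 589 (merge (leaf 2 556 588) (node 561 (merge (leaf 1 557 558) (leaf 1 558 562))))) (node 561 (merge (leaf 1 558 562) (node 625 (merge (leaf 3 590 626) (node 657 (merge (leaf 7 528 593) (node 622 (merge (leaf 0 622 658) (node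 654 (merge (leaf 1 621 653) (leaf 6 558 686)))))))))))))))) (merge (node 561 (merge (node 591 (merge (leaf 6 527 655) (node 527 (merge (leaf 4 527 656) (node 562 (merge (leaf 3 527 563) (leaf 1 558 590))))))) (merge (node 591 (merge (leaf 6 527 655) (node 590 (merge (leaf 1 558 562) (node 589 (merge (leaf 1 557 558) (leaf 2 556 588))))))) (merge (node 562 (merge (node 531 (merge (leaf 2 527 530) (node 563 (merge (leaf 3 527 527) (leaf 2 528 532))))) (merge (node 563 (merge (leaf 3 527 527) (node 596 (merge (leaf 0 560 595) (node 564 (merge (leaf 3 528 529) (leaf 0 561 597))))))) (merge (node 531 (merge (leaf 2 527 530) (node 563 (merge (leaf 2 528 532) (node 596 (merge (leaf 0 560 595) (node 564 (merge (leaf 3 528 529) (leaf 0 561 597))))))))) (node 530 (merge (leaf 2 527 531) (node 558 (merge (leaf 2 526 529) (node 589 (merge (leaf 1 557 590) (node 557 (merge (leaf 1 556 588) (node 556 (merge (leaf 2 524 527) (node 524 (merge (leaf 3 523 523) (leaf 3 524 525))))))))))))))))) (merge (node 558 (merge (node 529 (merge (leaf 2 525 557) (node 530 (merge (leaf 1 527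 531) (leaf 2 526 561))))) (merge (node 589 (merge (leaf 1 557 590) (node 557 (merge (leaf 1 556 588) (node 556 (merge (leaf 2 524 527) (node 524 (merge (leaf 3 523 523) (leaf 3 524 525))))))))) (node 590 (merge (leaf 1 557 589) (node 529 (merge (leaf 2 526 530) (node 591 (merge (leaf 6 527 655) (node 625 (merge (leaf 3 590 626) (node 656 (merge (leaf 4 527 527) (leaf 5 528 593)))))))))))))) (node 591 (merge (leaf 6 527 655) (node 527 (merge (leaf 4 527 656) (node 562 (merge (leaf 3 527 563) (node 530 (merge (leaf 2 527 531) (node 529 (merge (leaf 1 526 558) (node 498 (merge (leaf 2 495 499) (node 593 (merge (leaf 5 465 466) (leaf 6 497 625)))))))))))))))))))) (merge (node 622 (merge (node 591 (merge (leaf 6 527 655) (node 527 (merge (leaf 5 526 654) (leaf 4 527 656))))) (merge (node 591 (merge (leaf 6 527 655) (node 654 (merge (leaf 5 526 527) (node 653 (merge (leaf 1 621 625) (node 652 (merge (leaf 1 620 621) (leaf 2 619 651))))))))) (merge (node 591 (merge (leaf 6 527 655) (node 656 (merge (leaf 4 527 527) (node 621 (merge (leaf 0 621 657) (node 652 (merge (leaf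 1 620 653) (node 620 (merge (leaf 1 619 651) (node 588 (merge (leaf 3 587 587) (leaf 3 588 589))))))))))))) (merge (node 625 (merge (node 655 (merge (leaf 6 527 591) (node 654 (merge (leaf 1 622 626) (leaf 1 621 653))))) (merge (node 657 (merge (leaf 0 622 658) (node 621 (merge (leaf 0 621 656) (node 652 (merge (leaf 1 620 653) (node 620 (merge (leaf 1 619 651) (node 588 (merge (leaf 3 587 587) (leaf 3 588 589))))))))))) (node 658 (merge (leaf 0 622 657) (node 626 (merge (leaf 0 623 659) (node 655 (merge (leaf 6 527 591) (leaf 1 622 654)))))))))) (merge (node 621 (merge (node 657 (merge (leaf 0 621 656) (node 625 (merge (leaf 0 622 658) (node 653 (merge (leaf 1 620 652) (leaf 1 621 654))))))) (merge (node 656 (merge (leaf 0 621 657) (node 620 (merge (leaf 0 620 655) (node 588 (merge (leaf 3 587 587) (leaf 3 588 589))))))) (merge (node 588 (merge (leaf 3 588 589) (node 620 (merge (leaf 3 587 587) (node 655 (merge (leaf 0 620 656) (node 654 (merge (leaf 0 619 619) (node 625 (merge (leaf 1 622 626) (leaf 1 621 653))))))))))) (node 653 (merge (leaf 1 620 652) (node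 654 (merge (leaf 1 621 625) (node 589 (merge (leaf 3 588 588) (node 686 (merge (leaf 4 557 557) (leaf 7 589 718))))))))))))) (node 558 (merge (node 529 (merge (leaf 2 525 557) (node 530 (merge (leaf 1 527 531) (leaf 2 526 561))))) (merge (node 621 (merge (node 652 (merge (leaf 1 620 653) (node 620 (merge (leaf 1 619 651) (node 588 (merge (leaf 3 587 587) (leaf 3 588 589))))))) (merge (node 657 (merge (leaf 0 621 656) (node 625 (merge (leaf 0 622 658) (node 653 (merge (leaf 1 620 652) (leaf 1 621 654))))))) (node 656 (merge (leaf 0 621 657) (node 589 (merge (leaf 3 588 588) (node 527 (merge (leaf 4 527 591) (node 557 (merge (leaf 2 524 556) (node 525 (merge (leaf 3 524 524) (leaf 4 525 654)))))))))))))) (node 657 (merge (node 656 (merge (leaf 0 621 621) (node 658 (merge (leaf 0 622 625) (leaf 3 623 659))))) (merge (node 621 (merge (leaf 0 621 656) (node 652 (merge (leaf 1 620 653) (node 620 (merge (leaf 1 619 651) (node 588 (merge (leaf 3 587 587) (leaf 3 588 589))))))))) (node 625 (merge (leaf 0 622 658) (node 561 (merge (leaf 7 528 593) (node 654 (merge (leaf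 1 621 653) (node 530 (merge (leaf 2 526 529) (node 562 (merge (leaf 2 527 531) (node 527 (merge (leaf 3 527 563) (leaf 5 526 591))))))))))))))))))))))))) (merge (node 558 (merge (node 529 (merge (leaf 2 525 557) (node 530 (merge (leaf 1 527 531) (leaf 2 526 561))))) (merge (node 557 (merge (leaf 2 525 529) (node 556 (merge (leaf 2 524 527) (node 524 (merge (leaf 3 523 523) (leaf 3 524 525))))))) (node 622 (merge (node 590 (merge (node 589 (merge (leaf 1 557 561) (leaf 3 589 625))) (node 654 (merge (leaf 6 526 527) (node 653 (merge (leaf 5 557 685) (node 652 (merge (leaf 2 619 651) (leaf 2 620 655))))))))) (merge (node 621 (merge (node 589 (merge (leaf 3 588 588) (node 590 (merge (leaf 1 557 561) (leaf 3 589 625))))) (node 656 (merge (leaf 0 621 657) (node 620 (merge (leaf 0 620 655) (node 652 (merge (leaf 1 619 651) (leaf 1 620 653))))))))) (merge (node 590 (merge (node 589 (merge (leaf 1 557 561) (leaf 3 589 625))) (node 654 (merge (leaf 6 526 527) (node 653 (merge (leaf 5 557 685) (node 652 (merge (leaf 1 620 621) (leaf 2 619 651))))))))) (merge (node 625 (merge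 (node 654 (merge (leaf 1 621 653) (node 590 (merge (leaf 6 526 527) (leaf 3 589 589))))) (merge (node 657 (merge (leaf 0 622 658) (node 621 (merge (leaf 0 621 656) (node 589 (merge (leaf 3 588 588) (leaf 3 589 590))))))) (node 658 (merge (leaf 0 622 657) (node 626 (merge (leaf 0 623 659) (node 654 (merge (leaf 1 621 653) (leaf 1 622 655)))))))))) (merge (node 621 (merge (node 652 (merge (leaf 1 620 653) (node 620 (merge (leaf 1 619 651) (node 588 (merge (leaf 3 587 587) (leaf 3 588 589))))))) (merge (node 657 (merge (leaf 0 621 656) (node 625 (merge (leaf 0 622 658) (node 653 (merge (leaf 1 620 652) (leaf 1 621 654))))))) (merge (node 656 (merge (leaf 0 621 657) (node 620 (merge (leaf 0 620 655) (node 588 (merge (leaf 3 587 587) (leaf 3 588 589))))))) (node 588 (merge (leaf 3 588 589) (node 620 (merge (leaf 3 587 587) (node 655 (merge (leaf 0 620 656) (node 654 (merge (leaf 0 619 619) (node 625 (merge (leaf 1 622 626) (leaf 1 621 653))))))))))))))) (merge (node 590 (merge (node 654 (merge (leaf 6 526 527) (node 653 (merge (leaf 5 557 685) (node 652 (merge (leaf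 2 619 651) (leaf 2 620 655))))))) (merge (node 589 (merge (leaf 1 557 561) (node 621 (merge (leaf 3 588 588) (node 653 (merge (leaf 1 620 652) (leaf 6 557 685))))))) (node 589 (merge (leaf 1 557 561) (node 621 (merge (leaf 3 588 588) (node 656 (merge (leaf 0 621 657) (node 655 (merge (leaf 0 620 620) (node 654 (merge (leaf 6 526 527) (leaf 4 558 687)))))))))))))) (merge (node 621 (merge (node 589 (merge (leaf 3 588 588) (node 590 (merge (leaf 1 557 561) (leaf 3 589 625))))) (merge (node 656 (merge (leaf 0 621 657) (node 620 (merge (leaf 0 620 655) (node 651 (merge (leaf 1 619 652) (node 619 (merge (leaf 1 618 650) (node 587 (merge (leaf 3 586 586) (leaf 3 587 588))))))))))) (node 657 (merge (leaf 0 621 656) (node 625 (merge (leaf 0 622 658) (node 590 (merge (leaf 3 589 589) (node 654 (merge (leaf 6 526 527) (node 655 (merge (leaf 1 622 626) (leaf 4 558 687)))))))))))))) (node 621 (merge (node 653 (merge (leaf 1 620 652) (node 654 (merge (leaf 1 621 625) (node 590 (merge (leaf 6 526 527) (leaf 5 557 685))))))) (merge (node 656 (merge (leaf 0 621 657) (node 620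 (merge (leaf 0 620 655) (node 651 (merge (leaf 1 619 652) (node 619 (merge (leaf 1 618 650) (node 587 (merge (leaf 3 586 586) (leaf 3 587 588))))))))))) (node 657 (merge (leaf 0 621 656) (node 625 (merge (leaf 0 622 658) (node 654 (merge (leaf 1 621 653) (node 655 (merge (leaf 1 622 626) (node 590 (merge (leaf 6 526 527) (leaf 4 558 687))))))))))))))))))))))))) (node 558 (merge (node 529 (merge (leaf 2 525 557) (node 530 (merge (leaf 1 527 531) (leaf 2 526 561))))) (merge (node 557 (merge (leaf 2 525 529) (node 556 (merge (leaf 2 524 527) (node 524 (merge (leaf 3 523 523) (leaf 3 524 525))))))) (merge (node 557 (merge (node 556 (merge (leaf 2 524 527) (node 524 (merge (leaf 3 523 523) (leaf 3 524 525))))) (merge (node 556 (merge (leaf 2 524 527) (node 588 (merge (leaf 1 555 587) (leaf 1 556 589))))) (node 589 (merge (leaf 1 556 588) (node 590 (merge (leaf 1 557 561) (node 525 (merge (leaf 3 524 524) (node 622 (merge (leaf 4 493 493) (leaf 7 525 654)))))))))))) (node 590 (merge (node 589 (merge (leaf 1 557 561) (node 588 (merge (leaf 2 555 587) (leaf 2 556 591)))))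 (merge (node 589 (merge (leaf 1 557 561) (node 622 (merge (leaf 3 589 625) (node 654 (merge (leaf 6 526 527) (node 653 (merge (leaf 5 557 685) (node 652 (merge (leaf 1 620 621) (leaf 2 619 651))))))))))) (merge (node 589 (merge (node 588 (merge (leaf 2 555 587) (leaf 2 556 591))) (merge (node 622 (merge (leaf 3 589 625) (node 588 (merge (leaf 0 587 587) (leaf 3 588 621))))) (node 622 (merge (leaf 3 589 625) (node 654 (merge (leaf 6 526 527) (node 686 (merge (leaf 6 558 591) (node 718 (merge (leaf 7 589 621) (node 717 (merge (leaf 5 589 685) (leaf 5 621 749)))))))))))))) (node 591 (merge (node 561 (merge (leaf 1 558 562) (node 625 (merge (leaf 3 590 626) (node 593 (merge (leaf 7 528 657) (node 656 (merge (leaf 4 527 527) (leaf 5 528 529))))))))) (merge (node 527 (merge (leaf 4 527 656) (node 622 (merge (leaf 5 526 654) (node 495 (merge (leaf 5 494 590) (node 463 (merge (leaf 4 431 431) (node 462 (merge (leaf 7 430 430) (leaf 7 462 494))))))))))) (node 561 (merge (leaf 1 558 562) (node 625 (merge (leaf 3 590 626) (node 657 (merge (leaf 7 528 593) (node 622 (merge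 (leaf 0 622 658) (node 654 (merge (leaf 1 621 653) (leaf 6 558 686)))))))))))))))))))))))))))) nB_22 cB_22 11 (by decide +kernel)
def nB_23 : ℕ := 0x1c0000001000000000000000000000000000000000000000000000000000000000000000000000000000000000000000000000000000000000000000000000000000000000000
def cB_23 : ℕ := 0x20000000e0000000e0000007e0000007fe000007fc000003fe0000060000000e60000006e0000006e0000006a00000000000000000000000000000000000000000000000000000000000000000000000000000000000000000000000000000000000
theorem lB_23 : S nB_23 cB_23 11 := S_of_chk [] trivial (node 590 (merge (node 589 (merge (leaf 1 557 561) (node 588 (merge (leaf 2 555 587) (leaf 2 556 591))))) (merge (node 526 (merge (node 561 (merge (leaf 3 525 525) (node 530 (merge (leaf 2 526 529) (node 562 (merge (leaf 2 527 531) (leaf 1 558 591))))))) (merge (node 525 (merge (leaf 3 525 561) (node 622 (merge (leaf 7 493 493) (node 655 (merge (leaf 4 526 623) (node 654 (merge (leaf 4 558 687) (node 653 (merge (leaf 5 525 621) (leaf 5 557 685))))))))))) (node 622 (merge (node 655 (merge (leaf 4 526 623) (node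 654 (merge (leaf 4 558 687) (node 653 (merge (leaf 5 525 621) (leaf 5 557 685))))))) (merge (node 623 (merge (leaf 4 526 655) (node 494 (merge (leaf 4 494 591) (node 463 (merge (leaf 6 462 495) (node 462 (merge (leaf 6 430 431) (node 461 (merge (leaf 7 429 429) (leaf 7 461 493))))))))))) (merge (node 653 (merge (leaf 5 525 621) (node 654 (merge (leaf 5 557 685) (node 591 (merge (leaf 6 558 686) (node 494 (merge (leaf 4 462 462) (leaf 4 494 623))))))))) (node 653 (merge (leaf 5 525 621) (node 654 (merge (leaf 5 557 685) (node 687 (merge (leaf 4 558 655) (node 686 (merge (leaf 6 558 591) (leaf 4 590 719)))))))))))))))) (merge (node 622 (merge (node 526 (merge (node 525 (merge (leaf 7 493 493) (leaf 3 525 561))) (merge (node 589 (merge (leaf 1 557 561) (node 621 (merge (leaf 5 493 494) (leaf 5 525 653))))) (node 621 (merge (leaf 5 525 653) (node 494 (merge (leaf 5 493 589) (node 493 (merge (leaf 7 461 461) (leaf 7 493 525)))))))))) (merge (node 526 (merge (node 525 (merge (leaf 7 493 493) (leaf 3 525 561))) (node 655 (merge (leaf 4 526 623) (node 654 (merge (leaf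 4 558 687) (node 653 (merge (leaf 5 525 621) (leaf 5 557 685))))))))) (merge (node 623 (merge (node 655 (merge (leaf 4 526 526) (node 687 (merge (leaf 4 558 654) (leaf 7 590 719))))) (node 589 (merge (leaf 1 557 561) (node 588 (merge (leaf 0 587 587) (node 624 (merge (leaf 3 588 621) (leaf 3 589 625))))))))) (merge (node 655 (merge (node 623 (merge (leaf 4 526 526) (node 654 (merge (leaf 4 558 687) (node 624 (merge (leaf 5 527 592) (node 625 (merge (leaf 3 589 589) (leaf 1 622 626))))))))) (merge (node 526 (merge (leaf 4 526 623) (node 621 (merge (leaf 5 525 653) (node 494 (merge (leaf 5 493 589) (node 493 (merge (leaf 7 461 461) (leaf 7 493 525))))))))) (merge (node 654 (merge (leaf 4 558 687) (node 653 (merge (leaf 5 557 685) (node 621 (merge (leaf 5 525 526) (node 656 (merge (leaf 3 620 620) (leaf 3 621 657))))))))) (node 687 (merge (leaf 4 558 654) (node 623 (merge (leaf 7 590 719) (node 624 (merge (leaf 5 527 592) (node 589 (merge (leaf 3 589 625) (node 621 (merge (leaf 3 588 588) (node 656 (merge (leaf 0 620 620) (leaf 0 621 657))))))))))))))))) (merge (node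 624 (merge (node 561 (merge (leaf 1 557 589) (node 529 (merge (leaf 2 526 530) (node 592 (merge (leaf 6 496 497) (leaf 6 528 656))))))) (merge (node 529 (merge (node 530 (merge (leaf 1 527 531) (leaf 2 526 561))) (node 592 (merge (leaf 6 496 497) (node 625 (merge (leaf 4 528 657) (node 623 (merge (leaf 5 527 655) (node 653 (merge (leaf 1 621 654) (node 621 (merge (leaf 2 589 593) (leaf 1 620 652))))))))))))) (merge (node 623 (merge (node 625 (merge (leaf 3 589 589) (node 657 (merge (leaf 4 528 592) (leaf 0 622 658))))) (merge (node 589 (merge (leaf 3 589 625) (node 588 (merge (leaf 0 587 587) (leaf 3 588 621))))) (merge (node 592 (merge (leaf 5 527 655) (node 621 (merge (leaf 2 589 593) (node 653 (merge (leaf 1 620 652) (node 589 (merge (leaf 3 588 588) (leaf 6 557 685))))))))) (node 592 (merge (leaf 5 527 655) (node 621 (merge (leaf 2 589 593) (node 653 (merge (leaf 1 620 652) (node 625 (merge (leaf 1 621 654) (leaf 4 528 657))))))))))))) (node 589 (merge (leaf 1 557 561) (node 623 (merge (leaf 3 589 625) (node 621 (merge (leaf 3 588 588) (node 656 (merge (leaf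 0 621 657) (node 655 (merge (leaf 0 620 620) (node 687 (merge (leaf 4 558 654) (leaf 7 590 719))))))))))))))))) (node 625 (merge (node 589 (merge (leaf 1 557 561) (node 623 (merge (leaf 3 589 624) (node 655 (merge (leaf 4 526 526) (node 687 (merge (leaf 4 558 654) (leaf 7 590 719))))))))) (merge (node 561 (merge (leaf 1 557 589) (node 593 (merge (leaf 7 528 657) (node 529 (merge (leaf 2 526 530) (node 624 (merge (leaf 5 528 656) (node 497 (merge (leaf 5 496 592) (node 465 (merge (leaf 5 432 433) (node 466 (merge (leaf 6 433 434) (leaf 6 465 498))))))))))))))) (merge (node 623 (merge (node 624 (merge (leaf 3 589 589) (node 657 (merge (leaf 4 528 592) (leaf 0 622 658))))) (node 655 (merge (leaf 4 526 526) (node 687 (merge (leaf 4 558 654) (leaf 7 590 719))))))) (merge (node 561 (merge (leaf 1 557 589) (node 657 (merge (leaf 7 528 593) (node 526 (merge (leaf 3 525 525) (node 655 (merge (leaf 4 526 623) (node 654 (merge (leaf 4 558 687) (node 685 (merge (leaf 5 557 653) (node 686 (merge (leaf 1 653 656) (leaf 5 589 717))))))))))))))) (node 526 (merge (node 525 (merge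 (leaf 7 493 493) (leaf 3 525 561))) (node 655 (merge (leaf 4 526 623) (node 654 (merge (leaf 4 558 687) (node 653 (merge (leaf 5 557 685) (node 656 (merge (leaf 2 621 624) (node 689 (merge (leaf 0 653 688) (node 657 (merge (leaf 2 622 626) (leaf 0 654 690)))))))))))))))))))))))))) (node 622 (merge (node 654 (merge (node 687 (merge (leaf 4 558 655) (node 686 (merge (leaf 6 558 591) (leaf 4 590 719))))) (merge (node 685 (merge (leaf 5 557 653) (node 686 (merge (leaf 6 558 591) (leaf 5 589 717))))) (merge (node 687 (merge (leaf 4 558 655) (node 686 (merge (leaf 4 590 719) (node 685 (merge (leaf 5 557 653) (leaf 5 589 717))))))) (node 655 (merge (leaf 4 558 687) (node 653 (merge (leaf 5 557 685) (node 623 (merge (leaf 6 527 591) (node 624 (merge (leaf 1 621 625) (leaf 2 620 652))))))))))))) (merge (node 655 (merge (node 623 (merge (leaf 4 526 526) (node 654 (merge (leaf 4 558 687) (node 624 (merge (leaf 5 527 592) (node 625 (merge (leaf 3 589 589) (leaf 1 622 626))))))))) (merge (node 526 (merge (leaf 4 526 623) (node 621 (merge (leaf 5 525 653) (node 494 (merge (leaf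 5 493 589) (node 493 (merge (leaf 7 461 461) (leaf 7 493 525))))))))) (merge (node 654 (merge (leaf 4 558 687) (node 653 (merge (leaf 5 557 685) (node 621 (merge (leaf 5 525 526) (node 656 (merge (leaf 3 620 620) (leaf 3 621 657))))))))) (node 687 (merge (leaf 4 558 654) (node 623 (merge (leaf 7 590 719) (node 624 (merge (leaf 5 527 592) (node 589 (merge (leaf 3 589 625) (node 621 (merge (leaf 3 588 588) (node 656 (merge (leaf 0 620 620) (leaf 0 621 657))))))))))))))))) (merge (node 654 (merge (node 687 (merge (leaf 4 558 655) (node 686 (merge (leaf 6 558 591) (leaf 4 590 719))))) (merge (node 687 (merge (leaf 4 558 655) (node 686 (merge (leaf 4 590 719) (node 685 (merge (leaf 5 557 653) (leaf 5 589 717))))))) (node 653 (merge (leaf 5 557 685) (node 526 (merge (leaf 5 525 621) (node 493 (merge (leaf 7 493 525) (node 494 (merge (leaf 7 461 461) (node 462 (merge (leaf 4 462 591) (node 463 (merge (leaf 6 430 431) (leaf 6 462 495)))))))))))))))) (merge (node 623 (merge (node 655 (merge (leaf 4 526 526) (leaf 6 527 591))) (merge (node 526 (merge (leaf 4 526 655) (node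 621 (merge (leaf 5 525 653) (node 589 (merge (leaf 5 493 494) (node 624 (merge (leaf 3 588 588) (leaf 3 589 625))))))))) (merge (node 655 (merge (leaf 6 527 591) (node 624 (merge (leaf 5 527 592) (node 589 (merge (leaf 3 589 625) (node 621 (merge (leaf 3 588 588) (node 656 (merge (leaf 0 620 620) (leaf 0 621 657))))))))))) (node 621 (merge (node 653 (merge (leaf 5 525 526) (node 685 (merge (leaf 6 557 589) (leaf 6 589 717))))) (merge (node 588 (merge (node 620 (merge (leaf 3 587 587) (node 591 (merge (leaf 2 588 592) (leaf 2 587 619))))) (merge (node 589 (merge (leaf 0 587 587) (node 624 (merge (leaf 3 588 621) (leaf 3 589 625))))) (node 589 (merge (leaf 2 556 591) (node 624 (merge (leaf 3 588 621) (leaf 3 589 625)))))))) (node 526 (merge (leaf 5 525 653) (node 493 (merge (leaf 7 493 525) (node 494 (merge (leaf 7 461 461) (node 591 (merge (leaf 4 462 462) (leaf 4 494 623)))))))))))))))) (merge (node 621 (merge (node 653 (merge (leaf 5 525 526) (node 685 (merge (leaf 5 557 654) (leaf 6 589 717))))) (merge (node 526 (merge (leaf 5 525 653) (node 494 (merge (leaf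 5 493 589) (node 591 (merge (leaf 4 462 462) (leaf 4 494 623))))))) (merge (node 591 (merge (node 592 (merge (leaf 1 589 593) (node 620 (merge (leaf 2 587 619) (leaf 2 588 623))))) (merge (node 592 (merge (leaf 1 589 593) (node 589 (merge (leaf 2 556 588) (leaf 1 588 620))))) (merge (node 592 (merge (leaf 1 589 593) (node 620 (merge (leaf 1 588 589) (leaf 2 587 619))))) (merge (node 592 (merge (leaf 1 589 593) (node 589 (merge (leaf 2 556 588) (node 624 (merge (leaf 0 589 625) (node 656 (merge (leaf 7 559 688) (node 657 (merge (leaf 0 621 623) (leaf 4 560 689))))))))))) (node 588 (merge (leaf 2 556 589) (node 620 (merge (leaf 2 587 619) (node 623 (merge (leaf 3 587 587) (node 652 (merge (leaf 1 619 651) (node 653 (merge (leaf 1 620 624) (node 654 (merge (leaf 5 557 685) (leaf 6 558 686)))))))))))))))))) (node 620 (merge (node 619 (merge (leaf 2 587 591) (node 650 (merge (leaf 1 618 651) (node 618 (merge (leaf 2 586 589) (leaf 1 617 649))))))) (merge (node 619 (merge (leaf 2 587 591) (node 651 (merge (leaf 1 618 650) (node 623 (merge (leaf 1 619 652) (node 587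 (merge (leaf 3 586 586) (leaf 3 587 588))))))))) (merge (node 588 (merge (node 589 (merge (leaf 2 555 587) (leaf 2 556 591))) (merge (node 591 (merge (leaf 2 556 589) (node 592 (merge (leaf 1 589 593) (leaf 2 588 623))))) (merge (node 587 (merge (leaf 2 555 589) (leaf 3 587 623))) (node 623 (merge (leaf 3 587 587) (node 592 (merge (leaf 2 588 591) (node 624 (merge (leaf 2 589 593) (node 657 (merge (leaf 4 528 625) (leaf 0 621 656))))))))))))) (node 623 (merge (node 651 (merge (leaf 1 619 652) (node 619 (merge (leaf 1 618 650) (node 587 (merge (leaf 3 586 586) (leaf 3 587 588))))))) (merge (node 588 (merge (leaf 3 587 587) (node 624 (merge (leaf 3 588 589) (node 657 (merge (leaf 0 621 656) (node 592 (merge (leaf 2 589 593) (leaf 4 528 625))))))))) (merge (node 651 (merge (leaf 1 619 652) (node 619 (merge (leaf 1 618 650) (node 618 (merge (leaf 2 586 589) (node 586 (merge (leaf 3 585 585) (leaf 3 586 587))))))))) (node 651 (merge (leaf 1 619 652) (node 619 (merge (leaf 1 618 650) (node 589 (merge (leaf 2 586 618) (node 624 (merge (leaf 3 588 588) (leaf 3 589 625)))))))))))))))))))))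 (merge (node 654 (merge (node 655 (merge (leaf 4 558 687) (node 623 (merge (leaf 4 526 526) (node 624 (merge (leaf 5 527 592) (node 625 (merge (leaf 3 589 589) (leaf 1 622 626))))))))) (merge (node 686 (merge (leaf 6 558 591) (node 719 (merge (leaf 4 590 687) (node 718 (merge (leaf 4 622 751) (node 717 (merge (leaf 5 589 685) (leaf 5 621 749))))))))) (node 621 (merge (node 686 (merge (leaf 6 558 591) (node 718 (merge (leaf 7 589 589) (node 717 (merge (leaf 5 589 685) (leaf 5 621 749))))))) (merge (node 591 (merge (leaf 6 558 686) (node 620 (merge (leaf 2 587 619) (node 623 (merge (leaf 2 588 592) (leaf 6 527 655))))))) (node 623 (merge (node 526 (merge (leaf 4 526 655) (node 494 (merge (leaf 5 493 589) (node 493 (merge (leaf 7 461 461) (leaf 7 493 525))))))) (merge (node 655 (merge (leaf 4 526 526) (node 656 (merge (leaf 0 620 620) (leaf 3 621 657))))) (node 620 (merge (node 651 (merge (leaf 1 619 652) (node 619 (merge (leaf 1 618 650) (node 587 (merge (leaf 3 586 586) (leaf 3 587 588))))))) (merge (node 588 (merge (leaf 3 587 587) (node 624 (merge (leaf 3 588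 589) (node 657 (merge (leaf 0 621 656) (node 592 (merge (leaf 2 589 593) (leaf 4 528 625))))))))) (merge (node 651 (merge (leaf 1 619 652) (node 619 (merge (leaf 1 618 650) (node 589 (merge (leaf 2 586 618) (node 624 (merge (leaf 3 588 588) (leaf 3 589 625))))))))) (node 651 (merge (leaf 1 619 652) (node 619 (merge (leaf 1 618 650) (node 618 (merge (leaf 2 586 589) (node 586 (merge (leaf 3 585 585) (leaf 3 586 587)))))))))))))))))))))) (node 654 (merge (node 655 (merge (leaf 4 558 687) (node 623 (merge (leaf 4 526 526) (node 624 (merge (leaf 5 527 592) (node 625 (merge (leaf 3 589 589) (leaf 1 622 626))))))))) (merge (node 686 (merge (leaf 6 558 591) (node 719 (merge (leaf 4 590 687) (node 718 (merge (leaf 4 622 751) (node 621 (merge (leaf 7 589 589) (node 750 (merge (leaf 7 621 653) (node 749 (merge (leaf 5 621 717) (leaf 5 653 781))))))))))))) (node 591 (merge (leaf 6 558 686) (node 623 (merge (leaf 6 527 655) (node 526 (merge (leaf 4 494 494) (node 621 (merge (leaf 5 525 653) (node 620 (merge (leaf 2 588 592) (leaf 2 587 619))))))))))))))))))))))))) nB_23 cB_23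 11 (by decide +kernel)
def nB_24 : ℕ := 0x100000001000000000000000000000000000000000000000000000000000000000000000000000000000000000000000000000000000000000000000000000000000000000000
def cB_24 : ℕ := 0x20000000e0000002e0000007e000001ffe00001ffc00003bfe00003ef800001ef800003efc000007f8000007f0000000f000000000000000000000000000000000000000000000000000000000000000000000000000000000000000000000000000
theorem lB_24 : S nB_24 cB_24 13 := S_of_chk [(nB_18, cB_18, 12), (nB_19, cB_19, 12), (nB_20, cB_20, 11), (nB_21, cB_21, 12), (nB_22, cB_22, 11), (nB_23, cB_23, 11)] ⟨lB_18, lB_19, lB_20, lB_21, lB_22, lB_23, trivial⟩ (node 559 (merge (node 558 (merge (node 557 (merge (leaf 2 525 529) (node 556 (merge (leaf 2 524 527) (node 524 (merge (leaf 3 523 523) (leaf 3 524 525))))))) (merge (node 557 (merge (leaf 2 525 529) (node 556 (merge (leaf 2 524 527) (node 588 (merge (leaf 1 555 587) (leaf 1 556 589))))))) (merge (node 557 (merge (node 556 (merge (leaf 2 524 527) (node 524 (merge (leaf 3 523 523) (leaf 3 524 525))))) (merge (node 556 (merge (leaf 2 524 527) (node 588 (merge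 (leaf 1 555 587) (leaf 1 556 589))))) (node 589 (merge (leaf 1 556 588) (node 561 (merge (leaf 1 557 590) (node 525 (merge (leaf 3 524 524) (leaf 3 525 526)))))))))) (merge (node 557 (merge (leaf 2 525 529) (node 589 (merge (leaf 1 556 588) (node 561 (merge (leaf 1 557 590) (node 525 (merge (leaf 3 524 524) (leaf 3 525 526))))))))) (node 526 (merge (node 525 (merge (leaf 3 525 561) (node 524 (merge (leaf 0 523 523) (leaf 0 524 527))))) (merge (node 561 (merge (leaf 3 525 525) (node 590 (merge (leaf 1 557 589) (node 591 (merge (leaf 1 558 562) (node 623 (merge (leaf 4 494 494) (leaf 7 526 655))))))))) (merge (node 494 (merge (node 591 (merge (leaf 4 462 462) (node 623 (merge (leaf 4 494 590) (leaf 7 526 655))))) (merge (node 591 (merge (leaf 4 462 462) (node 623 (merge (leaf 7 494 527) (leaf 7 526 655))))) (node 493 (merge (node 527 (merge (leaf 3 493 529) (node 525 (merge (leaf 3 492 492) (leaf 0 524 524))))) (merge (node 590 (merge (leaf 7 461 461) (node 621 (merge (leaf 5 493 589) (node 622 (merge (leaf 7 493 525) (leaf 5 525 653))))))) (node 590 (merge (leaf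 7 461 461) (node 621 (merge (leaf 5 493 589) (node 622 (merge (leaf 5 525 653) (node 495 (merge (leaf 6 462 463) (leaf 6 494 527))))))))))))))) (node 590 (merge (node 561 (merge (leaf 1 557 589) (node 562 (merge (leaf 3 526 527) (leaf 1 558 591))))) (merge (node 561 (merge (leaf 1 557 589) (node 527 (merge (leaf 3 526 562) (node 622 (merge (leaf 6 494 495) (leaf 6 526 654))))))) (node 622 (merge (node 655 (merge (leaf 4 526 623) (node 654 (merge (leaf 4 558 687) (node 653 (merge (leaf 5 525 621) (leaf 5 557 685))))))) (merge (node 623 (merge (leaf 4 526 655) (node 494 (merge (leaf 4 494 591) (node 463 (merge (leaf 6 462 495) (node 462 (merge (leaf 6 430 431) (node 461 (merge (leaf 7 429 429) (leaf 7 461 493))))))))))) (merge (node 653 (merge (leaf 5 525 621) (node 654 (merge (leaf 5 557 685) (node 591 (merge (leaf 6 558 686) (node 494 (merge (leaf 4 462 462) (leaf 4 494 623))))))))) (node 653 (merge (leaf 5 525 621) (node 654 (merge (leaf 5 557 685) (node 687 (merge (leaf 4 558 655) (node 686 (merge (leaf 6 558 591) (leaf 4 590 719))))))))))))))))))))))))) (merge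 (node 529 (merge (node 558 (merge (leaf 2 525 557) (node 530 (merge (leaf 1 527 531) (leaf 2 526 561))))) (merge (node 558 (merge (leaf 2 525 557) (node 530 (merge (leaf 1 526 527) (leaf 1 527 531))))) (merge (node 530 (merge (node 531 (merge (leaf 1 527 559) (node 564 (merge (leaf 0 528 563) (node 532 (merge (leaf 1 528 561) (leaf 0 529 565))))))) (merge (node 531 (merge (node 500 (merge (leaf 2 496 499) (node 532 (merge (leaf 2 497 501) (leaf 1 528 561))))) (merge (node 564 (merge (leaf 0 528 563) (node 532 (merge (leaf 1 528 561) (leaf 0 529 565))))) (node 563 (merge (leaf 0 528 564) (node 527 (merge (leaf 0 527 562) (node 499 (merge (leaf 2 495 498) (leaf 2 496 500)))))))))) (merge (node 531 (merge (leaf 1 527 559) (node 563 (merge (leaf 0 528 564) (node 527 (merge (leaf 0 527 562) (node 499 (merge (leaf 2 495 498) (leaf 2 496 500))))))))) (node 527 (merge (node 498 (merge (leaf 2 495 499) (node 526 (merge (leaf 2 494 497) (node 561 (merge (leaf 0 525 525) (leaf 0 526 562))))))) (node 495 (merge (leaf 3 494 494) (node 463 (merge (leaf 4 431 431) (node 592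 (merge (leaf 4 463 559) (leaf 7 495 624))))))))))))) (node 561 (merge (node 558 (merge (leaf 2 525 557) (node 590 (merge (leaf 1 557 589) (node 591 (merge (leaf 1 558 562) (node 526 (merge (leaf 3 525 525) (node 494 (merge (leaf 4 462 462) (leaf 4 494 623))))))))))) (merge (node 558 (merge (leaf 2 525 557) (node 590 (merge (leaf 1 557 589) (node 562 (merge (leaf 1 558 591) (node 563 (merge (leaf 3 527 527) (leaf 3 528 564))))))))) (merge (node 497 (merge (node 465 (merge (leaf 5 432 433) (leaf 5 464 592))) (node 558 (merge (leaf 2 525 557) (node 526 (merge (leaf 3 525 525) (node 527 (merge (leaf 2 494 498) (node 494 (merge (leaf 3 493 493) (node 591 (merge (leaf 4 462 462) (leaf 7 494 623))))))))))))) (merge (node 558 (merge (leaf 2 525 557) (node 526 (merge (leaf 3 525 525) (node 527 (merge (leaf 0 526 562) (node 497 (merge (leaf 2 494 498) (node 465 (merge (leaf 5 432 433) (leaf 5 464 592))))))))))) (node 562 (merge (node 563 (merge (leaf 3 527 527) (leaf 3 528 564))) (merge (node 591 (merge (leaf 1 558 590) (node 563 (merge (leaf 3 528 564) (leaf 1 559 592)))))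 (node 527 (merge (leaf 0 526 526) (node 591 (merge (leaf 1 558 590) (node 623 (merge (leaf 6 527 655) (node 624 (merge (leaf 4 527 656) (node 592 (merge (leaf 4 495 495) (leaf 6 496 497))))))))))))))))))))))) (merge (node 527 (merge (node 591 (merge (node 623 (merge (leaf 6 527 655) (node 624 (merge (leaf 4 527 656) (node 592 (merge (leaf 4 495 495) (node 529 (merge (leaf 6 496 497) (node 558 (merge (leaf 1 526 530) (leaf 2 525 557))))))))))) (merge (node 623 (merge (leaf 6 527 655) (node 622 (merge (leaf 5 526 654) (node 495 (merge (leaf 5 494 590) (node 463 (merge (leaf 4 431 431) (leaf 4 463 592))))))))) (merge (node 592 (merge (node 624 (merge (leaf 4 495 495) (leaf 7 527 656))) (merge (node 624 (merge (leaf 7 527 656) (node 529 (merge (leaf 6 496 497) (node 558 (merge (leaf 1 526 530) (leaf 2 525 557))))))) (node 495 (merge (leaf 4 463 463) (node 590 (merge (leaf 5 494 622) (node 589 (merge (leaf 2 556 588) (node 557 (merge (leaf 3 556 556) (node 558 (merge (leaf 2 525 529) (leaf 0 557 593)))))))))))))) (merge (node 623 (merge (leaf 6 527 655) (node 624 (merge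 (leaf 4 527 656) (node 622 (merge (leaf 5 526 654) (node 590 (merge (leaf 5 494 495) (node 589 (merge (leaf 0 588 588) (leaf 3 589 625))))))))))) (node 529 (merge (node 558 (merge (leaf 1 526 530) (leaf 2 525 557))) (node 623 (merge (leaf 6 527 655) (node 624 (merge (leaf 4 527 656) (node 622 (merge (leaf 5 526 654) (node 592 (merge (leaf 6 496 497) (node 621 (merge (leaf 2 589 593) (leaf 2 588 620)))))))))))))))))) (merge (node 529 (merge (node 558 (merge (leaf 1 526 530) (leaf 2 525 557))) (merge (node 530 (merge (leaf 1 527 531) (node 498 (merge (leaf 2 495 499) (node 526 (merge (leaf 2 494 497) (node 525 (merge (leaf 0 524 524) (node 493 (merge (leaf 3 492 492) (leaf 3 493 494))))))))))) (node 526 (merge (node 525 (merge (leaf 0 524 524) (node 493 (merge (leaf 3 492 492) (leaf 3 493 494))))) (merge (node 494 (merge (leaf 3 493 493) (node 462 (merge (leaf 4 430 430) (node 591 (merge (leaf 4 462 558) (leaf 7 494 623))))))) (merge (node 557 (merge (leaf 1 525 558) (node 525 (merge (leaf 1 524 556) (node 524 (merge (leaf 0 524 559) (node 492 (merge (leaf 3 491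 491) (leaf 3 492 493))))))))) (node 525 (merge (leaf 0 524 524) (node 557 (merge (leaf 1 524 556) (node 558 (merge (leaf 1 525 529) (node 589 (merge (leaf 1 556 588) (node 621 (merge (leaf 6 493 494) (leaf 6 525 653)))))))))))))))))) (merge (node 591 (merge (node 623 (merge (leaf 6 527 655) (node 622 (merge (leaf 5 526 654) (node 495 (merge (leaf 5 494 590) (node 463 (merge (leaf 4 431 431) (node 462 (merge (leaf 7 430 430) (leaf 7 462 494))))))))))) (merge (node 623 (merge (leaf 6 527 655) (node 624 (merge (leaf 4 527 656) (node 495 (merge (leaf 4 495 592) (node 622 (merge (leaf 5 494 590) (leaf 5 526 654))))))))) (merge (node 495 (merge (node 463 (merge (leaf 4 431 431) (leaf 4 463 592))) (merge (node 463 (merge (leaf 4 431 431) (node 462 (merge (leaf 7 430 430) (leaf 7 462 494))))) (node 494 (merge (leaf 7 462 462) (node 493 (merge (leaf 0 492 492) (node 529 (merge (leaf 3 493 526) (leaf 3 494 530)))))))))) (node 623 (merge (leaf 6 527 655) (node 624 (merge (leaf 4 527 656) (node 622 (merge (leaf 5 526 654) (node 526 (merge (leaf 7 494 494) (node 525 (merge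 (leaf 0 524 524) (node 493 (merge (leaf 3 492 492) (node 590 (merge (leaf 7 493 558) (node 589 (merge (leaf 0 588 588) (leaf 3 589 625))))))))))))))))))))) (merge (node 526 (merge (node 525 (merge (leaf 0 524 524) (node 557 (merge (leaf 1 524 556) (node 529 (merge (leaf 1 525 558) (node 530 (merge (leaf 1 527 531) (node 498 (merge (leaf 2 494 497) (leaf 2 495 499))))))))))) (merge (node 525 (merge (leaf 0 524 524) (node 493 (merge (leaf 3 492 492) (node 529 (merge (leaf 3 493 494) (node 530 (merge (leaf 1 527 531) (node 498 (merge (leaf 2 494 497) (leaf 2 495 499))))))))))) (merge (node 529 (merge (node 558 (merge (leaf 1 526 530) (leaf 2 525 557))) (merge (node 498 (merge (leaf 2 494 497) (node 530 (merge (leaf 2 495 499) (leaf 1 527 531))))) (node 558 (merge (leaf 1 525 557) (node 497 (merge (leaf 2 494 498) (node 494 (merge (leaf 3 493 493) (node 462 (merge (leaf 4 430 430) (node 463 (merge (leaf 6 430 431) (node 592 (merge (leaf 4 463 495) (leaf 6 496 624)))))))))))))))) (node 557 (merge (node 525 (merge (leaf 0 524 524) (leaf 1 524 556))) (node 558 (merge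 (node 592 (merge (leaf 0 557 593) (node 624 (merge (leaf 7 495 495) (leaf 7 527 656))))) (node 589 (merge (leaf 1 556 588) (node 494 (merge (leaf 5 461 462) (node 621 (merge (leaf 5 493 590) (leaf 6 525 653))))))))))))))) (merge (node 591 (merge (node 623 (merge (leaf 6 527 655) (node 622 (merge (leaf 5 526 654) (node 495 (merge (leaf 5 494 590) (node 463 (merge (leaf 4 431 431) (node 462 (merge (leaf 7 430 430) (leaf 7 462 494))))))))))) (merge (node 495 (merge (node 463 (merge (leaf 4 431 431) (leaf 4 463 592))) (merge (node 463 (merge (leaf 4 431 431) (node 462 (merge (leaf 7 430 430) (leaf 7 462 494))))) (node 494 (merge (leaf 7 462 462) (node 493 (merge (leaf 0 492 492) (node 529 (merge (leaf 3 493 526) (leaf 3 494 530)))))))))) (node 529 (merge (node 558 (merge (leaf 1 526 530) (leaf 2 525 557))) (node 623 (merge (leaf 6 527 655) (node 624 (merge (leaf 4 527 656) (node 622 (merge (leaf 5 526 654) (node 592 (merge (leaf 6 496 497) (node 621 (merge (leaf 2 589 593) (leaf 2 588 620)))))))))))))))) (merge (node 591 (merge (node 623 (merge (leaf 6 527 655) (node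 622 (merge (leaf 5 526 654) (node 495 (merge (leaf 5 494 590) (node 463 (merge (leaf 4 431 431) (node 462 (merge (leaf 7 430 430) (leaf 7 462 494))))))))))) (merge (node 623 (merge (leaf 6 527 655) (node 624 (merge (leaf 4 527 656) (node 495 (merge (leaf 4 495 592) (node 622 (merge (leaf 5 494 590) (leaf 5 526 654))))))))) (merge (node 495 (merge (node 463 (merge (leaf 4 431 431) (leaf 4 463 592))) (merge (node 463 (merge (leaf 4 431 431) (node 462 (merge (leaf 7 430 430) (leaf 7 462 494))))) (node 494 (merge (leaf 7 462 462) (node 493 (merge (leaf 0 492 492) (node 529 (merge (leaf 3 493 526) (leaf 3 494 530)))))))))) (node 623 (merge (leaf 6 527 655) (node 624 (merge (leaf 4 527 656) (node 622 (merge (leaf 5 526 654) (node 526 (merge (leaf 7 494 494) (node 525 (merge (leaf 0 524 524) (node 557 (merge (leaf 1 524 556) (node 493 (merge (leaf 3 492 492) (node 589 (merge (leaf 4 493 590) (node 588 (merge (leaf 5 492 620) (leaf 3 588 621))))))))))))))))))))))) (node 591 (merge (node 623 (merge (leaf 6 527 655) (node 624 (merge (leaf 4 527 656) (node 592 (merge (leaf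 4 495 495) (node 625 (merge (leaf 4 528 657) (node 626 (merge (leaf 3 590 590) (leaf 3 591 627))))))))))) (merge (node 623 (merge (leaf 6 527 655) (node 624 (merge (leaf 4 527 656) (node 592 (merge (leaf 4 495 495) (node 622 (merge (leaf 5 526 654) (node 621 (merge (leaf 2 589 593) (leaf 2 588 620))))))))))) (merge (node 495 (merge (node 592 (merge (leaf 4 463 463) (leaf 7 495 624))) (merge (node 463 (merge (leaf 4 431 431) (node 590 (merge (leaf 5 462 558) (leaf 5 494 622))))) (node 592 (merge (leaf 4 495 624) (node 590 (merge (leaf 5 494 622) (node 589 (merge (leaf 2 556 588) (node 621 (merge (leaf 1 588 620) (node 557 (merge (leaf 3 556 556) (node 558 (merge (leaf 0 557 593) (node 494 (merge (leaf 7 462 462) (leaf 5 493 526)))))))))))))))))) (node 623 (merge (leaf 6 527 655) (node 622 (merge (leaf 5 526 654) (node 526 (merge (leaf 7 494 494) (node 525 (merge (leaf 0 524 524) (node 557 (merge (leaf 1 524 556) (node 493 (merge (leaf 3 492 492) (node 590 (merge (leaf 7 493 558) (leaf 4 493 589)))))))))))))))))))))))))) (merge (node 558 (merge (node 529 (merge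 (leaf 2 525 557) (node 530 (merge (leaf 1 527 531) (leaf 2 526 561))))) (merge (node 557 (merge (leaf 2 525 529) (node 556 (merge (leaf 2 524 527) (node 588 (merge (leaf 1 555 587) (leaf 1 556 589))))))) (merge (node 527 (merge (node 557 (merge (leaf 2 524 556) (node 592 (merge (leaf 0 557 593) (node 624 (merge (leaf 7 495 495) (leaf 7 527 656))))))) (merge (node 557 (merge (leaf 2 524 556) (node 589 (merge (leaf 1 556 588) (node 561 (merge (leaf 1 557 590) (node 562 (merge (leaf 3 526 526) (leaf 3 527 563))))))))) (node 590 (merge (node 561 (merge (leaf 1 557 589) (node 562 (merge (leaf 3 527 563) (leaf 1 558 591))))) (merge (node 622 (merge (leaf 6 526 654) (node 495 (merge (leaf 5 462 463) (leaf 5 494 591))))) (node 589 (merge (leaf 1 557 561) (node 495 (merge (leaf 5 462 463) (node 622 (merge (leaf 6 526 654) (node 624 (merge (leaf 7 495 592) (node 623 (merge (leaf 3 589 625) (node 621 (merge (leaf 3 588 588) (node 653 (merge (leaf 1 620 652) (leaf 6 557 685))))))))))))))))))))) (node 590 (merge (node 589 (merge (leaf 1 557 561) (node 588 (merge (leaf 2 555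 587) (leaf 2 556 591))))) (merge (node 561 (merge (leaf 1 557 589) (node 530 (merge (leaf 2 526 529) (node 562 (merge (leaf 2 527 531) (node 527 (merge (leaf 3 526 526) (leaf 3 527 563))))))))) (merge (node 622 (merge (node 654 (merge (leaf 6 526 527) (node 687 (merge (leaf 4 558 655) (node 686 (merge (leaf 6 558 591) (leaf 4 590 719))))))) (merge (node 654 (merge (leaf 6 526 527) (node 685 (merge (leaf 5 557 653) (node 686 (merge (leaf 6 558 591) (leaf 5 589 717))))))) (merge (node 654 (merge (leaf 6 526 527) (node 655 (merge (leaf 4 558 687) (node 526 (merge (leaf 4 526 623) (node 653 (merge (leaf 5 525 621) (leaf 5 557 685))))))))) (merge (node 654 (merge (node 687 (merge (leaf 4 558 655) (node 686 (merge (leaf 6 558 591) (leaf 4 590 719))))) (merge (node 685 (merge (leaf 5 557 653) (node 686 (merge (leaf 6 558 591) (leaf 5 589 717))))) (merge (node 687 (merge (leaf 4 558 655) (node 686 (merge (leaf 4 590 719) (node 685 (merge (leaf 5 557 653) (leaf 5 589 717))))))) (node 655 (merge (leaf 4 558 687) (node 653 (merge (leaf 5 557 685) (node 623 (merge (leaf 6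 527 591) (node 624 (merge (leaf 1 621 625) (leaf 2 620 652))))))))))))) (node 526 (merge (node 623 (merge (leaf 4 526 655) (node 621 (merge (leaf 5 525 653) (node 589 (merge (leaf 5 493 494) (node 588 (merge (leaf 0 587 587) (leaf 3 588 624))))))))) (merge (node 589 (merge (node 588 (merge (leaf 2 555 587) (leaf 2 556 591))) (node 621 (merge (leaf 5 493 494) (node 653 (merge (leaf 5 525 622) (leaf 6 557 685))))))) (merge (node 623 (merge (leaf 4 526 655) (node 494 (merge (leaf 4 494 591) (node 463 (merge (leaf 6 462 495) (node 462 (merge (leaf 6 430 431) (node 461 (merge (leaf 7 429 429) (leaf 7 461 493))))))))))) (node 623 (merge (leaf 4 526 655) (node 621 (merge (leaf 5 525 653) (node 527 (merge (leaf 6 494 495) (node 529 (merge (leaf 1 526 530) (node 497 (merge (leaf 2 494 498) (node 624 (merge (leaf 6 496 592) (node 656 (merge (leaf 4 527 591) (leaf 0 621 657)))))))))))))))))))))))) (node 622 (merge (node 654 (merge (leaf 6 526 527) (node 687 (merge (leaf 4 558 655) (node 686 (merge (leaf 6 558 591) (leaf 4 590 719))))))) (merge (node 654 (merge (leaf 6 526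 527) (node 685 (merge (leaf 5 557 653) (node 686 (merge (leaf 6 558 591) (leaf 5 589 717))))))) (merge (node 654 (merge (leaf 6 526 527) (node 655 (merge (leaf 4 558 687) (node 526 (merge (leaf 4 526 623) (node 653 (merge (leaf 5 525 621) (leaf 5 557 685))))))))) (merge (node 654 (merge (node 687 (merge (leaf 4 558 655) (node 686 (merge (leaf 6 558 591) (leaf 4 590 719))))) (merge (node 685 (merge (leaf 5 557 653) (node 686 (merge (leaf 6 558 591) (leaf 5 589 717))))) (merge (node 687 (merge (leaf 4 558 655) (node 686 (merge (leaf 4 590 719) (node 685 (merge (leaf 5 557 653) (leaf 5 589 717))))))) (node 655 (merge (leaf 4 558 687) (node 653 (merge (leaf 5 557 685) (node 623 (merge (leaf 6 527 591) (node 624 (merge (leaf 1 621 625) (leaf 2 620 652))))))))))))) (node 526 (merge (node 623 (merge (leaf 4 526 655) (node 494 (merge (leaf 4 494 591) (node 463 (merge (leaf 6 462 495) (node 462 (merge (leaf 6 430 431) (node 461 (merge (leaf 7 429 429) (leaf 7 461 493))))))))))) (merge (node 623 (merge (leaf 4 526 655) (node 494 (merge (leaf 4 494 591) (node 493 (merge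 (leaf 7 461 461) (node 529 (merge (leaf 3 493 527) (node 530 (merge (leaf 1 527 531) (leaf 2 526 561))))))))))) (merge (node 527 (merge (leaf 6 494 495) (node 529 (merge (leaf 1 526 530) (node 561 (merge (leaf 0 526 562) (node 497 (merge (leaf 2 494 498) (node 592 (merge (leaf 5 464 465) (leaf 6 496 624))))))))))) (node 623 (merge (leaf 4 526 655) (node 621 (merge (leaf 5 525 653) (node 527 (merge (leaf 6 494 495) (node 529 (merge (leaf 1 526 530) (node 497 (merge (leaf 2 494 498) (node 624 (merge (leaf 6 496 592) (node 656 (merge (leaf 4 527 591) (leaf 0 621 657)))))))))))))))))))))))))))))))) (merge (node 558 (merge (node 529 (merge (leaf 2 525 557) (node 530 (merge (leaf 1 527 531) (leaf 2 526 561))))) (merge (node 557 (merge (leaf 2 525 529) (node 556 (merge (leaf 2 524 527) (node 524 (merge (leaf 3 523 523) (leaf 3 524 525))))))) (merge (node 527 (merge (node 557 (merge (leaf 2 524 556) (node 592 (merge (leaf 0 557 593) (node 624 (merge (leaf 7 495 495) (leaf 7 527 656))))))) (merge (node 557 (merge (leaf 2 524 556) (node 525 (merge (leaf 3 524 524) (node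 526 (merge (leaf 0 525 561) (node 493 (merge (leaf 3 492 492) (node 590 (merge (leaf 4 461 461) (leaf 7 493 622))))))))))) (node 495 (merge (node 592 (merge (leaf 4 463 463) (leaf 7 495 624))) (node 591 (merge (node 623 (merge (leaf 6 527 655) (node 494 (merge (leaf 7 462 462) (leaf 7 494 526))))) (merge (node 623 (merge (leaf 6 527 655) (node 622 (merge (leaf 5 494 590) (leaf 5 526 654))))) (node 590 (merge (leaf 5 494 622) (node 561 (merge (leaf 1 558 562) (node 526 (merge (leaf 0 525 525) (node 494 (merge (leaf 4 462 462) (node 493 (merge (leaf 7 461 461) (leaf 0 492 492))))))))))))))))))) (node 526 (merge (node 525 (merge (leaf 3 525 561) (node 524 (merge (leaf 0 523 523) (leaf 0 524 527))))) (merge (node 529 (merge (node 530 (merge (leaf 1 527 531) (leaf 2 526 561))) (merge (node 530 (merge (leaf 1 526 527) (leaf 1 527 531))) (node 497 (merge (node 592 (merge (leaf 6 496 624) (node 465 (merge (leaf 5 432 433) (leaf 5 464 561))))) (merge (node 527 (merge (leaf 2 494 498) (node 494 (merge (leaf 3 493 493) (node 591 (merge (leaf 4 462 462) (leaf 7 494 623)))))))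 (node 527 (merge (leaf 2 494 498) (node 494 (merge (leaf 3 493 493) (node 591 (merge (leaf 4 462 462) (leaf 7 494 623))))))))))))) (merge (node 590 (merge (node 561 (merge (leaf 3 525 525) (node 530 (merge (leaf 2 526 529) (node 562 (merge (leaf 2 527 531) (leaf 1 558 591))))))) (merge (node 525 (merge (leaf 3 525 561) (node 622 (merge (leaf 7 493 493) (node 655 (merge (leaf 4 526 623) (node 654 (merge (leaf 4 558 687) (node 653 (merge (leaf 5 525 621) (leaf 5 557 685))))))))))) (node 622 (merge (node 655 (merge (leaf 4 526 623) (node 654 (merge (leaf 4 558 687) (node 653 (merge (leaf 5 525 621) (leaf 5 557 685))))))) (merge (node 623 (merge (leaf 4 526 655) (node 494 (merge (leaf 4 494 591) (node 463 (merge (leaf 6 462 495) (node 462 (merge (leaf 6 430 431) (node 461 (merge (leaf 7 429 429) (leaf 7 461 493))))))))))) (merge (node 653 (merge (leaf 5 525 621) (node 654 (merge (leaf 5 557 685) (node 591 (merge (leaf 6 558 686) (node 494 (merge (leaf 4 462 462) (leaf 4 494 623))))))))) (node 653 (merge (leaf 5 525 621) (node 654 (merge (leaf 5 557 685) (node 687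 (merge (leaf 4 558 655) (node 686 (merge (leaf 6 558 591) (leaf 4 590 719)))))))))))))))) (node 494 (merge (node 591 (merge (leaf 4 462 462) (node 623 (merge (leaf 7 494 527) (leaf 7 526 655))))) (merge (node 462 (merge (leaf 4 462 591) (node 463 (merge (leaf 6 430 431) (node 590 (merge (leaf 6 462 495) (node 461 (merge (leaf 7 429 429) (leaf 7 461 493))))))))) (merge (node 493 (merge (node 527 (merge (leaf 3 493 529) (node 525 (merge (leaf 3 492 492) (leaf 0 524 524))))) (merge (node 590 (merge (leaf 7 461 461) (node 623 (merge (leaf 4 494 591) (node 622 (merge (leaf 7 493 525) (leaf 4 526 655))))))) (node 527 (merge (leaf 3 493 529) (node 492 (merge (leaf 0 491 491) (leaf 0 492 495)))))))) (node 527 (merge (node 529 (merge (leaf 3 493 493) (node 498 (merge (leaf 2 494 497) (node 530 (merge (leaf 3 494 495) (leaf 2 495 499))))))) (merge (node 529 (merge (leaf 3 493 493) (node 530 (merge (leaf 1 527 531) (leaf 1 526 558))))) (merge (node 462 (merge (leaf 4 430 430) (node 463 (merge (leaf 6 430 431) (node 495 (merge (leaf 4 463 592) (node 493 (merge (leaf 0 492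 492) (node 464 (merge (leaf 6 431 432) (leaf 1 461 465))))))))))) (node 529 (merge (leaf 1 526 530) (node 462 (merge (leaf 4 430 430) (node 463 (merge (leaf 6 430 431) (node 592 (merge (leaf 4 463 495) (node 624 (merge (leaf 6 496 497) (leaf 7 527 656))))))))))))))))))))))))))) (merge (node 527 (merge (node 526 (merge (node 561 (merge (leaf 0 525 525) (leaf 3 526 562))) (merge (node 525 (merge (leaf 0 524 524) (node 493 (merge (leaf 3 492 492) (node 529 (merge (leaf 3 493 494) (node 530 (merge (leaf 1 527 531) (leaf 1 526 558))))))))) (node 529 (merge (node 497 (merge (leaf 2 494 498) (node 592 (merge (leaf 6 496 624) (node 465 (merge (leaf 5 432 433) (leaf 5 464 561))))))) (merge (node 562 (merge (leaf 0 526 561) (node 530 (merge (leaf 0 527 563) (node 494 (merge (leaf 3 493 493) (leaf 3 494 495))))))) (node 498 (merge (leaf 2 494 497) (node 530 (merge (leaf 2 495 499) (node 494 (merge (leaf 3 493 493) (leaf 3 494 495))))))))))))) (merge (node 591 (merge (node 623 (merge (leaf 6 527 655) (node 526 (merge (leaf 7 494 494) (node 525 (merge (leaf 0 524 524) (leaf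 0 525 561))))))) (merge (node 623 (merge (leaf 6 527 655) (node 622 (merge (leaf 5 526 654) (node 495 (merge (leaf 5 494 590) (node 592 (merge (leaf 4 463 463) (leaf 4 495 624))))))))) (node 495 (merge (node 463 (merge (leaf 4 431 431) (leaf 4 463 592))) (merge (node 463 (merge (leaf 4 431 431) (node 462 (merge (leaf 7 430 430) (leaf 7 462 494))))) (node 592 (merge (leaf 4 495 624) (node 590 (merge (leaf 5 494 622) (node 589 (merge (leaf 2 557 561) (leaf 2 556 588))))))))))))) (merge (node 561 (merge (node 562 (merge (leaf 3 526 526) (leaf 3 527 563))) (merge (node 562 (merge (leaf 3 527 563) (node 530 (merge (leaf 2 527 531) (node 558 (merge (leaf 2 526 529) (node 590 (merge (leaf 1 557 589) (leaf 1 558 591))))))))) (node 526 (merge (leaf 0 525 525) (node 494 (merge (node 462 (merge (leaf 4 430 430) (node 591 (merge (leaf 4 462 558) (leaf 7 494 623))))) (merge (node 529 (merge (leaf 3 493 493) (node 530 (merge (leaf 1 527 531) (leaf 1 526 558))))) (merge (node 529 (merge (leaf 3 493 493) (node 530 (merge (leaf 1 527 531) (leaf 1 526 558))))) (node 529 (merge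 (leaf 3 493 493) (node 530 (merge (leaf 1 527 531) (node 498 (merge (leaf 2 494 497) (leaf 2 495 499)))))))))))))))) (merge (node 591 (merge (node 623 (merge (leaf 6 527 655) (node 526 (merge (leaf 7 494 494) (node 561 (merge (leaf 0 525 525) (leaf 3 526 562))))))) (merge (node 623 (merge (leaf 6 527 655) (node 622 (merge (leaf 5 526 654) (node 495 (merge (leaf 5 494 590) (node 463 (merge (leaf 4 431 431) (leaf 4 463 592))))))))) (node 495 (merge (node 590 (merge (leaf 5 494 622) (node 589 (merge (leaf 2 556 588) (node 561 (merge (leaf 1 557 558) (leaf 1 558 562))))))) (node 463 (merge (leaf 4 431 431) (node 464 (merge (leaf 6 431 432) (node 462 (merge (leaf 7 430 430) (node 494 (merge (leaf 7 462 591) (node 493 (merge (leaf 1 461 465) (leaf 0 492 492)))))))))))))))) (merge (node 591 (merge (node 623 (merge (leaf 6 527 655) (node 622 (merge (leaf 5 526 654) (node 495 (merge (leaf 5 494 590) (node 463 (merge (leaf 4 431 431) (node 462 (merge (leaf 7 430 430) (leaf 7 462 494))))))))))) (merge (node 623 (merge (leaf 6 527 655) (node 624 (merge (leaf 4 527 656) (node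 495 (merge (leaf 4 495 592) (node 622 (merge (leaf 5 494 590) (leaf 5 526 654))))))))) (merge (node 495 (merge (node 463 (merge (leaf 4 431 431) (leaf 4 463 592))) (merge (node 463 (merge (leaf 4 431 431) (node 462 (merge (leaf 7 430 430) (leaf 7 462 494))))) (node 494 (merge (leaf 7 462 462) (node 493 (merge (leaf 0 492 492) (node 529 (merge (leaf 3 493 526) (leaf 3 494 530)))))))))) (node 623 (merge (leaf 6 527 655) (node 624 (merge (leaf 4 527 656) (node 622 (merge (leaf 5 526 654) (node 526 (merge (leaf 7 494 494) (node 525 (merge (leaf 0 524 524) (node 493 (merge (leaf 3 492 492) (node 590 (merge (leaf 7 493 558) (node 589 (merge (leaf 0 588 588) (leaf 3 589 625))))))))))))))))))))) (merge (node 591 (merge (node 623 (merge (leaf 6 527 655) (node 526 (merge (leaf 7 494 494) (node 561 (merge (leaf 0 525 525) (leaf 3 526 562))))))) (merge (node 623 (merge (leaf 6 527 655) (node 622 (merge (leaf 5 526 654) (node 495 (merge (leaf 5 494 590) (node 463 (merge (leaf 4 431 431) (node 462 (merge (leaf 7 430 430) (leaf 7 462 494))))))))))) (merge (node 495 (merge (node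 590 (merge (leaf 5 494 622) (node 589 (merge (leaf 2 556 588) (node 561 (merge (leaf 1 557 558) (leaf 1 558 562))))))) (node 463 (merge (leaf 4 431 431) (node 464 (merge (leaf 6 431 432) (node 462 (merge (leaf 7 430 430) (node 494 (merge (leaf 7 462 591) (node 493 (merge (leaf 1 461 465) (leaf 0 492 492))))))))))))) (node 623 (merge (leaf 6 527 655) (node 624 (merge (leaf 4 527 656) (node 622 (merge (leaf 5 526 654) (node 590 (merge (leaf 5 494 495) (node 589 (merge (leaf 0 588 588) (leaf 3 589 625))))))))))))))) (node 591 (merge (node 623 (merge (leaf 6 527 655) (node 622 (merge (leaf 5 526 654) (node 495 (merge (leaf 5 494 590) (node 463 (merge (leaf 4 431 431) (leaf 4 463 592))))))))) (merge (node 495 (merge (node 592 (merge (leaf 4 463 463) (leaf 7 495 624))) (node 590 (merge (leaf 5 494 622) (node 589 (merge (leaf 2 556 588) (node 561 (merge (leaf 1 557 558) (leaf 1 558 562))))))))) (merge (node 623 (merge (leaf 6 527 655) (node 622 (merge (leaf 5 526 654) (node 590 (merge (leaf 5 494 495) (node 561 (merge (leaf 1 558 562) (node 589 (merge (leaf 1 557 558)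 (leaf 2 556 588))))))))))) (merge (node 590 (merge (node 589 (merge (leaf 2 556 588) (node 561 (merge (leaf 1 557 558) (leaf 1 558 562))))) (merge (node 623 (merge (leaf 6 527 655) (node 624 (merge (leaf 4 527 656) (node 625 (merge (leaf 3 590 626) (node 622 (merge (leaf 3 589 589) (leaf 5 526 654))))))))) (node 561 (merge (leaf 1 558 562) (node 623 (merge (leaf 6 527 655) (node 624 (merge (leaf 4 527 656) (node 625 (merge (leaf 3 590 626) (node 657 (merge (leaf 4 528 592) (leaf 7 528 593)))))))))))))) (merge (node 623 (merge (leaf 6 527 655) (node 624 (merge (leaf 4 527 656) (node 592 (merge (leaf 4 495 495) (node 625 (merge (leaf 4 528 657) (node 626 (merge (leaf 3 590 590) (leaf 3 591 627))))))))))) (node 623 (merge (leaf 6 527 655) (node 624 (merge (leaf 4 527 656) (node 592 (merge (leaf 4 495 495) (node 622 (merge (leaf 5 526 654) (node 621 (merge (leaf 2 589 593) (leaf 2 588 620)))))))))))))))))))))))) (merge (node 558 (merge (node 529 (merge (leaf 2 525 557) (node 530 (merge (leaf 1 527 531) (leaf 2 526 561))))) (merge (node 557 (merge (leaf 2 525 529)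 (node 556 (merge (leaf 2 524 527) (node 524 (merge (leaf 3 523 523) (leaf 3 524 525))))))) (merge (node 557 (merge (node 556 (merge (leaf 2 524 527) (node 524 (merge (leaf 3 523 523) (leaf 3 524 525))))) (merge (node 556 (merge (leaf 2 524 527) (node 588 (merge (leaf 1 555 587) (leaf 1 556 589))))) (node 589 (merge (leaf 1 556 588) (node 561 (merge (leaf 1 557 590) (node 525 (merge (leaf 3 524 524) (leaf 3 525 526)))))))))) (node 590 (merge (node 589 (merge (leaf 1 557 561) (node 588 (merge (leaf 2 555 587) (leaf 2 556 591))))) (merge (node 561 (merge (leaf 1 557 589) (node 530 (merge (leaf 2 526 529) (node 562 (merge (leaf 2 527 531) (node 527 (merge (leaf 3 526 526) (leaf 3 527 563))))))))) (merge (node 526 (merge (node 561 (merge (leaf 3 525 525) (node 562 (merge (leaf 3 526 527) (leaf 1 558 591))))) (merge (node 561 (merge (leaf 3 525 525) (node 530 (merge (leaf 2 526 529) (node 562 (merge (leaf 2 527 531) (leaf 1 558 591))))))) (merge (node 527 (merge (node 495 (merge (leaf 6 494 622) (node 463 (merge (leaf 4 431 431) (leaf 5 462 559))))) (node 525 (merge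 (leaf 0 524 524) (node 529 (merge (leaf 1 526 530) (node 493 (merge (leaf 3 492 492) (leaf 3 493 494))))))))) (node 494 (merge (node 493 (merge (leaf 7 461 461) (node 529 (merge (leaf 3 493 527) (node 530 (merge (leaf 1 527 531) (leaf 2 526 561))))))) (merge (node 462 (merge (leaf 4 462 591) (node 431 (merge (leaf 6 430 463) (node 430 (merge (leaf 6 398 399) (node 429 (merge (leaf 7 397 397) (leaf 7 429 461))))))))) (node 462 (merge (leaf 4 462 591) (node 527 (merge (leaf 4 430 430) (node 463 (merge (leaf 6 430 431) (node 495 (merge (leaf 4 463 592) (node 493 (merge (leaf 0 492 492) (node 464 (merge (leaf 6 431 432) (leaf 1 461 465)))))))))))))))))))) (node 526 (merge (node 589 (merge (node 588 (merge (leaf 2 555 587) (leaf 2 556 591))) (node 621 (merge (leaf 5 493 494) (node 653 (merge (leaf 5 525 622) (leaf 6 557 685))))))) (merge (node 527 (merge (node 495 (merge (leaf 6 494 622) (node 463 (merge (leaf 4 431 431) (leaf 5 462 559))))) (node 525 (merge (leaf 0 524 524) (node 529 (merge (leaf 1 526 530) (node 493 (merge (leaf 3 492 492) (leaf 3 493 494)))))))))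 (merge (node 589 (merge (node 588 (merge (leaf 2 555 587) (leaf 2 556 591))) (node 494 (merge (leaf 5 493 621) (node 463 (merge (leaf 6 462 495) (node 462 (merge (leaf 6 430 431) (node 461 (merge (leaf 7 429 429) (leaf 7 461 493))))))))))) (node 622 (merge (node 525 (merge (leaf 7 493 493) (node 524 (merge (leaf 0 523 523) (leaf 0 524 527))))) (node 653 (merge (leaf 5 525 621) (node 654 (merge (leaf 5 557 685) (node 687 (merge (leaf 4 558 655) (node 686 (merge (leaf 6 558 591) (leaf 4 590 719))))))))))))))))))))))) (merge (node 529 (merge (node 558 (merge (leaf 2 525 557) (node 530 (merge (leaf 1 527 531) (leaf 2 526 561))))) (merge (node 558 (merge (leaf 2 525 557) (node 530 (merge (leaf 1 526 527) (leaf 1 527 531))))) (merge (node 530 (merge (node 531 (merge (leaf 1 527 559) (node 564 (merge (leaf 0 528 563) (node 532 (merge (leaf 1 528 561) (leaf 0 529 565))))))) (merge (node 531 (merge (node 500 (merge (leaf 2 496 499) (node 532 (merge (leaf 2 497 501) (leaf 1 528 561))))) (merge (node 564 (merge (leaf 0 528 563) (node 532 (merge (leaf 1 528 561) (leaf 0 529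 565))))) (node 563 (merge (leaf 0 528 564) (node 527 (merge (leaf 0 527 562) (node 499 (merge (leaf 2 495 498) (leaf 2 496 500)))))))))) (merge (node 531 (merge (leaf 1 527 559) (node 563 (merge (leaf 0 528 564) (node 527 (merge (leaf 0 527 562) (node 499 (merge (leaf 2 495 498) (leaf 2 496 500))))))))) (node 527 (merge (node 498 (merge (leaf 2 495 499) (node 526 (merge (leaf 2 494 497) (node 561 (merge (leaf 0 525 525) (leaf 0 526 562))))))) (node 495 (merge (leaf 3 494 494) (node 463 (merge (leaf 4 431 431) (node 592 (merge (leaf 4 463 559) (leaf 7 495 624))))))))))))) (node 558 (merge (leaf 2 525 557) (node 526 (merge (node 525 (merge (leaf 3 525 561) (node 524 (merge (leaf 0 523 523) (leaf 0 524 527))))) (merge (node 561 (merge (leaf 3 525 525) (node 590 (merge (leaf 1 557 589) (node 591 (merge (leaf 1 558 562) (node 494 (merge (leaf 4 462 462) (leaf 4 494 623))))))))) (node 494 (merge (node 462 (merge (leaf 4 462 591) (node 431 (merge (leaf 6 430 463) (node 430 (merge (leaf 6 398 399) (node 429 (merge (leaf 7 397 397) (leaf 7 429 461))))))))) (merge (node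 527 (merge (leaf 3 493 493) (node 497 (merge (leaf 2 494 498) (node 592 (merge (leaf 6 496 624) (node 495 (merge (leaf 4 463 463) (node 590 (merge (leaf 6 494 622) (node 591 (merge (leaf 4 494 623) (node 589 (merge (leaf 2 556 588) (leaf 5 493 621))))))))))))))) (merge (node 527 (merge (leaf 3 493 493) (node 462 (merge (leaf 4 430 430) (leaf 4 462 591))))) (node 527 (merge (leaf 3 493 493) (node 462 (merge (leaf 4 430 430) (node 463 (merge (leaf 6 430 431) (node 590 (merge (leaf 5 462 495) (node 621 (merge (leaf 5 493 589) (node 622 (merge (leaf 5 525 653) (leaf 6 526 654)))))))))))))))))))))))))) (merge (hyp 0) (merge (node 529 (merge (node 558 (merge (leaf 2 525 557) (node 530 (merge (leaf 1 527 531) (leaf 2 526 561))))) (merge (node 558 (merge (leaf 2 525 557) (node 530 (merge (leaf 1 526 527) (leaf 1 527 531))))) (merge (node 530 (merge (leaf 1 527 531) (node 558 (merge (leaf 1 526 527) (leaf 2 526 561))))) (merge (node 561 (merge (node 558 (merge (leaf 2 525 557) (node 590 (merge (leaf 1 557 589) (node 591 (merge (leaf 1 558 562) (node 526 (merge (leaf 3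 525 525) (node 494 (merge (leaf 4 462 462) (leaf 4 494 623))))))))))) (merge (node 558 (merge (leaf 2 525 557) (node 590 (merge (leaf 1 557 589) (node 562 (merge (leaf 1 558 591) (node 563 (merge (leaf 3 527 527) (leaf 3 528 564))))))))) (merge (node 497 (merge (node 465 (merge (leaf 5 432 433) (leaf 5 464 592))) (node 558 (merge (leaf 2 525 557) (node 526 (merge (leaf 3 525 525) (node 527 (merge (leaf 2 494 498) (node 494 (merge (leaf 3 493 493) (node 591 (merge (leaf 4 462 462) (leaf 7 494 623))))))))))))) (merge (node 558 (merge (leaf 2 525 557) (node 526 (merge (leaf 3 525 525) (node 527 (merge (leaf 0 526 562) (node 497 (merge (leaf 2 494 498) (node 465 (merge (leaf 5 432 433) (leaf 5 464 592))))))))))) (node 562 (merge (node 563 (merge (leaf 3 527 527) (leaf 3 528 564))) (merge (node 591 (merge (leaf 1 558 590) (node 563 (merge (leaf 3 528 564) (leaf 1 559 592))))) (node 527 (merge (leaf 0 526 526) (node 591 (merge (leaf 1 558 590) (node 623 (merge (leaf 6 527 655) (node 624 (merge (leaf 4 527 656) (node 592 (merge (leaf 4 495 495) (leaf 6 496 497)))))))))))))))))))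 (node 527 (merge (node 530 (merge (leaf 1 527 531) (node 498 (merge (leaf 2 495 499) (node 526 (merge (leaf 2 494 497) (node 525 (merge (leaf 0 524 524) (node 493 (merge (leaf 3 492 492) (leaf 3 493 494))))))))))) (merge (node 530 (merge (leaf 1 527 531) (node 562 (merge (leaf 0 527 563) (node 526 (merge (leaf 0 526 561) (node 494 (merge (leaf 3 493 493) (leaf 3 494 495))))))))) (merge (node 526 (merge (node 497 (merge (leaf 2 494 498) (node 592 (merge (leaf 6 496 624) (node 465 (merge (leaf 5 432 433) (leaf 5 464 561))))))) (node 493 (merge (leaf 3 493 494) (node 525 (merge (leaf 3 492 492) (node 524 (merge (leaf 0 524 559) (node 556 (merge (leaf 1 523 555) (leaf 1 524 557))))))))))) (node 592 (merge (node 624 (merge (leaf 6 496 497) (leaf 7 527 656))) (merge (node 465 (merge (node 497 (merge (leaf 5 432 433) (leaf 5 464 561))) (merge (node 530 (merge (leaf 1 527 531) (node 562 (merge (leaf 0 527 563) (node 498 (merge (leaf 2 495 499) (node 433 (merge (leaf 7 433 466) (leaf 4 433 497))))))))) (merge (node 530 (merge (leaf 1 527 531) (node 562 (merge (leaf 0 527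 563) (node 498 (merge (leaf 2 495 499) (node 561 (merge (leaf 5 464 497) (node 593 (merge (leaf 5 465 466) (leaf 6 497 625))))))))))) (node 530 (merge (leaf 1 527 531) (node 562 (merge (leaf 0 527 563) (node 498 (merge (leaf 2 495 499) (node 466 (merge (leaf 7 433 433) (node 561 (merge (leaf 5 433 434) (leaf 5 465 593))))))))))))))) (node 624 (merge (leaf 7 527 656) (node 530 (merge (leaf 1 527 531) (node 498 (merge (leaf 2 495 499) (node 625 (merge (leaf 4 528 657) (node 623 (merge (leaf 5 527 655) (node 593 (merge (leaf 6 497 561) (node 622 (merge (leaf 2 589 621) (node 654 (merge (leaf 5 526 591) (leaf 1 621 653))))))))))))))))))))))))))))) (merge (hyp 1) (merge (node 592 (merge (node 624 (merge (node 657 (merge (leaf 4 528 625) (node 656 (merge (leaf 4 560 689) (node 655 (merge (leaf 5 527 623) (leaf 5 559 687))))))) (node 529 (merge (leaf 6 496 497) (node 558 (merge (leaf 2 525 557) (node 527 (merge (leaf 7 495 495) (leaf 1 526 530))))))))) (merge (node 529 (merge (node 558 (merge (leaf 2 525 557) (node 530 (merge (leaf 1 527 531) (leaf 2 526 561))))) (node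 624 (merge (leaf 6 496 497) (node 655 (merge (leaf 5 527 623) (node 656 (merge (leaf 5 559 687) (node 688 (merge (leaf 7 559 591) (node 689 (merge (leaf 4 560 657) (leaf 4 592 721))))))))))))) (merge (node 624 (merge (node 656 (merge (leaf 7 527 527) (node 655 (merge (leaf 5 527 623) (leaf 5 559 687))))) (merge (node 529 (merge (leaf 6 496 497) (node 656 (merge (leaf 6 528 561) (node 655 (merge (leaf 5 527 623) (leaf 5 559 687))))))) (node 625 (merge (leaf 4 528 657) (node 529 (merge (leaf 6 496 497) (node 530 (merge (leaf 1 527 531) (node 527 (merge (leaf 7 495 495) (node 562 (merge (leaf 0 527 563) (node 561 (merge (leaf 0 526 526) (node 498 (merge (leaf 2 495 499) (leaf 6 497 593)))))))))))))))))) (merge (node 558 (merge (node 557 (merge (leaf 2 525 529) (leaf 0 557 593))) (merge (node 557 (merge (leaf 0 557 593) (node 556 (merge (leaf 2 524 527) (leaf 0 556 591))))) (node 561 (merge (node 530 (merge (leaf 2 526 529) (node 562 (merge (leaf 2 527 531) (node 590 (merge (leaf 1 557 589) (leaf 1 558 591))))))) (merge (node 590 (merge (leaf 1 557 589) (node 562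 (merge (leaf 1 558 591) (node 527 (merge (leaf 3 526 526) (leaf 3 527 563))))))) (merge (node 530 (merge (leaf 2 526 529) (node 562 (merge (leaf 2 527 531) (node 527 (merge (leaf 3 526 526) (leaf 3 527 563))))))) (node 590 (merge (leaf 1 557 589) (node 529 (merge (leaf 2 526 530) (node 526 (merge (leaf 3 525 525) (node 497 (merge (leaf 5 464 465) (node 527 (merge (leaf 2 494 498) (node 495 (merge (leaf 4 463 463) (leaf 6 494 622)))))))))))))))))))) (merge (node 558 (merge (node 557 (merge (leaf 0 557 593) (node 556 (merge (leaf 2 524 527) (leaf 0 556 591))))) (merge (node 557 (merge (leaf 0 557 593) (node 589 (merge (leaf 1 556 588) (node 561 (merge (leaf 1 557 590) (node 525 (merge (leaf 3 524 524) (leaf 3 525 526))))))))) (merge (node 525 (merge (node 526 (merge (leaf 3 525 561) (node 524 (merge (leaf 0 523 523) (leaf 0 524 527))))) (merge (node 557 (merge (leaf 3 524 524) (node 556 (merge (leaf 2 524 527) (node 588 (merge (leaf 1 555 587) (leaf 1 556 589))))))) (merge (node 557 (merge (leaf 3 524 524) (node 589 (merge (leaf 1 556 588) (node 561 (merge (leaf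 3 525 526) (leaf 1 557 590))))))) (node 561 (merge (leaf 3 525 526) (node 590 (merge (leaf 1 557 589) (node 562 (merge (leaf 1 558 591) (node 531 (merge (leaf 2 527 530) (node 563 (merge (leaf 3 527 527) (leaf 2 528 532))))))))))))))) (node 590 (merge (node 589 (merge (leaf 1 557 561) (node 588 (merge (leaf 2 555 587) (leaf 2 556 591))))) (merge (node 527 (merge (node 624 (merge (leaf 7 495 495) (leaf 7 527 656))) (merge (node 495 (merge (leaf 5 462 463) (node 622 (merge (leaf 6 494 526) (leaf 5 494 591))))) (node 624 (merge (leaf 7 527 656) (node 623 (merge (leaf 5 527 655) (node 622 (merge (leaf 6 526 654) (node 621 (merge (leaf 2 589 593) (node 653 (merge (leaf 5 525 526) (leaf 1 620 652)))))))))))))) (node 561 (merge (leaf 1 557 589) (node 526 (merge (leaf 3 525 525) (node 562 (merge (leaf 3 526 527) (node 531 (merge (leaf 2 527 530) (node 563 (merge (leaf 2 528 532) (node 596 (merge (leaf 0 560 595) (node 564 (merge (leaf 1 560 593) (leaf 0 561 597)))))))))))))))))))))) (node 561 (merge (node 527 (merge (node 526 (merge (leaf 0 525 525) (leaf 3 526 562)))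 (node 495 (merge (leaf 4 463 463) (leaf 7 495 624))))) (merge (node 562 (merge (node 563 (merge (leaf 3 527 527) (leaf 1 559 591))) (merge (node 590 (merge (leaf 1 558 591) (node 558 (merge (leaf 1 557 589) (node 557 (merge (leaf 2 525 529) (leaf 0 557 593))))))) (node 563 (merge (leaf 3 527 527) (node 564 (merge (leaf 3 528 529) (leaf 1 560 593)))))))) (merge (node 526 (merge (node 558 (merge (leaf 3 525 525) (node 557 (merge (leaf 2 525 529) (leaf 0 557 593))))) (merge (node 527 (merge (leaf 0 525 525) (node 624 (merge (leaf 7 495 495) (leaf 7 527 656))))) (node 527 (merge (node 495 (merge (leaf 7 495 624) (node 463 (merge (leaf 4 431 431) (leaf 4 463 559))))) (merge (node 558 (merge (node 557 (merge (leaf 2 525 529) (leaf 0 557 593))) (node 590 (merge (leaf 1 557 589) (node 495 (merge (leaf 4 463 463) (node 622 (merge (leaf 5 494 591) (leaf 6 526 654))))))))) (node 624 (merge (leaf 7 527 656) (node 623 (merge (leaf 5 527 655) (node 529 (merge (leaf 6 496 497) (node 558 (merge (leaf 1 525 557) (node 590 (merge (leaf 1 557 589) (node 622 (merge (leaf 6 526 654)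 (node 621 (merge (leaf 2 589 593) (leaf 5 525 653))))))))))))))))))))) (node 624 (merge (node 529 (merge (leaf 6 496 497) (leaf 6 528 656))) (merge (node 655 (merge (leaf 5 527 623) (node 656 (merge (leaf 5 559 687) (node 688 (merge (leaf 7 559 591) (leaf 6 560 593))))))) (node 625 (merge (leaf 4 528 657) (node 623 (merge (leaf 5 527 655) (node 529 (merge (leaf 6 496 497) (node 558 (merge (leaf 2 525 557) (node 590 (merge (leaf 1 557 589) (node 591 (merge (leaf 1 558 562) (leaf 3 590 626)))))))))))))))))))))))))) (merge (node 558 (merge (node 529 (merge (leaf 2 525 557) (node 530 (merge (leaf 1 527 531) (leaf 2 526 561))))) (merge (node 557 (merge (leaf 2 525 529) (node 556 (merge (leaf 2 524 527) (node 524 (merge (leaf 3 523 523) (leaf 3 524 525))))))) (merge (node 557 (merge (node 556 (merge (leaf 2 524 527) (node 524 (merge (leaf 3 523 523) (leaf 3 524 525))))) (merge (node 556 (merge (leaf 2 524 527) (node 588 (merge (leaf 1 555 587) (leaf 1 556 589))))) (node 589 (merge (leaf 1 556 588) (node 561 (merge (leaf 1 557 590) (node 525 (merge (leaf 3 524 524) (leaf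 3 525 526)))))))))) (hyp 2))))) (merge (node 592 (merge (node 529 (merge (node 497 (merge (leaf 6 496 624) (node 465 (merge (leaf 5 432 433) (leaf 5 464 561))))) (node 558 (merge (leaf 2 525 557) (node 530 (merge (leaf 1 526 527) (leaf 1 527 531))))))) (merge (node 624 (merge (node 657 (merge (leaf 4 528 625) (node 656 (merge (leaf 4 560 689) (node 655 (merge (leaf 5 527 623) (leaf 5 559 687))))))) (node 529 (merge (leaf 6 496 497) (node 558 (merge (leaf 2 525 557) (node 527 (merge (leaf 7 495 495) (leaf 1 526 530))))))))) (merge (node 624 (merge (node 656 (merge (leaf 7 527 527) (node 657 (merge (leaf 4 528 625) (leaf 4 560 689))))) (merge (node 657 (merge (leaf 4 528 625) (node 656 (merge (leaf 4 560 689) (node 655 (merge (leaf 5 527 623) (leaf 5 559 687))))))) (node 527 (merge (leaf 7 495 495) (node 526 (merge (node 561 (merge (leaf 0 525 525) (leaf 3 526 562))) (merge (node 525 (merge (leaf 0 524 524) (node 557 (merge (leaf 1 524 556) (node 558 (merge (leaf 0 557 593) (node 589 (merge (leaf 1 556 588) (node 621 (merge (leaf 6 493 494) (leaf 6 525 653)))))))))))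 (node 623 (merge (leaf 5 527 655) (node 591 (merge (leaf 7 494 494) (node 622 (merge (leaf 5 526 654) (node 621 (merge (leaf 2 589 593) (leaf 2 588 620))))))))))))))))) (merge (node 624 (merge (node 656 (merge (leaf 7 527 527) (node 655 (merge (leaf 5 527 623) (leaf 5 559 687))))) (merge (node 529 (merge (leaf 6 496 497) (node 656 (merge (leaf 6 528 561) (node 527 (merge (leaf 7 495 495) (leaf 7 527 559))))))) (merge (node 529 (merge (leaf 6 496 497) (node 656 (merge (leaf 6 528 561) (node 655 (merge (leaf 5 527 623) (leaf 5 559 687))))))) (node 625 (merge (leaf 4 528 657) (node 623 (merge (leaf 5 527 655) (node 529 (merge (leaf 6 496 497) (node 530 (merge (leaf 1 527 531) (node 527 (merge (leaf 7 495 495) (node 498 (merge (leaf 2 495 499) (node 593 (merge (leaf 6 497 561) (node 622 (merge (leaf 2 589 621) (node 654 (merge (leaf 5 526 591) (leaf 1 621 653))))))))))))))))))))))) (merge (node 624 (merge (node 657 (merge (leaf 4 528 625) (node 529 (merge (leaf 6 496 497) (node 656 (merge (leaf 6 528 561) (leaf 4 560 689))))))) (merge (node 657 (merge (leaf 4 528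 625) (node 656 (merge (leaf 4 560 689) (node 655 (merge (leaf 5 527 623) (leaf 5 559 687))))))) (merge (node 529 (merge (leaf 6 496 497) (node 656 (merge (leaf 6 528 561) (node 655 (merge (leaf 5 527 623) (leaf 5 559 687))))))) (node 625 (merge (leaf 4 528 657) (node 529 (merge (leaf 6 496 497) (node 530 (merge (leaf 1 527 531) (node 561 (merge (leaf 2 526 558) (node 593 (merge (leaf 6 497 498) (node 626 (merge (leaf 4 529 658) (node 627 (merge (leaf 3 591 591) (leaf 3 592 628))))))))))))))))))) (node 561 (merge (node 562 (merge (node 527 (merge (leaf 3 526 526) (leaf 3 527 563))) (merge (node 526 (merge (leaf 3 526 527) (node 558 (merge (leaf 3 525 525) (node 529 (merge (leaf 2 526 530) (leaf 2 525 557))))))) (node 531 (merge (leaf 2 527 530) (node 563 (merge (leaf 2 528 532) (node 596 (merge (leaf 0 560 595) (node 564 (merge (leaf 3 528 529) (leaf 0 561 597)))))))))))) (merge (node 562 (merge (node 563 (merge (leaf 3 527 527) (leaf 1 559 591))) (merge (node 563 (merge (leaf 3 527 527) (node 564 (merge (leaf 3 528 529) (leaf 1 560 593))))) (merge (node 563 (merge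 (leaf 1 559 591) (node 564 (merge (leaf 3 528 529) (leaf 1 560 593))))) (node 530 (merge (leaf 2 527 531) (node 558 (merge (leaf 2 526 529) (node 557 (merge (leaf 0 557 593) (node 556 (merge (leaf 2 524 527) (leaf 0 556 591))))))))))))) (merge (node 558 (merge (node 557 (merge (leaf 0 557 593) (node 556 (merge (leaf 2 524 527) (leaf 0 556 591))))) (merge (node 525 (merge (leaf 3 525 526) (node 557 (merge (leaf 3 524 524) (node 556 (merge (leaf 2 524 527) (node 588 (merge (leaf 1 555 587) (leaf 1 556 589))))))))) (merge (node 557 (merge (leaf 0 557 593) (node 556 (merge (leaf 0 556 591) (node 588 (merge (leaf 1 555 587) (leaf 1 556 589))))))) (node 526 (merge (leaf 3 525 525) (node 562 (merge (leaf 3 526 527) (node 563 (merge (leaf 1 559 591) (node 596 (merge (leaf 0 560 595) (node 564 (merge (leaf 1 560 593) (leaf 0 561 597))))))))))))))) (merge (node 558 (merge (node 529 (merge (leaf 2 526 530) (leaf 2 525 557))) (merge (node 557 (merge (leaf 0 557 593) (node 556 (merge (leaf 0 556 591) (node 588 (merge (leaf 1 555 587) (leaf 1 556 589))))))) (node 530 (merge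 (leaf 2 526 529) (node 562 (merge (leaf 2 527 531) (node 563 (merge (leaf 1 559 591) (node 596 (merge (leaf 0 560 595) (node 564 (merge (leaf 1 560 593) (leaf 0 561 597)))))))))))))) (merge (node 562 (merge (node 527 (merge (leaf 3 526 526) (leaf 3 527 563))) (merge (node 531 (merge (leaf 2 527 530) (node 563 (merge (leaf 2 528 532) (node 596 (merge (leaf 0 560 595) (node 564 (merge (leaf 1 560 593) (leaf 0 561 597))))))))) (node 530 (merge (leaf 2 527 531) (node 527 (merge (leaf 3 526 526) (node 495 (merge (leaf 4 463 463) (node 529 (merge (leaf 3 494 494) (node 498 (merge (leaf 2 495 499) (node 466 (merge (leaf 5 433 434) (leaf 5 465 593)))))))))))))))) (node 558 (merge (node 557 (merge (leaf 2 525 529) (leaf 0 557 593))) (merge (node 557 (merge (leaf 0 557 593) (node 556 (merge (leaf 2 524 527) (leaf 0 556 591))))) (node 529 (merge (leaf 2 526 530) (node 526 (merge (leaf 3 525 525) (node 497 (merge (leaf 5 464 465) (node 527 (merge (leaf 2 494 498) (node 494 (merge (leaf 3 493 493) (node 462 (merge (leaf 4 430 430) (leaf 4 462 591))))))))))))))))))))))))))))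 (merge (hyp 3) (merge (node 624 (merge (node 529 (merge (node 530 (merge (leaf 1 527 531) (node 558 (merge (leaf 1 526 527) (leaf 2 526 561))))) (merge (node 592 (merge (leaf 6 496 497) (node 530 (merge (leaf 1 527 531) (node 527 (merge (leaf 7 495 495) (leaf 1 526 558))))))) (node 592 (merge (leaf 6 496 497) (node 657 (merge (leaf 4 528 625) (node 656 (merge (leaf 6 528 561) (leaf 4 560 689)))))))))) (merge (node 592 (merge (node 656 (merge (leaf 7 527 527) (node 655 (merge (leaf 5 527 623) (leaf 5 559 687))))) (node 529 (merge (leaf 6 496 497) (node 558 (merge (leaf 2 525 557) (node 530 (merge (leaf 1 527 531) (leaf 2 526 561))))))))) (merge (node 592 (merge (node 529 (merge (leaf 6 496 497) (node 558 (merge (leaf 2 525 557) (node 530 (merge (leaf 1 527 531) (leaf 2 526 561))))))) (node 657 (merge (leaf 4 528 625) (node 656 (merge (leaf 4 560 689) (node 655 (merge (leaf 5 527 623) (leaf 5 559 687))))))))) (merge (node 527 (merge (node 592 (merge (leaf 7 495 495) (leaf 7 527 656))) (merge (node 623 (merge (node 591 (merge (leaf 6 527 655) (leaf 4 527 656))) (merge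 (node 656 (merge (leaf 4 527 591) (leaf 7 527 592))) (merge (node 655 (merge (leaf 6 527 591) (leaf 5 527 592))) (node 592 (merge (leaf 5 527 655) (node 656 (merge (leaf 7 527 559) (node 657 (merge (leaf 4 528 625) (leaf 4 560 689))))))))))) (merge (node 495 (merge (leaf 7 495 592) (node 463 (merge (leaf 4 431 431) (node 462 (merge (leaf 7 430 430) (node 591 (merge (leaf 7 462 494) (node 622 (merge (leaf 5 494 590) (node 623 (merge (leaf 5 526 654) (leaf 6 527 655))))))))))))) (node 591 (merge (node 623 (merge (leaf 6 527 655) (leaf 4 527 656))) (node 495 (merge (node 590 (merge (leaf 5 494 622) (node 589 (merge (leaf 2 556 588) (node 561 (merge (leaf 1 557 558) (leaf 1 558 562))))))) (node 463 (merge (leaf 4 431 431) (node 464 (merge (leaf 6 431 432) (node 462 (merge (leaf 7 430 430) (node 494 (merge (leaf 7 462 591) (node 493 (merge (leaf 1 461 465) (leaf 0 492 492))))))))))))))))))) (merge (node 592 (merge (node 656 (merge (leaf 7 527 527) (node 657 (merge (leaf 4 528 625) (leaf 4 560 689))))) (merge (node 656 (merge (leaf 7 527 527) (node 655 (merge (leaf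 5 527 623) (leaf 5 559 687))))) (merge (node 657 (merge (leaf 4 528 625) (node 656 (merge (leaf 4 560 689) (node 655 (merge (leaf 5 527 623) (leaf 5 559 687))))))) (node 625 (merge (leaf 4 528 657) (node 623 (merge (leaf 5 527 655) (node 529 (merge (leaf 6 496 497) (node 530 (merge (leaf 1 527 531) (node 527 (merge (leaf 7 495 495) (node 498 (merge (leaf 2 495 499) (node 593 (merge (leaf 6 497 561) (node 622 (merge (leaf 2 589 621) (node 654 (merge (leaf 5 526 591) (leaf 1 621 653))))))))))))))))))))))) (merge (node 529 (merge (node 558 (merge (leaf 2 525 557) (node 530 (merge (leaf 1 526 527) (leaf 1 527 531))))) (node 592 (merge (leaf 6 496 497) (node 625 (merge (leaf 4 528 657) (node 626 (merge (node 591 (merge (leaf 3 591 627) (node 623 (merge (leaf 3 590 590) (leaf 5 527 655))))) (merge (node 627 (merge (leaf 3 591 591) (node 596 (merge (leaf 2 592 595) (node 628 (merge (leaf 3 592 593) (leaf 2 593 597))))))) (merge (node 623 (merge (leaf 5 527 655) (node 659 (merge (leaf 0 623 658) (node 627 (merge (leaf 0 624 660) (node 596 (merge (leaf 2 592 595) (node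 628 (merge (leaf 3 592 593) (leaf 2 593 597))))))))))) (node 623 (merge (leaf 5 527 655) (node 590 (merge (leaf 3 590 591) (node 622 (merge (leaf 3 589 589) (node 653 (merge (leaf 1 621 654) (node 621 (merge (leaf 2 589 593) (leaf 1 620 652))))))))))))))))))))) (hyp 4)))))))) (node 558 (merge (node 529 (merge (leaf 2 525 557) (node 530 (merge (leaf 1 527 531) (leaf 2 526 561))))) (merge (node 557 (merge (leaf 2 525 529) (node 592 (merge (leaf 0 557 593) (node 556 (merge (leaf 0 556 591) (node 524 (merge (leaf 3 523 523) (leaf 3 524 525))))))))) (merge (node 557 (merge (node 592 (merge (leaf 0 557 593) (node 556 (merge (leaf 0 556 591) (node 524 (merge (leaf 3 523 523) (leaf 3 524 525))))))) (merge (node 589 (merge (leaf 1 556 588) (node 561 (merge (leaf 1 557 590) (node 525 (merge (leaf 3 524 524) (leaf 3 525 526))))))) (node 592 (merge (leaf 0 557 593) (node 556 (merge (leaf 0 556 591) (node 588 (merge (leaf 1 555 587) (leaf 1 556 589)))))))))) (hyp 5)))))))))))))))))))))) nB_24 cB_24 13 (by decide +kernel)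
def nB_25 : ℕ := 0x1000000000000000000000000000000000000000000000000000000000000000000000000000000000000000000000000000000000000000000000000000000000000
def cB_25 : ℕ := 0x20000002e0000003e0000007e000001ffe00001ffc00003bfe00003ff800007efc00003ffc00007ffc00003ff800000ff0000007e0000002800000000000000000000000000000000000000000000000000000000000000000000000000000000000
theorem lB_25 : S nB_25 cB_25 14 := S_of_chk [(nB_0, cB_0, 12), (nB_1, cB_1, 11), (nB_2, cB_2, 11), (nB_3, cB_3, 13), (nB_4, cB_4, 13), (nB_5, cB_5, 13), (nB_7, cB_7, 13), (nB_6, cB_6, 12), (nB_8, cB_8, 12), (nB_9, cB_9, 11), (nB_12, cB_12, 13), (nB_16, cB_16, 13), (nB_17, cB_17, 12), (nB_24, cB_24, 13)] ⟨lB_0, lB_1, lB_2, lB_3, lB_4, lB_5, lB_7, lB_6, lB_8, lB_9, lB_12, lB_16, lB_17, lB_24, trivial⟩ (node 560 (merge (node 496 (merge (node 465 (merge (node 497 (merge (leaf 6 464 592) (node 433 (merge (leaf 5 400 401) (leaf 5 432 529))))) (merge (node 433 (merge (leaf 6 432 464) (node 497 (merge (leaf 5 400 401) (leaf 5 432 529))))) (merge (node 592 (merge (leaf 6 464 497) (node 591 (merge (leaf 5 495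 623) (node 464 (merge (leaf 5 463 559) (node 463 (merge (leaf 7 431 431) (leaf 7 463 495))))))))) (node 464 (merge (leaf 6 432 433) (node 591 (merge (leaf 5 463 559) (node 463 (merge (leaf 7 431 431) (node 592 (merge (leaf 7 463 495) (leaf 5 495 623))))))))))))) (merge (node 464 (merge (node 593 (merge (leaf 4 464 561) (node 592 (merge (leaf 4 496 625) (node 463 (merge (leaf 7 431 431) (leaf 7 463 495))))))) (merge (node 433 (merge (leaf 6 432 465) (node 432 (merge (leaf 6 400 401) (node 431 (merge (leaf 7 399 399) (leaf 7 431 463))))))) (node 593 (merge (leaf 4 464 561) (node 465 (merge (leaf 6 432 433) (node 592 (merge (leaf 6 464 497) (leaf 4 496 625)))))))))) (merge (node 464 (merge (node 593 (merge (leaf 4 464 561) (node 592 (merge (leaf 4 496 625) (node 463 (merge (leaf 7 431 431) (leaf 7 463 495))))))) (merge (node 593 (merge (leaf 4 464 561) (node 592 (merge (leaf 4 496 625) (node 591 (merge (leaf 5 463 559) (leaf 5 495 623))))))) (merge (node 591 (merge (leaf 5 463 559) (node 463 (merge (leaf 7 431 431) (node 592 (merge (leaf 7 463 495) (leaf 5 495 623)))))))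 (node 561 (merge (leaf 4 464 593) (node 432 (merge (leaf 4 432 529) (node 559 (merge (leaf 5 431 527) (leaf 5 463 591))))))))))) (merge (node 561 (merge (node 464 (merge (leaf 4 464 593) (node 432 (merge (leaf 4 432 529) (node 433 (merge (leaf 6 400 401) (leaf 6 432 465))))))) (merge (node 464 (merge (leaf 4 464 593) (node 433 (merge (leaf 6 432 465) (node 432 (merge (leaf 6 400 401) (node 559 (merge (leaf 5 431 527) (leaf 5 463 591))))))))) (node 562 (merge (node 527 (merge (leaf 3 527 563) (node 559 (merge (leaf 3 526 526) (node 591 (merge (leaf 1 558 590) (leaf 6 495 623))))))) (merge (node 563 (merge (leaf 3 527 527) (node 596 (merge (leaf 0 560 595) (node 564 (merge (leaf 3 528 529) (leaf 0 561 597))))))) (merge (node 559 (merge (node 591 (merge (leaf 1 558 590) (node 527 (merge (leaf 3 526 526) (leaf 6 495 623))))) (merge (node 530 (merge (leaf 2 527 531) (node 558 (merge (leaf 2 526 529) (node 590 (merge (leaf 1 557 589) (leaf 1 558 591))))))) (node 526 (merge (leaf 3 526 527) (node 558 (merge (leaf 3 525 525) (node 529 (merge (leaf 2 526 530) (leaf 2 525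 557)))))))))) (node 531 (merge (node 530 (merge (leaf 2 527 559) (node 532 (merge (leaf 1 529 533) (leaf 2 528 563))))) (merge (node 563 (merge (leaf 2 528 532) (node 596 (merge (leaf 0 560 595) (node 564 (merge (leaf 3 528 529) (leaf 0 561 597))))))) (node 559 (merge (leaf 2 527 530) (node 590 (merge (leaf 1 558 591) (node 558 (merge (leaf 1 557 589) (node 557 (merge (leaf 2 525 529) (node 525 (merge (leaf 3 524 524) (leaf 3 525 526))))))))))))))))))))) (node 497 (merge (node 465 (merge (leaf 6 464 592) (node 433 (merge (leaf 5 400 401) (leaf 5 432 529))))) (merge (node 498 (merge (node 527 (merge (leaf 1 495 499) (node 526 (merge (leaf 1 494 495) (leaf 2 493 525))))) (merge (node 499 (merge (leaf 1 495 527) (node 532 (merge (leaf 0 496 531) (node 500 (merge (leaf 0 497 533) (node 468 (merge (leaf 2 464 467) (leaf 2 465 469))))))))) (merge (node 592 (merge (leaf 6 464 465) (node 495 (merge (leaf 7 463 463) (node 531 (merge (leaf 0 495 530) (node 499 (merge (leaf 0 496 532) (node 467 (merge (leaf 2 463 466) (leaf 2 464 468))))))))))) (node 495 (merge (node 527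 (merge (leaf 1 494 526) (node 463 (merge (leaf 4 431 431) (leaf 3 462 462))))) (merge (node 466 (merge (leaf 2 463 467) (node 494 (merge (leaf 2 462 465) (node 462 (merge (leaf 3 461 461) (leaf 3 462 463))))))) (node 466 (merge (leaf 2 463 467) (node 494 (merge (leaf 2 462 465) (node 526 (merge (leaf 1 493 525) (leaf 1 494 527)))))))))))))) (merge (node 498 (merge (node 499 (merge (leaf 1 495 527) (node 532 (merge (leaf 0 496 531) (node 500 (merge (leaf 1 496 529) (leaf 0 497 533))))))) (merge (node 495 (merge (node 527 (merge (leaf 1 494 526) (node 463 (merge (leaf 4 431 431) (leaf 3 462 462))))) (merge (node 466 (merge (leaf 2 463 467) (node 494 (merge (leaf 2 462 465) (node 462 (merge (leaf 3 461 461) (leaf 3 462 463))))))) (node 466 (merge (leaf 2 463 467) (node 494 (merge (leaf 2 462 465) (node 526 (merge (leaf 1 493 525) (leaf 1 494 527)))))))))) (node 499 (merge (node 532 (merge (leaf 0 496 531) (node 500 (merge (leaf 1 496 529) (leaf 0 497 533))))) (merge (node 532 (merge (leaf 0 496 531) (node 500 (merge (leaf 0 497 533) (node 468 (merge (leaf 2 464 467)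 (leaf 2 465 469))))))) (node 467 (merge (leaf 2 464 468) (node 495 (merge (leaf 2 463 466) (node 462 (merge (leaf 3 462 463) (node 494 (merge (leaf 3 461 461) (node 493 (merge (leaf 0 493 529) (node 525 (merge (leaf 1 492 524) (leaf 1 493 526))))))))))))))))))) (node 495 (merge (node 463 (merge (leaf 7 463 592) (node 431 (merge (leaf 4 399 399) (leaf 4 431 527))))) (merge (node 526 (merge (node 525 (merge (leaf 1 493 494) (leaf 2 493 527))) (merge (node 494 (merge (leaf 1 493 525) (node 529 (merge (leaf 0 493 493) (leaf 0 494 530))))) (node 498 (merge (leaf 1 494 527) (node 531 (merge (leaf 0 495 530) (node 499 (merge (leaf 0 496 532) (node 500 (merge (leaf 1 496 529) (node 468 (merge (leaf 2 464 467) (leaf 2 465 469)))))))))))))) (node 463 (merge (leaf 7 463 592) (node 498 (merge (leaf 3 462 462) (node 530 (merge (leaf 0 495 531) (node 529 (merge (leaf 0 494 494) (node 466 (merge (leaf 2 463 467) (node 561 (merge (leaf 5 433 434) (leaf 6 465 593))))))))))))))))))))))))) (merge (node 496 (merge (node 465 (merge (node 497 (merge (leaf 6 464 592) (node 433 (merge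 (leaf 5 400 401) (leaf 5 432 529))))) (merge (node 433 (merge (leaf 6 432 464) (node 497 (merge (leaf 5 400 401) (leaf 5 432 529))))) (merge (node 592 (merge (leaf 6 464 497) (node 591 (merge (leaf 5 495 623) (node 464 (merge (leaf 5 463 559) (node 463 (merge (leaf 7 431 431) (leaf 7 463 495))))))))) (node 464 (merge (leaf 6 432 433) (node 591 (merge (leaf 5 463 559) (node 463 (merge (leaf 7 431 431) (node 592 (merge (leaf 7 463 495) (leaf 5 495 623))))))))))))) (merge (node 592 (merge (node 593 (merge (leaf 4 496 625) (node 464 (merge (leaf 4 464 561) (node 591 (merge (leaf 5 463 559) (leaf 5 495 623))))))) (merge (node 625 (merge (leaf 4 496 593) (node 624 (merge (leaf 4 528 657) (node 495 (merge (leaf 7 463 463) (leaf 7 495 527))))))) (node 623 (merge (leaf 5 495 591) (node 495 (merge (leaf 7 463 463) (node 624 (merge (leaf 7 495 527) (leaf 5 527 655)))))))))) (merge (node 592 (merge (node 593 (merge (leaf 4 496 625) (node 464 (merge (leaf 4 464 561) (node 465 (merge (leaf 6 432 433) (leaf 6 464 497))))))) (merge (node 625 (merge (leaf 4 496 593) (node 624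 (merge (leaf 4 528 657) (node 623 (merge (leaf 5 495 591) (leaf 5 527 655))))))) (node 497 (merge (leaf 6 464 465) (node 624 (merge (leaf 6 496 529) (node 623 (merge (leaf 5 495 591) (leaf 5 527 655)))))))))) (merge (node 464 (merge (node 593 (merge (leaf 4 464 561) (node 592 (merge (leaf 4 496 625) (node 463 (merge (leaf 7 431 431) (leaf 7 463 495))))))) (merge (node 433 (merge (leaf 6 432 465) (node 432 (merge (leaf 6 400 401) (node 431 (merge (leaf 7 399 399) (leaf 7 431 463))))))) (node 593 (merge (leaf 4 464 561) (node 465 (merge (leaf 6 432 433) (node 592 (merge (leaf 6 464 497) (leaf 4 496 625)))))))))) (merge (node 495 (merge (node 592 (merge (leaf 7 463 463) (node 625 (merge (leaf 4 496 593) (node 624 (merge (leaf 7 495 527) (leaf 4 528 657))))))) (merge (node 592 (merge (leaf 7 463 463) (node 625 (merge (leaf 4 496 593) (node 497 (merge (leaf 6 464 465) (node 624 (merge (leaf 6 496 529) (leaf 4 528 657))))))))) (merge (node 494 (merge (node 529 (merge (leaf 0 493 493) (node 530 (merge (leaf 3 494 527) (leaf 3 495 531))))) (merge (node 493 (merge (leaf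 0 493 529) (node 492 (merge (leaf 0 492 527) (node 524 (merge (leaf 1 491 523) (leaf 1 492 525))))))) (merge (node 497 (merge (node 466 (merge (leaf 2 462 465) (node 498 (merge (leaf 2 463 467) (node 462 (merge (leaf 3 461 461) (leaf 3 462 463))))))) (merge (node 461 (merge (leaf 3 461 462) (node 493 (merge (leaf 3 460 460) (node 492 (merge (leaf 0 492 527) (node 524 (merge (leaf 1 491 523) (leaf 1 492 525))))))))) (node 466 (merge (leaf 2 462 465) (node 498 (merge (leaf 2 463 467) (node 531 (merge (leaf 0 495 530) (node 499 (merge (leaf 1 495 527) (leaf 0 496 532)))))))))))) (node 497 (merge (node 465 (merge (leaf 2 462 466) (node 433 (merge (leaf 5 400 401) (leaf 5 432 529))))) (merge (node 530 (merge (leaf 0 494 529) (node 498 (merge (leaf 0 495 531) (node 462 (merge (leaf 3 461 461) (leaf 3 462 463))))))) (node 466 (merge (leaf 2 462 465) (node 498 (merge (leaf 2 463 467) (node 462 (merge (leaf 3 461 461) (leaf 3 462 463)))))))))))))) (node 497 (merge (node 465 (merge (leaf 6 464 592) (node 433 (merge (leaf 5 400 401) (leaf 5 432 529))))) (merge (node 592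 (merge (leaf 6 464 465) (node 623 (merge (leaf 5 495 591) (node 624 (merge (leaf 7 495 527) (leaf 5 527 655))))))) (node 530 (merge (node 531 (merge (leaf 0 495 498) (leaf 3 495 529))) (merge (node 498 (merge (leaf 0 495 531) (node 467 (merge (leaf 2 463 466) (node 499 (merge (leaf 2 464 468) (leaf 1 495 527))))))) (node 494 (merge (leaf 0 494 529) (node 461 (merge (leaf 3 461 462) (node 493 (merge (leaf 3 460 460) (node 492 (merge (leaf 0 492 527) (node 524 (merge (leaf 1 491 523) (leaf 1 492 525))))))))))))))))))))) (node 561 (merge (node 464 (merge (leaf 4 464 593) (node 432 (merge (leaf 4 432 529) (node 433 (merge (leaf 6 400 401) (leaf 6 432 465))))))) (merge (node 464 (merge (leaf 4 464 593) (node 433 (merge (leaf 6 432 465) (node 432 (merge (leaf 6 400 401) (node 559 (merge (leaf 5 431 527) (leaf 5 463 591))))))))) (merge (node 559 (merge (node 591 (merge (node 623 (merge (leaf 6 495 527) (leaf 6 527 655))) (node 590 (merge (leaf 1 558 562) (node 589 (merge (leaf 1 557 558) (leaf 2 556 588))))))) (merge (node 464 (merge (leaf 5 463 591) (node 433 (merge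 (leaf 6 432 465) (node 432 (merge (leaf 6 400 401) (node 431 (merge (leaf 7 399 399) (leaf 7 431 463))))))))) (node 530 (merge (node 529 (merge (leaf 1 527 531) (leaf 2 526 558))) (merge (node 562 (merge (leaf 2 527 531) (node 527 (merge (leaf 3 526 526) (leaf 3 527 563))))) (node 558 (merge (leaf 2 526 529) (node 590 (merge (leaf 1 557 589) (node 526 (merge (leaf 3 525 525) (node 527 (merge (leaf 3 526 562) (node 622 (merge (leaf 6 494 495) (leaf 6 526 654))))))))))))))))) (node 562 (merge (node 527 (merge (leaf 3 527 563) (node 559 (merge (leaf 3 526 526) (node 591 (merge (leaf 1 558 590) (leaf 6 495 623))))))) (merge (node 563 (merge (leaf 3 527 527) (node 596 (merge (leaf 0 560 595) (node 564 (merge (leaf 3 528 529) (leaf 0 561 597))))))) (merge (node 563 (merge (node 596 (merge (leaf 0 560 595) (node 564 (merge (leaf 3 528 529) (leaf 0 561 597))))) (merge (node 532 (merge (leaf 2 528 531) (node 564 (merge (leaf 3 528 529) (leaf 2 529 533))))) (node 595 (merge (leaf 0 560 596) (node 531 (merge (leaf 2 528 532) (node 530 (merge (leaf 2 527 559) (node 627 (merge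 (leaf 7 498 498) (leaf 7 530 659)))))))))))) (node 559 (merge (node 591 (merge (leaf 1 558 590) (node 527 (merge (leaf 3 526 526) (leaf 6 495 623))))) (merge (node 530 (merge (leaf 2 527 531) (node 558 (merge (leaf 2 526 529) (node 590 (merge (leaf 1 557 589) (leaf 1 558 591))))))) (node 530 (merge (leaf 2 527 531) (node 529 (merge (leaf 2 526 558) (node 527 (merge (leaf 0 526 526) (node 498 (merge (leaf 2 495 499) (node 593 (merge (leaf 5 465 466) (leaf 6 497 625)))))))))))))))))))))))))))) (merge (node 496 (merge (node 465 (merge (node 497 (merge (leaf 6 464 592) (node 433 (merge (leaf 5 400 401) (leaf 5 432 529))))) (merge (node 433 (merge (leaf 6 432 464) (node 497 (merge (leaf 5 400 401) (leaf 5 432 529))))) (merge (node 592 (merge (leaf 6 464 497) (node 591 (merge (leaf 5 495 623) (node 464 (merge (leaf 5 463 559) (node 463 (merge (leaf 7 431 431) (leaf 7 463 495))))))))) (node 464 (merge (leaf 6 432 433) (node 591 (merge (leaf 5 463 559) (node 463 (merge (leaf 7 431 431) (node 592 (merge (leaf 7 463 495) (leaf 5 495 623))))))))))))) (merge (node 592 (merge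 (node 593 (merge (leaf 4 496 625) (node 464 (merge (leaf 4 464 561) (node 591 (merge (leaf 5 463 559) (leaf 5 495 623))))))) (merge (node 625 (merge (leaf 4 496 593) (node 624 (merge (leaf 4 528 657) (node 495 (merge (leaf 7 463 463) (leaf 7 495 527))))))) (node 623 (merge (leaf 5 495 591) (node 495 (merge (leaf 7 463 463) (node 624 (merge (leaf 7 495 527) (leaf 5 527 655)))))))))) (merge (node 464 (merge (node 593 (merge (leaf 4 464 561) (node 592 (merge (leaf 4 496 625) (node 463 (merge (leaf 7 431 431) (leaf 7 463 495))))))) (merge (node 433 (merge (leaf 6 432 465) (node 432 (merge (leaf 6 400 401) (node 431 (merge (leaf 7 399 399) (leaf 7 431 463))))))) (node 593 (merge (leaf 4 464 561) (node 465 (merge (leaf 6 432 433) (node 592 (merge (leaf 6 464 497) (leaf 4 496 625)))))))))) (merge (node 561 (merge (node 464 (merge (leaf 4 464 593) (node 432 (merge (leaf 4 432 529) (node 433 (merge (leaf 6 400 401) (leaf 6 432 465))))))) (merge (node 464 (merge (leaf 4 464 593) (node 433 (merge (leaf 6 432 465) (node 432 (merge (leaf 6 400 401) (node 559 (merge (leaf 5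 431 527) (leaf 5 463 591))))))))) (node 562 (merge (node 527 (merge (leaf 3 527 563) (node 559 (merge (leaf 3 526 526) (node 591 (merge (leaf 1 558 590) (leaf 6 495 623))))))) (merge (node 563 (merge (leaf 3 527 527) (node 596 (merge (leaf 0 560 595) (node 564 (merge (leaf 3 528 529) (leaf 0 561 597))))))) (merge (node 559 (merge (node 591 (merge (leaf 1 558 590) (node 527 (merge (leaf 3 526 526) (leaf 6 495 623))))) (merge (node 530 (merge (leaf 2 527 531) (node 558 (merge (leaf 2 526 529) (node 590 (merge (leaf 1 557 589) (leaf 1 558 591))))))) (node 526 (merge (leaf 3 526 527) (node 558 (merge (leaf 3 525 525) (node 529 (merge (leaf 2 526 530) (leaf 2 525 557)))))))))) (node 531 (merge (node 530 (merge (leaf 2 527 559) (node 532 (merge (leaf 1 529 533) (leaf 2 528 563))))) (merge (node 563 (merge (leaf 2 528 532) (node 596 (merge (leaf 0 560 595) (node 564 (merge (leaf 3 528 529) (leaf 0 561 597))))))) (node 559 (merge (leaf 2 527 530) (node 590 (merge (leaf 1 558 591) (node 558 (merge (leaf 1 557 589) (node 557 (merge (leaf 2 525 529) (node 525 (merge (leaf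 3 524 524) (leaf 3 525 526))))))))))))))))))))) (node 497 (merge (node 465 (merge (leaf 6 464 592) (node 433 (merge (leaf 5 400 401) (leaf 5 432 529))))) (merge (node 592 (merge (leaf 6 464 465) (node 625 (merge (leaf 4 496 593) (node 624 (merge (leaf 4 528 657) (node 623 (merge (leaf 5 495 591) (leaf 5 527 655))))))))) (merge (node 498 (merge (node 499 (merge (leaf 1 495 527) (node 532 (merge (leaf 0 496 531) (node 500 (merge (leaf 1 496 529) (leaf 0 497 533))))))) (merge (node 495 (merge (node 531 (merge (leaf 0 495 530) (node 499 (merge (leaf 0 496 532) (node 467 (merge (leaf 2 463 466) (leaf 2 464 468))))))) (node 592 (merge (leaf 7 463 463) (node 625 (merge (leaf 4 496 593) (node 624 (merge (leaf 4 528 657) (node 623 (merge (leaf 5 495 591) (leaf 5 527 655))))))))))) (node 495 (merge (node 463 (merge (leaf 3 462 462) (node 431 (merge (leaf 4 399 399) (leaf 4 431 527))))) (merge (node 592 (merge (leaf 7 463 463) (node 625 (merge (leaf 4 496 593) (node 624 (merge (leaf 6 496 529) (leaf 4 528 657))))))) (node 527 (merge (leaf 1 494 526) (node 466 (merge (leaf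 2 463 467) (node 592 (merge (leaf 7 495 624) (node 593 (merge (leaf 4 496 625) (node 591 (merge (leaf 5 495 623) (node 561 (merge (leaf 6 465 529) (node 562 (merge (leaf 1 559 563) (leaf 2 558 590))))))))))))))))))))) (node 498 (merge (node 527 (merge (leaf 1 495 499) (node 526 (merge (leaf 1 494 495) (leaf 2 493 525))))) (merge (node 499 (merge (leaf 1 495 527) (node 468 (merge (leaf 2 464 467) (node 500 (merge (leaf 2 465 469) (leaf 1 496 529))))))) (merge (node 499 (merge (node 468 (merge (leaf 2 464 467) (node 500 (merge (leaf 2 465 469) (leaf 1 496 529))))) (merge (node 532 (merge (leaf 0 496 531) (node 500 (merge (leaf 1 496 529) (leaf 0 497 533))))) (node 531 (merge (leaf 0 496 532) (node 530 (merge (leaf 0 495 495) (node 467 (merge (leaf 2 464 468) (node 435 (merge (leaf 5 402 403) (leaf 5 434 562)))))))))))) (node 530 (merge (node 495 (merge (leaf 0 495 531) (node 463 (merge (leaf 3 462 462) (node 431 (merge (leaf 4 399 399) (leaf 4 431 527))))))) (merge (node 531 (merge (leaf 0 495 495) (node 529 (merge (leaf 3 496 532) (leaf 1 527 559))))) (merge (node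 466 (merge (node 467 (merge (leaf 2 463 495) (node 468 (merge (leaf 1 464 465) (leaf 1 465 469))))) (merge (node 495 (merge (leaf 2 463 467) (node 463 (merge (leaf 3 462 462) (node 431 (merge (leaf 4 399 399) (leaf 4 431 527))))))) (node 561 (merge (node 529 (merge (leaf 6 465 593) (node 434 (merge (leaf 5 401 402) (leaf 5 433 530))))) (merge (node 562 (merge (leaf 5 465 593) (node 563 (merge (leaf 3 527 527) (leaf 4 466 595))))) (node 434 (merge (leaf 5 433 529) (node 433 (merge (leaf 7 401 401) (node 562 (merge (leaf 7 433 465) (node 563 (merge (leaf 3 527 527) (leaf 4 466 595))))))))))))))) (node 466 (merge (node 529 (merge (node 434 (merge (leaf 5 401 402) (node 433 (merge (leaf 7 401 401) (leaf 5 432 465))))) (merge (node 561 (merge (leaf 6 465 593) (node 434 (merge (leaf 5 401 402) (leaf 5 433 530))))) (node 531 (merge (leaf 3 496 532) (leaf 1 527 559)))))) (merge (node 465 (merge (node 433 (merge (leaf 5 400 401) (leaf 5 432 529))) (node 467 (merge (leaf 1 464 468) (node 562 (merge (leaf 6 434 435) (node 563 (merge (leaf 4 466 595) (node 561 (merge (leaf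 3 527 527) (leaf 5 465 593))))))))))) (merge (node 465 (merge (node 433 (merge (leaf 5 400 401) (leaf 5 432 529))) (merge (node 467 (merge (leaf 1 464 468) (node 562 (merge (leaf 7 433 433) (leaf 6 434 435))))) (node 467 (merge (leaf 1 464 468) (node 562 (merge (leaf 6 434 435) (node 563 (merge (leaf 4 466 595) (node 434 (merge (leaf 4 434 531) (node 402 (merge (leaf 5 369 370) (leaf 5 401 529)))))))))))))) (merge (node 561 (merge (node 529 (merge (leaf 6 465 593) (node 434 (merge (leaf 5 401 402) (leaf 5 433 530))))) (merge (node 562 (merge (leaf 5 465 593) (node 563 (merge (leaf 3 527 527) (leaf 4 466 595))))) (node 531 (merge (node 532 (merge (leaf 1 528 529) (leaf 3 497 533))) (node 562 (merge (leaf 2 527 559) (node 563 (merge (leaf 3 527 527) (node 595 (merge (leaf 0 560 596) (node 627 (merge (leaf 7 498 498) (leaf 7 530 659)))))))))))))) (node 433 (merge (node 401 (merge (leaf 7 401 434) (leaf 4 401 465))) (merge (node 434 (merge (leaf 7 401 401) (node 563 (merge (leaf 4 434 531) (node 435 (merge (leaf 6 402 403) (node 562 (merge (leaf 6 434 467) (node 561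 (merge (leaf 3 527 527) (leaf 5 465 593))))))))))) (node 562 (merge (leaf 7 433 465) (node 563 (merge (leaf 4 466 595) (node 561 (merge (leaf 3 527 527) (leaf 5 465 593)))))))))))))))))))))))))))))))) (merge (hyp 0) (merge (node 496 (merge (node 465 (merge (node 497 (merge (leaf 6 464 592) (node 433 (merge (leaf 5 400 401) (leaf 5 432 529))))) (merge (node 433 (merge (leaf 6 432 464) (node 497 (merge (leaf 5 400 401) (leaf 5 432 529))))) (merge (node 592 (merge (leaf 6 464 497) (node 591 (merge (leaf 5 495 623) (node 464 (merge (leaf 5 463 559) (node 463 (merge (leaf 7 431 431) (leaf 7 463 495))))))))) (node 464 (merge (leaf 6 432 433) (node 591 (merge (leaf 5 463 559) (node 463 (merge (leaf 7 431 431) (node 592 (merge (leaf 7 463 495) (leaf 5 495 623))))))))))))) (merge (node 592 (merge (node 593 (merge (leaf 4 496 625) (node 464 (merge (leaf 4 464 561) (node 591 (merge (leaf 5 463 559) (leaf 5 495 623))))))) (merge (node 625 (merge (leaf 4 496 593) (node 624 (merge (leaf 4 528 657) (node 495 (merge (leaf 7 463 463) (leaf 7 495 527))))))) (node 623 (merge (leaf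 5 495 591) (node 495 (merge (leaf 7 463 463) (node 624 (merge (leaf 7 495 527) (leaf 5 527 655)))))))))) (merge (node 592 (merge (node 593 (merge (leaf 4 496 625) (node 464 (merge (leaf 4 464 561) (node 465 (merge (leaf 6 432 433) (leaf 6 464 497))))))) (merge (node 625 (merge (leaf 4 496 593) (node 624 (merge (leaf 4 528 657) (node 623 (merge (leaf 5 495 591) (leaf 5 527 655))))))) (node 497 (merge (leaf 6 464 465) (node 624 (merge (leaf 6 496 529) (node 623 (merge (leaf 5 495 591) (leaf 5 527 655)))))))))) (merge (node 464 (merge (node 593 (merge (leaf 4 464 561) (node 592 (merge (leaf 4 496 625) (node 463 (merge (leaf 7 431 431) (leaf 7 463 495))))))) (merge (node 433 (merge (leaf 6 432 465) (node 432 (merge (leaf 6 400 401) (node 431 (merge (leaf 7 399 399) (leaf 7 431 463))))))) (node 593 (merge (leaf 4 464 561) (node 465 (merge (leaf 6 432 433) (node 592 (merge (leaf 6 464 497) (leaf 4 496 625)))))))))) (merge (node 561 (merge (node 464 (merge (leaf 4 464 593) (node 432 (merge (leaf 4 432 529) (node 433 (merge (leaf 6 400 401) (leaf 6 432 465))))))) (merge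 (node 464 (merge (leaf 4 464 593) (node 433 (merge (leaf 6 432 465) (node 432 (merge (leaf 6 400 401) (node 559 (merge (leaf 5 431 527) (leaf 5 463 591))))))))) (merge (node 559 (merge (node 591 (merge (leaf 5 463 464) (node 623 (merge (leaf 6 495 527) (leaf 6 527 655))))) (merge (node 464 (merge (leaf 5 463 591) (node 529 (merge (leaf 4 432 432) (node 558 (merge (leaf 2 526 530) (leaf 2 525 557))))))) (node 530 (merge (node 529 (merge (leaf 1 527 531) (leaf 2 526 558))) (merge (node 562 (merge (leaf 2 527 531) (node 527 (merge (leaf 3 526 526) (leaf 3 527 563))))) (node 558 (merge (leaf 2 526 529) (node 589 (merge (leaf 1 557 590) (node 557 (merge (leaf 1 556 588) (node 527 (merge (leaf 2 524 556) (node 562 (merge (leaf 3 526 526) (leaf 3 527 563))))))))))))))))) (node 562 (merge (node 527 (merge (leaf 3 527 563) (node 559 (merge (leaf 3 526 526) (node 591 (merge (leaf 1 558 590) (leaf 6 495 623))))))) (merge (node 563 (merge (leaf 3 527 527) (node 596 (merge (leaf 0 560 595) (node 564 (merge (leaf 3 528 529) (leaf 0 561 597))))))) (merge (node 563 (merge (node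 596 (merge (leaf 0 560 595) (node 564 (merge (leaf 3 528 529) (leaf 0 561 597))))) (merge (node 532 (merge (leaf 2 528 531) (node 564 (merge (leaf 3 528 529) (leaf 2 529 533))))) (node 595 (merge (leaf 0 560 596) (node 531 (merge (leaf 2 528 532) (node 530 (merge (leaf 2 527 559) (node 627 (merge (leaf 7 498 498) (leaf 7 530 659)))))))))))) (node 559 (merge (node 591 (merge (leaf 1 558 590) (node 527 (merge (leaf 3 526 526) (leaf 6 495 623))))) (merge (node 530 (merge (leaf 2 527 531) (node 558 (merge (leaf 2 526 529) (node 590 (merge (leaf 1 557 589) (leaf 1 558 591))))))) (node 530 (merge (leaf 2 527 531) (node 529 (merge (leaf 2 526 558) (node 527 (merge (leaf 0 526 526) (node 498 (merge (leaf 2 495 499) (node 593 (merge (leaf 5 465 466) (leaf 6 497 625)))))))))))))))))))))) (node 495 (merge (node 463 (merge (leaf 7 463 592) (node 431 (merge (leaf 4 399 399) (leaf 4 431 527))))) (merge (node 592 (merge (leaf 7 463 463) (node 625 (merge (leaf 4 496 593) (node 497 (merge (leaf 6 464 465) (node 624 (merge (leaf 6 496 529) (leaf 4 528 657))))))))) (merge (node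 497 (merge (node 465 (merge (leaf 6 464 592) (node 433 (merge (leaf 5 400 401) (leaf 5 432 529))))) (merge (node 592 (merge (leaf 6 464 465) (node 623 (merge (leaf 5 495 591) (node 624 (merge (leaf 7 495 527) (leaf 5 527 655))))))) (merge (node 498 (merge (node 527 (merge (leaf 1 495 499) (leaf 1 494 526))) (merge (node 531 (merge (leaf 0 495 530) (node 499 (merge (leaf 1 495 527) (leaf 0 496 532))))) (node 466 (merge (leaf 2 463 467) (node 494 (merge (leaf 2 462 465) (node 529 (merge (leaf 0 493 493) (leaf 0 494 530)))))))))) (node 529 (merge (node 530 (merge (leaf 0 494 494) (leaf 3 495 531))) (merge (node 494 (merge (leaf 0 493 493) (node 462 (merge (leaf 3 461 461) (node 592 (merge (leaf 6 496 624) (node 591 (merge (leaf 5 495 623) (node 559 (merge (leaf 7 462 527) (node 558 (merge (leaf 4 462 526) (leaf 2 525 557))))))))))))) (node 561 (merge (node 592 (merge (leaf 6 496 624) (node 591 (merge (leaf 5 495 623) (node 562 (merge (leaf 1 559 563) (node 590 (merge (leaf 1 558 559) (leaf 2 557 589))))))))) (node 593 (merge (leaf 7 496 625) (node 498 (merge (leaf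 6 465 466) (node 527 (merge (leaf 1 495 499) (leaf 1 494 526)))))))))))))))) (node 529 (merge (node 494 (merge (leaf 0 493 493) (node 530 (merge (leaf 0 494 497) (leaf 3 494 527))))) (merge (node 494 (merge (leaf 0 493 493) (node 530 (merge (leaf 0 494 497) (leaf 3 495 531))))) (merge (node 530 (merge (leaf 3 495 531) (node 527 (merge (leaf 3 494 494) (node 562 (merge (leaf 0 527 563) (node 561 (merge (leaf 0 526 526) (node 498 (merge (leaf 2 495 499) (node 593 (merge (leaf 5 465 466) (leaf 6 497 625))))))))))))) (merge (node 497 (merge (node 494 (merge (leaf 0 493 493) (node 465 (merge (leaf 5 432 433) (leaf 2 462 466))))) (merge (node 498 (merge (node 463 (merge (leaf 3 462 462) (node 431 (merge (leaf 4 399 399) (leaf 4 431 527))))) (node 467 (merge (leaf 2 463 466) (node 499 (merge (leaf 2 464 468) (node 532 (merge (leaf 0 496 531) (node 500 (merge (leaf 1 496 529) (leaf 0 497 533))))))))))) (node 494 (merge (leaf 0 493 493) (node 462 (merge (leaf 3 461 461) (node 498 (merge (leaf 3 462 463) (node 527 (merge (leaf 1 495 499) (leaf 1 494 526)))))))))))) (node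 530 (merge (node 531 (merge (leaf 3 495 495) (leaf 1 527 559))) (merge (node 531 (merge (leaf 3 495 496) (node 564 (merge (leaf 0 528 563) (node 532 (merge (leaf 1 528 561) (leaf 0 529 565))))))) (node 527 (merge (node 562 (merge (leaf 0 527 563) (node 526 (merge (leaf 0 526 561) (node 498 (merge (leaf 1 494 497) (leaf 2 495 499))))))) (merge (node 558 (merge (leaf 1 526 559) (node 526 (merge (leaf 1 525 557) (node 498 (merge (leaf 1 494 497) (leaf 2 495 499))))))) (merge (node 562 (merge (leaf 0 527 563) (node 559 (merge (leaf 1 526 558) (node 591 (merge (leaf 6 495 623) (node 590 (merge (leaf 1 558 561) (leaf 5 494 622))))))))) (node 562 (merge (leaf 0 527 563) (node 559 (merge (leaf 1 526 558) (node 498 (merge (leaf 2 495 499) (node 591 (merge (leaf 6 495 623) (node 561 (merge (leaf 1 558 590) (node 466 (merge (leaf 5 433 434) (leaf 5 465 593))))))))))))))))))))))))))))))))))) (merge (node 496 (merge (node 592 (merge (node 593 (merge (leaf 4 496 625) (node 464 (merge (leaf 4 464 561) (node 465 (merge (leaf 6 432 433) (leaf 6 464 497))))))) (merge (node 625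 (merge (leaf 4 496 593) (node 624 (merge (leaf 4 528 657) (node 623 (merge (leaf 5 495 591) (leaf 5 527 655))))))) (node 497 (merge (leaf 6 464 465) (node 624 (merge (leaf 6 496 529) (node 623 (merge (leaf 5 495 591) (leaf 5 527 655)))))))))) (merge (node 592 (merge (node 465 (merge (leaf 6 464 497) (node 464 (merge (leaf 6 432 433) (node 463 (merge (leaf 7 431 431) (leaf 7 463 495))))))) (node 625 (merge (leaf 4 496 593) (node 624 (merge (leaf 4 528 657) (node 623 (merge (leaf 5 495 591) (leaf 5 527 655))))))))) (merge (node 592 (merge (node 593 (merge (leaf 4 496 625) (node 464 (merge (leaf 4 464 561) (node 463 (merge (leaf 7 431 431) (leaf 7 463 495))))))) (merge (node 625 (merge (leaf 4 496 593) (node 624 (merge (leaf 4 528 657) (node 495 (merge (leaf 7 463 463) (leaf 7 495 527))))))) (merge (node 625 (merge (leaf 4 496 593) (node 624 (merge (leaf 4 528 657) (node 655 (merge (leaf 5 527 623) (node 656 (merge (leaf 5 559 687) (node 529 (merge (leaf 6 496 497) (leaf 6 528 561))))))))))) (node 495 (merge (leaf 7 463 463) (node 624 (merge (leaf 7 495 527) (node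 655 (merge (leaf 5 527 623) (node 656 (merge (leaf 5 559 687) (node 529 (merge (leaf 6 496 497) (leaf 6 528 561))))))))))))))) (merge (node 593 (merge (node 625 (merge (leaf 4 496 592) (node 561 (merge (leaf 7 496 529) (leaf 7 528 657))))) (merge (node 464 (merge (leaf 4 464 561) (node 433 (merge (leaf 6 432 465) (node 432 (merge (leaf 6 400 401) (node 431 (merge (leaf 7 399 399) (leaf 7 431 463))))))))) (node 592 (merge (leaf 4 496 625) (node 623 (merge (leaf 5 495 591) (node 495 (merge (leaf 7 463 463) (node 624 (merge (leaf 7 495 527) (leaf 5 527 655)))))))))))) (merge (node 465 (merge (node 433 (merge (leaf 6 432 464) (node 497 (merge (leaf 5 400 401) (leaf 5 432 529))))) (merge (node 464 (merge (leaf 6 432 433) (node 463 (merge (leaf 7 431 431) (node 495 (merge (leaf 7 463 592) (node 494 (merge (leaf 1 462 466) (leaf 2 461 493))))))))) (node 592 (merge (leaf 6 464 497) (node 495 (merge (leaf 7 463 463) (node 624 (merge (leaf 7 495 527) (node 657 (merge (leaf 4 528 625) (node 656 (merge (leaf 4 560 689) (node 655 (merge (leaf 5 527 623) (leaf 5 559 687))))))))))))))))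 (merge (node 495 (merge (node 592 (merge (leaf 7 463 463) (node 625 (merge (leaf 4 496 593) (node 624 (merge (leaf 7 495 527) (leaf 4 528 657))))))) (merge (node 592 (merge (leaf 7 463 463) (node 625 (merge (leaf 4 496 593) (node 497 (merge (leaf 6 464 465) (node 624 (merge (leaf 6 496 529) (leaf 4 528 657))))))))) (merge (node 494 (merge (node 529 (merge (leaf 0 493 493) (node 530 (merge (leaf 3 494 527) (leaf 3 495 531))))) (merge (node 493 (merge (leaf 0 493 529) (node 492 (merge (leaf 0 492 527) (node 524 (merge (leaf 1 491 523) (leaf 1 492 525))))))) (merge (node 497 (merge (node 466 (merge (leaf 2 462 465) (node 498 (merge (leaf 2 463 467) (node 462 (merge (leaf 3 461 461) (leaf 3 462 463))))))) (merge (node 461 (merge (leaf 3 461 462) (node 493 (merge (leaf 3 460 460) (node 492 (merge (leaf 0 492 527) (node 524 (merge (leaf 1 491 523) (leaf 1 492 525))))))))) (node 466 (merge (leaf 2 462 465) (node 498 (merge (leaf 2 463 467) (node 531 (merge (leaf 0 495 530) (node 499 (merge (leaf 1 495 527) (leaf 0 496 532)))))))))))) (node 497 (merge (node 465 (merge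 (leaf 2 462 466) (node 433 (merge (leaf 5 400 401) (leaf 5 432 529))))) (merge (node 530 (merge (leaf 0 494 529) (node 498 (merge (leaf 0 495 531) (node 462 (merge (leaf 3 461 461) (leaf 3 462 463))))))) (node 466 (merge (leaf 2 462 465) (node 498 (merge (leaf 2 463 467) (node 462 (merge (leaf 3 461 461) (leaf 3 462 463)))))))))))))) (node 497 (merge (node 465 (merge (leaf 6 464 592) (node 433 (merge (leaf 5 400 401) (leaf 5 432 529))))) (merge (node 592 (merge (leaf 6 464 465) (node 623 (merge (leaf 5 495 591) (node 624 (merge (leaf 7 495 527) (leaf 5 527 655))))))) (node 530 (merge (node 531 (merge (leaf 0 495 498) (leaf 3 495 529))) (merge (node 498 (merge (leaf 0 495 531) (node 467 (merge (leaf 2 463 466) (node 499 (merge (leaf 2 464 468) (leaf 1 495 527))))))) (node 494 (merge (leaf 0 494 529) (node 461 (merge (leaf 3 461 462) (node 493 (merge (leaf 3 460 460) (node 492 (merge (leaf 0 492 527) (node 524 (merge (leaf 1 491 523) (leaf 1 492 525))))))))))))))))))))) (hyp 1)))))))) (merge (node 592 (merge (node 624 (merge (node 657 (merge (leaf 4 528 625) (node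 656 (merge (leaf 4 560 689) (node 655 (merge (leaf 5 527 623) (leaf 5 559 687))))))) (merge (node 657 (merge (leaf 4 528 625) (node 656 (merge (leaf 4 560 689) (node 527 (merge (leaf 7 495 495) (leaf 7 527 559))))))) (merge (node 655 (merge (leaf 5 527 623) (node 656 (merge (leaf 5 559 687) (node 527 (merge (leaf 7 495 495) (leaf 7 527 559))))))) (node 625 (merge (leaf 4 528 657) (node 623 (merge (leaf 5 527 655) (node 591 (merge (leaf 5 495 496) (node 626 (merge (leaf 3 590 590) (leaf 3 591 627))))))))))))) (merge (node 624 (merge (node 657 (merge (leaf 4 528 625) (node 529 (merge (leaf 6 496 497) (node 656 (merge (leaf 6 528 561) (leaf 4 560 689))))))) (merge (node 657 (merge (leaf 4 528 625) (node 656 (merge (leaf 4 560 689) (node 655 (merge (leaf 5 527 623) (leaf 5 559 687))))))) (merge (node 529 (merge (leaf 6 496 497) (node 656 (merge (leaf 6 528 561) (node 655 (merge (leaf 5 527 623) (leaf 5 559 687))))))) (node 625 (merge (leaf 4 528 657) (node 623 (merge (leaf 5 527 655) (node 591 (merge (leaf 5 495 496) (node 626 (merge (leaf 3 590 590) (leaf 3 591 627)))))))))))))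 (merge (node 527 (merge (node 624 (merge (leaf 7 495 495) (node 656 (merge (leaf 7 527 559) (node 657 (merge (leaf 4 528 625) (leaf 4 560 689))))))) (merge (node 624 (merge (leaf 7 495 495) (node 657 (merge (leaf 4 528 625) (node 529 (merge (leaf 6 496 497) (node 656 (merge (leaf 6 528 561) (leaf 4 560 689))))))))) (merge (node 526 (merge (node 561 (merge (leaf 0 525 525) (node 562 (merge (leaf 0 526 529) (leaf 3 527 563))))) (merge (node 561 (merge (leaf 0 525 525) (node 562 (merge (leaf 3 526 559) (leaf 3 527 563))))) (merge (node 525 (merge (node 524 (merge (leaf 0 524 559) (node 556 (merge (leaf 1 523 555) (leaf 1 524 557))))) (merge (node 524 (merge (leaf 0 524 559) (node 492 (merge (leaf 3 491 491) (leaf 3 492 493))))) (node 557 (merge (leaf 1 524 556) (node 529 (merge (leaf 1 525 558) (node 493 (merge (leaf 3 492 492) (leaf 3 493 494)))))))))) (node 529 (merge (node 497 (merge (leaf 2 494 498) (node 465 (merge (leaf 5 432 433) (leaf 5 464 561))))) (merge (node 498 (merge (leaf 2 494 497) (node 530 (merge (leaf 2 495 499) (node 494 (merge (leaf 3 493 493)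 (leaf 3 494 495))))))) (node 562 (merge (node 561 (merge (leaf 0 526 526) (leaf 3 527 563))) (merge (node 530 (merge (leaf 0 527 563) (node 495 (merge (leaf 3 494 494) (node 463 (merge (leaf 4 431 431) (leaf 4 463 559))))))) (node 526 (merge (leaf 0 526 561) (node 558 (merge (leaf 1 525 557) (node 530 (merge (leaf 1 526 559) (node 494 (merge (leaf 3 493 493) (leaf 3 494 495))))))))))))))))))) (node 526 (merge (node 561 (merge (leaf 0 525 525) (node 562 (merge (leaf 0 526 529) (leaf 3 527 563))))) (merge (node 525 (merge (leaf 0 525 561) (node 524 (merge (leaf 0 524 559) (node 556 (merge (leaf 1 523 555) (leaf 1 524 557))))))) (merge (node 525 (merge (node 524 (merge (leaf 0 524 559) (node 492 (merge (leaf 3 491 491) (leaf 3 492 493))))) (merge (node 557 (merge (leaf 1 524 556) (node 529 (merge (leaf 1 525 558) (node 498 (merge (leaf 2 494 497) (node 530 (merge (leaf 2 495 499) (node 563 (merge (leaf 0 527 562) (node 531 (merge (leaf 1 527 559) (leaf 0 528 564))))))))))))) (node 556 (merge (leaf 1 524 557) (node 524 (merge (leaf 1 523 555) (node 492 (merge (leaf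 3 491 491) (leaf 3 492 493)))))))))) (node 529 (merge (node 497 (merge (leaf 2 494 498) (node 592 (merge (leaf 6 496 624) (node 465 (merge (leaf 5 432 433) (leaf 5 464 561))))))) (merge (node 562 (merge (leaf 0 526 561) (node 530 (merge (leaf 0 527 563) (node 558 (merge (leaf 1 525 557) (leaf 1 526 559))))))) (node 498 (merge (leaf 2 494 497) (node 530 (merge (leaf 2 495 499) (node 558 (merge (leaf 1 525 557) (leaf 1 526 559)))))))))))))))))) (hyp 2))))) (merge (hyp 3) (merge (node 592 (merge (node 624 (merge (node 657 (merge (leaf 4 528 625) (node 529 (merge (leaf 6 496 497) (node 656 (merge (leaf 6 528 561) (leaf 4 560 689))))))) (merge (node 657 (merge (leaf 4 528 625) (node 656 (merge (leaf 4 560 689) (node 655 (merge (leaf 5 527 623) (leaf 5 559 687))))))) (merge (node 529 (merge (leaf 6 496 497) (node 656 (merge (leaf 6 528 561) (node 655 (merge (leaf 5 527 623) (leaf 5 559 687))))))) (node 625 (merge (leaf 4 528 657) (node 623 (merge (leaf 5 527 655) (node 591 (merge (leaf 5 495 496) (node 626 (merge (leaf 3 590 590) (leaf 3 591 627))))))))))))) (merge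 (node 624 (merge (node 657 (merge (leaf 4 528 625) (node 656 (merge (leaf 4 560 689) (node 655 (merge (leaf 5 527 623) (leaf 5 559 687))))))) (merge (node 657 (merge (leaf 4 528 625) (node 656 (merge (leaf 4 560 689) (node 527 (merge (leaf 7 495 495) (leaf 7 527 559))))))) (merge (node 655 (merge (leaf 5 527 623) (node 656 (merge (leaf 5 559 687) (node 527 (merge (leaf 7 495 495) (leaf 7 527 559))))))) (node 625 (merge (leaf 4 528 657) (node 623 (merge (leaf 5 527 655) (node 591 (merge (leaf 5 495 496) (node 626 (merge (leaf 3 590 590) (leaf 3 591 627))))))))))))) (merge (node 495 (merge (node 527 (merge (leaf 7 495 624) (node 463 (merge (leaf 4 431 431) (leaf 4 463 559))))) (merge (node 624 (merge (leaf 7 495 527) (node 529 (merge (leaf 6 496 497) (node 656 (merge (leaf 6 528 561) (node 655 (merge (leaf 5 527 623) (leaf 5 559 687))))))))) (node 496 (merge (leaf 7 463 463) (node 591 (merge (leaf 5 495 623) (node 464 (merge (leaf 5 463 559) (node 561 (merge (leaf 4 464 593) (node 432 (merge (leaf 4 432 529) (node 401 (merge (leaf 6 400 433) (node 400 (merge (leaf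 6 368 369) (node 399 (merge (leaf 7 367 367) (leaf 7 399 431)))))))))))))))))))) (merge (node 529 (merge (node 624 (merge (leaf 6 496 497) (node 657 (merge (leaf 4 528 625) (node 656 (merge (leaf 6 528 561) (leaf 4 560 689))))))) (merge (node 624 (merge (leaf 6 496 497) (node 657 (merge (leaf 4 528 625) (node 656 (merge (leaf 4 560 689) (node 527 (merge (leaf 7 495 495) (leaf 7 527 559))))))))) (merge (node 527 (merge (node 495 (merge (leaf 7 495 624) (node 463 (merge (leaf 4 431 431) (leaf 4 463 559))))) (merge (node 624 (merge (leaf 7 495 495) (node 657 (merge (leaf 4 528 625) (node 656 (merge (leaf 6 528 561) (leaf 4 560 689))))))) (node 558 (merge (node 557 (merge (leaf 1 525 526) (leaf 2 525 559))) (merge (node 526 (merge (leaf 1 525 557) (node 525 (merge (leaf 0 525 561) (node 493 (merge (leaf 3 492 492) (leaf 3 493 494))))))) (node 530 (merge (leaf 1 526 559) (node 499 (merge (leaf 2 495 498) (node 531 (merge (leaf 2 496 500) (node 564 (merge (leaf 0 528 563) (node 532 (merge (leaf 1 528 561) (leaf 0 529 565))))))))))))))))) (node 530 (merge (node 559 (merge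 (leaf 1 527 531) (node 558 (merge (leaf 1 526 527) (leaf 2 525 557))))) (merge (node 531 (merge (leaf 1 527 559) (node 500 (merge (leaf 2 496 499) (node 532 (merge (leaf 2 497 501) (leaf 1 528 561))))))) (merge (node 527 (merge (node 559 (merge (leaf 1 526 558) (node 495 (merge (leaf 4 463 463) (leaf 3 494 494))))) (merge (node 498 (merge (leaf 2 495 499) (node 526 (merge (leaf 2 494 497) (node 494 (merge (leaf 3 493 493) (leaf 3 494 495))))))) (node 498 (merge (leaf 2 495 499) (node 526 (merge (leaf 2 494 497) (node 558 (merge (leaf 1 525 557) (leaf 1 526 559)))))))))) (node 531 (merge (node 564 (merge (leaf 0 528 563) (node 532 (merge (leaf 1 528 561) (leaf 0 529 565))))) (merge (node 564 (merge (leaf 0 528 563) (node 532 (merge (leaf 0 529 565) (node 500 (merge (leaf 2 496 499) (leaf 2 497 501))))))) (node 499 (merge (leaf 2 496 500) (node 527 (merge (leaf 2 495 498) (node 494 (merge (leaf 3 494 495) (node 526 (merge (leaf 3 493 493) (node 525 (merge (leaf 0 525 561) (node 557 (merge (leaf 1 524 556) (leaf 1 525 558)))))))))))))))))))))))) (node 591 (merge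 (node 623 (merge (leaf 5 495 496) (node 655 (merge (leaf 6 527 559) (leaf 6 559 687))))) (merge (node 496 (merge (leaf 5 495 623) (node 593 (merge (leaf 4 496 625) (node 561 (merge (leaf 4 464 464) (node 590 (merge (leaf 2 558 562) (leaf 2 557 589))))))))) (merge (node 590 (merge (node 561 (merge (leaf 2 557 589) (node 562 (merge (leaf 1 558 559) (leaf 1 559 563))))) (merge (node 561 (merge (leaf 2 557 589) (node 593 (merge (leaf 2 558 562) (node 625 (merge (leaf 0 590 626) (leaf 7 528 657))))))) (merge (node 589 (merge (node 588 (merge (leaf 2 556 559) (node 620 (merge (leaf 1 587 619) (leaf 1 588 621))))) (merge (node 621 (merge (leaf 1 588 620) (node 593 (merge (leaf 1 589 622) (node 557 (merge (leaf 3 556 556) (leaf 3 557 558))))))) (node 559 (merge (leaf 2 556 588) (node 557 (merge (leaf 3 556 556) (node 558 (merge (leaf 2 525 529) (leaf 0 557 593)))))))))) (node 593 (merge (node 625 (merge (leaf 4 496 496) (leaf 0 590 626))) (merge (node 625 (merge (leaf 0 590 626) (node 561 (merge (leaf 2 558 562) (leaf 7 528 657))))) (node 622 (merge (leaf 1 589 621) (node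 561 (merge (leaf 2 558 562) (node 558 (merge (leaf 3 557 557) (node 496 (merge (leaf 4 464 464) (node 495 (merge (leaf 7 463 463) (node 527 (merge (leaf 6 494 526) (leaf 5 494 559)))))))))))))))))))) (node 590 (merge (node 561 (merge (leaf 2 557 589) (node 562 (merge (leaf 1 559 563) (leaf 2 558 593))))) (merge (node 589 (merge (leaf 2 557 561) (node 588 (merge (leaf 2 556 559) (node 556 (merge (leaf 3 555 555) (leaf 3 556 557))))))) (merge (node 589 (merge (node 588 (merge (leaf 2 556 559) (node 620 (merge (leaf 1 587 619) (leaf 1 588 621))))) (merge (node 621 (merge (leaf 1 588 620) (node 593 (merge (leaf 1 589 622) (node 557 (merge (leaf 3 556 556) (leaf 3 557 558))))))) (node 559 (merge (leaf 2 556 588) (node 557 (merge (leaf 3 556 556) (node 558 (merge (leaf 0 557 593) (node 525 (merge (leaf 3 524 524) (node 622 (merge (leaf 4 493 493) (leaf 7 525 654)))))))))))))) (node 623 (merge (node 655 (merge (leaf 6 527 559) (leaf 6 559 687))) (merge (node 593 (merge (node 561 (merge (leaf 2 558 562) (node 558 (merge (leaf 3 557 557) (node 526 (merge (leaf 4 494 494)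 (node 525 (merge (leaf 0 525 527) (leaf 3 525 559))))))))) (merge (node 625 (merge (leaf 0 590 626) (node 657 (merge (leaf 7 528 561) (leaf 7 560 689))))) (node 622 (merge (leaf 1 589 621) (node 558 (merge (leaf 3 557 557) (node 526 (merge (leaf 4 494 494) (node 527 (merge (leaf 6 494 495) (node 654 (merge (leaf 5 526 559) (node 685 (merge (leaf 5 557 653) (node 686 (merge (leaf 5 589 717) (leaf 6 590 718)))))))))))))))))) (node 593 (merge (node 625 (merge (leaf 0 590 626) (node 561 (merge (leaf 2 558 562) (leaf 7 528 657))))) (node 558 (merge (leaf 3 557 557) (node 655 (merge (leaf 7 558 687) (node 526 (merge (leaf 4 494 494) (leaf 4 526 622))))))))))))))))))))))))) (merge (hyp 4) (merge (hyp 5) (merge (node 496 (merge (node 465 (merge (node 497 (merge (leaf 6 464 592) (node 433 (merge (leaf 5 400 401) (leaf 5 432 529))))) (merge (node 433 (merge (leaf 6 432 464) (node 497 (merge (leaf 5 400 401) (leaf 5 432 529))))) (merge (node 592 (merge (leaf 6 464 497) (node 591 (merge (leaf 5 495 623) (node 464 (merge (leaf 5 463 559) (node 463 (merge (leaf 7 431 431) (leaf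 7 463 495))))))))) (node 464 (merge (leaf 6 432 433) (node 591 (merge (leaf 5 463 559) (node 463 (merge (leaf 7 431 431) (node 592 (merge (leaf 7 463 495) (leaf 5 495 623))))))))))))) (merge (node 592 (merge (node 593 (merge (leaf 4 496 625) (node 464 (merge (leaf 4 464 561) (node 591 (merge (leaf 5 463 559) (leaf 5 495 623))))))) (merge (node 625 (merge (leaf 4 496 593) (node 624 (merge (leaf 4 528 657) (node 495 (merge (leaf 7 463 463) (leaf 7 495 527))))))) (node 623 (merge (leaf 5 495 591) (node 495 (merge (leaf 7 463 463) (node 624 (merge (leaf 7 495 527) (leaf 5 527 655)))))))))) (merge (node 592 (merge (node 593 (merge (leaf 4 496 625) (node 464 (merge (leaf 4 464 561) (node 465 (merge (leaf 6 432 433) (leaf 6 464 497))))))) (merge (node 625 (merge (leaf 4 496 593) (node 624 (merge (leaf 4 528 657) (node 623 (merge (leaf 5 495 591) (leaf 5 527 655))))))) (node 497 (merge (leaf 6 464 465) (node 624 (merge (leaf 6 496 529) (node 623 (merge (leaf 5 495 591) (leaf 5 527 655)))))))))) (merge (node 464 (merge (node 593 (merge (leaf 4 464 561) (node 592 (merge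 (leaf 4 496 625) (node 463 (merge (leaf 7 431 431) (leaf 7 463 495))))))) (merge (node 433 (merge (leaf 6 432 465) (node 432 (merge (leaf 6 400 401) (node 431 (merge (leaf 7 399 399) (leaf 7 431 463))))))) (node 593 (merge (leaf 4 464 561) (node 465 (merge (leaf 6 432 433) (node 592 (merge (leaf 6 464 497) (leaf 4 496 625)))))))))) (merge (node 495 (merge (node 592 (merge (leaf 7 463 463) (node 625 (merge (leaf 4 496 593) (node 624 (merge (leaf 7 495 527) (leaf 4 528 657))))))) (merge (node 592 (merge (leaf 7 463 463) (node 625 (merge (leaf 4 496 593) (node 497 (merge (leaf 6 464 465) (node 624 (merge (leaf 6 496 529) (leaf 4 528 657))))))))) (merge (node 494 (merge (node 529 (merge (leaf 0 493 493) (node 530 (merge (leaf 3 494 527) (leaf 3 495 531))))) (merge (node 493 (merge (leaf 0 493 529) (node 492 (merge (leaf 0 492 527) (node 524 (merge (leaf 1 491 523) (leaf 1 492 525))))))) (merge (node 497 (merge (node 466 (merge (leaf 2 462 465) (node 498 (merge (leaf 2 463 467) (node 462 (merge (leaf 3 461 461) (leaf 3 462 463))))))) (merge (node 461 (merge (leaf 3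 461 462) (node 493 (merge (leaf 3 460 460) (node 492 (merge (leaf 0 492 527) (node 524 (merge (leaf 1 491 523) (leaf 1 492 525))))))))) (node 466 (merge (leaf 2 462 465) (node 498 (merge (leaf 2 463 467) (node 531 (merge (leaf 0 495 530) (node 499 (merge (leaf 1 495 527) (leaf 0 496 532)))))))))))) (node 497 (merge (node 465 (merge (leaf 2 462 466) (node 433 (merge (leaf 5 400 401) (leaf 5 432 529))))) (merge (node 530 (merge (leaf 0 494 529) (node 498 (merge (leaf 0 495 531) (node 462 (merge (leaf 3 461 461) (leaf 3 462 463))))))) (node 466 (merge (leaf 2 462 465) (node 498 (merge (leaf 2 463 467) (node 462 (merge (leaf 3 461 461) (leaf 3 462 463)))))))))))))) (node 497 (merge (node 465 (merge (leaf 6 464 592) (node 433 (merge (leaf 5 400 401) (leaf 5 432 529))))) (merge (node 592 (merge (leaf 6 464 465) (node 623 (merge (leaf 5 495 591) (node 624 (merge (leaf 7 495 527) (leaf 5 527 655))))))) (node 530 (merge (node 531 (merge (leaf 0 495 498) (leaf 3 495 529))) (merge (node 498 (merge (leaf 0 495 531) (node 467 (merge (leaf 2 463 466) (node 499 (merge (leaf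 2 464 468) (leaf 1 495 527))))))) (node 494 (merge (leaf 0 494 529) (node 461 (merge (leaf 3 461 462) (node 493 (merge (leaf 3 460 460) (node 492 (merge (leaf 0 492 527) (node 524 (merge (leaf 1 491 523) (leaf 1 492 525))))))))))))))))))))) (node 529 (merge (node 464 (merge (node 559 (merge (leaf 5 463 591) (node 558 (merge (leaf 2 525 557) (node 530 (merge (leaf 1 526 527) (leaf 1 527 531))))))) (node 433 (merge (leaf 6 432 465) (node 432 (merge (leaf 6 400 401) (node 431 (merge (leaf 7 399 399) (leaf 7 431 463))))))))) (merge (node 559 (merge (node 558 (merge (leaf 2 525 557) (node 530 (merge (leaf 1 527 531) (leaf 2 526 561))))) (node 464 (merge (leaf 5 463 591) (node 433 (merge (leaf 6 432 465) (node 432 (merge (leaf 6 400 401) (node 431 (merge (leaf 7 399 399) (leaf 7 431 463))))))))))) (merge (node 495 (merge (node 494 (merge (leaf 0 493 493) (node 530 (merge (leaf 3 494 527) (leaf 3 495 531))))) (node 464 (merge (node 561 (merge (leaf 4 432 432) (leaf 4 464 593))) (merge (node 433 (merge (leaf 6 432 465) (node 432 (merge (leaf 6 400 401) (node 431 (merge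 (leaf 7 399 399) (leaf 7 431 463))))))) (node 561 (merge (leaf 4 464 593) (node 465 (merge (leaf 6 432 433) (node 466 (merge (leaf 1 463 467) (node 434 (merge (leaf 6 433 497) (node 463 (merge (leaf 7 431 431) (leaf 2 431 435)))))))))))))))) (merge (node 464 (merge (node 561 (merge (leaf 4 432 432) (node 593 (merge (leaf 7 464 497) (leaf 7 496 625))))) (merge (node 559 (merge (leaf 5 463 591) (node 432 (merge (leaf 5 431 527) (node 431 (merge (leaf 7 399 399) (leaf 7 431 463))))))) (node 561 (merge (leaf 4 464 593) (node 559 (merge (leaf 5 463 591) (node 558 (merge (leaf 2 525 557) (node 590 (merge (leaf 1 557 589) (node 465 (merge (leaf 6 432 433) (node 463 (merge (leaf 7 431 431) (node 495 (merge (leaf 5 462 527) (node 494 (merge (leaf 1 462 466) (leaf 0 493 493)))))))))))))))))))) (merge (node 530 (merge (node 495 (merge (leaf 3 495 531) (node 494 (merge (leaf 0 493 493) (leaf 0 494 497))))) (node 559 (merge (node 558 (merge (leaf 2 525 557) (leaf 2 526 561))) (node 591 (merge (leaf 5 463 464) (node 623 (merge (leaf 6 495 527) (leaf 6 527 655))))))))) (node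 530 (merge (node 531 (merge (leaf 3 495 495) (leaf 1 527 559))) (merge (node 531 (merge (leaf 3 495 495) (node 532 (merge (leaf 3 496 497) (leaf 1 528 561))))) (merge (node 531 (merge (leaf 1 527 559) (node 532 (merge (leaf 3 496 497) (leaf 1 528 561))))) (node 559 (merge (node 558 (merge (leaf 2 525 557) (leaf 2 526 561))) (merge (node 558 (merge (leaf 1 526 527) (leaf 2 525 557))) (node 527 (merge (node 562 (merge (leaf 0 527 563) (node 498 (merge (leaf 2 495 499) (node 591 (merge (leaf 6 495 623) (node 561 (merge (leaf 1 558 590) (node 593 (merge (leaf 5 465 466) (leaf 6 497 625))))))))))) (merge (node 498 (merge (leaf 2 495 499) (node 495 (merge (leaf 3 494 494) (node 463 (merge (leaf 4 431 431) (node 462 (merge (leaf 7 430 430) (leaf 3 462 497))))))))) (merge (node 562 (merge (leaf 0 527 563) (node 495 (merge (leaf 3 494 494) (node 591 (merge (leaf 6 495 623) (node 590 (merge (leaf 1 558 561) (leaf 5 494 622))))))))) (node 498 (merge (leaf 2 495 499) (node 495 (merge (leaf 3 494 494) (node 463 (merge (leaf 4 431 431) (node 497 (merge (leaf 3 462 462) (node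 466 (merge (leaf 2 463 467) (node 434 (merge (leaf 5 401 402) (leaf 5 433 561)))))))))))))))))))))))))))))))))))) (merge (node 496 (merge (node 464 (merge (node 593 (merge (leaf 4 464 561) (node 592 (merge (leaf 4 496 625) (node 463 (merge (leaf 7 431 431) (leaf 7 463 495))))))) (merge (node 433 (merge (leaf 6 432 465) (node 432 (merge (leaf 6 400 401) (node 431 (merge (leaf 7 399 399) (leaf 7 431 463))))))) (node 593 (merge (leaf 4 464 561) (node 465 (merge (leaf 6 432 433) (node 592 (merge (leaf 6 464 497) (leaf 4 496 625)))))))))) (merge (node 592 (merge (node 593 (merge (leaf 4 496 625) (node 464 (merge (leaf 4 464 561) (node 463 (merge (leaf 7 431 431) (leaf 7 463 495))))))) (merge (node 625 (merge (leaf 4 496 593) (node 624 (merge (leaf 4 528 657) (node 495 (merge (leaf 7 463 463) (leaf 7 495 527))))))) (merge (node 625 (merge (leaf 4 496 593) (node 624 (merge (leaf 4 528 657) (node 655 (merge (leaf 5 527 623) (node 656 (merge (leaf 5 559 687) (node 529 (merge (leaf 6 496 497) (leaf 6 528 561))))))))))) (node 495 (merge (leaf 7 463 463) (node 624 (merge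 (leaf 7 495 527) (node 655 (merge (leaf 5 527 623) (node 656 (merge (leaf 5 559 687) (node 529 (merge (leaf 6 496 497) (leaf 6 528 561))))))))))))))) (merge (node 592 (merge (node 593 (merge (leaf 4 496 625) (node 464 (merge (leaf 4 464 561) (node 433 (merge (leaf 6 432 465) (node 432 (merge (leaf 6 400 401) (node 431 (merge (leaf 7 399 399) (leaf 7 431 463))))))))))) (merge (node 465 (merge (leaf 6 464 497) (node 464 (merge (leaf 6 432 433) (node 561 (merge (leaf 4 464 593) (node 432 (merge (leaf 4 432 529) (node 431 (merge (leaf 7 399 399) (leaf 7 431 463))))))))))) (merge (node 625 (merge (leaf 4 496 593) (node 624 (merge (leaf 4 528 657) (node 655 (merge (leaf 5 527 623) (node 656 (merge (leaf 5 559 687) (node 529 (merge (leaf 6 496 497) (leaf 6 528 561))))))))))) (node 497 (merge (leaf 6 464 465) (node 624 (merge (leaf 6 496 529) (node 657 (merge (leaf 4 528 625) (node 656 (merge (leaf 4 560 689) (node 655 (merge (leaf 5 527 623) (leaf 5 559 687))))))))))))))) (merge (node 465 (merge (node 433 (merge (leaf 6 432 464) (node 497 (merge (leaf 5 400 401) (leaf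 5 432 529))))) (merge (node 464 (merge (leaf 6 432 433) (node 463 (merge (leaf 7 431 431) (node 495 (merge (leaf 7 463 592) (node 494 (merge (leaf 1 462 466) (leaf 2 461 493))))))))) (node 592 (merge (leaf 6 464 497) (node 495 (merge (leaf 7 463 463) (node 624 (merge (leaf 7 495 527) (node 657 (merge (leaf 4 528 625) (node 656 (merge (leaf 4 560 689) (node 655 (merge (leaf 5 527 623) (leaf 5 559 687)))))))))))))))) (merge (node 464 (merge (node 593 (merge (leaf 4 464 561) (node 592 (merge (leaf 4 496 625) (node 463 (merge (leaf 7 431 431) (leaf 7 463 495))))))) (merge (node 433 (merge (leaf 6 432 465) (node 432 (merge (leaf 6 400 401) (node 431 (merge (leaf 7 399 399) (leaf 7 431 463))))))) (node 561 (merge (leaf 4 464 593) (node 432 (merge (leaf 4 432 529) (node 527 (merge (leaf 5 431 559) (node 400 (merge (leaf 5 399 495) (node 369 (merge (leaf 6 368 401) (node 368 (merge (leaf 6 336 337) (node 367 (merge (leaf 7 335 335) (leaf 7 367 399)))))))))))))))))) (merge (node 464 (merge (node 593 (merge (leaf 4 464 561) (node 465 (merge (leaf 6 432 433) (node 592 (merge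 (leaf 6 464 497) (leaf 4 496 625))))))) (merge (node 561 (merge (leaf 4 464 593) (node 432 (merge (leaf 4 432 529) (node 527 (merge (leaf 5 431 559) (node 400 (merge (leaf 5 399 495) (node 369 (merge (leaf 6 368 401) (node 368 (merge (leaf 6 336 337) (node 367 (merge (leaf 7 335 335) (leaf 7 367 399))))))))))))))) (merge (node 433 (merge (leaf 6 432 465) (node 432 (merge (leaf 6 400 401) (node 529 (merge (leaf 4 432 561) (node 400 (merge (leaf 4 400 497) (node 527 (merge (leaf 5 399 495) (leaf 5 431 559))))))))))) (node 465 (merge (leaf 6 432 433) (node 592 (merge (leaf 6 464 497) (node 625 (merge (leaf 4 496 593) (node 624 (merge (leaf 4 528 657) (node 655 (merge (leaf 5 527 623) (node 656 (merge (leaf 5 559 687) (node 527 (merge (leaf 7 495 495) (leaf 7 527 559))))))))))))))))))) (merge (node 464 (merge (node 593 (merge (leaf 4 464 561) (node 465 (merge (leaf 6 432 433) (node 592 (merge (leaf 6 464 497) (leaf 4 496 625))))))) (merge (node 561 (merge (leaf 4 464 593) (node 432 (merge (leaf 4 432 529) (node 527 (merge (leaf 5 431 559) (node 400 (merge (leaf 5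 399 495) (node 369 (merge (leaf 6 368 401) (node 368 (merge (leaf 6 336 337) (node 367 (merge (leaf 7 335 335) (leaf 7 367 399))))))))))))))) (merge (node 465 (merge (leaf 6 432 433) (node 592 (merge (leaf 6 464 497) (node 625 (merge (leaf 4 496 593) (node 624 (merge (leaf 4 528 657) (node 495 (merge (leaf 7 463 463) (leaf 7 495 527))))))))))) (node 465 (merge (leaf 6 432 433) (node 592 (merge (leaf 6 464 497) (node 495 (merge (leaf 7 463 463) (node 624 (merge (leaf 7 495 527) (node 657 (merge (leaf 4 528 625) (node 656 (merge (leaf 4 560 689) (node 655 (merge (leaf 5 527 623) (leaf 5 559 687))))))))))))))))))) (merge (node 495 (merge (node 592 (merge (leaf 7 463 463) (node 625 (merge (leaf 4 496 593) (node 624 (merge (leaf 7 495 527) (leaf 4 528 657))))))) (merge (node 592 (merge (leaf 7 463 463) (node 625 (merge (leaf 4 496 593) (node 497 (merge (leaf 6 464 465) (node 624 (merge (leaf 6 496 529) (leaf 4 528 657))))))))) (merge (node 494 (merge (node 529 (merge (leaf 0 493 493) (node 530 (merge (leaf 3 494 527) (leaf 3 495 531))))) (merge (node 493 (merge (leaf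 0 493 529) (node 525 (merge (leaf 1 492 524) (node 497 (merge (leaf 1 493 526) (node 461 (merge (leaf 3 460 460) (leaf 3 461 462))))))))) (merge (node 497 (merge (node 465 (merge (leaf 2 462 466) (node 433 (merge (leaf 5 400 401) (leaf 5 432 529))))) (node 462 (merge (leaf 3 461 461) (node 498 (merge (leaf 3 462 463) (node 531 (merge (leaf 0 495 530) (node 499 (merge (leaf 1 495 527) (leaf 0 496 532))))))))))) (node 493 (merge (node 492 (merge (leaf 0 492 527) (node 524 (merge (leaf 1 491 523) (leaf 1 492 525))))) (merge (node 527 (merge (leaf 0 492 492) (node 461 (merge (leaf 3 460 460) (node 497 (merge (leaf 3 461 462) (node 498 (merge (leaf 1 495 499) (leaf 1 494 526))))))))) (merge (node 527 (merge (leaf 0 492 492) (node 525 (merge (leaf 1 492 524) (node 497 (merge (leaf 1 493 526) (node 498 (merge (leaf 1 495 499) (node 463 (merge (leaf 4 431 431) (leaf 3 462 462))))))))))) (node 525 (merge (leaf 1 492 524) (node 497 (merge (leaf 1 493 526) (node 461 (merge (leaf 3 460 460) (leaf 3 461 462))))))))))))))) (node 497 (merge (node 465 (merge (leaf 6 464 592)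 (node 433 (merge (leaf 5 400 401) (leaf 5 432 529))))) (merge (node 498 (merge (node 527 (merge (leaf 1 495 499) (node 526 (merge (leaf 1 494 495) (leaf 2 493 525))))) (merge (node 531 (merge (leaf 0 495 530) (node 499 (merge (leaf 0 496 532) (node 467 (merge (leaf 2 463 466) (leaf 2 464 468))))))) (node 466 (merge (leaf 2 463 467) (node 494 (merge (leaf 2 462 465) (node 526 (merge (leaf 1 493 525) (leaf 1 494 527)))))))))) (node 494 (merge (node 529 (merge (leaf 0 493 493) (leaf 0 494 530))) (merge (node 529 (merge (leaf 0 493 493) (leaf 0 494 530))) (merge (node 461 (merge (leaf 3 461 462) (node 493 (merge (leaf 3 460 460) (node 492 (merge (leaf 0 492 527) (node 524 (merge (leaf 1 491 523) (leaf 1 492 525))))))))) (node 530 (merge (leaf 0 494 529) (node 498 (merge (leaf 0 495 531) (node 526 (merge (leaf 1 493 525) (leaf 1 494 527)))))))))))))))))) (hyp 1)))))))))) (merge (hyp 6) (merge (node 592 (merge (node 496 (merge (node 593 (merge (leaf 4 496 625) (node 464 (merge (leaf 4 464 561) (node 465 (merge (leaf 6 432 433) (leaf 6 464 497))))))) (merge (node 625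 (merge (leaf 4 496 593) (node 624 (merge (leaf 4 528 657) (node 495 (merge (leaf 7 463 463) (leaf 7 495 527))))))) (node 465 (merge (leaf 6 464 497) (node 464 (merge (leaf 6 432 433) (node 463 (merge (leaf 7 431 431) (leaf 7 463 495)))))))))) (merge (node 496 (merge (node 593 (merge (leaf 4 496 625) (node 464 (merge (leaf 4 464 561) (node 463 (merge (leaf 7 431 431) (leaf 7 463 495))))))) (merge (node 625 (merge (leaf 4 496 593) (node 624 (merge (leaf 4 528 657) (node 623 (merge (leaf 5 495 591) (leaf 5 527 655))))))) (node 591 (merge (leaf 5 495 623) (node 464 (merge (leaf 5 463 559) (node 463 (merge (leaf 7 431 431) (leaf 7 463 495)))))))))) (merge (node 496 (merge (node 465 (merge (leaf 6 464 497) (node 464 (merge (leaf 6 432 433) (node 463 (merge (leaf 7 431 431) (leaf 7 463 495))))))) (merge (node 623 (merge (leaf 5 495 591) (node 495 (merge (leaf 7 463 463) (node 624 (merge (leaf 7 495 527) (leaf 5 527 655))))))) (node 465 (merge (leaf 6 464 497) (node 464 (merge (leaf 6 432 433) (node 591 (merge (leaf 5 463 559) (leaf 5 495 623)))))))))) (merge (node 624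 (merge (node 657 (merge (leaf 4 528 625) (node 656 (merge (leaf 4 560 689) (node 655 (merge (leaf 5 527 623) (leaf 5 559 687))))))) (merge (node 657 (merge (leaf 4 528 625) (node 656 (merge (leaf 4 560 689) (node 527 (merge (leaf 7 495 495) (leaf 7 527 559))))))) (merge (node 655 (merge (leaf 5 527 623) (node 656 (merge (leaf 5 559 687) (node 527 (merge (leaf 7 495 495) (leaf 7 527 559))))))) (node 625 (merge (leaf 4 528 657) (node 623 (merge (leaf 5 527 655) (node 591 (merge (leaf 5 495 496) (node 626 (merge (leaf 3 590 590) (leaf 3 591 627))))))))))))) (merge (node 624 (merge (node 657 (merge (leaf 4 528 625) (node 656 (merge (leaf 4 560 689) (node 655 (merge (leaf 5 527 623) (leaf 5 559 687))))))) (merge (node 625 (merge (leaf 4 528 657) (node 496 (merge (leaf 4 496 593) (node 591 (merge (leaf 5 495 623) (node 464 (merge (leaf 5 463 559) (node 433 (merge (leaf 6 432 465) (node 432 (merge (leaf 6 400 401) (node 431 (merge (leaf 7 399 399) (leaf 7 431 463))))))))))))))) (merge (node 655 (merge (leaf 5 527 623) (node 656 (merge (leaf 5 559 687) (node 559 (merge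 (leaf 7 527 527) (node 688 (merge (leaf 7 559 591) (node 689 (merge (leaf 4 560 657) (leaf 4 592 721))))))))))) (merge (node 657 (merge (leaf 4 528 625) (node 656 (merge (leaf 4 560 689) (node 559 (merge (leaf 7 527 527) (node 688 (merge (leaf 7 559 591) (node 687 (merge (leaf 5 559 655) (leaf 5 591 719))))))))))) (node 655 (merge (leaf 5 527 623) (node 656 (merge (leaf 5 559 687) (node 559 (merge (leaf 7 527 527) (node 688 (merge (leaf 7 559 591) (node 721 (merge (leaf 4 592 689) (node 720 (merge (leaf 4 624 753) (node 593 (merge (leaf 6 560 561) (leaf 6 592 625)))))))))))))))))))) (merge (node 591 (merge (node 623 (merge (leaf 5 495 496) (node 655 (merge (leaf 6 527 559) (leaf 6 559 687))))) (merge (node 496 (merge (leaf 5 495 623) (node 465 (merge (leaf 6 464 497) (node 464 (merge (leaf 6 432 433) (node 463 (merge (leaf 7 431 431) (leaf 7 463 495))))))))) (merge (node 593 (merge (node 496 (merge (leaf 4 496 625) (node 465 (merge (leaf 6 464 497) (node 464 (merge (leaf 6 432 433) (leaf 5 463 559))))))) (merge (node 590 (merge (node 625 (merge (leaf 0 590 626)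 (node 561 (merge (leaf 2 558 562) (leaf 7 528 657))))) (node 621 (merge (leaf 1 589 622) (node 589 (merge (leaf 1 588 620) (node 557 (merge (leaf 3 556 556) (leaf 3 557 558))))))))) (node 590 (merge (node 561 (merge (leaf 2 558 562) (leaf 2 557 589))) (merge (node 621 (merge (leaf 1 589 622) (node 589 (merge (leaf 1 588 620) (node 557 (merge (leaf 3 556 556) (leaf 3 557 558))))))) (node 622 (merge (leaf 1 589 621) (node 561 (merge (leaf 2 558 562) (node 558 (merge (leaf 3 557 557) (node 496 (merge (leaf 4 464 464) (node 495 (merge (leaf 7 463 463) (node 527 (merge (leaf 6 494 526) (leaf 5 494 559))))))))))))))))))) (node 590 (merge (node 561 (merge (leaf 2 557 589) (node 562 (merge (leaf 1 559 563) (leaf 2 558 593))))) (merge (node 589 (merge (leaf 2 557 561) (node 588 (merge (leaf 2 556 559) (node 556 (merge (leaf 3 555 555) (leaf 3 556 557))))))) (merge (node 589 (merge (node 588 (merge (leaf 2 556 559) (node 620 (merge (leaf 1 587 619) (leaf 1 588 621))))) (merge (node 621 (merge (leaf 1 588 620) (node 593 (merge (leaf 1 589 622) (node 557 (merge (leaf 3 556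 556) (leaf 3 557 558))))))) (node 559 (merge (leaf 2 556 588) (node 557 (merge (leaf 3 556 556) (node 558 (merge (leaf 0 557 593) (node 525 (merge (leaf 3 524 524) (node 622 (merge (leaf 4 493 493) (leaf 7 525 654)))))))))))))) (node 623 (merge (node 655 (merge (leaf 6 527 559) (leaf 6 559 687))) (merge (node 593 (merge (node 561 (merge (leaf 2 558 562) (node 558 (merge (leaf 3 557 557) (node 526 (merge (leaf 4 494 494) (node 525 (merge (leaf 0 525 527) (leaf 3 525 559))))))))) (merge (node 625 (merge (leaf 0 590 626) (node 657 (merge (leaf 7 528 561) (leaf 7 560 689))))) (node 622 (merge (leaf 1 589 621) (node 558 (merge (leaf 3 557 557) (node 526 (merge (leaf 4 494 494) (node 527 (merge (leaf 6 494 495) (node 654 (merge (leaf 5 526 559) (node 685 (merge (leaf 5 557 653) (node 686 (merge (leaf 5 589 717) (leaf 6 590 718)))))))))))))))))) (node 593 (merge (node 625 (merge (leaf 0 590 626) (node 561 (merge (leaf 2 558 562) (leaf 7 528 657))))) (node 558 (merge (leaf 3 557 557) (node 655 (merge (leaf 7 558 687) (node 526 (merge (leaf 4 494 494) (leaf 4 526 622))))))))))))))))))))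 (hyp 7)))))))) (merge (node 496 (merge (node 465 (merge (node 497 (merge (leaf 6 464 592) (node 433 (merge (leaf 5 400 401) (leaf 5 432 529))))) (merge (node 433 (merge (leaf 6 432 464) (node 497 (merge (leaf 5 400 401) (leaf 5 432 529))))) (merge (node 592 (merge (leaf 6 464 497) (node 591 (merge (leaf 5 495 623) (node 464 (merge (leaf 5 463 559) (node 463 (merge (leaf 7 431 431) (leaf 7 463 495))))))))) (node 464 (merge (leaf 6 432 433) (node 591 (merge (leaf 5 463 559) (node 463 (merge (leaf 7 431 431) (node 592 (merge (leaf 7 463 495) (leaf 5 495 623))))))))))))) (merge (node 592 (merge (node 465 (merge (leaf 6 464 497) (node 464 (merge (leaf 6 432 433) (node 463 (merge (leaf 7 431 431) (leaf 7 463 495))))))) (merge (node 465 (merge (leaf 6 464 497) (node 464 (merge (leaf 6 432 433) (node 591 (merge (leaf 5 463 559) (leaf 5 495 623))))))) (node 623 (merge (leaf 5 495 591) (node 495 (merge (leaf 7 463 463) (node 624 (merge (leaf 7 495 527) (leaf 5 527 655)))))))))) (merge (node 561 (merge (node 464 (merge (leaf 4 464 593) (node 432 (merge (leaf 4 432 529) (node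 433 (merge (leaf 6 400 401) (leaf 6 432 465))))))) (merge (node 464 (merge (leaf 4 464 593) (node 433 (merge (leaf 6 432 465) (node 432 (merge (leaf 6 400 401) (node 559 (merge (leaf 5 431 527) (leaf 5 463 591))))))))) (node 562 (merge (node 527 (merge (leaf 3 527 563) (node 559 (merge (leaf 3 526 526) (node 591 (merge (leaf 1 558 590) (leaf 6 495 623))))))) (merge (node 563 (merge (leaf 3 527 527) (node 596 (merge (leaf 0 560 595) (node 564 (merge (leaf 3 528 529) (leaf 0 561 597))))))) (merge (node 559 (merge (node 591 (merge (leaf 1 558 590) (node 527 (merge (leaf 3 526 526) (leaf 6 495 623))))) (merge (node 530 (merge (leaf 2 527 531) (node 558 (merge (leaf 2 526 529) (node 590 (merge (leaf 1 557 589) (leaf 1 558 591))))))) (node 526 (merge (leaf 3 526 527) (node 558 (merge (leaf 3 525 525) (node 529 (merge (leaf 2 526 530) (leaf 2 525 557)))))))))) (node 531 (merge (node 530 (merge (leaf 2 527 559) (node 532 (merge (leaf 1 529 533) (leaf 2 528 563))))) (merge (node 563 (merge (leaf 2 528 532) (node 596 (merge (leaf 0 560 595) (node 564 (merge (leaf 3 528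 529) (leaf 0 561 597))))))) (node 559 (merge (leaf 2 527 530) (node 590 (merge (leaf 1 558 591) (node 558 (merge (leaf 1 557 589) (node 557 (merge (leaf 2 525 529) (node 525 (merge (leaf 3 524 524) (leaf 3 525 526))))))))))))))))))))) (merge (node 497 (merge (node 465 (merge (leaf 6 464 592) (node 433 (merge (leaf 5 400 401) (leaf 5 432 529))))) (merge (node 498 (merge (node 527 (merge (leaf 1 495 499) (node 526 (merge (leaf 1 494 495) (leaf 2 493 525))))) (merge (node 499 (merge (leaf 1 495 527) (node 532 (merge (leaf 0 496 531) (node 500 (merge (leaf 0 497 533) (node 468 (merge (leaf 2 464 467) (leaf 2 465 469))))))))) (merge (node 592 (merge (leaf 6 464 465) (node 495 (merge (leaf 7 463 463) (node 531 (merge (leaf 0 495 530) (node 499 (merge (leaf 0 496 532) (node 467 (merge (leaf 2 463 466) (leaf 2 464 468))))))))))) (node 495 (merge (node 527 (merge (leaf 1 494 526) (node 463 (merge (leaf 4 431 431) (leaf 3 462 462))))) (merge (node 466 (merge (leaf 2 463 467) (node 494 (merge (leaf 2 462 465) (node 462 (merge (leaf 3 461 461) (leaf 3 462 463))))))) (node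 466 (merge (leaf 2 463 467) (node 494 (merge (leaf 2 462 465) (node 526 (merge (leaf 1 493 525) (leaf 1 494 527)))))))))))))) (merge (node 498 (merge (node 499 (merge (leaf 1 495 527) (node 532 (merge (leaf 0 496 531) (node 500 (merge (leaf 1 496 529) (leaf 0 497 533))))))) (merge (node 495 (merge (node 527 (merge (leaf 1 494 526) (node 463 (merge (leaf 4 431 431) (leaf 3 462 462))))) (merge (node 466 (merge (leaf 2 463 467) (node 494 (merge (leaf 2 462 465) (node 462 (merge (leaf 3 461 461) (leaf 3 462 463))))))) (node 466 (merge (leaf 2 463 467) (node 494 (merge (leaf 2 462 465) (node 526 (merge (leaf 1 493 525) (leaf 1 494 527)))))))))) (node 499 (merge (node 532 (merge (leaf 0 496 531) (node 500 (merge (leaf 1 496 529) (leaf 0 497 533))))) (merge (node 532 (merge (leaf 0 496 531) (node 500 (merge (leaf 0 497 533) (node 468 (merge (leaf 2 464 467) (leaf 2 465 469))))))) (node 467 (merge (leaf 2 464 468) (node 495 (merge (leaf 2 463 466) (node 462 (merge (leaf 3 462 463) (node 494 (merge (leaf 3 461 461) (node 493 (merge (leaf 0 493 529) (node 525 (merge (leaf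 1 492 524) (leaf 1 493 526))))))))))))))))))) (node 495 (merge (node 463 (merge (leaf 7 463 592) (node 431 (merge (leaf 4 399 399) (leaf 4 431 527))))) (merge (node 526 (merge (node 525 (merge (leaf 1 493 494) (leaf 2 493 527))) (merge (node 494 (merge (leaf 1 493 525) (node 529 (merge (leaf 0 493 493) (leaf 0 494 530))))) (node 498 (merge (leaf 1 494 527) (node 531 (merge (leaf 0 495 530) (node 499 (merge (leaf 0 496 532) (node 500 (merge (leaf 1 496 529) (node 468 (merge (leaf 2 464 467) (leaf 2 465 469)))))))))))))) (node 463 (merge (leaf 7 463 592) (node 498 (merge (leaf 3 462 462) (node 530 (merge (leaf 0 495 531) (node 529 (merge (leaf 0 494 494) (node 466 (merge (leaf 2 463 467) (node 561 (merge (leaf 5 433 434) (leaf 6 465 593)))))))))))))))))))) (node 591 (merge (node 559 (merge (leaf 5 463 464) (node 623 (merge (leaf 6 495 527) (leaf 6 527 655))))) (merge (node 464 (merge (leaf 5 463 559) (node 561 (merge (leaf 4 464 593) (node 432 (merge (leaf 4 432 529) (node 431 (merge (leaf 7 399 399) (leaf 7 431 463))))))))) (node 592 (merge (leaf 5 495 623) (node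 495 (merge (leaf 7 463 463) (node 624 (merge (leaf 7 495 527) (node 529 (merge (leaf 6 496 497) (node 656 (merge (leaf 6 528 561) (node 689 (merge (leaf 4 560 657) (node 688 (merge (leaf 4 592 721) (node 687 (merge (leaf 5 559 655) (leaf 5 591 719))))))))))))))))))))))))) (merge (hyp 8) (merge (node 496 (merge (node 592 (merge (node 591 (merge (leaf 5 495 623) (node 464 (merge (leaf 5 463 559) (node 463 (merge (leaf 7 431 431) (leaf 7 463 495))))))) (merge (node 625 (merge (leaf 4 496 593) (node 624 (merge (leaf 4 528 657) (node 623 (merge (leaf 5 495 591) (leaf 5 527 655))))))) (node 625 (merge (leaf 4 496 593) (node 624 (merge (leaf 4 528 657) (node 495 (merge (leaf 7 463 463) (leaf 7 495 527)))))))))) (merge (node 592 (merge (node 465 (merge (leaf 6 464 497) (node 464 (merge (leaf 6 432 433) (node 591 (merge (leaf 5 463 559) (leaf 5 495 623))))))) (merge (node 625 (merge (leaf 4 496 593) (node 497 (merge (leaf 6 464 465) (node 624 (merge (leaf 6 496 529) (leaf 4 528 657))))))) (node 625 (merge (leaf 4 496 593) (node 624 (merge (leaf 4 528 657) (node 623 (merge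 (leaf 5 495 591) (leaf 5 527 655)))))))))) (merge (node 465 (merge (node 433 (merge (leaf 6 432 464) (node 497 (merge (leaf 5 400 401) (leaf 5 432 529))))) (merge (node 464 (merge (leaf 6 432 433) (node 463 (merge (leaf 7 431 431) (node 495 (merge (leaf 7 463 592) (node 494 (merge (leaf 1 462 466) (leaf 2 461 493))))))))) (node 592 (merge (leaf 6 464 497) (node 625 (merge (leaf 4 496 593) (node 624 (merge (leaf 4 528 657) (node 495 (merge (leaf 7 463 463) (leaf 7 495 527)))))))))))) (merge (node 495 (merge (node 592 (merge (leaf 7 463 463) (node 625 (merge (leaf 4 496 593) (node 624 (merge (leaf 7 495 527) (leaf 4 528 657))))))) (merge (node 592 (merge (leaf 7 463 463) (node 625 (merge (leaf 4 496 593) (node 497 (merge (leaf 6 464 465) (node 624 (merge (leaf 6 496 529) (leaf 4 528 657))))))))) (merge (node 494 (merge (node 529 (merge (leaf 0 493 493) (node 530 (merge (leaf 3 494 527) (leaf 3 495 531))))) (merge (node 493 (merge (leaf 0 493 529) (node 492 (merge (leaf 0 492 527) (node 524 (merge (leaf 1 491 523) (leaf 1 492 525))))))) (merge (node 497 (merge (node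 466 (merge (leaf 2 462 465) (node 498 (merge (leaf 2 463 467) (node 462 (merge (leaf 3 461 461) (leaf 3 462 463))))))) (merge (node 461 (merge (leaf 3 461 462) (node 493 (merge (leaf 3 460 460) (node 492 (merge (leaf 0 492 527) (node 524 (merge (leaf 1 491 523) (leaf 1 492 525))))))))) (node 466 (merge (leaf 2 462 465) (node 498 (merge (leaf 2 463 467) (node 531 (merge (leaf 0 495 530) (node 499 (merge (leaf 1 495 527) (leaf 0 496 532)))))))))))) (node 497 (merge (node 465 (merge (leaf 2 462 466) (node 433 (merge (leaf 5 400 401) (leaf 5 432 529))))) (merge (node 530 (merge (leaf 0 494 529) (node 498 (merge (leaf 0 495 531) (node 462 (merge (leaf 3 461 461) (leaf 3 462 463))))))) (node 466 (merge (leaf 2 462 465) (node 498 (merge (leaf 2 463 467) (node 462 (merge (leaf 3 461 461) (leaf 3 462 463)))))))))))))) (node 497 (merge (node 465 (merge (leaf 6 464 592) (node 433 (merge (leaf 5 400 401) (leaf 5 432 529))))) (merge (node 592 (merge (leaf 6 464 465) (node 623 (merge (leaf 5 495 591) (node 624 (merge (leaf 7 495 527) (leaf 5 527 655))))))) (node 530 (merge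 (node 531 (merge (leaf 0 495 498) (leaf 3 495 529))) (merge (node 498 (merge (leaf 0 495 531) (node 467 (merge (leaf 2 463 466) (node 499 (merge (leaf 2 464 468) (leaf 1 495 527))))))) (node 494 (merge (leaf 0 494 529) (node 461 (merge (leaf 3 461 462) (node 493 (merge (leaf 3 460 460) (node 492 (merge (leaf 0 492 527) (node 524 (merge (leaf 1 491 523) (leaf 1 492 525))))))))))))))))))))) (hyp 9)))))) (merge (hyp 10) (merge (hyp 11) (merge (node 496 (merge (node 465 (merge (node 497 (merge (leaf 6 464 592) (node 433 (merge (leaf 5 400 401) (leaf 5 432 529))))) (merge (node 433 (merge (leaf 6 432 464) (node 497 (merge (leaf 5 400 401) (leaf 5 432 529))))) (merge (node 592 (merge (leaf 6 464 497) (node 591 (merge (leaf 5 495 623) (node 464 (merge (leaf 5 463 559) (node 463 (merge (leaf 7 431 431) (leaf 7 463 495))))))))) (node 464 (merge (leaf 6 432 433) (node 591 (merge (leaf 5 463 559) (node 463 (merge (leaf 7 431 431) (node 592 (merge (leaf 7 463 495) (leaf 5 495 623))))))))))))) (merge (node 592 (merge (node 593 (merge (leaf 4 496 625) (node 464 (merge (leaf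 4 464 561) (node 463 (merge (leaf 7 431 431) (leaf 7 463 495))))))) (merge (node 625 (merge (leaf 4 496 593) (node 624 (merge (leaf 4 528 657) (node 623 (merge (leaf 5 495 591) (leaf 5 527 655))))))) (node 591 (merge (leaf 5 495 623) (node 464 (merge (leaf 5 463 559) (node 463 (merge (leaf 7 431 431) (leaf 7 463 495)))))))))) (merge (node 592 (merge (node 593 (merge (leaf 4 496 625) (node 464 (merge (leaf 4 464 561) (node 465 (merge (leaf 6 432 433) (leaf 6 464 497))))))) (merge (node 625 (merge (leaf 4 496 593) (node 624 (merge (leaf 4 528 657) (node 623 (merge (leaf 5 495 591) (leaf 5 527 655))))))) (node 497 (merge (leaf 6 464 465) (node 624 (merge (leaf 6 496 529) (node 623 (merge (leaf 5 495 591) (leaf 5 527 655)))))))))) (merge (node 464 (merge (node 593 (merge (leaf 4 464 561) (node 592 (merge (leaf 4 496 625) (node 463 (merge (leaf 7 431 431) (leaf 7 463 495))))))) (merge (node 433 (merge (leaf 6 432 465) (node 432 (merge (leaf 6 400 401) (node 431 (merge (leaf 7 399 399) (leaf 7 431 463))))))) (node 593 (merge (leaf 4 464 561) (node 465 (merge (leaf 6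 432 433) (node 592 (merge (leaf 6 464 497) (leaf 4 496 625)))))))))) (merge (node 495 (merge (node 592 (merge (leaf 7 463 463) (node 625 (merge (leaf 4 496 593) (node 624 (merge (leaf 4 528 657) (node 623 (merge (leaf 5 495 591) (leaf 5 527 655))))))))) (merge (node 497 (merge (node 592 (merge (leaf 7 463 463) (leaf 6 464 465))) (merge (node 465 (merge (leaf 6 464 592) (node 433 (merge (leaf 5 400 401) (leaf 5 432 529))))) (merge (node 494 (merge (node 465 (merge (leaf 2 462 466) (node 433 (merge (leaf 5 400 401) (leaf 5 432 529))))) (merge (node 529 (merge (leaf 0 493 493) (leaf 0 494 530))) (node 466 (merge (leaf 2 462 465) (node 498 (merge (leaf 2 463 467) (node 462 (merge (leaf 3 461 461) (leaf 3 462 463)))))))))) (node 463 (merge (leaf 7 463 592) (node 498 (merge (leaf 3 462 462) (node 530 (merge (leaf 0 495 531) (node 529 (merge (leaf 0 494 494) (node 466 (merge (leaf 2 463 467) (node 561 (merge (leaf 5 433 434) (leaf 6 465 593))))))))))))))))) (merge (node 497 (merge (node 592 (merge (leaf 6 464 465) (node 625 (merge (leaf 4 496 593) (node 624 (merge (leaf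 4 528 657) (node 623 (merge (leaf 5 495 591) (leaf 5 527 655))))))))) (merge (node 494 (merge (node 465 (merge (leaf 2 462 466) (node 433 (merge (leaf 5 400 401) (leaf 5 432 529))))) (node 525 (merge (leaf 1 493 526) (node 493 (merge (leaf 1 492 524) (node 461 (merge (leaf 3 460 460) (leaf 3 461 462))))))))) (node 494 (merge (node 529 (merge (leaf 0 493 493) (leaf 0 494 530))) (merge (node 525 (merge (leaf 1 493 526) (node 493 (merge (leaf 1 492 524) (node 461 (merge (leaf 3 460 460) (leaf 3 461 462))))))) (node 529 (merge (leaf 0 494 530) (node 526 (merge (leaf 1 493 525) (node 462 (merge (leaf 3 461 461) (node 592 (merge (leaf 6 496 624) (node 593 (merge (leaf 4 496 625) (node 591 (merge (leaf 5 495 623) (node 558 (merge (leaf 4 462 559) (node 557 (merge (leaf 5 461 589) (leaf 3 557 590))))))))))))))))))))))) (node 494 (merge (node 529 (merge (leaf 0 493 493) (node 530 (merge (leaf 0 494 497) (leaf 3 495 531))))) (merge (node 493 (merge (leaf 0 493 529) (node 524 (merge (leaf 1 492 525) (node 492 (merge (leaf 1 491 523) (node 460 (merge (leaf 3 459 459) (leaf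 3 460 461))))))))) (merge (node 497 (merge (node 465 (merge (leaf 2 462 466) (node 433 (merge (leaf 5 400 401) (leaf 5 432 529))))) (merge (node 530 (merge (leaf 0 494 529) (node 498 (merge (leaf 0 495 531) (node 462 (merge (leaf 3 461 461) (leaf 3 462 463))))))) (node 466 (merge (leaf 2 462 465) (node 498 (merge (leaf 2 463 467) (node 462 (merge (leaf 3 461 461) (leaf 3 462 463)))))))))) (node 526 (merge (node 525 (merge (leaf 1 493 497) (node 524 (merge (leaf 1 492 493) (leaf 2 491 523))))) (merge (node 497 (merge (leaf 1 493 525) (node 466 (merge (leaf 2 462 465) (node 498 (merge (leaf 2 463 467) (node 462 (merge (leaf 3 461 461) (leaf 3 462 463))))))))) (merge (node 558 (merge (node 590 (merge (leaf 6 462 463) (node 623 (merge (leaf 4 494 591) (node 622 (merge (leaf 4 526 655) (node 493 (merge (leaf 7 461 461) (leaf 7 493 525))))))))) (merge (node 590 (merge (leaf 6 462 463) (node 591 (merge (leaf 4 494 623) (node 462 (merge (leaf 4 462 559) (node 589 (merge (leaf 5 461 557) (leaf 5 493 621))))))))) (merge (node 590 (merge (leaf 6 462 463) (node 621 (merge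 (leaf 5 493 589) (node 622 (merge (leaf 5 525 653) (node 493 (merge (leaf 7 461 461) (leaf 7 493 525))))))))) (node 525 (merge (node 524 (merge (leaf 1 492 493) (leaf 2 491 523))) (merge (node 559 (merge (leaf 3 525 561) (node 557 (merge (leaf 3 524 524) (node 462 (merge (leaf 5 429 430) (leaf 4 462 591))))))) (node 559 (merge (leaf 3 525 561) (node 462 (merge (leaf 4 462 591) (node 557 (merge (leaf 5 429 430) (leaf 5 461 589)))))))))))))) (node 462 (merge (node 497 (merge (leaf 3 461 461) (node 466 (merge (leaf 2 462 465) (node 498 (merge (leaf 3 462 463) (leaf 2 463 467))))))) (merge (node 461 (merge (leaf 3 461 497) (node 558 (merge (leaf 7 429 429) (node 589 (merge (leaf 5 461 557) (node 590 (merge (leaf 7 461 493) (leaf 5 493 621))))))))) (node 430 (merge (node 399 (merge (leaf 6 398 431) (node 398 (merge (leaf 6 366 367) (node 397 (merge (leaf 7 365 365) (leaf 7 397 429))))))) (merge (node 431 (merge (leaf 6 398 399) (node 558 (merge (leaf 6 430 463) (node 591 (merge (leaf 4 462 559) (node 590 (merge (leaf 4 494 623) (node 589 (merge (leaf 5 461 557) (leaf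 5 493 621))))))))))) (merge (node 397 (merge (leaf 7 397 429) (node 398 (merge (leaf 7 365 365) (node 463 (merge (leaf 4 366 366) (node 558 (merge (leaf 6 430 431) (leaf 6 462 590))))))))) (node 397 (merge (leaf 7 397 429) (node 398 (merge (leaf 7 365 365) (node 366 (merge (leaf 4 366 463) (node 367 (merge (leaf 6 334 335) (leaf 6 366 399)))))))))))))))))))))))))))) (hyp 12))))))) (hyp 13))))))))))))))))))))))) nB_25 cB_25 14 (by decide +kernel)

end Crest.Agent.H26Snaky
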