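import Crest.Agent.H26SnakyTree

/-! certificate data for S0047, part C 0 (computer generated) -/

set_option autoImplicit false
set_option maxRecDepth 100000

namespace Crest.Agent.H26Snaky

open T

def nC_0 : ℕ := 0x10000000100000001000000000000000000000000000000000000000000000000000000000000000000000000000000000000000000000000000000000000000000000000000000000000
def cC_0 : ℕ := 0x20000000f8000000f8000001f8000003ff000001ef000003ef0000006c00000060000000600000002000000000000000000000000000000000000000000000000000000000000000000000000000000000000000000000000000000000000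
theorem lC_0 : S nC_0 cC_0 12 := S_of_chk [] trivial (node 593 (merge (node 624 (merge (node 657 (merge (leaf 4 528 625) (node 656 (merge (leaf 4 560 689) (node 655 (merge (leaf 5 527 623) (leaf 5 559 687))))))) (merge (node 657 (merge (leaf 4 528 625) (node 529 (merge (leaf 6 496 497) (node 656 (merge (leaf 6 528 561) (leaf 4 560 689))))))) (merge (node 529 (merge (leaf 6 496 497) (node 656 (merge (leaf 6 528 561) (node 655 (merge (leaf 5 527 623) (leaf 5 559 687))))))) (node 623 (merge (leaf 5 527 655) (node 594 (merge (leaf 1 591 595) (node 622 (merge (leaf 1 590 591) (leaf 2 590 625))))))))))) (merge (node 624 (merge (node 623 (merge (leaf 5 527 655) (node 622 (merge (leaf 2 589 621) (node 594 (merge (leaf 1 590 591) (leaf 1 591 595))))))) (merge (node 529 (merge (leaf 6 496 497) (node 656 (merge (leaf 6 528 561) (node 655 (merge (leaf 5 527 623) (leaf 5 559 687))))))) (node 529 (merge (leaf 6 496 497) (node 656 (merge (leaf 6 528 561) (node 559 (merge (leaf 7 527 527) (node 688 (merge (leaf 7 559 591) (node 689 (merge (leaf 4 560 657) (leaf 4 592 721))))))))))))))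 (merge (node 624 (merge (node 625 (merge (leaf 4 528 657) (node 623 (merge (leaf 5 527 655) (node 622 (merge (leaf 2 590 594) (leaf 2 589 621))))))) (merge (node 657 (merge (leaf 4 528 625) (node 656 (merge (leaf 4 560 689) (node 559 (merge (leaf 7 527 527) (node 688 (merge (leaf 6 560 561) (leaf 7 559 591))))))))) (merge (node 655 (merge (leaf 5 527 623) (node 656 (merge (leaf 5 559 687) (node 689 (merge (leaf 4 560 657) (node 688 (merge (leaf 6 560 561) (leaf 4 592 721))))))))) (node 655 (merge (leaf 5 527 623) (node 656 (merge (leaf 5 559 687) (node 688 (merge (leaf 6 560 561) (node 721 (merge (leaf 4 592 689) (node 720 (merge (leaf 6 592 625) (leaf 4 624 753))))))))))))))) (merge (node 624 (merge (node 625 (merge (leaf 4 528 657) (node 623 (merge (leaf 5 527 655) (node 622 (merge (leaf 2 590 594) (leaf 2 589 621))))))) (merge (node 655 (merge (leaf 5 527 623) (node 656 (merge (leaf 5 559 687) (node 689 (merge (leaf 4 560 657) (node 688 (merge (leaf 6 560 561) (leaf 4 592 721))))))))) (merge (node 655 (merge (leaf 5 527 623) (node 656 (merge (leaf 5 559 687) (node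 688 (merge (leaf 6 560 561) (node 721 (merge (leaf 4 592 689) (node 720 (merge (leaf 6 592 625) (leaf 4 624 753))))))))))) (node 657 (merge (leaf 4 528 625) (node 656 (merge (leaf 4 560 689) (node 559 (merge (leaf 7 527 527) (node 558 (merge (leaf 0 557 557) (node 594 (merge (leaf 0 558 561) (leaf 3 559 595))))))))))))))) (merge (node 594 (merge (node 559 (merge (leaf 3 559 595) (node 591 (merge (leaf 3 558 558) (node 623 (merge (leaf 1 590 622) (leaf 6 527 655))))))) (merge (node 595 (merge (leaf 3 559 559) (node 628 (merge (leaf 0 592 627) (node 596 (merge (leaf 3 560 561) (leaf 0 593 629))))))) (merge (node 595 (merge (node 628 (merge (leaf 0 592 627) (node 596 (merge (leaf 3 560 561) (leaf 0 593 629))))) (merge (node 564 (merge (leaf 2 560 563) (node 596 (merge (leaf 3 560 561) (leaf 2 561 565))))) (node 627 (merge (leaf 0 592 628) (node 591 (merge (leaf 0 591 626) (node 563 (merge (leaf 2 559 562) (leaf 2 560 564)))))))))) (node 591 (merge (node 623 (merge (leaf 1 590 622) (node 559 (merge (leaf 3 558 558) (leaf 6 527 655))))) (merge (node 562 (merge (leaf 2 559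 563) (node 590 (merge (leaf 2 558 561) (node 622 (merge (leaf 1 589 621) (leaf 1 590 623))))))) (merge (node 562 (merge (leaf 2 559 563) (node 590 (merge (leaf 2 558 561) (node 621 (merge (leaf 1 589 622) (node 589 (merge (leaf 1 588 620) (node 557 (merge (leaf 3 556 556) (leaf 3 557 558))))))))))) (node 626 (merge (leaf 0 591 627) (node 590 (merge (leaf 0 590 625) (node 589 (merge (leaf 2 557 561) (node 559 (merge (leaf 3 558 558) (leaf 2 556 588))))))))))))))))) (merge (node 624 (merge (node 655 (merge (leaf 5 527 623) (node 656 (merge (leaf 5 559 687) (node 689 (merge (leaf 4 560 657) (node 688 (merge (leaf 6 560 561) (leaf 4 592 721))))))))) (merge (node 657 (merge (leaf 4 528 625) (node 656 (merge (leaf 4 560 689) (node 559 (merge (leaf 7 527 527) (node 688 (merge (leaf 6 560 561) (leaf 7 559 591))))))))) (merge (node 655 (merge (leaf 5 527 623) (node 656 (merge (leaf 5 559 687) (node 688 (merge (leaf 6 560 561) (node 721 (merge (leaf 4 592 689) (node 720 (merge (leaf 6 592 625) (leaf 4 624 753))))))))))) (node 625 (merge (leaf 4 528 657) (node 623 (merge (leaf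 5 527 655) (node 622 (merge (leaf 2 589 621) (node 590 (merge (leaf 3 589 589) (node 626 (merge (leaf 0 590 591) (node 659 (merge (leaf 0 623 658) (node 627 (merge (leaf 3 592 628) (leaf 0 624 660))))))))))))))))))) (merge (node 558 (merge (node 559 (merge (leaf 0 557 557) (node 594 (merge (leaf 3 558 591) (leaf 3 559 595))))) (merge (node 624 (merge (node 559 (merge (leaf 0 557 557) (node 656 (merge (leaf 7 527 527) (node 655 (merge (leaf 5 527 623) (leaf 5 559 687))))))) (merge (node 625 (merge (leaf 4 528 657) (node 623 (merge (leaf 5 527 655) (node 622 (merge (leaf 2 590 594) (leaf 2 589 621))))))) (node 559 (merge (leaf 0 557 557) (node 656 (merge (leaf 7 527 527) (node 657 (merge (leaf 4 528 625) (leaf 4 560 689)))))))))) (merge (node 624 (merge (node 559 (merge (leaf 0 557 557) (node 656 (merge (leaf 7 527 527) (node 655 (merge (leaf 5 527 623) (leaf 5 559 687))))))) (merge (node 559 (merge (leaf 0 557 557) (node 656 (merge (leaf 7 527 527) (node 657 (merge (leaf 4 528 625) (leaf 4 560 689))))))) (node 625 (merge (leaf 4 528 657) (node 623 (merge (leaf 5 527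 655) (node 622 (merge (leaf 2 589 621) (node 590 (merge (leaf 3 589 589) (node 626 (merge (leaf 0 590 591) (node 659 (merge (leaf 0 623 658) (node 627 (merge (leaf 3 592 628) (leaf 0 624 660)))))))))))))))))) (merge (node 624 (merge (node 623 (merge (leaf 5 527 655) (node 622 (merge (leaf 2 589 621) (node 594 (merge (leaf 1 590 591) (leaf 1 591 595))))))) (merge (node 625 (merge (leaf 4 528 657) (node 623 (merge (leaf 5 527 655) (node 622 (merge (leaf 2 590 594) (leaf 2 589 621))))))) (merge (node 657 (merge (leaf 4 528 625) (node 656 (merge (leaf 4 560 689) (node 559 (merge (leaf 7 527 527) (node 591 (merge (leaf 7 559 688) (node 594 (merge (leaf 3 558 558) (leaf 3 559 595))))))))))) (node 625 (merge (leaf 4 528 657) (node 623 (merge (leaf 5 527 655) (node 622 (merge (leaf 2 589 621) (node 590 (merge (leaf 3 589 589) (node 626 (merge (leaf 0 590 591) (node 659 (merge (leaf 0 623 658) (node 627 (merge (leaf 3 592 628) (leaf 0 624 660))))))))))))))))))) (node 591 (merge (node 590 (merge (leaf 3 557 557) (node 622 (merge (leaf 1 589 621) (node 623 (merge (leaf 1 590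 594) (node 655 (merge (leaf 4 526 526) (leaf 5 527 624))))))))) (merge (node 590 (merge (leaf 3 557 557) (node 625 (merge (leaf 0 590 626) (node 657 (merge (leaf 4 528 624) (leaf 7 560 689))))))) (merge (node 590 (merge (leaf 3 557 557) (node 626 (merge (leaf 0 590 625) (node 594 (merge (leaf 0 591 627) (node 622 (merge (leaf 1 589 621) (leaf 1 590 623))))))))) (merge (node 594 (merge (node 627 (merge (leaf 0 591 626) (node 595 (merge (leaf 0 592 628) (node 563 (merge (leaf 2 559 562) (leaf 2 560 564))))))) (merge (node 623 (merge (leaf 1 590 622) (node 655 (merge (leaf 5 527 624) (leaf 6 559 687))))) (node 623 (merge (leaf 1 590 622) (node 624 (merge (leaf 1 591 595) (leaf 5 527 655)))))))) (node 590 (merge (leaf 3 557 557) (node 625 (merge (leaf 0 590 626) (node 657 (merge (leaf 4 528 624) (leaf 7 560 689))))))))))))))))) (merge (node 594 (merge (node 559 (merge (leaf 3 559 595) (node 558 (merge (leaf 0 557 557) (leaf 0 558 561))))) (merge (node 595 (merge (leaf 3 559 559) (node 628 (merge (leaf 0 592 627) (node 596 (merge (leaf 0 593 629) (node 564 (merge (leaf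 2 560 563) (leaf 2 561 565))))))))) (merge (node 563 (merge (node 562 (merge (leaf 2 559 591) (node 561 (merge (leaf 3 527 527) (leaf 1 560 564))))) (merge (node 595 (merge (leaf 2 560 564) (node 628 (merge (leaf 0 592 627) (node 596 (merge (leaf 3 560 561) (leaf 0 593 629))))))) (merge (node 591 (merge (leaf 2 559 562) (node 627 (merge (leaf 0 591 626) (node 595 (merge (leaf 2 560 564) (leaf 0 592 628))))))) (node 591 (merge (leaf 2 559 562) (node 626 (merge (leaf 0 591 627) (node 590 (merge (leaf 0 590 625) (node 621 (merge (leaf 1 589 622) (node 589 (merge (leaf 2 557 561) (leaf 1 588 620))))))))))))))) (node 625 (merge (node 657 (merge (leaf 4 528 624) (leaf 7 560 689))) (merge (node 657 (merge (leaf 7 528 561) (leaf 7 560 689))) (node 591 (merge (node 626 (merge (leaf 0 590 590) (leaf 0 591 627))) (merge (node 562 (merge (leaf 2 559 563) (node 590 (merge (leaf 2 558 561) (node 622 (merge (leaf 1 589 621) (leaf 1 590 623))))))) (merge (node 590 (merge (leaf 0 590 626) (node 562 (merge (leaf 2 558 561) (node 594 (merge (leaf 2 559 563) (node 558 (merge (leaf 3 557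 557) (leaf 3 558 559))))))))) (node 626 (merge (leaf 0 591 627) (node 623 (merge (leaf 1 590 622) (node 562 (merge (leaf 2 559 563) (node 530 (merge (leaf 5 497 498) (node 529 (merge (leaf 7 497 497) (node 658 (merge (leaf 7 529 561) (node 659 (merge (leaf 0 623 624) (leaf 4 562 691)))))))))))))))))))))))))) (merge (node 594 (merge (node 559 (merge (leaf 3 559 595) (node 558 (merge (leaf 0 557 557) (leaf 0 558 561))))) (merge (node 595 (merge (leaf 3 559 559) (node 628 (merge (leaf 0 592 627) (node 596 (merge (leaf 0 593 629) (node 564 (merge (leaf 2 560 563) (leaf 2 561 565))))))))) (merge (node 563 (merge (node 562 (merge (leaf 2 559 591) (node 561 (merge (leaf 3 527 527) (leaf 1 560 564))))) (merge (node 595 (merge (leaf 2 560 564) (node 628 (merge (leaf 0 592 627) (node 596 (merge (leaf 3 560 561) (leaf 0 593 629))))))) (merge (node 591 (merge (leaf 2 559 562) (node 627 (merge (leaf 0 591 626) (node 595 (merge (leaf 2 560 564) (leaf 0 592 628))))))) (node 591 (merge (leaf 2 559 562) (node 626 (merge (leaf 0 591 627) (node 590 (merge (leaf 0 590 625) (node 561 (merge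 (leaf 2 557 589) (node 529 (merge (leaf 4 497 497) (node 624 (merge (leaf 6 528 656) (node 623 (merge (leaf 1 591 595) (leaf 5 527 655))))))))))))))))))) (node 562 (merge (node 563 (merge (leaf 2 559 591) (node 561 (merge (leaf 3 527 527) (leaf 1 560 564))))) (merge (node 591 (merge (leaf 2 559 563) (node 626 (merge (leaf 0 591 627) (node 625 (merge (leaf 0 590 590) (node 657 (merge (leaf 5 529 530) (leaf 4 528 624))))))))) (merge (node 624 (merge (node 657 (merge (leaf 4 528 625) (node 529 (merge (leaf 6 496 497) (node 656 (merge (leaf 6 528 561) (leaf 4 560 689))))))) (merge (node 655 (merge (leaf 5 527 623) (node 656 (merge (leaf 5 559 687) (node 559 (merge (leaf 7 527 527) (node 558 (merge (leaf 0 557 557) (leaf 0 558 561))))))))) (merge (node 625 (merge (leaf 4 528 657) (node 530 (merge (leaf 5 497 498) (node 529 (merge (leaf 6 496 497) (node 527 (merge (leaf 0 527 563) (node 559 (merge (leaf 1 526 558) (leaf 7 527 656))))))))))) (node 625 (merge (leaf 4 528 657) (node 530 (merge (leaf 5 497 498) (node 529 (merge (leaf 6 496 497) (node 527 (merge (leaf 0 527 563)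 (node 526 (merge (leaf 0 526 561) (node 558 (merge (leaf 1 525 557) (leaf 1 526 559))))))))))))))))) (node 626 (merge (node 627 (merge (leaf 0 591 591) (node 628 (merge (leaf 3 592 625) (leaf 3 593 629))))) (merge (node 591 (merge (leaf 0 591 627) (node 561 (merge (leaf 2 558 590) (node 658 (merge (leaf 7 529 529) (leaf 7 561 690))))))) (node 625 (merge (node 657 (merge (leaf 7 528 561) (leaf 4 528 624))) (merge (node 657 (merge (leaf 7 560 689) (node 530 (merge (leaf 5 497 498) (leaf 5 529 626))))) (node 530 (merge (leaf 5 497 498) (node 529 (merge (leaf 7 497 497) (node 658 (merge (leaf 7 529 561) (node 690 (merge (leaf 7 593 722) (node 691 (merge (leaf 4 562 659) (leaf 4 594 723))))))))))))))))))))))))) (node 529 (merge (node 497 (merge (leaf 6 496 624) (node 465 (merge (leaf 5 432 433) (leaf 5 464 561))))) (merge (node 624 (merge (leaf 6 496 497) (node 657 (merge (leaf 4 528 625) (node 656 (merge (leaf 4 560 689) (node 559 (merge (leaf 7 527 527) (node 688 (merge (leaf 7 559 591) (node 687 (merge (leaf 5 559 655) (leaf 5 591 719))))))))))))) (merge (node 561 (merge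 (node 497 (merge (leaf 5 464 465) (node 594 (merge (leaf 4 497 626) (node 595 (merge (leaf 3 559 559) (leaf 3 560 596))))))) (merge (node 625 (merge (leaf 7 528 657) (node 497 (merge (leaf 5 464 465) (node 498 (merge (leaf 6 465 466) (leaf 6 497 530))))))) (node 625 (merge (leaf 7 528 657) (node 626 (merge (leaf 4 529 658) (node 591 (merge (leaf 0 590 590) (node 627 (merge (leaf 0 591 594) (leaf 3 592 628)))))))))))) (node 594 (merge (node 595 (merge (leaf 3 559 559) (node 628 (merge (leaf 0 592 627) (node 596 (merge (leaf 3 560 561) (leaf 0 593 629))))))) (merge (node 595 (merge (leaf 3 559 559) (node 564 (merge (leaf 2 560 563) (node 596 (merge (leaf 3 560 561) (leaf 2 561 565))))))) (merge (node 591 (merge (node 626 (merge (leaf 0 591 627) (node 590 (merge (leaf 0 590 625) (node 589 (merge (leaf 2 557 561) (node 559 (merge (leaf 3 558 558) (leaf 2 556 588))))))))) (merge (node 562 (merge (leaf 2 559 563) (node 590 (merge (leaf 2 558 561) (node 625 (merge (leaf 0 590 626) (node 657 (merge (leaf 4 528 624) (leaf 7 560 689))))))))) (merge (node 626 (merge (leaf 0 591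 627) (node 625 (merge (leaf 0 590 590) (node 562 (merge (leaf 2 559 563) (node 657 (merge (leaf 5 529 530) (leaf 4 528 624))))))))) (merge (node 626 (merge (leaf 0 591 627) (node 562 (merge (leaf 2 559 563) (node 658 (merge (leaf 7 529 561) (node 657 (merge (leaf 5 561 689) (node 625 (merge (leaf 5 529 530) (leaf 4 528 624))))))))))) (node 562 (merge (leaf 2 559 563) (node 590 (merge (leaf 2 558 561) (node 621 (merge (leaf 1 589 622) (node 589 (merge (leaf 1 588 620) (node 557 (merge (leaf 3 556 556) (leaf 3 557 558)))))))))))))))) (merge (node 563 (merge (node 562 (merge (leaf 2 559 591) (node 561 (merge (leaf 3 527 527) (leaf 1 560 564))))) (merge (node 595 (merge (leaf 2 560 564) (node 628 (merge (leaf 0 592 627) (node 596 (merge (leaf 3 560 561) (leaf 0 593 629))))))) (merge (node 591 (merge (leaf 2 559 562) (node 627 (merge (leaf 0 591 626) (node 595 (merge (leaf 2 560 564) (leaf 0 592 628))))))) (node 591 (merge (leaf 2 559 562) (node 626 (merge (leaf 0 591 627) (node 590 (merge (leaf 0 590 625) (node 621 (merge (leaf 1 589 622) (node 589 (merge (leaf 2 557 561)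 (leaf 1 588 620))))))))))))))) (node 595 (merge (leaf 3 559 559) (node 563 (merge (leaf 2 560 564) (node 591 (merge (leaf 2 559 562) (node 626 (merge (leaf 0 591 627) (node 625 (merge (leaf 0 590 590) (node 657 (merge (leaf 4 528 624) (leaf 7 560 689)))))))))))))))))))))))))))))))) nC_0 cC_0 12 (by decide +kernel)
def nC_1 : ℕ := 0x100000001000000000000000000000000000000000000000000000000000000000000000000000000000000000000000000000000000000000000000000000000000000000000
def cC_1 : ℕ := 0x28000000380000003c000003ff000001ff000003ef8000006f0000001f8000003e0000003a00000028000000000000000000000000000000000000000000000000000000000000000000000000000000000000000000000000000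
theorem lC_1 : S nC_1 cC_1 13 := S_of_chk [] trivial (node 592 (merge (node 624 (merge (node 657 (merge (leaf 4 528 625) (node 656 (merge (leaf 4 560 689) (node 527 (merge (leaf 7 495 495) (leaf 7 527 559))))))) (merge (node 655 (merge (leaf 5 527 623) (node 656 (merge (leaf 5 559 687) (node 527 (merge (leaf 7 495 495) (leaf 7 527 559))))))) (node 625 (merge (leaf 4 528 657) (node 623 (merge (leaf 5 527 655) (node 591 (merge (leaf 5 495 496) (node 626 (merge (leaf 3 590 590) (leaf 3 591 627)))))))))))) (merge (node 625 (merge (node 593 (merge (leaf 4 496 496) (node 657 (merge (leaf 7 528 561) (leaf 7 560 689))))) (merge (node 657 (merge (leaf 4 528 624) (node 593 (merge (leaf 7 528 561) (leaf 7 560 689))))) (merge (node 496 (merge (leaf 4 496 593) (node 623 (merge (leaf 5 495 591) (node 495 (merge (leaf 7 463 463) (node 624 (merge (leaf 7 495 527) (leaf 5 527 655))))))))) (node 624 (merge (leaf 4 528 657) (node 623 (merge (leaf 5 527 655) (node 591 (merge (leaf 5 495 496) (node 626 (merge (leaf 3 590 590) (leaf 3 591 627))))))))))))) (merge (node 624 (merge (node 657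 (merge (leaf 4 528 625) (node 656 (merge (leaf 4 560 689) (node 527 (merge (leaf 7 495 495) (leaf 7 527 559))))))) (merge (node 655 (merge (leaf 5 527 623) (node 656 (merge (leaf 5 559 687) (node 527 (merge (leaf 7 495 495) (leaf 7 527 559))))))) (node 625 (merge (leaf 4 528 657) (node 593 (merge (leaf 4 496 496) (node 623 (merge (leaf 5 527 655) (node 622 (merge (leaf 2 590 594) (leaf 2 589 621)))))))))))) (merge (node 623 (merge (node 655 (merge (leaf 5 527 624) (node 591 (merge (leaf 6 527 559) (leaf 6 559 687))))) (merge (node 624 (merge (leaf 5 527 655) (node 625 (merge (leaf 4 528 657) (node 593 (merge (leaf 4 496 496) (node 622 (merge (leaf 2 590 594) (leaf 2 589 621))))))))) (node 496 (merge (leaf 5 495 591) (node 593 (merge (leaf 4 496 625) (node 464 (merge (leaf 4 464 561) (node 433 (merge (leaf 6 432 465) (node 432 (merge (leaf 6 400 401) (node 431 (merge (leaf 7 399 399) (leaf 7 431 463)))))))))))))))) (merge (node 495 (merge (node 527 (merge (leaf 7 495 624) (node 463 (merge (leaf 4 431 431) (leaf 4 463 559))))) (merge (node 624 (merge (leaf 7 495 527)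 (node 623 (merge (leaf 5 527 655) (node 496 (merge (leaf 5 495 591) (node 593 (merge (leaf 4 496 625) (node 561 (merge (leaf 4 464 464) (node 656 (merge (leaf 6 528 529) (leaf 6 560 688))))))))))))) (node 496 (merge (leaf 7 463 463) (node 593 (merge (leaf 4 496 625) (node 464 (merge (leaf 4 464 561) (node 591 (merge (leaf 5 463 559) (leaf 5 495 623)))))))))))) (merge (node 495 (merge (node 527 (merge (leaf 7 495 624) (node 463 (merge (leaf 4 431 431) (leaf 4 463 559))))) (merge (node 496 (merge (leaf 7 463 463) (node 625 (merge (leaf 4 496 593) (node 624 (merge (leaf 7 495 527) (leaf 4 528 657))))))) (merge (node 624 (merge (leaf 7 495 527) (node 625 (merge (leaf 4 528 657) (node 496 (merge (leaf 4 496 593) (node 591 (merge (leaf 5 495 623) (node 590 (merge (leaf 0 589 589) (node 559 (merge (leaf 5 463 464) (node 656 (merge (leaf 7 559 688) (node 561 (merge (leaf 6 528 529) (leaf 1 558 562))))))))))))))))) (node 496 (merge (leaf 7 463 463) (node 593 (merge (leaf 4 496 625) (node 464 (merge (leaf 4 464 561) (node 591 (merge (leaf 5 463 559) (leaf 5 495 623)))))))))))))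 (merge (node 624 (merge (node 625 (merge (leaf 4 528 657) (node 496 (merge (leaf 4 496 593) (node 495 (merge (leaf 7 463 463) (leaf 7 495 527))))))) (merge (node 657 (merge (leaf 4 528 625) (node 656 (merge (leaf 4 560 689) (node 527 (merge (leaf 7 495 495) (leaf 7 527 559))))))) (merge (node 527 (merge (leaf 7 495 495) (node 656 (merge (leaf 7 527 559) (node 687 (merge (leaf 5 559 655) (node 688 (merge (leaf 5 591 719) (node 561 (merge (leaf 6 528 529) (leaf 6 560 593))))))))))) (node 657 (merge (leaf 4 528 625) (node 656 (merge (leaf 4 560 689) (node 687 (merge (leaf 5 559 655) (node 688 (merge (leaf 5 591 719) (node 561 (merge (leaf 6 528 529) (leaf 6 560 593))))))))))))))) (merge (node 624 (merge (node 655 (merge (leaf 5 527 623) (node 656 (merge (leaf 5 559 687) (node 527 (merge (leaf 7 495 495) (leaf 7 527 559))))))) (merge (node 527 (merge (leaf 7 495 495) (node 656 (merge (leaf 7 527 559) (node 689 (merge (leaf 4 560 657) (node 688 (merge (leaf 4 592 721) (node 561 (merge (leaf 6 528 529) (leaf 6 560 593))))))))))) (merge (node 623 (merge (leaf 5 527 655) (node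 496 (merge (leaf 5 495 591) (node 463 (merge (leaf 7 463 495) (node 464 (merge (leaf 7 431 431) (node 561 (merge (leaf 4 464 593) (node 529 (merge (leaf 4 432 432) (leaf 6 528 656))))))))))))) (merge (node 495 (merge (leaf 7 495 527) (node 496 (merge (leaf 7 463 463) (node 591 (merge (leaf 5 495 623) (node 464 (merge (leaf 5 463 559) (node 561 (merge (leaf 4 464 593) (node 432 (merge (leaf 4 432 529) (node 433 (merge (leaf 6 400 401) (leaf 6 432 465))))))))))))))) (node 655 (merge (leaf 5 527 623) (node 656 (merge (leaf 5 559 687) (node 559 (merge (leaf 7 527 527) (node 688 (merge (leaf 7 559 591) (node 689 (merge (leaf 4 560 657) (leaf 4 592 721)))))))))))))))) (merge (node 593 (merge (node 625 (merge (leaf 4 496 496) (node 657 (merge (leaf 7 528 561) (leaf 7 560 689))))) (merge (node 496 (merge (leaf 4 496 625) (node 591 (merge (leaf 5 495 623) (node 559 (merge (leaf 5 463 464) (node 594 (merge (leaf 3 558 558) (leaf 3 559 595))))))))) (merge (node 594 (merge (node 559 (merge (leaf 3 559 595) (node 591 (merge (leaf 3 558 558) (node 623 (merge (leaf 1 590 622) (leaf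 6 527 655))))))) (merge (node 595 (merge (leaf 3 559 559) (node 628 (merge (leaf 0 592 627) (node 596 (merge (leaf 3 560 561) (leaf 0 593 629))))))) (merge (node 595 (merge (node 628 (merge (leaf 0 592 627) (node 596 (merge (leaf 3 560 561) (leaf 0 593 629))))) (merge (node 564 (merge (leaf 2 560 563) (node 596 (merge (leaf 3 560 561) (leaf 2 561 565))))) (node 627 (merge (leaf 0 592 628) (node 591 (merge (leaf 0 591 626) (node 563 (merge (leaf 2 559 562) (leaf 2 560 564)))))))))) (node 591 (merge (node 623 (merge (leaf 1 590 622) (node 559 (merge (leaf 3 558 558) (leaf 6 527 655))))) (merge (node 562 (merge (leaf 2 559 563) (node 590 (merge (leaf 2 558 561) (node 622 (merge (leaf 1 589 621) (leaf 1 590 623))))))) (merge (node 562 (merge (leaf 2 559 563) (node 590 (merge (leaf 2 558 561) (node 621 (merge (leaf 1 589 622) (node 589 (merge (leaf 1 588 620) (node 557 (merge (leaf 3 556 556) (leaf 3 557 558))))))))))) (node 626 (merge (leaf 0 591 627) (node 590 (merge (leaf 0 590 625) (node 589 (merge (leaf 2 557 561) (node 559 (merge (leaf 3 558 558) (leaf 2 556 588)))))))))))))))))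 (node 591 (merge (node 623 (merge (leaf 5 495 496) (node 655 (merge (leaf 6 527 559) (leaf 6 559 687))))) (merge (node 594 (merge (node 563 (merge (leaf 2 559 562) (node 595 (merge (leaf 3 559 559) (leaf 2 560 564))))) (merge (node 558 (merge (leaf 3 558 559) (node 590 (merge (leaf 3 557 557) (node 561 (merge (leaf 2 558 562) (leaf 2 557 589))))))) (merge (node 595 (merge (leaf 3 559 559) (node 564 (merge (leaf 2 560 563) (node 596 (merge (leaf 3 560 561) (leaf 2 561 565))))))) (node 562 (merge (leaf 2 559 563) (node 590 (merge (leaf 2 558 561) (node 621 (merge (leaf 1 589 622) (node 589 (merge (leaf 1 588 620) (node 557 (merge (leaf 3 556 556) (leaf 3 557 558))))))))))))))) (node 496 (merge (leaf 5 495 623) (node 464 (merge (leaf 4 464 561) (node 463 (merge (leaf 7 431 431) (leaf 7 463 495)))))))))))))) (node 527 (merge (node 624 (merge (leaf 7 495 495) (node 656 (merge (leaf 7 527 559) (node 657 (merge (leaf 4 528 625) (leaf 4 560 689))))))) (merge (node 624 (merge (leaf 7 495 495) (node 657 (merge (leaf 4 528 625) (node 656 (merge (leaf 4 560 689) (node 655 (merge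 (leaf 5 527 623) (leaf 5 559 687))))))))) (merge (node 526 (merge (node 561 (merge (leaf 0 525 525) (node 562 (merge (leaf 3 526 559) (leaf 3 527 563))))) (merge (node 525 (merge (leaf 0 525 561) (node 557 (merge (leaf 1 524 556) (node 529 (merge (leaf 1 525 558) (node 493 (merge (leaf 3 492 492) (leaf 3 493 494))))))))) (merge (node 525 (merge (node 524 (merge (leaf 0 524 559) (node 492 (merge (leaf 3 491 491) (leaf 3 492 493))))) (merge (node 524 (merge (leaf 0 524 559) (node 556 (merge (leaf 1 523 555) (leaf 1 524 557))))) (node 557 (merge (leaf 1 524 556) (node 493 (merge (leaf 3 492 492) (node 494 (merge (leaf 3 493 529) (node 589 (merge (leaf 6 461 462) (leaf 6 493 621)))))))))))) (node 558 (merge (node 557 (merge (leaf 1 525 529) (node 556 (merge (leaf 2 523 555) (leaf 2 524 559))))) (merge (node 529 (merge (leaf 1 525 557) (node 562 (merge (leaf 0 526 561) (node 530 (merge (leaf 0 527 563) (node 494 (merge (leaf 3 493 493) (leaf 3 494 495))))))))) (merge (node 494 (merge (node 493 (merge (leaf 3 493 529) (node 492 (merge (leaf 0 491 491) (leaf 0 492 495)))))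 (merge (node 529 (merge (leaf 3 493 493) (node 562 (merge (leaf 0 526 561) (node 530 (merge (leaf 1 526 559) (leaf 0 527 563))))))) (node 495 (merge (node 463 (merge (leaf 4 431 431) (leaf 4 463 559))) (node 590 (merge (leaf 6 494 622) (node 591 (merge (leaf 4 494 623) (node 589 (merge (leaf 2 557 561) (leaf 5 493 621)))))))))))) (node 559 (merge (node 557 (merge (leaf 2 524 556) (leaf 0 557 593))) (merge (node 561 (merge (leaf 3 526 562) (node 590 (merge (leaf 1 557 589) (node 495 (merge (leaf 4 463 463) (leaf 6 494 622))))))) (node 557 (merge (leaf 2 524 556) (node 589 (merge (leaf 1 556 588) (node 561 (merge (leaf 3 526 562) (leaf 1 557 590)))))))))))))))))) (node 526 (merge (node 561 (merge (leaf 0 525 525) (node 562 (merge (leaf 3 526 559) (leaf 3 527 563))))) (merge (node 525 (merge (leaf 0 525 561) (node 556 (merge (leaf 1 524 557) (node 524 (merge (leaf 1 523 555) (node 492 (merge (leaf 3 491 491) (leaf 3 492 493))))))))) (merge (node 529 (merge (node 562 (merge (leaf 0 526 561) (node 530 (merge (leaf 0 527 563) (node 558 (merge (leaf 1 525 557) (leaf 1 526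 559))))))) (merge (node 558 (merge (leaf 1 525 557) (node 559 (merge (leaf 1 526 530) (node 494 (merge (leaf 3 493 493) (node 591 (merge (leaf 4 462 462) (leaf 7 494 623))))))))) (merge (node 561 (merge (leaf 0 526 562) (node 494 (merge (leaf 3 493 493) (node 624 (merge (leaf 6 528 656) (node 625 (merge (leaf 4 528 657) (node 623 (merge (leaf 5 527 655) (node 591 (merge (leaf 7 494 559) (node 590 (merge (leaf 0 589 589) (leaf 3 590 626))))))))))))))) (node 561 (merge (leaf 0 526 562) (node 558 (merge (leaf 1 525 557) (node 494 (merge (leaf 3 493 493) (node 624 (merge (leaf 6 528 656) (node 625 (merge (leaf 4 528 657) (node 623 (merge (leaf 5 527 655) (node 590 (merge (leaf 4 494 591) (node 589 (merge (leaf 5 493 621) (leaf 3 589 622))))))))))))))))))))) (node 559 (merge (node 624 (merge (leaf 7 527 656) (node 623 (merge (leaf 5 527 655) (node 591 (merge (leaf 7 494 494) (node 622 (merge (leaf 5 526 654) (node 621 (merge (leaf 2 589 593) (leaf 2 588 620))))))))))) (merge (node 525 (merge (leaf 0 524 524) (node 557 (merge (leaf 1 524 556) (node 558 (merge (leaf 0 557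 593) (node 493 (merge (leaf 3 492 492) (node 461 (merge (leaf 4 429 429) (leaf 4 461 590))))))))))) (merge (node 525 (merge (leaf 0 524 524) (node 557 (merge (leaf 1 524 556) (node 558 (merge (leaf 0 557 593) (node 589 (merge (leaf 1 556 588) (node 493 (merge (leaf 3 492 492) (node 622 (merge (leaf 4 493 590) (node 621 (merge (leaf 6 493 494) (leaf 4 525 654))))))))))))))) (node 624 (merge (leaf 7 527 656) (node 625 (merge (leaf 4 528 657) (node 623 (merge (leaf 5 527 655) (node 591 (merge (leaf 7 494 494) (node 626 (merge (leaf 3 590 590) (leaf 3 591 627))))))))))))))))))))))))))))))))) nC_1 cC_1 13 (by decide +kernel)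
def nC_2 : ℕ := 0x100000001000000000000000000000000000000000000000000000000000000000000000000000000000000000000000000000000000000000000000000000000000000000000
def cC_2 : ℕ := 0x8000000380000003c00000074000000ff800000ef0000006f800001fe000001fc0000007c00000038000000280000000000000000000000000000000000000000000000000000000000000000000000000000000000000000000
theorem lC_2 : S nC_2 cC_2 11 := S_of_chk [] trivial (node 496 (merge (node 463 (merge (node 431 (merge (leaf 7 431 464) (node 495 (merge (leaf 4 399 399) (leaf 4 431 527))))) (merge (node 495 (merge (leaf 7 463 592) (node 431 (merge (leaf 4 399 399) (leaf 4 431 527))))) (merge (node 592 (merge (leaf 7 463 495) (node 593 (merge (leaf 4 496 625) (node 464 (merge (leaf 4 464 561) (node 465 (merge (leaf 6 432 433) (leaf 6 464 497))))))))) (node 464 (merge (leaf 7 431 431) (node 593 (merge (leaf 4 464 561) (node 465 (merge (leaf 6 432 433) (node 592 (merge (leaf 6 464 497) (leaf 4 496 625))))))))))))) (merge (node 464 (merge (node 561 (merge (leaf 4 464 593) (node 432 (merge (leaf 4 432 529) (node 431 (merge (leaf 7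 399 399) (leaf 7 431 463))))))) (merge (node 593 (merge (leaf 4 464 561) (node 465 (merge (leaf 6 432 433) (node 592 (merge (leaf 6 464 497) (leaf 4 496 625))))))) (node 433 (merge (leaf 6 432 465) (node 432 (merge (leaf 6 400 401) (node 431 (merge (leaf 7 399 399) (leaf 7 431 463)))))))))) (merge (node 463 (merge (node 431 (merge (leaf 7 431 464) (node 495 (merge (leaf 4 399 399) (leaf 7 463 592))))) (merge (node 495 (merge (leaf 7 463 592) (node 431 (merge (leaf 4 399 399) (leaf 4 431 527))))) (merge (node 464 (merge (leaf 7 431 431) (node 433 (merge (leaf 6 432 465) (node 432 (merge (leaf 6 400 401) (node 559 (merge (leaf 5 431 527) (leaf 5 463 591))))))))) (node 592 (merge (leaf 7 463 495) (node 465 (merge (leaf 6 464 497) (node 464 (merge (leaf 6 432 433) (node 561 (merge (leaf 4 464 593) (node 432 (merge (leaf 4 432 529) (node 559 (merge (leaf 5 431 527) (leaf 5 463 591))))))))))))))))) (merge (node 463 (merge (node 495 (merge (leaf 7 463 592) (node 431 (merge (leaf 4 399 399) (leaf 4 431 527))))) (merge (node 464 (merge (leaf 7 431 431) (node 561 (merge (leaf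 4 464 593) (node 529 (merge (leaf 4 432 432) (node 559 (merge (leaf 5 463 591) (node 558 (merge (leaf 2 526 530) (leaf 2 525 557))))))))))) (node 592 (merge (leaf 7 463 495) (node 593 (merge (leaf 4 496 625) (node 464 (merge (leaf 4 464 561) (node 559 (merge (leaf 5 463 591) (node 558 (merge (leaf 0 557 557) (node 527 (merge (leaf 5 431 432) (node 624 (merge (leaf 7 527 656) (node 529 (merge (leaf 6 496 497) (leaf 1 526 530)))))))))))))))))))) (merge (node 463 (merge (node 431 (merge (leaf 7 431 464) (node 495 (merge (leaf 4 399 399) (leaf 7 463 592))))) (merge (node 464 (merge (leaf 7 431 431) (node 433 (merge (leaf 6 432 465) (node 432 (merge (leaf 6 400 401) (node 559 (merge (leaf 5 431 527) (leaf 5 463 591))))))))) (node 592 (merge (leaf 7 463 495) (node 497 (merge (leaf 6 464 465) (node 624 (merge (leaf 6 496 529) (node 657 (merge (leaf 4 528 625) (node 656 (merge (leaf 4 560 689) (node 559 (merge (leaf 7 527 527) (node 688 (merge (leaf 7 559 591) (node 687 (merge (leaf 5 559 655) (leaf 5 591 719)))))))))))))))))))) (merge (node 464 (merge (node 433 (merge (leaf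 6 432 465) (node 432 (merge (leaf 6 400 401) (node 431 (merge (leaf 7 399 399) (leaf 7 431 463))))))) (merge (node 593 (merge (leaf 4 464 561) (node 592 (merge (leaf 4 496 625) (node 463 (merge (leaf 7 431 431) (leaf 7 463 495))))))) (merge (node 561 (merge (leaf 4 464 593) (node 432 (merge (leaf 4 432 529) (node 401 (merge (leaf 6 400 433) (node 400 (merge (leaf 6 368 369) (node 399 (merge (leaf 7 367 367) (leaf 7 399 431))))))))))) (node 561 (merge (leaf 4 464 593) (node 432 (merge (leaf 4 432 529) (node 527 (merge (leaf 5 431 559) (node 495 (merge (leaf 5 399 400) (node 592 (merge (leaf 7 463 463) (leaf 7 495 624))))))))))))))) (merge (node 559 (merge (node 464 (merge (leaf 5 463 591) (node 433 (merge (leaf 6 432 465) (node 432 (merge (leaf 6 400 401) (leaf 5 431 527))))))) (merge (node 464 (merge (leaf 5 463 591) (node 561 (merge (leaf 4 464 593) (node 529 (merge (leaf 4 432 432) (node 558 (merge (leaf 2 526 530) (leaf 2 525 557))))))))) (node 558 (merge (node 529 (merge (leaf 2 525 557) (node 561 (merge (leaf 2 526 530) (node 593 (merge (leaf 0 558 594) (leaf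 7 496 625))))))) (merge (node 557 (merge (leaf 2 525 529) (node 556 (merge (leaf 2 524 527) (node 524 (merge (leaf 3 523 523) (leaf 3 524 525))))))) (merge (node 525 (merge (node 524 (merge (leaf 3 524 557) (node 526 (merge (leaf 0 523 523) (leaf 3 525 561))))) (merge (node 526 (merge (leaf 3 525 561) (node 527 (merge (leaf 2 493 497) (leaf 0 524 524))))) (merge (node 557 (merge (leaf 3 524 524) (node 556 (merge (leaf 2 524 527) (node 588 (merge (leaf 1 555 587) (leaf 1 556 589))))))) (node 561 (merge (leaf 3 525 526) (node 594 (merge (leaf 0 558 593) (node 562 (merge (leaf 0 559 595) (node 589 (merge (leaf 1 557 590) (node 557 (merge (leaf 1 556 588) (node 527 (merge (leaf 2 524 556) (leaf 3 527 563))))))))))))))))) (node 561 (merge (node 594 (merge (leaf 0 558 593) (node 562 (merge (leaf 0 559 595) (node 526 (merge (leaf 3 525 525) (leaf 3 526 527))))))) (merge (node 593 (merge (leaf 0 558 594) (node 625 (merge (leaf 7 528 657) (node 529 (merge (leaf 7 496 496) (leaf 2 526 530))))))) (node 590 (merge (leaf 1 557 589) (node 526 (merge (leaf 3 525 525) (node 527 (merge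 (leaf 3 526 562) (node 622 (merge (leaf 6 494 495) (leaf 6 526 654))))))))))))))))))) (node 497 (merge (node 592 (merge (leaf 6 464 465) (node 625 (merge (leaf 4 496 593) (node 624 (merge (leaf 6 496 529) (leaf 4 528 657))))))) (merge (node 592 (merge (leaf 6 464 465) (node 625 (merge (leaf 4 496 593) (node 624 (merge (leaf 4 528 657) (node 495 (merge (leaf 7 463 463) (leaf 7 495 527))))))))) (merge (node 495 (merge (node 463 (merge (leaf 7 463 592) (node 431 (merge (leaf 4 399 399) (leaf 4 431 527))))) (merge (node 526 (merge (node 527 (merge (leaf 1 494 498) (leaf 2 493 525))) (merge (node 494 (merge (leaf 1 493 525) (node 529 (merge (leaf 0 493 493) (leaf 0 494 530))))) (node 498 (merge (leaf 1 494 527) (node 467 (merge (leaf 2 463 466) (node 499 (merge (leaf 2 464 468) (node 529 (merge (leaf 1 496 500) (node 494 (merge (leaf 0 493 493) (leaf 0 494 530)))))))))))))) (node 463 (merge (leaf 7 463 592) (node 498 (merge (leaf 3 462 462) (node 467 (merge (leaf 2 463 466) (node 499 (merge (leaf 2 464 468) (node 529 (merge (leaf 1 496 500) (node 494 (merge (leaf 0 493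 493) (leaf 0 494 530)))))))))))))))) (node 527 (merge (node 526 (merge (leaf 2 493 525) (node 498 (merge (leaf 1 495 499) (leaf 2 494 529))))) (merge (node 526 (merge (leaf 2 493 525) (node 498 (merge (leaf 1 494 495) (leaf 1 495 499))))) (merge (node 526 (merge (leaf 2 493 525) (node 529 (merge (node 558 (merge (leaf 1 525 557) (node 530 (merge (leaf 1 526 559) (node 494 (merge (leaf 3 493 493) (leaf 0 494 495))))))) (merge (node 562 (merge (leaf 0 526 561) (node 530 (merge (leaf 0 527 563) (node 494 (merge (leaf 3 493 493) (leaf 0 494 495))))))) (merge (node 562 (merge (leaf 0 526 561) (node 530 (merge (leaf 0 527 563) (node 558 (merge (leaf 1 525 557) (leaf 1 526 559))))))) (node 561 (merge (leaf 0 526 562) (node 558 (merge (leaf 1 525 557) (node 593 (merge (leaf 7 496 625) (node 594 (merge (leaf 0 558 559) (leaf 4 497 626))))))))))))))) (node 495 (merge (node 463 (merge (leaf 4 431 431) (node 498 (merge (leaf 3 462 462) (leaf 1 495 499))))) (merge (node 498 (merge (leaf 1 495 499) (node 466 (merge (leaf 2 463 467) (node 494 (merge (leaf 2 462 465) (node 529 (merge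 (leaf 0 493 493) (leaf 0 494 530))))))))) (node 465 (merge (node 433 (merge (leaf 5 400 401) (leaf 5 432 529))) (merge (node 494 (merge (leaf 2 462 466) (node 529 (merge (leaf 0 493 493) (leaf 0 494 530))))) (node 466 (merge (leaf 2 462 494) (node 467 (merge (leaf 1 464 468) (node 431 (merge (leaf 4 431 463) (node 433 (merge (leaf 5 400 401) (node 432 (merge (leaf 0 430 430) (leaf 0 431 434))))))))))))))))))))))))))))))))) nC_2 cC_2 11 (by decide +kernel)
def nC_3 : ℕ := 0x100000001000000000000000000000000000000000000000000000000000000000000000000000000000000000000000000000000000000000000000000000000000000000000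
def cC_3 : ℕ := 0x280000003c000000ff800000ff000000ef8000006f000001ff800000ef0000006e00000000000000000000000000000000000000000000000000000000000000000000000000000000000000000000000000000000000
theorem lC_3 : S nC_3 cC_3 13 := S_of_chk [] trivial (node 527 (merge (node 526 (merge (node 561 (merge (leaf 0 525 525) (node 562 (merge (leaf 3 526 559) (leaf 3 527 563))))) (merge (node 525 (merge (leaf 0 525 561) (node 556 (merge (leaf 1 524 557) (node 524 (merge (leaf 1 523 555) (node 492 (merge (leaf 3 491 491) (leaf 3 492 493))))))))) (merge (node 525 (merge (node 524 (merge (leaf 0 524 559) (node 492 (merge (leaf 3 491 491) (leaf 3 492 493))))) (merge (node 524 (merge (leaf 0 524 559) (node 556 (merge (leaf 1 523 555) (leaf 1 524 557))))) (node 557 (merge (leaf 1 524 556) (node 529 (merge (leaf 1 525 558) (node 493 (merge (leaf 3 492 492) (leaf 3 493 494)))))))))) (node 529 (merge (node 498 (merge (leaf 2 494 497) (node 530 (merge (leaf 2 495 499) (node 558 (merge (leaf 1 525 557) (leaf 1 526 559))))))) (merge (node 562 (merge (leaf 0 526 561) (node 530 (merge (leaf 0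 527 563) (node 558 (merge (leaf 1 525 557) (leaf 1 526 559))))))) (node 497 (merge (leaf 2 494 498) (node 465 (merge (leaf 5 432 433) (node 592 (merge (leaf 5 464 561) (leaf 6 496 624)))))))))))))) (merge (node 561 (merge (node 526 (merge (leaf 0 525 525) (node 562 (merge (leaf 3 526 559) (leaf 3 527 563))))) (merge (node 526 (merge (leaf 0 525 525) (node 562 (merge (leaf 0 526 529) (leaf 3 527 563))))) (merge (node 559 (merge (node 562 (merge (leaf 3 527 563) (node 594 (merge (leaf 0 559 595) (node 558 (merge (leaf 0 558 593) (node 529 (merge (leaf 2 526 530) (leaf 2 525 557))))))))) (merge (node 558 (merge (node 557 (merge (leaf 2 525 529) (leaf 2 524 556))) (node 590 (merge (leaf 1 557 589) (node 622 (merge (leaf 6 526 654) (node 495 (merge (leaf 5 462 463) (leaf 5 494 591))))))))) (node 562 (merge (leaf 3 527 563) (node 594 (merge (leaf 0 559 595) (node 591 (merge (leaf 1 558 590) (node 623 (merge (leaf 6 527 655) (node 622 (merge (leaf 5 526 654) (node 593 (merge (leaf 1 590 592) (node 625 (merge (leaf 2 590 624) (leaf 7 528 657)))))))))))))))))) (node 526 (merge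 (leaf 0 525 525) (node 529 (merge (node 497 (merge (leaf 2 494 498) (node 592 (merge (leaf 5 464 465) (leaf 6 496 624))))) (merge (node 558 (merge (leaf 1 525 557) (node 530 (merge (leaf 1 526 559) (node 498 (merge (leaf 2 494 497) (leaf 2 495 499))))))) (node 558 (merge (leaf 1 525 557) (node 559 (merge (leaf 1 526 530) (node 590 (merge (leaf 1 557 589) (node 495 (merge (leaf 5 462 463) (leaf 6 494 622)))))))))))))))))) (merge (node 526 (merge (node 561 (merge (leaf 0 525 525) (node 562 (merge (leaf 0 526 529) (leaf 3 527 563))))) (merge (node 525 (merge (leaf 0 525 561) (node 524 (merge (leaf 0 524 559) (node 492 (merge (leaf 3 491 491) (leaf 3 492 493))))))) (merge (node 525 (merge (node 524 (merge (leaf 0 524 559) (node 492 (merge (leaf 3 491 491) (leaf 3 492 493))))) (merge (node 524 (merge (leaf 0 524 559) (node 556 (merge (leaf 1 523 555) (leaf 1 524 557))))) (node 557 (merge (leaf 1 524 556) (node 493 (merge (leaf 3 492 492) (node 494 (merge (leaf 3 493 529) (node 589 (merge (leaf 6 461 462) (leaf 6 493 621)))))))))))) (node 529 (merge (node 562 (merge (leaf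 0 526 561) (node 530 (merge (leaf 0 527 563) (node 494 (merge (leaf 3 493 493) (leaf 3 494 495))))))) (merge (node 562 (merge (leaf 0 526 561) (node 530 (merge (leaf 0 527 563) (node 558 (merge (leaf 1 525 557) (leaf 1 526 559))))))) (merge (node 558 (merge (leaf 1 525 557) (node 530 (merge (leaf 1 526 559) (node 494 (merge (leaf 3 493 493) (leaf 3 494 495))))))) (node 561 (merge (leaf 0 526 562) (node 558 (merge (leaf 1 525 557) (node 497 (merge (leaf 2 494 498) (node 494 (merge (leaf 3 493 493) (node 465 (merge (leaf 5 432 433) (node 466 (merge (leaf 6 433 434) (node 495 (merge (leaf 2 462 496) (node 590 (merge (leaf 6 462 463) (leaf 6 494 622))))))))))))))))))))))))) (merge (node 526 (merge (node 561 (merge (leaf 0 525 525) (node 562 (merge (leaf 3 526 559) (leaf 3 527 563))))) (merge (node 525 (merge (node 524 (merge (leaf 0 524 559) (node 492 (merge (leaf 3 491 491) (leaf 3 492 493))))) (merge (node 524 (merge (leaf 0 524 559) (node 556 (merge (leaf 1 523 555) (leaf 1 524 557))))) (node 557 (merge (leaf 1 524 556) (node 493 (merge (leaf 3 492 492) (node 494 (merge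 (leaf 3 493 529) (node 589 (merge (leaf 6 461 462) (leaf 6 493 621)))))))))))) (node 529 (merge (node 497 (merge (leaf 2 494 498) (node 592 (merge (leaf 6 496 624) (node 465 (merge (leaf 5 432 433) (leaf 5 464 561))))))) (merge (node 562 (merge (leaf 0 526 561) (node 530 (merge (leaf 0 527 563) (node 494 (merge (leaf 3 493 493) (leaf 3 494 495))))))) (node 498 (merge (leaf 2 494 497) (node 530 (merge (leaf 2 495 499) (node 494 (merge (leaf 3 493 493) (leaf 3 494 495))))))))))))) (merge (node 592 (merge (node 624 (merge (leaf 7 495 495) (node 656 (merge (leaf 7 527 559) (node 657 (merge (leaf 4 528 625) (leaf 4 560 689))))))) (merge (node 624 (merge (leaf 7 495 495) (node 657 (merge (leaf 4 528 625) (node 656 (merge (leaf 4 560 689) (node 655 (merge (leaf 5 527 623) (leaf 5 559 687))))))))) (merge (node 624 (merge (node 656 (merge (leaf 7 527 559) (node 657 (merge (leaf 4 528 625) (leaf 4 560 689))))) (merge (node 656 (merge (leaf 7 527 559) (node 655 (merge (leaf 5 527 623) (leaf 5 559 687))))) (node 625 (merge (leaf 4 528 657) (node 593 (merge (leaf 4 496 496) (node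 623 (merge (leaf 5 527 655) (node 622 (merge (leaf 2 590 594) (leaf 2 589 621)))))))))))) (node 526 (merge (node 561 (merge (leaf 0 525 525) (node 562 (merge (leaf 3 526 559) (leaf 3 527 563))))) (merge (node 497 (merge (node 498 (merge (leaf 2 494 529) (node 496 (merge (leaf 1 494 495) (leaf 1 495 499))))) (merge (node 465 (merge (leaf 6 464 496) (node 529 (merge (leaf 5 432 433) (leaf 5 464 561))))) (merge (node 529 (merge (leaf 2 494 498) (node 465 (merge (leaf 5 432 433) (leaf 5 464 561))))) (node 496 (merge (leaf 6 464 465) (node 495 (merge (leaf 7 463 463) (leaf 1 494 498))))))))) (node 496 (merge (node 497 (merge (leaf 6 464 465) (leaf 2 493 525))) (merge (node 497 (merge (leaf 6 464 465) (node 495 (merge (leaf 7 463 463) (leaf 1 494 498))))) (node 591 (merge (leaf 5 495 623) (node 495 (merge (leaf 7 463 463) (node 525 (merge (leaf 2 492 524) (node 493 (merge (leaf 3 492 492) (node 494 (merge (leaf 0 493 529) (node 461 (merge (leaf 3 460 460) (node 590 (merge (leaf 7 461 558) (node 559 (merge (leaf 7 462 462) (leaf 5 494 622))))))))))))))))))))))))))) (merge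 (node 529 (merge (node 526 (merge (node 558 (merge (leaf 1 525 557) (node 530 (merge (leaf 1 526 559) (node 494 (merge (leaf 3 493 493) (leaf 3 494 495))))))) (merge (node 497 (merge (leaf 2 494 498) (node 525 (merge (leaf 2 493 496) (node 557 (merge (leaf 1 524 556) (leaf 1 525 558))))))) (node 498 (merge (leaf 2 494 497) (node 530 (merge (leaf 2 495 499) (node 494 (merge (leaf 3 493 493) (leaf 3 494 495)))))))))) (merge (node 558 (merge (node 557 (merge (leaf 1 525 526) (leaf 2 525 559))) (merge (node 530 (merge (leaf 1 526 559) (node 495 (merge (leaf 3 494 494) (node 463 (merge (leaf 4 431 431) (node 592 (merge (leaf 7 463 496) (leaf 7 495 624))))))))) (node 526 (merge (leaf 1 525 557) (node 494 (merge (leaf 3 493 493) (node 495 (merge (leaf 3 494 530) (node 590 (merge (leaf 6 462 463) (leaf 6 494 622)))))))))))) (merge (node 592 (merge (node 624 (merge (leaf 7 495 495) (leaf 6 496 497))) (merge (node 495 (merge (leaf 7 495 624) (node 463 (merge (leaf 4 431 431) (leaf 4 463 559))))) (node 558 (merge (node 559 (merge (leaf 1 526 530) (leaf 2 525 557))) (merge (node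 526 (merge (leaf 1 525 557) (node 497 (merge (leaf 2 494 498) (node 496 (merge (leaf 6 464 465) (leaf 2 493 525))))))) (node 530 (merge (leaf 1 526 559) (node 498 (merge (leaf 2 495 499) (node 497 (merge (leaf 2 494 526) (node 465 (merge (leaf 5 432 433) (leaf 6 464 496))))))))))))))) (merge (node 497 (merge (node 498 (merge (leaf 2 494 526) (node 499 (merge (leaf 1 495 496) (leaf 1 496 500))))) (merge (node 592 (merge (leaf 6 496 624) (node 465 (merge (leaf 5 432 433) (leaf 6 464 496))))) (node 526 (merge (leaf 2 494 498) (node 493 (merge (leaf 3 493 494) (node 525 (merge (leaf 3 492 492) (node 524 (merge (leaf 0 524 559) (node 556 (merge (leaf 1 523 555) (leaf 1 524 557)))))))))))))) (merge (node 592 (merge (node 624 (merge (leaf 7 495 495) (leaf 6 496 497))) (merge (node 624 (merge (leaf 6 496 497) (node 656 (merge (leaf 7 527 559) (node 657 (merge (leaf 4 528 625) (leaf 4 560 689))))))) (node 495 (merge (node 463 (merge (leaf 4 431 431) (leaf 4 463 559))) (node 494 (merge (leaf 3 494 530) (node 493 (merge (leaf 0 492 492) (leaf 0 493 496)))))))))) (merge (node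 494 (merge (node 495 (merge (leaf 3 494 530) (node 493 (merge (leaf 0 492 492) (leaf 0 493 496))))) (merge (node 526 (merge (leaf 3 493 493) (node 497 (merge (leaf 2 494 498) (node 525 (merge (leaf 2 493 496) (node 557 (merge (leaf 1 524 556) (leaf 1 525 558))))))))) (node 530 (merge (leaf 3 494 495) (node 562 (merge (leaf 0 527 563) (node 498 (merge (leaf 2 495 499) (node 497 (merge (leaf 2 494 526) (node 465 (merge (leaf 4 433 433) (leaf 7 465 594)))))))))))))) (node 559 (merge (node 558 (merge (leaf 1 526 530) (leaf 2 525 557))) (merge (node 495 (merge (node 592 (merge (leaf 4 463 463) (leaf 7 495 624))) (merge (node 530 (merge (leaf 3 494 494) (node 562 (merge (leaf 0 527 563) (node 498 (merge (leaf 2 495 499) (node 497 (merge (leaf 2 494 526) (node 465 (merge (leaf 4 433 433) (leaf 7 465 594))))))))))) (node 530 (merge (leaf 3 494 494) (node 562 (merge (leaf 0 527 563) (node 498 (merge (leaf 2 495 499) (node 497 (merge (leaf 2 494 526) (node 465 (merge (leaf 4 433 433) (leaf 7 465 594)))))))))))))) (node 591 (merge (node 623 (merge (leaf 6 527 655) (node 624 (merge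 (leaf 4 527 656) (node 497 (merge (leaf 6 496 592) (node 526 (merge (leaf 7 494 494) (leaf 2 494 498))))))))) (merge (node 623 (merge (leaf 6 527 655) (node 624 (merge (leaf 4 527 656) (node 495 (merge (leaf 4 495 592) (node 622 (merge (leaf 5 494 590) (leaf 5 526 654))))))))) (merge (node 558 (merge (leaf 2 525 557) (node 623 (merge (leaf 6 527 655) (node 622 (merge (leaf 5 526 654) (node 526 (merge (leaf 7 494 494) (node 525 (merge (leaf 0 524 524) (node 493 (merge (leaf 3 492 492) (leaf 7 493 590))))))))))))) (node 592 (merge (node 624 (merge (leaf 6 496 497) (leaf 7 527 656))) (merge (node 557 (merge (leaf 2 525 558) (node 495 (merge (leaf 4 463 463) (node 494 (merge (leaf 7 462 462) (node 526 (merge (leaf 3 493 493) (node 525 (merge (leaf 0 524 524) (leaf 1 524 556))))))))))) (node 624 (merge (leaf 4 495 495) (leaf 7 527 656)))))))))))))))))))) (merge (node 592 (merge (node 495 (merge (leaf 7 495 624) (node 463 (merge (leaf 4 431 431) (leaf 4 463 559))))) (merge (node 624 (merge (leaf 7 495 495) (node 657 (merge (leaf 4 528 625) (node 656 (merge (leaf 4 560 689)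 (node 655 (merge (leaf 5 527 623) (leaf 5 559 687))))))))) (merge (node 624 (merge (node 656 (merge (leaf 7 527 559) (node 657 (merge (leaf 4 528 625) (leaf 4 560 689))))) (merge (node 656 (merge (leaf 7 527 559) (node 655 (merge (leaf 5 527 623) (leaf 5 559 687))))) (node 625 (merge (leaf 4 528 657) (node 593 (merge (leaf 4 496 496) (node 623 (merge (leaf 5 527 655) (node 622 (merge (leaf 2 590 594) (leaf 2 589 621)))))))))))) (node 591 (merge (node 623 (merge (leaf 5 495 496) (node 655 (merge (leaf 6 527 559) (leaf 6 559 687))))) (merge (node 496 (merge (leaf 5 495 623) (node 593 (merge (leaf 4 496 625) (node 497 (merge (leaf 6 464 465) (node 498 (merge (leaf 1 495 499) (node 495 (merge (leaf 7 463 463) (node 466 (merge (leaf 2 463 467) (node 561 (merge (leaf 6 465 529) (node 562 (merge (leaf 1 559 563) (leaf 2 558 590))))))))))))))))) (merge (node 559 (merge (node 495 (merge (leaf 4 463 463) (node 590 (merge (leaf 5 494 622) (node 589 (merge (leaf 2 557 561) (leaf 2 556 588))))))) (node 558 (merge (node 593 (merge (leaf 0 557 557) (leaf 3 558 594))) (merge (node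 557 (merge (leaf 2 525 529) (leaf 0 556 556))) (node 529 (merge (leaf 1 526 530) (node 593 (merge (leaf 3 558 594) (node 496 (merge (leaf 4 496 625) (node 497 (merge (leaf 6 464 465) (node 498 (merge (leaf 1 495 499) (leaf 2 494 526)))))))))))))))) (node 559 (merge (node 495 (merge (leaf 4 463 463) (node 590 (merge (leaf 5 494 622) (node 589 (merge (leaf 2 557 561) (leaf 2 556 588))))))) (merge (node 623 (merge (leaf 6 527 655) (node 622 (merge (leaf 5 526 654) (node 593 (merge (leaf 1 590 594) (node 621 (merge (leaf 1 589 590) (leaf 2 588 620))))))))) (merge (node 495 (merge (leaf 4 463 463) (node 623 (merge (leaf 6 527 655) (node 494 (merge (leaf 7 462 462) (leaf 7 494 526))))))) (node 495 (merge (leaf 4 463 463) (node 623 (merge (leaf 6 527 655) (node 494 (merge (leaf 7 462 462) (leaf 7 494 526))))))))))))))))))) (merge (node 592 (merge (node 495 (merge (leaf 7 495 624) (node 463 (merge (leaf 4 431 431) (leaf 4 463 559))))) (merge (node 624 (merge (leaf 7 495 495) (node 657 (merge (leaf 4 528 625) (node 656 (merge (leaf 4 560 689) (node 655 (merge (leaf 5 527 623)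 (leaf 5 559 687))))))))) (merge (node 624 (merge (node 656 (merge (leaf 7 527 559) (node 657 (merge (leaf 4 528 625) (leaf 4 560 689))))) (merge (node 656 (merge (leaf 7 527 559) (node 655 (merge (leaf 5 527 623) (leaf 5 559 687))))) (node 625 (merge (leaf 4 528 657) (node 593 (merge (leaf 4 496 496) (node 623 (merge (leaf 5 527 655) (node 622 (merge (leaf 2 590 594) (leaf 2 589 621)))))))))))) (node 591 (merge (node 623 (merge (leaf 5 495 496) (node 655 (merge (leaf 6 527 559) (leaf 6 559 687))))) (merge (node 496 (merge (leaf 5 495 623) (node 497 (merge (leaf 6 464 465) (node 526 (merge (leaf 2 493 525) (node 495 (merge (leaf 7 463 463) (leaf 1 494 498))))))))) (merge (node 559 (merge (node 495 (merge (leaf 4 463 463) (node 590 (merge (leaf 5 494 622) (node 589 (merge (leaf 2 557 561) (leaf 2 556 588))))))) (merge (node 623 (merge (leaf 6 527 655) (node 622 (merge (leaf 5 526 654) (node 593 (merge (leaf 1 590 594) (node 621 (merge (leaf 1 589 590) (leaf 2 588 620))))))))) (merge (node 623 (merge (leaf 6 527 655) (node 526 (merge (leaf 7 494 494) (node 525 (merge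 (leaf 0 524 524) (leaf 0 525 561))))))) (node 623 (merge (leaf 6 527 655) (node 526 (merge (leaf 7 494 494) (node 525 (merge (leaf 0 524 524) (leaf 0 525 561))))))))))) (node 559 (merge (node 495 (merge (leaf 4 463 463) (node 590 (merge (leaf 5 494 622) (node 589 (merge (leaf 2 557 561) (leaf 2 556 588))))))) (merge (node 558 (merge (node 557 (merge (leaf 2 524 556) (leaf 0 557 593))) (merge (node 557 (merge (leaf 0 556 556) (node 525 (merge (leaf 3 524 524) (node 526 (merge (leaf 0 525 561) (node 493 (merge (leaf 3 492 492) (node 461 (merge (leaf 4 429 429) (node 462 (merge (leaf 6 429 430) (leaf 4 462 494))))))))))))) (node 593 (merge (leaf 3 558 594) (node 495 (merge (leaf 4 463 463) (node 496 (merge (leaf 4 496 625) (node 497 (merge (leaf 6 464 465) (node 526 (merge (leaf 1 494 498) (leaf 2 493 525)))))))))))))) (merge (node 495 (merge (leaf 4 463 463) (node 590 (merge (leaf 5 494 622) (node 589 (merge (leaf 2 556 588) (node 557 (merge (leaf 3 556 556) (node 593 (merge (leaf 0 557 558) (node 625 (merge (leaf 4 496 496) (leaf 0 590 626))))))))))))) (node 593 (merge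 (node 594 (merge (leaf 3 558 558) (leaf 3 559 595))) (merge (node 558 (merge (leaf 0 557 557) (node 496 (merge (leaf 4 496 625) (node 497 (merge (leaf 6 464 465) (node 526 (merge (leaf 2 493 525) (node 561 (merge (leaf 3 526 562) (node 590 (merge (leaf 1 557 589) (node 622 (merge (leaf 1 589 621) (leaf 6 526 654))))))))))))))) (node 594 (merge (leaf 3 559 595) (node 562 (merge (leaf 2 559 563) (node 526 (merge (leaf 3 526 561) (node 496 (merge (leaf 4 496 625) (node 497 (merge (leaf 6 464 465) (leaf 2 493 525)))))))))))))))))))))))))) (merge (node 592 (merge (node 624 (merge (leaf 7 495 495) (node 656 (merge (leaf 7 527 559) (node 657 (merge (leaf 4 528 625) (leaf 4 560 689))))))) (merge (node 624 (merge (leaf 7 495 495) (node 657 (merge (leaf 4 528 625) (node 656 (merge (leaf 4 560 689) (node 655 (merge (leaf 5 527 623) (leaf 5 559 687))))))))) (merge (node 526 (merge (node 561 (merge (leaf 0 525 525) (node 562 (merge (leaf 3 526 559) (leaf 3 527 563))))) (merge (node 525 (merge (leaf 0 525 561) (node 557 (merge (leaf 1 524 556) (node 529 (merge (leaf 1 525 558) (node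 493 (merge (leaf 3 492 492) (leaf 3 493 494))))))))) (merge (node 525 (merge (node 524 (merge (leaf 0 524 559) (node 492 (merge (leaf 3 491 491) (leaf 3 492 493))))) (merge (node 524 (merge (leaf 0 524 559) (node 556 (merge (leaf 1 523 555) (leaf 1 524 557))))) (node 557 (merge (leaf 1 524 556) (node 493 (merge (leaf 3 492 492) (node 494 (merge (leaf 3 493 529) (node 589 (merge (leaf 6 461 462) (leaf 6 493 621)))))))))))) (node 558 (merge (node 557 (merge (leaf 1 525 529) (node 556 (merge (leaf 2 523 555) (leaf 2 524 559))))) (merge (node 529 (merge (leaf 1 525 557) (node 562 (merge (leaf 0 526 561) (node 530 (merge (leaf 0 527 563) (node 494 (merge (leaf 3 493 493) (leaf 3 494 495))))))))) (merge (node 494 (merge (node 493 (merge (leaf 3 493 529) (node 492 (merge (leaf 0 491 491) (leaf 0 492 495))))) (merge (node 529 (merge (leaf 3 493 493) (node 562 (merge (leaf 0 526 561) (node 530 (merge (leaf 1 526 559) (leaf 0 527 563))))))) (node 495 (merge (node 463 (merge (leaf 4 431 431) (leaf 4 463 559))) (node 590 (merge (leaf 6 494 622) (node 591 (merge (leaf 4 494 623)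 (node 589 (merge (leaf 2 557 561) (leaf 5 493 621)))))))))))) (node 559 (merge (node 557 (merge (leaf 2 524 556) (leaf 0 557 593))) (merge (node 561 (merge (leaf 3 526 562) (node 590 (merge (leaf 1 557 589) (node 495 (merge (leaf 4 463 463) (leaf 6 494 622))))))) (node 557 (merge (leaf 2 524 556) (node 589 (merge (leaf 1 556 588) (node 561 (merge (leaf 3 526 562) (leaf 1 557 590)))))))))))))))))) (node 526 (merge (node 561 (merge (leaf 0 525 525) (node 562 (merge (leaf 3 526 559) (leaf 3 527 563))))) (merge (node 525 (merge (leaf 0 525 561) (node 556 (merge (leaf 1 524 557) (node 524 (merge (leaf 1 523 555) (node 492 (merge (leaf 3 491 491) (leaf 3 492 493))))))))) (merge (node 529 (merge (node 562 (merge (leaf 0 526 561) (node 530 (merge (leaf 0 527 563) (node 558 (merge (leaf 1 525 557) (leaf 1 526 559))))))) (merge (node 558 (merge (leaf 1 525 557) (node 559 (merge (leaf 1 526 530) (node 494 (merge (leaf 3 493 493) (node 591 (merge (leaf 4 462 462) (leaf 7 494 623))))))))) (merge (node 561 (merge (leaf 0 526 562) (node 494 (merge (leaf 3 493 493) (node 624 (merge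 (leaf 6 528 656) (node 625 (merge (leaf 4 528 657) (node 623 (merge (leaf 5 527 655) (node 591 (merge (leaf 7 494 559) (node 590 (merge (leaf 0 589 589) (leaf 3 590 626))))))))))))))) (node 561 (merge (leaf 0 526 562) (node 558 (merge (leaf 1 525 557) (node 494 (merge (leaf 3 493 493) (node 624 (merge (leaf 6 528 656) (node 625 (merge (leaf 4 528 657) (node 623 (merge (leaf 5 527 655) (node 590 (merge (leaf 4 494 591) (node 589 (merge (leaf 5 493 621) (leaf 3 589 622))))))))))))))))))))) (node 559 (merge (node 624 (merge (leaf 7 527 656) (node 623 (merge (leaf 5 527 655) (node 591 (merge (leaf 7 494 494) (node 622 (merge (leaf 5 526 654) (node 621 (merge (leaf 2 589 593) (leaf 2 588 620))))))))))) (merge (node 525 (merge (leaf 0 524 524) (node 557 (merge (leaf 1 524 556) (node 558 (merge (leaf 0 557 593) (node 493 (merge (leaf 3 492 492) (node 461 (merge (leaf 4 429 429) (leaf 4 461 590))))))))))) (merge (node 525 (merge (leaf 0 524 524) (node 557 (merge (leaf 1 524 556) (node 558 (merge (leaf 0 557 593) (node 589 (merge (leaf 1 556 588) (node 493 (merge (leaf 3 492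 492) (node 622 (merge (leaf 4 493 590) (node 621 (merge (leaf 6 493 494) (leaf 4 525 654))))))))))))))) (node 624 (merge (leaf 7 527 656) (node 625 (merge (leaf 4 528 657) (node 623 (merge (leaf 5 527 655) (node 591 (merge (leaf 7 494 494) (node 626 (merge (leaf 3 590 590) (leaf 3 591 627))))))))))))))))))))))) (merge (node 592 (merge (node 624 (merge (leaf 7 495 495) (node 625 (merge (leaf 4 528 657) (node 496 (merge (leaf 4 496 593) (node 623 (merge (leaf 5 495 591) (leaf 5 527 655))))))))) (merge (node 624 (merge (leaf 7 495 495) (node 529 (merge (leaf 6 496 497) (node 656 (merge (leaf 6 528 561) (node 655 (merge (leaf 5 527 623) (leaf 5 559 687))))))))) (merge (node 625 (merge (node 593 (merge (leaf 4 496 496) (node 657 (merge (leaf 7 528 561) (leaf 7 560 689))))) (merge (node 496 (merge (leaf 4 496 593) (node 497 (merge (leaf 6 464 465) (node 624 (merge (leaf 6 496 529) (node 623 (merge (leaf 5 495 591) (leaf 5 527 655))))))))) (node 624 (merge (leaf 4 528 657) (node 529 (merge (leaf 6 496 497) (node 656 (merge (leaf 6 528 561) (node 655 (merge (leaf 5 527 623)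 (leaf 5 559 687)))))))))))) (node 526 (merge (node 525 (merge (leaf 0 525 561) (node 496 (merge (leaf 2 493 497) (node 495 (merge (leaf 7 463 463) (leaf 2 492 524))))))) (merge (node 525 (merge (leaf 0 525 561) (node 557 (merge (leaf 1 524 556) (node 529 (merge (leaf 1 525 558) (node 493 (merge (leaf 3 492 492) (leaf 3 493 494))))))))) (merge (node 497 (merge (node 498 (merge (leaf 2 494 529) (node 496 (merge (leaf 1 494 495) (leaf 1 495 499))))) (merge (node 465 (merge (leaf 6 464 496) (node 529 (merge (leaf 5 432 433) (leaf 5 464 561))))) (merge (node 529 (merge (leaf 2 494 498) (node 465 (merge (leaf 5 432 433) (leaf 5 464 561))))) (node 496 (merge (leaf 6 464 465) (node 495 (merge (leaf 7 463 463) (leaf 1 494 498))))))))) (node 496 (merge (node 497 (merge (leaf 6 464 465) (leaf 2 493 525))) (merge (node 497 (merge (leaf 6 464 465) (node 495 (merge (leaf 7 463 463) (leaf 1 494 498))))) (node 495 (merge (leaf 7 463 463) (node 525 (merge (leaf 2 492 524) (node 557 (merge (leaf 1 524 556) (node 493 (merge (leaf 3 492 492) (node 494 (merge (leaf 0 493 529) (node 589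 (merge (leaf 6 461 462) (leaf 6 493 621)))))))))))))))))))))))) (node 592 (merge (node 495 (merge (leaf 7 495 624) (node 463 (merge (leaf 4 431 431) (leaf 4 463 559))))) (merge (node 624 (merge (leaf 7 495 495) (node 657 (merge (leaf 4 528 625) (node 656 (merge (leaf 4 560 689) (node 655 (merge (leaf 5 527 623) (leaf 5 559 687))))))))) (merge (node 624 (merge (node 656 (merge (leaf 7 527 559) (node 657 (merge (leaf 4 528 625) (leaf 4 560 689))))) (merge (node 656 (merge (leaf 7 527 559) (node 655 (merge (leaf 5 527 623) (leaf 5 559 687))))) (node 625 (merge (leaf 4 528 657) (node 593 (merge (leaf 4 496 496) (node 623 (merge (leaf 5 527 655) (node 622 (merge (leaf 2 590 594) (leaf 2 589 621)))))))))))) (node 591 (merge (node 623 (merge (leaf 5 495 496) (node 655 (merge (leaf 6 527 559) (leaf 6 559 687))))) (merge (node 496 (merge (leaf 5 495 623) (node 593 (merge (leaf 4 496 625) (node 497 (merge (leaf 6 464 465) (node 498 (merge (leaf 1 495 499) (node 495 (merge (leaf 7 463 463) (node 466 (merge (leaf 2 463 467) (node 561 (merge (leaf 6 465 529) (node 562 (merge (leaf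 1 559 563) (leaf 2 558 590))))))))))))))))) (merge (node 559 (merge (node 495 (merge (leaf 4 463 463) (node 590 (merge (leaf 5 494 622) (node 589 (merge (leaf 2 557 561) (leaf 2 556 588))))))) (merge (node 495 (merge (leaf 4 463 463) (node 494 (merge (leaf 7 462 462) (node 493 (merge (leaf 0 492 492) (node 529 (merge (leaf 0 493 496) (leaf 3 494 530))))))))) (node 558 (merge (node 593 (merge (leaf 0 557 557) (leaf 3 558 594))) (merge (node 557 (merge (leaf 2 525 529) (leaf 0 556 556))) (node 529 (merge (leaf 1 526 530) (node 593 (merge (leaf 3 558 594) (node 496 (merge (leaf 4 496 625) (node 497 (merge (leaf 6 464 465) (node 498 (merge (leaf 1 495 499) (node 561 (merge (leaf 6 465 466) (node 562 (merge (leaf 1 559 563) (leaf 1 558 590))))))))))))))))))))) (node 590 (merge (node 589 (merge (leaf 2 557 561) (node 588 (merge (leaf 2 556 559) (node 620 (merge (leaf 1 587 619) (leaf 1 588 621))))))) (merge (node 589 (merge (leaf 2 557 561) (node 557 (merge (leaf 3 556 556) (node 593 (merge (leaf 3 557 558) (node 626 (merge (leaf 0 590 625) (node 594 (merge (leaf 0 591 627)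 (node 622 (merge (leaf 1 589 621) (leaf 1 590 623))))))))))))) (merge (node 559 (merge (node 495 (merge (leaf 4 463 463) (leaf 5 494 622))) (merge (node 623 (merge (leaf 6 527 655) (node 622 (merge (leaf 5 526 654) (node 593 (merge (leaf 1 590 594) (node 621 (merge (leaf 1 589 590) (leaf 2 588 620))))))))) (node 589 (merge (leaf 2 556 588) (node 557 (merge (leaf 3 556 556) (node 593 (merge (leaf 0 557 558) (node 626 (merge (leaf 0 590 625) (node 594 (merge (leaf 3 559 595) (leaf 0 591 627)))))))))))))) (merge (node 589 (merge (leaf 2 557 561) (node 559 (merge (leaf 2 556 588) (node 495 (merge (leaf 4 463 463) (leaf 5 494 622))))))) (node 559 (merge (node 495 (merge (leaf 4 463 463) (leaf 5 494 622))) (merge (node 623 (merge (leaf 6 527 655) (node 622 (merge (leaf 5 526 654) (node 593 (merge (leaf 1 590 594) (node 621 (merge (leaf 1 589 590) (leaf 2 588 620))))))))) (node 561 (merge (leaf 1 558 562) (node 495 (merge (leaf 4 463 463) (node 494 (merge (leaf 7 462 462) (node 529 (merge (leaf 3 494 530) (node 558 (merge (leaf 2 525 557) (node 593 (merge (leaf 0 558 594)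 (node 625 (merge (leaf 0 590 626) (leaf 7 528 657)))))))))))))))))))))))))))))))))))))))))) nC_3 cC_3 13 (by decide +kernel)
def nC_4 : ℕ := 0x180000001000000010000000000000000000000000000000000000000000000000000000000000000000000000000000000000000000000000000000000000000000000000000
def cC_4 : ℕ := 0x80000000e0000000e0000000e000000efc00000e7c000000fc000006f0000000f8000000e00000000000000000000000000000000000000000000000000000000000000000000000000000000000000000000000000000000000
theorem lC_4 : S nC_4 cC_4 10 := S_of_chk [] trivial (node 558 (merge (node 557 (merge (node 556 (merge (leaf 2 524 527) (node 524 (merge (leaf 3 523 523) (leaf 3 524 525))))) (merge (node 556 (merge (leaf 2 524 527) (node 588 (merge (leaf 1 555 587) (leaf 1 556 589))))) (node 589 (merge (leaf 1 556 588) (node 525 (merge (leaf 3 524 524) (node 526 (merge (leaf 3 525 561) (node 621 (merge (leaf 6 493 494) (leaf 6 525 653)))))))))))) (merge (node 527 (merge (node 557 (merge (leaf 2 524 556) (node 525 (merge (leaf 3 524 524) (node 561 (merge (leaf 0 525 526) (node 594 (merge (leaf 0 558 593) (node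 562 (merge (leaf 3 527 563) (leaf 0 559 595))))))))))) (merge (node 495 (merge (node 590 (merge (leaf 5 462 463) (node 622 (merge (leaf 6 494 526) (leaf 6 526 654))))) (merge (node 463 (merge (leaf 4 431 431) (node 591 (merge (leaf 6 495 623) (node 462 (merge (leaf 7 430 430) (leaf 7 462 494))))))) (node 591 (merge (leaf 6 495 623) (node 590 (merge (leaf 5 494 622) (node 494 (merge (leaf 7 462 462) (node 493 (merge (leaf 0 492 492) (node 461 (merge (leaf 3 460 460) (leaf 7 461 526)))))))))))))) (node 495 (merge (node 463 (merge (leaf 4 431 431) (leaf 5 462 590))) (merge (node 463 (merge (leaf 4 431 431) (node 591 (merge (leaf 6 495 623) (node 462 (merge (leaf 7 430 430) (leaf 7 462 494))))))) (node 557 (merge (leaf 2 524 556) (node 591 (merge (leaf 6 495 623) (node 494 (merge (leaf 7 462 462) (node 493 (merge (leaf 0 492 492) (node 525 (merge (leaf 1 492 524) (node 461 (merge (leaf 3 460 460) (leaf 4 461 590))))))))))))))))))) (merge (node 590 (merge (node 589 (merge (leaf 1 557 561) (node 588 (merge (leaf 1 556 557) (leaf 2 555 587))))) (merge (node 591 (merge (node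 623 (merge (leaf 6 495 527) (leaf 6 527 655))) (merge (node 561 (merge (leaf 1 558 562) (node 526 (merge (leaf 3 525 525) (node 494 (merge (leaf 4 462 462) (leaf 4 494 623))))))) (node 561 (merge (leaf 1 558 562) (node 526 (merge (leaf 3 525 525) (node 494 (merge (leaf 4 462 462) (node 495 (merge (leaf 6 462 463) (node 527 (merge (leaf 5 494 622) (node 493 (merge (leaf 7 461 461) (leaf 0 492 492)))))))))))))))) (node 527 (merge (node 622 (merge (leaf 6 526 654) (node 591 (merge (leaf 5 494 495) (node 623 (merge (leaf 6 495 496) (leaf 6 527 655))))))) (merge (node 623 (merge (leaf 6 495 591) (node 622 (merge (leaf 6 526 654) (node 526 (merge (leaf 4 526 655) (node 525 (merge (leaf 7 493 493) (leaf 2 493 497))))))))) (merge (node 622 (merge (leaf 6 526 654) (node 526 (merge (leaf 6 494 495) (node 525 (merge (leaf 7 493 493) (leaf 2 493 497))))))) (node 495 (merge (leaf 5 462 463) (node 591 (merge (leaf 6 495 623) (node 494 (merge (leaf 7 462 462) (node 493 (merge (leaf 0 492 492) (node 526 (merge (leaf 7 461 461) (node 497 (merge (leaf 1 494 498) (leaf 1 493 525))))))))))))))))))))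 (merge (node 557 (merge (node 556 (merge (leaf 2 524 527) (node 588 (merge (leaf 1 555 587) (leaf 1 556 589))))) (merge (node 589 (merge (leaf 1 556 588) (node 590 (merge (leaf 1 557 561) (node 525 (merge (leaf 3 524 524) (node 622 (merge (leaf 4 493 493) (leaf 7 525 654))))))))) (merge (node 556 (merge (leaf 2 524 527) (node 587 (merge (leaf 1 555 588) (node 555 (merge (leaf 1 554 586) (node 523 (merge (leaf 3 522 522) (leaf 3 523 524))))))))) (node 556 (merge (leaf 2 524 527) (node 523 (merge (leaf 3 523 524) (node 555 (merge (leaf 3 522 522) (node 590 (merge (leaf 0 555 591) (node 589 (merge (leaf 0 554 554) (leaf 1 557 561))))))))))))))) (merge (node 557 (merge (node 589 (merge (leaf 1 556 588) (node 561 (merge (leaf 1 557 590) (node 594 (merge (leaf 0 558 593) (node 562 (merge (leaf 0 559 595) (node 527 (merge (leaf 3 526 526) (leaf 3 527 563))))))))))) (merge (node 556 (merge (leaf 2 524 527) (node 587 (merge (leaf 1 555 588) (node 555 (merge (leaf 1 554 586) (node 523 (merge (leaf 3 522 522) (leaf 3 523 524))))))))) (merge (node 556 (merge (leaf 2 524 527) (node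 523 (merge (leaf 3 523 524) (node 555 (merge (leaf 3 522 522) (node 590 (merge (leaf 0 555 591) (node 589 (merge (leaf 0 554 554) (leaf 1 557 561))))))))))) (node 556 (merge (node 588 (merge (leaf 1 555 587) (leaf 1 556 589))) (merge (node 587 (merge (leaf 1 555 588) (node 555 (merge (leaf 1 554 586) (node 523 (merge (leaf 3 522 522) (leaf 3 523 524))))))) (merge (node 523 (merge (leaf 3 523 524) (node 555 (merge (leaf 3 522 522) (node 590 (merge (leaf 0 555 591) (node 589 (merge (leaf 0 554 554) (leaf 1 557 561))))))))) (node 589 (merge (leaf 1 556 588) (node 590 (merge (leaf 1 557 561) (node 555 (merge (leaf 0 554 554) (leaf 0 555 591))))))))))))))) (merge (node 526 (merge (node 527 (merge (node 525 (merge (leaf 2 493 497) (leaf 0 524 524))) (node 557 (merge (leaf 2 524 556) (node 589 (merge (leaf 1 556 588) (node 494 (merge (leaf 5 461 462) (node 621 (merge (leaf 5 493 590) (leaf 6 525 653))))))))))) (merge (node 525 (merge (node 524 (merge (leaf 0 523 523) (leaf 3 524 557))) (node 497 (merge (leaf 2 493 527) (node 494 (merge (leaf 1 493 495) (node 591 (merge (leaf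 4 462 462) (node 590 (merge (leaf 4 494 623) (node 493 (merge (leaf 7 461 461) (leaf 7 493 622))))))))))))) (merge (node 557 (merge (node 527 (merge (leaf 2 524 556) (node 525 (merge (leaf 2 493 497) (leaf 0 524 524))))) (merge (node 556 (merge (leaf 2 524 527) (node 588 (merge (leaf 1 555 587) (leaf 1 556 589))))) (merge (node 588 (merge (leaf 1 556 589) (node 556 (merge (leaf 1 555 587) (node 524 (merge (leaf 3 523 523) (leaf 3 524 525))))))) (node 589 (merge (leaf 1 556 588) (node 525 (merge (leaf 3 524 524) (node 621 (merge (leaf 6 493 494) (leaf 6 525 653))))))))))) (merge (node 557 (merge (node 556 (merge (leaf 2 524 527) (node 588 (merge (leaf 1 555 587) (leaf 1 556 589))))) (merge (node 589 (merge (leaf 1 556 588) (node 494 (merge (leaf 5 461 462) (node 621 (merge (leaf 5 493 590) (leaf 6 525 653))))))) (node 527 (merge (leaf 2 524 556) (node 525 (merge (leaf 2 493 497) (node 493 (merge (leaf 3 492 492) (node 590 (merge (leaf 4 461 461) (leaf 7 493 622)))))))))))) (merge (node 557 (merge (node 556 (merge (leaf 2 524 527) (node 588 (merge (leaf 1 555 587) (leaf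 1 556 589))))) (merge (node 527 (merge (leaf 2 524 556) (node 525 (merge (leaf 3 524 524) (node 526 (merge (leaf 2 493 497) (node 493 (merge (leaf 3 492 492) (node 590 (merge (leaf 4 461 461) (leaf 7 493 622))))))))))) (merge (node 588 (merge (leaf 1 556 589) (node 556 (merge (leaf 1 555 587) (node 524 (merge (leaf 3 523 523) (leaf 3 524 525))))))) (node 589 (merge (leaf 1 556 588) (node 525 (merge (leaf 3 524 524) (node 527 (merge (leaf 2 493 497) (node 493 (merge (leaf 3 492 492) (node 622 (merge (leaf 4 493 590) (node 621 (merge (leaf 6 525 653) (leaf 4 525 654))))))))))))))))) (merge (node 557 (merge (node 589 (merge (leaf 1 556 588) (node 494 (merge (leaf 5 461 462) (node 621 (merge (leaf 5 493 590) (leaf 6 525 653))))))) (merge (node 556 (merge (leaf 2 524 527) (node 587 (merge (leaf 1 555 588) (node 555 (merge (leaf 1 554 586) (node 523 (merge (leaf 3 522 522) (leaf 3 523 524))))))))) (node 556 (merge (leaf 2 524 527) (node 523 (merge (leaf 3 523 524) (node 555 (merge (leaf 3 522 522) (node 590 (merge (leaf 0 555 591) (node 589 (merge (leaf 0 554 554) (node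 621 (merge (leaf 5 493 494) (leaf 6 525 653)))))))))))))))) (merge (node 494 (merge (node 462 (merge (leaf 4 462 591) (node 589 (merge (leaf 5 461 557) (node 590 (merge (leaf 5 493 621) (node 461 (merge (leaf 7 429 429) (leaf 7 461 493))))))))) (merge (node 462 (merge (leaf 4 462 591) (node 461 (merge (leaf 7 429 429) (node 495 (merge (leaf 3 461 497) (node 460 (merge (leaf 0 459 459) (leaf 0 460 463))))))))) (node 525 (merge (node 524 (merge (leaf 0 523 523) (leaf 3 524 557))) (node 495 (merge (leaf 1 493 497) (node 590 (merge (leaf 6 462 463) (node 621 (merge (leaf 5 493 589) (node 622 (merge (leaf 7 493 493) (leaf 5 525 653)))))))))))))) (node 494 (merge (node 591 (merge (leaf 4 462 462) (node 623 (merge (leaf 4 494 590) (leaf 7 526 655))))) (merge (node 462 (merge (leaf 4 462 591) (node 461 (merge (leaf 7 429 429) (node 495 (merge (leaf 3 461 497) (node 460 (merge (leaf 0 459 459) (leaf 0 460 463))))))))) (merge (node 525 (merge (node 524 (merge (leaf 0 523 523) (leaf 0 524 527))) (node 495 (merge (leaf 1 493 497) (node 463 (merge (leaf 6 462 590) (node 462 (merge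 (leaf 6 430 431) (node 461 (merge (leaf 7 429 429) (leaf 0 460 460))))))))))) (node 525 (merge (node 524 (merge (leaf 0 523 523) (leaf 0 524 527))) (node 495 (merge (leaf 1 493 497) (node 590 (merge (leaf 6 462 463) (node 589 (merge (leaf 5 493 621) (node 588 (merge (leaf 2 555 587) (leaf 2 556 591))))))))))))))))))))))) (merge (node 526 (merge (node 561 (merge (leaf 3 525 525) (node 594 (merge (leaf 0 558 593) (node 562 (merge (leaf 3 526 527) (leaf 0 559 595))))))) (merge (node 561 (merge (leaf 3 525 525) (node 594 (merge (leaf 0 558 593) (node 562 (merge (leaf 0 559 595) (node 590 (merge (leaf 1 557 589) (leaf 1 558 591))))))))) (merge (node 494 (merge (node 591 (merge (leaf 4 462 462) (node 623 (merge (leaf 4 494 590) (leaf 7 526 655))))) (merge (node 462 (merge (leaf 4 462 591) (node 461 (merge (leaf 7 429 429) (node 495 (merge (leaf 3 461 497) (node 460 (merge (leaf 0 459 459) (leaf 0 460 463))))))))) (merge (node 525 (merge (node 524 (merge (leaf 0 523 523) (leaf 0 524 527))) (node 495 (merge (leaf 1 493 497) (node 463 (merge (leaf 6 462 590) (node 462 (merge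 (leaf 6 430 431) (node 461 (merge (leaf 7 429 429) (leaf 0 460 460))))))))))) (node 525 (merge (node 524 (merge (leaf 0 523 523) (leaf 0 524 527))) (node 495 (merge (leaf 1 493 497) (node 590 (merge (leaf 6 462 463) (node 589 (merge (leaf 5 493 621) (node 588 (merge (leaf 2 555 587) (leaf 2 556 591))))))))))))))) (node 590 (merge (node 561 (merge (leaf 1 557 589) (node 594 (merge (leaf 0 558 593) (node 562 (merge (leaf 3 526 527) (leaf 0 559 595))))))) (node 622 (merge (node 655 (merge (leaf 4 526 623) (node 654 (merge (leaf 4 558 687) (node 653 (merge (leaf 5 525 621) (leaf 5 557 685))))))) (merge (node 623 (merge (leaf 4 526 655) (node 494 (merge (leaf 4 494 591) (node 463 (merge (leaf 6 462 495) (node 462 (merge (leaf 6 430 431) (node 461 (merge (leaf 7 429 429) (leaf 7 461 493))))))))))) (merge (node 653 (merge (leaf 5 525 621) (node 654 (merge (leaf 5 557 685) (node 591 (merge (leaf 6 558 686) (node 494 (merge (leaf 4 462 462) (leaf 4 494 623))))))))) (node 653 (merge (leaf 5 525 621) (node 654 (merge (leaf 5 557 685) (node 687 (merge (leaf 4 558 655) (node 686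 (merge (leaf 6 558 591) (leaf 4 590 719))))))))))))))))))) (node 526 (merge (node 525 (merge (leaf 3 525 561) (node 524 (merge (leaf 0 523 523) (leaf 3 524 557))))) (merge (node 561 (merge (leaf 3 525 525) (node 594 (merge (leaf 0 558 593) (node 562 (merge (leaf 0 559 595) (node 590 (merge (leaf 1 557 589) (leaf 1 558 591))))))))) (merge (node 494 (merge (node 462 (merge (leaf 4 462 591) (node 589 (merge (leaf 5 461 557) (node 590 (merge (leaf 5 493 621) (node 461 (merge (leaf 7 429 429) (leaf 7 461 493))))))))) (merge (node 462 (merge (leaf 4 462 591) (node 461 (merge (leaf 7 429 429) (node 495 (merge (leaf 3 461 497) (node 460 (merge (leaf 0 459 459) (leaf 0 460 463))))))))) (node 525 (merge (node 524 (merge (leaf 0 523 523) (leaf 3 524 557))) (node 495 (merge (leaf 1 493 497) (node 590 (merge (leaf 6 462 463) (node 621 (merge (leaf 5 493 589) (node 622 (merge (leaf 7 493 493) (leaf 5 525 653)))))))))))))) (node 590 (merge (node 589 (merge (leaf 1 557 561) (node 588 (merge (leaf 1 556 557) (leaf 2 555 587))))) (node 622 (merge (node 655 (merge (leaf 4 526 623) (node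 654 (merge (leaf 4 558 687) (node 653 (merge (leaf 5 525 621) (leaf 5 557 685))))))) (merge (node 623 (merge (leaf 4 526 655) (node 494 (merge (leaf 4 494 591) (node 463 (merge (leaf 6 462 495) (node 462 (merge (leaf 6 430 431) (node 461 (merge (leaf 7 429 429) (leaf 7 461 493))))))))))) (merge (node 653 (merge (leaf 5 525 621) (node 654 (merge (leaf 5 557 685) (node 591 (merge (leaf 6 558 686) (node 494 (merge (leaf 4 462 462) (leaf 4 494 623))))))))) (node 653 (merge (leaf 5 525 621) (node 654 (merge (leaf 5 557 685) (node 687 (merge (leaf 4 558 655) (node 686 (merge (leaf 6 558 591) (leaf 4 590 719))))))))))))))))))))))))))) nC_4 cC_4 10 (by decide +kernel)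
def nC_5 : ℕ := 0x100000001000000018000000000000000000000000000000000000000000000000000000000000000000000000000000000000000000000000000000000000000000000000000
def cC_5 : ℕ := 0xa0000000e0000000f800000ef0000000fc00000e7c00000efc000000e0000000e0000000e0000000800000000000000000000000000000000000000000000000000000000000000000000000000000000000
theorem lC_5 : S nC_5 cC_5 10 := S_of_chk [] trivial (node 494 (merge (node 497 (merge (node 525 (merge (leaf 1 493 526) (node 493 (merge (leaf 1 492 524) (node 461 (merge (leaf 3 460 460) (leaf 3 461 462))))))) (merge (node 466 (merge (leaf 2 462 465) (node 498 (merge (leaf 2 463 467) (node 527 (merge (leaf 1 495 499) (leaf 1 494 526))))))) (node 461 (merge (leaf 3 461 462) (node 493 (merge (leaf 3 460 460) (node 492 (merge (leaf 0 492 527) (node 524 (merge (leaf 1 491 523) (leaf 1 492 525)))))))))))) (merge (node 493 (merge (node 492 (merge (leaf 0 492 527) (node 460 (merge (leaf 3 459 459) (leaf 3 460 461))))) (merge (node 525 (merge (leaf 1 492 524) (node 461 (merge (leaf 3 460 460) (node 462 (merge (leaf 3 461 497) (node 557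 (merge (leaf 6 429 430) (leaf 6 461 589))))))))) (merge (node 492 (merge (leaf 0 492 527) (node 523 (merge (leaf 1 491 524) (node 491 (merge (leaf 1 490 522) (node 459 (merge (leaf 3 458 458) (leaf 3 459 460))))))))) (node 492 (merge (leaf 0 492 527) (node 523 (merge (leaf 1 491 524) (node 491 (merge (leaf 1 490 522) (node 462 (merge (leaf 2 459 463) (node 461 (merge (leaf 2 458 490) (leaf 3 461 497))))))))))))))) (merge (node 462 (merge (node 461 (merge (leaf 3 461 497) (node 460 (merge (leaf 0 459 459) (leaf 0 460 463))))) (merge (node 497 (merge (leaf 3 461 461) (node 466 (merge (leaf 2 462 465) (node 498 (merge (leaf 2 463 467) (node 527 (merge (leaf 1 495 499) (leaf 1 494 526))))))))) (node 430 (merge (node 398 (merge (leaf 4 398 527) (node 463 (merge (leaf 4 366 366) (node 399 (merge (leaf 6 366 367) (leaf 4 399 431))))))) (merge (node 398 (merge (leaf 4 398 527) (node 463 (merge (leaf 4 366 366) (node 397 (merge (leaf 7 365 365) (node 526 (merge (leaf 7 397 429) (node 558 (merge (leaf 6 430 431) (leaf 6 462 590))))))))))) (merge (node 398 (merge (leaf 4 398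 527) (node 399 (merge (leaf 6 366 367) (node 526 (merge (leaf 6 398 431) (node 397 (merge (leaf 7 365 365) (leaf 7 397 429))))))))) (merge (node 398 (merge (leaf 4 398 527) (node 366 (merge (leaf 4 366 463) (node 367 (merge (leaf 6 334 335) (leaf 6 366 399))))))) (merge (node 526 (merge (node 399 (merge (leaf 6 398 431) (node 398 (merge (leaf 6 366 367) (node 397 (merge (leaf 7 365 365) (leaf 7 397 429))))))) (merge (node 431 (merge (leaf 6 398 399) (node 558 (merge (leaf 6 430 463) (node 591 (merge (leaf 4 462 559) (node 590 (merge (leaf 4 494 623) (node 589 (merge (leaf 5 461 557) (leaf 5 493 621))))))))))) (merge (node 397 (merge (leaf 7 397 429) (node 398 (merge (leaf 7 365 365) (node 463 (merge (leaf 4 366 366) (node 558 (merge (leaf 6 430 431) (leaf 6 462 590))))))))) (node 397 (merge (leaf 7 397 429) (node 398 (merge (leaf 7 365 365) (node 366 (merge (leaf 4 366 463) (node 367 (merge (leaf 6 334 335) (leaf 6 366 399))))))))))))) (node 526 (merge (node 431 (merge (leaf 6 398 399) (node 463 (merge (leaf 4 431 527) (leaf 6 430 558))))) (merge (node 527 (merge (leaf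 4 430 559) (node 431 (merge (leaf 6 398 399) (leaf 4 431 463))))) (merge (node 431 (merge (leaf 6 398 399) (node 558 (merge (leaf 6 430 463) (node 591 (merge (leaf 4 462 559) (node 590 (merge (leaf 4 494 623) (node 589 (merge (leaf 5 461 557) (leaf 5 493 621))))))))))) (merge (node 559 (merge (leaf 4 430 527) (node 558 (merge (leaf 4 462 591) (node 589 (merge (leaf 5 461 557) (node 590 (merge (leaf 6 462 463) (leaf 1 557 561))))))))) (node 559 (merge (leaf 4 430 527) (node 558 (merge (leaf 4 462 591) (node 589 (merge (leaf 5 461 557) (node 590 (merge (leaf 1 557 561) (leaf 5 493 621))))))))))))))))))))))) (merge (node 527 (merge (node 493 (merge (leaf 0 492 492) (node 525 (merge (leaf 1 492 524) (node 526 (merge (leaf 2 493 497) (leaf 0 525 561))))))) (merge (node 559 (merge (node 463 (merge (leaf 4 431 431) (node 462 (merge (leaf 7 430 430) (leaf 7 462 591))))) (merge (node 591 (merge (leaf 6 495 623) (node 590 (merge (leaf 5 494 622) (node 561 (merge (leaf 1 558 562) (node 589 (merge (leaf 1 557 558) (leaf 2 556 588))))))))) (node 463 (merge (leaf 4 431 431) (node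 558 (merge (leaf 5 462 590) (node 557 (merge (leaf 2 524 556) (node 589 (merge (leaf 1 556 588) (node 462 (merge (leaf 7 430 430) (leaf 5 461 526)))))))))))))) (merge (node 559 (merge (node 463 (merge (leaf 4 431 431) (node 462 (merge (leaf 7 430 430) (leaf 7 462 591))))) (merge (node 591 (merge (leaf 6 495 623) (node 590 (merge (leaf 5 494 622) (node 561 (merge (leaf 1 558 562) (node 589 (merge (leaf 1 557 558) (leaf 2 556 588))))))))) (node 493 (merge (leaf 0 492 492) (node 463 (merge (leaf 4 431 431) (node 558 (merge (leaf 5 462 590) (node 557 (merge (leaf 2 524 556) (node 589 (merge (leaf 1 556 588) (node 462 (merge (leaf 7 430 430) (leaf 6 461 525)))))))))))))))) (node 493 (merge (leaf 0 492 492) (node 525 (merge (leaf 1 492 524) (node 526 (merge (leaf 1 493 497) (node 557 (merge (leaf 1 524 556) (node 589 (merge (leaf 6 461 462) (leaf 6 493 621))))))))))))))) (merge (node 525 (merge (node 524 (merge (leaf 1 492 493) (node 526 (merge (leaf 1 493 497) (leaf 2 491 523))))) (merge (node 526 (merge (leaf 1 493 497) (node 527 (merge (leaf 2 492 524) (leaf 0 525 561)))))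 (merge (node 493 (merge (leaf 1 492 524) (node 492 (merge (leaf 0 492 527) (node 460 (merge (leaf 3 459 459) (leaf 3 460 461))))))) (node 526 (merge (leaf 1 493 497) (node 527 (merge (leaf 0 525 561) (node 493 (merge (leaf 0 492 492) (node 557 (merge (leaf 1 524 556) (node 461 (merge (leaf 3 460 460) (node 590 (merge (leaf 4 461 558) (node 589 (merge (leaf 6 493 621) (leaf 4 493 622))))))))))))))))))) (merge (node 526 (merge (node 525 (merge (leaf 1 493 497) (node 524 (merge (leaf 1 492 493) (leaf 2 491 523))))) (merge (node 497 (merge (leaf 1 493 525) (node 462 (merge (leaf 3 461 461) (node 463 (merge (leaf 3 462 498) (node 558 (merge (leaf 6 430 431) (leaf 6 462 590))))))))) (merge (node 558 (merge (node 590 (merge (leaf 6 462 463) (node 623 (merge (leaf 4 494 591) (node 622 (merge (leaf 4 526 655) (node 493 (merge (leaf 7 461 461) (leaf 7 493 525))))))))) (merge (node 590 (merge (leaf 6 462 463) (node 589 (merge (leaf 5 493 621) (node 559 (merge (leaf 1 557 561) (node 462 (merge (leaf 5 461 557) (leaf 4 462 591))))))))) (merge (node 590 (merge (leaf 6 462 463) (node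 589 (merge (leaf 5 493 621) (node 559 (merge (leaf 1 557 561) (node 588 (merge (leaf 1 556 557) (leaf 2 555 587))))))))) (merge (node 525 (merge (node 524 (merge (leaf 1 492 493) (leaf 2 491 523))) (node 559 (merge (leaf 3 525 561) (node 462 (merge (leaf 4 462 591) (node 461 (merge (leaf 7 429 429) (node 460 (merge (leaf 0 459 459) (leaf 0 460 463))))))))))) (node 525 (merge (node 524 (merge (leaf 1 492 493) (leaf 2 491 523))) (merge (node 559 (merge (leaf 3 525 561) (node 462 (merge (leaf 4 462 591) (node 589 (merge (leaf 5 461 557) (node 590 (merge (leaf 5 493 621) (node 461 (merge (leaf 7 429 429) (leaf 7 461 493))))))))))) (node 559 (merge (leaf 3 525 561) (node 557 (merge (leaf 3 524 524) (node 462 (merge (leaf 5 429 430) (leaf 4 462 591))))))))))))))) (node 462 (merge (node 497 (merge (leaf 3 461 461) (node 466 (merge (leaf 2 462 465) (node 498 (merge (leaf 3 462 463) (leaf 2 463 467))))))) (merge (node 461 (merge (leaf 3 461 497) (node 558 (merge (leaf 7 429 429) (node 589 (merge (leaf 5 461 557) (node 590 (merge (leaf 7 461 493) (leaf 5 493 621))))))))) (node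 430 (merge (node 399 (merge (leaf 6 398 431) (node 398 (merge (leaf 6 366 367) (node 397 (merge (leaf 7 365 365) (leaf 7 397 429))))))) (merge (node 431 (merge (leaf 6 398 399) (node 558 (merge (leaf 6 430 463) (node 591 (merge (leaf 4 462 559) (node 590 (merge (leaf 4 494 623) (node 589 (merge (leaf 5 461 557) (leaf 5 493 621))))))))))) (merge (node 397 (merge (leaf 7 397 429) (node 398 (merge (leaf 7 365 365) (node 463 (merge (leaf 4 366 366) (node 558 (merge (leaf 6 430 431) (leaf 6 462 590))))))))) (node 397 (merge (leaf 7 397 429) (node 398 (merge (leaf 7 365 365) (node 366 (merge (leaf 4 366 463) (node 367 (merge (leaf 6 334 335) (leaf 6 366 399)))))))))))))))))))) (node 526 (merge (node 493 (merge (node 527 (merge (leaf 0 492 492) (node 525 (merge (leaf 2 492 524) (leaf 0 525 561))))) (node 461 (merge (leaf 3 460 460) (node 429 (merge (leaf 4 397 397) (node 558 (merge (leaf 7 429 462) (leaf 7 461 590))))))))) (merge (node 525 (merge (node 524 (merge (leaf 1 492 493) (leaf 2 491 523))) (merge (node 527 (merge (leaf 2 492 524) (leaf 0 525 561))) (node 527 (merge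 (leaf 0 525 561) (node 493 (merge (leaf 0 492 492) (node 557 (merge (leaf 1 524 556) (node 589 (merge (leaf 6 461 462) (leaf 6 493 621)))))))))))) (merge (node 525 (merge (node 524 (merge (leaf 1 492 493) (leaf 2 491 523))) (merge (node 527 (merge (leaf 2 492 524) (leaf 0 525 561))) (node 527 (merge (leaf 0 525 561) (node 493 (merge (leaf 0 492 492) (node 557 (merge (leaf 1 524 556) (node 461 (merge (leaf 3 460 460) (node 590 (merge (leaf 4 461 558) (node 589 (merge (leaf 6 493 621) (leaf 4 493 622)))))))))))))))) (merge (node 493 (merge (node 461 (merge (leaf 3 460 460) (node 429 (merge (leaf 4 397 397) (node 558 (merge (leaf 7 429 462) (leaf 7 461 590))))))) (merge (node 492 (merge (leaf 0 492 527) (node 523 (merge (leaf 1 491 524) (node 491 (merge (leaf 1 490 522) (node 459 (merge (leaf 3 458 458) (leaf 3 459 460))))))))) (node 492 (merge (leaf 0 492 527) (node 523 (merge (leaf 1 491 524) (node 491 (merge (leaf 1 490 522) (node 462 (merge (leaf 2 459 463) (node 461 (merge (leaf 2 458 490) (node 558 (merge (leaf 7 429 429) (leaf 7 461 590)))))))))))))))) (merge (node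 493 (merge (node 461 (merge (leaf 3 460 460) (node 429 (merge (leaf 4 397 397) (node 558 (merge (leaf 7 429 462) (leaf 7 461 590))))))) (merge (node 527 (merge (leaf 0 492 492) (node 525 (merge (leaf 0 525 561) (node 557 (merge (leaf 1 524 556) (node 589 (merge (leaf 6 461 462) (leaf 6 493 621))))))))) (node 527 (merge (leaf 0 492 492) (node 561 (merge (leaf 0 525 525) (node 562 (merge (leaf 3 526 559) (leaf 3 527 563)))))))))) (merge (node 558 (merge (node 590 (merge (leaf 6 462 463) (node 623 (merge (leaf 4 494 591) (node 622 (merge (leaf 4 526 655) (node 493 (merge (leaf 7 461 461) (leaf 7 493 525))))))))) (merge (node 590 (merge (leaf 6 462 463) (node 589 (merge (leaf 5 493 621) (node 559 (merge (leaf 1 557 561) (node 462 (merge (leaf 5 461 557) (leaf 4 462 591))))))))) (merge (node 590 (merge (leaf 6 462 463) (node 589 (merge (leaf 5 493 621) (node 559 (merge (leaf 1 557 561) (node 588 (merge (leaf 1 556 557) (leaf 2 555 587))))))))) (merge (node 525 (merge (node 524 (merge (leaf 1 492 493) (leaf 2 491 523))) (node 559 (merge (leaf 3 525 561) (node 462 (merge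 (leaf 4 462 591) (node 461 (merge (leaf 7 429 429) (node 460 (merge (leaf 0 459 459) (leaf 0 460 463))))))))))) (node 525 (merge (node 524 (merge (leaf 1 492 493) (leaf 2 491 523))) (merge (node 559 (merge (leaf 3 525 561) (node 462 (merge (leaf 4 462 591) (node 589 (merge (leaf 5 461 557) (node 590 (merge (leaf 5 493 621) (node 461 (merge (leaf 7 429 429) (leaf 7 461 493))))))))))) (node 559 (merge (leaf 3 525 561) (node 557 (merge (leaf 3 524 524) (node 462 (merge (leaf 5 429 430) (leaf 4 462 591))))))))))))))) (node 558 (merge (node 590 (merge (leaf 6 462 463) (node 621 (merge (leaf 5 493 589) (node 622 (merge (leaf 6 494 527) (leaf 5 525 653))))))) (merge (node 559 (merge (node 591 (merge (leaf 4 462 462) (node 623 (merge (leaf 4 494 590) (leaf 7 526 655))))) (node 525 (merge (leaf 3 525 561) (node 524 (merge (leaf 0 523 523) (leaf 3 524 557))))))) (node 462 (merge (node 461 (merge (leaf 7 429 429) (node 460 (merge (leaf 0 459 459) (leaf 0 460 463))))) (merge (node 559 (merge (leaf 4 462 591) (node 527 (merge (leaf 4 430 430) (node 557 (merge (leaf 2 524 556) (leaf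 5 461 589))))))) (node 557 (merge (leaf 5 461 589) (node 430 (merge (leaf 5 429 525) (node 527 (merge (leaf 4 398 398) (leaf 4 430 559))))))))))))))))))))))))))) nC_5 cC_5 10 (by decide +kernel)
def nC_6 : ℕ := 0x100000001000000000000000000000000000000000000000000000000000000000000000000000000000000000000000000000000000000000000000000000000000000000000
def cC_6 : ℕ := 0x80000000e0000002e0000003e000001ff8000006f00000067800001ff000001ff8000003e0000002e0000000e0000000800000000000000000000000000000000000000000000000000000000000000000000000000000000000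
theorem lC_6 : S nC_6 cC_6 13 := S_of_chk [] trivial (node 496 (merge (node 464 (merge (node 561 (merge (leaf 4 464 593) (node 432 (merge (leaf 4 432 529) (node 431 (merge (leaf 7 399 399) (leaf 7 431 463))))))) (merge (node 593 (merge (leaf 4 464 561) (node 465 (merge (leaf 6 432 433) (node 592 (merge (leaf 6 464 497) (leaf 4 496 625))))))) (node 433 (merge (leaf 6 432 465) (node 432 (merge (leaf 6 400 401) (node 431 (merge (leaf 7 399 399) (leaf 7 431 463)))))))))) (merge (node 592 (merge (node 593 (merge (leaf 4 496 625) (node 464 (merge (leaf 4 464 561) (node 465 (merge (leaf 6 432 433) (leaf 6 464 497))))))) (merge (node 625 (merge (leaf 4 496 593) (node 624 (merge (leaf 4 528 657) (node 623 (merge (leaf 5 495 591) (leaf 5 527 655))))))) (node 497 (merge (leaf 6 464 465) (node 624 (merge (leaf 6 496 529) (node 623 (merge (leaf 5 495 591) (leaf 5 527 655)))))))))) (merge (node 464 (merge (node 433 (merge (leaf 6 432 465) (node 432 (merge (leaf 6 400 401) (node 431 (merge (leaf 7 399 399) (leaf 7 431 463))))))) (merge (node 465 (merge (leaf 6 432 433) (node 592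 (merge (leaf 6 464 497) (node 591 (merge (leaf 5 463 559) (leaf 5 495 623))))))) (node 591 (merge (leaf 5 463 559) (node 463 (merge (leaf 7 431 431) (node 592 (merge (leaf 7 463 495) (leaf 5 495 623)))))))))) (merge (node 463 (merge (node 431 (merge (leaf 7 431 464) (node 495 (merge (leaf 4 399 399) (leaf 7 463 592))))) (merge (node 592 (merge (leaf 7 463 495) (node 625 (merge (leaf 4 496 593) (node 624 (merge (leaf 4 528 657) (node 623 (merge (leaf 5 495 591) (leaf 5 527 655))))))))) (node 464 (merge (leaf 7 431 431) (node 561 (merge (leaf 4 464 593) (node 529 (merge (leaf 4 432 432) (node 559 (merge (leaf 5 463 591) (node 558 (merge (leaf 2 526 530) (leaf 2 525 557)))))))))))))) (merge (node 559 (merge (node 464 (merge (leaf 5 463 591) (node 433 (merge (leaf 6 432 465) (node 432 (merge (leaf 6 400 401) (node 431 (merge (leaf 7 399 399) (leaf 7 431 463))))))))) (merge (node 561 (merge (node 593 (merge (leaf 4 464 464) (node 625 (merge (leaf 7 496 529) (leaf 7 528 657))))) (merge (node 593 (merge (node 625 (merge (leaf 7 496 529) (leaf 7 528 657))) (merge (node 558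 (merge (leaf 0 558 594) (node 529 (merge (leaf 2 526 530) (leaf 2 525 557))))) (node 594 (merge (leaf 0 558 558) (node 595 (merge (leaf 0 559 562) (leaf 3 560 596)))))))) (node 591 (merge (leaf 5 463 464) (node 590 (merge (leaf 1 558 562) (node 589 (merge (leaf 1 557 558) (leaf 2 556 588)))))))))) (merge (node 561 (merge (node 464 (merge (leaf 4 464 593) (node 433 (merge (leaf 6 432 465) (node 432 (merge (leaf 6 400 401) (node 431 (merge (leaf 7 399 399) (leaf 7 431 463))))))))) (merge (node 593 (merge (node 625 (merge (leaf 7 496 529) (leaf 7 528 657))) (merge (node 558 (merge (leaf 0 558 594) (node 529 (merge (leaf 2 526 530) (leaf 2 525 557))))) (node 594 (merge (leaf 0 558 558) (node 595 (merge (leaf 0 559 562) (leaf 3 560 596)))))))) (node 558 (merge (node 529 (merge (leaf 2 526 530) (leaf 2 525 557))) (merge (node 589 (merge (leaf 1 557 590) (node 557 (merge (leaf 1 556 588) (node 525 (merge (leaf 3 524 524) (leaf 3 525 526))))))) (node 590 (merge (leaf 1 557 589) (node 529 (merge (leaf 2 526 530) (node 526 (merge (leaf 3 525 525) (node 464 (merge (leaf 4 432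 432) (node 465 (merge (leaf 6 432 433) (node 463 (merge (leaf 7 431 431) (node 494 (merge (leaf 6 462 495) (node 493 (merge (leaf 7 461 461) (leaf 1 461 462))))))))))))))))))))))) (node 558 (merge (node 529 (merge (leaf 2 525 557) (node 561 (merge (leaf 2 526 530) (node 593 (merge (leaf 0 558 594) (leaf 7 496 625))))))) (merge (node 557 (merge (leaf 2 525 529) (node 588 (merge (leaf 1 556 589) (node 556 (merge (leaf 1 555 587) (node 524 (merge (leaf 3 523 523) (leaf 3 524 525))))))))) (merge (node 561 (merge (node 593 (merge (leaf 0 558 594) (node 625 (merge (leaf 7 528 657) (node 529 (merge (leaf 7 496 496) (leaf 2 526 530))))))) (node 590 (merge (leaf 1 557 589) (node 591 (merge (leaf 1 558 562) (node 526 (merge (leaf 3 525 525) (node 623 (merge (leaf 4 494 494) (leaf 7 526 655))))))))))) (node 526 (merge (node 525 (merge (leaf 3 525 561) (node 524 (merge (leaf 0 523 523) (leaf 3 524 557))))) (merge (node 561 (merge (leaf 3 525 525) (node 594 (merge (leaf 0 558 593) (node 562 (merge (leaf 0 559 595) (node 590 (merge (leaf 1 557 589) (leaf 1 558 591))))))))) (merge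 (node 494 (merge (node 462 (merge (leaf 4 462 591) (node 589 (merge (leaf 5 461 557) (node 590 (merge (leaf 5 493 621) (node 461 (merge (leaf 7 429 429) (leaf 7 461 493))))))))) (merge (node 462 (merge (leaf 4 462 591) (node 461 (merge (leaf 7 429 429) (node 495 (merge (leaf 3 461 497) (node 460 (merge (leaf 0 459 459) (leaf 0 460 463))))))))) (node 525 (merge (node 524 (merge (leaf 0 523 523) (leaf 3 524 557))) (node 495 (merge (leaf 1 493 497) (node 590 (merge (leaf 6 462 463) (node 621 (merge (leaf 5 493 589) (node 622 (merge (leaf 7 493 493) (leaf 5 525 653)))))))))))))) (node 590 (merge (node 589 (merge (leaf 1 557 561) (node 588 (merge (leaf 1 556 557) (leaf 2 555 587))))) (node 622 (merge (node 655 (merge (leaf 4 526 623) (node 654 (merge (leaf 4 558 687) (node 653 (merge (leaf 5 525 621) (leaf 5 557 685))))))) (merge (node 623 (merge (leaf 4 526 655) (node 494 (merge (leaf 4 494 591) (node 463 (merge (leaf 6 462 495) (node 462 (merge (leaf 6 430 431) (node 461 (merge (leaf 7 429 429) (leaf 7 461 493))))))))))) (merge (node 653 (merge (leaf 5 525 621) (node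 654 (merge (leaf 5 557 685) (node 591 (merge (leaf 6 558 686) (node 494 (merge (leaf 4 462 462) (leaf 4 494 623))))))))) (node 653 (merge (leaf 5 525 621) (node 654 (merge (leaf 5 557 685) (node 687 (merge (leaf 4 558 655) (node 686 (merge (leaf 6 558 591) (leaf 4 590 719))))))))))))))))))))))))))) (node 495 (merge (node 592 (merge (leaf 7 463 463) (node 625 (merge (leaf 4 496 593) (node 624 (merge (leaf 4 528 657) (node 623 (merge (leaf 5 495 591) (leaf 5 527 655))))))))) (merge (node 497 (merge (node 592 (merge (leaf 7 463 463) (leaf 6 464 465))) (merge (node 465 (merge (leaf 6 464 592) (node 433 (merge (leaf 5 400 401) (leaf 5 432 529))))) (merge (node 494 (merge (node 465 (merge (leaf 2 462 466) (node 433 (merge (leaf 5 400 401) (leaf 5 432 529))))) (merge (node 529 (merge (leaf 0 493 493) (leaf 0 494 530))) (node 466 (merge (leaf 2 462 465) (node 498 (merge (leaf 2 463 467) (node 462 (merge (leaf 3 461 461) (leaf 3 462 463)))))))))) (node 463 (merge (leaf 7 463 592) (node 498 (merge (leaf 3 462 462) (node 467 (merge (leaf 2 463 466) (node 499 (merge (leaf 2 464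 468) (node 529 (merge (leaf 1 496 500) (node 494 (merge (leaf 0 493 493) (leaf 0 494 530))))))))))))))))) (merge (node 497 (merge (node 592 (merge (leaf 6 464 465) (node 625 (merge (leaf 4 496 593) (node 624 (merge (leaf 4 528 657) (node 623 (merge (leaf 5 495 591) (leaf 5 527 655))))))))) (merge (node 494 (merge (node 465 (merge (leaf 2 462 466) (node 433 (merge (leaf 5 400 401) (leaf 5 432 529))))) (node 525 (merge (leaf 1 493 526) (node 493 (merge (leaf 1 492 524) (node 461 (merge (leaf 3 460 460) (leaf 3 461 462))))))))) (node 494 (merge (node 529 (merge (leaf 0 493 493) (leaf 0 494 530))) (merge (node 529 (merge (leaf 0 493 493) (leaf 0 494 530))) (merge (node 525 (merge (leaf 1 493 526) (node 493 (merge (leaf 1 492 524) (node 461 (merge (leaf 3 460 460) (leaf 3 461 462))))))) (node 529 (merge (leaf 0 494 530) (node 526 (merge (leaf 1 493 525) (node 462 (merge (leaf 3 461 461) (node 592 (merge (leaf 6 496 624) (node 593 (merge (leaf 4 496 625) (node 591 (merge (leaf 5 495 623) (node 558 (merge (leaf 4 462 559) (node 557 (merge (leaf 5 461 589) (leaf 3 557 590))))))))))))))))))))))))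 (node 494 (merge (node 529 (merge (leaf 0 493 493) (node 497 (merge (leaf 0 494 530) (node 465 (merge (leaf 5 432 433) (leaf 2 462 466))))))) (merge (node 493 (merge (leaf 0 493 529) (node 524 (merge (leaf 1 492 525) (node 492 (merge (leaf 1 491 523) (node 460 (merge (leaf 3 459 459) (leaf 3 460 461))))))))) (merge (node 497 (merge (node 465 (merge (leaf 2 462 466) (node 433 (merge (leaf 5 400 401) (leaf 5 432 529))))) (merge (node 466 (merge (leaf 2 462 465) (node 498 (merge (leaf 2 463 467) (node 462 (merge (leaf 3 461 461) (leaf 3 462 463))))))) (node 526 (merge (leaf 1 493 525) (node 462 (merge (leaf 3 461 461) (node 463 (merge (leaf 3 462 498) (node 431 (merge (leaf 4 399 399) (leaf 6 430 558)))))))))))) (node 526 (merge (node 525 (merge (leaf 1 493 497) (node 524 (merge (leaf 1 492 493) (leaf 2 491 523))))) (merge (node 497 (merge (leaf 1 493 525) (node 462 (merge (leaf 3 461 461) (node 463 (merge (leaf 3 462 498) (node 558 (merge (leaf 6 430 431) (leaf 6 462 590))))))))) (merge (node 558 (merge (node 590 (merge (leaf 6 462 463) (node 623 (merge (leaf 4 494 591)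 (node 622 (merge (leaf 4 526 655) (node 493 (merge (leaf 7 461 461) (leaf 7 493 525))))))))) (merge (node 590 (merge (leaf 6 462 463) (node 589 (merge (leaf 5 493 621) (node 559 (merge (leaf 1 557 561) (node 462 (merge (leaf 5 461 557) (leaf 4 462 591))))))))) (merge (node 590 (merge (leaf 6 462 463) (node 589 (merge (leaf 5 493 621) (node 559 (merge (leaf 1 557 561) (node 588 (merge (leaf 1 556 557) (leaf 2 555 587))))))))) (merge (node 525 (merge (node 524 (merge (leaf 1 492 493) (leaf 2 491 523))) (node 559 (merge (leaf 3 525 561) (node 462 (merge (leaf 4 462 591) (node 461 (merge (leaf 7 429 429) (node 460 (merge (leaf 0 459 459) (leaf 0 460 463))))))))))) (node 525 (merge (node 524 (merge (leaf 1 492 493) (leaf 2 491 523))) (merge (node 559 (merge (leaf 3 525 561) (node 462 (merge (leaf 4 462 591) (node 589 (merge (leaf 5 461 557) (node 590 (merge (leaf 5 493 621) (node 461 (merge (leaf 7 429 429) (leaf 7 461 493))))))))))) (node 559 (merge (leaf 3 525 561) (node 557 (merge (leaf 3 524 524) (node 462 (merge (leaf 5 429 430) (leaf 4 462 591))))))))))))))) (node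 462 (merge (node 497 (merge (leaf 3 461 461) (node 466 (merge (leaf 2 462 465) (node 498 (merge (leaf 3 462 463) (leaf 2 463 467))))))) (merge (node 461 (merge (leaf 3 461 497) (node 558 (merge (leaf 7 429 429) (node 589 (merge (leaf 5 461 557) (node 590 (merge (leaf 7 461 493) (leaf 5 493 621))))))))) (node 430 (merge (node 399 (merge (leaf 6 398 431) (node 398 (merge (leaf 6 366 367) (node 397 (merge (leaf 7 365 365) (leaf 7 397 429))))))) (merge (node 431 (merge (leaf 6 398 399) (node 558 (merge (leaf 6 430 463) (node 591 (merge (leaf 4 462 559) (node 590 (merge (leaf 4 494 623) (node 589 (merge (leaf 5 461 557) (leaf 5 493 621))))))))))) (merge (node 397 (merge (leaf 7 397 429) (node 398 (merge (leaf 7 365 365) (node 463 (merge (leaf 4 366 366) (node 558 (merge (leaf 6 430 431) (leaf 6 462 590))))))))) (node 397 (merge (leaf 7 397 429) (node 398 (merge (leaf 7 365 365) (node 366 (merge (leaf 4 366 463) (node 367 (merge (leaf 6 334 335) (leaf 6 366 399)))))))))))))))))))))))))))))))))) nC_6 cC_6 13 (by decide +kernel)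
def nC_7 : ℕ := 0x100000001000000000000000000000000000000000000000000000000000000000000000000000000000000000000000000000000000000000000000000000000000000000000
def cC_7 : ℕ := 0x80000003c0000003e000000ff800000ef0000006f800001ff000001ff8000001c0000003c000000380000002800000000000000000000000000000000000000000000000000000000000000000000000000000000000
theorem lC_7 : S nC_7 cC_7 13 := S_of_chk [] trivial (node 496 (merge (node 592 (merge (node 625 (merge (leaf 4 496 593) (node 624 (merge (leaf 4 528 657) (node 495 (merge (leaf 7 463 463) (leaf 7 495 527))))))) (merge (node 625 (merge (leaf 4 496 593) (node 624 (merge (leaf 4 528 657) (node 623 (merge (leaf 5 495 591) (leaf 5 527 655))))))) (merge (node 623 (merge (leaf 5 495 591) (node 495 (merge (leaf 7 463 463) (node 624 (merge (leaf 7 495 527) (leaf 5 527 655))))))) (node 593 (merge (leaf 4 496 625) (node 561 (merge (leaf 4 464 464) (node 591 (merge (leaf 5 495 623) (node 590 (merge (leaf 2 558 562) (leaf 2 557 589))))))))))))) (merge (node 463 (merge (node 431 (merge (leaf 7 431 464) (node 495 (merge (leaf 4 399 399)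 (leaf 7 463 592))))) (merge (node 592 (merge (leaf 7 463 495) (node 625 (merge (leaf 4 496 593) (node 497 (merge (leaf 6 464 465) (node 624 (merge (leaf 6 496 529) (leaf 4 528 657))))))))) (node 464 (merge (leaf 7 431 431) (node 561 (merge (leaf 4 464 593) (node 529 (merge (leaf 4 432 432) (node 559 (merge (leaf 5 463 591) (node 558 (merge (leaf 2 526 530) (leaf 2 525 557)))))))))))))) (merge (node 463 (merge (node 431 (merge (leaf 7 431 464) (node 495 (merge (leaf 4 399 399) (leaf 4 431 527))))) (merge (node 592 (merge (leaf 7 463 495) (node 625 (merge (leaf 4 496 593) (node 497 (merge (leaf 6 464 465) (node 624 (merge (leaf 6 496 529) (leaf 4 528 657))))))))) (node 464 (merge (leaf 7 431 431) (node 591 (merge (leaf 5 463 559) (node 592 (merge (leaf 5 495 623) (node 625 (merge (leaf 4 496 593) (node 624 (merge (leaf 4 528 657) (node 497 (merge (leaf 6 464 465) (leaf 6 496 529)))))))))))))))) (merge (node 592 (merge (node 593 (merge (leaf 4 496 625) (node 464 (merge (leaf 4 464 561) (node 463 (merge (leaf 7 431 431) (leaf 7 463 495))))))) (merge (node 625 (merge (leaf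 4 496 593) (node 624 (merge (leaf 4 528 657) (node 495 (merge (leaf 7 463 463) (leaf 7 495 527))))))) (merge (node 625 (merge (leaf 4 496 593) (node 624 (merge (leaf 4 528 657) (node 655 (merge (leaf 5 527 623) (node 656 (merge (leaf 5 559 687) (node 529 (merge (leaf 6 496 497) (leaf 6 528 561))))))))))) (node 495 (merge (leaf 7 463 463) (node 624 (merge (leaf 7 495 527) (node 655 (merge (leaf 5 527 623) (node 656 (merge (leaf 5 559 687) (node 529 (merge (leaf 6 496 497) (leaf 6 528 561))))))))))))))) (merge (node 559 (merge (node 591 (merge (leaf 5 463 464) (node 623 (merge (leaf 6 495 527) (leaf 6 527 655))))) (merge (node 464 (merge (leaf 5 463 591) (node 432 (merge (leaf 5 431 527) (node 529 (merge (leaf 4 432 561) (node 497 (merge (leaf 4 400 400) (node 592 (merge (leaf 6 464 465) (leaf 6 496 624))))))))))) (merge (node 592 (merge (node 625 (merge (leaf 4 496 593) (node 497 (merge (leaf 6 464 465) (node 624 (merge (leaf 6 496 529) (leaf 4 528 657))))))) (merge (node 593 (merge (leaf 4 496 625) (node 464 (merge (leaf 4 464 561) (node 432 (merge (leaf 5 431 527)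 (node 431 (merge (leaf 7 399 399) (leaf 7 431 463))))))))) (node 497 (merge (leaf 6 464 465) (node 624 (merge (leaf 6 496 529) (node 656 (merge (leaf 7 527 527) (node 655 (merge (leaf 5 527 623) (leaf 5 559 687)))))))))))) (node 592 (merge (node 593 (merge (leaf 4 496 625) (node 594 (merge (leaf 3 559 595) (node 591 (merge (leaf 3 558 558) (leaf 5 495 623))))))) (merge (node 625 (merge (leaf 4 496 593) (node 497 (merge (leaf 6 464 465) (node 624 (merge (leaf 6 496 529) (leaf 4 528 657))))))) (node 497 (merge (leaf 6 464 465) (node 624 (merge (leaf 6 496 529) (node 623 (merge (leaf 5 495 591) (leaf 5 527 655)))))))))))))) (merge (node 559 (merge (node 591 (merge (leaf 5 463 464) (node 623 (merge (leaf 6 495 527) (leaf 6 527 655))))) (merge (node 464 (merge (leaf 5 463 591) (node 432 (merge (leaf 5 431 527) (node 529 (merge (leaf 4 432 561) (node 497 (merge (leaf 4 400 400) (node 592 (merge (leaf 6 464 465) (leaf 6 496 624))))))))))) (merge (node 592 (merge (node 593 (merge (leaf 4 496 625) (node 594 (merge (leaf 3 559 595) (node 591 (merge (leaf 3 558 558) (leaf 5 495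 623))))))) (merge (node 625 (merge (leaf 4 496 593) (node 497 (merge (leaf 6 464 465) (node 624 (merge (leaf 6 496 529) (leaf 4 528 657))))))) (node 497 (merge (leaf 6 464 465) (node 624 (merge (leaf 6 496 529) (node 623 (merge (leaf 5 495 591) (leaf 5 527 655)))))))))) (node 592 (merge (node 625 (merge (leaf 4 496 593) (node 497 (merge (leaf 6 464 465) (node 624 (merge (leaf 6 496 529) (leaf 4 528 657))))))) (merge (node 593 (merge (leaf 4 496 625) (node 464 (merge (leaf 4 464 561) (node 527 (merge (leaf 5 431 432) (node 624 (merge (leaf 7 495 495) (leaf 7 527 656))))))))) (merge (node 497 (merge (leaf 6 464 465) (node 624 (merge (leaf 6 496 529) (node 656 (merge (leaf 7 527 527) (node 655 (merge (leaf 5 527 623) (leaf 5 559 687))))))))) (node 593 (merge (leaf 4 496 625) (node 464 (merge (leaf 4 464 561) (node 432 (merge (leaf 5 431 527) (node 497 (merge (leaf 6 464 465) (node 400 (merge (leaf 4 400 529) (node 399 (merge (leaf 7 367 367) (leaf 7 399 431))))))))))))))))))))) (merge (node 463 (merge (node 495 (merge (leaf 7 463 592) (node 431 (merge (leaf 4 399 399)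 (leaf 4 431 527))))) (merge (node 592 (merge (leaf 7 463 495) (node 497 (merge (leaf 6 464 465) (node 624 (merge (leaf 6 496 529) (node 623 (merge (leaf 5 495 591) (leaf 5 527 655))))))))) (node 464 (merge (leaf 7 431 431) (node 559 (merge (leaf 5 463 591) (node 432 (merge (leaf 5 431 527) (node 529 (merge (leaf 4 432 561) (node 400 (merge (leaf 4 400 497) (node 369 (merge (leaf 6 368 401) (node 368 (merge (leaf 6 336 337) (node 367 (merge (leaf 7 335 335) (leaf 7 367 399)))))))))))))))))))) (merge (node 559 (merge (node 464 (merge (leaf 5 463 591) (node 432 (merge (leaf 5 431 527) (node 431 (merge (leaf 7 399 399) (leaf 7 431 463))))))) (merge (node 464 (merge (leaf 5 463 591) (node 561 (merge (leaf 4 464 593) (node 529 (merge (leaf 4 432 432) (node 558 (merge (leaf 2 526 530) (leaf 2 525 557))))))))) (node 558 (merge (node 529 (merge (leaf 2 525 557) (node 561 (merge (leaf 2 526 530) (node 593 (merge (leaf 0 558 594) (leaf 7 496 625))))))) (merge (node 557 (merge (leaf 2 525 529) (node 556 (merge (leaf 2 524 527) (node 524 (merge (leaf 3 523 523) (leaf 3 524 525)))))))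 (merge (node 525 (merge (node 524 (merge (leaf 3 524 557) (node 526 (merge (leaf 0 523 523) (leaf 3 525 561))))) (merge (node 526 (merge (leaf 3 525 561) (node 527 (merge (leaf 2 493 497) (leaf 0 524 524))))) (merge (node 557 (merge (leaf 3 524 524) (node 556 (merge (leaf 2 524 527) (node 588 (merge (leaf 1 555 587) (leaf 1 556 589))))))) (node 561 (merge (leaf 3 525 526) (node 594 (merge (leaf 0 558 593) (node 562 (merge (leaf 0 559 595) (node 589 (merge (leaf 1 557 590) (node 557 (merge (leaf 1 556 588) (node 527 (merge (leaf 2 524 556) (leaf 3 527 563))))))))))))))))) (node 561 (merge (node 594 (merge (leaf 0 558 593) (node 562 (merge (leaf 0 559 595) (node 526 (merge (leaf 3 525 525) (leaf 3 526 527))))))) (merge (node 593 (merge (leaf 0 558 594) (node 625 (merge (leaf 7 528 657) (node 529 (merge (leaf 7 496 496) (leaf 2 526 530))))))) (node 590 (merge (leaf 1 557 589) (node 526 (merge (leaf 3 525 525) (node 527 (merge (leaf 3 526 562) (node 622 (merge (leaf 6 494 495) (leaf 6 526 654))))))))))))))))))) (node 495 (merge (node 592 (merge (leaf 7 463 463) (node 625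 (merge (leaf 4 496 593) (node 624 (merge (leaf 7 495 527) (leaf 4 528 657))))))) (merge (node 592 (merge (leaf 7 463 463) (node 625 (merge (leaf 4 496 593) (node 624 (merge (leaf 4 528 657) (node 623 (merge (leaf 5 495 591) (leaf 5 527 655))))))))) (merge (node 494 (merge (node 529 (merge (leaf 0 493 493) (node 530 (merge (leaf 0 494 497) (leaf 3 494 527))))) (merge (node 493 (merge (leaf 0 493 529) (node 524 (merge (leaf 1 492 525) (node 492 (merge (leaf 1 491 523) (node 460 (merge (leaf 3 459 459) (leaf 3 460 461))))))))) (merge (node 497 (merge (node 525 (merge (leaf 1 493 526) (node 493 (merge (leaf 1 492 524) (node 461 (merge (leaf 3 460 460) (leaf 3 461 462))))))) (merge (node 461 (merge (leaf 3 461 462) (node 493 (merge (leaf 3 460 460) (node 527 (merge (leaf 0 492 492) (node 498 (merge (leaf 1 495 499) (leaf 1 494 526))))))))) (merge (node 461 (merge (leaf 3 461 462) (node 493 (merge (leaf 3 460 460) (node 492 (merge (leaf 0 492 527) (node 524 (merge (leaf 1 491 523) (leaf 1 492 525))))))))) (merge (node 525 (merge (leaf 1 493 526) (node 493 (merge (leaf 1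 492 524) (node 492 (merge (leaf 0 492 527) (node 460 (merge (leaf 3 459 459) (leaf 3 460 461))))))))) (node 526 (merge (leaf 1 493 525) (node 527 (merge (leaf 1 494 498) (node 592 (merge (leaf 7 495 624) (node 591 (merge (leaf 5 495 623) (node 559 (merge (leaf 7 462 462) (node 590 (merge (leaf 5 494 622) (node 589 (merge (leaf 2 557 561) (leaf 2 556 588)))))))))))))))))))) (node 497 (merge (node 526 (merge (leaf 1 493 525) (node 527 (merge (leaf 1 494 498) (node 462 (merge (leaf 3 461 461) (node 430 (merge (leaf 4 398 398) (leaf 4 430 559))))))))) (merge (node 529 (merge (leaf 0 494 530) (node 526 (merge (leaf 1 493 525) (node 498 (merge (leaf 1 494 527) (node 499 (merge (leaf 1 496 500) (node 467 (merge (leaf 2 463 466) (leaf 2 464 468))))))))))) (merge (node 529 (merge (leaf 0 494 530) (node 526 (merge (leaf 1 493 525) (node 498 (merge (leaf 1 494 527) (node 466 (merge (leaf 2 463 467) (node 593 (merge (leaf 6 465 561) (node 592 (merge (leaf 6 496 624) (leaf 4 496 625))))))))))))) (merge (node 529 (merge (leaf 0 494 530) (node 462 (merge (leaf 3 461 461) (node 592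 (merge (leaf 6 496 624) (node 593 (merge (leaf 4 496 625) (node 591 (merge (leaf 5 495 623) (node 559 (merge (leaf 7 462 527) (node 558 (merge (leaf 0 557 557) (leaf 3 558 594))))))))))))))) (node 529 (merge (leaf 0 494 530) (node 526 (merge (leaf 1 493 525) (node 462 (merge (leaf 3 461 461) (node 592 (merge (leaf 6 496 624) (node 593 (merge (leaf 4 496 625) (node 591 (merge (leaf 5 495 623) (node 558 (merge (leaf 4 462 559) (node 557 (merge (leaf 5 461 589) (leaf 3 557 590)))))))))))))))))))))))))) (node 494 (merge (node 529 (merge (leaf 0 493 493) (node 530 (merge (leaf 0 494 497) (leaf 3 494 527))))) (merge (node 493 (merge (leaf 0 493 529) (node 524 (merge (leaf 1 492 525) (node 492 (merge (leaf 1 491 523) (node 460 (merge (leaf 3 459 459) (leaf 3 460 461))))))))) (merge (node 525 (merge (node 526 (merge (leaf 1 493 497) (node 527 (merge (leaf 2 492 524) (leaf 0 525 561))))) (merge (node 493 (merge (leaf 1 492 524) (node 461 (merge (leaf 3 460 460) (node 462 (merge (leaf 3 461 497) (node 557 (merge (leaf 6 429 430) (leaf 6 461 589))))))))) (merge (node 497 (merge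 (leaf 1 493 526) (node 462 (merge (leaf 3 461 461) (node 498 (merge (leaf 3 462 463) (node 499 (merge (leaf 1 495 527) (node 467 (merge (leaf 2 463 466) (leaf 2 464 468))))))))))) (node 493 (merge (leaf 1 492 524) (node 527 (merge (leaf 0 492 492) (node 526 (merge (leaf 0 525 561) (node 557 (merge (leaf 1 524 556) (node 461 (merge (leaf 3 460 460) (node 590 (merge (leaf 4 461 558) (node 589 (merge (leaf 6 461 462) (leaf 4 493 622))))))))))))))))))) (node 526 (merge (node 525 (merge (leaf 1 493 497) (node 524 (merge (leaf 2 491 523) (leaf 2 492 527))))) (merge (node 497 (merge (leaf 1 493 525) (node 529 (merge (leaf 0 494 530) (node 462 (merge (leaf 3 461 461) (node 498 (merge (leaf 3 462 463) (node 499 (merge (leaf 1 496 500) (node 467 (merge (leaf 2 463 466) (leaf 2 464 468))))))))))))) (merge (node 527 (merge (node 525 (merge (leaf 2 492 524) (leaf 0 525 561))) (node 529 (merge (leaf 3 494 530) (node 558 (merge (leaf 1 525 557) (node 590 (merge (leaf 6 494 622) (node 591 (merge (leaf 4 494 623) (node 559 (merge (leaf 4 462 462) (node 589 (merge (leaf 2 556 588) (leaf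 5 493 621))))))))))))))) (node 527 (merge (node 497 (merge (leaf 1 494 498) (node 462 (merge (leaf 3 461 461) (node 430 (merge (leaf 4 398 398) (node 431 (merge (leaf 6 398 399) (leaf 4 431 463))))))))) (merge (node 529 (merge (leaf 3 494 530) (node 558 (merge (leaf 1 525 557) (node 590 (merge (leaf 6 494 622) (node 591 (merge (leaf 4 494 623) (node 559 (merge (leaf 4 462 462) (node 589 (merge (leaf 2 556 588) (leaf 5 493 621))))))))))))) (merge (node 497 (merge (leaf 1 494 498) (node 462 (merge (leaf 3 461 461) (node 430 (merge (leaf 4 398 398) (leaf 4 430 559))))))) (node 529 (merge (leaf 3 494 530) (node 558 (merge (leaf 1 525 557) (node 463 (merge (leaf 4 431 431) (leaf 6 462 590)))))))))))))))))))))))))))))))) nC_7 cC_7 13 (by decide +kernel)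
def nC_8 : ℕ := 0x100000001000000000000000000000000000000000000000000000000000000000000000000000000000000000000000000000000000000000000000000000000000000000000
def cC_8 : ℕ := 0x280000003c0000003e000000ff800000ef0000006f800001ff000001df8000003c0000003c000000380000002800000000000000000000000000000000000000000000000000000000000000000000000000000000000
theorem lC_8 : S nC_8 cC_8 13 := S_of_chk [] trivial (node 496 (merge (node 464 (merge (node 593 (merge (leaf 4 464 561) (node 592 (merge (leaf 4 496 625) (node 591 (merge (leaf 5 463 559) (leaf 5 495 623))))))) (merge (node 559 (merge (leaf 5 463 591) (node 432 (merge (leaf 5 431 527) (node 401 (merge (leaf 6 400 433) (node 400 (merge (leaf 6 368 369) (node 399 (merge (leaf 7 367 367) (leaf 7 399 431))))))))))) (node 561 (merge (leaf 4 464 593) (node 432 (merge (leaf 4 432 529) (node 401 (merge (leaf 6 400 433) (node 400 (merge (leaf 6 368 369) (node 399 (merge (leaf 7 367 367) (leaf 7 399 431)))))))))))))) (merge (node 592 (merge (node 593 (merge (leaf 4 496 625) (node 464 (merge (leaf 4 464 561) (node 463 (merge (leaf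 7 431 431) (leaf 7 463 495))))))) (merge (node 625 (merge (leaf 4 496 593) (node 624 (merge (leaf 4 528 657) (node 495 (merge (leaf 7 463 463) (leaf 7 495 527))))))) (merge (node 625 (merge (leaf 4 496 593) (node 624 (merge (leaf 4 528 657) (node 655 (merge (leaf 5 527 623) (node 656 (merge (leaf 5 559 687) (node 529 (merge (leaf 6 496 497) (leaf 6 528 561))))))))))) (node 495 (merge (leaf 7 463 463) (node 624 (merge (leaf 7 495 527) (node 655 (merge (leaf 5 527 623) (node 656 (merge (leaf 5 559 687) (node 529 (merge (leaf 6 496 497) (leaf 6 528 561))))))))))))))) (merge (node 592 (merge (node 625 (merge (leaf 4 496 593) (node 624 (merge (leaf 4 528 657) (node 495 (merge (leaf 7 463 463) (leaf 7 495 527))))))) (merge (node 625 (merge (leaf 4 496 593) (node 624 (merge (leaf 4 528 657) (node 623 (merge (leaf 5 495 591) (leaf 5 527 655))))))) (merge (node 623 (merge (leaf 5 495 591) (node 495 (merge (leaf 7 463 463) (node 624 (merge (leaf 7 495 527) (leaf 5 527 655))))))) (node 593 (merge (leaf 4 496 625) (node 591 (merge (leaf 5 495 623) (node 559 (merge (leaf 5 463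 464) (node 594 (merge (leaf 3 558 558) (leaf 3 559 595))))))))))))) (merge (node 463 (merge (node 495 (merge (leaf 7 463 592) (node 431 (merge (leaf 4 399 399) (leaf 4 431 527))))) (merge (node 592 (merge (leaf 7 463 495) (node 591 (merge (leaf 5 495 623) (node 464 (merge (leaf 5 463 559) (node 561 (merge (leaf 4 464 593) (node 529 (merge (leaf 4 432 432) (node 624 (merge (leaf 6 496 497) (leaf 6 528 656))))))))))))) (node 464 (merge (leaf 7 431 431) (node 561 (merge (leaf 4 464 593) (node 529 (merge (leaf 4 432 432) (node 559 (merge (leaf 5 463 591) (node 558 (merge (leaf 2 526 530) (leaf 2 525 557)))))))))))))) (merge (node 463 (merge (node 431 (merge (leaf 7 431 464) (node 495 (merge (leaf 4 399 399) (leaf 7 463 592))))) (merge (node 592 (merge (leaf 7 463 495) (node 625 (merge (leaf 4 496 593) (node 624 (merge (leaf 4 528 657) (node 623 (merge (leaf 5 495 591) (leaf 5 527 655))))))))) (node 464 (merge (leaf 7 431 431) (node 561 (merge (leaf 4 464 593) (node 529 (merge (leaf 4 432 432) (node 559 (merge (leaf 5 463 591) (node 558 (merge (leaf 2 526 530) (leaf 2 525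 557)))))))))))))) (merge (node 463 (merge (node 495 (merge (leaf 7 463 592) (node 431 (merge (leaf 4 399 399) (leaf 4 431 527))))) (merge (node 592 (merge (leaf 7 463 495) (node 623 (merge (leaf 5 495 591) (node 624 (merge (leaf 5 527 655) (node 657 (merge (leaf 4 528 625) (node 656 (merge (leaf 4 560 689) (node 529 (merge (leaf 6 496 497) (leaf 6 528 561))))))))))))) (node 464 (merge (leaf 7 431 431) (node 559 (merge (leaf 5 463 591) (node 432 (merge (leaf 5 431 527) (node 529 (merge (leaf 4 432 561) (node 400 (merge (leaf 4 400 497) (node 369 (merge (leaf 6 368 401) (node 368 (merge (leaf 6 336 337) (node 367 (merge (leaf 7 335 335) (leaf 7 367 399)))))))))))))))))))) (merge (node 559 (merge (node 464 (merge (leaf 5 463 591) (node 432 (merge (leaf 5 431 527) (node 431 (merge (leaf 7 399 399) (leaf 7 431 463))))))) (merge (node 464 (merge (leaf 5 463 591) (node 561 (merge (leaf 4 464 593) (node 529 (merge (leaf 4 432 432) (node 558 (merge (leaf 2 526 530) (leaf 2 525 557))))))))) (node 558 (merge (node 529 (merge (leaf 2 525 557) (node 561 (merge (leaf 2 526 530)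 (node 593 (merge (leaf 0 558 594) (leaf 7 496 625))))))) (merge (node 557 (merge (leaf 2 525 529) (node 556 (merge (leaf 2 524 527) (node 524 (merge (leaf 3 523 523) (leaf 3 524 525))))))) (merge (node 525 (merge (node 524 (merge (leaf 3 524 557) (node 526 (merge (leaf 0 523 523) (leaf 3 525 561))))) (merge (node 526 (merge (leaf 3 525 561) (node 527 (merge (leaf 2 493 497) (leaf 0 524 524))))) (merge (node 557 (merge (leaf 3 524 524) (node 556 (merge (leaf 2 524 527) (node 588 (merge (leaf 1 555 587) (leaf 1 556 589))))))) (node 561 (merge (leaf 3 525 526) (node 594 (merge (leaf 0 558 593) (node 562 (merge (leaf 0 559 595) (node 589 (merge (leaf 1 557 590) (node 557 (merge (leaf 1 556 588) (node 527 (merge (leaf 2 524 556) (leaf 3 527 563))))))))))))))))) (node 561 (merge (node 594 (merge (leaf 0 558 593) (node 562 (merge (leaf 0 559 595) (node 526 (merge (leaf 3 525 525) (leaf 3 526 527))))))) (merge (node 593 (merge (leaf 0 558 594) (node 625 (merge (leaf 7 528 657) (node 529 (merge (leaf 7 496 496) (leaf 2 526 530))))))) (node 590 (merge (leaf 1 557 589) (node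 526 (merge (leaf 3 525 525) (node 527 (merge (leaf 3 526 562) (node 622 (merge (leaf 6 494 495) (leaf 6 526 654))))))))))))))))))) (node 495 (merge (node 592 (merge (leaf 7 463 463) (node 625 (merge (leaf 4 496 593) (node 624 (merge (leaf 7 495 527) (leaf 4 528 657))))))) (merge (node 592 (merge (leaf 7 463 463) (node 625 (merge (leaf 4 496 593) (node 624 (merge (leaf 4 528 657) (node 623 (merge (leaf 5 495 591) (leaf 5 527 655))))))))) (merge (node 494 (merge (node 529 (merge (leaf 0 493 493) (node 530 (merge (leaf 0 494 497) (leaf 3 494 527))))) (merge (node 493 (merge (leaf 0 493 529) (node 524 (merge (leaf 1 492 525) (node 492 (merge (leaf 1 491 523) (node 460 (merge (leaf 3 459 459) (leaf 3 460 461))))))))) (merge (node 497 (merge (node 525 (merge (leaf 1 493 526) (node 493 (merge (leaf 1 492 524) (node 461 (merge (leaf 3 460 460) (leaf 3 461 462))))))) (merge (node 461 (merge (leaf 3 461 462) (node 493 (merge (leaf 3 460 460) (node 527 (merge (leaf 0 492 492) (node 498 (merge (leaf 1 495 499) (leaf 1 494 526))))))))) (merge (node 461 (merge (leaf 3 461 462) (node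 493 (merge (leaf 3 460 460) (node 492 (merge (leaf 0 492 527) (node 524 (merge (leaf 1 491 523) (leaf 1 492 525))))))))) (merge (node 525 (merge (leaf 1 493 526) (node 493 (merge (leaf 1 492 524) (node 492 (merge (leaf 0 492 527) (node 460 (merge (leaf 3 459 459) (leaf 3 460 461))))))))) (node 526 (merge (leaf 1 493 525) (node 527 (merge (leaf 1 494 498) (node 592 (merge (leaf 7 495 624) (node 591 (merge (leaf 5 495 623) (node 559 (merge (leaf 7 462 462) (node 590 (merge (leaf 5 494 622) (node 589 (merge (leaf 2 557 561) (leaf 2 556 588)))))))))))))))))))) (node 497 (merge (node 526 (merge (leaf 1 493 525) (node 527 (merge (leaf 1 494 498) (node 462 (merge (leaf 3 461 461) (node 430 (merge (leaf 4 398 398) (leaf 4 430 559))))))))) (merge (node 529 (merge (leaf 0 494 530) (node 526 (merge (leaf 1 493 525) (node 498 (merge (leaf 1 494 527) (node 499 (merge (leaf 1 496 500) (node 467 (merge (leaf 2 463 466) (leaf 2 464 468))))))))))) (merge (node 529 (merge (leaf 0 494 530) (node 526 (merge (leaf 1 493 525) (node 498 (merge (leaf 1 494 527) (node 466 (merge (leaf 2 463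 467) (node 593 (merge (leaf 6 465 561) (node 592 (merge (leaf 6 496 624) (leaf 4 496 625))))))))))))) (merge (node 529 (merge (leaf 0 494 530) (node 462 (merge (leaf 3 461 461) (node 592 (merge (leaf 6 496 624) (node 593 (merge (leaf 4 496 625) (node 591 (merge (leaf 5 495 623) (node 559 (merge (leaf 7 462 527) (node 558 (merge (leaf 0 557 557) (leaf 3 558 594))))))))))))))) (node 529 (merge (leaf 0 494 530) (node 526 (merge (leaf 1 493 525) (node 462 (merge (leaf 3 461 461) (node 592 (merge (leaf 6 496 624) (node 593 (merge (leaf 4 496 625) (node 591 (merge (leaf 5 495 623) (node 558 (merge (leaf 4 462 559) (node 557 (merge (leaf 5 461 589) (leaf 3 557 590)))))))))))))))))))))))))) (node 494 (merge (node 529 (merge (leaf 0 493 493) (node 530 (merge (leaf 0 494 497) (leaf 3 494 527))))) (merge (node 493 (merge (leaf 0 493 529) (node 524 (merge (leaf 1 492 525) (node 492 (merge (leaf 1 491 523) (node 460 (merge (leaf 3 459 459) (leaf 3 460 461))))))))) (merge (node 525 (merge (node 526 (merge (leaf 1 493 497) (node 527 (merge (leaf 2 492 524) (leaf 0 525 561))))) (merge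 (node 493 (merge (leaf 1 492 524) (node 461 (merge (leaf 3 460 460) (node 462 (merge (leaf 3 461 497) (node 557 (merge (leaf 6 429 430) (leaf 6 461 589))))))))) (merge (node 497 (merge (leaf 1 493 526) (node 462 (merge (leaf 3 461 461) (node 498 (merge (leaf 3 462 463) (node 499 (merge (leaf 1 495 527) (node 467 (merge (leaf 2 463 466) (leaf 2 464 468))))))))))) (node 493 (merge (leaf 1 492 524) (node 527 (merge (leaf 0 492 492) (node 526 (merge (leaf 0 525 561) (node 557 (merge (leaf 1 524 556) (node 461 (merge (leaf 3 460 460) (node 590 (merge (leaf 4 461 558) (node 589 (merge (leaf 6 461 462) (leaf 4 493 622))))))))))))))))))) (node 526 (merge (node 525 (merge (leaf 1 493 497) (node 524 (merge (leaf 2 491 523) (leaf 2 492 527))))) (merge (node 497 (merge (leaf 1 493 525) (node 529 (merge (leaf 0 494 530) (node 462 (merge (leaf 3 461 461) (node 498 (merge (leaf 3 462 463) (node 499 (merge (leaf 1 496 500) (node 467 (merge (leaf 2 463 466) (leaf 2 464 468))))))))))))) (merge (node 527 (merge (node 525 (merge (leaf 2 492 524) (leaf 0 525 561))) (node 529 (merge (leaf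 3 494 530) (node 558 (merge (leaf 1 525 557) (node 590 (merge (leaf 6 494 622) (node 591 (merge (leaf 4 494 623) (node 559 (merge (leaf 4 462 462) (node 589 (merge (leaf 2 556 588) (leaf 5 493 621))))))))))))))) (node 527 (merge (node 497 (merge (leaf 1 494 498) (node 462 (merge (leaf 3 461 461) (node 430 (merge (leaf 4 398 398) (node 431 (merge (leaf 6 398 399) (leaf 4 431 463))))))))) (merge (node 529 (merge (leaf 3 494 530) (node 558 (merge (leaf 1 525 557) (node 590 (merge (leaf 6 494 622) (node 591 (merge (leaf 4 494 623) (node 559 (merge (leaf 4 462 462) (node 589 (merge (leaf 2 556 588) (leaf 5 493 621))))))))))))) (merge (node 497 (merge (leaf 1 494 498) (node 462 (merge (leaf 3 461 461) (node 430 (merge (leaf 4 398 398) (leaf 4 430 559))))))) (node 529 (merge (leaf 3 494 530) (node 558 (merge (leaf 1 525 557) (node 463 (merge (leaf 4 431 431) (leaf 6 462 590))))))))))))))))))))))))))))))) nC_8 cC_8 13 (by decide +kernel)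
def nC_9 : ℕ := 0x100000001000000010000000000000000000000000000000000000000000000000000000000000000000000000000000000000000000000000000000000000000000000000000
def cC_9 : ℕ := 0x200000002000000060000001e00000076f000003ef000007ff800000fe0000007c0000007c0000002800000000000000000000000000000000000000000000000000000000000000000000000000000000000
theorem lC_9 : S nC_9 cC_9 10 := S_of_chk [] trivial (node 497 (merge (node 464 (merge (node 463 (merge (leaf 7 431 431) (node 462 (merge (leaf 0 461 461) (node 498 (merge (leaf 0 462 465) (leaf 3 463 499))))))) (merge (node 561 (merge (leaf 4 464 593) (node 432 (merge (leaf 4 432 529) (node 433 (merge (leaf 6 400 401) (leaf 6 432 465))))))) (node 561 (merge (leaf 4 464 593) (node 432 (merge (leaf 4 432 529) (node 431 (merge (leaf 7 399 399) (leaf 7 431 463)))))))))) (merge (node 498 (merge (node 527 (merge (leaf 1 495 499) (node 526 (merge (leaf 1 494 495) (leaf 2 493 525))))) (merge (node 499 (merge (leaf 1 495 527) (node 468 (merge (leaf 2 464 467) (node 500 (merge (leaf 2 465 469) (leaf 1 496 529))))))) (merge (node 495 (merge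 (node 463 (merge (leaf 3 462 462) (node 431 (merge (leaf 4 399 399) (leaf 4 431 527))))) (merge (node 466 (merge (leaf 2 463 467) (node 494 (merge (leaf 2 462 465) (node 526 (merge (leaf 1 493 525) (leaf 1 494 527))))))) (node 466 (merge (leaf 2 463 467) (node 494 (merge (leaf 2 462 465) (node 462 (merge (leaf 3 461 461) (leaf 3 462 463)))))))))) (node 467 (merge (node 468 (merge (leaf 2 464 499) (node 466 (merge (leaf 1 464 465) (leaf 1 465 469))))) (merge (node 499 (merge (leaf 2 464 468) (node 500 (merge (leaf 1 496 529) (node 464 (merge (leaf 3 463 463) (leaf 3 464 465))))))) (node 495 (merge (leaf 2 463 466) (node 462 (merge (leaf 3 462 463) (node 494 (merge (leaf 3 461 461) (node 529 (merge (leaf 0 493 493) (leaf 0 494 530)))))))))))))))) (merge (node 464 (merge (node 561 (merge (leaf 4 464 593) (node 432 (merge (leaf 4 432 529) (node 433 (merge (leaf 6 400 401) (leaf 6 432 465))))))) (merge (node 561 (merge (leaf 4 464 593) (node 432 (merge (leaf 4 432 529) (node 431 (merge (leaf 7 399 399) (leaf 7 431 463))))))) (node 465 (merge (leaf 6 432 433) (node 463 (merge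 (leaf 7 431 431) (node 462 (merge (leaf 0 461 461) (node 494 (merge (leaf 1 461 493) (node 495 (merge (leaf 1 462 466) (node 430 (merge (leaf 3 429 429) (node 398 (merge (leaf 4 366 366) (leaf 4 398 527)))))))))))))))))) (merge (node 464 (merge (node 463 (merge (leaf 7 431 431) (node 462 (merge (leaf 0 461 461) (node 498 (merge (leaf 3 462 495) (leaf 3 463 499))))))) (merge (node 561 (merge (leaf 4 464 593) (node 432 (merge (leaf 4 432 529) (node 401 (merge (leaf 6 400 433) (node 400 (merge (leaf 6 368 369) (node 399 (merge (leaf 7 367 367) (leaf 7 399 431))))))))))) (node 561 (merge (leaf 4 464 593) (node 432 (merge (leaf 4 432 529) (node 401 (merge (leaf 6 400 433) (node 400 (merge (leaf 6 368 369) (node 495 (merge (leaf 5 399 527) (node 463 (merge (leaf 5 367 368) (node 498 (merge (leaf 3 462 462) (leaf 3 463 499)))))))))))))))))) (merge (node 495 (merge (node 463 (merge (node 431 (merge (leaf 4 399 399) (leaf 4 431 527))) (node 462 (merge (leaf 3 462 498) (node 461 (merge (leaf 0 460 460) (leaf 3 461 494))))))) (merge (node 494 (merge (node 465 (merge (leaf 2 462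 466) (node 433 (merge (leaf 5 400 401) (leaf 6 432 464))))) (node 525 (merge (leaf 1 493 526) (node 493 (merge (leaf 1 492 524) (node 461 (merge (leaf 3 460 460) (leaf 3 461 462))))))))) (merge (node 494 (merge (node 465 (merge (leaf 2 462 466) (node 433 (merge (leaf 5 400 401) (leaf 6 432 464))))) (node 525 (merge (leaf 1 493 526) (node 493 (merge (leaf 1 492 524) (node 492 (merge (leaf 0 492 527) (node 460 (merge (leaf 3 459 459) (leaf 3 460 461))))))))))) (node 464 (merge (node 463 (merge (leaf 7 431 431) (node 498 (merge (leaf 3 462 462) (leaf 3 463 499))))) (merge (node 431 (merge (leaf 7 431 463) (node 432 (merge (leaf 7 399 399) (node 401 (merge (leaf 6 400 433) (node 400 (merge (leaf 6 368 369) (leaf 5 399 527))))))))) (merge (node 433 (merge (leaf 6 432 465) (node 432 (merge (leaf 6 400 401) (node 527 (merge (leaf 5 399 400) (node 526 (merge (leaf 1 494 498) (leaf 2 493 525))))))))) (node 433 (merge (leaf 6 432 465) (node 432 (merge (leaf 6 400 401) (node 400 (merge (leaf 5 399 527) (node 463 (merge (leaf 5 367 368) (node 498 (merge (leaf 3 462 462) (leaf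 3 463 499))))))))))))))))))) (merge (node 465 (merge (node 433 (merge (leaf 5 400 401) (leaf 5 432 529))) (merge (node 498 (merge (node 527 (merge (leaf 1 495 499) (node 526 (merge (leaf 1 494 495) (leaf 2 493 525))))) (merge (node 499 (merge (leaf 1 495 527) (node 500 (merge (leaf 1 496 529) (node 469 (merge (leaf 2 465 468) (node 501 (merge (leaf 3 465 466) (leaf 2 466 470))))))))) (merge (node 495 (merge (node 463 (merge (leaf 3 462 462) (node 431 (merge (leaf 4 399 399) (leaf 4 431 527))))) (merge (node 466 (merge (leaf 2 463 467) (node 494 (merge (leaf 2 462 465) (node 526 (merge (leaf 1 493 525) (leaf 1 494 527))))))) (node 466 (merge (leaf 2 463 467) (node 494 (merge (leaf 2 462 465) (node 462 (merge (leaf 3 461 461) (leaf 3 462 463)))))))))) (node 499 (merge (node 468 (merge (leaf 2 464 467) (node 500 (merge (leaf 2 465 469) (leaf 1 496 529))))) (merge (node 500 (merge (leaf 1 496 529) (node 533 (merge (leaf 0 497 532) (node 501 (merge (leaf 3 465 466) (leaf 0 498 534))))))) (merge (node 468 (merge (leaf 2 464 467) (node 500 (merge (leaf 2 465 469) (node 533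 (merge (leaf 0 497 532) (node 501 (merge (leaf 3 465 466) (leaf 0 498 534))))))))) (node 467 (merge (leaf 2 464 468) (node 495 (merge (leaf 2 463 466) (node 462 (merge (leaf 3 462 463) (node 494 (merge (leaf 3 461 461) (node 529 (merge (leaf 0 493 493) (leaf 0 494 530))))))))))))))))))) (node 495 (merge (node 466 (merge (leaf 2 462 494) (node 467 (merge (leaf 1 464 468) (leaf 2 463 498))))) (merge (node 463 (merge (node 431 (merge (leaf 4 399 399) (leaf 4 431 527))) (node 462 (merge (leaf 3 462 498) (node 461 (merge (leaf 0 460 460) (leaf 3 461 494))))))) (merge (node 494 (merge (leaf 2 462 466) (node 525 (merge (leaf 1 493 526) (node 493 (merge (leaf 1 492 524) (node 461 (merge (leaf 3 460 460) (leaf 3 461 462))))))))) (node 463 (merge (node 431 (merge (leaf 4 399 399) (leaf 4 431 527))) (merge (node 498 (merge (leaf 3 462 462) (node 527 (merge (leaf 1 495 499) (leaf 1 494 526))))) (node 462 (merge (leaf 3 462 498) (node 461 (merge (leaf 0 460 460) (node 431 (merge (leaf 4 399 399) (node 433 (merge (leaf 5 400 401) (node 432 (merge (leaf 1 429 430) (leaf 1 430 434)))))))))))))))))))))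 (merge (node 498 (merge (node 527 (merge (leaf 1 495 499) (node 526 (merge (leaf 2 493 525) (leaf 2 494 529))))) (merge (node 499 (merge (leaf 1 495 527) (node 464 (merge (leaf 3 463 463) (node 465 (merge (leaf 6 432 433) (leaf 3 464 500))))))) (merge (node 495 (merge (node 466 (merge (leaf 2 463 467) (node 465 (merge (leaf 2 462 494) (node 433 (merge (leaf 5 400 401) (leaf 6 432 464))))))) (merge (node 467 (merge (leaf 2 463 466) (node 499 (merge (leaf 2 464 468) (node 529 (merge (leaf 1 496 500) (node 494 (merge (leaf 0 493 493) (leaf 0 494 530))))))))) (merge (node 467 (merge (leaf 2 463 466) (node 499 (merge (leaf 2 464 468) (node 464 (merge (leaf 3 463 463) (node 465 (merge (leaf 6 432 433) (leaf 3 464 500))))))))) (node 464 (merge (node 463 (merge (leaf 7 431 431) (leaf 3 463 499))) (merge (node 561 (merge (leaf 4 464 593) (node 529 (merge (leaf 4 432 432) (node 494 (merge (leaf 0 493 493) (leaf 0 494 530))))))) (node 561 (merge (leaf 4 464 593) (node 529 (merge (leaf 4 432 432) (node 494 (merge (leaf 0 493 493) (leaf 0 494 530)))))))))))))) (node 466 (merge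 (node 495 (merge (leaf 2 463 467) (node 494 (merge (leaf 2 462 465) (node 526 (merge (leaf 1 493 525) (leaf 1 494 527))))))) (merge (node 495 (merge (leaf 2 463 467) (node 526 (merge (leaf 1 494 527) (node 494 (merge (leaf 1 493 525) (node 529 (merge (leaf 0 493 493) (leaf 0 494 530))))))))) (node 464 (merge (node 561 (merge (leaf 4 464 593) (node 529 (merge (leaf 4 432 432) (node 434 (merge (leaf 5 401 402) (leaf 5 433 530))))))) (merge (node 433 (merge (leaf 6 432 465) (node 432 (merge (leaf 6 400 401) (node 400 (merge (leaf 4 400 529) (node 399 (merge (leaf 7 367 367) (leaf 7 399 431))))))))) (merge (node 433 (merge (leaf 6 432 465) (node 401 (merge (leaf 6 400 432) (node 434 (merge (leaf 7 401 530) (node 369 (merge (leaf 4 337 337) (leaf 7 369 402))))))))) (node 465 (merge (leaf 6 432 433) (node 463 (merge (leaf 7 431 431) (node 434 (merge (leaf 2 431 435) (node 402 (merge (leaf 5 369 370) (leaf 5 401 529)))))))))))))))))))) (merge (node 495 (merge (node 494 (merge (node 465 (merge (leaf 2 462 466) (node 433 (merge (leaf 5 400 401) (leaf 6 432 464))))) (node 529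 (merge (leaf 0 493 493) (leaf 0 494 530))))) (merge (node 526 (merge (node 527 (merge (leaf 1 494 498) (leaf 2 493 525))) (merge (node 494 (merge (leaf 1 493 525) (node 529 (merge (leaf 0 493 493) (leaf 0 494 530))))) (node 498 (merge (leaf 1 494 527) (node 467 (merge (leaf 2 463 466) (node 499 (merge (leaf 2 464 468) (node 529 (merge (leaf 1 496 500) (node 494 (merge (leaf 0 493 493) (leaf 0 494 530)))))))))))))) (merge (node 494 (merge (node 465 (merge (leaf 2 462 466) (node 433 (merge (leaf 5 400 401) (leaf 6 432 464))))) (node 525 (merge (leaf 1 493 526) (node 493 (merge (leaf 1 492 524) (node 492 (merge (leaf 0 492 527) (node 460 (merge (leaf 3 459 459) (leaf 3 460 461))))))))))) (merge (node 494 (merge (node 529 (merge (leaf 0 493 493) (leaf 0 494 530))) (merge (node 529 (merge (leaf 0 493 493) (leaf 0 494 530))) (merge (node 525 (merge (leaf 1 493 526) (node 493 (merge (leaf 1 492 524) (node 461 (merge (leaf 3 460 460) (leaf 3 461 462))))))) (node 529 (merge (leaf 0 494 530) (node 526 (merge (leaf 1 493 525) (node 527 (merge (leaf 1 494 498) (node 561 (merge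 (leaf 0 526 562) (node 593 (merge (leaf 4 464 464) (leaf 7 496 625))))))))))))))) (node 464 (merge (node 433 (merge (leaf 6 432 465) (node 432 (merge (leaf 6 400 401) (node 400 (merge (leaf 4 400 529) (node 399 (merge (leaf 7 367 367) (leaf 7 399 431))))))))) (merge (node 561 (merge (leaf 4 464 593) (node 465 (merge (leaf 6 432 433) (node 466 (merge (leaf 1 463 467) (node 529 (merge (leaf 6 433 434) (node 562 (merge (leaf 4 465 594) (node 563 (merge (leaf 3 527 527) (leaf 3 528 564))))))))))))) (merge (node 561 (merge (leaf 4 464 593) (node 432 (merge (leaf 4 432 529) (node 527 (merge (leaf 5 399 400) (node 526 (merge (leaf 1 494 498) (leaf 0 525 525))))))))) (merge (node 433 (merge (leaf 6 432 465) (node 432 (merge (leaf 6 400 401) (node 527 (merge (leaf 5 399 400) (node 526 (merge (leaf 1 494 498) (leaf 2 493 525))))))))) (node 561 (merge (leaf 4 464 593) (node 432 (merge (leaf 4 432 529) (node 400 (merge (leaf 5 399 527) (node 368 (merge (leaf 4 368 465) (node 369 (merge (leaf 6 336 337) (leaf 6 368 401))))))))))))))))))))) (merge (node 561 (merge (node 593 (merge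 (leaf 4 464 464) (node 625 (merge (leaf 7 496 529) (leaf 7 528 657))))) (merge (node 464 (merge (leaf 4 464 593) (node 463 (merge (leaf 7 431 431) (node 462 (merge (leaf 0 461 461) (node 498 (merge (leaf 3 462 495) (leaf 3 463 499))))))))) (merge (node 529 (merge (node 593 (merge (leaf 7 496 625) (node 498 (merge (leaf 6 465 466) (node 499 (merge (leaf 1 496 500) (leaf 1 495 527))))))) (merge (node 465 (merge (leaf 5 432 433) (node 562 (merge (leaf 4 465 594) (node 563 (merge (leaf 3 527 527) (leaf 3 528 564))))))) (node 465 (merge (leaf 5 432 433) (node 466 (merge (leaf 6 433 434) (node 593 (merge (leaf 6 465 498) (node 625 (merge (leaf 7 496 496) (leaf 7 528 657)))))))))))) (node 529 (merge (node 465 (merge (leaf 5 432 433) (node 562 (merge (leaf 4 465 594) (node 563 (merge (leaf 3 527 527) (leaf 3 528 564))))))) (node 464 (merge (leaf 4 432 432) (node 463 (merge (leaf 7 431 431) (node 498 (merge (leaf 3 463 499) (node 495 (merge (leaf 3 462 462) (node 466 (merge (leaf 2 463 467) (node 434 (merge (leaf 5 401 402) (leaf 5 433 530))))))))))))))))))) (node 495 (merge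 (node 494 (merge (node 465 (merge (leaf 2 462 466) (node 433 (merge (leaf 5 400 401) (leaf 6 432 464))))) (node 529 (merge (leaf 0 493 493) (leaf 0 494 530))))) (merge (node 526 (merge (node 527 (merge (leaf 1 494 498) (leaf 2 493 525))) (merge (node 525 (merge (leaf 1 493 494) (leaf 2 493 527))) (merge (node 494 (merge (leaf 1 493 525) (node 466 (merge (leaf 2 462 465) (node 498 (merge (leaf 2 463 467) (node 462 (merge (leaf 3 461 461) (leaf 3 462 463))))))))) (node 498 (merge (leaf 1 494 527) (node 466 (merge (leaf 2 463 467) (node 494 (merge (leaf 2 462 465) (node 462 (merge (leaf 3 461 461) (leaf 3 462 463))))))))))))) (merge (node 526 (merge (node 527 (merge (leaf 1 494 498) (leaf 2 493 525))) (merge (node 494 (merge (leaf 1 493 525) (node 529 (merge (leaf 0 493 493) (leaf 0 494 530))))) (node 498 (merge (leaf 1 494 527) (node 462 (merge (leaf 3 462 463) (node 494 (merge (leaf 3 461 461) (node 529 (merge (leaf 0 493 493) (leaf 0 494 530)))))))))))) (merge (node 526 (merge (node 527 (merge (leaf 1 494 498) (leaf 2 493 525))) (merge (node 494 (merge (leaf 1 493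 525) (node 529 (merge (leaf 0 493 493) (leaf 0 494 530))))) (node 498 (merge (leaf 1 494 527) (node 467 (merge (leaf 2 463 466) (node 499 (merge (leaf 2 464 468) (node 529 (merge (leaf 1 496 500) (node 494 (merge (leaf 0 493 493) (leaf 0 494 530)))))))))))))) (node 561 (merge (node 464 (merge (leaf 4 464 593) (node 529 (merge (leaf 4 432 432) (node 465 (merge (leaf 5 432 433) (node 466 (merge (leaf 6 433 434) (leaf 1 463 467))))))))) (merge (node 464 (merge (leaf 4 464 593) (node 432 (merge (leaf 4 432 529) (node 400 (merge (leaf 5 399 527) (node 368 (merge (leaf 5 367 463) (leaf 4 368 465))))))))) (merge (node 464 (merge (leaf 4 464 593) (node 433 (merge (leaf 6 432 465) (node 432 (merge (leaf 6 400 401) (node 400 (merge (leaf 5 399 527) (node 368 (merge (leaf 5 367 463) (node 367 (merge (leaf 7 335 335) (leaf 7 367 399))))))))))))) (merge (node 464 (merge (leaf 4 464 593) (node 432 (merge (leaf 4 432 529) (node 400 (merge (leaf 5 399 527) (node 463 (merge (leaf 5 367 368) (node 498 (merge (leaf 3 462 462) (leaf 3 463 499))))))))))) (merge (node 529 (merge (node 593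 (merge (leaf 7 496 625) (node 498 (merge (leaf 6 465 466) (node 499 (merge (leaf 1 496 500) (leaf 1 495 527))))))) (merge (node 465 (merge (leaf 5 432 433) (node 562 (merge (leaf 4 465 594) (node 563 (merge (leaf 3 527 527) (leaf 3 528 564))))))) (node 465 (merge (leaf 5 432 433) (node 466 (merge (leaf 6 433 434) (node 593 (merge (leaf 6 465 498) (node 625 (merge (leaf 7 496 496) (leaf 7 528 657)))))))))))) (node 464 (merge (node 529 (merge (leaf 4 432 432) (node 465 (merge (leaf 6 432 433) (node 466 (merge (leaf 6 433 434) (leaf 1 463 467))))))) (merge (node 432 (merge (leaf 4 432 529) (node 400 (merge (leaf 5 399 527) (node 368 (merge (leaf 5 367 463) (leaf 4 368 465))))))) (merge (node 465 (merge (leaf 6 432 433) (node 466 (merge (leaf 1 463 467) (node 529 (merge (leaf 6 433 434) (node 562 (merge (leaf 4 465 594) (node 563 (merge (leaf 3 527 527) (leaf 3 528 564))))))))))) (merge (node 432 (merge (leaf 4 432 529) (node 400 (merge (leaf 5 399 527) (node 463 (merge (leaf 5 367 368) (node 498 (merge (leaf 3 462 462) (leaf 3 463 499))))))))) (node 433 (merge (leaf 6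 432 465) (node 432 (merge (leaf 6 400 401) (node 400 (merge (leaf 5 399 527) (node 463 (merge (leaf 5 367 368) (node 498 (merge (leaf 3 462 462) (leaf 3 463 499))))))))))))))))))))))))))))))))))))) nC_9 cC_9 10 (by decide +kernel)
def nC_10 : ℕ := 0x100000001000000000000000000000000000000000000000000000000000000000000000000000000000000000000000000000000000000000000000000000000000000000000
def cC_10 : ℕ := 0x220000002a000001ff000001ef0000076f800003fe000007ff0000007c00000028000000000000000000000000000000000000000000000000000000000000000000000000000000000000000000000000000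
theorem lC_10 : S nC_10 cC_10 11 := S_of_chk [] trivial (node 496 (merge (node 463 (merge (node 431 (merge (leaf 7 431 464) (node 495 (merge (leaf 4 399 399) (leaf 4 431 527))))) (merge (node 495 (merge (leaf 7 463 592) (node 431 (merge (leaf 4 399 399) (leaf 4 431 527))))) (merge (node 592 (merge (leaf 7 463 495) (node 593 (merge (leaf 4 496 625) (node 464 (merge (leaf 4 464 561) (node 465 (merge (leaf 6 432 433) (leaf 6 464 497))))))))) (node 464 (merge (leaf 7 431 431) (node 593 (merge (leaf 4 464 561) (node 465 (merge (leaf 6 432 433) (node 592 (merge (leaf 6 464 497) (leaf 4 496 625))))))))))))) (merge (node 464 (merge (node 433 (merge (leaf 6 432 465) (node 432 (merge (leaf 6 400 401) (node 559 (merge (leaf 5 431 527) (leaf 5 463 591))))))) (merge (node 593 (merge (leaf 4 464 561) (node 465 (merge (leaf 6 432 433) (node 592 (merge (leaf 6 464 497) (leaf 4 496 625))))))) (node 593 (merge (leaf 4 464 561) (node 592 (merge (leaf 4 496 625) (node 591 (merge (leaf 5 463 559) (leaf 5 495 623)))))))))) (merge (node 464 (merge (node 433 (merge (leaf 6 432 465) (node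 432 (merge (leaf 6 400 401) (node 431 (merge (leaf 7 399 399) (leaf 7 431 463))))))) (node 593 (merge (leaf 4 464 561) (node 592 (merge (leaf 4 496 625) (node 591 (merge (leaf 5 463 559) (leaf 5 495 623))))))))) (merge (node 464 (merge (node 593 (merge (leaf 4 464 561) (node 592 (merge (leaf 4 496 625) (node 463 (merge (leaf 7 431 431) (leaf 7 463 495))))))) (merge (node 591 (merge (leaf 5 463 559) (node 463 (merge (leaf 7 431 431) (node 592 (merge (leaf 7 463 495) (leaf 5 495 623))))))) (node 561 (merge (leaf 4 464 593) (node 432 (merge (leaf 4 432 529) (node 559 (merge (leaf 5 431 527) (leaf 5 463 591)))))))))) (merge (node 559 (merge (node 464 (merge (leaf 5 463 591) (node 433 (merge (leaf 6 432 465) (node 432 (merge (leaf 6 400 401) (node 431 (merge (leaf 7 399 399) (leaf 7 431 463))))))))) (merge (node 561 (merge (node 593 (merge (leaf 4 464 464) (node 625 (merge (leaf 7 496 529) (leaf 7 528 657))))) (merge (node 464 (merge (leaf 4 464 593) (node 527 (merge (leaf 5 431 432) (node 562 (merge (leaf 3 526 526) (leaf 3 527 563))))))) (merge (node 562 (merge (node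 595 (merge (leaf 0 559 594) (node 563 (merge (leaf 3 527 527) (leaf 0 560 596))))) (merge (node 526 (merge (leaf 3 526 527) (node 558 (merge (leaf 3 525 525) (node 529 (merge (leaf 2 526 530) (leaf 2 525 557))))))) (node 594 (merge (leaf 0 559 595) (node 558 (merge (leaf 0 558 593) (node 529 (merge (leaf 2 526 530) (leaf 2 525 557)))))))))) (node 562 (merge (node 595 (merge (leaf 0 559 594) (node 563 (merge (leaf 3 527 527) (leaf 0 560 596))))) (merge (node 526 (merge (leaf 3 526 527) (node 558 (merge (leaf 3 525 525) (node 529 (merge (leaf 2 526 530) (leaf 2 525 557))))))) (node 595 (merge (leaf 0 559 594) (node 563 (merge (leaf 0 560 596) (node 529 (merge (leaf 3 528 564) (node 558 (merge (leaf 2 526 530) (leaf 2 525 557)))))))))))))))) (node 558 (merge (node 529 (merge (leaf 2 525 557) (node 561 (merge (leaf 2 526 530) (node 593 (merge (leaf 0 558 594) (leaf 7 496 625))))))) (merge (node 557 (merge (leaf 2 525 529) (node 556 (merge (leaf 2 524 527) (node 524 (merge (leaf 3 523 523) (leaf 3 524 525))))))) (merge (node 561 (merge (node 593 (merge (leaf 0 558 594)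 (node 625 (merge (leaf 7 528 657) (node 529 (merge (leaf 7 496 496) (leaf 2 526 530))))))) (node 590 (merge (leaf 1 557 589) (node 562 (merge (leaf 1 558 591) (node 527 (merge (leaf 3 526 526) (leaf 3 527 563))))))))) (node 589 (merge (node 557 (merge (leaf 1 556 588) (node 561 (merge (leaf 1 557 590) (node 525 (merge (leaf 3 524 524) (leaf 3 525 526))))))) (merge (node 561 (merge (leaf 1 557 590) (node 594 (merge (leaf 0 558 593) (node 562 (merge (leaf 0 559 595) (node 526 (merge (leaf 3 525 525) (leaf 3 526 527))))))))) (merge (node 557 (merge (leaf 1 556 588) (node 527 (merge (leaf 2 524 556) (node 525 (merge (leaf 3 524 524) (node 526 (merge (leaf 2 493 497) (node 621 (merge (leaf 6 493 494) (leaf 6 525 653))))))))))) (merge (node 588 (merge (leaf 1 556 557) (node 590 (merge (leaf 1 557 561) (leaf 2 556 591))))) (node 557 (merge (leaf 1 556 588) (node 556 (merge (leaf 2 524 527) (node 524 (merge (leaf 3 523 523) (leaf 3 524 525))))))))))))))))))) (node 497 (merge (node 465 (merge (leaf 6 464 592) (node 433 (merge (leaf 5 400 401) (leaf 5 432 529))))) (merge (node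 495 (merge (node 463 (merge (leaf 7 463 592) (node 431 (merge (leaf 4 399 399) (leaf 4 431 527))))) (merge (node 526 (merge (node 527 (merge (leaf 1 494 498) (leaf 2 493 525))) (merge (node 494 (merge (leaf 1 493 525) (node 529 (merge (leaf 0 493 493) (leaf 0 494 530))))) (node 498 (merge (leaf 1 494 527) (node 467 (merge (leaf 2 463 466) (node 499 (merge (leaf 2 464 468) (node 529 (merge (leaf 1 496 500) (node 494 (merge (leaf 0 493 493) (leaf 0 494 530)))))))))))))) (node 463 (merge (leaf 7 463 592) (node 498 (merge (leaf 3 462 462) (node 467 (merge (leaf 2 463 466) (node 499 (merge (leaf 2 464 468) (node 529 (merge (leaf 1 496 500) (node 494 (merge (leaf 0 493 493) (leaf 0 494 530)))))))))))))))) (merge (node 498 (merge (node 527 (merge (leaf 1 495 499) (node 526 (merge (leaf 1 494 495) (leaf 2 493 525))))) (merge (node 495 (merge (node 463 (merge (leaf 3 462 462) (leaf 7 463 592))) (merge (node 592 (merge (leaf 7 463 463) (leaf 6 464 465))) (node 466 (merge (leaf 2 463 467) (node 494 (merge (leaf 2 462 465) (node 525 (merge (leaf 1 493 526) (node 493 (merge (leaf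 1 492 524) (node 461 (merge (leaf 3 460 460) (leaf 3 461 462)))))))))))))) (node 499 (merge (leaf 1 495 527) (node 468 (merge (leaf 2 464 467) (node 500 (merge (leaf 2 465 469) (node 533 (merge (leaf 0 497 532) (node 501 (merge (leaf 0 498 534) (node 465 (merge (leaf 3 465 466) (leaf 6 464 592)))))))))))))))) (node 465 (merge (node 433 (merge (leaf 5 400 401) (leaf 5 432 529))) (merge (node 498 (merge (node 527 (merge (leaf 1 495 499) (node 526 (merge (leaf 1 494 495) (leaf 2 493 525))))) (merge (node 499 (merge (leaf 1 495 527) (node 500 (merge (leaf 1 496 529) (node 469 (merge (leaf 2 465 468) (node 501 (merge (leaf 3 465 466) (leaf 2 466 470))))))))) (merge (node 495 (merge (node 463 (merge (leaf 3 462 462) (node 431 (merge (leaf 4 399 399) (leaf 4 431 527))))) (merge (node 466 (merge (leaf 2 463 467) (node 494 (merge (leaf 2 462 465) (node 526 (merge (leaf 1 493 525) (leaf 1 494 527))))))) (node 466 (merge (leaf 2 463 467) (node 494 (merge (leaf 2 462 465) (node 462 (merge (leaf 3 461 461) (leaf 3 462 463)))))))))) (node 499 (merge (node 468 (merge (leaf 2 464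 467) (node 500 (merge (leaf 2 465 469) (leaf 1 496 529))))) (merge (node 500 (merge (leaf 1 496 529) (node 533 (merge (leaf 0 497 532) (node 501 (merge (leaf 3 465 466) (leaf 0 498 534))))))) (merge (node 468 (merge (leaf 2 464 467) (node 500 (merge (leaf 2 465 469) (node 533 (merge (leaf 0 497 532) (node 501 (merge (leaf 3 465 466) (leaf 0 498 534))))))))) (node 467 (merge (leaf 2 464 468) (node 495 (merge (leaf 2 463 466) (node 462 (merge (leaf 3 462 463) (node 494 (merge (leaf 3 461 461) (node 529 (merge (leaf 0 493 493) (leaf 0 494 530))))))))))))))))))) (node 495 (merge (node 466 (merge (leaf 2 462 494) (node 467 (merge (leaf 1 464 468) (leaf 2 463 498))))) (merge (node 463 (merge (node 431 (merge (leaf 4 399 399) (leaf 4 431 527))) (node 462 (merge (leaf 3 462 498) (node 461 (merge (leaf 0 460 460) (leaf 3 461 494))))))) (merge (node 494 (merge (leaf 2 462 466) (node 525 (merge (leaf 1 493 526) (node 493 (merge (leaf 1 492 524) (node 461 (merge (leaf 3 460 460) (leaf 3 461 462))))))))) (node 463 (merge (node 431 (merge (leaf 4 399 399) (leaf 4 431 527))) (merge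 (node 498 (merge (leaf 3 462 462) (node 527 (merge (leaf 1 495 499) (leaf 1 494 526))))) (node 462 (merge (leaf 3 462 498) (node 461 (merge (leaf 0 460 460) (node 431 (merge (leaf 4 399 399) (node 433 (merge (leaf 5 400 401) (node 432 (merge (leaf 1 429 430) (leaf 1 430 434))))))))))))))))))))))))))))))) nC_10 cC_10 11 (by decide +kernel)
def nC_11 : ℕ := 0x100000001000000000000000000000000000000000000000000000000000000000000000000000000000000000000000000000000000000000000000000000000000000000000
def cC_11 : ℕ := 0x280000003c0000003c000001dfc00001efc000076fc00003ff000007ff0000007c00000038000000380000002800000000000000000000000000000000000000000000000000000000000000000000000000000000000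
theorem lC_11 : S nC_11 cC_11 13 := S_of_chk [] trivial (node 496 (merge (node 464 (merge (node 433 (merge (leaf 6 432 465) (node 432 (merge (leaf 6 400 401) (node 431 (merge (leaf 7 399 399) (leaf 7 431 463))))))) (merge (node 465 (merge (leaf 6 432 433) (node 592 (merge (leaf 6 464 497) (node 591 (merge (leaf 5 463 559) (leaf 5 495 623))))))) (node 591 (merge (leaf 5 463 559) (node 463 (merge (leaf 7 431 431) (node 592 (merge (leaf 7 463 495) (leaf 5 495 623)))))))))) (merge (node 465 (merge (node 433 (merge (leaf 6 432 464) (node 497 (merge (leaf 5 400 401) (leaf 5 432 529))))) (merge (node 464 (merge (leaf 6 432 433) (node 463 (merge (leaf 7 431 431) (node 495 (merge (leaf 7 463 592) (node 494 (merge (leaf 1 462 466) (leaf 2 461 493))))))))) (node 592 (merge (leaf 6 464 497) (node 623 (merge (leaf 5 495 591) (node 495 (merge (leaf 7 463 463) (node 624 (merge (leaf 7 495 527) (leaf 5 527 655)))))))))))) (merge (node 464 (merge (node 433 (merge (leaf 6 432 465) (node 432 (merge (leaf 6 400 401) (node 431 (merge (leaf 7 399 399) (leaf 7 431 463))))))) (merge (node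 591 (merge (leaf 5 463 559) (node 463 (merge (leaf 7 431 431) (node 592 (merge (leaf 7 463 495) (leaf 5 495 623))))))) (merge (node 559 (merge (leaf 5 463 591) (node 432 (merge (leaf 5 431 527) (node 401 (merge (leaf 6 400 433) (node 400 (merge (leaf 6 368 369) (node 399 (merge (leaf 7 367 367) (leaf 7 399 431))))))))))) (node 591 (merge (leaf 5 463 559) (node 592 (merge (leaf 5 495 623) (node 495 (merge (leaf 7 463 463) (node 527 (merge (leaf 7 495 624) (node 432 (merge (leaf 5 399 400) (node 529 (merge (leaf 4 432 561) (node 494 (merge (leaf 0 493 493) (leaf 3 494 530))))))))))))))))))) (merge (node 464 (merge (node 465 (merge (leaf 6 432 433) (node 592 (merge (leaf 6 464 497) (node 591 (merge (leaf 5 463 559) (leaf 5 495 623))))))) (merge (node 559 (merge (leaf 5 463 591) (node 432 (merge (leaf 5 431 527) (node 401 (merge (leaf 6 400 433) (node 400 (merge (leaf 6 368 369) (node 399 (merge (leaf 7 367 367) (leaf 7 399 431))))))))))) (merge (node 433 (merge (leaf 6 432 465) (node 432 (merge (leaf 6 400 401) (node 529 (merge (leaf 4 432 561) (node 400 (merge (leaf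 4 400 497) (node 399 (merge (leaf 7 367 367) (leaf 7 399 431))))))))))) (node 559 (merge (leaf 5 463 591) (node 432 (merge (leaf 5 431 527) (node 399 (merge (leaf 7 399 431) (node 400 (merge (leaf 7 367 367) (node 497 (merge (leaf 4 400 529) (node 465 (merge (leaf 4 368 368) (leaf 6 464 592))))))))))))))))) (merge (node 464 (merge (node 433 (merge (leaf 6 432 465) (node 432 (merge (leaf 6 400 401) (node 431 (merge (leaf 7 399 399) (leaf 7 431 463))))))) (merge (node 465 (merge (leaf 6 432 433) (node 592 (merge (leaf 6 464 497) (node 591 (merge (leaf 5 463 559) (leaf 5 495 623))))))) (node 559 (merge (leaf 5 463 591) (node 432 (merge (leaf 5 431 527) (node 529 (merge (leaf 4 432 561) (node 400 (merge (leaf 4 400 497) (node 369 (merge (leaf 6 368 401) (node 368 (merge (leaf 6 336 337) (node 367 (merge (leaf 7 335 335) (leaf 7 367 399)))))))))))))))))) (merge (node 464 (merge (node 465 (merge (leaf 6 432 433) (node 592 (merge (leaf 6 464 497) (node 591 (merge (leaf 5 463 559) (leaf 5 495 623))))))) (merge (node 559 (merge (leaf 5 463 591) (node 432 (merge (leaf 5 431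 527) (node 529 (merge (leaf 4 432 561) (node 400 (merge (leaf 4 400 497) (node 369 (merge (leaf 6 368 401) (node 368 (merge (leaf 6 336 337) (node 367 (merge (leaf 7 335 335) (leaf 7 367 399))))))))))))))) (merge (node 433 (merge (leaf 6 432 465) (node 432 (merge (leaf 6 400 401) (node 529 (merge (leaf 4 432 561) (node 400 (merge (leaf 4 400 497) (node 495 (merge (leaf 5 399 527) (node 368 (merge (leaf 5 367 463) (node 367 (merge (leaf 7 335 335) (leaf 7 367 399))))))))))))))) (node 591 (merge (leaf 5 463 559) (node 592 (merge (leaf 5 495 623) (node 495 (merge (leaf 7 463 463) (node 527 (merge (leaf 7 495 624) (node 432 (merge (leaf 5 399 400) (node 529 (merge (leaf 4 432 561) (node 494 (merge (leaf 0 493 493) (leaf 3 494 530))))))))))))))))))) (merge (node 463 (merge (node 495 (merge (leaf 7 463 592) (node 431 (merge (leaf 4 399 399) (leaf 4 431 527))))) (merge (node 592 (merge (leaf 7 463 495) (node 623 (merge (leaf 5 495 591) (node 624 (merge (leaf 5 527 655) (node 657 (merge (leaf 4 528 625) (node 656 (merge (leaf 4 560 689) (node 529 (merge (leaf 6 496 497) (leaf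 6 528 561))))))))))))) (node 464 (merge (leaf 7 431 431) (node 559 (merge (leaf 5 463 591) (node 432 (merge (leaf 5 431 527) (node 529 (merge (leaf 4 432 561) (node 400 (merge (leaf 4 400 497) (node 369 (merge (leaf 6 368 401) (node 368 (merge (leaf 6 336 337) (node 367 (merge (leaf 7 335 335) (leaf 7 367 399)))))))))))))))))))) (merge (node 463 (merge (node 431 (merge (leaf 7 431 464) (node 495 (merge (leaf 4 399 399) (leaf 4 431 527))))) (merge (node 464 (merge (leaf 7 431 431) (node 465 (merge (leaf 6 432 433) (node 497 (merge (leaf 6 464 592) (node 498 (merge (leaf 0 462 462) (leaf 3 463 499))))))))) (node 592 (merge (leaf 7 463 495) (node 497 (merge (leaf 6 464 465) (node 624 (merge (leaf 6 496 529) (node 657 (merge (leaf 4 528 625) (node 656 (merge (leaf 4 560 689) (node 655 (merge (leaf 5 527 623) (leaf 5 559 687)))))))))))))))) (merge (node 497 (merge (node 465 (merge (leaf 6 464 592) (node 433 (merge (leaf 5 400 401) (leaf 5 432 529))))) (merge (node 495 (merge (node 463 (merge (leaf 7 463 592) (node 431 (merge (leaf 4 399 399) (leaf 4 431 527))))) (merge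 (node 526 (merge (node 527 (merge (leaf 1 494 498) (leaf 2 493 525))) (merge (node 494 (merge (leaf 1 493 525) (node 529 (merge (leaf 0 493 493) (leaf 0 494 530))))) (node 498 (merge (leaf 1 494 527) (node 467 (merge (leaf 2 463 466) (node 499 (merge (leaf 2 464 468) (node 529 (merge (leaf 1 496 500) (node 494 (merge (leaf 0 493 493) (leaf 0 494 530)))))))))))))) (node 463 (merge (leaf 7 463 592) (node 498 (merge (leaf 3 462 462) (node 467 (merge (leaf 2 463 466) (node 499 (merge (leaf 2 464 468) (node 529 (merge (leaf 1 496 500) (node 494 (merge (leaf 0 493 493) (leaf 0 494 530)))))))))))))))) (merge (node 498 (merge (node 527 (merge (leaf 1 495 499) (node 526 (merge (leaf 1 494 495) (leaf 2 493 525))))) (merge (node 495 (merge (node 463 (merge (leaf 3 462 462) (leaf 7 463 592))) (merge (node 592 (merge (leaf 7 463 463) (leaf 6 464 465))) (node 466 (merge (leaf 2 463 467) (node 494 (merge (leaf 2 462 465) (node 525 (merge (leaf 1 493 526) (node 493 (merge (leaf 1 492 524) (node 461 (merge (leaf 3 460 460) (leaf 3 461 462)))))))))))))) (node 499 (merge (leaf 1 495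 527) (node 468 (merge (leaf 2 464 467) (node 500 (merge (leaf 2 465 469) (node 533 (merge (leaf 0 497 532) (node 501 (merge (leaf 0 498 534) (node 465 (merge (leaf 3 465 466) (leaf 6 464 592)))))))))))))))) (node 465 (merge (node 433 (merge (leaf 5 400 401) (leaf 5 432 529))) (merge (node 498 (merge (node 527 (merge (leaf 1 495 499) (node 526 (merge (leaf 1 494 495) (leaf 2 493 525))))) (merge (node 499 (merge (leaf 1 495 527) (node 500 (merge (leaf 1 496 529) (node 469 (merge (leaf 2 465 468) (node 501 (merge (leaf 3 465 466) (leaf 2 466 470))))))))) (merge (node 495 (merge (node 463 (merge (leaf 3 462 462) (node 431 (merge (leaf 4 399 399) (leaf 4 431 527))))) (merge (node 466 (merge (leaf 2 463 467) (node 494 (merge (leaf 2 462 465) (node 526 (merge (leaf 1 493 525) (leaf 1 494 527))))))) (node 466 (merge (leaf 2 463 467) (node 494 (merge (leaf 2 462 465) (node 462 (merge (leaf 3 461 461) (leaf 3 462 463)))))))))) (node 499 (merge (node 468 (merge (leaf 2 464 467) (node 500 (merge (leaf 2 465 469) (leaf 1 496 529))))) (merge (node 500 (merge (leaf 1 496 529) (node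 533 (merge (leaf 0 497 532) (node 501 (merge (leaf 3 465 466) (leaf 0 498 534))))))) (merge (node 468 (merge (leaf 2 464 467) (node 500 (merge (leaf 2 465 469) (node 533 (merge (leaf 0 497 532) (node 501 (merge (leaf 3 465 466) (leaf 0 498 534))))))))) (node 467 (merge (leaf 2 464 468) (node 495 (merge (leaf 2 463 466) (node 462 (merge (leaf 3 462 463) (node 494 (merge (leaf 3 461 461) (node 529 (merge (leaf 0 493 493) (leaf 0 494 530))))))))))))))))))) (node 495 (merge (node 466 (merge (leaf 2 462 494) (node 467 (merge (leaf 1 464 468) (leaf 2 463 498))))) (merge (node 463 (merge (node 431 (merge (leaf 4 399 399) (leaf 4 431 527))) (node 462 (merge (leaf 3 462 498) (node 461 (merge (leaf 0 460 460) (leaf 3 461 494))))))) (merge (node 494 (merge (leaf 2 462 466) (node 525 (merge (leaf 1 493 526) (node 493 (merge (leaf 1 492 524) (node 461 (merge (leaf 3 460 460) (leaf 3 461 462))))))))) (node 463 (merge (node 431 (merge (leaf 4 399 399) (leaf 4 431 527))) (merge (node 498 (merge (leaf 3 462 462) (node 527 (merge (leaf 1 495 499) (leaf 1 494 526))))) (node 462 (merge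 (leaf 3 462 498) (node 461 (merge (leaf 0 460 460) (node 431 (merge (leaf 4 399 399) (node 433 (merge (leaf 5 400 401) (node 432 (merge (leaf 1 429 430) (leaf 1 430 434))))))))))))))))))))))))) (node 559 (merge (node 464 (merge (leaf 5 463 591) (node 433 (merge (leaf 6 432 465) (node 432 (merge (leaf 6 400 401) (node 431 (merge (leaf 7 399 399) (leaf 7 431 463))))))))) (merge (node 558 (merge (node 557 (merge (leaf 2 525 529) (node 556 (merge (leaf 2 524 527) (node 524 (merge (leaf 3 523 523) (leaf 3 524 525))))))) (merge (node 557 (merge (leaf 2 525 529) (node 556 (merge (leaf 2 524 527) (node 588 (merge (leaf 1 555 587) (leaf 1 556 589))))))) (merge (node 557 (merge (leaf 2 525 529) (node 589 (merge (leaf 1 556 588) (node 590 (merge (leaf 1 557 561) (node 525 (merge (leaf 3 524 524) (node 622 (merge (leaf 4 493 493) (leaf 7 525 654))))))))))) (merge (node 561 (merge (node 589 (merge (leaf 1 557 590) (node 557 (merge (leaf 1 556 588) (node 525 (merge (leaf 3 524 524) (leaf 3 525 526))))))) (merge (node 589 (merge (leaf 1 557 590) (node 557 (merge (leaf 1 556 588)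 (node 527 (merge (leaf 2 524 556) (node 562 (merge (leaf 3 526 526) (leaf 3 527 563))))))))) (merge (node 525 (merge (leaf 3 525 526) (node 557 (merge (leaf 3 524 524) (node 556 (merge (leaf 2 524 527) (node 588 (merge (leaf 1 555 587) (leaf 1 556 589))))))))) (merge (node 589 (merge (leaf 1 557 590) (node 557 (merge (leaf 1 556 588) (node 556 (merge (leaf 2 524 527) (node 524 (merge (leaf 3 523 523) (leaf 3 524 525))))))))) (node 526 (merge (leaf 3 525 525) (node 527 (merge (leaf 3 526 562) (node 464 (merge (leaf 5 431 432) (node 463 (merge (leaf 7 431 431) (node 495 (merge (leaf 5 462 590) (node 497 (merge (leaf 1 494 498) (node 462 (merge (leaf 7 430 430) (leaf 0 461 461)))))))))))))))))))) (node 561 (merge (node 590 (merge (leaf 1 557 589) (node 526 (merge (leaf 3 525 525) (node 527 (merge (leaf 3 526 562) (node 622 (merge (leaf 6 494 495) (leaf 6 526 654))))))))) (merge (node 590 (merge (leaf 1 557 589) (node 526 (merge (leaf 3 525 525) (node 527 (merge (leaf 3 526 562) (node 622 (merge (leaf 6 494 495) (leaf 6 526 654))))))))) (merge (node 590 (merge (leaf 1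 557 589) (node 529 (merge (leaf 2 526 530) (node 464 (merge (leaf 4 432 432) (node 465 (merge (leaf 6 432 433) (node 463 (merge (leaf 7 431 431) (node 495 (merge (leaf 5 462 527) (node 494 (merge (leaf 1 462 466) (leaf 0 493 493))))))))))))))) (merge (node 529 (merge (leaf 2 526 530) (node 526 (merge (leaf 3 525 525) (node 562 (merge (leaf 0 526 527) (node 594 (merge (leaf 0 559 595) (node 464 (merge (leaf 4 432 432) (node 465 (merge (leaf 6 432 433) (leaf 4 465 497))))))))))))) (node 590 (merge (leaf 1 557 589) (node 529 (merge (leaf 2 526 530) (node 526 (merge (leaf 3 525 525) (node 464 (merge (leaf 4 432 432) (node 465 (merge (leaf 6 432 433) (node 463 (merge (leaf 7 431 431) (node 494 (merge (leaf 6 462 495) (node 493 (merge (leaf 7 461 461) (leaf 1 461 462))))))))))))))))))))))))))) (node 558 (merge (node 557 (merge (leaf 2 525 529) (node 556 (merge (leaf 2 524 527) (node 524 (merge (leaf 3 523 523) (leaf 3 524 525))))))) (merge (node 557 (merge (leaf 2 525 529) (node 556 (merge (leaf 2 524 527) (node 588 (merge (leaf 1 555 587) (leaf 1 556 589))))))) (merge (node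 557 (merge (leaf 2 525 529) (node 589 (merge (leaf 1 556 588) (node 590 (merge (leaf 1 557 561) (node 525 (merge (leaf 3 524 524) (node 622 (merge (leaf 4 493 493) (leaf 7 525 654))))))))))) (merge (node 557 (merge (node 556 (merge (leaf 2 524 527) (node 588 (merge (leaf 1 555 587) (leaf 1 556 589))))) (merge (node 589 (merge (leaf 1 556 588) (node 590 (merge (leaf 1 557 561) (node 525 (merge (leaf 3 524 524) (node 622 (merge (leaf 4 493 493) (leaf 7 525 654))))))))) (merge (node 556 (merge (leaf 2 524 527) (node 587 (merge (leaf 1 555 588) (node 555 (merge (leaf 1 554 586) (node 523 (merge (leaf 3 522 522) (leaf 3 523 524))))))))) (node 556 (merge (leaf 2 524 527) (node 523 (merge (leaf 3 523 524) (node 555 (merge (leaf 3 522 522) (node 590 (merge (leaf 0 555 591) (node 589 (merge (leaf 0 554 554) (leaf 1 557 561))))))))))))))) (node 526 (merge (node 525 (merge (leaf 3 525 561) (node 527 (merge (leaf 2 493 497) (leaf 0 524 524))))) (merge (node 561 (merge (leaf 3 525 525) (node 590 (merge (leaf 1 557 589) (node 562 (merge (leaf 1 558 591) (node 595 (merge (leaf 0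 559 594) (node 563 (merge (leaf 0 560 596) (node 529 (merge (leaf 2 526 530) (leaf 3 528 564))))))))))))) (merge (node 527 (merge (node 525 (merge (leaf 2 493 497) (leaf 0 524 524))) (merge (node 529 (merge (leaf 1 526 530) (node 494 (merge (leaf 3 493 493) (node 462 (merge (leaf 4 430 430) (leaf 4 462 591))))))) (node 525 (merge (leaf 0 524 524) (node 529 (merge (leaf 1 526 530) (node 493 (merge (leaf 3 492 492) (leaf 3 493 494)))))))))) (node 527 (merge (node 561 (merge (leaf 3 526 562) (node 590 (merge (leaf 1 557 589) (node 622 (merge (leaf 6 494 495) (leaf 6 526 654))))))) (merge (node 529 (merge (leaf 1 526 530) (node 494 (merge (leaf 3 493 493) (node 591 (merge (leaf 4 462 462) (leaf 7 494 623))))))) (node 529 (merge (leaf 1 526 530) (node 494 (merge (leaf 3 493 493) (node 462 (merge (leaf 4 430 430) (leaf 4 462 591)))))))))))))))))))))))))))))))) nC_11 cC_11 13 (by decide +kernel)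
def nC_12 : ℕ := 0x100000001000000000000000000000000000000000000000000000000000000000000000000000000000000000000000000000000000000000000000000000000000000000000
def cC_12 : ℕ := 0x20000000380000003c0000001c000001ff800000ef0000076f800003ff000007ff0000007c00000038000000380000002800000000000000000000000000000000000000000000000000000000000000000000000000000000000
theorem lC_12 : S nC_12 cC_12 12 := S_of_chk [] trivial (node 496 (merge (node 464 (merge (node 433 (merge (leaf 6 432 465) (node 432 (merge (leaf 6 400 401) (node 431 (merge (leaf 7 399 399) (leaf 7 431 463))))))) (merge (node 465 (merge (leaf 6 432 433) (node 592 (merge (leaf 6 464 497) (node 591 (merge (leaf 5 463 559) (leaf 5 495 623))))))) (node 591 (merge (leaf 5 463 559) (node 463 (merge (leaf 7 431 431) (node 592 (merge (leaf 7 463 495) (leaf 5 495 623)))))))))) (merge (node 463 (merge (node 495 (merge (leaf 7 463 592) (node 431 (merge (leaf 4 399 399) (leaf 4 431 527))))) (merge (node 592 (merge (leaf 7 463 495) (node 591 (merge (leaf 5 495 623) (node 464 (merge (leaf 5 463 559) (node 561 (merge (leaf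 4 464 593) (node 529 (merge (leaf 4 432 432) (node 624 (merge (leaf 6 496 497) (leaf 6 528 656))))))))))))) (node 464 (merge (leaf 7 431 431) (node 561 (merge (leaf 4 464 593) (node 529 (merge (leaf 4 432 432) (node 559 (merge (leaf 5 463 591) (node 558 (merge (leaf 2 526 530) (leaf 2 525 557)))))))))))))) (merge (node 464 (merge (node 433 (merge (leaf 6 432 465) (node 432 (merge (leaf 6 400 401) (node 431 (merge (leaf 7 399 399) (leaf 7 431 463))))))) (merge (node 591 (merge (leaf 5 463 559) (node 463 (merge (leaf 7 431 431) (node 592 (merge (leaf 7 463 495) (leaf 5 495 623))))))) (merge (node 559 (merge (leaf 5 463 591) (node 432 (merge (leaf 5 431 527) (node 401 (merge (leaf 6 400 433) (node 400 (merge (leaf 6 368 369) (node 399 (merge (leaf 7 367 367) (leaf 7 399 431))))))))))) (node 591 (merge (leaf 5 463 559) (node 592 (merge (leaf 5 495 623) (node 495 (merge (leaf 7 463 463) (node 527 (merge (leaf 7 495 624) (node 432 (merge (leaf 5 399 400) (node 529 (merge (leaf 4 432 561) (node 494 (merge (leaf 0 493 493) (leaf 3 494 530))))))))))))))))))) (merge (node 464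 (merge (node 465 (merge (leaf 6 432 433) (node 592 (merge (leaf 6 464 497) (node 591 (merge (leaf 5 463 559) (leaf 5 495 623))))))) (merge (node 559 (merge (leaf 5 463 591) (node 432 (merge (leaf 5 431 527) (node 401 (merge (leaf 6 400 433) (node 400 (merge (leaf 6 368 369) (node 399 (merge (leaf 7 367 367) (leaf 7 399 431))))))))))) (merge (node 433 (merge (leaf 6 432 465) (node 432 (merge (leaf 6 400 401) (node 529 (merge (leaf 4 432 561) (node 400 (merge (leaf 4 400 497) (node 399 (merge (leaf 7 367 367) (leaf 7 399 431))))))))))) (node 559 (merge (leaf 5 463 591) (node 432 (merge (leaf 5 431 527) (node 399 (merge (leaf 7 399 431) (node 400 (merge (leaf 7 367 367) (node 497 (merge (leaf 4 400 529) (node 465 (merge (leaf 4 368 368) (leaf 6 464 592))))))))))))))))) (merge (node 464 (merge (node 433 (merge (leaf 6 432 465) (node 432 (merge (leaf 6 400 401) (node 431 (merge (leaf 7 399 399) (leaf 7 431 463))))))) (merge (node 465 (merge (leaf 6 432 433) (node 592 (merge (leaf 6 464 497) (node 591 (merge (leaf 5 463 559) (leaf 5 495 623))))))) (node 559 (merge (leaf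 5 463 591) (node 432 (merge (leaf 5 431 527) (node 529 (merge (leaf 4 432 561) (node 400 (merge (leaf 4 400 497) (node 369 (merge (leaf 6 368 401) (node 368 (merge (leaf 6 336 337) (node 367 (merge (leaf 7 335 335) (leaf 7 367 399)))))))))))))))))) (merge (node 464 (merge (node 465 (merge (leaf 6 432 433) (node 592 (merge (leaf 6 464 497) (node 591 (merge (leaf 5 463 559) (leaf 5 495 623))))))) (merge (node 559 (merge (leaf 5 463 591) (node 432 (merge (leaf 5 431 527) (node 529 (merge (leaf 4 432 561) (node 400 (merge (leaf 4 400 497) (node 369 (merge (leaf 6 368 401) (node 368 (merge (leaf 6 336 337) (node 367 (merge (leaf 7 335 335) (leaf 7 367 399))))))))))))))) (merge (node 433 (merge (leaf 6 432 465) (node 432 (merge (leaf 6 400 401) (node 529 (merge (leaf 4 432 561) (node 400 (merge (leaf 4 400 497) (node 495 (merge (leaf 5 399 527) (node 368 (merge (leaf 5 367 463) (node 367 (merge (leaf 7 335 335) (leaf 7 367 399))))))))))))))) (node 591 (merge (leaf 5 463 559) (node 592 (merge (leaf 5 495 623) (node 495 (merge (leaf 7 463 463) (node 527 (merge (leaf 7 495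 624) (node 432 (merge (leaf 5 399 400) (node 529 (merge (leaf 4 432 561) (node 494 (merge (leaf 0 493 493) (leaf 3 494 530))))))))))))))))))) (merge (node 465 (merge (node 433 (merge (leaf 6 432 464) (node 497 (merge (leaf 5 400 401) (leaf 5 432 529))))) (merge (node 464 (merge (leaf 6 432 433) (node 463 (merge (leaf 7 431 431) (node 495 (merge (leaf 7 463 592) (node 494 (merge (leaf 1 462 466) (leaf 2 461 493))))))))) (node 592 (merge (leaf 6 464 497) (node 495 (merge (leaf 7 463 463) (node 624 (merge (leaf 7 495 527) (node 655 (merge (leaf 5 527 623) (node 656 (merge (leaf 5 559 687) (node 689 (merge (leaf 4 560 657) (node 688 (merge (leaf 4 592 721) (node 561 (merge (leaf 6 528 529) (leaf 6 560 593)))))))))))))))))))) (merge (node 559 (merge (node 464 (merge (leaf 5 463 591) (node 432 (merge (leaf 5 431 527) (node 431 (merge (leaf 7 399 399) (leaf 7 431 463))))))) (merge (node 464 (merge (leaf 5 463 591) (node 561 (merge (leaf 4 464 593) (node 432 (merge (leaf 4 432 529) (node 431 (merge (leaf 7 399 399) (leaf 7 431 463))))))))) (merge (node 561 (merge (node 464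 (merge (leaf 4 464 593) (node 433 (merge (leaf 6 432 465) (node 432 (merge (leaf 6 400 401) (node 431 (merge (leaf 7 399 399) (leaf 7 431 463))))))))) (merge (node 594 (merge (node 593 (merge (leaf 0 558 558) (node 595 (merge (leaf 0 559 562) (leaf 3 560 596))))) (merge (node 562 (merge (leaf 0 559 595) (node 527 (merge (leaf 3 526 526) (leaf 3 527 563))))) (node 558 (merge (leaf 0 558 593) (node 589 (merge (leaf 1 557 590) (node 557 (merge (leaf 1 556 588) (node 525 (merge (leaf 3 524 524) (leaf 3 525 526)))))))))))) (node 558 (merge (node 589 (merge (leaf 1 557 590) (node 557 (merge (leaf 1 556 588) (node 525 (merge (leaf 3 524 524) (leaf 3 525 526))))))) (merge (node 589 (merge (leaf 1 557 590) (node 557 (merge (leaf 1 556 588) (node 527 (merge (leaf 2 524 556) (node 562 (merge (leaf 3 526 526) (leaf 3 527 563))))))))) (merge (node 525 (merge (leaf 3 525 526) (node 557 (merge (leaf 3 524 524) (node 556 (merge (leaf 2 524 527) (node 588 (merge (leaf 1 555 587) (leaf 1 556 589))))))))) (merge (node 589 (merge (leaf 1 557 590) (node 557 (merge (leaf 1 556 588) (node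 556 (merge (leaf 2 524 527) (node 524 (merge (leaf 3 523 523) (leaf 3 524 525))))))))) (node 526 (merge (leaf 3 525 525) (node 527 (merge (leaf 3 526 562) (node 464 (merge (leaf 5 431 432) (node 463 (merge (leaf 7 431 431) (node 495 (merge (leaf 5 462 590) (node 497 (merge (leaf 1 494 498) (node 462 (merge (leaf 7 430 430) (leaf 0 461 461))))))))))))))))))))))) (node 558 (merge (node 557 (merge (leaf 2 525 529) (node 556 (merge (leaf 2 524 527) (node 524 (merge (leaf 3 523 523) (leaf 3 524 525))))))) (merge (node 557 (merge (leaf 2 525 529) (node 556 (merge (leaf 2 524 527) (node 588 (merge (leaf 1 555 587) (leaf 1 556 589))))))) (merge (node 557 (merge (leaf 2 525 529) (node 588 (merge (leaf 1 556 589) (node 556 (merge (leaf 1 555 587) (node 524 (merge (leaf 3 523 523) (leaf 3 524 525))))))))) (merge (node 561 (merge (node 589 (merge (leaf 1 557 590) (node 557 (merge (leaf 1 556 588) (node 525 (merge (leaf 3 524 524) (leaf 3 525 526))))))) (merge (node 594 (merge (leaf 0 558 593) (node 562 (merge (leaf 0 559 595) (node 590 (merge (leaf 1 557 589) (leaf 1 558 591)))))))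 (node 594 (merge (leaf 0 558 593) (node 562 (merge (leaf 0 559 595) (node 526 (merge (leaf 3 525 525) (leaf 3 526 527)))))))))) (node 526 (merge (node 561 (merge (leaf 3 525 525) (node 594 (merge (leaf 0 558 593) (node 562 (merge (leaf 3 526 527) (leaf 0 559 595))))))) (merge (node 561 (merge (leaf 3 525 525) (node 594 (merge (leaf 0 558 593) (node 562 (merge (leaf 0 559 595) (node 590 (merge (leaf 1 557 589) (leaf 1 558 591))))))))) (merge (node 527 (merge (node 525 (merge (leaf 2 493 497) (leaf 0 524 524))) (merge (node 529 (merge (leaf 1 526 530) (node 494 (merge (leaf 3 493 493) (node 462 (merge (leaf 4 430 430) (leaf 4 462 591))))))) (node 525 (merge (leaf 0 524 524) (node 529 (merge (leaf 1 526 530) (node 493 (merge (leaf 3 492 492) (leaf 3 493 494)))))))))) (node 527 (merge (node 561 (merge (leaf 3 526 562) (node 590 (merge (leaf 1 557 589) (node 622 (merge (leaf 6 494 495) (leaf 6 526 654))))))) (merge (node 529 (merge (leaf 1 526 530) (node 494 (merge (leaf 3 493 493) (node 591 (merge (leaf 4 462 462) (leaf 7 494 623))))))) (node 529 (merge (leaf 1 526 530)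 (node 494 (merge (leaf 3 493 493) (node 462 (merge (leaf 4 430 430) (leaf 4 462 591))))))))))))))))))))))) (node 497 (merge (node 465 (merge (leaf 6 464 592) (node 433 (merge (leaf 5 400 401) (leaf 5 432 529))))) (merge (node 495 (merge (node 463 (merge (leaf 7 463 592) (node 431 (merge (leaf 4 399 399) (leaf 4 431 527))))) (merge (node 526 (merge (node 527 (merge (leaf 1 494 498) (leaf 2 493 525))) (merge (node 494 (merge (leaf 1 493 525) (node 529 (merge (leaf 0 493 493) (leaf 0 494 530))))) (node 498 (merge (leaf 1 494 527) (node 467 (merge (leaf 2 463 466) (node 499 (merge (leaf 2 464 468) (node 529 (merge (leaf 1 496 500) (node 494 (merge (leaf 0 493 493) (leaf 0 494 530)))))))))))))) (node 463 (merge (leaf 7 463 592) (node 498 (merge (leaf 3 462 462) (node 467 (merge (leaf 2 463 466) (node 499 (merge (leaf 2 464 468) (node 529 (merge (leaf 1 496 500) (node 494 (merge (leaf 0 493 493) (leaf 0 494 530)))))))))))))))) (merge (node 498 (merge (node 527 (merge (leaf 1 495 499) (node 526 (merge (leaf 1 494 495) (leaf 2 493 525))))) (merge (node 495 (merge (node 463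 (merge (leaf 3 462 462) (leaf 7 463 592))) (merge (node 592 (merge (leaf 7 463 463) (leaf 6 464 465))) (node 466 (merge (leaf 2 463 467) (node 494 (merge (leaf 2 462 465) (node 525 (merge (leaf 1 493 526) (node 493 (merge (leaf 1 492 524) (node 461 (merge (leaf 3 460 460) (leaf 3 461 462)))))))))))))) (node 499 (merge (leaf 1 495 527) (node 468 (merge (leaf 2 464 467) (node 500 (merge (leaf 2 465 469) (node 533 (merge (leaf 0 497 532) (node 501 (merge (leaf 0 498 534) (node 465 (merge (leaf 3 465 466) (leaf 6 464 592)))))))))))))))) (node 465 (merge (node 433 (merge (leaf 5 400 401) (leaf 5 432 529))) (merge (node 498 (merge (node 527 (merge (leaf 1 495 499) (node 526 (merge (leaf 1 494 495) (leaf 2 493 525))))) (merge (node 499 (merge (leaf 1 495 527) (node 500 (merge (leaf 1 496 529) (node 469 (merge (leaf 2 465 468) (node 501 (merge (leaf 3 465 466) (leaf 2 466 470))))))))) (merge (node 495 (merge (node 463 (merge (leaf 3 462 462) (node 431 (merge (leaf 4 399 399) (leaf 4 431 527))))) (merge (node 466 (merge (leaf 2 463 467) (node 494 (merge (leaf 2 462 465) (node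 526 (merge (leaf 1 493 525) (leaf 1 494 527))))))) (node 466 (merge (leaf 2 463 467) (node 494 (merge (leaf 2 462 465) (node 462 (merge (leaf 3 461 461) (leaf 3 462 463)))))))))) (node 499 (merge (node 468 (merge (leaf 2 464 467) (node 500 (merge (leaf 2 465 469) (leaf 1 496 529))))) (merge (node 500 (merge (leaf 1 496 529) (node 533 (merge (leaf 0 497 532) (node 501 (merge (leaf 3 465 466) (leaf 0 498 534))))))) (merge (node 468 (merge (leaf 2 464 467) (node 500 (merge (leaf 2 465 469) (node 533 (merge (leaf 0 497 532) (node 501 (merge (leaf 3 465 466) (leaf 0 498 534))))))))) (node 467 (merge (leaf 2 464 468) (node 495 (merge (leaf 2 463 466) (node 462 (merge (leaf 3 462 463) (node 494 (merge (leaf 3 461 461) (node 529 (merge (leaf 0 493 493) (leaf 0 494 530))))))))))))))))))) (node 495 (merge (node 466 (merge (leaf 2 462 494) (node 467 (merge (leaf 1 464 468) (leaf 2 463 498))))) (merge (node 463 (merge (node 431 (merge (leaf 4 399 399) (leaf 4 431 527))) (node 462 (merge (leaf 3 462 498) (node 461 (merge (leaf 0 460 460) (leaf 3 461 494))))))) (merge (node 494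 (merge (leaf 2 462 466) (node 525 (merge (leaf 1 493 526) (node 493 (merge (leaf 1 492 524) (node 461 (merge (leaf 3 460 460) (leaf 3 461 462))))))))) (node 463 (merge (node 431 (merge (leaf 4 399 399) (leaf 4 431 527))) (merge (node 498 (merge (leaf 3 462 462) (node 527 (merge (leaf 1 495 499) (leaf 1 494 526))))) (node 462 (merge (leaf 3 462 498) (node 461 (merge (leaf 0 460 460) (node 431 (merge (leaf 4 399 399) (node 433 (merge (leaf 5 400 401) (node 432 (merge (leaf 1 429 430) (leaf 1 430 434)))))))))))))))))))))))))))))))))) nC_12 cC_12 12 (by decide +kernel)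
def nC_13 : ℕ := 0x100000001000000010000000000000000000000000000000000000000000000000000000000000000000000000000000000000000000000000000000000000000000000000000
def cC_13 : ℕ := 0xa0000000e0000000f0000000f0000006fc00001efc00001ffc000003f0000003c000000300000000000000000000000000000000000000000000000000000000000000000000000000000000000000000000
theorem lC_13 : S nC_13 cC_13 11 := S_of_chk [] trivial (node 495 (merge (node 464 (merge (node 465 (merge (leaf 6 432 433) (node 466 (merge (leaf 1 463 467) (node 463 (merge (leaf 7 431 431) (leaf 1 462 494))))))) (merge (node 559 (merge (leaf 5 463 591) (node 432 (merge (leaf 5 431 527) (node 431 (merge (leaf 7 399 399) (leaf 7 431 463))))))) (node 433 (merge (leaf 6 432 465) (node 432 (merge (leaf 6 400 401) (node 559 (merge (leaf 5 431 527) (leaf 5 463 591)))))))))) (merge (node 494 (merge (node 529 (merge (leaf 0 493 493) (node 530 (merge (leaf 0 494 497) (leaf 3 494 527))))) (merge (node 493 (merge (leaf 0 493 529) (node 525 (merge (leaf 1 492 524) (node 497 (merge (leaf 1 493 526) (node 461 (merge (leaf 3 460 460) (leaf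 3 461 462))))))))) (merge (node 493 (merge (leaf 0 493 529) (node 492 (merge (leaf 0 492 527) (node 524 (merge (leaf 1 491 523) (leaf 1 492 525))))))) (merge (node 497 (merge (node 525 (merge (leaf 1 493 526) (node 493 (merge (leaf 1 492 524) (node 461 (merge (leaf 3 460 460) (leaf 3 461 462))))))) (merge (node 466 (merge (leaf 2 462 465) (node 498 (merge (leaf 2 463 467) (node 527 (merge (leaf 1 495 499) (leaf 1 494 526))))))) (node 461 (merge (leaf 3 461 462) (node 493 (merge (leaf 3 460 460) (node 492 (merge (leaf 0 492 527) (node 524 (merge (leaf 1 491 523) (leaf 1 492 525)))))))))))) (node 497 (merge (node 465 (merge (leaf 2 462 466) (node 433 (merge (leaf 5 400 401) (leaf 5 432 529))))) (node 462 (merge (leaf 3 461 461) (node 498 (merge (leaf 3 462 463) (node 527 (merge (leaf 1 495 499) (leaf 1 494 526)))))))))))))) (merge (node 494 (merge (node 529 (merge (leaf 0 493 493) (node 497 (merge (leaf 0 494 530) (node 465 (merge (leaf 5 432 433) (leaf 2 462 466))))))) (merge (node 493 (merge (leaf 0 493 529) (node 524 (merge (leaf 1 492 525) (node 492 (merge (leaf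 1 491 523) (node 460 (merge (leaf 3 459 459) (leaf 3 460 461))))))))) (merge (node 465 (merge (node 464 (merge (leaf 6 432 433) (leaf 2 461 493))) (node 497 (merge (leaf 2 462 466) (node 526 (merge (leaf 1 493 525) (node 462 (merge (leaf 3 461 461) (node 463 (merge (leaf 3 462 498) (node 431 (merge (leaf 4 399 399) (leaf 6 430 558))))))))))))) (node 497 (merge (node 465 (merge (leaf 2 462 466) (node 433 (merge (leaf 5 400 401) (leaf 5 432 529))))) (merge (node 466 (merge (leaf 2 462 465) (node 498 (merge (leaf 2 463 467) (node 462 (merge (leaf 3 461 461) (leaf 3 462 463))))))) (node 526 (merge (leaf 1 493 525) (node 462 (merge (leaf 3 461 461) (node 463 (merge (leaf 3 462 498) (node 431 (merge (leaf 4 399 399) (leaf 6 430 558)))))))))))))))) (merge (node 494 (merge (node 493 (merge (leaf 0 493 529) (node 492 (merge (leaf 0 492 527) (node 460 (merge (leaf 3 459 459) (leaf 3 460 461))))))) (merge (node 529 (merge (leaf 0 493 493) (node 497 (merge (leaf 0 494 530) (node 465 (merge (leaf 5 432 433) (leaf 2 462 466))))))) (merge (node 497 (merge (node 525 (merge (leaf 1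 493 526) (node 493 (merge (leaf 1 492 524) (node 461 (merge (leaf 3 460 460) (leaf 3 461 462))))))) (merge (node 466 (merge (leaf 2 462 465) (node 498 (merge (leaf 2 463 467) (node 527 (merge (leaf 1 495 499) (leaf 1 494 526))))))) (node 461 (merge (leaf 3 461 462) (node 493 (merge (leaf 3 460 460) (node 492 (merge (leaf 0 492 527) (node 524 (merge (leaf 1 491 523) (leaf 1 492 525)))))))))))) (node 497 (merge (node 465 (merge (leaf 2 462 466) (node 433 (merge (leaf 5 400 401) (leaf 5 432 529))))) (merge (node 466 (merge (leaf 2 462 465) (node 498 (merge (leaf 2 463 467) (node 527 (merge (leaf 1 495 499) (leaf 1 494 526))))))) (node 526 (merge (leaf 1 493 525) (node 527 (merge (leaf 1 494 498) (node 462 (merge (leaf 3 461 461) (node 430 (merge (leaf 4 398 398) (leaf 4 430 559)))))))))))))))) (merge (node 494 (merge (node 529 (merge (leaf 0 493 493) (node 530 (merge (leaf 0 494 497) (leaf 3 494 527))))) (merge (node 493 (merge (leaf 0 493 529) (node 464 (merge (leaf 2 461 465) (node 463 (merge (leaf 7 431 431) (leaf 2 460 492))))))) (merge (node 493 (merge (node 492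 (merge (leaf 0 492 527) (node 460 (merge (leaf 3 459 459) (leaf 3 460 461))))) (merge (node 525 (merge (leaf 1 492 524) (node 461 (merge (leaf 3 460 460) (node 462 (merge (leaf 3 461 497) (node 557 (merge (leaf 6 429 430) (leaf 6 461 589))))))))) (merge (node 492 (merge (leaf 0 492 527) (node 523 (merge (leaf 1 491 524) (node 491 (merge (leaf 1 490 522) (node 459 (merge (leaf 3 458 458) (leaf 3 459 460))))))))) (node 492 (merge (leaf 0 492 527) (node 523 (merge (leaf 1 491 524) (node 491 (merge (leaf 1 490 522) (node 462 (merge (leaf 2 459 463) (node 461 (merge (leaf 2 458 490) (leaf 3 461 497))))))))))))))) (node 526 (merge (node 525 (merge (leaf 1 493 497) (node 524 (merge (leaf 2 491 523) (leaf 2 492 527))))) (merge (node 497 (merge (leaf 1 493 525) (node 462 (merge (leaf 3 461 461) (node 463 (merge (leaf 3 462 498) (node 558 (merge (leaf 6 430 431) (leaf 6 462 590))))))))) (merge (node 527 (merge (node 497 (merge (leaf 1 494 498) (node 462 (merge (leaf 3 461 461) (node 559 (merge (leaf 4 430 430) (leaf 7 462 591))))))) (node 529 (merge (leaf 3 494 530) (node 558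 (merge (leaf 1 525 557) (node 463 (merge (leaf 4 431 431) (leaf 6 462 590))))))))) (node 464 (merge (node 559 (merge (leaf 5 463 591) (node 432 (merge (leaf 5 431 527) (node 433 (merge (leaf 6 400 401) (leaf 6 432 465))))))) (merge (node 433 (merge (leaf 6 432 465) (node 432 (merge (leaf 6 400 401) (node 400 (merge (leaf 5 399 527) (node 463 (merge (leaf 5 367 368) (leaf 7 431 431))))))))) (merge (node 559 (merge (leaf 5 463 591) (node 527 (merge (leaf 5 431 432) (node 462 (merge (leaf 4 430 430) (node 463 (merge (leaf 4 431 431) (node 461 (merge (leaf 0 460 460) (node 558 (merge (leaf 7 429 429) (leaf 5 462 590))))))))))))) (merge (node 559 (merge (leaf 5 463 591) (node 463 (merge (leaf 7 431 431) (node 558 (merge (leaf 6 462 590) (node 557 (merge (leaf 2 525 529) (node 462 (merge (leaf 5 461 589) (node 461 (merge (leaf 7 429 429) (leaf 0 460 460))))))))))))) (node 559 (merge (leaf 5 463 591) (node 527 (merge (leaf 5 431 432) (node 525 (merge (leaf 0 524 524) (node 557 (merge (leaf 1 524 556) (node 529 (merge (leaf 3 494 530) (leaf 1 525 558))))))))))))))))))))))))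 (merge (node 497 (merge (node 463 (merge (node 431 (merge (leaf 4 399 399) (leaf 7 431 464))) (node 462 (merge (leaf 3 462 498) (node 461 (merge (leaf 0 460 460) (leaf 3 461 494))))))) (merge (node 526 (merge (node 527 (merge (leaf 1 494 498) (leaf 2 493 525))) (merge (node 494 (merge (leaf 1 493 525) (node 529 (merge (leaf 0 493 493) (leaf 0 494 530))))) (node 498 (merge (leaf 1 494 527) (node 467 (merge (leaf 2 463 466) (node 499 (merge (leaf 2 464 468) (node 529 (merge (leaf 1 496 500) (node 494 (merge (leaf 0 493 493) (leaf 0 494 530)))))))))))))) (merge (node 464 (merge (node 463 (merge (leaf 7 431 431) (node 462 (merge (leaf 0 461 461) (node 498 (merge (leaf 3 462 495) (leaf 3 463 499))))))) (node 559 (merge (leaf 5 463 591) (node 432 (merge (leaf 5 431 527) (node 400 (merge (leaf 4 400 529) (node 401 (merge (leaf 6 368 369) (leaf 6 400 433))))))))))) (node 464 (merge (node 431 (merge (leaf 7 431 463) (node 432 (merge (leaf 7 399 399) (node 401 (merge (leaf 6 400 433) (node 400 (merge (leaf 6 368 369) (leaf 5 399 527))))))))) (merge (node 559 (merge (leaf 5 463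 591) (node 432 (merge (leaf 5 431 527) (node 400 (merge (leaf 4 400 529) (node 401 (merge (leaf 6 368 369) (leaf 6 400 433))))))))) (merge (node 431 (merge (leaf 7 431 463) (node 432 (merge (leaf 7 399 399) (node 529 (merge (leaf 4 400 400) (node 494 (merge (leaf 0 493 493) (leaf 0 494 530))))))))) (node 559 (merge (leaf 5 463 591) (node 463 (merge (leaf 7 431 431) (node 462 (merge (leaf 0 461 461) (node 527 (merge (leaf 7 430 430) (node 558 (merge (leaf 5 462 590) (node 557 (merge (leaf 2 525 529) (leaf 2 524 556))))))))))))))))))))) (merge (node 464 (merge (node 559 (merge (leaf 5 463 591) (node 432 (merge (leaf 5 431 527) (node 431 (merge (leaf 7 399 399) (leaf 7 431 463))))))) (merge (node 433 (merge (leaf 6 432 465) (node 432 (merge (leaf 6 400 401) (node 559 (merge (leaf 5 431 527) (leaf 5 463 591))))))) (node 465 (merge (leaf 6 432 433) (node 466 (merge (leaf 1 463 467) (node 463 (merge (leaf 7 431 431) (node 498 (merge (leaf 0 463 499) (node 462 (merge (leaf 0 462 497) (node 461 (merge (leaf 0 460 460) (node 429 (merge (leaf 3 428 428) (leaf 3 429 430))))))))))))))))))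 (node 527 (merge (node 464 (merge (node 559 (merge (leaf 5 431 432) (leaf 6 463 591))) (merge (node 431 (merge (leaf 4 431 463) (node 432 (merge (leaf 7 399 399) (leaf 5 399 400))))) (node 463 (merge (leaf 4 431 431) (node 559 (merge (leaf 5 463 591) (node 558 (merge (leaf 5 462 590) (node 557 (merge (leaf 2 525 529) (leaf 2 524 556)))))))))))) (merge (node 494 (merge (node 529 (merge (leaf 0 493 493) (leaf 3 494 530))) (node 497 (merge (node 526 (merge (leaf 2 493 525) (node 498 (merge (leaf 1 494 495) (leaf 1 495 499))))) (merge (node 462 (merge (leaf 3 461 461) (node 430 (merge (leaf 4 398 398) (node 559 (merge (leaf 4 430 526) (leaf 7 462 591))))))) (node 498 (merge (leaf 1 495 499) (node 466 (merge (leaf 2 462 465) (leaf 2 463 467)))))))))) (merge (node 494 (merge (node 529 (merge (leaf 0 493 493) (leaf 3 494 530))) (node 497 (merge (node 498 (merge (leaf 1 495 499) (node 462 (merge (leaf 3 461 461) (leaf 3 462 463))))) (merge (node 526 (merge (leaf 2 493 525) (node 498 (merge (leaf 1 494 495) (leaf 1 495 499))))) (node 526 (merge (leaf 1 493 525) (node 462 (merge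 (leaf 3 461 461) (node 430 (merge (leaf 4 398 398) (node 431 (merge (leaf 6 398 399) (leaf 4 431 463)))))))))))))) (node 559 (merge (node 463 (merge (leaf 4 431 431) (node 462 (merge (leaf 7 430 430) (node 461 (merge (leaf 0 460 460) (node 497 (merge (leaf 3 461 494) (leaf 3 462 498))))))))) (merge (node 463 (merge (leaf 4 431 431) (node 462 (merge (leaf 7 430 430) (node 591 (merge (leaf 7 462 494) (node 623 (merge (leaf 6 495 496) (leaf 6 527 655))))))))) (merge (node 591 (merge (leaf 6 495 623) (node 590 (merge (leaf 5 494 622) (node 494 (merge (leaf 7 462 462) (node 493 (merge (leaf 0 492 492) (node 525 (merge (leaf 1 492 524) (node 526 (merge (leaf 1 493 497) (node 461 (merge (leaf 3 460 460) (leaf 7 461 558))))))))))))))) (merge (node 591 (merge (leaf 6 495 623) (node 590 (merge (leaf 5 494 622) (node 463 (merge (leaf 5 462 558) (node 431 (merge (leaf 4 399 399) (leaf 4 431 560))))))))) (node 463 (merge (leaf 4 431 431) (node 558 (merge (leaf 5 462 590) (node 557 (merge (leaf 2 524 556) (node 589 (merge (leaf 1 556 588) (node 525 (merge (leaf 3 524 524) (node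 526 (merge (leaf 2 493 497) (node 621 (merge (leaf 6 493 494) (leaf 6 525 653)))))))))))))))))))))))))))))))) nC_13 cC_13 11 (by decide +kernel)
def nC_14 : ℕ := 0x100000001000000000000000000000000000000000000000000000000000000000000000000000000000000000000000000000000000000000000000000000000000000000000
def cC_14 : ℕ := 0x80000002800000ffe000007ee0000076f000003fe000007ff0000007c00000028000000000000000000000000000000000000000000000000000000000000000000000000000000000000000000000000000
theorem lC_14 : S nC_14 cC_14 11 := S_of_chk [] trivial (node 496 (merge (node 463 (merge (node 431 (merge (leaf 7 431 464) (node 495 (merge (leaf 4 399 399) (leaf 4 431 527))))) (merge (node 495 (merge (leaf 7 463 592) (node 431 (merge (leaf 4 399 399) (leaf 4 431 527))))) (merge (node 592 (merge (leaf 7 463 495) (node 593 (merge (leaf 4 496 625) (node 464 (merge (leaf 4 464 561) (node 465 (merge (leaf 6 432 433) (leaf 6 464 497))))))))) (node 464 (merge (leaf 7 431 431) (node 593 (merge (leaf 4 464 561) (node 465 (merge (leaf 6 432 433) (node 592 (merge (leaf 6 464 497) (leaf 4 496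 625))))))))))))) (merge (node 464 (merge (node 433 (merge (leaf 6 432 465) (node 432 (merge (leaf 6 400 401) (node 559 (merge (leaf 5 431 527) (leaf 5 463 591))))))) (merge (node 593 (merge (leaf 4 464 561) (node 465 (merge (leaf 6 432 433) (node 592 (merge (leaf 6 464 497) (leaf 4 496 625))))))) (node 593 (merge (leaf 4 464 561) (node 592 (merge (leaf 4 496 625) (node 591 (merge (leaf 5 463 559) (leaf 5 495 623)))))))))) (merge (node 464 (merge (node 433 (merge (leaf 6 432 465) (node 432 (merge (leaf 6 400 401) (node 431 (merge (leaf 7 399 399) (leaf 7 431 463))))))) (node 593 (merge (leaf 4 464 561) (node 592 (merge (leaf 4 496 625) (node 591 (merge (leaf 5 463 559) (leaf 5 495 623))))))))) (merge (node 464 (merge (node 593 (merge (leaf 4 464 561) (node 592 (merge (leaf 4 496 625) (node 463 (merge (leaf 7 431 431) (leaf 7 463 495))))))) (merge (node 591 (merge (leaf 5 463 559) (node 463 (merge (leaf 7 431 431) (node 592 (merge (leaf 7 463 495) (leaf 5 495 623))))))) (node 561 (merge (leaf 4 464 593) (node 432 (merge (leaf 4 432 529) (node 559 (merge (leaf 5 431 527)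 (leaf 5 463 591)))))))))) (merge (node 561 (merge (node 464 (merge (leaf 4 464 593) (node 433 (merge (leaf 6 432 465) (node 432 (merge (leaf 6 400 401) (node 431 (merge (leaf 7 399 399) (leaf 7 431 463))))))))) (merge (node 559 (merge (node 591 (merge (leaf 5 463 464) (node 623 (merge (leaf 6 495 527) (leaf 6 527 655))))) (merge (node 526 (merge (node 527 (merge (leaf 0 525 525) (leaf 3 526 562))) (merge (node 558 (merge (leaf 3 525 525) (node 529 (merge (leaf 2 526 530) (leaf 2 525 557))))) (node 562 (merge (leaf 3 526 527) (node 595 (merge (leaf 0 559 594) (node 563 (merge (leaf 0 560 596) (node 529 (merge (leaf 3 528 564) (node 558 (merge (leaf 2 526 530) (leaf 2 525 557)))))))))))))) (node 591 (merge (leaf 5 463 464) (node 562 (merge (leaf 1 558 590) (node 595 (merge (leaf 0 559 594) (node 563 (merge (leaf 0 560 596) (node 529 (merge (leaf 3 528 564) (node 558 (merge (leaf 2 526 530) (leaf 2 525 557)))))))))))))))) (node 562 (merge (node 527 (merge (leaf 3 527 563) (node 526 (merge (leaf 0 525 525) (leaf 3 526 559))))) (merge (node 563 (merge (leaf 3 527 527) (node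 596 (merge (leaf 0 560 595) (node 564 (merge (leaf 3 528 529) (leaf 0 561 597))))))) (merge (node 559 (merge (node 591 (merge (leaf 1 558 590) (node 527 (merge (leaf 3 526 526) (leaf 6 495 623))))) (merge (node 594 (merge (leaf 0 559 595) (node 558 (merge (leaf 0 558 593) (node 526 (merge (leaf 3 525 525) (leaf 3 526 527))))))) (node 594 (merge (leaf 0 559 595) (node 558 (merge (leaf 0 558 593) (node 590 (merge (leaf 1 557 589) (leaf 1 558 591)))))))))) (node 563 (merge (node 596 (merge (leaf 0 560 595) (node 564 (merge (leaf 3 528 529) (leaf 0 561 597))))) (merge (node 595 (merge (leaf 0 560 596) (node 559 (merge (leaf 0 559 594) (node 590 (merge (leaf 1 558 591) (node 558 (merge (leaf 1 557 589) (node 529 (merge (leaf 2 526 530) (leaf 2 525 557))))))))))) (merge (node 564 (merge (leaf 3 528 529) (node 597 (merge (leaf 0 561 596) (node 565 (merge (leaf 0 562 598) (node 533 (merge (leaf 2 529 532) (leaf 2 530 534))))))))) (merge (node 564 (merge (leaf 3 528 529) (node 533 (merge (leaf 2 529 532) (node 565 (merge (leaf 2 530 534) (node 598 (merge (leaf 0 562 597) (node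 566 (merge (leaf 0 563 599) (node 594 (merge (leaf 1 561 593) (leaf 1 562 595))))))))))))) (node 564 (merge (node 596 (merge (leaf 0 560 595) (leaf 0 561 597))) (merge (node 597 (merge (leaf 0 561 596) (node 565 (merge (leaf 0 562 598) (node 533 (merge (leaf 2 529 532) (leaf 2 530 534))))))) (merge (node 533 (merge (leaf 2 529 532) (node 565 (merge (leaf 2 530 534) (node 598 (merge (leaf 0 562 597) (node 566 (merge (leaf 0 563 599) (node 594 (merge (leaf 1 561 593) (leaf 1 562 595))))))))))) (node 595 (merge (leaf 0 560 596) (node 594 (merge (leaf 0 559 559) (node 565 (merge (leaf 1 562 566) (leaf 1 561 593))))))))))))))))))))))) (node 497 (merge (node 465 (merge (leaf 6 464 592) (node 433 (merge (leaf 5 400 401) (leaf 5 432 529))))) (merge (node 495 (merge (node 463 (merge (leaf 7 463 592) (node 431 (merge (leaf 4 399 399) (leaf 4 431 527))))) (merge (node 526 (merge (node 527 (merge (leaf 1 494 498) (leaf 2 493 525))) (merge (node 494 (merge (leaf 1 493 525) (node 529 (merge (leaf 0 493 493) (leaf 0 494 530))))) (node 498 (merge (leaf 1 494 527) (node 467 (merge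 (leaf 2 463 466) (node 499 (merge (leaf 2 464 468) (node 529 (merge (leaf 1 496 500) (node 494 (merge (leaf 0 493 493) (leaf 0 494 530)))))))))))))) (node 463 (merge (leaf 7 463 592) (node 498 (merge (leaf 3 462 462) (node 467 (merge (leaf 2 463 466) (node 499 (merge (leaf 2 464 468) (node 529 (merge (leaf 1 496 500) (node 494 (merge (leaf 0 493 493) (leaf 0 494 530)))))))))))))))) (merge (node 498 (merge (node 527 (merge (leaf 1 495 499) (node 526 (merge (leaf 1 494 495) (leaf 2 493 525))))) (merge (node 495 (merge (node 463 (merge (leaf 3 462 462) (leaf 7 463 592))) (merge (node 592 (merge (leaf 7 463 463) (leaf 6 464 465))) (node 466 (merge (leaf 2 463 467) (node 494 (merge (leaf 2 462 465) (node 525 (merge (leaf 1 493 526) (node 493 (merge (leaf 1 492 524) (node 461 (merge (leaf 3 460 460) (leaf 3 461 462)))))))))))))) (node 499 (merge (leaf 1 495 527) (node 468 (merge (leaf 2 464 467) (node 500 (merge (leaf 2 465 469) (node 533 (merge (leaf 0 497 532) (node 501 (merge (leaf 0 498 534) (node 465 (merge (leaf 3 465 466) (leaf 6 464 592)))))))))))))))) (node 465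 (merge (node 433 (merge (leaf 5 400 401) (leaf 5 432 529))) (merge (node 498 (merge (node 527 (merge (leaf 1 495 499) (node 526 (merge (leaf 1 494 495) (leaf 2 493 525))))) (merge (node 499 (merge (leaf 1 495 527) (node 500 (merge (leaf 1 496 529) (node 469 (merge (leaf 2 465 468) (node 501 (merge (leaf 3 465 466) (leaf 2 466 470))))))))) (merge (node 495 (merge (node 463 (merge (leaf 3 462 462) (node 431 (merge (leaf 4 399 399) (leaf 4 431 527))))) (merge (node 466 (merge (leaf 2 463 467) (node 494 (merge (leaf 2 462 465) (node 526 (merge (leaf 1 493 525) (leaf 1 494 527))))))) (node 466 (merge (leaf 2 463 467) (node 494 (merge (leaf 2 462 465) (node 462 (merge (leaf 3 461 461) (leaf 3 462 463)))))))))) (node 499 (merge (node 468 (merge (leaf 2 464 467) (node 500 (merge (leaf 2 465 469) (leaf 1 496 529))))) (merge (node 500 (merge (leaf 1 496 529) (node 533 (merge (leaf 0 497 532) (node 501 (merge (leaf 3 465 466) (leaf 0 498 534))))))) (merge (node 468 (merge (leaf 2 464 467) (node 500 (merge (leaf 2 465 469) (node 533 (merge (leaf 0 497 532) (node 501 (merge (leaf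 3 465 466) (leaf 0 498 534))))))))) (node 467 (merge (leaf 2 464 468) (node 495 (merge (leaf 2 463 466) (node 462 (merge (leaf 3 462 463) (node 494 (merge (leaf 3 461 461) (node 529 (merge (leaf 0 493 493) (leaf 0 494 530))))))))))))))))))) (node 495 (merge (node 466 (merge (leaf 2 462 494) (node 467 (merge (leaf 1 464 468) (leaf 2 463 498))))) (merge (node 463 (merge (node 431 (merge (leaf 4 399 399) (leaf 4 431 527))) (node 462 (merge (leaf 3 462 498) (node 461 (merge (leaf 0 460 460) (leaf 3 461 494))))))) (merge (node 494 (merge (leaf 2 462 466) (node 525 (merge (leaf 1 493 526) (node 493 (merge (leaf 1 492 524) (node 461 (merge (leaf 3 460 460) (leaf 3 461 462))))))))) (node 463 (merge (node 431 (merge (leaf 4 399 399) (leaf 4 431 527))) (merge (node 498 (merge (leaf 3 462 462) (node 527 (merge (leaf 1 495 499) (leaf 1 494 526))))) (node 462 (merge (leaf 3 462 498) (node 461 (merge (leaf 0 460 460) (node 431 (merge (leaf 4 399 399) (node 433 (merge (leaf 5 400 401) (node 432 (merge (leaf 1 429 430) (leaf 1 430 434))))))))))))))))))))))))))))))) nC_14 cC_14 11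 (by decide +kernel)
def nC_15 : ℕ := 0x100000001000000010000000000000000000000000000000000000000000000000000000000000000000000000000000000000000000000000000000000000000000000000000
def cC_15 : ℕ := 0x8000000380000003c000001fc00000fff000007ee0000076f000000e8000000600000000000000000000000000000000000000000000000000000000000000000000000000000000000000000000000000000000000000000000
theorem lC_15 : S nC_15 cC_15 10 := S_of_chk [] trivial (node 561 (merge (node 592 (merge (node 593 (merge (leaf 4 496 625) (node 591 (merge (leaf 5 495 623) (node 590 (merge (leaf 2 558 562) (leaf 2 557 589))))))) (merge (node 625 (merge (leaf 4 496 593) (node 497 (merge (leaf 6 464 465) (node 624 (merge (leaf 6 496 529) (leaf 4 528 657))))))) (node 497 (merge (leaf 6 464 465) (node 624 (merge (leaf 6 496 529) (node 623 (merge (leaf 5 495 591) (leaf 5 527 655)))))))))) (merge (node 592 (merge (node 591 (merge (leaf 5 495 623) (node 590 (merge (leaf 2 557 589) (node 562 (merge (leaf 1 558 559) (leaf 1 559 563))))))) (merge (node 497 (merge (leaf 6 464 465) (node 624 (merge (leaf 6 496 529) (node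 623 (merge (leaf 5 495 591) (leaf 5 527 655))))))) (node 497 (merge (leaf 6 464 465) (node 624 (merge (leaf 6 496 529) (node 657 (merge (leaf 4 528 625) (node 656 (merge (leaf 4 560 689) (node 527 (merge (leaf 7 495 495) (leaf 7 527 559)))))))))))))) (merge (node 562 (merge (node 527 (merge (leaf 3 527 563) (node 526 (merge (leaf 0 525 525) (leaf 3 526 559))))) (merge (node 563 (merge (leaf 3 527 527) (node 596 (merge (leaf 0 560 595) (node 564 (merge (leaf 3 528 529) (leaf 0 561 597))))))) (merge (node 559 (merge (node 591 (merge (leaf 1 558 590) (node 527 (merge (leaf 3 526 526) (leaf 6 495 623))))) (merge (node 594 (merge (leaf 0 559 595) (node 558 (merge (leaf 0 558 593) (node 526 (merge (leaf 3 525 525) (leaf 3 526 527))))))) (node 594 (merge (leaf 0 559 595) (node 558 (merge (leaf 0 558 593) (node 590 (merge (leaf 1 557 589) (leaf 1 558 591)))))))))) (node 563 (merge (node 596 (merge (leaf 0 560 595) (node 564 (merge (leaf 3 528 529) (leaf 0 561 597))))) (merge (node 595 (merge (leaf 0 560 596) (node 559 (merge (leaf 0 559 594) (node 590 (merge (leaf 1 558 591)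 (node 558 (merge (leaf 1 557 589) (node 529 (merge (leaf 2 526 530) (leaf 2 525 557))))))))))) (merge (node 564 (merge (leaf 3 528 529) (node 597 (merge (leaf 0 561 596) (node 565 (merge (leaf 0 562 598) (node 533 (merge (leaf 2 529 532) (leaf 2 530 534))))))))) (merge (node 564 (merge (leaf 3 528 529) (node 533 (merge (leaf 2 529 532) (node 565 (merge (leaf 2 530 534) (node 598 (merge (leaf 0 562 597) (node 566 (merge (leaf 0 563 599) (node 594 (merge (leaf 1 561 593) (leaf 1 562 595))))))))))))) (node 564 (merge (node 596 (merge (leaf 0 560 595) (leaf 0 561 597))) (merge (node 597 (merge (leaf 0 561 596) (node 565 (merge (leaf 0 562 598) (node 533 (merge (leaf 2 529 532) (leaf 2 530 534))))))) (merge (node 533 (merge (leaf 2 529 532) (node 565 (merge (leaf 2 530 534) (node 598 (merge (leaf 0 562 597) (node 566 (merge (leaf 0 563 599) (node 594 (merge (leaf 1 561 593) (leaf 1 562 595))))))))))) (node 595 (merge (leaf 0 560 596) (node 594 (merge (leaf 0 559 559) (node 565 (merge (leaf 1 562 566) (leaf 1 561 593)))))))))))))))))))) (merge (node 592 (merge (node 625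 (merge (leaf 4 496 593) (node 497 (merge (leaf 6 464 465) (node 624 (merge (leaf 6 496 529) (leaf 4 528 657))))))) (merge (node 625 (merge (leaf 4 496 593) (node 624 (merge (leaf 4 528 657) (node 623 (merge (leaf 5 495 591) (leaf 5 527 655))))))) (merge (node 497 (merge (leaf 6 464 465) (node 624 (merge (leaf 6 496 529) (node 623 (merge (leaf 5 495 591) (leaf 5 527 655))))))) (node 593 (merge (leaf 4 496 625) (node 591 (merge (leaf 5 495 623) (node 590 (merge (leaf 2 557 589) (node 558 (merge (leaf 3 557 557) (node 594 (merge (leaf 0 558 559) (node 627 (merge (leaf 0 591 626) (node 595 (merge (leaf 3 560 596) (leaf 0 592 628))))))))))))))))))) (merge (node 592 (merge (node 625 (merge (leaf 4 496 593) (node 497 (merge (leaf 6 464 465) (node 624 (merge (leaf 6 496 529) (leaf 4 528 657))))))) (merge (node 625 (merge (leaf 4 496 593) (node 624 (merge (leaf 4 528 657) (node 656 (merge (leaf 6 528 529) (node 527 (merge (leaf 7 495 495) (leaf 7 527 559))))))))) (merge (node 497 (merge (leaf 6 464 465) (node 624 (merge (leaf 6 496 529) (node 657 (merge (leaf 4 528 625) (node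 656 (merge (leaf 4 560 689) (node 527 (merge (leaf 7 495 495) (leaf 7 527 559))))))))))) (merge (node 497 (merge (leaf 6 464 465) (node 624 (merge (leaf 6 496 529) (node 527 (merge (leaf 7 495 495) (node 656 (merge (leaf 7 527 559) (node 687 (merge (leaf 5 559 655) (node 688 (merge (leaf 6 560 593) (leaf 5 591 719))))))))))))) (merge (node 625 (merge (leaf 4 496 593) (node 624 (merge (leaf 4 528 657) (node 527 (merge (leaf 7 495 495) (node 559 (merge (leaf 7 527 656) (node 562 (merge (leaf 3 526 526) (leaf 3 527 563))))))))))) (node 593 (merge (leaf 4 496 625) (node 594 (merge (node 559 (merge (leaf 0 558 558) (node 595 (merge (leaf 0 559 562) (leaf 3 559 592))))) (merge (node 595 (merge (leaf 3 560 596) (node 563 (merge (leaf 2 560 564) (node 562 (merge (leaf 3 527 527) (leaf 2 559 591))))))) (node 497 (merge (leaf 6 464 465) (node 529 (merge (leaf 4 497 626) (node 498 (merge (leaf 6 465 466) (node 527 (merge (leaf 1 495 499) (leaf 2 494 526)))))))))))))))))))) (merge (node 527 (merge (node 526 (merge (leaf 0 525 525) (node 562 (merge (leaf 3 526 559) (leaf 3 527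 563))))) (merge (node 592 (merge (node 497 (merge (leaf 6 464 465) (node 526 (merge (leaf 2 493 525) (node 498 (merge (leaf 1 494 495) (leaf 1 495 499))))))) (node 625 (merge (leaf 4 496 593) (node 624 (merge (leaf 4 528 657) (node 623 (merge (leaf 5 495 591) (leaf 5 527 655))))))))) (node 591 (merge (node 623 (merge (leaf 6 495 559) (leaf 5 495 592))) (merge (node 559 (merge (leaf 6 495 623) (node 562 (merge (leaf 3 527 563) (leaf 1 558 590))))) (merge (node 592 (merge (leaf 5 495 623) (node 590 (merge (leaf 2 557 589) (node 593 (merge (leaf 2 558 562) (leaf 4 496 625))))))) (node 562 (merge (leaf 3 527 563) (node 559 (merge (leaf 1 558 590) (node 594 (merge (leaf 0 559 595) (node 593 (merge (leaf 0 558 558) (node 625 (merge (leaf 4 496 592) (leaf 7 528 657)))))))))))))))))) (node 559 (merge (node 558 (merge (node 529 (merge (leaf 2 526 530) (leaf 2 525 557))) (node 593 (merge (leaf 0 558 594) (node 625 (merge (leaf 4 496 592) (leaf 7 528 657))))))) (merge (node 593 (merge (node 625 (merge (leaf 7 496 529) (leaf 7 528 657))) (merge (node 558 (merge (leaf 0 558 594)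 (node 529 (merge (leaf 2 526 530) (leaf 2 525 557))))) (node 594 (merge (leaf 0 558 558) (node 595 (merge (leaf 0 559 562) (leaf 3 560 596)))))))) (merge (node 594 (merge (node 593 (merge (leaf 0 558 558) (node 595 (merge (leaf 0 559 562) (leaf 3 560 596))))) (merge (node 562 (merge (leaf 0 559 595) (node 527 (merge (leaf 3 526 526) (leaf 3 527 563))))) (node 558 (merge (leaf 0 558 593) (node 589 (merge (leaf 1 557 590) (node 557 (merge (leaf 1 556 588) (node 525 (merge (leaf 3 524 524) (leaf 3 525 526)))))))))))) (merge (node 558 (merge (node 529 (merge (leaf 2 526 530) (leaf 2 525 557))) (merge (node 589 (merge (leaf 1 557 590) (node 557 (merge (leaf 1 556 588) (node 525 (merge (leaf 3 524 524) (leaf 3 525 526))))))) (node 590 (merge (leaf 1 557 589) (node 526 (merge (leaf 3 525 525) (node 527 (merge (leaf 3 526 562) (node 622 (merge (leaf 6 494 495) (leaf 6 526 654)))))))))))) (node 592 (merge (node 497 (merge (leaf 6 464 465) (node 624 (merge (leaf 6 496 529) (node 656 (merge (leaf 7 527 527) (node 655 (merge (leaf 5 527 623) (leaf 5 559 687))))))))) (merge (node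 625 (merge (leaf 4 496 593) (node 624 (merge (leaf 4 528 657) (node 656 (merge (leaf 6 528 529) (node 655 (merge (leaf 5 527 623) (leaf 5 559 687))))))))) (merge (node 593 (merge (leaf 4 496 625) (node 594 (merge (leaf 3 559 595) (node 497 (merge (leaf 6 464 465) (node 529 (merge (leaf 4 497 626) (node 498 (merge (leaf 6 465 466) (node 527 (merge (leaf 1 495 499) (leaf 2 494 526))))))))))))) (node 625 (merge (leaf 4 496 593) (node 624 (merge (leaf 4 528 657) (node 527 (merge (leaf 7 495 495) (node 559 (merge (leaf 7 527 656) (node 562 (merge (leaf 3 526 526) (leaf 3 527 563))))))))))))))))))))))))))) nC_15 cC_15 10 (by decide +kernel)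
def nC_16 : ℕ := 0x100000001800000000000000000000000000000000000000000000000000000000000000000000000000000000000000000000000000000000000000000000000000000000000
def cC_16 : ℕ := 0x50000001f0000003f8000000f8000000f00000067000000ff0000007f0000003f00000001000000000000000000000000000000000000000000000000000000000000000000000000000000000000000000000000000
theorem lC_16 : S nC_16 cC_16 12 := S_of_chk [] trivial (node 559 (merge (node 526 (merge (node 525 (merge (leaf 0 524 524) (node 496 (merge (leaf 2 493 497) (node 591 (merge (leaf 5 463 464) (leaf 6 495 623))))))) (merge (node 525 (merge (leaf 0 524 524) (node 557 (merge (leaf 1 524 556) (node 558 (merge (leaf 1 525 529) (node 589 (merge (leaf 1 556 588) (node 621 (merge (leaf 6 493 494) (leaf 6 525 653))))))))))) (node 529 (merge (node 558 (merge (leaf 1 526 530) (leaf 1 525 557))) (merge (node 494 (merge (leaf 3 493 493) (node 495 (merge (leaf 3 494 530) (node 591 (merge (leaf 7 462 462) (leaf 7 494 623))))))) (node 494 (merge (leaf 3 493 493) (node 462 (merge (leaf 4 430 430) (node 591 (merge (leaf 4 462 558) (leaf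 7 494 623))))))))))))) (merge (node 591 (merge (node 623 (merge (leaf 6 495 496) (leaf 6 527 655))) (merge (node 623 (merge (leaf 6 527 655) (node 624 (merge (leaf 4 527 656) (node 622 (merge (leaf 5 526 654) (node 590 (merge (leaf 5 494 495) (node 589 (merge (leaf 0 588 588) (leaf 3 589 625))))))))))) (node 495 (merge (node 463 (merge (leaf 4 431 431) (node 464 (merge (leaf 6 431 432) (leaf 6 463 496))))) (merge (node 463 (merge (leaf 4 431 431) (node 462 (merge (leaf 7 430 430) (leaf 7 462 494))))) (node 494 (merge (leaf 7 462 462) (node 493 (merge (leaf 0 492 492) (node 529 (merge (leaf 0 493 496) (leaf 3 494 530))))))))))))) (merge (node 558 (merge (node 557 (merge (leaf 2 525 529) (leaf 2 524 556))) (merge (node 526 (merge (node 529 (merge (leaf 1 526 530) (node 494 (merge (leaf 3 493 493) (node 591 (merge (leaf 4 462 462) (leaf 7 494 623))))))) (merge (node 525 (merge (leaf 0 524 524) (node 496 (merge (leaf 2 493 497) (node 591 (merge (leaf 5 463 464) (leaf 6 495 623))))))) (node 525 (merge (leaf 0 524 524) (node 493 (merge (leaf 3 492 492) (node 529 (merge (leaf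 3 493 494) (node 530 (merge (leaf 1 526 558) (node 498 (merge (leaf 2 494 497) (leaf 2 495 499)))))))))))))) (node 526 (merge (node 557 (merge (leaf 2 524 556) (node 589 (merge (leaf 1 556 588) (node 494 (merge (leaf 5 461 462) (node 621 (merge (leaf 5 493 590) (leaf 6 525 653))))))))) (node 525 (merge (leaf 0 524 524) (node 496 (merge (leaf 2 493 497) (node 591 (merge (leaf 5 463 464) (leaf 6 495 623)))))))))))) (merge (node 495 (merge (node 463 (merge (leaf 4 431 431) (node 462 (merge (leaf 7 430 430) (node 591 (merge (leaf 7 462 494) (node 623 (merge (leaf 6 495 496) (leaf 6 527 655))))))))) (merge (node 463 (merge (leaf 4 431 431) (node 590 (merge (leaf 5 462 558) (node 591 (merge (leaf 5 494 622) (node 496 (merge (leaf 5 463 464) (leaf 6 495 623))))))))) (merge (node 591 (merge (node 623 (merge (leaf 6 527 655) (node 622 (merge (leaf 5 494 590) (leaf 5 526 654))))) (merge (node 623 (merge (leaf 6 527 655) (node 494 (merge (leaf 7 462 462) (leaf 7 494 526))))) (node 496 (merge (leaf 5 463 464) (node 590 (merge (leaf 5 494 622) (node 494 (merge (leaf 7 462 462)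 (node 493 (merge (leaf 0 492 492) (node 525 (merge (leaf 1 492 524) (node 526 (merge (leaf 1 493 497) (node 461 (merge (leaf 3 460 460) (leaf 7 461 558)))))))))))))))))) (node 463 (merge (leaf 4 431 431) (node 558 (merge (leaf 5 462 590) (node 557 (merge (leaf 2 524 556) (node 589 (merge (leaf 1 556 588) (node 464 (merge (leaf 6 431 432) (node 462 (merge (leaf 7 430 430) (node 494 (merge (leaf 5 461 526) (node 493 (merge (leaf 1 461 465) (leaf 0 492 492))))))))))))))))))))) (merge (node 526 (merge (node 525 (merge (leaf 0 524 524) (node 557 (merge (leaf 1 524 556) (node 558 (merge (leaf 1 525 529) (node 589 (merge (leaf 1 556 588) (node 621 (merge (leaf 6 493 494) (leaf 6 525 653))))))))))) (merge (node 525 (merge (leaf 0 524 524) (node 496 (merge (leaf 2 493 497) (node 493 (merge (leaf 3 492 492) (node 464 (merge (leaf 5 431 432) (node 465 (merge (leaf 6 432 433) (node 494 (merge (leaf 2 461 495) (node 463 (merge (leaf 7 431 431) (leaf 1 461 462))))))))))))))) (merge (node 525 (merge (leaf 0 524 524) (node 557 (merge (leaf 1 524 556) (node 558 (merge (leaf 1 525 529)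 (node 493 (merge (leaf 3 492 492) (node 461 (merge (leaf 4 429 429) (leaf 4 461 590))))))))))) (node 529 (merge (node 558 (merge (leaf 1 526 530) (leaf 1 525 557))) (merge (node 498 (merge (leaf 2 494 497) (node 530 (merge (leaf 2 495 499) (node 494 (merge (leaf 3 493 493) (leaf 3 494 495))))))) (node 558 (merge (leaf 1 525 557) (node 494 (merge (leaf 3 493 493) (node 462 (merge (leaf 4 430 430) (node 463 (merge (leaf 6 430 431) (node 590 (merge (leaf 5 462 495) (node 621 (merge (leaf 5 493 589) (node 622 (merge (leaf 5 525 653) (leaf 6 526 654)))))))))))))))))))))) (merge (node 526 (merge (node 525 (merge (leaf 0 524 524) (node 496 (merge (leaf 2 493 497) (node 591 (merge (leaf 5 463 464) (leaf 6 495 623))))))) (merge (node 525 (merge (leaf 0 524 524) (node 557 (merge (leaf 1 524 556) (node 558 (merge (leaf 1 525 529) (node 589 (merge (leaf 1 556 588) (node 621 (merge (leaf 6 493 494) (leaf 6 525 653))))))))))) (node 558 (merge (node 557 (merge (leaf 1 525 529) (leaf 2 524 556))) (merge (node 557 (merge (leaf 2 524 556) (node 589 (merge (leaf 1 556 588) (node 494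 (merge (leaf 5 461 462) (node 621 (merge (leaf 5 493 590) (leaf 6 525 653))))))))) (node 494 (merge (node 591 (merge (leaf 4 462 462) (leaf 7 494 623))) (merge (node 462 (merge (leaf 4 430 430) (node 463 (merge (leaf 6 430 431) (node 590 (merge (leaf 5 462 495) (node 621 (merge (leaf 5 493 589) (node 622 (merge (leaf 5 525 653) (leaf 6 526 654))))))))))) (node 529 (merge (leaf 1 526 530) (node 497 (merge (leaf 2 494 498) (node 465 (merge (leaf 5 432 433) (node 591 (merge (leaf 7 494 623) (node 496 (merge (leaf 5 463 464) (node 495 (merge (leaf 2 462 466) (node 590 (merge (leaf 5 462 463) (leaf 5 494 622)))))))))))))))))))))))) (merge (node 526 (merge (node 525 (merge (leaf 0 524 524) (node 496 (merge (leaf 2 493 497) (node 591 (merge (leaf 5 463 464) (leaf 6 495 623))))))) (merge (node 525 (merge (leaf 0 524 524) (node 493 (merge (leaf 3 492 492) (node 529 (merge (leaf 3 493 494) (node 558 (merge (leaf 1 526 530) (leaf 2 525 557))))))))) (node 529 (merge (node 558 (merge (leaf 1 526 530) (leaf 1 525 557))) (merge (node 498 (merge (leaf 2 494 497) (node 530 (merge (leaf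 2 495 499) (node 494 (merge (leaf 3 493 493) (leaf 3 494 495))))))) (node 558 (merge (leaf 1 525 557) (node 497 (merge (leaf 2 494 498) (node 494 (merge (leaf 3 493 493) (node 465 (merge (leaf 5 432 433) (node 591 (merge (leaf 7 494 623) (node 496 (merge (leaf 5 463 464) (node 495 (merge (leaf 2 462 466) (node 590 (merge (leaf 5 462 463) (leaf 5 494 622))))))))))))))))))))))) (merge (node 526 (merge (node 525 (merge (leaf 0 524 524) (node 557 (merge (leaf 1 524 556) (node 558 (merge (leaf 1 525 529) (node 589 (merge (leaf 1 556 588) (node 621 (merge (leaf 6 493 494) (leaf 6 525 653))))))))))) (merge (node 529 (merge (node 558 (merge (leaf 1 526 530) (leaf 1 525 557))) (merge (node 494 (merge (leaf 3 493 493) (node 495 (merge (leaf 3 494 530) (node 591 (merge (leaf 7 462 462) (leaf 7 494 623))))))) (node 494 (merge (leaf 3 493 493) (node 462 (merge (leaf 4 430 430) (node 591 (merge (leaf 4 462 558) (leaf 7 494 623)))))))))) (merge (node 525 (merge (leaf 0 524 524) (node 557 (merge (leaf 1 524 556) (node 493 (merge (leaf 3 492 492) (node 494 (merge (leaf 3 493 529) (node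 462 (merge (leaf 4 430 430) (leaf 6 461 589))))))))))) (merge (node 525 (merge (leaf 0 524 524) (node 557 (merge (leaf 1 524 556) (node 558 (merge (leaf 1 525 529) (node 493 (merge (leaf 3 492 492) (node 461 (merge (leaf 4 429 429) (leaf 4 461 590))))))))))) (merge (node 525 (merge (leaf 0 524 524) (node 493 (merge (leaf 3 492 492) (node 529 (merge (leaf 3 493 494) (node 530 (merge (leaf 1 526 558) (node 498 (merge (leaf 2 494 497) (leaf 2 495 499))))))))))) (node 462 (merge (node 494 (merge (leaf 4 430 430) (node 591 (merge (leaf 7 462 495) (leaf 4 462 558))))) (merge (node 525 (merge (leaf 0 524 524) (node 557 (merge (leaf 1 524 556) (node 493 (merge (leaf 3 492 492) (node 430 (merge (leaf 6 429 461) (leaf 4 430 494))))))))) (merge (node 525 (merge (leaf 0 524 524) (node 557 (merge (leaf 1 524 556) (node 493 (merge (leaf 3 492 492) (node 589 (merge (leaf 6 461 494) (node 588 (merge (leaf 1 556 558) (leaf 5 492 620))))))))))) (node 525 (merge (leaf 0 524 524) (node 557 (merge (leaf 1 524 556) (node 493 (merge (leaf 3 492 492) (node 461 (merge (leaf 6 429 430) (node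 429 (merge (leaf 4 429 558) (node 428 (merge (leaf 7 396 396) (leaf 7 428 460))))))))))))))))))))))) (node 525 (merge (node 557 (merge (node 526 (merge (leaf 0 524 524) (leaf 1 524 556))) (merge (node 558 (merge (leaf 3 524 524) (leaf 2 524 556))) (merge (node 524 (merge (leaf 0 524 526) (leaf 3 524 558))) (node 556 (merge (leaf 1 524 526) (leaf 2 524 558))))))) (merge (node 526 (merge (leaf 0 524 524) (node 496 (merge (leaf 2 493 497) (node 464 (merge (leaf 5 431 432) (leaf 5 463 591))))))) (merge (node 496 (merge (node 591 (merge (leaf 5 463 464) (leaf 6 495 623))) (merge (node 526 (merge (leaf 2 493 497) (node 557 (merge (leaf 1 524 556) (node 558 (merge (leaf 1 525 529) (node 589 (merge (leaf 1 556 588) (node 493 (merge (leaf 3 492 492) (node 622 (merge (leaf 4 493 590) (node 621 (merge (leaf 6 525 653) (leaf 4 525 654))))))))))))))) (node 526 (merge (leaf 2 493 497) (node 557 (merge (leaf 1 524 556) (node 558 (merge (leaf 1 525 529) (node 589 (merge (leaf 1 556 588) (node 493 (merge (leaf 3 492 492) (node 622 (merge (leaf 4 493 590) (node 621 (merge (leaf 6 525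 653) (leaf 4 525 654)))))))))))))))))) (node 589 (merge (node 557 (merge (node 558 (merge (leaf 3 524 524) (leaf 2 525 529))) (merge (node 558 (merge (leaf 2 525 529) (leaf 2 524 556))) (node 621 (merge (node 654 (merge (leaf 4 525 622) (node 653 (merge (leaf 4 557 686) (node 524 (merge (leaf 7 492 492) (leaf 7 524 556))))))) (merge (node 652 (merge (leaf 5 524 620) (node 653 (merge (leaf 5 556 684) (node 524 (merge (leaf 7 492 492) (leaf 7 524 556))))))) (node 622 (merge (leaf 4 525 654) (node 590 (merge (leaf 4 493 493) (node 591 (merge (leaf 5 494 495) (node 620 (merge (leaf 2 587 619) (leaf 5 524 652))))))))))))))) (merge (node 557 (merge (node 558 (merge (leaf 3 524 524) (leaf 2 525 529))) (merge (node 558 (merge (leaf 2 524 556) (leaf 1 556 588))) (node 621 (merge (node 654 (merge (leaf 4 525 622) (node 653 (merge (leaf 4 557 686) (node 524 (merge (leaf 7 492 492) (leaf 7 524 556))))))) (merge (node 652 (merge (leaf 5 524 620) (node 653 (merge (leaf 5 556 684) (node 524 (merge (leaf 7 492 492) (leaf 7 524 556))))))) (node 622 (merge (leaf 4 525 654) (node 620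 (merge (leaf 5 524 652) (node 588 (merge (leaf 5 492 493) (node 623 (merge (leaf 3 587 587) (leaf 3 588 624))))))))))))))) (merge (node 591 (merge (node 623 (merge (leaf 6 495 496) (leaf 6 527 655))) (merge (node 590 (merge (leaf 2 556 588) (node 464 (merge (leaf 5 463 496) (node 495 (merge (leaf 5 494 622) (node 463 (merge (leaf 4 431 431) (leaf 6 431 432))))))))) (node 588 (merge (leaf 2 556 590) (node 623 (merge (leaf 6 527 655) (node 624 (merge (leaf 4 527 656) (node 622 (merge (leaf 3 588 621) (leaf 5 526 654)))))))))))) (node 591 (merge (node 623 (merge (leaf 6 495 496) (leaf 6 527 655))) (node 588 (merge (leaf 2 556 590) (node 557 (merge (leaf 1 556 558) (node 493 (merge (leaf 5 492 620) (node 461 (merge (leaf 5 460 556) (node 460 (merge (leaf 7 428 428) (leaf 7 460 492)))))))))))))))))))))))))))))) nC_16 cC_16 12 (by decide +kernel)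
def nC_17 : ℕ := 0x100000001000000000000000000000000000000000000000000000000000000000000000000000000000000000000000000000000000000000000000000000000000000000000
def cC_17 : ℕ := 0x50000007f0000007f800001ef800001efc000006f800001ffc00001ff000001ff8000007f000000480000000000000000000000000000000000000000000000000000000000000000000000000000000000000000000
theorem lC_17 : S nC_17 cC_17 13 := S_of_chk [(nC_16, cC_16, 12)] ⟨lC_16, trivial⟩ (node 527 (merge (node 526 (merge (node 561 (merge (leaf 0 525 525) (node 562 (merge (leaf 0 526 529) (leaf 3 527 563))))) (merge (node 525 (merge (leaf 0 525 561) (node 524 (merge (leaf 0 524 559) (node 492 (merge (leaf 3 491 491) (leaf 3 492 493))))))) (merge (node 525 (merge (node 524 (merge (leaf 0 524 559) (node 492 (merge (leaf 3 491 491) (leaf 3 492 493))))) (merge (node 524 (merge (leaf 0 524 559) (node 556 (merge (leaf 1 523 555) (leaf 1 524 557))))) (node 557 (merge (leaf 1 524 556) (node 558 (merge (leaf 1 525 529) (node 493 (merge (leaf 3 492 492) (node 461 (merge (leaf 4 429 429) (leaf 4 461 590)))))))))))) (node 529 (merge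 (node 498 (merge (leaf 2 494 497) (node 530 (merge (leaf 2 495 499) (node 558 (merge (leaf 1 525 557) (leaf 1 526 559))))))) (merge (node 562 (merge (leaf 0 526 561) (node 530 (merge (leaf 0 527 563) (node 558 (merge (leaf 1 525 557) (leaf 1 526 559))))))) (node 561 (merge (leaf 0 526 562) (node 497 (merge (leaf 2 494 498) (node 465 (merge (leaf 5 432 433) (node 464 (merge (leaf 7 432 432) (node 593 (merge (leaf 4 464 496) (node 625 (merge (leaf 7 528 657) (node 626 (merge (leaf 4 497 594) (leaf 4 529 658)))))))))))))))))))))) (merge (node 526 (merge (node 561 (merge (leaf 0 525 525) (node 562 (merge (leaf 0 526 529) (leaf 3 527 563))))) (merge (node 525 (merge (leaf 0 525 561) (node 524 (merge (leaf 0 524 559) (node 492 (merge (leaf 3 491 491) (leaf 3 492 493))))))) (merge (node 525 (merge (node 524 (merge (leaf 0 524 559) (node 492 (merge (leaf 3 491 491) (leaf 3 492 493))))) (merge (node 524 (merge (leaf 0 524 559) (node 556 (merge (leaf 1 523 555) (leaf 1 524 557))))) (node 557 (merge (leaf 1 524 556) (node 493 (merge (leaf 3 492 492) (node 494 (merge (leaf 3 493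 529) (node 589 (merge (leaf 6 461 462) (leaf 6 493 621)))))))))))) (node 529 (merge (node 562 (merge (leaf 0 526 561) (node 530 (merge (leaf 0 527 563) (node 494 (merge (leaf 3 493 493) (leaf 3 494 495))))))) (merge (node 562 (merge (leaf 0 526 561) (node 530 (merge (leaf 0 527 563) (node 558 (merge (leaf 1 525 557) (leaf 1 526 559))))))) (merge (node 558 (merge (leaf 1 525 557) (node 530 (merge (leaf 1 526 559) (node 494 (merge (leaf 3 493 493) (leaf 3 494 495))))))) (node 561 (merge (leaf 0 526 562) (node 558 (merge (leaf 1 525 557) (node 497 (merge (leaf 2 494 498) (node 494 (merge (leaf 3 493 493) (node 465 (merge (leaf 5 432 433) (node 466 (merge (leaf 6 433 434) (node 495 (merge (leaf 2 462 496) (node 590 (merge (leaf 6 462 463) (leaf 6 494 622))))))))))))))))))))))))) (merge (node 526 (merge (node 561 (merge (leaf 0 525 525) (node 562 (merge (leaf 0 526 529) (leaf 3 527 563))))) (merge (node 525 (merge (leaf 0 525 561) (node 524 (merge (leaf 0 524 559) (node 492 (merge (leaf 3 491 491) (leaf 3 492 493))))))) (merge (node 529 (merge (node 562 (merge (leaf 0 526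 561) (node 530 (merge (leaf 0 527 563) (node 494 (merge (leaf 3 493 493) (leaf 3 494 495))))))) (merge (node 498 (merge (leaf 2 494 497) (node 530 (merge (leaf 2 495 499) (node 494 (merge (leaf 3 493 493) (leaf 3 494 495))))))) (node 561 (merge (leaf 0 526 562) (node 497 (merge (leaf 2 494 498) (node 465 (merge (leaf 5 432 433) (node 464 (merge (leaf 7 432 432) (node 593 (merge (leaf 4 464 496) (node 625 (merge (leaf 7 528 657) (node 626 (merge (leaf 4 497 594) (leaf 4 529 658)))))))))))))))))) (node 559 (merge (node 525 (merge (leaf 0 524 524) (node 496 (merge (leaf 2 493 497) (node 464 (merge (leaf 5 431 432) (leaf 5 463 591))))))) (merge (node 525 (merge (leaf 0 524 524) (node 493 (merge (leaf 3 492 492) (node 529 (merge (leaf 3 493 494) (node 530 (merge (leaf 1 526 558) (node 498 (merge (leaf 2 494 497) (leaf 2 495 499))))))))))) (merge (node 529 (merge (node 494 (merge (leaf 3 493 493) (node 495 (merge (leaf 3 494 530) (node 591 (merge (leaf 7 462 462) (leaf 7 494 623))))))) (merge (node 494 (merge (leaf 3 493 493) (node 462 (merge (leaf 4 430 430) (node 591 (merge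 (leaf 4 462 558) (leaf 7 494 623))))))) (node 530 (merge (leaf 1 526 558) (node 562 (merge (leaf 0 527 563) (node 498 (merge (leaf 2 495 499) (node 497 (merge (leaf 2 494 526) (node 465 (merge (leaf 4 433 433) (leaf 7 465 594)))))))))))))) (node 525 (merge (leaf 0 524 524) (node 493 (merge (leaf 3 492 492) (node 494 (merge (leaf 3 493 529) (node 591 (merge (leaf 7 494 623) (node 462 (merge (leaf 7 462 495) (leaf 4 462 558))))))))))))))))))) (merge (node 559 (merge (node 591 (merge (node 623 (merge (leaf 6 495 496) (leaf 6 527 655))) (node 590 (merge (node 589 (merge (leaf 2 556 588) (node 561 (merge (leaf 1 557 558) (leaf 1 558 562))))) (node 495 (merge (leaf 5 494 622) (node 463 (merge (leaf 4 431 431) (node 462 (merge (leaf 7 430 430) (leaf 7 462 494))))))))))) (merge (node 561 (merge (node 562 (merge (leaf 3 526 526) (leaf 3 527 563))) (merge (node 558 (merge (node 557 (merge (leaf 2 524 556) (node 589 (merge (leaf 1 556 588) (leaf 1 557 590))))) (merge (node 525 (merge (leaf 0 525 526) (node 557 (merge (leaf 3 524 524) (leaf 2 524 556))))) (node 526 (merge (leaf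 0 525 525) (node 590 (merge (leaf 1 557 589) (node 622 (merge (leaf 6 494 495) (leaf 6 526 654)))))))))) (node 562 (merge (leaf 3 527 563) (node 594 (merge (leaf 0 559 595) (node 558 (merge (leaf 0 558 593) (node 589 (merge (leaf 1 557 590) (node 557 (merge (leaf 2 524 556) (leaf 1 556 588)))))))))))))) (merge (node 591 (merge (node 623 (merge (leaf 6 495 496) (leaf 6 527 655))) (merge (node 623 (merge (leaf 6 527 655) (node 526 (merge (leaf 7 494 494) (node 525 (merge (leaf 0 524 524) (leaf 0 525 561))))))) (node 495 (merge (node 463 (merge (leaf 4 431 431) (node 464 (merge (leaf 6 431 432) (leaf 6 463 496))))) (merge (node 463 (merge (leaf 4 431 431) (node 462 (merge (leaf 7 430 430) (leaf 7 462 494))))) (node 496 (merge (leaf 5 463 464) (node 494 (merge (leaf 7 462 462) (node 493 (merge (leaf 0 492 492) (node 525 (merge (leaf 1 492 524) (node 526 (merge (leaf 1 493 497) (leaf 0 525 561))))))))))))))))) (merge (node 495 (merge (node 463 (merge (leaf 4 431 431) (node 462 (merge (leaf 7 430 430) (node 591 (merge (leaf 7 462 494) (node 623 (merge (leaf 6 495 496) (leaf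 6 527 655))))))))) (merge (node 463 (merge (leaf 4 431 431) (node 590 (merge (leaf 5 462 558) (node 591 (merge (leaf 5 494 622) (node 496 (merge (leaf 5 463 464) (leaf 6 495 623))))))))) (merge (node 591 (merge (node 623 (merge (leaf 6 527 655) (node 622 (merge (leaf 5 494 590) (leaf 5 526 654))))) (merge (node 623 (merge (leaf 6 527 655) (node 494 (merge (leaf 7 462 462) (leaf 7 494 526))))) (node 496 (merge (leaf 5 463 464) (node 590 (merge (leaf 5 494 622) (node 494 (merge (leaf 7 462 462) (node 493 (merge (leaf 0 492 492) (node 525 (merge (leaf 1 492 524) (node 526 (merge (leaf 1 493 497) (node 461 (merge (leaf 3 460 460) (leaf 7 461 558)))))))))))))))))) (node 463 (merge (leaf 4 431 431) (node 558 (merge (leaf 5 462 590) (node 557 (merge (leaf 2 524 556) (node 589 (merge (leaf 1 556 588) (node 464 (merge (leaf 6 431 432) (node 462 (merge (leaf 7 430 430) (node 494 (merge (leaf 5 461 526) (node 493 (merge (leaf 1 461 465) (leaf 0 492 492))))))))))))))))))))) (node 561 (merge (node 562 (merge (leaf 3 526 526) (leaf 3 527 563))) (merge (node 562 (merge (leaf 3 527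 563) (node 591 (merge (leaf 1 558 590) (node 623 (merge (leaf 6 495 496) (leaf 6 527 655))))))) (node 558 (merge (node 557 (merge (leaf 2 524 556) (node 589 (merge (leaf 1 556 588) (leaf 1 557 590))))) (merge (node 525 (merge (leaf 0 525 526) (node 557 (merge (leaf 3 524 524) (leaf 2 524 556))))) (node 526 (merge (leaf 0 525 525) (node 590 (merge (leaf 1 557 589) (node 622 (merge (leaf 6 526 654) (node 623 (merge (leaf 4 526 655) (node 591 (merge (leaf 4 494 494) (leaf 6 495 496)))))))))))))))))))))) (merge (node 526 (merge (node 561 (merge (leaf 0 525 525) (node 562 (merge (leaf 0 526 529) (leaf 3 527 563))))) (merge (node 525 (merge (leaf 0 525 561) (node 524 (merge (leaf 0 524 559) (node 496 (merge (leaf 2 492 495) (leaf 2 493 497))))))) (merge (node 529 (merge (node 498 (merge (leaf 2 494 497) (node 530 (merge (leaf 2 495 499) (node 558 (merge (leaf 1 525 557) (leaf 1 526 559))))))) (merge (node 562 (merge (leaf 0 526 561) (node 530 (merge (leaf 0 527 563) (node 558 (merge (leaf 1 525 557) (leaf 1 526 559))))))) (node 561 (merge (leaf 0 526 562) (node 497 (merge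 (leaf 2 494 498) (node 465 (merge (leaf 5 432 433) (node 464 (merge (leaf 7 432 432) (node 593 (merge (leaf 4 464 496) (node 625 (merge (leaf 7 528 657) (node 626 (merge (leaf 4 497 594) (leaf 4 529 658)))))))))))))))))) (node 559 (merge (node 525 (merge (leaf 0 524 524) (node 496 (merge (leaf 2 493 497) (node 591 (merge (leaf 5 463 464) (leaf 6 495 623))))))) (merge (node 525 (merge (leaf 0 524 524) (node 557 (merge (leaf 1 524 556) (node 558 (merge (leaf 1 525 529) (node 589 (merge (leaf 1 556 588) (node 621 (merge (leaf 6 493 494) (leaf 6 525 653))))))))))) (node 558 (merge (node 557 (merge (leaf 1 525 529) (leaf 2 524 556))) (merge (node 557 (merge (leaf 2 524 556) (node 589 (merge (leaf 1 556 588) (node 494 (merge (leaf 5 461 462) (node 621 (merge (leaf 5 493 590) (leaf 6 525 653))))))))) (node 494 (merge (node 591 (merge (leaf 4 462 462) (leaf 7 494 623))) (merge (node 462 (merge (leaf 4 430 430) (node 463 (merge (leaf 6 430 431) (node 590 (merge (leaf 5 462 495) (node 621 (merge (leaf 5 493 589) (node 622 (merge (leaf 5 525 653) (leaf 6 526 654))))))))))) (node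 529 (merge (leaf 1 526 530) (node 497 (merge (leaf 2 494 498) (node 465 (merge (leaf 5 432 433) (node 591 (merge (leaf 7 494 623) (node 496 (merge (leaf 5 463 464) (node 495 (merge (leaf 2 462 466) (node 590 (merge (leaf 5 462 463) (leaf 5 494 622)))))))))))))))))))))))))))) (merge (hyp 0) (merge (node 526 (merge (node 561 (merge (leaf 0 525 525) (node 562 (merge (leaf 0 526 529) (leaf 3 527 563))))) (merge (node 525 (merge (leaf 0 525 561) (node 496 (merge (leaf 2 493 497) (node 524 (merge (leaf 2 492 495) (node 492 (merge (leaf 3 491 491) (leaf 3 492 493))))))))) (merge (node 529 (merge (node 562 (merge (leaf 0 526 561) (node 530 (merge (leaf 0 527 563) (node 494 (merge (leaf 3 493 493) (leaf 3 494 495))))))) (merge (node 498 (merge (leaf 2 494 497) (node 530 (merge (leaf 2 495 499) (node 494 (merge (leaf 3 493 493) (leaf 3 494 495))))))) (node 561 (merge (leaf 0 526 562) (node 497 (merge (leaf 2 494 498) (node 465 (merge (leaf 5 432 433) (node 464 (merge (leaf 7 432 432) (node 593 (merge (leaf 4 464 496) (node 625 (merge (leaf 7 528 657) (node 626 (merge (leaf 4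 497 594) (leaf 4 529 658)))))))))))))))))) (node 558 (merge (node 557 (merge (leaf 1 525 529) (node 556 (merge (leaf 1 524 525) (leaf 2 523 555))))) (merge (node 529 (merge (leaf 1 525 557) (node 498 (merge (leaf 2 494 497) (node 530 (merge (leaf 2 495 499) (node 494 (merge (leaf 3 493 493) (leaf 3 494 495))))))))) (merge (node 525 (merge (node 496 (merge (leaf 2 493 497) (node 524 (merge (leaf 2 492 495) (node 556 (merge (leaf 1 523 555) (leaf 1 524 557))))))) (node 493 (merge (leaf 3 492 492) (node 461 (merge (leaf 4 429 429) (node 590 (merge (leaf 7 461 494) (leaf 7 493 622))))))))) (node 525 (merge (node 493 (merge (leaf 3 492 492) (node 461 (merge (leaf 4 429 429) (node 494 (merge (leaf 3 493 529) (leaf 7 461 590))))))) (merge (node 496 (merge (leaf 2 493 497) (node 524 (merge (leaf 2 492 495) (node 555 (merge (leaf 1 523 556) (node 523 (merge (leaf 1 522 554) (node 491 (merge (leaf 3 490 490) (leaf 3 491 492))))))))))) (node 496 (merge (leaf 2 493 497) (node 495 (merge (leaf 2 492 524) (node 590 (merge (leaf 6 494 622) (node 494 (merge (leaf 6 462 463) (node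 493 (merge (leaf 7 461 461) (leaf 0 493 529)))))))))))))))))))))) (merge (node 496 (merge (node 561 (merge (node 464 (merge (leaf 4 464 593) (node 559 (merge (leaf 5 431 432) (leaf 5 463 591))))) (merge (node 526 (merge (leaf 0 525 525) (node 562 (merge (leaf 0 526 529) (leaf 3 526 559))))) (node 593 (merge (leaf 4 464 464) (node 625 (merge (leaf 7 496 529) (leaf 7 528 657)))))))) (merge (node 464 (merge (node 433 (merge (leaf 6 432 465) (node 432 (merge (leaf 6 400 401) (node 431 (merge (leaf 7 399 399) (leaf 7 431 463))))))) (node 561 (merge (leaf 4 464 593) (node 562 (merge (leaf 3 527 563) (node 559 (merge (leaf 3 526 526) (leaf 5 463 591))))))))) (merge (node 526 (merge (node 497 (merge (leaf 2 493 525) (node 498 (merge (leaf 1 494 495) (leaf 1 495 499))))) (node 464 (merge (node 433 (merge (leaf 6 432 465) (node 432 (merge (leaf 6 400 401) (node 431 (merge (leaf 7 399 399) (leaf 7 431 463))))))) (merge (node 561 (merge (leaf 4 464 593) (node 562 (merge (leaf 0 526 529) (leaf 3 527 563))))) (node 561 (merge (leaf 4 464 593) (node 562 (merge (leaf 0 526 529) (leaf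 3 527 563)))))))))) (merge (node 464 (merge (node 559 (merge (leaf 5 431 432) (leaf 5 463 591))) (merge (node 561 (merge (leaf 4 464 593) (node 432 (merge (leaf 4 432 529) (node 433 (merge (leaf 6 400 401) (leaf 6 432 465))))))) (node 561 (merge (leaf 4 464 593) (node 562 (merge (leaf 3 527 563) (node 559 (merge (leaf 5 463 591) (node 594 (merge (leaf 0 559 595) (node 465 (merge (leaf 6 432 433) (node 497 (merge (leaf 4 465 529) (node 498 (merge (leaf 1 495 499) (leaf 7 465 530)))))))))))))))))) (merge (node 526 (merge (node 525 (merge (leaf 2 493 497) (leaf 0 525 561))) (merge (node 525 (merge (leaf 2 493 497) (node 524 (merge (leaf 2 492 495) (leaf 0 524 559))))) (merge (node 525 (merge (leaf 0 525 561) (node 524 (merge (leaf 2 492 495) (leaf 0 524 559))))) (node 529 (merge (node 562 (merge (leaf 0 526 561) (node 530 (merge (leaf 0 527 563) (node 494 (merge (leaf 3 493 493) (leaf 3 494 495))))))) (merge (node 562 (merge (leaf 0 526 561) (node 530 (merge (leaf 0 527 563) (node 498 (merge (leaf 2 494 497) (leaf 2 495 499))))))) (node 497 (merge (leaf 2 494 498) (node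 494 (merge (leaf 3 493 493) (node 465 (merge (leaf 5 432 433) (node 495 (merge (leaf 2 462 466) (node 462 (merge (leaf 3 461 461) (node 430 (merge (leaf 4 398 398) (leaf 4 430 559)))))))))))))))))))) (node 526 (merge (node 497 (merge (leaf 2 493 525) (node 498 (merge (leaf 1 494 495) (leaf 1 495 499))))) (merge (node 525 (merge (leaf 2 493 497) (node 524 (merge (leaf 0 524 559) (node 556 (merge (leaf 1 523 555) (leaf 1 524 557))))))) (merge (node 525 (merge (node 524 (merge (leaf 2 492 495) (leaf 0 524 559))) (node 557 (merge (leaf 1 524 556) (node 493 (merge (leaf 3 492 492) (node 494 (merge (leaf 3 493 529) (node 589 (merge (leaf 6 461 462) (leaf 6 493 621))))))))))) (node 497 (merge (node 498 (merge (leaf 1 495 499) (leaf 2 494 529))) (node 464 (merge (node 559 (merge (leaf 5 431 432) (leaf 5 463 591))) (merge (node 559 (merge (leaf 5 431 432) (leaf 5 463 591))) (node 465 (merge (leaf 6 432 433) (node 463 (merge (leaf 7 431 431) (node 462 (merge (leaf 0 461 461) (node 494 (merge (leaf 1 461 493) (node 495 (merge (leaf 1 462 466) (node 430 (merge (leaf 4 398 398)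 (leaf 3 429 429)))))))))))))))))))))))))))) (merge (node 526 (merge (node 561 (merge (leaf 0 525 525) (node 562 (merge (leaf 0 526 529) (leaf 3 527 563))))) (merge (node 525 (merge (leaf 0 525 561) (node 524 (merge (leaf 0 524 559) (node 492 (merge (leaf 3 491 491) (leaf 3 492 493))))))) (merge (node 525 (merge (node 524 (merge (leaf 0 524 559) (node 492 (merge (leaf 3 491 491) (leaf 3 492 493))))) (merge (node 524 (merge (leaf 0 524 559) (node 556 (merge (leaf 1 523 555) (leaf 1 524 557))))) (node 557 (merge (leaf 1 524 556) (node 493 (merge (leaf 3 492 492) (node 494 (merge (leaf 3 493 529) (node 589 (merge (leaf 6 461 462) (leaf 6 493 621)))))))))))) (node 494 (merge (node 529 (merge (leaf 3 493 493) (node 562 (merge (leaf 0 526 561) (node 530 (merge (leaf 3 494 495) (leaf 0 527 563))))))) (merge (node 529 (merge (leaf 3 493 493) (node 562 (merge (leaf 0 526 561) (node 530 (merge (leaf 0 527 563) (node 558 (merge (leaf 1 525 557) (leaf 1 526 559))))))))) (merge (node 558 (merge (node 529 (merge (leaf 1 525 557) (node 530 (merge (leaf 3 494 495) (leaf 1 526 559)))))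 (merge (node 557 (merge (leaf 1 525 529) (node 462 (merge (leaf 5 461 589) (node 431 (merge (leaf 6 430 463) (node 430 (merge (leaf 6 398 399) (node 429 (merge (leaf 7 397 397) (leaf 7 429 461))))))))))) (node 463 (merge (node 431 (merge (leaf 6 430 462) (leaf 4 431 495))) (merge (node 462 (merge (leaf 6 430 431) (node 559 (merge (leaf 4 430 430) (leaf 4 462 591))))) (node 590 (merge (leaf 6 462 495) (node 623 (merge (leaf 4 494 591) (node 622 (merge (leaf 4 526 655) (node 621 (merge (leaf 5 493 589) (leaf 5 525 653))))))))))))))) (node 462 (merge (node 430 (merge (leaf 4 430 559) (node 431 (merge (leaf 6 398 399) (node 558 (merge (leaf 6 430 463) (node 429 (merge (leaf 7 397 397) (leaf 7 429 461))))))))) (merge (node 430 (merge (leaf 4 430 559) (node 495 (merge (leaf 4 398 398) (node 429 (merge (leaf 7 397 397) (node 558 (merge (leaf 7 429 461) (node 590 (merge (leaf 6 462 463) (leaf 6 494 622))))))))))) (merge (node 430 (merge (leaf 4 430 559) (node 495 (merge (leaf 4 398 398) (node 493 (merge (leaf 0 492 492) (node 431 (merge (leaf 6 398 399) (node 558 (merge (leaf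 5 430 463) (node 590 (merge (leaf 7 461 461) (leaf 6 494 622))))))))))))) (merge (node 430 (merge (leaf 4 430 559) (node 398 (merge (leaf 4 398 495) (node 399 (merge (leaf 6 366 367) (leaf 6 398 431))))))) (merge (node 558 (merge (node 589 (merge (leaf 5 461 557) (node 590 (merge (leaf 5 493 621) (node 461 (merge (leaf 7 429 429) (leaf 7 461 493))))))) (merge (node 463 (merge (leaf 6 430 431) (node 590 (merge (leaf 6 462 495) (node 589 (merge (leaf 5 461 557) (leaf 5 493 621))))))) (node 431 (merge (leaf 6 430 463) (node 430 (merge (leaf 6 398 399) (node 429 (merge (leaf 7 397 397) (leaf 7 429 461)))))))))) (merge (node 559 (merge (leaf 4 430 430) (node 591 (merge (leaf 7 462 495) (leaf 4 462 558))))) (merge (node 558 (merge (node 463 (merge (leaf 6 430 431) (node 590 (merge (leaf 6 462 495) (node 589 (merge (leaf 5 461 557) (leaf 5 493 621))))))) (merge (node 557 (merge (leaf 5 461 589) (node 556 (merge (leaf 2 523 555) (leaf 2 524 559))))) (node 461 (merge (leaf 7 429 429) (node 590 (merge (leaf 7 461 493) (node 623 (merge (leaf 4 494 591) (node 622 (merge (leaf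 6 494 495) (leaf 4 526 655)))))))))))) (node 430 (merge (leaf 4 430 559) (node 495 (merge (leaf 4 398 398) (node 431 (merge (leaf 6 398 399) (node 463 (merge (leaf 4 431 560) (node 429 (merge (leaf 7 397 397) (node 428 (merge (leaf 0 427 427) (leaf 0 428 464))))))))))))))))))))))))))))) (merge (node 559 (merge (node 591 (merge (node 623 (merge (leaf 6 495 496) (leaf 6 527 655))) (node 590 (merge (node 589 (merge (leaf 2 556 588) (node 561 (merge (leaf 1 557 558) (leaf 1 558 562))))) (node 495 (merge (leaf 5 494 622) (node 463 (merge (leaf 4 431 431) (node 462 (merge (leaf 7 430 430) (leaf 7 462 494))))))))))) (merge (node 561 (merge (node 562 (merge (leaf 3 527 563) (node 591 (merge (leaf 1 558 590) (node 496 (merge (leaf 5 463 464) (leaf 6 495 623))))))) (merge (node 562 (merge (leaf 3 527 563) (node 594 (merge (leaf 0 559 595) (node 558 (merge (leaf 0 558 593) (node 557 (merge (leaf 2 525 529) (leaf 2 524 556))))))))) (node 558 (merge (node 557 (merge (leaf 2 524 556) (node 589 (merge (leaf 1 556 588) (leaf 1 557 590))))) (node 593 (merge (leaf 0 558 594) (node 625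 (merge (leaf 7 528 657) (node 529 (merge (leaf 7 496 496) (leaf 2 526 530)))))))))))) (merge (node 591 (merge (node 623 (merge (leaf 6 495 496) (leaf 6 527 655))) (merge (node 623 (merge (leaf 6 527 655) (node 622 (merge (leaf 5 526 654) (node 495 (merge (leaf 5 494 590) (node 463 (merge (leaf 4 431 431) (node 462 (merge (leaf 7 430 430) (leaf 7 462 494))))))))))) (node 495 (merge (node 463 (merge (leaf 4 431 431) (node 464 (merge (leaf 6 431 432) (leaf 6 463 496))))) (merge (node 463 (merge (leaf 4 431 431) (node 462 (merge (leaf 7 430 430) (leaf 7 462 494))))) (node 494 (merge (leaf 7 462 462) (node 493 (merge (leaf 0 492 492) (node 529 (merge (leaf 0 493 496) (leaf 3 494 530))))))))))))) (merge (node 558 (merge (node 557 (merge (leaf 2 525 529) (leaf 2 524 556))) (merge (node 557 (merge (leaf 2 524 556) (node 589 (merge (leaf 1 556 588) (node 590 (merge (leaf 1 557 561) (node 525 (merge (leaf 3 524 524) (node 622 (merge (leaf 4 493 493) (leaf 7 525 654))))))))))) (node 590 (merge (node 622 (merge (leaf 6 526 654) (node 495 (merge (leaf 5 462 463) (leaf 5 494 591)))))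 (merge (node 561 (merge (leaf 1 557 589) (node 562 (merge (leaf 1 558 591) (node 529 (merge (leaf 2 526 530) (node 563 (merge (leaf 3 527 527) (leaf 3 528 564))))))))) (node 561 (merge (leaf 1 557 589) (node 594 (merge (leaf 0 558 593) (node 562 (merge (leaf 3 527 563) (leaf 0 559 595))))))))))))) (merge (node 495 (merge (node 463 (merge (leaf 4 431 431) (node 464 (merge (leaf 6 431 432) (node 496 (merge (leaf 5 463 591) (node 465 (merge (leaf 6 432 433) (node 494 (merge (leaf 1 462 466) (leaf 2 461 493))))))))))) (merge (node 463 (merge (leaf 4 431 431) (node 464 (merge (leaf 6 431 432) (node 462 (merge (leaf 7 430 430) (node 494 (merge (leaf 7 462 591) (node 465 (merge (leaf 1 462 466) (leaf 1 461 493))))))))))) (merge (node 463 (merge (leaf 4 431 431) (node 464 (merge (leaf 6 431 432) (node 496 (merge (leaf 5 463 591) (node 462 (merge (leaf 7 430 430) (node 461 (merge (leaf 0 460 460) (leaf 0 461 497))))))))))) (merge (node 494 (merge (node 591 (merge (leaf 7 462 462) (node 623 (merge (leaf 6 495 496) (leaf 6 527 655))))) (merge (node 493 (merge (leaf 0 492 492)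 (node 529 (merge (leaf 0 493 496) (leaf 3 494 530))))) (node 493 (merge (leaf 0 492 492) (node 529 (merge (leaf 3 494 530) (node 557 (merge (leaf 2 525 558) (node 462 (merge (leaf 7 462 591) (node 430 (merge (leaf 4 398 398) (node 525 (merge (leaf 6 429 461) (leaf 6 461 589)))))))))))))))) (node 494 (merge (node 493 (merge (leaf 0 492 492) (node 529 (merge (leaf 0 493 496) (leaf 3 494 530))))) (merge (node 463 (merge (leaf 4 431 431) (node 464 (merge (leaf 6 431 432) (node 465 (merge (leaf 1 462 466) (node 462 (merge (leaf 7 430 430) (leaf 1 461 493))))))))) (node 529 (merge (leaf 3 494 530) (node 463 (merge (leaf 4 431 431) (node 464 (merge (leaf 6 431 432) (node 465 (merge (leaf 1 462 466) (node 433 (merge (leaf 5 432 497) (node 462 (merge (leaf 7 430 430) (leaf 2 430 434))))))))))))))))))))) (node 464 (merge (node 463 (merge (node 495 (merge (leaf 4 431 431) (leaf 6 431 432))) (merge (node 496 (merge (leaf 7 431 431) (leaf 5 431 432))) (merge (node 432 (merge (leaf 6 431 495) (leaf 5 431 496))) (node 431 (merge (leaf 4 431 495) (leaf 7 431 496))))))) (merge (node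 496 (merge (leaf 5 431 432) (node 561 (merge (leaf 4 464 593) (node 562 (merge (leaf 3 527 563) (node 594 (merge (leaf 0 559 595) (node 465 (merge (leaf 6 432 433) (node 497 (merge (leaf 4 465 529) (node 498 (merge (leaf 1 495 499) (leaf 7 465 530))))))))))))))) (merge (node 558 (merge (node 557 (merge (leaf 2 525 529) (leaf 2 524 556))) (merge (node 557 (merge (leaf 2 524 556) (node 589 (merge (leaf 1 556 588) (node 590 (merge (leaf 1 557 561) (node 525 (merge (leaf 3 524 524) (node 493 (merge (leaf 4 461 461) (leaf 4 493 622))))))))))) (node 561 (merge (node 594 (merge (leaf 0 558 593) (node 562 (merge (leaf 3 527 563) (leaf 0 559 595))))) (merge (node 529 (merge (leaf 1 526 530) (node 590 (merge (leaf 1 557 589) (node 562 (merge (leaf 3 527 563) (node 594 (merge (leaf 0 559 595) (node 465 (merge (leaf 4 465 497) (node 463 (merge (leaf 5 462 495) (node 496 (merge (leaf 7 431 431) (leaf 6 432 433))))))))))))))) (node 496 (merge (leaf 4 464 593) (node 465 (merge (leaf 6 432 433) (node 463 (merge (leaf 7 431 431) (node 495 (merge (leaf 5 462 590) (node 494 (merge (leaf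 1 462 466) (leaf 2 461 493))))))))))))))))) (node 463 (merge (node 495 (merge (leaf 4 431 431) (leaf 6 431 432))) (merge (node 495 (merge (leaf 6 431 432) (node 558 (merge (leaf 5 462 590) (node 557 (merge (leaf 2 525 529) (leaf 2 524 556))))))) (merge (node 495 (merge (leaf 4 431 431) (node 558 (merge (leaf 5 462 590) (node 557 (merge (leaf 2 525 529) (leaf 2 524 556))))))) (node 465 (merge (node 529 (merge (node 558 (merge (leaf 1 526 530) (leaf 2 525 557))) (node 497 (merge (leaf 5 432 433) (node 561 (merge (leaf 7 432 432) (node 562 (merge (leaf 3 527 563) (leaf 4 465 594))))))))) (merge (node 466 (merge (node 499 (merge (leaf 0 463 498) (node 467 (merge (leaf 0 464 500) (node 431 (merge (leaf 3 430 430) (leaf 3 431 432))))))) (merge (node 435 (merge (leaf 2 431 434) (node 467 (merge (leaf 2 432 436) (node 431 (merge (leaf 3 430 430) (leaf 3 431 432))))))) (node 498 (merge (leaf 0 463 499) (node 434 (merge (leaf 2 431 435) (node 433 (merge (leaf 2 430 462) (node 530 (merge (leaf 7 401 401) (leaf 7 433 562)))))))))))) (node 466 (merge (node 499 (merge (leaf 0 463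 498) (node 467 (merge (leaf 0 464 500) (node 435 (merge (leaf 2 431 434) (leaf 2 432 436))))))) (node 430 (merge (leaf 3 430 431) (node 462 (merge (leaf 3 429 429) (node 493 (merge (leaf 1 461 494) (node 461 (merge (leaf 1 460 492) (node 557 (merge (leaf 6 429 525) (node 558 (merge (leaf 2 525 529) (leaf 2 524 556)))))))))))))))))))))))))))))))) (node 561 (merge (node 562 (merge (leaf 3 527 563) (node 526 (merge (leaf 0 526 529) (leaf 3 526 559))))) (merge (node 562 (merge (leaf 3 527 563) (node 559 (merge (leaf 3 526 526) (node 591 (merge (leaf 1 558 590) (node 623 (merge (leaf 6 495 496) (leaf 6 527 655))))))))) (merge (node 559 (merge (node 558 (merge (node 557 (merge (leaf 2 525 529) (leaf 2 524 556))) (node 590 (merge (leaf 1 557 589) (node 622 (merge (leaf 6 526 654) (node 495 (merge (leaf 5 462 463) (leaf 5 494 591))))))))) (merge (node 558 (merge (node 557 (merge (leaf 2 524 556) (node 589 (merge (leaf 1 556 588) (leaf 1 557 590))))) (node 593 (merge (leaf 0 558 594) (node 625 (merge (leaf 7 528 657) (node 529 (merge (leaf 7 496 496) (leaf 2 526 530)))))))))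 (merge (node 593 (merge (node 625 (merge (leaf 7 528 657) (node 496 (merge (leaf 4 464 464) (leaf 7 496 529))))) (merge (node 558 (merge (leaf 0 558 594) (node 529 (merge (leaf 2 526 530) (leaf 2 525 557))))) (node 625 (merge (leaf 7 528 657) (node 594 (merge (leaf 0 558 558) (node 595 (merge (leaf 3 560 596) (node 496 (merge (leaf 4 464 464) (node 623 (merge (leaf 6 495 591) (node 624 (merge (leaf 2 590 622) (leaf 2 591 626)))))))))))))))) (merge (node 591 (merge (node 623 (merge (leaf 6 495 496) (leaf 6 527 655))) (merge (node 623 (merge (leaf 6 527 655) (node 624 (merge (leaf 4 527 656) (node 622 (merge (leaf 5 526 654) (node 590 (merge (leaf 5 494 495) (node 589 (merge (leaf 0 588 588) (leaf 3 589 625))))))))))) (node 495 (merge (node 463 (merge (leaf 4 431 431) (node 590 (merge (leaf 5 462 558) (leaf 5 494 622))))) (merge (node 463 (merge (leaf 4 431 431) (node 464 (merge (leaf 6 431 432) (leaf 6 463 496))))) (node 590 (merge (leaf 5 494 622) (node 589 (merge (leaf 1 557 558) (leaf 2 556 588))))))))))) (node 591 (merge (node 623 (merge (leaf 6 495 496) (leaf 6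 527 655))) (merge (node 623 (merge (leaf 6 527 655) (node 622 (merge (leaf 5 526 654) (node 495 (merge (leaf 5 494 590) (node 463 (merge (leaf 4 431 431) (node 462 (merge (leaf 7 430 430) (leaf 7 462 494))))))))))) (node 495 (merge (node 463 (merge (leaf 4 431 431) (node 464 (merge (leaf 6 431 432) (leaf 6 463 496))))) (merge (node 463 (merge (leaf 4 431 431) (node 462 (merge (leaf 7 430 430) (leaf 7 462 494))))) (node 494 (merge (leaf 7 462 462) (node 493 (merge (leaf 0 492 492) (node 529 (merge (leaf 0 493 496) (leaf 3 494 530)))))))))))))))))) (node 529 (merge (node 562 (merge (leaf 0 526 526) (leaf 3 527 563))) (merge (node 494 (merge (node 495 (merge (leaf 3 494 530) (node 493 (merge (leaf 0 492 492) (leaf 0 493 496))))) (merge (node 530 (merge (leaf 3 494 495) (node 498 (merge (leaf 2 495 499) (node 497 (merge (leaf 2 494 526) (node 593 (merge (leaf 6 465 466) (leaf 6 497 625))))))))) (node 526 (merge (leaf 3 493 493) (node 497 (merge (leaf 2 494 498) (node 465 (merge (leaf 5 432 433) (node 464 (merge (leaf 7 432 432) (node 593 (merge (leaf 4 464 496) (node 625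 (merge (leaf 7 528 657) (node 626 (merge (leaf 4 497 594) (leaf 4 529 658)))))))))))))))))) (node 562 (merge (node 563 (merge (leaf 3 527 527) (leaf 3 528 564))) (node 497 (merge (node 465 (merge (leaf 5 432 433) (node 594 (merge (leaf 4 465 561) (node 530 (merge (leaf 7 465 498) (leaf 7 497 626))))))) (merge (node 465 (merge (leaf 5 432 433) (node 466 (merge (leaf 6 433 434) (node 593 (merge (leaf 6 465 498) (node 625 (merge (leaf 7 496 496) (leaf 7 528 657))))))))) (merge (node 593 (merge (node 625 (merge (leaf 7 496 496) (leaf 7 528 657))) (merge (node 496 (merge (leaf 4 464 464) (node 594 (merge (leaf 4 497 626) (node 498 (merge (leaf 6 465 466) (node 499 (merge (leaf 1 496 500) (node 467 (merge (leaf 2 464 468) (leaf 6 466 530))))))))))) (node 625 (merge (leaf 7 528 657) (node 626 (merge (leaf 4 497 594) (leaf 4 529 658)))))))) (node 465 (merge (leaf 4 465 594) (node 432 (merge (leaf 7 432 464) (node 433 (merge (leaf 7 400 400) (node 401 (merge (leaf 5 400 496) (node 402 (merge (leaf 6 369 370) (leaf 6 401 434))))))))))))))))))))))))))))))))))) nC_17 cC_17 13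 (by decide +kernel)

end Crest.Agent.H26Snaky
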