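import Crest.Agent.H26SnC00

/-! certificate data for S0047, part C 1 (computer generated) -/

set_option autoImplicit false
set_option maxRecDepth 100000

namespace Crest.Agent.H26Snaky

open T

def nC_18 : ℕ := 0x1000000000000000300000001000000000000000000000000000000000000000000000000000000000000000000000000000000000000000000000000000000000000000000000000000000000000
def cC_18 : ℕ := 0x60000000e0000007ff000003ee000007ef000003c40000076e000000e0000000e0000000e000000000000000000000000000000000000000000000000000000000000000000000000000000000000000000000000000000000000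
theorem lC_18 : S nC_18 cC_18 11 := S_of_chk [] trivial (node 625 (merge (node 593 (merge (leaf 7 528 657) (node 529 (merge (leaf 5 528 656) (node 498 (merge (leaf 6 497 530) (node 497 (merge (leaf 6 465 466) (node 465 (merge (leaf 5 432 433) (node 562 (merge (leaf 4 465 594) (node 563 (merge (leaf 3 527 527) (leaf 3 528 564))))))))))))))) (merge (node 626 (merge (node 593 (merge (leaf 7 528 657) (node 529 (merge (leaf 5 528 656) (leaf 4 529 658))))) (merge (node 623 (merge (node 654 (merge (leaf 1 622 655) (node 622 (merge (leaf 1 621 653) (node 590 (merge (leaf 3 589 589) (leaf 3 590 591))))))) (merge (node 659 (merge (leaf 0 623 658) (node 627 (merge (leaf 0 624 660) (node 655 (merge (leaf 1 622 654) (leaf 1 623 656))))))) (merge (node 658 (merge (leaf 0 623 659) (node 622 (merge (leaf 0 622 657) (node 590 (merge (leaf 3 589 589) (leaf 3 590 591))))))) (node 590 (merge (leaf 3 590 591) (node 622 (merge (leaf 3 589 589) (node 657 (merge (leaf 0 622 658) (node 656 (merge (leaf 0 621 621) (node 627 (merge (leaf 1 624 628) (leaf 1 623 655))))))))))))))) (merge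 (node 593 (merge (leaf 7 528 657) (node 658 (merge (leaf 4 529 529) (node 623 (merge (leaf 0 623 659) (node 654 (merge (leaf 1 622 655) (node 622 (merge (leaf 1 621 653) (node 590 (merge (leaf 3 589 589) (leaf 3 590 591))))))))))))) (node 627 (merge (node 660 (merge (leaf 0 624 659) (node 628 (merge (leaf 0 625 661) (node 596 (merge (leaf 2 592 595) (leaf 2 593 597))))))) (node 655 (merge (leaf 1 623 656) (node 623 (merge (leaf 1 622 654) (node 590 (merge (leaf 3 590 591) (node 622 (merge (leaf 3 589 589) (node 526 (merge (leaf 4 526 558) (node 527 (merge (leaf 0 525 525) (node 562 (merge (leaf 0 526 529) (leaf 3 527 563))))))))))))))))))))) (merge (node 593 (merge (leaf 7 528 657) (node 626 (merge (node 658 (merge (leaf 4 529 529) (node 690 (merge (leaf 7 561 594) (leaf 7 593 722))))) (merge (node 623 (merge (node 594 (merge (leaf 2 590 622) (node 595 (merge (leaf 1 592 596) (leaf 2 591 626))))) (merge (node 654 (merge (leaf 1 622 655) (node 622 (merge (leaf 1 621 653) (node 590 (merge (leaf 3 589 589) (leaf 3 590 591))))))) (node 658 (merge (leaf 0 623 659)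 (node 594 (merge (leaf 2 591 595) (leaf 7 561 690)))))))) (merge (node 658 (merge (leaf 4 529 529) (node 623 (merge (leaf 0 623 659) (node 654 (merge (leaf 1 622 655) (node 622 (merge (leaf 1 621 653) (node 590 (merge (leaf 3 589 589) (leaf 3 590 591))))))))))) (node 627 (merge (node 660 (merge (leaf 0 624 659) (node 628 (merge (leaf 0 625 661) (node 596 (merge (leaf 2 592 595) (leaf 2 593 597))))))) (merge (node 595 (merge (leaf 2 592 596) (node 623 (merge (leaf 2 591 594) (node 654 (merge (leaf 1 622 655) (node 622 (merge (leaf 1 621 653) (node 590 (merge (leaf 3 589 589) (leaf 3 590 591))))))))))) (merge (node 660 (merge (leaf 0 624 659) (node 628 (merge (leaf 0 625 661) (node 597 (merge (leaf 2 593 596) (node 629 (merge (leaf 3 593 594) (leaf 2 594 598))))))))) (node 660 (merge (leaf 0 624 659) (node 628 (merge (leaf 0 625 661) (node 594 (merge (leaf 3 593 629) (node 623 (merge (leaf 2 591 595) (leaf 2 590 622))))))))))))))))))) (merge (node 626 (merge (node 623 (merge (node 654 (merge (leaf 1 622 655) (node 622 (merge (leaf 1 621 653) (node 590 (merge (leaf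 3 589 589) (leaf 3 590 591))))))) (merge (node 659 (merge (leaf 0 623 658) (node 627 (merge (leaf 0 624 660) (node 655 (merge (leaf 1 622 654) (leaf 1 623 656))))))) (merge (node 658 (merge (leaf 0 623 659) (node 622 (merge (leaf 0 622 657) (node 590 (merge (leaf 3 589 589) (leaf 3 590 591))))))) (node 590 (merge (leaf 3 590 591) (node 622 (merge (leaf 3 589 589) (node 657 (merge (leaf 0 622 658) (node 656 (merge (leaf 0 621 621) (node 627 (merge (leaf 1 624 628) (leaf 1 623 655))))))))))))))) (merge (node 623 (merge (node 654 (merge (leaf 1 622 655) (node 622 (merge (leaf 1 621 653) (node 590 (merge (leaf 3 589 589) (leaf 3 590 591))))))) (merge (node 658 (merge (leaf 0 623 659) (node 657 (merge (leaf 0 622 622) (node 594 (merge (leaf 2 591 595) (node 562 (merge (leaf 7 529 529) (leaf 5 529 530))))))))) (merge (node 658 (merge (leaf 0 623 659) (node 594 (merge (leaf 2 591 595) (node 562 (merge (leaf 7 529 529) (node 657 (merge (leaf 5 529 530) (leaf 5 561 689))))))))) (node 658 (merge (leaf 0 623 659) (node 657 (merge (leaf 0 622 622) (node 594 (merge (leaf 2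 591 595) (node 689 (merge (leaf 5 561 562) (leaf 6 593 721))))))))))))) (merge (node 562 (merge (node 527 (merge (leaf 3 527 563) (node 526 (merge (leaf 0 525 525) (leaf 0 526 529))))) (node 627 (merge (node 656 (merge (leaf 1 623 655) (node 628 (merge (leaf 1 624 657) (node 596 (merge (leaf 2 592 595) (leaf 2 593 597))))))) (merge (node 660 (merge (leaf 0 624 659) (node 628 (merge (leaf 0 625 661) (node 596 (merge (leaf 2 592 595) (leaf 2 593 597))))))) (merge (node 660 (merge (leaf 0 624 659) (node 628 (merge (leaf 0 625 661) (node 656 (merge (leaf 1 623 655) (leaf 1 624 657))))))) (node 659 (merge (leaf 0 624 660) (node 595 (merge (leaf 2 592 596) (node 594 (merge (leaf 4 530 530) (leaf 7 562 691))))))))))))) (merge (node 623 (merge (node 655 (merge (leaf 1 622 654) (node 627 (merge (leaf 1 623 656) (node 595 (merge (leaf 2 591 594) (leaf 2 592 596))))))) (merge (node 590 (merge (leaf 3 590 591) (node 622 (merge (leaf 3 589 589) (node 657 (merge (leaf 0 622 658) (node 656 (merge (leaf 0 621 621) (node 627 (merge (leaf 1 624 628) (leaf 1 623 655))))))))))) (node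 590 (merge (leaf 3 590 591) (node 622 (merge (leaf 3 589 589) (node 653 (merge (leaf 1 621 654) (node 621 (merge (leaf 1 620 652) (node 526 (merge (leaf 5 525 558) (node 527 (merge (leaf 0 525 525) (node 562 (merge (leaf 0 526 529) (leaf 3 527 563)))))))))))))))))) (node 623 (merge (node 659 (merge (leaf 0 623 658) (node 627 (merge (leaf 0 624 660) (node 595 (merge (leaf 2 591 594) (leaf 2 592 596))))))) (node 590 (merge (leaf 3 590 591) (node 622 (merge (leaf 3 589 589) (node 653 (merge (leaf 1 621 654) (node 621 (merge (leaf 1 620 652) (node 526 (merge (leaf 5 525 558) (node 527 (merge (leaf 0 525 525) (node 562 (merge (leaf 0 526 529) (leaf 3 527 563)))))))))))))))))))))) (merge (node 623 (merge (node 657 (merge (leaf 7 528 593) (node 658 (merge (leaf 0 622 622) (node 659 (merge (leaf 0 623 626) (leaf 3 624 660))))))) (merge (node 657 (merge (leaf 7 528 593) (node 622 (merge (leaf 0 622 658) (node 621 (merge (leaf 0 621 656) (node 653 (merge (leaf 1 620 652) (leaf 1 621 654))))))))) (merge (node 593 (merge (leaf 7 528 657) (node 622 (merge (leaf 2 590 594)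 (node 654 (merge (leaf 1 621 653) (node 626 (merge (leaf 1 622 655) (node 590 (merge (leaf 3 589 589) (leaf 3 590 591))))))))))) (merge (node 654 (merge (node 653 (merge (leaf 1 621 622) (node 655 (merge (leaf 2 620 652) (leaf 2 621 656))))) (merge (node 622 (merge (leaf 1 621 653) (node 594 (merge (leaf 2 590 593) (node 626 (merge (leaf 2 591 595) (node 590 (merge (leaf 3 589 589) (leaf 3 590 591))))))))) (node 626 (merge (leaf 1 622 655) (node 659 (merge (leaf 0 623 658) (node 627 (merge (leaf 0 624 660) (node 595 (merge (leaf 2 591 594) (leaf 2 592 596)))))))))))) (merge (node 626 (merge (node 655 (merge (leaf 1 622 654) (node 627 (merge (leaf 1 623 656) (node 595 (merge (leaf 2 591 594) (leaf 2 592 596))))))) (merge (node 659 (merge (leaf 0 623 658) (node 627 (merge (leaf 0 624 660) (node 595 (merge (leaf 2 591 594) (leaf 2 592 596))))))) (merge (node 659 (merge (leaf 0 623 658) (node 627 (merge (leaf 0 624 660) (node 655 (merge (leaf 1 622 654) (leaf 1 623 656))))))) (node 593 (merge (leaf 7 528 657) (node 658 (merge (leaf 0 623 659) (node 594 (merge (leaf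 2 591 595) (leaf 7 561 690))))))))))) (node 654 (merge (node 655 (merge (leaf 1 622 626) (node 653 (merge (leaf 2 620 652) (leaf 2 621 656))))) (merge (node 622 (merge (leaf 1 621 653) (node 657 (merge (leaf 0 622 658) (node 621 (merge (leaf 0 621 656) (node 589 (merge (leaf 3 588 588) (leaf 3 589 590))))))))) (node 626 (merge (leaf 1 622 655) (node 659 (merge (leaf 0 623 658) (node 627 (merge (leaf 0 624 660) (node 595 (merge (leaf 2 591 594) (leaf 2 592 596)))))))))))))))))) (node 626 (merge (node 658 (merge (node 529 (merge (leaf 4 529 593) (node 562 (merge (leaf 7 529 594) (node 563 (merge (leaf 3 527 527) (leaf 3 528 564))))))) (node 623 (merge (leaf 0 623 659) (node 654 (merge (leaf 1 622 655) (node 622 (merge (leaf 1 621 653) (node 590 (merge (leaf 3 589 589) (leaf 3 590 591))))))))))) (merge (node 623 (merge (node 654 (merge (leaf 1 622 655) (node 622 (merge (leaf 1 621 653) (node 590 (merge (leaf 3 589 589) (leaf 3 590 591))))))) (node 659 (merge (leaf 0 623 658) (node 627 (merge (leaf 0 624 660) (node 595 (merge (leaf 2 591 594) (leaf 2 592 596)))))))))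 (merge (node 627 (merge (node 660 (merge (leaf 0 624 659) (node 628 (merge (leaf 0 625 661) (node 596 (merge (leaf 2 592 595) (leaf 2 593 597))))))) (node 655 (merge (leaf 1 623 656) (node 623 (merge (leaf 1 622 654) (node 590 (merge (leaf 3 590 591) (node 622 (merge (leaf 3 589 589) (node 526 (merge (leaf 4 526 558) (node 527 (merge (leaf 0 525 525) (node 562 (merge (leaf 0 526 529) (leaf 3 527 563))))))))))))))))) (merge (node 627 (merge (node 655 (merge (leaf 1 623 656) (node 623 (merge (leaf 1 622 654) (node 590 (merge (leaf 3 590 591) (node 622 (merge (leaf 3 589 589) (node 526 (merge (leaf 4 526 558) (node 527 (merge (leaf 0 525 525) (node 562 (merge (leaf 0 526 529) (leaf 3 527 563))))))))))))))) (merge (node 595 (merge (leaf 2 592 596) (node 623 (merge (leaf 2 591 594) (node 654 (merge (leaf 1 622 655) (node 622 (merge (leaf 1 621 653) (node 590 (merge (leaf 3 589 589) (leaf 3 590 591))))))))))) (node 596 (merge (leaf 2 592 595) (node 628 (merge (leaf 2 593 597) (node 661 (merge (leaf 0 625 660) (node 629 (merge (leaf 0 626 662) (node 593 (merge (leaf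 3 593 594) (node 529 (merge (leaf 5 528 656) (leaf 4 529 658)))))))))))))))) (node 529 (merge (node 593 (merge (leaf 5 528 656) (leaf 4 529 658))) (merge (node 593 (merge (leaf 5 528 656) (node 497 (merge (leaf 4 497 594) (node 498 (merge (leaf 6 465 466) (leaf 6 497 530))))))) (node 562 (merge (node 563 (merge (leaf 3 527 527) (node 564 (merge (leaf 3 528 529) (node 597 (merge (leaf 0 561 596) (node 565 (merge (leaf 0 562 598) (node 533 (merge (leaf 2 529 532) (leaf 2 530 534))))))))))) (node 594 (merge (leaf 7 529 658) (node 530 (merge (leaf 7 497 497) (node 627 (merge (leaf 4 530 659) (node 498 (merge (leaf 4 498 595) (node 466 (merge (leaf 5 433 434) (node 467 (merge (leaf 6 434 435) (leaf 6 466 499))))))))))))))))))))))))))))) nC_18 cC_18 11 (by decide +kernel)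
def nC_19 : ℕ := 0x300000001000000000000000000000000000000000000000000000000000000000000000000000000000000000000000000000000000000000000000000000000000000000000
def cC_19 : ℕ := 0x68000000f8000007ff000003fe000007ff000003c40000076e000001ec000000fc000000f000000000000000000000000000000000000000000000000000000000000000000000000000000000000000000000000000000000000
theorem lC_19 : S nC_19 cC_19 12 := S_of_chk [(nC_18, cC_18, 11)] ⟨lC_18, trivial⟩ (node 624 (merge (node 592 (merge (node 657 (merge (leaf 4 528 625) (node 656 (merge (leaf 4 560 689) (node 655 (merge (leaf 5 527 623) (leaf 5 559 687))))))) (node 527 (merge (leaf 7 495 495) (node 526 (merge (leaf 0 525 525) (node 562 (merge (leaf 0 526 529) (leaf 3 527 563))))))))) (merge (node 625 (merge (node 657 (merge (leaf 4 528 592) (leaf 7 528 593))) (merge (node 592 (merge (leaf 4 528 657) (node 656 (merge (leaf 6 528 529) (node 655 (merge (leaf 5 527 623) (leaf 5 559 687))))))) (merge (node 593 (merge (leaf 7 528 657) (node 529 (merge (leaf 5 528 656) (node 626 (merge (leaf 4 529 658) (node 594 (merge (leaf 4 497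 497) (node 595 (merge (leaf 1 592 596) (leaf 2 591 623))))))))))) (node 529 (merge (node 656 (merge (leaf 6 528 592) (leaf 5 528 593))) (merge (node 592 (merge (leaf 6 496 497) (leaf 6 528 656))) (merge (node 593 (merge (leaf 5 528 656) (node 626 (merge (leaf 4 529 658) (node 497 (merge (leaf 4 497 594) (node 498 (merge (leaf 6 465 466) (leaf 6 497 530))))))))) (node 497 (merge (leaf 6 496 592) (node 465 (merge (leaf 5 432 433) (node 466 (merge (leaf 6 433 434) (node 593 (merge (leaf 6 465 498) (node 626 (merge (leaf 4 497 594) (leaf 4 529 658))))))))))))))))))) (merge (node 592 (merge (node 527 (merge (leaf 7 495 495) (node 526 (merge (leaf 0 525 525) (node 562 (merge (leaf 0 526 529) (leaf 3 527 563))))))) (node 657 (merge (leaf 4 528 625) (node 656 (merge (leaf 4 560 689) (node 687 (merge (leaf 5 559 655) (node 688 (merge (leaf 6 560 593) (leaf 5 591 719))))))))))) (merge (node 592 (merge (node 529 (merge (leaf 6 496 497) (node 527 (merge (leaf 7 495 495) (node 562 (merge (leaf 0 526 526) (leaf 3 527 563))))))) (node 655 (merge (leaf 5 527 623) (node 656 (merge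 (leaf 5 559 687) (node 689 (merge (leaf 4 560 657) (node 688 (merge (leaf 6 560 593) (leaf 4 592 721))))))))))) (merge (node 529 (merge (node 592 (merge (leaf 6 496 497) (leaf 6 528 656))) (merge (node 592 (merge (leaf 6 528 656) (node 527 (merge (leaf 7 495 495) (node 526 (merge (leaf 0 525 525) (leaf 0 526 562))))))) (merge (node 592 (merge (leaf 6 496 497) (node 527 (merge (leaf 7 495 495) (node 562 (merge (leaf 0 526 526) (leaf 3 527 563))))))) (node 497 (merge (node 465 (merge (leaf 5 432 433) (node 562 (merge (leaf 4 465 594) (node 563 (merge (leaf 3 527 527) (leaf 3 528 564))))))) (merge (node 465 (merge (leaf 5 432 433) (node 466 (merge (leaf 6 433 434) (node 498 (merge (leaf 6 465 593) (node 464 (merge (leaf 7 432 432) (node 463 (merge (leaf 0 462 462) (leaf 0 463 499))))))))))) (node 593 (merge (node 498 (merge (leaf 6 465 466) (node 499 (merge (leaf 1 496 500) (node 527 (merge (leaf 2 494 526) (leaf 2 495 530))))))) (node 625 (merge (leaf 5 528 656) (node 626 (merge (leaf 4 529 658) (node 594 (merge (leaf 4 497 497) (node 595 (merge (leaf 1 592 596)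 (leaf 2 591 623)))))))))))))))))) (merge (node 562 (merge (node 527 (merge (leaf 3 527 563) (node 526 (merge (leaf 0 525 525) (leaf 0 526 529))))) (merge (node 563 (merge (leaf 3 527 527) (node 596 (merge (leaf 0 560 595) (node 564 (merge (leaf 0 561 597) (node 592 (merge (leaf 1 559 591) (leaf 1 560 593))))))))) (merge (node 563 (merge (node 592 (merge (leaf 1 559 591) (node 564 (merge (leaf 3 528 529) (leaf 1 560 593))))) (merge (node 596 (merge (leaf 0 560 595) (node 564 (merge (leaf 3 528 529) (leaf 0 561 597))))) (merge (node 596 (merge (leaf 0 560 595) (node 564 (merge (leaf 0 561 597) (node 592 (merge (leaf 1 559 591) (leaf 1 560 593))))))) (node 595 (merge (leaf 0 560 596) (node 592 (merge (leaf 1 559 591) (node 625 (merge (leaf 4 528 657) (node 623 (merge (leaf 5 527 655) (node 594 (merge (leaf 1 591 593) (leaf 2 591 626))))))))))))))) (node 529 (merge (node 497 (merge (leaf 6 496 592) (node 465 (merge (leaf 5 432 433) (leaf 4 465 594))))) (merge (node 527 (merge (leaf 0 526 526) (node 495 (merge (leaf 7 495 592) (node 530 (merge (leaf 3 494 494) (node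 498 (merge (leaf 2 495 499) (node 593 (merge (leaf 5 465 466) (leaf 6 497 625))))))))))) (node 497 (merge (node 465 (merge (leaf 5 432 433) (leaf 4 465 594))) (merge (node 593 (merge (node 625 (merge (leaf 7 528 657) (node 626 (merge (leaf 4 497 594) (leaf 4 529 658))))) (merge (node 625 (merge (leaf 7 528 657) (node 498 (merge (leaf 6 465 466) (leaf 6 497 530))))) (node 594 (merge (leaf 4 497 626) (node 595 (merge (leaf 3 560 596) (node 498 (merge (leaf 6 465 466) (node 499 (merge (leaf 1 496 500) (node 530 (merge (leaf 6 466 467) (leaf 4 498 627)))))))))))))) (node 465 (merge (leaf 5 432 433) (node 466 (merge (leaf 6 433 434) (node 498 (merge (leaf 6 465 593) (node 499 (merge (leaf 1 496 500) (node 464 (merge (leaf 7 432 432) (leaf 0 463 463))))))))))))))))))))) (merge (node 625 (merge (node 657 (merge (leaf 4 528 592) (leaf 7 528 593))) (merge (node 623 (merge (node 657 (merge (leaf 7 528 593) (node 658 (merge (leaf 0 622 622) (node 659 (merge (leaf 0 623 626) (leaf 3 624 660))))))) (merge (node 657 (merge (leaf 7 528 593) (node 622 (merge (leaf 0 622 658)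 (node 621 (merge (leaf 0 621 656) (node 653 (merge (leaf 1 620 652) (leaf 1 621 654))))))))) (merge (node 593 (merge (leaf 7 528 657) (node 622 (merge (leaf 2 590 594) (node 654 (merge (leaf 1 621 653) (node 626 (merge (leaf 1 622 655) (node 590 (merge (leaf 3 589 589) (leaf 3 590 591))))))))))) (merge (node 654 (merge (node 653 (merge (leaf 1 621 622) (node 655 (merge (leaf 2 620 652) (leaf 2 621 656))))) (merge (node 622 (merge (leaf 1 621 653) (node 594 (merge (leaf 2 590 593) (node 626 (merge (leaf 2 591 595) (node 590 (merge (leaf 3 589 589) (leaf 3 590 591))))))))) (node 626 (merge (leaf 1 622 655) (node 659 (merge (leaf 0 623 658) (node 627 (merge (leaf 0 624 660) (node 595 (merge (leaf 2 591 594) (leaf 2 592 596)))))))))))) (merge (node 626 (merge (node 655 (merge (leaf 1 622 654) (node 627 (merge (leaf 1 623 656) (node 595 (merge (leaf 2 591 594) (leaf 2 592 596))))))) (merge (node 659 (merge (leaf 0 623 658) (node 627 (merge (leaf 0 624 660) (node 595 (merge (leaf 2 591 594) (leaf 2 592 596))))))) (merge (node 659 (merge (leaf 0 623 658) (node 627 (merge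 (leaf 0 624 660) (node 655 (merge (leaf 1 622 654) (leaf 1 623 656))))))) (node 593 (merge (leaf 7 528 657) (node 658 (merge (leaf 0 623 659) (node 594 (merge (leaf 2 591 595) (leaf 7 561 690))))))))))) (node 654 (merge (node 655 (merge (leaf 1 622 626) (node 653 (merge (leaf 2 620 652) (leaf 2 621 656))))) (merge (node 622 (merge (leaf 1 621 653) (node 657 (merge (leaf 0 622 658) (node 621 (merge (leaf 0 621 656) (node 589 (merge (leaf 3 588 588) (leaf 3 589 590))))))))) (node 626 (merge (leaf 1 622 655) (node 659 (merge (leaf 0 623 658) (node 627 (merge (leaf 0 624 660) (node 595 (merge (leaf 2 591 594) (leaf 2 592 596)))))))))))))))))) (merge (node 623 (merge (node 592 (merge (leaf 5 527 655) (leaf 4 528 657))) (merge (node 655 (merge (leaf 5 527 592) (node 626 (merge (leaf 1 622 654) (node 659 (merge (leaf 0 623 658) (node 627 (merge (leaf 1 623 656) (leaf 0 624 660))))))))) (merge (node 657 (merge (leaf 4 528 592) (node 622 (merge (leaf 0 622 658) (node 621 (merge (leaf 0 621 656) (node 653 (merge (leaf 1 620 652) (leaf 1 621 654))))))))) (node 654 (merge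 (node 655 (merge (leaf 1 622 626) (node 653 (merge (leaf 2 620 652) (leaf 2 621 656))))) (merge (node 622 (merge (leaf 1 621 653) (node 657 (merge (leaf 0 622 658) (node 621 (merge (leaf 0 621 656) (node 589 (merge (leaf 3 588 588) (leaf 3 589 590))))))))) (node 626 (merge (leaf 1 622 655) (node 659 (merge (leaf 0 623 658) (node 627 (merge (leaf 0 624 660) (node 595 (merge (leaf 2 591 594) (leaf 2 592 596)))))))))))))))) (node 626 (merge (node 655 (merge (node 623 (merge (leaf 5 527 592) (leaf 1 622 654))) (node 627 (merge (leaf 1 623 656) (node 660 (merge (leaf 0 624 659) (node 628 (merge (leaf 0 625 661) (node 596 (merge (leaf 2 592 595) (leaf 2 593 597))))))))))) (merge (node 623 (merge (node 595 (merge (leaf 2 591 594) (node 627 (merge (leaf 2 592 596) (node 591 (merge (leaf 3 590 590) (leaf 3 591 592))))))) (merge (node 654 (merge (leaf 1 622 655) (node 622 (merge (leaf 1 621 653) (node 590 (merge (leaf 3 589 589) (leaf 3 590 591))))))) (node 655 (merge (leaf 1 622 654) (node 627 (merge (leaf 1 623 656) (node 595 (merge (leaf 2 591 594) (leaf 2 592 596))))))))))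 (merge (node 623 (merge (node 659 (merge (leaf 0 623 658) (node 627 (merge (leaf 0 624 660) (node 591 (merge (leaf 3 590 590) (leaf 3 591 592))))))) (merge (node 654 (merge (leaf 1 622 655) (node 622 (merge (leaf 1 621 653) (node 590 (merge (leaf 3 589 589) (leaf 3 590 591))))))) (node 659 (merge (leaf 0 623 658) (node 627 (merge (leaf 0 624 660) (node 655 (merge (leaf 1 622 654) (leaf 1 623 656)))))))))) (merge (node 623 (merge (node 654 (merge (leaf 1 622 655) (node 622 (merge (leaf 1 621 653) (node 590 (merge (leaf 3 589 589) (leaf 3 590 591))))))) (node 659 (merge (leaf 0 623 658) (node 627 (merge (leaf 0 624 660) (node 595 (merge (leaf 2 591 594) (leaf 2 592 596))))))))) (merge (node 627 (merge (node 660 (merge (leaf 0 624 659) (node 628 (merge (leaf 0 625 661) (node 596 (merge (leaf 2 592 595) (leaf 2 593 597))))))) (merge (node 596 (merge (leaf 2 592 595) (node 628 (merge (leaf 2 593 597) (node 592 (merge (leaf 3 591 591) (leaf 3 592 593))))))) (merge (node 660 (merge (leaf 0 624 659) (node 628 (merge (leaf 0 625 661) (node 592 (merge (leaf 3 591 591) (leaf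 3 592 593))))))) (node 659 (merge (leaf 0 624 660) (node 595 (merge (leaf 2 592 596) (node 592 (merge (leaf 3 591 591) (node 527 (merge (leaf 7 495 495) (node 562 (merge (leaf 3 527 563) (node 594 (merge (leaf 4 530 530) (leaf 7 562 691))))))))))))))))) (node 562 (merge (node 563 (merge (leaf 3 527 527) (node 595 (merge (leaf 0 560 596) (node 623 (merge (leaf 2 591 594) (node 655 (merge (leaf 5 527 592) (leaf 1 622 654))))))))) (merge (node 563 (merge (leaf 3 527 527) (node 596 (merge (leaf 0 560 595) (node 564 (merge (leaf 0 561 597) (node 592 (merge (leaf 1 559 591) (leaf 1 560 593))))))))) (merge (node 623 (merge (node 655 (merge (leaf 5 527 592) (leaf 1 622 654))) (node 658 (merge (leaf 0 623 659) (node 594 (merge (leaf 2 591 595) (node 593 (merge (leaf 2 590 622) (leaf 7 561 690))))))))) (merge (node 563 (merge (leaf 3 527 527) (node 595 (merge (leaf 0 560 596) (node 623 (merge (leaf 2 591 594) (node 654 (merge (leaf 1 622 655) (node 622 (merge (leaf 1 621 653) (node 590 (merge (leaf 3 589 589) (leaf 3 590 591))))))))))))) (node 563 (merge (leaf 3 527 527)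 (node 592 (merge (leaf 1 559 591) (node 593 (merge (leaf 1 560 564) (node 623 (merge (leaf 5 527 655) (node 622 (merge (leaf 2 590 594) (leaf 2 589 621)))))))))))))))))))))))))) (hyp 0))))))))) nC_19 cC_19 12 (by decide +kernel)
def nC_20 : ℕ := 0x300000001000000000000000000000000000000000000000000000000000000000000000000000000000000000000000000000000000000000000000000000000000000000000
def cC_20 : ℕ := 0x200000003a0000007e000000ffc000007fc000000fc000006f000001ef8000007e0000007e00000000000000000000000000000000000000000000000000000000000000000000000000000000000000000000000000000000000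
theorem lC_20 : S nC_20 cC_20 11 := S_of_chk [] trivial (node 527 (merge (node 526 (merge (leaf 0 525 525) (node 529 (merge (node 497 (merge (leaf 2 494 498) (node 592 (merge (leaf 5 464 465) (leaf 6 496 624))))) (node 558 (merge (leaf 1 525 557) (node 494 (merge (leaf 3 493 493) (node 495 (merge (leaf 3 494 530) (node 463 (merge (leaf 4 431 431) (leaf 6 462 590))))))))))))) (merge (node 529 (merge (node 526 (merge (leaf 0 525 525) (node 497 (merge (leaf 2 494 498) (node 592 (merge (leaf 5 464 465) (leaf 6 496 624))))))) (merge (node 526 (merge (leaf 0 525 525) (node 498 (merge (leaf 2 494 497) (node 530 (merge (leaf 2 495 499) (node 494 (merge (leaf 3 493 493) (leaf 3 494 495))))))))) (merge (node 526 (merge (leaf 0 525 525) (node 494 (merge (leaf 3 493 493) (node 495 (merge (leaf 3 494 530) (node 463 (merge (leaf 4 431 431) (node 592 (merge (leaf 4 463 559) (leaf 7 495 624))))))))))) (node 495 (merge (node 463 (merge (leaf 4 431 431) (node 592 (merge (leaf 4 463 559) (leaf 7 495 624))))) (merge (node 530 (merge (leaf 3 494 494) (node 498 (merge (leaf 2 495 499)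 (node 593 (merge (leaf 6 497 625) (node 497 (merge (leaf 6 465 466) (node 592 (merge (leaf 5 464 465) (leaf 5 496 624))))))))))) (node 530 (merge (leaf 3 494 494) (node 498 (merge (leaf 2 495 499) (node 466 (merge (leaf 5 433 434) (node 593 (merge (leaf 6 465 497) (leaf 6 497 625)))))))))))))))) (merge (node 526 (merge (leaf 0 525 525) (node 529 (merge (node 497 (merge (leaf 2 494 498) (node 592 (merge (leaf 5 464 465) (leaf 6 496 624))))) (merge (node 558 (merge (leaf 1 525 557) (node 530 (merge (leaf 1 526 559) (node 498 (merge (leaf 2 494 497) (leaf 2 495 499))))))) (node 558 (merge (leaf 1 525 557) (node 559 (merge (leaf 1 526 530) (node 590 (merge (leaf 1 557 589) (node 495 (merge (leaf 5 462 463) (leaf 6 494 622)))))))))))))) (merge (node 559 (merge (node 558 (merge (node 557 (merge (leaf 2 525 529) (leaf 2 524 556))) (node 590 (merge (leaf 1 557 589) (node 622 (merge (leaf 6 526 654) (node 495 (merge (leaf 5 462 463) (leaf 5 494 591))))))))) (merge (node 558 (merge (node 557 (merge (leaf 2 525 529) (leaf 2 524 556))) (merge (node 557 (merge (leaf 2 524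 556) (node 592 (merge (leaf 0 557 593) (node 624 (merge (leaf 7 495 495) (leaf 7 527 656))))))) (node 593 (merge (leaf 0 558 594) (node 625 (merge (leaf 7 528 657) (node 529 (merge (leaf 1 526 530) (node 624 (merge (leaf 5 528 656) (node 592 (merge (leaf 7 495 495) (leaf 5 496 497)))))))))))))) (merge (node 558 (merge (node 557 (merge (leaf 2 524 556) (node 589 (merge (leaf 1 556 588) (leaf 1 557 590))))) (merge (node 590 (merge (leaf 1 557 589) (node 622 (merge (leaf 6 526 654) (node 495 (merge (leaf 5 462 463) (leaf 5 494 591))))))) (node 557 (merge (leaf 2 524 556) (node 592 (merge (leaf 0 557 593) (node 624 (merge (leaf 7 495 495) (leaf 7 527 656)))))))))) (merge (node 558 (merge (node 557 (merge (leaf 2 525 529) (leaf 2 524 556))) (merge (node 557 (merge (leaf 2 524 556) (node 589 (merge (leaf 1 556 588) (leaf 1 557 590))))) (node 593 (merge (leaf 0 558 594) (node 625 (merge (leaf 7 528 657) (node 529 (merge (leaf 1 526 530) (node 590 (merge (leaf 1 557 589) (node 626 (merge (leaf 4 529 658) (node 592 (merge (leaf 0 590 591) (node 624 (merge (leaf 5 496 497)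 (leaf 7 527 656)))))))))))))))))) (node 495 (merge (node 592 (merge (leaf 4 463 463) (leaf 7 495 624))) (merge (node 463 (merge (leaf 4 431 431) (node 462 (merge (leaf 7 430 430) (node 591 (merge (leaf 7 462 494) (node 622 (merge (leaf 5 494 590) (node 623 (merge (leaf 5 526 654) (leaf 6 527 655))))))))))) (node 591 (merge (node 592 (merge (leaf 4 495 624) (node 590 (merge (leaf 5 494 622) (node 589 (merge (leaf 2 557 561) (leaf 2 556 588))))))) (merge (node 622 (merge (leaf 5 494 590) (node 623 (merge (leaf 5 526 654) (leaf 6 527 655))))) (merge (node 592 (merge (leaf 4 495 624) (node 590 (merge (leaf 5 494 622) (node 589 (merge (leaf 2 557 561) (leaf 2 556 588))))))) (node 624 (merge (leaf 4 495 592) (node 623 (merge (leaf 6 527 655) (leaf 4 527 656))))))))))))))))) (merge (node 529 (merge (node 526 (merge (leaf 0 525 525) (node 497 (merge (leaf 2 494 498) (node 592 (merge (leaf 5 464 465) (leaf 6 496 624))))))) (merge (node 526 (merge (leaf 0 525 525) (node 558 (merge (leaf 1 525 557) (node 559 (merge (leaf 1 526 530) (node 494 (merge (leaf 3 493 493) (node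 462 (merge (leaf 4 430 430) (leaf 4 462 591))))))))))) (node 497 (merge (node 592 (merge (leaf 5 464 465) (leaf 6 496 624))) (merge (node 465 (merge (leaf 5 432 433) (node 466 (merge (leaf 6 433 434) (node 498 (merge (leaf 6 465 593) (node 499 (merge (leaf 1 496 500) (leaf 2 495 530))))))))) (node 498 (merge (node 499 (merge (leaf 1 496 500) (leaf 2 495 530))) (node 593 (merge (leaf 6 465 466) (node 625 (merge (leaf 7 528 657) (node 624 (merge (leaf 6 496 592) (leaf 5 528 656))))))))))))))) (merge (node 526 (merge (leaf 0 525 525) (node 558 (merge (node 559 (merge (node 590 (merge (leaf 1 557 589) (node 622 (merge (leaf 6 494 495) (leaf 6 526 654))))) (node 529 (merge (leaf 1 526 530) (node 494 (merge (leaf 3 493 493) (node 591 (merge (leaf 4 462 462) (leaf 7 494 623))))))))) (merge (node 529 (merge (leaf 1 525 557) (node 559 (merge (leaf 1 526 530) (node 494 (merge (leaf 3 493 493) (node 462 (merge (leaf 4 430 430) (leaf 4 462 591))))))))) (merge (node 559 (merge (node 557 (merge (leaf 2 525 529) (leaf 2 524 556))) (node 590 (merge (leaf 1 557 589) (node 622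 (merge (leaf 6 526 654) (node 495 (merge (leaf 5 462 463) (leaf 5 494 591))))))))) (merge (node 529 (merge (leaf 1 525 557) (node 498 (merge (leaf 2 494 497) (node 530 (merge (leaf 2 495 499) (node 494 (merge (leaf 3 493 493) (leaf 3 494 495))))))))) (node 590 (merge (node 622 (merge (leaf 6 494 495) (node 655 (merge (leaf 4 526 623) (node 654 (merge (leaf 6 526 559) (leaf 4 558 687))))))) (merge (node 622 (merge (node 655 (merge (leaf 4 526 623) (node 654 (merge (leaf 6 526 559) (leaf 4 558 687))))) (merge (node 654 (merge (leaf 6 526 559) (node 653 (merge (leaf 5 525 621) (leaf 5 557 685))))) (node 623 (merge (leaf 4 526 655) (node 494 (merge (leaf 4 494 591) (node 621 (merge (leaf 5 493 589) (leaf 5 525 653)))))))))) (node 494 (merge (node 493 (merge (leaf 7 461 461) (node 492 (merge (leaf 0 491 491) (leaf 0 492 495))))) (merge (node 589 (merge (leaf 5 493 621) (node 462 (merge (leaf 5 461 557) (node 463 (merge (leaf 6 430 431) (leaf 6 462 495))))))) (node 589 (merge (leaf 5 493 621) (node 462 (merge (leaf 5 461 557) (node 461 (merge (leaf 7 429 429) (leaf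 7 461 493)))))))))))))))))))) (node 590 (merge (node 558 (merge (node 559 (merge (leaf 1 557 589) (node 622 (merge (leaf 6 526 654) (node 495 (merge (leaf 5 462 463) (leaf 5 494 591))))))) (merge (node 525 (merge (leaf 0 525 526) (node 559 (merge (leaf 1 557 589) (node 557 (merge (leaf 3 524 524) (leaf 2 524 556))))))) (merge (node 526 (merge (leaf 0 525 525) (node 622 (merge (leaf 6 494 495) (node 655 (merge (leaf 4 526 623) (node 654 (merge (leaf 4 558 687) (node 653 (merge (leaf 5 525 621) (leaf 5 557 685))))))))))) (node 559 (merge (leaf 1 557 589) (node 525 (merge (leaf 3 525 526) (node 557 (merge (leaf 3 524 524) (node 556 (merge (leaf 2 524 527) (node 555 (merge (leaf 0 555 591) (node 587 (merge (leaf 1 554 586) (leaf 1 555 588))))))))))))))))) (merge (node 495 (merge (node 463 (merge (leaf 4 431 431) (node 592 (merge (leaf 4 463 559) (leaf 7 495 624))))) (merge (node 526 (merge (leaf 0 525 525) (node 558 (merge (leaf 6 494 622) (node 589 (merge (leaf 1 557 559) (node 494 (merge (leaf 5 493 621) (node 493 (merge (leaf 7 461 461) (leaf 0 492 492)))))))))))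 (node 526 (merge (leaf 0 525 525) (node 463 (merge (leaf 4 431 431) (node 558 (merge (leaf 6 462 494) (leaf 6 494 622)))))))))) (merge (node 495 (merge (node 463 (merge (leaf 4 431 431) (node 592 (merge (leaf 4 463 559) (leaf 7 495 624))))) (merge (node 463 (merge (leaf 4 431 431) (node 558 (merge (leaf 5 462 559) (node 526 (merge (leaf 6 462 494) (leaf 6 494 622))))))) (merge (node 526 (merge (leaf 0 525 525) (node 463 (merge (leaf 4 431 431) (node 558 (merge (leaf 6 462 494) (leaf 6 494 622))))))) (node 526 (merge (leaf 0 525 525) (node 622 (merge (leaf 6 494 558) (node 591 (merge (leaf 5 494 559) (node 592 (merge (leaf 7 495 624) (node 593 (merge (leaf 1 589 621) (node 625 (merge (leaf 0 590 626) (leaf 7 528 657))))))))))))))))) (merge (node 526 (merge (leaf 0 525 525) (node 558 (merge (node 495 (merge (leaf 6 494 622) (node 494 (merge (leaf 6 462 463) (node 493 (merge (leaf 7 461 461) (leaf 0 492 492))))))) (merge (node 622 (merge (leaf 6 494 495) (node 655 (merge (leaf 4 526 623) (node 654 (merge (leaf 4 558 687) (node 653 (merge (leaf 5 525 621) (leaf 5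 557 685))))))))) (merge (node 494 (merge (node 493 (merge (leaf 7 461 461) (node 492 (merge (leaf 0 491 491) (leaf 0 492 495))))) (merge (node 589 (merge (leaf 5 493 621) (node 462 (merge (leaf 5 461 557) (node 463 (merge (leaf 6 430 431) (leaf 6 462 495))))))) (node 589 (merge (leaf 5 493 621) (node 462 (merge (leaf 5 461 557) (node 461 (merge (leaf 7 429 429) (leaf 7 461 493)))))))))) (node 591 (merge (node 623 (merge (leaf 4 494 494) (node 655 (merge (leaf 4 526 622) (leaf 7 558 687))))) (merge (node 589 (merge (leaf 2 557 592) (node 494 (merge (leaf 5 493 621) (node 462 (merge (leaf 5 461 557) (node 461 (merge (leaf 7 429 429) (leaf 7 461 493))))))))) (node 592 (merge (leaf 2 557 589) (node 593 (merge (leaf 3 557 557) (node 622 (merge (leaf 1 589 621) (node 623 (merge (leaf 1 590 594) (leaf 4 526 655)))))))))))))))))) (merge (node 495 (merge (node 463 (merge (leaf 4 431 431) (node 592 (merge (leaf 4 463 559) (leaf 7 495 624))))) (merge (node 526 (merge (leaf 0 525 525) (node 592 (merge (leaf 7 495 624) (node 589 (merge (leaf 2 557 591) (node 558 (merge (leaf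 1 557 559) (node 494 (merge (leaf 5 493 621) (node 493 (merge (leaf 7 461 461) (leaf 0 492 492))))))))))))) (merge (node 526 (merge (leaf 0 525 525) (node 463 (merge (leaf 4 431 431) (node 558 (merge (leaf 6 462 494) (node 592 (merge (leaf 7 495 624) (node 591 (merge (leaf 2 557 589) (node 593 (merge (leaf 3 557 557) (node 625 (merge (leaf 0 590 626) (leaf 7 528 657))))))))))))))) (node 463 (merge (leaf 4 431 431) (node 559 (merge (leaf 5 462 558) (node 464 (merge (leaf 6 431 432) (node 462 (merge (leaf 7 430 430) (node 494 (merge (leaf 7 462 591) (node 493 (merge (leaf 1 461 465) (leaf 0 492 492))))))))))))))))) (merge (node 592 (merge (node 589 (merge (leaf 2 557 591) (node 559 (merge (leaf 1 557 558) (node 624 (merge (leaf 7 527 656) (node 625 (merge (leaf 4 528 657) (node 623 (merge (leaf 3 589 622) (leaf 5 527 655))))))))))) (merge (node 624 (merge (leaf 7 495 495) (node 625 (merge (leaf 4 528 657) (node 591 (merge (leaf 0 589 589) (node 626 (merge (leaf 0 590 593) (leaf 3 590 623))))))))) (merge (node 624 (merge (leaf 7 495 495) (node 656 (merge (leaf 7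 527 559) (node 689 (merge (leaf 4 560 657) (node 688 (merge (leaf 6 560 593) (leaf 4 592 721))))))))) (node 591 (merge (node 589 (merge (leaf 2 557 561) (node 588 (merge (leaf 2 556 559) (node 620 (merge (leaf 1 587 619) (leaf 1 588 621))))))) (merge (node 593 (merge (node 626 (merge (leaf 0 590 625) (node 594 (merge (leaf 0 591 627) (node 558 (merge (leaf 3 557 557) (leaf 3 558 559))))))) (merge (node 622 (merge (leaf 1 589 621) (node 559 (merge (leaf 5 494 495) (node 623 (merge (leaf 5 526 654) (leaf 6 527 655))))))) (node 626 (merge (leaf 0 590 625) (node 594 (merge (leaf 0 591 627) (node 622 (merge (leaf 1 589 621) (leaf 1 590 623)))))))))) (merge (node 589 (merge (leaf 2 557 561) (node 620 (merge (leaf 1 588 621) (node 588 (merge (leaf 1 587 619) (node 556 (merge (leaf 3 555 555) (leaf 3 556 557))))))))) (node 589 (merge (leaf 2 557 561) (node 559 (merge (leaf 2 556 588) (node 495 (merge (leaf 4 463 463) (leaf 5 494 622))))))))))))))) (merge (node 559 (merge (node 558 (merge (leaf 1 557 589) (node 593 (merge (leaf 0 558 594) (node 557 (merge (leaf 2 524 556)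 (leaf 0 557 592))))))) (merge (node 525 (merge (leaf 0 525 526) (node 558 (merge (leaf 1 557 589) (node 557 (merge (leaf 3 524 524) (leaf 2 524 556))))))) (merge (node 558 (merge (leaf 1 557 589) (node 593 (merge (leaf 0 558 594) (node 625 (merge (leaf 7 528 657) (node 592 (merge (leaf 0 557 557) (node 591 (merge (leaf 0 590 626) (node 526 (merge (leaf 3 525 525) (node 623 (merge (leaf 4 494 494) (leaf 7 526 655))))))))))))))) (merge (node 591 (merge (node 526 (merge (leaf 0 525 525) (node 623 (merge (leaf 7 494 494) (leaf 6 527 655))))) (node 589 (merge (leaf 2 557 592) (node 588 (merge (leaf 2 556 559) (node 619 (merge (leaf 1 587 620) (node 587 (merge (leaf 1 586 618) (node 555 (merge (leaf 3 554 554) (leaf 3 555 556))))))))))))) (node 558 (merge (node 593 (merge (leaf 0 558 594) (node 557 (merge (leaf 2 524 556) (leaf 0 557 592))))) (merge (node 525 (merge (leaf 0 525 526) (node 557 (merge (leaf 3 524 524) (leaf 2 524 556))))) (node 526 (merge (leaf 0 525 525) (node 622 (merge (leaf 6 526 654) (node 623 (merge (leaf 4 526 655) (node 591 (merge (leaf 4 494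 494) (node 621 (merge (leaf 5 525 653) (node 592 (merge (leaf 1 589 593) (leaf 2 588 620))))))))))))))))))))) (node 591 (merge (node 592 (merge (leaf 2 557 589) (node 624 (merge (leaf 7 495 495) (node 625 (merge (leaf 4 528 657) (node 626 (merge (leaf 0 590 593) (leaf 3 591 627))))))))) (merge (node 589 (merge (leaf 2 557 592) (node 588 (merge (leaf 2 556 559) (node 619 (merge (leaf 1 587 620) (node 587 (merge (leaf 1 586 618) (node 555 (merge (leaf 3 554 554) (leaf 3 555 556))))))))))) (node 559 (merge (node 623 (merge (leaf 6 527 655) (node 622 (merge (leaf 5 494 495) (leaf 5 526 654))))) (merge (node 526 (merge (leaf 0 525 525) (node 623 (merge (leaf 7 494 494) (leaf 6 527 655))))) (node 495 (merge (leaf 5 494 622) (node 463 (merge (leaf 4 431 431) (node 462 (merge (leaf 7 430 430) (leaf 7 462 494)))))))))))))))))))))))))))) nC_20 cC_20 11 (by decide +kernel)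
def nC_21 : ℕ := 0x100000001000000000000000000000000000000000000000000000000000000000000000000000000000000000000000000000000000000000000000000000000000000000000
def cC_21 : ℕ := 0xe8000000fa000007ff000003ffc0000fffc00007efc000076f800001ef800000fe000000fe00000020000000000000000000000000000000000000000000000000000000000000000000000000000000000000000000000000000
theorem lC_21 : S nC_21 cC_21 13 := S_of_chk [(nC_19, cC_19, 12), (nC_20, cC_20, 11)] ⟨lC_19, lC_20, trivial⟩ (node 561 (merge (node 562 (merge (node 527 (merge (leaf 3 527 563) (node 526 (merge (leaf 0 525 525) (leaf 3 526 559))))) (merge (node 563 (merge (leaf 3 527 527) (node 596 (merge (leaf 0 560 595) (node 564 (merge (leaf 3 528 529) (leaf 0 561 597))))))) (merge (node 559 (merge (node 590 (merge (leaf 1 558 591) (node 558 (merge (leaf 1 557 589) (node 529 (merge (leaf 2 526 530) (leaf 2 525 557))))))) (merge (node 595 (merge (leaf 0 559 594) (node 563 (merge (leaf 0 560 596) (node 591 (merge (leaf 1 558 590) (leaf 1 559 592))))))) (node 595 (merge (leaf 0 559 594) (node 563 (merge (leaf 0 560 596)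 (node 529 (merge (leaf 3 528 564) (node 558 (merge (leaf 2 526 530) (leaf 2 525 557)))))))))))) (node 559 (merge (node 590 (merge (leaf 1 558 591) (node 558 (merge (leaf 1 557 589) (node 529 (merge (leaf 2 526 530) (leaf 2 525 557))))))) (merge (node 526 (merge (leaf 3 526 527) (node 558 (merge (leaf 3 525 525) (node 529 (merge (leaf 2 526 530) (leaf 2 525 557))))))) (node 591 (merge (leaf 1 558 590) (node 527 (merge (leaf 3 526 526) (node 623 (merge (leaf 6 527 655) (node 624 (merge (leaf 4 527 656) (node 495 (merge (leaf 4 495 592) (node 463 (merge (leaf 4 431 431) (node 462 (merge (leaf 7 430 430) (leaf 7 462 494)))))))))))))))))))))) (merge (node 527 (merge (node 562 (merge (leaf 3 527 563) (node 526 (merge (leaf 0 526 529) (leaf 3 526 559))))) (merge (node 526 (merge (leaf 0 525 525) (node 562 (merge (leaf 3 526 559) (leaf 3 527 563))))) (merge (node 526 (merge (leaf 0 525 525) (node 562 (merge (leaf 0 526 529) (leaf 3 527 563))))) (merge (node 526 (merge (leaf 0 525 525) (node 529 (merge (node 497 (merge (leaf 2 494 498) (node 592 (merge (leaf 5 464 465)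 (leaf 6 496 624))))) (merge (node 558 (merge (leaf 1 525 557) (node 530 (merge (leaf 1 526 559) (node 498 (merge (leaf 2 494 497) (leaf 2 495 499))))))) (node 558 (merge (leaf 1 525 557) (node 559 (merge (leaf 1 526 530) (node 590 (merge (leaf 1 557 589) (node 495 (merge (leaf 5 462 463) (leaf 6 494 622)))))))))))))) (node 559 (merge (node 562 (merge (leaf 3 527 563) (node 594 (merge (leaf 0 559 595) (node 558 (merge (leaf 0 558 593) (node 557 (merge (leaf 2 525 529) (leaf 2 524 556))))))))) (merge (node 558 (merge (node 557 (merge (leaf 2 525 529) (leaf 2 524 556))) (node 590 (merge (leaf 1 557 589) (node 622 (merge (leaf 6 526 654) (node 495 (merge (leaf 5 462 463) (leaf 5 494 591))))))))) (merge (node 562 (merge (leaf 3 527 563) (node 594 (merge (leaf 0 559 595) (node 558 (merge (leaf 0 558 593) (node 589 (merge (leaf 1 557 590) (node 557 (merge (leaf 2 524 556) (leaf 1 556 588))))))))))) (node 592 (merge (node 624 (merge (leaf 7 495 495) (leaf 7 527 656))) (merge (node 624 (merge (leaf 7 527 656) (node 562 (merge (leaf 3 527 563) (node 591 (merge (leaf 1 558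 590) (node 625 (merge (leaf 4 528 657) (node 626 (merge (leaf 3 591 627) (node 529 (merge (leaf 6 496 497) (node 658 (merge (leaf 4 529 593) (leaf 7 529 594))))))))))))))) (node 562 (merge (leaf 3 527 563) (node 594 (merge (leaf 0 559 595) (node 591 (merge (leaf 1 558 590) (node 495 (merge (leaf 4 463 463) (node 494 (merge (leaf 7 462 462) (node 529 (merge (leaf 3 494 530) (node 626 (merge (leaf 7 529 658) (node 497 (merge (leaf 4 465 465) (leaf 4 497 593))))))))))))))))))))))))))))) (merge (node 527 (merge (node 526 (merge (leaf 0 525 525) (node 562 (merge (leaf 0 526 529) (leaf 3 526 559))))) (merge (node 526 (merge (leaf 0 525 525) (node 529 (merge (leaf 0 526 562) (node 498 (merge (leaf 2 494 497) (node 530 (merge (leaf 2 495 499) (node 494 (merge (leaf 3 493 493) (leaf 3 494 495))))))))))) (merge (node 559 (merge (node 558 (merge (node 557 (merge (leaf 2 525 529) (leaf 2 524 556))) (node 590 (merge (leaf 1 557 589) (node 622 (merge (leaf 6 526 654) (node 495 (merge (leaf 5 462 463) (leaf 5 494 591))))))))) (merge (node 558 (merge (node 557 (merge (leaf 2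 525 529) (leaf 2 524 556))) (merge (node 557 (merge (leaf 2 524 556) (node 592 (merge (leaf 0 557 593) (node 624 (merge (leaf 7 495 495) (leaf 7 527 656))))))) (node 593 (merge (leaf 0 558 594) (node 625 (merge (leaf 7 528 657) (node 529 (merge (leaf 1 526 530) (node 624 (merge (leaf 5 528 656) (node 592 (merge (leaf 7 495 495) (leaf 5 496 497)))))))))))))) (merge (node 558 (merge (node 557 (merge (leaf 2 524 556) (node 589 (merge (leaf 1 556 588) (leaf 1 557 590))))) (merge (node 590 (merge (leaf 1 557 589) (node 622 (merge (leaf 6 526 654) (node 495 (merge (leaf 5 462 463) (leaf 5 494 591))))))) (node 557 (merge (leaf 2 524 556) (node 592 (merge (leaf 0 557 593) (node 624 (merge (leaf 7 495 495) (leaf 7 527 656)))))))))) (merge (node 558 (merge (node 557 (merge (leaf 2 525 529) (leaf 2 524 556))) (merge (node 557 (merge (leaf 2 524 556) (node 589 (merge (leaf 1 556 588) (leaf 1 557 590))))) (node 593 (merge (leaf 0 558 594) (node 625 (merge (leaf 7 528 657) (node 529 (merge (leaf 1 526 530) (node 590 (merge (leaf 1 557 589) (node 626 (merge (leaf 4 529 658)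 (node 592 (merge (leaf 0 590 591) (node 624 (merge (leaf 5 496 497) (leaf 7 527 656)))))))))))))))))) (node 495 (merge (node 592 (merge (leaf 4 463 463) (leaf 7 495 624))) (merge (node 463 (merge (leaf 4 431 431) (node 462 (merge (leaf 7 430 430) (node 591 (merge (leaf 7 462 494) (node 622 (merge (leaf 5 494 590) (node 623 (merge (leaf 5 526 654) (leaf 6 527 655))))))))))) (node 591 (merge (node 592 (merge (leaf 4 495 624) (node 590 (merge (leaf 5 494 622) (node 589 (merge (leaf 2 557 561) (leaf 2 556 588))))))) (merge (node 622 (merge (leaf 5 494 590) (node 623 (merge (leaf 5 526 654) (leaf 6 527 655))))) (merge (node 592 (merge (leaf 4 495 624) (node 590 (merge (leaf 5 494 622) (node 589 (merge (leaf 2 557 561) (leaf 2 556 588))))))) (node 624 (merge (leaf 4 495 592) (node 623 (merge (leaf 6 527 655) (leaf 4 527 656))))))))))))))))) (node 559 (merge (node 526 (merge (leaf 0 525 525) (leaf 3 526 562))) (node 558 (merge (node 557 (merge (leaf 2 524 556) (node 589 (merge (leaf 1 556 588) (leaf 1 557 590))))) (merge (node 590 (merge (leaf 1 557 589) (node 622 (merge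 (leaf 6 526 654) (node 495 (merge (leaf 5 462 463) (leaf 5 494 591))))))) (node 557 (merge (leaf 2 524 556) (node 592 (merge (leaf 0 557 593) (node 624 (merge (leaf 7 495 495) (leaf 7 527 656)))))))))))))))) (merge (node 562 (merge (node 527 (merge (leaf 3 527 563) (node 526 (merge (leaf 0 525 525) (leaf 3 526 559))))) (merge (node 563 (merge (leaf 3 527 527) (node 596 (merge (leaf 0 560 595) (node 564 (merge (leaf 0 561 597) (node 592 (merge (leaf 1 559 591) (leaf 1 560 593))))))))) (merge (node 559 (merge (node 594 (merge (leaf 0 559 595) (node 558 (merge (leaf 0 558 593) (node 526 (merge (leaf 3 525 525) (leaf 3 526 527))))))) (merge (node 594 (merge (leaf 0 559 595) (node 558 (merge (leaf 0 558 593) (node 590 (merge (leaf 1 557 589) (leaf 1 558 591))))))) (node 591 (merge (leaf 1 558 590) (node 527 (merge (leaf 3 526 526) (node 623 (merge (leaf 6 527 655) (node 624 (merge (leaf 4 527 656) (node 495 (merge (leaf 4 495 592) (node 463 (merge (leaf 4 431 431) (node 462 (merge (leaf 7 430 430) (leaf 7 462 494)))))))))))))))))) (node 559 (merge (node 595 (merge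 (leaf 0 559 594) (node 563 (merge (leaf 0 560 596) (node 591 (merge (leaf 1 558 590) (leaf 1 559 592))))))) (merge (node 558 (merge (node 590 (merge (leaf 1 557 589) (leaf 1 558 591))) (merge (node 589 (merge (leaf 1 557 590) (node 557 (merge (leaf 1 556 588) (node 525 (merge (leaf 3 524 524) (leaf 3 525 526))))))) (merge (node 525 (merge (leaf 3 525 526) (node 557 (merge (leaf 3 524 524) (node 592 (merge (leaf 0 557 593) (node 591 (merge (leaf 0 556 556) (leaf 1 559 563))))))))) (node 525 (merge (leaf 3 525 526) (node 557 (merge (leaf 3 524 524) (node 592 (merge (leaf 0 557 593) (node 591 (merge (leaf 0 556 556) (node 562 (merge (leaf 1 559 563) (leaf 1 558 590))))))))))))))) (merge (node 594 (merge (leaf 0 559 595) (node 558 (merge (leaf 0 558 593) (node 589 (merge (leaf 1 557 590) (node 557 (merge (leaf 1 556 588) (node 525 (merge (leaf 3 524 524) (leaf 3 525 526))))))))))) (node 563 (merge (node 595 (merge (leaf 0 559 594) (leaf 0 560 596))) (merge (node 592 (merge (leaf 1 559 591) (node 564 (merge (leaf 1 560 593) (node 597 (merge (leaf 0 561 596) (node 565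 (merge (leaf 0 562 598) (node 533 (merge (leaf 2 529 532) (leaf 2 530 534))))))))))) (node 594 (merge (leaf 0 559 595) (node 593 (merge (leaf 0 558 558) (node 592 (merge (leaf 1 560 564) (leaf 1 559 591)))))))))))))))))) (merge (node 562 (merge (node 527 (merge (leaf 3 527 563) (node 526 (merge (leaf 0 525 525) (leaf 3 526 559))))) (merge (node 563 (merge (leaf 3 527 527) (node 596 (merge (leaf 0 560 595) (node 564 (merge (leaf 3 528 529) (leaf 0 561 597))))))) (merge (node 559 (merge (node 590 (merge (leaf 1 558 591) (node 558 (merge (leaf 1 557 589) (node 529 (merge (leaf 2 526 530) (leaf 2 525 557))))))) (merge (node 595 (merge (leaf 0 559 594) (node 563 (merge (leaf 0 560 596) (node 591 (merge (leaf 1 558 590) (leaf 1 559 592))))))) (node 595 (merge (leaf 0 559 594) (node 563 (merge (leaf 0 560 596) (node 529 (merge (leaf 3 528 564) (node 558 (merge (leaf 2 526 530) (leaf 2 525 557)))))))))))) (node 527 (merge (node 526 (merge (leaf 0 525 525) (leaf 3 526 559))) (merge (node 526 (merge (leaf 0 525 525) (leaf 0 526 529))) (node 529 (merge (node 559 (merge (node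 594 (merge (leaf 0 559 595) (node 626 (merge (leaf 7 529 658) (node 497 (merge (leaf 4 465 465) (leaf 7 497 530))))))) (node 558 (merge (leaf 2 525 557) (node 590 (merge (leaf 1 557 589) (leaf 1 558 591))))))) (merge (node 594 (merge (node 626 (merge (leaf 7 529 658) (node 497 (merge (leaf 4 465 465) (leaf 4 497 593))))) (merge (node 595 (merge (leaf 0 559 559) (node 596 (merge (leaf 3 560 593) (leaf 3 561 597))))) (node 559 (merge (leaf 0 559 595) (node 590 (merge (leaf 1 558 591) (node 558 (merge (leaf 2 525 557) (leaf 1 557 589)))))))))) (merge (node 530 (merge (node 559 (merge (leaf 1 526 558) (node 495 (merge (leaf 3 494 494) (node 463 (merge (leaf 4 431 431) (leaf 4 463 592))))))) (merge (node 498 (merge (leaf 2 495 499) (node 593 (merge (leaf 5 465 466) (leaf 6 497 625))))) (node 498 (merge (leaf 2 495 499) (node 466 (merge (leaf 5 433 434) (node 593 (merge (leaf 6 465 497) (leaf 6 497 625)))))))))) (merge (node 559 (merge (node 558 (merge (leaf 2 526 530) (leaf 2 525 557))) (merge (node 558 (merge (leaf 2 525 557) (node 590 (merge (leaf 1 557 589) (leaf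 1 558 591))))) (node 594 (merge (leaf 0 559 595) (node 591 (merge (leaf 1 558 590) (node 623 (merge (leaf 6 527 655) (node 622 (merge (leaf 5 526 654) (node 592 (merge (leaf 1 590 593) (node 495 (merge (leaf 4 463 463) (node 494 (merge (leaf 7 462 462) (leaf 3 494 530)))))))))))))))))) (node 497 (merge (node 465 (merge (leaf 5 432 433) (leaf 4 465 594))) (merge (node 593 (merge (node 625 (merge (leaf 7 528 657) (node 626 (merge (leaf 4 497 594) (leaf 4 529 658))))) (merge (node 625 (merge (leaf 7 528 657) (node 498 (merge (leaf 6 465 466) (leaf 6 497 530))))) (node 594 (merge (leaf 4 497 626) (node 595 (merge (leaf 3 560 596) (node 498 (merge (leaf 6 465 466) (node 499 (merge (leaf 1 496 500) (node 530 (merge (leaf 6 466 467) (leaf 4 498 627)))))))))))))) (node 465 (merge (leaf 5 432 433) (node 466 (merge (leaf 6 433 434) (node 498 (merge (leaf 6 465 593) (node 499 (merge (leaf 1 496 500) (node 464 (merge (leaf 7 432 432) (leaf 0 463 463)))))))))))))))))))))))))) (merge (node 527 (merge (node 526 (merge (leaf 0 525 525) (node 562 (merge (leaf 3 526 559) (leaf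 3 527 563))))) (merge (node 526 (merge (leaf 0 525 525) (node 562 (merge (leaf 0 526 529) (leaf 3 527 563))))) (merge (node 526 (merge (leaf 0 525 525) (node 529 (merge (node 497 (merge (leaf 2 494 498) (node 592 (merge (leaf 5 464 465) (leaf 6 496 624))))) (merge (node 558 (merge (leaf 1 525 557) (node 530 (merge (leaf 1 526 559) (node 498 (merge (leaf 2 494 497) (leaf 2 495 499))))))) (node 558 (merge (leaf 1 525 557) (node 559 (merge (leaf 1 526 530) (node 590 (merge (leaf 1 557 589) (node 495 (merge (leaf 5 462 463) (leaf 6 494 622)))))))))))))) (node 562 (merge (leaf 3 527 563) (node 529 (merge (node 594 (merge (node 626 (merge (leaf 7 529 658) (node 497 (merge (leaf 4 465 465) (leaf 4 497 593))))) (merge (node 595 (merge (leaf 0 559 559) (node 596 (merge (leaf 3 560 593) (leaf 3 561 597))))) (node 626 (merge (leaf 7 529 658) (node 497 (merge (leaf 4 465 465) (leaf 7 497 530)))))))) (merge (node 495 (merge (node 463 (merge (leaf 4 431 431) (node 592 (merge (leaf 4 463 559) (leaf 7 495 624))))) (merge (node 530 (merge (leaf 3 494 494) (node 498 (merge (leaf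 2 495 499) (node 466 (merge (leaf 5 433 434) (node 593 (merge (leaf 5 465 562) (leaf 6 497 625))))))))) (node 530 (merge (leaf 3 494 494) (node 498 (merge (leaf 2 495 499) (node 466 (merge (leaf 5 433 434) (node 593 (merge (leaf 5 465 562) (leaf 6 497 625)))))))))))) (merge (node 594 (merge (node 626 (merge (leaf 7 529 658) (node 497 (merge (leaf 4 465 465) (leaf 4 497 593))))) (merge (node 595 (merge (leaf 0 559 559) (node 596 (merge (leaf 3 560 593) (leaf 3 561 597))))) (node 626 (merge (leaf 7 529 658) (node 595 (merge (leaf 0 559 559) (node 596 (merge (leaf 3 561 597) (node 497 (merge (leaf 4 465 465) (node 624 (merge (leaf 6 496 592) (node 625 (merge (leaf 2 591 623) (leaf 2 592 627)))))))))))))))) (merge (node 530 (merge (node 559 (merge (leaf 1 526 558) (node 495 (merge (leaf 3 494 494) (node 463 (merge (leaf 4 431 431) (leaf 4 463 592))))))) (merge (node 498 (merge (leaf 2 495 499) (node 466 (merge (leaf 5 433 434) (node 465 (merge (leaf 7 433 433) (node 594 (merge (leaf 4 465 497) (node 626 (merge (leaf 7 529 658) (node 627 (merge (leaf 4 498 595) (leaf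 4 530 659))))))))))))) (node 498 (merge (leaf 2 495 499) (node 495 (merge (leaf 3 494 494) (node 466 (merge (leaf 5 433 434) (node 465 (merge (leaf 7 433 433) (node 592 (merge (leaf 5 464 497) (leaf 7 495 624)))))))))))))) (node 593 (merge (node 625 (merge (leaf 7 528 657) (node 624 (merge (leaf 5 528 656) (node 592 (merge (leaf 7 495 495) (leaf 6 496 497))))))) (merge (node 625 (merge (leaf 7 528 657) (node 498 (merge (leaf 6 497 530) (node 497 (merge (leaf 6 465 466) (node 465 (merge (leaf 5 432 433) (leaf 5 464 592))))))))) (merge (node 625 (merge (leaf 7 528 657) (node 624 (merge (leaf 5 528 656) (node 530 (merge (leaf 6 497 498) (node 495 (merge (leaf 3 494 494) (leaf 7 495 592))))))))) (merge (node 497 (merge (node 592 (merge (leaf 5 464 465) (leaf 6 496 624))) (merge (node 465 (merge (leaf 5 432 433) (node 466 (merge (leaf 6 433 434) (node 498 (merge (leaf 6 465 593) (node 499 (merge (leaf 1 496 500) (node 464 (merge (leaf 7 432 432) (leaf 0 463 463))))))))))) (node 594 (merge (leaf 4 497 626) (node 595 (merge (leaf 3 560 596) (node 498 (merge (leaf 6 465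 466) (node 530 (merge (leaf 2 495 499) (leaf 4 498 627)))))))))))) (node 625 (merge (leaf 7 528 657) (node 626 (merge (leaf 4 529 658) (node 594 (merge (leaf 4 497 497) (node 595 (merge (leaf 3 560 596) (node 624 (merge (leaf 2 591 623) (leaf 5 528 656))))))))))))))))))))))))))) (merge (node 562 (merge (node 527 (merge (leaf 3 527 563) (node 526 (merge (leaf 0 525 525) (leaf 3 526 559))))) (merge (node 563 (merge (leaf 3 527 527) (node 596 (merge (leaf 0 560 595) (node 564 (merge (leaf 3 528 529) (leaf 0 561 597))))))) (merge (node 559 (merge (node 590 (merge (leaf 1 558 591) (node 558 (merge (leaf 1 557 589) (node 529 (merge (leaf 2 526 530) (leaf 2 525 557))))))) (merge (node 594 (merge (leaf 0 559 595) (node 558 (merge (leaf 0 558 593) (node 526 (merge (leaf 3 525 525) (leaf 3 526 527))))))) (node 594 (merge (leaf 0 559 595) (node 591 (merge (leaf 1 558 590) (node 527 (merge (leaf 3 526 526) (node 623 (merge (leaf 6 527 655) (node 624 (merge (leaf 4 527 656) (node 622 (merge (leaf 5 526 654) (node 625 (merge (leaf 2 590 593) (node 658 (merge (leaf 0 622 657)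 (node 626 (merge (leaf 7 529 529) (leaf 0 623 659)))))))))))))))))))))) (node 563 (merge (node 595 (merge (leaf 0 560 596) (node 559 (merge (leaf 0 559 594) (node 590 (merge (leaf 1 558 591) (node 558 (merge (leaf 1 557 589) (node 529 (merge (leaf 2 526 530) (leaf 2 525 557))))))))))) (merge (node 564 (merge (leaf 3 528 529) (node 597 (merge (leaf 0 561 596) (node 565 (merge (leaf 0 562 598) (node 533 (merge (leaf 2 529 532) (leaf 2 530 534))))))))) (merge (node 564 (merge (leaf 3 528 529) (node 533 (merge (leaf 2 529 532) (node 565 (merge (leaf 2 530 534) (node 598 (merge (leaf 0 562 597) (node 566 (merge (leaf 0 563 599) (node 594 (merge (leaf 1 561 593) (leaf 1 562 595))))))))))))) (node 564 (merge (node 596 (merge (leaf 0 560 595) (leaf 0 561 597))) (merge (node 597 (merge (leaf 0 561 596) (node 565 (merge (leaf 0 562 598) (node 533 (merge (leaf 2 529 532) (leaf 2 530 534))))))) (merge (node 533 (merge (leaf 2 529 532) (node 565 (merge (leaf 2 530 534) (node 598 (merge (leaf 0 562 597) (node 566 (merge (leaf 0 563 599) (node 594 (merge (leaf 1 561 593) (leaf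 1 562 595))))))))))) (node 595 (merge (leaf 0 560 596) (node 594 (merge (leaf 0 559 559) (node 565 (merge (leaf 1 562 566) (leaf 1 561 593))))))))))))))))))) (merge (node 527 (merge (node 562 (merge (leaf 3 527 563) (node 526 (merge (leaf 0 526 529) (leaf 3 526 559))))) (merge (node 562 (merge (leaf 3 527 563) (node 559 (merge (leaf 3 526 526) (node 594 (merge (leaf 0 559 595) (node 558 (merge (leaf 0 558 593) (node 589 (merge (leaf 1 557 590) (node 557 (merge (leaf 2 524 556) (leaf 1 556 588))))))))))))) (merge (node 559 (merge (node 558 (merge (node 557 (merge (leaf 2 525 529) (leaf 2 524 556))) (node 590 (merge (leaf 1 557 589) (node 622 (merge (leaf 6 526 654) (node 495 (merge (leaf 5 462 463) (leaf 5 494 591))))))))) (merge (node 558 (merge (node 557 (merge (leaf 2 525 529) (leaf 2 524 556))) (merge (node 557 (merge (leaf 2 524 556) (node 592 (merge (leaf 0 557 593) (node 624 (merge (leaf 7 495 495) (leaf 7 527 656))))))) (node 593 (merge (leaf 0 558 594) (node 625 (merge (leaf 7 528 657) (node 529 (merge (leaf 1 526 530) (node 624 (merge (leaf 5 528 656)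 (node 592 (merge (leaf 7 495 495) (leaf 5 496 497)))))))))))))) (merge (node 558 (merge (node 557 (merge (leaf 2 524 556) (node 589 (merge (leaf 1 556 588) (leaf 1 557 590))))) (merge (node 590 (merge (leaf 1 557 589) (node 622 (merge (leaf 6 526 654) (node 495 (merge (leaf 5 462 463) (leaf 5 494 591))))))) (node 557 (merge (leaf 2 524 556) (node 592 (merge (leaf 0 557 593) (node 624 (merge (leaf 7 495 495) (leaf 7 527 656)))))))))) (merge (node 558 (merge (node 557 (merge (leaf 2 525 529) (leaf 2 524 556))) (merge (node 557 (merge (leaf 2 524 556) (node 589 (merge (leaf 1 556 588) (leaf 1 557 590))))) (node 593 (merge (leaf 0 558 594) (node 625 (merge (leaf 7 528 657) (node 529 (merge (leaf 1 526 530) (node 590 (merge (leaf 1 557 589) (node 626 (merge (leaf 4 529 658) (node 592 (merge (leaf 0 590 591) (node 624 (merge (leaf 5 496 497) (leaf 7 527 656)))))))))))))))))) (node 495 (merge (node 592 (merge (leaf 4 463 463) (leaf 7 495 624))) (merge (node 463 (merge (leaf 4 431 431) (node 462 (merge (leaf 7 430 430) (node 591 (merge (leaf 7 462 494) (node 622 (merge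 (leaf 5 494 590) (node 623 (merge (leaf 5 526 654) (leaf 6 527 655))))))))))) (node 591 (merge (node 592 (merge (leaf 4 495 624) (node 590 (merge (leaf 5 494 622) (node 589 (merge (leaf 2 557 561) (leaf 2 556 588))))))) (merge (node 622 (merge (leaf 5 494 590) (node 623 (merge (leaf 5 526 654) (leaf 6 527 655))))) (merge (node 592 (merge (leaf 4 495 624) (node 590 (merge (leaf 5 494 622) (node 589 (merge (leaf 2 557 561) (leaf 2 556 588))))))) (node 624 (merge (leaf 4 495 592) (node 623 (merge (leaf 6 527 655) (leaf 4 527 656))))))))))))))))) (node 529 (merge (node 562 (merge (leaf 0 526 526) (leaf 3 527 563))) (merge (node 497 (merge (node 592 (merge (leaf 6 496 624) (node 465 (merge (leaf 5 432 433) (leaf 5 464 561))))) (merge (node 498 (merge (leaf 2 494 526) (node 499 (merge (leaf 1 496 500) (leaf 2 495 530))))) (node 498 (merge (leaf 2 494 526) (node 499 (merge (leaf 1 496 500) (leaf 2 495 530)))))))) (node 593 (merge (node 625 (merge (leaf 7 528 657) (node 624 (merge (leaf 5 528 656) (node 592 (merge (leaf 7 495 495) (leaf 6 496 497))))))) (merge (node 625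 (merge (leaf 7 528 657) (node 626 (merge (leaf 4 529 658) (node 497 (merge (leaf 4 497 594) (node 465 (merge (leaf 5 432 433) (leaf 5 464 592))))))))) (merge (node 625 (merge (leaf 7 528 657) (node 626 (merge (leaf 4 529 658) (node 497 (merge (leaf 4 497 594) (node 465 (merge (leaf 5 432 433) (node 466 (merge (leaf 6 433 434) (leaf 6 465 498))))))))))) (merge (node 592 (merge (node 624 (merge (leaf 7 495 495) (leaf 6 528 656))) (merge (node 562 (merge (leaf 3 527 563) (node 497 (merge (leaf 5 464 465) (node 594 (merge (leaf 4 497 626) (node 595 (merge (leaf 3 560 596) (node 498 (merge (leaf 6 465 466) (node 530 (merge (leaf 2 495 499) (leaf 4 498 627))))))))))))) (node 497 (merge (leaf 5 464 465) (leaf 5 496 624)))))) (node 625 (merge (leaf 7 528 657) (node 624 (merge (leaf 5 528 656) (node 592 (merge (leaf 7 495 495) (node 623 (merge (leaf 5 527 655) (node 622 (merge (leaf 2 590 594) (leaf 2 589 621))))))))))))))))))))))) (merge (node 559 (merge (node 558 (merge (node 529 (merge (leaf 2 526 530) (leaf 2 525 557))) (node 590 (merge (leaf 1 557 589) (node 591 (merge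 (leaf 1 558 562) (node 526 (merge (leaf 3 525 525) (node 623 (merge (leaf 4 494 494) (leaf 7 526 655))))))))))) (merge (node 590 (merge (node 562 (merge (leaf 1 558 591) (node 527 (merge (leaf 3 526 526) (leaf 3 527 563))))) (merge (node 589 (merge (leaf 1 557 558) (node 591 (merge (leaf 2 556 588) (leaf 2 557 592))))) (node 558 (merge (leaf 1 557 589) (node 526 (merge (leaf 3 525 525) (node 527 (merge (leaf 3 526 562) (node 622 (merge (leaf 6 494 495) (leaf 6 526 654)))))))))))) (merge (node 562 (merge (node 527 (merge (leaf 3 526 526) (leaf 3 527 563))) (merge (node 591 (merge (leaf 1 558 590) (node 563 (merge (leaf 1 559 592) (node 596 (merge (leaf 0 560 595) (node 564 (merge (leaf 3 528 529) (leaf 0 561 597))))))))) (node 591 (merge (leaf 1 558 590) (node 527 (merge (leaf 3 526 526) (node 623 (merge (leaf 6 527 655) (node 624 (merge (leaf 4 527 656) (node 592 (merge (leaf 4 495 495) (node 622 (merge (leaf 5 526 654) (node 621 (merge (leaf 2 589 593) (leaf 2 588 620)))))))))))))))))) (merge (node 558 (merge (node 529 (merge (leaf 2 526 530) (leaf 2 525 557)))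 (merge (node 589 (merge (leaf 1 557 590) (node 557 (merge (leaf 1 556 588) (node 556 (merge (leaf 2 524 527) (node 524 (merge (leaf 3 523 523) (leaf 3 524 525))))))))) (node 590 (merge (leaf 1 557 589) (node 562 (merge (leaf 1 558 591) (node 529 (merge (leaf 2 526 530) (node 563 (merge (leaf 3 527 527) (leaf 3 528 564)))))))))))) (merge (node 529 (merge (node 558 (merge (leaf 2 526 530) (leaf 2 525 557))) (merge (node 527 (merge (node 526 (merge (leaf 0 525 525) (node 497 (merge (leaf 2 494 498) (node 592 (merge (leaf 5 464 465) (leaf 6 496 624))))))) (merge (node 526 (merge (leaf 0 525 525) (node 494 (merge (leaf 3 493 493) (node 495 (merge (leaf 3 494 530) (node 591 (merge (leaf 7 462 462) (leaf 7 494 623))))))))) (node 495 (merge (node 463 (merge (leaf 4 431 431) (node 592 (merge (leaf 4 463 559) (leaf 7 495 624))))) (merge (node 530 (merge (leaf 3 494 494) (node 498 (merge (leaf 2 495 499) (node 593 (merge (leaf 6 497 625) (node 497 (merge (leaf 6 465 466) (node 592 (merge (leaf 5 464 465) (leaf 5 496 624))))))))))) (node 530 (merge (leaf 3 494 494) (node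 498 (merge (leaf 2 495 499) (node 466 (merge (leaf 5 433 434) (node 593 (merge (leaf 6 465 497) (leaf 6 497 625))))))))))))))) (node 592 (merge (node 624 (merge (leaf 6 496 497) (leaf 6 528 656))) (merge (node 624 (merge (leaf 6 528 656) (node 623 (merge (leaf 5 527 655) (node 527 (merge (leaf 7 495 495) (node 526 (merge (leaf 0 525 525) (node 494 (merge (leaf 3 493 493) (leaf 7 494 591))))))))))) (node 558 (merge (leaf 2 525 557) (node 526 (merge (leaf 3 525 525) (node 497 (merge (leaf 5 464 465) (node 527 (merge (leaf 2 494 498) (node 494 (merge (leaf 3 493 493) (node 462 (merge (leaf 4 430 430) (leaf 4 462 591))))))))))))))))))) (node 529 (merge (node 558 (merge (leaf 2 526 530) (leaf 2 525 557))) (merge (node 527 (merge (node 562 (merge (leaf 0 526 526) (leaf 3 527 563))) (node 497 (merge (node 592 (merge (leaf 5 464 465) (leaf 6 496 624))) (merge (node 465 (merge (leaf 5 432 433) (node 466 (merge (leaf 6 433 434) (node 498 (merge (leaf 6 465 593) (node 499 (merge (leaf 1 496 500) (leaf 2 495 530))))))))) (node 498 (merge (node 499 (merge (leaf 1 496 500)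 (leaf 2 495 530))) (node 593 (merge (leaf 6 465 466) (node 625 (merge (leaf 7 528 657) (node 624 (merge (leaf 6 496 592) (leaf 5 528 656)))))))))))))) (node 558 (merge (leaf 2 525 557) (node 590 (merge (leaf 1 557 589) (node 526 (merge (leaf 3 525 525) (node 527 (merge (leaf 0 526 562) (node 622 (merge (leaf 6 494 495) (leaf 6 526 654)))))))))))))))))))) (merge (node 562 (merge (node 527 (merge (leaf 3 527 563) (node 526 (merge (leaf 0 525 525) (leaf 3 526 559))))) (merge (node 563 (merge (leaf 3 527 527) (node 596 (merge (leaf 0 560 595) (node 564 (merge (leaf 3 528 529) (leaf 0 561 597))))))) (merge (node 529 (merge (node 563 (merge (leaf 3 528 564) (node 592 (merge (leaf 1 559 591) (node 624 (merge (leaf 6 496 497) (leaf 6 528 656))))))) (merge (node 563 (merge (leaf 3 528 564) (node 595 (merge (leaf 0 560 596) (node 559 (merge (leaf 0 559 594) (node 558 (merge (leaf 2 526 530) (leaf 2 525 557))))))))) (node 594 (merge (node 626 (merge (leaf 7 529 658) (node 497 (merge (leaf 4 465 465) (leaf 4 497 593))))) (merge (node 559 (merge (leaf 0 559 595) (node 558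 (merge (leaf 0 558 593) (node 529 (merge (leaf 2 526 530) (leaf 2 525 557))))))) (node 626 (merge (leaf 7 529 658) (node 595 (merge (leaf 0 559 559) (node 596 (merge (leaf 3 561 597) (node 497 (merge (leaf 4 465 465) (node 624 (merge (leaf 6 496 592) (node 625 (merge (leaf 2 591 623) (leaf 2 592 627))))))))))))))))))) (node 594 (merge (node 595 (merge (leaf 0 559 559) (node 596 (merge (leaf 3 560 593) (leaf 3 561 597))))) (merge (node 559 (merge (leaf 0 559 595) (node 526 (merge (leaf 3 526 527) (node 558 (merge (leaf 3 525 525) (node 529 (merge (leaf 2 526 530) (leaf 2 525 557))))))))) (merge (node 626 (merge (node 658 (merge (leaf 7 529 529) (node 690 (merge (leaf 7 561 593) (node 691 (merge (leaf 4 562 659) (leaf 4 594 723))))))) (merge (node 658 (merge (leaf 7 529 529) (node 659 (merge (leaf 4 562 691) (node 530 (merge (leaf 4 530 627) (node 657 (merge (leaf 5 529 625) (leaf 5 561 689))))))))) (merge (node 593 (merge (node 657 (merge (leaf 7 528 625) (node 658 (merge (leaf 5 561 689) (leaf 7 561 690))))) (merge (node 625 (merge (leaf 7 528 657) (node 530 (merge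 (leaf 5 497 498) (node 627 (merge (leaf 4 530 659) (node 628 (merge (leaf 3 592 592) (leaf 3 593 629))))))))) (merge (node 658 (merge (leaf 7 561 690) (node 659 (merge (leaf 4 562 691) (node 530 (merge (leaf 4 530 627) (node 498 (merge (leaf 5 465 466) (leaf 5 497 625))))))))) (node 658 (merge (leaf 7 561 690) (node 659 (merge (leaf 4 562 691) (node 627 (merge (leaf 4 530 530) (node 628 (merge (leaf 3 593 629) (node 657 (merge (leaf 2 624 656) (leaf 5 561 689))))))))))))))) (node 530 (merge (node 529 (merge (leaf 7 497 497) (node 527 (merge (leaf 0 526 526) (node 495 (merge (leaf 3 494 494) (node 463 (merge (leaf 4 431 431) (node 592 (merge (leaf 4 463 559) (leaf 7 495 624))))))))))) (merge (node 625 (merge (leaf 5 529 657) (node 498 (merge (leaf 5 497 593) (node 467 (merge (leaf 6 466 499) (node 466 (merge (leaf 6 434 435) (node 465 (merge (leaf 7 433 433) (leaf 7 465 497))))))))))) (node 625 (merge (leaf 5 529 657) (node 498 (merge (leaf 5 497 593) (node 467 (merge (leaf 6 466 499) (node 466 (merge (leaf 6 434 435) (node 434 (merge (leaf 5 433 529) (node 433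 (merge (leaf 7 401 401) (leaf 7 433 465)))))))))))))))))))) (node 626 (merge (node 658 (merge (leaf 7 529 529) (node 690 (merge (leaf 7 561 593) (node 691 (merge (leaf 4 562 659) (leaf 4 594 723))))))) (merge (node 658 (merge (leaf 7 529 529) (node 689 (merge (leaf 5 561 657) (node 690 (merge (leaf 7 561 593) (leaf 5 593 721))))))) (merge (node 658 (merge (leaf 7 529 529) (node 659 (merge (leaf 4 562 691) (node 530 (merge (leaf 4 530 627) (node 657 (merge (leaf 5 529 625) (leaf 5 561 689))))))))) (merge (node 593 (merge (node 657 (merge (leaf 7 528 625) (node 658 (merge (leaf 5 561 689) (leaf 7 561 690))))) (merge (node 625 (merge (leaf 7 528 657) (node 530 (merge (leaf 5 497 498) (node 627 (merge (leaf 4 530 659) (node 628 (merge (leaf 3 592 592) (leaf 3 593 629))))))))) (merge (node 658 (merge (leaf 7 561 690) (node 659 (merge (leaf 4 562 691) (node 530 (merge (leaf 4 530 627) (node 498 (merge (leaf 5 465 466) (leaf 5 497 625))))))))) (node 658 (merge (leaf 7 561 690) (node 659 (merge (leaf 4 562 691) (node 627 (merge (leaf 4 530 530) (node 628 (merge (leaf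 3 593 629) (node 657 (merge (leaf 2 624 656) (leaf 5 561 689))))))))))))))) (node 530 (merge (node 497 (merge (leaf 7 497 529) (node 498 (merge (leaf 7 465 465) (node 466 (merge (leaf 5 465 593) (node 467 (merge (leaf 6 434 435) (leaf 6 466 499))))))))) (merge (node 627 (merge (leaf 4 530 659) (node 595 (merge (leaf 4 498 498) (node 596 (merge (leaf 3 561 597) (node 625 (merge (leaf 2 592 624) (leaf 5 529 657))))))))) (merge (node 625 (merge (leaf 5 529 657) (node 498 (merge (leaf 5 497 593) (node 467 (merge (leaf 6 466 499) (node 466 (merge (leaf 6 434 435) (node 465 (merge (leaf 7 433 433) (leaf 7 465 497))))))))))) (merge (node 625 (merge (leaf 5 529 657) (node 498 (merge (leaf 5 497 593) (node 467 (merge (leaf 6 466 499) (node 466 (merge (leaf 6 434 435) (node 434 (merge (leaf 5 433 529) (node 433 (merge (leaf 7 401 401) (leaf 7 433 465))))))))))))) (node 625 (merge (leaf 5 529 657) (node 529 (merge (leaf 7 497 497) (node 527 (merge (leaf 0 526 526) (node 495 (merge (leaf 3 494 494) (node 624 (merge (leaf 7 495 592) (node 595 (merge (leaf 2 591 623) (node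 593 (merge (leaf 1 592 596) (leaf 5 528 656))))))))))))))))))))))))))))))))) (merge (node 562 (merge (node 527 (merge (leaf 3 527 563) (node 526 (merge (leaf 0 525 525) (leaf 3 526 559))))) (merge (node 563 (merge (leaf 3 527 527) (node 596 (merge (leaf 0 560 595) (node 564 (merge (leaf 3 528 529) (leaf 0 561 597))))))) (merge (node 592 (merge (node 591 (merge (leaf 1 559 563) (node 590 (merge (leaf 1 558 559) (leaf 2 557 589))))) (merge (node 529 (merge (node 624 (merge (leaf 6 496 497) (leaf 6 528 656))) (merge (node 563 (merge (leaf 3 528 564) (node 595 (merge (leaf 0 560 596) (node 594 (merge (leaf 0 559 559) (node 626 (merge (leaf 7 529 658) (node 497 (merge (leaf 4 465 465) (leaf 4 497 593))))))))))) (node 563 (merge (leaf 3 528 564) (node 595 (merge (leaf 0 560 596) (node 624 (merge (leaf 6 528 656) (node 625 (merge (leaf 4 528 657) (node 623 (merge (leaf 5 527 655) (node 594 (merge (leaf 1 591 593) (leaf 2 591 626)))))))))))))))) (node 590 (merge (node 591 (merge (leaf 2 557 589) (leaf 2 558 593))) (merge (node 624 (merge (node 657 (merge (leaf 4 528 625)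 (node 656 (merge (leaf 6 528 529) (leaf 4 560 689))))) (merge (node 656 (merge (leaf 6 528 529) (node 655 (merge (leaf 5 527 623) (leaf 5 559 687))))) (node 625 (merge (leaf 4 528 657) (node 623 (merge (leaf 5 527 655) (node 626 (merge (leaf 3 590 591) (node 659 (merge (leaf 0 623 658) (node 627 (merge (leaf 0 624 660) (node 595 (merge (leaf 2 591 594) (leaf 2 592 596)))))))))))))))) (node 624 (merge (node 657 (merge (leaf 4 528 625) (node 656 (merge (leaf 6 528 529) (leaf 4 560 689))))) (merge (node 656 (merge (leaf 6 528 529) (node 655 (merge (leaf 5 527 623) (leaf 5 559 687))))) (merge (node 657 (merge (leaf 4 528 625) (node 656 (merge (leaf 4 560 689) (node 687 (merge (leaf 5 559 655) (node 688 (merge (leaf 6 560 593) (leaf 5 591 719))))))))) (node 625 (merge (leaf 4 528 657) (node 623 (merge (leaf 5 527 655) (node 622 (merge (leaf 3 589 589) (node 593 (merge (leaf 2 590 594) (leaf 2 589 621))))))))))))))))))) (node 594 (merge (node 595 (merge (leaf 0 559 559) (node 596 (merge (leaf 3 560 593) (leaf 3 561 597))))) (merge (node 559 (merge (leaf 0 559 595) (node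 591 (merge (leaf 1 558 590) (node 527 (merge (leaf 3 526 526) (node 623 (merge (leaf 6 527 655) (node 624 (merge (leaf 4 527 656) (node 495 (merge (leaf 4 495 592) (node 463 (merge (leaf 4 431 431) (node 462 (merge (leaf 7 430 430) (leaf 7 462 494))))))))))))))))) (merge (node 626 (merge (node 658 (merge (leaf 7 529 529) (node 690 (merge (leaf 7 561 593) (node 691 (merge (leaf 4 562 659) (leaf 4 594 723))))))) (merge (node 658 (merge (leaf 7 529 529) (node 659 (merge (leaf 4 562 691) (node 530 (merge (leaf 4 530 627) (node 657 (merge (leaf 5 529 625) (leaf 5 561 689))))))))) (merge (node 593 (merge (node 657 (merge (leaf 7 528 625) (node 658 (merge (leaf 5 561 689) (leaf 7 561 690))))) (merge (node 625 (merge (leaf 7 528 657) (node 530 (merge (leaf 5 497 498) (node 627 (merge (leaf 4 530 659) (node 628 (merge (leaf 3 592 592) (leaf 3 593 629))))))))) (merge (node 658 (merge (leaf 7 561 690) (node 659 (merge (leaf 4 562 691) (node 530 (merge (leaf 4 530 627) (node 498 (merge (leaf 5 465 466) (leaf 5 497 625))))))))) (node 658 (merge (leaf 7 561 690) (node 659 (merge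 (leaf 4 562 691) (node 627 (merge (leaf 4 530 530) (node 628 (merge (leaf 3 593 629) (node 657 (merge (leaf 2 624 656) (leaf 5 561 689))))))))))))))) (node 530 (merge (node 529 (merge (leaf 7 497 497) (node 527 (merge (leaf 0 526 526) (node 495 (merge (leaf 3 494 494) (node 463 (merge (leaf 4 431 431) (node 592 (merge (leaf 4 463 559) (leaf 7 495 624))))))))))) (merge (node 625 (merge (leaf 5 529 657) (node 498 (merge (leaf 5 497 593) (node 467 (merge (leaf 6 466 499) (node 466 (merge (leaf 6 434 435) (node 465 (merge (leaf 7 433 433) (leaf 7 465 497))))))))))) (node 625 (merge (leaf 5 529 657) (node 498 (merge (leaf 5 497 593) (node 467 (merge (leaf 6 466 499) (node 466 (merge (leaf 6 434 435) (node 434 (merge (leaf 5 433 529) (node 433 (merge (leaf 7 401 401) (leaf 7 433 465)))))))))))))))))))) (node 626 (merge (node 658 (merge (leaf 7 529 529) (node 690 (merge (leaf 7 561 593) (node 691 (merge (leaf 4 562 659) (leaf 4 594 723))))))) (merge (node 658 (merge (leaf 7 529 529) (node 689 (merge (leaf 5 561 657) (node 690 (merge (leaf 7 561 593) (leaf 5 593 721)))))))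 (merge (node 658 (merge (leaf 7 529 529) (node 659 (merge (leaf 4 562 691) (node 530 (merge (leaf 4 530 627) (node 657 (merge (leaf 5 529 625) (leaf 5 561 689))))))))) (merge (node 593 (merge (node 657 (merge (leaf 7 528 625) (node 658 (merge (leaf 5 561 689) (leaf 7 561 690))))) (merge (node 625 (merge (leaf 7 528 657) (node 530 (merge (leaf 5 497 498) (node 627 (merge (leaf 4 530 659) (node 628 (merge (leaf 3 592 592) (leaf 3 593 629))))))))) (merge (node 658 (merge (leaf 7 561 690) (node 659 (merge (leaf 4 562 691) (node 530 (merge (leaf 4 530 627) (node 498 (merge (leaf 5 465 466) (leaf 5 497 625))))))))) (node 658 (merge (leaf 7 561 690) (node 659 (merge (leaf 4 562 691) (node 627 (merge (leaf 4 530 530) (node 628 (merge (leaf 3 593 629) (node 657 (merge (leaf 2 624 656) (leaf 5 561 689))))))))))))))) (node 530 (merge (node 497 (merge (leaf 7 497 529) (node 498 (merge (leaf 7 465 465) (node 466 (merge (leaf 5 465 593) (node 467 (merge (leaf 6 434 435) (leaf 6 466 499))))))))) (merge (node 627 (merge (leaf 4 530 659) (node 595 (merge (leaf 4 498 498) (node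 596 (merge (leaf 3 561 597) (node 625 (merge (leaf 2 592 624) (leaf 5 529 657))))))))) (merge (node 625 (merge (leaf 5 529 657) (node 498 (merge (leaf 5 497 593) (node 467 (merge (leaf 6 466 499) (node 466 (merge (leaf 6 434 435) (node 465 (merge (leaf 7 433 433) (leaf 7 465 497))))))))))) (merge (node 625 (merge (leaf 5 529 657) (node 498 (merge (leaf 5 497 593) (node 467 (merge (leaf 6 466 499) (node 466 (merge (leaf 6 434 435) (node 434 (merge (leaf 5 433 529) (node 433 (merge (leaf 7 401 401) (leaf 7 433 465))))))))))))) (node 625 (merge (leaf 5 529 657) (node 529 (merge (leaf 7 497 497) (node 527 (merge (leaf 0 526 526) (node 495 (merge (leaf 3 494 494) (node 624 (merge (leaf 7 495 592) (node 595 (merge (leaf 2 591 623) (node 593 (merge (leaf 1 592 596) (leaf 5 528 656))))))))))))))))))))))))))))))))) (merge (node 559 (merge (node 558 (merge (node 529 (merge (leaf 2 526 530) (leaf 2 525 557))) (merge (node 589 (merge (leaf 1 557 590) (node 557 (merge (leaf 1 556 588) (node 556 (merge (leaf 2 524 527) (node 524 (merge (leaf 3 523 523) (leaf 3 524 525)))))))))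 (node 590 (merge (leaf 1 557 589) (node 562 (merge (leaf 1 558 591) (node 529 (merge (leaf 2 526 530) (node 563 (merge (leaf 3 527 527) (leaf 3 528 564)))))))))))) (merge (node 594 (merge (node 558 (merge (leaf 0 558 593) (node 529 (merge (leaf 2 526 530) (leaf 2 525 557))))) (merge (node 595 (merge (leaf 0 559 562) (node 593 (merge (leaf 3 559 592) (leaf 3 560 596))))) (node 562 (merge (leaf 0 559 595) (node 563 (merge (leaf 3 527 527) (node 564 (merge (leaf 3 528 529) (node 597 (merge (leaf 0 561 596) (node 565 (merge (leaf 0 562 598) (node 533 (merge (leaf 2 529 532) (leaf 2 530 534)))))))))))))))) (merge (node 527 (merge (node 558 (merge (node 557 (merge (leaf 2 525 529) (leaf 2 524 556))) (node 590 (merge (leaf 1 557 589) (node 622 (merge (leaf 6 526 654) (node 495 (merge (leaf 5 462 463) (leaf 5 494 591))))))))) (merge (node 558 (merge (node 557 (merge (leaf 2 525 529) (leaf 2 524 556))) (merge (node 557 (merge (leaf 2 524 556) (node 592 (merge (leaf 0 557 593) (node 624 (merge (leaf 7 495 495) (leaf 7 527 656))))))) (node 593 (merge (leaf 0 558 594) (node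 625 (merge (leaf 7 528 657) (node 529 (merge (leaf 1 526 530) (node 624 (merge (leaf 5 528 656) (node 592 (merge (leaf 7 495 495) (leaf 5 496 497)))))))))))))) (merge (node 558 (merge (node 557 (merge (leaf 2 524 556) (node 589 (merge (leaf 1 556 588) (leaf 1 557 590))))) (merge (node 590 (merge (leaf 1 557 589) (node 622 (merge (leaf 6 526 654) (node 495 (merge (leaf 5 462 463) (leaf 5 494 591))))))) (node 557 (merge (leaf 2 524 556) (node 592 (merge (leaf 0 557 593) (node 624 (merge (leaf 7 495 495) (leaf 7 527 656)))))))))) (merge (node 558 (merge (node 557 (merge (leaf 2 525 529) (leaf 2 524 556))) (merge (node 557 (merge (leaf 2 524 556) (node 589 (merge (leaf 1 556 588) (leaf 1 557 590))))) (node 593 (merge (leaf 0 558 594) (node 625 (merge (leaf 7 528 657) (node 529 (merge (leaf 1 526 530) (node 590 (merge (leaf 1 557 589) (node 626 (merge (leaf 4 529 658) (node 592 (merge (leaf 0 590 591) (node 624 (merge (leaf 5 496 497) (leaf 7 527 656)))))))))))))))))) (node 495 (merge (node 592 (merge (leaf 4 463 463) (leaf 7 495 624))) (merge (node 463 (merge (leaf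 4 431 431) (node 462 (merge (leaf 7 430 430) (node 591 (merge (leaf 7 462 494) (node 622 (merge (leaf 5 494 590) (node 623 (merge (leaf 5 526 654) (leaf 6 527 655))))))))))) (node 591 (merge (node 592 (merge (leaf 4 495 624) (node 590 (merge (leaf 5 494 622) (node 589 (merge (leaf 2 557 561) (leaf 2 556 588))))))) (merge (node 622 (merge (leaf 5 494 590) (node 623 (merge (leaf 5 526 654) (leaf 6 527 655))))) (merge (node 592 (merge (leaf 4 495 624) (node 590 (merge (leaf 5 494 622) (node 589 (merge (leaf 2 557 561) (leaf 2 556 588))))))) (node 624 (merge (leaf 4 495 592) (node 623 (merge (leaf 6 527 655) (leaf 4 527 656))))))))))))))))) (merge (node 527 (merge (node 562 (merge (leaf 3 527 563) (node 594 (merge (leaf 0 559 595) (node 558 (merge (leaf 0 558 593) (node 589 (merge (leaf 1 557 590) (node 557 (merge (leaf 2 524 556) (leaf 1 556 588))))))))))) (merge (node 562 (merge (leaf 3 527 563) (node 591 (merge (leaf 1 558 590) (node 623 (merge (leaf 6 527 655) (node 624 (merge (leaf 4 527 656) (node 495 (merge (leaf 4 495 592) (node 463 (merge (leaf 4 431 431)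 (node 462 (merge (leaf 7 430 430) (leaf 7 462 494))))))))))))))) (merge (node 558 (merge (node 557 (merge (leaf 2 524 556) (node 589 (merge (leaf 1 556 588) (leaf 1 557 590))))) (merge (node 590 (merge (leaf 1 557 589) (node 622 (merge (leaf 6 526 654) (node 495 (merge (leaf 5 462 463) (leaf 5 494 591))))))) (node 557 (merge (leaf 2 524 556) (node 592 (merge (leaf 0 557 593) (node 624 (merge (leaf 7 495 495) (leaf 7 527 656)))))))))) (node 495 (merge (node 592 (merge (leaf 4 463 463) (leaf 7 495 624))) (merge (node 463 (merge (leaf 4 431 431) (node 464 (merge (leaf 6 431 432) (node 462 (merge (leaf 7 430 430) (node 494 (merge (leaf 7 462 591) (node 493 (merge (leaf 1 461 465) (leaf 0 492 492))))))))))) (node 562 (merge (leaf 3 527 563) (node 594 (merge (leaf 0 559 595) (node 593 (merge (leaf 0 558 558) (node 625 (merge (leaf 7 528 657) (node 624 (merge (leaf 7 495 592) (node 623 (merge (leaf 2 590 622) (node 591 (merge (leaf 6 527 655) (leaf 4 527 656)))))))))))))))))))))) (node 562 (merge (node 595 (merge (leaf 0 559 594) (node 563 (merge (leaf 0 560 596) (node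 591 (merge (leaf 1 558 590) (leaf 1 559 592))))))) (merge (node 563 (merge (node 595 (merge (leaf 0 559 594) (leaf 0 560 596))) (merge (node 564 (merge (leaf 3 528 529) (node 597 (merge (leaf 0 561 596) (node 565 (merge (leaf 0 562 598) (node 533 (merge (leaf 2 529 532) (leaf 2 530 534))))))))) (node 594 (merge (leaf 0 559 595) (node 564 (merge (leaf 3 528 529) (node 565 (merge (leaf 1 561 593) (node 533 (merge (leaf 2 529 532) (leaf 2 530 534)))))))))))) (merge (node 591 (merge (leaf 1 558 590) (node 563 (merge (leaf 1 559 592) (node 564 (merge (leaf 3 528 529) (node 597 (merge (leaf 0 561 596) (node 565 (merge (leaf 0 562 598) (node 533 (merge (leaf 2 529 532) (leaf 2 530 534))))))))))))) (merge (node 591 (merge (leaf 1 558 590) (node 563 (merge (leaf 1 559 592) (node 596 (merge (leaf 0 560 595) (node 564 (merge (leaf 3 528 529) (leaf 0 561 597))))))))) (node 594 (merge (leaf 0 559 595) (node 592 (merge (node 591 (merge (leaf 1 558 590) (node 623 (merge (leaf 6 527 655) (node 593 (merge (leaf 1 590 622) (node 626 (merge (leaf 0 591 627) (node 658 (merge (leaf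 7 529 529) (leaf 7 561 690))))))))))) (merge (node 529 (merge (node 624 (merge (leaf 6 496 497) (leaf 6 528 656))) (merge (node 626 (merge (leaf 7 529 658) (node 497 (merge (leaf 7 497 530) (leaf 4 497 593))))) (node 626 (merge (leaf 7 529 658) (node 624 (merge (leaf 6 528 656) (node 625 (merge (leaf 4 528 657) (node 627 (merge (leaf 3 591 591) (node 593 (merge (leaf 3 592 628) (node 530 (merge (leaf 5 497 498) (leaf 4 530 659)))))))))))))))) (merge (node 591 (merge (leaf 1 558 590) (node 623 (merge (leaf 6 527 655) (node 593 (merge (leaf 1 590 622) (node 657 (merge (leaf 7 528 625) (node 626 (merge (leaf 0 591 627) (node 658 (merge (leaf 5 561 689) (leaf 7 561 690))))))))))))) (merge (node 624 (merge (node 656 (merge (leaf 6 528 529) (node 655 (merge (leaf 5 527 623) (leaf 5 559 687))))) (merge (node 657 (merge (leaf 4 528 625) (node 656 (merge (leaf 6 528 529) (leaf 4 560 689))))) (node 625 (merge (leaf 4 528 657) (node 623 (merge (leaf 5 527 655) (node 622 (merge (leaf 2 590 593) (node 653 (merge (leaf 1 621 654) (node 621 (merge (leaf 1 620 652) (node 589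 (merge (leaf 3 588 588) (leaf 3 589 590)))))))))))))))) (node 529 (merge (node 624 (merge (leaf 6 496 497) (leaf 6 528 656))) (merge (node 626 (merge (leaf 7 529 658) (node 497 (merge (leaf 4 465 465) (leaf 7 497 530))))) (node 626 (merge (leaf 7 529 658) (node 624 (merge (leaf 6 528 656) (node 625 (merge (leaf 4 528 657) (node 627 (merge (leaf 3 591 591) (node 659 (merge (leaf 4 530 530) (leaf 0 624 660))))))))))))))))))))))))))))))) (merge (node 559 (merge (node 558 (merge (node 529 (merge (leaf 2 526 530) (leaf 2 525 557))) (node 590 (merge (leaf 1 557 589) (node 591 (merge (leaf 1 558 562) (node 526 (merge (leaf 3 525 525) (node 623 (merge (leaf 4 494 494) (leaf 7 526 655))))))))))) (merge (node 558 (merge (node 589 (merge (leaf 1 557 590) (node 557 (merge (leaf 1 556 588) (node 525 (merge (leaf 3 524 524) (leaf 3 525 526))))))) (merge (node 594 (merge (leaf 0 558 593) (node 562 (merge (leaf 0 559 595) (node 590 (merge (leaf 1 557 589) (leaf 1 558 591))))))) (merge (node 593 (merge (leaf 0 558 594) (node 557 (merge (leaf 0 557 592) (node 525 (merge (leaf 3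 524 524) (leaf 3 525 526))))))) (node 525 (merge (leaf 3 525 526) (node 557 (merge (leaf 3 524 524) (node 592 (merge (leaf 0 557 593) (node 591 (merge (leaf 0 556 556) (node 562 (merge (leaf 1 559 563) (leaf 1 558 590))))))))))))))) (merge (node 558 (merge (node 529 (merge (leaf 2 526 530) (leaf 2 525 557))) (merge (node 593 (merge (leaf 0 558 594) (node 557 (merge (leaf 0 557 592) (node 525 (merge (leaf 3 524 524) (leaf 3 525 526))))))) (node 593 (merge (leaf 0 558 594) (node 625 (merge (leaf 7 528 657) (node 529 (merge (leaf 2 526 530) (node 626 (merge (leaf 4 529 658) (node 624 (merge (leaf 5 528 656) (node 592 (merge (leaf 5 496 497) (node 627 (merge (leaf 3 591 591) (leaf 3 592 628)))))))))))))))))) (merge (node 558 (merge (node 529 (merge (leaf 2 526 530) (leaf 2 525 557))) (merge (node 589 (merge (leaf 1 557 590) (node 557 (merge (leaf 1 556 588) (node 525 (merge (leaf 3 524 524) (leaf 3 525 526))))))) (node 593 (merge (leaf 0 558 594) (node 625 (merge (leaf 7 528 657) (node 529 (merge (leaf 2 526 530) (node 624 (merge (leaf 5 528 656) (node 497 (merge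 (leaf 5 496 592) (node 465 (merge (leaf 5 432 433) (node 466 (merge (leaf 6 433 434) (leaf 6 465 498)))))))))))))))))) (merge (node 594 (merge (node 558 (merge (leaf 0 558 593) (node 529 (merge (leaf 2 526 530) (leaf 2 525 557))))) (merge (node 595 (merge (leaf 0 559 562) (node 593 (merge (leaf 3 559 592) (leaf 3 560 596))))) (node 562 (merge (leaf 0 559 595) (node 591 (merge (leaf 1 558 590) (node 563 (merge (leaf 1 559 592) (node 564 (merge (leaf 3 528 529) (node 597 (merge (leaf 0 561 596) (node 565 (merge (leaf 0 562 598) (node 533 (merge (leaf 2 529 532) (leaf 2 530 534)))))))))))))))))) (node 562 (merge (node 595 (merge (leaf 0 559 594) (node 563 (merge (leaf 0 560 596) (node 591 (merge (leaf 1 558 590) (leaf 1 559 592))))))) (merge (node 563 (merge (node 595 (merge (leaf 0 559 594) (leaf 0 560 596))) (merge (node 564 (merge (leaf 3 528 529) (node 597 (merge (leaf 0 561 596) (node 565 (merge (leaf 0 562 598) (node 533 (merge (leaf 2 529 532) (leaf 2 530 534))))))))) (node 594 (merge (leaf 0 559 595) (node 564 (merge (leaf 3 528 529) (node 565 (merge (leaf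 1 561 593) (node 533 (merge (leaf 2 529 532) (leaf 2 530 534)))))))))))) (merge (node 591 (merge (leaf 1 558 590) (node 563 (merge (leaf 1 559 592) (node 564 (merge (leaf 3 528 529) (node 597 (merge (leaf 0 561 596) (node 565 (merge (leaf 0 562 598) (node 533 (merge (leaf 2 529 532) (leaf 2 530 534))))))))))))) (merge (node 591 (merge (leaf 1 558 590) (node 563 (merge (leaf 1 559 592) (node 596 (merge (leaf 0 560 595) (node 564 (merge (leaf 3 528 529) (leaf 0 561 597))))))))) (node 594 (merge (leaf 0 559 595) (node 592 (merge (node 591 (merge (leaf 1 558 590) (node 623 (merge (leaf 6 527 655) (node 593 (merge (leaf 1 590 622) (node 626 (merge (leaf 0 591 627) (node 658 (merge (leaf 7 529 529) (leaf 7 561 690))))))))))) (merge (node 529 (merge (node 624 (merge (leaf 6 496 497) (leaf 6 528 656))) (merge (node 626 (merge (leaf 7 529 658) (node 497 (merge (leaf 7 497 530) (leaf 4 497 593))))) (node 626 (merge (leaf 7 529 658) (node 624 (merge (leaf 6 528 656) (node 625 (merge (leaf 4 528 657) (node 627 (merge (leaf 3 591 591) (node 593 (merge (leaf 3 592 628) (node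 530 (merge (leaf 5 497 498) (leaf 4 530 659)))))))))))))))) (merge (node 591 (merge (leaf 1 558 590) (node 623 (merge (leaf 6 527 655) (node 593 (merge (leaf 1 590 622) (node 657 (merge (leaf 7 528 625) (node 626 (merge (leaf 0 591 627) (node 658 (merge (leaf 5 561 689) (leaf 7 561 690))))))))))))) (merge (node 624 (merge (node 656 (merge (leaf 6 528 529) (node 655 (merge (leaf 5 527 623) (leaf 5 559 687))))) (merge (node 657 (merge (leaf 4 528 625) (node 656 (merge (leaf 6 528 529) (leaf 4 560 689))))) (node 625 (merge (leaf 4 528 657) (node 623 (merge (leaf 5 527 655) (node 622 (merge (leaf 2 590 593) (node 653 (merge (leaf 1 621 654) (node 621 (merge (leaf 1 620 652) (node 589 (merge (leaf 3 588 588) (leaf 3 589 590)))))))))))))))) (node 529 (merge (node 624 (merge (leaf 6 496 497) (leaf 6 528 656))) (merge (node 626 (merge (leaf 7 529 658) (node 497 (merge (leaf 4 465 465) (leaf 7 497 530))))) (node 626 (merge (leaf 7 529 658) (node 624 (merge (leaf 6 528 656) (node 625 (merge (leaf 4 528 657) (node 627 (merge (leaf 3 591 591) (node 659 (merge (leaf 4 530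 530) (leaf 0 624 660)))))))))))))))))))))))))))))))) (merge (hyp 0) (hyp 1)))))))))))))))) nC_21 cC_21 13 (by decide +kernel)
def nC_22 : ℕ := 0x1000000000000000000000000000000000000000000000000000000000000000000000000000000000000000000000000000000000000000000000000000000000000
def cC_22 : ℕ := 0x28000000f8000000ff000007ff000003ffc0000fffc00007ffc000076fc00003ffc00007ffc00001ff8000007f0000007e0000002800000000000000000000000000000000000000000000000000000000000000000000000000000000000
theorem lC_22 : S nC_22 cC_22 14 := S_of_chk [(nC_0, cC_0, 12), (nC_1, cC_1, 13), (nC_2, cC_2, 11), (nC_3, cC_3, 13), (nC_4, cC_4, 10), (nC_5, cC_5, 10), (nC_6, cC_6, 13), (nC_7, cC_7, 13), (nC_8, cC_8, 13), (nC_9, cC_9, 10), (nC_10, cC_10, 11), (nC_11, cC_11, 13), (nC_12, cC_12, 12), (nC_13, cC_13, 11), (nC_14, cC_14, 11), (nC_15, cC_15, 10), (nC_17, cC_17, 13), (nC_21, cC_21, 13)] ⟨lC_0, lC_1, lC_2, lC_3, lC_4, lC_5, lC_6, lC_7, lC_8, lC_9, lC_10, lC_11, lC_12, lC_13, lC_14, lC_15, lC_17, lC_21, trivial⟩ (node 560 (merge (node 496 (merge (node 463 (merge (node 431 (merge (leaf 7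 431 464) (node 495 (merge (leaf 4 399 399) (leaf 4 431 527))))) (merge (node 495 (merge (leaf 7 463 592) (node 431 (merge (leaf 4 399 399) (leaf 4 431 527))))) (merge (node 592 (merge (leaf 7 463 495) (node 465 (merge (leaf 6 464 497) (node 464 (merge (leaf 6 432 433) (node 591 (merge (leaf 5 463 559) (leaf 5 495 623))))))))) (node 464 (merge (leaf 7 431 431) (node 465 (merge (leaf 6 432 433) (node 592 (merge (leaf 6 464 497) (node 591 (merge (leaf 5 463 559) (leaf 5 495 623))))))))))))) (merge (node 592 (merge (node 593 (merge (leaf 4 496 625) (node 464 (merge (leaf 4 464 561) (node 465 (merge (leaf 6 432 433) (leaf 6 464 497))))))) (merge (node 625 (merge (leaf 4 496 593) (node 624 (merge (leaf 4 528 657) (node 623 (merge (leaf 5 495 591) (leaf 5 527 655))))))) (node 497 (merge (leaf 6 464 465) (node 624 (merge (leaf 6 496 529) (node 623 (merge (leaf 5 495 591) (leaf 5 527 655)))))))))) (merge (node 463 (merge (node 431 (merge (leaf 7 431 464) (node 495 (merge (leaf 4 399 399) (leaf 4 431 527))))) (merge (node 464 (merge (leaf 7 431 431) (node 593 (merge (leaf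 4 464 561) (node 592 (merge (leaf 4 496 625) (node 591 (merge (leaf 5 463 559) (leaf 5 495 623))))))))) (node 592 (merge (leaf 7 463 495) (node 625 (merge (leaf 4 496 593) (node 624 (merge (leaf 4 528 657) (node 623 (merge (leaf 5 495 591) (leaf 5 527 655)))))))))))) (merge (node 463 (merge (node 431 (merge (leaf 7 431 464) (node 495 (merge (leaf 4 399 399) (leaf 4 431 527))))) (merge (node 495 (merge (leaf 7 463 592) (node 431 (merge (leaf 4 399 399) (leaf 4 431 527))))) (merge (node 592 (merge (leaf 7 463 495) (node 593 (merge (leaf 4 496 625) (node 464 (merge (leaf 4 464 561) (node 465 (merge (leaf 6 432 433) (leaf 6 464 497))))))))) (node 464 (merge (leaf 7 431 431) (node 593 (merge (leaf 4 464 561) (node 465 (merge (leaf 6 432 433) (node 592 (merge (leaf 6 464 497) (leaf 4 496 625))))))))))))) (merge (node 495 (merge (node 592 (merge (leaf 7 463 463) (node 625 (merge (leaf 4 496 593) (node 624 (merge (leaf 4 528 657) (node 623 (merge (leaf 5 495 591) (leaf 5 527 655))))))))) (merge (node 494 (merge (node 493 (merge (leaf 0 493 529) (node 492 (merge (leaf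 0 492 527) (node 460 (merge (leaf 3 459 459) (leaf 3 460 461))))))) (merge (node 529 (merge (leaf 0 493 493) (node 497 (merge (leaf 0 494 530) (node 465 (merge (leaf 5 432 433) (leaf 2 462 466))))))) (merge (node 497 (merge (node 465 (merge (leaf 2 462 466) (node 433 (merge (leaf 5 400 401) (leaf 5 432 529))))) (node 462 (merge (leaf 3 461 461) (node 498 (merge (leaf 3 462 463) (node 527 (merge (leaf 1 495 499) (leaf 1 494 526))))))))) (node 497 (merge (node 466 (merge (leaf 2 462 465) (node 498 (merge (leaf 2 463 467) (node 462 (merge (leaf 3 461 461) (leaf 3 462 463))))))) (merge (node 466 (merge (leaf 2 462 465) (node 498 (merge (leaf 2 463 467) (node 527 (merge (leaf 1 495 499) (leaf 1 494 526))))))) (node 525 (merge (leaf 1 493 526) (node 493 (merge (leaf 1 492 524) (node 492 (merge (leaf 0 492 527) (node 460 (merge (leaf 3 459 459) (leaf 3 460 461)))))))))))))))) (node 497 (merge (node 465 (merge (leaf 6 464 592) (node 433 (merge (leaf 5 400 401) (leaf 5 432 529))))) (merge (node 592 (merge (leaf 6 464 465) (node 625 (merge (leaf 4 496 593) (node 624 (merge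 (leaf 7 495 527) (leaf 4 528 657))))))) (node 526 (merge (node 527 (merge (leaf 1 494 498) (leaf 2 493 525))) (merge (node 494 (merge (leaf 1 493 525) (node 529 (merge (leaf 0 493 493) (leaf 0 494 530))))) (node 498 (merge (leaf 1 494 527) (node 467 (merge (leaf 2 463 466) (node 499 (merge (leaf 2 464 468) (node 529 (merge (leaf 1 496 500) (node 494 (merge (leaf 0 493 493) (leaf 0 494 530)))))))))))))))))))) (node 527 (merge (node 561 (merge (node 464 (merge (leaf 4 464 593) (node 559 (merge (leaf 5 431 432) (leaf 5 463 591))))) (merge (node 526 (merge (leaf 0 525 525) (node 562 (merge (leaf 0 526 529) (leaf 3 526 559))))) (node 593 (merge (leaf 4 464 464) (node 625 (merge (leaf 7 496 529) (leaf 7 528 657)))))))) (merge (node 464 (merge (node 433 (merge (leaf 6 432 465) (node 432 (merge (leaf 6 400 401) (node 431 (merge (leaf 7 399 399) (leaf 7 431 463))))))) (node 561 (merge (leaf 4 464 593) (node 562 (merge (leaf 3 527 563) (node 559 (merge (leaf 3 526 526) (leaf 5 463 591))))))))) (merge (node 526 (merge (node 497 (merge (leaf 2 493 525) (node 498 (merge (leaf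 1 494 495) (leaf 1 495 499))))) (node 464 (merge (node 433 (merge (leaf 6 432 465) (node 432 (merge (leaf 6 400 401) (node 431 (merge (leaf 7 399 399) (leaf 7 431 463))))))) (merge (node 561 (merge (leaf 4 464 593) (node 562 (merge (leaf 0 526 529) (leaf 3 527 563))))) (node 561 (merge (leaf 4 464 593) (node 562 (merge (leaf 0 526 529) (leaf 3 527 563)))))))))) (merge (node 464 (merge (node 559 (merge (leaf 5 431 432) (leaf 5 463 591))) (merge (node 561 (merge (leaf 4 464 593) (node 432 (merge (leaf 4 432 529) (node 433 (merge (leaf 6 400 401) (leaf 6 432 465))))))) (node 561 (merge (leaf 4 464 593) (node 562 (merge (leaf 3 527 563) (node 559 (merge (leaf 5 463 591) (node 594 (merge (leaf 0 559 595) (node 465 (merge (leaf 6 432 433) (node 497 (merge (leaf 4 465 529) (node 498 (merge (leaf 1 495 499) (leaf 7 465 530)))))))))))))))))) (merge (node 526 (merge (node 525 (merge (leaf 2 493 497) (leaf 0 525 561))) (merge (node 525 (merge (leaf 2 493 497) (node 524 (merge (leaf 2 492 495) (leaf 0 524 559))))) (merge (node 525 (merge (leaf 0 525 561) (node 524 (merge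 (leaf 2 492 495) (leaf 0 524 559))))) (node 529 (merge (node 562 (merge (leaf 0 526 561) (node 530 (merge (leaf 0 527 563) (node 494 (merge (leaf 3 493 493) (leaf 3 494 495))))))) (merge (node 562 (merge (leaf 0 526 561) (node 530 (merge (leaf 0 527 563) (node 498 (merge (leaf 2 494 497) (leaf 2 495 499))))))) (node 497 (merge (leaf 2 494 498) (node 494 (merge (leaf 3 493 493) (node 465 (merge (leaf 5 432 433) (node 495 (merge (leaf 2 462 466) (node 462 (merge (leaf 3 461 461) (node 430 (merge (leaf 4 398 398) (leaf 4 430 559)))))))))))))))))))) (node 526 (merge (node 497 (merge (leaf 2 493 525) (node 498 (merge (leaf 1 494 495) (leaf 1 495 499))))) (merge (node 525 (merge (leaf 2 493 497) (node 524 (merge (leaf 0 524 559) (node 556 (merge (leaf 1 523 555) (leaf 1 524 557))))))) (merge (node 525 (merge (node 524 (merge (leaf 2 492 495) (leaf 0 524 559))) (node 557 (merge (leaf 1 524 556) (node 493 (merge (leaf 3 492 492) (node 494 (merge (leaf 3 493 529) (node 589 (merge (leaf 6 461 462) (leaf 6 493 621))))))))))) (node 497 (merge (node 498 (merge (leaf 1 495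 499) (leaf 2 494 529))) (node 464 (merge (node 559 (merge (leaf 5 431 432) (leaf 5 463 591))) (merge (node 559 (merge (leaf 5 431 432) (leaf 5 463 591))) (node 465 (merge (leaf 6 432 433) (node 463 (merge (leaf 7 431 431) (node 462 (merge (leaf 0 461 461) (node 494 (merge (leaf 1 461 493) (node 495 (merge (leaf 1 462 466) (node 430 (merge (leaf 4 398 398) (leaf 3 429 429)))))))))))))))))))))))))))))))))) (merge (node 496 (merge (node 463 (merge (node 431 (merge (leaf 7 431 464) (node 495 (merge (leaf 4 399 399) (leaf 4 431 527))))) (merge (node 495 (merge (leaf 7 463 592) (node 431 (merge (leaf 4 399 399) (leaf 4 431 527))))) (merge (node 592 (merge (leaf 7 463 495) (node 465 (merge (leaf 6 464 497) (node 464 (merge (leaf 6 432 433) (node 591 (merge (leaf 5 463 559) (leaf 5 495 623))))))))) (node 464 (merge (leaf 7 431 431) (node 465 (merge (leaf 6 432 433) (node 592 (merge (leaf 6 464 497) (node 591 (merge (leaf 5 463 559) (leaf 5 495 623))))))))))))) (merge (node 592 (merge (node 593 (merge (leaf 4 496 625) (node 464 (merge (leaf 4 464 561) (node 465 (merge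 (leaf 6 432 433) (leaf 6 464 497))))))) (merge (node 625 (merge (leaf 4 496 593) (node 624 (merge (leaf 4 528 657) (node 623 (merge (leaf 5 495 591) (leaf 5 527 655))))))) (node 497 (merge (leaf 6 464 465) (node 624 (merge (leaf 6 496 529) (node 623 (merge (leaf 5 495 591) (leaf 5 527 655)))))))))) (merge (node 463 (merge (node 431 (merge (leaf 7 431 464) (node 495 (merge (leaf 4 399 399) (leaf 4 431 527))))) (merge (node 464 (merge (leaf 7 431 431) (node 593 (merge (leaf 4 464 561) (node 592 (merge (leaf 4 496 625) (node 591 (merge (leaf 5 463 559) (leaf 5 495 623))))))))) (node 592 (merge (leaf 7 463 495) (node 625 (merge (leaf 4 496 593) (node 624 (merge (leaf 4 528 657) (node 623 (merge (leaf 5 495 591) (leaf 5 527 655)))))))))))) (merge (node 463 (merge (node 431 (merge (leaf 7 431 464) (node 495 (merge (leaf 4 399 399) (leaf 4 431 527))))) (merge (node 495 (merge (leaf 7 463 592) (node 431 (merge (leaf 4 399 399) (leaf 4 431 527))))) (merge (node 592 (merge (leaf 7 463 495) (node 593 (merge (leaf 4 496 625) (node 464 (merge (leaf 4 464 561) (node 465 (merge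 (leaf 6 432 433) (leaf 6 464 497))))))))) (node 464 (merge (leaf 7 431 431) (node 593 (merge (leaf 4 464 561) (node 465 (merge (leaf 6 432 433) (node 592 (merge (leaf 6 464 497) (leaf 4 496 625))))))))))))) (merge (node 559 (merge (node 464 (merge (leaf 5 463 591) (node 432 (merge (leaf 5 431 527) (node 431 (merge (leaf 7 399 399) (leaf 7 431 463))))))) (merge (node 464 (merge (leaf 5 463 591) (node 561 (merge (leaf 4 464 593) (node 529 (merge (leaf 4 432 432) (node 558 (merge (leaf 2 526 530) (leaf 2 525 557))))))))) (node 558 (merge (node 529 (merge (leaf 2 525 557) (node 561 (merge (leaf 2 526 530) (node 593 (merge (leaf 0 558 594) (leaf 7 496 625))))))) (merge (node 557 (merge (leaf 2 525 529) (node 556 (merge (leaf 2 524 527) (node 524 (merge (leaf 3 523 523) (leaf 3 524 525))))))) (merge (node 525 (merge (node 524 (merge (leaf 3 524 557) (node 526 (merge (leaf 0 523 523) (leaf 3 525 561))))) (merge (node 526 (merge (leaf 3 525 561) (node 527 (merge (leaf 2 493 497) (leaf 0 524 524))))) (merge (node 557 (merge (leaf 3 524 524) (node 556 (merge (leaf 2 524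 527) (node 588 (merge (leaf 1 555 587) (leaf 1 556 589))))))) (node 561 (merge (leaf 3 525 526) (node 594 (merge (leaf 0 558 593) (node 562 (merge (leaf 0 559 595) (node 589 (merge (leaf 1 557 590) (node 557 (merge (leaf 1 556 588) (node 527 (merge (leaf 2 524 556) (leaf 3 527 563))))))))))))))))) (node 561 (merge (node 594 (merge (leaf 0 558 593) (node 562 (merge (leaf 0 559 595) (node 526 (merge (leaf 3 525 525) (leaf 3 526 527))))))) (merge (node 593 (merge (leaf 0 558 594) (node 625 (merge (leaf 7 528 657) (node 529 (merge (leaf 7 496 496) (leaf 2 526 530))))))) (node 590 (merge (leaf 1 557 589) (node 526 (merge (leaf 3 525 525) (node 527 (merge (leaf 3 526 562) (node 622 (merge (leaf 6 494 495) (leaf 6 526 654))))))))))))))))))) (node 495 (merge (node 592 (merge (leaf 7 463 463) (node 625 (merge (leaf 4 496 593) (node 624 (merge (leaf 7 495 527) (leaf 4 528 657))))))) (merge (node 592 (merge (leaf 7 463 463) (node 625 (merge (leaf 4 496 593) (node 497 (merge (leaf 6 464 465) (node 624 (merge (leaf 6 496 529) (leaf 4 528 657))))))))) (merge (node 497 (merge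 (node 465 (merge (leaf 6 464 592) (node 433 (merge (leaf 5 400 401) (leaf 5 432 529))))) (merge (node 592 (merge (leaf 6 464 465) (node 625 (merge (leaf 4 496 593) (node 624 (merge (leaf 7 495 527) (leaf 4 528 657))))))) (node 494 (merge (node 529 (merge (leaf 0 493 493) (leaf 0 494 530))) (merge (node 529 (merge (leaf 0 493 493) (leaf 0 494 530))) (merge (node 525 (merge (leaf 1 493 526) (node 493 (merge (leaf 1 492 524) (node 461 (merge (leaf 3 460 460) (leaf 3 461 462))))))) (node 526 (merge (leaf 1 493 525) (node 527 (merge (leaf 1 494 498) (node 462 (merge (leaf 3 461 461) (node 430 (merge (leaf 4 398 398) (leaf 4 430 559)))))))))))))))) (node 494 (merge (node 529 (merge (leaf 0 493 493) (node 530 (merge (leaf 0 494 497) (leaf 3 494 527))))) (merge (node 493 (merge (leaf 0 493 529) (node 524 (merge (leaf 1 492 525) (node 492 (merge (leaf 1 491 523) (node 460 (merge (leaf 3 459 459) (leaf 3 460 461))))))))) (merge (node 525 (merge (node 524 (merge (leaf 1 492 493) (node 526 (merge (leaf 1 493 497) (leaf 2 491 523))))) (merge (node 526 (merge (leaf 1 493 497)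 (node 527 (merge (leaf 2 492 524) (leaf 0 525 561))))) (merge (node 493 (merge (leaf 1 492 524) (node 492 (merge (leaf 0 492 527) (node 460 (merge (leaf 3 459 459) (leaf 3 460 461))))))) (node 526 (merge (leaf 1 493 497) (node 527 (merge (leaf 0 525 561) (node 493 (merge (leaf 0 492 492) (node 557 (merge (leaf 1 524 556) (node 461 (merge (leaf 3 460 460) (node 590 (merge (leaf 4 461 558) (node 589 (merge (leaf 6 493 621) (leaf 4 493 622))))))))))))))))))) (node 526 (merge (node 525 (merge (leaf 1 493 497) (node 524 (merge (leaf 2 491 523) (leaf 2 492 527))))) (merge (node 497 (merge (leaf 1 493 525) (node 462 (merge (leaf 3 461 461) (node 463 (merge (leaf 3 462 498) (node 558 (merge (leaf 6 430 431) (leaf 6 462 590))))))))) (merge (node 527 (merge (node 525 (merge (leaf 2 492 524) (leaf 0 525 561))) (node 529 (merge (leaf 3 494 530) (node 558 (merge (leaf 1 525 557) (node 590 (merge (leaf 6 494 622) (node 591 (merge (leaf 4 494 623) (node 559 (merge (leaf 4 462 462) (node 589 (merge (leaf 2 556 588) (leaf 5 493 621))))))))))))))) (node 527 (merge (node 497 (merge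 (leaf 1 494 498) (node 462 (merge (leaf 3 461 461) (node 430 (merge (leaf 4 398 398) (node 431 (merge (leaf 6 398 399) (leaf 4 431 463))))))))) (merge (node 529 (merge (leaf 3 494 530) (node 558 (merge (leaf 1 525 557) (node 590 (merge (leaf 6 494 622) (node 591 (merge (leaf 4 494 623) (node 559 (merge (leaf 4 462 462) (node 589 (merge (leaf 2 556 588) (leaf 5 493 621))))))))))))) (merge (node 497 (merge (leaf 1 494 498) (node 462 (merge (leaf 3 461 461) (node 430 (merge (leaf 4 398 398) (leaf 4 430 559))))))) (node 529 (merge (leaf 3 494 530) (node 558 (merge (leaf 1 525 557) (node 463 (merge (leaf 4 431 431) (leaf 6 462 590))))))))))))))))))))))))))))) (merge (node 496 (merge (node 463 (merge (node 431 (merge (leaf 7 431 464) (node 495 (merge (leaf 4 399 399) (leaf 4 431 527))))) (merge (node 495 (merge (leaf 7 463 592) (node 431 (merge (leaf 4 399 399) (leaf 4 431 527))))) (merge (node 592 (merge (leaf 7 463 495) (node 465 (merge (leaf 6 464 497) (node 464 (merge (leaf 6 432 433) (node 591 (merge (leaf 5 463 559) (leaf 5 495 623))))))))) (node 464 (merge (leaf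 7 431 431) (node 465 (merge (leaf 6 432 433) (node 592 (merge (leaf 6 464 497) (node 591 (merge (leaf 5 463 559) (leaf 5 495 623))))))))))))) (merge (node 592 (merge (node 593 (merge (leaf 4 496 625) (node 464 (merge (leaf 4 464 561) (node 465 (merge (leaf 6 432 433) (leaf 6 464 497))))))) (merge (node 625 (merge (leaf 4 496 593) (node 624 (merge (leaf 4 528 657) (node 623 (merge (leaf 5 495 591) (leaf 5 527 655))))))) (node 497 (merge (leaf 6 464 465) (node 624 (merge (leaf 6 496 529) (node 623 (merge (leaf 5 495 591) (leaf 5 527 655)))))))))) (merge (node 463 (merge (node 431 (merge (leaf 7 431 464) (node 495 (merge (leaf 4 399 399) (leaf 4 431 527))))) (merge (node 464 (merge (leaf 7 431 431) (node 593 (merge (leaf 4 464 561) (node 592 (merge (leaf 4 496 625) (node 591 (merge (leaf 5 463 559) (leaf 5 495 623))))))))) (node 592 (merge (leaf 7 463 495) (node 625 (merge (leaf 4 496 593) (node 624 (merge (leaf 4 528 657) (node 623 (merge (leaf 5 495 591) (leaf 5 527 655)))))))))))) (merge (node 463 (merge (node 431 (merge (leaf 7 431 464) (node 495 (merge (leaf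 4 399 399) (leaf 4 431 527))))) (merge (node 495 (merge (leaf 7 463 592) (node 431 (merge (leaf 4 399 399) (leaf 4 431 527))))) (merge (node 592 (merge (leaf 7 463 495) (node 593 (merge (leaf 4 496 625) (node 464 (merge (leaf 4 464 561) (node 465 (merge (leaf 6 432 433) (leaf 6 464 497))))))))) (node 464 (merge (leaf 7 431 431) (node 593 (merge (leaf 4 464 561) (node 465 (merge (leaf 6 432 433) (node 592 (merge (leaf 6 464 497) (leaf 4 496 625))))))))))))) (merge (node 495 (merge (node 592 (merge (leaf 7 463 463) (node 625 (merge (leaf 4 496 593) (node 624 (merge (leaf 4 528 657) (node 623 (merge (leaf 5 495 591) (leaf 5 527 655))))))))) (merge (node 494 (merge (node 493 (merge (leaf 0 493 529) (node 492 (merge (leaf 0 492 527) (node 460 (merge (leaf 3 459 459) (leaf 3 460 461))))))) (merge (node 529 (merge (leaf 0 493 493) (node 497 (merge (leaf 0 494 530) (node 465 (merge (leaf 5 432 433) (leaf 2 462 466))))))) (merge (node 497 (merge (node 465 (merge (leaf 2 462 466) (node 433 (merge (leaf 5 400 401) (leaf 5 432 529))))) (node 462 (merge (leaf 3 461 461) (node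 498 (merge (leaf 3 462 463) (node 527 (merge (leaf 1 495 499) (leaf 1 494 526))))))))) (node 497 (merge (node 466 (merge (leaf 2 462 465) (node 498 (merge (leaf 2 463 467) (node 462 (merge (leaf 3 461 461) (leaf 3 462 463))))))) (merge (node 466 (merge (leaf 2 462 465) (node 498 (merge (leaf 2 463 467) (node 527 (merge (leaf 1 495 499) (leaf 1 494 526))))))) (node 525 (merge (leaf 1 493 526) (node 493 (merge (leaf 1 492 524) (node 492 (merge (leaf 0 492 527) (node 460 (merge (leaf 3 459 459) (leaf 3 460 461)))))))))))))))) (node 497 (merge (node 465 (merge (leaf 6 464 592) (node 433 (merge (leaf 5 400 401) (leaf 5 432 529))))) (merge (node 592 (merge (leaf 6 464 465) (node 625 (merge (leaf 4 496 593) (node 624 (merge (leaf 7 495 527) (leaf 4 528 657))))))) (node 526 (merge (node 527 (merge (leaf 1 494 498) (leaf 2 493 525))) (merge (node 494 (merge (leaf 1 493 525) (node 529 (merge (leaf 0 493 493) (leaf 0 494 530))))) (node 498 (merge (leaf 1 494 527) (node 467 (merge (leaf 2 463 466) (node 499 (merge (leaf 2 464 468) (node 529 (merge (leaf 1 496 500) (node 494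 (merge (leaf 0 493 493) (leaf 0 494 530)))))))))))))))))))) (node 559 (merge (node 464 (merge (leaf 5 463 591) (node 432 (merge (leaf 5 431 527) (node 431 (merge (leaf 7 399 399) (leaf 7 431 463))))))) (merge (node 464 (merge (leaf 5 463 591) (node 561 (merge (leaf 4 464 593) (node 432 (merge (leaf 4 432 529) (node 431 (merge (leaf 7 399 399) (leaf 7 431 463))))))))) (merge (node 561 (merge (node 593 (merge (leaf 4 464 464) (node 625 (merge (leaf 7 496 529) (leaf 7 528 657))))) (merge (node 464 (merge (leaf 4 464 593) (node 433 (merge (leaf 6 432 465) (node 432 (merge (leaf 6 400 401) (leaf 5 431 527))))))) (node 558 (merge (node 529 (merge (leaf 2 526 530) (leaf 2 525 557))) (merge (node 589 (merge (leaf 1 557 590) (node 557 (merge (leaf 1 556 588) (node 525 (merge (leaf 3 524 524) (leaf 3 525 526))))))) (node 590 (merge (leaf 1 557 589) (node 526 (merge (leaf 3 525 525) (node 527 (merge (leaf 3 526 562) (node 622 (merge (leaf 6 494 495) (leaf 6 526 654))))))))))))))) (node 558 (merge (node 557 (merge (leaf 2 525 529) (node 556 (merge (leaf 2 524 527) (node 524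 (merge (leaf 3 523 523) (leaf 3 524 525))))))) (merge (node 557 (merge (leaf 2 525 529) (node 556 (merge (leaf 2 524 527) (node 588 (merge (leaf 1 555 587) (leaf 1 556 589))))))) (merge (node 557 (merge (leaf 2 525 529) (node 589 (merge (leaf 1 556 588) (node 590 (merge (leaf 1 557 561) (node 525 (merge (leaf 3 524 524) (node 622 (merge (leaf 4 493 493) (leaf 7 525 654))))))))))) (merge (node 557 (merge (node 556 (merge (leaf 2 524 527) (node 588 (merge (leaf 1 555 587) (leaf 1 556 589))))) (merge (node 589 (merge (leaf 1 556 588) (node 590 (merge (leaf 1 557 561) (node 525 (merge (leaf 3 524 524) (node 622 (merge (leaf 4 493 493) (leaf 7 525 654))))))))) (merge (node 556 (merge (leaf 2 524 527) (node 587 (merge (leaf 1 555 588) (node 555 (merge (leaf 1 554 586) (node 523 (merge (leaf 3 522 522) (leaf 3 523 524))))))))) (node 556 (merge (leaf 2 524 527) (node 523 (merge (leaf 3 523 524) (node 555 (merge (leaf 3 522 522) (node 590 (merge (leaf 0 555 591) (node 589 (merge (leaf 0 554 554) (leaf 1 557 561))))))))))))))) (node 526 (merge (node 525 (merge (leaf 3 525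 561) (node 527 (merge (leaf 2 493 497) (leaf 0 524 524))))) (merge (node 561 (merge (leaf 3 525 525) (node 590 (merge (leaf 1 557 589) (node 591 (merge (leaf 1 558 562) (node 623 (merge (leaf 4 494 494) (leaf 7 526 655))))))))) (merge (node 527 (merge (node 525 (merge (leaf 2 493 497) (leaf 0 524 524))) (merge (node 529 (merge (leaf 1 526 530) (node 494 (merge (leaf 3 493 493) (node 462 (merge (leaf 4 430 430) (leaf 4 462 591))))))) (node 525 (merge (leaf 0 524 524) (node 529 (merge (leaf 1 526 530) (node 493 (merge (leaf 3 492 492) (leaf 3 493 494)))))))))) (node 527 (merge (node 561 (merge (leaf 3 526 562) (node 590 (merge (leaf 1 557 589) (node 622 (merge (leaf 6 494 495) (leaf 6 526 654))))))) (merge (node 529 (merge (leaf 1 526 530) (node 494 (merge (leaf 3 493 493) (node 591 (merge (leaf 4 462 462) (leaf 7 494 623))))))) (node 529 (merge (leaf 1 526 530) (node 494 (merge (leaf 3 493 493) (node 462 (merge (leaf 4 430 430) (leaf 4 462 591))))))))))))))))))))))))))))) (merge (node 592 (merge (node 624 (merge (node 625 (merge (leaf 4 528 657) (node 496 (merge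 (leaf 4 496 593) (node 497 (merge (leaf 6 464 465) (leaf 6 496 529))))))) (merge (node 657 (merge (leaf 4 528 625) (node 656 (merge (leaf 4 560 689) (node 655 (merge (leaf 5 527 623) (leaf 5 559 687))))))) (node 529 (merge (leaf 6 496 497) (node 656 (merge (leaf 6 528 561) (node 655 (merge (leaf 5 527 623) (leaf 5 559 687)))))))))) (merge (node 623 (merge (node 591 (merge (leaf 5 495 496) (node 655 (merge (leaf 6 527 559) (leaf 6 559 687))))) (merge (node 655 (merge (leaf 5 527 624) (node 591 (merge (leaf 6 527 559) (leaf 6 559 687))))) (merge (node 496 (merge (leaf 5 495 591) (node 625 (merge (leaf 4 496 593) (node 497 (merge (leaf 6 464 465) (node 624 (merge (leaf 6 496 529) (leaf 4 528 657))))))))) (node 624 (merge (leaf 5 527 655) (node 625 (merge (leaf 4 528 657) (node 593 (merge (leaf 4 496 496) (node 622 (merge (leaf 2 590 594) (leaf 2 589 621))))))))))))) (merge (node 624 (merge (node 657 (merge (leaf 4 528 625) (node 529 (merge (leaf 6 496 497) (node 656 (merge (leaf 6 528 561) (leaf 4 560 689))))))) (merge (node 529 (merge (leaf 6 496 497) (node 656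 (merge (leaf 6 528 561) (node 655 (merge (leaf 5 527 623) (leaf 5 559 687))))))) (node 625 (merge (leaf 4 528 657) (node 623 (merge (leaf 5 527 655) (node 591 (merge (leaf 5 495 496) (node 626 (merge (leaf 3 590 590) (leaf 3 591 627)))))))))))) (merge (node 496 (merge (node 497 (merge (leaf 6 464 465) (node 624 (merge (leaf 6 496 529) (node 623 (merge (leaf 5 495 591) (leaf 5 527 655))))))) (merge (node 591 (merge (leaf 5 495 623) (node 464 (merge (leaf 5 463 559) (node 561 (merge (leaf 4 464 593) (node 432 (merge (leaf 4 432 529) (node 431 (merge (leaf 7 399 399) (leaf 7 431 463))))))))))) (merge (node 465 (merge (leaf 6 464 497) (node 464 (merge (leaf 6 432 433) (node 561 (merge (leaf 4 464 593) (node 432 (merge (leaf 4 432 529) (node 431 (merge (leaf 7 399 399) (leaf 7 431 463))))))))))) (node 591 (merge (leaf 5 495 623) (node 464 (merge (leaf 5 463 559) (node 433 (merge (leaf 6 432 465) (node 432 (merge (leaf 6 400 401) (node 431 (merge (leaf 7 399 399) (leaf 7 431 463))))))))))))))) (merge (node 623 (merge (node 655 (merge (leaf 5 527 624) (node 591 (merge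 (leaf 6 527 559) (leaf 6 559 687))))) (merge (node 624 (merge (leaf 5 527 655) (node 625 (merge (leaf 4 528 657) (node 593 (merge (leaf 4 496 496) (node 622 (merge (leaf 2 590 594) (leaf 2 589 621))))))))) (node 496 (merge (leaf 5 495 591) (node 593 (merge (leaf 4 496 625) (node 464 (merge (leaf 4 464 561) (node 433 (merge (leaf 6 432 465) (node 432 (merge (leaf 6 400 401) (node 431 (merge (leaf 7 399 399) (leaf 7 431 463)))))))))))))))) (merge (node 625 (merge (node 657 (merge (leaf 4 528 624) (node 593 (merge (leaf 7 528 561) (leaf 7 560 689))))) (merge (node 624 (merge (leaf 4 528 657) (node 529 (merge (leaf 6 496 497) (node 656 (merge (leaf 6 528 561) (node 559 (merge (leaf 7 527 527) (node 688 (merge (leaf 7 559 591) (node 687 (merge (leaf 5 559 655) (leaf 5 591 719))))))))))))) (node 496 (merge (leaf 4 496 593) (node 465 (merge (leaf 6 464 497) (node 464 (merge (leaf 6 432 433) (node 559 (merge (leaf 5 463 591) (node 432 (merge (leaf 5 431 527) (node 431 (merge (leaf 7 399 399) (leaf 7 431 463)))))))))))))))) (merge (node 624 (merge (node 657 (merge (leaf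 4 528 625) (node 529 (merge (leaf 6 496 497) (node 656 (merge (leaf 6 528 561) (leaf 4 560 689))))))) (merge (node 625 (merge (leaf 4 528 657) (node 496 (merge (leaf 4 496 593) (node 591 (merge (leaf 5 495 623) (node 464 (merge (leaf 5 463 559) (node 433 (merge (leaf 6 432 465) (node 432 (merge (leaf 6 400 401) (node 431 (merge (leaf 7 399 399) (leaf 7 431 463))))))))))))))) (merge (node 529 (merge (leaf 6 496 497) (node 656 (merge (leaf 6 528 561) (node 559 (merge (leaf 7 527 527) (node 688 (merge (leaf 7 559 591) (node 689 (merge (leaf 4 560 657) (leaf 4 592 721))))))))))) (node 529 (merge (leaf 6 496 497) (node 656 (merge (leaf 6 528 561) (node 559 (merge (leaf 7 527 527) (node 688 (merge (leaf 7 559 591) (node 721 (merge (leaf 4 592 689) (node 720 (merge (leaf 4 624 753) (node 719 (merge (leaf 5 591 687) (leaf 5 623 751))))))))))))))))))) (merge (node 593 (merge (node 496 (merge (leaf 4 496 625) (node 464 (merge (leaf 4 464 561) (node 465 (merge (leaf 6 432 433) (leaf 6 464 497))))))) (merge (node 496 (merge (leaf 4 496 625) (node 591 (merge (leaf 5 495 623)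 (node 559 (merge (leaf 5 463 464) (node 594 (merge (leaf 3 558 558) (leaf 3 559 595))))))))) (merge (node 594 (merge (node 559 (merge (leaf 3 559 595) (node 591 (merge (leaf 3 558 558) (node 623 (merge (leaf 1 590 622) (leaf 6 527 655))))))) (merge (node 595 (merge (leaf 3 559 559) (node 628 (merge (leaf 0 592 627) (node 596 (merge (leaf 3 560 561) (leaf 0 593 629))))))) (merge (node 595 (merge (node 628 (merge (leaf 0 592 627) (node 596 (merge (leaf 3 560 561) (leaf 0 593 629))))) (merge (node 564 (merge (leaf 2 560 563) (node 596 (merge (leaf 3 560 561) (leaf 2 561 565))))) (node 627 (merge (leaf 0 592 628) (node 591 (merge (leaf 0 591 626) (node 563 (merge (leaf 2 559 562) (leaf 2 560 564)))))))))) (node 591 (merge (node 623 (merge (leaf 1 590 622) (node 559 (merge (leaf 3 558 558) (leaf 6 527 655))))) (merge (node 562 (merge (leaf 2 559 563) (node 590 (merge (leaf 2 558 561) (node 622 (merge (leaf 1 589 621) (leaf 1 590 623))))))) (merge (node 562 (merge (leaf 2 559 563) (node 590 (merge (leaf 2 558 561) (node 621 (merge (leaf 1 589 622) (node 589 (merge (leaf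 1 588 620) (node 557 (merge (leaf 3 556 556) (leaf 3 557 558))))))))))) (node 626 (merge (leaf 0 591 627) (node 590 (merge (leaf 0 590 625) (node 589 (merge (leaf 2 557 561) (node 559 (merge (leaf 3 558 558) (leaf 2 556 588))))))))))))))))) (node 591 (merge (node 623 (merge (leaf 5 495 496) (node 655 (merge (leaf 6 527 559) (leaf 6 559 687))))) (merge (node 594 (merge (node 563 (merge (leaf 2 559 562) (node 595 (merge (leaf 3 559 559) (leaf 2 560 564))))) (merge (node 558 (merge (leaf 3 558 559) (node 590 (merge (leaf 3 557 557) (node 561 (merge (leaf 2 558 562) (leaf 2 557 589))))))) (merge (node 595 (merge (leaf 3 559 559) (node 564 (merge (leaf 2 560 563) (node 596 (merge (leaf 3 560 561) (leaf 2 561 565))))))) (node 562 (merge (leaf 2 559 563) (node 590 (merge (leaf 2 558 561) (node 621 (merge (leaf 1 589 622) (node 589 (merge (leaf 1 588 620) (node 557 (merge (leaf 3 556 556) (leaf 3 557 558))))))))))))))) (node 496 (merge (leaf 5 495 623) (node 464 (merge (leaf 4 464 561) (node 465 (merge (leaf 6 432 433) (leaf 6 464 497)))))))))))))) (hyp 0)))))))))) (merge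 (hyp 1) (merge (hyp 2) (merge (hyp 3) (merge (node 496 (merge (node 463 (merge (node 431 (merge (leaf 7 431 464) (node 495 (merge (leaf 4 399 399) (leaf 4 431 527))))) (merge (node 495 (merge (leaf 7 463 592) (node 431 (merge (leaf 4 399 399) (leaf 4 431 527))))) (merge (node 592 (merge (leaf 7 463 495) (node 465 (merge (leaf 6 464 497) (node 464 (merge (leaf 6 432 433) (node 591 (merge (leaf 5 463 559) (leaf 5 495 623))))))))) (node 464 (merge (leaf 7 431 431) (node 465 (merge (leaf 6 432 433) (node 592 (merge (leaf 6 464 497) (node 591 (merge (leaf 5 463 559) (leaf 5 495 623))))))))))))) (merge (node 592 (merge (node 593 (merge (leaf 4 496 625) (node 464 (merge (leaf 4 464 561) (node 465 (merge (leaf 6 432 433) (leaf 6 464 497))))))) (merge (node 625 (merge (leaf 4 496 593) (node 624 (merge (leaf 4 528 657) (node 623 (merge (leaf 5 495 591) (leaf 5 527 655))))))) (node 497 (merge (leaf 6 464 465) (node 624 (merge (leaf 6 496 529) (node 623 (merge (leaf 5 495 591) (leaf 5 527 655)))))))))) (merge (node 463 (merge (node 431 (merge (leaf 7 431 464) (node 495 (merge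 (leaf 4 399 399) (leaf 4 431 527))))) (merge (node 464 (merge (leaf 7 431 431) (node 593 (merge (leaf 4 464 561) (node 592 (merge (leaf 4 496 625) (node 591 (merge (leaf 5 463 559) (leaf 5 495 623))))))))) (node 592 (merge (leaf 7 463 495) (node 625 (merge (leaf 4 496 593) (node 624 (merge (leaf 4 528 657) (node 623 (merge (leaf 5 495 591) (leaf 5 527 655)))))))))))) (merge (node 463 (merge (node 431 (merge (leaf 7 431 464) (node 495 (merge (leaf 4 399 399) (leaf 4 431 527))))) (merge (node 495 (merge (leaf 7 463 592) (node 431 (merge (leaf 4 399 399) (leaf 4 431 527))))) (merge (node 592 (merge (leaf 7 463 495) (node 593 (merge (leaf 4 496 625) (node 464 (merge (leaf 4 464 561) (node 465 (merge (leaf 6 432 433) (leaf 6 464 497))))))))) (node 464 (merge (leaf 7 431 431) (node 593 (merge (leaf 4 464 561) (node 465 (merge (leaf 6 432 433) (node 592 (merge (leaf 6 464 497) (leaf 4 496 625))))))))))))) (merge (node 495 (merge (node 592 (merge (leaf 7 463 463) (node 625 (merge (leaf 4 496 593) (node 624 (merge (leaf 7 495 527) (leaf 4 528 657))))))) (merge (node 592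 (merge (leaf 7 463 463) (node 625 (merge (leaf 4 496 593) (node 497 (merge (leaf 6 464 465) (node 624 (merge (leaf 6 496 529) (leaf 4 528 657))))))))) (merge (node 494 (merge (node 493 (merge (leaf 0 493 529) (node 492 (merge (leaf 0 492 527) (node 460 (merge (leaf 3 459 459) (leaf 3 460 461))))))) (merge (node 529 (merge (leaf 0 493 493) (node 497 (merge (leaf 0 494 530) (node 465 (merge (leaf 5 432 433) (leaf 2 462 466))))))) (merge (node 497 (merge (node 465 (merge (leaf 2 462 466) (node 433 (merge (leaf 5 400 401) (leaf 5 432 529))))) (node 463 (merge (node 431 (merge (leaf 4 399 399) (leaf 4 431 527))) (node 462 (merge (leaf 3 462 498) (node 461 (merge (leaf 0 460 460) (leaf 3 461 494))))))))) (node 493 (merge (node 492 (merge (leaf 0 492 527) (node 460 (merge (leaf 3 459 459) (leaf 3 460 461))))) (merge (node 525 (merge (leaf 1 492 524) (node 461 (merge (leaf 3 460 460) (node 462 (merge (leaf 3 461 497) (node 557 (merge (leaf 6 429 430) (leaf 6 461 589))))))))) (merge (node 492 (merge (leaf 0 492 527) (node 523 (merge (leaf 1 491 524) (node 491 (merge (leaf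 1 490 522) (node 459 (merge (leaf 3 458 458) (leaf 3 459 460))))))))) (node 492 (merge (leaf 0 492 527) (node 523 (merge (leaf 1 491 524) (node 491 (merge (leaf 1 490 522) (node 462 (merge (leaf 2 459 463) (node 461 (merge (leaf 2 458 490) (leaf 3 461 497))))))))))))))))))) (node 497 (merge (node 592 (merge (leaf 6 464 465) (node 625 (merge (leaf 4 496 593) (node 624 (merge (leaf 7 495 527) (leaf 4 528 657))))))) (merge (node 465 (merge (node 433 (merge (leaf 5 400 401) (leaf 5 432 529))) (merge (node 494 (merge (leaf 2 462 466) (node 529 (merge (leaf 0 493 493) (leaf 0 494 530))))) (node 466 (merge (leaf 2 462 494) (node 467 (merge (leaf 1 464 468) (leaf 2 463 498)))))))) (node 494 (merge (node 529 (merge (leaf 0 493 493) (leaf 0 494 530))) (merge (node 461 (merge (leaf 3 461 462) (node 493 (merge (leaf 3 460 460) (node 492 (merge (leaf 0 492 527) (node 524 (merge (leaf 1 491 523) (leaf 1 492 525))))))))) (node 529 (merge (leaf 0 494 530) (node 462 (merge (leaf 3 461 461) (node 592 (merge (leaf 6 496 624) (node 593 (merge (leaf 4 496 625) (node 591 (merge (leaf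 5 495 623) (node 559 (merge (leaf 7 462 527) (node 558 (merge (leaf 0 557 557) (leaf 3 558 594))))))))))))))))))))))))) (node 559 (merge (node 464 (merge (leaf 5 463 591) (node 432 (merge (leaf 5 431 527) (node 431 (merge (leaf 7 399 399) (leaf 7 431 463))))))) (merge (node 464 (merge (leaf 5 463 591) (node 561 (merge (leaf 4 464 593) (node 432 (merge (leaf 4 432 529) (node 431 (merge (leaf 7 399 399) (leaf 7 431 463))))))))) (merge (node 561 (merge (node 464 (merge (leaf 4 464 593) (node 433 (merge (leaf 6 432 465) (node 432 (merge (leaf 6 400 401) (leaf 5 431 527))))))) (merge (node 593 (merge (node 625 (merge (leaf 7 496 529) (leaf 7 528 657))) (merge (node 558 (merge (leaf 0 558 594) (node 529 (merge (leaf 2 526 530) (leaf 2 525 557))))) (node 594 (merge (leaf 0 558 558) (node 595 (merge (leaf 0 559 562) (leaf 3 560 596)))))))) (node 558 (merge (node 529 (merge (leaf 2 526 530) (leaf 2 525 557))) (merge (node 589 (merge (leaf 1 557 590) (node 557 (merge (leaf 1 556 588) (node 556 (merge (leaf 2 524 527) (node 524 (merge (leaf 3 523 523) (leaf 3 524 525)))))))))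 (node 590 (merge (leaf 1 557 589) (node 529 (merge (leaf 2 526 530) (node 464 (merge (leaf 4 432 432) (node 465 (merge (leaf 6 432 433) (node 463 (merge (leaf 7 431 431) (node 495 (merge (leaf 5 462 527) (node 494 (merge (leaf 1 462 466) (leaf 0 493 493))))))))))))))))))))) (node 558 (merge (node 529 (merge (leaf 2 525 557) (node 561 (merge (leaf 2 526 530) (node 593 (merge (leaf 0 558 594) (leaf 7 496 625))))))) (merge (node 557 (merge (leaf 2 525 529) (node 556 (merge (leaf 2 524 527) (node 524 (merge (leaf 3 523 523) (leaf 3 524 525))))))) (merge (node 561 (merge (node 593 (merge (leaf 0 558 594) (node 625 (merge (leaf 7 528 657) (node 529 (merge (leaf 7 496 496) (leaf 2 526 530))))))) (merge (node 590 (merge (leaf 1 557 589) (node 562 (merge (leaf 1 558 591) (node 595 (merge (leaf 0 559 594) (node 563 (merge (leaf 3 527 527) (leaf 0 560 596))))))))) (node 590 (merge (leaf 1 557 589) (node 562 (merge (leaf 1 558 591) (node 529 (merge (leaf 2 526 530) (node 563 (merge (leaf 3 527 527) (leaf 3 528 564)))))))))))) (node 557 (merge (node 556 (merge (leaf 2 524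 527) (node 588 (merge (leaf 1 555 587) (leaf 1 556 589))))) (merge (node 589 (merge (leaf 1 556 588) (node 590 (merge (leaf 1 557 561) (node 525 (merge (leaf 3 524 524) (node 622 (merge (leaf 4 493 493) (leaf 7 525 654))))))))) (merge (node 556 (merge (leaf 2 524 527) (node 587 (merge (leaf 1 555 588) (node 555 (merge (leaf 1 554 586) (node 523 (merge (leaf 3 522 522) (leaf 3 523 524))))))))) (node 556 (merge (leaf 2 524 527) (node 523 (merge (leaf 3 523 524) (node 555 (merge (leaf 3 522 522) (node 590 (merge (leaf 0 555 591) (node 589 (merge (leaf 0 554 554) (leaf 1 557 561))))))))))))))))))))))))))))) (merge (node 496 (merge (node 463 (merge (node 431 (merge (leaf 7 431 464) (node 495 (merge (leaf 4 399 399) (leaf 4 431 527))))) (merge (node 495 (merge (leaf 7 463 592) (node 431 (merge (leaf 4 399 399) (leaf 4 431 527))))) (merge (node 592 (merge (leaf 7 463 495) (node 465 (merge (leaf 6 464 497) (node 464 (merge (leaf 6 432 433) (node 591 (merge (leaf 5 463 559) (leaf 5 495 623))))))))) (node 464 (merge (leaf 7 431 431) (node 465 (merge (leaf 6 432 433) (node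 592 (merge (leaf 6 464 497) (node 591 (merge (leaf 5 463 559) (leaf 5 495 623))))))))))))) (merge (node 463 (merge (node 431 (merge (leaf 7 431 464) (node 495 (merge (leaf 4 399 399) (leaf 4 431 527))))) (merge (node 495 (merge (leaf 7 463 592) (node 431 (merge (leaf 4 399 399) (leaf 4 431 527))))) (merge (node 592 (merge (leaf 7 463 495) (node 593 (merge (leaf 4 496 625) (node 464 (merge (leaf 4 464 561) (node 465 (merge (leaf 6 432 433) (leaf 6 464 497))))))))) (node 464 (merge (leaf 7 431 431) (node 593 (merge (leaf 4 464 561) (node 465 (merge (leaf 6 432 433) (node 592 (merge (leaf 6 464 497) (leaf 4 496 625))))))))))))) (merge (node 464 (merge (node 433 (merge (leaf 6 432 465) (node 432 (merge (leaf 6 400 401) (node 559 (merge (leaf 5 431 527) (leaf 5 463 591))))))) (merge (node 593 (merge (leaf 4 464 561) (node 465 (merge (leaf 6 432 433) (node 592 (merge (leaf 6 464 497) (leaf 4 496 625))))))) (node 593 (merge (leaf 4 464 561) (node 592 (merge (leaf 4 496 625) (node 591 (merge (leaf 5 463 559) (leaf 5 495 623)))))))))) (merge (node 464 (merge (node 433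 (merge (leaf 6 432 465) (node 432 (merge (leaf 6 400 401) (node 431 (merge (leaf 7 399 399) (leaf 7 431 463))))))) (node 593 (merge (leaf 4 464 561) (node 592 (merge (leaf 4 496 625) (node 591 (merge (leaf 5 463 559) (leaf 5 495 623))))))))) (merge (node 463 (merge (node 431 (merge (leaf 7 431 464) (node 495 (merge (leaf 4 399 399) (leaf 4 431 527))))) (merge (node 464 (merge (leaf 7 431 431) (node 593 (merge (leaf 4 464 561) (node 592 (merge (leaf 4 496 625) (node 591 (merge (leaf 5 463 559) (leaf 5 495 623))))))))) (node 592 (merge (leaf 7 463 495) (node 625 (merge (leaf 4 496 593) (node 624 (merge (leaf 4 528 657) (node 623 (merge (leaf 5 495 591) (leaf 5 527 655)))))))))))) (merge (node 559 (merge (node 591 (merge (leaf 5 463 464) (node 623 (merge (leaf 6 495 527) (leaf 6 527 655))))) (merge (node 464 (merge (leaf 5 463 591) (node 433 (merge (leaf 6 432 465) (node 432 (merge (leaf 6 400 401) (node 431 (merge (leaf 7 399 399) (leaf 7 431 463))))))))) (merge (node 561 (merge (node 464 (merge (leaf 4 464 593) (node 433 (merge (leaf 6 432 465) (node 432 (merge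 (leaf 6 400 401) (node 431 (merge (leaf 7 399 399) (leaf 7 431 463))))))))) (merge (node 594 (merge (node 593 (merge (leaf 0 558 558) (node 595 (merge (leaf 0 559 562) (leaf 3 560 596))))) (merge (node 562 (merge (leaf 0 559 595) (node 527 (merge (leaf 3 526 526) (leaf 3 527 563))))) (node 558 (merge (leaf 0 558 593) (node 589 (merge (leaf 1 557 590) (node 557 (merge (leaf 1 556 588) (node 525 (merge (leaf 3 524 524) (leaf 3 525 526)))))))))))) (node 558 (merge (node 589 (merge (leaf 1 557 590) (node 557 (merge (leaf 1 556 588) (node 525 (merge (leaf 3 524 524) (leaf 3 525 526))))))) (merge (node 589 (merge (leaf 1 557 590) (node 557 (merge (leaf 1 556 588) (node 527 (merge (leaf 2 524 556) (node 562 (merge (leaf 3 526 526) (leaf 3 527 563))))))))) (merge (node 525 (merge (leaf 3 525 526) (node 557 (merge (leaf 3 524 524) (node 556 (merge (leaf 2 524 527) (node 588 (merge (leaf 1 555 587) (leaf 1 556 589))))))))) (merge (node 589 (merge (leaf 1 557 590) (node 557 (merge (leaf 1 556 588) (node 556 (merge (leaf 2 524 527) (node 524 (merge (leaf 3 523 523) (leaf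 3 524 525))))))))) (node 526 (merge (leaf 3 525 525) (node 527 (merge (leaf 3 526 562) (node 464 (merge (leaf 5 431 432) (node 463 (merge (leaf 7 431 431) (node 495 (merge (leaf 5 462 590) (node 497 (merge (leaf 1 494 498) (node 462 (merge (leaf 7 430 430) (leaf 0 461 461))))))))))))))))))))))) (hyp 4))))) (node 495 (merge (node 592 (merge (leaf 7 463 463) (node 625 (merge (leaf 4 496 593) (node 624 (merge (leaf 7 495 527) (leaf 4 528 657))))))) (merge (node 592 (merge (leaf 7 463 463) (node 625 (merge (leaf 4 496 593) (node 624 (merge (leaf 4 528 657) (node 623 (merge (leaf 5 495 591) (leaf 5 527 655))))))))) (merge (node 497 (merge (node 592 (merge (leaf 6 464 465) (node 625 (merge (leaf 4 496 593) (node 624 (merge (leaf 4 528 657) (node 623 (merge (leaf 5 495 591) (leaf 5 527 655))))))))) (merge (node 494 (merge (node 525 (merge (leaf 1 493 526) (node 493 (merge (leaf 1 492 524) (node 461 (merge (leaf 3 460 460) (leaf 3 461 462))))))) (merge (node 466 (merge (leaf 2 462 465) (node 498 (merge (leaf 2 463 467) (node 527 (merge (leaf 1 495 499) (leaf 1 494 526)))))))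 (node 461 (merge (leaf 3 461 462) (node 493 (merge (leaf 3 460 460) (node 492 (merge (leaf 0 492 527) (node 524 (merge (leaf 1 491 523) (leaf 1 492 525)))))))))))) (node 494 (merge (node 525 (merge (leaf 1 493 526) (node 493 (merge (leaf 1 492 524) (node 461 (merge (leaf 3 460 460) (leaf 3 461 462))))))) (merge (node 461 (merge (leaf 3 461 462) (node 493 (merge (leaf 3 460 460) (node 527 (merge (leaf 0 492 492) (node 498 (merge (leaf 1 495 499) (leaf 1 494 526))))))))) (merge (node 461 (merge (leaf 3 461 462) (node 493 (merge (leaf 3 460 460) (node 492 (merge (leaf 0 492 527) (node 524 (merge (leaf 1 491 523) (leaf 1 492 525))))))))) (merge (node 525 (merge (leaf 1 493 526) (node 493 (merge (leaf 1 492 524) (node 492 (merge (leaf 0 492 527) (node 460 (merge (leaf 3 459 459) (leaf 3 460 461))))))))) (node 526 (merge (leaf 1 493 525) (node 527 (merge (leaf 1 494 498) (node 592 (merge (leaf 7 495 624) (node 591 (merge (leaf 5 495 623) (node 559 (merge (leaf 7 462 462) (node 590 (merge (leaf 5 494 622) (node 589 (merge (leaf 2 557 561) (leaf 2 556 588)))))))))))))))))))))))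 (hyp 5)))))))))))) (merge (hyp 6) (merge (hyp 7) (merge (node 496 (merge (node 592 (merge (node 593 (merge (leaf 4 496 625) (node 464 (merge (leaf 4 464 561) (node 465 (merge (leaf 6 432 433) (leaf 6 464 497))))))) (merge (node 625 (merge (leaf 4 496 593) (node 624 (merge (leaf 4 528 657) (node 623 (merge (leaf 5 495 591) (leaf 5 527 655))))))) (node 497 (merge (leaf 6 464 465) (node 624 (merge (leaf 6 496 529) (node 623 (merge (leaf 5 495 591) (leaf 5 527 655)))))))))) (merge (node 592 (merge (node 625 (merge (leaf 4 496 593) (node 624 (merge (leaf 4 528 657) (node 495 (merge (leaf 7 463 463) (leaf 7 495 527))))))) (merge (node 625 (merge (leaf 4 496 593) (node 624 (merge (leaf 4 528 657) (node 623 (merge (leaf 5 495 591) (leaf 5 527 655))))))) (merge (node 623 (merge (leaf 5 495 591) (node 495 (merge (leaf 7 463 463) (node 624 (merge (leaf 7 495 527) (leaf 5 527 655))))))) (node 593 (merge (leaf 4 496 625) (node 591 (merge (leaf 5 495 623) (node 559 (merge (leaf 5 463 464) (node 594 (merge (leaf 3 558 558) (leaf 3 559 595))))))))))))) (merge (node 592 (merge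 (node 593 (merge (leaf 4 496 625) (node 464 (merge (leaf 4 464 561) (node 465 (merge (leaf 6 432 433) (leaf 6 464 497))))))) (merge (node 625 (merge (leaf 4 496 593) (node 624 (merge (leaf 4 528 657) (node 495 (merge (leaf 7 463 463) (leaf 7 495 527))))))) (node 495 (merge (leaf 7 463 463) (node 624 (merge (leaf 7 495 527) (node 655 (merge (leaf 5 527 623) (node 656 (merge (leaf 5 559 687) (node 529 (merge (leaf 6 496 497) (leaf 6 528 561)))))))))))))) (merge (node 464 (merge (node 465 (merge (leaf 6 432 433) (node 592 (merge (leaf 6 464 497) (node 591 (merge (leaf 5 463 559) (leaf 5 495 623))))))) (merge (node 559 (merge (leaf 5 463 591) (node 432 (merge (leaf 5 431 527) (node 529 (merge (leaf 4 432 561) (node 400 (merge (leaf 4 400 497) (node 369 (merge (leaf 6 368 401) (node 368 (merge (leaf 6 336 337) (node 367 (merge (leaf 7 335 335) (leaf 7 367 399))))))))))))))) (merge (node 433 (merge (leaf 6 432 465) (node 432 (merge (leaf 6 400 401) (node 529 (merge (leaf 4 432 561) (node 400 (merge (leaf 4 400 497) (node 495 (merge (leaf 5 399 527) (node 368 (merge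 (leaf 5 367 463) (node 367 (merge (leaf 7 335 335) (leaf 7 367 399))))))))))))))) (node 591 (merge (leaf 5 463 559) (node 592 (merge (leaf 5 495 623) (node 495 (merge (leaf 7 463 463) (node 527 (merge (leaf 7 495 624) (node 432 (merge (leaf 5 399 400) (node 529 (merge (leaf 4 432 561) (node 494 (merge (leaf 0 493 493) (leaf 3 494 530))))))))))))))))))) (merge (node 495 (merge (node 592 (merge (leaf 7 463 463) (node 625 (merge (leaf 4 496 593) (node 624 (merge (leaf 4 528 657) (node 623 (merge (leaf 5 495 591) (leaf 5 527 655))))))))) (merge (node 494 (merge (node 493 (merge (leaf 0 493 529) (node 492 (merge (leaf 0 492 527) (node 460 (merge (leaf 3 459 459) (leaf 3 460 461))))))) (merge (node 529 (merge (leaf 0 493 493) (node 497 (merge (leaf 0 494 530) (node 465 (merge (leaf 5 432 433) (leaf 2 462 466))))))) (merge (node 497 (merge (node 465 (merge (leaf 2 462 466) (node 433 (merge (leaf 5 400 401) (leaf 5 432 529))))) (node 462 (merge (leaf 3 461 461) (node 498 (merge (leaf 3 462 463) (node 527 (merge (leaf 1 495 499) (leaf 1 494 526))))))))) (node 497 (merge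 (node 466 (merge (leaf 2 462 465) (node 498 (merge (leaf 2 463 467) (node 462 (merge (leaf 3 461 461) (leaf 3 462 463))))))) (merge (node 466 (merge (leaf 2 462 465) (node 498 (merge (leaf 2 463 467) (node 527 (merge (leaf 1 495 499) (leaf 1 494 526))))))) (node 525 (merge (leaf 1 493 526) (node 493 (merge (leaf 1 492 524) (node 492 (merge (leaf 0 492 527) (node 460 (merge (leaf 3 459 459) (leaf 3 460 461)))))))))))))))) (node 497 (merge (node 465 (merge (leaf 6 464 592) (node 433 (merge (leaf 5 400 401) (leaf 5 432 529))))) (merge (node 592 (merge (leaf 6 464 465) (node 625 (merge (leaf 4 496 593) (node 624 (merge (leaf 7 495 527) (leaf 4 528 657))))))) (node 526 (merge (node 527 (merge (leaf 1 494 498) (leaf 2 493 525))) (merge (node 494 (merge (leaf 1 493 525) (node 529 (merge (leaf 0 493 493) (leaf 0 494 530))))) (node 498 (merge (leaf 1 494 527) (node 467 (merge (leaf 2 463 466) (node 499 (merge (leaf 2 464 468) (node 529 (merge (leaf 1 496 500) (node 494 (merge (leaf 0 493 493) (leaf 0 494 530)))))))))))))))))))) (node 559 (merge (node 464 (merge (leaf 5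 463 591) (node 433 (merge (leaf 6 432 465) (node 432 (merge (leaf 6 400 401) (leaf 5 431 527))))))) (merge (node 464 (merge (leaf 5 463 591) (node 561 (merge (leaf 4 464 593) (node 529 (merge (leaf 4 432 432) (node 558 (merge (leaf 2 526 530) (leaf 2 525 557))))))))) (node 558 (merge (node 529 (merge (leaf 2 525 557) (node 561 (merge (leaf 2 526 530) (node 593 (merge (leaf 0 558 594) (leaf 7 496 625))))))) (merge (node 557 (merge (leaf 2 525 529) (node 556 (merge (leaf 2 524 527) (node 524 (merge (leaf 3 523 523) (leaf 3 524 525))))))) (merge (node 525 (merge (node 524 (merge (leaf 3 524 557) (node 526 (merge (leaf 0 523 523) (leaf 3 525 561))))) (merge (node 526 (merge (leaf 3 525 561) (node 527 (merge (leaf 2 493 497) (leaf 0 524 524))))) (merge (node 557 (merge (leaf 3 524 524) (node 556 (merge (leaf 2 524 527) (node 588 (merge (leaf 1 555 587) (leaf 1 556 589))))))) (node 561 (merge (leaf 3 525 526) (node 594 (merge (leaf 0 558 593) (node 562 (merge (leaf 0 559 595) (node 589 (merge (leaf 1 557 590) (node 557 (merge (leaf 1 556 588) (node 527 (merge (leaf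 2 524 556) (leaf 3 527 563))))))))))))))))) (node 561 (merge (node 594 (merge (leaf 0 558 593) (node 562 (merge (leaf 0 559 595) (node 526 (merge (leaf 3 525 525) (leaf 3 526 527))))))) (merge (node 593 (merge (leaf 0 558 594) (node 625 (merge (leaf 7 528 657) (node 529 (merge (leaf 7 496 496) (leaf 2 526 530))))))) (node 590 (merge (leaf 1 557 589) (node 526 (merge (leaf 3 525 525) (node 527 (merge (leaf 3 526 562) (node 622 (merge (leaf 6 494 495) (leaf 6 526 654))))))))))))))))))))))))) (merge (hyp 8) (merge (node 496 (merge (node 463 (merge (node 431 (merge (leaf 7 431 464) (node 495 (merge (leaf 4 399 399) (leaf 4 431 527))))) (merge (node 495 (merge (leaf 7 463 592) (node 431 (merge (leaf 4 399 399) (leaf 4 431 527))))) (merge (node 592 (merge (leaf 7 463 495) (node 593 (merge (leaf 4 496 625) (node 464 (merge (leaf 4 464 561) (node 465 (merge (leaf 6 432 433) (leaf 6 464 497))))))))) (node 464 (merge (leaf 7 431 431) (node 593 (merge (leaf 4 464 561) (node 465 (merge (leaf 6 432 433) (node 592 (merge (leaf 6 464 497) (leaf 4 496 625))))))))))))) (merge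 (node 464 (merge (node 561 (merge (leaf 4 464 593) (node 432 (merge (leaf 4 432 529) (node 431 (merge (leaf 7 399 399) (leaf 7 431 463))))))) (merge (node 593 (merge (leaf 4 464 561) (node 465 (merge (leaf 6 432 433) (node 592 (merge (leaf 6 464 497) (leaf 4 496 625))))))) (node 433 (merge (leaf 6 432 465) (node 432 (merge (leaf 6 400 401) (node 431 (merge (leaf 7 399 399) (leaf 7 431 463)))))))))) (merge (node 592 (merge (node 593 (merge (leaf 4 496 625) (node 464 (merge (leaf 4 464 561) (node 463 (merge (leaf 7 431 431) (leaf 7 463 495))))))) (merge (node 625 (merge (leaf 4 496 593) (node 624 (merge (leaf 4 528 657) (node 495 (merge (leaf 7 463 463) (leaf 7 495 527))))))) (merge (node 625 (merge (leaf 4 496 593) (node 624 (merge (leaf 4 528 657) (node 655 (merge (leaf 5 527 623) (node 656 (merge (leaf 5 559 687) (node 529 (merge (leaf 6 496 497) (leaf 6 528 561))))))))))) (node 495 (merge (leaf 7 463 463) (node 624 (merge (leaf 7 495 527) (node 655 (merge (leaf 5 527 623) (node 656 (merge (leaf 5 559 687) (node 529 (merge (leaf 6 496 497) (leaf 6 528 561)))))))))))))))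 (merge (node 592 (merge (node 593 (merge (leaf 4 496 625) (node 464 (merge (leaf 4 464 561) (node 465 (merge (leaf 6 432 433) (leaf 6 464 497))))))) (merge (node 625 (merge (leaf 4 496 593) (node 624 (merge (leaf 4 528 657) (node 495 (merge (leaf 7 463 463) (leaf 7 495 527))))))) (node 495 (merge (leaf 7 463 463) (node 624 (merge (leaf 7 495 527) (node 655 (merge (leaf 5 527 623) (node 656 (merge (leaf 5 559 687) (node 529 (merge (leaf 6 496 497) (leaf 6 528 561)))))))))))))) (merge (node 463 (merge (node 431 (merge (leaf 7 431 464) (node 495 (merge (leaf 4 399 399) (leaf 4 431 527))))) (merge (node 464 (merge (leaf 7 431 431) (node 465 (merge (leaf 6 432 433) (node 497 (merge (leaf 6 464 592) (node 498 (merge (leaf 0 462 462) (leaf 3 463 499))))))))) (node 592 (merge (leaf 7 463 495) (node 497 (merge (leaf 6 464 465) (node 624 (merge (leaf 6 496 529) (node 657 (merge (leaf 4 528 625) (node 656 (merge (leaf 4 560 689) (node 655 (merge (leaf 5 527 623) (leaf 5 559 687)))))))))))))))) (merge (node 464 (merge (node 433 (merge (leaf 6 432 465) (node 432 (merge (leaf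 6 400 401) (node 431 (merge (leaf 7 399 399) (leaf 7 431 463))))))) (merge (node 593 (merge (leaf 4 464 561) (node 592 (merge (leaf 4 496 625) (node 463 (merge (leaf 7 431 431) (leaf 7 463 495))))))) (merge (node 561 (merge (leaf 4 464 593) (node 432 (merge (leaf 4 432 529) (node 401 (merge (leaf 6 400 433) (node 400 (merge (leaf 6 368 369) (node 399 (merge (leaf 7 367 367) (leaf 7 399 431))))))))))) (node 561 (merge (leaf 4 464 593) (node 432 (merge (leaf 4 432 529) (node 527 (merge (leaf 5 431 559) (node 495 (merge (leaf 5 399 400) (node 592 (merge (leaf 7 463 463) (leaf 7 495 624))))))))))))))) (merge (node 464 (merge (node 561 (merge (leaf 4 464 593) (node 432 (merge (leaf 4 432 529) (node 401 (merge (leaf 6 400 433) (node 400 (merge (leaf 6 368 369) (node 399 (merge (leaf 7 367 367) (leaf 7 399 431))))))))))) (merge (node 433 (merge (leaf 6 432 465) (node 432 (merge (leaf 6 400 401) (node 529 (merge (leaf 4 432 561) (node 400 (merge (leaf 4 400 497) (node 527 (merge (leaf 5 399 495) (leaf 5 431 559))))))))))) (merge (node 561 (merge (leaf 4 464 593) (node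 432 (merge (leaf 4 432 529) (node 527 (merge (leaf 5 431 559) (node 526 (merge (leaf 0 525 525) (node 495 (merge (leaf 5 399 400) (node 497 (merge (leaf 1 494 498) (node 592 (merge (leaf 6 464 465) (leaf 7 495 624))))))))))))))) (node 465 (merge (leaf 6 432 433) (node 592 (merge (leaf 6 464 497) (node 625 (merge (leaf 4 496 593) (node 624 (merge (leaf 4 528 657) (node 655 (merge (leaf 5 527 623) (node 656 (merge (leaf 5 559 687) (node 527 (merge (leaf 7 495 495) (leaf 7 527 559))))))))))))))))))) (merge (node 465 (merge (node 433 (merge (leaf 6 432 464) (node 497 (merge (leaf 5 400 401) (leaf 5 432 529))))) (merge (node 464 (merge (leaf 6 432 433) (node 463 (merge (leaf 7 431 431) (node 495 (merge (leaf 7 463 592) (node 494 (merge (leaf 1 462 466) (leaf 2 461 493))))))))) (node 592 (merge (leaf 6 464 497) (node 495 (merge (leaf 7 463 463) (node 624 (merge (leaf 7 495 527) (node 655 (merge (leaf 5 527 623) (node 656 (merge (leaf 5 559 687) (node 689 (merge (leaf 4 560 657) (node 688 (merge (leaf 4 592 721) (node 561 (merge (leaf 6 528 529) (leaf 6 560 593))))))))))))))))))))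 (merge (node 495 (merge (node 592 (merge (leaf 7 463 463) (node 625 (merge (leaf 4 496 593) (node 624 (merge (leaf 7 495 527) (leaf 4 528 657))))))) (merge (node 592 (merge (leaf 7 463 463) (node 625 (merge (leaf 4 496 593) (node 497 (merge (leaf 6 464 465) (node 624 (merge (leaf 6 496 529) (leaf 4 528 657))))))))) (merge (node 497 (merge (node 465 (merge (leaf 6 464 592) (node 433 (merge (leaf 5 400 401) (leaf 5 432 529))))) (merge (node 592 (merge (leaf 6 464 465) (node 625 (merge (leaf 4 496 593) (node 624 (merge (leaf 7 495 527) (leaf 4 528 657))))))) (node 526 (merge (node 527 (merge (leaf 1 494 498) (leaf 2 493 525))) (merge (node 494 (merge (leaf 1 493 525) (node 529 (merge (leaf 0 493 493) (leaf 0 494 530))))) (node 498 (merge (leaf 1 494 527) (node 467 (merge (leaf 2 463 466) (node 499 (merge (leaf 2 464 468) (node 529 (merge (leaf 1 496 500) (node 494 (merge (leaf 0 493 493) (leaf 0 494 530))))))))))))))))) (node 494 (merge (node 493 (merge (leaf 0 493 529) (node 492 (merge (leaf 0 492 527) (node 460 (merge (leaf 3 459 459) (leaf 3 460 461))))))) (merge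 (node 529 (merge (leaf 0 493 493) (node 497 (merge (leaf 0 494 530) (node 465 (merge (leaf 5 432 433) (leaf 2 462 466))))))) (merge (node 497 (merge (node 465 (merge (leaf 2 462 466) (node 433 (merge (leaf 5 400 401) (leaf 5 432 529))))) (node 462 (merge (leaf 3 461 461) (node 498 (merge (leaf 3 462 463) (node 527 (merge (leaf 1 495 499) (leaf 1 494 526))))))))) (node 497 (merge (node 466 (merge (leaf 2 462 465) (node 498 (merge (leaf 2 463 467) (node 462 (merge (leaf 3 461 461) (leaf 3 462 463))))))) (merge (node 525 (merge (leaf 1 493 526) (node 493 (merge (leaf 1 492 524) (node 492 (merge (leaf 0 492 527) (node 460 (merge (leaf 3 459 459) (leaf 3 460 461))))))))) (node 525 (merge (leaf 1 493 526) (node 493 (merge (leaf 1 492 524) (node 527 (merge (leaf 0 492 492) (node 498 (merge (leaf 1 495 499) (node 463 (merge (leaf 4 431 431) (leaf 3 462 462)))))))))))))))))))))) (hyp 9))))))))))) (merge (node 496 (merge (node 592 (merge (node 593 (merge (leaf 4 496 625) (node 464 (merge (leaf 4 464 561) (node 465 (merge (leaf 6 432 433) (leaf 6 464 497))))))) (merge (node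 625 (merge (leaf 4 496 593) (node 624 (merge (leaf 4 528 657) (node 623 (merge (leaf 5 495 591) (leaf 5 527 655))))))) (node 497 (merge (leaf 6 464 465) (node 624 (merge (leaf 6 496 529) (node 623 (merge (leaf 5 495 591) (leaf 5 527 655)))))))))) (merge (node 592 (merge (node 625 (merge (leaf 4 496 593) (node 624 (merge (leaf 4 528 657) (node 495 (merge (leaf 7 463 463) (leaf 7 495 527))))))) (merge (node 625 (merge (leaf 4 496 593) (node 624 (merge (leaf 4 528 657) (node 623 (merge (leaf 5 495 591) (leaf 5 527 655))))))) (merge (node 623 (merge (leaf 5 495 591) (node 495 (merge (leaf 7 463 463) (node 624 (merge (leaf 7 495 527) (leaf 5 527 655))))))) (node 593 (merge (leaf 4 496 625) (node 561 (merge (leaf 4 464 464) (node 591 (merge (leaf 5 495 623) (node 590 (merge (leaf 2 558 562) (leaf 2 557 589))))))))))))) (merge (node 463 (merge (node 431 (merge (leaf 7 431 464) (node 495 (merge (leaf 4 399 399) (leaf 4 431 527))))) (merge (node 464 (merge (leaf 7 431 431) (node 465 (merge (leaf 6 432 433) (node 497 (merge (leaf 6 464 592) (node 498 (merge (leaf 0 462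 462) (leaf 3 463 499))))))))) (node 592 (merge (leaf 7 463 495) (node 497 (merge (leaf 6 464 465) (node 624 (merge (leaf 6 496 529) (node 623 (merge (leaf 5 495 591) (leaf 5 527 655)))))))))))) (merge (node 495 (merge (node 592 (merge (leaf 7 463 463) (node 625 (merge (leaf 4 496 593) (node 624 (merge (leaf 7 495 527) (leaf 4 528 657))))))) (merge (node 592 (merge (leaf 7 463 463) (node 625 (merge (leaf 4 496 593) (node 497 (merge (leaf 6 464 465) (node 624 (merge (leaf 6 496 529) (leaf 4 528 657))))))))) (merge (node 497 (merge (node 465 (merge (leaf 6 464 592) (node 433 (merge (leaf 5 400 401) (leaf 5 432 529))))) (merge (node 592 (merge (leaf 6 464 465) (node 625 (merge (leaf 4 496 593) (node 624 (merge (leaf 7 495 527) (leaf 4 528 657))))))) (node 526 (merge (node 527 (merge (leaf 1 494 498) (leaf 2 493 525))) (merge (node 494 (merge (leaf 1 493 525) (node 529 (merge (leaf 0 493 493) (leaf 0 494 530))))) (node 498 (merge (leaf 1 494 527) (node 467 (merge (leaf 2 463 466) (node 499 (merge (leaf 2 464 468) (node 529 (merge (leaf 1 496 500) (node 494 (merge (leaf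 0 493 493) (leaf 0 494 530))))))))))))))))) (node 494 (merge (node 493 (merge (leaf 0 493 529) (node 492 (merge (leaf 0 492 527) (node 460 (merge (leaf 3 459 459) (leaf 3 460 461))))))) (merge (node 529 (merge (leaf 0 493 493) (node 497 (merge (leaf 0 494 530) (node 465 (merge (leaf 5 432 433) (leaf 2 462 466))))))) (merge (node 497 (merge (node 465 (merge (leaf 2 462 466) (node 433 (merge (leaf 5 400 401) (leaf 5 432 529))))) (node 462 (merge (leaf 3 461 461) (node 498 (merge (leaf 3 462 463) (node 527 (merge (leaf 1 495 499) (leaf 1 494 526))))))))) (node 497 (merge (node 466 (merge (leaf 2 462 465) (node 498 (merge (leaf 2 463 467) (node 462 (merge (leaf 3 461 461) (leaf 3 462 463))))))) (merge (node 525 (merge (leaf 1 493 526) (node 493 (merge (leaf 1 492 524) (node 492 (merge (leaf 0 492 527) (node 460 (merge (leaf 3 459 459) (leaf 3 460 461))))))))) (node 525 (merge (leaf 1 493 526) (node 493 (merge (leaf 1 492 524) (node 527 (merge (leaf 0 492 492) (node 498 (merge (leaf 1 495 499) (node 463 (merge (leaf 4 431 431) (leaf 3 462 462))))))))))))))))))))))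 (hyp 9)))))) (merge (hyp 10) (merge (hyp 11) (merge (hyp 12) (merge (node 496 (merge (node 592 (merge (node 625 (merge (leaf 4 496 593) (node 624 (merge (leaf 4 528 657) (node 495 (merge (leaf 7 463 463) (leaf 7 495 527))))))) (merge (node 625 (merge (leaf 4 496 593) (node 624 (merge (leaf 4 528 657) (node 623 (merge (leaf 5 495 591) (leaf 5 527 655))))))) (merge (node 623 (merge (leaf 5 495 591) (node 495 (merge (leaf 7 463 463) (node 624 (merge (leaf 7 495 527) (leaf 5 527 655))))))) (node 593 (merge (leaf 4 496 625) (node 591 (merge (leaf 5 495 623) (node 559 (merge (leaf 5 463 464) (node 594 (merge (leaf 3 558 558) (leaf 3 559 595))))))))))))) (merge (node 463 (merge (node 431 (merge (leaf 7 431 464) (node 495 (merge (leaf 4 399 399) (leaf 4 431 527))))) (merge (node 464 (merge (leaf 7 431 431) (node 465 (merge (leaf 6 432 433) (node 497 (merge (leaf 6 464 592) (node 498 (merge (leaf 0 462 462) (leaf 3 463 499))))))))) (node 592 (merge (leaf 7 463 495) (node 625 (merge (leaf 4 496 593) (node 497 (merge (leaf 6 464 465) (node 624 (merge (leaf 6 496 529) (leaf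 4 528 657)))))))))))) (merge (node 465 (merge (node 433 (merge (leaf 6 432 464) (node 497 (merge (leaf 5 400 401) (leaf 5 432 529))))) (merge (node 464 (merge (leaf 6 432 433) (node 559 (merge (leaf 5 463 591) (node 432 (merge (leaf 5 431 527) (node 431 (merge (leaf 7 399 399) (leaf 7 431 463))))))))) (node 592 (merge (leaf 6 464 497) (node 625 (merge (leaf 4 496 593) (node 624 (merge (leaf 4 528 657) (node 623 (merge (leaf 5 495 591) (leaf 5 527 655)))))))))))) (merge (node 464 (merge (node 433 (merge (leaf 6 432 465) (node 432 (merge (leaf 6 400 401) (node 431 (merge (leaf 7 399 399) (leaf 7 431 463))))))) (merge (node 465 (merge (leaf 6 432 433) (node 592 (merge (leaf 6 464 497) (node 591 (merge (leaf 5 463 559) (leaf 5 495 623))))))) (node 591 (merge (leaf 5 463 559) (node 463 (merge (leaf 7 431 431) (node 592 (merge (leaf 7 463 495) (leaf 5 495 623)))))))))) (merge (node 464 (merge (node 465 (merge (leaf 6 432 433) (node 592 (merge (leaf 6 464 497) (node 591 (merge (leaf 5 463 559) (leaf 5 495 623))))))) (merge (node 559 (merge (leaf 5 463 591) (node 432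 (merge (leaf 5 431 527) (node 401 (merge (leaf 6 400 433) (node 400 (merge (leaf 6 368 369) (node 399 (merge (leaf 7 367 367) (leaf 7 399 431))))))))))) (merge (node 559 (merge (leaf 5 463 591) (node 432 (merge (leaf 5 431 527) (node 399 (merge (leaf 7 399 431) (node 400 (merge (leaf 7 367 367) (node 497 (merge (leaf 4 400 529) (node 465 (merge (leaf 4 368 368) (leaf 6 464 592))))))))))))) (merge (node 465 (merge (leaf 6 432 433) (node 592 (merge (leaf 6 464 497) (node 625 (merge (leaf 4 496 593) (node 624 (merge (leaf 4 528 657) (node 623 (merge (leaf 5 495 591) (leaf 5 527 655))))))))))) (node 465 (merge (leaf 6 432 433) (node 592 (merge (leaf 6 464 497) (node 625 (merge (leaf 4 496 593) (node 624 (merge (leaf 4 528 657) (node 655 (merge (leaf 5 527 623) (node 656 (merge (leaf 5 559 687) (node 527 (merge (leaf 7 495 495) (leaf 7 527 559)))))))))))))))))))) (merge (node 495 (merge (node 592 (merge (leaf 7 463 463) (node 625 (merge (leaf 4 496 593) (node 624 (merge (leaf 4 528 657) (node 623 (merge (leaf 5 495 591) (leaf 5 527 655))))))))) (merge (node 494 (merge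 (node 493 (merge (leaf 0 493 529) (node 492 (merge (leaf 0 492 527) (node 460 (merge (leaf 3 459 459) (leaf 3 460 461))))))) (merge (node 529 (merge (leaf 0 493 493) (node 497 (merge (leaf 0 494 530) (node 465 (merge (leaf 5 432 433) (leaf 2 462 466))))))) (merge (node 497 (merge (node 465 (merge (leaf 2 462 466) (node 433 (merge (leaf 5 400 401) (leaf 5 432 529))))) (node 462 (merge (leaf 3 461 461) (node 498 (merge (leaf 3 462 463) (node 527 (merge (leaf 1 495 499) (leaf 1 494 526))))))))) (node 497 (merge (node 466 (merge (leaf 2 462 465) (node 498 (merge (leaf 2 463 467) (node 462 (merge (leaf 3 461 461) (leaf 3 462 463))))))) (merge (node 466 (merge (leaf 2 462 465) (node 498 (merge (leaf 2 463 467) (node 527 (merge (leaf 1 495 499) (leaf 1 494 526))))))) (node 525 (merge (leaf 1 493 526) (node 493 (merge (leaf 1 492 524) (node 492 (merge (leaf 0 492 527) (node 460 (merge (leaf 3 459 459) (leaf 3 460 461)))))))))))))))) (node 497 (merge (node 465 (merge (leaf 6 464 592) (node 433 (merge (leaf 5 400 401) (leaf 5 432 529))))) (merge (node 592 (merge (leaf 6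 464 465) (node 625 (merge (leaf 4 496 593) (node 624 (merge (leaf 7 495 527) (leaf 4 528 657))))))) (node 526 (merge (node 527 (merge (leaf 1 494 498) (leaf 2 493 525))) (merge (node 494 (merge (leaf 1 493 525) (node 529 (merge (leaf 0 493 493) (leaf 0 494 530))))) (node 498 (merge (leaf 1 494 527) (node 467 (merge (leaf 2 463 466) (node 499 (merge (leaf 2 464 468) (node 529 (merge (leaf 1 496 500) (node 494 (merge (leaf 0 493 493) (leaf 0 494 530)))))))))))))))))))) (hyp 13)))))))) (merge (hyp 14) (merge (node 496 (merge (node 464 (merge (node 433 (merge (leaf 6 432 465) (node 432 (merge (leaf 6 400 401) (node 559 (merge (leaf 5 431 527) (leaf 5 463 591))))))) (merge (node 593 (merge (leaf 4 464 561) (node 465 (merge (leaf 6 432 433) (node 592 (merge (leaf 6 464 497) (leaf 4 496 625))))))) (node 593 (merge (leaf 4 464 561) (node 592 (merge (leaf 4 496 625) (node 591 (merge (leaf 5 463 559) (leaf 5 495 623)))))))))) (merge (node 592 (merge (node 593 (merge (leaf 4 496 625) (node 464 (merge (leaf 4 464 561) (node 465 (merge (leaf 6 432 433) (leaf 6 464 497)))))))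 (merge (node 625 (merge (leaf 4 496 593) (node 624 (merge (leaf 4 528 657) (node 623 (merge (leaf 5 495 591) (leaf 5 527 655))))))) (node 497 (merge (leaf 6 464 465) (node 624 (merge (leaf 6 496 529) (node 623 (merge (leaf 5 495 591) (leaf 5 527 655)))))))))) (merge (node 464 (merge (node 593 (merge (leaf 4 464 561) (node 592 (merge (leaf 4 496 625) (node 591 (merge (leaf 5 463 559) (leaf 5 495 623))))))) (merge (node 559 (merge (leaf 5 463 591) (node 432 (merge (leaf 5 431 527) (node 401 (merge (leaf 6 400 433) (node 400 (merge (leaf 6 368 369) (node 399 (merge (leaf 7 367 367) (leaf 7 399 431))))))))))) (node 561 (merge (leaf 4 464 593) (node 432 (merge (leaf 4 432 529) (node 401 (merge (leaf 6 400 433) (node 400 (merge (leaf 6 368 369) (node 399 (merge (leaf 7 367 367) (leaf 7 399 431)))))))))))))) (merge (node 464 (merge (node 465 (merge (leaf 6 432 433) (node 592 (merge (leaf 6 464 497) (node 591 (merge (leaf 5 463 559) (leaf 5 495 623))))))) (merge (node 559 (merge (leaf 5 463 591) (node 432 (merge (leaf 5 431 527) (node 401 (merge (leaf 6 400 433) (node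 400 (merge (leaf 6 368 369) (node 399 (merge (leaf 7 367 367) (leaf 7 399 431))))))))))) (merge (node 433 (merge (leaf 6 432 465) (node 432 (merge (leaf 6 400 401) (node 529 (merge (leaf 4 432 561) (node 400 (merge (leaf 4 400 497) (node 399 (merge (leaf 7 367 367) (leaf 7 399 431))))))))))) (node 559 (merge (leaf 5 463 591) (node 432 (merge (leaf 5 431 527) (node 399 (merge (leaf 7 399 431) (node 400 (merge (leaf 7 367 367) (node 497 (merge (leaf 4 400 529) (node 465 (merge (leaf 4 368 368) (leaf 6 464 592))))))))))))))))) (merge (node 464 (merge (node 465 (merge (leaf 6 432 433) (node 592 (merge (leaf 6 464 497) (node 591 (merge (leaf 5 463 559) (leaf 5 495 623))))))) (merge (node 559 (merge (leaf 5 463 591) (node 432 (merge (leaf 5 431 527) (node 401 (merge (leaf 6 400 433) (node 400 (merge (leaf 6 368 369) (node 399 (merge (leaf 7 367 367) (leaf 7 399 431))))))))))) (merge (node 559 (merge (leaf 5 463 591) (node 432 (merge (leaf 5 431 527) (node 399 (merge (leaf 7 399 431) (node 400 (merge (leaf 7 367 367) (node 497 (merge (leaf 4 400 529) (node 465 (merge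 (leaf 4 368 368) (leaf 6 464 592))))))))))))) (merge (node 465 (merge (leaf 6 432 433) (node 592 (merge (leaf 6 464 497) (node 625 (merge (leaf 4 496 593) (node 624 (merge (leaf 4 528 657) (node 623 (merge (leaf 5 495 591) (leaf 5 527 655))))))))))) (node 465 (merge (leaf 6 432 433) (node 592 (merge (leaf 6 464 497) (node 625 (merge (leaf 4 496 593) (node 624 (merge (leaf 4 528 657) (node 655 (merge (leaf 5 527 623) (node 656 (merge (leaf 5 559 687) (node 527 (merge (leaf 7 495 495) (leaf 7 527 559)))))))))))))))))))) (merge (node 464 (merge (node 561 (merge (leaf 4 464 593) (node 432 (merge (leaf 4 432 529) (node 401 (merge (leaf 6 400 433) (node 400 (merge (leaf 6 368 369) (node 399 (merge (leaf 7 367 367) (leaf 7 399 431))))))))))) (merge (node 433 (merge (leaf 6 432 465) (node 432 (merge (leaf 6 400 401) (node 529 (merge (leaf 4 432 561) (node 400 (merge (leaf 4 400 497) (node 527 (merge (leaf 5 399 495) (leaf 5 431 559))))))))))) (merge (node 561 (merge (leaf 4 464 593) (node 432 (merge (leaf 4 432 529) (node 527 (merge (leaf 5 431 559) (node 526 (merge (leaf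 0 525 525) (node 495 (merge (leaf 5 399 400) (node 497 (merge (leaf 1 494 498) (node 592 (merge (leaf 6 464 465) (leaf 7 495 624))))))))))))))) (node 465 (merge (leaf 6 432 433) (node 592 (merge (leaf 6 464 497) (node 625 (merge (leaf 4 496 593) (node 624 (merge (leaf 4 528 657) (node 655 (merge (leaf 5 527 623) (node 656 (merge (leaf 5 559 687) (node 527 (merge (leaf 7 495 495) (leaf 7 527 559))))))))))))))))))) (merge (node 559 (merge (node 464 (merge (leaf 5 463 591) (node 433 (merge (leaf 6 432 465) (node 432 (merge (leaf 6 400 401) (leaf 5 431 527))))))) (merge (node 464 (merge (leaf 5 463 591) (node 561 (merge (leaf 4 464 593) (node 529 (merge (leaf 4 432 432) (node 558 (merge (leaf 2 526 530) (leaf 2 525 557))))))))) (node 558 (merge (node 529 (merge (leaf 2 525 557) (node 561 (merge (leaf 2 526 530) (node 593 (merge (leaf 0 558 594) (leaf 7 496 625))))))) (merge (node 557 (merge (leaf 2 525 529) (node 556 (merge (leaf 2 524 527) (node 524 (merge (leaf 3 523 523) (leaf 3 524 525))))))) (merge (node 525 (merge (node 524 (merge (leaf 3 524 557) (node 526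 (merge (leaf 0 523 523) (leaf 3 525 561))))) (merge (node 526 (merge (leaf 3 525 561) (node 527 (merge (leaf 2 493 497) (leaf 0 524 524))))) (merge (node 557 (merge (leaf 3 524 524) (node 556 (merge (leaf 2 524 527) (node 588 (merge (leaf 1 555 587) (leaf 1 556 589))))))) (node 561 (merge (leaf 3 525 526) (node 594 (merge (leaf 0 558 593) (node 562 (merge (leaf 0 559 595) (node 589 (merge (leaf 1 557 590) (node 557 (merge (leaf 1 556 588) (node 527 (merge (leaf 2 524 556) (leaf 3 527 563))))))))))))))))) (node 561 (merge (node 594 (merge (leaf 0 558 593) (node 562 (merge (leaf 0 559 595) (node 526 (merge (leaf 3 525 525) (leaf 3 526 527))))))) (merge (node 593 (merge (leaf 0 558 594) (node 625 (merge (leaf 7 528 657) (node 529 (merge (leaf 7 496 496) (leaf 2 526 530))))))) (node 590 (merge (leaf 1 557 589) (node 526 (merge (leaf 3 525 525) (node 527 (merge (leaf 3 526 562) (node 622 (merge (leaf 6 494 495) (leaf 6 526 654))))))))))))))))))) (hyp 15))))))))) (merge (hyp 16) (hyp 17)))))))))))))))))))))))) nC_22 cC_22 14 (by decide +kernel)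

end Crest.Agent.H26Snaky
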