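import Crest.Agent.H26SnakyTree

/-! certificate data for S0047, part D 0 (computer generated) -/

set_option autoImplicit false
set_option maxRecDepth 100000

namespace Crest.Agent.H26Snaky

open T

def nD_0 : ℕ := 0x10000000100000001000000000000000000000000000000000000000000000000000000000000000000000000000000000000000000000000000000000000000000000000000000000000
def cD_0 : ℕ := 0x10000000380000003c000003ff800001ef0000006f8000006800000028000000200000002000000000000000000000000000000000000000000000000000000000000000000000000000000000000000000000000000000000000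
theorem lD_0 : S nD_0 cD_0 12 := S_of_chk [] trivial (node 591 (merge (node 624 (merge (node 657 (merge (leaf 4 528 625) (node 656 (merge (leaf 4 560 689) (node 527 (merge (leaf 7 495 495) (leaf 7 527 559))))))) (merge (node 657 (merge (leaf 4 528 625) (node 656 (merge (leaf 4 560 689) (node 655 (merge (leaf 5 527 623) (leaf 5 559 687))))))) (merge (node 655 (merge (leaf 5 527 623) (node 656 (merge (leaf 5 559 687) (node 527 (merge (leaf 7 495 495) (leaf 7 527 559))))))) (node 625 (merge (leaf 4 528 657) (node 626 (merge (leaf 3 591 627) (node 623 (merge (leaf 3 590 590) (leaf 5 527 655))))))))))) (merge (node 590 (merge (node 561 (merge (leaf 2 557 589) (node 593 (merge (leaf 2 558 562) (node 625 (merge (leaf 0 590 626) (leaf 7 528 657))))))) (merge (node 589 (merge (leaf 2 557 561) (node 588 (merge (leaf 2 556 559) (node 620 (merge (leaf 1 587 619) (leaf 1 588 621))))))) (merge (node 593 (merge (node 626 (merge (leaf 0 590 625) (node 594 (merge (leaf 0 591 627) (node 622 (merge (leaf 1 589 621) (leaf 1 590 623))))))) (merge (node 621 (merge (leaf 1 589 622) (node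 589 (merge (leaf 1 588 620) (node 557 (merge (leaf 3 556 556) (leaf 3 557 558))))))) (node 626 (merge (leaf 0 590 625) (node 594 (merge (leaf 0 591 627) (node 558 (merge (leaf 3 557 557) (leaf 3 558 559)))))))))) (node 593 (merge (node 626 (merge (leaf 0 590 625) (node 594 (merge (leaf 0 591 627) (node 622 (merge (leaf 1 589 621) (leaf 1 590 623))))))) (merge (node 626 (merge (leaf 0 590 625) (node 594 (merge (leaf 0 591 627) (node 558 (merge (leaf 3 557 557) (leaf 3 558 559))))))) (merge (node 622 (merge (leaf 1 589 621) (node 594 (merge (leaf 1 590 623) (node 558 (merge (leaf 3 557 557) (leaf 3 558 559))))))) (node 625 (merge (leaf 0 590 626) (node 657 (merge (leaf 7 528 561) (leaf 7 560 689))))))))))))) (merge (node 624 (merge (node 657 (merge (leaf 4 528 625) (node 529 (merge (leaf 6 496 497) (node 656 (merge (leaf 6 528 561) (leaf 4 560 689))))))) (merge (node 657 (merge (leaf 4 528 625) (node 656 (merge (leaf 4 560 689) (node 655 (merge (leaf 5 527 623) (leaf 5 559 687))))))) (merge (node 529 (merge (leaf 6 496 497) (node 656 (merge (leaf 6 528 561) (node 655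 (merge (leaf 5 527 623) (leaf 5 559 687))))))) (node 625 (merge (leaf 4 528 657) (node 626 (merge (leaf 3 591 627) (node 623 (merge (leaf 3 590 590) (leaf 5 527 655))))))))))) (merge (node 624 (merge (node 657 (merge (leaf 4 528 625) (node 656 (merge (leaf 4 560 689) (node 527 (merge (leaf 7 495 495) (leaf 7 527 559))))))) (merge (node 657 (merge (leaf 4 528 625) (node 529 (merge (leaf 6 496 497) (node 656 (merge (leaf 6 528 561) (leaf 4 560 689))))))) (merge (node 529 (merge (leaf 6 496 497) (node 527 (merge (leaf 7 495 495) (node 559 (merge (leaf 7 527 656) (node 558 (merge (leaf 1 526 530) (leaf 2 525 557))))))))) (node 625 (merge (leaf 4 528 657) (node 590 (merge (leaf 0 589 589) (node 626 (merge (leaf 0 590 593) (leaf 3 591 627))))))))))) (merge (node 624 (merge (node 657 (merge (leaf 4 528 625) (node 656 (merge (leaf 4 560 689) (node 527 (merge (leaf 7 495 495) (leaf 7 527 559))))))) (merge (node 529 (merge (leaf 6 496 497) (node 656 (merge (leaf 6 528 561) (node 655 (merge (leaf 5 527 623) (leaf 5 559 687))))))) (node 625 (merge (leaf 4 528 657) (node 626 (merge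 (leaf 3 591 627) (node 623 (merge (leaf 5 527 655) (node 594 (merge (leaf 2 591 595) (node 622 (merge (leaf 1 590 593) (node 529 (merge (leaf 6 496 497) (node 527 (merge (leaf 7 495 495) (node 559 (merge (leaf 5 526 654) (node 558 (merge (leaf 1 526 530) (leaf 2 525 557)))))))))))))))))))))) (merge (node 529 (merge (node 497 (merge (leaf 6 496 624) (node 465 (merge (leaf 5 432 433) (leaf 5 464 561))))) (merge (node 624 (merge (leaf 6 496 497) (node 655 (merge (leaf 5 527 623) (node 656 (merge (leaf 5 559 687) (node 527 (merge (leaf 7 495 495) (leaf 7 527 559))))))))) (merge (node 590 (merge (node 589 (merge (leaf 2 557 561) (node 588 (merge (leaf 2 556 559) (node 620 (merge (leaf 1 587 619) (leaf 1 588 621))))))) (merge (node 589 (merge (leaf 2 557 561) (node 621 (merge (leaf 1 588 620) (node 593 (merge (leaf 1 589 622) (node 557 (merge (leaf 3 556 556) (leaf 3 557 558))))))))) (merge (node 589 (merge (leaf 2 557 561) (node 559 (merge (leaf 2 556 588) (node 557 (merge (leaf 3 556 556) (node 593 (merge (leaf 0 557 558) (node 594 (merge (leaf 3 559 595) (node 623 (merge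 (leaf 1 590 622) (leaf 6 527 655))))))))))))) (merge (node 557 (merge (node 556 (merge (leaf 3 556 589) (node 558 (merge (leaf 0 555 555) (leaf 3 557 593))))) (merge (node 589 (merge (leaf 3 556 556) (node 620 (merge (leaf 1 588 621) (node 588 (merge (leaf 2 556 559) (leaf 1 587 619))))))) (node 593 (merge (leaf 3 557 558) (node 622 (merge (leaf 1 589 621) (node 623 (merge (leaf 1 590 594) (node 655 (merge (leaf 6 527 559) (leaf 6 559 687)))))))))))) (node 593 (merge (node 622 (merge (leaf 1 589 621) (node 594 (merge (leaf 1 590 623) (node 558 (merge (leaf 3 557 557) (leaf 3 558 559))))))) (merge (node 561 (merge (leaf 2 558 562) (node 558 (merge (leaf 3 557 557) (node 594 (merge (leaf 0 558 559) (node 627 (merge (leaf 0 591 626) (node 595 (merge (leaf 3 560 596) (leaf 0 592 628))))))))))) (merge (node 622 (merge (leaf 1 589 621) (node 594 (merge (leaf 1 590 623) (node 561 (merge (leaf 2 558 562) (node 595 (merge (leaf 3 559 559) (leaf 3 560 596))))))))) (merge (node 622 (merge (leaf 1 589 621) (node 594 (merge (leaf 1 590 623) (node 626 (merge (leaf 0 591 627) (node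 561 (merge (leaf 4 497 497) (leaf 2 558 562))))))))) (node 622 (merge (leaf 1 589 621) (node 561 (merge (leaf 2 558 562) (node 558 (merge (leaf 3 557 557) (node 559 (merge (leaf 2 526 530) (node 654 (merge (leaf 6 526 527) (node 655 (merge (leaf 6 527 623) (leaf 4 558 687))))))))))))))))))))))) (node 590 (merge (node 589 (merge (leaf 2 557 561) (node 588 (merge (leaf 2 556 559) (node 620 (merge (leaf 1 587 619) (leaf 1 588 621))))))) (merge (node 589 (merge (leaf 2 557 561) (node 621 (merge (leaf 1 588 620) (node 593 (merge (leaf 1 589 622) (node 557 (merge (leaf 3 556 556) (leaf 3 557 558))))))))) (merge (node 589 (merge (leaf 2 557 561) (node 559 (merge (leaf 2 556 588) (node 557 (merge (leaf 3 556 556) (node 593 (merge (leaf 0 557 558) (node 594 (merge (leaf 3 559 595) (node 623 (merge (leaf 1 590 622) (leaf 6 527 655))))))))))))) (merge (node 557 (merge (node 556 (merge (leaf 3 556 589) (node 558 (merge (leaf 0 555 555) (leaf 3 557 593))))) (merge (node 589 (merge (leaf 3 556 556) (node 620 (merge (leaf 1 588 621) (node 588 (merge (leaf 2 556 559) (leaf 1 587 619)))))))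 (node 593 (merge (leaf 3 557 558) (node 622 (merge (leaf 1 589 621) (node 623 (merge (leaf 1 590 594) (node 655 (merge (leaf 6 527 559) (leaf 6 559 687)))))))))))) (node 593 (merge (node 622 (merge (leaf 1 589 621) (node 594 (merge (leaf 1 590 623) (node 558 (merge (leaf 3 557 557) (leaf 3 558 559))))))) (merge (node 561 (merge (leaf 2 558 562) (node 558 (merge (leaf 3 557 557) (node 594 (merge (leaf 0 558 559) (node 627 (merge (leaf 0 591 626) (node 595 (merge (leaf 3 560 596) (leaf 0 592 628))))))))))) (merge (node 622 (merge (leaf 1 589 621) (node 594 (merge (leaf 1 590 623) (node 561 (merge (leaf 2 558 562) (node 595 (merge (leaf 3 559 559) (leaf 3 560 596))))))))) (merge (node 622 (merge (leaf 1 589 621) (node 594 (merge (leaf 1 590 623) (node 627 (merge (leaf 0 591 626) (node 595 (merge (leaf 0 592 628) (node 561 (merge (leaf 2 558 562) (leaf 3 560 596))))))))))) (node 622 (merge (leaf 1 589 621) (node 561 (merge (leaf 2 558 562) (node 558 (merge (leaf 3 557 557) (node 559 (merge (leaf 2 526 530) (node 654 (merge (leaf 6 526 527) (node 655 (merge (leaf 6 527 623)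 (leaf 4 558 687))))))))))))))))))))))))))) (merge (node 590 (merge (node 561 (merge (leaf 2 557 589) (node 593 (merge (leaf 2 558 562) (node 625 (merge (leaf 0 590 626) (leaf 7 528 657))))))) (merge (node 589 (merge (leaf 2 557 561) (node 588 (merge (leaf 2 556 559) (node 620 (merge (leaf 1 587 619) (leaf 1 588 621))))))) (merge (node 593 (merge (node 622 (merge (leaf 1 589 621) (node 594 (merge (leaf 1 590 623) (node 558 (merge (leaf 3 557 557) (leaf 3 558 559))))))) (merge (node 625 (merge (leaf 0 590 626) (node 561 (merge (leaf 2 558 562) (leaf 7 528 657))))) (node 622 (merge (leaf 1 589 621) (node 594 (merge (leaf 1 590 623) (node 561 (merge (leaf 2 558 562) (node 595 (merge (leaf 3 559 559) (leaf 3 560 596)))))))))))) (node 557 (merge (node 556 (merge (leaf 3 556 589) (node 558 (merge (leaf 0 555 555) (leaf 3 557 593))))) (merge (node 558 (merge (leaf 3 557 593) (node 559 (merge (leaf 2 525 529) (leaf 0 556 556))))) (merge (node 589 (merge (leaf 3 556 556) (node 588 (merge (leaf 2 556 559) (node 620 (merge (leaf 1 587 619) (leaf 1 588 621))))))) (node 593 (merge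 (leaf 3 557 558) (node 625 (merge (leaf 0 590 626) (node 624 (merge (leaf 0 589 589) (node 622 (merge (leaf 1 589 621) (node 594 (merge (leaf 1 590 623) (node 595 (merge (leaf 3 559 559) (leaf 1 592 596))))))))))))))))))))) (node 623 (merge (node 655 (merge (leaf 5 527 624) (leaf 6 559 687))) (merge (node 655 (merge (leaf 6 527 559) (leaf 6 559 687))) (node 593 (merge (node 622 (merge (leaf 1 590 594) (node 621 (merge (leaf 2 588 620) (leaf 2 589 624))))) (merge (node 594 (merge (leaf 1 590 622) (node 595 (merge (leaf 3 559 559) (node 628 (merge (leaf 0 592 627) (node 596 (merge (leaf 3 560 561) (leaf 0 593 629))))))))) (merge (node 558 (merge (node 590 (merge (leaf 3 557 557) (node 561 (merge (leaf 2 558 562) (leaf 2 557 589))))) (merge (node 557 (merge (leaf 0 557 559) (leaf 3 557 590))) (node 594 (merge (leaf 3 558 559) (node 595 (merge (leaf 1 591 624) (node 628 (merge (leaf 0 592 627) (node 596 (merge (leaf 3 560 561) (leaf 0 593 629)))))))))))) (node 624 (merge (node 657 (merge (leaf 4 528 625) (node 529 (merge (leaf 6 496 497) (node 656 (merge (leaf 6 528 561)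 (leaf 4 560 689))))))) (merge (node 657 (merge (leaf 4 528 625) (node 656 (merge (leaf 4 560 689) (node 527 (merge (leaf 7 495 495) (leaf 7 527 559))))))) (merge (node 527 (merge (leaf 7 495 495) (node 656 (merge (leaf 7 527 559) (node 688 (merge (leaf 6 560 561) (leaf 7 591 720))))))) (node 622 (merge (leaf 2 589 621) (node 529 (merge (leaf 6 496 497) (node 527 (merge (leaf 7 495 495) (node 559 (merge (leaf 5 526 654) (node 558 (merge (leaf 1 526 530) (leaf 0 557 557)))))))))))))))))))))))))))))) nD_0 cD_0 12 (by decide +kernel)
def nD_1 : ℕ := 0x100000001000000000000000000000000000000000000000000000000000000000000000000000000000000000000000000000000000000000000000000000000000000000000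
def cD_1 : ℕ := 0x280000003c000001ff800001ff0000006f800000ef000000ff800000280000002800000000000000000000000000000000000000000000000000000000000000000000000000000000000000000000000000000000000
theorem lD_1 : S nD_1 cD_1 12 := S_of_chk [] trivial (node 592 (merge (node 495 (merge (node 463 (merge (leaf 7 463 496) (node 527 (merge (leaf 4 431 431) (leaf 4 463 559))))) (merge (node 527 (merge (leaf 7 495 624) (node 463 (merge (leaf 4 431 431) (leaf 4 463 559))))) (merge (node 624 (merge (leaf 7 495 527) (node 625 (merge (leaf 4 528 657) (node 496 (merge (leaf 4 496 593) (node 497 (merge (leaf 6 464 465) (leaf 6 496 529))))))))) (node 496 (merge (leaf 7 463 463) (node 625 (merge (leaf 4 496 593) (node 497 (merge (leaf 6 464 465) (node 624 (merge (leaf 6 496 529) (leaf 4 528 657))))))))))))) (merge (node 624 (merge (node 657 (merge (leaf 4 528 625) (node 529 (merge (leaf 6 496 497) (node 656 (merge (leaf 6 528 561) (leaf 4 560 689))))))) (merge (node 657 (merge (leaf 4 528 625) (node 656 (merge (leaf 4 560 689) (node 655 (merge (leaf 5 527 623) (leaf 5 559 687))))))) (merge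 (node 529 (merge (leaf 6 496 497) (node 656 (merge (leaf 6 528 561) (node 655 (merge (leaf 5 527 623) (leaf 5 559 687))))))) (node 625 (merge (leaf 4 528 657) (node 623 (merge (leaf 5 527 655) (node 591 (merge (leaf 5 495 496) (node 626 (merge (leaf 3 590 590) (leaf 3 591 627))))))))))))) (merge (node 624 (merge (node 657 (merge (leaf 4 528 625) (node 656 (merge (leaf 4 560 689) (node 527 (merge (leaf 7 495 495) (leaf 7 527 559))))))) (merge (node 657 (merge (leaf 4 528 625) (node 656 (merge (leaf 4 560 689) (node 655 (merge (leaf 5 527 623) (leaf 5 559 687))))))) (merge (node 655 (merge (leaf 5 527 623) (node 656 (merge (leaf 5 559 687) (node 527 (merge (leaf 7 495 495) (leaf 7 527 559))))))) (node 625 (merge (leaf 4 528 657) (node 623 (merge (leaf 5 527 655) (node 591 (merge (leaf 5 495 496) (node 626 (merge (leaf 3 590 590) (leaf 3 591 627))))))))))))) (merge (node 495 (merge (node 463 (merge (leaf 7 463 496) (node 527 (merge (leaf 4 431 431) (leaf 4 463 559))))) (merge (node 496 (merge (leaf 7 463 463) (node 497 (merge (leaf 6 464 465) (node 624 (merge (leaf 6 496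 529) (node 623 (merge (leaf 5 495 591) (leaf 5 527 655))))))))) (node 624 (merge (leaf 7 495 527) (node 529 (merge (leaf 6 496 497) (node 656 (merge (leaf 6 528 561) (node 655 (merge (leaf 5 527 623) (leaf 5 559 687)))))))))))) (merge (node 591 (merge (node 623 (merge (leaf 5 495 496) (node 655 (merge (leaf 6 527 559) (leaf 6 559 687))))) (merge (node 590 (merge (node 561 (merge (leaf 2 557 589) (node 593 (merge (leaf 2 558 562) (node 625 (merge (leaf 0 590 626) (leaf 7 528 657))))))) (merge (node 589 (merge (leaf 2 557 561) (node 588 (merge (leaf 2 556 559) (node 620 (merge (leaf 1 587 619) (leaf 1 588 621))))))) (merge (node 593 (merge (node 626 (merge (leaf 0 590 625) (node 594 (merge (leaf 0 591 627) (node 622 (merge (leaf 1 589 621) (leaf 1 590 623))))))) (merge (node 621 (merge (leaf 1 589 622) (node 589 (merge (leaf 1 588 620) (node 557 (merge (leaf 3 556 556) (leaf 3 557 558))))))) (node 626 (merge (leaf 0 590 625) (node 594 (merge (leaf 0 591 627) (node 558 (merge (leaf 3 557 557) (leaf 3 558 559)))))))))) (node 593 (merge (node 626 (merge (leaf 0 590 625)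 (node 594 (merge (leaf 0 591 627) (node 622 (merge (leaf 1 589 621) (leaf 1 590 623))))))) (merge (node 626 (merge (leaf 0 590 625) (node 594 (merge (leaf 0 591 627) (node 558 (merge (leaf 3 557 557) (leaf 3 558 559))))))) (merge (node 622 (merge (leaf 1 589 621) (node 594 (merge (leaf 1 590 623) (node 558 (merge (leaf 3 557 557) (leaf 3 558 559))))))) (node 625 (merge (leaf 0 590 626) (node 657 (merge (leaf 7 528 561) (leaf 7 560 689))))))))))))) (merge (node 593 (merge (node 496 (merge (leaf 5 495 623) (leaf 4 496 625))) (merge (node 625 (merge (leaf 4 496 496) (node 657 (merge (leaf 7 528 561) (leaf 7 560 689))))) (merge (node 625 (merge (node 657 (merge (leaf 7 528 561) (leaf 7 560 689))) (merge (node 590 (merge (leaf 0 590 626) (node 561 (merge (leaf 2 558 562) (leaf 2 557 589))))) (node 590 (merge (leaf 0 590 626) (node 622 (merge (leaf 1 589 621) (node 623 (merge (leaf 1 590 594) (node 558 (merge (leaf 3 557 557) (node 655 (merge (leaf 4 526 526) (leaf 7 558 687)))))))))))))) (node 623 (merge (leaf 5 495 496) (node 594 (merge (leaf 1 590 622) (node 627 (merge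 (leaf 0 591 626) (node 595 (merge (leaf 0 592 628) (node 561 (merge (leaf 3 560 596) (node 590 (merge (leaf 2 558 562) (leaf 2 557 589))))))))))))))))) (node 590 (merge (node 561 (merge (leaf 2 557 589) (node 593 (merge (leaf 2 558 562) (node 625 (merge (leaf 0 590 626) (leaf 7 528 657))))))) (merge (node 589 (merge (leaf 2 557 561) (node 588 (merge (leaf 2 556 559) (node 620 (merge (leaf 1 587 619) (leaf 1 588 621))))))) (merge (node 557 (merge (node 556 (merge (leaf 3 556 589) (node 558 (merge (leaf 0 555 555) (leaf 3 557 593))))) (merge (node 589 (merge (leaf 3 556 556) (node 588 (merge (leaf 2 556 559) (node 620 (merge (leaf 1 587 619) (leaf 1 588 621))))))) (node 593 (merge (leaf 3 557 558) (node 622 (merge (leaf 1 589 621) (node 496 (merge (leaf 4 496 625) (node 497 (merge (leaf 6 464 465) (node 495 (merge (leaf 7 463 463) (node 527 (merge (leaf 5 494 559) (node 526 (merge (leaf 1 494 498) (leaf 2 493 525)))))))))))))))))) (node 593 (merge (node 626 (merge (leaf 0 590 625) (node 594 (merge (leaf 0 591 627) (node 558 (merge (leaf 3 557 557) (leaf 3 558 559)))))))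 (merge (node 625 (merge (leaf 0 590 626) (node 561 (merge (leaf 2 558 562) (leaf 7 528 657))))) (merge (node 622 (merge (leaf 1 589 621) (node 496 (merge (leaf 4 496 625) (node 497 (merge (leaf 6 464 465) (node 495 (merge (leaf 7 463 463) (node 527 (merge (leaf 5 494 559) (node 526 (merge (leaf 1 494 498) (leaf 2 493 525))))))))))))) (node 561 (merge (leaf 2 558 562) (node 558 (merge (leaf 3 557 557) (node 594 (merge (leaf 0 558 559) (node 627 (merge (leaf 0 591 626) (node 595 (merge (leaf 3 560 596) (leaf 0 592 628))))))))))))))))))))))) (node 527 (merge (node 624 (merge (leaf 7 495 495) (node 657 (merge (leaf 4 528 625) (node 656 (merge (leaf 4 560 689) (node 655 (merge (leaf 5 527 623) (leaf 5 559 687))))))))) (merge (node 526 (merge (node 525 (merge (leaf 0 525 561) (node 524 (merge (leaf 0 524 559) (node 492 (merge (leaf 3 491 491) (leaf 3 492 493))))))) (merge (node 525 (merge (leaf 0 525 561) (node 559 (merge (leaf 0 524 524) (node 557 (merge (leaf 1 524 556) (node 558 (merge (leaf 2 525 529) (leaf 0 557 593))))))))) (merge (node 525 (merge (leaf 0 525 561) (node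 557 (merge (leaf 1 524 556) (node 529 (merge (leaf 1 525 558) (node 493 (merge (leaf 3 492 492) (leaf 3 493 494))))))))) (merge (node 557 (merge (node 558 (merge (leaf 1 525 529) (node 559 (merge (leaf 2 524 556) (leaf 0 557 593))))) (merge (node 525 (merge (leaf 1 524 556) (node 524 (merge (leaf 0 524 559) (node 492 (merge (leaf 3 491 491) (leaf 3 492 493))))))) (node 529 (merge (leaf 1 525 558) (node 498 (merge (leaf 2 494 497) (node 530 (merge (leaf 2 495 499) (node 494 (merge (leaf 3 493 493) (leaf 3 494 495)))))))))))) (node 529 (merge (node 497 (merge (leaf 2 494 498) (node 465 (merge (leaf 5 432 433) (leaf 5 464 561))))) (node 494 (merge (leaf 3 493 493) (node 530 (merge (leaf 3 494 495) (node 559 (merge (leaf 1 527 531) (leaf 1 526 558)))))))))))))) (node 529 (merge (node 497 (merge (leaf 6 496 624) (node 465 (merge (leaf 5 432 433) (leaf 5 464 561))))) (merge (node 624 (merge (leaf 6 496 497) (node 656 (merge (leaf 7 527 559) (node 657 (merge (leaf 4 528 625) (leaf 4 560 689))))))) (merge (node 558 (merge (node 559 (merge (leaf 1 526 530) (leaf 2 525 557)))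 (merge (node 530 (merge (leaf 1 526 559) (node 498 (merge (leaf 2 495 499) (node 497 (merge (leaf 2 494 526) (node 465 (merge (leaf 5 432 433) (leaf 5 464 561))))))))) (node 526 (merge (leaf 1 525 557) (node 497 (merge (leaf 2 494 498) (node 465 (merge (leaf 5 432 433) (leaf 5 464 561)))))))))) (node 559 (merge (node 558 (merge (leaf 1 526 530) (leaf 2 525 557))) (merge (node 624 (merge (leaf 7 527 656) (node 530 (merge (leaf 1 527 531) (node 498 (merge (leaf 2 495 499) (node 625 (merge (leaf 4 528 657) (node 623 (merge (leaf 5 527 655) (node 593 (merge (leaf 6 497 561) (node 594 (merge (leaf 1 591 595) (leaf 2 590 622))))))))))))))) (node 593 (merge (node 558 (merge (leaf 0 557 557) (node 594 (merge (leaf 0 558 561) (leaf 3 559 595))))) (merge (node 624 (merge (leaf 7 527 656) (node 623 (merge (leaf 5 527 655) (node 622 (merge (leaf 2 589 621) (node 591 (merge (leaf 5 526 654) (node 526 (merge (leaf 7 494 494) (node 525 (merge (leaf 0 524 524) (leaf 0 525 561))))))))))))) (merge (node 624 (merge (leaf 7 527 656) (node 594 (merge (leaf 3 559 595) (node 623 (merge (leaf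 5 527 655) (node 622 (merge (leaf 1 590 591) (leaf 2 589 621))))))))) (node 558 (merge (leaf 0 557 557) (node 594 (merge (leaf 3 558 591) (leaf 3 559 595))))))))))))))))))))))))) nD_1 cD_1 12 (by decide +kernel)
def nD_2 : ℕ := 0x100000001000000000000000000000000000000000000000000000000000000000000000000000000000000000000000000000000000000000000000000000000000000000000
def cD_2 : ℕ := 0x280000007c000000fe0000006c000003ef000003ff000001ff800000fc0000006c000000000000000000000000000000000000000000000000000000000000000000000000000000000000000000000000000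
theorem lD_2 : S nD_2 cD_2 13 := S_of_chk [] trivial (node 496 (merge (node 465 (merge (node 433 (merge (leaf 6 432 464) (node 497 (merge (leaf 5 400 401) (leaf 5 432 529))))) (merge (node 497 (merge (leaf 6 464 592) (node 433 (merge (leaf 5 400 401) (leaf 5 432 529))))) (merge (node 592 (merge (leaf 6 464 497) (node 591 (merge (leaf 5 495 623) (node 464 (merge (leaf 5 463 559) (node 463 (merge (leaf 7 431 431) (leaf 7 463 495))))))))) (node 464 (merge (leaf 6 432 433) (node 591 (merge (leaf 5 463 559) (node 463 (merge (leaf 7 431 431) (node 592 (merge (leaf 7 463 495) (leaf 5 495 623))))))))))))) (merge (node 592 (merge (node 593 (merge (leaf 4 496 625) (node 464 (merge (leaf 4 464 561) (node 463 (merge (leaf 7 431 431) (leaf 7 463 495))))))) (merge (node 625 (merge (leaf 4 496 593) (node 624 (merge (leaf 4 528 657) (node 623 (merge (leaf 5 495 591) (leaf 5 527 655))))))) (node 623 (merge (leaf 5 495 591) (node 495 (merge (leaf 7 463 463) (node 624 (merge (leaf 7 495 527) (leaf 5 527 655)))))))))) (merge (node 592 (merge (node 625 (merge (leaf 4 496 593) (node 624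 (merge (leaf 4 528 657) (node 623 (merge (leaf 5 495 591) (leaf 5 527 655))))))) (merge (node 625 (merge (leaf 4 496 593) (node 497 (merge (leaf 6 464 465) (node 624 (merge (leaf 6 496 529) (leaf 4 528 657))))))) (merge (node 497 (merge (leaf 6 464 465) (node 624 (merge (leaf 6 496 529) (node 623 (merge (leaf 5 495 591) (leaf 5 527 655))))))) (node 593 (merge (leaf 4 496 625) (node 464 (merge (leaf 4 464 561) (node 591 (merge (leaf 5 463 559) (leaf 5 495 623))))))))))) (merge (node 592 (merge (node 593 (merge (leaf 4 496 625) (node 464 (merge (leaf 4 464 561) (node 465 (merge (leaf 6 432 433) (leaf 6 464 497))))))) (merge (node 625 (merge (leaf 4 496 593) (node 624 (merge (leaf 4 528 657) (node 495 (merge (leaf 7 463 463) (leaf 7 495 527))))))) (node 465 (merge (leaf 6 464 497) (node 464 (merge (leaf 6 432 433) (node 463 (merge (leaf 7 431 431) (leaf 7 463 495)))))))))) (merge (node 495 (merge (node 592 (merge (leaf 7 463 463) (node 625 (merge (leaf 4 496 593) (node 624 (merge (leaf 4 528 657) (node 623 (merge (leaf 5 495 591) (leaf 5 527 655))))))))) (merge (node 497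 (merge (node 592 (merge (leaf 6 464 465) (node 625 (merge (leaf 4 496 593) (node 624 (merge (leaf 7 495 527) (leaf 4 528 657))))))) (merge (node 526 (merge (node 527 (merge (leaf 1 494 498) (leaf 2 493 525))) (merge (node 494 (merge (leaf 1 493 525) (node 529 (merge (leaf 0 493 493) (leaf 0 494 530))))) (node 498 (merge (leaf 1 494 527) (node 530 (merge (leaf 0 495 531) (node 529 (merge (leaf 0 494 494) (node 466 (merge (leaf 2 463 467) (node 561 (merge (leaf 5 433 434) (leaf 6 465 593)))))))))))))) (node 530 (merge (node 531 (merge (leaf 0 495 498) (leaf 3 495 529))) (merge (node 498 (merge (leaf 0 495 531) (node 466 (merge (leaf 2 463 467) (node 465 (merge (leaf 2 462 494) (node 562 (merge (leaf 7 433 433) (leaf 7 465 594))))))))) (node 494 (merge (leaf 0 494 529) (node 525 (merge (leaf 1 493 526) (node 493 (merge (leaf 1 492 524) (node 461 (merge (leaf 3 460 460) (leaf 3 461 462))))))))))))))) (node 494 (merge (node 529 (merge (leaf 0 493 493) (node 530 (merge (leaf 3 494 527) (leaf 3 495 531))))) (merge (node 493 (merge (leaf 0 493 529) (node 525 (merge (leaf 1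 492 524) (node 497 (merge (leaf 1 493 526) (node 461 (merge (leaf 3 460 460) (leaf 3 461 462))))))))) (merge (node 497 (merge (node 465 (merge (leaf 2 462 466) (node 433 (merge (leaf 5 400 401) (leaf 5 432 529))))) (merge (node 466 (merge (leaf 2 462 465) (node 498 (merge (leaf 2 463 467) (node 462 (merge (leaf 3 461 461) (leaf 3 462 463))))))) (node 462 (merge (leaf 3 461 461) (node 498 (merge (leaf 3 462 463) (node 499 (merge (leaf 1 495 527) (node 532 (merge (leaf 0 496 531) (node 500 (merge (leaf 1 496 529) (leaf 0 497 533)))))))))))))) (node 497 (merge (node 466 (merge (leaf 2 462 465) (node 498 (merge (leaf 2 463 467) (node 462 (merge (leaf 3 461 461) (leaf 3 462 463))))))) (merge (node 525 (merge (leaf 1 493 526) (node 493 (merge (leaf 1 492 524) (node 492 (merge (leaf 0 492 527) (node 460 (merge (leaf 3 459 459) (leaf 3 460 461))))))))) (merge (node 525 (merge (leaf 1 493 526) (node 493 (merge (leaf 1 492 524) (node 527 (merge (leaf 0 492 492) (node 498 (merge (leaf 1 495 499) (node 463 (merge (leaf 4 431 431) (leaf 3 462 462))))))))))) (node 462 (merge (leaf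 3 461 461) (node 498 (merge (leaf 3 462 463) (node 531 (merge (leaf 0 495 530) (node 499 (merge (leaf 1 495 527) (leaf 0 496 532)))))))))))))))))))) (node 529 (merge (node 464 (merge (node 561 (merge (leaf 4 464 593) (node 432 (merge (leaf 4 432 529) (node 431 (merge (leaf 7 399 399) (leaf 7 431 463))))))) (merge (node 433 (merge (leaf 6 432 465) (node 432 (merge (leaf 6 400 401) (node 431 (merge (leaf 7 399 399) (leaf 7 431 463))))))) (node 559 (merge (leaf 5 463 591) (node 530 (merge (leaf 1 527 531) (node 558 (merge (leaf 1 526 527) (leaf 2 526 561)))))))))) (merge (node 464 (merge (node 561 (merge (leaf 4 432 432) (node 593 (merge (leaf 7 464 497) (leaf 7 496 625))))) (merge (node 433 (merge (leaf 6 432 465) (node 432 (merge (leaf 6 400 401) (node 431 (merge (leaf 7 399 399) (leaf 7 431 463))))))) (node 561 (merge (leaf 4 464 593) (node 559 (merge (leaf 5 463 591) (node 530 (merge (leaf 1 527 531) (leaf 2 526 558)))))))))) (merge (node 530 (merge (node 495 (merge (leaf 3 495 531) (node 494 (merge (leaf 0 493 493) (leaf 3 494 527))))) (merge (node 531 (merge (leaf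 1 527 559) (node 500 (merge (leaf 2 496 499) (node 532 (merge (leaf 3 496 497) (leaf 2 497 501))))))) (node 527 (merge (node 494 (merge (leaf 3 494 495) (node 526 (merge (leaf 3 493 493) (node 497 (merge (leaf 2 494 498) (leaf 2 493 525))))))) (merge (node 559 (merge (leaf 1 526 558) (node 591 (merge (leaf 6 495 623) (node 495 (merge (leaf 6 463 464) (leaf 3 494 494))))))) (node 559 (merge (leaf 1 526 558) (node 464 (merge (leaf 5 431 432) (node 591 (merge (leaf 5 463 560) (leaf 6 495 623))))))))))))) (merge (node 463 (merge (node 431 (merge (leaf 7 431 464) (node 495 (merge (leaf 4 399 399) (leaf 4 431 527))))) (merge (node 464 (merge (leaf 7 431 431) (node 561 (merge (leaf 4 432 432) (leaf 4 464 593))))) (merge (node 495 (merge (node 431 (merge (leaf 4 399 399) (leaf 4 431 527))) (node 494 (merge (leaf 0 493 493) (node 497 (merge (leaf 0 494 530) (node 465 (merge (leaf 5 432 433) (leaf 2 462 466))))))))) (node 530 (merge (node 531 (merge (leaf 3 495 495) (node 532 (merge (leaf 3 496 497) (leaf 1 528 561))))) (merge (node 561 (merge (node 593 (merge (leaf 4 464 464)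 (leaf 7 496 625))) (merge (node 531 (merge (leaf 1 528 532) (node 499 (merge (leaf 2 496 500) (node 527 (merge (leaf 2 495 498) (node 526 (merge (leaf 0 525 525) (leaf 0 526 562))))))))) (node 531 (merge (leaf 1 528 532) (node 499 (merge (leaf 2 496 500) (node 527 (merge (leaf 2 495 498) (node 526 (merge (leaf 0 525 525) (leaf 0 526 562)))))))))))) (merge (node 531 (merge (leaf 3 495 495) (node 499 (merge (leaf 2 496 500) (node 498 (merge (leaf 2 495 527) (node 497 (merge (leaf 3 463 464) (node 467 (merge (leaf 2 464 468) (node 562 (merge (leaf 5 434 435) (leaf 6 466 594))))))))))))) (node 527 (merge (node 494 (merge (leaf 3 494 495) (node 526 (merge (leaf 3 493 493) (node 561 (merge (leaf 0 525 525) (leaf 0 526 562))))))) (merge (node 498 (merge (leaf 2 495 499) (node 497 (merge (leaf 2 494 526) (node 495 (merge (leaf 3 462 462) (leaf 0 494 494))))))) (merge (node 498 (merge (leaf 2 495 499) (node 526 (merge (leaf 2 494 497) (node 561 (merge (leaf 0 525 525) (leaf 0 526 562))))))) (node 498 (merge (leaf 2 495 499) (node 495 (merge (leaf 3 494 494) (node 497 (merge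 (leaf 3 462 462) (node 466 (merge (leaf 2 463 467) (node 434 (merge (leaf 5 401 402) (leaf 5 433 561))))))))))))))))))))))) (merge (node 527 (merge (node 498 (merge (node 497 (merge (leaf 1 495 499) (leaf 2 494 526))) (merge (node 530 (merge (leaf 2 495 499) (node 531 (merge (leaf 3 495 495) (leaf 1 527 559))))) (node 526 (merge (leaf 2 494 497) (node 494 (merge (leaf 3 493 493) (node 530 (merge (leaf 3 494 495) (node 559 (merge (leaf 1 527 531) (leaf 1 526 558)))))))))))) (merge (node 498 (merge (node 530 (merge (leaf 2 495 499) (node 495 (merge (leaf 3 494 494) (leaf 3 495 531))))) (node 526 (merge (leaf 2 494 497) (node 561 (merge (leaf 0 525 525) (leaf 0 526 562))))))) (merge (node 526 (merge (node 561 (merge (leaf 0 525 525) (leaf 0 526 562))) (node 498 (merge (leaf 2 494 497) (node 530 (merge (leaf 2 495 499) (node 559 (merge (leaf 1 527 531) (leaf 1 526 558))))))))) (merge (node 530 (merge (node 531 (merge (leaf 3 495 495) (leaf 1 527 559))) (merge (node 531 (merge (leaf 1 527 559) (node 532 (merge (leaf 3 496 497) (leaf 1 528 561))))) (node 494 (merge (leaf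 3 494 495) (node 526 (merge (leaf 3 493 493) (node 561 (merge (leaf 0 525 525) (leaf 0 526 562)))))))))) (merge (node 494 (merge (node 526 (merge (leaf 3 493 493) (node 561 (merge (leaf 0 525 525) (leaf 0 526 562))))) (node 530 (merge (leaf 3 494 495) (node 559 (merge (leaf 1 527 531) (leaf 1 526 558))))))) (merge (node 526 (merge (node 561 (merge (leaf 0 525 525) (leaf 0 526 562))) (node 497 (merge (leaf 2 494 498) (node 494 (merge (leaf 3 493 493) (node 465 (merge (leaf 5 432 433) (node 495 (merge (leaf 2 462 466) (node 462 (merge (leaf 3 461 461) (node 430 (merge (leaf 4 398 398) (leaf 4 430 559))))))))))))))) (node 530 (merge (node 531 (merge (leaf 3 495 495) (leaf 1 527 559))) (merge (node 559 (merge (leaf 1 527 531) (leaf 1 526 558))) (node 498 (merge (leaf 2 495 499) (node 495 (merge (leaf 3 494 494) (node 463 (merge (leaf 4 431 431) (node 497 (merge (leaf 3 462 462) (node 466 (merge (leaf 2 463 467) (node 434 (merge (leaf 5 401 402) (leaf 5 433 561))))))))))))))))))))))) (node 559 (merge (node 591 (merge (leaf 5 463 464) (node 623 (merge (leaf 6 495 527) (leaf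 6 527 655))))) (merge (node 464 (merge (leaf 5 463 591) (node 561 (merge (leaf 4 432 432) (leaf 4 464 593))))) (merge (node 561 (merge (node 593 (merge (leaf 7 496 625) (node 594 (merge (leaf 0 558 558) (node 497 (merge (leaf 4 497 626) (node 498 (merge (leaf 6 465 466) (node 527 (merge (leaf 1 495 499) (leaf 2 494 526))))))))))) (merge (node 593 (merge (leaf 7 496 625) (node 558 (merge (leaf 0 558 594) (node 590 (merge (leaf 1 557 589) (node 591 (merge (leaf 1 558 562) (node 623 (merge (leaf 6 495 527) (leaf 6 527 655))))))))))) (merge (node 527 (merge (node 526 (merge (leaf 0 525 525) (leaf 0 526 562))) (merge (node 591 (merge (leaf 6 495 623) (node 590 (merge (leaf 1 558 562) (node 495 (merge (leaf 5 494 622) (node 494 (merge (leaf 7 462 462) (leaf 0 493 493))))))))) (node 526 (merge (leaf 0 525 525) (node 494 (merge (leaf 3 493 493) (node 462 (merge (leaf 4 430 430) (node 591 (merge (leaf 7 462 495) (leaf 6 495 623)))))))))))) (node 593 (merge (leaf 7 496 625) (node 558 (merge (leaf 0 558 594) (node 590 (merge (leaf 1 557 589) (node 591 (merge (leaf 1 558 562) (node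 526 (merge (leaf 3 525 525) (node 623 (merge (leaf 4 494 494) (leaf 7 526 655))))))))))))))))) (node 561 (merge (node 593 (merge (leaf 4 464 464) (leaf 7 496 625))) (merge (node 593 (merge (leaf 7 496 625) (node 594 (merge (leaf 0 558 558) (node 497 (merge (leaf 4 497 626) (node 498 (merge (leaf 6 465 466) (node 527 (merge (leaf 1 495 499) (leaf 2 494 526))))))))))) (node 526 (merge (node 527 (merge (leaf 0 525 525) (leaf 0 526 562))) (merge (node 558 (merge (leaf 3 525 525) (node 590 (merge (leaf 1 557 589) (node 464 (merge (leaf 4 432 432) (node 465 (merge (leaf 6 432 433) (node 463 (merge (leaf 7 431 431) (node 494 (merge (leaf 6 462 495) (node 493 (merge (leaf 7 461 461) (leaf 1 461 462))))))))))))))) (node 562 (merge (leaf 0 526 527) (node 594 (merge (leaf 0 559 595) (node 464 (merge (leaf 4 432 432) (node 465 (merge (leaf 6 432 433) (leaf 4 465 497))))))))))))))))))))))))))))))) nD_2 cD_2 13 (by decide +kernel)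
def nD_3 : ℕ := 0x100000001000000000000000000000000000000000000000000000000000000000000000000000000000000000000000000000000000000000000000000000000000000000000
def cD_3 : ℕ := 0x280000003e0000003e0000001f8000006f000007ef800007ff00000fff0000003a00000038000000280000000000000000000000000000000000000000000000000000000000000000000000000000000000000000000
theorem lD_3 : S nD_3 cD_3 13 := S_of_chk [] trivial (node 496 (merge (node 465 (merge (node 433 (merge (leaf 6 432 464) (node 497 (merge (leaf 5 400 401) (leaf 5 432 529))))) (merge (node 497 (merge (leaf 6 464 592) (node 433 (merge (leaf 5 400 401) (leaf 5 432 529))))) (merge (node 592 (merge (leaf 6 464 497) (node 591 (merge (leaf 5 495 623) (node 464 (merge (leaf 5 463 559) (node 463 (merge (leaf 7 431 431) (leaf 7 463 495))))))))) (node 464 (merge (leaf 6 432 433) (node 591 (merge (leaf 5 463 559) (node 463 (merge (leaf 7 431 431) (node 592 (merge (leaf 7 463 495) (leaf 5 495 623))))))))))))) (merge (node 464 (merge (node 433 (merge (leaf 6 432 465) (node 432 (merge (leaf 6 400 401) (node 559 (merge (leaf 5 431 527)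 (leaf 5 463 591))))))) (merge (node 433 (merge (leaf 6 432 465) (node 432 (merge (leaf 6 400 401) (node 431 (merge (leaf 7 399 399) (leaf 7 431 463))))))) (node 591 (merge (leaf 5 463 559) (node 463 (merge (leaf 7 431 431) (node 592 (merge (leaf 7 463 495) (leaf 5 495 623)))))))))) (merge (node 464 (merge (node 559 (merge (leaf 5 463 591) (node 432 (merge (leaf 5 431 527) (node 431 (merge (leaf 7 399 399) (leaf 7 431 463))))))) (merge (node 433 (merge (leaf 6 432 465) (node 432 (merge (leaf 6 400 401) (node 559 (merge (leaf 5 431 527) (leaf 5 463 591))))))) (node 465 (merge (leaf 6 432 433) (node 497 (merge (leaf 6 464 592) (node 463 (merge (leaf 7 431 431) (node 498 (merge (leaf 0 462 462) (leaf 3 463 499)))))))))))) (merge (node 464 (merge (node 433 (merge (leaf 6 432 465) (node 432 (merge (leaf 6 400 401) (node 559 (merge (leaf 5 431 527) (leaf 5 463 591))))))) (merge (node 465 (merge (leaf 6 432 433) (node 592 (merge (leaf 6 464 497) (node 591 (merge (leaf 5 463 559) (leaf 5 495 623))))))) (merge (node 559 (merge (leaf 5 463 591) (node 432 (merge (leaf 5 431 527)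 (node 529 (merge (leaf 4 432 561) (node 400 (merge (leaf 4 400 497) (node 399 (merge (leaf 7 367 367) (leaf 7 399 431))))))))))) (node 433 (merge (leaf 6 432 465) (node 432 (merge (leaf 6 400 401) (node 529 (merge (leaf 4 432 561) (node 400 (merge (leaf 4 400 497) (node 399 (merge (leaf 7 367 367) (leaf 7 399 431))))))))))))))) (merge (node 465 (merge (node 433 (merge (leaf 6 432 464) (node 497 (merge (leaf 5 400 401) (leaf 5 432 529))))) (merge (node 592 (merge (leaf 6 464 497) (node 623 (merge (leaf 5 495 591) (node 495 (merge (leaf 7 463 463) (node 624 (merge (leaf 7 495 527) (leaf 5 527 655))))))))) (node 464 (merge (leaf 6 432 433) (node 591 (merge (leaf 5 463 559) (node 592 (merge (leaf 5 495 623) (node 495 (merge (leaf 7 463 463) (node 527 (merge (leaf 7 495 624) (node 432 (merge (leaf 5 399 400) (node 529 (merge (leaf 4 432 561) (node 530 (merge (leaf 3 494 494) (leaf 3 495 531)))))))))))))))))))) (merge (node 465 (merge (node 433 (merge (leaf 6 432 464) (node 497 (merge (leaf 5 400 401) (leaf 5 432 529))))) (merge (node 464 (merge (leaf 6 432 433) (node 463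 (merge (leaf 7 431 431) (node 495 (merge (leaf 7 463 592) (node 494 (merge (leaf 1 462 466) (leaf 2 461 493))))))))) (node 592 (merge (leaf 6 464 497) (node 495 (merge (leaf 7 463 463) (node 624 (merge (leaf 7 495 527) (node 657 (merge (leaf 4 528 625) (node 656 (merge (leaf 4 560 689) (node 655 (merge (leaf 5 527 623) (leaf 5 559 687)))))))))))))))) (merge (node 591 (merge (node 623 (merge (leaf 5 495 592) (node 559 (merge (leaf 6 495 527) (leaf 6 527 655))))) (merge (node 464 (merge (leaf 5 463 559) (node 463 (merge (leaf 7 431 431) (node 592 (merge (leaf 7 463 495) (leaf 5 495 623))))))) (merge (node 464 (merge (leaf 5 463 559) (node 431 (merge (leaf 7 431 463) (node 432 (merge (leaf 7 399 399) (node 529 (merge (leaf 4 432 561) (node 400 (merge (leaf 4 400 497) (node 401 (merge (leaf 6 368 369) (leaf 6 400 433))))))))))))) (node 592 (merge (leaf 5 495 623) (node 495 (merge (leaf 7 463 463) (node 624 (merge (leaf 7 495 527) (node 657 (merge (leaf 4 528 625) (node 656 (merge (leaf 4 560 689) (node 529 (merge (leaf 6 496 497) (leaf 6 528 561))))))))))))))))) (merge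 (node 497 (merge (node 592 (merge (leaf 6 464 465) (node 624 (merge (leaf 6 496 529) (node 623 (merge (leaf 5 495 591) (leaf 5 527 655))))))) (merge (node 592 (merge (leaf 6 464 465) (node 623 (merge (leaf 5 495 591) (node 495 (merge (leaf 7 463 463) (node 624 (merge (leaf 7 495 527) (leaf 5 527 655))))))))) (merge (node 495 (merge (node 463 (merge (leaf 7 463 592) (node 431 (merge (leaf 4 399 399) (leaf 4 431 527))))) (merge (node 592 (merge (leaf 7 463 463) (node 624 (merge (leaf 6 496 529) (node 623 (merge (leaf 5 495 591) (leaf 5 527 655))))))) (node 494 (merge (node 529 (merge (leaf 0 493 493) (leaf 0 494 530))) (merge (node 525 (merge (leaf 1 493 526) (node 493 (merge (leaf 1 492 524) (node 461 (merge (leaf 3 460 460) (leaf 3 461 462))))))) (node 530 (merge (leaf 0 494 529) (node 498 (merge (leaf 0 495 531) (node 526 (merge (leaf 1 493 525) (leaf 1 494 527))))))))))))) (node 498 (merge (node 499 (merge (leaf 1 495 527) (node 532 (merge (leaf 0 496 531) (node 500 (merge (leaf 1 496 529) (leaf 0 497 533))))))) (merge (node 499 (merge (leaf 1 495 527) (node 532 (merge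 (leaf 0 496 531) (node 500 (merge (leaf 0 497 533) (node 468 (merge (leaf 2 464 467) (leaf 2 465 469))))))))) (merge (node 495 (merge (node 463 (merge (leaf 3 462 462) (node 431 (merge (leaf 4 399 399) (leaf 4 431 527))))) (node 466 (merge (leaf 2 463 467) (node 494 (merge (leaf 2 462 465) (node 529 (merge (leaf 0 493 493) (leaf 0 494 530))))))))) (node 467 (merge (node 495 (merge (leaf 2 463 466) (node 531 (merge (leaf 0 495 530) (node 499 (merge (leaf 2 464 468) (leaf 0 496 532))))))) (merge (node 499 (merge (leaf 2 464 468) (node 532 (merge (leaf 0 496 531) (node 500 (merge (leaf 1 496 529) (leaf 0 497 533))))))) (merge (node 495 (merge (leaf 2 463 466) (node 530 (merge (leaf 0 495 531) (node 494 (merge (leaf 0 494 529) (node 525 (merge (leaf 1 493 526) (node 493 (merge (leaf 1 492 524) (node 461 (merge (leaf 3 460 460) (leaf 3 461 462))))))))))))) (node 499 (merge (leaf 2 464 468) (node 500 (merge (leaf 1 496 529) (node 533 (merge (leaf 0 497 532) (node 501 (merge (leaf 0 498 534) (node 470 (merge (leaf 2 466 469) (node 502 (merge (leaf 3 466 466) (leaf 2 467 471)))))))))))))))))))))))))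 (node 559 (merge (node 591 (merge (leaf 5 463 464) (node 623 (merge (leaf 6 495 527) (leaf 6 527 655))))) (merge (node 464 (merge (leaf 5 463 591) (node 433 (merge (leaf 6 432 465) (node 432 (merge (leaf 6 400 401) (node 431 (merge (leaf 7 399 399) (leaf 7 431 463))))))))) (merge (node 558 (merge (node 529 (merge (leaf 2 525 557) (node 530 (merge (leaf 1 526 527) (leaf 1 527 531))))) (merge (node 557 (merge (leaf 2 525 529) (node 588 (merge (leaf 1 556 589) (node 556 (merge (leaf 1 555 587) (node 524 (merge (leaf 3 523 523) (leaf 3 524 525))))))))) (merge (node 557 (merge (node 556 (merge (leaf 2 524 527) (node 588 (merge (leaf 1 555 587) (leaf 1 556 589))))) (merge (node 589 (merge (leaf 1 556 588) (node 590 (merge (leaf 1 557 561) (node 525 (merge (leaf 3 524 524) (node 622 (merge (leaf 4 493 493) (leaf 7 525 654))))))))) (node 527 (merge (leaf 2 524 556) (node 525 (merge (leaf 3 524 524) (node 561 (merge (leaf 0 525 526) (node 591 (merge (leaf 6 495 623) (node 590 (merge (leaf 1 558 562) (node 622 (merge (leaf 5 494 495) (leaf 7 525 654)))))))))))))))) (node 590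 (merge (node 589 (merge (leaf 1 557 561) (node 588 (merge (leaf 2 555 587) (leaf 2 556 591))))) (merge (node 561 (merge (leaf 1 557 589) (node 530 (merge (leaf 2 526 529) (node 562 (merge (leaf 2 527 531) (node 526 (merge (leaf 3 525 525) (leaf 3 526 527))))))))) (merge (node 591 (merge (node 623 (merge (leaf 6 495 527) (leaf 6 527 655))) (merge (node 561 (merge (leaf 1 558 562) (node 529 (merge (leaf 2 526 530) (node 526 (merge (leaf 3 525 525) (node 494 (merge (leaf 4 462 462) (node 493 (merge (leaf 7 461 461) (leaf 3 493 527))))))))))) (node 561 (merge (leaf 1 558 562) (node 526 (merge (leaf 3 525 525) (node 623 (merge (leaf 4 494 494) (leaf 7 526 655)))))))))) (node 527 (merge (node 622 (merge (leaf 6 526 654) (node 526 (merge (leaf 6 494 495) (node 525 (merge (leaf 2 493 497) (leaf 0 524 524))))))) (merge (node 495 (merge (leaf 5 462 463) (node 591 (merge (leaf 5 494 622) (leaf 6 495 623))))) (merge (node 529 (merge (leaf 1 526 530) (node 495 (merge (leaf 5 462 463) (node 494 (merge (leaf 0 493 493) (node 591 (merge (leaf 7 462 462) (leaf 6 495 623))))))))) (node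 623 (merge (leaf 6 495 591) (node 622 (merge (leaf 6 526 654) (node 526 (merge (leaf 4 526 655) (node 525 (merge (leaf 2 493 497) (leaf 0 524 524))))))))))))))))))))) (node 558 (merge (node 529 (merge (leaf 2 525 557) (node 530 (merge (leaf 1 526 527) (leaf 1 527 531))))) (merge (node 557 (merge (leaf 2 525 529) (node 588 (merge (leaf 1 556 589) (node 556 (merge (leaf 1 555 587) (node 524 (merge (leaf 3 523 523) (leaf 3 524 525))))))))) (merge (node 561 (merge (node 530 (merge (leaf 2 526 529) (node 562 (merge (leaf 2 527 531) (node 526 (merge (leaf 3 525 525) (leaf 3 526 527))))))) (merge (node 590 (merge (leaf 1 557 589) (node 526 (merge (leaf 3 525 525) (node 527 (merge (leaf 3 526 562) (node 622 (merge (leaf 6 494 495) (leaf 6 526 654))))))))) (merge (node 590 (merge (leaf 1 557 589) (node 529 (merge (leaf 2 526 530) (node 464 (merge (leaf 4 432 432) (node 465 (merge (leaf 6 432 433) (node 463 (merge (leaf 7 431 431) (node 495 (merge (leaf 5 462 527) (node 494 (merge (leaf 1 462 466) (leaf 0 493 493))))))))))))))) (node 590 (merge (leaf 1 557 589) (node 529 (merge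 (leaf 2 526 530) (node 526 (merge (leaf 3 525 525) (node 464 (merge (leaf 4 432 432) (node 465 (merge (leaf 6 432 433) (node 463 (merge (leaf 7 431 431) (node 494 (merge (leaf 6 462 495) (node 493 (merge (leaf 7 461 461) (leaf 1 461 462))))))))))))))))))))) (node 527 (merge (node 557 (merge (leaf 2 524 556) (node 589 (merge (leaf 1 556 588) (node 525 (merge (leaf 3 524 524) (node 526 (merge (leaf 2 493 497) (node 621 (merge (leaf 6 493 494) (leaf 6 525 653))))))))))) (merge (node 464 (merge (leaf 5 431 432) (node 465 (merge (leaf 6 432 433) (node 463 (merge (leaf 7 431 431) (node 495 (merge (leaf 5 462 590) (node 494 (merge (leaf 1 462 466) (leaf 2 461 493))))))))))) (merge (node 557 (merge (leaf 2 524 556) (node 525 (merge (leaf 3 524 524) (node 526 (merge (leaf 2 493 497) (node 493 (merge (leaf 3 492 492) (node 461 (merge (leaf 4 429 429) (leaf 4 461 590))))))))))) (node 557 (merge (leaf 2 524 556) (node 589 (merge (leaf 1 556 588) (node 525 (merge (leaf 3 524 524) (node 526 (merge (leaf 2 493 497) (node 493 (merge (leaf 3 492 492) (node 622 (merge (leaf 4 493 590)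 (node 621 (merge (leaf 6 525 653) (leaf 4 525 654)))))))))))))))))))))))))))))))))))) nD_3 cD_3 13 (by decide +kernel)
def nD_4 : ℕ := 0x100000001000000000000000000000000000000000000000000000000000000000000000000000000000000000000000000000000000000000000000000000000000000000000
def cD_4 : ℕ := 0x280000003c000001ff800001ff8000006f800000ef8000007c000000380000001800000018000000000000000000000000000000000000000000000000000000000000000000000000000000000000000000000000000
theorem lD_4 : S nD_4 cD_4 13 := S_of_chk [] trivial (node 496 (merge (node 592 (merge (node 625 (merge (leaf 4 496 593) (node 624 (merge (leaf 4 528 657) (node 623 (merge (leaf 5 495 591) (leaf 5 527 655))))))) (merge (node 625 (merge (leaf 4 496 593) (node 497 (merge (leaf 6 464 465) (node 624 (merge (leaf 6 496 529) (leaf 4 528 657))))))) (merge (node 497 (merge (leaf 6 464 465) (node 624 (merge (leaf 6 496 529) (node 623 (merge (leaf 5 495 591) (leaf 5 527 655))))))) (node 593 (merge (leaf 4 496 625) (node 464 (merge (leaf 4 464 561) (node 591 (merge (leaf 5 463 559) (leaf 5 495 623))))))))))) (merge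 (node 591 (merge (node 559 (merge (leaf 5 463 464) (node 623 (merge (leaf 6 495 527) (leaf 6 527 655))))) (merge (node 592 (merge (leaf 5 495 623) (node 497 (merge (leaf 6 464 465) (node 529 (merge (leaf 6 496 624) (node 495 (merge (leaf 7 463 463) (node 530 (merge (leaf 0 494 494) (leaf 3 495 531))))))))))) (node 464 (merge (leaf 5 463 559) (node 463 (merge (leaf 7 431 431) (node 592 (merge (leaf 7 463 495) (node 497 (merge (leaf 6 464 465) (node 529 (merge (leaf 6 496 624) (node 432 (merge (leaf 4 400 400) (leaf 4 432 561)))))))))))))))) (merge (node 592 (merge (node 593 (merge (leaf 4 496 625) (node 464 (merge (leaf 4 464 561) (node 463 (merge (leaf 7 431 431) (leaf 7 463 495))))))) (merge (node 625 (merge (leaf 4 496 593) (node 497 (merge (leaf 6 464 465) (node 624 (merge (leaf 6 496 529) (leaf 4 528 657))))))) (node 495 (merge (leaf 7 463 463) (node 624 (merge (leaf 7 495 527) (node 655 (merge (leaf 5 527 623) (node 656 (merge (leaf 5 559 687) (node 529 (merge (leaf 6 496 497) (leaf 6 528 561)))))))))))))) (merge (node 592 (merge (node 625 (merge (leaf 4 496 593)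 (node 624 (merge (leaf 4 528 657) (node 623 (merge (leaf 5 495 591) (leaf 5 527 655))))))) (merge (node 625 (merge (leaf 4 496 593) (node 624 (merge (leaf 4 528 657) (node 495 (merge (leaf 7 463 463) (leaf 7 495 527))))))) (merge (node 623 (merge (leaf 5 495 591) (node 495 (merge (leaf 7 463 463) (node 624 (merge (leaf 7 495 527) (leaf 5 527 655))))))) (node 593 (merge (leaf 4 496 625) (node 591 (merge (leaf 5 495 623) (node 559 (merge (leaf 5 463 464) (node 594 (merge (leaf 3 558 558) (leaf 3 559 595))))))))))))) (merge (node 559 (merge (node 464 (merge (leaf 5 463 591) (node 432 (merge (leaf 5 431 527) (node 431 (merge (leaf 7 399 399) (leaf 7 431 463))))))) (merge (node 464 (merge (leaf 5 463 591) (node 561 (merge (leaf 4 464 593) (node 529 (merge (leaf 4 432 432) (node 558 (merge (leaf 2 526 530) (leaf 2 525 557))))))))) (merge (node 561 (merge (node 593 (merge (leaf 4 464 464) (node 625 (merge (leaf 7 496 529) (leaf 7 528 657))))) (merge (node 526 (merge (node 527 (merge (leaf 0 525 525) (leaf 3 526 562))) (merge (node 558 (merge (leaf 3 525 525) (node 529 (merge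 (leaf 2 526 530) (leaf 2 525 557))))) (node 562 (merge (leaf 3 526 527) (node 594 (merge (leaf 0 559 595) (node 558 (merge (leaf 0 558 593) (node 530 (merge (leaf 2 526 529) (leaf 2 527 531)))))))))))) (merge (node 593 (merge (leaf 4 464 464) (node 558 (merge (leaf 0 558 594) (node 590 (merge (leaf 1 557 589) (node 526 (merge (leaf 3 525 525) (node 527 (merge (leaf 3 526 562) (node 622 (merge (leaf 6 494 495) (leaf 6 526 654))))))))))))) (node 558 (merge (node 529 (merge (leaf 2 526 530) (leaf 2 525 557))) (merge (node 530 (merge (leaf 2 526 529) (node 562 (merge (leaf 2 527 531) (node 526 (merge (leaf 3 525 525) (leaf 3 526 527))))))) (node 590 (merge (leaf 1 557 589) (node 526 (merge (leaf 3 525 525) (node 527 (merge (leaf 3 526 562) (node 622 (merge (leaf 6 494 495) (leaf 6 526 654)))))))))))))))) (node 558 (merge (node 529 (merge (leaf 2 525 557) (node 561 (merge (leaf 2 526 530) (node 593 (merge (leaf 0 558 594) (leaf 7 496 625))))))) (merge (node 557 (merge (leaf 2 525 529) (node 556 (merge (leaf 2 524 527) (node 588 (merge (leaf 1 555 587) (leaf 1 556 589)))))))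 (merge (node 561 (merge (node 530 (merge (leaf 2 526 529) (node 562 (merge (leaf 2 527 531) (node 526 (merge (leaf 3 525 525) (leaf 3 526 527))))))) (merge (node 593 (merge (leaf 0 558 594) (node 625 (merge (leaf 7 528 657) (node 529 (merge (leaf 7 496 496) (leaf 2 526 530))))))) (node 594 (merge (leaf 0 558 593) (node 562 (merge (leaf 0 559 595) (node 590 (merge (leaf 1 557 589) (leaf 1 558 591)))))))))) (node 525 (merge (node 524 (merge (leaf 3 524 557) (node 526 (merge (leaf 0 523 523) (leaf 3 525 561))))) (merge (node 557 (merge (leaf 3 524 524) (node 556 (merge (leaf 2 524 527) (node 588 (merge (leaf 1 555 587) (leaf 1 556 589))))))) (node 561 (merge (leaf 3 525 526) (node 594 (merge (leaf 0 558 593) (node 562 (merge (leaf 0 559 595) (node 590 (merge (leaf 1 557 589) (leaf 1 558 591)))))))))))))))))))) (node 592 (merge (node 625 (merge (leaf 4 496 593) (node 624 (merge (leaf 4 528 657) (node 623 (merge (leaf 5 495 591) (leaf 5 527 655))))))) (merge (node 625 (merge (leaf 4 496 593) (node 624 (merge (leaf 4 528 657) (node 495 (merge (leaf 7 463 463) (leaf 7 495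 527))))))) (merge (node 623 (merge (leaf 5 495 591) (node 495 (merge (leaf 7 463 463) (node 624 (merge (leaf 7 495 527) (leaf 5 527 655))))))) (node 591 (merge (node 623 (merge (leaf 5 495 496) (node 655 (merge (leaf 6 527 559) (leaf 6 559 687))))) (merge (node 590 (merge (node 561 (merge (leaf 2 557 589) (node 593 (merge (leaf 2 558 562) (node 625 (merge (leaf 0 590 626) (leaf 7 528 657))))))) (merge (node 589 (merge (leaf 2 557 561) (node 588 (merge (leaf 2 556 559) (node 620 (merge (leaf 1 587 619) (leaf 1 588 621))))))) (merge (node 593 (merge (node 626 (merge (leaf 0 590 625) (node 594 (merge (leaf 0 591 627) (node 622 (merge (leaf 1 589 621) (leaf 1 590 623))))))) (merge (node 621 (merge (leaf 1 589 622) (node 589 (merge (leaf 1 588 620) (node 557 (merge (leaf 3 556 556) (leaf 3 557 558))))))) (node 626 (merge (leaf 0 590 625) (node 594 (merge (leaf 0 591 627) (node 558 (merge (leaf 3 557 557) (leaf 3 558 559)))))))))) (node 593 (merge (node 626 (merge (leaf 0 590 625) (node 594 (merge (leaf 0 591 627) (node 622 (merge (leaf 1 589 621) (leaf 1 590 623))))))) (merge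 (node 626 (merge (leaf 0 590 625) (node 594 (merge (leaf 0 591 627) (node 558 (merge (leaf 3 557 557) (leaf 3 558 559))))))) (merge (node 622 (merge (leaf 1 589 621) (node 594 (merge (leaf 1 590 623) (node 558 (merge (leaf 3 557 557) (leaf 3 558 559))))))) (node 625 (merge (leaf 0 590 626) (node 657 (merge (leaf 7 528 561) (leaf 7 560 689))))))))))))) (merge (node 593 (merge (node 496 (merge (leaf 5 495 623) (leaf 4 496 625))) (merge (node 625 (merge (leaf 4 496 496) (node 657 (merge (leaf 7 528 561) (leaf 7 560 689))))) (merge (node 625 (merge (node 657 (merge (leaf 7 528 561) (leaf 7 560 689))) (merge (node 590 (merge (leaf 0 590 626) (node 561 (merge (leaf 2 558 562) (leaf 2 557 589))))) (node 590 (merge (leaf 0 590 626) (node 622 (merge (leaf 1 589 621) (node 623 (merge (leaf 1 590 594) (node 558 (merge (leaf 3 557 557) (node 655 (merge (leaf 4 526 526) (leaf 7 558 687)))))))))))))) (node 623 (merge (leaf 5 495 496) (node 594 (merge (leaf 1 590 622) (node 627 (merge (leaf 0 591 626) (node 595 (merge (leaf 0 592 628) (node 561 (merge (leaf 3 560 596) (node 590 (merge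 (leaf 2 558 562) (leaf 2 557 589))))))))))))))))) (node 590 (merge (node 561 (merge (leaf 2 557 589) (node 593 (merge (leaf 2 558 562) (node 625 (merge (leaf 0 590 626) (leaf 7 528 657))))))) (merge (node 589 (merge (leaf 2 557 561) (node 588 (merge (leaf 2 556 559) (node 620 (merge (leaf 1 587 619) (leaf 1 588 621))))))) (merge (node 557 (merge (node 556 (merge (leaf 3 556 589) (node 558 (merge (leaf 0 555 555) (leaf 3 557 593))))) (merge (node 589 (merge (leaf 3 556 556) (node 588 (merge (leaf 2 556 559) (node 620 (merge (leaf 1 587 619) (leaf 1 588 621))))))) (node 593 (merge (leaf 3 557 558) (node 622 (merge (leaf 1 589 621) (node 496 (merge (leaf 4 496 625) (node 497 (merge (leaf 6 464 465) (node 495 (merge (leaf 7 463 463) (node 527 (merge (leaf 5 494 559) (node 526 (merge (leaf 1 494 498) (leaf 2 493 525)))))))))))))))))) (node 593 (merge (node 626 (merge (leaf 0 590 625) (node 594 (merge (leaf 0 591 627) (node 558 (merge (leaf 3 557 557) (leaf 3 558 559))))))) (merge (node 625 (merge (leaf 0 590 626) (node 561 (merge (leaf 2 558 562) (leaf 7 528 657))))) (merge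 (node 622 (merge (leaf 1 589 621) (node 496 (merge (leaf 4 496 625) (node 497 (merge (leaf 6 464 465) (node 495 (merge (leaf 7 463 463) (node 527 (merge (leaf 5 494 559) (node 526 (merge (leaf 1 494 498) (leaf 2 493 525))))))))))))) (node 561 (merge (leaf 2 558 562) (node 558 (merge (leaf 3 557 557) (node 594 (merge (leaf 0 558 559) (node 627 (merge (leaf 0 591 626) (node 595 (merge (leaf 3 560 596) (leaf 0 592 628))))))))))))))))))))))))))))))))) nD_4 cD_4 13 (by decide +kernel)
def nD_5 : ℕ := 0x100000001000000000000000000000000000000000000000000000000000000000000000000000000000000000000000000000000000000000000000000000000000000000000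
def cD_5 : ℕ := 0x200000003c0000003e000001ff800001ff0000006f800001ef000001df8000003e0000003c00000038000000280000000000000000000000000000000000000000000000000000000000000000000000000000000000000000000
theorem lD_5 : S nD_5 cD_5 13 := S_of_chk [] trivial (node 592 (merge (node 496 (merge (node 593 (merge (leaf 4 496 625) (node 464 (merge (leaf 4 464 561) (node 463 (merge (leaf 7 431 431) (leaf 7 463 495))))))) (merge (node 625 (merge (leaf 4 496 593) (node 624 (merge (leaf 4 528 657) (node 623 (merge (leaf 5 495 591) (leaf 5 527 655))))))) (node 623 (merge (leaf 5 495 591) (node 495 (merge (leaf 7 463 463) (node 624 (merge (leaf 7 495 527) (leaf 5 527 655)))))))))) (merge (node 624 (merge (node 657 (merge (leaf 4 528 625) (node 656 (merge (leaf 4 560 689) (node 527 (merge (leaf 7 495 495) (leaf 7 527 559))))))) (merge (node 657 (merge (leaf 4 528 625) (node 656 (merge (leaf 4 560 689) (node 655 (merge (leaf 5 527 623) (leaf 5 559 687))))))) (merge (node 655 (merge (leaf 5 527 623) (node 656 (merge (leaf 5 559 687) (node 527 (merge (leaf 7 495 495) (leaf 7 527 559)))))))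 (node 625 (merge (leaf 4 528 657) (node 623 (merge (leaf 5 527 655) (node 591 (merge (leaf 5 495 496) (node 626 (merge (leaf 3 590 590) (leaf 3 591 627))))))))))))) (merge (node 496 (merge (node 625 (merge (leaf 4 496 593) (node 624 (merge (leaf 4 528 657) (node 495 (merge (leaf 7 463 463) (leaf 7 495 527))))))) (merge (node 463 (merge (leaf 7 463 495) (node 464 (merge (leaf 7 431 431) (node 433 (merge (leaf 6 432 465) (node 432 (merge (leaf 6 400 401) (node 559 (merge (leaf 5 431 527) (leaf 5 463 591))))))))))) (merge (node 593 (merge (leaf 4 496 625) (node 464 (merge (leaf 4 464 561) (node 433 (merge (leaf 6 432 465) (node 432 (merge (leaf 6 400 401) (node 431 (merge (leaf 7 399 399) (leaf 7 431 463))))))))))) (node 593 (merge (leaf 4 496 625) (node 464 (merge (leaf 4 464 561) (node 433 (merge (leaf 6 432 465) (node 432 (merge (leaf 6 400 401) (node 527 (merge (leaf 5 431 559) (node 495 (merge (leaf 5 399 400) (leaf 7 495 624))))))))))))))))) (merge (node 623 (merge (node 655 (merge (leaf 5 527 624) (node 591 (merge (leaf 6 527 559) (leaf 6 559 687))))) (merge (node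 624 (merge (leaf 5 527 655) (node 625 (merge (leaf 4 528 657) (node 593 (merge (leaf 4 496 496) (node 622 (merge (leaf 2 590 594) (leaf 2 589 621))))))))) (node 496 (merge (leaf 5 495 591) (node 593 (merge (leaf 4 496 625) (node 464 (merge (leaf 4 464 561) (node 433 (merge (leaf 6 432 465) (node 432 (merge (leaf 6 400 401) (node 431 (merge (leaf 7 399 399) (leaf 7 431 463)))))))))))))))) (merge (node 496 (merge (node 623 (merge (leaf 5 495 591) (node 495 (merge (leaf 7 463 463) (node 624 (merge (leaf 7 495 527) (leaf 5 527 655))))))) (merge (node 463 (merge (leaf 7 463 495) (node 464 (merge (leaf 7 431 431) (node 561 (merge (leaf 4 464 593) (node 432 (merge (leaf 4 432 529) (node 433 (merge (leaf 6 400 401) (leaf 6 432 465))))))))))) (node 591 (merge (leaf 5 495 623) (node 464 (merge (leaf 5 463 559) (node 561 (merge (leaf 4 464 593) (node 432 (merge (leaf 4 432 529) (node 401 (merge (leaf 6 400 433) (node 400 (merge (leaf 6 368 369) (node 399 (merge (leaf 7 367 367) (leaf 7 399 431)))))))))))))))))) (merge (node 496 (merge (node 625 (merge (leaf 4 496 593) (node 624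 (merge (leaf 4 528 657) (node 495 (merge (leaf 7 463 463) (leaf 7 495 527))))))) (merge (node 593 (merge (leaf 4 496 625) (node 464 (merge (leaf 4 464 561) (node 433 (merge (leaf 6 432 465) (node 432 (merge (leaf 6 400 401) (node 431 (merge (leaf 7 399 399) (leaf 7 431 463))))))))))) (merge (node 593 (merge (leaf 4 496 625) (node 464 (merge (leaf 4 464 561) (node 433 (merge (leaf 6 432 465) (node 432 (merge (leaf 6 400 401) (node 527 (merge (leaf 5 431 559) (node 495 (merge (leaf 5 399 400) (leaf 7 495 624))))))))))))) (merge (node 495 (merge (leaf 7 463 463) (node 624 (merge (leaf 7 495 527) (node 657 (merge (leaf 4 528 625) (node 656 (merge (leaf 4 560 689) (node 655 (merge (leaf 5 527 623) (leaf 5 559 687))))))))))) (node 495 (merge (leaf 7 463 463) (node 624 (merge (leaf 7 495 527) (node 655 (merge (leaf 5 527 623) (node 656 (merge (leaf 5 559 687) (node 689 (merge (leaf 4 560 657) (node 688 (merge (leaf 4 592 721) (node 561 (merge (leaf 6 528 529) (leaf 6 560 593)))))))))))))))))))) (merge (node 591 (merge (node 623 (merge (leaf 5 495 496) (node 655 (merge (leaf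 6 527 559) (leaf 6 559 687))))) (merge (node 496 (merge (leaf 5 495 623) (node 593 (merge (leaf 4 496 625) (node 561 (merge (leaf 4 464 464) (node 590 (merge (leaf 2 558 562) (leaf 2 557 589))))))))) (merge (node 593 (merge (node 625 (merge (leaf 4 496 496) (node 657 (merge (leaf 7 528 561) (leaf 7 560 689))))) (merge (node 590 (merge (node 561 (merge (leaf 2 558 562) (leaf 2 557 589))) (node 626 (merge (leaf 0 590 625) (node 594 (merge (leaf 0 591 627) (node 558 (merge (leaf 3 557 557) (leaf 3 558 559))))))))) (merge (node 558 (merge (node 559 (merge (leaf 0 557 557) (leaf 3 558 594))) (merge (node 590 (merge (leaf 3 557 557) (node 561 (merge (leaf 2 558 562) (leaf 2 557 589))))) (node 594 (merge (leaf 3 558 559) (node 627 (merge (leaf 0 591 626) (node 595 (merge (leaf 0 592 628) (node 561 (merge (leaf 3 560 596) (node 590 (merge (leaf 2 558 562) (leaf 2 557 589)))))))))))))) (node 625 (merge (leaf 4 496 496) (node 590 (merge (leaf 0 590 626) (node 622 (merge (leaf 1 589 621) (node 558 (merge (leaf 3 557 557) (node 559 (merge (leaf 3 558 594) (node 654 (merge (leaf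 6 526 527) (leaf 6 558 686))))))))))))))))) (node 590 (merge (node 561 (merge (leaf 2 557 589) (node 593 (merge (leaf 2 558 562) (node 625 (merge (leaf 0 590 626) (leaf 7 528 657))))))) (merge (node 589 (merge (leaf 2 557 561) (node 588 (merge (leaf 2 556 559) (node 620 (merge (leaf 1 587 619) (leaf 1 588 621))))))) (merge (node 593 (merge (node 622 (merge (leaf 1 589 621) (node 594 (merge (leaf 1 590 623) (node 558 (merge (leaf 3 557 557) (leaf 3 558 559))))))) (merge (node 625 (merge (leaf 0 590 626) (node 561 (merge (leaf 2 558 562) (leaf 7 528 657))))) (node 622 (merge (leaf 1 589 621) (node 594 (merge (leaf 1 590 623) (node 627 (merge (leaf 0 591 626) (node 595 (merge (leaf 3 559 559) (leaf 0 592 628)))))))))))) (node 589 (merge (node 588 (merge (leaf 2 556 559) (node 620 (merge (leaf 1 587 619) (leaf 1 588 621))))) (merge (node 557 (merge (leaf 3 556 556) (node 593 (merge (leaf 3 557 558) (node 626 (merge (leaf 0 590 625) (node 594 (merge (leaf 0 591 627) (node 622 (merge (leaf 1 589 621) (leaf 1 590 623))))))))))) (node 559 (merge (leaf 2 556 588) (node 557 (merge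 (leaf 3 556 556) (node 593 (merge (leaf 0 557 558) (node 594 (merge (leaf 3 559 595) (node 623 (merge (leaf 1 590 622) (leaf 6 527 655)))))))))))))))))))))) (node 527 (merge (node 624 (merge (leaf 7 495 495) (node 656 (merge (leaf 7 527 559) (node 657 (merge (leaf 4 528 625) (leaf 4 560 689))))))) (merge (node 624 (merge (leaf 7 495 495) (node 657 (merge (leaf 4 528 625) (node 656 (merge (leaf 4 560 689) (node 655 (merge (leaf 5 527 623) (leaf 5 559 687))))))))) (merge (node 526 (merge (node 525 (merge (leaf 0 525 561) (node 524 (merge (leaf 0 524 559) (node 492 (merge (leaf 3 491 491) (leaf 3 492 493))))))) (merge (node 525 (merge (leaf 0 525 561) (node 559 (merge (leaf 0 524 524) (node 557 (merge (leaf 1 524 556) (node 558 (merge (leaf 2 525 529) (leaf 0 557 593))))))))) (merge (node 525 (merge (leaf 0 525 561) (node 557 (merge (leaf 1 524 556) (node 529 (merge (leaf 1 525 558) (node 493 (merge (leaf 3 492 492) (leaf 3 493 494))))))))) (merge (node 557 (merge (node 556 (merge (leaf 1 524 525) (node 558 (merge (leaf 1 525 529) (leaf 2 523 555))))) (merge (node 558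 (merge (leaf 1 525 529) (node 559 (merge (leaf 2 524 556) (leaf 0 557 593))))) (merge (node 525 (merge (leaf 1 524 556) (node 524 (merge (leaf 0 524 559) (node 492 (merge (leaf 3 491 491) (leaf 3 492 493))))))) (node 558 (merge (leaf 1 525 529) (node 559 (merge (leaf 0 557 593) (node 525 (merge (leaf 0 524 524) (node 493 (merge (leaf 3 492 492) (node 590 (merge (leaf 4 461 461) (leaf 7 493 622))))))))))))))) (node 529 (merge (node 558 (merge (leaf 1 525 557) (node 559 (merge (leaf 1 526 530) (node 494 (merge (leaf 3 493 493) (node 591 (merge (leaf 4 462 462) (leaf 7 494 623))))))))) (merge (node 561 (merge (leaf 0 526 562) (node 558 (merge (leaf 1 525 557) (node 530 (merge (leaf 1 526 559) (node 531 (merge (leaf 1 528 532) (node 499 (merge (leaf 2 495 498) (leaf 2 496 500))))))))))) (merge (node 561 (merge (leaf 0 526 562) (node 494 (merge (leaf 3 493 493) (node 624 (merge (leaf 6 528 656) (node 625 (merge (leaf 4 528 657) (node 623 (merge (leaf 5 527 655) (node 591 (merge (leaf 7 494 559) (node 590 (merge (leaf 0 589 589) (leaf 3 590 626))))))))))))))) (node 561 (merge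 (leaf 0 526 562) (node 558 (merge (leaf 1 525 557) (node 494 (merge (leaf 3 493 493) (node 624 (merge (leaf 6 528 656) (node 625 (merge (leaf 4 528 657) (node 623 (merge (leaf 5 527 655) (node 590 (merge (leaf 4 494 591) (node 589 (merge (leaf 5 493 621) (leaf 3 589 622)))))))))))))))))))))))))) (node 526 (merge (node 525 (merge (leaf 0 525 561) (node 524 (merge (leaf 0 524 559) (node 492 (merge (leaf 3 491 491) (leaf 3 492 493))))))) (merge (node 525 (merge (leaf 0 525 561) (node 559 (merge (leaf 0 524 524) (node 557 (merge (leaf 1 524 556) (node 558 (merge (leaf 2 525 529) (leaf 0 557 593))))))))) (merge (node 525 (merge (leaf 0 525 561) (node 557 (merge (leaf 1 524 556) (node 529 (merge (leaf 1 525 558) (node 493 (merge (leaf 3 492 492) (leaf 3 493 494))))))))) (merge (node 557 (merge (node 556 (merge (leaf 1 524 525) (node 558 (merge (leaf 1 525 529) (leaf 2 523 555))))) (merge (node 558 (merge (leaf 1 525 529) (node 559 (merge (leaf 2 524 556) (leaf 0 557 593))))) (merge (node 525 (merge (leaf 1 524 556) (node 524 (merge (leaf 0 524 559) (node 492 (merge (leaf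 3 491 491) (leaf 3 492 493))))))) (node 558 (merge (leaf 1 525 529) (node 559 (merge (leaf 0 557 593) (node 525 (merge (leaf 0 524 524) (node 589 (merge (leaf 1 556 588) (node 493 (merge (leaf 3 492 492) (node 622 (merge (leaf 4 493 590) (node 621 (merge (leaf 6 525 653) (leaf 4 525 654))))))))))))))))))) (node 558 (merge (node 557 (merge (leaf 1 525 529) (node 556 (merge (leaf 2 523 555) (leaf 2 524 559))))) (merge (node 529 (merge (leaf 1 525 557) (node 561 (merge (leaf 0 526 562) (node 494 (merge (leaf 3 493 493) (node 530 (merge (leaf 3 494 495) (node 531 (merge (leaf 1 528 532) (node 499 (merge (leaf 2 495 498) (leaf 2 496 500))))))))))))) (merge (node 559 (merge (node 557 (merge (leaf 2 524 556) (leaf 0 557 593))) (merge (node 561 (merge (leaf 3 526 562) (node 590 (merge (leaf 1 557 589) (node 495 (merge (leaf 4 463 463) (leaf 6 494 622))))))) (node 557 (merge (leaf 2 524 556) (node 589 (merge (leaf 1 556 588) (node 494 (merge (leaf 5 461 462) (node 621 (merge (leaf 5 493 590) (leaf 6 525 653)))))))))))) (node 559 (merge (node 529 (merge (leaf 1 526 530) (node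 494 (merge (leaf 3 493 493) (node 591 (merge (leaf 4 462 462) (leaf 7 494 623))))))) (merge (node 561 (merge (leaf 3 526 562) (node 590 (merge (leaf 1 557 589) (node 495 (merge (leaf 4 463 463) (leaf 6 494 622))))))) (merge (node 529 (merge (leaf 1 526 530) (node 494 (merge (leaf 3 493 493) (node 462 (merge (leaf 4 430 430) (leaf 4 462 591))))))) (node 529 (merge (leaf 1 526 530) (node 494 (merge (leaf 3 493 493) (node 462 (merge (leaf 4 430 430) (node 463 (merge (leaf 6 430 431) (leaf 4 463 495)))))))))))))))))))))))))))))))))) nD_5 cD_5 13 (by decide +kernel)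
def nD_6 : ℕ := 0x100000001000000000000000000000000000000000000000000000000000000000000000000000000000000000000000000000000000000000000000000000000000000000000
def cD_6 : ℕ := 0x280000003c0000003e000001ff800001ff0000006f000001ef000001ff8000001c0000003c00000038000000280000000000000000000000000000000000000000000000000000000000000000000000000000000000000000000
theorem lD_6 : S nD_6 cD_6 12 := S_of_chk [] trivial (node 592 (merge (node 624 (merge (node 657 (merge (leaf 4 528 625) (node 529 (merge (leaf 6 496 497) (node 656 (merge (leaf 6 528 561) (leaf 4 560 689))))))) (merge (node 657 (merge (leaf 4 528 625) (node 656 (merge (leaf 4 560 689) (node 655 (merge (leaf 5 527 623) (leaf 5 559 687))))))) (merge (node 529 (merge (leaf 6 496 497) (node 656 (merge (leaf 6 528 561) (node 655 (merge (leaf 5 527 623) (leaf 5 559 687))))))) (node 625 (merge (leaf 4 528 657) (node 623 (merge (leaf 5 527 655) (node 591 (merge (leaf 5 495 496) (node 626 (merge (leaf 3 590 590) (leaf 3 591 627))))))))))))) (merge (node 496 (merge (node 593 (merge (leaf 4 496 625) (node 464 (merge (leaf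 4 464 561) (node 463 (merge (leaf 7 431 431) (leaf 7 463 495))))))) (merge (node 623 (merge (leaf 5 495 591) (node 495 (merge (leaf 7 463 463) (node 624 (merge (leaf 7 495 527) (leaf 5 527 655))))))) (node 593 (merge (leaf 4 496 625) (node 464 (merge (leaf 4 464 561) (node 591 (merge (leaf 5 463 559) (leaf 5 495 623)))))))))) (merge (node 625 (merge (node 657 (merge (leaf 4 528 624) (node 593 (merge (leaf 7 528 561) (leaf 7 560 689))))) (merge (node 496 (merge (leaf 4 496 593) (node 591 (merge (leaf 5 495 623) (node 464 (merge (leaf 5 463 559) (node 463 (merge (leaf 7 431 431) (leaf 7 463 495))))))))) (node 624 (merge (leaf 4 528 657) (node 495 (merge (leaf 7 495 527) (node 496 (merge (leaf 7 463 463) (node 591 (merge (leaf 5 495 623) (node 590 (merge (leaf 0 589 589) (node 559 (merge (leaf 5 463 464) (node 656 (merge (leaf 7 559 688) (node 561 (merge (leaf 6 528 529) (leaf 1 558 562)))))))))))))))))))) (merge (node 624 (merge (node 657 (merge (leaf 4 528 625) (node 656 (merge (leaf 4 560 689) (node 527 (merge (leaf 7 495 495) (leaf 7 527 559))))))) (merge (node 655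 (merge (leaf 5 527 623) (node 656 (merge (leaf 5 559 687) (node 527 (merge (leaf 7 495 495) (leaf 7 527 559))))))) (node 625 (merge (leaf 4 528 657) (node 593 (merge (leaf 4 496 496) (node 623 (merge (leaf 5 527 655) (node 622 (merge (leaf 2 590 594) (leaf 2 589 621)))))))))))) (merge (node 496 (merge (node 593 (merge (leaf 4 496 625) (node 464 (merge (leaf 4 464 561) (node 463 (merge (leaf 7 431 431) (leaf 7 463 495))))))) (merge (node 625 (merge (leaf 4 496 593) (node 624 (merge (leaf 4 528 657) (node 495 (merge (leaf 7 463 463) (leaf 7 495 527))))))) (merge (node 593 (merge (leaf 4 496 625) (node 464 (merge (leaf 4 464 561) (node 559 (merge (leaf 5 463 591) (node 432 (merge (leaf 5 431 527) (node 401 (merge (leaf 6 400 433) (node 400 (merge (leaf 6 368 369) (node 399 (merge (leaf 7 367 367) (leaf 7 399 431))))))))))))))) (node 495 (merge (leaf 7 463 463) (node 624 (merge (leaf 7 495 527) (node 529 (merge (leaf 6 496 497) (node 656 (merge (leaf 6 528 561) (node 689 (merge (leaf 4 560 657) (node 688 (merge (leaf 4 592 721) (node 687 (merge (leaf 5 559 655) (leaf 5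 591 719))))))))))))))))))) (merge (node 591 (merge (node 623 (merge (leaf 5 495 496) (node 655 (merge (leaf 5 527 624) (leaf 6 559 687))))) (merge (node 623 (merge (leaf 5 495 496) (node 655 (merge (leaf 6 527 559) (leaf 6 559 687))))) (merge (node 496 (merge (leaf 5 495 623) (node 495 (merge (leaf 7 463 463) (node 624 (merge (leaf 7 495 527) (node 529 (merge (leaf 6 496 497) (node 656 (merge (leaf 6 528 561) (node 688 (merge (leaf 7 559 559) (node 689 (merge (leaf 4 560 657) (leaf 4 592 721))))))))))))))) (merge (node 495 (merge (node 463 (merge (leaf 7 463 496) (node 527 (merge (leaf 4 431 431) (leaf 7 495 624))))) (merge (node 624 (merge (leaf 7 495 527) (node 529 (merge (leaf 6 496 497) (node 656 (merge (leaf 6 528 561) (node 688 (merge (leaf 7 559 559) (node 687 (merge (leaf 5 559 655) (leaf 5 591 719))))))))))) (node 496 (merge (leaf 7 463 463) (node 464 (merge (leaf 5 463 559) (node 561 (merge (leaf 4 464 593) (node 432 (merge (leaf 4 432 529) (node 401 (merge (leaf 6 400 433) (node 400 (merge (leaf 6 368 369) (node 399 (merge (leaf 7 367 367) (leaf 7 399 431))))))))))))))))))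 (node 561 (merge (node 590 (merge (leaf 2 557 589) (node 562 (merge (leaf 1 558 559) (leaf 2 558 593))))) (merge (node 527 (merge (node 495 (merge (leaf 7 495 624) (node 463 (merge (leaf 4 431 431) (leaf 4 463 559))))) (merge (node 526 (merge (leaf 0 525 525) (node 562 (merge (leaf 0 526 529) (leaf 3 526 559))))) (node 624 (merge (leaf 7 495 495) (node 529 (merge (leaf 6 496 497) (node 656 (merge (leaf 6 528 561) (node 655 (merge (leaf 5 527 623) (leaf 5 559 687)))))))))))) (merge (node 590 (merge (leaf 2 557 589) (node 593 (merge (leaf 2 558 562) (node 622 (merge (leaf 1 589 621) (node 594 (merge (leaf 1 590 623) (node 627 (merge (leaf 0 591 626) (node 595 (merge (leaf 3 560 596) (leaf 0 592 628))))))))))))) (node 593 (merge (node 590 (merge (leaf 2 557 589) (node 558 (merge (leaf 3 557 557) (node 594 (merge (leaf 0 558 559) (node 627 (merge (leaf 0 591 626) (node 595 (merge (leaf 3 560 596) (leaf 0 592 628))))))))))) (merge (node 623 (merge (node 655 (merge (leaf 5 527 624) (leaf 6 559 687))) (node 594 (merge (leaf 1 590 622) (node 627 (merge (leaf 0 591 626) (node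 595 (merge (leaf 3 559 559) (leaf 0 592 628))))))))) (merge (node 590 (merge (leaf 2 557 589) (node 622 (merge (leaf 1 589 621) (node 594 (merge (leaf 1 590 623) (node 627 (merge (leaf 0 591 626) (node 595 (merge (leaf 3 560 596) (leaf 0 592 628))))))))))) (node 624 (merge (node 656 (merge (leaf 6 528 529) (leaf 6 560 688))) (merge (node 655 (merge (leaf 5 527 623) (node 656 (merge (leaf 5 559 687) (node 527 (merge (leaf 7 495 495) (leaf 7 527 559))))))) (merge (node 529 (merge (leaf 5 496 497) (leaf 6 528 656))) (node 529 (merge (leaf 5 496 497) (node 623 (merge (leaf 5 527 655) (node 622 (merge (leaf 2 589 621) (node 527 (merge (leaf 7 495 495) (node 559 (merge (leaf 5 526 654) (node 558 (merge (leaf 1 526 530) (leaf 0 557 557)))))))))))))))))))))))))))))) (merge (node 591 (merge (node 623 (merge (leaf 5 495 496) (node 655 (merge (leaf 6 527 559) (leaf 6 559 687))))) (merge (node 496 (merge (leaf 5 495 623) (node 593 (merge (leaf 4 496 625) (node 561 (merge (leaf 4 464 464) (node 590 (merge (leaf 2 558 562) (leaf 2 557 589))))))))) (merge (node 593 (merge (node 625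 (merge (leaf 4 496 496) (node 657 (merge (leaf 7 528 561) (leaf 7 560 689))))) (merge (node 590 (merge (node 561 (merge (leaf 2 558 562) (leaf 2 557 589))) (node 626 (merge (leaf 0 590 625) (node 594 (merge (leaf 0 591 627) (node 558 (merge (leaf 3 557 557) (leaf 3 558 559))))))))) (merge (node 558 (merge (node 559 (merge (leaf 0 557 557) (leaf 3 558 594))) (merge (node 590 (merge (leaf 3 557 557) (node 561 (merge (leaf 2 558 562) (leaf 2 557 589))))) (node 594 (merge (leaf 3 558 559) (node 627 (merge (leaf 0 591 626) (node 595 (merge (leaf 0 592 628) (node 561 (merge (leaf 3 560 596) (node 590 (merge (leaf 2 558 562) (leaf 2 557 589)))))))))))))) (node 625 (merge (leaf 4 496 496) (node 590 (merge (leaf 0 590 626) (node 622 (merge (leaf 1 589 621) (node 558 (merge (leaf 3 557 557) (node 559 (merge (leaf 3 558 594) (node 654 (merge (leaf 6 526 527) (leaf 6 558 686))))))))))))))))) (node 590 (merge (node 561 (merge (leaf 2 557 589) (node 593 (merge (leaf 2 558 562) (node 625 (merge (leaf 0 590 626) (leaf 7 528 657))))))) (merge (node 589 (merge (leaf 2 557 561) (node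 588 (merge (leaf 2 556 559) (node 620 (merge (leaf 1 587 619) (leaf 1 588 621))))))) (merge (node 593 (merge (node 622 (merge (leaf 1 589 621) (node 594 (merge (leaf 1 590 623) (node 558 (merge (leaf 3 557 557) (leaf 3 558 559))))))) (merge (node 625 (merge (leaf 0 590 626) (node 561 (merge (leaf 2 558 562) (leaf 7 528 657))))) (node 622 (merge (leaf 1 589 621) (node 594 (merge (leaf 1 590 623) (node 627 (merge (leaf 0 591 626) (node 595 (merge (leaf 3 559 559) (leaf 0 592 628)))))))))))) (node 589 (merge (node 588 (merge (leaf 2 556 559) (node 620 (merge (leaf 1 587 619) (leaf 1 588 621))))) (merge (node 557 (merge (leaf 3 556 556) (node 593 (merge (leaf 3 557 558) (node 626 (merge (leaf 0 590 625) (node 594 (merge (leaf 0 591 627) (node 622 (merge (leaf 1 589 621) (leaf 1 590 623))))))))))) (node 559 (merge (leaf 2 556 588) (node 557 (merge (leaf 3 556 556) (node 593 (merge (leaf 0 557 558) (node 594 (merge (leaf 3 559 595) (node 623 (merge (leaf 1 590 622) (leaf 6 527 655)))))))))))))))))))))) (node 527 (merge (node 624 (merge (leaf 7 495 495) (node 656 (merge (leaf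 7 527 559) (node 657 (merge (leaf 4 528 625) (leaf 4 560 689))))))) (merge (node 624 (merge (leaf 7 495 495) (node 657 (merge (leaf 4 528 625) (node 656 (merge (leaf 4 560 689) (node 655 (merge (leaf 5 527 623) (leaf 5 559 687))))))))) (merge (node 529 (merge (node 624 (merge (leaf 6 496 497) (node 657 (merge (leaf 4 528 625) (node 656 (merge (leaf 4 560 689) (node 655 (merge (leaf 5 527 623) (leaf 5 559 687))))))))) (node 558 (merge (node 559 (merge (leaf 1 526 530) (leaf 2 525 557))) (merge (node 526 (merge (leaf 1 525 557) (node 561 (merge (leaf 0 525 525) (leaf 0 526 562))))) (node 530 (merge (leaf 1 526 559) (node 499 (merge (leaf 2 495 498) (node 531 (merge (leaf 2 496 500) (node 561 (merge (leaf 1 528 532) (node 526 (merge (leaf 0 525 525) (leaf 0 526 562)))))))))))))))) (node 526 (merge (node 525 (merge (leaf 0 525 561) (node 524 (merge (leaf 0 524 559) (node 492 (merge (leaf 3 491 491) (leaf 3 492 493))))))) (merge (node 525 (merge (leaf 0 525 561) (node 559 (merge (leaf 0 524 524) (node 557 (merge (leaf 1 524 556) (node 558 (merge (leaf 2 525 529) (leaf 0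 557 593))))))))) (merge (node 525 (merge (leaf 0 525 561) (node 557 (merge (leaf 1 524 556) (node 529 (merge (leaf 1 525 558) (node 493 (merge (leaf 3 492 492) (leaf 3 493 494))))))))) (merge (node 557 (merge (node 558 (merge (leaf 1 525 529) (node 559 (merge (leaf 2 524 556) (leaf 0 557 593))))) (merge (node 525 (merge (leaf 1 524 556) (node 524 (merge (leaf 0 524 559) (node 492 (merge (leaf 3 491 491) (leaf 3 492 493))))))) (node 529 (merge (leaf 1 525 558) (node 498 (merge (leaf 2 494 497) (node 530 (merge (leaf 2 495 499) (node 494 (merge (leaf 3 493 493) (leaf 3 494 495)))))))))))) (node 558 (merge (node 529 (merge (leaf 1 525 557) (node 498 (merge (leaf 2 494 497) (node 530 (merge (leaf 2 495 499) (leaf 1 526 559))))))) (merge (node 529 (merge (leaf 1 525 557) (node 498 (merge (leaf 2 494 497) (node 530 (merge (leaf 2 495 499) (node 494 (merge (leaf 3 493 493) (leaf 3 494 495))))))))) (merge (node 559 (merge (node 557 (merge (leaf 2 524 556) (leaf 0 557 593))) (merge (node 561 (merge (leaf 3 526 562) (node 590 (merge (leaf 1 557 589) (node 495 (merge (leaf 4 463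 463) (leaf 6 494 622))))))) (node 557 (merge (leaf 2 524 556) (node 589 (merge (leaf 1 556 588) (node 494 (merge (leaf 5 461 462) (node 621 (merge (leaf 5 493 590) (leaf 6 525 653)))))))))))) (node 559 (merge (node 529 (merge (leaf 1 526 530) (node 494 (merge (leaf 3 493 493) (node 591 (merge (leaf 4 462 462) (leaf 7 494 623))))))) (merge (node 561 (merge (leaf 3 526 562) (node 590 (merge (leaf 1 557 589) (node 495 (merge (leaf 4 463 463) (leaf 6 494 622))))))) (merge (node 529 (merge (leaf 1 526 530) (node 494 (merge (leaf 3 493 493) (node 462 (merge (leaf 4 430 430) (leaf 4 462 591))))))) (node 529 (merge (leaf 1 526 530) (node 494 (merge (leaf 3 493 493) (node 462 (merge (leaf 4 430 430) (node 463 (merge (leaf 6 430 431) (leaf 4 463 495)))))))))))))))))))))))))))))))))) nD_6 cD_6 12 (by decide +kernel)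
def nD_7 : ℕ := 0x100000001000000000000000000000000000000000000000000000000000000000000000000000000000000000000000000000000000000000000000000000000000000000000
def cD_7 : ℕ := 0x20000000380000003800000018000000f8000000fe0000006f000001ee000001fe0000007e0000003c0000002c000000000000000000000000000000000000000000000000000000000000000000000000000000000000000000000000000
theorem lD_7 : S nD_7 cD_7 12 := S_of_chk [] trivial (node 592 (merge (node 496 (merge (node 593 (merge (leaf 4 496 625) (node 464 (merge (leaf 4 464 561) (node 463 (merge (leaf 7 431 431) (leaf 7 463 495))))))) (merge (node 623 (merge (leaf 5 495 591) (node 495 (merge (leaf 7 463 463) (node 624 (merge (leaf 7 495 527) (leaf 5 527 655))))))) (node 593 (merge (leaf 4 496 625) (node 464 (merge (leaf 4 464 561) (node 591 (merge (leaf 5 463 559) (leaf 5 495 623)))))))))) (merge (node 496 (merge (node 465 (merge (leaf 6 464 497) (node 464 (merge (leaf 6 432 433) (node 591 (merge (leaf 5 463 559) (leaf 5 495 623))))))) (merge (node 623 (merge (leaf 5 495 591) (node 495 (merge (leaf 7 463 463) (node 624 (merge (leaf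 7 495 527) (leaf 5 527 655))))))) (node 465 (merge (leaf 6 464 497) (node 464 (merge (leaf 6 432 433) (node 463 (merge (leaf 7 431 431) (leaf 7 463 495)))))))))) (merge (node 623 (merge (node 655 (merge (leaf 5 527 624) (node 591 (merge (leaf 6 527 559) (leaf 6 559 687))))) (merge (node 496 (merge (leaf 5 495 591) (node 465 (merge (leaf 6 464 497) (node 464 (merge (leaf 6 432 433) (node 463 (merge (leaf 7 431 431) (leaf 7 463 495))))))))) (node 624 (merge (leaf 5 527 655) (node 497 (merge (leaf 6 496 529) (node 496 (merge (leaf 6 464 465) (node 593 (merge (leaf 4 496 625) (node 464 (merge (leaf 4 464 561) (node 463 (merge (leaf 7 431 431) (leaf 7 463 495)))))))))))))))) (merge (node 624 (merge (node 529 (merge (leaf 6 496 497) (node 656 (merge (leaf 6 528 561) (node 655 (merge (leaf 5 527 623) (leaf 5 559 687))))))) (merge (node 529 (merge (leaf 6 496 497) (node 561 (merge (leaf 6 528 656) (node 527 (merge (leaf 7 495 495) (node 526 (merge (leaf 0 525 525) (leaf 0 526 562))))))))) (merge (node 623 (merge (leaf 5 527 655) (node 496 (merge (leaf 5 495 591) (node 465 (merge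 (leaf 6 464 497) (node 464 (merge (leaf 6 432 433) (node 463 (merge (leaf 7 431 431) (leaf 7 463 495))))))))))) (node 623 (merge (leaf 5 527 655) (node 496 (merge (leaf 5 495 591) (node 463 (merge (leaf 7 463 495) (node 464 (merge (leaf 7 431 431) (node 561 (merge (leaf 4 464 593) (node 529 (merge (leaf 4 432 432) (leaf 6 528 656))))))))))))))))) (merge (node 497 (merge (node 465 (merge (leaf 6 464 496) (node 529 (merge (leaf 5 432 433) (leaf 5 464 561))))) (merge (node 624 (merge (leaf 6 496 529) (node 655 (merge (leaf 5 527 623) (node 656 (merge (leaf 5 559 687) (node 527 (merge (leaf 7 495 495) (leaf 7 527 559))))))))) (node 496 (merge (leaf 6 464 465) (node 623 (merge (leaf 5 495 591) (node 624 (merge (leaf 5 527 655) (node 527 (merge (leaf 7 495 495) (node 559 (merge (leaf 7 527 656) (node 526 (merge (leaf 2 493 525) (node 561 (merge (leaf 3 526 562) (node 464 (merge (leaf 5 431 432) (leaf 4 464 593)))))))))))))))))))) (merge (node 497 (merge (node 465 (merge (leaf 6 464 496) (node 529 (merge (leaf 5 432 433) (leaf 5 464 561))))) (merge (node 496 (merge (leaf 6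 464 465) (node 495 (merge (leaf 7 463 463) (node 527 (merge (leaf 7 495 624) (node 526 (merge (leaf 1 494 498) (leaf 2 493 525))))))))) (node 624 (merge (leaf 6 496 529) (node 527 (merge (leaf 7 495 495) (node 656 (merge (leaf 7 527 559) (node 687 (merge (leaf 5 559 655) (node 688 (merge (leaf 5 591 719) (node 721 (merge (leaf 4 592 689) (node 720 (merge (leaf 4 624 753) (node 593 (merge (leaf 6 560 561) (leaf 6 592 625)))))))))))))))))))) (merge (node 623 (merge (node 655 (merge (leaf 5 527 624) (node 591 (merge (leaf 6 527 559) (leaf 6 559 687))))) (merge (node 496 (merge (leaf 5 495 591) (node 593 (merge (leaf 4 496 625) (node 464 (merge (leaf 4 464 561) (node 433 (merge (leaf 6 432 465) (node 432 (merge (leaf 6 400 401) (node 431 (merge (leaf 7 399 399) (leaf 7 431 463))))))))))))) (node 624 (merge (leaf 5 527 655) (node 497 (merge (leaf 6 496 529) (node 496 (merge (leaf 6 464 465) (node 593 (merge (leaf 4 496 625) (node 594 (merge (leaf 1 591 595) (node 561 (merge (leaf 4 464 464) (node 559 (merge (leaf 0 558 558) (node 656 (merge (leaf 7 527 527) (leaf 6 560 688))))))))))))))))))))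 (merge (node 559 (merge (node 496 (merge (node 591 (merge (leaf 5 463 464) (leaf 5 495 623))) (merge (node 593 (merge (leaf 4 496 625) (node 464 (merge (leaf 4 464 561) (node 463 (merge (leaf 7 431 431) (leaf 7 463 495))))))) (node 593 (merge (leaf 4 496 625) (node 558 (merge (leaf 0 557 557) (node 591 (merge (leaf 3 558 594) (leaf 5 495 623)))))))))) (merge (node 496 (merge (node 465 (merge (leaf 6 464 497) (node 464 (merge (leaf 6 432 433) (node 463 (merge (leaf 7 431 431) (leaf 7 463 495))))))) (node 593 (merge (leaf 4 496 625) (node 594 (merge (leaf 3 559 595) (node 591 (merge (leaf 3 558 558) (leaf 5 495 623))))))))) (merge (node 593 (merge (node 558 (merge (leaf 0 557 557) (node 594 (merge (leaf 0 558 561) (leaf 3 559 595))))) (node 496 (merge (leaf 4 496 625) (node 465 (merge (leaf 6 464 497) (node 464 (merge (leaf 6 432 433) (node 463 (merge (leaf 7 431 431) (leaf 7 463 495))))))))))) (merge (node 558 (merge (node 557 (merge (leaf 2 525 529) (leaf 0 557 593))) (merge (node 557 (merge (leaf 0 557 593) (node 556 (merge (leaf 2 524 527) (leaf 0 556 591))))) (merge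 (node 529 (merge (leaf 2 525 557) (node 530 (merge (leaf 1 526 527) (leaf 1 527 531))))) (node 561 (merge (node 594 (merge (leaf 0 558 593) (node 562 (merge (leaf 0 559 595) (node 526 (merge (leaf 3 525 525) (leaf 3 526 527))))))) (merge (node 594 (merge (leaf 0 558 593) (node 562 (merge (leaf 0 559 595) (node 530 (merge (leaf 2 526 529) (leaf 2 527 531))))))) (node 529 (merge (leaf 2 526 530) (node 526 (merge (leaf 3 525 525) (node 497 (merge (leaf 5 464 465) (node 527 (merge (leaf 2 494 498) (node 494 (merge (leaf 3 493 493) (node 462 (merge (leaf 4 430 430) (leaf 4 462 591)))))))))))))))))))) (merge (node 529 (merge (node 558 (merge (leaf 2 525 557) (node 530 (merge (leaf 1 527 531) (leaf 2 526 561))))) (node 496 (merge (node 591 (merge (leaf 5 463 464) (leaf 5 495 623))) (node 497 (merge (leaf 6 464 465) (node 495 (merge (leaf 7 463 463) (node 494 (merge (leaf 0 493 493) (node 526 (merge (leaf 1 493 525) (node 527 (merge (leaf 1 494 498) (node 462 (merge (leaf 3 461 461) (node 430 (merge (leaf 4 398 398) (leaf 4 430 559))))))))))))))))))) (node 496 (merge (node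 591 (merge (leaf 5 463 464) (node 623 (merge (leaf 6 495 527) (leaf 6 527 655))))) (merge (node 593 (merge (leaf 4 496 625) (node 464 (merge (leaf 4 464 561) (node 465 (merge (leaf 6 432 433) (leaf 6 464 497))))))) (node 593 (merge (leaf 4 496 625) (node 594 (merge (leaf 3 559 595) (node 591 (merge (leaf 5 495 623) (node 626 (merge (leaf 0 591 627) (node 497 (merge (leaf 6 464 465) (node 529 (merge (leaf 4 497 561) (node 530 (merge (leaf 1 527 531) (leaf 7 497 562)))))))))))))))))))))))) (merge (node 529 (merge (node 497 (merge (leaf 6 496 624) (node 465 (merge (leaf 5 432 433) (leaf 5 464 561))))) (merge (node 624 (merge (leaf 6 496 497) (node 655 (merge (leaf 5 527 623) (node 656 (merge (leaf 5 559 687) (node 527 (merge (leaf 7 495 495) (leaf 7 527 559))))))))) (merge (node 527 (merge (node 495 (merge (leaf 7 495 624) (node 463 (merge (leaf 4 431 431) (leaf 4 463 559))))) (merge (node 624 (merge (leaf 7 495 495) (node 656 (merge (leaf 6 528 561) (node 655 (merge (leaf 5 527 623) (leaf 5 559 687))))))) (node 558 (merge (node 559 (merge (leaf 1 526 530) (leaf 2 525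 557))) (merge (node 526 (merge (leaf 1 525 557) (node 561 (merge (leaf 0 525 525) (leaf 0 526 562))))) (node 530 (merge (leaf 1 526 559) (node 499 (merge (leaf 2 495 498) (node 531 (merge (leaf 2 496 500) (node 561 (merge (leaf 1 528 532) (node 526 (merge (leaf 0 525 525) (leaf 0 526 562))))))))))))))))) (node 559 (merge (node 558 (merge (leaf 2 525 557) (node 530 (merge (leaf 1 527 531) (leaf 2 526 561))))) (merge (node 558 (merge (leaf 2 525 557) (node 530 (merge (leaf 1 526 527) (leaf 1 527 531))))) (merge (node 527 (merge (node 495 (merge (leaf 4 463 463) (node 530 (merge (leaf 3 494 494) (leaf 1 527 531))))) (merge (node 530 (merge (leaf 1 527 531) (node 498 (merge (leaf 2 495 499) (node 526 (merge (leaf 2 494 497) (node 561 (merge (leaf 0 525 525) (leaf 0 526 562))))))))) (node 497 (merge (node 465 (merge (leaf 5 432 433) (leaf 5 464 561))) (merge (node 526 (merge (leaf 2 494 498) (node 561 (merge (leaf 0 525 525) (leaf 0 526 562))))) (node 498 (merge (leaf 2 494 526) (node 499 (merge (leaf 1 496 500) (node 463 (merge (leaf 4 463 495) (node 465 (merge (leaf 5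 432 433) (node 464 (merge (leaf 0 462 462) (leaf 0 463 466))))))))))))))))) (node 558 (merge (leaf 2 525 557) (node 561 (merge (node 590 (merge (leaf 1 557 589) (node 562 (merge (leaf 1 558 591) (node 526 (merge (leaf 3 525 525) (leaf 0 526 527))))))) (merge (node 594 (merge (leaf 0 558 593) (node 562 (merge (leaf 0 559 595) (node 526 (merge (leaf 3 525 525) (leaf 0 526 527))))))) (merge (node 594 (merge (leaf 0 558 593) (node 562 (merge (leaf 0 559 595) (node 590 (merge (leaf 1 557 589) (leaf 1 558 591))))))) (node 526 (merge (leaf 3 525 525) (node 497 (merge (leaf 5 464 465) (node 527 (merge (leaf 2 494 498) (node 494 (merge (leaf 3 493 493) (node 462 (merge (leaf 4 430 430) (leaf 4 462 591))))))))))))))))))))))))) (node 529 (merge (node 497 (merge (leaf 6 496 624) (node 465 (merge (leaf 5 432 433) (leaf 5 464 561))))) (merge (node 624 (merge (leaf 6 496 497) (node 527 (merge (leaf 7 495 495) (node 559 (merge (leaf 7 527 656) (node 558 (merge (leaf 1 526 530) (leaf 2 525 557))))))))) (merge (node 527 (merge (node 495 (merge (leaf 7 495 624) (node 463 (merge (leaf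 4 431 431) (leaf 4 463 559))))) (merge (node 558 (merge (node 559 (merge (leaf 1 526 530) (leaf 2 525 557))) (merge (node 526 (merge (leaf 1 525 557) (node 561 (merge (leaf 0 525 525) (leaf 0 526 562))))) (node 530 (merge (leaf 1 526 559) (node 499 (merge (leaf 2 495 498) (node 531 (merge (leaf 2 496 500) (node 561 (merge (leaf 1 528 532) (node 526 (merge (leaf 0 525 525) (leaf 0 526 562)))))))))))))) (node 526 (merge (node 561 (merge (leaf 0 525 525) (leaf 0 526 562))) (merge (node 561 (merge (leaf 0 525 525) (leaf 0 526 562))) (node 558 (merge (leaf 1 525 557) (node 494 (merge (leaf 3 493 493) (node 495 (merge (leaf 3 494 530) (node 463 (merge (leaf 4 431 431) (leaf 6 462 590))))))))))))))) (node 496 (merge (node 465 (merge (leaf 6 464 497) (node 464 (merge (leaf 6 432 433) (node 591 (merge (leaf 5 463 559) (leaf 5 495 623))))))) (merge (node 465 (merge (leaf 6 464 497) (node 464 (merge (leaf 6 432 433) (node 463 (merge (leaf 7 431 431) (leaf 7 463 495))))))) (merge (node 591 (merge (leaf 5 495 623) (node 464 (merge (leaf 5 463 559) (node 463 (merge (leaf 7 431 431)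 (leaf 7 463 495))))))) (node 497 (merge (leaf 6 464 465) (node 495 (merge (leaf 7 463 463) (node 494 (merge (leaf 0 493 493) (leaf 0 494 530))))))))))))))))))))))))) nD_7 cD_7 12 (by decide +kernel)
def nD_8 : ℕ := 0x10000000100000001000000000000000000000000000000000000000000000000000000000000000000000000000000000000000000000000000000000000000000000000000000000000
def cD_8 : ℕ := 0x400000024000000e7000000ef8000006f000000ef800001ff0000007e0000003c0000003c000000080000000000000000000000000000000000000000000000000000000000000000000000000000000000000000000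
theorem lD_8 : S nD_8 cD_8 12 := S_of_chk [] trivial (node 559 (merge (node 593 (merge (node 558 (merge (leaf 0 557 557) (node 594 (merge (leaf 0 558 561) (leaf 3 559 595))))) (node 496 (merge (leaf 4 496 625) (node 465 (merge (leaf 6 464 497) (node 464 (merge (leaf 6 432 433) (node 463 (merge (leaf 7 431 431) (leaf 7 463 495))))))))))) (merge (node 558 (merge (node 557 (merge (leaf 2 525 529) (leaf 0 557 593))) (merge (node 529 (merge (leaf 2 525 557) (node 530 (merge (leaf 1 526 527) (leaf 1 527 531))))) (merge (node 557 (merge (leaf 0 557 593) (node 588 (merge (leaf 1 556 589) (node 556 (merge (leaf 2 524 527) (leaf 1 555 587))))))) (node 561 (merge (node 530 (merge (leaf 2 526 529) (node 562 (merge (leaf 2 527 531) (node 526 (merge (leaf 3 525 525) (leaf 3 526 527))))))) (merge (node 593 (merge (leaf 0 558 594) (node 625 (merge (leaf 7 528 657) (node 529 (merge (leaf 7 496 496) (leaf 2 526 530))))))) (node 593 (merge (leaf 0 558 594) (node 625 (merge (leaf 4 496 496) (leaf 7 528 657)))))))))))) (merge (node 558 (merge (node 529 (merge (leaf 2 525 557) (node 530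 (merge (leaf 1 526 527) (leaf 1 527 531))))) (merge (node 557 (merge (leaf 2 525 529) (node 588 (merge (leaf 1 556 589) (node 556 (merge (leaf 1 555 587) (node 524 (merge (leaf 3 523 523) (leaf 3 524 525))))))))) (merge (node 557 (merge (node 556 (merge (leaf 2 524 527) (node 588 (merge (leaf 1 555 587) (leaf 1 556 589))))) (merge (node 556 (merge (leaf 2 524 527) (leaf 0 556 591))) (node 589 (merge (leaf 1 556 588) (node 561 (merge (leaf 1 557 590) (node 525 (merge (leaf 3 524 524) (leaf 3 525 526)))))))))) (node 561 (merge (node 590 (merge (leaf 1 557 589) (node 562 (merge (leaf 1 558 591) (node 526 (merge (leaf 3 525 525) (leaf 3 526 527))))))) (merge (node 530 (merge (leaf 2 526 529) (node 562 (merge (leaf 2 527 531) (node 526 (merge (leaf 3 525 525) (leaf 3 526 527))))))) (merge (node 590 (merge (leaf 1 557 589) (node 591 (merge (leaf 1 558 562) (node 529 (merge (leaf 2 526 530) (node 496 (merge (leaf 5 463 464) (node 495 (merge (leaf 7 463 463) (node 494 (merge (leaf 0 493 493) (node 527 (merge (leaf 7 462 462) (leaf 5 494 622))))))))))))))) (merge (node 590 (merge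 (leaf 1 557 589) (node 591 (merge (leaf 1 558 562) (node 529 (merge (leaf 2 526 530) (node 526 (merge (leaf 3 525 525) (node 494 (merge (leaf 4 462 462) (node 496 (merge (leaf 5 463 464) (node 495 (merge (leaf 6 462 463) (leaf 0 493 493))))))))))))))) (node 529 (merge (leaf 2 526 530) (node 526 (merge (leaf 3 525 525) (node 497 (merge (leaf 5 464 465) (node 527 (merge (leaf 2 494 498) (node 494 (merge (leaf 3 493 493) (node 462 (merge (leaf 4 430 430) (leaf 4 462 591)))))))))))))))))))))) (merge (node 558 (merge (node 557 (merge (leaf 2 525 529) (leaf 0 557 593))) (merge (node 557 (merge (leaf 0 557 593) (node 556 (merge (leaf 2 524 527) (leaf 0 556 591))))) (merge (node 529 (merge (leaf 2 525 557) (node 530 (merge (leaf 1 526 527) (leaf 1 527 531))))) (node 561 (merge (node 590 (merge (leaf 1 557 589) (node 562 (merge (leaf 1 558 591) (node 526 (merge (leaf 3 525 525) (leaf 3 526 527))))))) (merge (node 530 (merge (leaf 2 526 529) (node 562 (merge (leaf 2 527 531) (node 526 (merge (leaf 3 525 525) (leaf 3 526 527))))))) (merge (node 594 (merge (leaf 0 558 593) (node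 562 (merge (leaf 0 559 595) (node 590 (merge (leaf 1 557 589) (leaf 1 558 591))))))) (node 529 (merge (leaf 2 526 530) (node 526 (merge (leaf 3 525 525) (node 497 (merge (leaf 5 464 465) (node 527 (merge (leaf 2 494 498) (node 494 (merge (leaf 3 493 493) (node 462 (merge (leaf 4 430 430) (leaf 4 462 591))))))))))))))))))))) (merge (node 591 (merge (node 496 (merge (leaf 5 463 464) (node 593 (merge (leaf 4 496 625) (node 594 (merge (leaf 3 558 558) (leaf 3 559 595))))))) (merge (node 530 (merge (node 529 (merge (leaf 1 527 531) (node 558 (merge (leaf 1 526 527) (leaf 2 525 557))))) (merge (node 529 (merge (leaf 1 527 531) (node 496 (merge (leaf 5 463 464) (node 495 (merge (leaf 7 463 463) (node 494 (merge (leaf 0 493 493) (leaf 0 494 497))))))))) (merge (node 496 (merge (leaf 5 463 464) (node 497 (merge (leaf 6 464 465) (node 495 (merge (leaf 7 463 463) (node 498 (merge (leaf 0 495 531) (node 527 (merge (leaf 1 495 499) (leaf 1 494 526))))))))))) (node 496 (merge (leaf 5 463 464) (node 497 (merge (leaf 6 464 465) (node 495 (merge (leaf 7 463 463) (node 494 (merge (leaf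 0 494 529) (node 526 (merge (leaf 1 493 525) (node 527 (merge (leaf 7 462 462) (leaf 1 494 498))))))))))))))))) (merge (node 590 (merge (node 589 (merge (leaf 2 556 588) (node 557 (merge (leaf 3 556 556) (node 593 (merge (leaf 0 557 558) (node 626 (merge (leaf 0 590 625) (node 594 (merge (leaf 3 559 595) (leaf 0 591 627))))))))))) (merge (node 589 (merge (leaf 2 556 588) (node 621 (merge (leaf 1 588 620) (node 593 (merge (leaf 1 589 622) (node 626 (merge (leaf 0 590 625) (node 594 (merge (leaf 3 559 595) (leaf 0 591 627))))))))))) (merge (node 622 (merge (node 654 (merge (leaf 6 558 686) (node 527 (merge (leaf 5 494 495) (leaf 6 526 558))))) (merge (node 593 (merge (leaf 1 589 621) (node 594 (merge (leaf 3 558 558) (leaf 3 559 595))))) (merge (node 593 (merge (leaf 1 589 621) (node 594 (merge (leaf 3 558 558) (leaf 3 559 595))))) (node 593 (merge (leaf 1 589 621) (node 626 (merge (leaf 0 590 625) (node 594 (merge (leaf 3 559 595) (leaf 0 591 627))))))))))) (node 589 (merge (leaf 2 556 588) (node 557 (merge (leaf 3 556 556) (node 558 (merge (leaf 2 525 529) (node 525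 (merge (leaf 3 524 524) (node 622 (merge (leaf 4 493 493) (leaf 7 525 654))))))))))))))) (node 527 (merge (node 495 (merge (leaf 4 463 463) (node 590 (merge (leaf 5 494 622) (node 589 (merge (leaf 2 556 588) (node 557 (merge (leaf 3 556 556) (node 494 (merge (leaf 7 462 462) (node 529 (merge (leaf 3 494 530) (node 526 (merge (leaf 3 493 493) (node 525 (merge (leaf 0 524 524) (leaf 6 493 621))))))))))))))))) (merge (node 495 (merge (leaf 4 463 463) (node 496 (merge (leaf 5 463 464) (node 494 (merge (leaf 7 462 462) (node 493 (merge (leaf 0 492 492) (leaf 0 493 529))))))))) (merge (node 495 (merge (leaf 4 463 463) (node 496 (merge (leaf 5 463 464) (node 497 (merge (leaf 6 464 465) (node 526 (merge (leaf 1 494 498) (leaf 2 493 525))))))))) (node 496 (merge (leaf 5 463 464) (node 593 (merge (leaf 4 496 625) (node 594 (merge (leaf 3 559 595) (node 626 (merge (leaf 0 591 627) (node 497 (merge (leaf 6 464 465) (node 526 (merge (leaf 2 493 525) (node 529 (merge (leaf 2 494 498) (node 530 (merge (leaf 1 527 531) (leaf 7 497 562))))))))))))))))))))))))) (node 529 (merge (node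 530 (merge (leaf 1 527 531) (node 495 (merge (node 463 (merge (leaf 7 463 496) (node 527 (merge (leaf 4 431 431) (leaf 4 463 559))))) (merge (node 494 (merge (leaf 3 494 527) (node 496 (merge (leaf 0 493 493) (leaf 0 494 497))))) (merge (node 527 (merge (leaf 3 494 494) (node 463 (merge (leaf 4 431 431) (leaf 4 463 559))))) (node 496 (merge (leaf 7 463 463) (node 494 (merge (leaf 0 493 493) (node 497 (merge (leaf 6 464 465) (leaf 0 494 530))))))))))))) (merge (node 496 (merge (node 464 (merge (leaf 5 463 591) (node 432 (merge (leaf 5 431 527) (leaf 4 432 561))))) (node 495 (merge (leaf 7 463 463) (node 494 (merge (leaf 0 493 493) (node 530 (merge (leaf 0 494 497) (leaf 3 495 531))))))))) (merge (node 496 (merge (node 495 (merge (leaf 7 463 463) (node 494 (merge (leaf 0 493 493) (node 530 (merge (leaf 0 494 497) (leaf 3 495 531))))))) (merge (node 593 (merge (leaf 4 496 625) (node 464 (merge (leaf 4 464 561) (node 465 (merge (leaf 6 432 433) (leaf 6 464 497))))))) (node 593 (merge (leaf 4 496 625) (node 464 (merge (leaf 4 464 561) (node 463 (merge (leaf 7 431 431) (leaf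 7 463 495)))))))))) (merge (node 496 (merge (node 464 (merge (leaf 5 463 591) (node 432 (merge (leaf 5 431 527) (leaf 4 432 561))))) (merge (node 593 (merge (leaf 4 496 625) (node 594 (merge (leaf 3 559 595) (node 497 (merge (leaf 6 464 465) (node 561 (merge (leaf 4 497 626) (node 498 (merge (leaf 6 465 466) (node 527 (merge (leaf 1 495 499) (leaf 2 494 526))))))))))))) (node 464 (merge (leaf 5 463 591) (node 433 (merge (leaf 6 432 465) (node 432 (merge (leaf 6 400 401) (node 400 (merge (leaf 4 400 497) (node 399 (merge (leaf 7 367 367) (leaf 7 399 431)))))))))))))) (merge (node 496 (merge (node 495 (merge (leaf 7 463 463) (node 494 (merge (leaf 0 493 493) (node 530 (merge (leaf 3 494 527) (leaf 3 495 531))))))) (merge (node 593 (merge (leaf 4 496 625) (node 464 (merge (leaf 4 464 561) (node 433 (merge (leaf 6 432 465) (node 432 (merge (leaf 6 400 401) (node 431 (merge (leaf 7 399 399) (leaf 7 431 463))))))))))) (node 593 (merge (leaf 4 496 625) (node 464 (merge (leaf 4 464 561) (node 433 (merge (leaf 6 432 465) (node 432 (merge (leaf 6 400 401) (node 527 (merge (leaf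 5 431 559) (node 495 (merge (leaf 5 399 400) (node 530 (merge (leaf 3 494 494) (leaf 3 495 531)))))))))))))))))) (merge (node 496 (merge (node 593 (merge (leaf 4 496 625) (node 464 (merge (leaf 4 464 561) (node 465 (merge (leaf 6 432 433) (leaf 6 464 497))))))) (merge (node 593 (merge (leaf 4 496 625) (node 464 (merge (leaf 4 464 561) (node 463 (merge (leaf 7 431 431) (leaf 7 463 495))))))) (node 497 (merge (leaf 6 464 465) (node 495 (merge (leaf 7 463 463) (node 494 (merge (leaf 0 493 493) (node 526 (merge (leaf 1 493 525) (node 527 (merge (leaf 1 494 498) (node 462 (merge (leaf 3 461 461) (node 430 (merge (leaf 4 398 398) (leaf 4 430 559)))))))))))))))))) (node 527 (merge (node 495 (merge (leaf 4 463 463) (node 530 (merge (leaf 3 494 494) (leaf 1 527 531))))) (merge (node 530 (merge (leaf 1 527 531) (node 498 (merge (leaf 2 495 499) (node 526 (merge (leaf 2 494 497) (node 561 (merge (leaf 0 525 525) (leaf 0 526 562))))))))) (node 497 (merge (node 465 (merge (leaf 5 432 433) (leaf 5 464 561))) (merge (node 526 (merge (leaf 2 494 498) (node 561 (merge (leaf 0 525 525)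 (leaf 0 526 562))))) (node 498 (merge (leaf 2 494 526) (node 499 (merge (leaf 1 496 500) (node 463 (merge (leaf 4 463 495) (node 465 (merge (leaf 5 432 433) (node 464 (merge (leaf 0 462 462) (leaf 0 463 466)))))))))))))))))))))))))))))) nD_8 cD_8 12 (by decide +kernel)
def nD_9 : ℕ := 0x100000001000000000000000000000000000000000000000000000000000000000000000000000000000000000000000000000000000000000000000000000000000000000000
def cD_9 : ℕ := 0x28000000380000003800000030000001ff800001ff0000006f000001ef000001ff800000380000003800000038000000000000000000000000000000000000000000000000000000000000000000000000000000000000000000000000000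
theorem lD_9 : S nD_9 cD_9 11 := S_of_chk [] trivial (node 592 (merge (node 495 (merge (node 463 (merge (leaf 7 463 496) (node 527 (merge (leaf 4 431 431) (leaf 4 463 559))))) (merge (node 527 (merge (leaf 7 495 624) (node 463 (merge (leaf 4 431 431) (leaf 4 463 559))))) (merge (node 624 (merge (leaf 7 495 527) (node 625 (merge (leaf 4 528 657) (node 496 (merge (leaf 4 496 593) (node 497 (merge (leaf 6 464 465) (leaf 6 496 529))))))))) (node 496 (merge (leaf 7 463 463) (node 625 (merge (leaf 4 496 593) (node 497 (merge (leaf 6 464 465) (node 624 (merge (leaf 6 496 529) (leaf 4 528 657))))))))))))) (merge (node 496 (merge (node 593 (merge (leaf 4 496 625) (node 464 (merge (leaf 4 464 561) (node 463 (merge (leaf 7 431 431) (leaf 7 463 495))))))) (merge (node 625 (merge (leaf 4 496 593) (node 497 (merge (leaf 6 464 465) (node 624 (merge (leaf 6 496 529) (leaf 4 528 657))))))) (node 465 (merge (leaf 6 464 497) (node 464 (merge (leaf 6 432 433) (node 463 (merge (leaf 7 431 431) (leaf 7 463 495)))))))))) (merge (node 496 (merge (node 625 (merge (leaf 4 496 593) (node 624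 (merge (leaf 4 528 657) (node 495 (merge (leaf 7 463 463) (leaf 7 495 527))))))) (merge (node 463 (merge (leaf 7 463 495) (node 464 (merge (leaf 7 431 431) (node 433 (merge (leaf 6 432 465) (node 432 (merge (leaf 6 400 401) (node 559 (merge (leaf 5 431 527) (leaf 5 463 591))))))))))) (merge (node 593 (merge (leaf 4 496 625) (node 464 (merge (leaf 4 464 561) (node 433 (merge (leaf 6 432 465) (node 432 (merge (leaf 6 400 401) (node 431 (merge (leaf 7 399 399) (leaf 7 431 463))))))))))) (node 593 (merge (leaf 4 496 625) (node 464 (merge (leaf 4 464 561) (node 433 (merge (leaf 6 432 465) (node 432 (merge (leaf 6 400 401) (node 527 (merge (leaf 5 431 559) (node 495 (merge (leaf 5 399 400) (leaf 7 495 624))))))))))))))))) (merge (node 496 (merge (node 593 (merge (leaf 4 496 625) (node 464 (merge (leaf 4 464 561) (node 591 (merge (leaf 5 463 559) (leaf 5 495 623))))))) (merge (node 625 (merge (leaf 4 496 593) (node 624 (merge (leaf 4 528 657) (node 495 (merge (leaf 7 463 463) (leaf 7 495 527))))))) (node 591 (merge (leaf 5 495 623) (node 464 (merge (leaf 5 463 559) (node 431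 (merge (leaf 7 431 463) (node 432 (merge (leaf 7 399 399) (node 529 (merge (leaf 4 432 561) (node 497 (merge (leaf 4 400 400) (leaf 6 496 624)))))))))))))))) (merge (node 529 (merge (node 497 (merge (leaf 6 496 624) (node 465 (merge (leaf 5 432 433) (leaf 5 464 561))))) (merge (node 624 (merge (leaf 6 496 497) (node 527 (merge (leaf 7 495 495) (node 559 (merge (leaf 7 527 656) (node 558 (merge (leaf 1 526 530) (leaf 2 525 557))))))))) (merge (node 527 (merge (node 495 (merge (leaf 7 495 624) (node 463 (merge (leaf 4 431 431) (leaf 4 463 559))))) (merge (node 558 (merge (node 559 (merge (leaf 1 526 530) (leaf 2 525 557))) (merge (node 526 (merge (leaf 1 525 557) (node 561 (merge (leaf 0 525 525) (leaf 0 526 562))))) (node 530 (merge (leaf 1 526 559) (node 499 (merge (leaf 2 495 498) (node 531 (merge (leaf 2 496 500) (node 561 (merge (leaf 1 528 532) (node 526 (merge (leaf 0 525 525) (leaf 0 526 562)))))))))))))) (node 526 (merge (node 561 (merge (leaf 0 525 525) (leaf 0 526 562))) (merge (node 561 (merge (leaf 0 525 525) (leaf 0 526 562))) (node 558 (merge (leaf 1 525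 557) (node 494 (merge (leaf 3 493 493) (node 495 (merge (leaf 3 494 530) (node 463 (merge (leaf 4 431 431) (leaf 6 462 590))))))))))))))) (node 496 (merge (node 465 (merge (leaf 6 464 497) (node 464 (merge (leaf 6 432 433) (node 591 (merge (leaf 5 463 559) (leaf 5 495 623))))))) (merge (node 465 (merge (leaf 6 464 497) (node 464 (merge (leaf 6 432 433) (node 463 (merge (leaf 7 431 431) (leaf 7 463 495))))))) (merge (node 591 (merge (leaf 5 495 623) (node 464 (merge (leaf 5 463 559) (node 463 (merge (leaf 7 431 431) (leaf 7 463 495))))))) (node 497 (merge (leaf 6 464 465) (node 495 (merge (leaf 7 463 463) (node 494 (merge (leaf 0 493 493) (leaf 0 494 530))))))))))))))) (merge (node 527 (merge (node 624 (merge (leaf 7 495 495) (node 656 (merge (leaf 7 527 559) (node 657 (merge (leaf 4 528 625) (leaf 4 560 689))))))) (merge (node 624 (merge (leaf 7 495 495) (node 657 (merge (leaf 4 528 625) (node 529 (merge (leaf 6 496 497) (node 656 (merge (leaf 6 528 561) (leaf 4 560 689))))))))) (merge (node 529 (merge (node 497 (merge (leaf 6 496 624) (node 465 (merge (leaf 5 432 433)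 (leaf 5 464 561))))) (merge (node 624 (merge (leaf 6 496 497) (node 656 (merge (leaf 7 527 559) (node 657 (merge (leaf 4 528 625) (leaf 4 560 689))))))) (node 558 (merge (node 559 (merge (leaf 1 526 530) (leaf 2 525 557))) (merge (node 526 (merge (leaf 1 525 557) (node 561 (merge (leaf 0 525 525) (leaf 0 526 562))))) (node 530 (merge (leaf 1 526 559) (node 499 (merge (leaf 2 495 498) (node 531 (merge (leaf 2 496 500) (node 561 (merge (leaf 1 528 532) (node 526 (merge (leaf 0 525 525) (leaf 0 526 562))))))))))))))))) (node 526 (merge (node 561 (merge (leaf 0 525 525) (node 529 (merge (leaf 0 526 562) (node 497 (merge (leaf 5 464 465) (leaf 2 494 498))))))) (merge (node 525 (merge (leaf 0 525 561) (node 524 (merge (leaf 0 524 559) (node 492 (merge (leaf 3 491 491) (leaf 3 492 493))))))) (merge (node 529 (merge (node 497 (merge (leaf 2 494 498) (node 465 (merge (leaf 5 432 433) (leaf 5 464 561))))) (node 494 (merge (leaf 3 493 493) (node 530 (merge (leaf 3 494 495) (node 559 (merge (leaf 1 527 531) (leaf 1 526 558))))))))) (node 529 (merge (node 498 (merge (leaf 2 494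 497) (node 530 (merge (leaf 2 495 499) (node 494 (merge (leaf 3 493 493) (leaf 3 494 495))))))) (merge (node 557 (merge (leaf 1 525 558) (node 525 (merge (leaf 1 524 556) (node 524 (merge (leaf 0 524 559) (node 492 (merge (leaf 3 491 491) (leaf 3 492 493))))))))) (node 557 (merge (leaf 1 525 558) (node 525 (merge (leaf 1 524 556) (node 559 (merge (leaf 0 524 524) (node 530 (merge (leaf 1 527 531) (node 495 (merge (leaf 4 463 463) (leaf 3 494 494)))))))))))))))))))))) (merge (node 625 (merge (node 657 (merge (leaf 4 528 624) (node 593 (merge (leaf 7 528 561) (leaf 7 560 689))))) (merge (node 496 (merge (leaf 4 496 593) (node 465 (merge (leaf 6 464 497) (node 464 (merge (leaf 6 432 433) (node 591 (merge (leaf 5 463 559) (leaf 5 495 623))))))))) (node 624 (merge (leaf 4 528 657) (node 529 (merge (leaf 6 496 497) (node 656 (merge (leaf 6 528 561) (node 559 (merge (leaf 7 527 527) (node 688 (merge (leaf 7 559 591) (node 721 (merge (leaf 4 592 689) (node 720 (merge (leaf 4 624 753) (node 719 (merge (leaf 5 591 687) (leaf 5 623 751)))))))))))))))))))) (node 591 (merge (node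 496 (merge (leaf 5 495 623) (node 465 (merge (leaf 6 464 497) (node 464 (merge (leaf 6 432 433) (leaf 5 463 559))))))) (merge (node 496 (merge (leaf 5 495 623) (node 593 (merge (leaf 4 496 625) (node 464 (merge (leaf 4 464 561) (node 463 (merge (leaf 7 431 431) (leaf 7 463 495))))))))) (merge (node 590 (merge (node 561 (merge (leaf 2 557 589) (node 593 (merge (leaf 2 558 562) (node 625 (merge (leaf 0 590 626) (leaf 7 528 657))))))) (merge (node 589 (merge (leaf 2 557 561) (node 588 (merge (leaf 2 556 559) (node 620 (merge (leaf 1 587 619) (leaf 1 588 621))))))) (merge (node 593 (merge (node 626 (merge (leaf 0 590 625) (node 594 (merge (leaf 0 591 627) (node 622 (merge (leaf 1 589 621) (leaf 1 590 623))))))) (merge (node 621 (merge (leaf 1 589 622) (node 589 (merge (leaf 1 588 620) (node 557 (merge (leaf 3 556 556) (leaf 3 557 558))))))) (node 626 (merge (leaf 0 590 625) (node 594 (merge (leaf 0 591 627) (node 558 (merge (leaf 3 557 557) (leaf 3 558 559)))))))))) (node 593 (merge (node 626 (merge (leaf 0 590 625) (node 594 (merge (leaf 0 591 627) (node 622 (merge (leaf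 1 589 621) (leaf 1 590 623))))))) (merge (node 626 (merge (leaf 0 590 625) (node 594 (merge (leaf 0 591 627) (node 558 (merge (leaf 3 557 557) (leaf 3 558 559))))))) (merge (node 622 (merge (leaf 1 589 621) (node 594 (merge (leaf 1 590 623) (node 558 (merge (leaf 3 557 557) (leaf 3 558 559))))))) (node 625 (merge (leaf 0 590 626) (node 657 (merge (leaf 7 528 561) (leaf 7 560 689))))))))))))) (node 593 (merge (node 496 (merge (leaf 4 496 625) (node 465 (merge (leaf 6 464 497) (node 464 (merge (leaf 6 432 433) (node 463 (merge (leaf 7 431 431) (leaf 7 463 495))))))))) (merge (node 590 (merge (node 561 (merge (leaf 2 558 562) (leaf 2 557 589))) (node 626 (merge (leaf 0 590 625) (node 594 (merge (leaf 0 591 627) (node 558 (merge (leaf 3 557 557) (leaf 3 558 559))))))))) (node 558 (merge (node 559 (merge (leaf 0 557 557) (leaf 3 558 594))) (merge (node 590 (merge (leaf 3 557 557) (node 561 (merge (leaf 2 558 562) (leaf 2 557 589))))) (node 594 (merge (leaf 3 558 559) (node 627 (merge (leaf 0 591 626) (node 595 (merge (leaf 0 592 628) (node 561 (merge (leaf 3 560 596) (node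 590 (merge (leaf 2 558 562) (leaf 2 557 589))))))))))))))))))))))))))))) nD_9 cD_9 11 (by decide +kernel)
def nD_10 : ℕ := 0x100000001000000000000000000000000000000000000000000000000000000000000000000000000000000000000000000000000000000000000000000000000000000000000
def cD_10 : ℕ := 0x8000000380000003c0000003e000001dfc00001ff8000006fc00001ee000001fe0000007e0000003c00000038000000280000000000000000000000000000000000000000000000000000000000000000000000000000000000000000000
theorem lD_10 : S nD_10 cD_10 13 := S_of_chk [] trivial (node 592 (merge (node 496 (merge (node 465 (merge (leaf 6 464 497) (node 464 (merge (leaf 6 432 433) (node 591 (merge (leaf 5 463 559) (leaf 5 495 623))))))) (merge (node 623 (merge (leaf 5 495 591) (node 495 (merge (leaf 7 463 463) (node 624 (merge (leaf 7 495 527) (leaf 5 527 655))))))) (node 465 (merge (leaf 6 464 497) (node 464 (merge (leaf 6 432 433) (node 463 (merge (leaf 7 431 431) (leaf 7 463 495)))))))))) (merge (node 624 (merge (node 497 (merge (leaf 6 496 529) (node 496 (merge (leaf 6 464 465) (node 623 (merge (leaf 5 495 591) (leaf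 5 527 655))))))) (merge (node 529 (merge (leaf 6 496 497) (node 656 (merge (leaf 6 528 561) (node 655 (merge (leaf 5 527 623) (leaf 5 559 687))))))) (merge (node 655 (merge (leaf 5 527 623) (node 656 (merge (leaf 5 559 687) (node 559 (merge (leaf 7 527 527) (node 688 (merge (leaf 7 559 591) (node 689 (merge (leaf 4 560 657) (leaf 4 592 721))))))))))) (node 529 (merge (leaf 6 496 497) (node 656 (merge (leaf 6 528 561) (node 559 (merge (leaf 7 527 527) (node 688 (merge (leaf 7 559 591) (node 689 (merge (leaf 4 560 657) (leaf 4 592 721))))))))))))))) (merge (node 497 (merge (node 465 (merge (leaf 6 464 496) (node 529 (merge (leaf 5 432 433) (leaf 5 464 561))))) (merge (node 496 (merge (leaf 6 464 465) (node 495 (merge (leaf 7 463 463) (node 527 (merge (leaf 7 495 624) (node 526 (merge (leaf 1 494 498) (leaf 2 493 525))))))))) (node 624 (merge (leaf 6 496 529) (node 527 (merge (leaf 7 495 495) (node 656 (merge (leaf 7 527 559) (node 689 (merge (leaf 4 560 657) (node 688 (merge (leaf 4 592 721) (node 687 (merge (leaf 5 559 655) (leaf 5 591 719)))))))))))))))) (merge (node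 624 (merge (node 529 (merge (leaf 6 496 497) (node 656 (merge (leaf 6 528 561) (node 655 (merge (leaf 5 527 623) (leaf 5 559 687))))))) (merge (node 529 (merge (leaf 6 496 497) (node 561 (merge (leaf 6 528 656) (node 527 (merge (leaf 7 495 495) (node 526 (merge (leaf 0 525 525) (leaf 0 526 562))))))))) (merge (node 623 (merge (leaf 5 527 655) (node 496 (merge (leaf 5 495 591) (node 465 (merge (leaf 6 464 497) (node 464 (merge (leaf 6 432 433) (node 463 (merge (leaf 7 431 431) (leaf 7 463 495))))))))))) (node 623 (merge (leaf 5 527 655) (node 496 (merge (leaf 5 495 591) (node 463 (merge (leaf 7 463 495) (node 464 (merge (leaf 7 431 431) (node 561 (merge (leaf 4 464 593) (node 529 (merge (leaf 4 432 432) (leaf 6 528 656))))))))))))))))) (merge (node 624 (merge (node 529 (merge (leaf 6 496 497) (node 656 (merge (leaf 6 528 561) (node 655 (merge (leaf 5 527 623) (leaf 5 559 687))))))) (merge (node 623 (merge (leaf 5 527 655) (node 496 (merge (leaf 5 495 591) (node 465 (merge (leaf 6 464 497) (node 464 (merge (leaf 6 432 433) (node 463 (merge (leaf 7 431 431) (leaf 7 463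 495))))))))))) (merge (node 623 (merge (leaf 5 527 655) (node 496 (merge (leaf 5 495 591) (node 463 (merge (leaf 7 463 495) (node 464 (merge (leaf 7 431 431) (node 561 (merge (leaf 4 464 593) (node 529 (merge (leaf 4 432 432) (leaf 6 528 656))))))))))))) (merge (node 529 (merge (leaf 6 496 497) (node 656 (merge (leaf 6 528 561) (node 689 (merge (leaf 4 560 657) (node 688 (merge (leaf 4 592 721) (node 687 (merge (leaf 5 559 655) (leaf 5 591 719))))))))))) (node 529 (merge (leaf 6 496 497) (node 656 (merge (leaf 6 528 561) (node 689 (merge (leaf 4 560 657) (node 688 (merge (leaf 4 592 721) (node 591 (merge (leaf 7 559 559) (node 720 (merge (leaf 7 591 623) (node 719 (merge (leaf 5 591 687) (leaf 5 623 751)))))))))))))))))))) (merge (node 496 (merge (node 623 (merge (leaf 5 495 591) (node 495 (merge (leaf 7 463 463) (node 624 (merge (leaf 7 495 527) (leaf 5 527 655))))))) (merge (node 463 (merge (leaf 7 463 495) (node 464 (merge (leaf 7 431 431) (node 561 (merge (leaf 4 464 593) (node 432 (merge (leaf 4 432 529) (node 433 (merge (leaf 6 400 401) (leaf 6 432 465)))))))))))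 (node 591 (merge (leaf 5 495 623) (node 464 (merge (leaf 5 463 559) (node 561 (merge (leaf 4 464 593) (node 432 (merge (leaf 4 432 529) (node 401 (merge (leaf 6 400 433) (node 400 (merge (leaf 6 368 369) (node 399 (merge (leaf 7 367 367) (leaf 7 399 431)))))))))))))))))) (merge (node 529 (merge (node 497 (merge (leaf 6 496 624) (node 465 (merge (leaf 5 432 433) (leaf 5 464 561))))) (merge (node 624 (merge (leaf 6 496 497) (node 527 (merge (leaf 7 495 495) (node 559 (merge (leaf 7 527 656) (node 558 (merge (leaf 1 526 530) (leaf 2 525 557))))))))) (merge (node 496 (merge (node 465 (merge (leaf 6 464 497) (node 464 (merge (leaf 6 432 433) (node 591 (merge (leaf 5 463 559) (leaf 5 495 623))))))) (merge (node 465 (merge (leaf 6 464 497) (node 464 (merge (leaf 6 432 433) (node 463 (merge (leaf 7 431 431) (leaf 7 463 495))))))) (merge (node 591 (merge (leaf 5 495 623) (node 464 (merge (leaf 5 463 559) (node 463 (merge (leaf 7 431 431) (leaf 7 463 495))))))) (node 497 (merge (leaf 6 464 465) (node 495 (merge (leaf 7 463 463) (node 494 (merge (leaf 0 493 493) (leaf 0 494 530)))))))))))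 (node 624 (merge (node 527 (merge (leaf 7 495 495) (node 559 (merge (leaf 7 527 656) (node 558 (merge (leaf 1 526 530) (leaf 2 525 557))))))) (merge (node 561 (merge (leaf 6 528 656) (node 527 (merge (leaf 7 495 495) (node 526 (merge (leaf 0 525 525) (leaf 0 526 562))))))) (merge (node 656 (merge (leaf 6 528 561) (node 689 (merge (leaf 4 560 657) (node 688 (merge (leaf 4 592 721) (node 591 (merge (leaf 7 559 559) (node 720 (merge (leaf 7 591 623) (node 719 (merge (leaf 5 591 687) (leaf 5 623 751))))))))))))) (node 495 (merge (leaf 7 495 527) (node 496 (merge (leaf 7 463 463) (node 591 (merge (leaf 5 495 623) (node 464 (merge (leaf 5 463 559) (node 561 (merge (leaf 4 432 432) (leaf 4 464 593))))))))))))))))))) (merge (node 529 (merge (node 497 (merge (leaf 6 496 624) (node 465 (merge (leaf 5 432 433) (leaf 5 464 561))))) (merge (node 624 (merge (leaf 6 496 497) (node 655 (merge (leaf 5 527 623) (node 656 (merge (leaf 5 559 687) (node 527 (merge (leaf 7 495 495) (leaf 7 527 559))))))))) (merge (node 527 (merge (node 495 (merge (leaf 7 495 624) (node 463 (merge (leaf 4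 431 431) (leaf 4 463 559))))) (merge (node 624 (merge (leaf 7 495 495) (node 656 (merge (leaf 6 528 561) (node 655 (merge (leaf 5 527 623) (leaf 5 559 687))))))) (node 558 (merge (node 559 (merge (leaf 1 526 530) (leaf 2 525 557))) (merge (node 526 (merge (leaf 1 525 557) (node 561 (merge (leaf 0 525 525) (leaf 0 526 562))))) (node 530 (merge (leaf 1 526 559) (node 499 (merge (leaf 2 495 498) (node 531 (merge (leaf 2 496 500) (node 561 (merge (leaf 1 528 532) (node 526 (merge (leaf 0 525 525) (leaf 0 526 562))))))))))))))))) (node 559 (merge (node 558 (merge (leaf 2 525 557) (node 530 (merge (leaf 1 527 531) (leaf 2 526 561))))) (merge (node 558 (merge (leaf 2 525 557) (node 530 (merge (leaf 1 526 527) (leaf 1 527 531))))) (merge (node 527 (merge (node 495 (merge (leaf 4 463 463) (node 530 (merge (leaf 3 494 494) (leaf 1 527 531))))) (merge (node 530 (merge (leaf 1 527 531) (node 498 (merge (leaf 2 495 499) (node 526 (merge (leaf 2 494 497) (node 561 (merge (leaf 0 525 525) (leaf 0 526 562))))))))) (node 497 (merge (node 465 (merge (leaf 5 432 433) (leaf 5 464 561)))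 (merge (node 526 (merge (leaf 2 494 498) (node 561 (merge (leaf 0 525 525) (leaf 0 526 562))))) (node 498 (merge (leaf 2 494 526) (node 499 (merge (leaf 1 496 500) (node 463 (merge (leaf 4 463 495) (node 465 (merge (leaf 5 432 433) (node 464 (merge (leaf 0 462 462) (leaf 0 463 466))))))))))))))))) (node 558 (merge (leaf 2 525 557) (node 561 (merge (node 590 (merge (leaf 1 557 589) (node 562 (merge (leaf 1 558 591) (node 526 (merge (leaf 3 525 525) (leaf 0 526 527))))))) (merge (node 594 (merge (leaf 0 558 593) (node 562 (merge (leaf 0 559 595) (node 526 (merge (leaf 3 525 525) (leaf 0 526 527))))))) (merge (node 594 (merge (leaf 0 558 593) (node 562 (merge (leaf 0 559 595) (node 590 (merge (leaf 1 557 589) (leaf 1 558 591))))))) (node 526 (merge (leaf 3 525 525) (node 497 (merge (leaf 5 464 465) (node 527 (merge (leaf 2 494 498) (node 494 (merge (leaf 3 493 493) (node 462 (merge (leaf 4 430 430) (leaf 4 462 591))))))))))))))))))))))))) (merge (node 591 (merge (node 623 (merge (leaf 5 495 496) (node 655 (merge (leaf 5 527 624) (leaf 6 559 687))))) (merge (node 623 (merge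 (leaf 5 495 496) (node 655 (merge (leaf 6 527 559) (leaf 6 559 687))))) (merge (node 496 (merge (leaf 5 495 623) (node 495 (merge (leaf 7 463 463) (node 624 (merge (leaf 7 495 527) (node 529 (merge (leaf 6 496 497) (node 656 (merge (leaf 6 528 561) (node 688 (merge (leaf 7 559 559) (node 689 (merge (leaf 4 560 657) (leaf 4 592 721))))))))))))))) (merge (node 495 (merge (node 463 (merge (leaf 7 463 496) (node 527 (merge (leaf 4 431 431) (leaf 7 495 624))))) (merge (node 624 (merge (leaf 7 495 527) (node 529 (merge (leaf 6 496 497) (node 656 (merge (leaf 6 528 561) (node 688 (merge (leaf 7 559 559) (node 687 (merge (leaf 5 559 655) (leaf 5 591 719))))))))))) (node 496 (merge (leaf 7 463 463) (node 464 (merge (leaf 5 463 559) (node 561 (merge (leaf 4 464 593) (node 432 (merge (leaf 4 432 529) (node 401 (merge (leaf 6 400 433) (node 400 (merge (leaf 6 368 369) (node 399 (merge (leaf 7 367 367) (leaf 7 399 431)))))))))))))))))) (node 561 (merge (node 590 (merge (leaf 2 557 589) (node 562 (merge (leaf 1 558 559) (leaf 2 558 593))))) (merge (node 527 (merge (node 495 (merge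 (leaf 7 495 624) (node 463 (merge (leaf 4 431 431) (leaf 4 463 559))))) (merge (node 526 (merge (leaf 0 525 525) (node 562 (merge (leaf 0 526 529) (leaf 3 526 559))))) (node 624 (merge (leaf 7 495 495) (node 529 (merge (leaf 6 496 497) (node 656 (merge (leaf 6 528 561) (node 655 (merge (leaf 5 527 623) (leaf 5 559 687)))))))))))) (merge (node 590 (merge (leaf 2 557 589) (node 593 (merge (leaf 2 558 562) (node 622 (merge (leaf 1 589 621) (node 594 (merge (leaf 1 590 623) (node 627 (merge (leaf 0 591 626) (node 595 (merge (leaf 3 560 596) (leaf 0 592 628))))))))))))) (node 593 (merge (node 590 (merge (leaf 2 557 589) (node 558 (merge (leaf 3 557 557) (node 594 (merge (leaf 0 558 559) (node 627 (merge (leaf 0 591 626) (node 595 (merge (leaf 3 560 596) (leaf 0 592 628))))))))))) (merge (node 623 (merge (node 655 (merge (leaf 5 527 624) (leaf 6 559 687))) (node 594 (merge (leaf 1 590 622) (node 627 (merge (leaf 0 591 626) (node 595 (merge (leaf 3 559 559) (leaf 0 592 628))))))))) (merge (node 590 (merge (leaf 2 557 589) (node 622 (merge (leaf 1 589 621) (node 594 (merge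 (leaf 1 590 623) (node 627 (merge (leaf 0 591 626) (node 595 (merge (leaf 3 560 596) (leaf 0 592 628))))))))))) (node 624 (merge (node 656 (merge (leaf 6 528 529) (leaf 6 560 688))) (merge (node 655 (merge (leaf 5 527 623) (node 656 (merge (leaf 5 559 687) (node 527 (merge (leaf 7 495 495) (leaf 7 527 559))))))) (merge (node 529 (merge (leaf 5 496 497) (leaf 6 528 656))) (node 529 (merge (leaf 5 496 497) (node 623 (merge (leaf 5 527 655) (node 622 (merge (leaf 2 589 621) (node 527 (merge (leaf 7 495 495) (node 559 (merge (leaf 5 526 654) (node 558 (merge (leaf 1 526 530) (leaf 0 557 557)))))))))))))))))))))))))))))) (node 591 (merge (node 496 (merge (leaf 5 495 623) (node 465 (merge (leaf 6 464 497) (node 464 (merge (leaf 6 432 433) (leaf 5 463 559))))))) (merge (node 496 (merge (leaf 5 495 623) (node 465 (merge (leaf 6 464 497) (node 464 (merge (leaf 6 432 433) (node 463 (merge (leaf 7 431 431) (leaf 7 463 495))))))))) (merge (node 590 (merge (node 589 (merge (leaf 2 557 561) (node 588 (merge (leaf 2 556 559) (node 620 (merge (leaf 1 587 619) (leaf 1 588 621)))))))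 (merge (node 589 (merge (leaf 2 557 561) (node 621 (merge (leaf 1 588 620) (node 593 (merge (leaf 1 589 622) (node 557 (merge (leaf 3 556 556) (leaf 3 557 558))))))))) (merge (node 589 (merge (leaf 2 557 561) (node 559 (merge (leaf 2 556 588) (node 557 (merge (leaf 3 556 556) (node 593 (merge (leaf 0 557 558) (node 594 (merge (leaf 3 559 595) (node 623 (merge (leaf 1 590 622) (leaf 6 527 655))))))))))))) (merge (node 593 (merge (node 557 (merge (leaf 3 557 558) (node 589 (merge (leaf 3 556 556) (node 588 (merge (leaf 2 556 559) (node 620 (merge (leaf 1 587 619) (leaf 1 588 621))))))))) (merge (node 622 (merge (leaf 1 589 621) (node 594 (merge (leaf 1 590 623) (node 627 (merge (leaf 0 591 626) (node 595 (merge (leaf 3 559 559) (leaf 0 592 628))))))))) (merge (node 557 (merge (leaf 3 557 558) (node 589 (merge (leaf 3 556 556) (node 559 (merge (leaf 2 556 588) (node 594 (merge (leaf 3 559 595) (node 623 (merge (leaf 1 590 622) (leaf 6 527 655))))))))))) (node 622 (merge (leaf 1 589 621) (node 623 (merge (leaf 1 590 594) (node 558 (merge (leaf 3 557 557) (node 655 (merge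 (leaf 4 526 526) (leaf 7 558 687))))))))))))) (node 558 (merge (node 557 (merge (leaf 3 557 593) (node 559 (merge (leaf 2 525 529) (leaf 0 556 556))))) (merge (node 593 (merge (leaf 3 557 557) (node 622 (merge (leaf 1 589 621) (node 623 (merge (leaf 1 590 594) (node 655 (merge (leaf 4 526 526) (leaf 7 558 687))))))))) (merge (node 622 (merge (node 621 (merge (leaf 1 589 593) (node 620 (merge (leaf 2 587 619) (leaf 2 588 623))))) (merge (node 623 (merge (node 655 (merge (leaf 4 526 526) (leaf 7 558 687))) (merge (node 655 (merge (leaf 6 527 559) (leaf 6 559 687))) (node 526 (merge (leaf 4 494 494) (node 525 (merge (leaf 7 493 493) (node 561 (merge (leaf 0 525 527) (leaf 3 525 559)))))))))) (node 621 (merge (leaf 1 589 593) (node 526 (merge (leaf 5 525 653) (node 527 (merge (leaf 6 494 495) (node 525 (merge (leaf 7 493 493) (leaf 0 525 561)))))))))))) (node 559 (merge (node 557 (merge (leaf 2 525 529) (leaf 0 556 556))) (merge (node 561 (merge (leaf 1 558 562) (node 526 (merge (leaf 3 525 525) (node 623 (merge (leaf 4 494 494) (leaf 7 526 655))))))) (node 561 (merge (leaf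 1 558 562) (node 529 (merge (leaf 2 526 530) (node 526 (merge (leaf 3 525 525) (node 494 (merge (leaf 4 462 462) (node 493 (merge (leaf 7 461 461) (leaf 3 493 527))))))))))))))))))))))) (node 590 (merge (node 589 (merge (leaf 2 557 561) (node 621 (merge (leaf 1 588 620) (node 593 (merge (leaf 1 589 622) (node 557 (merge (leaf 3 556 556) (leaf 3 557 558))))))))) (merge (node 589 (merge (leaf 2 557 561) (node 588 (merge (leaf 2 556 559) (node 619 (merge (leaf 1 587 620) (node 587 (merge (leaf 1 586 618) (node 555 (merge (leaf 3 554 554) (leaf 3 555 556))))))))))) (merge (node 593 (merge (node 621 (merge (leaf 1 589 622) (node 589 (merge (leaf 1 588 620) (node 557 (merge (leaf 3 556 556) (leaf 3 557 558))))))) (merge (node 621 (merge (leaf 1 589 622) (node 589 (merge (leaf 1 588 620) (node 559 (merge (leaf 2 556 588) (node 594 (merge (leaf 3 558 558) (leaf 3 559 595))))))))) (merge (node 621 (merge (leaf 1 589 622) (node 589 (merge (leaf 1 588 620) (node 588 (merge (leaf 2 556 559) (node 556 (merge (leaf 3 555 555) (leaf 3 556 557))))))))) (merge (node 557 (merge (leaf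 3 557 558) (node 589 (merge (leaf 3 556 556) (node 588 (merge (leaf 2 556 559) (node 620 (merge (leaf 1 587 619) (leaf 1 588 621))))))))) (node 558 (merge (leaf 3 557 557) (node 559 (merge (leaf 3 558 594) (node 496 (merge (leaf 5 463 464) (node 495 (merge (leaf 7 463 463) (node 527 (merge (leaf 5 494 622) (node 529 (merge (leaf 1 526 530) (node 494 (merge (leaf 7 462 462) (leaf 0 493 493)))))))))))))))))))) (node 593 (merge (node 622 (merge (leaf 1 589 621) (node 558 (merge (leaf 3 557 557) (node 559 (merge (leaf 3 558 594) (node 654 (merge (leaf 6 526 527) (leaf 6 558 686))))))))) (merge (node 561 (merge (leaf 2 558 562) (node 558 (merge (leaf 3 557 557) (node 594 (merge (leaf 0 558 559) (node 627 (merge (leaf 0 591 626) (node 595 (merge (leaf 3 560 596) (leaf 0 592 628))))))))))) (merge (node 622 (merge (leaf 1 589 621) (node 561 (merge (leaf 2 558 562) (node 496 (merge (leaf 4 464 464) (node 497 (merge (leaf 6 464 465) (node 495 (merge (leaf 7 463 463) (node 527 (merge (leaf 5 494 559) (node 526 (merge (leaf 1 494 498) (leaf 0 525 525))))))))))))))) (node 622 (merge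 (leaf 1 589 621) (node 561 (merge (leaf 2 558 562) (node 558 (merge (leaf 3 557 557) (node 496 (merge (leaf 4 464 464) (node 497 (merge (leaf 6 464 465) (node 495 (merge (leaf 7 463 463) (node 526 (merge (leaf 6 494 527) (node 525 (merge (leaf 7 493 493) (leaf 1 493 494))))))))))))))))))))))))))))))))))))))) nD_10 cD_10 13 (by decide +kernel)
def nD_11 : ℕ := 0x10000000100000001000000000000000000000000000000000000000000000000000000000000000000000000000000000000000000000000000000000000000000000000000000000000
def cD_11 : ℕ := 0x28000000380000003c0000003f000001ff800001ef0000006f8000000f0000000e000000000000000000000000000000000000000000000000000000000000000000000000000000000000000000000000000000000000000000000000000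
theorem lD_11 : S nD_11 cD_11 11 := S_of_chk [] trivial (node 591 (merge (node 624 (merge (node 655 (merge (leaf 5 527 623) (node 656 (merge (leaf 5 559 687) (node 559 (merge (leaf 7 527 527) (leaf 7 559 688))))))) (merge (node 657 (merge (leaf 4 528 625) (node 656 (merge (leaf 4 560 689) (node 527 (merge (leaf 7 495 495) (leaf 7 527 559))))))) (merge (node 657 (merge (leaf 4 528 625) (node 656 (merge (leaf 4 560 689) (node 655 (merge (leaf 5 527 623) (leaf 5 559 687))))))) (node 625 (merge (leaf 4 528 657) (node 626 (merge (leaf 3 591 627) (node 623 (merge (leaf 3 590 590) (leaf 5 527 655))))))))))) (merge (node 590 (merge (node 561 (merge (leaf 2 557 589) (node 593 (merge (leaf 2 558 562) (node 625 (merge (leaf 0 590 626) (leaf 7 528 657))))))) (merge (node 589 (merge (leaf 2 557 561) (node 588 (merge (leaf 2 556 559) (node 620 (merge (leaf 1 587 619) (leaf 1 588 621))))))) (merge (node 593 (merge (node 626 (merge (leaf 0 590 625) (node 594 (merge (leaf 0 591 627) (node 622 (merge (leaf 1 589 621) (leaf 1 590 623))))))) (merge (node 621 (merge (leaf 1 589 622) (node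 589 (merge (leaf 1 588 620) (node 557 (merge (leaf 3 556 556) (leaf 3 557 558))))))) (node 626 (merge (leaf 0 590 625) (node 594 (merge (leaf 0 591 627) (node 558 (merge (leaf 3 557 557) (leaf 3 558 559)))))))))) (node 593 (merge (node 626 (merge (leaf 0 590 625) (node 594 (merge (leaf 0 591 627) (node 622 (merge (leaf 1 589 621) (leaf 1 590 623))))))) (merge (node 626 (merge (leaf 0 590 625) (node 594 (merge (leaf 0 591 627) (node 558 (merge (leaf 3 557 557) (leaf 3 558 559))))))) (merge (node 622 (merge (leaf 1 589 621) (node 594 (merge (leaf 1 590 623) (node 558 (merge (leaf 3 557 557) (leaf 3 558 559))))))) (node 625 (merge (leaf 0 590 626) (node 657 (merge (leaf 7 528 561) (leaf 7 560 689))))))))))))) (merge (node 624 (merge (node 655 (merge (leaf 5 527 623) (node 656 (merge (leaf 5 559 687) (node 559 (merge (leaf 7 527 527) (leaf 7 559 688))))))) (merge (node 657 (merge (leaf 4 528 625) (node 656 (merge (leaf 4 560 689) (node 527 (merge (leaf 7 495 495) (leaf 7 527 559))))))) (merge (node 657 (merge (leaf 4 528 625) (node 656 (merge (leaf 4 560 689) (node 655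 (merge (leaf 5 527 623) (leaf 5 559 687))))))) (node 625 (merge (leaf 4 528 657) (node 626 (merge (leaf 3 591 627) (node 623 (merge (leaf 5 527 655) (node 594 (merge (leaf 2 591 595) (node 622 (merge (leaf 1 590 593) (node 653 (merge (leaf 1 621 654) (node 621 (merge (leaf 2 588 620) (leaf 1 620 652))))))))))))))))))) (merge (node 624 (merge (node 625 (merge (leaf 4 528 657) (node 590 (merge (leaf 0 589 589) (node 626 (merge (leaf 0 590 593) (leaf 3 591 627))))))) (merge (node 527 (merge (leaf 7 495 495) (node 656 (merge (leaf 7 527 559) (node 689 (merge (leaf 4 560 657) (node 688 (merge (leaf 4 592 721) (node 687 (merge (leaf 5 559 655) (leaf 5 591 719))))))))))) (node 527 (merge (leaf 7 495 495) (node 656 (merge (leaf 7 527 559) (node 687 (merge (leaf 5 559 655) (node 688 (merge (leaf 5 591 719) (node 721 (merge (leaf 4 592 689) (node 720 (merge (leaf 4 624 753) (node 593 (merge (leaf 6 560 561) (leaf 6 592 625)))))))))))))))))) (merge (node 593 (merge (node 623 (merge (node 655 (merge (leaf 5 527 624) (leaf 6 559 687))) (merge (node 622 (merge (leaf 1 590 594) (node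 621 (merge (leaf 2 588 620) (leaf 2 589 624))))) (node 622 (merge (leaf 1 590 594) (node 621 (merge (leaf 1 589 590) (leaf 2 588 620)))))))) (merge (node 625 (merge (node 657 (merge (leaf 7 528 561) (leaf 7 560 689))) (node 626 (merge (leaf 0 590 590) (node 627 (merge (leaf 3 591 624) (leaf 3 592 628))))))) (merge (node 590 (merge (node 561 (merge (leaf 2 558 562) (leaf 2 557 589))) (node 626 (merge (leaf 0 590 625) (node 594 (merge (leaf 0 591 627) (node 622 (merge (leaf 1 589 621) (leaf 1 590 623))))))))) (node 624 (merge (node 623 (merge (leaf 5 527 655) (node 594 (merge (leaf 1 591 595) (node 622 (merge (leaf 1 590 591) (leaf 2 590 625))))))) (merge (node 655 (merge (leaf 5 527 623) (node 656 (merge (leaf 5 559 687) (node 689 (merge (leaf 4 560 657) (node 688 (merge (leaf 6 560 561) (leaf 4 592 721))))))))) (merge (node 657 (merge (leaf 4 528 625) (node 656 (merge (leaf 4 560 689) (node 687 (merge (leaf 5 559 655) (node 688 (merge (leaf 6 560 561) (leaf 5 591 719))))))))) (node 657 (merge (leaf 4 528 625) (node 656 (merge (leaf 4 560 689) (node 688 (merge (leaf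 6 560 561) (node 720 (merge (leaf 7 591 623) (node 719 (merge (leaf 5 591 687) (leaf 5 623 751))))))))))))))))))) (merge (node 593 (merge (node 623 (merge (node 655 (merge (leaf 5 527 624) (leaf 6 559 687))) (merge (node 622 (merge (leaf 1 590 594) (node 621 (merge (leaf 2 588 620) (leaf 2 589 624))))) (node 622 (merge (leaf 1 590 594) (node 621 (merge (leaf 1 589 590) (leaf 2 588 620)))))))) (merge (node 558 (merge (node 559 (merge (leaf 0 557 557) (leaf 3 558 594))) (merge (node 590 (merge (leaf 3 557 557) (node 561 (merge (leaf 2 558 562) (leaf 2 557 589))))) (node 594 (merge (leaf 3 558 559) (node 627 (merge (leaf 0 591 626) (node 595 (merge (leaf 0 592 628) (node 561 (merge (leaf 3 560 596) (node 590 (merge (leaf 2 558 562) (leaf 2 557 589)))))))))))))) (node 624 (merge (node 655 (merge (leaf 5 527 623) (node 656 (merge (leaf 5 559 687) (node 527 (merge (leaf 7 495 495) (leaf 7 527 559))))))) (merge (node 527 (merge (leaf 7 495 495) (node 656 (merge (leaf 7 527 559) (node 689 (merge (leaf 4 560 657) (node 688 (merge (leaf 6 560 561) (leaf 4 592 721))))))))) (merge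 (node 655 (merge (leaf 5 527 623) (node 656 (merge (leaf 5 559 687) (node 689 (merge (leaf 4 560 657) (node 688 (merge (leaf 6 560 561) (leaf 4 592 721))))))))) (node 623 (merge (leaf 5 527 655) (node 622 (merge (leaf 2 589 621) (node 527 (merge (leaf 7 495 495) (node 559 (merge (leaf 5 526 654) (node 526 (merge (leaf 7 494 494) (node 525 (merge (leaf 0 524 524) (leaf 0 525 561)))))))))))))))))))) (merge (node 593 (merge (node 623 (merge (node 655 (merge (leaf 5 527 624) (leaf 6 559 687))) (merge (node 622 (merge (leaf 1 590 594) (node 621 (merge (leaf 2 588 620) (leaf 2 589 624))))) (node 622 (merge (leaf 1 590 594) (node 621 (merge (leaf 1 589 590) (leaf 2 588 620)))))))) (merge (node 590 (merge (node 561 (merge (leaf 2 558 562) (leaf 2 557 589))) (merge (node 621 (merge (leaf 1 589 622) (node 589 (merge (leaf 1 588 620) (node 557 (merge (leaf 3 556 556) (leaf 3 557 558))))))) (node 622 (merge (leaf 1 589 621) (node 558 (merge (leaf 3 557 557) (node 559 (merge (leaf 3 558 594) (node 654 (merge (leaf 6 526 527) (leaf 6 558 686)))))))))))) (merge (node 624 (merge (node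 657 (merge (leaf 4 528 625) (node 656 (merge (leaf 4 560 689) (node 527 (merge (leaf 7 495 495) (leaf 7 527 559))))))) (merge (node 657 (merge (leaf 4 528 625) (node 656 (merge (leaf 4 560 689) (node 687 (merge (leaf 5 559 655) (node 688 (merge (leaf 6 560 561) (leaf 5 591 719))))))))) (node 623 (merge (leaf 5 527 655) (node 594 (merge (leaf 1 591 595) (node 559 (merge (leaf 3 558 558) (node 527 (merge (leaf 4 495 495) (node 526 (merge (leaf 7 494 494) (node 561 (merge (leaf 0 525 525) (leaf 3 526 562)))))))))))))))) (node 624 (merge (node 657 (merge (leaf 4 528 625) (node 656 (merge (leaf 4 560 689) (node 527 (merge (leaf 7 495 495) (leaf 7 527 559))))))) (merge (node 655 (merge (leaf 5 527 623) (node 656 (merge (leaf 5 559 687) (node 688 (merge (leaf 7 559 559) (leaf 6 560 561))))))) (merge (node 657 (merge (leaf 4 528 625) (node 656 (merge (leaf 4 560 689) (node 687 (merge (leaf 5 559 655) (node 688 (merge (leaf 6 560 561) (leaf 5 591 719))))))))) (node 623 (merge (leaf 5 527 655) (node 622 (merge (leaf 2 589 621) (node 527 (merge (leaf 7 495 495) (node 559 (merge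 (leaf 5 526 654) (node 526 (merge (leaf 7 494 494) (node 525 (merge (leaf 0 524 524) (leaf 0 525 561))))))))))))))))))))) (node 593 (merge (node 594 (merge (node 559 (merge (leaf 3 558 558) (leaf 3 559 595))) (node 623 (merge (leaf 1 590 622) (node 655 (merge (leaf 5 527 624) (leaf 6 559 687))))))) (merge (node 623 (merge (node 655 (merge (leaf 5 527 624) (leaf 6 559 687))) (merge (node 622 (merge (leaf 1 590 594) (node 621 (merge (leaf 2 588 620) (leaf 2 589 624))))) (node 622 (merge (leaf 1 590 594) (node 621 (merge (leaf 1 589 590) (leaf 2 588 620)))))))) (merge (node 594 (merge (node 559 (merge (leaf 3 558 558) (leaf 3 559 595))) (node 626 (merge (leaf 0 591 627) (node 590 (merge (leaf 0 590 625) (node 622 (merge (leaf 1 589 621) (leaf 1 590 623))))))))) (merge (node 626 (merge (node 594 (merge (leaf 0 591 627) (node 559 (merge (leaf 3 558 558) (leaf 3 559 595))))) (merge (node 625 (merge (leaf 0 590 590) (node 627 (merge (leaf 3 591 624) (leaf 3 592 628))))) (node 590 (merge (leaf 0 590 625) (node 557 (merge (leaf 3 557 558) (node 589 (merge (leaf 3 556 556) (node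 620 (merge (leaf 1 588 621) (node 588 (merge (leaf 2 556 559) (leaf 1 587 619)))))))))))))) (node 623 (merge (node 655 (merge (leaf 5 527 624) (leaf 6 559 687))) (merge (node 655 (merge (leaf 6 527 559) (leaf 6 559 687))) (node 590 (merge (node 625 (merge (leaf 0 590 626) (node 624 (merge (leaf 0 589 589) (node 622 (merge (leaf 1 589 621) (node 527 (merge (leaf 7 495 495) (node 559 (merge (leaf 5 526 654) (leaf 7 527 656))))))))))) (merge (node 625 (merge (leaf 0 590 626) (node 589 (merge (leaf 0 589 624) (node 620 (merge (leaf 1 588 621) (node 588 (merge (leaf 1 587 619) (node 556 (merge (leaf 3 555 555) (leaf 3 556 557))))))))))) (merge (node 625 (merge (leaf 0 590 626) (node 589 (merge (leaf 0 589 624) (node 557 (merge (leaf 3 556 556) (leaf 3 557 558))))))) (node 622 (merge (leaf 1 589 621) (node 558 (merge (leaf 3 557 557) (node 526 (merge (leaf 4 494 494) (node 527 (merge (leaf 6 494 495) (node 559 (merge (leaf 5 526 654) (node 525 (merge (leaf 7 493 493) (leaf 0 524 524))))))))))))))))))))))))))))))))) nD_11 cD_11 11 (by decide +kernel)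
def nD_12 : ℕ := 0x100000001000000010000000000000000000000000000000000000000000000000000000000000000000000000000000000000000000000000000000000000000000000000000
def cD_12 : ℕ := 0x200000006400000067000001ef800003ef000003ff800000ff0000003c000000380000002000000000000000000000000000000000000000000000000000000000000000000000000000000000000
theorem lD_12 : S nD_12 cD_12 12 := S_of_chk [] trivial (node 465 (merge (node 433 (merge (leaf 6 432 464) (node 497 (merge (leaf 5 400 401) (leaf 5 432 529))))) (merge (node 464 (merge (leaf 6 432 433) (node 561 (merge (leaf 4 464 593) (node 432 (merge (leaf 4 432 529) (node 431 (merge (leaf 7 399 399) (leaf 7 431 463))))))))) (merge (node 495 (merge (node 464 (merge (leaf 6 432 433) (node 466 (merge (leaf 1 463 467) (node 463 (merge (leaf 7 431 431) (leaf 1 462 494))))))) (merge (node 464 (merge (leaf 6 432 433) (node 431 (merge (leaf 7 431 463) (node 432 (merge (leaf 7 399 399) (node 400 (merge (leaf 5 399 527) (node 368 (merge (leaf 4 368 497) (node 369 (merge (leaf 6 336 337) (leaf 6 368 401))))))))))))) (merge (node 464 (merge (leaf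 6 432 433) (node 494 (merge (leaf 2 461 493) (node 497 (merge (leaf 2 462 466) (node 526 (merge (leaf 1 493 525) (node 498 (merge (leaf 1 494 527) (node 531 (merge (leaf 0 495 530) (node 499 (merge (leaf 3 464 500) (leaf 0 496 532))))))))))))))) (merge (node 464 (merge (node 466 (merge (leaf 1 463 467) (node 463 (merge (leaf 7 431 431) (leaf 1 462 494))))) (merge (node 431 (merge (leaf 7 431 463) (node 432 (merge (leaf 7 399 399) (node 400 (merge (leaf 5 399 527) (node 368 (merge (leaf 4 368 497) (node 369 (merge (leaf 6 336 337) (leaf 6 368 401))))))))))) (node 494 (merge (leaf 2 461 493) (node 497 (merge (leaf 2 462 466) (node 526 (merge (leaf 1 493 525) (node 498 (merge (leaf 1 494 527) (node 531 (merge (leaf 0 495 530) (node 499 (merge (leaf 3 464 500) (leaf 0 496 532)))))))))))))))) (node 497 (merge (node 466 (merge (leaf 2 462 494) (node 467 (merge (leaf 1 464 468) (leaf 2 463 498))))) (merge (node 494 (merge (leaf 2 462 466) (node 525 (merge (leaf 1 493 526) (node 493 (merge (leaf 1 492 524) (node 492 (merge (leaf 0 492 527) (node 460 (merge (leaf 3 459 459)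 (leaf 3 460 461))))))))))) (merge (node 463 (merge (node 431 (merge (leaf 4 399 399) (leaf 4 431 527))) (merge (node 498 (merge (leaf 3 462 462) (node 531 (merge (leaf 0 495 530) (node 499 (merge (leaf 1 495 527) (leaf 0 496 532))))))) (node 462 (merge (leaf 3 462 498) (node 461 (merge (leaf 0 460 460) (leaf 3 461 494)))))))) (node 463 (merge (node 431 (merge (leaf 4 399 399) (leaf 4 431 527))) (merge (node 498 (merge (leaf 3 462 462) (node 531 (merge (leaf 0 495 530) (node 499 (merge (leaf 1 495 527) (leaf 0 496 532))))))) (node 498 (merge (leaf 3 462 462) (node 530 (merge (leaf 0 495 531) (node 466 (merge (leaf 2 463 467) (node 562 (merge (leaf 7 433 433) (leaf 7 465 594))))))))))))))))))))) (merge (node 497 (merge (node 433 (merge (leaf 5 400 401) (leaf 5 432 529))) (merge (node 495 (merge (node 494 (merge (leaf 2 462 466) (node 530 (merge (leaf 0 494 529) (node 498 (merge (leaf 0 495 531) (node 462 (merge (leaf 3 461 461) (leaf 3 462 463))))))))) (merge (node 494 (merge (leaf 2 462 466) (node 525 (merge (leaf 1 493 526) (node 493 (merge (leaf 1 492 524) (node 492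 (merge (leaf 0 492 527) (node 460 (merge (leaf 3 459 459) (leaf 3 460 461))))))))))) (merge (node 463 (merge (node 431 (merge (leaf 4 399 399) (leaf 4 431 527))) (merge (node 498 (merge (leaf 3 462 462) (node 531 (merge (leaf 0 495 530) (node 499 (merge (leaf 1 495 527) (leaf 0 496 532))))))) (node 498 (merge (leaf 3 462 462) (node 531 (merge (leaf 0 495 530) (node 499 (merge (leaf 0 496 532) (node 500 (merge (leaf 1 496 529) (node 466 (merge (leaf 2 463 467) (leaf 3 465 501)))))))))))))) (node 526 (merge (node 525 (merge (leaf 1 493 494) (leaf 2 493 527))) (merge (node 494 (merge (leaf 1 493 525) (node 462 (merge (leaf 3 461 461) (node 463 (merge (leaf 3 462 498) (node 558 (merge (leaf 6 430 431) (leaf 6 462 590))))))))) (node 498 (merge (leaf 1 494 527) (node 531 (merge (leaf 0 495 530) (node 499 (merge (leaf 0 496 532) (node 500 (merge (leaf 1 496 529) (node 468 (merge (leaf 2 464 467) (leaf 2 465 469)))))))))))))))))) (node 495 (merge (node 466 (merge (leaf 2 462 494) (node 467 (merge (leaf 1 464 468) (leaf 2 463 498))))) (merge (node 494 (merge (leaf 2 462 466)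 (node 525 (merge (leaf 1 493 526) (node 493 (merge (leaf 1 492 524) (node 492 (merge (leaf 0 492 527) (node 460 (merge (leaf 3 459 459) (leaf 3 460 461))))))))))) (merge (node 463 (merge (node 431 (merge (leaf 4 399 399) (leaf 4 431 527))) (merge (node 498 (merge (leaf 3 462 462) (node 531 (merge (leaf 0 495 530) (node 499 (merge (leaf 1 495 527) (leaf 0 496 532))))))) (node 462 (merge (leaf 3 462 498) (node 461 (merge (leaf 0 460 460) (leaf 3 461 494)))))))) (node 463 (merge (node 431 (merge (leaf 4 399 399) (leaf 4 431 527))) (merge (node 498 (merge (leaf 3 462 462) (node 531 (merge (leaf 0 495 530) (node 499 (merge (leaf 1 495 527) (leaf 0 496 532))))))) (node 498 (merge (leaf 3 462 462) (node 530 (merge (leaf 0 495 531) (node 466 (merge (leaf 2 463 467) (node 562 (merge (leaf 7 433 433) (leaf 7 465 594))))))))))))))))))) (node 495 (merge (node 464 (merge (node 466 (merge (leaf 1 463 467) (node 463 (merge (leaf 7 431 431) (leaf 1 462 494))))) (merge (node 561 (merge (leaf 4 464 593) (node 432 (merge (leaf 4 432 529) (node 400 (merge (leaf 5 399 527) (node 399 (merge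 (leaf 7 367 367) (leaf 7 399 431))))))))) (node 466 (merge (leaf 1 463 467) (node 494 (merge (leaf 1 462 463) (leaf 2 461 493)))))))) (merge (node 494 (merge (node 529 (merge (leaf 0 493 493) (node 530 (merge (leaf 3 494 527) (leaf 3 495 531))))) (merge (node 493 (merge (leaf 0 493 529) (node 524 (merge (leaf 1 492 525) (node 492 (merge (leaf 1 491 523) (node 460 (merge (leaf 3 459 459) (leaf 3 460 461))))))))) (merge (node 493 (merge (leaf 2 461 464) (node 492 (merge (leaf 0 492 527) (node 524 (merge (leaf 1 491 523) (leaf 1 492 525))))))) (node 497 (merge (leaf 2 462 466) (node 530 (merge (leaf 0 494 529) (node 498 (merge (leaf 0 495 531) (node 526 (merge (leaf 1 493 525) (leaf 1 494 527))))))))))))) (merge (node 494 (merge (node 529 (merge (leaf 0 493 493) (node 530 (merge (leaf 3 494 527) (leaf 3 495 531))))) (merge (node 493 (merge (leaf 0 493 529) (node 524 (merge (leaf 1 492 525) (node 492 (merge (leaf 1 491 523) (node 460 (merge (leaf 3 459 459) (leaf 3 460 461))))))))) (node 497 (merge (leaf 2 462 466) (node 462 (merge (leaf 3 461 461) (node 498 (merge (leaf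 3 462 463) (node 531 (merge (leaf 0 495 530) (node 499 (merge (leaf 1 495 527) (leaf 0 496 532)))))))))))))) (merge (node 464 (merge (node 466 (merge (leaf 1 463 467) (node 463 (merge (leaf 7 431 431) (leaf 1 462 494))))) (merge (node 431 (merge (leaf 7 431 463) (node 432 (merge (leaf 7 399 399) (node 400 (merge (leaf 5 399 527) (node 368 (merge (leaf 4 368 497) (node 369 (merge (leaf 6 336 337) (leaf 6 368 401))))))))))) (node 494 (merge (leaf 2 461 493) (node 497 (merge (leaf 2 462 466) (node 526 (merge (leaf 1 493 525) (node 498 (merge (leaf 1 494 527) (node 531 (merge (leaf 0 495 530) (node 499 (merge (leaf 3 464 500) (leaf 0 496 532)))))))))))))))) (merge (node 464 (merge (node 561 (merge (leaf 4 464 593) (node 432 (merge (leaf 4 432 529) (node 400 (merge (leaf 5 399 527) (node 399 (merge (leaf 7 367 367) (leaf 7 399 431))))))))) (merge (node 431 (merge (leaf 7 431 463) (node 432 (merge (leaf 7 399 399) (node 400 (merge (leaf 5 399 527) (node 368 (merge (leaf 4 368 497) (node 369 (merge (leaf 6 336 337) (leaf 6 368 401))))))))))) (merge (node 561 (merge (leaf 4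 464 593) (node 432 (merge (leaf 4 432 529) (node 400 (merge (leaf 5 399 527) (node 368 (merge (leaf 5 367 463) (leaf 4 368 497))))))))) (node 466 (merge (leaf 1 463 467) (node 561 (merge (leaf 4 464 593) (node 463 (merge (leaf 7 431 431) (node 498 (merge (leaf 0 463 499) (node 434 (merge (leaf 2 431 435) (node 529 (merge (leaf 6 433 497) (leaf 5 433 530))))))))))))))))) (merge (node 464 (merge (node 466 (merge (leaf 1 463 467) (node 463 (merge (leaf 7 431 431) (leaf 1 462 494))))) (merge (node 561 (merge (leaf 4 464 593) (node 529 (merge (leaf 4 432 432) (node 494 (merge (leaf 0 493 493) (node 530 (merge (leaf 0 494 497) (leaf 3 495 531))))))))) (merge (node 466 (merge (leaf 1 463 467) (node 494 (merge (leaf 2 461 493) (leaf 2 462 497))))) (merge (node 494 (merge (leaf 2 461 493) (node 466 (merge (leaf 1 462 463) (leaf 2 462 497))))) (node 466 (merge (leaf 1 463 467) (node 463 (merge (leaf 7 431 431) (node 498 (merge (leaf 0 463 499) (node 462 (merge (leaf 0 462 497) (node 461 (merge (leaf 0 460 460) (node 429 (merge (leaf 3 428 428) (leaf 3 429 430))))))))))))))))))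 (node 494 (merge (node 529 (merge (leaf 0 493 493) (node 530 (merge (leaf 3 494 527) (leaf 3 495 531))))) (merge (node 493 (merge (leaf 0 493 529) (node 464 (merge (leaf 2 461 465) (node 463 (merge (leaf 7 431 431) (leaf 2 460 492))))))) (merge (node 493 (merge (leaf 2 461 464) (node 492 (merge (leaf 0 492 527) (node 524 (merge (leaf 1 491 523) (leaf 1 492 525))))))) (node 526 (merge (node 525 (merge (leaf 1 493 497) (node 524 (merge (leaf 2 491 523) (leaf 2 492 527))))) (merge (node 497 (merge (leaf 1 493 525) (node 530 (merge (leaf 0 494 529) (node 498 (merge (leaf 0 495 531) (node 462 (merge (leaf 3 461 461) (leaf 3 462 463))))))))) (merge (node 527 (merge (node 497 (merge (leaf 1 494 498) (node 462 (merge (leaf 3 461 461) (node 430 (merge (leaf 4 398 398) (node 431 (merge (leaf 6 398 399) (leaf 4 431 463))))))))) (merge (node 529 (merge (leaf 3 494 530) (node 561 (merge (leaf 0 526 562) (node 593 (merge (leaf 4 464 464) (leaf 7 496 625))))))) (node 529 (merge (leaf 3 494 530) (node 561 (merge (leaf 0 526 562) (node 593 (merge (leaf 4 464 464) (leaf 7 496 625))))))))))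 (node 464 (merge (node 561 (merge (leaf 4 464 593) (node 432 (merge (leaf 4 432 529) (node 431 (merge (leaf 7 399 399) (leaf 7 431 463))))))) (merge (node 431 (merge (leaf 7 431 463) (node 432 (merge (leaf 7 399 399) (node 527 (merge (leaf 5 399 400) (node 525 (merge (leaf 2 492 524) (leaf 0 525 561))))))))) (merge (node 561 (merge (leaf 4 464 593) (node 527 (merge (leaf 0 525 525) (node 432 (merge (leaf 5 399 400) (leaf 4 432 529))))))) (merge (node 561 (merge (leaf 4 464 593) (node 432 (merge (leaf 4 432 529) (node 400 (merge (leaf 5 399 527) (node 368 (merge (leaf 5 367 463) (node 369 (merge (leaf 6 336 337) (leaf 6 368 401))))))))))) (merge (node 431 (merge (leaf 7 431 463) (node 432 (merge (leaf 7 399 399) (node 527 (merge (leaf 5 399 400) (node 525 (merge (leaf 2 492 524) (node 557 (merge (leaf 1 524 556) (node 529 (merge (leaf 3 494 530) (leaf 1 525 558))))))))))))) (node 561 (merge (leaf 4 464 593) (node 527 (merge (leaf 0 525 525) (node 529 (merge (leaf 3 494 530) (leaf 0 526 562))))))))))))))))))))))))))))))))) nD_12 cD_12 12 (by decide +kernel)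
def nD_13 : ℕ := 0x10000000100000001000000000000000000000000000000000000000000000000000000000000000000000000000000000000000000000000000000000000000000000000000000000000
def cD_13 : ℕ := 0x280000003c0000003e0000007c000003ff800001ef0000006f000000e800000060000000000000000000000000000000000000000000000000000000000000000000000000000000000000000000000000000000000000000000000000000
theorem lD_13 : S nD_13 cD_13 12 := S_of_chk [] trivial (node 593 (merge (node 624 (merge (node 657 (merge (leaf 4 528 625) (node 529 (merge (leaf 6 496 497) (node 656 (merge (leaf 6 528 561) (leaf 4 560 689))))))) (merge (node 657 (merge (leaf 4 528 625) (node 656 (merge (leaf 4 560 689) (node 655 (merge (leaf 5 527 623) (leaf 5 559 687))))))) (merge (node 529 (merge (leaf 6 496 497) (node 656 (merge (leaf 6 528 561) (node 655 (merge (leaf 5 527 623) (leaf 5 559 687))))))) (node 625 (merge (leaf 4 528 657) (node 623 (merge (leaf 5 527 655) (node 622 (merge (leaf 2 590 594) (leaf 2 589 621))))))))))) (merge (node 594 (merge (node 559 (merge (leaf 3 559 595) (node 558 (merge (leaf 0 557 557) (leaf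 3 558 591))))) (merge (node 595 (merge (leaf 3 559 559) (node 628 (merge (leaf 0 592 627) (node 596 (merge (leaf 3 560 561) (leaf 0 593 629))))))) (merge (node 591 (merge (node 623 (merge (leaf 1 590 622) (node 559 (merge (leaf 3 558 558) (leaf 6 527 655))))) (node 626 (merge (leaf 0 591 627) (node 590 (merge (leaf 0 590 625) (node 561 (merge (leaf 2 558 562) (leaf 2 557 589))))))))) (node 623 (merge (node 624 (merge (leaf 1 591 595) (leaf 5 527 655))) (node 591 (merge (leaf 1 590 622) (node 626 (merge (leaf 0 591 627) (node 590 (merge (leaf 0 590 625) (node 561 (merge (leaf 2 558 562) (leaf 2 557 589))))))))))))))) (merge (node 624 (merge (node 657 (merge (leaf 4 528 625) (node 656 (merge (leaf 4 560 689) (node 655 (merge (leaf 5 527 623) (leaf 5 559 687))))))) (merge (node 623 (merge (leaf 5 527 655) (node 622 (merge (leaf 2 589 621) (node 594 (merge (leaf 1 590 591) (leaf 1 591 595))))))) (node 657 (merge (leaf 4 528 625) (node 656 (merge (leaf 4 560 689) (node 559 (merge (leaf 7 527 527) (node 591 (merge (leaf 7 559 688) (node 594 (merge (leaf 3 558 558) (leaf 3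 559 595)))))))))))))) (merge (node 624 (merge (node 657 (merge (leaf 4 528 625) (node 529 (merge (leaf 6 496 497) (node 656 (merge (leaf 6 528 561) (leaf 4 560 689))))))) (merge (node 657 (merge (leaf 4 528 625) (node 656 (merge (leaf 4 560 689) (node 655 (merge (leaf 5 527 623) (leaf 5 559 687))))))) (merge (node 529 (merge (leaf 6 496 497) (node 656 (merge (leaf 6 528 561) (node 655 (merge (leaf 5 527 623) (leaf 5 559 687))))))) (node 625 (merge (leaf 4 528 657) (node 623 (merge (leaf 5 527 655) (node 622 (merge (leaf 2 589 621) (node 590 (merge (leaf 3 589 589) (node 626 (merge (leaf 0 590 591) (node 529 (merge (leaf 6 496 497) (node 561 (merge (leaf 4 529 658) (node 530 (merge (leaf 6 497 498) (node 559 (merge (leaf 1 527 531) (leaf 2 526 558))))))))))))))))))))))) (merge (node 624 (merge (node 623 (merge (leaf 5 527 655) (node 622 (merge (leaf 2 589 621) (node 594 (merge (leaf 1 590 591) (leaf 1 591 595))))))) (merge (node 529 (merge (leaf 6 496 497) (node 656 (merge (leaf 6 528 561) (node 655 (merge (leaf 5 527 623) (leaf 5 559 687))))))) (merge (node 529 (merge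 (leaf 6 496 497) (node 656 (merge (leaf 6 528 561) (node 689 (merge (leaf 4 560 657) (node 688 (merge (leaf 4 592 721) (node 687 (merge (leaf 5 559 655) (leaf 5 591 719))))))))))) (node 529 (merge (leaf 6 496 497) (node 656 (merge (leaf 6 528 561) (node 689 (merge (leaf 4 560 657) (node 688 (merge (leaf 4 592 721) (node 591 (merge (leaf 7 559 559) (node 720 (merge (leaf 7 591 623) (node 719 (merge (leaf 5 591 687) (leaf 5 623 751))))))))))))))))))) (merge (node 591 (merge (node 625 (merge (node 657 (merge (leaf 4 528 624) (leaf 7 560 689))) (merge (node 626 (merge (leaf 0 590 590) (node 627 (merge (leaf 3 591 624) (leaf 3 592 628))))) (node 626 (merge (leaf 0 590 590) (node 627 (merge (leaf 0 591 594) (leaf 3 592 628)))))))) (merge (node 590 (merge (node 561 (merge (leaf 2 558 562) (leaf 2 557 589))) (merge (node 621 (merge (leaf 1 589 622) (node 589 (merge (leaf 1 588 620) (node 557 (merge (leaf 3 556 556) (leaf 3 557 558))))))) (node 622 (merge (leaf 1 589 621) (node 558 (merge (leaf 3 557 557) (node 559 (merge (leaf 3 558 594) (node 654 (merge (leaf 6 526 527) (leaf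 6 558 686)))))))))))) (node 624 (merge (node 529 (merge (leaf 6 496 497) (node 656 (merge (leaf 6 528 561) (node 688 (merge (leaf 7 559 559) (node 687 (merge (leaf 5 559 655) (leaf 5 591 719))))))))) (merge (node 657 (merge (leaf 4 528 625) (node 656 (merge (leaf 4 560 689) (node 687 (merge (leaf 5 559 655) (node 688 (merge (leaf 6 560 561) (leaf 5 591 719))))))))) (merge (node 657 (merge (leaf 4 528 625) (node 656 (merge (leaf 4 560 689) (node 688 (merge (leaf 7 559 559) (node 687 (merge (leaf 5 559 655) (leaf 5 591 719))))))))) (node 625 (merge (leaf 4 528 657) (node 626 (merge (leaf 3 591 627) (node 529 (merge (leaf 6 496 497) (node 561 (merge (leaf 4 529 658) (node 530 (merge (leaf 6 497 498) (node 559 (merge (leaf 1 527 531) (leaf 2 526 558)))))))))))))))))))) (merge (node 591 (merge (node 622 (merge (node 623 (merge (leaf 1 590 594) (node 655 (merge (leaf 6 527 559) (leaf 6 559 687))))) (node 590 (merge (leaf 1 589 621) (node 561 (merge (leaf 2 558 562) (leaf 2 557 589))))))) (merge (node 590 (merge (node 561 (merge (leaf 2 558 562) (leaf 2 557 589))) (node 626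 (merge (leaf 0 590 625) (node 594 (merge (leaf 0 591 627) (node 558 (merge (leaf 3 557 557) (leaf 3 558 559))))))))) (merge (node 594 (merge (node 623 (merge (leaf 1 590 622) (node 559 (merge (leaf 3 558 558) (leaf 6 527 655))))) (merge (node 627 (merge (leaf 0 591 626) (node 595 (merge (leaf 3 559 559) (leaf 0 592 628))))) (node 626 (merge (leaf 0 591 627) (node 590 (merge (leaf 0 590 625) (node 622 (merge (leaf 1 589 621) (leaf 1 590 623)))))))))) (merge (node 590 (merge (node 561 (merge (leaf 2 558 562) (leaf 2 557 589))) (merge (node 621 (merge (leaf 1 589 622) (node 589 (merge (leaf 1 588 620) (node 557 (merge (leaf 3 556 556) (leaf 3 557 558))))))) (node 625 (merge (leaf 0 590 626) (node 561 (merge (leaf 2 558 562) (leaf 7 528 657)))))))) (node 657 (merge (node 625 (merge (leaf 7 528 561) (leaf 7 560 689))) (node 623 (merge (node 655 (merge (leaf 6 527 559) (leaf 6 559 687))) (merge (node 594 (merge (leaf 1 590 622) (node 627 (merge (leaf 0 591 626) (node 595 (merge (leaf 3 559 559) (leaf 0 592 628))))))) (node 622 (merge (leaf 1 590 594) (node 655 (merge (leaf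 6 559 687) (node 656 (merge (leaf 3 622 658) (node 654 (merge (leaf 3 621 621) (node 686 (merge (leaf 1 653 685) (leaf 6 590 718))))))))))))))))))))) (merge (node 591 (merge (node 625 (merge (node 657 (merge (leaf 7 528 561) (leaf 7 560 689))) (node 626 (merge (leaf 0 590 590) (node 627 (merge (leaf 3 591 624) (leaf 3 592 628))))))) (merge (node 590 (merge (node 561 (merge (leaf 2 558 562) (leaf 2 557 589))) (node 626 (merge (leaf 0 590 625) (node 594 (merge (leaf 0 591 627) (node 558 (merge (leaf 3 557 557) (leaf 3 558 559))))))))) (merge (node 625 (merge (node 657 (merge (leaf 4 528 624) (leaf 7 560 689))) (node 590 (merge (leaf 0 590 626) (node 557 (merge (leaf 3 557 558) (node 589 (merge (leaf 3 556 556) (node 620 (merge (leaf 1 588 621) (node 588 (merge (leaf 2 556 559) (leaf 1 587 619))))))))))))) (merge (node 590 (merge (node 561 (merge (leaf 2 558 562) (leaf 2 557 589))) (merge (node 557 (merge (leaf 3 557 558) (node 589 (merge (leaf 3 556 556) (node 588 (merge (leaf 2 556 559) (node 620 (merge (leaf 1 587 619) (leaf 1 588 621))))))))) (node 561 (merge (leaf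 2 558 562) (node 558 (merge (leaf 3 557 557) (node 594 (merge (leaf 0 558 559) (node 626 (merge (leaf 0 591 627) (node 529 (merge (leaf 4 497 497) (node 624 (merge (leaf 6 528 656) (node 623 (merge (leaf 1 591 595) (leaf 5 527 655)))))))))))))))))) (merge (node 590 (merge (node 561 (merge (leaf 2 558 562) (leaf 2 557 589))) (merge (node 558 (merge (leaf 3 557 557) (node 559 (merge (leaf 3 558 594) (node 589 (merge (leaf 2 556 588) (node 624 (merge (leaf 0 589 625) (node 656 (merge (leaf 7 559 688) (node 655 (merge (leaf 5 527 623) (leaf 5 559 687))))))))))))) (node 561 (merge (leaf 2 558 562) (node 657 (merge (leaf 7 528 625) (node 558 (merge (leaf 3 557 557) (node 594 (merge (leaf 0 558 559) (node 595 (merge (leaf 3 560 596) (node 624 (merge (leaf 1 591 623) (node 656 (merge (leaf 6 528 529) (leaf 4 560 689)))))))))))))))))) (node 624 (merge (node 657 (merge (leaf 4 528 625) (node 529 (merge (leaf 6 496 497) (node 656 (merge (leaf 6 528 561) (leaf 4 560 689))))))) (merge (node 529 (merge (leaf 6 496 497) (node 656 (merge (leaf 6 528 561) (node 688 (merge (leaf 7 559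 559) (node 687 (merge (leaf 5 559 655) (leaf 5 591 719))))))))) (merge (node 657 (merge (leaf 4 528 625) (node 656 (merge (leaf 4 560 689) (node 687 (merge (leaf 5 559 655) (node 688 (merge (leaf 6 560 561) (leaf 5 591 719))))))))) (merge (node 657 (merge (leaf 4 528 625) (node 656 (merge (leaf 4 560 689) (node 688 (merge (leaf 7 559 559) (node 623 (merge (leaf 5 527 655) (leaf 7 591 720))))))))) (node 625 (merge (leaf 4 528 657) (node 626 (merge (leaf 3 591 627) (node 529 (merge (leaf 6 496 497) (node 561 (merge (leaf 4 529 658) (node 530 (merge (leaf 6 497 498) (node 559 (merge (leaf 1 527 531) (leaf 2 526 558)))))))))))))))))))))))) (node 591 (merge (node 625 (merge (node 657 (merge (leaf 7 528 561) (leaf 7 560 689))) (node 626 (merge (leaf 0 590 590) (node 627 (merge (leaf 3 591 624) (leaf 3 592 628))))))) (merge (node 590 (merge (node 561 (merge (leaf 2 558 562) (leaf 2 557 589))) (node 626 (merge (leaf 0 590 625) (node 594 (merge (leaf 0 591 627) (node 558 (merge (leaf 3 557 557) (leaf 3 558 559))))))))) (merge (node 625 (merge (node 657 (merge (leaf 4 528 624)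 (leaf 7 560 689))) (node 590 (merge (leaf 0 590 626) (node 557 (merge (leaf 3 557 558) (node 589 (merge (leaf 3 556 556) (node 620 (merge (leaf 1 588 621) (node 588 (merge (leaf 2 556 559) (leaf 1 587 619))))))))))))) (merge (node 558 (merge (node 559 (merge (leaf 0 557 557) (leaf 3 558 594))) (merge (node 590 (merge (leaf 3 557 557) (node 561 (merge (leaf 2 558 562) (leaf 2 557 589))))) (node 594 (merge (leaf 3 558 559) (node 623 (merge (leaf 1 590 622) (node 595 (merge (leaf 1 591 624) (node 628 (merge (leaf 0 592 627) (node 596 (merge (leaf 3 560 561) (leaf 0 593 629)))))))))))))) (node 624 (merge (node 657 (merge (leaf 4 528 625) (node 529 (merge (leaf 6 496 497) (node 656 (merge (leaf 6 528 561) (leaf 4 560 689))))))) (merge (node 657 (merge (leaf 4 528 625) (node 656 (merge (leaf 4 560 689) (node 559 (merge (leaf 7 527 527) (node 591 (merge (leaf 7 559 688) (node 594 (merge (leaf 3 558 558) (leaf 3 559 595))))))))))) (merge (node 625 (merge (leaf 4 528 657) (node 626 (merge (leaf 3 591 627) (node 529 (merge (leaf 6 496 497) (node 561 (merge (leaf 4 529 658) (node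 530 (merge (leaf 6 497 498) (node 559 (merge (leaf 1 527 531) (leaf 2 526 558))))))))))))) (node 529 (merge (leaf 6 496 497) (node 656 (merge (leaf 6 528 561) (node 688 (merge (leaf 7 559 559) (node 720 (merge (leaf 7 591 623) (node 721 (merge (leaf 4 592 689) (leaf 4 624 753))))))))))))))))))))))))))))) nD_13 cD_13 12 (by decide +kernel)
def nD_14 : ℕ := 0x100000001000000000000000000000000000000000000000000000000000000000000000000000000000000000000000000000000000000000000000000000000000000000000
def cD_14 : ℕ := 0x280000003c0000003e0000007c000003ff800001ff8000006f000000ef00000076000000380000003800000038000000280000000000000000000000000000000000000000000000000000000000000000000000000000000000000000000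
theorem lD_14 : S nD_14 cD_14 13 := S_of_chk [(nD_13, cD_13, 12)] ⟨lD_13, trivial⟩ (node 592 (merge (node 624 (merge (node 657 (merge (leaf 4 528 625) (node 529 (merge (leaf 6 496 497) (node 656 (merge (leaf 6 528 561) (leaf 4 560 689))))))) (merge (node 657 (merge (leaf 4 528 625) (node 656 (merge (leaf 4 560 689) (node 655 (merge (leaf 5 527 623) (leaf 5 559 687))))))) (merge (node 529 (merge (leaf 6 496 497) (node 656 (merge (leaf 6 528 561) (node 655 (merge (leaf 5 527 623) (leaf 5 559 687))))))) (node 625 (merge (leaf 4 528 657) (node 593 (merge (leaf 4 496 496) (node 623 (merge (leaf 5 527 655) (node 622 (merge (leaf 2 590 594) (leaf 2 589 621))))))))))))) (merge (node 623 (merge (node 655 (merge (leaf 5 527 624) (node 591 (merge (leaf 6 527 559) (leaf 6 559 687))))) (merge (node 624 (merge (leaf 5 527 655) (node 625 (merge (leaf 4 528 657) (node 593 (merge (leaf 4 496 496) (node 622 (merge (leaf 2 590 594) (leaf 2 589 621))))))))) (node 496 (merge (leaf 5 495 591) (node 593 (merge (leaf 4 496 625) (node 464 (merge (leaf 4 464 561) (node 433 (merge (leaf 6 432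 465) (node 432 (merge (leaf 6 400 401) (node 431 (merge (leaf 7 399 399) (leaf 7 431 463)))))))))))))))) (merge (node 624 (merge (node 497 (merge (leaf 6 496 529) (node 496 (merge (leaf 6 464 465) (node 623 (merge (leaf 5 495 591) (leaf 5 527 655))))))) (merge (node 657 (merge (leaf 4 528 625) (node 656 (merge (leaf 4 560 689) (node 655 (merge (leaf 5 527 623) (leaf 5 559 687))))))) (merge (node 657 (merge (leaf 4 528 625) (node 656 (merge (leaf 4 560 689) (node 559 (merge (leaf 7 527 527) (node 688 (merge (leaf 7 559 591) (node 687 (merge (leaf 5 559 655) (leaf 5 591 719))))))))))) (node 625 (merge (leaf 4 528 657) (node 496 (merge (leaf 4 496 593) (node 497 (merge (leaf 6 464 465) (leaf 6 496 529))))))))))) (merge (node 624 (merge (node 497 (merge (leaf 6 496 529) (node 496 (merge (leaf 6 464 465) (node 623 (merge (leaf 5 495 591) (leaf 5 527 655))))))) (merge (node 529 (merge (leaf 6 496 497) (node 656 (merge (leaf 6 528 561) (node 655 (merge (leaf 5 527 623) (leaf 5 559 687))))))) (merge (node 655 (merge (leaf 5 527 623) (node 656 (merge (leaf 5 559 687) (node 559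 (merge (leaf 7 527 527) (node 688 (merge (leaf 7 559 591) (node 689 (merge (leaf 4 560 657) (leaf 4 592 721))))))))))) (node 529 (merge (leaf 6 496 497) (node 656 (merge (leaf 6 528 561) (node 559 (merge (leaf 7 527 527) (node 688 (merge (leaf 7 559 591) (node 689 (merge (leaf 4 560 657) (leaf 4 592 721))))))))))))))) (merge (node 623 (merge (node 655 (merge (leaf 5 527 624) (node 591 (merge (leaf 6 527 559) (leaf 6 559 687))))) (merge (node 496 (merge (leaf 5 495 591) (node 593 (merge (leaf 4 496 625) (node 464 (merge (leaf 4 464 561) (node 433 (merge (leaf 6 432 465) (node 432 (merge (leaf 6 400 401) (node 431 (merge (leaf 7 399 399) (leaf 7 431 463))))))))))))) (node 624 (merge (leaf 5 527 655) (node 497 (merge (leaf 6 496 529) (node 496 (merge (leaf 6 464 465) (node 593 (merge (leaf 4 496 625) (node 594 (merge (leaf 1 591 595) (node 561 (merge (leaf 4 464 464) (node 559 (merge (leaf 0 558 558) (node 656 (merge (leaf 7 527 527) (leaf 6 560 688)))))))))))))))))))) (merge (node 625 (merge (node 657 (merge (leaf 4 528 624) (node 593 (merge (leaf 7 528 561) (leaf 7 560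 689))))) (merge (node 496 (merge (leaf 4 496 593) (node 465 (merge (leaf 6 464 497) (node 464 (merge (leaf 6 432 433) (node 591 (merge (leaf 5 463 559) (leaf 5 495 623))))))))) (node 624 (merge (leaf 4 528 657) (node 529 (merge (leaf 6 496 497) (node 656 (merge (leaf 6 528 561) (node 559 (merge (leaf 7 527 527) (node 688 (merge (leaf 7 559 591) (node 721 (merge (leaf 4 592 689) (node 720 (merge (leaf 4 624 753) (node 719 (merge (leaf 5 591 687) (leaf 5 623 751)))))))))))))))))))) (merge (node 497 (merge (node 529 (merge (leaf 6 496 624) (node 465 (merge (leaf 5 432 433) (leaf 5 464 561))))) (merge (node 496 (merge (leaf 6 464 465) (node 625 (merge (leaf 4 496 593) (node 624 (merge (leaf 6 496 529) (leaf 4 528 657))))))) (merge (node 496 (merge (leaf 6 464 465) (node 593 (merge (leaf 4 496 625) (node 464 (merge (leaf 4 464 561) (node 559 (merge (leaf 5 463 591) (node 432 (merge (leaf 5 431 527) (node 401 (merge (leaf 6 400 433) (node 400 (merge (leaf 6 368 369) (node 399 (merge (leaf 7 367 367) (leaf 7 399 431))))))))))))))))) (node 624 (merge (leaf 6 496 529) (node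 657 (merge (leaf 4 528 625) (node 656 (merge (leaf 4 560 689) (node 559 (merge (leaf 7 527 527) (node 688 (merge (leaf 7 559 591) (node 687 (merge (leaf 5 559 655) (leaf 5 591 719))))))))))))))))) (merge (node 559 (merge (node 496 (merge (node 593 (merge (leaf 4 496 625) (node 558 (merge (leaf 0 557 557) (node 591 (merge (leaf 3 558 594) (leaf 5 495 623))))))) (merge (node 465 (merge (leaf 6 464 497) (node 464 (merge (leaf 6 432 433) (node 591 (merge (leaf 5 463 559) (leaf 5 495 623))))))) (node 593 (merge (leaf 4 496 625) (node 464 (merge (leaf 4 464 561) (node 465 (merge (leaf 6 432 433) (leaf 6 464 497)))))))))) (merge (node 558 (merge (node 557 (merge (leaf 2 525 529) (leaf 0 557 593))) (merge (node 529 (merge (leaf 2 525 557) (node 530 (merge (leaf 1 526 527) (leaf 1 527 531))))) (merge (node 557 (merge (leaf 0 557 593) (node 588 (merge (leaf 1 556 589) (node 556 (merge (leaf 2 524 527) (leaf 1 555 587))))))) (node 561 (merge (node 530 (merge (leaf 2 526 529) (node 562 (merge (leaf 2 527 531) (node 526 (merge (leaf 3 525 525) (leaf 3 526 527))))))) (merge (node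 593 (merge (leaf 0 558 594) (node 625 (merge (leaf 7 528 657) (node 529 (merge (leaf 7 496 496) (leaf 2 526 530))))))) (node 593 (merge (leaf 0 558 594) (node 625 (merge (leaf 4 496 496) (leaf 7 528 657)))))))))))) (merge (node 496 (merge (node 591 (merge (leaf 5 463 464) (node 623 (merge (leaf 6 495 527) (leaf 6 527 655))))) (merge (node 593 (merge (leaf 4 496 625) (node 464 (merge (leaf 4 464 561) (node 465 (merge (leaf 6 432 433) (leaf 6 464 497))))))) (node 593 (merge (leaf 4 496 625) (node 594 (merge (leaf 3 559 595) (node 591 (merge (leaf 5 495 623) (node 626 (merge (leaf 0 591 627) (node 497 (merge (leaf 6 464 465) (node 529 (merge (leaf 4 497 561) (node 530 (merge (leaf 1 527 531) (leaf 7 497 562)))))))))))))))))) (merge (node 558 (merge (node 557 (merge (leaf 2 525 529) (leaf 0 557 593))) (merge (node 557 (merge (leaf 0 557 593) (node 588 (merge (leaf 1 556 589) (node 556 (merge (leaf 2 524 527) (leaf 1 555 587))))))) (node 561 (merge (node 590 (merge (leaf 1 557 589) (node 591 (merge (leaf 1 558 562) (node 623 (merge (leaf 5 495 496) (leaf 6 527 655)))))))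 (merge (node 530 (merge (leaf 2 526 529) (node 562 (merge (leaf 2 527 531) (node 526 (merge (leaf 3 525 525) (leaf 3 526 527))))))) (node 590 (merge (leaf 1 557 589) (node 529 (merge (leaf 2 526 530) (node 526 (merge (leaf 3 525 525) (node 497 (merge (leaf 5 464 465) (node 527 (merge (leaf 2 494 498) (node 494 (merge (leaf 3 493 493) (node 623 (merge (leaf 4 494 591) (node 622 (merge (leaf 6 526 654) (leaf 4 526 655))))))))))))))))))))))) (merge (node 558 (merge (node 557 (merge (leaf 2 525 529) (leaf 0 557 593))) (merge (node 529 (merge (leaf 2 525 557) (node 530 (merge (leaf 1 526 527) (leaf 1 527 531))))) (merge (node 557 (merge (leaf 0 557 593) (node 588 (merge (leaf 1 556 589) (node 556 (merge (leaf 2 524 527) (leaf 1 555 587))))))) (node 561 (merge (node 530 (merge (leaf 2 526 529) (node 562 (merge (leaf 2 527 531) (node 526 (merge (leaf 3 525 525) (leaf 3 526 527))))))) (merge (node 590 (merge (leaf 1 557 589) (node 591 (merge (leaf 1 558 562) (node 526 (merge (leaf 3 525 525) (node 623 (merge (leaf 4 494 494) (leaf 7 526 655))))))))) (merge (node 594 (merge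 (leaf 0 558 593) (node 562 (merge (leaf 0 559 595) (node 590 (merge (leaf 1 557 589) (leaf 1 558 591))))))) (node 590 (merge (leaf 1 557 589) (node 529 (merge (leaf 2 526 530) (node 526 (merge (leaf 3 525 525) (node 497 (merge (leaf 5 464 465) (node 527 (merge (leaf 2 494 498) (node 494 (merge (leaf 3 493 493) (node 623 (merge (leaf 4 494 591) (node 622 (merge (leaf 6 526 654) (leaf 4 526 655))))))))))))))))))))))))) (merge (node 561 (merge (node 558 (merge (node 529 (merge (leaf 2 526 530) (leaf 2 525 557))) (node 590 (merge (leaf 1 557 589) (node 591 (merge (leaf 1 558 562) (node 623 (merge (leaf 5 495 496) (leaf 6 527 655))))))))) (merge (node 526 (merge (node 527 (merge (leaf 0 525 525) (leaf 3 526 562))) (merge (node 558 (merge (leaf 3 525 525) (node 529 (merge (leaf 2 526 530) (leaf 2 525 557))))) (node 562 (merge (leaf 3 526 527) (node 594 (merge (leaf 0 559 595) (node 530 (merge (leaf 2 527 531) (node 529 (merge (leaf 2 526 558) (node 497 (merge (leaf 4 465 465) (leaf 7 497 626)))))))))))))) (merge (node 591 (merge (node 623 (merge (leaf 6 527 655) (node 527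 (merge (leaf 6 495 496) (node 526 (merge (leaf 7 494 494) (leaf 0 525 525))))))) (merge (node 590 (merge (leaf 1 558 562) (node 589 (merge (leaf 2 556 588) (leaf 2 557 592))))) (node 590 (merge (leaf 1 558 562) (node 589 (merge (leaf 2 556 588) (leaf 2 557 592)))))))) (node 558 (merge (node 529 (merge (leaf 2 526 530) (leaf 2 525 557))) (merge (node 525 (merge (leaf 3 525 526) (node 557 (merge (leaf 3 524 524) (node 556 (merge (leaf 2 524 527) (node 588 (merge (leaf 1 555 587) (leaf 1 556 589))))))))) (node 590 (merge (leaf 1 557 589) (node 529 (merge (leaf 2 526 530) (node 526 (merge (leaf 3 525 525) (node 497 (merge (leaf 5 464 465) (node 527 (merge (leaf 2 494 498) (node 494 (merge (leaf 3 493 493) (node 623 (merge (leaf 4 494 591) (node 622 (merge (leaf 6 526 654) (leaf 4 526 655)))))))))))))))))))))))) (node 496 (merge (node 593 (merge (leaf 4 496 625) (node 558 (merge (leaf 0 557 557) (node 591 (merge (leaf 3 558 594) (leaf 5 495 623))))))) (node 465 (merge (leaf 6 464 497) (node 464 (merge (leaf 6 432 433) (node 432 (merge (leaf 5 431 527) (node 431 (merge (leaf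 7 399 399) (leaf 7 431 463)))))))))))))))))) (hyp 0)))))))))) nD_14 cD_14 13 (by decide +kernel)
def nD_15 : ℕ := 0x100000001000000000000000000000000000000000000000000000000000000000000000000000000000000000000000000000000000000000000000000000000000000000000
def cD_15 : ℕ := 0x80000000e0000002e0000003e000000ff8000006f000000e78000007f000000ff8000007e0000003e0000000e0000000800000000000000000000000000000000000000000000000000000000000000000000000000000000000
theorem lD_15 : S nD_15 cD_15 13 := S_of_chk [] trivial (node 496 (merge (node 465 (merge (node 433 (merge (leaf 6 432 464) (node 497 (merge (leaf 5 400 401) (leaf 5 432 529))))) (merge (node 497 (merge (leaf 6 464 592) (node 433 (merge (leaf 5 400 401) (leaf 5 432 529))))) (merge (node 592 (merge (leaf 6 464 497) (node 593 (merge (leaf 4 496 625) (node 464 (merge (leaf 4 464 561) (node 463 (merge (leaf 7 431 431) (leaf 7 463 495))))))))) (node 464 (merge (leaf 6 432 433) (node 593 (merge (leaf 4 464 561) (node 592 (merge (leaf 4 496 625) (node 463 (merge (leaf 7 431 431) (leaf 7 463 495))))))))))))) (merge (node 465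 (merge (node 433 (merge (leaf 6 432 464) (node 497 (merge (leaf 5 400 401) (leaf 5 432 529))))) (merge (node 497 (merge (leaf 6 464 592) (node 433 (merge (leaf 5 400 401) (leaf 5 432 529))))) (merge (node 592 (merge (leaf 6 464 497) (node 591 (merge (leaf 5 495 623) (node 464 (merge (leaf 5 463 559) (node 463 (merge (leaf 7 431 431) (leaf 7 463 495))))))))) (node 464 (merge (leaf 6 432 433) (node 591 (merge (leaf 5 463 559) (node 463 (merge (leaf 7 431 431) (node 592 (merge (leaf 7 463 495) (leaf 5 495 623))))))))))))) (merge (node 592 (merge (node 625 (merge (leaf 4 496 593) (node 624 (merge (leaf 4 528 657) (node 623 (merge (leaf 5 495 591) (leaf 5 527 655))))))) (merge (node 625 (merge (leaf 4 496 593) (node 497 (merge (leaf 6 464 465) (node 624 (merge (leaf 6 496 529) (leaf 4 528 657))))))) (merge (node 497 (merge (leaf 6 464 465) (node 624 (merge (leaf 6 496 529) (node 623 (merge (leaf 5 495 591) (leaf 5 527 655))))))) (node 593 (merge (leaf 4 496 625) (node 464 (merge (leaf 4 464 561) (node 591 (merge (leaf 5 463 559) (leaf 5 495 623))))))))))) (merge (node 592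 (merge (node 625 (merge (leaf 4 496 593) (node 624 (merge (leaf 4 528 657) (node 623 (merge (leaf 5 495 591) (leaf 5 527 655))))))) (merge (node 591 (merge (leaf 5 495 623) (node 464 (merge (leaf 5 463 559) (node 433 (merge (leaf 6 432 465) (node 432 (merge (leaf 6 400 401) (node 431 (merge (leaf 7 399 399) (leaf 7 431 463))))))))))) (node 593 (merge (leaf 4 496 625) (node 464 (merge (leaf 4 464 561) (node 433 (merge (leaf 6 432 465) (node 432 (merge (leaf 6 400 401) (node 431 (merge (leaf 7 399 399) (leaf 7 431 463)))))))))))))) (merge (node 592 (merge (node 593 (merge (leaf 4 496 625) (node 464 (merge (leaf 4 464 561) (node 463 (merge (leaf 7 431 431) (leaf 7 463 495))))))) (merge (node 625 (merge (leaf 4 496 593) (node 624 (merge (leaf 4 528 657) (node 623 (merge (leaf 5 495 591) (leaf 5 527 655))))))) (node 591 (merge (leaf 5 495 623) (node 464 (merge (leaf 5 463 559) (node 431 (merge (leaf 7 431 463) (node 432 (merge (leaf 7 399 399) (node 529 (merge (leaf 4 432 561) (node 497 (merge (leaf 4 400 400) (leaf 6 496 624)))))))))))))))) (merge (node 559 (merge (node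 464 (merge (leaf 5 463 591) (node 561 (merge (leaf 4 464 593) (node 432 (merge (leaf 4 432 529) (node 433 (merge (leaf 6 400 401) (leaf 6 432 465))))))))) (merge (node 464 (merge (leaf 5 463 591) (node 433 (merge (leaf 6 432 465) (node 432 (merge (leaf 6 400 401) (node 431 (merge (leaf 7 399 399) (leaf 7 431 463))))))))) (merge (node 558 (merge (node 529 (merge (leaf 2 525 557) (node 561 (merge (leaf 2 526 530) (node 593 (merge (leaf 0 558 594) (leaf 7 496 625))))))) (merge (node 557 (merge (leaf 2 525 529) (node 588 (merge (leaf 1 556 589) (node 556 (merge (leaf 1 555 587) (node 524 (merge (leaf 3 523 523) (leaf 3 524 525))))))))) (merge (node 561 (merge (node 530 (merge (leaf 2 526 529) (node 562 (merge (leaf 2 527 531) (node 590 (merge (leaf 1 557 589) (leaf 1 558 591))))))) (merge (node 594 (merge (leaf 0 558 593) (node 562 (merge (leaf 0 559 595) (node 530 (merge (leaf 2 526 529) (leaf 2 527 531))))))) (merge (node 594 (merge (leaf 0 558 593) (node 562 (merge (leaf 0 559 595) (node 590 (merge (leaf 1 557 589) (leaf 1 558 591))))))) (node 593 (merge (leaf 0 558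 594) (node 625 (merge (leaf 7 528 657) (node 529 (merge (leaf 7 496 496) (leaf 2 526 530))))))))))) (node 526 (merge (node 525 (merge (leaf 3 525 561) (node 524 (merge (leaf 0 523 523) (leaf 3 524 557))))) (merge (node 561 (merge (leaf 3 525 525) (node 594 (merge (leaf 0 558 593) (node 562 (merge (leaf 0 559 595) (node 590 (merge (leaf 1 557 589) (leaf 1 558 591))))))))) (merge (node 494 (merge (node 591 (merge (leaf 4 462 462) (node 623 (merge (leaf 4 494 590) (leaf 7 526 655))))) (merge (node 462 (merge (leaf 4 462 591) (node 461 (merge (leaf 7 429 429) (node 495 (merge (leaf 3 461 497) (node 460 (merge (leaf 0 459 459) (leaf 0 460 463))))))))) (node 525 (merge (node 524 (merge (leaf 0 523 523) (leaf 3 524 557))) (merge (node 495 (merge (leaf 1 493 497) (node 524 (merge (leaf 1 492 493) (leaf 2 491 523))))) (node 495 (merge (leaf 1 493 497) (node 590 (merge (leaf 6 462 463) (node 622 (merge (leaf 7 493 493) (node 654 (merge (leaf 7 525 557) (node 653 (merge (leaf 5 525 621) (leaf 5 557 685))))))))))))))))) (node 590 (merge (node 589 (merge (leaf 1 557 561) (node 588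 (merge (leaf 1 556 557) (leaf 2 555 587))))) (node 622 (merge (node 655 (merge (leaf 4 526 623) (node 654 (merge (leaf 4 558 687) (node 653 (merge (leaf 5 525 621) (leaf 5 557 685))))))) (merge (node 623 (merge (leaf 4 526 655) (node 494 (merge (leaf 4 494 591) (node 463 (merge (leaf 6 462 495) (node 462 (merge (leaf 6 430 431) (node 461 (merge (leaf 7 429 429) (leaf 7 461 493))))))))))) (merge (node 653 (merge (leaf 5 525 621) (node 654 (merge (leaf 5 557 685) (node 591 (merge (leaf 6 558 686) (node 494 (merge (leaf 4 462 462) (leaf 4 494 623))))))))) (node 653 (merge (leaf 5 525 621) (node 654 (merge (leaf 5 557 685) (node 687 (merge (leaf 4 558 655) (node 686 (merge (leaf 6 558 591) (leaf 4 590 719))))))))))))))))))))))) (node 558 (merge (node 529 (merge (leaf 2 525 557) (node 561 (merge (leaf 2 526 530) (node 593 (merge (leaf 0 558 594) (leaf 7 496 625))))))) (merge (node 557 (merge (leaf 2 525 529) (node 588 (merge (leaf 1 556 589) (node 556 (merge (leaf 1 555 587) (node 524 (merge (leaf 3 523 523) (leaf 3 524 525))))))))) (merge (node 561 (merge (node 589 (merge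 (leaf 1 557 590) (node 557 (merge (leaf 1 556 588) (node 525 (merge (leaf 3 524 524) (leaf 3 525 526))))))) (node 464 (merge (leaf 4 464 593) (node 433 (merge (leaf 6 432 465) (node 432 (merge (leaf 6 400 401) (node 431 (merge (leaf 7 399 399) (leaf 7 431 463))))))))))) (node 561 (merge (node 464 (merge (leaf 4 464 593) (node 433 (merge (leaf 6 432 465) (node 432 (merge (leaf 6 400 401) (node 431 (merge (leaf 7 399 399) (leaf 7 431 463))))))))) (merge (node 593 (merge (leaf 0 558 594) (node 625 (merge (leaf 7 528 657) (node 529 (merge (leaf 7 496 496) (leaf 2 526 530))))))) (node 590 (merge (leaf 1 557 589) (node 529 (merge (leaf 2 526 530) (node 526 (merge (leaf 3 525 525) (node 464 (merge (leaf 4 432 432) (node 465 (merge (leaf 6 432 433) (node 463 (merge (leaf 7 431 431) (node 494 (merge (leaf 6 462 495) (node 493 (merge (leaf 7 461 461) (leaf 1 461 462)))))))))))))))))))))))))))) (node 495 (merge (node 592 (merge (leaf 7 463 463) (node 625 (merge (leaf 4 496 593) (node 624 (merge (leaf 4 528 657) (node 623 (merge (leaf 5 495 591) (leaf 5 527 655))))))))) (merge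 (node 497 (merge (node 592 (merge (leaf 7 463 463) (leaf 6 464 465))) (merge (node 465 (merge (leaf 6 464 592) (node 433 (merge (leaf 5 400 401) (leaf 5 432 529))))) (merge (node 494 (merge (node 465 (merge (leaf 2 462 466) (node 433 (merge (leaf 5 400 401) (leaf 5 432 529))))) (merge (node 529 (merge (leaf 0 493 493) (leaf 0 494 530))) (node 466 (merge (leaf 2 462 465) (node 498 (merge (leaf 2 463 467) (node 462 (merge (leaf 3 461 461) (leaf 3 462 463)))))))))) (node 463 (merge (leaf 7 463 592) (node 498 (merge (leaf 3 462 462) (node 530 (merge (leaf 0 495 531) (node 529 (merge (leaf 0 494 494) (node 466 (merge (leaf 2 463 467) (node 561 (merge (leaf 5 433 434) (leaf 6 465 593))))))))))))))))) (merge (node 497 (merge (node 592 (merge (leaf 6 464 465) (node 625 (merge (leaf 4 496 593) (node 624 (merge (leaf 4 528 657) (node 623 (merge (leaf 5 495 591) (leaf 5 527 655))))))))) (merge (node 494 (merge (node 529 (merge (leaf 0 493 493) (leaf 0 494 530))) (merge (node 529 (merge (leaf 0 493 493) (leaf 0 494 530))) (merge (node 525 (merge (leaf 1 493 526) (node 493 (merge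 (leaf 1 492 524) (node 461 (merge (leaf 3 460 460) (leaf 3 461 462))))))) (node 529 (merge (leaf 0 494 530) (node 526 (merge (leaf 1 493 525) (node 462 (merge (leaf 3 461 461) (node 592 (merge (leaf 6 496 624) (node 593 (merge (leaf 4 496 625) (node 591 (merge (leaf 5 495 623) (node 558 (merge (leaf 4 462 559) (node 557 (merge (leaf 5 461 589) (leaf 3 557 590))))))))))))))))))))) (node 530 (merge (node 531 (merge (leaf 0 495 498) (leaf 3 495 529))) (merge (node 498 (merge (leaf 0 495 531) (node 466 (merge (leaf 2 463 467) (node 465 (merge (leaf 2 462 494) (node 562 (merge (leaf 7 433 433) (leaf 7 465 594))))))))) (node 494 (merge (leaf 0 494 529) (node 525 (merge (leaf 1 493 526) (node 493 (merge (leaf 1 492 524) (node 461 (merge (leaf 3 460 460) (leaf 3 461 462))))))))))))))) (node 494 (merge (node 529 (merge (leaf 0 493 493) (node 530 (merge (leaf 0 494 497) (leaf 3 495 531))))) (merge (node 493 (merge (leaf 0 493 529) (node 524 (merge (leaf 1 492 525) (node 492 (merge (leaf 1 491 523) (node 460 (merge (leaf 3 459 459) (leaf 3 460 461))))))))) (merge (node 497 (merge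 (node 465 (merge (leaf 2 462 466) (node 433 (merge (leaf 5 400 401) (leaf 5 432 529))))) (merge (node 530 (merge (leaf 0 494 529) (node 498 (merge (leaf 0 495 531) (node 462 (merge (leaf 3 461 461) (leaf 3 462 463))))))) (node 466 (merge (leaf 2 462 465) (node 498 (merge (leaf 2 463 467) (node 462 (merge (leaf 3 461 461) (leaf 3 462 463)))))))))) (node 526 (merge (node 525 (merge (leaf 1 493 497) (node 524 (merge (leaf 1 492 493) (leaf 2 491 523))))) (merge (node 497 (merge (leaf 1 493 525) (node 466 (merge (leaf 2 462 465) (node 498 (merge (leaf 2 463 467) (node 462 (merge (leaf 3 461 461) (leaf 3 462 463))))))))) (merge (node 558 (merge (node 463 (merge (leaf 6 462 590) (node 431 (merge (leaf 5 398 399) (leaf 6 430 462))))) (merge (node 590 (merge (leaf 6 462 463) (node 623 (merge (leaf 4 494 591) (node 622 (merge (leaf 4 526 655) (node 493 (merge (leaf 7 461 461) (leaf 7 493 525))))))))) (node 525 (merge (node 524 (merge (leaf 1 492 493) (leaf 2 491 523))) (merge (node 559 (merge (leaf 3 525 561) (node 557 (merge (leaf 3 524 524) (node 462 (merge (leaf 5 429 430)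 (leaf 4 462 591))))))) (node 559 (merge (leaf 3 525 561) (node 462 (merge (leaf 4 462 591) (node 557 (merge (leaf 5 429 430) (leaf 5 461 589))))))))))))) (node 462 (merge (node 497 (merge (leaf 3 461 461) (node 466 (merge (leaf 2 462 465) (node 498 (merge (leaf 3 462 463) (leaf 2 463 467))))))) (merge (node 461 (merge (leaf 3 461 497) (node 558 (merge (leaf 7 429 429) (node 589 (merge (leaf 5 461 557) (node 590 (merge (leaf 7 461 493) (leaf 5 493 621))))))))) (node 430 (merge (node 399 (merge (leaf 6 398 431) (node 398 (merge (leaf 6 366 367) (node 397 (merge (leaf 7 365 365) (leaf 7 397 429))))))) (merge (node 431 (merge (leaf 6 398 399) (node 558 (merge (leaf 6 430 463) (node 591 (merge (leaf 4 462 559) (node 590 (merge (leaf 4 494 623) (node 589 (merge (leaf 5 461 557) (leaf 5 493 621))))))))))) (merge (node 397 (merge (leaf 7 397 429) (node 398 (merge (leaf 7 365 365) (node 463 (merge (leaf 4 366 366) (node 558 (merge (leaf 6 430 431) (leaf 6 462 590))))))))) (node 397 (merge (leaf 7 397 429) (node 398 (merge (leaf 7 365 365) (node 366 (merge (leaf 4 366 463) (node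 367 (merge (leaf 6 334 335) (leaf 6 366 399))))))))))))))))))))))))))))))))))) nD_15 cD_15 13 (by decide +kernel)
def nD_16 : ℕ := 0x100000001000000010000000000000000000000000000000000000000000000000000000000000000000000000000000000000000000000000000000000000000000000000000
def cD_16 : ℕ := 0xa0000000e0000000f000003efc00001ef800001ff800000fe0000007e0000007e0000002800000000000000000000000000000000000000000000000000000000000000000000000000000000000
theorem lD_16 : S nD_16 cD_16 11 := S_of_chk [] trivial (node 495 (merge (node 464 (merge (node 465 (merge (leaf 6 432 433) (node 466 (merge (leaf 1 463 467) (node 463 (merge (leaf 7 431 431) (leaf 1 462 494))))))) (merge (node 559 (merge (leaf 5 463 591) (node 432 (merge (leaf 5 431 527) (node 431 (merge (leaf 7 399 399) (leaf 7 431 463))))))) (node 433 (merge (leaf 6 432 465) (node 432 (merge (leaf 6 400 401) (node 559 (merge (leaf 5 431 527) (leaf 5 463 591)))))))))) (merge (node 494 (merge (node 529 (merge (leaf 0 493 493) (node 530 (merge (leaf 0 494 497) (leaf 3 495 531))))) (merge (node 493 (merge (leaf 0 493 529) (node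 464 (merge (leaf 2 461 465) (node 463 (merge (leaf 7 431 431) (leaf 2 460 492))))))) (merge (node 497 (merge (node 465 (merge (leaf 2 462 466) (node 433 (merge (leaf 5 400 401) (leaf 5 432 529))))) (merge (node 530 (merge (leaf 0 494 529) (node 498 (merge (leaf 0 495 531) (node 462 (merge (leaf 3 461 461) (leaf 3 462 463))))))) (node 466 (merge (leaf 2 462 465) (node 498 (merge (leaf 2 463 467) (node 462 (merge (leaf 3 461 461) (leaf 3 462 463)))))))))) (node 464 (merge (node 465 (merge (leaf 6 432 433) (leaf 2 461 493))) (merge (node 465 (merge (leaf 6 432 433) (node 463 (merge (leaf 7 431 431) (leaf 1 462 466))))) (node 463 (merge (leaf 7 431 431) (node 493 (merge (leaf 2 460 492) (node 525 (merge (leaf 1 492 524) (node 497 (merge (leaf 1 493 526) (node 461 (merge (leaf 3 460 460) (leaf 0 461 462)))))))))))))))))) (merge (node 464 (merge (node 433 (merge (leaf 6 432 465) (node 432 (merge (leaf 6 400 401) (node 559 (merge (leaf 5 431 527) (leaf 5 463 591))))))) (merge (node 465 (merge (leaf 6 432 433) (node 494 (merge (leaf 2 461 493) (node 466 (merge (leaf 1 462 463)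 (leaf 2 462 497))))))) (node 529 (merge (node 494 (merge (leaf 0 493 493) (node 530 (merge (leaf 0 494 497) (leaf 3 495 531))))) (merge (node 559 (merge (leaf 5 463 591) (node 558 (merge (leaf 2 525 557) (node 530 (merge (leaf 1 526 527) (leaf 1 527 531))))))) (node 559 (merge (leaf 5 463 591) (node 432 (merge (leaf 5 431 527) (node 400 (merge (leaf 4 400 497) (node 368 (merge (leaf 5 367 463) (node 369 (merge (leaf 6 336 337) (leaf 6 368 401))))))))))))))))) (merge (node 494 (merge (node 529 (merge (leaf 0 493 493) (node 530 (merge (leaf 3 494 527) (leaf 3 495 531))))) (merge (node 493 (merge (leaf 0 493 529) (node 525 (merge (leaf 1 492 524) (node 497 (merge (leaf 1 493 526) (node 461 (merge (leaf 3 460 460) (leaf 3 461 462))))))))) (merge (node 497 (merge (node 465 (merge (leaf 2 462 466) (node 433 (merge (leaf 5 400 401) (node 560 (merge (leaf 6 432 464) (leaf 5 432 529))))))) (merge (node 530 (merge (leaf 0 494 529) (node 498 (merge (leaf 0 495 531) (node 526 (merge (leaf 1 493 525) (leaf 1 494 527))))))) (node 526 (merge (leaf 1 493 525) (node 498 (merge (leaf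 1 494 527) (node 531 (merge (leaf 0 495 530) (node 499 (merge (leaf 0 496 532) (node 467 (merge (leaf 2 463 466) (leaf 2 464 468)))))))))))))) (node 525 (merge (node 526 (merge (leaf 1 493 497) (node 524 (merge (leaf 2 491 523) (leaf 2 492 527))))) (merge (node 497 (merge (leaf 1 493 526) (node 465 (merge (leaf 2 462 466) (node 464 (merge (leaf 6 432 433) (leaf 2 461 493))))))) (node 493 (merge (leaf 1 492 524) (node 464 (merge (leaf 2 461 465) (node 559 (merge (leaf 5 463 591) (node 432 (merge (leaf 5 431 527) (node 401 (merge (leaf 6 400 433) (node 400 (merge (leaf 6 368 369) (node 399 (merge (leaf 7 367 367) (leaf 7 399 431)))))))))))))))))))))) (merge (node 494 (merge (node 529 (merge (leaf 0 493 493) (node 530 (merge (leaf 3 494 527) (leaf 3 495 531))))) (merge (node 493 (merge (leaf 0 493 529) (node 525 (merge (leaf 1 492 524) (node 497 (merge (leaf 1 493 526) (node 461 (merge (leaf 3 460 460) (leaf 3 461 462))))))))) (merge (node 497 (merge (node 465 (merge (leaf 2 462 466) (node 433 (merge (leaf 5 400 401) (leaf 5 432 529))))) (merge (node 466 (merge (leaf 2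 462 465) (node 498 (merge (leaf 2 463 467) (node 462 (merge (leaf 3 461 461) (leaf 3 462 463))))))) (node 462 (merge (leaf 3 461 461) (node 498 (merge (leaf 3 462 463) (node 499 (merge (leaf 1 495 527) (node 532 (merge (leaf 0 496 531) (node 500 (merge (leaf 1 496 529) (leaf 0 497 533)))))))))))))) (node 497 (merge (node 466 (merge (leaf 2 462 465) (node 498 (merge (leaf 2 463 467) (node 462 (merge (leaf 3 461 461) (leaf 3 462 463))))))) (merge (node 525 (merge (leaf 1 493 526) (node 493 (merge (leaf 1 492 524) (node 492 (merge (leaf 0 492 527) (node 460 (merge (leaf 3 459 459) (leaf 3 460 461))))))))) (merge (node 525 (merge (leaf 1 493 526) (node 493 (merge (leaf 1 492 524) (node 527 (merge (leaf 0 492 492) (node 498 (merge (leaf 1 495 499) (node 463 (merge (leaf 4 431 431) (leaf 3 462 462))))))))))) (node 462 (merge (leaf 3 461 461) (node 498 (merge (leaf 3 462 463) (node 531 (merge (leaf 0 495 530) (node 499 (merge (leaf 1 495 527) (leaf 0 496 532))))))))))))))))) (merge (node 463 (merge (node 431 (merge (leaf 4 399 399) (leaf 7 431 464))) (merge (node 431 (merge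 (leaf 4 399 399) (leaf 4 431 527))) (node 494 (merge (node 493 (merge (leaf 0 493 529) (node 464 (merge (leaf 2 461 465) (leaf 2 460 492))))) (merge (node 493 (merge (leaf 0 493 529) (node 525 (merge (leaf 1 492 524) (node 497 (merge (leaf 1 493 526) (node 466 (merge (leaf 2 462 465) (node 498 (merge (leaf 3 462 462) (leaf 2 463 467))))))))))) (merge (node 493 (merge (leaf 0 493 529) (node 460 (merge (leaf 3 460 461) (node 492 (merge (leaf 3 459 459) (node 523 (merge (leaf 1 491 524) (node 491 (merge (leaf 2 459 462) (leaf 1 490 522))))))))))) (merge (node 461 (merge (node 462 (merge (leaf 3 461 497) (node 460 (merge (leaf 0 459 459) (leaf 0 460 463))))) (merge (node 493 (merge (leaf 3 460 460) (node 492 (merge (leaf 0 492 527) (node 524 (merge (leaf 1 491 523) (leaf 1 492 525))))))) (node 497 (merge (leaf 3 461 462) (node 466 (merge (leaf 2 462 465) (node 498 (merge (leaf 2 463 467) (node 531 (merge (leaf 0 495 530) (node 499 (merge (leaf 1 495 527) (leaf 0 496 532)))))))))))))) (node 497 (merge (node 466 (merge (leaf 2 462 465) (node 498 (merge (leaf 2 463 467) (node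 462 (merge (leaf 3 461 461) (leaf 3 462 463))))))) (merge (node 530 (merge (leaf 0 494 529) (node 498 (merge (leaf 0 495 531) (node 526 (merge (leaf 1 493 525) (leaf 1 494 527))))))) (node 526 (merge (leaf 1 493 525) (node 462 (merge (leaf 3 461 461) (node 558 (merge (leaf 6 462 590) (node 559 (merge (leaf 4 462 591) (node 557 (merge (leaf 2 525 529) (leaf 5 461 589)))))))))))))))))))))) (merge (node 464 (merge (node 559 (merge (leaf 5 463 591) (node 432 (merge (leaf 5 431 527) (node 431 (merge (leaf 7 399 399) (leaf 7 431 463))))))) (merge (node 433 (merge (leaf 6 432 465) (node 432 (merge (leaf 6 400 401) (node 559 (merge (leaf 5 431 527) (leaf 5 463 591))))))) (node 465 (merge (leaf 6 432 433) (node 466 (merge (leaf 1 463 467) (node 463 (merge (leaf 7 431 431) (node 498 (merge (leaf 0 463 499) (node 497 (merge (leaf 0 462 462) (node 434 (merge (leaf 2 431 435) (node 402 (merge (leaf 5 369 370) (leaf 5 401 529)))))))))))))))))) (merge (node 494 (merge (node 529 (merge (leaf 0 493 493) (node 530 (merge (leaf 0 494 497) (leaf 3 495 531))))) (merge (node 493 (merge (leaf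 0 493 529) (node 464 (merge (leaf 2 461 465) (node 463 (merge (leaf 7 431 431) (leaf 2 460 492))))))) (merge (node 493 (merge (node 492 (merge (leaf 0 492 527) (node 464 (merge (leaf 2 460 463) (leaf 2 461 465))))) (merge (node 525 (merge (leaf 1 492 524) (node 497 (merge (leaf 1 493 526) (node 461 (merge (leaf 3 460 460) (leaf 3 461 462))))))) (merge (node 492 (merge (leaf 0 492 527) (node 523 (merge (leaf 1 491 524) (node 491 (merge (leaf 1 490 522) (node 463 (merge (leaf 2 459 462) (leaf 2 460 464))))))))) (node 527 (merge (leaf 0 492 492) (node 525 (merge (leaf 1 492 524) (node 497 (merge (leaf 1 493 526) (node 498 (merge (leaf 1 495 499) (node 462 (merge (leaf 3 461 461) (leaf 3 462 463))))))))))))))) (node 559 (merge (node 591 (merge (leaf 5 463 464) (node 527 (merge (leaf 7 462 462) (leaf 6 495 623))))) (merge (node 464 (merge (leaf 5 463 591) (node 432 (merge (leaf 5 431 527) (node 401 (merge (leaf 6 400 433) (node 400 (merge (leaf 6 368 369) (node 399 (merge (leaf 7 367 367) (leaf 7 399 431))))))))))) (merge (node 464 (merge (leaf 5 463 591) (node 433 (merge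 (leaf 6 432 465) (node 432 (merge (leaf 6 400 401) (node 431 (merge (leaf 7 399 399) (leaf 7 431 463))))))))) (merge (node 527 (merge (node 591 (merge (leaf 7 462 462) (leaf 6 495 623))) (merge (node 463 (merge (leaf 4 431 431) (node 558 (merge (leaf 5 462 590) (node 529 (merge (leaf 1 526 530) (leaf 2 525 557))))))) (node 463 (merge (leaf 4 431 431) (node 558 (merge (leaf 5 462 590) (node 557 (merge (leaf 2 525 529) (leaf 2 524 556)))))))))) (node 497 (merge (node 530 (merge (leaf 0 494 529) (node 498 (merge (leaf 0 495 531) (node 462 (merge (leaf 3 461 461) (leaf 3 462 463))))))) (merge (node 530 (merge (leaf 0 494 529) (node 498 (merge (leaf 0 495 531) (node 526 (merge (leaf 1 493 525) (leaf 1 494 527))))))) (node 526 (merge (leaf 1 493 525) (node 462 (merge (leaf 3 461 461) (node 430 (merge (leaf 4 430 527) (node 431 (merge (leaf 6 398 399) (node 463 (merge (leaf 7 431 464) (leaf 6 430 558))))))))))))))))))))))) (node 494 (merge (node 529 (merge (leaf 0 493 493) (node 530 (merge (leaf 3 494 527) (leaf 3 495 531))))) (merge (node 493 (merge (leaf 0 493 529) (node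 525 (merge (leaf 1 492 524) (node 497 (merge (leaf 1 493 526) (node 461 (merge (leaf 3 460 460) (leaf 3 461 462))))))))) (merge (node 525 (merge (node 524 (merge (leaf 1 492 493) (node 526 (merge (leaf 1 493 497) (leaf 2 491 523))))) (merge (node 493 (merge (leaf 1 492 524) (node 461 (merge (leaf 3 460 460) (node 462 (merge (leaf 3 461 497) (node 557 (merge (leaf 6 429 430) (leaf 6 461 589))))))))) (merge (node 497 (merge (leaf 1 493 526) (node 462 (merge (leaf 3 461 461) (node 498 (merge (leaf 3 462 463) (node 531 (merge (leaf 0 495 530) (node 499 (merge (leaf 1 495 527) (leaf 0 496 532))))))))))) (node 493 (merge (leaf 1 492 524) (node 492 (merge (leaf 0 492 527) (node 460 (merge (leaf 3 459 459) (leaf 3 460 461))))))))))) (node 526 (merge (node 525 (merge (leaf 1 493 497) (node 524 (merge (leaf 2 491 523) (leaf 2 492 527))))) (merge (node 497 (merge (leaf 1 493 525) (node 530 (merge (leaf 0 494 529) (node 498 (merge (leaf 0 495 531) (node 462 (merge (leaf 3 461 461) (leaf 3 462 463))))))))) (merge (node 462 (merge (node 497 (merge (leaf 3 461 461) (node 530 (merge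 (leaf 0 494 529) (node 498 (merge (leaf 1 494 527) (leaf 0 495 531))))))) (node 430 (merge (node 399 (merge (leaf 6 398 431) (node 398 (merge (leaf 6 366 367) (node 397 (merge (leaf 7 365 365) (leaf 7 397 429))))))) (merge (node 431 (merge (leaf 6 398 399) (node 558 (merge (leaf 6 430 463) (node 591 (merge (leaf 4 462 559) (node 590 (merge (leaf 4 494 623) (node 589 (merge (leaf 5 461 557) (leaf 5 493 621))))))))))) (merge (node 397 (merge (leaf 7 397 429) (node 398 (merge (leaf 7 365 365) (node 463 (merge (leaf 4 366 366) (node 558 (merge (leaf 6 430 431) (leaf 6 462 590))))))))) (node 397 (merge (leaf 7 397 429) (node 398 (merge (leaf 7 365 365) (node 366 (merge (leaf 4 366 463) (node 367 (merge (leaf 6 334 335) (leaf 6 366 399))))))))))))))) (node 464 (merge (node 559 (merge (leaf 5 463 591) (node 432 (merge (leaf 5 431 527) (node 401 (merge (leaf 6 400 433) (node 400 (merge (leaf 6 368 369) (node 399 (merge (leaf 7 367 367) (leaf 7 399 431))))))))))) (merge (node 559 (merge (leaf 5 463 591) (node 463 (merge (leaf 7 431 431) (node 558 (merge (leaf 6 462 590) (node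 557 (merge (leaf 2 525 529) (node 462 (merge (leaf 5 461 589) (node 461 (merge (leaf 7 429 429) (leaf 0 460 460))))))))))))) (merge (node 431 (merge (leaf 7 431 463) (node 432 (merge (leaf 7 399 399) (node 527 (merge (leaf 5 399 400) (node 525 (merge (leaf 2 492 524) (node 557 (merge (leaf 1 524 556) (node 529 (merge (leaf 3 494 530) (leaf 1 525 558))))))))))))) (node 559 (merge (leaf 5 463 591) (node 432 (merge (leaf 5 431 527) (node 401 (merge (leaf 6 400 433) (node 400 (merge (leaf 6 368 369) (node 368 (merge (leaf 5 367 463) (node 367 (merge (leaf 7 335 335) (leaf 7 367 399)))))))))))))))))))))))))))))))))) nD_16 cD_16 11 (by decide +kernel)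
def nD_17 : ℕ := 0x100000001000000000000000000000000000000000000000000000000000000000000000000000000000000000000000000000000000000000000000000000000000000000000
def cD_17 : ℕ := 0x2c0000007f000001fe0000006e000007ef000007fe00000fff000000f4000000f8000000f80000002800000000000000000000000000000000000000000000000000000000000000000000000000000000000
theorem lD_17 : S nD_17 cD_17 13 := S_of_chk [] trivial (node 496 (merge (node 592 (merge (node 625 (merge (leaf 4 496 593) (node 624 (merge (leaf 4 528 657) (node 623 (merge (leaf 5 495 591) (leaf 5 527 655))))))) (merge (node 625 (merge (leaf 4 496 593) (node 624 (merge (leaf 4 528 657) (node 495 (merge (leaf 7 463 463) (leaf 7 495 527))))))) (merge (node 623 (merge (leaf 5 495 591) (node 495 (merge (leaf 7 463 463) (node 624 (merge (leaf 7 495 527) (leaf 5 527 655))))))) (node 593 (merge (leaf 4 496 625) (node 591 (merge (leaf 5 495 623) (node 559 (merge (leaf 5 463 464) (node 594 (merge (leaf 3 558 558) (leaf 3 559 595))))))))))))) (merge (node 465 (merge (node 433 (merge (leaf 6 432 464) (node 497 (merge (leaf 5 400 401)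 (leaf 5 432 529))))) (merge (node 592 (merge (leaf 6 464 497) (node 623 (merge (leaf 5 495 591) (node 495 (merge (leaf 7 463 463) (node 624 (merge (leaf 7 495 527) (leaf 5 527 655))))))))) (node 464 (merge (leaf 6 432 433) (node 591 (merge (leaf 5 463 559) (node 592 (merge (leaf 5 495 623) (node 495 (merge (leaf 7 463 463) (node 527 (merge (leaf 7 495 624) (node 432 (merge (leaf 5 399 400) (node 529 (merge (leaf 4 432 561) (node 530 (merge (leaf 3 494 494) (leaf 3 495 531)))))))))))))))))))) (merge (node 592 (merge (node 625 (merge (leaf 4 496 593) (node 624 (merge (leaf 4 528 657) (node 623 (merge (leaf 5 495 591) (leaf 5 527 655))))))) (merge (node 625 (merge (leaf 4 496 593) (node 497 (merge (leaf 6 464 465) (node 624 (merge (leaf 6 496 529) (leaf 4 528 657))))))) (merge (node 497 (merge (leaf 6 464 465) (node 624 (merge (leaf 6 496 529) (node 623 (merge (leaf 5 495 591) (leaf 5 527 655))))))) (node 593 (merge (leaf 4 496 625) (node 561 (merge (leaf 4 464 464) (node 591 (merge (leaf 5 495 623) (node 590 (merge (leaf 2 558 562) (leaf 2 557 589))))))))))))) (merge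 (node 465 (merge (node 497 (merge (leaf 6 464 592) (node 433 (merge (leaf 5 400 401) (leaf 5 432 529))))) (merge (node 592 (merge (leaf 6 464 497) (node 625 (merge (leaf 4 496 593) (node 624 (merge (leaf 4 528 657) (node 495 (merge (leaf 7 463 463) (leaf 7 495 527))))))))) (node 464 (merge (leaf 6 432 433) (node 561 (merge (leaf 4 464 593) (node 432 (merge (leaf 4 432 529) (node 527 (merge (leaf 5 431 559) (node 400 (merge (leaf 5 399 495) (node 369 (merge (leaf 6 368 401) (node 368 (merge (leaf 6 336 337) (node 367 (merge (leaf 7 335 335) (leaf 7 367 399)))))))))))))))))))) (merge (node 559 (merge (node 591 (merge (leaf 5 463 464) (node 623 (merge (leaf 6 495 527) (leaf 6 527 655))))) (merge (node 464 (merge (leaf 5 463 591) (node 561 (merge (leaf 4 464 593) (node 529 (merge (leaf 4 432 432) (node 558 (merge (leaf 2 526 530) (leaf 2 525 557))))))))) (merge (node 561 (merge (node 593 (merge (leaf 4 464 464) (node 625 (merge (leaf 7 496 529) (leaf 7 528 657))))) (merge (node 526 (merge (node 527 (merge (leaf 0 525 525) (leaf 3 526 562))) (merge (node 558 (merge (leaf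 3 525 525) (node 529 (merge (leaf 2 526 530) (leaf 2 525 557))))) (node 562 (merge (leaf 3 526 527) (node 594 (merge (leaf 0 559 595) (node 558 (merge (leaf 0 558 593) (node 530 (merge (leaf 2 526 529) (leaf 2 527 531)))))))))))) (merge (node 593 (merge (leaf 4 464 464) (node 558 (merge (leaf 0 558 594) (node 590 (merge (leaf 1 557 589) (node 526 (merge (leaf 3 525 525) (node 527 (merge (leaf 3 526 562) (node 622 (merge (leaf 6 494 495) (leaf 6 526 654))))))))))))) (node 558 (merge (node 529 (merge (leaf 2 526 530) (leaf 2 525 557))) (merge (node 530 (merge (leaf 2 526 529) (node 562 (merge (leaf 2 527 531) (node 526 (merge (leaf 3 525 525) (leaf 3 526 527))))))) (node 590 (merge (leaf 1 557 589) (node 526 (merge (leaf 3 525 525) (node 527 (merge (leaf 3 526 562) (node 622 (merge (leaf 6 494 495) (leaf 6 526 654)))))))))))))))) (node 529 (merge (node 558 (merge (leaf 2 525 557) (node 530 (merge (leaf 1 526 527) (leaf 1 527 531))))) (merge (node 558 (merge (leaf 2 525 557) (node 561 (merge (leaf 2 526 530) (node 593 (merge (leaf 0 558 594) (leaf 7 496 625))))))) (merge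 (node 558 (merge (leaf 2 525 557) (node 561 (merge (node 593 (merge (leaf 0 558 594) (leaf 7 496 625))) (node 590 (merge (leaf 1 557 589) (node 562 (merge (leaf 1 558 591) (node 526 (merge (leaf 3 525 525) (leaf 0 526 527))))))))))) (node 530 (merge (leaf 1 527 531) (node 527 (merge (node 498 (merge (leaf 2 495 499) (node 526 (merge (leaf 2 494 497) (node 561 (merge (leaf 0 525 525) (leaf 0 526 562))))))) (merge (node 494 (merge (leaf 3 494 495) (node 526 (merge (leaf 3 493 493) (node 561 (merge (leaf 0 525 525) (leaf 0 526 562))))))) (merge (node 498 (merge (leaf 2 495 499) (node 526 (merge (leaf 2 494 497) (node 525 (merge (leaf 0 524 524) (leaf 0 525 561))))))) (merge (node 498 (merge (leaf 2 495 499) (node 497 (merge (leaf 2 494 526) (node 495 (merge (leaf 0 494 494) (node 466 (merge (leaf 2 463 467) (node 434 (merge (leaf 5 401 402) (node 433 (merge (leaf 7 401 401) (leaf 5 432 465))))))))))))) (node 498 (merge (leaf 2 495 499) (node 495 (merge (leaf 3 494 494) (node 591 (merge (leaf 6 495 623) (node 590 (merge (leaf 5 494 622) (node 561 (merge (leaf 1 558 562)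 (node 466 (merge (leaf 5 433 434) (node 593 (merge (leaf 6 465 497) (leaf 6 497 625)))))))))))))))))))))))))))))) (node 497 (merge (node 465 (merge (leaf 6 464 592) (node 433 (merge (leaf 5 400 401) (leaf 5 432 529))))) (merge (node 592 (merge (leaf 6 464 465) (node 625 (merge (leaf 4 496 593) (node 624 (merge (leaf 4 528 657) (node 623 (merge (leaf 5 495 591) (leaf 5 527 655))))))))) (merge (node 498 (merge (node 527 (merge (leaf 1 495 499) (node 526 (merge (leaf 2 493 525) (leaf 2 494 529))))) (merge (node 499 (merge (leaf 1 495 527) (node 532 (merge (leaf 0 496 531) (node 500 (merge (leaf 0 497 533) (node 468 (merge (leaf 2 464 467) (leaf 2 465 469))))))))) (merge (node 467 (merge (node 495 (merge (leaf 2 463 466) (node 531 (merge (leaf 0 495 530) (node 499 (merge (leaf 2 464 468) (leaf 0 496 532))))))) (merge (node 499 (merge (leaf 2 464 468) (node 532 (merge (leaf 0 496 531) (node 500 (merge (leaf 1 496 529) (leaf 0 497 533))))))) (merge (node 495 (merge (leaf 2 463 466) (node 530 (merge (leaf 0 495 531) (node 494 (merge (leaf 0 494 529) (node 525 (merge (leaf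 1 493 526) (node 493 (merge (leaf 1 492 524) (node 461 (merge (leaf 3 460 460) (leaf 3 461 462))))))))))))) (node 499 (merge (leaf 2 464 468) (node 500 (merge (leaf 1 496 529) (node 533 (merge (leaf 0 497 532) (node 501 (merge (leaf 0 498 534) (node 470 (merge (leaf 2 466 469) (node 502 (merge (leaf 3 466 466) (leaf 2 467 471))))))))))))))))) (node 466 (merge (node 495 (merge (leaf 2 463 467) (node 494 (merge (leaf 2 462 465) (node 526 (merge (leaf 1 493 525) (leaf 1 494 527))))))) (merge (node 495 (merge (leaf 2 463 467) (node 530 (merge (leaf 0 495 531) (node 494 (merge (leaf 0 494 529) (node 525 (merge (leaf 1 493 526) (node 493 (merge (leaf 1 492 524) (node 461 (merge (leaf 3 460 460) (leaf 3 461 462))))))))))))) (merge (node 465 (merge (node 433 (merge (leaf 5 400 401) (leaf 5 432 529))) (merge (node 495 (merge (leaf 2 462 494) (node 530 (merge (leaf 0 495 531) (node 433 (merge (leaf 4 401 401) (leaf 7 433 562))))))) (node 495 (merge (leaf 2 462 494) (node 530 (merge (leaf 0 495 531) (node 562 (merge (leaf 7 465 594) (node 561 (merge (leaf 5 465 593) (node 434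 (merge (leaf 5 433 529) (node 402 (merge (leaf 5 369 370) (node 403 (merge (leaf 6 370 371) (leaf 6 402 435)))))))))))))))))) (node 529 (merge (node 561 (merge (leaf 6 465 593) (node 434 (merge (leaf 5 401 402) (leaf 5 433 530))))) (merge (node 561 (merge (leaf 6 465 593) (node 465 (merge (leaf 5 432 433) (leaf 6 433 434))))) (merge (node 434 (merge (leaf 5 401 402) (node 433 (merge (leaf 5 432 465) (node 530 (merge (leaf 7 401 401) (node 531 (merge (leaf 3 496 532) (leaf 1 527 559))))))))) (node 465 (merge (leaf 5 432 433) (node 467 (merge (leaf 1 464 468) (node 561 (merge (leaf 6 465 593) (node 562 (merge (leaf 4 465 594) (node 530 (merge (leaf 6 434 435) (node 531 (merge (leaf 1 528 532) (leaf 1 527 559))))))))))))))))))))))))) (node 498 (merge (node 527 (merge (leaf 1 495 499) (node 526 (merge (leaf 2 493 525) (leaf 2 494 529))))) (merge (node 499 (merge (leaf 1 495 527) (node 532 (merge (leaf 0 496 531) (node 500 (merge (leaf 0 497 533) (node 468 (merge (leaf 2 464 467) (leaf 2 465 469))))))))) (merge (node 467 (merge (node 495 (merge (leaf 2 463 466) (node 531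 (merge (leaf 0 495 530) (node 499 (merge (leaf 2 464 468) (leaf 0 496 532))))))) (merge (node 499 (merge (leaf 2 464 468) (node 532 (merge (leaf 0 496 531) (node 500 (merge (leaf 1 496 529) (leaf 0 497 533))))))) (merge (node 495 (merge (leaf 2 463 466) (node 530 (merge (leaf 0 495 531) (node 494 (merge (leaf 0 494 529) (node 525 (merge (leaf 1 493 526) (node 493 (merge (leaf 1 492 524) (node 461 (merge (leaf 3 460 460) (leaf 3 461 462))))))))))))) (node 499 (merge (leaf 2 464 468) (node 500 (merge (leaf 1 496 529) (node 533 (merge (leaf 0 497 532) (node 501 (merge (leaf 0 498 534) (node 470 (merge (leaf 2 466 469) (node 502 (merge (leaf 3 466 466) (leaf 2 467 471))))))))))))))))) (node 529 (merge (node 592 (merge (leaf 6 496 624) (node 593 (merge (leaf 4 496 625) (node 561 (merge (leaf 6 465 466) (node 594 (merge (leaf 4 497 626) (node 595 (merge (leaf 3 559 559) (leaf 3 560 596))))))))))) (merge (node 495 (merge (node 530 (merge (leaf 0 494 494) (leaf 0 495 531))) (merge (node 494 (merge (leaf 0 493 493) (node 526 (merge (leaf 1 493 525) (leaf 1 494 527))))) (node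 530 (merge (leaf 0 495 531) (node 466 (merge (leaf 2 463 467) (node 561 (merge (leaf 5 433 434) (leaf 6 465 593)))))))))) (merge (node 558 (merge (node 559 (merge (leaf 2 525 557) (node 530 (merge (leaf 1 526 527) (leaf 1 527 531))))) (merge (node 557 (merge (leaf 2 525 559) (node 592 (merge (leaf 6 496 624) (node 593 (merge (leaf 4 496 625) (node 591 (merge (leaf 3 557 590) (leaf 5 495 623))))))))) (merge (node 527 (merge (leaf 2 494 526) (node 530 (merge (leaf 1 526 559) (node 531 (merge (leaf 0 495 495) (leaf 3 496 532))))))) (node 526 (merge (leaf 2 494 527) (node 592 (merge (leaf 6 496 624) (node 593 (merge (leaf 4 496 625) (node 591 (merge (leaf 5 495 623) (node 590 (merge (leaf 3 557 557) (node 621 (merge (leaf 1 589 622) (node 589 (merge (leaf 5 493 494) (leaf 1 588 620))))))))))))))))))) (node 495 (merge (node 530 (merge (leaf 0 495 531) (node 466 (merge (leaf 2 463 467) (node 434 (merge (leaf 5 401 402) (leaf 5 433 561))))))) (node 494 (merge (leaf 0 493 493) (node 526 (merge (leaf 1 493 525) (node 527 (merge (leaf 1 494 498) (node 462 (merge (leaf 3 461 461)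 (node 559 (merge (leaf 4 430 430) (leaf 7 462 591))))))))))))))))))))))))))))))) nD_17 cD_17 13 (by decide +kernel)
def nD_18 : ℕ := 0x100000001000000000000000000000000000000000000000000000000000000000000000000000000000000000000000000000000000000000000000000000000000000000000
def cD_18 : ℕ := 0x20000000380000003c0000007f000001fe0000006e000007ef000007fe00000ff7000000fc000000f8000000f80000000000000000000000000000000000000000000000000000000000000000000000000000000000000000000
theorem lD_18 : S nD_18 cD_18 13 := S_of_chk [] trivial (node 496 (merge (node 464 (merge (node 433 (merge (leaf 6 432 465) (node 432 (merge (leaf 6 400 401) (node 559 (merge (leaf 5 431 527) (leaf 5 463 591))))))) (merge (node 465 (merge (leaf 6 432 433) (node 592 (merge (leaf 6 464 497) (node 591 (merge (leaf 5 463 559) (leaf 5 495 623))))))) (merge (node 559 (merge (leaf 5 463 591) (node 432 (merge (leaf 5 431 527) (node 529 (merge (leaf 4 432 561) (node 400 (merge (leaf 4 400 497) (node 399 (merge (leaf 7 367 367) (leaf 7 399 431))))))))))) (node 433 (merge (leaf 6 432 465) (node 432 (merge (leaf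 6 400 401) (node 529 (merge (leaf 4 432 561) (node 400 (merge (leaf 4 400 497) (node 399 (merge (leaf 7 367 367) (leaf 7 399 431))))))))))))))) (merge (node 465 (merge (node 497 (merge (leaf 6 464 592) (node 433 (merge (leaf 5 400 401) (leaf 5 432 529))))) (merge (node 464 (merge (leaf 6 432 433) (node 561 (merge (leaf 4 464 593) (node 432 (merge (leaf 4 432 529) (node 559 (merge (leaf 5 431 527) (leaf 5 463 591))))))))) (node 592 (merge (leaf 6 464 497) (node 593 (merge (leaf 4 496 625) (node 464 (merge (leaf 4 464 561) (node 559 (merge (leaf 5 463 591) (node 527 (merge (leaf 5 431 432) (node 624 (merge (leaf 7 495 495) (leaf 7 527 656)))))))))))))))) (merge (node 464 (merge (node 465 (merge (leaf 6 432 433) (node 592 (merge (leaf 6 464 497) (node 591 (merge (leaf 5 463 559) (leaf 5 495 623))))))) (merge (node 433 (merge (leaf 6 432 465) (node 432 (merge (leaf 6 400 401) (node 527 (merge (leaf 5 431 559) (node 400 (merge (leaf 5 399 495) (node 399 (merge (leaf 7 367 367) (leaf 7 399 431))))))))))) (merge (node 559 (merge (leaf 5 463 591) (node 432 (merge (leaf 5 431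 527) (node 401 (merge (leaf 6 400 433) (node 400 (merge (leaf 6 368 369) (node 399 (merge (leaf 7 367 367) (leaf 7 399 431))))))))))) (merge (node 559 (merge (leaf 5 463 591) (node 432 (merge (leaf 5 431 527) (node 399 (merge (leaf 7 399 431) (node 400 (merge (leaf 7 367 367) (node 497 (merge (leaf 4 400 529) (node 465 (merge (leaf 4 368 368) (leaf 6 464 592))))))))))))) (node 465 (merge (leaf 6 432 433) (node 592 (merge (leaf 6 464 497) (node 625 (merge (leaf 4 496 593) (node 624 (merge (leaf 4 528 657) (node 623 (merge (leaf 5 495 591) (leaf 5 527 655)))))))))))))))) (merge (node 592 (merge (node 625 (merge (leaf 4 496 593) (node 624 (merge (leaf 4 528 657) (node 623 (merge (leaf 5 495 591) (leaf 5 527 655))))))) (merge (node 593 (merge (leaf 4 496 625) (node 464 (merge (leaf 4 464 561) (node 433 (merge (leaf 6 432 465) (node 432 (merge (leaf 6 400 401) (node 527 (merge (leaf 5 431 559) (node 495 (merge (leaf 5 399 400) (leaf 7 495 624))))))))))))) (merge (node 623 (merge (leaf 5 495 591) (node 624 (merge (leaf 5 527 655) (node 657 (merge (leaf 4 528 625) (node 656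 (merge (leaf 4 560 689) (node 527 (merge (leaf 7 495 495) (leaf 7 527 559))))))))))) (node 591 (merge (leaf 5 495 623) (node 464 (merge (leaf 5 463 559) (node 561 (merge (leaf 4 464 593) (node 432 (merge (leaf 4 432 529) (node 401 (merge (leaf 6 400 433) (node 400 (merge (leaf 6 368 369) (node 399 (merge (leaf 7 367 367) (leaf 7 399 431))))))))))))))))))) (merge (node 592 (merge (node 625 (merge (leaf 4 496 593) (node 624 (merge (leaf 4 528 657) (node 623 (merge (leaf 5 495 591) (leaf 5 527 655))))))) (merge (node 625 (merge (leaf 4 496 593) (node 497 (merge (leaf 6 464 465) (node 624 (merge (leaf 6 496 529) (leaf 4 528 657))))))) (merge (node 497 (merge (leaf 6 464 465) (node 624 (merge (leaf 6 496 529) (node 623 (merge (leaf 5 495 591) (leaf 5 527 655))))))) (node 593 (merge (leaf 4 496 625) (node 561 (merge (leaf 4 464 464) (node 591 (merge (leaf 5 495 623) (node 590 (merge (leaf 2 558 562) (leaf 2 557 589))))))))))))) (merge (node 592 (merge (node 625 (merge (leaf 4 496 593) (node 624 (merge (leaf 4 528 657) (node 623 (merge (leaf 5 495 591) (leaf 5 527 655)))))))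 (merge (node 625 (merge (leaf 4 496 593) (node 624 (merge (leaf 4 528 657) (node 655 (merge (leaf 5 527 623) (node 656 (merge (leaf 5 559 687) (node 527 (merge (leaf 7 495 495) (leaf 7 527 559))))))))))) (merge (node 623 (merge (leaf 5 495 591) (node 624 (merge (leaf 5 527 655) (node 657 (merge (leaf 4 528 625) (node 656 (merge (leaf 4 560 689) (node 527 (merge (leaf 7 495 495) (leaf 7 527 559))))))))))) (merge (node 623 (merge (leaf 5 495 591) (node 624 (merge (leaf 5 527 655) (node 527 (merge (leaf 7 495 495) (node 559 (merge (leaf 7 527 656) (node 464 (merge (leaf 5 431 432) (node 561 (merge (leaf 4 464 593) (node 526 (merge (leaf 0 525 525) (leaf 3 526 562))))))))))))))) (node 593 (merge (leaf 4 496 625) (node 464 (merge (leaf 4 464 561) (node 465 (merge (leaf 6 432 433) (leaf 6 464 497)))))))))))) (merge (node 592 (merge (node 625 (merge (leaf 4 496 593) (node 624 (merge (leaf 4 528 657) (node 623 (merge (leaf 5 495 591) (leaf 5 527 655))))))) (merge (node 623 (merge (leaf 5 495 591) (node 624 (merge (leaf 5 527 655) (node 657 (merge (leaf 4 528 625) (node 656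 (merge (leaf 4 560 689) (node 527 (merge (leaf 7 495 495) (leaf 7 527 559))))))))))) (merge (node 623 (merge (leaf 5 495 591) (node 624 (merge (leaf 5 527 655) (node 527 (merge (leaf 7 495 495) (node 656 (merge (leaf 7 527 559) (node 689 (merge (leaf 4 560 657) (node 688 (merge (leaf 4 592 721) (node 561 (merge (leaf 6 528 529) (leaf 6 560 593))))))))))))))) (merge (node 624 (merge (node 657 (merge (leaf 4 528 625) (node 656 (merge (leaf 4 560 689) (node 527 (merge (leaf 7 495 495) (leaf 7 527 559))))))) (merge (node 655 (merge (leaf 5 527 623) (node 656 (merge (leaf 5 559 687) (node 527 (merge (leaf 7 495 495) (leaf 7 527 559))))))) (node 625 (merge (leaf 4 528 657) (node 593 (merge (leaf 4 496 496) (node 623 (merge (leaf 5 527 655) (node 622 (merge (leaf 2 590 594) (leaf 2 589 621)))))))))))) (node 593 (merge (leaf 4 496 625) (node 464 (merge (leaf 4 464 561) (node 559 (merge (leaf 5 463 591) (node 432 (merge (leaf 5 431 527) (node 401 (merge (leaf 6 400 433) (node 400 (merge (leaf 6 368 369) (node 399 (merge (leaf 7 367 367) (leaf 7 399 431)))))))))))))))))))) (merge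 (node 561 (merge (node 593 (merge (leaf 4 464 464) (node 625 (merge (leaf 4 496 592) (leaf 7 528 657))))) (merge (node 593 (merge (leaf 4 464 464) (node 625 (merge (leaf 7 496 529) (leaf 7 528 657))))) (merge (node 527 (merge (node 526 (merge (leaf 0 525 525) (node 562 (merge (leaf 0 526 529) (leaf 3 526 559))))) (merge (node 592 (merge (node 465 (merge (leaf 6 464 497) (node 464 (merge (leaf 6 432 433) (node 432 (merge (leaf 4 432 529) (leaf 5 431 559))))))) (merge (node 624 (merge (leaf 7 495 495) (node 656 (merge (leaf 7 527 559) (node 655 (merge (leaf 5 527 623) (leaf 5 559 687))))))) (node 624 (merge (leaf 7 495 495) (node 656 (merge (leaf 6 528 529) (node 655 (merge (leaf 5 527 623) (leaf 5 559 687)))))))))) (merge (node 526 (merge (leaf 0 525 525) (node 559 (merge (leaf 3 526 562) (node 464 (merge (leaf 5 431 432) (node 465 (merge (leaf 6 432 433) (node 592 (merge (leaf 6 464 497) (node 624 (merge (leaf 7 495 495) (leaf 7 527 656))))))))))))) (node 526 (merge (leaf 0 525 525) (node 529 (merge (leaf 0 526 562) (node 497 (merge (leaf 2 494 498) (node 592 (merge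 (leaf 5 464 465) (leaf 6 496 624))))))))))))) (node 497 (merge (node 465 (merge (leaf 6 464 592) (node 433 (merge (leaf 5 400 401) (leaf 5 432 529))))) (merge (node 592 (merge (leaf 6 464 465) (node 625 (merge (leaf 4 496 593) (node 624 (merge (leaf 4 528 657) (node 655 (merge (leaf 5 527 623) (node 656 (merge (leaf 5 559 687) (node 527 (merge (leaf 7 495 495) (leaf 7 527 559))))))))))))) (merge (node 593 (merge (node 625 (merge (leaf 4 496 592) (leaf 7 528 657))) (merge (node 625 (merge (leaf 7 496 529) (leaf 7 528 657))) (node 529 (merge (node 498 (merge (leaf 6 465 466) (node 527 (merge (leaf 1 495 499) (leaf 2 494 526))))) (node 594 (merge (leaf 4 497 626) (node 559 (merge (leaf 0 558 558) (node 595 (merge (leaf 0 559 562) (leaf 3 559 592)))))))))))) (node 498 (merge (node 499 (merge (leaf 1 495 527) (node 532 (merge (leaf 0 496 531) (node 500 (merge (leaf 1 496 529) (leaf 0 497 533))))))) (merge (node 499 (merge (leaf 1 495 527) (node 531 (merge (leaf 0 496 532) (node 495 (merge (leaf 0 495 530) (node 467 (merge (leaf 2 463 466) (leaf 2 464 468))))))))) (node 529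 (merge (node 593 (merge (leaf 6 465 466) (leaf 7 496 625))) (merge (node 465 (merge (leaf 5 432 433) (node 466 (merge (leaf 6 433 434) (node 495 (merge (leaf 2 463 467) (leaf 2 462 494))))))) (node 465 (merge (leaf 5 432 433) (node 594 (merge (leaf 4 465 562) (node 593 (merge (leaf 7 496 625) (leaf 4 497 626))))))))))))))))))))) (merge (node 559 (merge (node 591 (merge (leaf 5 463 464) (node 623 (merge (leaf 6 495 527) (leaf 6 527 655))))) (merge (node 464 (merge (leaf 5 463 591) (node 561 (merge (leaf 4 464 593) (node 529 (merge (leaf 4 432 432) (node 558 (merge (leaf 2 526 530) (leaf 2 525 557))))))))) (merge (node 561 (merge (node 593 (merge (leaf 4 464 464) (node 625 (merge (leaf 7 496 529) (leaf 7 528 657))))) (merge (node 526 (merge (node 527 (merge (leaf 0 525 525) (leaf 3 526 562))) (merge (node 558 (merge (leaf 3 525 525) (node 529 (merge (leaf 2 526 530) (leaf 2 525 557))))) (node 562 (merge (leaf 3 526 527) (node 594 (merge (leaf 0 559 595) (node 558 (merge (leaf 0 558 593) (node 530 (merge (leaf 2 526 529) (leaf 2 527 531)))))))))))) (merge (node 593 (merge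 (leaf 4 464 464) (node 558 (merge (leaf 0 558 594) (node 590 (merge (leaf 1 557 589) (node 526 (merge (leaf 3 525 525) (node 527 (merge (leaf 3 526 562) (node 622 (merge (leaf 6 494 495) (leaf 6 526 654))))))))))))) (node 558 (merge (node 529 (merge (leaf 2 526 530) (leaf 2 525 557))) (merge (node 530 (merge (leaf 2 526 529) (node 562 (merge (leaf 2 527 531) (node 526 (merge (leaf 3 525 525) (leaf 3 526 527))))))) (node 590 (merge (leaf 1 557 589) (node 526 (merge (leaf 3 525 525) (node 527 (merge (leaf 3 526 562) (node 622 (merge (leaf 6 494 495) (leaf 6 526 654)))))))))))))))) (node 529 (merge (node 558 (merge (leaf 2 525 557) (node 530 (merge (leaf 1 526 527) (leaf 1 527 531))))) (merge (node 558 (merge (leaf 2 525 557) (node 561 (merge (leaf 2 526 530) (node 593 (merge (leaf 0 558 594) (leaf 7 496 625))))))) (merge (node 558 (merge (leaf 2 525 557) (node 561 (merge (node 593 (merge (leaf 0 558 594) (leaf 7 496 625))) (node 590 (merge (leaf 1 557 589) (node 562 (merge (leaf 1 558 591) (node 526 (merge (leaf 3 525 525) (leaf 0 526 527))))))))))) (node 530 (merge (leaf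 1 527 531) (node 527 (merge (node 498 (merge (leaf 2 495 499) (node 526 (merge (leaf 2 494 497) (node 561 (merge (leaf 0 525 525) (leaf 0 526 562))))))) (merge (node 494 (merge (leaf 3 494 495) (node 526 (merge (leaf 3 493 493) (node 561 (merge (leaf 0 525 525) (leaf 0 526 562))))))) (merge (node 498 (merge (leaf 2 495 499) (node 526 (merge (leaf 2 494 497) (node 525 (merge (leaf 0 524 524) (leaf 0 525 561))))))) (merge (node 498 (merge (leaf 2 495 499) (node 497 (merge (leaf 2 494 526) (node 495 (merge (leaf 0 494 494) (node 466 (merge (leaf 2 463 467) (node 434 (merge (leaf 5 401 402) (node 433 (merge (leaf 7 401 401) (leaf 5 432 465))))))))))))) (node 498 (merge (leaf 2 495 499) (node 495 (merge (leaf 3 494 494) (node 591 (merge (leaf 6 495 623) (node 590 (merge (leaf 5 494 622) (node 561 (merge (leaf 1 558 562) (node 466 (merge (leaf 5 433 434) (node 593 (merge (leaf 6 465 497) (leaf 6 497 625)))))))))))))))))))))))))))))) (node 497 (merge (node 465 (merge (leaf 6 464 592) (node 433 (merge (leaf 5 400 401) (leaf 5 432 529))))) (merge (node 592 (merge (leaf 6 464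 465) (node 625 (merge (leaf 4 496 593) (node 624 (merge (leaf 4 528 657) (node 623 (merge (leaf 5 495 591) (leaf 5 527 655))))))))) (merge (node 498 (merge (node 527 (merge (leaf 1 495 499) (node 526 (merge (leaf 2 493 525) (leaf 2 494 529))))) (merge (node 499 (merge (leaf 1 495 527) (node 532 (merge (leaf 0 496 531) (node 500 (merge (leaf 0 497 533) (node 468 (merge (leaf 2 464 467) (leaf 2 465 469))))))))) (merge (node 467 (merge (node 495 (merge (leaf 2 463 466) (node 531 (merge (leaf 0 495 530) (node 499 (merge (leaf 2 464 468) (leaf 0 496 532))))))) (merge (node 499 (merge (leaf 2 464 468) (node 532 (merge (leaf 0 496 531) (node 500 (merge (leaf 1 496 529) (leaf 0 497 533))))))) (merge (node 495 (merge (leaf 2 463 466) (node 530 (merge (leaf 0 495 531) (node 494 (merge (leaf 0 494 529) (node 525 (merge (leaf 1 493 526) (node 493 (merge (leaf 1 492 524) (node 461 (merge (leaf 3 460 460) (leaf 3 461 462))))))))))))) (node 499 (merge (leaf 2 464 468) (node 500 (merge (leaf 1 496 529) (node 533 (merge (leaf 0 497 532) (node 501 (merge (leaf 0 498 534) (node 470 (merge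 (leaf 2 466 469) (node 502 (merge (leaf 3 466 466) (leaf 2 467 471))))))))))))))))) (node 466 (merge (node 495 (merge (leaf 2 463 467) (node 494 (merge (leaf 2 462 465) (node 526 (merge (leaf 1 493 525) (leaf 1 494 527))))))) (merge (node 495 (merge (leaf 2 463 467) (node 530 (merge (leaf 0 495 531) (node 494 (merge (leaf 0 494 529) (node 525 (merge (leaf 1 493 526) (node 493 (merge (leaf 1 492 524) (node 461 (merge (leaf 3 460 460) (leaf 3 461 462))))))))))))) (merge (node 465 (merge (node 433 (merge (leaf 5 400 401) (leaf 5 432 529))) (merge (node 495 (merge (leaf 2 462 494) (node 530 (merge (leaf 0 495 531) (node 433 (merge (leaf 4 401 401) (leaf 7 433 562))))))) (node 495 (merge (leaf 2 462 494) (node 530 (merge (leaf 0 495 531) (node 562 (merge (leaf 7 465 594) (node 561 (merge (leaf 5 465 593) (node 434 (merge (leaf 5 433 529) (node 402 (merge (leaf 5 369 370) (node 403 (merge (leaf 6 370 371) (leaf 6 402 435)))))))))))))))))) (node 529 (merge (node 561 (merge (leaf 6 465 593) (node 434 (merge (leaf 5 401 402) (leaf 5 433 530))))) (merge (node 561 (merge (leaf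 6 465 593) (node 465 (merge (leaf 5 432 433) (leaf 6 433 434))))) (merge (node 434 (merge (leaf 5 401 402) (node 433 (merge (leaf 5 432 465) (node 530 (merge (leaf 7 401 401) (node 531 (merge (leaf 3 496 532) (leaf 1 527 559))))))))) (node 465 (merge (leaf 5 432 433) (node 467 (merge (leaf 1 464 468) (node 561 (merge (leaf 6 465 593) (node 562 (merge (leaf 4 465 594) (node 530 (merge (leaf 6 434 435) (node 531 (merge (leaf 1 528 532) (leaf 1 527 559))))))))))))))))))))))))) (node 498 (merge (node 527 (merge (leaf 1 495 499) (node 526 (merge (leaf 2 493 525) (leaf 2 494 529))))) (merge (node 499 (merge (leaf 1 495 527) (node 532 (merge (leaf 0 496 531) (node 500 (merge (leaf 0 497 533) (node 468 (merge (leaf 2 464 467) (leaf 2 465 469))))))))) (merge (node 467 (merge (node 495 (merge (leaf 2 463 466) (node 531 (merge (leaf 0 495 530) (node 499 (merge (leaf 2 464 468) (leaf 0 496 532))))))) (merge (node 499 (merge (leaf 2 464 468) (node 532 (merge (leaf 0 496 531) (node 500 (merge (leaf 1 496 529) (leaf 0 497 533))))))) (merge (node 495 (merge (leaf 2 463 466) (node 530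 (merge (leaf 0 495 531) (node 494 (merge (leaf 0 494 529) (node 525 (merge (leaf 1 493 526) (node 493 (merge (leaf 1 492 524) (node 461 (merge (leaf 3 460 460) (leaf 3 461 462))))))))))))) (node 499 (merge (leaf 2 464 468) (node 500 (merge (leaf 1 496 529) (node 533 (merge (leaf 0 497 532) (node 501 (merge (leaf 0 498 534) (node 470 (merge (leaf 2 466 469) (node 502 (merge (leaf 3 466 466) (leaf 2 467 471))))))))))))))))) (node 529 (merge (node 592 (merge (leaf 6 496 624) (node 593 (merge (leaf 4 496 625) (node 561 (merge (leaf 6 465 466) (node 594 (merge (leaf 4 497 626) (node 595 (merge (leaf 3 559 559) (leaf 3 560 596))))))))))) (merge (node 495 (merge (node 530 (merge (leaf 0 494 494) (leaf 0 495 531))) (merge (node 494 (merge (leaf 0 493 493) (node 526 (merge (leaf 1 493 525) (leaf 1 494 527))))) (node 530 (merge (leaf 0 495 531) (node 466 (merge (leaf 2 463 467) (node 561 (merge (leaf 5 433 434) (leaf 6 465 593)))))))))) (merge (node 558 (merge (node 559 (merge (leaf 2 525 557) (node 530 (merge (leaf 1 526 527) (leaf 1 527 531))))) (merge (node 557 (merge (leaf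 2 525 559) (node 592 (merge (leaf 6 496 624) (node 593 (merge (leaf 4 496 625) (node 591 (merge (leaf 3 557 590) (leaf 5 495 623))))))))) (merge (node 527 (merge (leaf 2 494 526) (node 530 (merge (leaf 1 526 559) (node 531 (merge (leaf 0 495 495) (leaf 3 496 532))))))) (node 526 (merge (leaf 2 494 527) (node 592 (merge (leaf 6 496 624) (node 593 (merge (leaf 4 496 625) (node 591 (merge (leaf 5 495 623) (node 590 (merge (leaf 3 557 557) (node 621 (merge (leaf 1 589 622) (node 589 (merge (leaf 5 493 494) (leaf 1 588 620))))))))))))))))))) (node 495 (merge (node 530 (merge (leaf 0 495 531) (node 466 (merge (leaf 2 463 467) (node 434 (merge (leaf 5 401 402) (leaf 5 433 561))))))) (node 494 (merge (leaf 0 493 493) (node 526 (merge (leaf 1 493 525) (node 527 (merge (leaf 1 494 498) (node 462 (merge (leaf 3 461 461) (node 559 (merge (leaf 4 430 430) (leaf 7 462 591))))))))))))))))))))))))))))))))))) nD_18 cD_18 13 (by decide +kernel)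
def nD_19 : ℕ := 0x10000000100000001000000000000000000000000000000000000000000000000000000000000000000000000000000000000000000000000000000000000000000000000000000000000
def cD_19 : ℕ := 0x20000000e0000001e0000001e00000076f000007ee00000fff000001fe000000fc0000003c000000200000000000000000000000000000000000000000000000000000000000000000000000000000000000000000000
theorem lD_19 : S nD_19 cD_19 12 := S_of_chk [] trivial (node 529 (merge (node 496 (merge (node 495 (merge (leaf 7 463 463) (node 494 (merge (leaf 0 493 493) (node 530 (merge (leaf 0 494 497) (leaf 3 495 531))))))) (merge (node 593 (merge (leaf 4 496 625) (node 464 (merge (leaf 4 464 561) (node 465 (merge (leaf 6 432 433) (leaf 6 464 497))))))) (node 593 (merge (leaf 4 496 625) (node 464 (merge (leaf 4 464 561) (node 463 (merge (leaf 7 431 431) (leaf 7 463 495)))))))))) (merge (node 496 (merge (node 593 (merge (leaf 4 496 625) (node 464 (merge (leaf 4 464 561) (node 465 (merge (leaf 6 432 433) (leaf 6 464 497))))))) (merge (node 593 (merge (leaf 4 496 625) (node 464 (merge (leaf 4 464 561) (node 463 (merge (leaf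 7 431 431) (leaf 7 463 495))))))) (node 497 (merge (leaf 6 464 465) (node 495 (merge (leaf 7 463 463) (node 494 (merge (leaf 0 493 493) (node 526 (merge (leaf 1 493 525) (node 527 (merge (leaf 1 494 498) (node 462 (merge (leaf 3 461 461) (node 430 (merge (leaf 4 398 398) (leaf 4 430 559)))))))))))))))))) (merge (node 530 (merge (node 559 (merge (leaf 1 527 531) (node 558 (merge (leaf 2 525 557) (leaf 2 526 561))))) (merge (node 531 (merge (leaf 1 527 559) (node 496 (merge (leaf 3 495 495) (node 497 (merge (leaf 6 464 465) (leaf 3 496 532))))))) (merge (node 499 (merge (node 500 (merge (leaf 2 496 531) (node 498 (merge (leaf 1 496 497) (leaf 1 497 501))))) (merge (node 531 (merge (leaf 2 496 500) (node 496 (merge (leaf 3 495 495) (node 497 (merge (leaf 6 464 465) (leaf 3 496 532))))))) (node 527 (merge (leaf 2 495 498) (node 494 (merge (leaf 3 494 495) (node 526 (merge (leaf 3 493 493) (node 561 (merge (leaf 0 525 525) (leaf 0 526 562)))))))))))) (node 527 (merge (node 498 (merge (leaf 2 495 499) (node 526 (merge (leaf 2 494 497) (node 558 (merge (leaf 1 525 557) (leaf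 1 526 559))))))) (merge (node 494 (merge (leaf 3 494 495) (node 526 (merge (leaf 3 493 493) (node 561 (merge (leaf 0 525 525) (leaf 0 526 562))))))) (node 495 (merge (leaf 3 494 494) (node 463 (merge (leaf 7 463 496) (leaf 4 463 559)))))))))))) (merge (node 530 (merge (node 559 (merge (leaf 1 527 531) (node 558 (merge (leaf 1 526 527) (leaf 2 525 557))))) (merge (node 531 (merge (leaf 1 527 559) (node 496 (merge (leaf 3 495 495) (node 497 (merge (leaf 6 464 465) (leaf 3 496 532))))))) (merge (node 495 (merge (node 463 (merge (leaf 7 463 496) (node 527 (merge (leaf 4 431 431) (leaf 4 463 559))))) (merge (node 494 (merge (leaf 3 494 527) (node 496 (merge (leaf 0 493 493) (leaf 0 494 497))))) (merge (node 527 (merge (leaf 3 494 494) (node 463 (merge (leaf 4 431 431) (leaf 4 463 559))))) (node 496 (merge (leaf 7 463 463) (node 494 (merge (leaf 0 493 493) (node 497 (merge (leaf 6 464 465) (leaf 0 494 530))))))))))) (node 496 (merge (node 495 (merge (leaf 7 463 463) (leaf 3 495 531))) (merge (node 497 (merge (leaf 6 464 465) (node 531 (merge (leaf 3 495 495) (leaf 3 496 532)))))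 (merge (node 465 (merge (leaf 6 464 497) (node 464 (merge (leaf 6 432 433) (node 463 (merge (leaf 7 431 431) (leaf 7 463 495))))))) (node 497 (merge (leaf 6 464 465) (node 531 (merge (leaf 3 496 532) (node 499 (merge (leaf 2 496 500) (node 498 (merge (leaf 1 495 527) (node 467 (merge (leaf 2 464 468) (node 562 (merge (leaf 5 434 435) (leaf 6 466 594))))))))))))))))))))) (merge (node 496 (merge (node 495 (merge (leaf 7 463 463) (node 494 (merge (leaf 0 493 493) (node 530 (merge (leaf 3 494 527) (leaf 3 495 531))))))) (merge (node 593 (merge (leaf 4 496 625) (node 464 (merge (leaf 4 464 561) (node 433 (merge (leaf 6 432 465) (node 432 (merge (leaf 6 400 401) (node 431 (merge (leaf 7 399 399) (leaf 7 431 463))))))))))) (node 593 (merge (leaf 4 496 625) (node 464 (merge (leaf 4 464 561) (node 433 (merge (leaf 6 432 465) (node 432 (merge (leaf 6 400 401) (node 527 (merge (leaf 5 431 559) (node 495 (merge (leaf 5 399 400) (node 530 (merge (leaf 3 494 494) (leaf 3 495 531)))))))))))))))))) (merge (node 530 (merge (node 559 (merge (leaf 1 527 531) (node 558 (merge (leaf 1 526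 527) (leaf 2 525 557))))) (merge (node 531 (merge (leaf 1 527 559) (node 500 (merge (leaf 2 496 499) (node 532 (merge (leaf 2 497 501) (leaf 1 528 561))))))) (merge (node 496 (merge (node 593 (merge (leaf 4 496 625) (node 464 (merge (leaf 4 464 561) (node 433 (merge (leaf 6 432 465) (node 432 (merge (leaf 6 400 401) (node 431 (merge (leaf 7 399 399) (leaf 7 431 463))))))))))) (merge (node 593 (merge (leaf 4 496 625) (node 464 (merge (leaf 4 464 561) (node 431 (merge (leaf 7 431 463) (node 432 (merge (leaf 7 399 399) (node 400 (merge (leaf 4 400 497) (node 401 (merge (leaf 6 368 369) (leaf 6 400 433))))))))))))) (merge (node 497 (merge (leaf 6 464 465) (node 531 (merge (leaf 3 496 532) (node 499 (merge (leaf 2 496 500) (node 498 (merge (leaf 1 495 527) (node 467 (merge (leaf 2 464 468) (node 562 (merge (leaf 5 434 435) (leaf 6 466 594))))))))))))) (node 593 (merge (leaf 4 496 625) (node 497 (merge (leaf 6 464 465) (node 531 (merge (leaf 3 496 532) (node 499 (merge (leaf 2 496 500) (node 498 (merge (leaf 1 495 527) (node 467 (merge (leaf 2 464 468) (node 561 (merge (leaf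 6 465 466) (node 594 (merge (leaf 6 466 562) (leaf 4 497 626))))))))))))))))))))) (node 498 (merge (node 527 (merge (leaf 2 495 499) (node 526 (merge (leaf 2 494 497) (node 558 (merge (leaf 1 525 557) (leaf 1 526 559))))))) (merge (node 527 (merge (leaf 2 495 499) (node 558 (merge (leaf 1 526 559) (node 526 (merge (leaf 1 525 557) (node 561 (merge (leaf 0 525 525) (leaf 0 526 562))))))))) (merge (node 561 (merge (node 593 (merge (leaf 6 497 625) (node 497 (merge (leaf 5 464 465) (leaf 6 465 466))))) (merge (node 593 (merge (leaf 6 497 625) (node 466 (merge (leaf 5 433 434) (leaf 5 465 562))))) (merge (node 497 (merge (leaf 5 464 465) (node 593 (merge (leaf 6 497 625) (node 594 (merge (leaf 4 497 626) (node 595 (merge (leaf 3 560 596) (node 627 (merge (leaf 4 498 562) (leaf 0 592 628))))))))))) (node 466 (merge (leaf 5 433 434) (node 465 (merge (leaf 5 464 497) (node 562 (merge (leaf 7 433 433) (node 467 (merge (leaf 6 434 435) (node 594 (merge (leaf 6 466 499) (node 626 (merge (leaf 7 529 658) (node 627 (merge (leaf 4 498 595) (leaf 4 530 659))))))))))))))))))) (node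 496 (merge (node 465 (merge (leaf 6 464 497) (node 433 (merge (leaf 6 432 464) (node 466 (merge (leaf 7 433 562) (node 401 (merge (leaf 4 369 369) (leaf 7 401 434))))))))) (merge (node 593 (merge (leaf 4 496 625) (node 561 (merge (leaf 4 464 464) (node 497 (merge (leaf 6 465 466) (node 594 (merge (leaf 4 497 626) (node 595 (merge (leaf 3 559 559) (leaf 3 560 596))))))))))) (merge (node 593 (merge (leaf 4 496 625) (node 464 (merge (leaf 4 464 561) (node 433 (merge (leaf 6 432 465) (node 432 (merge (leaf 6 400 401) (node 431 (merge (leaf 7 399 399) (leaf 7 431 463))))))))))) (node 593 (merge (leaf 4 496 625) (node 497 (merge (leaf 6 464 465) (node 561 (merge (leaf 6 465 466) (node 594 (merge (leaf 4 497 626) (node 595 (merge (leaf 3 559 559) (leaf 3 560 596))))))))))))))))))))))) (merge (node 530 (merge (node 559 (merge (leaf 1 527 531) (node 558 (merge (leaf 2 525 557) (leaf 2 526 561))))) (merge (node 531 (merge (leaf 1 527 559) (node 496 (merge (leaf 3 495 495) (node 497 (merge (leaf 6 464 465) (leaf 3 496 532))))))) (merge (node 499 (merge (node 500 (merge (leaf 2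 496 531) (node 498 (merge (leaf 1 496 497) (leaf 1 497 501))))) (merge (node 531 (merge (leaf 2 496 500) (node 496 (merge (leaf 3 495 495) (node 497 (merge (leaf 6 464 465) (leaf 3 496 532))))))) (node 527 (merge (leaf 2 495 498) (node 494 (merge (leaf 3 494 495) (node 526 (merge (leaf 3 493 493) (node 561 (merge (leaf 0 525 525) (leaf 0 526 562)))))))))))) (node 498 (merge (node 527 (merge (leaf 2 495 499) (node 526 (merge (leaf 2 494 497) (node 558 (merge (leaf 1 525 557) (leaf 1 526 559))))))) (merge (node 527 (merge (leaf 2 495 499) (node 558 (merge (leaf 1 526 559) (node 526 (merge (leaf 1 525 557) (node 561 (merge (leaf 0 525 525) (leaf 0 526 562))))))))) (merge (node 561 (merge (node 593 (merge (leaf 6 497 625) (node 497 (merge (leaf 5 464 465) (leaf 6 465 466))))) (merge (node 593 (merge (leaf 6 497 625) (node 466 (merge (leaf 5 433 434) (leaf 5 465 562))))) (merge (node 497 (merge (leaf 5 464 465) (node 593 (merge (leaf 6 497 625) (node 594 (merge (leaf 4 497 626) (node 595 (merge (leaf 3 560 596) (node 627 (merge (leaf 4 498 562) (leaf 0 592 628)))))))))))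 (node 466 (merge (leaf 5 433 434) (node 465 (merge (leaf 5 464 497) (node 562 (merge (leaf 7 433 433) (node 467 (merge (leaf 6 434 435) (node 594 (merge (leaf 6 466 499) (node 626 (merge (leaf 7 529 658) (node 627 (merge (leaf 4 498 595) (leaf 4 530 659))))))))))))))))))) (node 496 (merge (node 465 (merge (leaf 6 464 497) (node 433 (merge (leaf 6 432 464) (node 466 (merge (leaf 7 433 562) (node 401 (merge (leaf 4 369 369) (leaf 7 401 434))))))))) (merge (node 593 (merge (leaf 4 496 625) (node 561 (merge (leaf 4 464 464) (node 497 (merge (leaf 6 465 466) (node 594 (merge (leaf 4 497 626) (node 595 (merge (leaf 3 559 559) (leaf 3 560 596))))))))))) (merge (node 593 (merge (leaf 4 496 625) (node 464 (merge (leaf 4 464 561) (node 433 (merge (leaf 6 432 465) (node 432 (merge (leaf 6 400 401) (node 527 (merge (leaf 5 431 559) (node 495 (merge (leaf 5 399 400) (leaf 3 494 494))))))))))))) (node 593 (merge (leaf 4 496 625) (node 497 (merge (leaf 6 464 465) (node 561 (merge (leaf 6 465 466) (node 594 (merge (leaf 4 497 626) (node 595 (merge (leaf 3 559 559) (leaf 3 560 596)))))))))))))))))))))))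 (merge (node 530 (merge (node 559 (merge (leaf 1 527 531) (node 558 (merge (leaf 1 526 527) (leaf 2 525 557))))) (merge (node 531 (merge (leaf 1 527 559) (node 500 (merge (leaf 2 496 499) (node 532 (merge (leaf 2 497 501) (leaf 1 528 561))))))) (merge (node 527 (merge (node 559 (merge (leaf 1 526 558) (node 495 (merge (leaf 4 463 463) (leaf 3 494 494))))) (node 498 (merge (leaf 2 495 499) (node 497 (merge (leaf 2 494 526) (node 465 (merge (leaf 5 432 433) (leaf 5 464 561))))))))) (node 531 (merge (node 499 (merge (leaf 2 496 500) (node 527 (merge (leaf 2 495 498) (node 494 (merge (leaf 3 494 495) (node 526 (merge (leaf 3 493 493) (node 561 (merge (leaf 0 525 525) (leaf 0 526 562))))))))))) (merge (node 532 (merge (leaf 1 528 561) (node 565 (merge (leaf 0 529 564) (node 533 (merge (leaf 0 530 566) (node 501 (merge (leaf 2 497 500) (leaf 2 498 502))))))))) (merge (node 532 (merge (leaf 1 528 561) (node 565 (merge (leaf 0 529 564) (node 533 (merge (leaf 0 530 566) (node 502 (merge (leaf 2 498 501) (node 534 (merge (leaf 2 499 503) (node 498 (merge (leaf 3 497 497) (leaf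 3 498 499))))))))))))) (node 532 (merge (node 500 (merge (leaf 2 496 499) (leaf 2 497 501))) (merge (node 565 (merge (leaf 0 529 564) (node 533 (merge (leaf 0 530 566) (node 501 (merge (leaf 2 497 500) (leaf 2 498 502))))))) (merge (node 565 (merge (leaf 0 529 564) (node 533 (merge (leaf 0 530 566) (node 502 (merge (leaf 2 498 501) (node 534 (merge (leaf 2 499 503) (node 498 (merge (leaf 3 497 497) (leaf 3 498 499))))))))))) (node 499 (merge (leaf 2 496 500) (node 498 (merge (leaf 2 495 527) (node 533 (merge (leaf 3 497 497) (leaf 3 498 534))))))))))))))))))) (node 527 (merge (node 494 (merge (node 495 (merge (leaf 3 494 530) (node 463 (merge (leaf 4 431 431) (leaf 4 463 559))))) (merge (node 526 (merge (leaf 3 493 493) (node 498 (merge (leaf 2 494 497) (node 530 (merge (leaf 3 494 495) (leaf 2 495 499))))))) (merge (node 493 (merge (leaf 3 493 526) (node 495 (merge (leaf 0 492 492) (node 463 (merge (leaf 4 431 431) (leaf 4 463 559))))))) (node 526 (merge (leaf 3 493 493) (node 498 (merge (leaf 2 494 497) (node 530 (merge (leaf 2 495 499) (node 559 (merge (leaf 1 527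 531) (leaf 1 526 558))))))))))))) (merge (node 526 (merge (node 561 (merge (leaf 0 525 525) (leaf 0 526 562))) (node 498 (merge (leaf 2 494 497) (node 530 (merge (leaf 2 495 499) (node 494 (merge (leaf 3 493 493) (leaf 3 494 495))))))))) (merge (node 558 (merge (node 559 (merge (leaf 1 526 530) (leaf 2 525 557))) (merge (node 526 (merge (leaf 1 525 557) (node 561 (merge (leaf 0 525 525) (leaf 0 526 562))))) (node 530 (merge (leaf 1 526 559) (node 499 (merge (leaf 2 495 498) (node 531 (merge (leaf 2 496 500) (node 561 (merge (leaf 1 528 532) (node 526 (merge (leaf 0 525 525) (leaf 0 526 562)))))))))))))) (merge (node 530 (merge (node 495 (merge (leaf 3 494 494) (node 463 (merge (leaf 4 431 431) (leaf 4 463 559))))) (merge (node 495 (merge (leaf 3 494 494) (node 496 (merge (leaf 7 463 463) (leaf 3 495 531))))) (node 531 (merge (leaf 1 527 559) (node 532 (merge (leaf 1 528 561) (node 565 (merge (leaf 0 529 564) (node 533 (merge (leaf 0 530 566) (node 501 (merge (leaf 2 497 500) (leaf 2 498 502)))))))))))))) (node 593 (merge (node 625 (merge (leaf 4 496 496) (node 657 (merge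 (leaf 7 528 561) (leaf 7 560 689))))) (merge (node 496 (merge (leaf 4 496 625) (node 463 (merge (leaf 7 463 495) (node 464 (merge (leaf 7 431 431) (node 432 (merge (leaf 5 431 559) (node 497 (merge (leaf 4 400 400) (node 498 (merge (leaf 1 495 499) (leaf 2 494 526))))))))))))) (merge (node 526 (merge (node 561 (merge (leaf 0 525 525) (leaf 0 526 562))) (merge (node 561 (merge (leaf 0 525 525) (leaf 0 526 562))) (merge (node 525 (merge (leaf 0 525 561) (node 497 (merge (leaf 2 493 496) (node 529 (merge (leaf 2 494 498) (node 493 (merge (leaf 3 492 492) (leaf 3 493 494))))))))) (merge (node 561 (merge (leaf 0 526 562) (node 558 (merge (leaf 1 525 557) (node 594 (merge (leaf 0 558 559) (node 497 (merge (leaf 2 494 498) (leaf 4 497 626))))))))) (node 557 (merge (leaf 1 525 558) (node 525 (merge (leaf 1 524 556) (node 493 (merge (leaf 3 492 492) (leaf 3 493 494)))))))))))) (node 526 (merge (node 561 (merge (leaf 0 525 525) (leaf 0 526 562))) (merge (node 561 (merge (leaf 0 525 525) (leaf 0 526 562))) (merge (node 561 (merge (leaf 0 525 525) (leaf 0 526 562))) (merge (node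 557 (merge (leaf 1 525 558) (node 525 (merge (leaf 1 524 556) (node 493 (merge (leaf 3 492 492) (leaf 3 493 494))))))) (node 561 (merge (leaf 0 526 562) (node 558 (merge (leaf 1 525 557) (node 594 (merge (leaf 0 558 559) (node 497 (merge (leaf 2 494 498) (leaf 4 497 626)))))))))))))))))))))))))))))))) nD_19 cD_19 12 (by decide +kernel)

end Crest.Agent.H26Snaky
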