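import Crest.Agent.H26SnD00

/-! certificate data for S0047, part D 1 (computer generated) -/

set_option autoImplicit false
set_option maxRecDepth 100000

namespace Crest.Agent.H26Snaky

open T

def nD_20 : ℕ := 0x100000001000000000000000080000000000000000000000000000000000000000000000000000000000000000000000000000000000000000000000000000000000000000000
def cD_20 : ℕ := 0x2c000000ec000000ff8000006f000000ef8000003f800000770000003400000000000000000000000000000000000000000000000000000000000000000000000000000000000000000000000000000000000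
theorem lD_20 : S nD_20 cD_20 12 := S_of_chk [] trivial (node 496 (merge (node 592 (merge (leaf 7 463 495) (node 465 (merge (leaf 6 464 497) (node 464 (merge (leaf 6 432 433) (node 591 (merge (leaf 5 463 559) (leaf 5 495 623))))))))) (merge (node 592 (merge (leaf 7 463 495) (node 593 (merge (leaf 4 496 625) (node 464 (merge (leaf 4 464 561) (node 465 (merge (leaf 6 432 433) (leaf 6 464 497))))))))) (merge (node 592 (merge (leaf 7 463 495) (node 593 (merge (leaf 4 496 625) (node 464 (merge (leaf 4 464 561) (node 591 (merge (leaf 5 463 559) (leaf 5 495 623))))))))) (merge (node 464 (merge (node 593 (merge (leaf 4 464 561) (node 465 (merge (leaf 6 432 433) (node 592 (merge (leaf 6 464 497) (leaf 4 496 625))))))) (merge (node 561 (merge (leaf 4 464 593) (node 432 (merge (leaf 4 432 529) (node 559 (merge (leaf 5 431 527) (leaf 5 463 591))))))) (node 465 (merge (leaf 6 432 433) (node 592 (merge (leaf 6 464 497) (node 591 (merge (leaf 5 463 559) (leaf 5 495 623)))))))))) (merge (node 559 (merge (node 592 (merge (leaf 7 463 495) (node 593 (merge (leaf 4 496 625) (node 594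 (merge (leaf 3 559 595) (node 591 (merge (leaf 3 558 558) (leaf 5 495 623))))))))) (merge (node 592 (merge (leaf 7 463 495) (node 593 (merge (leaf 4 496 625) (node 558 (merge (leaf 0 557 557) (node 594 (merge (leaf 0 558 561) (leaf 3 559 595))))))))) (merge (node 529 (merge (node 530 (merge (leaf 1 527 531) (node 558 (merge (leaf 1 526 527) (leaf 2 526 561))))) (merge (node 495 (merge (leaf 7 463 592) (node 494 (merge (leaf 0 493 493) (node 530 (merge (leaf 0 494 497) (leaf 3 495 531))))))) (node 558 (merge (leaf 2 525 557) (node 495 (merge (leaf 7 463 592) (node 527 (merge (leaf 5 462 590) (node 591 (merge (leaf 6 495 623) (node 462 (merge (leaf 7 430 430) (leaf 7 462 494)))))))))))))) (merge (node 592 (merge (leaf 7 463 495) (node 593 (merge (leaf 4 496 625) (node 594 (merge (leaf 3 559 595) (node 591 (merge (leaf 5 495 623) (node 626 (merge (leaf 0 591 627) (node 497 (merge (leaf 6 464 465) (node 529 (merge (leaf 4 497 561) (node 530 (merge (leaf 1 527 531) (leaf 7 497 562))))))))))))))))) (node 558 (merge (node 529 (merge (leaf 2 525 557) (node 561 (merge (leaf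 2 526 530) (node 593 (merge (leaf 0 558 594) (leaf 7 496 625))))))) (merge (node 557 (merge (leaf 2 525 529) (node 556 (merge (leaf 2 524 527) (node 588 (merge (leaf 1 555 587) (leaf 1 556 589))))))) (merge (node 561 (merge (node 530 (merge (leaf 2 526 529) (node 562 (merge (leaf 2 527 531) (node 526 (merge (leaf 3 525 525) (leaf 3 526 527))))))) (merge (node 593 (merge (leaf 0 558 594) (node 625 (merge (leaf 7 528 657) (node 529 (merge (leaf 7 496 496) (leaf 2 526 530))))))) (node 594 (merge (leaf 0 558 593) (node 562 (merge (leaf 0 559 595) (node 590 (merge (leaf 1 557 589) (leaf 1 558 591)))))))))) (node 525 (merge (node 524 (merge (leaf 3 524 557) (node 526 (merge (leaf 0 523 523) (leaf 3 525 561))))) (merge (node 557 (merge (leaf 3 524 524) (node 556 (merge (leaf 2 524 527) (node 588 (merge (leaf 1 555 587) (leaf 1 556 589))))))) (node 561 (merge (leaf 3 525 526) (node 594 (merge (leaf 0 558 593) (node 562 (merge (leaf 0 559 595) (node 590 (merge (leaf 1 557 589) (leaf 1 558 591))))))))))))))))))))) (node 559 (merge (node 591 (merge (leaf 5 463 464) (node 623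 (merge (leaf 6 495 527) (leaf 6 527 655))))) (merge (node 464 (merge (leaf 5 463 591) (node 561 (merge (leaf 4 464 593) (node 529 (merge (leaf 4 432 432) (node 558 (merge (leaf 2 526 530) (leaf 2 525 557))))))))) (merge (node 558 (merge (node 557 (merge (leaf 2 525 529) (node 588 (merge (leaf 1 556 589) (node 556 (merge (leaf 2 524 527) (leaf 1 555 587))))))) (merge (node 557 (merge (leaf 2 525 529) (node 527 (merge (leaf 2 524 556) (node 525 (merge (leaf 3 524 524) (node 561 (merge (leaf 0 525 526) (node 464 (merge (leaf 5 431 432) (leaf 4 464 593))))))))))) (merge (node 557 (merge (leaf 2 525 529) (node 525 (merge (leaf 3 524 524) (node 561 (merge (leaf 3 525 526) (node 590 (merge (leaf 1 557 589) (node 493 (merge (leaf 4 461 461) (node 464 (merge (leaf 4 464 593) (node 465 (merge (leaf 6 432 433) (node 494 (merge (leaf 1 461 462) (leaf 2 461 495))))))))))))))))) (merge (node 561 (merge (node 464 (merge (leaf 4 464 593) (node 432 (merge (leaf 5 431 527) (leaf 4 432 529))))) (merge (node 530 (merge (leaf 2 526 529) (node 562 (merge (leaf 2 527 531) (node 526 (merge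 (leaf 3 525 525) (leaf 3 526 527))))))) (merge (node 590 (merge (leaf 1 557 589) (node 526 (merge (leaf 3 525 525) (node 495 (merge (leaf 6 462 494) (leaf 5 462 527))))))) (node 590 (merge (leaf 1 557 589) (node 526 (merge (leaf 3 525 525) (node 464 (merge (leaf 4 464 593) (node 465 (merge (leaf 6 432 433) (node 494 (merge (leaf 6 462 495) (node 493 (merge (leaf 7 461 461) (leaf 1 461 462))))))))))))))))) (node 590 (merge (node 561 (merge (leaf 1 557 589) (node 526 (merge (leaf 3 525 525) (node 495 (merge (leaf 6 462 494) (leaf 5 462 527))))))) (merge (node 561 (merge (leaf 1 557 589) (node 464 (merge (leaf 4 464 593) (node 495 (merge (leaf 5 462 527) (node 465 (merge (leaf 6 432 433) (node 494 (merge (leaf 1 462 466) (leaf 2 461 493))))))))))) (merge (node 561 (merge (leaf 1 557 589) (node 526 (merge (leaf 3 525 525) (node 527 (merge (leaf 3 526 562) (node 464 (merge (leaf 5 431 432) (leaf 4 464 593))))))))) (merge (node 561 (merge (leaf 1 557 589) (node 526 (merge (leaf 3 525 525) (node 464 (merge (leaf 4 464 593) (node 465 (merge (leaf 6 432 433) (node 494 (merge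 (leaf 6 462 495) (node 493 (merge (leaf 7 461 461) (leaf 1 461 462))))))))))))) (node 527 (merge (leaf 5 462 495) (node 557 (merge (leaf 2 524 556) (node 525 (merge (leaf 3 524 524) (node 622 (merge (leaf 7 525 654) (node 526 (merge (leaf 7 493 493) (leaf 2 493 497))))))))))))))))))))) (node 558 (merge (node 557 (merge (leaf 2 525 529) (node 588 (merge (leaf 1 556 589) (node 556 (merge (leaf 2 524 527) (leaf 1 555 587))))))) (merge (node 557 (merge (leaf 2 525 529) (node 525 (merge (leaf 3 524 524) (node 561 (merge (leaf 3 525 526) (node 594 (merge (leaf 0 558 593) (node 562 (merge (leaf 0 559 595) (node 590 (merge (leaf 1 557 589) (leaf 1 558 591))))))))))))) (merge (node 557 (merge (leaf 2 525 529) (node 527 (merge (leaf 2 524 556) (node 525 (merge (leaf 3 524 524) (node 561 (merge (leaf 0 525 526) (node 591 (merge (leaf 6 495 623) (node 590 (merge (leaf 1 558 562) (node 622 (merge (leaf 5 494 495) (leaf 7 525 654))))))))))))))) (merge (node 590 (merge (node 561 (merge (leaf 1 557 589) (node 562 (merge (leaf 1 558 591) (node 526 (merge (leaf 3 525 525) (leaf 3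 526 527))))))) (merge (node 561 (merge (leaf 1 557 589) (node 526 (merge (leaf 3 525 525) (node 495 (merge (leaf 6 462 494) (leaf 5 462 527))))))) (merge (node 561 (merge (leaf 1 557 589) (node 594 (merge (leaf 0 558 593) (node 562 (merge (leaf 1 558 591) (leaf 0 559 595))))))) (merge (node 561 (merge (leaf 1 557 589) (node 591 (merge (leaf 1 558 562) (node 526 (merge (leaf 3 525 525) (node 494 (merge (leaf 4 462 462) (leaf 6 462 495))))))))) (node 527 (merge (leaf 5 462 495) (node 557 (merge (leaf 2 524 556) (node 525 (merge (leaf 3 524 524) (node 622 (merge (leaf 7 525 654) (node 526 (merge (leaf 7 493 493) (leaf 2 493 497)))))))))))))))) (node 590 (merge (node 561 (merge (leaf 1 557 589) (node 594 (merge (leaf 0 558 593) (node 562 (merge (leaf 1 558 591) (leaf 0 559 595))))))) (merge (node 561 (merge (leaf 1 557 589) (node 593 (merge (leaf 0 558 594) (node 529 (merge (leaf 2 526 530) (leaf 7 496 625))))))) (node 495 (merge (leaf 5 462 527) (node 494 (merge (leaf 6 462 526) (node 493 (merge (leaf 0 493 529) (node 524 (merge (leaf 1 492 525) (node 492 (merge (leaf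 1 491 523) (node 462 (merge (leaf 2 459 491) (node 461 (merge (leaf 0 460 460) (leaf 3 461 497))))))))))))))))))))))))))))))))) nD_20 cD_20 12 (by decide +kernel)
def nD_21 : ℕ := 0x100000001000000000000000080000000000000000000000000000000000000000000000000000000000000000000000000000000000000000000000000000000000000000000
def cD_21 : ℕ := 0x2000000068000000780000006e000000e8000003f7800001f7000003ff80000060000000000000000000000000000000000000000000000000000000000000000000000000000000000000000000000000000
theorem lD_21 : S nD_21 cD_21 11 := S_of_chk [] trivial (node 464 (merge (node 496 (merge (leaf 7 431 431) (node 433 (merge (leaf 6 432 465) (node 432 (merge (leaf 6 400 401) (node 559 (merge (leaf 5 431 527) (leaf 5 463 591))))))))) (merge (node 496 (merge (leaf 7 431 431) (node 593 (merge (leaf 4 464 561) (node 592 (merge (leaf 4 496 625) (node 591 (merge (leaf 5 463 559) (leaf 5 495 623))))))))) (merge (node 496 (merge (leaf 7 431 431) (node 593 (merge (leaf 4 464 561) (node 465 (merge (leaf 6 432 433) (node 592 (merge (leaf 6 464 497) (leaf 4 496 625)))))))))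 (merge (node 462 (merge (node 433 (merge (node 465 (merge (leaf 2 430 434) (node 497 (merge (leaf 0 462 498) (leaf 5 432 529))))) (node 432 (merge (leaf 2 429 461) (node 496 (merge (leaf 6 400 401) (node 559 (merge (leaf 5 431 527) (leaf 5 463 591))))))))) (merge (node 461 (merge (node 497 (merge (leaf 0 461 496) (node 465 (merge (leaf 0 462 498) (node 429 (merge (leaf 3 428 428) (leaf 3 429 430))))))) (merge (node 492 (merge (leaf 1 460 493) (node 460 (merge (leaf 1 459 491) (node 428 (merge (leaf 3 427 427) (leaf 3 428 429))))))) (node 497 (merge (leaf 0 461 496) (node 465 (merge (leaf 0 462 498) (node 493 (merge (leaf 1 460 492) (leaf 1 461 494)))))))))) (merge (node 461 (merge (node 492 (merge (leaf 1 460 493) (node 460 (merge (leaf 1 459 491) (node 428 (merge (leaf 3 427 427) (leaf 3 428 429))))))) (merge (node 496 (merge (leaf 0 461 497) (node 432 (merge (leaf 2 429 433) (node 559 (merge (leaf 5 431 527) (leaf 5 463 591))))))) (node 496 (merge (leaf 0 461 497) (node 432 (merge (leaf 2 429 433) (node 559 (merge (leaf 5 431 527) (leaf 5 463 591)))))))))) (merge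 (node 461 (merge (node 433 (merge (leaf 2 429 432) (node 465 (merge (leaf 2 430 434) (node 497 (merge (leaf 0 462 498) (leaf 5 432 529))))))) (node 492 (merge (leaf 1 460 493) (node 460 (merge (leaf 1 459 491) (node 428 (merge (leaf 3 427 427) (leaf 3 428 429))))))))) (merge (node 465 (merge (node 497 (merge (leaf 0 462 498) (node 433 (merge (leaf 2 430 434) (leaf 5 432 529))))) (merge (node 496 (merge (leaf 6 432 433) (node 591 (merge (leaf 5 463 559) (node 592 (merge (leaf 6 464 497) (leaf 5 495 623))))))) (merge (node 496 (merge (leaf 6 432 433) (node 561 (merge (leaf 4 464 593) (node 432 (merge (leaf 4 432 529) (node 559 (merge (leaf 5 431 527) (leaf 5 463 591))))))))) (node 497 (merge (leaf 0 462 498) (node 496 (merge (leaf 6 464 592) (node 561 (merge (leaf 4 464 593) (node 432 (merge (leaf 4 432 529) (node 559 (merge (leaf 5 431 527) (leaf 5 463 591))))))))))))))) (node 461 (merge (node 492 (merge (leaf 1 460 493) (node 460 (merge (leaf 1 459 491) (node 428 (merge (leaf 3 427 427) (leaf 3 428 429))))))) (node 433 (merge (leaf 2 429 432) (node 496 (merge (leaf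 6 432 465) (node 593 (merge (leaf 4 464 561) (node 592 (merge (leaf 4 496 625) (node 591 (merge (leaf 5 463 559) (leaf 5 495 623))))))))))))))))))) (node 465 (merge (node 497 (merge (node 498 (merge (leaf 0 462 462) (node 499 (merge (leaf 0 463 466) (leaf 3 464 500))))) (node 529 (merge (leaf 5 432 433) (node 561 (merge (leaf 7 432 432) (leaf 5 464 592))))))) (merge (node 462 (merge (node 497 (merge (leaf 0 462 498) (node 433 (merge (leaf 2 430 434) (leaf 5 432 529))))) (merge (node 498 (merge (leaf 0 462 497) (node 466 (merge (leaf 0 463 499) (node 430 (merge (leaf 3 429 429) (leaf 3 430 431))))))) (node 434 (merge (leaf 2 430 433) (node 466 (merge (leaf 2 431 435) (node 430 (merge (leaf 3 429 429) (leaf 3 430 431)))))))))) (merge (node 434 (merge (node 435 (merge (leaf 2 431 466) (node 433 (merge (leaf 1 431 432) (leaf 1 432 436))))) (merge (node 462 (merge (leaf 2 430 433) (node 493 (merge (leaf 1 461 494) (node 461 (merge (leaf 1 460 492) (node 429 (merge (leaf 3 428 428) (leaf 3 429 430))))))))) (node 466 (merge (leaf 2 431 435) (node 499 (merge (leaf 0 463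 498) (node 467 (merge (leaf 0 464 500) (node 431 (merge (leaf 3 430 430) (leaf 3 431 432)))))))))))) (merge (node 466 (merge (node 499 (merge (leaf 0 463 498) (node 467 (merge (leaf 0 464 500) (node 431 (merge (leaf 3 430 430) (leaf 3 431 432))))))) (merge (node 435 (merge (leaf 2 431 434) (node 467 (merge (leaf 2 432 436) (node 431 (merge (leaf 3 430 430) (leaf 3 431 432))))))) (node 498 (merge (leaf 0 463 499) (node 497 (merge (leaf 0 462 462) (node 434 (merge (leaf 2 431 435) (node 529 (merge (leaf 5 401 402) (leaf 6 433 561)))))))))))) (merge (node 466 (merge (node 434 (merge (leaf 2 431 435) (node 462 (merge (leaf 2 430 433) (node 493 (merge (leaf 1 461 494) (node 461 (merge (leaf 1 460 492) (node 429 (merge (leaf 3 428 428) (leaf 3 429 430))))))))))) (merge (node 430 (merge (leaf 3 430 431) (node 462 (merge (leaf 3 429 429) (node 493 (merge (leaf 1 461 494) (node 461 (merge (leaf 1 460 492) (node 433 (merge (leaf 2 429 432) (leaf 2 430 434))))))))))) (merge (node 435 (merge (leaf 2 431 434) (node 467 (merge (leaf 2 432 436) (node 500 (merge (leaf 0 464 499)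 (node 468 (merge (leaf 0 465 501) (node 432 (merge (leaf 3 431 431) (leaf 3 432 433))))))))))) (node 431 (merge (leaf 3 430 430) (node 467 (merge (leaf 3 431 432) (node 500 (merge (leaf 0 464 499) (node 468 (merge (leaf 0 465 501) (node 436 (merge (leaf 2 432 435) (leaf 2 433 437))))))))))))))) (merge (node 497 (merge (node 462 (merge (leaf 0 462 498) (node 493 (merge (leaf 1 461 494) (node 461 (merge (leaf 1 460 492) (node 429 (merge (leaf 3 428 428) (leaf 3 429 430))))))))) (merge (node 433 (merge (leaf 5 432 529) (node 462 (merge (leaf 2 430 434) (node 493 (merge (leaf 1 461 494) (node 461 (merge (leaf 2 429 432) (leaf 1 460 492))))))))) (node 529 (merge (leaf 5 432 433) (node 561 (merge (leaf 7 432 432) (node 594 (merge (leaf 4 465 562) (node 593 (merge (leaf 4 497 626) (node 625 (merge (leaf 7 528 657) (node 559 (merge (leaf 0 558 558) (node 530 (merge (leaf 6 497 498) (leaf 1 527 531)))))))))))))))))) (node 529 (merge (node 497 (merge (leaf 5 432 433) (node 561 (merge (leaf 7 432 432) (leaf 5 464 592))))) (merge (node 466 (merge (node 499 (merge (leaf 0 463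 498) (node 467 (merge (leaf 0 464 500) (node 435 (merge (leaf 2 431 434) (leaf 2 432 436))))))) (merge (node 499 (merge (leaf 0 463 498) (node 467 (merge (leaf 0 464 500) (node 431 (merge (leaf 3 430 430) (leaf 3 431 432))))))) (merge (node 435 (merge (leaf 2 431 434) (node 467 (merge (leaf 2 432 436) (node 431 (merge (leaf 3 430 430) (leaf 3 431 432))))))) (node 498 (merge (leaf 0 463 499) (node 434 (merge (leaf 2 431 435) (node 561 (merge (leaf 6 433 497) (leaf 5 433 530))))))))))) (merge (node 466 (merge (node 499 (merge (leaf 0 463 498) (node 467 (merge (leaf 0 464 500) (node 435 (merge (leaf 2 431 434) (leaf 2 432 436))))))) (merge (node 499 (merge (leaf 0 463 498) (node 467 (merge (leaf 0 464 500) (node 431 (merge (leaf 3 430 430) (leaf 3 431 432))))))) (merge (node 435 (merge (leaf 2 431 434) (node 467 (merge (leaf 2 432 436) (node 431 (merge (leaf 3 430 430) (leaf 3 431 432))))))) (node 498 (merge (leaf 0 463 499) (node 434 (merge (leaf 2 431 435) (node 497 (merge (leaf 5 401 402) (leaf 5 432 433))))))))))) (merge (node 466 (merge (node 499 (merge (leaf 0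 463 498) (node 467 (merge (leaf 0 464 500) (node 435 (merge (leaf 2 431 434) (leaf 2 432 436))))))) (merge (node 499 (merge (leaf 0 463 498) (node 467 (merge (leaf 0 464 500) (node 431 (merge (leaf 3 430 430) (leaf 3 431 432))))))) (merge (node 435 (merge (leaf 2 431 434) (node 467 (merge (leaf 2 432 436) (node 431 (merge (leaf 3 430 430) (leaf 3 431 432))))))) (node 498 (merge (leaf 0 463 499) (node 434 (merge (leaf 2 431 435) (node 530 (merge (leaf 5 433 561) (node 559 (merge (leaf 1 527 531) (node 558 (merge (leaf 1 526 527) (leaf 2 525 557))))))))))))))) (node 497 (merge (leaf 5 432 433) (node 561 (merge (leaf 5 464 592) (node 594 (merge (leaf 4 465 562) (node 593 (merge (leaf 4 497 626) (node 466 (merge (leaf 6 433 434) (leaf 6 465 498)))))))))))))))))))))))))))) nD_21 cD_21 11 (by decide +kernel)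
def nD_22 : ℕ := 0x100000001000000000000000080000000000000000000000000000000000000000000000000000000000000000000000000000000000000000000000000000000000000000000
def cD_22 : ℕ := 0x2000000060000000ec0000006f000000ec000001ff800000f7000001ff80000030000000300000002000000000000000000000000000000000000000000000000000000000000000000000000000000000000
theorem lD_22 : S nD_22 cD_22 12 := S_of_chk [] trivial (node 464 (merge (node 496 (merge (leaf 7 431 431) (node 561 (merge (leaf 4 464 593) (node 529 (merge (leaf 4 432 432) (node 559 (merge (leaf 5 463 591) (node 558 (merge (leaf 2 526 530) (leaf 2 525 557))))))))))) (merge (node 465 (merge (node 431 (merge (leaf 7 431 496) (node 495 (merge (leaf 4 431 527) (node 466 (merge (leaf 3 430 430) (leaf 1 462 494))))))) (merge (node 433 (merge (leaf 6 432 496) (node 462 (merge (leaf 2 430 434) (node 497 (merge (leaf 0 462 498) (leaf 5 432 529))))))) (node 462 (merge (node 497 (merge (leaf 0 462 498) (node 433 (merge (leaf 2 430 434) (leaf 5 432 529))))) (merge (node 498 (merge (leaf 0 462 497) (node 466 (merge (leaf 0 463 499) (node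 430 (merge (leaf 3 429 429) (leaf 3 430 431))))))) (node 434 (merge (leaf 2 430 433) (node 466 (merge (leaf 2 431 435) (node 430 (merge (leaf 3 429 429) (leaf 3 430 431))))))))))))) (merge (node 496 (merge (leaf 7 431 431) (node 561 (merge (leaf 4 464 593) (node 559 (merge (leaf 5 463 591) (node 527 (merge (leaf 5 431 432) (node 562 (merge (leaf 3 526 526) (node 594 (merge (leaf 0 559 595) (node 530 (merge (leaf 2 527 531) (node 465 (merge (leaf 6 432 433) (node 498 (merge (leaf 7 465 497) (node 499 (merge (leaf 0 463 466) (leaf 6 466 467))))))))))))))))))))) (merge (node 465 (merge (node 462 (merge (node 497 (merge (leaf 0 462 498) (node 433 (merge (leaf 2 430 434) (leaf 5 432 529))))) (merge (node 498 (merge (leaf 0 462 497) (node 466 (merge (leaf 0 463 499) (node 430 (merge (leaf 3 429 429) (leaf 3 430 431))))))) (node 434 (merge (leaf 2 430 433) (node 466 (merge (leaf 2 431 435) (node 430 (merge (leaf 3 429 429) (leaf 3 430 431)))))))))) (merge (node 466 (merge (node 495 (merge (leaf 1 462 494) (node 431 (merge (leaf 3 430 430) (leaf 4 431 527))))) (merge (node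 435 (merge (leaf 2 431 434) (node 467 (merge (leaf 2 432 436) (node 431 (merge (leaf 3 430 430) (leaf 3 431 432))))))) (node 494 (merge (leaf 1 462 495) (node 462 (merge (leaf 1 461 493) (node 434 (merge (leaf 2 430 433) (leaf 2 431 435)))))))))) (merge (node 466 (merge (node 495 (merge (leaf 1 462 494) (node 431 (merge (leaf 3 430 430) (leaf 4 431 527))))) (merge (node 499 (merge (leaf 0 463 498) (node 467 (merge (leaf 0 464 500) (node 431 (merge (leaf 3 430 430) (leaf 3 431 432))))))) (node 498 (merge (leaf 0 463 499) (node 497 (merge (leaf 0 462 462) (node 433 (merge (leaf 5 432 529) (node 530 (merge (leaf 4 401 401) (leaf 7 433 562)))))))))))) (merge (node 495 (merge (node 466 (merge (leaf 1 462 494) (node 499 (merge (leaf 0 463 498) (node 467 (merge (leaf 0 464 500) (node 435 (merge (leaf 2 431 434) (leaf 2 432 436))))))))) (node 527 (merge (leaf 4 431 431) (node 559 (merge (leaf 6 431 432) (node 558 (merge (leaf 5 462 590) (node 557 (merge (leaf 2 525 529) (leaf 2 524 556))))))))))) (node 497 (merge (node 462 (merge (leaf 0 462 498) (node 493 (merge (leaf 1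 461 494) (node 461 (merge (leaf 1 460 492) (node 429 (merge (leaf 3 428 428) (leaf 3 429 430))))))))) (merge (node 433 (merge (leaf 5 432 529) (node 462 (merge (leaf 2 430 434) (node 493 (merge (leaf 1 461 494) (node 461 (merge (leaf 2 429 432) (leaf 1 460 492))))))))) (node 529 (merge (leaf 5 432 433) (node 561 (merge (leaf 7 432 432) (node 594 (merge (leaf 4 465 562) (node 593 (merge (leaf 4 497 626) (node 625 (merge (leaf 7 528 657) (node 559 (merge (leaf 0 558 558) (node 530 (merge (leaf 6 497 498) (leaf 1 527 531))))))))))))))))))))))) (node 462 (merge (node 461 (merge (node 492 (merge (leaf 1 460 493) (node 460 (merge (leaf 1 459 491) (node 428 (merge (leaf 3 427 427) (leaf 3 428 429))))))) (merge (node 496 (merge (leaf 0 461 497) (node 432 (merge (leaf 2 429 433) (node 559 (merge (leaf 5 431 527) (leaf 5 463 591))))))) (node 496 (merge (leaf 0 461 497) (node 432 (merge (leaf 2 429 433) (node 559 (merge (leaf 5 431 527) (leaf 5 463 591)))))))))) (merge (node 497 (merge (node 465 (merge (leaf 0 462 498) (node 433 (merge (leaf 2 430 434) (leaf 5 432 529)))))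 (node 461 (merge (leaf 0 461 496) (node 492 (merge (leaf 1 460 493) (node 460 (merge (leaf 1 459 491) (node 428 (merge (leaf 3 427 427) (leaf 3 428 429))))))))))) (merge (node 497 (merge (node 465 (merge (leaf 0 462 498) (node 433 (merge (leaf 2 430 434) (leaf 5 432 529))))) (merge (node 496 (merge (leaf 0 461 461) (node 559 (merge (leaf 5 463 591) (node 432 (merge (leaf 5 431 527) (node 529 (merge (leaf 4 400 400) (leaf 4 432 561))))))))) (node 496 (merge (leaf 0 461 461) (node 498 (merge (leaf 0 462 465) (leaf 3 462 495)))))))) (merge (node 465 (merge (node 497 (merge (leaf 0 462 498) (node 433 (merge (leaf 2 430 434) (leaf 5 432 529))))) (merge (node 498 (merge (leaf 0 462 497) (node 466 (merge (leaf 0 463 499) (node 494 (merge (leaf 1 461 493) (leaf 1 462 495))))))) (node 493 (merge (leaf 1 461 494) (node 461 (merge (leaf 1 460 492) (node 433 (merge (leaf 2 429 432) (leaf 2 430 434)))))))))) (merge (node 497 (merge (node 465 (merge (leaf 0 462 498) (node 433 (merge (leaf 2 430 434) (leaf 5 432 529))))) (merge (node 496 (merge (leaf 0 461 461) (node 465 (merge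 (leaf 6 432 433) (leaf 0 462 498))))) (merge (node 496 (merge (leaf 0 461 461) (node 559 (merge (leaf 5 463 591) (node 432 (merge (leaf 5 431 527) (node 529 (merge (leaf 4 400 400) (leaf 4 432 561))))))))) (node 496 (merge (leaf 0 461 461) (node 498 (merge (leaf 0 462 465) (leaf 3 462 495))))))))) (merge (node 461 (merge (node 492 (merge (leaf 1 460 493) (node 460 (merge (leaf 1 459 491) (node 428 (merge (leaf 3 427 427) (leaf 3 428 429))))))) (merge (node 433 (merge (leaf 2 429 432) (node 465 (merge (leaf 2 430 434) (node 429 (merge (leaf 3 428 428) (leaf 3 429 430))))))) (merge (node 492 (merge (leaf 1 460 493) (node 460 (merge (leaf 1 459 491) (node 496 (merge (leaf 0 460 495) (node 432 (merge (leaf 2 429 433) (node 559 (merge (leaf 5 431 527) (leaf 5 463 591))))))))))) (node 493 (merge (leaf 1 460 492) (node 465 (merge (leaf 1 461 494) (node 433 (merge (leaf 2 429 432) (leaf 6 432 496))))))))))) (merge (node 465 (merge (node 498 (merge (leaf 0 462 497) (node 466 (merge (leaf 0 463 499) (node 494 (merge (leaf 1 461 493) (leaf 1 462 495))))))) (merge (node 497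 (merge (leaf 0 462 498) (node 496 (merge (leaf 0 461 461) (node 430 (merge (leaf 3 429 429) (node 559 (merge (leaf 5 463 591) (node 527 (merge (leaf 5 431 432) (leaf 7 430 495))))))))))) (merge (node 497 (merge (leaf 0 462 498) (node 496 (merge (leaf 0 461 461) (node 494 (merge (leaf 1 461 493) (node 430 (merge (leaf 3 429 429) (node 559 (merge (leaf 5 463 591) (node 527 (merge (leaf 5 431 432) (leaf 4 430 526))))))))))))) (merge (node 494 (merge (leaf 1 461 493) (node 495 (merge (leaf 1 462 466) (node 430 (merge (leaf 3 429 429) (node 559 (merge (leaf 7 430 527) (node 496 (merge (leaf 5 463 591) (node 461 (merge (leaf 0 460 460) (leaf 0 461 497))))))))))))) (node 494 (merge (leaf 1 461 493) (node 466 (merge (leaf 1 462 495) (node 499 (merge (leaf 0 463 498) (node 467 (merge (leaf 0 464 500) (node 435 (merge (leaf 2 431 434) (leaf 2 432 436)))))))))))))))) (node 465 (merge (node 497 (merge (leaf 0 462 498) (node 433 (merge (leaf 2 430 434) (leaf 5 432 529))))) (merge (node 494 (merge (leaf 1 461 493) (node 466 (merge (leaf 1 462 495) (node 499 (merge (leaf 0 463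 498) (node 467 (merge (leaf 0 464 500) (node 435 (merge (leaf 2 431 434) (leaf 2 432 436))))))))))) (node 496 (merge (leaf 6 432 433) (node 559 (merge (leaf 5 463 591) (node 432 (merge (leaf 5 431 527) (node 529 (merge (leaf 4 432 561) (node 400 (merge (leaf 4 400 497) (node 368 (merge (leaf 5 367 495) (node 369 (merge (leaf 6 336 337) (leaf 6 368 401))))))))))))))))))))))))))))))) nD_22 cD_22 12 (by decide +kernel)
def nD_23 : ℕ := 0x100000001000000000000000000000000000000000000000000000000000000000000000000000000000000000000000000000000000000000000000000000000000000000000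
def cD_23 : ℕ := 0x2c000000ee000000ff8000006fe00001efc00003ffc00001ff000003ff8000007a000000300000002000000000000000000000000000000000000000000000000000000000000000000000000000000000000
theorem lD_23 : S nD_23 cD_23 13 := S_of_chk [(nD_20, cD_20, 12), (nD_21, cD_21, 11), (nD_22, cD_22, 12)] ⟨lD_20, lD_21, lD_22, trivial⟩ (node 463 (merge (node 496 (merge (node 431 (merge (leaf 7 431 464) (node 495 (merge (leaf 4 399 399) (leaf 4 431 527))))) (merge (node 495 (merge (leaf 7 463 592) (node 431 (merge (leaf 4 399 399) (leaf 4 431 527))))) (merge (node 592 (merge (leaf 7 463 495) (node 593 (merge (leaf 4 496 625) (node 464 (merge (leaf 4 464 561) (node 591 (merge (leaf 5 463 559) (leaf 5 495 623))))))))) (node 464 (merge (leaf 7 431 431) (node 593 (merge (leaf 4 464 561) (node 592 (merge (leaf 4 496 625) (node 591 (merge (leaf 5 463 559) (leaf 5 495 623))))))))))))) (merge (node 496 (merge (node 431 (merge (leaf 7 431 464) (node 495 (merge (leaf 4 399 399) (leaf 4 431 527))))) (merge (node 495 (merge (leaf 7 463 592) (node 431 (merge (leaf 4 399 399) (leaf 4 431 527)))))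 (merge (node 592 (merge (leaf 7 463 495) (node 465 (merge (leaf 6 464 497) (node 464 (merge (leaf 6 432 433) (node 591 (merge (leaf 5 463 559) (leaf 5 495 623))))))))) (node 464 (merge (leaf 7 431 431) (node 465 (merge (leaf 6 432 433) (node 592 (merge (leaf 6 464 497) (node 591 (merge (leaf 5 463 559) (leaf 5 495 623))))))))))))) (merge (node 527 (merge (node 495 (merge (leaf 4 431 431) (node 592 (merge (leaf 7 463 496) (leaf 4 463 559))))) (merge (node 526 (merge (node 561 (merge (leaf 0 525 525) (node 562 (merge (leaf 0 526 529) (leaf 3 526 559))))) (merge (node 525 (merge (leaf 0 525 561) (node 556 (merge (leaf 1 524 557) (node 524 (merge (leaf 1 523 555) (node 492 (merge (leaf 3 491 491) (leaf 3 492 493))))))))) (merge (node 529 (merge (node 498 (merge (leaf 2 494 497) (node 530 (merge (leaf 2 495 499) (node 559 (merge (leaf 1 527 531) (leaf 1 526 558))))))) (merge (node 557 (merge (leaf 1 525 558) (node 525 (merge (leaf 1 524 556) (node 493 (merge (leaf 3 492 492) (leaf 3 493 494))))))) (node 498 (merge (leaf 2 494 497) (node 530 (merge (leaf 2 495 499) (node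 494 (merge (leaf 3 493 493) (leaf 3 494 495)))))))))) (node 529 (merge (node 498 (merge (leaf 2 494 497) (node 530 (merge (leaf 2 495 499) (node 559 (merge (leaf 1 527 531) (leaf 1 526 558))))))) (merge (node 494 (merge (leaf 3 493 493) (node 530 (merge (leaf 3 494 495) (node 559 (merge (leaf 1 527 531) (leaf 1 526 558))))))) (merge (node 561 (merge (leaf 0 526 562) (node 494 (merge (leaf 3 493 493) (node 530 (merge (leaf 3 494 495) (node 531 (merge (leaf 1 528 532) (node 499 (merge (leaf 2 495 498) (leaf 2 496 500))))))))))) (node 561 (merge (leaf 0 526 562) (node 558 (merge (leaf 1 525 557) (node 494 (merge (leaf 3 493 493) (node 590 (merge (leaf 6 462 495) (node 589 (merge (leaf 1 557 559) (leaf 5 493 621))))))))))))))))))) (merge (node 529 (merge (node 495 (merge (leaf 4 431 431) (node 494 (merge (leaf 3 494 530) (node 493 (merge (leaf 0 492 492) (leaf 3 493 526))))))) (merge (node 497 (merge (node 465 (merge (leaf 5 432 433) (node 592 (merge (leaf 6 464 496) (leaf 5 464 561))))) (merge (node 526 (merge (leaf 2 494 498) (node 561 (merge (leaf 0 525 525) (leaf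 0 526 562))))) (node 498 (merge (leaf 2 494 526) (node 499 (merge (leaf 1 495 496) (leaf 1 496 500)))))))) (node 495 (merge (leaf 4 431 431) (node 530 (merge (leaf 3 494 494) (node 499 (merge (leaf 2 495 498) (node 531 (merge (leaf 3 495 496) (leaf 2 496 500)))))))))))) (node 526 (merge (node 561 (merge (leaf 0 525 525) (node 562 (merge (leaf 0 526 529) (leaf 3 526 559))))) (merge (node 525 (merge (leaf 0 525 561) (node 556 (merge (leaf 1 524 557) (node 524 (merge (leaf 1 523 555) (node 492 (merge (leaf 3 491 491) (leaf 3 492 493))))))))) (merge (node 497 (merge (node 525 (merge (leaf 2 493 496) (node 524 (merge (leaf 0 524 559) (node 492 (merge (leaf 3 491 491) (leaf 3 492 493))))))) (merge (node 529 (merge (leaf 2 494 498) (node 557 (merge (leaf 1 525 558) (node 525 (merge (leaf 1 524 556) (node 493 (merge (leaf 3 492 492) (leaf 3 493 494))))))))) (merge (node 525 (merge (leaf 2 493 496) (node 559 (merge (leaf 0 524 524) (node 529 (merge (leaf 2 494 498) (node 558 (merge (leaf 1 526 530) (leaf 1 525 557))))))))) (node 529 (merge (leaf 2 494 498) (node 558 (merge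 (leaf 1 525 557) (node 559 (merge (leaf 1 526 530) (node 494 (merge (leaf 3 493 493) (node 591 (merge (leaf 4 462 462) (leaf 7 494 623))))))))))))))) (node 529 (merge (node 498 (merge (leaf 2 494 497) (node 530 (merge (leaf 2 495 499) (node 559 (merge (leaf 1 527 531) (leaf 1 526 558))))))) (merge (node 561 (merge (leaf 0 526 562) (node 497 (merge (leaf 2 494 498) (node 465 (merge (leaf 5 432 433) (leaf 5 464 592))))))) (node 558 (merge (leaf 1 525 557) (node 559 (merge (leaf 1 526 530) (node 494 (merge (leaf 3 493 493) (node 462 (merge (leaf 4 430 430) (leaf 4 462 591)))))))))))))))))))) (merge (node 496 (merge (node 464 (merge (leaf 7 431 431) (node 465 (merge (leaf 6 432 433) (node 592 (merge (leaf 7 463 495) (leaf 6 464 497))))))) (merge (node 464 (merge (leaf 7 431 431) (node 593 (merge (leaf 4 464 561) (node 592 (merge (leaf 7 463 495) (leaf 4 496 625))))))) (merge (node 592 (merge (leaf 7 463 495) (node 593 (merge (leaf 4 496 625) (node 464 (merge (leaf 4 464 561) (node 465 (merge (leaf 6 432 433) (leaf 6 464 497))))))))) (merge (node 464 (merge (leaf 7 431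 431) (node 561 (merge (leaf 4 464 593) (node 432 (merge (leaf 4 432 529) (node 433 (merge (leaf 6 400 401) (leaf 6 432 465))))))))) (node 497 (merge (node 592 (merge (leaf 6 464 465) (leaf 7 463 495))) (merge (node 465 (merge (leaf 6 464 592) (node 433 (merge (leaf 5 400 401) (leaf 5 432 529))))) (merge (node 495 (merge (leaf 7 463 592) (node 498 (merge (leaf 3 462 462) (node 530 (merge (leaf 0 495 531) (node 529 (merge (leaf 0 494 494) (node 466 (merge (leaf 2 463 467) (node 561 (merge (leaf 5 433 434) (leaf 6 465 593))))))))))))) (node 495 (merge (node 462 (merge (leaf 3 462 498) (node 461 (merge (leaf 0 460 460) (leaf 3 461 494))))) (merge (node 498 (merge (leaf 3 462 462) (node 531 (merge (leaf 0 495 530) (node 499 (merge (leaf 0 496 532) (node 467 (merge (leaf 2 463 466) (leaf 2 464 468))))))))) (merge (node 494 (merge (node 465 (merge (leaf 2 462 466) (node 433 (merge (leaf 5 400 401) (leaf 5 432 529))))) (node 525 (merge (leaf 1 493 526) (node 493 (merge (leaf 1 492 524) (node 461 (merge (leaf 3 460 460) (leaf 3 461 462))))))))) (node 465 (merge (node 433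 (merge (leaf 5 400 401) (leaf 5 432 529))) (merge (node 466 (merge (leaf 2 462 494) (node 467 (merge (leaf 1 464 468) (leaf 2 463 498))))) (node 494 (merge (leaf 2 462 466) (node 529 (merge (leaf 0 493 493) (leaf 0 494 530))))))))))))))))))))) (merge (node 527 (merge (node 495 (merge (leaf 4 431 431) (node 559 (merge (leaf 4 463 592) (node 558 (merge (leaf 5 462 590) (node 529 (merge (leaf 1 526 530) (leaf 2 525 557))))))))) (merge (node 495 (merge (leaf 4 431 431) (node 559 (merge (leaf 4 463 592) (node 464 (merge (leaf 6 431 432) (node 462 (merge (leaf 7 430 430) (node 494 (merge (leaf 7 462 591) (node 493 (merge (leaf 1 461 465) (leaf 0 492 492))))))))))))) (merge (node 526 (merge (node 561 (merge (leaf 0 525 525) (node 562 (merge (leaf 0 526 529) (leaf 3 526 559))))) (merge (node 525 (merge (leaf 0 525 561) (node 556 (merge (leaf 1 524 557) (node 524 (merge (leaf 1 523 555) (node 492 (merge (leaf 3 491 491) (leaf 3 492 493))))))))) (merge (node 529 (merge (node 498 (merge (leaf 2 494 497) (node 530 (merge (leaf 2 495 499) (node 559 (merge (leaf 1 527 531) (leaf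 1 526 558))))))) (merge (node 557 (merge (leaf 1 525 558) (node 525 (merge (leaf 1 524 556) (node 493 (merge (leaf 3 492 492) (leaf 3 493 494))))))) (node 498 (merge (leaf 2 494 497) (node 530 (merge (leaf 2 495 499) (node 494 (merge (leaf 3 493 493) (leaf 3 494 495)))))))))) (node 529 (merge (node 498 (merge (leaf 2 494 497) (node 530 (merge (leaf 2 495 499) (node 559 (merge (leaf 1 527 531) (leaf 1 526 558))))))) (merge (node 494 (merge (leaf 3 493 493) (node 530 (merge (leaf 3 494 495) (node 559 (merge (leaf 1 527 531) (leaf 1 526 558))))))) (merge (node 561 (merge (leaf 0 526 562) (node 494 (merge (leaf 3 493 493) (node 530 (merge (leaf 3 494 495) (node 531 (merge (leaf 1 528 532) (node 499 (merge (leaf 2 495 498) (leaf 2 496 500))))))))))) (node 561 (merge (leaf 0 526 562) (node 558 (merge (leaf 1 525 557) (node 494 (merge (leaf 3 493 493) (node 590 (merge (leaf 6 462 495) (node 589 (merge (leaf 1 557 559) (leaf 5 493 621))))))))))))))))))) (merge (node 526 (merge (node 561 (merge (leaf 0 525 525) (node 562 (merge (leaf 0 526 529) (leaf 3 526 559))))) (merge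 (node 525 (merge (leaf 0 525 561) (node 556 (merge (leaf 1 524 557) (node 524 (merge (leaf 1 523 555) (node 492 (merge (leaf 3 491 491) (leaf 3 492 493))))))))) (merge (node 529 (merge (node 498 (merge (leaf 2 494 497) (node 530 (merge (leaf 2 495 499) (node 559 (merge (leaf 1 527 531) (leaf 1 526 558))))))) (merge (node 493 (merge (leaf 3 493 494) (node 525 (merge (leaf 3 492 492) (node 524 (merge (leaf 0 524 559) (node 556 (merge (leaf 1 523 555) (leaf 1 524 557))))))))) (node 558 (merge (leaf 1 525 557) (node 497 (merge (leaf 2 494 498) (node 494 (merge (leaf 3 493 493) (node 465 (merge (leaf 5 432 433) (node 462 (merge (leaf 6 430 431) (node 429 (merge (leaf 7 429 461) (node 430 (merge (leaf 7 397 397) (leaf 3 429 464)))))))))))))))))) (node 529 (merge (node 498 (merge (leaf 2 494 497) (node 530 (merge (leaf 2 495 499) (node 559 (merge (leaf 1 527 531) (leaf 1 526 558))))))) (merge (node 561 (merge (leaf 0 526 562) (node 497 (merge (leaf 2 494 498) (node 465 (merge (leaf 5 432 433) (leaf 5 464 592))))))) (node 558 (merge (leaf 1 525 557) (node 559 (merge (leaf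 1 526 530) (node 494 (merge (leaf 3 493 493) (node 462 (merge (leaf 4 430 430) (leaf 4 462 591)))))))))))))))) (node 495 (merge (leaf 4 431 431) (node 526 (merge (node 529 (merge (node 494 (merge (leaf 3 493 493) (leaf 3 494 530))) (node 561 (merge (leaf 0 526 562) (node 497 (merge (leaf 2 494 498) (node 465 (merge (leaf 5 432 433) (leaf 5 464 592))))))))) (merge (node 525 (merge (leaf 0 525 561) (node 556 (merge (leaf 1 524 557) (node 524 (merge (leaf 1 523 555) (node 523 (merge (leaf 2 491 494) (node 491 (merge (leaf 3 490 490) (leaf 3 491 492))))))))))) (merge (node 525 (merge (leaf 0 525 561) (node 557 (merge (leaf 1 524 556) (node 558 (merge (leaf 1 525 529) (node 493 (merge (leaf 3 492 492) (node 590 (merge (leaf 4 461 461) (leaf 6 494 622))))))))))) (node 557 (merge (node 556 (merge (leaf 1 524 525) (node 558 (merge (leaf 1 525 529) (leaf 2 523 555))))) (merge (node 529 (merge (leaf 1 525 558) (node 498 (merge (leaf 2 494 497) (node 530 (merge (leaf 3 494 494) (leaf 2 495 499))))))) (merge (node 525 (merge (leaf 1 524 556) (node 493 (merge (leaf 3 492 492)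 (node 494 (merge (leaf 3 493 529) (node 589 (merge (leaf 6 461 462) (leaf 6 493 621))))))))) (node 525 (merge (leaf 1 524 556) (node 492 (merge (leaf 3 492 493) (node 524 (merge (leaf 3 491 491) (node 523 (merge (leaf 2 491 494) (node 522 (merge (leaf 0 522 558) (node 554 (merge (leaf 1 521 553) (leaf 1 522 555)))))))))))))))))))))))))))) (merge (hyp 0) (merge (hyp 1) (hyp 2))))))))) nD_23 cD_23 13 (by decide +kernel)
def nD_24 : ℕ := 0x100000001800000000000000000000000000000000000000000000000000000000000000000000000000000000000000000000000000000000000000000000000000000000000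
def cD_24 : ℕ := 0x2c0000002c000000efc000006fc00000e3c00000ff000000ff000000fc00000000000000000000000000000000000000000000000000000000000000000000000000000000000000000000000000000000000
theorem lD_24 : S nD_24 cD_24 12 := S_of_chk [] trivial (node 559 (merge (node 558 (merge (node 529 (merge (leaf 1 526 530) (leaf 2 525 557))) (merge (node 557 (merge (leaf 2 524 556) (node 589 (merge (leaf 1 556 588) (node 590 (merge (leaf 1 557 561) (node 495 (merge (leaf 5 462 463) (node 622 (merge (leaf 5 494 591) (leaf 6 526 654))))))))))) (node 561 (merge (node 594 (merge (leaf 0 558 593) (node 562 (merge (leaf 0 559 595) (node 530 (merge (leaf 2 526 529) (leaf 2 527 531))))))) (node 590 (merge (leaf 1 557 589) (node 622 (merge (leaf 6 526 654) (node 495 (merge (leaf 5 462 463) (leaf 5 494 591)))))))))))) (merge (node 591 (merge (node 496 (merge (leaf 5 463 464) (leaf 6 495 623))) (node 495 (merge (node 463 (merge (leaf 4 431 431) (node 590 (merge (leaf 5 462 558) (leaf 5 494 622))))) (merge (node 463 (merge (leaf 4 431 431) (node 462 (merge (leaf 7 430 430) (leaf 7 462 494)))))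 (node 590 (merge (leaf 5 494 622) (node 561 (merge (leaf 1 558 562) (node 589 (merge (leaf 1 557 558) (leaf 2 556 588)))))))))))) (merge (node 495 (merge (node 463 (merge (leaf 4 431 431) (node 558 (merge (leaf 5 462 590) (node 557 (merge (leaf 2 525 529) (leaf 2 524 556))))))) (merge (node 463 (merge (leaf 4 431 431) (node 464 (merge (leaf 6 431 432) (node 591 (merge (leaf 6 463 496) (node 462 (merge (leaf 7 430 430) (leaf 7 462 494))))))))) (node 591 (merge (node 623 (merge (leaf 6 527 655) (node 622 (merge (leaf 5 494 590) (leaf 5 526 654))))) (node 494 (merge (leaf 7 462 462) (node 493 (merge (leaf 0 492 492) (node 529 (merge (leaf 0 493 496) (leaf 3 494 530)))))))))))) (merge (node 495 (merge (node 463 (merge (leaf 4 431 431) (node 462 (merge (leaf 7 430 430) (node 591 (merge (leaf 7 462 494) (node 623 (merge (leaf 6 495 496) (leaf 6 527 655))))))))) (merge (node 463 (merge (leaf 4 431 431) (node 464 (merge (leaf 6 431 432) (node 496 (merge (leaf 5 463 591) (node 465 (merge (leaf 6 432 433) (node 494 (merge (leaf 1 462 466) (leaf 2 461 493))))))))))) (merge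 (node 463 (merge (leaf 4 431 431) (node 464 (merge (leaf 6 431 432) (node 462 (merge (leaf 7 430 430) (node 494 (merge (leaf 7 462 591) (node 493 (merge (leaf 1 461 465) (leaf 0 492 492))))))))))) (merge (node 496 (merge (node 464 (merge (leaf 5 431 432) (leaf 5 463 591))) (merge (node 591 (merge (leaf 6 495 623) (node 494 (merge (leaf 7 462 462) (node 493 (merge (leaf 0 492 492) (leaf 0 493 529))))))) (node 464 (merge (leaf 5 431 432) (node 465 (merge (leaf 6 432 433) (node 466 (merge (leaf 1 463 467) (node 494 (merge (leaf 2 461 493) (leaf 2 462 497)))))))))))) (merge (node 463 (merge (leaf 4 431 431) (node 464 (merge (leaf 6 431 432) (node 496 (merge (leaf 5 463 591) (node 462 (merge (leaf 7 430 430) (node 461 (merge (leaf 0 460 460) (leaf 0 461 497))))))))))) (node 493 (merge (node 494 (merge (leaf 0 492 492) (node 529 (merge (leaf 0 493 496) (leaf 3 494 530))))) (merge (node 492 (merge (leaf 0 492 494) (node 463 (merge (leaf 4 431 431) (node 464 (merge (leaf 6 431 432) (node 462 (merge (leaf 7 430 430) (leaf 1 460 461))))))))) (merge (node 463 (merge (leaf 4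 431 431) (node 464 (merge (leaf 6 431 432) (node 462 (merge (leaf 7 430 430) (node 461 (merge (leaf 1 460 492) (node 496 (merge (leaf 0 460 460) (leaf 0 461 497))))))))))) (node 463 (merge (leaf 4 431 431) (node 464 (merge (leaf 6 431 432) (node 462 (merge (leaf 7 430 430) (node 465 (merge (leaf 1 461 494) (node 498 (merge (leaf 0 462 497) (node 466 (merge (leaf 0 463 499) (node 496 (merge (leaf 6 432 433) (leaf 1 463 467))))))))))))))))))))))))) (merge (node 558 (merge (node 529 (merge (leaf 2 525 557) (node 530 (merge (leaf 1 526 527) (leaf 1 527 531))))) (merge (node 561 (merge (node 530 (merge (leaf 2 526 529) (node 562 (merge (leaf 2 527 531) (node 590 (merge (leaf 1 557 589) (leaf 1 558 591))))))) (merge (node 594 (merge (leaf 0 558 593) (node 562 (merge (leaf 0 559 595) (node 530 (merge (leaf 2 526 529) (leaf 2 527 531))))))) (merge (node 594 (merge (leaf 0 558 593) (node 562 (merge (leaf 0 559 595) (node 590 (merge (leaf 1 557 589) (leaf 1 558 591))))))) (node 593 (merge (leaf 0 558 594) (node 625 (merge (leaf 7 528 657) (node 529 (merge (leaf 7 496 496)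 (leaf 2 526 530))))))))))) (node 557 (merge (node 556 (merge (leaf 2 524 527) (node 588 (merge (leaf 1 555 587) (leaf 1 556 589))))) (merge (node 589 (merge (leaf 1 556 588) (node 590 (merge (leaf 1 557 561) (node 525 (merge (leaf 3 524 524) (node 622 (merge (leaf 4 493 493) (leaf 7 525 654))))))))) (merge (node 556 (merge (leaf 2 524 527) (node 587 (merge (leaf 1 555 588) (node 555 (merge (leaf 1 554 586) (node 523 (merge (leaf 3 522 522) (leaf 3 523 524))))))))) (node 556 (merge (leaf 2 524 527) (node 523 (merge (leaf 3 523 524) (node 555 (merge (leaf 3 522 522) (node 590 (merge (leaf 0 555 591) (node 589 (merge (leaf 0 554 554) (leaf 1 557 561)))))))))))))))))) (node 496 (merge (node 495 (merge (node 464 (merge (leaf 5 431 432) (node 465 (merge (leaf 6 432 433) (node 466 (merge (leaf 1 463 467) (node 494 (merge (leaf 2 461 493) (leaf 2 462 497))))))))) (merge (node 463 (merge (leaf 4 431 431) (node 462 (merge (leaf 7 430 430) (node 461 (merge (leaf 0 460 460) (node 494 (merge (leaf 3 461 497) (node 529 (merge (leaf 0 493 493) (leaf 3 494 530))))))))))) (merge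 (node 463 (merge (leaf 4 431 431) (node 464 (merge (leaf 5 431 432) (node 465 (merge (leaf 6 432 433) (node 494 (merge (leaf 1 462 466) (leaf 2 461 493))))))))) (node 463 (merge (leaf 4 431 431) (node 464 (merge (leaf 5 431 432) (node 462 (merge (leaf 7 430 430) (node 461 (merge (leaf 0 460 460) (leaf 0 461 497))))))))))))) (merge (node 463 (merge (node 464 (merge (leaf 7 431 431) (leaf 5 431 432))) (node 558 (merge (node 529 (merge (leaf 1 526 530) (leaf 2 525 557))) (merge (node 557 (merge (leaf 2 524 556) (node 589 (merge (leaf 1 556 588) (node 590 (merge (leaf 1 557 561) (node 525 (merge (leaf 3 524 524) (node 622 (merge (leaf 4 493 493) (leaf 7 525 654))))))))))) (node 529 (merge (leaf 1 526 530) (node 590 (merge (leaf 5 462 495) (node 561 (merge (leaf 1 557 589) (node 593 (merge (leaf 0 558 594) (node 625 (merge (leaf 7 496 496) (leaf 7 528 657)))))))))))))))) (merge (node 495 (merge (node 464 (merge (leaf 5 431 432) (node 465 (merge (leaf 6 432 433) (node 466 (merge (leaf 1 463 467) (node 494 (merge (leaf 2 461 493) (leaf 2 462 497))))))))) (merge (node 463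 (merge (leaf 4 431 431) (node 558 (merge (leaf 5 462 590) (node 557 (merge (leaf 2 524 556) (node 525 (merge (leaf 3 524 524) (node 462 (merge (leaf 7 430 430) (node 497 (merge (leaf 3 462 498) (node 494 (merge (leaf 3 461 461) (node 493 (merge (leaf 0 492 492) (leaf 6 461 589))))))))))))))))) (merge (node 463 (merge (leaf 4 431 431) (node 464 (merge (leaf 5 431 432) (node 462 (merge (leaf 7 430 430) (node 461 (merge (leaf 0 460 460) (leaf 0 461 497))))))))) (node 463 (merge (leaf 4 431 431) (node 464 (merge (leaf 5 431 432) (node 465 (merge (leaf 6 432 433) (node 494 (merge (leaf 1 462 466) (leaf 2 461 493))))))))))))) (merge (node 558 (merge (node 529 (merge (leaf 1 526 530) (leaf 2 525 557))) (merge (node 557 (merge (leaf 2 524 556) (node 589 (merge (leaf 1 556 588) (node 590 (merge (leaf 1 557 561) (node 525 (merge (leaf 3 524 524) (node 622 (merge (leaf 4 493 493) (leaf 7 525 654))))))))))) (node 495 (merge (node 463 (merge (leaf 4 431 431) (leaf 5 462 590))) (node 497 (merge (node 498 (merge (leaf 1 495 499) (node 530 (merge (leaf 1 526 529) (leaf 0 495 531)))))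 (merge (node 529 (merge (leaf 1 526 530) (node 494 (merge (leaf 0 493 493) (node 465 (merge (leaf 5 432 433) (leaf 2 462 466))))))) (node 498 (merge (leaf 1 495 499) (node 466 (merge (leaf 2 463 467) (node 494 (merge (leaf 2 462 465) (node 493 (merge (leaf 0 492 492) (node 461 (merge (leaf 3 460 460) (leaf 3 461 462))))))))))))))))))) (merge (node 530 (merge (node 529 (merge (leaf 1 527 531) (leaf 1 526 558))) (merge (node 529 (merge (leaf 1 526 558) (node 498 (merge (leaf 2 495 499) (node 495 (merge (leaf 3 494 494) (node 464 (merge (leaf 5 431 432) (node 561 (merge (leaf 4 464 593) (node 466 (merge (leaf 5 433 434) (node 465 (merge (leaf 6 432 433) (leaf 1 463 467))))))))))))))) (node 464 (merge (leaf 5 431 432) (node 561 (merge (leaf 4 464 593) (node 562 (merge (leaf 2 527 531) (node 594 (merge (leaf 0 559 595) (node 465 (merge (leaf 6 432 433) (node 498 (merge (leaf 7 465 497) (node 467 (merge (leaf 6 466 499) (node 466 (merge (leaf 6 434 435) (leaf 1 463 495)))))))))))))))))))) (node 530 (merge (node 529 (merge (leaf 1 527 531) (leaf 1 526 558))) (merge (node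 558 (merge (leaf 1 526 529) (node 557 (merge (leaf 2 524 556) (node 589 (merge (leaf 1 556 588) (node 590 (merge (leaf 1 557 561) (node 525 (merge (leaf 3 524 524) (node 622 (merge (leaf 4 493 493) (leaf 7 525 654))))))))))))) (node 464 (merge (leaf 5 431 432) (node 561 (merge (leaf 4 464 593) (node 562 (merge (leaf 2 527 531) (node 594 (merge (leaf 0 559 595) (node 465 (merge (leaf 6 432 433) (node 463 (merge (leaf 7 431 431) (node 498 (merge (leaf 7 465 497) (node 499 (merge (leaf 0 463 466) (leaf 6 466 467)))))))))))))))))))))))))))))))) nD_24 cD_24 12 (by decide +kernel)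
def nD_25 : ℕ := 0x100000001800000000000000000000000000000000000000000000000000000000000000000000000000000000000000000000000000000000000000000000000000000000000
def cD_25 : ℕ := 0xa0000001e0000003fc000000f8000000fc00000e7c00000ffc00000ff0000003f0000002e000000020000000000000000000000000000000000000000000000000000000000000000000000000000000000000000000
theorem lD_25 : S nD_25 cD_25 12 := S_of_chk [] trivial (node 558 (merge (node 529 (merge (node 559 (merge (leaf 1 526 530) (leaf 2 525 557))) (merge (node 557 (merge (leaf 1 525 526) (leaf 2 525 559))) (merge (node 530 (merge (leaf 1 526 559) (node 498 (merge (leaf 2 495 499) (node 526 (merge (leaf 2 494 497) (node 494 (merge (leaf 3 493 493) (leaf 3 494 495))))))))) (node 526 (merge (leaf 1 525 557) (node 498 (merge (leaf 2 494 497) (node 530 (merge (leaf 2 495 499) (node 494 (merge (leaf 3 493 493) (leaf 3 494 495))))))))))))) (merge (node 557 (merge (node 529 (merge (leaf 1 525 526) (leaf 2 525 559))) (merge (node 526 (merge (leaf 1 525 529) (node 556 (merge (leaf 1 524 525) (leaf 2 523 555))))) (merge (node 559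 (merge (leaf 2 525 529) (node 556 (merge (leaf 2 524 527) (node 588 (merge (leaf 1 555 587) (leaf 1 556 589))))))) (node 556 (merge (leaf 2 524 559) (node 526 (merge (leaf 1 524 525) (leaf 2 523 555))))))))) (merge (node 526 (merge (node 557 (merge (leaf 1 525 529) (node 556 (merge (leaf 1 524 525) (leaf 2 523 555))))) (merge (node 529 (merge (leaf 1 525 557) (node 494 (merge (leaf 3 493 493) (node 495 (merge (leaf 3 494 530) (node 590 (merge (leaf 6 462 463) (leaf 6 494 622))))))))) (merge (node 525 (merge (node 496 (merge (leaf 2 493 497) (node 524 (merge (leaf 2 492 495) (node 556 (merge (leaf 1 523 555) (leaf 1 524 557))))))) (node 493 (merge (leaf 3 492 492) (node 461 (merge (leaf 4 429 429) (node 590 (merge (leaf 7 461 494) (leaf 7 493 622))))))))) (node 525 (merge (node 493 (merge (leaf 3 492 492) (node 461 (merge (leaf 4 429 429) (node 494 (merge (leaf 3 493 529) (leaf 7 461 590))))))) (merge (node 496 (merge (leaf 2 493 497) (node 524 (merge (leaf 2 492 495) (node 555 (merge (leaf 1 523 556) (node 523 (merge (leaf 1 522 554) (node 491 (merge (leaf 3 490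 490) (leaf 3 491 492))))))))))) (node 496 (merge (leaf 2 493 497) (node 495 (merge (leaf 2 492 524) (node 590 (merge (leaf 6 494 622) (node 494 (merge (leaf 6 462 463) (node 493 (merge (leaf 7 461 461) (leaf 0 493 529)))))))))))))))))) (merge (node 559 (merge (node 529 (merge (leaf 1 526 530) (leaf 2 525 557))) (merge (node 590 (merge (node 622 (merge (leaf 6 526 654) (node 495 (merge (leaf 5 462 463) (leaf 5 494 591))))) (merge (node 557 (merge (leaf 2 524 556) (node 525 (merge (leaf 3 524 524) (node 622 (merge (leaf 7 525 654) (node 493 (merge (leaf 4 461 461) (leaf 4 493 589))))))))) (node 557 (merge (leaf 2 524 556) (node 589 (merge (leaf 1 556 588) (node 525 (merge (leaf 3 524 524) (node 493 (merge (leaf 4 461 461) (node 495 (merge (leaf 5 462 463) (node 492 (merge (leaf 7 460 460) (leaf 0 492 494)))))))))))))))) (node 591 (merge (node 623 (merge (leaf 6 495 496) (leaf 6 527 655))) (merge (node 623 (merge (leaf 6 527 655) (node 624 (merge (leaf 4 527 656) (node 622 (merge (leaf 5 526 654) (node 590 (merge (leaf 5 494 495) (node 589 (merge (leaf 0 588 588) (leaf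 3 589 625))))))))))) (node 495 (merge (node 463 (merge (leaf 4 431 431) (node 464 (merge (leaf 6 431 432) (leaf 6 463 496))))) (merge (node 463 (merge (leaf 4 431 431) (node 462 (merge (leaf 7 430 430) (leaf 7 462 494))))) (node 494 (merge (leaf 7 462 462) (node 493 (merge (leaf 0 492 492) (node 529 (merge (leaf 0 493 496) (leaf 3 494 530)))))))))))))))) (merge (node 526 (merge (node 525 (merge (node 496 (merge (leaf 2 493 497) (node 524 (merge (leaf 2 492 495) (node 556 (merge (leaf 1 523 555) (leaf 1 524 557))))))) (node 493 (merge (leaf 3 492 492) (node 461 (merge (leaf 4 429 429) (node 590 (merge (leaf 7 461 494) (leaf 7 493 622))))))))) (merge (node 559 (merge (node 525 (merge (leaf 0 524 524) (node 496 (merge (leaf 2 493 497) (node 591 (merge (leaf 5 463 464) (leaf 6 495 623))))))) (node 557 (merge (leaf 2 524 556) (node 589 (merge (leaf 1 556 588) (node 494 (merge (leaf 5 461 462) (node 621 (merge (leaf 5 493 590) (leaf 6 525 653))))))))))) (merge (node 525 (merge (node 524 (merge (leaf 0 524 559) (node 492 (merge (leaf 3 491 491) (leaf 3 492 493))))) (merge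 (node 496 (merge (leaf 2 493 497) (node 524 (merge (leaf 2 492 495) (node 556 (merge (leaf 1 523 555) (leaf 1 524 557))))))) (node 493 (merge (leaf 3 492 492) (node 461 (merge (leaf 4 429 429) (node 590 (merge (leaf 4 461 557) (leaf 7 493 622)))))))))) (merge (node 525 (merge (node 524 (merge (leaf 0 524 559) (node 492 (merge (leaf 3 491 491) (leaf 3 492 493))))) (merge (node 496 (merge (leaf 2 493 497) (node 524 (merge (leaf 2 492 495) (node 556 (merge (leaf 1 523 555) (leaf 1 524 557))))))) (node 557 (merge (leaf 1 524 556) (node 496 (merge (leaf 2 493 497) (node 493 (merge (leaf 3 492 492) (node 461 (merge (leaf 4 429 429) (node 460 (merge (leaf 7 428 428) (node 495 (merge (leaf 3 460 494) (node 463 (merge (leaf 4 431 431) (leaf 0 460 462)))))))))))))))))) (merge (node 590 (merge (node 622 (merge (leaf 6 494 495) (node 655 (merge (leaf 4 526 623) (node 654 (merge (leaf 6 526 559) (leaf 4 558 687))))))) (merge (node 622 (merge (leaf 6 494 495) (node 654 (merge (leaf 6 526 559) (node 653 (merge (leaf 5 525 621) (leaf 5 557 685))))))) (merge (node 622 (merge (node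 654 (merge (leaf 6 526 559) (node 653 (merge (leaf 5 525 621) (leaf 5 557 685))))) (merge (node 655 (merge (leaf 4 526 623) (node 654 (merge (leaf 6 526 559) (leaf 4 558 687))))) (node 623 (merge (leaf 4 526 655) (node 494 (merge (leaf 4 494 591) (node 621 (merge (leaf 5 493 589) (leaf 5 525 653)))))))))) (merge (node 622 (merge (leaf 6 494 495) (node 623 (merge (leaf 4 526 655) (node 494 (merge (leaf 4 494 591) (node 621 (merge (leaf 5 493 589) (leaf 5 525 653))))))))) (node 494 (merge (node 463 (merge (leaf 6 462 495) (node 462 (merge (leaf 6 430 431) (node 461 (merge (leaf 7 429 429) (leaf 7 461 493))))))) (node 591 (merge (leaf 4 494 623) (node 589 (merge (leaf 5 493 621) (node 588 (merge (leaf 2 556 559) (node 619 (merge (leaf 1 587 620) (node 587 (merge (leaf 1 586 618) (node 555 (merge (leaf 3 554 554) (leaf 3 555 556)))))))))))))))))))) (node 559 (merge (node 525 (merge (leaf 0 524 524) (node 493 (merge (leaf 3 492 492) (node 461 (merge (leaf 4 429 429) (node 590 (merge (leaf 7 461 494) (leaf 7 493 622))))))))) (merge (node 496 (merge (node 464 (merge (leaf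 5 431 432) (leaf 5 463 591))) (node 497 (merge (leaf 2 493 525) (node 498 (merge (leaf 1 494 495) (leaf 1 495 499))))))) (node 590 (merge (node 622 (merge (leaf 6 494 495) (leaf 6 526 654))) (merge (node 622 (merge (leaf 6 526 654) (node 621 (merge (leaf 5 525 653) (node 494 (merge (leaf 5 493 589) (node 462 (merge (leaf 4 430 430) (leaf 4 462 591))))))))) (node 589 (merge (node 588 (merge (leaf 2 555 587) (leaf 2 556 591))) (node 494 (merge (leaf 5 493 621) (node 463 (merge (leaf 6 462 495) (node 462 (merge (leaf 6 430 431) (node 430 (merge (leaf 4 430 527) (node 429 (merge (leaf 7 397 397) (leaf 7 429 461))))))))))))))))))))))))) (node 526 (merge (node 525 (merge (node 493 (merge (leaf 3 492 492) (node 461 (merge (leaf 4 429 429) (node 590 (merge (leaf 7 461 494) (leaf 7 493 622))))))) (merge (node 524 (merge (leaf 0 524 559) (node 555 (merge (leaf 1 523 556) (node 523 (merge (leaf 1 522 554) (node 491 (merge (leaf 3 490 490) (leaf 3 491 492))))))))) (node 524 (merge (leaf 0 524 559) (node 555 (merge (leaf 1 523 556) (node 523 (merge (leaf 1 522 554) (node 494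 (merge (leaf 2 491 495) (node 493 (merge (leaf 2 490 522) (node 590 (merge (leaf 7 461 461) (leaf 7 493 622)))))))))))))))) (merge (node 559 (merge (node 525 (merge (leaf 0 524 524) (node 496 (merge (leaf 2 493 497) (node 591 (merge (leaf 5 463 464) (leaf 6 495 623))))))) (merge (node 525 (merge (leaf 0 524 524) (node 493 (merge (leaf 3 492 492) (node 529 (merge (leaf 3 493 494) (node 530 (merge (leaf 1 527 531) (leaf 1 526 558))))))))) (node 529 (merge (node 498 (merge (leaf 2 494 497) (node 530 (merge (leaf 2 495 499) (leaf 1 527 531))))) (node 494 (merge (leaf 3 493 493) (node 462 (merge (leaf 4 430 430) (node 591 (merge (leaf 4 462 558) (leaf 7 494 623)))))))))))) (merge (node 525 (merge (node 493 (merge (leaf 3 492 492) (node 461 (merge (leaf 4 429 429) (node 494 (merge (leaf 3 493 529) (leaf 7 461 590))))))) (merge (node 496 (merge (leaf 2 493 497) (node 524 (merge (leaf 2 492 495) (node 555 (merge (leaf 1 523 556) (node 523 (merge (leaf 1 522 554) (node 491 (merge (leaf 3 490 490) (leaf 3 491 492))))))))))) (node 496 (merge (leaf 2 493 497) (node 495 (merge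 (leaf 2 492 524) (node 590 (merge (leaf 6 494 622) (node 494 (merge (leaf 6 462 463) (node 493 (merge (leaf 7 461 461) (leaf 0 493 529)))))))))))))) (merge (node 494 (merge (node 529 (merge (leaf 3 493 493) (node 498 (merge (leaf 2 494 497) (node 530 (merge (leaf 3 494 495) (leaf 2 495 499))))))) (merge (node 529 (merge (leaf 3 493 493) (node 498 (merge (leaf 2 494 497) (node 530 (merge (leaf 2 495 499) (node 559 (merge (leaf 1 527 531) (leaf 1 526 558))))))))) (node 591 (merge (node 623 (merge (leaf 7 494 559) (leaf 4 494 590))) (merge (node 590 (merge (leaf 4 494 623) (node 495 (merge (leaf 6 462 463) (leaf 6 494 622))))) (node 462 (merge (leaf 4 462 559) (node 431 (merge (leaf 6 430 463) (node 430 (merge (leaf 6 398 399) (node 398 (merge (leaf 4 398 495) (node 397 (merge (leaf 7 365 365) (leaf 7 397 429))))))))))))))))) (merge (node 496 (merge (node 525 (merge (leaf 2 493 497) (node 492 (merge (leaf 3 492 493) (node 524 (merge (leaf 3 491 491) (leaf 2 492 495))))))) (merge (node 525 (merge (leaf 2 493 497) (node 524 (merge (leaf 0 524 559) (node 555 (merge (leaf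 1 523 556) (node 523 (merge (leaf 1 522 554) (node 491 (merge (leaf 3 490 490) (leaf 3 491 492))))))))))) (merge (node 464 (merge (node 559 (merge (leaf 5 431 432) (leaf 5 463 591))) (merge (node 559 (merge (leaf 5 431 432) (leaf 5 463 591))) (merge (node 433 (merge (leaf 6 432 465) (node 432 (merge (leaf 6 400 401) (node 431 (merge (leaf 7 399 399) (leaf 7 431 463))))))) (node 559 (merge (leaf 5 463 591) (node 525 (merge (leaf 0 524 524) (node 463 (merge (leaf 7 431 431) (node 590 (merge (leaf 5 462 495) (node 622 (merge (leaf 7 493 493) (leaf 6 526 654))))))))))))))) (node 464 (merge (node 559 (merge (leaf 5 431 432) (leaf 5 463 591))) (merge (node 559 (merge (leaf 5 431 432) (leaf 5 463 591))) (merge (node 433 (merge (leaf 6 432 465) (node 432 (merge (leaf 6 400 401) (node 431 (merge (leaf 7 399 399) (leaf 7 431 463))))))) (node 559 (merge (leaf 5 463 591) (node 465 (merge (leaf 6 432 433) (node 463 (merge (leaf 7 431 431) (node 495 (merge (leaf 5 462 590) (node 466 (merge (leaf 1 463 467) (node 498 (merge (leaf 0 463 499) (node 462 (merge (leaf 7 430 430) (leaf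 0 462 497))))))))))))))))))))))) (node 496 (merge (node 464 (merge (node 559 (merge (leaf 5 431 432) (leaf 5 463 591))) (merge (node 559 (merge (leaf 5 431 432) (leaf 5 463 591))) (merge (node 433 (merge (leaf 6 432 465) (node 432 (merge (leaf 6 400 401) (node 431 (merge (leaf 7 399 399) (leaf 7 431 463))))))) (node 559 (merge (leaf 5 463 591) (node 465 (merge (leaf 6 432 433) (node 463 (merge (leaf 7 431 431) (node 495 (merge (leaf 5 462 590) (node 466 (merge (leaf 1 463 467) (leaf 1 462 494))))))))))))))) (merge (node 525 (merge (leaf 2 493 497) (node 524 (merge (leaf 2 492 495) (node 555 (merge (leaf 1 523 556) (node 523 (merge (leaf 1 522 554) (node 491 (merge (leaf 3 490 490) (leaf 3 491 492))))))))))) (node 525 (merge (leaf 2 493 497) (node 524 (merge (leaf 0 524 559) (node 555 (merge (leaf 1 523 556) (node 523 (merge (leaf 1 522 554) (node 491 (merge (leaf 3 490 490) (leaf 3 491 492)))))))))))))))))))))))))) nD_25 cD_25 12 (by decide +kernel)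
def nD_26 : ℕ := 0x100000001000000000000000000000000000000000000000000000000000000000000000000000000000000000000000000000000000000000000000000000000000000000000
def cD_26 : ℕ := 0xa0000007e0000007fc00001efc000076fc00003efc00007ffc00000ff000000ff0000002e000000020000000000000000000000000000000000000000000000000000000000000000000000000000000000000000000
theorem lD_26 : S nD_26 cD_26 13 := S_of_chk [(nD_24, cD_24, 12), (nD_25, cD_25, 12)] ⟨lD_24, lD_25, trivial⟩ (node 527 (merge (node 526 (merge (node 561 (merge (leaf 0 525 525) (node 562 (merge (leaf 0 526 529) (leaf 3 526 559))))) (merge (node 525 (merge (leaf 0 525 561) (node 556 (merge (leaf 1 524 557) (node 524 (merge (leaf 1 523 555) (node 492 (merge (leaf 3 491 491) (leaf 3 492 493))))))))) (merge (node 525 (merge (node 524 (merge (leaf 0 524 559) (node 496 (merge (leaf 2 492 495) (leaf 2 493 497))))) (merge (node 524 (merge (leaf 0 524 559) (node 492 (merge (leaf 3 491 491) (leaf 3 492 493))))) (node 497 (merge (leaf 2 493 496) (node 529 (merge (leaf 2 494 498) (node 493 (merge (leaf 3 492 492) (leaf 3 493 494))))))))))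 (node 529 (merge (node 498 (merge (leaf 2 494 497) (node 530 (merge (leaf 2 495 499) (node 494 (merge (leaf 3 493 493) (leaf 3 494 495))))))) (merge (node 561 (merge (leaf 0 526 562) (node 497 (merge (leaf 2 494 498) (node 465 (merge (leaf 5 432 433) (node 464 (merge (leaf 7 432 432) (node 593 (merge (leaf 4 464 496) (node 625 (merge (leaf 7 528 657) (node 626 (merge (leaf 4 497 594) (leaf 4 529 658))))))))))))))) (node 561 (merge (leaf 0 526 562) (node 494 (merge (leaf 3 493 493) (node 530 (merge (leaf 3 494 495) (node 531 (merge (leaf 1 528 532) (leaf 1 527 559)))))))))))))))) (merge (node 526 (merge (node 525 (merge (leaf 0 525 561) (node 524 (merge (leaf 0 524 559) (node 492 (merge (leaf 3 491 491) (leaf 3 492 493))))))) (merge (node 525 (merge (leaf 0 525 561) (node 556 (merge (leaf 1 524 557) (node 524 (merge (leaf 1 523 555) (node 492 (merge (leaf 3 491 491) (leaf 3 492 493))))))))) (merge (node 525 (merge (node 524 (merge (leaf 0 524 559) (node 492 (merge (leaf 3 491 491) (leaf 3 492 493))))) (merge (node 496 (merge (leaf 2 493 497) (node 524 (merge (leaf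 2 492 495) (node 556 (merge (leaf 1 523 555) (leaf 1 524 557))))))) (node 557 (merge (leaf 1 524 556) (node 558 (merge (leaf 1 525 529) (node 493 (merge (leaf 3 492 492) (node 590 (merge (leaf 4 461 461) (leaf 7 493 622)))))))))))) (node 529 (merge (node 498 (merge (leaf 2 494 497) (node 530 (merge (leaf 2 495 499) (node 558 (merge (leaf 1 525 557) (leaf 1 526 559))))))) (merge (node 561 (merge (leaf 0 526 562) (node 558 (merge (leaf 1 525 557) (node 530 (merge (leaf 1 526 559) (node 531 (merge (leaf 1 528 532) (node 496 (merge (leaf 3 495 495) (node 593 (merge (leaf 4 464 464) (leaf 7 496 625))))))))))))) (node 561 (merge (leaf 0 526 562) (node 497 (merge (leaf 2 494 498) (node 465 (merge (leaf 5 432 433) (node 464 (merge (leaf 7 432 432) (node 593 (merge (leaf 4 464 496) (node 625 (merge (leaf 7 528 657) (node 626 (merge (leaf 4 497 594) (leaf 4 529 658)))))))))))))))))))))) (merge (node 529 (merge (node 530 (merge (node 559 (merge (leaf 1 527 531) (leaf 1 526 558))) (merge (node 499 (merge (leaf 2 495 498) (node 531 (merge (leaf 2 496 500) (node 495 (merge (leaf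 3 494 494) (leaf 3 495 496))))))) (node 559 (merge (leaf 1 526 558) (node 498 (merge (leaf 2 495 499) (node 495 (merge (leaf 3 494 494) (node 463 (merge (leaf 4 431 431) (node 462 (merge (leaf 7 430 430) (node 497 (merge (leaf 3 462 496) (node 465 (merge (leaf 5 432 433) (leaf 0 462 464)))))))))))))))))) (merge (node 526 (merge (node 561 (merge (leaf 0 525 525) (leaf 0 526 562))) (merge (node 497 (merge (leaf 2 494 498) (node 525 (merge (leaf 2 493 496) (node 557 (merge (leaf 1 524 556) (leaf 1 525 558))))))) (node 561 (merge (leaf 0 526 562) (node 497 (merge (leaf 2 494 498) (node 465 (merge (leaf 5 432 433) (node 464 (merge (leaf 7 432 432) (node 593 (merge (leaf 4 464 496) (node 625 (merge (leaf 7 528 657) (node 626 (merge (leaf 4 497 594) (leaf 4 529 658)))))))))))))))))) (merge (node 558 (merge (node 559 (merge (leaf 1 526 530) (leaf 2 525 557))) (merge (node 526 (merge (leaf 1 525 557) (node 561 (merge (leaf 0 525 525) (leaf 0 526 562))))) (node 530 (merge (leaf 1 526 559) (node 499 (merge (leaf 2 495 498) (node 531 (merge (leaf 2 496 500) (node 561 (merge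 (leaf 1 528 532) (node 526 (merge (leaf 0 525 525) (leaf 0 526 562)))))))))))))) (merge (node 558 (merge (node 557 (merge (leaf 1 525 526) (leaf 2 525 559))) (merge (node 526 (merge (leaf 1 525 557) (node 561 (merge (leaf 0 525 525) (leaf 0 526 562))))) (node 530 (merge (leaf 1 526 559) (node 495 (merge (leaf 3 494 494) (node 531 (merge (leaf 3 495 496) (node 500 (merge (leaf 2 496 499) (node 532 (merge (leaf 2 497 501) (node 565 (merge (leaf 0 529 564) (node 533 (merge (leaf 0 530 566) (node 561 (merge (leaf 1 528 560) (leaf 1 529 562)))))))))))))))))))) (node 431 (merge (node 495 (merge (leaf 4 431 463) (node 530 (merge (leaf 3 494 494) (node 499 (merge (leaf 2 495 498) (node 531 (merge (leaf 3 495 496) (leaf 2 496 500))))))))) (merge (node 495 (merge (leaf 4 431 463) (node 530 (merge (leaf 3 494 494) (node 498 (merge (leaf 2 495 499) (node 526 (merge (leaf 2 494 497) (node 561 (merge (leaf 0 525 525) (leaf 0 526 562))))))))))) (merge (node 498 (merge (node 499 (merge (leaf 2 495 530) (node 497 (merge (leaf 1 495 496) (leaf 1 496 500))))) (merge (node 526 (merge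 (leaf 2 494 497) (node 561 (merge (leaf 0 525 525) (leaf 0 526 562))))) (node 530 (merge (leaf 2 495 499) (node 531 (merge (leaf 1 527 559) (node 532 (merge (leaf 1 528 561) (node 565 (merge (leaf 0 529 564) (node 533 (merge (leaf 0 530 566) (node 501 (merge (leaf 2 497 500) (leaf 2 498 502)))))))))))))))) (merge (node 495 (merge (leaf 4 431 463) (node 530 (merge (leaf 3 494 494) (node 531 (merge (leaf 1 527 559) (node 532 (merge (leaf 1 528 561) (node 565 (merge (leaf 0 529 564) (node 533 (merge (leaf 0 530 566) (node 501 (merge (leaf 2 497 500) (leaf 2 498 502))))))))))))))) (node 497 (merge (node 526 (merge (leaf 2 494 498) (node 561 (merge (leaf 0 525 525) (leaf 0 526 562))))) (merge (node 498 (merge (leaf 2 494 526) (node 499 (merge (leaf 1 495 496) (leaf 1 496 500))))) (node 463 (merge (leaf 4 431 495) (node 465 (merge (leaf 5 432 433) (node 464 (merge (leaf 7 431 496) (node 466 (merge (leaf 3 430 430) (node 561 (merge (leaf 7 432 432) (leaf 6 433 434)))))))))))))))))))))))) (merge (node 526 (merge (node 525 (merge (leaf 0 525 561) (node 556 (merge (leaf 1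 524 557) (node 524 (merge (leaf 1 523 555) (node 492 (merge (leaf 3 491 491) (leaf 3 492 493))))))))) (merge (node 525 (merge (leaf 0 525 561) (node 556 (merge (leaf 1 524 557) (node 524 (merge (leaf 1 523 555) (node 496 (merge (leaf 2 492 495) (leaf 2 493 497))))))))) (merge (node 561 (merge (leaf 0 525 525) (node 529 (merge (leaf 0 526 562) (node 498 (merge (leaf 2 494 497) (node 530 (merge (leaf 2 495 499) (node 494 (merge (leaf 3 493 493) (leaf 3 494 495))))))))))) (merge (node 558 (merge (node 557 (merge (leaf 1 525 529) (node 556 (merge (leaf 1 524 525) (leaf 2 523 555))))) (merge (node 529 (merge (leaf 1 525 557) (node 494 (merge (leaf 3 493 493) (node 495 (merge (leaf 3 494 530) (node 590 (merge (leaf 6 462 463) (leaf 6 494 622))))))))) (merge (node 525 (merge (node 496 (merge (leaf 2 493 497) (node 524 (merge (leaf 2 492 495) (node 556 (merge (leaf 1 523 555) (leaf 1 524 557))))))) (node 493 (merge (leaf 3 492 492) (node 461 (merge (leaf 4 429 429) (node 590 (merge (leaf 7 461 494) (leaf 7 493 622))))))))) (node 525 (merge (node 493 (merge (leaf 3 492 492)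 (node 461 (merge (leaf 4 429 429) (node 494 (merge (leaf 3 493 529) (leaf 7 461 590))))))) (merge (node 496 (merge (leaf 2 493 497) (node 524 (merge (leaf 2 492 495) (node 555 (merge (leaf 1 523 556) (node 523 (merge (leaf 1 522 554) (node 491 (merge (leaf 3 490 490) (leaf 3 491 492))))))))))) (node 496 (merge (leaf 2 493 497) (node 495 (merge (leaf 2 492 524) (node 590 (merge (leaf 6 494 622) (node 494 (merge (leaf 6 462 463) (node 493 (merge (leaf 7 461 461) (leaf 0 493 529)))))))))))))))))) (node 529 (merge (node 558 (merge (leaf 1 525 557) (node 494 (merge (leaf 3 493 493) (node 495 (merge (leaf 3 494 530) (node 463 (merge (leaf 4 431 431) (leaf 6 462 590))))))))) (node 561 (merge (leaf 0 526 562) (node 497 (merge (leaf 2 494 498) (node 465 (merge (leaf 5 432 433) (node 464 (merge (leaf 7 432 432) (node 593 (merge (leaf 4 464 496) (node 625 (merge (leaf 7 528 657) (node 626 (merge (leaf 4 497 594) (leaf 4 529 658)))))))))))))))))))))) (merge (node 526 (merge (node 561 (merge (leaf 0 525 525) (node 562 (merge (leaf 0 526 529) (leaf 3 526 559))))) (merge (node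 525 (merge (leaf 0 525 561) (node 524 (merge (leaf 0 524 559) (node 492 (merge (leaf 3 491 491) (leaf 3 492 493))))))) (merge (node 525 (merge (leaf 0 525 561) (node 497 (merge (leaf 2 493 496) (node 529 (merge (leaf 2 494 498) (node 493 (merge (leaf 3 492 492) (leaf 3 493 494))))))))) (merge (node 559 (merge (node 525 (merge (leaf 0 524 524) (node 496 (merge (leaf 2 493 497) (node 591 (merge (leaf 5 463 464) (leaf 6 495 623))))))) (merge (node 525 (merge (leaf 0 524 524) (node 493 (merge (leaf 3 492 492) (node 529 (merge (leaf 3 493 494) (node 530 (merge (leaf 1 527 531) (leaf 1 526 558))))))))) (node 529 (merge (node 498 (merge (leaf 2 494 497) (node 530 (merge (leaf 2 495 499) (leaf 1 527 531))))) (node 494 (merge (leaf 3 493 493) (node 462 (merge (leaf 4 430 430) (node 591 (merge (leaf 4 462 558) (leaf 7 494 623)))))))))))) (node 559 (merge (node 494 (merge (node 462 (merge (leaf 4 430 430) (node 591 (merge (leaf 7 462 495) (leaf 7 494 623))))) (merge (node 529 (merge (leaf 3 493 493) (node 530 (merge (leaf 3 494 495) (leaf 1 527 531))))) (merge (node 529 (merge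 (leaf 3 493 493) (node 530 (merge (leaf 3 494 495) (leaf 1 527 531))))) (node 529 (merge (leaf 3 493 493) (node 530 (merge (leaf 1 527 531) (node 498 (merge (leaf 2 494 497) (leaf 2 495 499))))))))))) (merge (node 591 (merge (node 496 (merge (leaf 5 463 464) (leaf 6 495 623))) (node 495 (merge (node 463 (merge (leaf 4 431 431) (node 590 (merge (leaf 5 462 558) (leaf 5 494 622))))) (merge (node 463 (merge (leaf 4 431 431) (node 462 (merge (leaf 7 430 430) (leaf 7 462 494))))) (node 590 (merge (leaf 5 494 622) (node 561 (merge (leaf 1 558 562) (node 589 (merge (leaf 1 557 558) (leaf 2 556 588)))))))))))) (merge (node 529 (merge (node 498 (merge (leaf 2 494 497) (node 530 (merge (leaf 2 495 499) (leaf 1 527 531))))) (node 494 (merge (leaf 3 493 493) (node 462 (merge (leaf 4 430 430) (node 591 (merge (leaf 4 462 558) (leaf 7 494 623))))))))) (node 561 (merge (leaf 3 526 562) (node 529 (merge (node 498 (merge (leaf 2 494 497) (node 530 (merge (leaf 2 495 499) (leaf 1 527 531))))) (merge (node 558 (merge (leaf 1 526 530) (node 593 (merge (leaf 0 558 594) (node 625 (merge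 (leaf 7 496 496) (leaf 7 528 657))))))) (node 497 (merge (leaf 2 494 498) (node 465 (merge (leaf 5 432 433) (node 464 (merge (leaf 7 432 432) (node 593 (merge (leaf 4 464 496) (node 625 (merge (leaf 7 528 657) (node 626 (merge (leaf 4 497 594) (leaf 4 529 658))))))))))))))))))))))))))) (merge (node 526 (merge (node 561 (merge (leaf 0 525 525) (node 562 (merge (leaf 0 526 529) (leaf 3 526 559))))) (merge (node 525 (merge (leaf 0 525 561) (node 556 (merge (leaf 1 524 557) (node 524 (merge (leaf 1 523 555) (node 492 (merge (leaf 3 491 491) (leaf 3 492 493))))))))) (merge (node 559 (merge (node 525 (merge (leaf 0 524 524) (node 496 (merge (leaf 2 493 497) (node 591 (merge (leaf 5 463 464) (leaf 6 495 623))))))) (merge (node 525 (merge (leaf 0 524 524) (node 493 (merge (leaf 3 492 492) (node 529 (merge (leaf 3 493 494) (node 530 (merge (leaf 1 527 531) (leaf 1 526 558))))))))) (node 529 (merge (node 498 (merge (leaf 2 494 497) (node 530 (merge (leaf 2 495 499) (leaf 1 527 531))))) (node 494 (merge (leaf 3 493 493) (node 462 (merge (leaf 4 430 430) (node 591 (merge (leaf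 4 462 558) (leaf 7 494 623)))))))))))) (node 529 (merge (node 558 (merge (leaf 1 525 557) (node 559 (merge (leaf 1 526 530) (node 494 (merge (leaf 3 493 493) (node 591 (merge (leaf 4 462 462) (leaf 7 494 623))))))))) (node 561 (merge (leaf 0 526 562) (node 497 (merge (leaf 2 494 498) (node 465 (merge (leaf 5 432 433) (node 464 (merge (leaf 7 432 432) (node 593 (merge (leaf 4 464 496) (node 625 (merge (leaf 7 528 657) (node 626 (merge (leaf 4 497 594) (leaf 4 529 658))))))))))))))))))))) (merge (node 526 (merge (node 561 (merge (leaf 0 525 525) (node 562 (merge (leaf 0 526 529) (leaf 3 526 559))))) (merge (node 525 (merge (leaf 0 525 561) (node 556 (merge (leaf 1 524 557) (node 524 (merge (leaf 1 523 555) (node 492 (merge (leaf 3 491 491) (leaf 3 492 493))))))))) (node 558 (merge (node 557 (merge (leaf 1 525 529) (node 556 (merge (leaf 2 523 555) (leaf 2 524 559))))) (merge (node 529 (merge (leaf 1 525 557) (node 494 (merge (leaf 3 493 493) (node 495 (merge (leaf 3 494 530) (node 590 (merge (leaf 6 462 463) (leaf 6 494 622))))))))) (node 590 (merge (node 622 (merge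 (leaf 6 494 495) (node 655 (merge (leaf 4 526 623) (node 654 (merge (leaf 6 526 559) (leaf 4 558 687))))))) (merge (node 622 (merge (leaf 6 494 495) (node 654 (merge (leaf 6 526 559) (node 653 (merge (leaf 5 525 621) (leaf 5 557 685))))))) (merge (node 622 (merge (node 654 (merge (leaf 6 526 559) (node 653 (merge (leaf 5 525 621) (leaf 5 557 685))))) (merge (node 655 (merge (leaf 4 526 623) (node 654 (merge (leaf 6 526 559) (leaf 4 558 687))))) (node 623 (merge (leaf 4 526 655) (node 494 (merge (leaf 4 494 591) (node 621 (merge (leaf 5 493 589) (leaf 5 525 653)))))))))) (merge (node 622 (merge (leaf 6 494 495) (node 623 (merge (leaf 4 526 655) (node 494 (merge (leaf 4 494 591) (node 621 (merge (leaf 5 493 589) (leaf 5 525 653))))))))) (node 494 (merge (node 463 (merge (leaf 6 462 495) (node 462 (merge (leaf 6 430 431) (node 461 (merge (leaf 7 429 429) (leaf 7 461 493))))))) (node 591 (merge (leaf 4 494 623) (node 589 (merge (leaf 5 493 621) (node 588 (merge (leaf 2 556 559) (node 619 (merge (leaf 1 587 620) (node 587 (merge (leaf 1 586 618) (node 555 (merge (leaf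 3 554 554) (leaf 3 555 556)))))))))))))))))))))))))) (merge (node 526 (merge (node 561 (merge (leaf 0 525 525) (node 562 (merge (leaf 0 526 529) (leaf 3 526 559))))) (merge (node 525 (merge (leaf 0 525 561) (node 556 (merge (leaf 1 524 557) (node 524 (merge (leaf 1 523 555) (node 492 (merge (leaf 3 491 491) (leaf 3 492 493))))))))) (merge (node 525 (merge (node 524 (merge (leaf 0 524 559) (node 492 (merge (leaf 3 491 491) (leaf 3 492 493))))) (merge (node 496 (merge (leaf 2 493 497) (node 524 (merge (leaf 2 492 495) (node 556 (merge (leaf 1 523 555) (leaf 1 524 557))))))) (node 557 (merge (leaf 1 524 556) (node 529 (merge (leaf 1 525 558) (node 493 (merge (leaf 3 492 492) (leaf 3 493 494)))))))))) (node 558 (merge (node 529 (merge (leaf 1 525 557) (node 561 (merge (leaf 0 526 562) (node 497 (merge (leaf 2 494 498) (node 465 (merge (leaf 5 432 433) (node 464 (merge (leaf 7 432 432) (node 593 (merge (leaf 4 464 496) (node 625 (merge (leaf 7 528 657) (node 626 (merge (leaf 4 497 594) (leaf 4 529 658))))))))))))))))) (node 590 (merge (node 622 (merge (leaf 6 494 495)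 (node 655 (merge (leaf 4 526 623) (node 654 (merge (leaf 6 526 559) (leaf 4 558 687))))))) (merge (node 622 (merge (leaf 6 494 495) (node 654 (merge (leaf 6 526 559) (node 653 (merge (leaf 5 525 621) (leaf 5 557 685))))))) (merge (node 622 (merge (node 654 (merge (leaf 6 526 559) (node 653 (merge (leaf 5 525 621) (leaf 5 557 685))))) (merge (node 655 (merge (leaf 4 526 623) (node 654 (merge (leaf 6 526 559) (leaf 4 558 687))))) (node 623 (merge (leaf 4 526 655) (node 494 (merge (leaf 4 494 591) (node 621 (merge (leaf 5 493 589) (leaf 5 525 653)))))))))) (merge (node 622 (merge (leaf 6 494 495) (node 623 (merge (leaf 4 526 655) (node 494 (merge (leaf 4 494 591) (node 621 (merge (leaf 5 493 589) (leaf 5 525 653))))))))) (node 494 (merge (node 463 (merge (leaf 6 462 495) (node 462 (merge (leaf 6 430 431) (node 461 (merge (leaf 7 429 429) (leaf 7 461 493))))))) (node 591 (merge (leaf 4 494 623) (node 589 (merge (leaf 5 493 621) (node 588 (merge (leaf 2 556 559) (node 619 (merge (leaf 1 587 620) (node 587 (merge (leaf 1 586 618) (node 555 (merge (leaf 3 554 554) (leaf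 3 555 556)))))))))))))))))))))))))) (merge (node 529 (merge (node 530 (merge (node 499 (merge (leaf 2 495 498) (node 531 (merge (leaf 2 496 500) (leaf 1 527 559))))) (merge (node 498 (merge (leaf 2 495 499) (node 526 (merge (leaf 2 494 497) (node 494 (merge (leaf 3 493 493) (leaf 3 494 495))))))) (node 531 (merge (leaf 1 527 559) (node 532 (merge (leaf 1 528 561) (node 496 (merge (leaf 3 495 495) (leaf 3 496 497)))))))))) (merge (node 558 (merge (node 559 (merge (leaf 1 526 530) (leaf 2 525 557))) (merge (node 557 (merge (leaf 1 525 526) (leaf 2 525 559))) (merge (node 526 (merge (leaf 1 525 557) (node 561 (merge (leaf 0 526 562) (node 494 (merge (leaf 3 493 493) (node 530 (merge (leaf 3 494 495) (node 531 (merge (leaf 1 528 532) (node 499 (merge (leaf 2 495 498) (leaf 2 496 500))))))))))))) (node 530 (merge (leaf 1 526 559) (node 499 (merge (leaf 2 495 498) (node 531 (merge (leaf 2 496 500) (node 561 (merge (leaf 1 528 532) (node 526 (merge (leaf 0 526 562) (node 494 (merge (leaf 3 493 493) (leaf 3 494 495))))))))))))))))) (merge (node 530 (merge (node 559 (merge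 (leaf 1 527 531) (leaf 1 526 558))) (merge (node 499 (merge (leaf 2 495 498) (node 531 (merge (leaf 2 496 500) (node 495 (merge (leaf 3 494 494) (leaf 3 495 496))))))) (node 559 (merge (leaf 1 526 558) (node 498 (merge (leaf 2 495 499) (node 495 (merge (leaf 3 494 494) (node 463 (merge (leaf 4 431 431) (node 462 (merge (leaf 7 430 430) (node 497 (merge (leaf 3 462 496) (node 465 (merge (leaf 5 432 433) (leaf 0 462 464)))))))))))))))))) (merge (node 558 (merge (node 559 (merge (leaf 1 526 530) (leaf 2 525 557))) (merge (node 530 (merge (leaf 1 526 559) (node 498 (merge (leaf 2 495 499) (node 526 (merge (leaf 2 494 497) (node 561 (merge (leaf 0 526 562) (node 531 (merge (leaf 1 528 532) (node 496 (merge (leaf 3 495 495) (node 593 (merge (leaf 4 464 464) (leaf 6 497 625))))))))))))))) (node 526 (merge (leaf 1 525 557) (node 561 (merge (leaf 0 526 562) (node 497 (merge (leaf 2 494 498) (node 465 (merge (leaf 5 432 433) (node 464 (merge (leaf 7 432 432) (node 593 (merge (leaf 4 464 496) (node 625 (merge (leaf 7 528 657) (node 626 (merge (leaf 4 497 594) (leaf 4 529 658))))))))))))))))))))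 (merge (node 561 (merge (node 526 (merge (leaf 0 526 562) (node 497 (merge (leaf 2 494 498) (node 494 (merge (leaf 3 493 493) (node 465 (merge (leaf 5 432 433) (node 466 (merge (leaf 6 433 434) (node 495 (merge (leaf 2 462 496) (node 463 (merge (leaf 4 431 431) (leaf 1 462 464))))))))))))))) (merge (node 526 (merge (leaf 0 526 562) (node 558 (merge (leaf 1 525 557) (node 497 (merge (leaf 2 494 498) (node 465 (merge (leaf 5 432 433) (node 464 (merge (leaf 7 432 432) (node 593 (merge (leaf 4 464 496) (node 594 (merge (leaf 0 558 559) (leaf 4 497 626))))))))))))))) (merge (node 559 (merge (node 558 (merge (leaf 2 525 557) (node 593 (merge (leaf 0 558 594) (node 625 (merge (leaf 7 496 496) (leaf 7 528 657))))))) (merge (node 558 (merge (leaf 2 525 557) (node 594 (merge (leaf 0 558 593) (node 562 (merge (leaf 0 559 595) (node 590 (merge (leaf 1 557 589) (leaf 1 558 591))))))))) (node 591 (merge (node 623 (merge (leaf 6 495 496) (leaf 6 527 655))) (node 590 (merge (leaf 1 558 562) (node 495 (merge (leaf 5 494 622) (node 463 (merge (leaf 4 431 431) (node 462 (merge (leaf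 7 430 430) (leaf 7 462 494)))))))))))))) (merge (node 526 (merge (leaf 0 526 562) (node 558 (merge (leaf 1 525 557) (node 497 (merge (leaf 2 494 498) (node 494 (merge (leaf 3 493 493) (node 465 (merge (leaf 5 432 433) (node 466 (merge (leaf 6 433 434) (node 464 (merge (leaf 7 432 432) (node 463 (merge (leaf 1 462 495) (node 431 (merge (leaf 3 430 430) (leaf 6 430 462))))))))))))))))))) (node 593 (merge (node 625 (merge (leaf 7 496 496) (leaf 7 528 657))) (merge (node 625 (merge (leaf 7 528 657) (node 626 (merge (leaf 4 529 658) (node 594 (merge (leaf 4 497 497) (node 595 (merge (leaf 3 560 596) (node 624 (merge (leaf 2 591 623) (leaf 5 528 656))))))))))) (node 558 (merge (node 559 (merge (leaf 2 525 557) (leaf 0 558 594))) (merge (node 526 (merge (leaf 1 525 557) (node 497 (merge (leaf 2 494 498) (node 494 (merge (leaf 3 493 493) (node 496 (merge (leaf 4 464 464) (node 465 (merge (leaf 5 432 433) (node 466 (merge (leaf 6 433 434) (leaf 2 462 495))))))))))))) (node 559 (merge (leaf 0 558 594) (node 590 (merge (leaf 1 557 589) (node 495 (merge (leaf 5 462 463) (node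 622 (merge (leaf 5 494 591) (leaf 6 526 654)))))))))))))))))))) (merge (node 498 (merge (node 530 (merge (leaf 2 495 499) (node 559 (merge (leaf 1 527 531) (leaf 1 526 558))))) (merge (node 497 (merge (leaf 2 494 526) (node 499 (merge (leaf 1 495 496) (leaf 1 496 500))))) (node 526 (merge (leaf 2 494 497) (node 558 (merge (leaf 1 525 557) (node 559 (merge (leaf 1 526 530) (node 494 (merge (leaf 3 493 493) (node 462 (merge (leaf 4 430 430) (leaf 4 462 591)))))))))))))) (merge (node 498 (merge (node 497 (merge (leaf 2 494 526) (node 499 (merge (leaf 1 495 496) (leaf 1 496 500))))) (merge (node 526 (merge (leaf 2 494 497) (node 558 (merge (leaf 1 525 557) (node 494 (merge (leaf 3 493 493) (node 495 (merge (leaf 3 494 530) (node 463 (merge (leaf 4 431 431) (leaf 6 462 590))))))))))) (node 530 (merge (leaf 2 495 499) (node 495 (merge (leaf 3 494 494) (node 531 (merge (leaf 3 495 496) (node 532 (merge (leaf 1 528 561) (node 565 (merge (leaf 0 529 564) (node 533 (merge (leaf 0 530 566) (node 501 (merge (leaf 2 497 500) (leaf 2 498 502)))))))))))))))))) (node 558 (merge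 (node 557 (merge (leaf 1 525 526) (node 559 (merge (leaf 2 524 556) (leaf 2 525 560))))) (merge (node 526 (merge (leaf 1 525 557) (node 494 (merge (leaf 3 493 493) (node 495 (merge (leaf 3 494 530) (node 590 (merge (leaf 6 462 463) (leaf 6 494 622))))))))) (node 530 (merge (leaf 1 526 559) (node 495 (merge (leaf 3 494 494) (node 531 (merge (leaf 3 495 496) (node 500 (merge (leaf 2 496 499) (node 532 (merge (leaf 2 497 501) (node 565 (merge (leaf 0 529 564) (node 533 (merge (leaf 0 530 566) (node 561 (merge (leaf 1 528 560) (leaf 1 529 562)))))))))))))))))))))))))))) (merge (node 559 (merge (node 591 (merge (node 496 (merge (leaf 5 463 464) (leaf 6 495 623))) (node 495 (merge (node 463 (merge (leaf 4 431 431) (node 590 (merge (leaf 5 462 558) (leaf 5 494 622))))) (merge (node 463 (merge (leaf 4 431 431) (node 462 (merge (leaf 7 430 430) (leaf 7 462 494))))) (node 590 (merge (leaf 5 494 622) (node 561 (merge (leaf 1 558 562) (node 589 (merge (leaf 1 557 558) (leaf 2 556 588)))))))))))) (merge (node 591 (merge (node 623 (merge (leaf 6 495 496) (leaf 6 527 655))) (merge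 (node 623 (merge (leaf 6 527 655) (node 526 (merge (leaf 7 494 494) (node 525 (merge (leaf 0 524 524) (leaf 0 525 561))))))) (node 495 (merge (node 463 (merge (leaf 4 431 431) (node 464 (merge (leaf 6 431 432) (leaf 6 463 496))))) (merge (node 463 (merge (leaf 4 431 431) (node 462 (merge (leaf 7 430 430) (leaf 7 462 494))))) (node 496 (merge (leaf 5 463 464) (node 494 (merge (leaf 7 462 462) (node 493 (merge (leaf 0 492 492) (node 525 (merge (leaf 1 492 524) (node 526 (merge (leaf 1 493 497) (leaf 0 525 561))))))))))))))))) (merge (node 561 (merge (node 526 (merge (leaf 0 525 525) (leaf 3 526 562))) (merge (node 558 (merge (node 557 (merge (leaf 2 524 556) (node 589 (merge (leaf 1 556 588) (leaf 1 557 590))))) (merge (node 525 (merge (leaf 0 525 526) (node 557 (merge (leaf 3 524 524) (leaf 2 524 556))))) (node 526 (merge (leaf 0 525 525) (node 590 (merge (leaf 1 557 589) (node 622 (merge (leaf 6 494 495) (leaf 6 526 654)))))))))) (node 591 (merge (node 623 (merge (leaf 6 495 496) (leaf 6 527 655))) (merge (node 562 (merge (leaf 1 558 590) (node 594 (merge (leaf 0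 559 595) (node 593 (merge (leaf 0 558 558) (node 625 (merge (leaf 7 528 657) (node 530 (merge (leaf 5 497 498) (leaf 2 527 531))))))))))) (node 562 (merge (leaf 1 558 590) (node 594 (merge (leaf 0 559 595) (node 593 (merge (leaf 0 558 558) (node 625 (merge (leaf 7 528 657) (node 530 (merge (leaf 5 497 498) (leaf 2 527 531))))))))))))))))) (merge (node 558 (merge (node 557 (merge (leaf 2 524 556) (node 525 (merge (leaf 3 524 524) (node 526 (merge (leaf 0 525 561) (node 493 (merge (leaf 3 492 492) (node 590 (merge (leaf 4 461 461) (leaf 7 493 622))))))))))) (merge (node 557 (merge (leaf 2 524 556) (node 589 (merge (leaf 1 556 588) (node 590 (merge (leaf 1 557 561) (node 525 (merge (leaf 3 524 524) (node 622 (merge (leaf 4 493 493) (leaf 7 525 654))))))))))) (merge (node 526 (merge (node 561 (merge (leaf 0 525 525) (leaf 3 526 562))) (merge (node 561 (merge (leaf 3 526 562) (node 590 (merge (leaf 1 557 589) (node 622 (merge (leaf 6 494 495) (leaf 6 526 654))))))) (node 525 (merge (leaf 0 524 524) (node 493 (merge (leaf 3 492 492) (node 461 (merge (leaf 4 429 429) (node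 590 (merge (leaf 7 461 494) (leaf 7 493 622)))))))))))) (merge (node 557 (merge (leaf 2 524 556) (node 589 (merge (leaf 1 556 588) (node 525 (merge (leaf 3 524 524) (node 526 (merge (leaf 0 525 561) (node 621 (merge (leaf 6 493 494) (leaf 6 525 653))))))))))) (merge (node 557 (merge (leaf 2 524 556) (node 589 (merge (leaf 1 556 588) (node 561 (merge (leaf 1 557 590) (node 594 (merge (leaf 0 558 593) (node 562 (merge (leaf 3 526 526) (leaf 0 559 595))))))))))) (node 496 (merge (node 464 (merge (leaf 5 431 432) (node 465 (merge (leaf 6 432 433) (node 463 (merge (leaf 7 431 431) (node 495 (merge (leaf 5 462 590) (node 494 (merge (leaf 1 462 466) (leaf 2 461 493))))))))))) (merge (node 557 (merge (leaf 2 524 556) (node 589 (merge (leaf 1 556 588) (node 525 (merge (leaf 3 524 524) (node 526 (merge (leaf 2 493 497) (node 621 (merge (leaf 6 493 494) (leaf 6 525 653))))))))))) (merge (node 557 (merge (leaf 2 524 556) (node 589 (merge (leaf 1 556 588) (node 525 (merge (leaf 3 524 524) (node 526 (merge (leaf 2 493 497) (node 493 (merge (leaf 3 492 492) (node 622 (merge (leaf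 4 493 590) (node 621 (merge (leaf 6 493 494) (leaf 4 525 654))))))))))))))) (node 557 (merge (leaf 2 524 556) (node 589 (merge (leaf 1 556 588) (node 525 (merge (leaf 3 524 524) (node 526 (merge (leaf 2 493 497) (node 493 (merge (leaf 3 492 492) (node 622 (merge (leaf 4 493 590) (node 621 (merge (leaf 6 525 653) (leaf 4 525 654))))))))))))))))))))))))) (merge (node 558 (merge (node 557 (merge (leaf 2 524 556) (node 525 (merge (leaf 3 524 524) (node 526 (merge (leaf 0 525 561) (node 493 (merge (leaf 3 492 492) (node 590 (merge (leaf 4 461 461) (leaf 7 493 622))))))))))) (merge (node 557 (merge (leaf 2 524 556) (node 589 (merge (leaf 1 556 588) (node 590 (merge (leaf 1 557 561) (node 525 (merge (leaf 3 524 524) (node 622 (merge (leaf 4 493 493) (leaf 7 525 654))))))))))) (merge (node 557 (merge (leaf 2 524 556) (node 589 (merge (leaf 1 556 588) (node 525 (merge (leaf 3 524 524) (node 526 (merge (leaf 0 525 561) (node 621 (merge (leaf 6 493 494) (leaf 6 525 653))))))))))) (merge (node 561 (merge (node 594 (merge (leaf 0 558 593) (node 562 (merge (leaf 3 526 526) (leaf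 0 559 595))))) (merge (node 594 (merge (leaf 0 558 593) (node 562 (merge (leaf 0 559 595) (node 590 (merge (leaf 1 557 589) (leaf 1 558 591))))))) (node 526 (merge (leaf 0 525 525) (node 590 (merge (leaf 1 557 589) (node 622 (merge (leaf 6 526 654) (node 623 (merge (leaf 4 526 655) (node 591 (merge (leaf 4 494 494) (leaf 6 495 496)))))))))))))) (merge (node 557 (merge (leaf 2 524 556) (node 589 (merge (leaf 1 556 588) (node 561 (merge (leaf 1 557 590) (node 594 (merge (leaf 0 558 593) (node 562 (merge (leaf 3 526 526) (leaf 0 559 595))))))))))) (node 526 (merge (node 525 (merge (leaf 0 524 524) (node 496 (merge (leaf 2 493 497) (node 591 (merge (leaf 5 463 464) (leaf 6 495 623))))))) (node 557 (merge (leaf 2 524 556) (node 589 (merge (leaf 1 556 588) (node 494 (merge (leaf 5 461 462) (node 621 (merge (leaf 5 493 590) (leaf 6 525 653))))))))))))))))) (merge (node 591 (merge (node 623 (merge (leaf 6 495 496) (leaf 6 527 655))) (merge (node 623 (merge (leaf 6 527 655) (node 624 (merge (leaf 4 527 656) (node 622 (merge (leaf 5 526 654) (node 590 (merge (leaf 5 494 495)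 (node 625 (merge (leaf 3 589 589) (leaf 3 590 626))))))))))) (node 495 (merge (node 463 (merge (leaf 4 431 431) (node 590 (merge (leaf 5 462 558) (leaf 5 494 622))))) (merge (node 463 (merge (leaf 4 431 431) (node 464 (merge (leaf 6 431 432) (leaf 6 463 496))))) (node 496 (merge (leaf 5 463 464) (node 590 (merge (leaf 5 494 622) (node 494 (merge (leaf 7 462 462) (node 493 (merge (leaf 0 492 492) (node 525 (merge (leaf 1 492 524) (node 526 (merge (leaf 1 493 497) (node 461 (merge (leaf 3 460 460) (leaf 7 461 558))))))))))))))))))))) (node 591 (merge (node 623 (merge (leaf 6 527 655) (node 526 (merge (leaf 7 494 494) (node 525 (merge (leaf 0 524 524) (leaf 0 525 561))))))) (merge (node 623 (merge (leaf 6 527 655) (node 624 (merge (leaf 4 527 656) (node 622 (merge (leaf 5 526 654) (node 590 (merge (leaf 5 494 495) (node 625 (merge (leaf 3 589 589) (leaf 3 590 626))))))))))) (node 495 (merge (node 463 (merge (leaf 4 431 431) (node 590 (merge (leaf 5 462 558) (leaf 5 494 622))))) (merge (node 463 (merge (leaf 4 431 431) (node 462 (merge (leaf 7 430 430) (leaf 7 462 494)))))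 (node 590 (merge (leaf 5 494 622) (node 561 (merge (leaf 1 558 562) (node 589 (merge (leaf 1 557 558) (leaf 2 556 588)))))))))))))))))))) (merge (hyp 0) (hyp 1))))))))))))) nD_26 cD_26 13 (by decide +kernel)
def nD_27 : ℕ := 0x140000001000000000000000000000000000000000000000000000000000000000000000000000000000000000000000000000000000000000000000000000000000000000000
def cD_27 : ℕ := 0xd0000002f0000003f0000003f0000007fe000000bc000002fe000002fc000000f0000000f0000000a000000000000000000000000000000000000000000000000000000000000000000000000000000000000000000000000000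
theorem lD_27 : S nD_27 cD_27 12 := S_of_chk [] trivial (node 557 (merge (node 559 (merge (leaf 2 525 529) (node 588 (merge (leaf 1 556 589) (node 556 (merge (leaf 1 555 587) (node 524 (merge (leaf 3 523 523) (leaf 3 524 525))))))))) (merge (node 559 (merge (leaf 2 525 529) (node 592 (merge (leaf 0 557 593) (node 556 (merge (leaf 2 524 527) (leaf 0 556 591))))))) (merge (node 592 (merge (node 559 (merge (leaf 2 525 529) (leaf 0 557 593))) (merge (node 624 (merge (node 529 (merge (leaf 6 496 497) (node 527 (merge (leaf 7 495 495) (leaf 1 525 526))))) (node 657 (merge (leaf 4 528 625) (node 656 (merge (leaf 4 560 689) (node 655 (merge (leaf 5 527 623) (leaf 5 559 687))))))))) (node 624 (merge (node 657 (merge (leaf 4 528 625) (node 656 (merge (leaf 4 560 689) (node 527 (merge (leaf 7 495 495) (leaf 7 527 559))))))) (merge (node 655 (merge (leaf 5 527 623) (node 656 (merge (leaf 5 559 687) (node 527 (merge (leaf 7 495 495) (leaf 7 527 559))))))) (merge (node 657 (merge (leaf 4 528 625) (node 656 (merge (leaf 4 560 689) (node 655 (merge (leaf 5 527 623) (leaf 5 559 687)))))))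 (node 593 (merge (leaf 0 557 559) (node 625 (merge (leaf 4 528 657) (node 623 (merge (leaf 5 527 655) (node 622 (merge (leaf 2 589 621) (node 654 (merge (leaf 1 621 653) (node 590 (merge (leaf 7 525 525) (leaf 3 589 589)))))))))))))))))))) (merge (node 526 (merge (node 527 (merge (leaf 1 525 529) (node 556 (merge (leaf 1 524 525) (leaf 2 523 555))))) (merge (node 494 (merge (node 589 (merge (leaf 5 461 462) (node 621 (merge (leaf 6 493 525) (leaf 6 525 653))))) (merge (node 462 (merge (leaf 5 461 589) (node 431 (merge (leaf 6 430 463) (node 430 (merge (leaf 6 398 399) (node 429 (merge (leaf 7 397 397) (leaf 7 429 461))))))))) (merge (node 590 (merge (node 463 (merge (leaf 6 462 495) (node 462 (merge (leaf 6 430 431) (node 461 (merge (leaf 7 429 429) (leaf 7 461 493))))))) (merge (node 623 (merge (leaf 4 494 591) (node 622 (merge (leaf 4 526 655) (node 493 (merge (leaf 7 461 461) (leaf 7 493 525))))))) (node 623 (merge (leaf 4 494 591) (node 622 (merge (leaf 4 526 655) (node 654 (merge (leaf 7 525 525) (node 653 (merge (leaf 5 525 621) (leaf 5 557 685))))))))))))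 (node 590 (merge (node 623 (merge (leaf 4 494 591) (node 622 (merge (leaf 4 526 655) (node 493 (merge (leaf 7 461 461) (leaf 7 493 525))))))) (merge (node 621 (merge (leaf 5 493 589) (node 622 (merge (leaf 5 525 653) (node 493 (merge (leaf 7 461 461) (leaf 7 493 525))))))) (merge (node 623 (merge (leaf 4 494 591) (node 622 (merge (leaf 4 526 655) (node 621 (merge (leaf 5 493 589) (leaf 5 525 653))))))) (node 591 (merge (leaf 4 494 623) (node 592 (merge (leaf 3 557 593) (node 589 (merge (leaf 3 556 556) (leaf 5 493 621))))))))))))))) (merge (node 527 (merge (leaf 1 525 529) (node 494 (merge (node 589 (merge (leaf 5 461 462) (node 621 (merge (leaf 5 493 590) (leaf 6 525 653))))) (merge (node 462 (merge (leaf 5 461 589) (node 430 (merge (leaf 5 429 525) (node 431 (merge (leaf 6 398 399) (leaf 6 430 463))))))) (merge (node 493 (merge (node 492 (merge (leaf 0 491 491) (leaf 0 492 495))) (node 590 (merge (leaf 7 461 461) (node 621 (merge (leaf 5 493 589) (node 622 (merge (leaf 7 493 525) (leaf 5 525 653))))))))) (node 590 (merge (node 463 (merge (leaf 6 462 495) (node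 462 (merge (leaf 6 430 431) (node 461 (merge (leaf 7 429 429) (leaf 7 461 493))))))) (merge (node 623 (merge (leaf 4 494 591) (node 622 (merge (leaf 4 526 655) (node 493 (merge (leaf 7 461 461) (leaf 7 493 525))))))) (node 623 (merge (leaf 4 494 591) (node 622 (merge (leaf 4 526 655) (node 654 (merge (leaf 7 525 525) (node 653 (merge (leaf 5 525 621) (leaf 5 557 685)))))))))))))))))) (node 590 (merge (node 527 (merge (leaf 1 525 529) (node 622 (merge (leaf 6 494 495) (node 653 (merge (leaf 5 525 621) (node 654 (merge (leaf 5 557 685) (node 686 (merge (leaf 7 557 589) (node 687 (merge (leaf 4 558 655) (leaf 4 590 719))))))))))))) (merge (node 527 (merge (leaf 1 525 529) (node 622 (merge (leaf 6 494 495) (node 623 (merge (leaf 4 526 655) (node 494 (merge (leaf 4 494 591) (node 462 (merge (leaf 5 461 589) (node 461 (merge (leaf 7 429 429) (leaf 7 461 493))))))))))))) (merge (node 621 (merge (node 653 (merge (leaf 6 525 589) (leaf 5 525 622))) (merge (node 494 (merge (leaf 5 493 589) (node 463 (merge (leaf 6 462 495) (node 462 (merge (leaf 6 430 431) (node 461 (merge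 (leaf 7 429 429) (leaf 7 461 493))))))))) (node 622 (merge (leaf 5 525 653) (node 623 (merge (leaf 4 526 655) (node 494 (merge (leaf 4 494 591) (node 463 (merge (leaf 6 462 495) (node 462 (merge (leaf 6 430 431) (node 461 (merge (leaf 7 429 429) (leaf 7 461 493)))))))))))))))) (merge (node 527 (merge (leaf 1 525 529) (node 622 (merge (leaf 6 494 495) (node 653 (merge (leaf 5 525 621) (node 654 (merge (leaf 5 557 685) (node 589 (merge (leaf 7 557 686) (node 494 (merge (leaf 5 461 462) (node 591 (merge (leaf 4 494 623) (node 592 (merge (leaf 3 556 556) (leaf 3 557 593))))))))))))))))) (merge (node 527 (merge (leaf 1 525 529) (node 622 (merge (leaf 6 494 495) (node 623 (merge (leaf 4 526 655) (node 591 (merge (leaf 4 494 494) (node 592 (merge (leaf 3 557 593) (node 621 (merge (leaf 2 588 620) (leaf 5 525 653))))))))))))) (merge (node 589 (merge (node 621 (merge (leaf 5 493 494) (leaf 6 525 653))) (node 527 (merge (leaf 1 525 529) (node 556 (merge (leaf 2 523 555) (node 592 (merge (leaf 3 556 591) (node 624 (merge (leaf 7 495 495) (node 657 (merge (leaf 4 528 625) (node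 656 (merge (leaf 4 560 689) (node 655 (merge (leaf 5 527 623) (leaf 5 559 687))))))))))))))))) (node 592 (merge (node 591 (merge (leaf 3 557 593) (node 556 (merge (leaf 0 555 555) (leaf 3 556 589))))) (merge (node 529 (merge (leaf 1 525 527) (node 624 (merge (leaf 6 496 497) (node 623 (merge (leaf 5 527 655) (node 494 (merge (leaf 4 494 591) (node 589 (merge (leaf 5 461 462) (leaf 5 493 621))))))))))) (merge (node 529 (merge (leaf 1 525 527) (node 624 (merge (leaf 6 496 497) (node 625 (merge (leaf 4 528 657) (node 623 (merge (leaf 5 527 655) (node 622 (merge (leaf 3 589 589) (node 621 (merge (leaf 2 589 593) (leaf 5 525 653))))))))))))) (node 529 (merge (leaf 1 525 527) (node 593 (merge (leaf 3 557 591) (node 624 (merge (leaf 6 496 497) (node 625 (merge (leaf 4 528 657) (node 623 (merge (leaf 5 527 655) (node 622 (merge (leaf 2 590 594) (leaf 2 589 621)))))))))))))))))))))))))))) (node 589 (merge (node 559 (merge (leaf 1 556 588) (node 592 (merge (leaf 0 557 593) (node 556 (merge (leaf 2 524 527) (leaf 0 556 591))))))) (merge (node 556 (merge (node 559 (merge (leaf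 2 524 527) (node 592 (merge (leaf 0 556 591) (leaf 0 557 593))))) (merge (node 559 (merge (node 524 (merge (leaf 3 523 523) (leaf 3 524 525))) (node 592 (merge (leaf 0 556 591) (leaf 0 557 593))))) (node 526 (merge (node 527 (merge (leaf 1 524 525) (leaf 2 523 555))) (node 621 (merge (leaf 6 525 653) (node 494 (merge (leaf 5 461 462) (leaf 5 493 590)))))))))) (merge (node 559 (merge (leaf 1 556 588) (node 556 (merge (leaf 2 524 527) (node 591 (merge (leaf 0 556 592) (node 555 (merge (leaf 0 555 590) (node 586 (merge (leaf 1 554 587) (node 554 (merge (leaf 1 553 585) (node 522 (merge (leaf 3 521 521) (leaf 3 522 523))))))))))))))) (merge (node 621 (merge (node 653 (merge (leaf 6 525 526) (node 556 (merge (leaf 7 524 524) (node 685 (merge (leaf 7 556 588) (leaf 6 557 590))))))) (merge (node 653 (merge (leaf 6 525 526) (node 684 (merge (leaf 5 556 652) (node 685 (merge (leaf 6 557 590) (leaf 5 588 716))))))) (merge (node 653 (merge (leaf 6 525 526) (node 556 (merge (leaf 7 524 524) (node 685 (merge (leaf 7 556 588) (node 684 (merge (leaf 5 556 652) (leaf 5 588 716)))))))))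 (merge (node 525 (merge (node 620 (merge (leaf 5 524 652) (node 493 (merge (leaf 5 492 588) (node 590 (merge (leaf 4 461 461) (leaf 4 493 622))))))) (merge (node 622 (merge (leaf 4 525 654) (node 493 (merge (leaf 4 493 590) (node 620 (merge (leaf 5 492 588) (leaf 5 524 652))))))) (merge (node 526 (merge (leaf 6 493 494) (node 527 (merge (leaf 1 524 556) (node 492 (merge (leaf 3 492 493) (leaf 7 492 524))))))) (node 620 (merge (leaf 5 524 652) (node 526 (merge (leaf 6 493 494) (node 556 (merge (leaf 1 524 527) (node 524 (merge (leaf 7 492 492) (node 523 (merge (leaf 0 522 522) (node 491 (merge (leaf 3 490 490) (leaf 7 491 588))))))))))))))))) (node 653 (merge (node 685 (merge (leaf 6 557 590) (node 684 (merge (leaf 5 556 652) (leaf 5 588 716))))) (merge (node 556 (merge (leaf 7 524 524) (node 685 (merge (leaf 7 556 588) (leaf 6 557 590))))) (merge (node 556 (merge (leaf 7 524 524) (node 685 (merge (leaf 7 556 588) (node 684 (merge (leaf 5 556 652) (leaf 5 588 716))))))) (node 524 (merge (leaf 7 524 556) (node 652 (merge (leaf 5 556 684) (node 525 (merge (leaf 7 492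 492) (leaf 5 524 620)))))))))))))))) (node 621 (merge (node 653 (merge (leaf 6 525 526) (node 652 (merge (leaf 5 556 684) (node 525 (merge (leaf 5 524 620) (node 524 (merge (leaf 7 492 492) (leaf 3 524 559))))))))) (merge (node 559 (merge (leaf 1 556 588) (node 525 (merge (leaf 3 524 524) (node 622 (merge (leaf 4 525 654) (node 493 (merge (leaf 4 493 590) (node 462 (merge (leaf 6 461 494) (node 461 (merge (leaf 6 429 430) (node 460 (merge (leaf 7 428 428) (leaf 7 460 492))))))))))))))) (node 653 (merge (leaf 6 525 526) (node 686 (merge (leaf 4 557 654) (node 685 (merge (leaf 6 557 590) (leaf 4 589 718)))))))))))))))))))) nD_27 cD_27 12 (by decide +kernel)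
def nD_28 : ℕ := 0x140000001000000000000000000000000000000000000000000000000000000000000000000000000000000000000000000000000000000000000000000000000000000000000
def cD_28 : ℕ := 0xe0000003e0000007f000000ffe000006bc000000fe000000f8000000f8000000e00000008000000000000000000000000000000000000000000000000000000000000000000000000000000000000000000000000000
theorem lD_28 : S nD_28 cD_28 12 := S_of_chk [] trivial (node 559 (merge (node 557 (merge (node 556 (merge (leaf 2 524 527) (node 588 (merge (leaf 1 555 587) (leaf 1 556 589))))) (node 593 (merge (leaf 0 557 592) (node 561 (merge (leaf 0 558 594) (node 525 (merge (leaf 3 524 524) (leaf 3 525 526))))))))) (merge (node 561 (merge (node 594 (merge (leaf 0 558 593) (node 562 (merge (leaf 0 559 595) (node 590 (merge (leaf 1 557 589) (leaf 1 558 591))))))) (merge (node 594 (merge (leaf 0 558 593) (node 562 (merge (leaf 0 559 595) (node 526 (merge (leaf 3 525 525) (leaf 3 526 527))))))) (node 589 (merge (leaf 1 557 590) (node 557 (merge (leaf 1 556 588) (node 525 (merge (leaf 3 524 524) (leaf 3 525 526)))))))))) (merge (node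 557 (merge (node 556 (merge (leaf 2 524 527) (node 588 (merge (leaf 1 555 587) (leaf 1 556 589))))) (merge (node 593 (merge (leaf 0 557 592) (node 561 (merge (leaf 0 558 594) (node 589 (merge (leaf 1 556 588) (leaf 1 557 590))))))) (merge (node 592 (merge (leaf 0 557 593) (node 556 (merge (leaf 2 524 527) (leaf 0 556 591))))) (node 556 (merge (leaf 2 524 527) (node 591 (merge (leaf 0 556 592) (node 590 (merge (leaf 0 555 555) (node 561 (merge (leaf 1 558 562) (leaf 1 557 589))))))))))))) (merge (node 593 (merge (node 594 (merge (leaf 0 558 561) (node 592 (merge (leaf 3 558 591) (leaf 3 559 595))))) (merge (node 557 (merge (leaf 0 557 592) (node 588 (merge (leaf 1 556 589) (node 556 (merge (leaf 1 555 587) (node 524 (merge (leaf 3 523 523) (leaf 3 524 525))))))))) (node 561 (merge (leaf 0 558 594) (node 589 (merge (leaf 1 557 590) (node 557 (merge (leaf 1 556 588) (node 525 (merge (leaf 3 524 524) (leaf 3 525 526)))))))))))) (merge (node 527 (merge (node 557 (merge (leaf 2 524 556) (node 525 (merge (leaf 3 524 524) (node 526 (merge (leaf 0 525 561) (node 493 (merge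 (leaf 3 492 492) (node 590 (merge (leaf 4 461 461) (leaf 7 493 622))))))))))) (merge (node 557 (merge (leaf 2 524 556) (node 589 (merge (leaf 1 556 588) (node 590 (merge (leaf 1 557 561) (node 525 (merge (leaf 3 524 524) (node 622 (merge (leaf 4 493 493) (leaf 7 525 654))))))))))) (merge (node 557 (merge (leaf 2 524 556) (node 589 (merge (leaf 1 556 588) (node 525 (merge (leaf 3 524 524) (node 526 (merge (leaf 0 525 561) (node 621 (merge (leaf 6 493 494) (leaf 6 525 653))))))))))) (merge (node 561 (merge (node 526 (merge (leaf 0 525 525) (leaf 3 526 562))) (merge (node 526 (merge (leaf 0 525 525) (node 590 (merge (leaf 1 557 589) (node 622 (merge (leaf 6 494 495) (leaf 6 526 654))))))) (node 590 (merge (leaf 1 557 589) (node 591 (merge (leaf 1 558 562) (node 495 (merge (leaf 5 462 463) (leaf 5 494 622)))))))))) (merge (node 557 (merge (leaf 2 524 556) (node 589 (merge (leaf 1 556 588) (node 590 (merge (leaf 1 557 561) (node 622 (merge (leaf 6 526 654) (node 495 (merge (leaf 6 494 526) (leaf 5 494 591))))))))))) (node 590 (merge (node 622 (merge (leaf 6 526 654) (node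 526 (merge (leaf 6 494 495) (node 525 (merge (leaf 7 493 493) (leaf 0 524 524))))))) (merge (node 622 (merge (leaf 6 526 654) (node 495 (merge (leaf 6 494 526) (leaf 5 494 591))))) (merge (node 557 (merge (leaf 2 524 556) (node 525 (merge (leaf 3 524 524) (node 493 (merge (leaf 4 461 461) (node 492 (merge (leaf 3 492 526) (node 495 (merge (leaf 5 462 463) (leaf 0 492 494))))))))))) (merge (node 557 (merge (leaf 2 524 556) (node 589 (merge (leaf 1 556 588) (node 525 (merge (leaf 3 524 524) (node 622 (merge (leaf 4 493 493) (leaf 7 525 654))))))))) (node 557 (merge (leaf 2 524 556) (node 589 (merge (leaf 1 556 588) (node 525 (merge (leaf 3 524 524) (node 622 (merge (leaf 4 493 493) (leaf 7 525 654)))))))))))))))))))) (merge (node 527 (merge (node 557 (merge (leaf 2 524 556) (node 593 (merge (leaf 0 557 592) (node 561 (merge (leaf 0 558 594) (node 525 (merge (leaf 3 524 524) (leaf 0 525 526))))))))) (merge (node 557 (merge (leaf 2 524 556) (node 525 (merge (leaf 3 524 524) (node 526 (merge (leaf 0 525 561) (node 493 (merge (leaf 3 492 492) (node 590 (merge (leaf 4 461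 461) (leaf 7 493 622))))))))))) (merge (node 495 (merge (node 463 (merge (leaf 4 431 431) (leaf 4 463 592))) (merge (node 592 (merge (leaf 7 495 624) (node 593 (merge (leaf 0 557 557) (node 594 (merge (leaf 3 558 591) (leaf 3 559 595))))))) (node 463 (merge (leaf 4 431 431) (node 590 (merge (leaf 5 462 558) (node 591 (merge (leaf 5 494 622) (node 462 (merge (leaf 7 430 430) (leaf 7 462 494)))))))))))) (node 526 (merge (node 561 (merge (leaf 0 525 525) (leaf 3 526 562))) (merge (node 525 (merge (leaf 0 524 524) (node 493 (merge (leaf 3 492 492) (node 461 (merge (leaf 4 429 429) (node 590 (merge (leaf 7 461 494) (leaf 7 493 622))))))))) (node 590 (merge (node 622 (merge (leaf 6 494 495) (leaf 6 526 654))) (merge (node 561 (merge (leaf 3 526 562) (node 593 (merge (leaf 0 558 594) (node 625 (merge (leaf 7 528 657) (node 495 (merge (leaf 5 462 463) (node 592 (merge (leaf 7 495 624) (node 591 (merge (leaf 0 590 626) (node 623 (merge (leaf 4 494 494) (leaf 7 526 655))))))))))))))) (node 622 (merge (leaf 6 526 654) (node 623 (merge (leaf 4 526 655) (node 591 (merge (leaf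 4 494 494) (node 621 (merge (leaf 5 525 653) (node 592 (merge (leaf 1 589 593) (leaf 2 588 620))))))))))))))))))))) (merge (node 527 (merge (node 557 (merge (leaf 2 524 556) (node 592 (merge (leaf 0 557 593) (node 624 (merge (leaf 7 495 495) (leaf 7 527 656))))))) (merge (node 557 (merge (leaf 2 524 556) (node 592 (merge (leaf 0 557 593) (node 624 (merge (leaf 7 495 495) (leaf 7 527 656))))))) (merge (node 590 (merge (node 622 (merge (leaf 6 526 654) (node 526 (merge (leaf 6 494 495) (node 525 (merge (leaf 7 493 493) (leaf 0 524 524))))))) (merge (node 622 (merge (leaf 6 526 654) (node 495 (merge (leaf 6 494 526) (leaf 5 494 591))))) (merge (node 557 (merge (leaf 2 524 556) (node 525 (merge (leaf 3 524 524) (node 493 (merge (leaf 4 461 461) (node 492 (merge (leaf 3 492 526) (node 495 (merge (leaf 5 462 463) (leaf 0 492 494))))))))))) (merge (node 557 (merge (leaf 2 524 556) (node 589 (merge (leaf 1 556 588) (node 525 (merge (leaf 3 524 524) (node 622 (merge (leaf 4 493 493) (leaf 7 525 654))))))))) (node 557 (merge (leaf 2 524 556) (node 589 (merge (leaf 1 556 588)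 (node 525 (merge (leaf 3 524 524) (node 622 (merge (leaf 4 493 493) (leaf 7 525 654)))))))))))))) (merge (node 591 (merge (node 623 (merge (leaf 6 527 655) (node 624 (merge (leaf 4 527 656) (node 495 (merge (leaf 4 495 592) (node 622 (merge (leaf 5 494 590) (leaf 5 526 654))))))))) (merge (node 623 (merge (leaf 6 527 655) (node 494 (merge (leaf 7 494 526) (node 495 (merge (leaf 7 462 462) (node 463 (merge (leaf 4 431 431) (leaf 4 463 592))))))))) (merge (node 623 (merge (leaf 6 527 655) (node 622 (merge (leaf 5 526 654) (node 526 (merge (leaf 7 494 494) (node 525 (merge (leaf 0 524 524) (node 493 (merge (leaf 3 492 492) (leaf 7 493 590))))))))))) (node 495 (merge (node 463 (merge (leaf 4 431 431) (leaf 5 462 590))) (merge (node 463 (merge (leaf 4 431 431) (leaf 4 463 592))) (node 590 (merge (leaf 5 494 622) (node 589 (merge (leaf 2 556 588) (node 494 (merge (leaf 7 462 462) (node 493 (merge (leaf 0 492 492) (node 526 (merge (leaf 7 461 461) (leaf 5 493 621)))))))))))))))))) (node 557 (merge (leaf 2 524 556) (node 592 (merge (leaf 0 557 593) (node 624 (merge (leaf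 7 527 656) (node 589 (merge (leaf 1 556 588) (node 525 (merge (leaf 3 524 524) (node 625 (merge (leaf 4 528 657) (node 623 (merge (leaf 5 527 655) (node 622 (merge (leaf 3 589 590) (node 654 (merge (leaf 4 525 621) (leaf 1 621 653)))))))))))))))))))))))) (merge (node 557 (merge (node 556 (merge (leaf 2 524 527) (node 588 (merge (leaf 1 555 587) (leaf 1 556 589))))) (merge (node 593 (merge (leaf 0 557 592) (node 561 (merge (leaf 0 558 594) (node 589 (merge (leaf 1 556 588) (leaf 1 557 590))))))) (node 556 (merge (leaf 2 524 527) (node 591 (merge (leaf 0 556 592) (node 555 (merge (leaf 0 555 590) (node 586 (merge (leaf 1 554 587) (node 554 (merge (leaf 1 553 585) (node 522 (merge (leaf 3 521 521) (leaf 3 522 523)))))))))))))))) (node 526 (merge (node 525 (merge (leaf 3 525 561) (node 524 (merge (leaf 0 523 523) (leaf 0 524 527))))) (merge (node 561 (merge (leaf 3 525 525) (node 594 (merge (leaf 0 558 593) (node 562 (merge (leaf 0 559 595) (node 590 (merge (leaf 1 557 589) (leaf 1 558 591))))))))) (merge (node 590 (merge (node 561 (merge (leaf 1 557 589) (node 594 (merge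 (leaf 0 558 593) (node 562 (merge (leaf 3 526 527) (leaf 0 559 595))))))) (merge (node 622 (merge (node 655 (merge (leaf 4 526 623) (node 654 (merge (leaf 4 558 687) (node 653 (merge (leaf 5 525 621) (leaf 5 557 685))))))) (merge (node 621 (merge (leaf 5 525 653) (node 494 (merge (leaf 5 493 589) (node 463 (merge (leaf 6 462 495) (node 462 (merge (leaf 6 430 431) (node 461 (merge (leaf 7 429 429) (leaf 7 461 493))))))))))) (node 623 (merge (leaf 4 526 655) (node 494 (merge (leaf 4 494 591) (node 463 (merge (leaf 6 462 495) (node 462 (merge (leaf 6 430 431) (node 461 (merge (leaf 7 429 429) (leaf 7 461 493)))))))))))))) (node 591 (merge (node 623 (merge (leaf 4 494 494) (leaf 7 526 655))) (merge (node 561 (merge (leaf 1 558 562) (node 593 (merge (leaf 0 558 594) (node 625 (merge (leaf 7 528 657) (node 592 (merge (leaf 0 590 626) (node 622 (merge (leaf 1 589 621) (node 654 (merge (leaf 6 526 527) (leaf 6 558 686))))))))))))) (node 561 (merge (leaf 1 558 562) (node 593 (merge (leaf 0 558 594) (node 625 (merge (leaf 7 528 657) (node 592 (merge (leaf 0 590 626) (node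 622 (merge (leaf 1 589 621) (node 654 (merge (leaf 6 526 527) (node 655 (merge (leaf 6 527 623) (leaf 4 558 687))))))))))))))))))))) (node 494 (merge (node 462 (merge (leaf 4 462 591) (node 463 (merge (leaf 6 430 431) (node 590 (merge (leaf 6 462 495) (node 461 (merge (leaf 7 429 429) (leaf 7 461 493))))))))) (merge (node 462 (merge (leaf 4 462 591) (node 527 (merge (leaf 4 430 430) (node 461 (merge (leaf 7 429 429) (node 590 (merge (leaf 7 461 493) (node 622 (merge (leaf 6 494 495) (leaf 6 526 654))))))))))) (merge (node 462 (merge (leaf 4 462 591) (node 527 (merge (leaf 4 430 430) (node 525 (merge (leaf 0 524 524) (node 463 (merge (leaf 6 430 431) (node 590 (merge (leaf 5 462 495) (node 622 (merge (leaf 7 493 493) (leaf 6 526 654))))))))))))) (merge (node 462 (merge (leaf 4 462 591) (node 430 (merge (leaf 4 430 527) (node 431 (merge (leaf 6 398 399) (leaf 6 430 463))))))) (merge (node 590 (merge (node 463 (merge (leaf 6 462 495) (node 462 (merge (leaf 6 430 431) (node 461 (merge (leaf 7 429 429) (leaf 7 461 493))))))) (merge (node 495 (merge (leaf 6 462 463) (node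 622 (merge (leaf 6 494 527) (node 621 (merge (leaf 5 493 589) (leaf 5 525 653))))))) (node 621 (merge (leaf 5 493 589) (node 622 (merge (leaf 5 525 653) (node 493 (merge (leaf 7 461 461) (leaf 7 493 525)))))))))) (merge (node 591 (merge (leaf 4 462 462) (node 623 (merge (leaf 7 494 527) (leaf 4 494 590))))) (merge (node 590 (merge (node 623 (merge (leaf 4 494 591) (node 622 (merge (leaf 4 526 655) (node 493 (merge (leaf 7 461 461) (leaf 7 493 525))))))) (merge (node 495 (merge (leaf 6 462 463) (node 622 (merge (leaf 6 494 527) (node 621 (merge (leaf 5 493 589) (leaf 5 525 653))))))) (node 589 (merge (leaf 5 493 621) (node 588 (merge (leaf 2 555 587) (leaf 2 556 591)))))))) (node 462 (merge (leaf 4 462 591) (node 527 (merge (leaf 4 430 430) (node 463 (merge (leaf 6 430 431) (node 495 (merge (leaf 4 463 592) (node 492 (merge (leaf 0 492 493) (node 461 (merge (leaf 7 429 429) (node 460 (merge (leaf 0 459 459) (leaf 1 459 491)))))))))))))))))))))))))))))))))))) nD_28 cD_28 12 (by decide +kernel)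
def nD_29 : ℕ := 0x140000001000000000000000000000000000000000000000000000000000000000000000000000000000000000000000000000000000000000000000000000000000000000000
def cD_29 : ℕ := 0xa0000002e000000fe0000007f800000ff000000638000006fc00000efc000002fc000002e0000000e000000080000000000000000000000000000000000000000000000000000000000000000000000000000000000000000000
theorem lD_29 : S nD_29 cD_29 12 := S_of_chk [] trivial (node 526 (merge (node 527 (merge (node 557 (merge (leaf 1 525 529) (node 556 (merge (leaf 1 524 525) (leaf 2 523 555))))) (merge (node 525 (merge (leaf 0 525 561) (node 493 (merge (leaf 3 492 492) (node 461 (merge (leaf 4 429 429) (node 590 (merge (leaf 7 461 494) (leaf 7 493 622))))))))) (node 529 (merge (leaf 1 525 557) (node 494 (merge (leaf 3 493 493) (node 495 (merge (leaf 3 494 530) (node 590 (merge (leaf 6 462 463) (leaf 6 494 622)))))))))))) (merge (node 527 (merge (node 557 (merge (leaf 1 525 529) (node 556 (merge (leaf 1 524 525) (leaf 2 523 555))))) (merge (node 529 (merge (leaf 1 525 557) (node 497 (merge (leaf 2 494 498) (node 465 (merge (leaf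 5 432 433) (node 592 (merge (leaf 5 464 561) (leaf 6 496 624))))))))) (merge (node 561 (merge (leaf 0 525 525) (node 529 (merge (leaf 0 526 562) (node 497 (merge (leaf 2 494 498) (node 592 (merge (leaf 5 464 465) (leaf 6 496 624))))))))) (node 525 (merge (leaf 0 525 561) (node 556 (merge (leaf 1 524 557) (node 524 (merge (leaf 1 523 555) (node 492 (merge (leaf 3 491 491) (leaf 3 492 493))))))))))))) (merge (node 527 (merge (node 557 (merge (leaf 1 525 529) (node 556 (merge (leaf 1 524 525) (leaf 2 523 555))))) (merge (node 529 (merge (leaf 1 525 557) (node 497 (merge (leaf 2 494 498) (node 465 (merge (leaf 5 432 433) (node 592 (merge (leaf 5 464 561) (leaf 6 496 624))))))))) (merge (node 561 (merge (leaf 0 525 525) (node 529 (merge (leaf 0 526 562) (node 497 (merge (leaf 2 494 498) (node 592 (merge (leaf 5 464 465) (leaf 6 496 624))))))))) (node 495 (merge (node 463 (merge (leaf 4 431 431) (node 590 (merge (leaf 6 462 494) (leaf 6 494 622))))) (merge (node 525 (merge (leaf 0 525 561) (node 556 (merge (leaf 1 524 557) (node 524 (merge (leaf 1 523 555) (node 523 (merge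 (leaf 2 491 494) (node 491 (merge (leaf 3 490 490) (leaf 3 491 492))))))))))) (node 561 (merge (leaf 0 525 525) (node 590 (merge (leaf 6 494 622) (node 592 (merge (leaf 7 495 624) (node 591 (merge (leaf 2 557 589) (node 593 (merge (leaf 3 557 557) (leaf 2 558 562)))))))))))))))))) (merge (node 527 (merge (node 525 (merge (leaf 0 525 561) (node 493 (merge (leaf 3 492 492) (node 461 (merge (leaf 4 429 429) (node 590 (merge (leaf 7 461 494) (leaf 7 493 622))))))))) (merge (node 561 (merge (leaf 0 525 525) (node 529 (merge (leaf 0 526 562) (node 497 (merge (leaf 2 494 498) (node 592 (merge (leaf 5 464 465) (leaf 6 496 624))))))))) (merge (node 529 (merge (node 494 (merge (leaf 3 493 493) (node 495 (merge (leaf 3 494 530) (node 590 (merge (leaf 6 462 463) (leaf 6 494 622))))))) (node 497 (merge (leaf 2 494 498) (node 592 (merge (leaf 6 496 624) (node 465 (merge (leaf 5 432 433) (leaf 5 464 561))))))))) (node 494 (merge (node 529 (merge (leaf 3 493 493) (node 498 (merge (leaf 2 494 497) (node 530 (merge (leaf 3 494 495) (leaf 2 495 499))))))) (merge (node 493 (merge (leaf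 3 493 529) (node 590 (merge (leaf 7 461 461) (node 621 (merge (leaf 5 493 589) (node 622 (merge (leaf 7 493 525) (leaf 5 525 653))))))))) (node 462 (merge (node 431 (merge (leaf 6 430 463) (node 430 (merge (leaf 6 398 399) (node 429 (merge (leaf 7 397 397) (leaf 7 429 461))))))) (merge (node 463 (merge (leaf 6 430 431) (node 590 (merge (leaf 6 462 495) (node 623 (merge (leaf 4 494 591) (node 622 (merge (leaf 4 526 655) (node 621 (merge (leaf 5 493 589) (leaf 5 525 653))))))))))) (merge (node 429 (merge (leaf 7 429 461) (node 430 (merge (leaf 7 397 397) (node 398 (merge (leaf 4 398 495) (node 399 (merge (leaf 6 366 367) (leaf 6 398 431))))))))) (node 429 (merge (leaf 7 429 461) (node 430 (merge (leaf 7 397 397) (node 495 (merge (leaf 4 398 398) (node 590 (merge (leaf 6 462 463) (leaf 6 494 622)))))))))))))))))))) (merge (node 527 (merge (node 557 (merge (leaf 1 525 529) (node 556 (merge (leaf 1 524 525) (leaf 2 523 555))))) (merge (node 529 (merge (leaf 1 525 557) (node 494 (merge (leaf 3 493 493) (node 495 (merge (leaf 3 494 530) (node 590 (merge (leaf 6 462 463)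 (leaf 6 494 622))))))))) (merge (node 590 (merge (node 495 (merge (leaf 6 494 622) (node 494 (merge (leaf 6 462 463) (node 493 (merge (leaf 7 461 461) (leaf 0 492 492))))))) (merge (node 622 (merge (leaf 6 494 495) (node 655 (merge (leaf 4 526 623) (node 654 (merge (leaf 4 558 687) (node 653 (merge (leaf 5 525 621) (leaf 5 557 685))))))))) (merge (node 622 (merge (node 623 (merge (leaf 4 526 655) (node 494 (merge (leaf 4 494 591) (node 621 (merge (leaf 5 493 589) (leaf 5 525 653))))))) (merge (node 655 (merge (leaf 4 526 623) (node 654 (merge (leaf 4 558 687) (node 525 (merge (leaf 7 493 493) (leaf 7 525 557))))))) (node 653 (merge (leaf 5 525 621) (node 654 (merge (leaf 5 557 685) (node 525 (merge (leaf 7 493 493) (leaf 7 525 557)))))))))) (node 494 (merge (node 493 (merge (leaf 7 461 461) (node 492 (merge (leaf 0 491 491) (leaf 0 492 495))))) (merge (node 589 (merge (leaf 5 493 621) (node 462 (merge (leaf 5 461 557) (node 431 (merge (leaf 6 430 463) (node 430 (merge (leaf 6 398 399) (node 429 (merge (leaf 7 397 397) (leaf 7 429 461))))))))))) (node 589 (merge (leaf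 5 493 621) (node 557 (merge (leaf 5 461 462) (node 556 (merge (leaf 1 524 525) (leaf 2 523 555)))))))))))))) (node 494 (merge (node 529 (merge (leaf 3 493 493) (node 498 (merge (leaf 2 494 497) (node 530 (merge (leaf 3 494 495) (leaf 2 495 499))))))) (merge (node 493 (merge (leaf 3 493 529) (node 590 (merge (leaf 7 461 461) (node 621 (merge (leaf 5 493 589) (node 622 (merge (leaf 7 493 525) (leaf 5 525 653))))))))) (node 462 (merge (node 431 (merge (leaf 6 430 463) (node 430 (merge (leaf 6 398 399) (node 429 (merge (leaf 7 397 397) (leaf 7 429 461))))))) (merge (node 463 (merge (leaf 6 430 431) (node 590 (merge (leaf 6 462 495) (node 623 (merge (leaf 4 494 591) (node 622 (merge (leaf 4 526 655) (node 621 (merge (leaf 5 493 589) (leaf 5 525 653))))))))))) (merge (node 429 (merge (leaf 7 429 461) (node 430 (merge (leaf 7 397 397) (node 398 (merge (leaf 4 398 495) (node 399 (merge (leaf 6 366 367) (leaf 6 398 431))))))))) (node 429 (merge (leaf 7 429 461) (node 430 (merge (leaf 7 397 397) (node 495 (merge (leaf 4 398 398) (node 590 (merge (leaf 6 462 463) (leaf 6 494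 622)))))))))))))))))))) (merge (node 527 (merge (node 529 (merge (leaf 1 525 557) (node 497 (merge (leaf 2 494 498) (node 465 (merge (leaf 5 432 433) (node 592 (merge (leaf 5 464 561) (leaf 6 496 624))))))))) (merge (node 529 (merge (leaf 1 525 557) (node 494 (merge (leaf 3 493 493) (node 495 (merge (leaf 3 494 530) (node 590 (merge (leaf 6 462 463) (leaf 6 494 622))))))))) (merge (node 529 (merge (node 494 (merge (leaf 3 493 493) (node 495 (merge (leaf 3 494 530) (node 590 (merge (leaf 6 462 463) (leaf 6 494 622))))))) (node 497 (merge (leaf 2 494 498) (node 592 (merge (leaf 6 496 624) (node 465 (merge (leaf 5 432 433) (leaf 5 464 561))))))))) (node 590 (merge (node 495 (merge (leaf 6 494 622) (node 494 (merge (leaf 6 462 463) (node 493 (merge (leaf 7 461 461) (leaf 0 492 492))))))) (merge (node 622 (merge (leaf 6 494 495) (node 655 (merge (leaf 4 526 623) (node 654 (merge (leaf 4 558 687) (node 653 (merge (leaf 5 525 621) (leaf 5 557 685))))))))) (merge (node 494 (merge (node 463 (merge (leaf 6 462 495) (node 462 (merge (leaf 6 430 431) (node 461 (merge (leaf 7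 429 429) (leaf 7 461 493))))))) (merge (node 591 (merge (leaf 4 494 623) (node 589 (merge (leaf 5 493 621) (node 592 (merge (leaf 2 557 561) (node 557 (merge (leaf 5 461 462) (leaf 3 556 556))))))))) (node 591 (merge (leaf 4 494 623) (node 589 (merge (leaf 5 493 621) (node 592 (merge (leaf 2 557 561) (node 625 (merge (leaf 0 589 624) (node 593 (merge (leaf 3 557 557) (leaf 0 590 626)))))))))))))) (node 623 (merge (node 494 (merge (leaf 4 494 591) (node 589 (merge (leaf 5 493 621) (node 462 (merge (leaf 5 461 557) (node 461 (merge (leaf 7 429 429) (leaf 7 461 493))))))))) (merge (node 655 (merge (leaf 4 526 622) (node 591 (merge (leaf 7 558 687) (node 592 (merge (leaf 5 527 624) (node 561 (merge (leaf 2 557 589) (node 593 (merge (leaf 3 557 557) (leaf 2 558 562))))))))))) (merge (node 622 (merge (leaf 4 526 655) (node 621 (merge (leaf 5 525 653) (node 589 (merge (leaf 5 493 494) (node 624 (merge (leaf 3 588 588) (leaf 3 589 625))))))))) (node 591 (merge (leaf 4 494 494) (node 622 (merge (leaf 4 526 655) (node 621 (merge (leaf 5 525 653) (node 620 (merge (leaf 2 588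 592) (leaf 2 587 619))))))))))))))))))))) (merge (node 590 (merge (node 622 (merge (node 623 (merge (leaf 4 526 655) (node 494 (merge (leaf 4 494 591) (node 621 (merge (leaf 5 493 589) (leaf 5 525 653))))))) (merge (node 655 (merge (leaf 4 526 623) (node 654 (merge (leaf 4 558 687) (node 525 (merge (leaf 7 493 493) (leaf 7 525 557))))))) (node 653 (merge (leaf 5 525 621) (node 654 (merge (leaf 5 557 685) (node 525 (merge (leaf 7 493 493) (leaf 7 525 557)))))))))) (merge (node 622 (merge (node 527 (merge (leaf 6 494 495) (node 525 (merge (leaf 7 493 493) (leaf 0 525 561))))) (merge (node 655 (merge (leaf 4 526 623) (node 654 (merge (leaf 4 558 687) (node 525 (merge (leaf 7 493 493) (leaf 7 525 557))))))) (node 655 (merge (leaf 4 526 623) (node 654 (merge (leaf 4 558 687) (node 653 (merge (leaf 5 525 621) (leaf 5 557 685)))))))))) (merge (node 622 (merge (node 527 (merge (leaf 6 494 495) (node 525 (merge (leaf 7 493 493) (leaf 0 525 561))))) (merge (node 655 (merge (leaf 4 526 623) (node 654 (merge (leaf 4 558 687) (node 525 (merge (leaf 7 493 493) (leaf 7 525 557)))))))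 (merge (node 655 (merge (leaf 4 526 623) (node 654 (merge (leaf 4 558 687) (node 525 (merge (leaf 7 525 557) (node 527 (merge (leaf 6 494 495) (leaf 0 525 561))))))))) (node 623 (merge (leaf 4 526 655) (node 494 (merge (leaf 4 494 591) (node 495 (merge (leaf 6 462 463) (leaf 6 494 527))))))))))) (merge (node 494 (merge (node 495 (merge (leaf 6 462 463) (node 622 (merge (leaf 6 494 527) (node 621 (merge (leaf 5 493 589) (leaf 5 525 653))))))) (merge (node 621 (merge (leaf 5 493 589) (node 622 (merge (leaf 5 525 653) (node 493 (merge (leaf 7 461 461) (leaf 7 493 525))))))) (node 495 (merge (leaf 6 462 463) (node 493 (merge (leaf 7 461 461) (node 492 (merge (leaf 0 492 527) (node 523 (merge (leaf 1 491 524) (node 491 (merge (leaf 1 490 522) (node 459 (merge (leaf 3 458 458) (leaf 3 459 460)))))))))))))))) (merge (node 494 (merge (node 591 (merge (leaf 4 494 623) (node 589 (merge (leaf 5 493 621) (node 592 (merge (leaf 2 557 561) (node 557 (merge (leaf 5 461 462) (leaf 3 556 556))))))))) (merge (node 495 (merge (leaf 6 462 463) (node 493 (merge (leaf 7 461 461) (node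 492 (merge (leaf 0 492 527) (node 523 (merge (leaf 1 491 524) (node 491 (merge (leaf 1 490 522) (node 459 (merge (leaf 3 458 458) (leaf 3 459 460))))))))))))) (node 591 (merge (leaf 4 494 623) (node 589 (merge (leaf 5 493 621) (node 592 (merge (leaf 2 557 561) (node 624 (merge (leaf 0 589 625) (node 495 (merge (leaf 6 462 463) (leaf 7 495 527)))))))))))))) (node 494 (merge (node 623 (merge (leaf 4 494 591) (node 495 (merge (leaf 6 462 463) (node 622 (merge (leaf 6 494 527) (leaf 4 526 655))))))) (merge (node 589 (merge (leaf 5 493 621) (node 462 (merge (leaf 5 461 557) (node 431 (merge (leaf 6 430 463) (node 430 (merge (leaf 6 398 399) (node 429 (merge (leaf 7 397 397) (leaf 7 429 461))))))))))) (node 591 (merge (leaf 4 494 623) (node 589 (merge (leaf 5 493 621) (node 561 (merge (leaf 2 557 592) (node 527 (merge (leaf 0 525 525) (node 462 (merge (leaf 5 461 557) (node 495 (merge (leaf 6 494 622) (node 430 (merge (leaf 4 398 398) (node 429 (merge (leaf 7 397 397) (leaf 7 429 461)))))))))))))))))))))))))) (node 590 (merge (node 494 (merge (node 463 (merge (leaf 6 462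 495) (node 462 (merge (leaf 6 430 431) (node 461 (merge (leaf 7 429 429) (leaf 7 461 493))))))) (merge (node 591 (merge (leaf 4 494 623) (node 589 (merge (leaf 5 493 621) (node 592 (merge (leaf 2 557 561) (node 557 (merge (leaf 5 461 462) (leaf 3 556 556))))))))) (node 591 (merge (leaf 4 494 623) (node 589 (merge (leaf 5 493 621) (node 592 (merge (leaf 2 557 561) (node 625 (merge (leaf 0 589 624) (node 593 (merge (leaf 3 557 557) (leaf 0 590 626)))))))))))))) (merge (node 622 (merge (node 655 (merge (leaf 4 526 623) (node 654 (merge (leaf 4 558 687) (node 653 (merge (leaf 5 525 621) (leaf 5 557 685))))))) (merge (node 621 (merge (leaf 5 525 653) (node 494 (merge (leaf 5 493 589) (node 463 (merge (leaf 6 462 495) (node 462 (merge (leaf 6 430 431) (node 461 (merge (leaf 7 429 429) (leaf 7 461 493))))))))))) (node 623 (merge (leaf 4 526 655) (node 494 (merge (leaf 4 494 591) (node 463 (merge (leaf 6 462 495) (node 462 (merge (leaf 6 430 431) (node 461 (merge (leaf 7 429 429) (leaf 7 461 493)))))))))))))) (merge (node 494 (merge (node 463 (merge (leaf 6 462 495) (node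 462 (merge (leaf 6 430 431) (node 461 (merge (leaf 7 429 429) (leaf 7 461 493))))))) (merge (node 623 (merge (leaf 4 494 591) (node 622 (merge (leaf 4 526 655) (node 493 (merge (leaf 7 461 461) (leaf 7 493 525))))))) (merge (node 623 (merge (leaf 4 494 591) (node 622 (merge (leaf 4 526 655) (node 463 (merge (leaf 6 462 495) (node 462 (merge (leaf 6 430 431) (node 557 (merge (leaf 5 461 589) (node 525 (merge (leaf 5 429 430) (leaf 7 525 654))))))))))))) (node 463 (merge (leaf 6 462 495) (node 462 (merge (leaf 6 430 431) (node 557 (merge (leaf 5 461 589) (node 525 (merge (leaf 5 429 430) (node 622 (merge (leaf 7 493 493) (leaf 7 525 654))))))))))))))) (merge (node 622 (merge (node 655 (merge (leaf 4 526 623) (node 654 (merge (leaf 4 558 687) (node 525 (merge (leaf 7 493 493) (leaf 7 525 557))))))) (merge (node 653 (merge (leaf 5 525 621) (node 654 (merge (leaf 5 557 685) (node 525 (merge (leaf 7 493 493) (leaf 7 525 557))))))) (node 623 (merge (leaf 4 526 655) (node 591 (merge (leaf 4 494 494) (node 621 (merge (leaf 5 525 653) (node 620 (merge (leaf 2 588 592) (leaf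 2 587 619)))))))))))) (merge (node 622 (merge (node 653 (merge (leaf 5 525 621) (node 654 (merge (leaf 5 557 685) (node 557 (merge (leaf 7 525 525) (node 686 (merge (leaf 7 557 589) (node 687 (merge (leaf 4 558 655) (leaf 4 590 719))))))))))) (merge (node 623 (merge (leaf 4 526 655) (node 494 (merge (leaf 4 494 591) (node 463 (merge (leaf 6 462 495) (node 462 (merge (leaf 6 430 431) (node 557 (merge (leaf 5 461 589) (node 525 (merge (leaf 5 429 430) (leaf 7 525 654))))))))))))) (merge (node 623 (merge (leaf 4 526 655) (node 591 (merge (leaf 4 494 494) (node 621 (merge (leaf 5 525 653) (node 620 (merge (leaf 2 588 592) (leaf 2 587 619))))))))) (node 653 (merge (leaf 5 525 621) (node 654 (merge (leaf 5 557 685) (node 557 (merge (leaf 7 525 525) (node 589 (merge (leaf 7 557 686) (node 494 (merge (leaf 5 461 462) (node 591 (merge (leaf 4 494 623) (node 592 (merge (leaf 3 556 556) (leaf 2 557 561))))))))))))))))))) (merge (node 622 (merge (node 621 (merge (leaf 5 525 653) (node 494 (merge (leaf 5 493 589) (node 463 (merge (leaf 6 462 495) (node 462 (merge (leaf 6 430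 431) (node 461 (merge (leaf 7 429 429) (leaf 7 461 493))))))))))) (merge (node 493 (merge (leaf 7 493 525) (node 494 (merge (leaf 7 461 461) (node 589 (merge (leaf 5 493 621) (node 462 (merge (leaf 5 461 557) (node 463 (merge (leaf 6 430 431) (leaf 6 462 495))))))))))) (merge (node 653 (merge (leaf 5 525 621) (node 654 (merge (leaf 5 557 685) (node 557 (merge (leaf 7 525 525) (node 686 (merge (leaf 7 557 589) (node 687 (merge (leaf 4 558 655) (leaf 4 590 719))))))))))) (node 525 (merge (leaf 7 493 493) (node 654 (merge (leaf 7 525 557) (node 687 (merge (leaf 4 558 655) (node 686 (merge (leaf 4 590 719) (node 685 (merge (leaf 5 557 653) (leaf 5 589 717))))))))))))))) (node 592 (merge (node 622 (merge (node 655 (merge (leaf 4 526 623) (node 654 (merge (leaf 4 558 687) (node 653 (merge (leaf 5 525 621) (leaf 5 557 685))))))) (merge (node 655 (merge (leaf 4 526 623) (node 654 (merge (leaf 4 558 687) (node 525 (merge (leaf 7 493 493) (leaf 7 525 557))))))) (merge (node 653 (merge (leaf 5 525 621) (node 654 (merge (leaf 5 557 685) (node 525 (merge (leaf 7 493 493) (leaf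 7 525 557))))))) (node 623 (merge (leaf 4 526 655) (node 621 (merge (leaf 5 525 653) (node 593 (merge (leaf 1 589 591) (leaf 2 589 624))))))))))) (merge (node 591 (merge (node 593 (merge (leaf 3 557 557) (node 625 (merge (leaf 0 590 626) (node 657 (merge (leaf 4 528 624) (leaf 7 560 689))))))) (merge (node 589 (merge (leaf 2 557 561) (node 621 (merge (leaf 1 588 620) (node 557 (merge (leaf 3 556 556) (leaf 6 525 653))))))) (node 589 (merge (leaf 2 557 561) (node 621 (merge (leaf 1 588 620) (node 622 (merge (leaf 1 589 593) (leaf 5 525 653)))))))))) (merge (node 624 (merge (node 657 (merge (leaf 4 528 625) (node 656 (merge (leaf 4 560 689) (node 529 (merge (leaf 6 496 497) (leaf 6 528 561))))))) (merge (node 657 (merge (leaf 4 528 625) (node 656 (merge (leaf 4 560 689) (node 655 (merge (leaf 5 527 623) (leaf 5 559 687))))))) (merge (node 655 (merge (leaf 5 527 623) (node 656 (merge (leaf 5 559 687) (node 529 (merge (leaf 6 496 497) (leaf 6 528 561))))))) (node 625 (merge (leaf 4 528 657) (node 623 (merge (leaf 5 527 655) (node 622 (merge (leaf 3 589 589) (node 654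 (merge (leaf 1 621 653) (node 525 (merge (leaf 7 493 493) (leaf 7 525 557))))))))))))))) (merge (node 624 (merge (node 657 (merge (leaf 4 528 625) (node 656 (merge (leaf 4 560 689) (node 529 (merge (leaf 6 496 497) (leaf 6 528 561))))))) (merge (node 657 (merge (leaf 4 528 625) (node 656 (merge (leaf 4 560 689) (node 655 (merge (leaf 5 527 623) (leaf 5 559 687))))))) (merge (node 655 (merge (leaf 5 527 623) (node 656 (merge (leaf 5 559 687) (node 529 (merge (leaf 6 496 497) (leaf 6 528 561))))))) (node 625 (merge (leaf 4 528 657) (node 623 (merge (leaf 5 527 655) (node 626 (merge (leaf 3 590 591) (node 658 (merge (leaf 0 623 659) (node 594 (merge (leaf 2 591 595) (node 529 (merge (leaf 6 496 497) (node 561 (merge (leaf 7 529 562) (leaf 4 529 593))))))))))))))))))) (node 591 (merge (node 557 (merge (leaf 3 557 593) (node 556 (merge (leaf 0 555 555) (leaf 3 556 589))))) (merge (node 593 (merge (leaf 3 557 557) (node 625 (merge (leaf 0 590 626) (node 561 (merge (leaf 2 558 562) (leaf 7 528 657))))))) (merge (node 589 (merge (leaf 2 557 561) (node 621 (merge (leaf 1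 588 620) (node 557 (merge (leaf 3 556 556) (leaf 6 525 653))))))) (node 589 (merge (leaf 2 557 561) (node 621 (merge (leaf 1 588 620) (node 622 (merge (leaf 1 589 593) (leaf 5 525 653))))))))))))))))))))))))))))))) nD_29 cD_29 12 (by decide +kernel)
def nD_30 : ℕ := 0x10000000000000001c0000001000000000000000000000000000000000000000000000000000000000000000000000000000000000000000000000000000000000000000000000000000000000000
def cD_30 : ℕ := 0x50000000f0000000f000001ff800000ef000000ef80000040000000ef8000000e0000000c0000000800000000000000000000000000000000000000000000000000000000000000000000000000000000000000000000000000000000000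
theorem lD_30 : S nD_30 cD_30 10 := S_of_chk [] trivial (node 623 (merge (node 591 (merge (leaf 6 527 655) (node 527 (merge (leaf 4 527 656) (node 494 (merge (leaf 7 494 526) (node 495 (merge (leaf 7 462 462) (node 463 (merge (leaf 4 431 431) (leaf 5 462 590))))))))))) (merge (node 622 (merge (node 655 (merge (leaf 6 527 591) (node 590 (merge (leaf 4 526 526) (node 687 (merge (leaf 4 558 654) (leaf 7 590 719))))))) (merge (node 654 (merge (node 625 (merge (leaf 1 621 653) (node 658 (merge (leaf 0 622 657) (node 626 (merge (leaf 0 623 659) (node 594 (merge (leaf 2 590 593) (leaf 2 591 595))))))))) (merge (node 590 (merge (leaf 6 526 527) (node 625 (merge (leaf 3 589 589) (node 658 (merge (leaf 0 622 657) (node 626 (merge (leaf 0 623 659) (node 594 (merge (leaf 2 590 593) (leaf 2 591 595))))))))))) (node 590 (merge (leaf 6 526 527) (node 653 (merge (leaf 5 557 685) (node 652 (merge (leaf 1 620 621) (leaf 2 619 651)))))))))) (merge (node 655 (merge (leaf 6 527 591) (node 590 (merge (leaf 4 526 526) (node 625 (merge (leaf 3 589 589) (node 658 (merge (leaf 0 622 657)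 (node 626 (merge (leaf 0 623 659) (node 594 (merge (leaf 2 590 593) (leaf 2 591 595))))))))))))) (node 591 (merge (leaf 6 527 655) (node 654 (merge (leaf 5 526 527) (node 625 (merge (leaf 1 621 653) (node 658 (merge (leaf 0 622 657) (node 626 (merge (leaf 0 623 659) (node 594 (merge (leaf 2 590 593) (leaf 2 591 595))))))))))))))))) (merge (node 622 (merge (node 654 (merge (node 590 (merge (leaf 6 526 527) (node 655 (merge (leaf 4 526 526) (leaf 4 558 687))))) (merge (node 653 (merge (leaf 1 621 625) (node 590 (merge (leaf 6 526 527) (leaf 5 557 685))))) (node 625 (merge (leaf 1 621 653) (node 658 (merge (leaf 0 622 657) (node 626 (merge (leaf 1 622 655) (leaf 0 623 659)))))))))) (merge (node 590 (merge (node 655 (merge (leaf 4 526 526) (node 654 (merge (leaf 6 526 527) (leaf 4 558 687))))) (merge (node 654 (merge (leaf 6 526 527) (node 653 (merge (leaf 5 557 685) (node 652 (merge (leaf 1 620 621) (leaf 2 619 651))))))) (node 526 (merge (leaf 4 526 655) (node 621 (merge (leaf 5 525 653) (node 589 (merge (leaf 5 493 494) (leaf 3 588 588)))))))))) (merge (node 654 (merge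 (node 625 (merge (leaf 1 621 653) (node 658 (merge (leaf 0 622 657) (node 626 (merge (leaf 0 623 659) (node 594 (merge (leaf 2 590 593) (leaf 2 591 595))))))))) (merge (node 590 (merge (leaf 6 526 527) (node 625 (merge (leaf 3 589 589) (node 658 (merge (leaf 0 622 657) (node 626 (merge (leaf 0 623 659) (node 594 (merge (leaf 2 590 593) (leaf 2 591 595))))))))))) (node 590 (merge (leaf 6 526 527) (node 653 (merge (leaf 5 557 685) (node 652 (merge (leaf 1 620 621) (leaf 2 619 651)))))))))) (merge (node 625 (merge (node 594 (merge (leaf 2 590 593) (node 626 (merge (leaf 2 591 595) (node 659 (merge (leaf 0 623 658) (node 627 (merge (leaf 0 624 660) (node 655 (merge (leaf 1 622 654) (leaf 1 623 656))))))))))) (merge (node 658 (merge (leaf 0 622 657) (node 626 (merge (leaf 0 623 659) (node 594 (merge (leaf 2 590 593) (leaf 2 591 595))))))) (node 590 (merge (leaf 3 589 589) (node 526 (merge (leaf 4 526 655) (node 525 (merge (leaf 7 493 493) (node 524 (merge (leaf 0 523 523) (leaf 0 524 527)))))))))))) (merge (node 625 (merge (node 658 (merge (leaf 0 622 657) (node 626 (merge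 (leaf 0 623 659) (node 654 (merge (leaf 1 621 653) (leaf 1 622 655))))))) (merge (node 594 (merge (leaf 2 590 593) (node 626 (merge (leaf 2 591 595) (node 659 (merge (leaf 0 623 658) (node 627 (merge (leaf 0 624 660) (node 655 (merge (leaf 1 622 654) (leaf 1 623 656))))))))))) (merge (node 653 (merge (leaf 1 621 654) (node 621 (merge (leaf 1 620 652) (node 656 (merge (leaf 0 621 657) (node 620 (merge (leaf 0 620 655) (node 588 (merge (leaf 3 587 587) (leaf 3 588 589))))))))))) (node 657 (merge (leaf 0 622 658) (node 621 (merge (leaf 0 621 656) (node 652 (merge (leaf 1 620 653) (node 620 (merge (leaf 1 619 651) (node 588 (merge (leaf 3 587 587) (leaf 3 588 589))))))))))))))) (node 621 (merge (node 589 (merge (leaf 3 588 588) (node 590 (merge (leaf 3 589 625) (node 526 (merge (leaf 5 493 494) (leaf 5 525 653))))))) (merge (node 656 (merge (leaf 0 621 657) (node 620 (merge (leaf 0 620 655) (node 652 (merge (leaf 1 619 651) (leaf 1 620 653))))))) (merge (node 657 (merge (leaf 0 621 656) (node 625 (merge (leaf 0 622 658) (node 589 (merge (leaf 3 588 588) (leaf 3 589 590)))))))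 (node 653 (merge (leaf 1 620 652) (node 590 (merge (leaf 5 525 526) (node 589 (merge (leaf 3 589 625) (leaf 6 557 685))))))))))))))))) (merge (node 622 (merge (node 655 (merge (leaf 6 527 591) (node 590 (merge (leaf 4 526 526) (node 687 (merge (leaf 4 558 654) (leaf 7 590 719))))))) (merge (node 625 (merge (node 658 (merge (leaf 0 622 657) (node 626 (merge (leaf 0 623 659) (node 654 (merge (leaf 1 621 653) (leaf 1 622 655))))))) (merge (node 594 (merge (leaf 2 590 593) (node 626 (merge (leaf 2 591 595) (node 659 (merge (leaf 0 623 658) (node 627 (merge (leaf 0 624 660) (node 655 (merge (leaf 1 622 654) (leaf 1 623 656))))))))))) (merge (node 653 (merge (leaf 1 621 654) (node 621 (merge (leaf 1 620 652) (node 656 (merge (leaf 0 621 657) (node 620 (merge (leaf 0 620 655) (node 588 (merge (leaf 3 587 587) (leaf 3 588 589))))))))))) (node 657 (merge (leaf 0 622 658) (node 621 (merge (leaf 0 621 656) (node 652 (merge (leaf 1 620 653) (node 620 (merge (leaf 1 619 651) (node 588 (merge (leaf 3 587 587) (leaf 3 588 589))))))))))))))) (merge (node 655 (merge (leaf 6 527 591)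 (node 590 (merge (leaf 4 526 526) (node 625 (merge (leaf 3 589 589) (node 658 (merge (leaf 0 622 657) (node 626 (merge (leaf 0 623 659) (node 594 (merge (leaf 2 590 593) (leaf 2 591 595))))))))))))) (node 589 (merge (node 625 (merge (leaf 3 589 590) (node 658 (merge (leaf 0 622 657) (node 626 (merge (leaf 0 623 659) (node 594 (merge (leaf 2 590 593) (leaf 2 591 595))))))))) (merge (node 621 (merge (leaf 3 588 588) (node 657 (merge (leaf 0 621 656) (node 625 (merge (leaf 0 622 658) (node 653 (merge (leaf 1 620 652) (leaf 1 621 654))))))))) (node 621 (merge (leaf 3 588 588) (node 653 (merge (leaf 1 620 652) (node 685 (merge (leaf 6 557 590) (node 718 (merge (leaf 4 589 686) (node 717 (merge (leaf 4 621 750) (node 716 (merge (leaf 5 588 684) (leaf 5 620 748)))))))))))))))))))) (merge (node 622 (merge (node 527 (merge (node 591 (merge (leaf 5 526 654) (leaf 4 527 656))) (merge (node 590 (merge (leaf 6 526 654) (node 526 (merge (leaf 6 494 495) (node 525 (merge (leaf 7 493 493) (leaf 0 524 524))))))) (node 591 (merge (leaf 4 527 656) (node 494 (merge (leaf 7 494 526)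 (node 495 (merge (leaf 7 462 462) (node 463 (merge (leaf 4 431 431) (leaf 5 462 590)))))))))))) (merge (node 654 (merge (node 625 (merge (leaf 1 621 653) (node 658 (merge (leaf 0 622 657) (node 626 (merge (leaf 0 623 659) (node 594 (merge (leaf 2 590 593) (leaf 2 591 595))))))))) (merge (node 590 (merge (leaf 6 526 527) (node 625 (merge (leaf 3 589 589) (node 658 (merge (leaf 0 622 657) (node 626 (merge (leaf 0 623 659) (node 594 (merge (leaf 2 590 593) (leaf 2 591 595))))))))))) (node 590 (merge (leaf 6 526 527) (node 653 (merge (leaf 5 557 685) (node 652 (merge (leaf 1 620 621) (leaf 2 619 651)))))))))) (merge (node 657 (merge (node 621 (merge (leaf 0 621 656) (node 652 (merge (leaf 1 620 653) (node 620 (merge (leaf 1 619 651) (node 588 (merge (leaf 3 587 587) (leaf 3 588 589))))))))) (node 625 (merge (leaf 0 622 658) (node 594 (merge (leaf 2 590 593) (node 626 (merge (leaf 2 591 595) (node 530 (merge (leaf 5 529 562) (node 529 (merge (leaf 1 526 527) (leaf 1 527 531))))))))))))) (node 589 (merge (node 625 (merge (leaf 3 589 590) (node 658 (merge (leaf 0 622 657)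 (node 626 (merge (leaf 0 623 659) (node 594 (merge (leaf 2 590 593) (leaf 2 591 595))))))))) (merge (node 621 (merge (leaf 3 588 588) (node 657 (merge (leaf 0 621 656) (node 625 (merge (leaf 0 622 658) (node 653 (merge (leaf 1 620 652) (leaf 1 621 654))))))))) (node 621 (merge (leaf 3 588 588) (node 653 (merge (leaf 1 620 652) (node 685 (merge (leaf 6 557 590) (node 718 (merge (leaf 4 589 686) (node 717 (merge (leaf 4 621 750) (node 716 (merge (leaf 5 588 684) (leaf 5 620 748)))))))))))))))))))) (node 622 (merge (node 591 (merge (leaf 6 527 655) (node 527 (merge (leaf 5 526 654) (leaf 4 527 656))))) (merge (node 657 (merge (node 621 (merge (leaf 0 621 656) (node 652 (merge (leaf 1 620 653) (node 620 (merge (leaf 1 619 651) (node 588 (merge (leaf 3 587 587) (leaf 3 588 589))))))))) (node 625 (merge (leaf 0 622 658) (node 594 (merge (leaf 2 590 593) (node 626 (merge (leaf 2 591 595) (node 530 (merge (leaf 5 529 562) (node 529 (merge (leaf 1 526 527) (leaf 1 527 531))))))))))))) (merge (node 625 (merge (node 658 (merge (leaf 0 622 657) (node 626 (merge (leaf 0 623 659)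 (node 654 (merge (leaf 1 621 653) (leaf 1 622 655))))))) (merge (node 594 (merge (leaf 2 590 593) (node 626 (merge (leaf 2 591 595) (node 659 (merge (leaf 0 623 658) (node 627 (merge (leaf 0 624 660) (node 655 (merge (leaf 1 622 654) (leaf 1 623 656))))))))))) (merge (node 653 (merge (leaf 1 621 654) (node 621 (merge (leaf 1 620 652) (node 656 (merge (leaf 0 621 657) (node 620 (merge (leaf 0 620 655) (node 588 (merge (leaf 3 587 587) (leaf 3 588 589))))))))))) (node 657 (merge (leaf 0 622 658) (node 621 (merge (leaf 0 621 656) (node 652 (merge (leaf 1 620 653) (node 620 (merge (leaf 1 619 651) (node 588 (merge (leaf 3 587 587) (leaf 3 588 589))))))))))))))) (node 591 (merge (leaf 6 527 655) (node 654 (merge (leaf 5 526 527) (node 625 (merge (leaf 1 621 653) (node 658 (merge (leaf 0 622 657) (node 626 (merge (leaf 0 623 659) (node 594 (merge (leaf 2 590 593) (leaf 2 591 595))))))))))))))))))))))) nD_30 cD_30 10 (by decide +kernel)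
def nD_31 : ℕ := 0x1c0000001000000000000000000000000000000000000000000000000000000000000000000000000000000000000000000000000000000000000000000000000000000000000
def cD_31 : ℕ := 0x50000000f0000003f000001ff800000ff000001ff80000040000000ef8000006f0000003e0000001c00000000000000000000000000000000000000000000000000000000000000000000000000000000000000000000000000000000000
theorem lD_31 : S nD_31 cD_31 11 := S_of_chk [(nD_30, cD_30, 10)] ⟨lD_30, trivial⟩ (node 624 (merge (node 592 (merge (node 529 (merge (leaf 6 496 497) (node 527 (merge (leaf 7 495 495) (leaf 1 526 530))))) (merge (node 656 (merge (leaf 7 527 527) (node 655 (merge (leaf 5 527 623) (leaf 5 559 687))))) (node 657 (merge (leaf 4 528 625) (node 656 (merge (leaf 4 560 689) (node 655 (merge (leaf 5 527 623) (leaf 5 559 687)))))))))) (merge (node 592 (merge (node 529 (merge (leaf 6 496 497) (node 527 (merge (leaf 7 495 495) (leaf 1 526 530))))) (node 657 (merge (leaf 4 528 625) (node 656 (merge (leaf 4 560 689) (node 687 (merge (leaf 5 559 655) (node 688 (merge (leaf 7 559 591) (leaf 5 591 719))))))))))) (merge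 (node 527 (merge (node 592 (merge (leaf 7 495 495) (leaf 7 527 656))) (merge (node 529 (merge (leaf 1 526 530) (node 592 (merge (leaf 7 495 495) (leaf 6 496 497))))) (merge (node 592 (merge (leaf 7 527 656) (node 529 (merge (leaf 6 496 497) (leaf 1 526 530))))) (node 495 (merge (node 463 (merge (leaf 4 431 431) (leaf 5 462 590))) (merge (node 494 (merge (node 493 (merge (leaf 0 492 492) (node 529 (merge (leaf 3 493 526) (leaf 1 526 530))))) (node 591 (merge (leaf 7 462 462) (node 623 (merge (leaf 4 527 656) (node 622 (merge (leaf 5 494 590) (leaf 5 526 654))))))))) (node 463 (merge (leaf 4 431 431) (node 464 (merge (leaf 6 431 432) (node 462 (merge (leaf 7 430 430) (node 494 (merge (leaf 7 462 591) (node 493 (merge (leaf 1 461 465) (leaf 0 492 492)))))))))))))))))) (merge (node 591 (merge (node 623 (merge (leaf 6 527 655) (node 527 (merge (leaf 4 527 656) (node 494 (merge (leaf 7 494 526) (node 495 (merge (leaf 7 462 462) (node 463 (merge (leaf 4 431 431) (leaf 5 462 590))))))))))) (merge (node 592 (merge (node 656 (merge (leaf 7 559 688) (node 657 (merge (leaf 4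 528 625) (leaf 4 560 689))))) (merge (node 656 (merge (leaf 7 559 688) (node 655 (merge (leaf 6 527 623) (leaf 5 559 687))))) (node 625 (merge (leaf 4 528 657) (node 626 (merge (leaf 3 591 627) (node 623 (merge (leaf 5 527 655) (node 594 (merge (leaf 2 591 595) (node 593 (merge (leaf 3 558 559) (leaf 1 590 622)))))))))))))) (merge (node 592 (merge (node 656 (merge (leaf 7 527 527) (leaf 7 559 688))) (node 590 (merge (node 589 (merge (leaf 2 556 588) (node 625 (merge (leaf 0 589 624) (node 593 (merge (leaf 3 558 594) (leaf 0 590 626))))))) (merge (node 589 (merge (leaf 2 556 588) (node 621 (merge (leaf 1 588 620) (node 526 (merge (leaf 5 493 494) (node 653 (merge (leaf 5 525 622) (leaf 6 557 685))))))))) (node 593 (merge (leaf 3 558 594) (node 625 (merge (leaf 0 590 626) (node 657 (merge (leaf 4 528 624) (leaf 7 560 689)))))))))))) (node 527 (merge (node 623 (merge (leaf 6 527 655) (node 622 (merge (leaf 5 526 654) (node 495 (merge (leaf 5 494 590) (node 463 (merge (leaf 4 431 431) (leaf 4 463 592))))))))) (merge (node 623 (merge (leaf 6 527 655) (node 494 (merge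 (leaf 7 494 526) (node 495 (merge (leaf 7 462 462) (node 463 (merge (leaf 4 431 431) (leaf 4 463 592))))))))) (merge (node 623 (merge (leaf 6 527 655) (node 622 (merge (leaf 5 526 654) (node 526 (merge (leaf 7 494 494) (node 525 (merge (leaf 0 524 524) (node 493 (merge (leaf 3 492 492) (leaf 7 493 590))))))))))) (node 495 (merge (node 463 (merge (leaf 4 431 431) (leaf 5 462 590))) (merge (node 463 (merge (leaf 4 431 431) (leaf 4 463 592))) (node 590 (merge (leaf 5 494 622) (node 589 (merge (leaf 2 556 588) (node 494 (merge (leaf 7 462 462) (node 493 (merge (leaf 0 492 492) (node 526 (merge (leaf 7 461 461) (leaf 5 493 621)))))))))))))))))))))) (merge (node 527 (merge (node 495 (merge (leaf 7 495 592) (node 463 (merge (leaf 4 431 431) (leaf 5 462 590))))) (merge (node 529 (merge (leaf 1 526 530) (node 497 (merge (leaf 6 496 592) (node 526 (merge (leaf 2 494 498) (node 494 (merge (leaf 3 493 493) (node 591 (merge (leaf 4 462 462) (leaf 7 494 623))))))))))) (node 495 (merge (node 463 (merge (leaf 4 431 431) (leaf 5 462 590))) (merge (node 591 (merge (node 623 (merge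 (leaf 6 527 655) (node 622 (merge (leaf 5 494 590) (leaf 5 526 654))))) (merge (node 623 (merge (leaf 6 527 655) (node 494 (merge (leaf 7 462 462) (leaf 7 494 526))))) (node 529 (merge (leaf 1 526 530) (node 494 (merge (leaf 7 462 462) (node 493 (merge (leaf 0 492 492) (leaf 3 493 526)))))))))) (node 463 (merge (leaf 4 431 431) (node 464 (merge (leaf 6 431 432) (node 462 (merge (leaf 7 430 430) (node 494 (merge (leaf 7 462 591) (node 493 (merge (leaf 1 461 465) (leaf 0 492 492))))))))))))))))) (merge (node 623 (merge (node 655 (merge (leaf 6 527 591) (leaf 5 527 592))) (merge (node 625 (merge (node 592 (merge (leaf 5 527 655) (leaf 4 528 657))) (merge (node 657 (merge (leaf 4 528 592) (node 622 (merge (leaf 0 622 658) (node 621 (merge (leaf 0 621 656) (node 653 (merge (leaf 1 620 652) (leaf 1 621 654))))))))) (merge (node 655 (merge (leaf 5 527 592) (node 626 (merge (leaf 1 622 654) (node 659 (merge (leaf 0 623 658) (node 627 (merge (leaf 1 623 656) (leaf 0 624 660))))))))) (node 654 (merge (node 622 (merge (leaf 1 621 653) (node 590 (merge (leaf 3 589 589) (node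 655 (merge (leaf 4 526 526) (leaf 4 558 687))))))) (merge (node 622 (merge (leaf 1 621 653) (node 658 (merge (leaf 0 622 657) (node 626 (merge (leaf 0 623 659) (node 594 (merge (leaf 2 590 593) (leaf 2 591 595))))))))) (node 626 (merge (leaf 1 622 655) (node 659 (merge (leaf 0 623 658) (node 627 (merge (leaf 0 624 660) (node 595 (merge (leaf 2 591 594) (leaf 2 592 596)))))))))))))))) (merge (node 622 (merge (node 655 (merge (leaf 6 527 591) (node 590 (merge (leaf 4 526 526) (node 687 (merge (leaf 4 558 654) (leaf 7 590 719))))))) (merge (node 625 (merge (node 658 (merge (leaf 0 622 657) (node 626 (merge (leaf 0 623 659) (node 654 (merge (leaf 1 621 653) (leaf 1 622 655))))))) (merge (node 594 (merge (leaf 2 590 593) (node 626 (merge (leaf 2 591 595) (node 659 (merge (leaf 0 623 658) (node 627 (merge (leaf 0 624 660) (node 655 (merge (leaf 1 622 654) (leaf 1 623 656))))))))))) (merge (node 653 (merge (leaf 1 621 654) (node 621 (merge (leaf 1 620 652) (node 656 (merge (leaf 0 621 657) (node 620 (merge (leaf 0 620 655) (node 588 (merge (leaf 3 587 587) (leaf 3 588 589)))))))))))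 (node 657 (merge (leaf 0 622 658) (node 621 (merge (leaf 0 621 656) (node 652 (merge (leaf 1 620 653) (node 620 (merge (leaf 1 619 651) (node 588 (merge (leaf 3 587 587) (leaf 3 588 589))))))))))))))) (merge (node 655 (merge (leaf 6 527 591) (node 590 (merge (leaf 4 526 526) (node 625 (merge (leaf 3 589 589) (node 658 (merge (leaf 0 622 657) (node 626 (merge (leaf 0 623 659) (node 594 (merge (leaf 2 590 593) (leaf 2 591 595))))))))))))) (node 589 (merge (node 625 (merge (leaf 3 589 590) (node 658 (merge (leaf 0 622 657) (node 626 (merge (leaf 0 623 659) (node 594 (merge (leaf 2 590 593) (leaf 2 591 595))))))))) (merge (node 621 (merge (leaf 3 588 588) (node 657 (merge (leaf 0 621 656) (node 625 (merge (leaf 0 622 658) (node 653 (merge (leaf 1 620 652) (leaf 1 621 654))))))))) (node 621 (merge (leaf 3 588 588) (node 653 (merge (leaf 1 620 652) (node 685 (merge (leaf 6 557 590) (node 718 (merge (leaf 4 589 686) (node 717 (merge (leaf 4 621 750) (node 716 (merge (leaf 5 588 684) (leaf 5 620 748)))))))))))))))))))) (node 622 (merge (node 625 (merge (node 657 (merge (leaf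 4 528 592) (leaf 0 622 658))) (node 594 (merge (leaf 2 590 593) (node 626 (merge (leaf 2 591 595) (node 590 (merge (leaf 3 589 589) (leaf 3 590 591))))))))) (merge (node 657 (merge (node 625 (merge (leaf 4 528 592) (leaf 0 622 658))) (node 621 (merge (leaf 0 621 656) (node 652 (merge (leaf 1 620 653) (node 620 (merge (leaf 1 619 651) (node 588 (merge (leaf 3 587 587) (leaf 3 588 589))))))))))) (merge (node 625 (merge (node 653 (merge (leaf 1 621 654) (node 621 (merge (leaf 1 620 652) (node 593 (merge (leaf 2 589 592) (leaf 2 590 594))))))) (merge (node 594 (merge (leaf 2 590 593) (node 626 (merge (leaf 2 591 595) (node 590 (merge (leaf 3 589 589) (leaf 3 590 591))))))) (node 653 (merge (leaf 1 621 654) (node 621 (merge (leaf 1 620 652) (node 590 (merge (leaf 5 525 526) (leaf 3 589 589)))))))))) (merge (node 657 (merge (node 625 (merge (leaf 4 528 592) (leaf 0 622 658))) (merge (node 621 (merge (leaf 0 621 656) (node 625 (merge (leaf 0 622 658) (node 653 (merge (leaf 1 620 652) (leaf 1 621 654))))))) (node 621 (merge (leaf 0 621 656) (node 652 (merge (leaf 1 620 653)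 (node 620 (merge (leaf 1 619 651) (node 592 (merge (leaf 2 588 591) (leaf 2 589 593)))))))))))) (merge (node 621 (merge (node 656 (merge (leaf 0 621 657) (node 592 (merge (leaf 2 589 593) (node 591 (merge (leaf 2 588 620) (leaf 7 559 688))))))) (node 653 (merge (leaf 1 620 652) (node 589 (merge (leaf 3 588 588) (node 685 (merge (leaf 6 557 590) (node 718 (merge (leaf 4 589 686) (node 717 (merge (leaf 4 621 750) (node 716 (merge (leaf 5 588 684) (leaf 5 620 748))))))))))))))) (node 589 (merge (node 625 (merge (leaf 3 589 590) (node 658 (merge (leaf 0 622 657) (node 626 (merge (leaf 0 623 659) (node 594 (merge (leaf 2 590 593) (leaf 2 591 595))))))))) (merge (node 621 (merge (leaf 3 588 588) (node 657 (merge (leaf 0 621 656) (node 625 (merge (leaf 0 622 658) (node 653 (merge (leaf 1 620 652) (leaf 1 621 654))))))))) (node 621 (merge (leaf 3 588 588) (node 653 (merge (leaf 1 620 652) (node 685 (merge (leaf 6 557 590) (node 718 (merge (leaf 4 589 686) (node 717 (merge (leaf 4 621 750) (node 716 (merge (leaf 5 588 684) (leaf 5 620 748)))))))))))))))))))))))))) (hyp 0))))))))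 nD_31 cD_31 11 (by decide +kernel)
def nD_32 : ℕ := 0x140000001000000000000000000000000000000000000000000000000000000000000000000000000000000000000000000000000000000000000000000000000000000000000
def cD_32 : ℕ := 0x50000000f0000003f000001ff800000ff000001ff80000068000000ef8000006f8000007f8000007e00000008000000000000000000000000000000000000000000000000000000000000000000000000000000000000000000000000000
theorem lD_32 : S nD_32 cD_32 12 := S_of_chk [(nD_31, cD_31, 11)] ⟨lD_31, trivial⟩ (node 559 (merge (node 561 (merge (node 530 (merge (leaf 2 526 529) (node 562 (merge (leaf 2 527 531) (node 590 (merge (leaf 1 557 589) (leaf 1 558 591))))))) (merge (node 594 (merge (leaf 0 558 593) (node 562 (merge (leaf 0 559 595) (node 530 (merge (leaf 2 526 529) (leaf 2 527 531))))))) (merge (node 594 (merge (leaf 0 558 593) (node 562 (merge (leaf 0 559 595) (node 590 (merge (leaf 1 557 589) (leaf 1 558 591))))))) (node 593 (merge (leaf 0 558 594) (node 625 (merge (leaf 7 528 657) (node 590 (merge (leaf 1 557 589) (node 529 (merge (leaf 2 526 530) (node 626 (merge (leaf 4 529 658)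 (node 591 (merge (leaf 0 590 592) (node 624 (merge (leaf 3 590 623) (leaf 5 528 656))))))))))))))))))) (merge (node 561 (merge (node 594 (merge (leaf 0 558 593) (node 562 (merge (leaf 0 559 595) (node 530 (merge (leaf 2 526 529) (leaf 2 527 531))))))) (merge (node 594 (merge (leaf 0 558 593) (node 562 (merge (leaf 0 559 595) (node 526 (merge (leaf 3 525 525) (leaf 3 526 527))))))) (merge (node 530 (merge (leaf 2 526 529) (node 562 (merge (leaf 2 527 531) (node 526 (merge (leaf 3 525 525) (leaf 3 526 527))))))) (node 593 (merge (leaf 0 558 594) (node 625 (merge (leaf 7 528 657) (node 529 (merge (leaf 2 526 530) (node 526 (merge (leaf 3 525 525) (node 624 (merge (leaf 5 528 656) (node 497 (merge (leaf 5 496 592) (node 498 (merge (leaf 6 465 466) (leaf 2 494 527))))))))))))))))))) (merge (node 561 (merge (node 530 (merge (leaf 2 526 529) (node 562 (merge (leaf 2 527 531) (node 590 (merge (leaf 1 557 589) (leaf 1 558 591))))))) (merge (node 594 (merge (leaf 0 558 593) (node 562 (merge (leaf 0 559 595) (node 530 (merge (leaf 2 526 529) (leaf 2 527 531))))))) (merge (node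 594 (merge (leaf 0 558 593) (node 562 (merge (leaf 0 559 595) (node 590 (merge (leaf 1 557 589) (leaf 1 558 591))))))) (node 593 (merge (leaf 0 558 594) (node 625 (merge (leaf 7 528 657) (node 590 (merge (leaf 1 557 589) (node 529 (merge (leaf 2 526 530) (node 626 (merge (leaf 4 529 658) (node 592 (merge (leaf 0 590 591) (node 624 (merge (leaf 5 496 497) (leaf 5 528 656))))))))))))))))))) (merge (node 561 (merge (node 594 (merge (leaf 0 558 593) (node 562 (merge (leaf 0 559 595) (node 530 (merge (leaf 2 526 529) (leaf 2 527 531))))))) (merge (node 594 (merge (leaf 0 558 593) (node 562 (merge (leaf 0 559 595) (node 526 (merge (leaf 3 525 525) (leaf 3 526 527))))))) (merge (node 530 (merge (leaf 2 526 529) (node 562 (merge (leaf 2 527 531) (node 526 (merge (leaf 3 525 525) (leaf 3 526 527))))))) (node 593 (merge (leaf 0 558 594) (node 625 (merge (leaf 7 528 657) (node 529 (merge (leaf 2 526 530) (node 526 (merge (leaf 3 525 525) (node 624 (merge (leaf 5 528 656) (node 592 (merge (leaf 5 496 497) (node 623 (merge (leaf 5 527 655) (node 527 (merge (leaf 7 495 495) (node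 494 (merge (leaf 3 493 493) (leaf 7 494 591))))))))))))))))))))))) (merge (node 590 (merge (node 589 (merge (leaf 1 557 561) (node 588 (merge (leaf 2 555 587) (leaf 2 556 591))))) (merge (node 561 (merge (leaf 1 557 589) (node 526 (merge (leaf 3 525 525) (node 527 (merge (leaf 3 526 562) (node 622 (merge (leaf 6 494 495) (leaf 6 526 654))))))))) (merge (node 622 (merge (node 654 (merge (leaf 6 526 527) (node 687 (merge (leaf 4 558 655) (node 686 (merge (leaf 6 558 591) (leaf 4 590 719))))))) (merge (node 654 (merge (leaf 6 526 527) (node 685 (merge (leaf 5 557 653) (node 686 (merge (leaf 6 558 591) (leaf 5 589 717))))))) (merge (node 655 (merge (node 623 (merge (leaf 4 526 526) (leaf 6 527 591))) (merge (node 654 (merge (leaf 4 558 687) (node 685 (merge (leaf 5 557 653) (node 686 (merge (leaf 6 558 591) (leaf 5 589 717))))))) (node 526 (merge (leaf 4 526 623) (node 654 (merge (leaf 4 558 687) (node 653 (merge (leaf 5 525 621) (leaf 5 557 685)))))))))) (merge (node 654 (merge (leaf 6 526 527) (node 655 (merge (leaf 4 558 687) (node 526 (merge (leaf 4 526 623) (node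 653 (merge (leaf 5 525 621) (leaf 5 557 685))))))))) (node 526 (merge (node 525 (merge (leaf 7 493 493) (node 524 (merge (leaf 0 523 523) (leaf 0 524 527))))) (node 623 (merge (leaf 4 526 655) (node 494 (merge (leaf 4 494 591) (node 621 (merge (leaf 5 493 589) (leaf 5 525 653)))))))))))))) (node 526 (merge (node 561 (merge (leaf 3 525 525) (node 562 (merge (leaf 3 526 527) (leaf 1 558 591))))) (merge (node 622 (merge (node 525 (merge (leaf 7 493 493) (node 524 (merge (leaf 0 523 523) (leaf 0 524 527))))) (node 655 (merge (leaf 4 526 623) (node 654 (merge (leaf 4 558 687) (node 653 (merge (leaf 5 525 621) (leaf 5 557 685))))))))) (merge (node 561 (merge (leaf 3 525 525) (node 591 (merge (leaf 1 558 562) (node 623 (merge (leaf 4 494 494) (leaf 7 526 655))))))) (node 494 (merge (node 463 (merge (leaf 6 462 495) (node 462 (merge (leaf 6 430 431) (node 461 (merge (leaf 7 429 429) (leaf 7 461 493))))))) (merge (node 623 (merge (leaf 4 494 591) (node 495 (merge (leaf 6 462 463) (node 622 (merge (leaf 6 494 527) (leaf 4 526 655))))))) (node 591 (merge (leaf 4 462 462) (node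 561 (merge (leaf 1 558 562) (node 529 (merge (leaf 2 526 530) (node 493 (merge (leaf 7 461 461) (leaf 3 493 527)))))))))))))))))))) (merge (node 526 (merge (node 525 (merge (leaf 3 525 561) (node 524 (merge (leaf 0 523 523) (leaf 0 524 527))))) (merge (node 561 (merge (leaf 3 525 525) (node 594 (merge (leaf 0 558 593) (node 562 (merge (leaf 0 559 595) (node 590 (merge (leaf 1 557 589) (leaf 1 558 591))))))))) (merge (node 590 (merge (node 561 (merge (leaf 1 557 589) (node 594 (merge (leaf 0 558 593) (node 562 (merge (leaf 3 526 527) (leaf 0 559 595))))))) (merge (node 622 (merge (node 655 (merge (leaf 4 526 623) (node 654 (merge (leaf 4 558 687) (node 653 (merge (leaf 5 525 621) (leaf 5 557 685))))))) (merge (node 621 (merge (leaf 5 525 653) (node 494 (merge (leaf 5 493 589) (node 463 (merge (leaf 6 462 495) (node 462 (merge (leaf 6 430 431) (node 461 (merge (leaf 7 429 429) (leaf 7 461 493))))))))))) (node 623 (merge (leaf 4 526 655) (node 494 (merge (leaf 4 494 591) (node 463 (merge (leaf 6 462 495) (node 462 (merge (leaf 6 430 431) (node 461 (merge (leaf 7 429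 429) (leaf 7 461 493)))))))))))))) (node 591 (merge (node 623 (merge (leaf 4 494 494) (leaf 7 526 655))) (merge (node 561 (merge (leaf 1 558 562) (node 593 (merge (leaf 0 558 594) (node 625 (merge (leaf 7 528 657) (node 592 (merge (leaf 0 590 626) (node 622 (merge (leaf 1 589 621) (node 654 (merge (leaf 6 526 527) (leaf 6 558 686))))))))))))) (node 561 (merge (leaf 1 558 562) (node 593 (merge (leaf 0 558 594) (node 625 (merge (leaf 7 528 657) (node 592 (merge (leaf 0 590 626) (node 622 (merge (leaf 1 589 621) (node 654 (merge (leaf 6 526 527) (node 655 (merge (leaf 6 527 623) (leaf 4 558 687))))))))))))))))))))) (node 494 (merge (node 462 (merge (leaf 4 462 591) (node 463 (merge (leaf 6 430 431) (node 590 (merge (leaf 6 462 495) (node 461 (merge (leaf 7 429 429) (leaf 7 461 493))))))))) (merge (node 462 (merge (leaf 4 462 591) (node 527 (merge (leaf 4 430 430) (node 461 (merge (leaf 7 429 429) (node 590 (merge (leaf 7 461 493) (node 622 (merge (leaf 6 494 495) (leaf 6 526 654))))))))))) (merge (node 462 (merge (leaf 4 462 591) (node 527 (merge (leaf 4 430 430) (node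 525 (merge (leaf 0 524 524) (node 463 (merge (leaf 6 430 431) (node 590 (merge (leaf 5 462 495) (node 622 (merge (leaf 7 493 493) (leaf 6 526 654))))))))))))) (merge (node 462 (merge (leaf 4 462 591) (node 430 (merge (leaf 4 430 527) (node 431 (merge (leaf 6 398 399) (leaf 6 430 463))))))) (merge (node 590 (merge (node 463 (merge (leaf 6 462 495) (node 462 (merge (leaf 6 430 431) (node 461 (merge (leaf 7 429 429) (leaf 7 461 493))))))) (merge (node 495 (merge (leaf 6 462 463) (node 622 (merge (leaf 6 494 527) (node 621 (merge (leaf 5 493 589) (leaf 5 525 653))))))) (node 621 (merge (leaf 5 493 589) (node 622 (merge (leaf 5 525 653) (node 493 (merge (leaf 7 461 461) (leaf 7 493 525)))))))))) (merge (node 591 (merge (leaf 4 462 462) (node 623 (merge (leaf 7 494 527) (leaf 4 494 590))))) (merge (node 590 (merge (node 623 (merge (leaf 4 494 591) (node 622 (merge (leaf 4 526 655) (node 493 (merge (leaf 7 461 461) (leaf 7 493 525))))))) (merge (node 495 (merge (leaf 6 462 463) (node 622 (merge (leaf 6 494 527) (node 621 (merge (leaf 5 493 589) (leaf 5 525 653))))))) (node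 589 (merge (leaf 5 493 621) (node 588 (merge (leaf 2 555 587) (leaf 2 556 591)))))))) (node 462 (merge (leaf 4 462 591) (node 527 (merge (leaf 4 430 430) (node 463 (merge (leaf 6 430 431) (node 495 (merge (leaf 4 463 592) (node 492 (merge (leaf 0 492 493) (node 461 (merge (leaf 7 429 429) (node 460 (merge (leaf 0 459 459) (leaf 1 459 491))))))))))))))))))))))))))) (merge (node 526 (merge (node 525 (merge (leaf 3 525 561) (node 524 (merge (leaf 0 523 523) (leaf 0 524 527))))) (merge (node 561 (merge (leaf 3 525 525) (node 593 (merge (leaf 0 558 594) (node 625 (merge (leaf 7 528 657) (node 529 (merge (leaf 2 526 530) (node 624 (merge (leaf 5 528 656) (node 497 (merge (leaf 5 496 592) (node 465 (merge (leaf 5 432 433) (node 466 (merge (leaf 6 433 434) (leaf 6 465 498))))))))))))))))) (merge (node 494 (merge (node 462 (merge (leaf 4 462 591) (node 463 (merge (leaf 6 430 431) (node 590 (merge (leaf 6 462 495) (node 461 (merge (leaf 7 429 429) (leaf 7 461 493))))))))) (merge (node 462 (merge (leaf 4 462 591) (node 527 (merge (leaf 4 430 430) (node 529 (merge (leaf 3 493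 493) (leaf 1 526 530))))))) (merge (node 462 (merge (leaf 4 462 591) (node 527 (merge (leaf 4 430 430) (node 529 (merge (leaf 3 493 493) (leaf 1 526 530))))))) (merge (node 462 (merge (leaf 4 462 591) (node 527 (merge (leaf 4 430 430) (node 461 (merge (leaf 7 429 429) (node 590 (merge (leaf 7 461 493) (node 622 (merge (leaf 6 494 495) (leaf 6 526 654))))))))))) (merge (node 591 (merge (leaf 4 462 462) (node 623 (merge (leaf 7 494 527) (leaf 4 494 590))))) (merge (node 529 (merge (node 530 (merge (leaf 1 526 527) (leaf 1 527 531))) (merge (node 561 (merge (leaf 2 526 530) (node 590 (merge (leaf 1 557 589) (node 463 (merge (leaf 6 462 495) (node 462 (merge (leaf 6 430 431) (node 493 (merge (leaf 7 461 461) (node 465 (merge (leaf 1 461 464) (node 497 (merge (leaf 5 432 433) (leaf 5 464 592))))))))))))))) (node 527 (merge (leaf 3 493 493) (node 462 (merge (leaf 4 430 430) (node 463 (merge (leaf 6 430 431) (node 590 (merge (leaf 5 462 495) (node 621 (merge (leaf 5 493 589) (node 622 (merge (leaf 5 525 653) (leaf 6 526 654)))))))))))))))) (node 529 (merge (node 530 (merge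 (leaf 1 526 527) (leaf 1 527 531))) (merge (node 561 (merge (leaf 2 526 530) (node 593 (merge (leaf 0 558 594) (node 625 (merge (leaf 7 528 657) (node 590 (merge (leaf 1 557 589) (node 591 (merge (leaf 4 494 623) (node 626 (merge (leaf 0 590 592) (leaf 4 529 658))))))))))))) (node 527 (merge (leaf 3 493 493) (node 497 (merge (leaf 2 494 498) (node 592 (merge (leaf 6 496 624) (node 495 (merge (leaf 4 463 463) (node 590 (merge (leaf 6 494 622) (node 591 (merge (leaf 4 494 623) (node 589 (merge (leaf 2 556 588) (leaf 5 493 621))))))))))))))))))))))))) (node 494 (merge (node 462 (merge (leaf 4 462 591) (node 463 (merge (leaf 6 430 431) (node 590 (merge (leaf 6 462 495) (node 461 (merge (leaf 7 429 429) (leaf 7 461 493))))))))) (merge (node 462 (merge (leaf 4 462 591) (node 527 (merge (leaf 4 430 430) (node 461 (merge (leaf 7 429 429) (node 590 (merge (leaf 7 461 493) (node 622 (merge (leaf 6 494 495) (leaf 6 526 654))))))))))) (merge (node 462 (merge (leaf 4 462 591) (node 527 (merge (leaf 4 430 430) (node 525 (merge (leaf 0 524 524) (node 463 (merge (leaf 6 430 431)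 (node 590 (merge (leaf 5 462 495) (node 622 (merge (leaf 7 493 493) (leaf 6 526 654))))))))))))) (merge (node 462 (merge (leaf 4 462 591) (node 430 (merge (leaf 4 430 527) (node 431 (merge (leaf 6 398 399) (leaf 6 430 463))))))) (merge (node 590 (merge (node 463 (merge (leaf 6 462 495) (node 462 (merge (leaf 6 430 431) (node 461 (merge (leaf 7 429 429) (leaf 7 461 493))))))) (merge (node 495 (merge (leaf 6 462 463) (node 622 (merge (leaf 6 494 527) (node 621 (merge (leaf 5 493 589) (leaf 5 525 653))))))) (node 621 (merge (leaf 5 493 589) (node 622 (merge (leaf 5 525 653) (node 493 (merge (leaf 7 461 461) (leaf 7 493 525)))))))))) (merge (node 591 (merge (leaf 4 462 462) (node 623 (merge (leaf 7 494 527) (leaf 4 494 590))))) (merge (node 590 (merge (node 623 (merge (leaf 4 494 591) (node 622 (merge (leaf 4 526 655) (node 493 (merge (leaf 7 461 461) (leaf 7 493 525))))))) (merge (node 495 (merge (leaf 6 462 463) (node 622 (merge (leaf 6 494 527) (node 621 (merge (leaf 5 493 589) (leaf 5 525 653))))))) (node 589 (merge (leaf 5 493 621) (node 588 (merge (leaf 2 555 587)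 (leaf 2 556 591)))))))) (node 462 (merge (leaf 4 462 591) (node 527 (merge (leaf 4 430 430) (node 463 (merge (leaf 6 430 431) (node 495 (merge (leaf 4 463 592) (node 492 (merge (leaf 0 492 493) (node 461 (merge (leaf 7 429 429) (node 460 (merge (leaf 0 459 459) (leaf 1 459 491))))))))))))))))))))))))))) (hyp 0))))))))) nD_32 cD_32 12 (by decide +kernel)
def nD_33 : ℕ := 0x100000001000000000000000000000000000000000000000000000000000000000000000000000000000000000000000000000000000000000000000000000000000000000000
def cD_33 : ℕ := 0x50000000f0000003f000001ff800000ff800001ffe000006fc00000efe00000efc000007fc000007f0000000e000000080000000000000000000000000000000000000000000000000000000000000000000000000000000000000000000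
theorem lD_33 : S nD_33 cD_33 13 := S_of_chk [(nD_27, cD_27, 12), (nD_28, cD_28, 12), (nD_29, cD_29, 12), (nD_32, cD_32, 12)] ⟨lD_27, lD_28, lD_29, lD_32, trivial⟩ (node 558 (merge (node 559 (merge (node 529 (merge (leaf 2 525 557) (node 530 (merge (leaf 1 526 527) (leaf 1 527 531))))) (merge (node 557 (merge (leaf 2 525 529) (node 593 (merge (leaf 0 557 592) (node 561 (merge (leaf 0 558 594) (node 525 (merge (leaf 3 524 524) (leaf 3 525 526))))))))) (merge (node 561 (merge (node 594 (merge (leaf 0 558 593) (node 562 (merge (leaf 0 559 595) (node 590 (merge (leaf 1 557 589) (leaf 1 558 591))))))) (merge (node 594 (merge (leaf 0 558 593) (node 562 (merge (leaf 0 559 595) (node 526 (merge (leaf 3 525 525) (leaf 3 526 527))))))) (node 589 (merge (leaf 1 557 590) (node 557 (merge (leaf 1 556 588) (node 525 (merge (leaf 3 524 524) (leaf 3 525 526)))))))))) (node 561 (merge (node 530 (merge (leaf 2 526 529) (node 562 (merge (leaf 2 527 531) (node 590 (merge (leaf 1 557 589) (leaf 1 558 591))))))) (merge (node 594 (merge (leaf 0 558 593) (node 562 (merge (leaf 0 559 595)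 (node 526 (merge (leaf 3 525 525) (leaf 3 526 527))))))) (node 593 (merge (leaf 0 558 594) (node 625 (merge (leaf 7 528 657) (node 590 (merge (leaf 1 557 589) (node 529 (merge (leaf 2 526 530) (node 526 (merge (leaf 3 525 525) (node 626 (merge (leaf 4 529 658) (node 591 (merge (leaf 0 590 592) (node 623 (merge (leaf 4 494 494) (leaf 7 526 655)))))))))))))))))))))))) (merge (node 559 (merge (node 529 (merge (leaf 2 525 557) (node 530 (merge (leaf 1 526 527) (leaf 1 527 531))))) (merge (node 557 (merge (leaf 2 525 529) (node 588 (merge (leaf 1 556 589) (node 556 (merge (leaf 1 555 587) (node 524 (merge (leaf 3 523 523) (leaf 3 524 525))))))))) (merge (node 557 (merge (node 556 (merge (leaf 2 524 527) (node 588 (merge (leaf 1 555 587) (leaf 1 556 589))))) (node 593 (merge (leaf 0 557 592) (node 561 (merge (leaf 0 558 594) (node 525 (merge (leaf 3 524 524) (leaf 3 525 526))))))))) (node 561 (merge (node 594 (merge (leaf 0 558 593) (node 562 (merge (leaf 0 559 595) (node 530 (merge (leaf 2 526 529) (leaf 2 527 531))))))) (merge (node 594 (merge (leaf 0 558 593) (node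 562 (merge (leaf 0 559 595) (node 526 (merge (leaf 3 525 525) (leaf 3 526 527))))))) (merge (node 530 (merge (leaf 2 526 529) (node 562 (merge (leaf 2 527 531) (node 526 (merge (leaf 3 525 525) (leaf 3 526 527))))))) (node 593 (merge (leaf 0 558 594) (node 625 (merge (leaf 7 528 657) (node 529 (merge (leaf 2 526 530) (node 526 (merge (leaf 3 525 525) (node 624 (merge (leaf 5 528 656) (node 497 (merge (leaf 5 496 592) (node 498 (merge (leaf 6 465 466) (leaf 2 494 527))))))))))))))))))))))) (merge (node 559 (merge (node 557 (merge (leaf 2 525 529) (node 588 (merge (leaf 1 556 589) (node 556 (merge (leaf 1 555 587) (node 524 (merge (leaf 3 523 523) (leaf 3 524 525))))))))) (merge (node 557 (merge (leaf 2 525 529) (node 593 (merge (leaf 0 557 592) (node 561 (merge (leaf 0 558 594) (node 525 (merge (leaf 3 524 524) (leaf 3 525 526))))))))) (merge (node 557 (merge (leaf 2 525 529) (node 593 (merge (leaf 0 557 592) (node 561 (merge (leaf 0 558 594) (node 589 (merge (leaf 1 556 588) (leaf 1 557 590))))))))) (merge (node 593 (merge (node 594 (merge (leaf 0 558 561) (node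 592 (merge (leaf 3 558 591) (leaf 3 559 595))))) (merge (node 557 (merge (leaf 0 557 592) (node 588 (merge (leaf 1 556 589) (node 556 (merge (leaf 1 555 587) (node 524 (merge (leaf 3 523 523) (leaf 3 524 525))))))))) (node 561 (merge (leaf 0 558 594) (node 589 (merge (leaf 1 557 590) (node 557 (merge (leaf 1 556 588) (node 525 (merge (leaf 3 524 524) (leaf 3 525 526)))))))))))) (node 561 (merge (node 530 (merge (leaf 2 526 529) (node 562 (merge (leaf 2 527 531) (node 590 (merge (leaf 1 557 589) (leaf 1 558 591))))))) (merge (node 594 (merge (leaf 0 558 593) (node 562 (merge (leaf 0 559 595) (node 530 (merge (leaf 2 526 529) (leaf 2 527 531))))))) (merge (node 594 (merge (leaf 0 558 593) (node 562 (merge (leaf 0 559 595) (node 590 (merge (leaf 1 557 589) (leaf 1 558 591))))))) (node 593 (merge (leaf 0 558 594) (node 625 (merge (leaf 7 528 657) (node 590 (merge (leaf 1 557 589) (node 529 (merge (leaf 2 526 530) (node 626 (merge (leaf 4 529 658) (node 591 (merge (leaf 0 590 592) (node 624 (merge (leaf 3 590 623) (leaf 5 528 656)))))))))))))))))))))))) (merge (node 559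 (merge (node 529 (merge (leaf 2 525 557) (node 530 (merge (leaf 1 526 527) (leaf 1 527 531))))) (merge (node 557 (merge (leaf 2 525 529) (node 593 (merge (leaf 0 557 592) (node 561 (merge (leaf 0 558 594) (node 589 (merge (leaf 1 556 588) (leaf 1 557 590))))))))) (merge (node 557 (merge (node 556 (merge (leaf 2 524 527) (node 588 (merge (leaf 1 555 587) (leaf 1 556 589))))) (merge (node 593 (merge (leaf 0 557 592) (node 561 (merge (leaf 0 558 594) (node 589 (merge (leaf 1 556 588) (leaf 1 557 590))))))) (merge (node 592 (merge (leaf 0 557 593) (node 556 (merge (leaf 2 524 527) (leaf 0 556 591))))) (node 556 (merge (leaf 2 524 527) (node 591 (merge (leaf 0 556 592) (node 590 (merge (leaf 0 555 555) (node 561 (merge (leaf 1 558 562) (leaf 1 557 589))))))))))))) (node 561 (merge (node 530 (merge (leaf 2 526 529) (node 562 (merge (leaf 2 527 531) (node 590 (merge (leaf 1 557 589) (leaf 1 558 591))))))) (merge (node 594 (merge (leaf 0 558 593) (node 562 (merge (leaf 0 559 595) (node 530 (merge (leaf 2 526 529) (leaf 2 527 531))))))) (merge (node 594 (merge (leaf 0 558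 593) (node 562 (merge (leaf 0 559 595) (node 590 (merge (leaf 1 557 589) (leaf 1 558 591))))))) (node 593 (merge (leaf 0 558 594) (node 625 (merge (leaf 7 528 657) (node 590 (merge (leaf 1 557 589) (node 529 (merge (leaf 2 526 530) (node 626 (merge (leaf 4 529 658) (node 592 (merge (leaf 0 590 591) (node 624 (merge (leaf 5 496 497) (leaf 5 528 656))))))))))))))))))))))) (merge (node 559 (merge (node 557 (merge (leaf 2 525 529) (node 556 (merge (leaf 2 524 527) (node 588 (merge (leaf 1 555 587) (leaf 1 556 589))))))) (merge (node 557 (merge (leaf 2 525 529) (node 588 (merge (leaf 1 556 589) (node 556 (merge (leaf 1 555 587) (node 524 (merge (leaf 3 523 523) (leaf 3 524 525))))))))) (merge (node 557 (merge (node 556 (merge (leaf 2 524 527) (node 588 (merge (leaf 1 555 587) (leaf 1 556 589))))) (node 593 (merge (leaf 0 557 592) (node 561 (merge (leaf 0 558 594) (node 525 (merge (leaf 3 524 524) (leaf 3 525 526))))))))) (node 561 (merge (node 594 (merge (leaf 0 558 593) (node 562 (merge (leaf 0 559 595) (node 530 (merge (leaf 2 526 529) (leaf 2 527 531))))))) (merge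 (node 594 (merge (leaf 0 558 593) (node 562 (merge (leaf 0 559 595) (node 526 (merge (leaf 3 525 525) (leaf 3 526 527))))))) (merge (node 530 (merge (leaf 2 526 529) (node 562 (merge (leaf 2 527 531) (node 526 (merge (leaf 3 525 525) (leaf 3 526 527))))))) (node 593 (merge (leaf 0 558 594) (node 625 (merge (leaf 7 528 657) (node 529 (merge (leaf 2 526 530) (node 526 (merge (leaf 3 525 525) (node 624 (merge (leaf 5 528 656) (node 592 (merge (leaf 5 496 497) (node 623 (merge (leaf 5 527 655) (node 527 (merge (leaf 7 495 495) (node 494 (merge (leaf 3 493 493) (leaf 7 494 591))))))))))))))))))))))))))) (merge (node 559 (merge (node 529 (merge (leaf 2 525 557) (node 530 (merge (leaf 1 526 527) (leaf 1 527 531))))) (merge (node 557 (merge (leaf 2 525 529) (node 588 (merge (leaf 1 556 589) (node 556 (merge (leaf 1 555 587) (node 524 (merge (leaf 3 523 523) (leaf 3 524 525))))))))) (merge (node 561 (merge (node 594 (merge (leaf 0 558 593) (node 562 (merge (leaf 0 559 595) (node 590 (merge (leaf 1 557 589) (leaf 1 558 591))))))) (merge (node 594 (merge (leaf 0 558 593) (node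 562 (merge (leaf 0 559 595) (node 526 (merge (leaf 3 525 525) (leaf 3 526 527))))))) (node 589 (merge (leaf 1 557 590) (node 557 (merge (leaf 1 556 588) (node 525 (merge (leaf 3 524 524) (leaf 3 525 526)))))))))) (node 561 (merge (node 530 (merge (leaf 2 526 529) (node 562 (merge (leaf 2 527 531) (node 590 (merge (leaf 1 557 589) (leaf 1 558 591))))))) (merge (node 594 (merge (leaf 0 558 593) (node 562 (merge (leaf 0 559 595) (node 526 (merge (leaf 3 525 525) (leaf 3 526 527))))))) (node 593 (merge (leaf 0 558 594) (node 625 (merge (leaf 7 528 657) (node 590 (merge (leaf 1 557 589) (node 529 (merge (leaf 2 526 530) (node 526 (merge (leaf 3 525 525) (node 626 (merge (leaf 4 529 658) (node 624 (merge (leaf 5 528 656) (node 623 (merge (leaf 3 590 591) (node 655 (merge (leaf 4 526 622) (leaf 1 622 654)))))))))))))))))))))))))) (merge (node 559 (merge (node 529 (merge (leaf 2 525 557) (node 530 (merge (leaf 1 526 527) (leaf 1 527 531))))) (merge (node 557 (merge (leaf 2 525 529) (node 588 (merge (leaf 1 556 589) (node 556 (merge (leaf 1 555 587) (node 524 (merge (leaf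 3 523 523) (leaf 3 524 525))))))))) (merge (node 527 (merge (node 557 (merge (leaf 2 524 556) (node 525 (merge (leaf 3 524 524) (node 526 (merge (leaf 0 525 561) (node 493 (merge (leaf 3 492 492) (node 590 (merge (leaf 4 461 461) (leaf 7 493 622))))))))))) (merge (node 557 (merge (leaf 2 524 556) (node 589 (merge (leaf 1 556 588) (node 590 (merge (leaf 1 557 561) (node 525 (merge (leaf 3 524 524) (node 622 (merge (leaf 4 493 493) (leaf 7 525 654))))))))))) (merge (node 557 (merge (leaf 2 524 556) (node 589 (merge (leaf 1 556 588) (node 525 (merge (leaf 3 524 524) (node 526 (merge (leaf 0 525 561) (node 621 (merge (leaf 6 493 494) (leaf 6 525 653))))))))))) (merge (node 561 (merge (node 526 (merge (leaf 0 525 525) (leaf 3 526 562))) (merge (node 526 (merge (leaf 0 525 525) (node 590 (merge (leaf 1 557 589) (node 622 (merge (leaf 6 494 495) (leaf 6 526 654))))))) (node 590 (merge (leaf 1 557 589) (node 591 (merge (leaf 1 558 562) (node 495 (merge (leaf 5 462 463) (leaf 5 494 622)))))))))) (merge (node 557 (merge (leaf 2 524 556) (node 589 (merge (leaf 1 556 588) (node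 590 (merge (leaf 1 557 561) (node 622 (merge (leaf 6 526 654) (node 495 (merge (leaf 6 494 526) (leaf 5 494 591))))))))))) (node 590 (merge (node 622 (merge (leaf 6 526 654) (node 526 (merge (leaf 6 494 495) (node 525 (merge (leaf 7 493 493) (leaf 0 524 524))))))) (merge (node 622 (merge (leaf 6 526 654) (node 495 (merge (leaf 6 494 526) (leaf 5 494 591))))) (merge (node 557 (merge (leaf 2 524 556) (node 525 (merge (leaf 3 524 524) (node 493 (merge (leaf 4 461 461) (node 492 (merge (leaf 3 492 526) (node 495 (merge (leaf 5 462 463) (leaf 0 492 494))))))))))) (merge (node 557 (merge (leaf 2 524 556) (node 589 (merge (leaf 1 556 588) (node 525 (merge (leaf 3 524 524) (node 622 (merge (leaf 4 493 493) (leaf 7 525 654))))))))) (node 557 (merge (leaf 2 524 556) (node 589 (merge (leaf 1 556 588) (node 525 (merge (leaf 3 524 524) (node 622 (merge (leaf 4 493 493) (leaf 7 525 654)))))))))))))))))))) (node 590 (merge (node 589 (merge (leaf 1 557 561) (node 588 (merge (leaf 2 555 587) (leaf 2 556 591))))) (merge (node 561 (merge (leaf 1 557 589) (node 526 (merge (leaf 3 525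 525) (node 527 (merge (leaf 3 526 562) (node 622 (merge (leaf 6 494 495) (leaf 6 526 654))))))))) (merge (node 622 (merge (node 654 (merge (leaf 6 526 527) (node 687 (merge (leaf 4 558 655) (node 686 (merge (leaf 6 558 591) (leaf 4 590 719))))))) (merge (node 654 (merge (leaf 6 526 527) (node 685 (merge (leaf 5 557 653) (node 686 (merge (leaf 6 558 591) (leaf 5 589 717))))))) (merge (node 655 (merge (node 623 (merge (leaf 4 526 526) (leaf 6 527 591))) (merge (node 654 (merge (leaf 4 558 687) (node 685 (merge (leaf 5 557 653) (node 686 (merge (leaf 6 558 591) (leaf 5 589 717))))))) (node 526 (merge (leaf 4 526 623) (node 654 (merge (leaf 4 558 687) (node 653 (merge (leaf 5 525 621) (leaf 5 557 685)))))))))) (merge (node 654 (merge (leaf 6 526 527) (node 655 (merge (leaf 4 558 687) (node 526 (merge (leaf 4 526 623) (node 653 (merge (leaf 5 525 621) (leaf 5 557 685))))))))) (node 526 (merge (node 525 (merge (leaf 7 493 493) (node 524 (merge (leaf 0 523 523) (leaf 0 524 527))))) (node 623 (merge (leaf 4 526 655) (node 494 (merge (leaf 4 494 591) (node 621 (merge (leaf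 5 493 589) (leaf 5 525 653)))))))))))))) (node 526 (merge (node 561 (merge (leaf 3 525 525) (node 562 (merge (leaf 3 526 527) (leaf 1 558 591))))) (merge (node 622 (merge (node 525 (merge (leaf 7 493 493) (node 524 (merge (leaf 0 523 523) (leaf 0 524 527))))) (node 655 (merge (leaf 4 526 623) (node 654 (merge (leaf 4 558 687) (node 653 (merge (leaf 5 525 621) (leaf 5 557 685))))))))) (merge (node 561 (merge (leaf 3 525 525) (node 591 (merge (leaf 1 558 562) (node 623 (merge (leaf 4 494 494) (leaf 7 526 655))))))) (node 494 (merge (node 463 (merge (leaf 6 462 495) (node 462 (merge (leaf 6 430 431) (node 461 (merge (leaf 7 429 429) (leaf 7 461 493))))))) (merge (node 623 (merge (leaf 4 494 591) (node 495 (merge (leaf 6 462 463) (node 622 (merge (leaf 6 494 527) (leaf 4 526 655))))))) (node 591 (merge (leaf 4 462 462) (node 561 (merge (leaf 1 558 562) (node 529 (merge (leaf 2 526 530) (node 493 (merge (leaf 7 461 461) (leaf 3 493 527)))))))))))))))))))))))) (merge (node 559 (merge (node 529 (merge (leaf 2 525 557) (node 530 (merge (leaf 1 526 527) (leaf 1 527 531)))))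 (merge (node 557 (merge (leaf 2 525 529) (node 593 (merge (leaf 0 557 592) (node 561 (merge (leaf 0 558 594) (node 525 (merge (leaf 3 524 524) (leaf 3 525 526))))))))) (merge (node 561 (merge (node 594 (merge (leaf 0 558 593) (node 562 (merge (leaf 0 559 595) (node 530 (merge (leaf 2 526 529) (leaf 2 527 531))))))) (merge (node 594 (merge (leaf 0 558 593) (node 562 (merge (leaf 0 559 595) (node 526 (merge (leaf 3 525 525) (leaf 3 526 527))))))) (merge (node 530 (merge (leaf 2 526 529) (node 562 (merge (leaf 2 527 531) (node 526 (merge (leaf 3 525 525) (leaf 3 526 527))))))) (node 593 (merge (leaf 0 558 594) (node 625 (merge (leaf 7 528 657) (node 529 (merge (leaf 2 526 530) (node 526 (merge (leaf 3 525 525) (node 624 (merge (leaf 5 528 656) (node 592 (merge (leaf 5 496 497) (node 623 (merge (leaf 5 527 655) (node 527 (merge (leaf 7 495 495) (node 494 (merge (leaf 3 493 493) (leaf 7 494 591))))))))))))))))))))))) (node 527 (merge (node 557 (merge (leaf 2 524 556) (node 593 (merge (leaf 0 557 592) (node 561 (merge (leaf 0 558 594) (node 525 (merge (leaf 3 524 524)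 (leaf 0 525 526))))))))) (merge (node 557 (merge (leaf 2 524 556) (node 525 (merge (leaf 3 524 524) (node 526 (merge (leaf 0 525 561) (node 493 (merge (leaf 3 492 492) (node 590 (merge (leaf 4 461 461) (leaf 7 493 622))))))))))) (merge (node 495 (merge (node 463 (merge (leaf 4 431 431) (leaf 4 463 592))) (merge (node 592 (merge (leaf 7 495 624) (node 593 (merge (leaf 0 557 557) (node 594 (merge (leaf 3 558 591) (leaf 3 559 595))))))) (node 463 (merge (leaf 4 431 431) (node 590 (merge (leaf 5 462 558) (node 591 (merge (leaf 5 494 622) (node 462 (merge (leaf 7 430 430) (leaf 7 462 494)))))))))))) (node 526 (merge (node 561 (merge (leaf 0 525 525) (leaf 3 526 562))) (merge (node 525 (merge (leaf 0 524 524) (node 493 (merge (leaf 3 492 492) (node 461 (merge (leaf 4 429 429) (node 590 (merge (leaf 7 461 494) (leaf 7 493 622))))))))) (node 590 (merge (node 622 (merge (leaf 6 494 495) (leaf 6 526 654))) (merge (node 561 (merge (leaf 3 526 562) (node 593 (merge (leaf 0 558 594) (node 625 (merge (leaf 7 528 657) (node 495 (merge (leaf 5 462 463) (node 592 (merge (leaf 7 495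 624) (node 591 (merge (leaf 0 590 626) (node 623 (merge (leaf 4 494 494) (leaf 7 526 655))))))))))))))) (node 622 (merge (leaf 6 526 654) (node 623 (merge (leaf 4 526 655) (node 591 (merge (leaf 4 494 494) (node 621 (merge (leaf 5 525 653) (node 592 (merge (leaf 1 589 593) (leaf 2 588 620))))))))))))))))))))))))) (merge (hyp 0) (merge (node 559 (merge (node 529 (merge (leaf 2 525 557) (node 530 (merge (leaf 1 526 527) (leaf 1 527 531))))) (merge (node 557 (merge (leaf 2 525 529) (node 593 (merge (leaf 0 557 592) (node 561 (merge (leaf 0 558 594) (node 589 (merge (leaf 1 556 588) (leaf 1 557 590))))))))) (merge (node 561 (merge (node 530 (merge (leaf 2 526 529) (node 562 (merge (leaf 2 527 531) (node 590 (merge (leaf 1 557 589) (leaf 1 558 591))))))) (merge (node 590 (merge (leaf 1 557 589) (node 562 (merge (leaf 1 558 591) (node 526 (merge (leaf 3 525 525) (leaf 3 526 527))))))) (merge (node 530 (merge (leaf 2 526 529) (node 562 (merge (leaf 2 527 531) (node 526 (merge (leaf 3 525 525) (leaf 3 526 527))))))) (node 593 (merge (leaf 0 558 594) (node 625 (merge (leaf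 7 528 657) (node 529 (merge (leaf 2 526 530) (node 526 (merge (leaf 3 525 525) (node 624 (merge (leaf 5 528 656) (node 497 (merge (leaf 5 496 592) (node 498 (merge (leaf 6 465 466) (leaf 2 494 527))))))))))))))))))) (node 557 (merge (node 556 (merge (leaf 2 524 527) (node 588 (merge (leaf 1 555 587) (leaf 1 556 589))))) (merge (node 593 (merge (leaf 0 557 592) (node 561 (merge (leaf 0 558 594) (node 589 (merge (leaf 1 556 588) (leaf 1 557 590))))))) (node 556 (merge (leaf 2 524 527) (node 591 (merge (leaf 0 556 592) (node 555 (merge (leaf 0 555 590) (node 586 (merge (leaf 1 554 587) (node 554 (merge (leaf 1 553 585) (node 522 (merge (leaf 3 521 521) (leaf 3 522 523)))))))))))))))))))) (merge (hyp 1) (merge (hyp 2) (hyp 3)))))))))))))) nD_33 cD_33 13 (by decide +kernel)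
def nD_34 : ℕ := 0x1000000000000000000000000000000000000000000000000000000000000000000000000000000000000000000000000000000000000000000000000000000000000
def cD_34 : ℕ := 0x2d0000003f0000003f000001ff800003ffc00001ffe000077fe00007efe0000fffc0000fffc00003ff800000fe000000fe0000002800000000000000000000000000000000000000000000000000000000000000000000000000000000000
theorem lD_34 : S nD_34 cD_34 14 := S_of_chk [(nD_0, cD_0, 12), (nD_1, cD_1, 12), (nD_2, cD_2, 13), (nD_3, cD_3, 13), (nD_4, cD_4, 13), (nD_5, cD_5, 13), (nD_6, cD_6, 12), (nD_7, cD_7, 12), (nD_8, cD_8, 12), (nD_9, cD_9, 11), (nD_10, cD_10, 13), (nD_11, cD_11, 11), (nD_12, cD_12, 12), (nD_14, cD_14, 13), (nD_15, cD_15, 13), (nD_16, cD_16, 11), (nD_17, cD_17, 13), (nD_18, cD_18, 13), (nD_19, cD_19, 12), (nD_23, cD_23, 13), (nD_26, cD_26, 13), (nD_33, cD_33, 13)] ⟨lD_0, lD_1, lD_2, lD_3, lD_4, lD_5, lD_6, lD_7, lD_8, lD_9, lD_10, lD_11, lD_12, lD_14, lD_15, lD_16, lD_17, lD_18, lD_19, lD_23, lD_26, lD_33, trivial⟩ (node 560 (merge (node 592 (merge (node 495 (merge (node 463 (merge (leaf 7 463 496) (node 527 (merge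 (leaf 4 431 431) (leaf 4 463 559))))) (merge (node 527 (merge (leaf 7 495 624) (node 463 (merge (leaf 4 431 431) (leaf 4 463 559))))) (merge (node 624 (merge (leaf 7 495 527) (node 625 (merge (leaf 4 528 657) (node 496 (merge (leaf 4 496 593) (node 497 (merge (leaf 6 464 465) (leaf 6 496 529))))))))) (node 496 (merge (leaf 7 463 463) (node 625 (merge (leaf 4 496 593) (node 497 (merge (leaf 6 464 465) (node 624 (merge (leaf 6 496 529) (leaf 4 528 657))))))))))))) (merge (node 496 (merge (node 593 (merge (leaf 4 496 625) (node 464 (merge (leaf 4 464 561) (node 463 (merge (leaf 7 431 431) (leaf 7 463 495))))))) (merge (node 625 (merge (leaf 4 496 593) (node 624 (merge (leaf 4 528 657) (node 623 (merge (leaf 5 495 591) (leaf 5 527 655))))))) (node 623 (merge (leaf 5 495 591) (node 495 (merge (leaf 7 463 463) (node 624 (merge (leaf 7 495 527) (leaf 5 527 655)))))))))) (merge (node 496 (merge (node 465 (merge (leaf 6 464 497) (node 464 (merge (leaf 6 432 433) (node 591 (merge (leaf 5 463 559) (leaf 5 495 623))))))) (merge (node 623 (merge (leaf 5 495 591) (node 495 (merge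 (leaf 7 463 463) (node 624 (merge (leaf 7 495 527) (leaf 5 527 655))))))) (node 465 (merge (leaf 6 464 497) (node 464 (merge (leaf 6 432 433) (node 463 (merge (leaf 7 431 431) (leaf 7 463 495)))))))))) (merge (node 497 (merge (node 529 (merge (leaf 6 496 624) (node 465 (merge (leaf 5 432 433) (leaf 5 464 561))))) (merge (node 624 (merge (leaf 6 496 529) (node 657 (merge (leaf 4 528 625) (node 656 (merge (leaf 4 560 689) (node 655 (merge (leaf 5 527 623) (leaf 5 559 687))))))))) (node 496 (merge (leaf 6 464 465) (node 593 (merge (leaf 4 496 625) (node 464 (merge (leaf 4 464 561) (node 591 (merge (leaf 5 463 559) (leaf 5 495 623)))))))))))) (merge (node 591 (merge (node 496 (merge (leaf 5 495 623) (node 465 (merge (leaf 6 464 497) (node 464 (merge (leaf 6 432 433) (leaf 5 463 559))))))) (merge (node 496 (merge (leaf 5 495 623) (node 593 (merge (leaf 4 496 625) (node 464 (merge (leaf 4 464 561) (node 463 (merge (leaf 7 431 431) (leaf 7 463 495))))))))) (merge (node 590 (merge (node 561 (merge (leaf 2 557 589) (node 593 (merge (leaf 2 558 562) (node 625 (merge (leaf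 0 590 626) (leaf 7 528 657))))))) (merge (node 589 (merge (leaf 2 557 561) (node 588 (merge (leaf 2 556 559) (node 620 (merge (leaf 1 587 619) (leaf 1 588 621))))))) (merge (node 593 (merge (node 626 (merge (leaf 0 590 625) (node 594 (merge (leaf 0 591 627) (node 622 (merge (leaf 1 589 621) (leaf 1 590 623))))))) (merge (node 621 (merge (leaf 1 589 622) (node 589 (merge (leaf 1 588 620) (node 557 (merge (leaf 3 556 556) (leaf 3 557 558))))))) (node 626 (merge (leaf 0 590 625) (node 594 (merge (leaf 0 591 627) (node 558 (merge (leaf 3 557 557) (leaf 3 558 559)))))))))) (node 593 (merge (node 626 (merge (leaf 0 590 625) (node 594 (merge (leaf 0 591 627) (node 622 (merge (leaf 1 589 621) (leaf 1 590 623))))))) (merge (node 626 (merge (leaf 0 590 625) (node 594 (merge (leaf 0 591 627) (node 558 (merge (leaf 3 557 557) (leaf 3 558 559))))))) (merge (node 622 (merge (leaf 1 589 621) (node 594 (merge (leaf 1 590 623) (node 558 (merge (leaf 3 557 557) (leaf 3 558 559))))))) (node 625 (merge (leaf 0 590 626) (node 657 (merge (leaf 7 528 561) (leaf 7 560 689))))))))))))) (node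 593 (merge (node 496 (merge (leaf 4 496 625) (node 465 (merge (leaf 6 464 497) (node 464 (merge (leaf 6 432 433) (node 463 (merge (leaf 7 431 431) (leaf 7 463 495))))))))) (merge (node 590 (merge (node 561 (merge (leaf 2 558 562) (leaf 2 557 589))) (node 626 (merge (leaf 0 590 625) (node 594 (merge (leaf 0 591 627) (node 558 (merge (leaf 3 557 557) (leaf 3 558 559))))))))) (node 558 (merge (node 559 (merge (leaf 0 557 557) (leaf 3 558 594))) (merge (node 590 (merge (leaf 3 557 557) (node 561 (merge (leaf 2 558 562) (leaf 2 557 589))))) (node 594 (merge (leaf 3 558 559) (node 627 (merge (leaf 0 591 626) (node 595 (merge (leaf 0 592 628) (node 561 (merge (leaf 3 560 596) (node 590 (merge (leaf 2 558 562) (leaf 2 557 589))))))))))))))))))))) (hyp 0))))))) (merge (hyp 1) (merge (hyp 2) (merge (hyp 3) (merge (hyp 4) (merge (hyp 5) (merge (hyp 6) (merge (hyp 7) (merge (node 592 (merge (node 495 (merge (node 463 (merge (leaf 7 463 496) (node 527 (merge (leaf 4 431 431) (leaf 4 463 559))))) (merge (node 527 (merge (leaf 7 495 624) (node 463 (merge (leaf 4 431 431) (leaf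 4 463 559))))) (merge (node 624 (merge (leaf 7 495 527) (node 625 (merge (leaf 4 528 657) (node 496 (merge (leaf 4 496 593) (node 497 (merge (leaf 6 464 465) (leaf 6 496 529))))))))) (node 496 (merge (leaf 7 463 463) (node 625 (merge (leaf 4 496 593) (node 497 (merge (leaf 6 464 465) (node 624 (merge (leaf 6 496 529) (leaf 4 528 657))))))))))))) (merge (node 496 (merge (node 593 (merge (leaf 4 496 625) (node 464 (merge (leaf 4 464 561) (node 463 (merge (leaf 7 431 431) (leaf 7 463 495))))))) (merge (node 625 (merge (leaf 4 496 593) (node 497 (merge (leaf 6 464 465) (node 624 (merge (leaf 6 496 529) (leaf 4 528 657))))))) (node 465 (merge (leaf 6 464 497) (node 464 (merge (leaf 6 432 433) (node 463 (merge (leaf 7 431 431) (leaf 7 463 495)))))))))) (merge (node 496 (merge (node 625 (merge (leaf 4 496 593) (node 624 (merge (leaf 4 528 657) (node 495 (merge (leaf 7 463 463) (leaf 7 495 527))))))) (merge (node 463 (merge (leaf 7 463 495) (node 464 (merge (leaf 7 431 431) (node 433 (merge (leaf 6 432 465) (node 432 (merge (leaf 6 400 401) (node 559 (merge (leaf 5 431 527)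 (leaf 5 463 591))))))))))) (merge (node 593 (merge (leaf 4 496 625) (node 464 (merge (leaf 4 464 561) (node 433 (merge (leaf 6 432 465) (node 432 (merge (leaf 6 400 401) (node 431 (merge (leaf 7 399 399) (leaf 7 431 463))))))))))) (node 593 (merge (leaf 4 496 625) (node 464 (merge (leaf 4 464 561) (node 433 (merge (leaf 6 432 465) (node 432 (merge (leaf 6 400 401) (node 527 (merge (leaf 5 431 559) (node 495 (merge (leaf 5 399 400) (leaf 7 495 624))))))))))))))))) (merge (node 496 (merge (node 593 (merge (leaf 4 496 625) (node 464 (merge (leaf 4 464 561) (node 463 (merge (leaf 7 431 431) (leaf 7 463 495))))))) (merge (node 625 (merge (leaf 4 496 593) (node 624 (merge (leaf 4 528 657) (node 495 (merge (leaf 7 463 463) (leaf 7 495 527))))))) (merge (node 593 (merge (leaf 4 496 625) (node 464 (merge (leaf 4 464 561) (node 559 (merge (leaf 5 463 591) (node 432 (merge (leaf 5 431 527) (node 401 (merge (leaf 6 400 433) (node 400 (merge (leaf 6 368 369) (node 399 (merge (leaf 7 367 367) (leaf 7 399 431))))))))))))))) (node 495 (merge (leaf 7 463 463) (node 624 (merge (leaf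 7 495 527) (node 529 (merge (leaf 6 496 497) (node 656 (merge (leaf 6 528 561) (node 689 (merge (leaf 4 560 657) (node 688 (merge (leaf 4 592 721) (node 687 (merge (leaf 5 559 655) (leaf 5 591 719))))))))))))))))))) (merge (node 497 (merge (node 465 (merge (leaf 6 464 496) (node 529 (merge (leaf 5 432 433) (leaf 5 464 561))))) (merge (node 496 (merge (leaf 6 464 465) (node 495 (merge (leaf 7 463 463) (node 527 (merge (leaf 7 495 624) (node 526 (merge (leaf 1 494 498) (leaf 2 493 525))))))))) (node 624 (merge (leaf 6 496 529) (node 527 (merge (leaf 7 495 495) (node 656 (merge (leaf 7 527 559) (node 689 (merge (leaf 4 560 657) (node 688 (merge (leaf 4 592 721) (node 687 (merge (leaf 5 559 655) (leaf 5 591 719)))))))))))))))) (merge (node 497 (merge (node 465 (merge (leaf 6 464 496) (node 529 (merge (leaf 5 432 433) (leaf 5 464 561))))) (merge (node 496 (merge (leaf 6 464 465) (node 495 (merge (leaf 7 463 463) (node 527 (merge (leaf 7 495 624) (node 526 (merge (leaf 1 494 498) (leaf 2 493 525))))))))) (node 624 (merge (leaf 6 496 529) (node 527 (merge (leaf 7 495 495)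 (node 656 (merge (leaf 7 527 559) (node 687 (merge (leaf 5 559 655) (node 688 (merge (leaf 5 591 719) (node 721 (merge (leaf 4 592 689) (node 720 (merge (leaf 4 624 753) (node 593 (merge (leaf 6 560 561) (leaf 6 592 625)))))))))))))))))))) (merge (node 497 (merge (node 529 (merge (leaf 6 496 624) (node 465 (merge (leaf 5 432 433) (leaf 5 464 561))))) (merge (node 496 (merge (leaf 6 464 465) (node 625 (merge (leaf 4 496 593) (node 624 (merge (leaf 6 496 529) (leaf 4 528 657))))))) (merge (node 496 (merge (leaf 6 464 465) (node 593 (merge (leaf 4 496 625) (node 464 (merge (leaf 4 464 561) (node 559 (merge (leaf 5 463 591) (node 432 (merge (leaf 5 431 527) (node 401 (merge (leaf 6 400 433) (node 400 (merge (leaf 6 368 369) (node 399 (merge (leaf 7 367 367) (leaf 7 399 431))))))))))))))))) (node 624 (merge (leaf 6 496 529) (node 657 (merge (leaf 4 528 625) (node 656 (merge (leaf 4 560 689) (node 559 (merge (leaf 7 527 527) (node 688 (merge (leaf 7 559 591) (node 687 (merge (leaf 5 559 655) (leaf 5 591 719))))))))))))))))) (merge (node 527 (merge (node 624 (merge (leaf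 7 495 495) (node 656 (merge (leaf 7 527 559) (node 657 (merge (leaf 4 528 625) (leaf 4 560 689))))))) (merge (node 624 (merge (leaf 7 495 495) (node 657 (merge (leaf 4 528 625) (node 529 (merge (leaf 6 496 497) (node 656 (merge (leaf 6 528 561) (leaf 4 560 689))))))))) (merge (node 529 (merge (node 497 (merge (leaf 6 496 624) (node 465 (merge (leaf 5 432 433) (leaf 5 464 561))))) (merge (node 624 (merge (leaf 6 496 497) (node 656 (merge (leaf 7 527 559) (node 657 (merge (leaf 4 528 625) (leaf 4 560 689))))))) (node 558 (merge (node 559 (merge (leaf 1 526 530) (leaf 2 525 557))) (merge (node 526 (merge (leaf 1 525 557) (node 561 (merge (leaf 0 525 525) (leaf 0 526 562))))) (node 530 (merge (leaf 1 526 559) (node 499 (merge (leaf 2 495 498) (node 531 (merge (leaf 2 496 500) (node 561 (merge (leaf 1 528 532) (node 526 (merge (leaf 0 525 525) (leaf 0 526 562))))))))))))))))) (node 526 (merge (node 561 (merge (leaf 0 525 525) (node 529 (merge (leaf 0 526 562) (node 497 (merge (leaf 5 464 465) (leaf 2 494 498))))))) (merge (node 525 (merge (leaf 0 525 561) (node 524 (merge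 (leaf 0 524 559) (node 492 (merge (leaf 3 491 491) (leaf 3 492 493))))))) (merge (node 529 (merge (node 497 (merge (leaf 2 494 498) (node 465 (merge (leaf 5 432 433) (leaf 5 464 561))))) (node 494 (merge (leaf 3 493 493) (node 530 (merge (leaf 3 494 495) (node 559 (merge (leaf 1 527 531) (leaf 1 526 558))))))))) (node 529 (merge (node 498 (merge (leaf 2 494 497) (node 530 (merge (leaf 2 495 499) (node 494 (merge (leaf 3 493 493) (leaf 3 494 495))))))) (merge (node 557 (merge (leaf 1 525 558) (node 525 (merge (leaf 1 524 556) (node 524 (merge (leaf 0 524 559) (node 492 (merge (leaf 3 491 491) (leaf 3 492 493))))))))) (node 557 (merge (leaf 1 525 558) (node 525 (merge (leaf 1 524 556) (node 559 (merge (leaf 0 524 524) (node 530 (merge (leaf 1 527 531) (node 495 (merge (leaf 4 463 463) (leaf 3 494 494)))))))))))))))))))))) (hyp 8)))))))))) (merge (hyp 9) (merge (hyp 10) (merge (node 592 (merge (node 496 (merge (node 465 (merge (leaf 6 464 497) (node 464 (merge (leaf 6 432 433) (node 591 (merge (leaf 5 463 559) (leaf 5 495 623))))))) (merge (node 623 (merge (leaf 5 495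 591) (node 495 (merge (leaf 7 463 463) (node 624 (merge (leaf 7 495 527) (leaf 5 527 655))))))) (node 465 (merge (leaf 6 464 497) (node 464 (merge (leaf 6 432 433) (node 463 (merge (leaf 7 431 431) (leaf 7 463 495)))))))))) (merge (node 496 (merge (node 625 (merge (leaf 4 496 593) (node 624 (merge (leaf 4 528 657) (node 623 (merge (leaf 5 495 591) (leaf 5 527 655))))))) (node 465 (merge (leaf 6 464 497) (node 464 (merge (leaf 6 432 433) (node 463 (merge (leaf 7 431 431) (leaf 7 463 495))))))))) (merge (node 496 (merge (node 465 (merge (leaf 6 464 497) (node 464 (merge (leaf 6 432 433) (node 463 (merge (leaf 7 431 431) (leaf 7 463 495))))))) (merge (node 625 (merge (leaf 4 496 593) (node 624 (merge (leaf 4 528 657) (node 495 (merge (leaf 7 463 463) (leaf 7 495 527))))))) (merge (node 593 (merge (leaf 4 496 625) (node 464 (merge (leaf 4 464 561) (node 433 (merge (leaf 6 432 465) (node 432 (merge (leaf 6 400 401) (node 431 (merge (leaf 7 399 399) (leaf 7 431 463))))))))))) (node 593 (merge (leaf 4 496 625) (node 464 (merge (leaf 4 464 561) (node 433 (merge (leaf 6 432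 465) (node 432 (merge (leaf 6 400 401) (node 527 (merge (leaf 5 431 559) (node 495 (merge (leaf 5 399 400) (leaf 7 495 624))))))))))))))))) (merge (node 623 (merge (node 655 (merge (leaf 5 527 624) (node 591 (merge (leaf 6 527 559) (leaf 6 559 687))))) (merge (node 624 (merge (leaf 5 527 655) (node 625 (merge (leaf 4 528 657) (node 593 (merge (leaf 4 496 496) (node 622 (merge (leaf 2 590 594) (leaf 2 589 621))))))))) (node 496 (merge (leaf 5 495 591) (node 593 (merge (leaf 4 496 625) (node 464 (merge (leaf 4 464 561) (node 433 (merge (leaf 6 432 465) (node 432 (merge (leaf 6 400 401) (node 431 (merge (leaf 7 399 399) (leaf 7 431 463)))))))))))))))) (merge (node 591 (merge (node 496 (merge (leaf 5 495 623) (node 465 (merge (leaf 6 464 497) (node 464 (merge (leaf 6 432 433) (leaf 5 463 559))))))) (merge (node 496 (merge (leaf 5 495 623) (node 593 (merge (leaf 4 496 625) (node 464 (merge (leaf 4 464 561) (node 463 (merge (leaf 7 431 431) (leaf 7 463 495))))))))) (merge (node 590 (merge (node 561 (merge (leaf 2 557 589) (node 593 (merge (leaf 2 558 562) (node 625 (merge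 (leaf 0 590 626) (leaf 7 528 657))))))) (merge (node 589 (merge (leaf 2 557 561) (node 588 (merge (leaf 2 556 559) (node 620 (merge (leaf 1 587 619) (leaf 1 588 621))))))) (merge (node 593 (merge (node 626 (merge (leaf 0 590 625) (node 594 (merge (leaf 0 591 627) (node 622 (merge (leaf 1 589 621) (leaf 1 590 623))))))) (merge (node 621 (merge (leaf 1 589 622) (node 589 (merge (leaf 1 588 620) (node 557 (merge (leaf 3 556 556) (leaf 3 557 558))))))) (node 626 (merge (leaf 0 590 625) (node 594 (merge (leaf 0 591 627) (node 558 (merge (leaf 3 557 557) (leaf 3 558 559)))))))))) (node 593 (merge (node 626 (merge (leaf 0 590 625) (node 594 (merge (leaf 0 591 627) (node 622 (merge (leaf 1 589 621) (leaf 1 590 623))))))) (merge (node 626 (merge (leaf 0 590 625) (node 594 (merge (leaf 0 591 627) (node 558 (merge (leaf 3 557 557) (leaf 3 558 559))))))) (merge (node 622 (merge (leaf 1 589 621) (node 594 (merge (leaf 1 590 623) (node 558 (merge (leaf 3 557 557) (leaf 3 558 559))))))) (node 625 (merge (leaf 0 590 626) (node 657 (merge (leaf 7 528 561) (leaf 7 560 689)))))))))))))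 (node 593 (merge (node 496 (merge (leaf 4 496 625) (node 465 (merge (leaf 6 464 497) (node 464 (merge (leaf 6 432 433) (node 463 (merge (leaf 7 431 431) (leaf 7 463 495))))))))) (merge (node 590 (merge (node 561 (merge (leaf 2 558 562) (leaf 2 557 589))) (node 626 (merge (leaf 0 590 625) (node 594 (merge (leaf 0 591 627) (node 558 (merge (leaf 3 557 557) (leaf 3 558 559))))))))) (node 558 (merge (node 559 (merge (leaf 0 557 557) (leaf 3 558 594))) (merge (node 590 (merge (leaf 3 557 557) (node 561 (merge (leaf 2 558 562) (leaf 2 557 589))))) (node 594 (merge (leaf 3 558 559) (node 627 (merge (leaf 0 591 626) (node 595 (merge (leaf 0 592 628) (node 561 (merge (leaf 3 560 596) (node 590 (merge (leaf 2 558 562) (leaf 2 557 589))))))))))))))))))))) (hyp 11))))))) (merge (node 496 (merge (node 592 (merge (node 593 (merge (leaf 4 496 625) (node 464 (merge (leaf 4 464 561) (node 463 (merge (leaf 7 431 431) (leaf 7 463 495))))))) (merge (node 625 (merge (leaf 4 496 593) (node 624 (merge (leaf 4 528 657) (node 623 (merge (leaf 5 495 591) (leaf 5 527 655))))))) (node 623 (merge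 (leaf 5 495 591) (node 495 (merge (leaf 7 463 463) (node 624 (merge (leaf 7 495 527) (leaf 5 527 655)))))))))) (merge (node 592 (merge (node 625 (merge (leaf 4 496 593) (node 624 (merge (leaf 4 528 657) (node 623 (merge (leaf 5 495 591) (leaf 5 527 655))))))) (merge (node 625 (merge (leaf 4 496 593) (node 497 (merge (leaf 6 464 465) (node 624 (merge (leaf 6 496 529) (leaf 4 528 657))))))) (merge (node 497 (merge (leaf 6 464 465) (node 624 (merge (leaf 6 496 529) (node 623 (merge (leaf 5 495 591) (leaf 5 527 655))))))) (node 593 (merge (leaf 4 496 625) (node 561 (merge (leaf 4 464 464) (node 591 (merge (leaf 5 495 623) (node 590 (merge (leaf 2 558 562) (leaf 2 557 589))))))))))))) (merge (node 465 (merge (node 433 (merge (leaf 6 432 464) (node 497 (merge (leaf 5 400 401) (leaf 5 432 529))))) (merge (node 464 (merge (leaf 6 432 433) (node 463 (merge (leaf 7 431 431) (node 495 (merge (leaf 7 463 592) (node 494 (merge (leaf 1 462 466) (leaf 2 461 493))))))))) (node 592 (merge (leaf 6 464 497) (node 623 (merge (leaf 5 495 591) (node 495 (merge (leaf 7 463 463) (node 624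 (merge (leaf 7 495 527) (leaf 5 527 655)))))))))))) (merge (node 495 (merge (node 592 (merge (leaf 7 463 463) (node 625 (merge (leaf 4 496 593) (node 624 (merge (leaf 4 528 657) (node 623 (merge (leaf 5 495 591) (leaf 5 527 655))))))))) (merge (node 497 (merge (node 592 (merge (leaf 6 464 465) (node 625 (merge (leaf 4 496 593) (node 624 (merge (leaf 7 495 527) (leaf 4 528 657))))))) (merge (node 526 (merge (node 527 (merge (leaf 1 494 498) (leaf 2 493 525))) (merge (node 494 (merge (leaf 1 493 525) (node 529 (merge (leaf 0 493 493) (leaf 0 494 530))))) (node 498 (merge (leaf 1 494 527) (node 530 (merge (leaf 0 495 531) (node 529 (merge (leaf 0 494 494) (node 466 (merge (leaf 2 463 467) (node 561 (merge (leaf 5 433 434) (leaf 6 465 593)))))))))))))) (node 530 (merge (node 531 (merge (leaf 0 495 498) (leaf 3 495 529))) (merge (node 498 (merge (leaf 0 495 531) (node 466 (merge (leaf 2 463 467) (node 465 (merge (leaf 2 462 494) (node 562 (merge (leaf 7 433 433) (leaf 7 465 594))))))))) (node 494 (merge (leaf 0 494 529) (node 525 (merge (leaf 1 493 526) (node 493 (merge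 (leaf 1 492 524) (node 461 (merge (leaf 3 460 460) (leaf 3 461 462))))))))))))))) (node 494 (merge (node 529 (merge (leaf 0 493 493) (node 530 (merge (leaf 3 494 527) (leaf 3 495 531))))) (merge (node 493 (merge (leaf 0 493 529) (node 525 (merge (leaf 1 492 524) (node 497 (merge (leaf 1 493 526) (node 461 (merge (leaf 3 460 460) (leaf 3 461 462))))))))) (merge (node 497 (merge (node 465 (merge (leaf 2 462 466) (node 433 (merge (leaf 5 400 401) (leaf 5 432 529))))) (merge (node 466 (merge (leaf 2 462 465) (node 498 (merge (leaf 2 463 467) (node 462 (merge (leaf 3 461 461) (leaf 3 462 463))))))) (node 462 (merge (leaf 3 461 461) (node 498 (merge (leaf 3 462 463) (node 499 (merge (leaf 1 495 527) (node 532 (merge (leaf 0 496 531) (node 500 (merge (leaf 1 496 529) (leaf 0 497 533)))))))))))))) (node 497 (merge (node 466 (merge (leaf 2 462 465) (node 498 (merge (leaf 2 463 467) (node 462 (merge (leaf 3 461 461) (leaf 3 462 463))))))) (merge (node 525 (merge (leaf 1 493 526) (node 493 (merge (leaf 1 492 524) (node 492 (merge (leaf 0 492 527) (node 460 (merge (leaf 3 459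 459) (leaf 3 460 461))))))))) (merge (node 525 (merge (leaf 1 493 526) (node 493 (merge (leaf 1 492 524) (node 527 (merge (leaf 0 492 492) (node 498 (merge (leaf 1 495 499) (node 463 (merge (leaf 4 431 431) (leaf 3 462 462))))))))))) (node 462 (merge (leaf 3 461 461) (node 498 (merge (leaf 3 462 463) (node 531 (merge (leaf 0 495 530) (node 499 (merge (leaf 1 495 527) (leaf 0 496 532)))))))))))))))))))) (hyp 12)))))) (merge (hyp 13) (merge (hyp 14) (merge (node 592 (merge (node 495 (merge (node 463 (merge (leaf 7 463 496) (node 527 (merge (leaf 4 431 431) (leaf 4 463 559))))) (merge (node 527 (merge (leaf 7 495 624) (node 463 (merge (leaf 4 431 431) (leaf 4 463 559))))) (merge (node 624 (merge (leaf 7 495 527) (node 625 (merge (leaf 4 528 657) (node 496 (merge (leaf 4 496 593) (node 497 (merge (leaf 6 464 465) (leaf 6 496 529))))))))) (node 496 (merge (leaf 7 463 463) (node 625 (merge (leaf 4 496 593) (node 497 (merge (leaf 6 464 465) (node 624 (merge (leaf 6 496 529) (leaf 4 528 657))))))))))))) (merge (node 496 (merge (node 593 (merge (leaf 4 496 625) (node 464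 (merge (leaf 4 464 561) (node 463 (merge (leaf 7 431 431) (leaf 7 463 495))))))) (merge (node 625 (merge (leaf 4 496 593) (node 624 (merge (leaf 4 528 657) (node 623 (merge (leaf 5 495 591) (leaf 5 527 655))))))) (node 623 (merge (leaf 5 495 591) (node 495 (merge (leaf 7 463 463) (node 624 (merge (leaf 7 495 527) (leaf 5 527 655)))))))))) (merge (node 496 (merge (node 465 (merge (leaf 6 464 497) (node 464 (merge (leaf 6 432 433) (node 591 (merge (leaf 5 463 559) (leaf 5 495 623))))))) (merge (node 623 (merge (leaf 5 495 591) (node 495 (merge (leaf 7 463 463) (node 624 (merge (leaf 7 495 527) (leaf 5 527 655))))))) (node 465 (merge (leaf 6 464 497) (node 464 (merge (leaf 6 432 433) (node 463 (merge (leaf 7 431 431) (leaf 7 463 495)))))))))) (merge (node 497 (merge (node 529 (merge (leaf 6 496 624) (node 465 (merge (leaf 5 432 433) (leaf 5 464 561))))) (merge (node 624 (merge (leaf 6 496 529) (node 657 (merge (leaf 4 528 625) (node 656 (merge (leaf 4 560 689) (node 655 (merge (leaf 5 527 623) (leaf 5 559 687))))))))) (node 496 (merge (leaf 6 464 465) (node 593 (merge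 (leaf 4 496 625) (node 464 (merge (leaf 4 464 561) (node 591 (merge (leaf 5 463 559) (leaf 5 495 623)))))))))))) (merge (node 527 (merge (node 624 (merge (leaf 7 495 495) (node 657 (merge (leaf 4 528 625) (node 656 (merge (leaf 4 560 689) (node 655 (merge (leaf 5 527 623) (leaf 5 559 687))))))))) (merge (node 529 (merge (node 497 (merge (leaf 6 496 624) (node 465 (merge (leaf 5 432 433) (leaf 5 464 561))))) (merge (node 624 (merge (leaf 6 496 497) (node 656 (merge (leaf 7 527 559) (node 657 (merge (leaf 4 528 625) (leaf 4 560 689))))))) (merge (node 526 (merge (node 497 (merge (leaf 2 494 498) (node 465 (merge (leaf 5 432 433) (leaf 5 464 561))))) (node 493 (merge (leaf 3 493 494) (node 525 (merge (leaf 3 492 492) (node 524 (merge (leaf 0 524 559) (node 556 (merge (leaf 1 523 555) (leaf 1 524 557))))))))))) (node 526 (merge (node 561 (merge (leaf 0 525 525) (leaf 0 526 562))) (merge (node 493 (merge (leaf 3 493 494) (node 525 (merge (leaf 3 492 492) (node 524 (merge (leaf 0 524 559) (node 556 (merge (leaf 1 523 555) (leaf 1 524 557))))))))) (node 561 (merge (leaf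 0 526 562) (node 494 (merge (leaf 3 493 493) (node 624 (merge (leaf 6 528 656) (node 625 (merge (leaf 4 528 657) (node 623 (merge (leaf 5 527 655) (node 591 (merge (leaf 7 494 559) (node 590 (merge (leaf 0 589 589) (leaf 3 590 626)))))))))))))))))))))) (node 526 (merge (node 561 (merge (leaf 0 525 525) (node 529 (merge (leaf 0 526 562) (node 497 (merge (leaf 5 464 465) (leaf 2 494 498))))))) (merge (node 525 (merge (leaf 0 525 561) (node 524 (merge (leaf 0 524 559) (node 492 (merge (leaf 3 491 491) (leaf 3 492 493))))))) (merge (node 529 (merge (node 497 (merge (leaf 2 494 498) (node 465 (merge (leaf 5 432 433) (leaf 5 464 561))))) (node 495 (merge (node 463 (merge (leaf 4 431 431) (leaf 4 463 559))) (node 494 (merge (leaf 3 494 530) (node 493 (merge (leaf 0 492 492) (leaf 3 493 526))))))))) (node 525 (merge (node 524 (merge (leaf 0 524 559) (node 492 (merge (leaf 3 491 491) (leaf 3 492 493))))) (merge (node 557 (merge (leaf 1 524 556) (node 493 (merge (leaf 3 492 492) (node 494 (merge (leaf 3 493 529) (node 589 (merge (leaf 6 461 462) (leaf 6 493 621))))))))) (merge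 (node 524 (merge (leaf 0 524 559) (node 555 (merge (leaf 1 523 556) (node 523 (merge (leaf 1 522 554) (node 491 (merge (leaf 3 490 490) (leaf 3 491 492))))))))) (node 524 (merge (leaf 0 524 559) (node 555 (merge (leaf 1 523 556) (node 523 (merge (leaf 1 522 554) (node 494 (merge (leaf 2 491 495) (node 493 (merge (leaf 2 490 522) (leaf 3 493 529)))))))))))))))))))))) (node 591 (merge (node 496 (merge (leaf 5 495 623) (node 465 (merge (leaf 6 464 497) (node 464 (merge (leaf 6 432 433) (node 463 (merge (leaf 7 431 431) (leaf 7 463 495))))))))) (merge (node 593 (merge (node 496 (merge (leaf 4 496 625) (node 465 (merge (leaf 6 464 497) (node 464 (merge (leaf 6 432 433) (node 463 (merge (leaf 7 431 431) (leaf 7 463 495))))))))) (merge (node 590 (merge (node 625 (merge (leaf 0 590 626) (node 561 (merge (leaf 2 558 562) (leaf 7 528 657))))) (node 621 (merge (leaf 1 589 622) (node 589 (merge (leaf 1 588 620) (node 588 (merge (leaf 2 556 559) (node 556 (merge (leaf 3 555 555) (leaf 3 556 557))))))))))) (node 590 (merge (node 561 (merge (leaf 2 558 562) (leaf 2 557 589))) (merge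 (node 621 (merge (leaf 1 589 622) (node 589 (merge (leaf 1 588 620) (node 588 (merge (leaf 2 556 559) (node 556 (merge (leaf 3 555 555) (leaf 3 556 557))))))))) (node 622 (merge (leaf 1 589 621) (node 561 (merge (leaf 2 558 562) (node 496 (merge (leaf 4 464 464) (node 497 (merge (leaf 6 464 465) (node 495 (merge (leaf 7 463 463) (node 527 (merge (leaf 5 494 559) (node 526 (merge (leaf 1 494 498) (leaf 0 525 525))))))))))))))))))))) (node 590 (merge (node 561 (merge (leaf 2 557 589) (node 593 (merge (leaf 2 558 562) (node 625 (merge (leaf 0 590 626) (leaf 7 528 657))))))) (merge (node 589 (merge (leaf 2 557 561) (node 588 (merge (leaf 2 556 559) (node 620 (merge (leaf 1 587 619) (leaf 1 588 621))))))) (merge (node 593 (merge (node 625 (merge (leaf 0 590 626) (node 561 (merge (leaf 2 558 562) (leaf 7 528 657))))) (merge (node 622 (merge (leaf 1 589 621) (node 594 (merge (leaf 1 590 623) (node 561 (merge (leaf 2 558 562) (node 595 (merge (leaf 3 559 559) (leaf 3 560 596))))))))) (node 622 (merge (leaf 1 589 621) (node 594 (merge (leaf 1 590 623) (node 627 (merge (leaf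 0 591 626) (node 595 (merge (leaf 3 559 559) (leaf 0 592 628)))))))))))) (node 589 (merge (node 588 (merge (leaf 2 556 559) (node 620 (merge (leaf 1 587 619) (leaf 1 588 621))))) (merge (node 621 (merge (leaf 1 588 620) (node 622 (merge (leaf 1 589 593) (node 557 (merge (leaf 3 556 556) (node 654 (merge (leaf 4 525 525) (leaf 7 557 686))))))))) (merge (node 588 (merge (leaf 2 556 559) (node 619 (merge (leaf 1 587 620) (node 587 (merge (leaf 1 586 618) (node 555 (merge (leaf 3 554 554) (leaf 3 555 556))))))))) (node 588 (merge (leaf 2 556 559) (node 555 (merge (leaf 3 555 556) (node 587 (merge (leaf 3 554 554) (node 622 (merge (leaf 0 587 623) (node 621 (merge (leaf 0 586 586) (leaf 1 589 593)))))))))))))))))))))))))))) (merge (node 496 (merge (node 592 (merge (node 625 (merge (leaf 4 496 593) (node 624 (merge (leaf 4 528 657) (node 623 (merge (leaf 5 495 591) (leaf 5 527 655))))))) (merge (node 625 (merge (leaf 4 496 593) (node 624 (merge (leaf 4 528 657) (node 495 (merge (leaf 7 463 463) (leaf 7 495 527))))))) (merge (node 623 (merge (leaf 5 495 591) (node 495 (merge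 (leaf 7 463 463) (node 624 (merge (leaf 7 495 527) (leaf 5 527 655))))))) (node 593 (merge (leaf 4 496 625) (node 591 (merge (leaf 5 495 623) (node 559 (merge (leaf 5 463 464) (node 594 (merge (leaf 3 558 558) (leaf 3 559 595))))))))))))) (merge (node 592 (merge (node 625 (merge (leaf 4 496 593) (node 624 (merge (leaf 4 528 657) (node 623 (merge (leaf 5 495 591) (leaf 5 527 655))))))) (node 465 (merge (leaf 6 464 497) (node 464 (merge (leaf 6 432 433) (node 463 (merge (leaf 7 431 431) (leaf 7 463 495))))))))) (merge (node 465 (merge (node 433 (merge (leaf 6 432 464) (node 497 (merge (leaf 5 400 401) (leaf 5 432 529))))) (merge (node 464 (merge (leaf 6 432 433) (node 463 (merge (leaf 7 431 431) (node 495 (merge (leaf 7 463 592) (node 494 (merge (leaf 1 462 466) (leaf 2 461 493))))))))) (node 592 (merge (leaf 6 464 497) (node 625 (merge (leaf 4 496 593) (node 624 (merge (leaf 4 528 657) (node 495 (merge (leaf 7 463 463) (leaf 7 495 527)))))))))))) (merge (node 465 (merge (node 497 (merge (leaf 6 464 592) (node 433 (merge (leaf 5 400 401) (leaf 5 432 529))))) (merge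 (node 464 (merge (leaf 6 432 433) (node 559 (merge (leaf 5 463 591) (node 432 (merge (leaf 5 431 527) (node 431 (merge (leaf 7 399 399) (leaf 7 431 463))))))))) (node 592 (merge (leaf 6 464 497) (node 625 (merge (leaf 4 496 593) (node 624 (merge (leaf 4 528 657) (node 623 (merge (leaf 5 495 591) (leaf 5 527 655)))))))))))) (merge (node 464 (merge (node 465 (merge (leaf 6 432 433) (node 592 (merge (leaf 6 464 497) (node 591 (merge (leaf 5 463 559) (leaf 5 495 623))))))) (merge (node 433 (merge (leaf 6 432 465) (node 432 (merge (leaf 6 400 401) (node 527 (merge (leaf 5 431 559) (node 400 (merge (leaf 5 399 495) (node 399 (merge (leaf 7 367 367) (leaf 7 399 431))))))))))) (merge (node 559 (merge (leaf 5 463 591) (node 432 (merge (leaf 5 431 527) (node 401 (merge (leaf 6 400 433) (node 400 (merge (leaf 6 368 369) (node 399 (merge (leaf 7 367 367) (leaf 7 399 431))))))))))) (merge (node 559 (merge (leaf 5 463 591) (node 432 (merge (leaf 5 431 527) (node 399 (merge (leaf 7 399 431) (node 400 (merge (leaf 7 367 367) (node 497 (merge (leaf 4 400 529) (node 465 (merge (leaf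 4 368 368) (leaf 6 464 592))))))))))))) (node 465 (merge (leaf 6 432 433) (node 592 (merge (leaf 6 464 497) (node 625 (merge (leaf 4 496 593) (node 624 (merge (leaf 4 528 657) (node 623 (merge (leaf 5 495 591) (leaf 5 527 655)))))))))))))))) (merge (node 497 (merge (node 592 (merge (leaf 6 464 465) (node 624 (merge (leaf 6 496 529) (node 623 (merge (leaf 5 495 591) (leaf 5 527 655))))))) (merge (node 592 (merge (leaf 6 464 465) (node 623 (merge (leaf 5 495 591) (node 495 (merge (leaf 7 463 463) (node 624 (merge (leaf 7 495 527) (leaf 5 527 655))))))))) (merge (node 495 (merge (node 463 (merge (leaf 7 463 592) (node 431 (merge (leaf 4 399 399) (leaf 4 431 527))))) (merge (node 592 (merge (leaf 7 463 463) (node 624 (merge (leaf 6 496 529) (node 623 (merge (leaf 5 495 591) (leaf 5 527 655))))))) (node 494 (merge (node 529 (merge (leaf 0 493 493) (leaf 0 494 530))) (merge (node 525 (merge (leaf 1 493 526) (node 493 (merge (leaf 1 492 524) (node 461 (merge (leaf 3 460 460) (leaf 3 461 462))))))) (node 530 (merge (leaf 0 494 529) (node 498 (merge (leaf 0 495 531) (node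 526 (merge (leaf 1 493 525) (leaf 1 494 527))))))))))))) (node 498 (merge (node 499 (merge (leaf 1 495 527) (node 532 (merge (leaf 0 496 531) (node 500 (merge (leaf 1 496 529) (leaf 0 497 533))))))) (merge (node 499 (merge (leaf 1 495 527) (node 532 (merge (leaf 0 496 531) (node 500 (merge (leaf 0 497 533) (node 468 (merge (leaf 2 464 467) (leaf 2 465 469))))))))) (merge (node 495 (merge (node 463 (merge (leaf 3 462 462) (node 431 (merge (leaf 4 399 399) (leaf 4 431 527))))) (node 466 (merge (leaf 2 463 467) (node 494 (merge (leaf 2 462 465) (node 529 (merge (leaf 0 493 493) (leaf 0 494 530))))))))) (node 467 (merge (node 495 (merge (leaf 2 463 466) (node 531 (merge (leaf 0 495 530) (node 499 (merge (leaf 2 464 468) (leaf 0 496 532))))))) (merge (node 499 (merge (leaf 2 464 468) (node 532 (merge (leaf 0 496 531) (node 500 (merge (leaf 1 496 529) (leaf 0 497 533))))))) (merge (node 495 (merge (leaf 2 463 466) (node 530 (merge (leaf 0 495 531) (node 494 (merge (leaf 0 494 529) (node 525 (merge (leaf 1 493 526) (node 493 (merge (leaf 1 492 524) (node 461 (merge (leaf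 3 460 460) (leaf 3 461 462))))))))))))) (node 499 (merge (leaf 2 464 468) (node 500 (merge (leaf 1 496 529) (node 533 (merge (leaf 0 497 532) (node 501 (merge (leaf 0 498 534) (node 470 (merge (leaf 2 466 469) (node 502 (merge (leaf 3 466 466) (leaf 2 467 471))))))))))))))))))))))))) (hyp 15)))))))) (merge (hyp 16) (merge (hyp 17) (merge (node 592 (merge (node 624 (merge (node 657 (merge (leaf 4 528 625) (node 529 (merge (leaf 6 496 497) (node 656 (merge (leaf 6 528 561) (leaf 4 560 689))))))) (merge (node 657 (merge (leaf 4 528 625) (node 656 (merge (leaf 4 560 689) (node 655 (merge (leaf 5 527 623) (leaf 5 559 687))))))) (merge (node 529 (merge (leaf 6 496 497) (node 656 (merge (leaf 6 528 561) (node 655 (merge (leaf 5 527 623) (leaf 5 559 687))))))) (node 625 (merge (leaf 4 528 657) (node 593 (merge (leaf 4 496 496) (node 623 (merge (leaf 5 527 655) (node 622 (merge (leaf 2 590 594) (leaf 2 589 621))))))))))))) (merge (node 495 (merge (node 463 (merge (leaf 7 463 496) (node 527 (merge (leaf 4 431 431) (leaf 4 463 559))))) (merge (node 624 (merge (leaf 7 495 527)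 (node 657 (merge (leaf 4 528 625) (node 656 (merge (leaf 4 560 689) (node 655 (merge (leaf 5 527 623) (leaf 5 559 687))))))))) (node 496 (merge (leaf 7 463 463) (node 497 (merge (leaf 6 464 465) (node 624 (merge (leaf 6 496 529) (node 657 (merge (leaf 4 528 625) (node 656 (merge (leaf 4 560 689) (node 655 (merge (leaf 5 527 623) (leaf 5 559 687)))))))))))))))) (merge (node 497 (merge (node 465 (merge (leaf 6 464 496) (node 529 (merge (leaf 5 432 433) (leaf 5 464 561))))) (merge (node 496 (merge (leaf 6 464 465) (node 495 (merge (leaf 7 463 463) (node 527 (merge (leaf 7 495 624) (node 526 (merge (leaf 1 494 498) (leaf 2 493 525))))))))) (node 624 (merge (leaf 6 496 529) (node 655 (merge (leaf 5 527 623) (node 656 (merge (leaf 5 559 687) (node 527 (merge (leaf 7 495 495) (leaf 7 527 559)))))))))))) (merge (node 625 (merge (node 657 (merge (leaf 4 528 624) (node 593 (merge (leaf 7 528 561) (leaf 7 560 689))))) (merge (node 496 (merge (leaf 4 496 593) (node 465 (merge (leaf 6 464 497) (node 464 (merge (leaf 6 432 433) (node 463 (merge (leaf 7 431 431) (leaf 7 463 495)))))))))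 (node 624 (merge (leaf 4 528 657) (node 655 (merge (leaf 5 527 623) (node 656 (merge (leaf 5 559 687) (node 527 (merge (leaf 7 495 495) (leaf 7 527 559)))))))))))) (merge (node 496 (merge (node 625 (merge (leaf 4 496 593) (node 624 (merge (leaf 4 528 657) (node 495 (merge (leaf 7 463 463) (leaf 7 495 527))))))) (merge (node 593 (merge (leaf 4 496 625) (node 464 (merge (leaf 4 464 561) (node 433 (merge (leaf 6 432 465) (node 432 (merge (leaf 6 400 401) (node 431 (merge (leaf 7 399 399) (leaf 7 431 463))))))))))) (merge (node 593 (merge (leaf 4 496 625) (node 464 (merge (leaf 4 464 561) (node 433 (merge (leaf 6 432 465) (node 432 (merge (leaf 6 400 401) (node 527 (merge (leaf 5 431 559) (node 495 (merge (leaf 5 399 400) (leaf 7 495 624))))))))))))) (merge (node 495 (merge (leaf 7 463 463) (node 624 (merge (leaf 7 495 527) (node 657 (merge (leaf 4 528 625) (node 656 (merge (leaf 4 560 689) (node 655 (merge (leaf 5 527 623) (leaf 5 559 687))))))))))) (node 495 (merge (leaf 7 463 463) (node 624 (merge (leaf 7 495 527) (node 655 (merge (leaf 5 527 623) (node 656 (merge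 (leaf 5 559 687) (node 689 (merge (leaf 4 560 657) (node 688 (merge (leaf 4 592 721) (node 561 (merge (leaf 6 528 529) (leaf 6 560 593)))))))))))))))))))) (merge (node 527 (merge (node 624 (merge (leaf 7 495 495) (node 656 (merge (leaf 7 527 559) (node 657 (merge (leaf 4 528 625) (leaf 4 560 689))))))) (merge (node 624 (merge (leaf 7 495 495) (node 657 (merge (leaf 4 528 625) (node 529 (merge (leaf 6 496 497) (node 656 (merge (leaf 6 528 561) (leaf 4 560 689))))))))) (merge (node 529 (merge (node 497 (merge (leaf 6 496 624) (node 465 (merge (leaf 5 432 433) (leaf 5 464 561))))) (merge (node 624 (merge (leaf 6 496 497) (node 656 (merge (leaf 7 527 559) (node 657 (merge (leaf 4 528 625) (leaf 4 560 689))))))) (node 558 (merge (node 559 (merge (leaf 1 526 530) (leaf 2 525 557))) (merge (node 526 (merge (leaf 1 525 557) (node 561 (merge (leaf 0 525 525) (leaf 0 526 562))))) (node 530 (merge (leaf 1 526 559) (node 499 (merge (leaf 2 495 498) (node 531 (merge (leaf 2 496 500) (node 561 (merge (leaf 1 528 532) (node 526 (merge (leaf 0 525 525) (leaf 0 526 562)))))))))))))))))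 (node 526 (merge (node 561 (merge (leaf 0 525 525) (node 529 (merge (leaf 0 526 562) (node 497 (merge (leaf 5 464 465) (leaf 2 494 498))))))) (merge (node 525 (merge (leaf 0 525 561) (node 524 (merge (leaf 0 524 559) (node 492 (merge (leaf 3 491 491) (leaf 3 492 493))))))) (merge (node 529 (merge (node 497 (merge (leaf 2 494 498) (node 465 (merge (leaf 5 432 433) (leaf 5 464 561))))) (node 494 (merge (leaf 3 493 493) (node 530 (merge (leaf 3 494 495) (node 559 (merge (leaf 1 527 531) (leaf 1 526 558))))))))) (node 529 (merge (node 498 (merge (leaf 2 494 497) (node 530 (merge (leaf 2 495 499) (node 494 (merge (leaf 3 493 493) (leaf 3 494 495))))))) (merge (node 557 (merge (leaf 1 525 558) (node 525 (merge (leaf 1 524 556) (node 524 (merge (leaf 0 524 559) (node 492 (merge (leaf 3 491 491) (leaf 3 492 493))))))))) (node 557 (merge (leaf 1 525 558) (node 525 (merge (leaf 1 524 556) (node 559 (merge (leaf 0 524 524) (node 530 (merge (leaf 1 527 531) (node 495 (merge (leaf 4 463 463) (leaf 3 494 494)))))))))))))))))))))) (hyp 18)))))))) (merge (hyp 19) (merge (hyp 20)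 (hyp 21)))))))))))))))))))))))) nD_34 cD_34 14 (by decide +kernel)

end Crest.Agent.H26Snaky
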