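import Crest.Agent.H26SnakyTree

/-! certificate data for S0047, part E 0 (computer generated) -/

set_option autoImplicit false
set_option maxRecDepth 100000

namespace Crest.Agent.H26Snaky

open T

def nE_0 : ℕ := 0x100000001000000000000000000000000000000000000000000000000000000000000000000000000000000000000000000000000000000000000000000000000000000000000
def cE_0 : ℕ := 0x28000000380000007f800001ef000003af800001fe000003fe0000003800000028000000000000000000000000000000000000000000000000000000000000000000000000000000000000000000000000000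
theorem lE_0 : S nE_0 cE_0 12 := S_of_chk [] trivial (node 496 (merge (node 465 (merge (node 433 (merge (leaf 6 432 464) (node 497 (merge (leaf 5 400 401) (leaf 5 432 529))))) (merge (node 497 (merge (leaf 6 464 592) (node 433 (merge (leaf 5 400 401) (leaf 5 432 529))))) (merge (node 592 (merge (leaf 6 464 497) (node 593 (merge (leaf 4 496 625) (node 464 (merge (leaf 4 464 561) (node 463 (merge (leaf 7 431 431) (leaf 7 463 495))))))))) (node 464 (merge (leaf 6 432 433) (node 593 (merge (leaf 4 464 561) (node 592 (merge (leaf 4 496 625) (node 463 (merge (leaf 7 431 431) (leaf 7 463 495))))))))))))) (merge (node 463 (merge (node 431 (merge (leaf 7 431 464) (node 495 (merge (leaf 4 399 399) (leaf 4 431 527))))) (merge (node 495 (merge (leaf 7 463 592) (node 431 (merge (leaf 4 399 399) (leaf 4 431 527))))) (merge (node 592 (merge (leaf 7 463 495) (node 465 (merge (leaf 6 464 497) (node 464 (merge (leaf 6 432 433) (node 591 (merge (leaf 5 463 559) (leaf 5 495 623))))))))) (node 464 (merge (leaf 7 431 431) (node 465 (merge (leaf 6 432 433) (node 592 (merge (leaf 6 464 497)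 (node 591 (merge (leaf 5 463 559) (leaf 5 495 623))))))))))))) (merge (node 464 (merge (node 593 (merge (leaf 4 464 561) (node 592 (merge (leaf 4 496 625) (node 463 (merge (leaf 7 431 431) (leaf 7 463 495))))))) (merge (node 561 (merge (leaf 4 464 593) (node 432 (merge (leaf 4 432 529) (node 559 (merge (leaf 5 431 527) (leaf 5 463 591))))))) (node 591 (merge (leaf 5 463 559) (node 463 (merge (leaf 7 431 431) (node 592 (merge (leaf 7 463 495) (leaf 5 495 623)))))))))) (merge (node 464 (merge (node 593 (merge (leaf 4 464 561) (node 465 (merge (leaf 6 432 433) (node 592 (merge (leaf 6 464 497) (leaf 4 496 625))))))) (merge (node 561 (merge (leaf 4 464 593) (node 432 (merge (leaf 4 432 529) (node 559 (merge (leaf 5 431 527) (leaf 5 463 591))))))) (node 465 (merge (leaf 6 432 433) (node 592 (merge (leaf 6 464 497) (node 591 (merge (leaf 5 463 559) (leaf 5 495 623)))))))))) (merge (node 497 (merge (node 592 (merge (leaf 6 464 465) (node 625 (merge (leaf 4 496 593) (node 624 (merge (leaf 6 496 529) (leaf 4 528 657))))))) (merge (node 592 (merge (leaf 6 464 465) (node 625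 (merge (leaf 4 496 593) (node 624 (merge (leaf 4 528 657) (node 495 (merge (leaf 7 463 463) (leaf 7 495 527))))))))) (merge (node 498 (merge (node 499 (merge (leaf 1 495 527) (node 532 (merge (leaf 0 496 531) (node 500 (merge (leaf 1 496 529) (leaf 0 497 533))))))) (merge (node 495 (merge (node 527 (merge (leaf 1 494 526) (node 463 (merge (leaf 4 431 431) (leaf 3 462 462))))) (merge (node 466 (merge (leaf 2 463 467) (node 494 (merge (leaf 2 462 465) (node 462 (merge (leaf 3 461 461) (leaf 3 462 463))))))) (node 466 (merge (leaf 2 463 467) (node 494 (merge (leaf 2 462 465) (node 526 (merge (leaf 1 493 525) (leaf 1 494 527)))))))))) (node 499 (merge (node 532 (merge (leaf 0 496 531) (node 500 (merge (leaf 1 496 529) (leaf 0 497 533))))) (merge (node 532 (merge (leaf 0 496 531) (node 500 (merge (leaf 0 497 533) (node 468 (merge (leaf 2 464 467) (leaf 2 465 469))))))) (node 467 (merge (leaf 2 464 468) (node 495 (merge (leaf 2 463 466) (node 462 (merge (leaf 3 462 463) (node 494 (merge (leaf 3 461 461) (node 493 (merge (leaf 0 493 529) (node 525 (merge (leaf 1 492 524)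 (leaf 1 493 526))))))))))))))))))) (node 495 (merge (node 463 (merge (leaf 7 463 592) (node 431 (merge (leaf 4 399 399) (leaf 4 431 527))))) (merge (node 592 (merge (leaf 7 463 463) (node 624 (merge (leaf 6 496 529) (node 623 (merge (leaf 5 495 591) (leaf 5 527 655))))))) (merge (node 463 (merge (node 431 (merge (leaf 4 399 399) (leaf 4 431 527))) (merge (node 498 (merge (leaf 3 462 462) (node 499 (merge (leaf 1 495 527) (node 532 (merge (leaf 0 496 531) (node 500 (merge (leaf 1 496 529) (leaf 0 497 533))))))))) (node 498 (merge (leaf 3 462 462) (node 467 (merge (leaf 2 463 466) (node 499 (merge (leaf 2 464 468) (node 532 (merge (leaf 0 496 531) (node 500 (merge (leaf 1 496 529) (leaf 0 497 533)))))))))))))) (node 498 (merge (node 527 (merge (leaf 1 495 499) (leaf 1 494 526))) (merge (node 499 (merge (leaf 1 495 527) (node 532 (merge (leaf 0 496 531) (node 500 (merge (leaf 1 496 529) (leaf 0 497 533))))))) (merge (node 467 (merge (leaf 2 463 466) (node 499 (merge (leaf 2 464 468) (node 532 (merge (leaf 0 496 531) (node 500 (merge (leaf 1 496 529) (leaf 0 497 533)))))))))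 (node 527 (merge (leaf 1 494 526) (node 466 (merge (leaf 2 463 467) (node 592 (merge (leaf 7 495 624) (node 593 (merge (leaf 4 496 625) (node 591 (merge (leaf 5 495 623) (node 561 (merge (leaf 6 465 529) (node 562 (merge (leaf 1 559 563) (leaf 2 558 590))))))))))))))))))))))))))) (node 559 (merge (node 591 (merge (leaf 5 463 464) (node 623 (merge (leaf 6 495 527) (leaf 6 527 655))))) (merge (node 464 (merge (leaf 5 463 591) (node 561 (merge (leaf 4 464 593) (node 432 (merge (leaf 4 432 529) (node 433 (merge (leaf 6 400 401) (leaf 6 432 465))))))))) (merge (node 558 (merge (node 557 (merge (leaf 2 525 529) (node 556 (merge (leaf 2 524 527) (node 588 (merge (leaf 1 555 587) (leaf 1 556 589))))))) (merge (node 557 (merge (leaf 2 525 529) (node 589 (merge (leaf 1 556 588) (node 561 (merge (leaf 1 557 590) (node 525 (merge (leaf 3 524 524) (leaf 3 525 526))))))))) (merge (node 557 (merge (leaf 2 525 529) (node 527 (merge (leaf 2 524 556) (node 525 (merge (leaf 3 524 524) (node 561 (merge (leaf 0 525 526) (node 562 (merge (leaf 3 527 563) (node 591 (merge (leaf 1 558 590)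 (leaf 6 495 623))))))))))))) (merge (node 557 (merge (node 556 (merge (leaf 2 524 527) (node 588 (merge (leaf 1 555 587) (leaf 1 556 589))))) (merge (node 589 (merge (leaf 1 556 588) (node 561 (merge (leaf 1 557 590) (node 525 (merge (leaf 3 524 524) (leaf 3 525 526))))))) (node 527 (merge (leaf 2 524 556) (node 525 (merge (leaf 3 524 524) (node 561 (merge (leaf 0 525 526) (node 562 (merge (leaf 3 527 563) (node 591 (merge (leaf 1 558 590) (leaf 6 495 623)))))))))))))) (node 561 (merge (node 593 (merge (leaf 0 558 594) (node 625 (merge (leaf 7 496 529) (leaf 7 528 657))))) (merge (node 593 (merge (leaf 0 558 594) (node 625 (merge (leaf 7 496 529) (leaf 7 528 657))))) (merge (node 590 (merge (leaf 1 557 589) (node 562 (merge (leaf 1 558 591) (node 527 (merge (leaf 3 526 526) (leaf 3 527 563))))))) (node 590 (merge (leaf 1 557 589) (node 562 (merge (leaf 1 558 591) (node 563 (merge (leaf 3 527 527) (node 532 (merge (leaf 2 528 531) (node 564 (merge (leaf 3 528 529) (leaf 2 529 533)))))))))))))))))))) (node 527 (merge (node 464 (merge (leaf 5 431 432) (node 561 (merge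 (leaf 4 464 593) (node 562 (merge (leaf 3 526 526) (leaf 3 527 563))))))) (merge (node 495 (merge (node 464 (merge (leaf 5 431 432) (node 465 (merge (leaf 6 432 433) (node 466 (merge (leaf 1 463 467) (node 494 (merge (leaf 2 461 493) (leaf 2 462 497))))))))) (merge (node 463 (merge (leaf 4 431 431) (node 558 (merge (leaf 5 462 590) (node 557 (merge (leaf 2 525 529) (leaf 2 524 556))))))) (node 463 (merge (leaf 4 431 431) (node 558 (merge (leaf 5 462 590) (node 557 (merge (leaf 2 525 529) (leaf 2 524 556)))))))))) (node 558 (merge (node 557 (merge (leaf 2 525 529) (leaf 2 524 556))) (merge (node 557 (merge (leaf 2 524 556) (node 589 (merge (leaf 1 556 588) (node 561 (merge (leaf 1 557 590) (node 562 (merge (leaf 3 526 526) (leaf 3 527 563))))))))) (node 526 (merge (node 525 (merge (leaf 3 525 561) (node 524 (merge (leaf 0 523 523) (leaf 0 524 527))))) (merge (node 497 (merge (leaf 2 493 525) (node 498 (merge (leaf 1 494 495) (leaf 1 495 499))))) (node 561 (merge (leaf 3 526 562) (node 593 (merge (leaf 0 558 594) (node 625 (merge (leaf 7 496 529) (leaf 7 528 657))))))))))))))))))))))))))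 nE_0 cE_0 12 (by decide +kernel)
def nE_1 : ℕ := 0x100000001000000000000000000000000000000000000000000000000000000000000000000000000000000000000000000000000000000000000000000000000000000000000
def cE_1 : ℕ := 0xc0000003c0000003f000000ef000003ef000001ff000000ff8000007c00000028000000000000000000000000000000000000000000000000000000000000000000000000000000000000000000000000000
theorem lE_1 : S nE_1 cE_1 12 := S_of_chk [] trivial (node 496 (merge (node 465 (merge (node 433 (merge (leaf 6 432 464) (node 497 (merge (leaf 5 400 401) (leaf 5 432 529))))) (merge (node 497 (merge (leaf 6 464 592) (node 433 (merge (leaf 5 400 401) (leaf 5 432 529))))) (merge (node 592 (merge (leaf 6 464 497) (node 593 (merge (leaf 4 496 625) (node 464 (merge (leaf 4 464 561) (node 463 (merge (leaf 7 431 431) (leaf 7 463 495))))))))) (node 464 (merge (leaf 6 432 433) (node 593 (merge (leaf 4 464 561) (node 592 (merge (leaf 4 496 625) (node 463 (merge (leaf 7 431 431) (leaf 7 463 495))))))))))))) (merge (node 463 (merge (node 431 (merge (leaf 7 431 464) (node 495 (merge (leaf 4 399 399) (leaf 4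 431 527))))) (merge (node 495 (merge (leaf 7 463 592) (node 431 (merge (leaf 4 399 399) (leaf 4 431 527))))) (merge (node 592 (merge (leaf 7 463 495) (node 465 (merge (leaf 6 464 497) (node 464 (merge (leaf 6 432 433) (node 591 (merge (leaf 5 463 559) (leaf 5 495 623))))))))) (node 464 (merge (leaf 7 431 431) (node 465 (merge (leaf 6 432 433) (node 592 (merge (leaf 6 464 497) (node 591 (merge (leaf 5 463 559) (leaf 5 495 623))))))))))))) (merge (node 464 (merge (node 593 (merge (leaf 4 464 561) (node 592 (merge (leaf 4 496 625) (node 463 (merge (leaf 7 431 431) (leaf 7 463 495))))))) (merge (node 561 (merge (leaf 4 464 593) (node 432 (merge (leaf 4 432 529) (node 559 (merge (leaf 5 431 527) (leaf 5 463 591))))))) (node 591 (merge (leaf 5 463 559) (node 463 (merge (leaf 7 431 431) (node 592 (merge (leaf 7 463 495) (leaf 5 495 623)))))))))) (merge (node 464 (merge (node 593 (merge (leaf 4 464 561) (node 465 (merge (leaf 6 432 433) (node 592 (merge (leaf 6 464 497) (leaf 4 496 625))))))) (merge (node 561 (merge (leaf 4 464 593) (node 432 (merge (leaf 4 432 529) (node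 559 (merge (leaf 5 431 527) (leaf 5 463 591))))))) (node 465 (merge (leaf 6 432 433) (node 592 (merge (leaf 6 464 497) (node 591 (merge (leaf 5 463 559) (leaf 5 495 623)))))))))) (merge (node 561 (merge (node 464 (merge (leaf 4 464 593) (node 559 (merge (leaf 5 463 591) (node 527 (merge (leaf 5 431 432) (node 562 (merge (leaf 3 526 526) (leaf 3 527 563))))))))) (merge (node 464 (merge (leaf 4 464 593) (node 433 (merge (leaf 6 432 465) (node 432 (merge (leaf 6 400 401) (node 431 (merge (leaf 7 399 399) (leaf 7 431 463))))))))) (merge (node 527 (merge (node 526 (merge (leaf 0 525 525) (node 562 (merge (leaf 0 526 529) (leaf 3 527 563))))) (merge (node 562 (merge (leaf 3 527 563) (node 559 (merge (leaf 3 526 526) (node 591 (merge (leaf 1 558 590) (leaf 6 495 623))))))) (merge (node 559 (merge (node 591 (merge (leaf 6 495 623) (node 562 (merge (leaf 3 527 563) (leaf 1 558 590))))) (merge (node 562 (merge (leaf 3 527 563) (node 530 (merge (leaf 2 527 531) (node 558 (merge (leaf 1 526 529) (node 589 (merge (leaf 1 557 590) (node 557 (merge (leaf 2 524 556) (leaf 1 556 588)))))))))))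 (merge (node 558 (merge (node 529 (merge (leaf 2 526 530) (leaf 2 525 557))) (merge (node 590 (merge (leaf 1 557 589) (node 495 (merge (leaf 5 462 463) (node 622 (merge (leaf 5 494 591) (leaf 6 526 654))))))) (node 590 (merge (leaf 1 557 589) (node 495 (merge (leaf 5 462 463) (node 591 (merge (leaf 5 494 622) (leaf 6 495 623)))))))))) (node 562 (merge (leaf 3 527 563) (node 530 (merge (leaf 2 527 531) (node 529 (merge (leaf 1 526 558) (node 498 (merge (leaf 2 495 499) (node 593 (merge (leaf 5 465 466) (leaf 6 497 625))))))))))))))) (node 529 (merge (node 526 (merge (leaf 0 525 525) (node 558 (merge (leaf 1 525 557) (node 530 (merge (leaf 2 526 559) (node 494 (merge (leaf 3 493 493) (leaf 3 494 495))))))))) (merge (node 526 (merge (leaf 0 525 525) (node 497 (merge (leaf 2 494 498) (node 494 (merge (leaf 3 493 493) (node 465 (merge (leaf 5 432 433) (node 466 (merge (leaf 6 433 434) (leaf 2 462 495))))))))))) (merge (node 530 (merge (node 531 (merge (leaf 1 528 532) (leaf 1 527 559))) (merge (node 531 (merge (leaf 3 495 495) (leaf 1 528 532))) (node 498 (merge (leaf 2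 495 499) (node 466 (merge (leaf 5 433 434) (node 593 (merge (leaf 6 465 497) (leaf 6 497 625)))))))))) (merge (node 526 (merge (leaf 0 525 525) (node 558 (merge (leaf 1 525 557) (node 559 (merge (leaf 1 526 530) (node 494 (merge (leaf 3 493 493) (node 591 (merge (leaf 4 462 462) (leaf 6 495 623))))))))))) (node 526 (merge (leaf 0 525 525) (node 558 (merge (leaf 1 525 557) (node 559 (merge (leaf 1 526 530) (node 590 (merge (leaf 1 557 589) (node 622 (merge (leaf 6 494 495) (leaf 6 526 654)))))))))))))))))))) (node 559 (merge (node 558 (merge (node 529 (merge (leaf 2 526 530) (leaf 2 525 557))) (node 590 (merge (leaf 1 557 589) (node 562 (merge (leaf 1 558 591) (node 526 (merge (leaf 3 525 525) (leaf 3 526 527))))))))) (merge (node 464 (merge (leaf 5 463 591) (node 529 (merge (leaf 4 432 432) (node 558 (merge (leaf 2 526 530) (leaf 2 525 557))))))) (merge (node 464 (merge (leaf 5 463 591) (node 527 (merge (leaf 5 431 432) (node 562 (merge (leaf 3 526 526) (leaf 3 527 563))))))) (node 558 (merge (node 529 (merge (leaf 2 526 530) (leaf 2 525 557))) (merge (node 530 (merge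 (leaf 2 526 529) (node 562 (merge (leaf 2 527 531) (node 526 (merge (leaf 3 525 525) (leaf 3 526 527))))))) (node 590 (merge (leaf 1 557 589) (node 526 (merge (leaf 3 525 525) (node 527 (merge (leaf 3 526 562) (node 622 (merge (leaf 6 494 495) (leaf 6 526 654)))))))))))))))))))) (node 495 (merge (node 592 (merge (leaf 7 463 463) (node 623 (merge (leaf 5 495 591) (node 624 (merge (leaf 7 495 527) (leaf 5 527 655))))))) (merge (node 592 (merge (leaf 7 463 463) (node 497 (merge (leaf 6 464 465) (node 624 (merge (leaf 6 496 529) (node 623 (merge (leaf 5 495 591) (leaf 5 527 655))))))))) (merge (node 497 (merge (node 465 (merge (leaf 6 464 592) (node 433 (merge (leaf 5 400 401) (leaf 5 432 529))))) (merge (node 592 (merge (leaf 6 464 465) (node 623 (merge (leaf 5 495 591) (node 624 (merge (leaf 7 495 527) (leaf 5 527 655))))))) (merge (node 530 (merge (node 529 (merge (leaf 0 494 494) (leaf 3 495 531))) (merge (node 531 (merge (leaf 0 495 498) (leaf 3 495 529))) (merge (node 498 (merge (leaf 0 495 531) (node 526 (merge (leaf 1 494 527) (node 494 (merge (leaf 1 493 525)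 (node 466 (merge (leaf 2 462 465) (leaf 2 463 467))))))))) (node 494 (merge (leaf 0 494 529) (node 526 (merge (leaf 1 493 525) (node 527 (merge (leaf 1 494 498) (node 462 (merge (leaf 3 461 461) (node 559 (merge (leaf 4 430 430) (leaf 7 462 591))))))))))))))) (node 526 (merge (node 527 (merge (leaf 1 494 498) (leaf 2 493 525))) (merge (node 494 (merge (leaf 1 493 525) (node 529 (merge (leaf 0 493 493) (leaf 0 494 530))))) (node 498 (merge (leaf 1 494 527) (node 530 (merge (leaf 0 495 531) (node 529 (merge (leaf 0 494 494) (node 466 (merge (leaf 2 463 467) (node 561 (merge (leaf 5 433 434) (leaf 6 465 593)))))))))))))))))) (node 494 (merge (node 493 (merge (leaf 0 493 529) (node 527 (merge (leaf 0 492 492) (node 525 (merge (leaf 1 492 524) (node 497 (merge (leaf 1 493 526) (node 498 (merge (leaf 1 495 499) (node 463 (merge (leaf 4 431 431) (leaf 3 462 462))))))))))))) (merge (node 529 (merge (leaf 0 493 493) (node 530 (merge (leaf 0 494 497) (leaf 3 494 527))))) (merge (node 497 (merge (node 466 (merge (leaf 2 462 465) (node 498 (merge (leaf 2 463 467) (node 462 (merge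 (leaf 3 461 461) (leaf 3 462 463))))))) (merge (node 525 (merge (leaf 1 493 526) (node 493 (merge (leaf 1 492 524) (node 492 (merge (leaf 0 492 527) (node 460 (merge (leaf 3 459 459) (leaf 3 460 461))))))))) (merge (node 525 (merge (leaf 1 493 526) (node 493 (merge (leaf 1 492 524) (node 527 (merge (leaf 0 492 492) (node 498 (merge (leaf 1 495 499) (node 463 (merge (leaf 4 431 431) (leaf 3 462 462))))))))))) (node 462 (merge (leaf 3 461 461) (node 498 (merge (leaf 3 462 463) (node 531 (merge (leaf 0 495 530) (node 499 (merge (leaf 1 495 527) (leaf 0 496 532))))))))))))) (merge (node 497 (merge (node 465 (merge (leaf 2 462 466) (node 433 (merge (leaf 5 400 401) (leaf 5 432 529))))) (merge (node 466 (merge (leaf 2 462 465) (node 498 (merge (leaf 2 463 467) (node 462 (merge (leaf 3 461 461) (leaf 3 462 463))))))) (node 462 (merge (leaf 3 461 461) (node 498 (merge (leaf 3 462 463) (node 499 (merge (leaf 1 495 527) (node 532 (merge (leaf 0 496 531) (node 500 (merge (leaf 1 496 529) (leaf 0 497 533)))))))))))))) (merge (node 493 (merge (leaf 0 493 529) (node 525 (merge (leaf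 1 492 524) (node 497 (merge (leaf 1 493 526) (node 466 (merge (leaf 2 462 465) (node 498 (merge (leaf 2 463 467) (node 462 (merge (leaf 3 461 461) (leaf 3 462 463))))))))))))) (node 493 (merge (leaf 0 493 529) (node 527 (merge (leaf 0 492 492) (node 525 (merge (leaf 1 492 524) (node 526 (merge (leaf 0 525 561) (node 557 (merge (leaf 1 524 556) (node 461 (merge (leaf 3 460 460) (node 590 (merge (leaf 4 461 558) (node 589 (merge (leaf 6 461 462) (leaf 4 493 622))))))))))))))))))))))))))))))))) nE_1 cE_1 12 (by decide +kernel)
def nE_2 : ℕ := 0x100000001000000000000000000000000000000000000000000000000000000000000000000000000000000000000000000000000000000000000000000000000000000000000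
def cE_2 : ℕ := 0x6800000078000001fe0000007e000003ef000001ee000001fe000000680000006800000000000000000000000000000000000000000000000000000000000000000000000000000000000000000000000000000000000
theorem lE_2 : S nE_2 cE_2 13 := S_of_chk [] trivial (node 592 (merge (node 497 (merge (node 529 (merge (leaf 6 496 624) (node 465 (merge (leaf 5 432 433) (leaf 5 464 561))))) (merge (node 465 (merge (leaf 6 464 496) (node 529 (merge (leaf 5 432 433) (leaf 5 464 561))))) (merge (node 496 (merge (leaf 6 464 465) (node 625 (merge (leaf 4 496 593) (node 624 (merge (leaf 4 528 657) (node 495 (merge (leaf 7 463 463) (leaf 7 495 527))))))))) (node 624 (merge (leaf 6 496 529) (node 625 (merge (leaf 4 528 657) (node 496 (merge (leaf 4 496 593) (node 495 (merge (leaf 7 463 463) (leaf 7 495 527))))))))))))) (merge (node 624 (merge (node 657 (merge (leaf 4 528 625) (node 529 (merge (leaf 6 496 497) (node 656 (merge (leaf 6 528 561) (leaf 4 560 689))))))) (merge (node 657 (merge (leaf 4 528 625) (node 656 (merge (leaf 4 560 689) (node 655 (merge (leaf 5 527 623) (leaf 5 559 687))))))) (merge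 (node 529 (merge (leaf 6 496 497) (node 656 (merge (leaf 6 528 561) (node 655 (merge (leaf 5 527 623) (leaf 5 559 687))))))) (node 625 (merge (leaf 4 528 657) (node 496 (merge (leaf 4 496 593) (node 623 (merge (leaf 5 495 591) (leaf 5 527 655))))))))))) (merge (node 495 (merge (node 463 (merge (leaf 7 463 496) (node 527 (merge (leaf 4 431 431) (leaf 4 463 559))))) (merge (node 496 (merge (leaf 7 463 463) (node 497 (merge (leaf 6 464 465) (node 624 (merge (leaf 6 496 529) (node 623 (merge (leaf 5 495 591) (leaf 5 527 655))))))))) (node 624 (merge (leaf 7 495 527) (node 529 (merge (leaf 6 496 497) (node 656 (merge (leaf 6 528 561) (node 655 (merge (leaf 5 527 623) (leaf 5 559 687)))))))))))) (merge (node 624 (merge (node 657 (merge (leaf 4 528 625) (node 656 (merge (leaf 4 560 689) (node 655 (merge (leaf 5 527 623) (leaf 5 559 687))))))) (merge (node 657 (merge (leaf 4 528 625) (node 656 (merge (leaf 4 560 689) (node 527 (merge (leaf 7 495 495) (leaf 7 527 559))))))) (merge (node 655 (merge (leaf 5 527 623) (node 656 (merge (leaf 5 559 687) (node 527 (merge (leaf 7 495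 495) (leaf 7 527 559))))))) (node 625 (merge (leaf 4 528 657) (node 593 (merge (leaf 4 496 496) (node 623 (merge (leaf 5 527 655) (node 622 (merge (leaf 2 590 594) (leaf 2 589 621))))))))))))) (merge (node 561 (merge (node 591 (merge (node 562 (merge (leaf 1 559 563) (node 590 (merge (leaf 1 558 559) (leaf 2 558 593))))) (merge (node 623 (merge (leaf 5 495 496) (node 655 (merge (leaf 6 527 559) (leaf 6 559 687))))) (node 562 (merge (leaf 1 559 563) (node 593 (merge (leaf 2 558 590) (node 625 (merge (leaf 4 496 496) (leaf 7 528 657)))))))))) (merge (node 562 (merge (node 591 (merge (leaf 1 559 563) (node 590 (merge (leaf 1 558 559) (leaf 2 557 589))))) (merge (node 527 (merge (leaf 3 527 563) (node 526 (merge (leaf 0 525 525) (leaf 0 526 529))))) (node 559 (merge (node 526 (merge (node 527 (merge (leaf 0 525 525) (leaf 3 526 562))) (merge (node 527 (merge (leaf 0 526 529) (leaf 3 526 559))) (node 558 (merge (leaf 3 525 525) (node 529 (merge (leaf 2 526 530) (leaf 2 525 557)))))))) (merge (node 591 (merge (leaf 1 558 590) (node 623 (merge (leaf 6 527 655) (node 527 (merge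 (leaf 6 495 496) (leaf 3 526 526))))))) (node 530 (merge (leaf 2 527 531) (node 558 (merge (leaf 2 526 529) (node 590 (merge (leaf 1 557 589) (leaf 1 558 591))))))))))))) (merge (node 562 (merge (node 563 (merge (leaf 3 527 527) (leaf 1 559 591))) (merge (node 563 (merge (leaf 1 559 591) (node 564 (merge (leaf 3 528 529) (leaf 1 560 593))))) (node 559 (merge (node 526 (merge (leaf 3 526 527) (node 558 (merge (leaf 3 525 525) (node 593 (merge (leaf 0 557 557) (leaf 0 558 594))))))) (merge (node 530 (merge (leaf 2 527 531) (node 558 (merge (leaf 2 526 529) (node 593 (merge (leaf 0 557 557) (leaf 0 558 594))))))) (merge (node 526 (merge (node 527 (merge (leaf 0 525 525) (leaf 3 526 562))) (merge (node 527 (merge (leaf 0 526 529) (leaf 3 526 559))) (node 558 (merge (leaf 3 525 525) (node 529 (merge (leaf 2 526 530) (leaf 2 525 557)))))))) (node 530 (merge (leaf 2 527 531) (node 527 (merge (leaf 3 526 526) (node 495 (merge (leaf 4 463 463) (node 529 (merge (leaf 3 494 494) (node 498 (merge (leaf 2 495 499) (node 466 (merge (leaf 5 433 434) (leaf 5 465 593))))))))))))))))))))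 (merge (node 562 (merge (node 563 (merge (leaf 3 527 527) (node 564 (merge (leaf 3 528 529) (leaf 1 560 593))))) (merge (node 527 (merge (leaf 3 527 563) (node 526 (merge (leaf 0 525 525) (leaf 3 526 559))))) (merge (node 593 (merge (node 625 (merge (leaf 4 496 496) (leaf 7 528 657))) (node 563 (merge (leaf 1 560 564) (node 531 (merge (leaf 2 528 532) (node 559 (merge (leaf 2 527 530) (node 558 (merge (leaf 0 557 557) (leaf 0 558 594))))))))))) (node 559 (merge (node 526 (merge (leaf 3 526 527) (node 558 (merge (leaf 3 525 525) (node 593 (merge (leaf 0 557 557) (leaf 0 558 594))))))) (merge (node 530 (merge (leaf 2 527 531) (node 558 (merge (leaf 2 526 529) (node 593 (merge (leaf 0 557 557) (leaf 0 558 594))))))) (merge (node 526 (merge (node 527 (merge (leaf 0 525 525) (leaf 3 526 562))) (merge (node 527 (merge (leaf 0 526 529) (leaf 3 526 559))) (node 558 (merge (leaf 3 525 525) (node 529 (merge (leaf 2 526 530) (leaf 2 525 557)))))))) (node 530 (merge (leaf 2 527 531) (node 527 (merge (leaf 3 526 526) (node 495 (merge (leaf 4 463 463) (node 529 (merge (leaf 3 494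 494) (node 498 (merge (leaf 2 495 499) (node 466 (merge (leaf 5 433 434) (leaf 5 465 593))))))))))))))))))))) (merge (node 591 (merge (node 623 (merge (leaf 5 495 496) (node 655 (merge (leaf 6 527 559) (leaf 6 559 687))))) (merge (node 590 (merge (leaf 2 557 589) (node 593 (merge (node 625 (merge (leaf 0 590 626) (leaf 7 528 657))) (node 622 (merge (leaf 1 589 621) (node 594 (merge (leaf 1 590 623) (node 558 (merge (leaf 3 557 557) (leaf 0 558 559))))))))))) (merge (node 590 (merge (leaf 2 557 589) (node 496 (merge (leaf 5 495 623) (node 593 (merge (leaf 4 496 625) (node 622 (merge (leaf 1 589 621) (node 558 (merge (leaf 3 557 557) (node 497 (merge (leaf 6 464 465) (node 495 (merge (leaf 7 463 463) (node 526 (merge (leaf 6 494 527) (node 525 (merge (leaf 7 493 493) (leaf 1 493 494))))))))))))))))))) (node 593 (merge (node 625 (merge (leaf 4 496 496) (leaf 7 528 657))) (node 590 (merge (leaf 2 557 589) (node 558 (merge (leaf 3 557 557) (node 559 (merge (leaf 0 558 594) (node 529 (merge (leaf 2 526 530) (node 526 (merge (leaf 3 525 525) (node 497 (merge (leaf 5 464 465)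 (node 498 (merge (leaf 6 465 466) (leaf 2 494 527))))))))))))))))))))) (node 593 (merge (node 625 (merge (leaf 4 496 496) (leaf 7 528 657))) (merge (node 529 (merge (node 625 (merge (leaf 7 528 657) (node 626 (merge (leaf 4 529 658) (node 497 (merge (leaf 5 464 465) (leaf 4 497 594))))))) (merge (node 497 (merge (leaf 5 464 465) (node 498 (merge (leaf 6 465 466) (node 527 (merge (leaf 2 494 526) (node 530 (merge (leaf 2 495 499) (node 563 (merge (leaf 0 527 562) (node 531 (merge (leaf 1 528 532) (leaf 0 528 564))))))))))))) (node 625 (merge (leaf 7 528 657) (node 626 (merge (leaf 4 529 658) (node 591 (merge (leaf 0 590 590) (node 627 (merge (leaf 0 591 594) (leaf 3 592 628)))))))))))) (node 591 (merge (node 590 (merge (leaf 2 558 562) (leaf 2 557 589))) (merge (node 562 (merge (leaf 1 559 563) (node 623 (merge (leaf 5 495 496) (node 594 (merge (leaf 1 590 622) (node 626 (merge (leaf 0 591 627) (node 658 (merge (leaf 7 529 529) (leaf 7 561 690))))))))))) (node 590 (merge (leaf 2 557 589) (node 622 (merge (leaf 1 589 621) (node 558 (merge (leaf 3 557 557) (node 623 (merge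 (leaf 5 495 496) (node 526 (merge (leaf 4 494 494) (node 525 (merge (leaf 7 493 493) (leaf 0 525 527))))))))))))))))))))))))) (node 529 (merge (node 624 (merge (leaf 6 496 497) (node 656 (merge (leaf 6 528 561) (node 655 (merge (leaf 5 527 623) (leaf 5 559 687))))))) (merge (node 624 (merge (leaf 6 496 497) (node 655 (merge (leaf 5 527 623) (node 656 (merge (leaf 5 559 687) (node 527 (merge (leaf 7 495 495) (leaf 7 527 559))))))))) (merge (node 527 (merge (node 495 (merge (leaf 7 495 624) (node 463 (merge (leaf 4 431 431) (leaf 4 463 559))))) (merge (node 624 (merge (leaf 7 495 495) (node 656 (merge (leaf 6 528 561) (node 655 (merge (leaf 5 527 623) (leaf 5 559 687))))))) (merge (node 558 (merge (node 559 (merge (leaf 1 526 530) (leaf 2 525 557))) (merge (node 526 (merge (leaf 1 525 557) (node 561 (merge (leaf 0 525 525) (leaf 0 526 562))))) (node 530 (merge (leaf 1 526 559) (node 562 (merge (leaf 0 527 563) (node 561 (merge (leaf 0 526 526) (node 498 (merge (leaf 2 495 499) (node 593 (merge (leaf 5 465 466) (leaf 6 497 625)))))))))))))) (node 558 (merge (node 559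 (merge (leaf 1 526 530) (leaf 2 525 557))) (merge (node 526 (merge (leaf 1 525 557) (node 561 (merge (leaf 0 525 525) (leaf 0 526 562))))) (node 530 (merge (leaf 1 526 559) (node 562 (merge (leaf 0 527 563) (node 561 (merge (leaf 0 526 526) (node 498 (merge (leaf 2 495 499) (node 593 (merge (leaf 5 465 466) (leaf 6 497 625)))))))))))))))))) (node 530 (merge (node 531 (merge (leaf 1 527 559) (node 564 (merge (leaf 0 528 563) (node 532 (merge (leaf 1 528 561) (leaf 0 529 565))))))) (merge (node 531 (merge (leaf 1 527 559) (node 563 (merge (leaf 0 528 564) (node 527 (merge (leaf 0 527 562) (node 499 (merge (leaf 2 495 498) (leaf 2 496 500))))))))) (merge (node 527 (merge (node 495 (merge (leaf 3 494 494) (node 463 (merge (leaf 4 431 431) (leaf 4 463 559))))) (merge (node 498 (merge (leaf 2 495 499) (node 526 (merge (leaf 2 494 497) (node 558 (merge (leaf 1 525 557) (leaf 1 526 559))))))) (node 498 (merge (leaf 2 495 499) (node 526 (merge (leaf 2 494 497) (node 561 (merge (leaf 0 525 525) (leaf 0 526 562)))))))))) (node 563 (merge (node 527 (merge (leaf 0 527 562) (node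 531 (merge (leaf 0 528 564) (node 499 (merge (leaf 2 495 498) (leaf 2 496 500))))))) (merge (node 527 (merge (leaf 0 527 562) (node 498 (merge (leaf 2 495 499) (node 526 (merge (leaf 2 494 497) (node 525 (merge (leaf 0 525 561) (node 557 (merge (leaf 1 524 556) (leaf 1 525 558))))))))))) (merge (node 531 (merge (leaf 0 528 564) (node 561 (merge (leaf 1 528 532) (node 499 (merge (leaf 2 496 500) (node 527 (merge (leaf 2 495 498) (node 526 (merge (leaf 0 525 525) (node 494 (merge (leaf 3 493 493) (leaf 3 494 495))))))))))))) (merge (node 562 (merge (leaf 0 527 527) (node 564 (merge (leaf 0 528 531) (leaf 3 528 561))))) (node 564 (merge (leaf 0 528 531) (node 562 (merge (leaf 3 528 561) (leaf 3 529 565)))))))))))))))))))))))) nE_2 cE_2 13 (by decide +kernel)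
def nE_3 : ℕ := 0x100000001000000000000000000000000000000000000000000000000000000000000000000000000000000000000000000000000000000000000000000000000000000000000
def cE_3 : ℕ := 0x280000007c0000007f000001ef00000fec000007fe000003fe000000f800000068000000000000000000000000000000000000000000000000000000000000000000000000000000000000000000000000000
theorem lE_3 : S nE_3 cE_3 12 := S_of_chk [] trivial (node 496 (merge (node 465 (merge (node 433 (merge (leaf 6 432 464) (node 497 (merge (leaf 5 400 401) (leaf 5 432 529))))) (merge (node 497 (merge (leaf 6 464 592) (node 433 (merge (leaf 5 400 401) (leaf 5 432 529))))) (merge (node 592 (merge (leaf 6 464 497) (node 593 (merge (leaf 4 496 625) (node 464 (merge (leaf 4 464 561) (node 463 (merge (leaf 7 431 431) (leaf 7 463 495))))))))) (node 464 (merge (leaf 6 432 433) (node 593 (merge (leaf 4 464 561) (node 592 (merge (leaf 4 496 625) (node 463 (merge (leaf 7 431 431) (leaf 7 463 495))))))))))))) (merge (node 463 (merge (node 431 (merge (leaf 7 431 464) (node 495 (merge (leaf 4 399 399) (leaf 4 431 527))))) (merge (node 495 (merge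 (leaf 7 463 592) (node 431 (merge (leaf 4 399 399) (leaf 4 431 527))))) (merge (node 592 (merge (leaf 7 463 495) (node 465 (merge (leaf 6 464 497) (node 464 (merge (leaf 6 432 433) (node 591 (merge (leaf 5 463 559) (leaf 5 495 623))))))))) (node 464 (merge (leaf 7 431 431) (node 465 (merge (leaf 6 432 433) (node 592 (merge (leaf 6 464 497) (node 591 (merge (leaf 5 463 559) (leaf 5 495 623))))))))))))) (merge (node 464 (merge (node 593 (merge (leaf 4 464 561) (node 592 (merge (leaf 4 496 625) (node 463 (merge (leaf 7 431 431) (leaf 7 463 495))))))) (merge (node 561 (merge (leaf 4 464 593) (node 432 (merge (leaf 4 432 529) (node 559 (merge (leaf 5 431 527) (leaf 5 463 591))))))) (node 591 (merge (leaf 5 463 559) (node 463 (merge (leaf 7 431 431) (node 592 (merge (leaf 7 463 495) (leaf 5 495 623)))))))))) (merge (node 464 (merge (node 593 (merge (leaf 4 464 561) (node 465 (merge (leaf 6 432 433) (node 592 (merge (leaf 6 464 497) (leaf 4 496 625))))))) (merge (node 561 (merge (leaf 4 464 593) (node 432 (merge (leaf 4 432 529) (node 559 (merge (leaf 5 431 527) (leaf 5 463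 591))))))) (node 465 (merge (leaf 6 432 433) (node 592 (merge (leaf 6 464 497) (node 591 (merge (leaf 5 463 559) (leaf 5 495 623)))))))))) (merge (node 559 (merge (node 591 (merge (leaf 5 463 464) (node 623 (merge (leaf 6 495 527) (leaf 6 527 655))))) (merge (node 464 (merge (leaf 5 463 591) (node 561 (merge (leaf 4 464 593) (node 432 (merge (leaf 4 432 529) (node 433 (merge (leaf 6 400 401) (leaf 6 432 465))))))))) (merge (node 561 (merge (node 593 (merge (leaf 4 464 464) (node 625 (merge (leaf 7 496 529) (leaf 7 528 657))))) (merge (node 464 (merge (leaf 4 464 593) (node 527 (merge (leaf 5 431 432) (node 562 (merge (leaf 3 526 526) (leaf 3 527 563))))))) (merge (node 558 (merge (node 593 (merge (leaf 0 558 594) (node 625 (merge (leaf 7 528 657) (node 529 (merge (leaf 7 496 496) (leaf 2 526 530))))))) (node 589 (merge (leaf 1 557 590) (node 557 (merge (leaf 1 556 588) (node 527 (merge (leaf 2 524 556) (node 562 (merge (leaf 3 526 526) (leaf 3 527 563))))))))))) (node 558 (merge (node 529 (merge (leaf 2 526 530) (leaf 2 525 557))) (merge (node 589 (merge (leaf 1 557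 590) (node 557 (merge (leaf 1 556 588) (node 527 (merge (leaf 2 524 556) (node 562 (merge (leaf 3 526 526) (leaf 3 527 563))))))))) (node 590 (merge (leaf 1 557 589) (node 529 (merge (leaf 2 526 530) (node 464 (merge (leaf 4 432 432) (node 465 (merge (leaf 6 432 433) (node 463 (merge (leaf 7 431 431) (node 495 (merge (leaf 5 462 527) (node 494 (merge (leaf 1 462 466) (leaf 0 493 493)))))))))))))))))))))) (node 529 (merge (node 558 (merge (leaf 2 525 557) (node 530 (merge (leaf 1 526 527) (leaf 1 527 531))))) (merge (node 558 (merge (leaf 2 525 557) (node 561 (merge (leaf 2 526 530) (node 593 (merge (leaf 0 558 594) (leaf 7 496 625))))))) (merge (node 561 (merge (node 558 (merge (leaf 2 525 557) (node 593 (merge (leaf 0 558 594) (leaf 7 496 625))))) (merge (node 558 (merge (leaf 2 525 557) (node 590 (merge (leaf 1 557 589) (node 562 (merge (leaf 1 558 591) (node 563 (merge (leaf 3 527 527) (leaf 3 528 564))))))))) (node 591 (merge (node 623 (merge (leaf 6 495 527) (leaf 6 527 655))) (merge (node 562 (merge (leaf 1 558 590) (node 563 (merge (leaf 3 527 527) (leaf 3 528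 564))))) (node 590 (merge (leaf 1 558 562) (node 589 (merge (leaf 2 556 588) (node 623 (merge (leaf 6 527 655) (node 625 (merge (leaf 7 496 593) (node 624 (merge (leaf 3 589 622) (leaf 3 590 626))))))))))))))))) (node 530 (merge (leaf 1 527 531) (node 527 (merge (node 562 (merge (leaf 0 527 563) (node 526 (merge (leaf 0 526 561) (node 498 (merge (leaf 2 494 497) (leaf 2 495 499))))))) (merge (node 562 (merge (leaf 0 527 563) (node 526 (merge (leaf 0 526 561) (node 494 (merge (leaf 3 493 493) (leaf 3 494 495))))))) (merge (node 498 (merge (leaf 2 495 499) (node 495 (merge (leaf 3 494 494) (node 463 (merge (leaf 4 431 431) (node 497 (merge (leaf 3 462 462) (node 466 (merge (leaf 2 463 467) (node 434 (merge (leaf 5 401 402) (leaf 5 433 561))))))))))))) (node 562 (merge (leaf 0 527 563) (node 498 (merge (leaf 2 495 499) (node 497 (merge (leaf 2 494 526) (node 465 (merge (leaf 4 433 433) (leaf 7 465 594))))))))))))))))))))))) (node 497 (merge (node 592 (merge (leaf 6 464 465) (node 625 (merge (leaf 4 496 593) (node 624 (merge (leaf 6 496 529) (leaf 4 528 657))))))) (merge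 (node 592 (merge (leaf 6 464 465) (node 625 (merge (leaf 4 496 593) (node 624 (merge (leaf 4 528 657) (node 495 (merge (leaf 7 463 463) (leaf 7 495 527))))))))) (merge (node 495 (merge (node 463 (merge (leaf 7 463 592) (node 431 (merge (leaf 4 399 399) (leaf 4 431 527))))) (merge (node 592 (merge (leaf 7 463 463) (node 624 (merge (leaf 6 496 529) (node 623 (merge (leaf 5 495 591) (leaf 5 527 655))))))) (merge (node 463 (merge (node 431 (merge (leaf 4 399 399) (leaf 4 431 527))) (node 498 (merge (leaf 3 462 462) (node 531 (merge (leaf 0 495 530) (node 499 (merge (leaf 0 496 532) (node 500 (merge (leaf 1 496 529) (node 468 (merge (leaf 2 464 467) (leaf 2 465 469))))))))))))) (node 498 (merge (node 527 (merge (leaf 1 495 499) (leaf 1 494 526))) (merge (node 531 (merge (leaf 0 495 530) (node 499 (merge (leaf 1 495 527) (leaf 0 496 532))))) (merge (node 467 (merge (leaf 2 463 466) (node 499 (merge (leaf 2 464 468) (node 532 (merge (leaf 0 496 531) (node 500 (merge (leaf 1 496 529) (leaf 0 497 533))))))))) (node 530 (merge (leaf 0 495 531) (node 527 (merge (leaf 1 494 526)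 (node 466 (merge (leaf 2 463 467) (node 592 (merge (leaf 7 495 624) (node 593 (merge (leaf 4 496 625) (node 561 (merge (leaf 6 465 529) (leaf 5 465 562))))))))))))))))))))) (node 465 (merge (node 433 (merge (leaf 5 400 401) (leaf 5 432 529))) (node 498 (merge (node 495 (merge (node 466 (merge (leaf 2 463 467) (leaf 2 462 494))) (node 463 (merge (leaf 3 462 462) (node 431 (merge (leaf 4 399 399) (leaf 4 431 527))))))) (merge (node 499 (merge (leaf 1 495 527) (node 531 (merge (leaf 0 496 532) (node 495 (merge (leaf 0 495 530) (node 494 (merge (leaf 2 462 466) (node 462 (merge (leaf 3 461 461) (leaf 3 462 463))))))))))) (merge (node 499 (merge (leaf 1 495 527) (node 531 (merge (leaf 0 496 532) (node 530 (merge (leaf 0 495 495) (node 467 (merge (leaf 2 464 468) (node 562 (merge (leaf 5 434 435) (leaf 6 466 594))))))))))) (merge (node 499 (merge (leaf 1 495 527) (node 468 (merge (leaf 2 464 467) (node 500 (merge (leaf 2 465 469) (node 533 (merge (leaf 0 497 532) (node 501 (merge (leaf 3 465 466) (leaf 0 498 534))))))))))) (node 531 (merge (node 495 (merge (leaf 0 495 530)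 (node 466 (merge (leaf 2 463 467) (leaf 2 462 494))))) (merge (node 495 (merge (leaf 0 495 530) (node 494 (merge (leaf 2 462 466) (node 462 (merge (leaf 3 461 461) (leaf 3 462 463))))))) (merge (node 499 (merge (leaf 0 496 532) (node 467 (merge (leaf 2 464 468) (node 466 (merge (leaf 2 463 495) (node 434 (merge (leaf 4 402 402) (leaf 7 434 563))))))))) (merge (node 530 (merge (leaf 0 495 495) (node 499 (merge (leaf 0 496 532) (node 467 (merge (leaf 2 464 468) (node 562 (merge (leaf 5 434 435) (leaf 6 466 594))))))))) (node 499 (merge (leaf 0 496 532) (node 468 (merge (leaf 2 464 467) (node 500 (merge (leaf 2 465 469) (node 501 (merge (leaf 3 465 466) (node 534 (merge (leaf 0 498 533) (node 502 (merge (leaf 1 498 530) (leaf 0 499 535))))))))))))))))))))))))))))))))))) nE_3 cE_3 12 (by decide +kernel)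
def nE_4 : ℕ := 0x10000000100000001000000000000000000000000000000000000000000000000000000000000000000000000000000000000000000000000000000000000000000000000000000000000
def cE_4 : ℕ := 0x28000000b8000000fa000000fe000000ff8000006f000000ef0000004f0000004c0000000c0000000800000000000000000000000000000000000000000000000000000000000000000000000000000000000000000000000000000000000
theorem lE_4 : S nE_4 cE_4 11 := S_of_chk [] trivial (node 591 (merge (node 624 (merge (node 657 (merge (leaf 4 528 625) (node 656 (merge (leaf 4 560 689) (node 655 (merge (leaf 5 527 623) (leaf 5 559 687))))))) (merge (node 657 (merge (leaf 4 528 625) (node 656 (merge (leaf 4 560 689) (node 527 (merge (leaf 7 495 495) (leaf 7 527 559))))))) (merge (node 655 (merge (leaf 5 527 623) (node 656 (merge (leaf 5 559 687) (node 527 (merge (leaf 7 495 495) (leaf 7 527 559))))))) (node 625 (merge (leaf 4 528 657) (node 626 (merge (leaf 3 591 627) (node 623 (merge (leaf 3 590 590) (leaf 5 527 655))))))))))) (merge (node 624 (merge (node 625 (merge (leaf 4 528 657) (node 626 (merge (leaf 3 591 627) (node 623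 (merge (leaf 3 590 590) (leaf 5 527 655))))))) (merge (node 657 (merge (leaf 4 528 625) (node 656 (merge (leaf 4 560 689) (node 527 (merge (leaf 7 495 495) (leaf 7 527 559))))))) (node 623 (merge (leaf 5 527 655) (node 527 (merge (leaf 7 495 495) (node 656 (merge (leaf 7 527 559) (node 688 (merge (leaf 7 591 720) (node 593 (merge (leaf 6 560 561) (node 622 (merge (leaf 1 590 594) (leaf 2 589 621)))))))))))))))) (merge (node 593 (merge (node 623 (merge (node 655 (merge (leaf 5 527 624) (leaf 6 559 687))) (merge (node 622 (merge (leaf 1 590 594) (node 621 (merge (leaf 2 588 620) (leaf 2 589 624))))) (node 622 (merge (leaf 1 590 594) (node 621 (merge (leaf 1 589 590) (leaf 2 588 620)))))))) (merge (node 625 (merge (node 657 (merge (leaf 4 528 624) (leaf 7 560 689))) (node 590 (merge (leaf 0 590 626) (node 561 (merge (leaf 2 558 562) (leaf 2 557 589))))))) (merge (node 590 (merge (node 561 (merge (leaf 2 558 562) (leaf 2 557 589))) (merge (node 621 (merge (leaf 1 589 622) (node 589 (merge (leaf 1 588 620) (node 557 (merge (leaf 3 556 556) (leaf 3 557 558))))))) (node 625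 (merge (leaf 0 590 626) (node 561 (merge (leaf 2 558 562) (leaf 7 528 657)))))))) (node 624 (merge (node 623 (merge (leaf 5 527 655) (node 622 (merge (leaf 1 590 594) (leaf 2 589 621))))) (merge (node 657 (merge (leaf 4 528 625) (node 656 (merge (leaf 4 560 689) (node 687 (merge (leaf 5 559 655) (node 688 (merge (leaf 6 560 561) (leaf 5 591 719))))))))) (node 657 (merge (leaf 4 528 625) (node 656 (merge (leaf 4 560 689) (node 688 (merge (leaf 6 560 561) (node 720 (merge (leaf 7 591 623) (node 719 (merge (leaf 5 591 687) (leaf 5 623 751)))))))))))))))))) (merge (node 624 (merge (node 625 (merge (leaf 4 528 657) (node 590 (merge (leaf 0 589 589) (node 626 (merge (leaf 0 590 593) (leaf 3 591 627))))))) (merge (node 657 (merge (leaf 4 528 625) (node 656 (merge (leaf 4 560 689) (node 687 (merge (leaf 5 559 655) (node 688 (merge (leaf 7 559 559) (leaf 5 591 719))))))))) (merge (node 527 (merge (leaf 7 495 495) (node 656 (merge (leaf 7 527 559) (node 689 (merge (leaf 4 560 657) (node 688 (merge (leaf 4 592 721) (node 687 (merge (leaf 5 559 655) (leaf 5 591 719)))))))))))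 (node 527 (merge (leaf 7 495 495) (node 656 (merge (leaf 7 527 559) (node 687 (merge (leaf 5 559 655) (node 688 (merge (leaf 5 591 719) (node 721 (merge (leaf 4 592 689) (node 720 (merge (leaf 4 624 753) (node 593 (merge (leaf 6 560 561) (leaf 6 592 625))))))))))))))))))) (merge (node 590 (merge (node 561 (merge (leaf 2 557 589) (node 593 (merge (leaf 2 558 562) (node 625 (merge (leaf 0 590 626) (leaf 7 528 657))))))) (merge (node 589 (merge (leaf 2 557 561) (node 588 (merge (leaf 2 556 559) (node 620 (merge (leaf 1 587 619) (leaf 1 588 621))))))) (merge (node 621 (merge (node 620 (merge (leaf 1 588 589) (node 622 (merge (leaf 2 587 619) (leaf 2 588 623))))) (merge (node 589 (merge (leaf 1 588 620) (node 557 (merge (leaf 3 556 556) (node 558 (merge (leaf 3 557 593) (node 653 (merge (leaf 6 525 526) (leaf 6 557 685))))))))) (node 593 (merge (leaf 1 589 622) (node 626 (merge (leaf 0 590 625) (node 594 (merge (leaf 0 591 627) (node 558 (merge (leaf 3 557 557) (leaf 3 558 559)))))))))))) (node 593 (merge (node 625 (merge (leaf 0 590 626) (node 561 (merge (leaf 2 558 562)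 (leaf 7 528 657))))) (merge (node 562 (merge (leaf 2 558 561) (node 594 (merge (leaf 2 559 563) (node 558 (merge (leaf 3 557 557) (leaf 3 558 559))))))) (merge (node 626 (merge (leaf 0 590 625) (node 594 (merge (leaf 0 591 627) (node 622 (merge (leaf 1 589 621) (leaf 1 590 623))))))) (node 626 (merge (leaf 0 590 625) (node 594 (merge (leaf 0 591 627) (node 558 (merge (leaf 3 557 557) (leaf 3 558 559))))))))))))))) (merge (node 593 (merge (node 623 (merge (node 655 (merge (leaf 5 527 624) (leaf 6 559 687))) (merge (node 622 (merge (leaf 1 590 594) (node 621 (merge (leaf 2 588 620) (leaf 2 589 624))))) (node 622 (merge (leaf 1 590 594) (node 621 (merge (leaf 1 589 590) (leaf 2 588 620)))))))) (merge (node 590 (merge (node 561 (merge (leaf 2 558 562) (leaf 2 557 589))) (merge (node 557 (merge (leaf 3 557 558) (node 589 (merge (leaf 3 556 556) (node 588 (merge (leaf 2 556 559) (node 620 (merge (leaf 1 587 619) (leaf 1 588 621))))))))) (node 562 (merge (leaf 2 558 561) (node 594 (merge (leaf 2 559 563) (node 558 (merge (leaf 3 557 557) (leaf 3 558 559)))))))))) (merge (node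 623 (merge (node 655 (merge (leaf 5 527 624) (leaf 6 559 687))) (merge (node 655 (merge (leaf 6 527 559) (leaf 6 559 687))) (node 594 (merge (leaf 1 590 622) (node 562 (merge (leaf 2 559 563) (node 561 (merge (leaf 2 558 590) (node 559 (merge (leaf 0 558 558) (node 527 (merge (leaf 3 526 526) (node 624 (merge (leaf 4 495 495) (leaf 7 527 656)))))))))))))))) (node 624 (merge (node 527 (merge (leaf 7 495 495) (node 656 (merge (leaf 7 527 559) (node 689 (merge (leaf 4 560 657) (node 688 (merge (leaf 6 560 561) (leaf 4 592 721))))))))) (merge (node 655 (merge (leaf 5 527 623) (node 656 (merge (leaf 5 559 687) (node 688 (merge (leaf 7 559 559) (node 689 (merge (leaf 4 560 657) (leaf 4 592 721))))))))) (merge (node 655 (merge (leaf 5 527 623) (node 656 (merge (leaf 5 559 687) (node 689 (merge (leaf 4 560 657) (node 688 (merge (leaf 6 560 561) (leaf 4 592 721))))))))) (node 623 (merge (leaf 5 527 655) (node 622 (merge (leaf 2 589 621) (node 527 (merge (leaf 7 495 495) (node 559 (merge (leaf 5 526 654) (node 526 (merge (leaf 7 494 494) (node 525 (merge (leaf 0 524 524) (leaf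 0 525 561))))))))))))))))))))) (merge (node 624 (merge (node 625 (merge (leaf 4 528 657) (node 590 (merge (leaf 0 589 589) (node 626 (merge (leaf 0 590 593) (leaf 3 591 627))))))) (merge (node 657 (merge (leaf 4 528 625) (node 656 (merge (leaf 4 560 689) (node 688 (merge (leaf 7 559 559) (node 720 (merge (leaf 7 591 623) (node 719 (merge (leaf 5 591 687) (leaf 5 623 751))))))))))) (merge (node 527 (merge (leaf 7 495 495) (node 656 (merge (leaf 7 527 559) (node 689 (merge (leaf 4 560 657) (node 688 (merge (leaf 4 592 721) (node 720 (merge (leaf 7 591 623) (node 719 (merge (leaf 5 591 687) (leaf 5 623 751))))))))))))) (node 593 (merge (node 527 (merge (leaf 7 495 495) (node 656 (merge (leaf 7 527 559) (node 688 (merge (leaf 6 560 561) (node 719 (merge (leaf 5 591 687) (node 720 (merge (leaf 6 592 625) (leaf 5 623 751))))))))))) (merge (node 590 (merge (node 561 (merge (leaf 2 558 562) (leaf 2 557 589))) (merge (node 621 (merge (leaf 1 589 622) (node 589 (merge (leaf 1 588 620) (node 557 (merge (leaf 3 556 556) (leaf 3 557 558))))))) (node 562 (merge (leaf 2 558 561)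 (node 594 (merge (leaf 2 559 563) (node 558 (merge (leaf 3 557 557) (leaf 3 558 559)))))))))) (merge (node 590 (merge (node 561 (merge (leaf 2 558 562) (leaf 2 557 589))) (merge (node 626 (merge (leaf 0 590 625) (node 594 (merge (leaf 0 591 627) (node 622 (merge (leaf 1 589 621) (leaf 1 590 623))))))) (node 589 (merge (leaf 2 557 561) (node 621 (merge (leaf 1 588 620) (leaf 1 589 622)))))))) (node 527 (merge (leaf 7 495 495) (node 559 (merge (leaf 7 527 656) (node 594 (merge (leaf 3 558 558) (node 622 (merge (leaf 1 590 623) (node 590 (merge (leaf 1 589 621) (node 589 (merge (leaf 2 556 588) (leaf 0 589 625))))))))))))))))))))) (merge (node 593 (merge (node 623 (merge (node 655 (merge (leaf 5 527 624) (leaf 6 559 687))) (merge (node 622 (merge (leaf 1 590 594) (node 621 (merge (leaf 2 588 620) (leaf 2 589 624))))) (node 622 (merge (leaf 1 590 594) (node 621 (merge (leaf 1 589 590) (leaf 2 588 620)))))))) (merge (node 623 (merge (node 655 (merge (leaf 6 527 559) (leaf 6 559 687))) (node 622 (merge (leaf 1 590 594) (node 621 (merge (leaf 2 588 620) (leaf 2 589 624)))))))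 (merge (node 590 (merge (node 561 (merge (leaf 2 558 562) (leaf 2 557 589))) (merge (node 557 (merge (leaf 3 557 558) (node 589 (merge (leaf 3 556 556) (node 588 (merge (leaf 2 556 559) (node 620 (merge (leaf 1 587 619) (leaf 1 588 621))))))))) (node 562 (merge (leaf 2 558 561) (node 594 (merge (leaf 2 559 563) (node 558 (merge (leaf 3 557 557) (leaf 3 558 559)))))))))) (merge (node 623 (merge (node 655 (merge (leaf 6 527 559) (leaf 6 559 687))) (merge (node 594 (merge (leaf 1 590 622) (node 626 (merge (leaf 0 591 627) (node 590 (merge (leaf 0 590 625) (node 589 (merge (leaf 2 557 561) (node 559 (merge (leaf 3 558 558) (leaf 2 556 588))))))))))) (node 594 (merge (leaf 1 590 622) (node 626 (merge (leaf 0 591 627) (node 590 (merge (leaf 0 590 625) (node 589 (merge (leaf 2 557 561) (node 557 (merge (leaf 3 556 556) (leaf 3 557 558)))))))))))))) (node 527 (merge (node 495 (merge (leaf 7 495 624) (node 463 (merge (leaf 4 431 431) (leaf 4 463 559))))) (merge (node 590 (merge (node 561 (merge (leaf 2 558 562) (leaf 2 557 589))) (merge (node 589 (merge (leaf 2 557 561) (node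 588 (merge (leaf 2 556 559) (node 620 (merge (leaf 1 587 619) (leaf 1 588 621))))))) (merge (node 621 (merge (leaf 1 589 622) (node 589 (merge (leaf 1 588 620) (node 557 (merge (leaf 3 556 556) (leaf 3 557 558))))))) (node 622 (merge (leaf 1 589 621) (node 561 (merge (leaf 2 558 562) (node 526 (merge (leaf 0 525 525) (node 558 (merge (leaf 3 557 557) (node 494 (merge (leaf 4 494 623) (node 559 (merge (leaf 4 462 462) (leaf 6 526 654))))))))))))))))) (node 624 (merge (leaf 7 495 495) (node 655 (merge (leaf 5 527 623) (node 656 (merge (leaf 5 559 687) (node 688 (merge (leaf 6 560 561) (node 721 (merge (leaf 4 592 689) (node 720 (merge (leaf 6 592 625) (leaf 4 624 753))))))))))))))))))))) (node 623 (merge (node 655 (merge (leaf 6 527 559) (leaf 5 527 624))) (merge (node 655 (merge (leaf 5 527 624) (leaf 6 559 687))) (merge (node 655 (merge (leaf 6 527 559) (leaf 6 559 687))) (node 593 (merge (node 622 (merge (leaf 1 590 594) (node 621 (merge (leaf 2 588 620) (leaf 2 589 624))))) (merge (node 657 (merge (node 625 (merge (leaf 7 528 561) (leaf 7 560 689))) (merge (node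 625 (merge (leaf 7 528 561) (node 594 (merge (leaf 1 590 622) (node 562 (merge (leaf 2 559 563) (node 530 (merge (leaf 5 497 498) (leaf 5 529 626))))))))) (merge (node 689 (merge (leaf 7 560 625) (node 594 (merge (leaf 1 590 622) (node 626 (merge (leaf 0 591 627) (node 562 (merge (leaf 2 559 563) (leaf 5 561 658))))))))) (node 594 (merge (leaf 1 590 622) (node 626 (merge (leaf 0 591 627) (node 562 (merge (leaf 2 559 563) (node 658 (merge (leaf 5 561 689) (node 690 (merge (leaf 7 561 561) (node 691 (merge (leaf 4 562 659) (leaf 4 594 723))))))))))))))))) (merge (node 527 (merge (node 495 (merge (leaf 7 495 624) (node 463 (merge (leaf 4 431 431) (leaf 4 463 559))))) (merge (node 559 (merge (node 558 (merge (leaf 0 557 557) (leaf 3 558 594))) (node 526 (merge (leaf 7 494 494) (node 561 (merge (leaf 0 525 525) (leaf 3 526 562))))))) (node 624 (merge (leaf 7 495 495) (node 657 (merge (leaf 4 528 625) (node 656 (merge (leaf 4 560 689) (node 688 (merge (leaf 6 560 561) (leaf 7 591 720)))))))))))) (node 624 (merge (node 527 (merge (leaf 7 495 495) (node 656 (merge (leaf 7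 527 559) (node 688 (merge (leaf 6 560 561) (leaf 7 591 720))))))) (merge (node 657 (merge (leaf 4 528 625) (node 656 (merge (leaf 4 560 689) (node 688 (merge (leaf 7 559 559) (leaf 6 560 561))))))) (merge (node 657 (merge (leaf 4 528 625) (node 656 (merge (leaf 4 560 689) (node 527 (merge (leaf 7 495 495) (leaf 7 527 559))))))) (merge (node 657 (merge (leaf 4 528 625) (node 656 (merge (leaf 4 560 689) (node 688 (merge (leaf 6 560 561) (node 720 (merge (leaf 7 591 623) (node 719 (merge (leaf 5 591 687) (leaf 5 623 751))))))))))) (node 622 (merge (leaf 2 589 621) (node 527 (merge (leaf 7 495 495) (node 559 (merge (leaf 5 526 654) (node 526 (merge (leaf 7 494 494) (node 561 (merge (leaf 0 525 525) (leaf 3 526 562))))))))))))))))))))))))))))))))) nE_4 cE_4 11 (by decide +kernel)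
def nE_5 : ℕ := 0x100000001000000000000000000000000000000000000000000000000000000000000000000000000000000000000000000000000000000000000000000000000000000000000
def cE_5 : ℕ := 0x280000003c0000003c000000fe0000007e000003ef000001ee000001fe0000007c0000001800000000000000000000000000000000000000000000000000000000000000000000000000000000000000000000000000000000000
theorem lE_5 : S nE_5 cE_5 13 := S_of_chk [] trivial (node 592 (merge (node 624 (merge (node 657 (merge (leaf 4 528 625) (node 529 (merge (leaf 6 496 497) (node 656 (merge (leaf 6 528 561) (leaf 4 560 689))))))) (merge (node 657 (merge (leaf 4 528 625) (node 656 (merge (leaf 4 560 689) (node 655 (merge (leaf 5 527 623) (leaf 5 559 687))))))) (merge (node 529 (merge (leaf 6 496 497) (node 656 (merge (leaf 6 528 561) (node 655 (merge (leaf 5 527 623) (leaf 5 559 687))))))) (node 625 (merge (leaf 4 528 657) (node 496 (merge (leaf 4 496 593) (node 623 (merge (leaf 5 495 591) (leaf 5 527 655))))))))))) (merge (node 495 (merge (node 463 (merge (leaf 7 463 496) (node 527 (merge (leaf 4 431 431) (leaf 4 463 559))))) (merge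 (node 496 (merge (leaf 7 463 463) (node 497 (merge (leaf 6 464 465) (node 624 (merge (leaf 6 496 529) (node 623 (merge (leaf 5 495 591) (leaf 5 527 655))))))))) (node 624 (merge (leaf 7 495 527) (node 529 (merge (leaf 6 496 497) (node 656 (merge (leaf 6 528 561) (node 655 (merge (leaf 5 527 623) (leaf 5 559 687)))))))))))) (merge (node 624 (merge (node 657 (merge (leaf 4 528 625) (node 656 (merge (leaf 4 560 689) (node 655 (merge (leaf 5 527 623) (leaf 5 559 687))))))) (merge (node 657 (merge (leaf 4 528 625) (node 656 (merge (leaf 4 560 689) (node 527 (merge (leaf 7 495 495) (leaf 7 527 559))))))) (merge (node 655 (merge (leaf 5 527 623) (node 656 (merge (leaf 5 559 687) (node 527 (merge (leaf 7 495 495) (leaf 7 527 559))))))) (node 625 (merge (leaf 4 528 657) (node 593 (merge (leaf 4 496 496) (node 623 (merge (leaf 5 527 655) (node 622 (merge (leaf 2 590 594) (leaf 2 589 621))))))))))))) (merge (node 625 (merge (node 593 (merge (leaf 4 496 496) (node 657 (merge (leaf 7 528 561) (leaf 7 560 689))))) (merge (node 624 (merge (leaf 4 528 657) (node 529 (merge (leaf 6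 496 497) (node 656 (merge (leaf 6 528 561) (node 527 (merge (leaf 7 495 495) (leaf 7 527 559))))))))) (merge (node 496 (merge (leaf 4 496 593) (node 624 (merge (leaf 4 528 657) (node 497 (merge (leaf 6 464 465) (leaf 6 496 529))))))) (node 496 (merge (leaf 4 496 593) (node 591 (merge (leaf 5 495 623) (node 559 (merge (leaf 5 463 464) (node 495 (merge (leaf 7 463 463) (node 624 (merge (leaf 4 495 527) (node 656 (merge (leaf 7 559 688) (node 529 (merge (leaf 6 496 497) (leaf 6 528 561))))))))))))))))))) (merge (node 496 (merge (node 593 (merge (leaf 4 496 625) (node 464 (merge (leaf 4 464 561) (node 463 (merge (leaf 7 431 431) (leaf 7 463 495))))))) (merge (node 625 (merge (leaf 4 496 593) (node 624 (merge (leaf 4 528 657) (node 495 (merge (leaf 7 463 463) (leaf 7 495 527))))))) (merge (node 625 (merge (leaf 4 496 593) (node 624 (merge (leaf 4 528 657) (node 529 (merge (leaf 6 496 497) (node 561 (merge (leaf 6 528 656) (node 464 (merge (leaf 4 432 432) (node 559 (merge (leaf 5 463 591) (node 558 (merge (leaf 2 526 530) (leaf 2 525 557))))))))))))))) (node 495 (merge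 (leaf 7 463 463) (node 624 (merge (leaf 7 495 527) (node 529 (merge (leaf 6 496 497) (node 656 (merge (leaf 6 528 561) (node 689 (merge (leaf 4 560 657) (node 688 (merge (leaf 4 592 721) (node 687 (merge (leaf 5 559 655) (leaf 5 591 719))))))))))))))))))) (merge (node 591 (merge (node 623 (merge (leaf 5 495 496) (node 655 (merge (leaf 6 527 559) (leaf 6 559 687))))) (merge (node 496 (merge (leaf 5 495 623) (node 593 (merge (leaf 4 496 625) (node 561 (merge (leaf 4 464 464) (node 590 (merge (leaf 2 558 562) (leaf 2 557 589))))))))) (merge (node 593 (merge (node 625 (merge (leaf 4 496 496) (node 657 (merge (leaf 7 528 561) (leaf 7 560 689))))) (merge (node 590 (merge (node 561 (merge (leaf 2 558 562) (leaf 2 557 589))) (merge (node 562 (merge (leaf 2 558 561) (node 594 (merge (leaf 2 559 563) (node 558 (merge (leaf 3 557 557) (leaf 3 558 559))))))) (node 622 (merge (leaf 1 589 621) (node 558 (merge (leaf 3 557 557) (node 559 (merge (leaf 3 558 594) (node 654 (merge (leaf 6 526 527) (leaf 6 558 686)))))))))))) (merge (node 625 (merge (node 657 (merge (leaf 7 528 561)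 (leaf 7 560 689))) (merge (node 590 (merge (leaf 0 590 626) (node 562 (merge (leaf 2 558 561) (node 594 (merge (leaf 2 559 563) (node 558 (merge (leaf 3 557 557) (leaf 3 558 559))))))))) (node 590 (merge (leaf 0 590 626) (node 622 (merge (leaf 1 589 621) (node 558 (merge (leaf 3 557 557) (node 559 (merge (leaf 3 558 594) (node 654 (merge (leaf 6 526 527) (leaf 6 558 686)))))))))))))) (node 496 (merge (leaf 4 496 625) (node 559 (merge (leaf 5 463 464) (node 594 (merge (leaf 3 558 558) (node 626 (merge (leaf 0 591 627) (node 562 (merge (leaf 2 559 563) (node 497 (merge (leaf 6 464 465) (node 495 (merge (leaf 7 463 463) (node 530 (merge (leaf 7 497 529) (node 531 (merge (leaf 0 495 498) (leaf 6 498 499))))))))))))))))))))))) (node 561 (merge (node 590 (merge (leaf 2 557 589) (node 562 (merge (leaf 1 558 559) (leaf 1 559 563))))) (merge (node 590 (merge (leaf 2 557 589) (node 593 (merge (node 625 (merge (leaf 0 590 626) (leaf 7 528 657))) (node 622 (merge (leaf 1 589 621) (node 594 (merge (leaf 1 590 623) (node 558 (merge (leaf 3 557 557) (leaf 0 558 559))))))))))) (merge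 (node 590 (merge (leaf 2 557 589) (node 593 (merge (leaf 2 558 562) (node 622 (merge (leaf 1 589 621) (node 623 (merge (leaf 1 590 594) (node 558 (merge (leaf 3 557 557) (node 655 (merge (leaf 4 526 526) (leaf 7 558 687))))))))))))) (node 559 (merge (node 562 (merge (leaf 1 559 563) (node 530 (merge (leaf 2 527 531) (node 558 (merge (leaf 2 526 529) (node 593 (merge (leaf 0 557 557) (leaf 0 558 594))))))))) (merge (node 562 (merge (leaf 1 559 563) (node 530 (merge (leaf 2 527 531) (node 527 (merge (leaf 3 526 526) (node 495 (merge (leaf 4 463 463) (node 494 (merge (leaf 7 462 462) (leaf 3 494 529))))))))))) (merge (node 562 (merge (leaf 1 559 563) (node 530 (merge (leaf 2 527 531) (node 558 (merge (leaf 2 526 529) (node 593 (merge (leaf 0 557 557) (leaf 0 558 594))))))))) (merge (node 562 (merge (leaf 1 559 563) (node 526 (merge (leaf 3 526 527) (node 558 (merge (leaf 3 525 525) (node 593 (merge (leaf 0 557 557) (leaf 0 558 594))))))))) (node 593 (merge (node 594 (merge (leaf 0 558 558) (node 623 (merge (leaf 1 590 622) (leaf 6 527 655))))) (merge (node 558 (merge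 (leaf 0 557 557) (leaf 0 558 594))) (merge (node 623 (merge (leaf 6 527 655) (node 622 (merge (leaf 1 590 594) (node 527 (merge (leaf 5 526 654) (node 526 (merge (leaf 7 494 494) (leaf 0 525 525))))))))) (node 558 (merge (leaf 0 557 557) (node 529 (merge (leaf 2 526 530) (node 526 (merge (leaf 3 525 525) (node 497 (merge (leaf 5 464 465) (node 498 (merge (leaf 6 465 466) (leaf 2 494 527)))))))))))))))))))))))))))) (node 529 (merge (node 624 (merge (leaf 6 496 497) (node 656 (merge (leaf 6 528 561) (node 655 (merge (leaf 5 527 623) (leaf 5 559 687))))))) (merge (node 624 (merge (leaf 6 496 497) (node 655 (merge (leaf 5 527 623) (node 656 (merge (leaf 5 559 687) (node 527 (merge (leaf 7 495 495) (leaf 7 527 559))))))))) (merge (node 527 (merge (node 495 (merge (leaf 7 495 624) (node 463 (merge (leaf 4 431 431) (leaf 4 463 559))))) (merge (node 624 (merge (leaf 7 495 495) (node 656 (merge (leaf 6 528 561) (node 655 (merge (leaf 5 527 623) (leaf 5 559 687))))))) (merge (node 558 (merge (node 559 (merge (leaf 1 526 530) (leaf 2 525 557))) (merge (node 526 (merge (leaf 1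 525 557) (node 561 (merge (leaf 0 525 525) (leaf 0 526 562))))) (node 530 (merge (leaf 1 526 559) (node 562 (merge (leaf 0 527 563) (node 561 (merge (leaf 0 526 526) (node 498 (merge (leaf 2 495 499) (node 593 (merge (leaf 5 465 466) (leaf 6 497 625)))))))))))))) (node 558 (merge (node 559 (merge (leaf 1 526 530) (leaf 2 525 557))) (merge (node 526 (merge (leaf 1 525 557) (node 561 (merge (leaf 0 525 525) (leaf 0 526 562))))) (node 530 (merge (leaf 1 526 559) (node 562 (merge (leaf 0 527 563) (node 561 (merge (leaf 0 526 526) (node 498 (merge (leaf 2 495 499) (node 593 (merge (leaf 5 465 466) (leaf 6 497 625)))))))))))))))))) (node 530 (merge (node 531 (merge (leaf 1 527 559) (node 564 (merge (leaf 0 528 563) (node 532 (merge (leaf 1 528 561) (leaf 0 529 565))))))) (merge (node 531 (merge (leaf 1 527 559) (node 563 (merge (leaf 0 528 564) (node 527 (merge (leaf 0 527 562) (node 499 (merge (leaf 2 495 498) (leaf 2 496 500))))))))) (merge (node 527 (merge (node 495 (merge (leaf 3 494 494) (node 463 (merge (leaf 4 431 431) (leaf 4 463 559))))) (merge (node 498 (merge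 (leaf 2 495 499) (node 526 (merge (leaf 2 494 497) (node 558 (merge (leaf 1 525 557) (leaf 1 526 559))))))) (node 498 (merge (leaf 2 495 499) (node 526 (merge (leaf 2 494 497) (node 561 (merge (leaf 0 525 525) (leaf 0 526 562)))))))))) (node 563 (merge (node 527 (merge (leaf 0 527 562) (node 531 (merge (leaf 0 528 564) (node 499 (merge (leaf 2 495 498) (leaf 2 496 500))))))) (merge (node 527 (merge (leaf 0 527 562) (node 498 (merge (leaf 2 495 499) (node 526 (merge (leaf 2 494 497) (node 525 (merge (leaf 0 525 561) (node 557 (merge (leaf 1 524 556) (leaf 1 525 558))))))))))) (merge (node 531 (merge (leaf 0 528 564) (node 561 (merge (leaf 1 528 532) (node 499 (merge (leaf 2 496 500) (node 527 (merge (leaf 2 495 498) (node 526 (merge (leaf 0 525 525) (node 494 (merge (leaf 3 493 493) (leaf 3 494 495))))))))))))) (merge (node 562 (merge (leaf 0 527 527) (node 564 (merge (leaf 0 528 531) (leaf 3 528 561))))) (node 564 (merge (leaf 0 528 531) (node 562 (merge (leaf 3 528 561) (leaf 3 529 565))))))))))))))))))))))))) nE_5 cE_5 13 (by decide +kernel)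
def nE_6 : ℕ := 0x10000000100000001000000000000000000000000000000000000000000000000000000000000000000000000000000000000000000000000000000000000000000000000000000000000
def cE_6 : ℕ := 0x28000000380000007c0000007c000001ff8000006f000001ef800001e6000001e4000000e00000002000000000000000000000000000000000000000000000000000000000000000000000000000000000000000000000000000000000000
theorem lE_6 : S nE_6 cE_6 12 := S_of_chk [] trivial (node 593 (merge (node 624 (merge (node 657 (merge (leaf 4 528 625) (node 529 (merge (leaf 6 496 497) (node 656 (merge (leaf 6 528 561) (leaf 4 560 689))))))) (merge (node 657 (merge (leaf 4 528 625) (node 656 (merge (leaf 4 560 689) (node 655 (merge (leaf 5 527 623) (leaf 5 559 687))))))) (merge (node 529 (merge (leaf 6 496 497) (node 656 (merge (leaf 6 528 561) (node 655 (merge (leaf 5 527 623) (leaf 5 559 687))))))) (node 625 (merge (leaf 4 528 657) (node 623 (merge (leaf 5 527 655) (node 622 (merge (leaf 2 590 594) (leaf 2 589 621))))))))))) (merge (node 591 (merge (node 623 (merge (node 655 (merge (leaf 6 527 559) (leaf 6 559 687))) (node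 622 (merge (leaf 1 590 594) (node 621 (merge (leaf 2 588 620) (leaf 2 589 624))))))) (merge (node 625 (merge (node 657 (merge (leaf 4 528 624) (leaf 7 560 689))) (node 590 (merge (leaf 0 590 626) (node 561 (merge (leaf 2 558 562) (leaf 2 557 589))))))) (node 590 (merge (node 561 (merge (leaf 2 558 562) (leaf 2 557 589))) (merge (node 621 (merge (leaf 1 589 622) (node 589 (merge (leaf 1 588 620) (node 557 (merge (leaf 3 556 556) (leaf 3 557 558))))))) (node 625 (merge (leaf 0 590 626) (node 561 (merge (leaf 2 558 562) (leaf 7 528 657))))))))))) (merge (node 624 (merge (node 657 (merge (leaf 4 528 625) (node 529 (merge (leaf 6 496 497) (node 656 (merge (leaf 6 528 561) (leaf 4 560 689))))))) (merge (node 623 (merge (leaf 5 527 655) (node 622 (merge (leaf 2 589 621) (node 591 (merge (leaf 1 590 594) (node 529 (merge (leaf 6 496 497) (node 656 (merge (leaf 6 528 561) (node 688 (merge (leaf 7 559 559) (leaf 7 591 720))))))))))))) (node 623 (merge (leaf 5 527 655) (node 622 (merge (leaf 2 589 621) (node 594 (merge (leaf 1 590 591) (leaf 2 590 625)))))))))) (merge (node 624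 (merge (node 657 (merge (leaf 4 528 625) (node 529 (merge (leaf 6 496 497) (node 656 (merge (leaf 6 528 561) (leaf 4 560 689))))))) (merge (node 657 (merge (leaf 4 528 625) (node 656 (merge (leaf 4 560 689) (node 655 (merge (leaf 5 527 623) (leaf 5 559 687))))))) (merge (node 529 (merge (leaf 6 496 497) (node 656 (merge (leaf 6 528 561) (node 655 (merge (leaf 5 527 623) (leaf 5 559 687))))))) (node 625 (merge (leaf 4 528 657) (node 623 (merge (leaf 5 527 655) (node 622 (merge (leaf 2 589 621) (node 590 (merge (leaf 3 589 589) (node 626 (merge (leaf 0 590 591) (node 529 (merge (leaf 6 496 497) (node 561 (merge (leaf 4 529 658) (node 530 (merge (leaf 6 497 498) (node 559 (merge (leaf 1 527 531) (leaf 2 526 558))))))))))))))))))))))) (merge (node 625 (merge (node 657 (merge (leaf 7 528 561) (leaf 7 560 689))) (merge (node 591 (merge (node 590 (merge (leaf 0 590 626) (node 561 (merge (leaf 2 558 562) (leaf 2 557 589))))) (merge (node 590 (merge (leaf 0 590 626) (node 622 (merge (leaf 1 589 621) (node 623 (merge (leaf 1 590 594) (node 655 (merge (leaf 6 527 559) (leaf 6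 559 687))))))))) (merge (node 590 (merge (node 561 (merge (leaf 2 558 562) (leaf 2 557 589))) (merge (node 621 (merge (leaf 1 589 622) (node 589 (merge (leaf 1 588 620) (node 557 (merge (leaf 3 556 556) (leaf 3 557 558))))))) (node 562 (merge (leaf 2 558 561) (node 594 (merge (leaf 2 559 563) (node 558 (merge (leaf 3 557 557) (leaf 3 558 559)))))))))) (node 623 (merge (node 655 (merge (leaf 6 527 559) (leaf 6 559 687))) (node 594 (merge (leaf 1 590 622) (node 626 (merge (leaf 0 591 627) (node 562 (merge (leaf 2 559 563) (node 530 (merge (leaf 5 497 498) (node 531 (merge (leaf 6 498 499) (node 529 (merge (leaf 7 497 497) (node 561 (merge (leaf 1 528 532) (leaf 7 529 658))))))))))))))))))))) (node 591 (merge (node 626 (merge (leaf 0 590 590) (node 627 (merge (leaf 0 591 594) (leaf 3 592 628))))) (merge (node 623 (merge (node 655 (merge (leaf 6 527 559) (leaf 6 559 687))) (node 622 (merge (leaf 1 590 594) (node 621 (merge (leaf 1 589 590) (leaf 2 588 620))))))) (merge (node 590 (merge (leaf 0 590 626) (node 621 (merge (leaf 1 589 622) (node 589 (merge (leaf 1 588 620)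 (node 557 (merge (leaf 3 556 556) (leaf 3 557 558))))))))) (node 623 (merge (node 655 (merge (leaf 6 527 559) (leaf 6 559 687))) (merge (node 657 (merge (leaf 7 560 689) (node 594 (merge (leaf 1 590 622) (node 562 (merge (leaf 2 559 563) (node 530 (merge (leaf 5 497 498) (leaf 5 529 626))))))))) (node 657 (merge (leaf 7 560 689) (node 594 (merge (leaf 1 590 622) (node 626 (merge (leaf 0 591 627) (node 562 (merge (leaf 5 529 530) (leaf 2 559 563))))))))))))))))))) (merge (node 591 (merge (node 625 (merge (node 657 (merge (leaf 4 528 624) (leaf 7 560 689))) (node 590 (merge (leaf 0 590 626) (node 561 (merge (leaf 2 558 562) (leaf 2 557 589))))))) (merge (node 590 (merge (node 561 (merge (leaf 2 558 562) (leaf 2 557 589))) (merge (node 621 (merge (leaf 1 589 622) (node 589 (merge (leaf 1 588 620) (node 557 (merge (leaf 3 556 556) (leaf 3 557 558))))))) (node 562 (merge (leaf 2 558 561) (node 594 (merge (leaf 2 559 563) (node 558 (merge (leaf 3 557 557) (leaf 3 558 559)))))))))) (merge (node 558 (merge (node 559 (merge (leaf 0 557 557) (leaf 3 558 594))) (merge (node 590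 (merge (leaf 3 557 557) (node 625 (merge (leaf 0 590 626) (node 657 (merge (leaf 4 528 624) (leaf 7 560 689))))))) (node 594 (merge (leaf 3 558 559) (node 626 (merge (leaf 0 591 627) (node 625 (merge (leaf 0 590 590) (node 562 (merge (leaf 2 559 563) (node 657 (merge (leaf 5 529 530) (leaf 4 528 624)))))))))))))) (merge (node 590 (merge (node 626 (merge (leaf 0 590 625) (node 594 (merge (leaf 0 591 627) (node 558 (merge (leaf 3 557 557) (leaf 3 558 559))))))) (merge (node 621 (merge (leaf 1 589 622) (node 589 (merge (leaf 1 588 620) (node 557 (merge (leaf 3 556 556) (leaf 3 557 558))))))) (node 589 (merge (leaf 2 557 561) (node 620 (merge (leaf 1 588 621) (node 588 (merge (leaf 2 556 559) (leaf 1 587 619)))))))))) (node 624 (merge (node 657 (merge (leaf 4 528 625) (node 656 (merge (leaf 4 560 689) (node 687 (merge (leaf 5 559 655) (node 688 (merge (leaf 7 559 559) (leaf 5 591 719))))))))) (merge (node 529 (merge (leaf 6 496 497) (node 656 (merge (leaf 6 528 561) (node 688 (merge (leaf 7 559 559) (node 687 (merge (leaf 5 559 655) (leaf 5 591 719))))))))) (merge (node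 657 (merge (leaf 4 528 625) (node 656 (merge (leaf 4 560 689) (node 687 (merge (leaf 5 559 655) (node 688 (merge (leaf 6 560 561) (leaf 5 591 719))))))))) (node 625 (merge (leaf 4 528 657) (node 626 (merge (leaf 3 591 627) (node 529 (merge (leaf 6 496 497) (node 561 (merge (leaf 4 529 658) (node 530 (merge (leaf 6 497 498) (node 559 (merge (leaf 1 527 531) (leaf 2 526 558)))))))))))))))))))))) (merge (node 591 (merge (node 623 (merge (node 655 (merge (leaf 6 527 559) (leaf 6 559 687))) (node 622 (merge (leaf 1 590 594) (node 621 (merge (leaf 2 588 620) (leaf 2 589 624))))))) (merge (node 558 (merge (node 559 (merge (leaf 0 557 557) (leaf 3 558 594))) (merge (node 590 (merge (leaf 3 557 557) (node 561 (merge (leaf 2 558 562) (leaf 2 557 589))))) (node 594 (merge (leaf 3 558 559) (node 626 (merge (leaf 0 591 627) (node 590 (merge (leaf 0 590 625) (node 562 (merge (leaf 2 558 561) (leaf 2 559 563)))))))))))) (merge (node 590 (merge (node 561 (merge (leaf 2 558 562) (leaf 2 557 589))) (merge (node 626 (merge (leaf 0 590 625) (node 594 (merge (leaf 0 591 627) (node 622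 (merge (leaf 1 589 621) (leaf 1 590 623))))))) (node 589 (merge (leaf 2 557 561) (node 621 (merge (leaf 1 588 620) (leaf 1 589 622)))))))) (merge (node 623 (merge (node 655 (merge (leaf 6 527 559) (leaf 6 559 687))) (merge (node 594 (merge (leaf 1 590 622) (node 626 (merge (leaf 0 591 627) (node 590 (merge (leaf 0 590 625) (node 589 (merge (leaf 2 557 561) (node 559 (merge (leaf 3 558 558) (leaf 2 556 588))))))))))) (node 594 (merge (leaf 1 590 622) (node 626 (merge (leaf 0 591 627) (node 590 (merge (leaf 0 590 625) (node 589 (merge (leaf 2 557 561) (node 557 (merge (leaf 3 556 556) (leaf 3 557 558)))))))))))))) (merge (node 562 (merge (node 563 (merge (leaf 1 559 561) (leaf 2 559 594))) (merge (node 590 (merge (leaf 2 558 561) (node 557 (merge (leaf 3 557 558) (node 589 (merge (leaf 3 556 556) (node 620 (merge (leaf 1 588 621) (node 588 (merge (leaf 2 556 559) (leaf 1 587 619))))))))))) (node 594 (merge (leaf 2 559 563) (node 626 (merge (leaf 0 591 627) (node 625 (merge (leaf 0 590 590) (node 559 (merge (leaf 3 558 558) (node 530 (merge (leaf 5 497 498) (node 529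 (merge (leaf 7 497 497) (leaf 1 527 531)))))))))))))))) (node 623 (merge (node 655 (merge (leaf 5 527 624) (leaf 6 559 687))) (merge (node 655 (merge (leaf 6 527 559) (leaf 6 559 687))) (node 590 (merge (node 621 (merge (leaf 1 589 622) (node 589 (merge (leaf 1 588 620) (node 557 (merge (leaf 3 556 556) (leaf 3 557 558))))))) (merge (node 589 (merge (leaf 2 557 561) (node 620 (merge (leaf 1 588 621) (node 588 (merge (leaf 2 556 559) (leaf 1 587 619))))))) (node 561 (merge (leaf 2 558 562) (node 558 (merge (leaf 3 557 557) (node 526 (merge (leaf 4 494 494) (node 559 (merge (leaf 3 525 525) (node 529 (merge (leaf 2 526 530) (node 624 (merge (leaf 5 496 497) (leaf 6 528 656))))))))))))))))))))))))) (merge (node 623 (merge (node 655 (merge (leaf 5 527 624) (node 591 (merge (leaf 6 527 559) (leaf 6 559 687))))) (merge (node 624 (merge (leaf 5 527 655) (node 622 (merge (leaf 2 589 621) (node 625 (merge (leaf 2 590 594) (leaf 4 528 657))))))) (merge (node 591 (merge (node 655 (merge (leaf 6 527 559) (leaf 6 559 687))) (node 594 (merge (leaf 1 590 622) (node 626 (merge (leaf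 0 591 627) (node 625 (merge (leaf 0 590 590) (node 657 (merge (leaf 7 560 689) (node 562 (merge (leaf 5 529 530) (leaf 2 559 563))))))))))))) (node 591 (merge (node 622 (merge (leaf 1 590 594) (node 621 (merge (leaf 2 588 620) (leaf 2 589 624))))) (merge (node 594 (merge (leaf 1 590 622) (node 626 (merge (leaf 0 591 627) (node 625 (merge (leaf 0 590 590) (node 657 (merge (leaf 7 560 689) (node 562 (merge (leaf 5 529 530) (leaf 2 559 563))))))))))) (merge (node 558 (merge (node 559 (merge (leaf 0 557 557) (leaf 3 558 594))) (merge (node 590 (merge (leaf 3 557 557) (node 625 (merge (leaf 0 590 626) (node 657 (merge (leaf 4 528 624) (leaf 7 560 689))))))) (node 594 (merge (leaf 3 558 559) (node 626 (merge (leaf 0 591 627) (node 625 (merge (leaf 0 590 590) (node 562 (merge (leaf 2 559 563) (node 657 (merge (leaf 5 529 530) (leaf 4 528 624)))))))))))))) (node 590 (merge (node 621 (merge (leaf 1 589 622) (node 589 (merge (leaf 1 588 620) (node 557 (merge (leaf 3 556 556) (leaf 3 557 558))))))) (merge (node 625 (merge (leaf 0 590 626) (node 657 (merge (leaf 4 528 624) (leaf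 7 560 689))))) (node 625 (merge (leaf 0 590 626) (node 657 (merge (leaf 4 528 624) (leaf 7 560 689)))))))))))))))) (merge (node 529 (merge (node 497 (merge (leaf 6 496 624) (node 465 (merge (leaf 5 432 433) (leaf 5 464 561))))) (merge (node 624 (merge (leaf 6 496 497) (node 657 (merge (leaf 4 528 625) (node 656 (merge (leaf 4 560 689) (node 655 (merge (leaf 5 527 623) (leaf 5 559 687))))))))) (merge (node 625 (merge (node 657 (merge (leaf 4 528 624) (leaf 7 560 689))) (merge (node 657 (merge (leaf 7 528 561) (leaf 7 560 689))) (node 626 (merge (node 591 (merge (leaf 0 590 590) (node 627 (merge (leaf 0 591 594) (leaf 3 592 628))))) (node 561 (merge (leaf 4 529 658) (node 530 (merge (leaf 6 497 498) (node 559 (merge (leaf 1 527 531) (leaf 2 526 558)))))))))))) (node 561 (merge (node 625 (merge (leaf 7 528 657) (node 530 (merge (leaf 6 497 498) (node 559 (merge (leaf 1 527 531) (leaf 2 526 558))))))) (merge (node 625 (merge (leaf 7 528 657) (node 626 (merge (leaf 4 529 658) (node 591 (merge (leaf 0 590 590) (node 627 (merge (leaf 0 591 594) (leaf 3 592 628))))))))) (node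 497 (merge (leaf 5 464 465) (node 594 (merge (leaf 4 497 626) (node 559 (merge (leaf 0 558 558) (node 530 (merge (leaf 1 527 531) (node 498 (merge (leaf 6 465 466) (node 499 (merge (leaf 1 496 500) (node 562 (merge (leaf 6 466 467) (node 563 (merge (leaf 1 560 564) (leaf 1 559 591)))))))))))))))))))))))) (merge (node 529 (merge (node 497 (merge (leaf 6 496 624) (node 465 (merge (leaf 5 432 433) (leaf 5 464 561))))) (merge (node 591 (merge (node 623 (merge (node 655 (merge (leaf 6 527 559) (leaf 6 559 687))) (node 622 (merge (leaf 1 590 594) (node 621 (merge (leaf 2 588 620) (leaf 2 589 624))))))) (merge (node 558 (merge (node 590 (merge (leaf 3 557 557) (node 561 (merge (leaf 2 558 562) (leaf 2 557 589))))) (merge (node 559 (merge (leaf 0 557 557) (node 594 (merge (leaf 0 558 561) (leaf 3 558 591))))) (merge (node 557 (merge (leaf 2 525 559) (node 590 (merge (leaf 3 557 593) (node 556 (merge (leaf 0 555 555) (leaf 3 556 589))))))) (node 594 (merge (leaf 3 558 559) (node 626 (merge (leaf 0 591 627) (node 562 (merge (leaf 2 559 563) (node 561 (merge (leaf 2 558 590)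 (leaf 7 529 658))))))))))))) (merge (node 561 (merge (node 590 (merge (leaf 2 558 562) (leaf 2 557 589))) (node 624 (merge (leaf 6 528 656) (node 623 (merge (leaf 5 527 655) (node 622 (merge (leaf 1 590 594) (leaf 2 589 621))))))))) (node 590 (merge (node 561 (merge (leaf 2 558 562) (leaf 2 557 589))) (merge (node 621 (merge (leaf 1 589 622) (node 589 (merge (leaf 1 588 620) (node 557 (merge (leaf 3 556 556) (leaf 3 557 558))))))) (node 622 (merge (leaf 1 589 621) (node 561 (merge (leaf 2 558 562) (node 558 (merge (leaf 3 557 557) (node 559 (merge (leaf 2 526 530) (node 655 (merge (leaf 6 527 623) (node 654 (merge (leaf 6 558 686) (leaf 4 558 687)))))))))))))))))))) (merge (node 591 (merge (node 624 (merge (leaf 6 496 497) (node 623 (merge (leaf 5 527 655) (node 622 (merge (leaf 1 590 594) (leaf 2 589 621))))))) (merge (node 624 (merge (leaf 6 496 497) (node 655 (merge (leaf 5 527 623) (node 656 (merge (leaf 5 559 687) (node 688 (merge (leaf 7 559 559) (node 689 (merge (leaf 4 560 657) (leaf 4 592 721))))))))))) (merge (node 623 (merge (node 655 (merge (leaf 6 527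 559) (leaf 6 559 687))) (node 622 (merge (leaf 1 590 594) (node 621 (merge (leaf 2 588 620) (leaf 2 589 624))))))) (merge (node 590 (merge (node 621 (merge (leaf 1 589 622) (node 589 (merge (leaf 1 588 620) (node 557 (merge (leaf 3 556 556) (leaf 3 557 558))))))) (merge (node 558 (merge (leaf 3 557 557) (node 594 (merge (leaf 3 558 559) (node 626 (merge (leaf 0 591 627) (node 562 (merge (leaf 2 559 563) (node 497 (merge (leaf 7 497 530) (leaf 6 496 624))))))))))) (merge (node 621 (merge (leaf 1 589 622) (node 589 (merge (leaf 1 588 620) (node 588 (merge (leaf 2 556 559) (node 556 (merge (leaf 3 555 555) (leaf 3 556 557))))))))) (node 621 (merge (leaf 1 589 622) (node 589 (merge (leaf 1 588 620) (node 559 (merge (leaf 2 556 588) (node 530 (merge (leaf 1 527 531) (node 594 (merge (leaf 3 558 558) (node 626 (merge (leaf 0 591 627) (node 562 (merge (leaf 7 497 497) (leaf 2 559 563))))))))))))))))))) (node 623 (merge (node 655 (merge (leaf 6 527 559) (leaf 6 559 687))) (merge (node 622 (merge (leaf 1 590 594) (node 621 (merge (leaf 1 589 590) (leaf 2 588 620))))) (node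 594 (merge (leaf 1 590 622) (node 626 (merge (leaf 0 591 627) (node 562 (merge (leaf 2 559 563) (node 559 (merge (leaf 3 558 558) (node 530 (merge (leaf 7 497 497) (leaf 1 527 531))))))))))))))))))) (node 591 (merge (node 590 (merge (node 561 (merge (leaf 2 558 562) (leaf 2 557 589))) (merge (node 621 (merge (leaf 1 589 622) (node 589 (merge (leaf 1 588 620) (node 557 (merge (leaf 3 556 556) (leaf 3 557 558))))))) (node 562 (merge (leaf 2 558 561) (node 594 (merge (leaf 2 559 563) (node 558 (merge (leaf 3 557 557) (leaf 3 558 559)))))))))) (merge (node 559 (merge (node 558 (merge (leaf 0 557 557) (leaf 3 558 594))) (merge (node 558 (merge (leaf 0 557 557) (node 530 (merge (leaf 1 527 531) (leaf 2 526 561))))) (merge (node 530 (merge (leaf 1 527 531) (node 594 (merge (leaf 3 558 558) (node 626 (merge (leaf 0 591 627) (node 562 (merge (leaf 7 497 497) (leaf 2 559 563))))))))) (node 530 (merge (leaf 1 527 531) (node 623 (merge (leaf 6 527 655) (node 594 (merge (leaf 1 590 622) (node 626 (merge (leaf 0 591 627) (node 562 (merge (leaf 7 497 497) (leaf 2 559 563)))))))))))))))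 (merge (node 623 (merge (node 655 (merge (leaf 6 527 559) (leaf 6 559 687))) (merge (node 622 (merge (leaf 1 590 594) (node 621 (merge (leaf 1 589 590) (leaf 2 588 620))))) (node 594 (merge (leaf 1 590 622) (node 626 (merge (leaf 0 591 627) (node 562 (merge (leaf 2 559 563) (node 559 (merge (leaf 3 558 558) (node 530 (merge (leaf 7 497 497) (leaf 1 527 531)))))))))))))) (merge (node 590 (merge (node 561 (merge (leaf 2 558 562) (leaf 2 557 589))) (merge (node 621 (merge (leaf 1 589 622) (node 589 (merge (leaf 1 588 620) (node 557 (merge (leaf 3 556 556) (leaf 3 557 558))))))) (node 622 (merge (leaf 1 589 621) (node 623 (merge (leaf 1 590 594) (node 558 (merge (leaf 3 557 557) (node 655 (merge (leaf 4 526 526) (leaf 7 558 687)))))))))))) (merge (node 623 (merge (node 655 (merge (leaf 6 527 559) (leaf 6 559 687))) (merge (node 622 (merge (leaf 1 590 594) (node 621 (merge (leaf 1 589 590) (leaf 2 588 620))))) (node 594 (merge (leaf 1 590 622) (node 558 (merge (leaf 3 558 559) (node 590 (merge (leaf 3 557 557) (node 561 (merge (leaf 2 557 589) (node 497 (merge (leaf 5 464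 465) (leaf 4 497 626)))))))))))))) (merge (node 590 (merge (node 561 (merge (leaf 2 558 562) (leaf 2 557 589))) (merge (node 621 (merge (leaf 1 589 622) (node 589 (merge (leaf 1 588 620) (node 557 (merge (leaf 3 556 556) (leaf 3 557 558))))))) (node 622 (merge (leaf 1 589 621) (node 561 (merge (leaf 2 558 562) (node 558 (merge (leaf 3 557 557) (node 559 (merge (leaf 2 526 530) (node 655 (merge (leaf 6 527 623) (node 654 (merge (leaf 6 558 686) (leaf 4 558 687)))))))))))))))) (merge (node 561 (merge (node 590 (merge (leaf 2 558 562) (leaf 2 557 589))) (merge (node 497 (merge (leaf 5 464 465) (node 594 (merge (leaf 4 497 626) (node 623 (merge (leaf 1 590 622) (node 655 (merge (leaf 6 527 559) (leaf 6 559 687))))))))) (node 590 (merge (leaf 2 557 589) (node 622 (merge (leaf 1 589 621) (node 623 (merge (leaf 1 590 594) (node 655 (merge (leaf 6 527 559) (leaf 6 559 687)))))))))))) (node 561 (merge (node 590 (merge (leaf 2 558 562) (leaf 2 557 589))) (merge (node 562 (merge (leaf 1 559 563) (node 497 (merge (leaf 5 464 465) (node 594 (merge (leaf 4 497 626) (node 559 (merge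 (leaf 0 558 558) (node 530 (merge (leaf 1 527 531) (node 498 (merge (leaf 5 465 466) (node 499 (merge (leaf 6 466 467) (leaf 1 496 500))))))))))))))) (node 590 (merge (leaf 2 557 589) (node 558 (merge (leaf 3 557 557) (node 559 (merge (leaf 2 526 530) (leaf 0 558 594)))))))))))))))))))))) (node 591 (merge (node 625 (merge (node 657 (merge (leaf 4 528 624) (leaf 7 560 689))) (node 590 (merge (leaf 0 590 626) (node 561 (merge (leaf 2 558 562) (leaf 2 557 589))))))) (merge (node 590 (merge (node 561 (merge (leaf 2 558 562) (leaf 2 557 589))) (merge (node 621 (merge (leaf 1 589 622) (node 589 (merge (leaf 1 588 620) (node 557 (merge (leaf 3 556 556) (leaf 3 557 558))))))) (node 562 (merge (leaf 2 558 561) (node 594 (merge (leaf 2 559 563) (node 558 (merge (leaf 3 557 557) (leaf 3 558 559)))))))))) (merge (node 558 (merge (node 559 (merge (leaf 0 557 557) (leaf 3 558 594))) (merge (node 590 (merge (leaf 3 557 557) (node 625 (merge (leaf 0 590 626) (node 657 (merge (leaf 4 528 624) (leaf 7 560 689))))))) (node 594 (merge (leaf 3 558 559) (node 626 (merge (leaf 0 591 627)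 (node 625 (merge (leaf 0 590 590) (node 562 (merge (leaf 2 559 563) (node 657 (merge (leaf 5 529 530) (leaf 4 528 624)))))))))))))) (merge (node 590 (merge (node 626 (merge (leaf 0 590 625) (node 594 (merge (leaf 0 591 627) (node 558 (merge (leaf 3 557 557) (leaf 3 558 559))))))) (merge (node 621 (merge (leaf 1 589 622) (node 589 (merge (leaf 1 588 620) (node 557 (merge (leaf 3 556 556) (leaf 3 557 558))))))) (node 589 (merge (leaf 2 557 561) (node 620 (merge (leaf 1 588 621) (node 588 (merge (leaf 2 556 559) (leaf 1 587 619)))))))))) (node 529 (merge (node 624 (merge (leaf 6 496 497) (node 657 (merge (leaf 4 528 625) (node 656 (merge (leaf 6 528 561) (leaf 4 560 689))))))) (merge (node 624 (merge (leaf 6 496 497) (node 656 (merge (leaf 6 528 561) (node 688 (merge (leaf 7 559 559) (node 720 (merge (leaf 7 591 623) (node 719 (merge (leaf 5 591 687) (leaf 5 623 751))))))))))) (merge (node 624 (merge (leaf 6 496 497) (node 657 (merge (leaf 4 528 625) (node 656 (merge (leaf 4 560 689) (node 688 (merge (leaf 7 559 559) (node 720 (merge (leaf 7 591 623) (node 719 (merge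 (leaf 5 591 687) (leaf 5 623 751))))))))))))) (merge (node 594 (merge (node 626 (merge (leaf 0 591 627) (node 562 (merge (leaf 2 559 563) (node 559 (merge (leaf 3 558 558) (node 530 (merge (leaf 7 497 497) (leaf 1 527 531))))))))) (merge (node 626 (merge (leaf 0 591 627) (node 562 (merge (leaf 2 559 563) (node 561 (merge (leaf 4 497 497) (leaf 7 529 658))))))) (merge (node 626 (merge (leaf 0 591 627) (node 561 (merge (leaf 4 497 497) (node 658 (merge (leaf 4 529 625) (leaf 7 561 690))))))) (merge (node 626 (merge (leaf 0 591 627) (node 562 (merge (leaf 2 559 563) (node 561 (merge (leaf 4 497 497) (leaf 7 529 658))))))) (merge (node 562 (merge (leaf 2 559 563) (node 559 (merge (leaf 3 558 558) (node 530 (merge (leaf 1 527 531) (node 498 (merge (leaf 5 497 625) (node 499 (merge (leaf 6 466 467) (node 497 (merge (leaf 7 465 465) (leaf 1 496 500))))))))))))) (node 626 (merge (leaf 0 591 627) (node 562 (merge (leaf 2 559 563) (node 561 (merge (leaf 7 529 658) (node 559 (merge (leaf 0 558 558) (node 530 (merge (leaf 1 527 531) (node 498 (merge (leaf 5 465 466) (leaf 5 497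 625))))))))))))))))))) (node 624 (merge (node 657 (merge (leaf 4 528 625) (node 656 (merge (leaf 6 528 561) (leaf 4 560 689))))) (merge (node 656 (merge (leaf 6 528 561) (node 688 (merge (leaf 7 559 559) (node 720 (merge (leaf 7 591 623) (node 721 (merge (leaf 4 592 689) (leaf 4 624 753))))))))) (merge (node 657 (merge (leaf 4 528 625) (node 656 (merge (leaf 4 560 689) (node 688 (merge (leaf 7 559 559) (node 720 (merge (leaf 7 591 623) (node 719 (merge (leaf 5 591 687) (leaf 5 623 751))))))))))) (node 625 (merge (leaf 4 528 657) (node 626 (merge (leaf 3 591 627) (node 561 (merge (leaf 4 529 658) (node 530 (merge (leaf 6 497 498) (node 559 (merge (leaf 1 527 531) (leaf 2 526 558)))))))))))))))))))))))))))))))))))) nE_6 cE_6 12 (by decide +kernel)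
def nE_7 : ℕ := 0x100000001000000000000000000000000000000000000000000000000000000000000000000000000000000000000000000000000000000000000000000000000000000000000
def cE_7 : ℕ := 0x280000003c0000003e000000ff8000007f000003ef800001ef000001df8000003c0000003c00000020000000000000000000000000000000000000000000000000000000000000000000000000000000000000000000000000000
theorem lE_7 : S nE_7 cE_7 13 := S_of_chk [] trivial (node 592 (merge (node 496 (merge (node 593 (merge (leaf 4 496 625) (node 464 (merge (leaf 4 464 561) (node 463 (merge (leaf 7 431 431) (leaf 7 463 495))))))) (merge (node 625 (merge (leaf 4 496 593) (node 624 (merge (leaf 4 528 657) (node 623 (merge (leaf 5 495 591) (leaf 5 527 655))))))) (node 623 (merge (leaf 5 495 591) (node 495 (merge (leaf 7 463 463) (node 624 (merge (leaf 7 495 527) (leaf 5 527 655)))))))))) (merge (node 624 (merge (node 657 (merge (leaf 4 528 625) (node 656 (merge (leaf 4 560 689) (node 527 (merge (leaf 7 495 495) (leaf 7 527 559))))))) (merge (node 655 (merge (leaf 5 527 623) (node 656 (merge (leaf 5 559 687) (node 527 (merge (leaf 7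 495 495) (leaf 7 527 559))))))) (node 625 (merge (leaf 4 528 657) (node 623 (merge (leaf 5 527 655) (node 591 (merge (leaf 5 495 496) (node 626 (merge (leaf 3 590 590) (leaf 3 591 627)))))))))))) (merge (node 496 (merge (node 593 (merge (leaf 4 496 625) (node 464 (merge (leaf 4 464 561) (node 463 (merge (leaf 7 431 431) (leaf 7 463 495))))))) (merge (node 625 (merge (leaf 4 496 593) (node 624 (merge (leaf 4 528 657) (node 495 (merge (leaf 7 463 463) (leaf 7 495 527))))))) (merge (node 463 (merge (leaf 7 463 495) (node 464 (merge (leaf 7 431 431) (node 559 (merge (leaf 5 463 591) (node 432 (merge (leaf 5 431 527) (node 433 (merge (leaf 6 400 401) (leaf 6 432 465))))))))))) (node 593 (merge (leaf 4 496 625) (node 464 (merge (leaf 4 464 561) (node 559 (merge (leaf 5 463 591) (node 432 (merge (leaf 5 431 527) (node 433 (merge (leaf 6 400 401) (leaf 6 432 465))))))))))))))) (merge (node 624 (merge (node 657 (merge (leaf 4 528 625) (node 656 (merge (leaf 4 560 689) (node 655 (merge (leaf 5 527 623) (leaf 5 559 687))))))) (merge (node 625 (merge (leaf 4 528 657) (node 593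 (merge (leaf 4 496 496) (node 623 (merge (leaf 5 527 655) (node 622 (merge (leaf 2 590 594) (leaf 2 589 621))))))))) (merge (node 657 (merge (leaf 4 528 625) (node 656 (merge (leaf 4 560 689) (node 559 (merge (leaf 7 527 527) (node 561 (merge (leaf 6 528 529) (node 593 (merge (leaf 6 560 688) (node 558 (merge (leaf 0 557 557) (leaf 0 558 594))))))))))))) (merge (node 655 (merge (leaf 5 527 623) (node 656 (merge (leaf 5 559 687) (node 561 (merge (leaf 6 528 529) (node 593 (merge (leaf 6 560 688) (node 496 (merge (leaf 4 464 464) (leaf 4 496 625))))))))))) (node 655 (merge (leaf 5 527 623) (node 656 (merge (leaf 5 559 687) (node 689 (merge (leaf 4 560 657) (node 688 (merge (leaf 4 592 721) (node 561 (merge (leaf 6 528 529) (leaf 6 560 593)))))))))))))))) (merge (node 624 (merge (node 657 (merge (leaf 4 528 625) (node 656 (merge (leaf 4 560 689) (node 655 (merge (leaf 5 527 623) (leaf 5 559 687))))))) (merge (node 625 (merge (leaf 4 528 657) (node 593 (merge (leaf 4 496 496) (node 623 (merge (leaf 5 527 655) (node 622 (merge (leaf 2 590 594) (leaf 2 589 621))))))))) (merge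 (node 623 (merge (leaf 5 527 655) (node 496 (merge (leaf 5 495 591) (node 463 (merge (leaf 7 463 495) (node 464 (merge (leaf 7 431 431) (node 561 (merge (leaf 4 464 593) (node 529 (merge (leaf 4 432 432) (leaf 6 528 656))))))))))))) (merge (node 625 (merge (leaf 4 528 657) (node 496 (merge (leaf 4 496 593) (node 591 (merge (leaf 5 495 623) (node 590 (merge (leaf 0 589 589) (node 559 (merge (leaf 5 463 464) (node 656 (merge (leaf 7 559 688) (node 561 (merge (leaf 6 528 529) (leaf 1 558 562))))))))))))))) (node 657 (merge (leaf 4 528 625) (node 656 (merge (leaf 4 560 689) (node 687 (merge (leaf 5 559 655) (node 688 (merge (leaf 5 591 719) (node 561 (merge (leaf 6 528 529) (leaf 6 560 593)))))))))))))))) (merge (node 591 (merge (node 623 (merge (leaf 5 495 496) (node 655 (merge (leaf 5 527 624) (leaf 6 559 687))))) (merge (node 496 (merge (leaf 5 495 623) (node 464 (merge (leaf 5 463 559) (node 463 (merge (leaf 7 431 431) (leaf 7 463 495))))))) (merge (node 590 (merge (node 589 (merge (leaf 2 557 561) (node 588 (merge (leaf 2 556 559) (node 620 (merge (leaf 1 587 619)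 (leaf 1 588 621))))))) (merge (node 589 (merge (leaf 2 557 561) (node 621 (merge (leaf 1 588 620) (node 593 (merge (leaf 1 589 622) (node 557 (merge (leaf 3 556 556) (leaf 3 557 558))))))))) (merge (node 589 (merge (leaf 2 557 561) (node 559 (merge (leaf 2 556 588) (node 496 (merge (leaf 5 463 464) (node 495 (merge (leaf 7 463 463) (node 527 (merge (leaf 5 494 622) (leaf 4 495 624))))))))))) (merge (node 557 (merge (node 558 (merge (leaf 3 557 593) (node 559 (merge (leaf 2 525 529) (leaf 0 556 556))))) (merge (node 589 (merge (leaf 3 556 556) (node 588 (merge (leaf 2 556 559) (node 620 (merge (leaf 1 587 619) (leaf 1 588 621))))))) (merge (node 589 (merge (leaf 3 556 556) (node 621 (merge (leaf 1 588 620) (node 593 (merge (leaf 3 557 558) (leaf 1 589 622))))))) (node 558 (merge (leaf 3 557 593) (node 559 (merge (leaf 2 525 529) (node 589 (merge (leaf 1 556 588) (node 621 (merge (leaf 1 588 620) (node 525 (merge (leaf 3 524 524) (node 654 (merge (leaf 7 525 622) (node 653 (merge (leaf 6 525 526) (leaf 4 557 686))))))))))))))))))) (node 593 (merge (node 562 (merge (leaf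 2 558 561) (node 594 (merge (leaf 2 559 563) (node 558 (merge (leaf 3 557 557) (leaf 3 558 559))))))) (merge (node 561 (merge (leaf 2 558 562) (node 496 (merge (leaf 4 464 464) (node 495 (merge (leaf 7 463 463) (node 624 (merge (leaf 7 495 527) (node 656 (merge (leaf 6 528 529) (leaf 6 560 688))))))))))) (node 622 (merge (leaf 1 589 621) (node 558 (merge (leaf 3 557 557) (node 559 (merge (leaf 3 558 594) (node 654 (merge (leaf 6 526 527) (leaf 6 558 686))))))))))))))))) (node 527 (merge (node 495 (merge (leaf 7 495 624) (node 463 (merge (leaf 4 431 431) (leaf 4 463 559))))) (merge (node 624 (merge (leaf 7 495 495) (node 655 (merge (leaf 5 527 623) (node 656 (merge (leaf 5 559 687) (node 561 (merge (leaf 6 528 529) (node 590 (merge (leaf 2 557 589) (node 593 (merge (leaf 2 558 562) (leaf 6 560 688))))))))))))) (merge (node 526 (merge (node 525 (merge (leaf 0 525 561) (node 557 (merge (leaf 1 524 556) (node 529 (merge (leaf 1 525 558) (node 493 (merge (leaf 3 492 492) (leaf 3 493 494))))))))) (merge (node 525 (merge (leaf 0 525 561) (node 559 (merge (leaf 0 524 524)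 (node 557 (merge (leaf 1 524 556) (node 558 (merge (leaf 2 525 529) (leaf 0 557 593))))))))) (node 623 (merge (node 655 (merge (leaf 5 527 624) (leaf 6 559 687))) (merge (node 559 (merge (leaf 7 494 494) (leaf 6 527 655))) (node 559 (merge (leaf 7 494 494) (node 624 (merge (leaf 7 527 656) (node 622 (merge (leaf 5 526 654) (node 593 (merge (leaf 1 590 594) (leaf 2 589 621))))))))))))))) (node 559 (merge (node 495 (merge (leaf 4 463 463) (node 590 (merge (leaf 5 494 622) (node 589 (merge (leaf 2 557 561) (leaf 2 556 588))))))) (merge (node 623 (merge (leaf 6 527 655) (node 622 (merge (leaf 5 526 654) (node 495 (merge (leaf 5 494 590) (node 463 (merge (leaf 4 431 431) (node 462 (merge (leaf 7 430 430) (leaf 7 462 494))))))))))) (merge (node 495 (merge (leaf 4 463 463) (node 623 (merge (leaf 6 527 655) (node 494 (merge (leaf 7 462 462) (leaf 7 494 526))))))) (node 623 (merge (leaf 6 527 655) (node 526 (merge (leaf 7 494 494) (node 525 (merge (leaf 0 524 524) (leaf 0 525 561))))))))))))))))))) (merge (node 591 (merge (node 496 (merge (leaf 5 495 623) (node 464 (merge (leaf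 5 463 559) (node 463 (merge (leaf 7 431 431) (leaf 7 463 495))))))) (merge (node 496 (merge (leaf 5 495 623) (node 593 (merge (leaf 4 496 625) (node 561 (merge (leaf 4 464 464) (node 590 (merge (leaf 2 558 562) (leaf 2 557 589))))))))) (merge (node 590 (merge (node 561 (merge (leaf 2 557 589) (node 593 (merge (leaf 2 558 562) (node 625 (merge (leaf 0 590 626) (leaf 7 528 657))))))) (merge (node 589 (merge (leaf 2 557 561) (node 588 (merge (leaf 2 556 559) (node 620 (merge (leaf 1 587 619) (leaf 1 588 621))))))) (merge (node 557 (merge (node 589 (merge (leaf 3 556 556) (node 588 (merge (leaf 2 556 559) (node 620 (merge (leaf 1 587 619) (leaf 1 588 621))))))) (merge (node 593 (merge (leaf 3 557 558) (node 496 (merge (leaf 4 496 625) (node 559 (merge (leaf 5 463 464) (node 495 (merge (leaf 7 463 463) (node 527 (merge (leaf 5 494 622) (node 494 (merge (leaf 7 462 462) (node 529 (merge (leaf 0 493 493) (leaf 3 494 530))))))))))))))) (node 589 (merge (leaf 3 556 556) (node 621 (merge (leaf 1 588 620) (node 593 (merge (leaf 3 557 558) (leaf 1 589 622)))))))))) (node 593 (merge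 (node 625 (merge (leaf 0 590 626) (node 561 (merge (leaf 2 558 562) (leaf 7 528 657))))) (merge (node 496 (merge (leaf 4 496 625) (node 464 (merge (leaf 5 463 559) (leaf 4 464 561))))) (merge (node 562 (merge (leaf 2 558 561) (node 594 (merge (leaf 2 559 563) (node 558 (merge (leaf 3 557 557) (leaf 3 558 559))))))) (node 622 (merge (leaf 1 589 621) (node 496 (merge (leaf 4 496 625) (node 559 (merge (leaf 5 463 464) (node 495 (merge (leaf 7 463 463) (leaf 5 494 527))))))))))))))))) (node 590 (merge (node 561 (merge (leaf 2 557 589) (node 593 (merge (leaf 2 558 562) (node 625 (merge (leaf 0 590 626) (leaf 7 528 657))))))) (merge (node 589 (merge (leaf 2 557 561) (node 588 (merge (leaf 2 556 559) (node 620 (merge (leaf 1 587 619) (leaf 1 588 621))))))) (merge (node 593 (merge (node 625 (merge (leaf 0 590 626) (node 561 (merge (leaf 2 558 562) (leaf 7 528 657))))) (merge (node 562 (merge (leaf 2 558 561) (node 594 (merge (leaf 2 559 563) (node 558 (merge (leaf 3 557 557) (leaf 3 558 559))))))) (merge (node 626 (merge (leaf 0 590 625) (node 594 (merge (leaf 0 591 627) (node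 622 (merge (leaf 1 589 621) (leaf 1 590 623))))))) (node 626 (merge (leaf 0 590 625) (node 594 (merge (leaf 0 591 627) (node 558 (merge (leaf 3 557 557) (leaf 3 558 559))))))))))) (node 621 (merge (node 589 (merge (leaf 1 588 620) (node 593 (merge (leaf 1 589 622) (node 557 (merge (leaf 3 556 556) (leaf 3 557 558))))))) (merge (node 593 (merge (leaf 1 589 622) (node 626 (merge (leaf 0 590 625) (node 594 (merge (leaf 0 591 627) (node 558 (merge (leaf 3 557 557) (leaf 3 558 559))))))))) (merge (node 620 (merge (leaf 1 588 589) (node 622 (merge (leaf 1 589 593) (leaf 2 588 623))))) (merge (node 589 (merge (leaf 1 588 620) (node 588 (merge (leaf 2 556 559) (node 556 (merge (leaf 3 555 555) (leaf 3 556 557))))))) (merge (node 589 (merge (leaf 1 588 620) (node 559 (merge (leaf 2 556 588) (node 557 (merge (leaf 3 556 556) (node 558 (merge (leaf 2 525 529) (leaf 0 557 593))))))))) (node 589 (merge (leaf 1 588 620) (node 559 (merge (leaf 2 556 588) (node 557 (merge (leaf 3 556 556) (node 558 (merge (leaf 2 525 529) (node 525 (merge (leaf 3 524 524) (node 622 (merge (leaf 4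 493 493) (leaf 7 525 654))))))))))))))))))))))))))) (node 527 (merge (node 624 (merge (leaf 7 495 495) (node 656 (merge (leaf 7 527 559) (node 657 (merge (leaf 4 528 625) (leaf 4 560 689))))))) (merge (node 624 (merge (leaf 7 495 495) (node 657 (merge (leaf 4 528 625) (node 656 (merge (leaf 4 560 689) (node 655 (merge (leaf 5 527 623) (leaf 5 559 687))))))))) (merge (node 526 (merge (node 561 (merge (leaf 0 525 525) (node 562 (merge (leaf 0 526 529) (leaf 3 527 563))))) (merge (node 561 (merge (leaf 0 525 525) (node 562 (merge (leaf 3 526 559) (leaf 3 527 563))))) (merge (node 559 (merge (node 525 (merge (leaf 0 524 524) (node 557 (merge (leaf 1 524 556) (node 529 (merge (leaf 2 525 558) (node 493 (merge (leaf 3 492 492) (leaf 3 493 494))))))))) (merge (node 624 (merge (leaf 7 527 656) (node 625 (merge (leaf 4 528 657) (node 623 (merge (leaf 5 527 655) (node 591 (merge (leaf 7 494 494) (node 626 (merge (leaf 3 590 590) (leaf 3 591 627))))))))))) (node 525 (merge (leaf 0 524 524) (node 557 (merge (leaf 1 524 556) (node 558 (merge (leaf 1 525 529) (leaf 0 557 593))))))))))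 (node 529 (merge (node 558 (merge (leaf 1 525 557) (node 530 (merge (leaf 1 526 559) (node 563 (merge (leaf 0 527 562) (node 531 (merge (leaf 0 528 564) (node 499 (merge (leaf 2 495 498) (leaf 2 496 500))))))))))) (merge (node 558 (merge (leaf 1 525 557) (node 530 (merge (leaf 1 526 559) (node 499 (merge (leaf 2 495 498) (node 531 (merge (leaf 2 496 500) (node 564 (merge (leaf 0 528 563) (node 532 (merge (leaf 1 528 561) (leaf 0 529 565))))))))))))) (merge (node 561 (merge (leaf 0 526 562) (node 494 (merge (leaf 3 493 493) (node 624 (merge (leaf 6 528 656) (node 625 (merge (leaf 4 528 657) (node 623 (merge (leaf 5 527 655) (node 591 (merge (leaf 7 494 559) (node 590 (merge (leaf 0 589 589) (leaf 3 590 626))))))))))))))) (node 561 (merge (leaf 0 526 562) (node 558 (merge (leaf 1 525 557) (node 494 (merge (leaf 3 493 493) (node 624 (merge (leaf 6 528 656) (node 625 (merge (leaf 4 528 657) (node 623 (merge (leaf 5 527 655) (node 590 (merge (leaf 4 494 591) (node 589 (merge (leaf 5 493 621) (leaf 3 589 622))))))))))))))))))))))))) (node 526 (merge (node 561 (merge (leaf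 0 525 525) (node 562 (merge (leaf 0 526 529) (leaf 3 527 563))))) (merge (node 561 (merge (leaf 0 525 525) (node 562 (merge (leaf 3 526 559) (leaf 3 527 563))))) (merge (node 525 (merge (leaf 0 525 561) (node 559 (merge (leaf 0 524 524) (node 557 (merge (leaf 1 524 556) (node 558 (merge (leaf 2 525 529) (leaf 0 557 593))))))))) (merge (node 529 (merge (node 493 (merge (leaf 3 493 494) (node 525 (merge (leaf 3 492 492) (node 524 (merge (leaf 0 524 559) (node 556 (merge (leaf 1 523 555) (leaf 1 524 557))))))))) (merge (node 494 (merge (leaf 3 493 493) (node 530 (merge (leaf 3 494 495) (node 563 (merge (leaf 0 527 562) (node 531 (merge (leaf 0 528 564) (node 499 (merge (leaf 2 495 498) (leaf 2 496 500))))))))))) (node 558 (merge (leaf 1 525 557) (node 530 (merge (leaf 1 526 559) (node 563 (merge (leaf 0 527 562) (node 531 (merge (leaf 0 528 564) (node 499 (merge (leaf 2 495 498) (leaf 2 496 500)))))))))))))) (node 494 (merge (node 493 (merge (leaf 3 493 529) (node 492 (merge (leaf 0 491 491) (leaf 0 492 495))))) (merge (node 529 (merge (leaf 3 493 493) (node 558 (merge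 (leaf 1 525 557) (node 530 (merge (leaf 1 526 559) (node 563 (merge (leaf 0 527 562) (node 531 (merge (leaf 0 528 564) (node 499 (merge (leaf 2 495 498) (leaf 2 496 500))))))))))))) (node 559 (merge (node 462 (merge (leaf 4 430 430) (node 591 (merge (leaf 4 462 558) (leaf 7 494 623))))) (merge (node 495 (merge (leaf 4 463 463) (node 591 (merge (leaf 7 494 623) (node 590 (merge (leaf 5 494 622) (node 589 (merge (leaf 2 557 561) (leaf 2 556 588))))))))) (node 462 (merge (leaf 4 430 430) (node 463 (merge (leaf 4 463 495) (node 558 (merge (leaf 6 430 431) (node 557 (merge (leaf 2 524 556) (leaf 0 557 593)))))))))))))))))))))))))))))))) nE_7 cE_7 13 (by decide +kernel)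
def nE_8 : ℕ := 0x100000001000000000000000000000000000000000000000000000000000000000000000000000000000000000000000000000000000000000000000000000000000000000000
def cE_8 : ℕ := 0x28000000380000003c0000003f0000007f800003ef000003ef800001fe000003f70000007c00000078000000280000000000000000000000000000000000000000000000000000000000000000000000000000000000000000000
theorem lE_8 : S nE_8 cE_8 13 := S_of_chk [] trivial (node 496 (merge (node 592 (merge (node 625 (merge (leaf 4 496 593) (node 497 (merge (leaf 6 464 465) (node 624 (merge (leaf 6 496 529) (leaf 4 528 657))))))) (merge (node 465 (merge (leaf 6 464 497) (node 464 (merge (leaf 6 432 433) (node 591 (merge (leaf 5 463 559) (leaf 5 495 623))))))) (node 625 (merge (leaf 4 496 593) (node 624 (merge (leaf 4 528 657) (node 623 (merge (leaf 5 495 591) (leaf 5 527 655)))))))))) (merge (node 464 (merge (node 593 (merge (leaf 4 464 561) (node 465 (merge (leaf 6 432 433) (node 592 (merge (leaf 6 464 497) (leaf 4 496 625))))))) (merge (node 561 (merge (leaf 4 464 593) (node 432 (merge (leaf 4 432 529) (node 559 (merge (leaf 5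 431 527) (leaf 5 463 591))))))) (node 465 (merge (leaf 6 432 433) (node 592 (merge (leaf 6 464 497) (node 591 (merge (leaf 5 463 559) (leaf 5 495 623)))))))))) (merge (node 592 (merge (node 625 (merge (leaf 4 496 593) (node 497 (merge (leaf 6 464 465) (node 624 (merge (leaf 6 496 529) (leaf 4 528 657))))))) (merge (node 625 (merge (leaf 4 496 593) (node 624 (merge (leaf 4 528 657) (node 623 (merge (leaf 5 495 591) (leaf 5 527 655))))))) (merge (node 497 (merge (leaf 6 464 465) (node 624 (merge (leaf 6 496 529) (node 623 (merge (leaf 5 495 591) (leaf 5 527 655))))))) (node 593 (merge (leaf 4 496 625) (node 561 (merge (leaf 4 464 464) (node 591 (merge (leaf 5 495 623) (node 590 (merge (leaf 2 558 562) (leaf 2 557 589))))))))))))) (merge (node 591 (merge (node 559 (merge (leaf 5 463 464) (node 623 (merge (leaf 6 495 527) (leaf 6 527 655))))) (merge (node 623 (merge (leaf 5 495 592) (node 559 (merge (leaf 6 495 527) (leaf 6 527 655))))) (merge (node 464 (merge (leaf 5 463 559) (node 593 (merge (leaf 4 464 561) (node 465 (merge (leaf 6 432 433) (node 592 (merge (leaf 6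 464 497) (leaf 4 496 625))))))))) (node 592 (merge (leaf 5 495 623) (node 593 (merge (leaf 4 496 625) (node 561 (merge (leaf 4 464 464) (node 590 (merge (leaf 2 558 562) (leaf 2 557 589))))))))))))) (merge (node 591 (merge (node 623 (merge (leaf 5 495 592) (node 559 (merge (leaf 6 495 527) (leaf 6 527 655))))) (merge (node 464 (merge (leaf 5 463 559) (node 561 (merge (leaf 4 464 593) (node 432 (merge (leaf 4 432 529) (node 433 (merge (leaf 6 400 401) (leaf 6 432 465))))))))) (node 592 (merge (leaf 5 495 623) (node 465 (merge (leaf 6 464 497) (node 464 (merge (leaf 6 432 433) (node 561 (merge (leaf 4 464 593) (node 562 (merge (leaf 1 559 563) (node 529 (merge (leaf 4 432 432) (node 527 (merge (leaf 0 526 526) (node 624 (merge (leaf 7 495 495) (leaf 6 528 656)))))))))))))))))))) (merge (node 464 (merge (node 593 (merge (leaf 4 464 561) (node 465 (merge (leaf 6 432 433) (node 592 (merge (leaf 6 464 497) (leaf 4 496 625))))))) (merge (node 561 (merge (leaf 4 464 593) (node 432 (merge (leaf 4 432 529) (node 527 (merge (leaf 5 431 559) (node 400 (merge (leaf 5 399 495) (node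 401 (merge (leaf 6 368 369) (leaf 6 400 433))))))))))) (merge (node 433 (merge (leaf 6 432 465) (node 432 (merge (leaf 6 400 401) (node 529 (merge (leaf 4 432 561) (node 400 (merge (leaf 4 400 497) (node 399 (merge (leaf 7 367 367) (leaf 7 399 431))))))))))) (merge (node 561 (merge (leaf 4 464 593) (node 432 (merge (leaf 4 432 529) (node 527 (merge (leaf 5 431 559) (node 526 (merge (leaf 0 525 525) (node 495 (merge (leaf 5 399 400) (node 497 (merge (leaf 1 494 498) (node 592 (merge (leaf 6 464 465) (leaf 7 495 624))))))))))))))) (node 465 (merge (leaf 6 432 433) (node 592 (merge (leaf 6 464 497) (node 625 (merge (leaf 4 496 593) (node 624 (merge (leaf 4 528 657) (node 655 (merge (leaf 5 527 623) (node 656 (merge (leaf 5 559 687) (node 527 (merge (leaf 7 495 495) (leaf 7 527 559)))))))))))))))))))) (merge (node 592 (merge (node 625 (merge (leaf 4 496 593) (node 497 (merge (leaf 6 464 465) (node 624 (merge (leaf 6 496 529) (leaf 4 528 657))))))) (merge (node 593 (merge (leaf 4 496 625) (node 464 (merge (leaf 4 464 561) (node 559 (merge (leaf 5 463 591) (node 432 (merge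 (leaf 5 431 527) (node 401 (merge (leaf 6 400 433) (node 400 (merge (leaf 6 368 369) (node 399 (merge (leaf 7 367 367) (leaf 7 399 431))))))))))))))) (merge (node 497 (merge (leaf 6 464 465) (node 624 (merge (leaf 6 496 529) (node 657 (merge (leaf 4 528 625) (node 656 (merge (leaf 4 560 689) (node 527 (merge (leaf 7 495 495) (leaf 7 527 559))))))))))) (node 497 (merge (leaf 6 464 465) (node 624 (merge (leaf 6 496 529) (node 527 (merge (leaf 7 495 495) (node 656 (merge (leaf 7 527 559) (node 689 (merge (leaf 4 560 657) (node 688 (merge (leaf 4 592 721) (node 687 (merge (leaf 5 559 655) (leaf 5 591 719))))))))))))))))))) (merge (node 559 (merge (node 591 (merge (leaf 5 463 464) (node 623 (merge (leaf 6 495 527) (leaf 6 527 655))))) (merge (node 561 (merge (node 593 (merge (leaf 4 464 464) (node 625 (merge (leaf 7 496 529) (leaf 7 528 657))))) (merge (node 558 (merge (node 529 (merge (leaf 2 526 530) (leaf 2 525 557))) (merge (node 589 (merge (leaf 1 557 590) (node 557 (merge (leaf 1 556 588) (node 525 (merge (leaf 3 524 524) (leaf 3 525 526))))))) (node 530 (merge (leaf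 2 526 529) (node 562 (merge (leaf 2 527 531) (node 526 (merge (leaf 3 525 525) (leaf 3 526 527)))))))))) (node 593 (merge (leaf 4 464 464) (node 558 (merge (leaf 0 558 594) (node 590 (merge (leaf 1 557 589) (node 526 (merge (leaf 3 525 525) (node 527 (merge (leaf 3 526 562) (node 622 (merge (leaf 6 494 495) (leaf 6 526 654)))))))))))))))) (merge (node 561 (merge (node 464 (merge (leaf 5 463 591) (leaf 4 464 593))) (merge (node 593 (merge (leaf 4 464 464) (node 625 (merge (leaf 7 496 529) (leaf 7 528 657))))) (node 558 (merge (node 529 (merge (leaf 2 526 530) (leaf 2 525 557))) (node 590 (merge (leaf 1 557 589) (node 591 (merge (leaf 1 558 562) (node 526 (merge (leaf 3 525 525) (node 623 (merge (leaf 4 494 494) (leaf 7 526 655)))))))))))))) (node 558 (merge (node 529 (merge (leaf 2 525 557) (node 561 (merge (leaf 2 526 530) (node 593 (merge (leaf 0 558 594) (leaf 7 496 625))))))) (merge (node 557 (merge (leaf 2 525 529) (node 556 (merge (leaf 2 524 527) (node 588 (merge (leaf 1 555 587) (leaf 1 556 589))))))) (merge (node 561 (merge (node 593 (merge (leaf 0 558 594)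 (node 625 (merge (leaf 7 528 657) (node 529 (merge (leaf 7 496 496) (leaf 2 526 530))))))) (node 590 (merge (leaf 1 557 589) (node 562 (merge (leaf 1 558 591) (node 526 (merge (leaf 3 525 525) (leaf 3 526 527))))))))) (node 557 (merge (node 556 (merge (leaf 2 524 527) (node 588 (merge (leaf 1 555 587) (leaf 1 556 589))))) (merge (node 589 (merge (leaf 1 556 588) (node 561 (merge (leaf 1 557 590) (node 525 (merge (leaf 3 524 524) (leaf 3 525 526))))))) (node 527 (merge (leaf 2 524 556) (node 525 (merge (leaf 3 524 524) (node 561 (merge (leaf 0 525 526) (node 562 (merge (leaf 3 527 563) (node 591 (merge (leaf 1 558 590) (leaf 6 495 623)))))))))))))))))))))) (merge (node 559 (merge (node 591 (merge (leaf 5 463 464) (node 623 (merge (leaf 6 495 527) (leaf 6 527 655))))) (merge (node 464 (merge (leaf 5 463 591) (node 433 (merge (leaf 6 432 465) (node 432 (merge (leaf 6 400 401) (node 529 (merge (leaf 4 432 561) (node 400 (merge (leaf 4 400 497) (node 399 (merge (leaf 7 367 367) (leaf 7 399 431))))))))))))) (merge (node 561 (merge (node 591 (merge (node 623 (merge (leaf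 5 495 592) (leaf 6 527 655))) (merge (node 623 (merge (leaf 6 495 527) (leaf 6 527 655))) (node 562 (merge (leaf 1 558 590) (node 563 (merge (leaf 3 527 527) (leaf 1 559 592)))))))) (merge (node 558 (merge (node 529 (merge (leaf 2 526 530) (leaf 2 525 557))) (node 590 (merge (leaf 1 557 589) (node 591 (merge (leaf 1 558 562) (node 526 (merge (leaf 3 525 525) (node 623 (merge (leaf 4 494 494) (leaf 7 526 655))))))))))) (merge (node 530 (merge (node 531 (merge (leaf 1 527 529) (leaf 2 527 562))) (merge (node 562 (merge (leaf 2 527 531) (node 527 (merge (leaf 3 526 526) (leaf 3 527 563))))) (node 558 (merge (leaf 2 526 529) (node 525 (merge (leaf 3 525 526) (node 557 (merge (leaf 3 524 524) (node 588 (merge (leaf 1 556 589) (node 556 (merge (leaf 2 524 527) (leaf 1 555 587)))))))))))))) (node 497 (merge (node 465 (merge (leaf 6 464 592) (node 433 (merge (leaf 5 400 401) (leaf 5 432 529))))) (merge (node 592 (merge (leaf 6 464 465) (node 623 (merge (leaf 5 495 591) (node 624 (merge (leaf 5 527 655) (node 656 (merge (leaf 7 527 527) (node 657 (merge (leaf 4 528 625) (leaf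 4 560 689))))))))))) (merge (node 558 (merge (node 529 (merge (leaf 2 526 530) (leaf 2 525 557))) (merge (node 525 (merge (leaf 3 525 526) (node 557 (merge (leaf 3 524 524) (node 588 (merge (leaf 1 556 589) (node 556 (merge (leaf 2 524 527) (leaf 1 555 587))))))))) (node 590 (merge (leaf 1 557 589) (node 529 (merge (leaf 2 526 530) (node 526 (merge (leaf 3 525 525) (node 527 (merge (leaf 2 494 498) (node 622 (merge (leaf 6 494 495) (node 623 (merge (leaf 6 495 591) (leaf 4 526 655)))))))))))))))) (node 558 (merge (node 529 (merge (leaf 2 526 530) (leaf 2 525 557))) (merge (node 525 (merge (leaf 3 525 526) (node 557 (merge (leaf 3 524 524) (node 588 (merge (leaf 1 556 589) (node 556 (merge (leaf 2 524 527) (leaf 1 555 587))))))))) (node 590 (merge (leaf 1 557 589) (node 529 (merge (leaf 2 526 530) (node 526 (merge (leaf 3 525 525) (node 527 (merge (leaf 2 494 498) (node 622 (merge (leaf 6 494 495) (node 623 (merge (leaf 6 495 591) (leaf 4 526 655)))))))))))))))))))))))) (node 558 (merge (node 529 (merge (leaf 2 525 557) (node 530 (merge (leaf 1 526 527) (leaf 1 527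 531))))) (merge (node 557 (merge (leaf 2 525 529) (node 588 (merge (leaf 1 556 589) (node 556 (merge (leaf 1 555 587) (node 524 (merge (leaf 3 523 523) (leaf 3 524 525))))))))) (merge (node 557 (merge (node 556 (merge (leaf 2 524 527) (node 588 (merge (leaf 1 555 587) (leaf 1 556 589))))) (merge (node 589 (merge (leaf 1 556 588) (node 561 (merge (leaf 1 557 590) (node 525 (merge (leaf 3 524 524) (leaf 3 525 526))))))) (node 527 (merge (leaf 2 524 556) (node 525 (merge (leaf 3 524 524) (node 526 (merge (leaf 2 493 497) (leaf 0 525 561)))))))))) (node 561 (merge (node 530 (merge (leaf 2 526 529) (node 562 (merge (leaf 2 527 531) (node 526 (merge (leaf 3 525 525) (leaf 3 526 527))))))) (merge (node 590 (merge (leaf 1 557 589) (node 526 (merge (leaf 3 525 525) (node 527 (merge (leaf 3 526 562) (node 622 (merge (leaf 6 494 495) (leaf 6 526 654))))))))) (merge (node 529 (merge (leaf 2 526 530) (node 464 (merge (leaf 4 432 432) (node 465 (merge (leaf 6 432 433) (node 497 (merge (leaf 5 464 592) (node 466 (merge (leaf 6 433 434) (node 495 (merge (leaf 1 463 467) (leaf 2 462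 494))))))))))))) (node 529 (merge (leaf 2 526 530) (node 464 (merge (leaf 4 432 432) (node 465 (merge (leaf 6 432 433) (node 497 (merge (leaf 5 464 592) (node 562 (merge (leaf 4 465 594) (node 563 (merge (leaf 3 527 527) (leaf 3 528 564))))))))))))))))))))))))) (node 497 (merge (node 465 (merge (leaf 6 464 592) (node 433 (merge (leaf 5 400 401) (leaf 5 432 529))))) (merge (node 592 (merge (leaf 6 464 465) (node 625 (merge (leaf 4 496 593) (node 624 (merge (leaf 4 528 657) (node 623 (merge (leaf 5 495 591) (leaf 5 527 655))))))))) (merge (node 498 (merge (node 527 (merge (leaf 1 495 499) (node 526 (merge (leaf 1 494 495) (leaf 2 493 525))))) (merge (node 499 (merge (leaf 1 495 527) (node 532 (merge (leaf 0 496 531) (node 500 (merge (leaf 1 496 529) (leaf 0 497 533))))))) (merge (node 499 (merge (node 532 (merge (leaf 0 496 531) (node 500 (merge (leaf 1 496 529) (leaf 0 497 533))))) (merge (node 531 (merge (leaf 0 496 532) (node 495 (merge (leaf 0 495 530) (node 467 (merge (leaf 2 463 466) (leaf 2 464 468))))))) (node 529 (merge (leaf 1 496 500) (node 467 (merge (leaf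 2 464 468) (node 495 (merge (leaf 2 463 466) (node 494 (merge (leaf 0 493 493) (leaf 0 494 530)))))))))))) (node 530 (merge (node 529 (merge (node 531 (merge (leaf 3 496 532) (leaf 1 527 559))) (node 465 (merge (leaf 5 432 433) (node 562 (merge (leaf 7 465 594) (node 563 (merge (leaf 0 527 527) (node 564 (merge (leaf 3 528 561) (leaf 3 529 565))))))))))) (merge (node 495 (merge (leaf 0 495 531) (node 526 (merge (leaf 1 494 527) (node 494 (merge (leaf 1 493 525) (node 466 (merge (leaf 2 462 465) (leaf 2 463 467))))))))) (merge (node 495 (merge (leaf 0 495 531) (node 494 (merge (leaf 0 494 529) (node 525 (merge (leaf 1 493 526) (node 493 (merge (leaf 1 492 524) (node 461 (merge (leaf 3 460 460) (leaf 3 461 462))))))))))) (node 529 (merge (node 495 (merge (leaf 0 494 494) (node 466 (merge (leaf 2 463 467) (node 434 (merge (leaf 5 401 402) (leaf 5 433 561))))))) (merge (node 495 (merge (leaf 0 494 494) (node 466 (merge (leaf 2 463 467) (node 561 (merge (leaf 5 433 434) (leaf 6 465 593))))))) (node 527 (merge (leaf 2 494 526) (node 562 (merge (leaf 0 527 563) (node 465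 (merge (leaf 4 433 433) (leaf 7 465 594)))))))))))))))))) (node 498 (merge (node 527 (merge (leaf 1 495 499) (node 526 (merge (leaf 1 494 495) (leaf 2 493 525))))) (merge (node 499 (merge (leaf 1 495 527) (node 468 (merge (leaf 2 464 467) (node 500 (merge (leaf 2 465 469) (leaf 1 496 529))))))) (merge (node 499 (merge (node 532 (merge (leaf 0 496 531) (node 500 (merge (leaf 1 496 529) (leaf 0 497 533))))) (merge (node 531 (merge (leaf 0 496 532) (node 495 (merge (leaf 0 495 530) (node 467 (merge (leaf 2 463 466) (leaf 2 464 468))))))) (node 529 (merge (leaf 1 496 500) (node 467 (merge (leaf 2 464 468) (node 495 (merge (leaf 2 463 466) (node 494 (merge (leaf 0 493 493) (leaf 0 494 530)))))))))))) (node 529 (merge (node 592 (merge (leaf 6 496 624) (node 593 (merge (leaf 4 496 625) (node 591 (merge (leaf 5 495 623) (node 561 (merge (leaf 6 465 466) (node 590 (merge (leaf 2 558 562) (leaf 2 557 589))))))))))) (merge (node 495 (merge (node 530 (merge (leaf 0 494 494) (leaf 0 495 531))) (merge (node 494 (merge (leaf 0 493 493) (node 526 (merge (leaf 1 493 525) (node 527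 (merge (leaf 1 494 498) (node 462 (merge (leaf 3 461 461) (node 559 (merge (leaf 4 430 430) (leaf 7 462 591))))))))))) (node 530 (merge (leaf 0 495 531) (node 527 (merge (leaf 1 494 526) (node 562 (merge (leaf 0 527 563) (node 559 (merge (leaf 1 526 558) (node 591 (merge (leaf 6 495 623) (node 590 (merge (leaf 1 558 561) (leaf 5 494 622)))))))))))))))) (merge (node 495 (merge (node 530 (merge (leaf 0 494 494) (leaf 0 495 531))) (merge (node 494 (merge (leaf 0 493 493) (node 526 (merge (leaf 1 493 525) (leaf 1 494 527))))) (node 530 (merge (leaf 0 495 531) (node 466 (merge (leaf 2 463 467) (node 434 (merge (leaf 5 401 402) (leaf 5 433 561)))))))))) (node 558 (merge (node 559 (merge (leaf 2 525 557) (node 530 (merge (leaf 1 526 527) (leaf 1 527 531))))) (merge (node 557 (merge (leaf 2 525 559) (node 592 (merge (leaf 6 496 624) (node 593 (merge (leaf 4 496 625) (node 591 (merge (leaf 3 557 590) (leaf 5 495 623))))))))) (merge (node 527 (merge (leaf 2 494 526) (node 530 (merge (leaf 1 526 559) (node 531 (merge (leaf 0 495 495) (leaf 3 496 532))))))) (node 526 (merge (leaf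 2 494 527) (node 592 (merge (leaf 6 496 624) (node 593 (merge (leaf 4 496 625) (node 591 (merge (leaf 5 495 623) (node 590 (merge (leaf 3 557 557) (node 621 (merge (leaf 1 589 622) (node 589 (merge (leaf 5 493 494) (leaf 1 588 620))))))))))))))))))))))))))))))))))))))))) nE_8 cE_8 13 (by decide +kernel)
def nE_9 : ℕ := 0x100000001000000000000000000000000000000000000000000000000000000000000000000000000000000000000000000000000000000000000000000000000000000000000
def cE_9 : ℕ := 0x28000000380000003c000000ff8000007f000003ef800001ef000001fe0000005c0000003800000038000000280000000000000000000000000000000000000000000000000000000000000000000000000000000000000000000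
theorem lE_9 : S nE_9 cE_9 12 := S_of_chk [] trivial (node 592 (merge (node 624 (merge (node 657 (merge (leaf 4 528 625) (node 529 (merge (leaf 6 496 497) (node 656 (merge (leaf 6 528 561) (leaf 4 560 689))))))) (merge (node 657 (merge (leaf 4 528 625) (node 656 (merge (leaf 4 560 689) (node 655 (merge (leaf 5 527 623) (leaf 5 559 687))))))) (merge (node 529 (merge (leaf 6 496 497) (node 656 (merge (leaf 6 528 561) (node 655 (merge (leaf 5 527 623) (leaf 5 559 687))))))) (node 625 (merge (leaf 4 528 657) (node 496 (merge (leaf 4 496 593) (node 623 (merge (leaf 5 495 591) (leaf 5 527 655))))))))))) (merge (node 624 (merge (node 657 (merge (leaf 4 528 625) (node 656 (merge (leaf 4 560 689) (node 655 (merge (leaf 5 527 623) (leaf 5 559 687))))))) (merge (node 657 (merge (leaf 4 528 625) (node 656 (merge (leaf 4 560 689) (node 527 (merge (leaf 7 495 495) (leaf 7 527 559))))))) (merge (node 655 (merge (leaf 5 527 623) (node 656 (merge (leaf 5 559 687) (node 527 (merge (leaf 7 495 495) (leaf 7 527 559))))))) (node 625 (merge (leaf 4 528 657) (node 593 (merge (leaf 4 496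 496) (node 623 (merge (leaf 5 527 655) (node 622 (merge (leaf 2 590 594) (leaf 2 589 621))))))))))))) (merge (node 624 (merge (node 529 (merge (leaf 6 496 497) (node 656 (merge (leaf 6 528 561) (node 655 (merge (leaf 5 527 623) (leaf 5 559 687))))))) (merge (node 655 (merge (leaf 5 527 623) (node 656 (merge (leaf 5 559 687) (node 527 (merge (leaf 7 495 495) (leaf 7 527 559))))))) (merge (node 529 (merge (leaf 6 496 497) (node 656 (merge (leaf 6 528 561) (node 559 (merge (leaf 7 527 527) (node 688 (merge (leaf 7 559 591) (node 689 (merge (leaf 4 560 657) (leaf 4 592 721))))))))))) (node 625 (merge (leaf 4 528 657) (node 623 (merge (leaf 5 527 655) (node 591 (merge (leaf 5 495 496) (node 626 (merge (leaf 3 590 590) (leaf 3 591 627))))))))))))) (merge (node 496 (merge (node 593 (merge (leaf 4 496 625) (node 464 (merge (leaf 4 464 561) (node 463 (merge (leaf 7 431 431) (leaf 7 463 495))))))) (merge (node 625 (merge (leaf 4 496 593) (node 624 (merge (leaf 4 528 657) (node 495 (merge (leaf 7 463 463) (leaf 7 495 527))))))) (merge (node 625 (merge (leaf 4 496 593) (node 624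 (merge (leaf 4 528 657) (node 529 (merge (leaf 6 496 497) (node 561 (merge (leaf 6 528 656) (node 464 (merge (leaf 4 432 432) (node 559 (merge (leaf 5 463 591) (node 558 (merge (leaf 2 526 530) (leaf 2 525 557))))))))))))))) (node 495 (merge (leaf 7 463 463) (node 624 (merge (leaf 7 495 527) (node 529 (merge (leaf 6 496 497) (node 656 (merge (leaf 6 528 561) (node 689 (merge (leaf 4 560 657) (node 688 (merge (leaf 4 592 721) (node 687 (merge (leaf 5 559 655) (leaf 5 591 719))))))))))))))))))) (merge (node 496 (merge (node 625 (merge (leaf 4 496 593) (node 624 (merge (leaf 4 528 657) (node 495 (merge (leaf 7 463 463) (leaf 7 495 527))))))) (merge (node 591 (merge (leaf 5 495 623) (node 464 (merge (leaf 5 463 559) (node 561 (merge (leaf 4 464 593) (node 432 (merge (leaf 4 432 529) (node 401 (merge (leaf 6 400 433) (node 400 (merge (leaf 6 368 369) (node 399 (merge (leaf 7 367 367) (leaf 7 399 431))))))))))))))) (node 495 (merge (leaf 7 463 463) (node 624 (merge (leaf 7 495 527) (node 657 (merge (leaf 4 528 625) (node 656 (merge (leaf 4 560 689) (node 529 (merge (leaf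 6 496 497) (leaf 6 528 561)))))))))))))) (merge (node 529 (merge (node 624 (merge (leaf 6 496 497) (node 656 (merge (leaf 6 528 561) (node 655 (merge (leaf 5 527 623) (leaf 5 559 687))))))) (merge (node 624 (merge (leaf 6 496 497) (node 623 (merge (leaf 5 527 655) (node 496 (merge (leaf 5 495 591) (node 495 (merge (leaf 7 463 463) (leaf 7 495 527))))))))) (merge (node 624 (merge (node 656 (merge (leaf 6 528 561) (node 655 (merge (leaf 5 527 623) (leaf 5 559 687))))) (merge (node 656 (merge (leaf 6 528 561) (node 527 (merge (leaf 7 495 495) (leaf 7 527 559))))) (merge (node 655 (merge (leaf 5 527 623) (node 656 (merge (leaf 5 559 687) (node 527 (merge (leaf 7 495 495) (leaf 7 527 559))))))) (node 495 (merge (leaf 7 495 527) (node 496 (merge (leaf 7 463 463) (node 591 (merge (leaf 5 495 623) (node 464 (merge (leaf 5 463 559) (node 561 (merge (leaf 4 432 432) (leaf 4 464 593))))))))))))))) (node 530 (merge (node 531 (merge (leaf 1 527 559) (node 564 (merge (leaf 0 528 563) (node 532 (merge (leaf 1 528 561) (leaf 0 529 565))))))) (merge (node 531 (merge (leaf 1 527 559)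 (node 563 (merge (leaf 0 528 564) (node 527 (merge (leaf 0 527 562) (node 499 (merge (leaf 2 495 498) (leaf 2 496 500))))))))) (merge (node 527 (merge (node 495 (merge (leaf 3 494 494) (node 463 (merge (leaf 4 431 431) (leaf 4 463 559))))) (merge (node 498 (merge (leaf 2 495 499) (node 526 (merge (leaf 2 494 497) (node 558 (merge (leaf 1 525 557) (leaf 1 526 559))))))) (node 498 (merge (leaf 2 495 499) (node 526 (merge (leaf 2 494 497) (node 561 (merge (leaf 0 525 525) (leaf 0 526 562)))))))))) (node 563 (merge (node 527 (merge (leaf 0 527 562) (node 531 (merge (leaf 0 528 564) (node 499 (merge (leaf 2 495 498) (leaf 2 496 500))))))) (merge (node 527 (merge (leaf 0 527 562) (node 498 (merge (leaf 2 495 499) (node 526 (merge (leaf 2 494 497) (node 525 (merge (leaf 0 525 561) (node 557 (merge (leaf 1 524 556) (leaf 1 525 558))))))))))) (merge (node 531 (merge (leaf 0 528 564) (node 561 (merge (leaf 1 528 532) (node 499 (merge (leaf 2 496 500) (node 527 (merge (leaf 2 495 498) (node 526 (merge (leaf 0 525 525) (node 494 (merge (leaf 3 493 493) (leaf 3 494 495)))))))))))))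 (merge (node 562 (merge (leaf 0 527 527) (node 564 (merge (leaf 0 528 531) (leaf 3 528 561))))) (node 564 (merge (leaf 0 528 531) (node 562 (merge (leaf 3 528 561) (leaf 3 529 565)))))))))))))))))) (merge (node 529 (merge (node 624 (merge (leaf 6 496 497) (node 656 (merge (leaf 6 528 561) (node 655 (merge (leaf 5 527 623) (leaf 5 559 687))))))) (merge (node 624 (merge (leaf 6 496 497) (node 655 (merge (leaf 5 527 623) (node 656 (merge (leaf 5 559 687) (node 527 (merge (leaf 7 495 495) (leaf 7 527 559))))))))) (merge (node 527 (merge (node 495 (merge (leaf 7 495 624) (node 463 (merge (leaf 4 431 431) (leaf 4 463 559))))) (merge (node 624 (merge (leaf 7 495 495) (node 656 (merge (leaf 6 528 561) (node 655 (merge (leaf 5 527 623) (leaf 5 559 687))))))) (merge (node 558 (merge (node 559 (merge (leaf 1 526 530) (leaf 2 525 557))) (merge (node 526 (merge (leaf 1 525 557) (node 561 (merge (leaf 0 525 525) (leaf 0 526 562))))) (node 530 (merge (leaf 1 526 559) (node 562 (merge (leaf 0 527 563) (node 561 (merge (leaf 0 526 526) (node 498 (merge (leaf 2 495 499) (node 593 (merge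 (leaf 5 465 466) (leaf 6 497 625)))))))))))))) (node 558 (merge (node 559 (merge (leaf 1 526 530) (leaf 2 525 557))) (merge (node 526 (merge (leaf 1 525 557) (node 561 (merge (leaf 0 525 525) (leaf 0 526 562))))) (node 530 (merge (leaf 1 526 559) (node 562 (merge (leaf 0 527 563) (node 561 (merge (leaf 0 526 526) (node 498 (merge (leaf 2 495 499) (node 593 (merge (leaf 5 465 466) (leaf 6 497 625)))))))))))))))))) (node 530 (merge (node 531 (merge (leaf 1 527 559) (node 564 (merge (leaf 0 528 563) (node 532 (merge (leaf 1 528 561) (leaf 0 529 565))))))) (merge (node 531 (merge (leaf 1 527 559) (node 563 (merge (leaf 0 528 564) (node 527 (merge (leaf 0 527 562) (node 499 (merge (leaf 2 495 498) (leaf 2 496 500))))))))) (merge (node 527 (merge (node 495 (merge (leaf 3 494 494) (node 463 (merge (leaf 4 431 431) (leaf 4 463 559))))) (merge (node 498 (merge (leaf 2 495 499) (node 526 (merge (leaf 2 494 497) (node 558 (merge (leaf 1 525 557) (leaf 1 526 559))))))) (node 498 (merge (leaf 2 495 499) (node 526 (merge (leaf 2 494 497) (node 561 (merge (leaf 0 525 525) (leaf 0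 526 562)))))))))) (node 563 (merge (node 527 (merge (leaf 0 527 562) (node 531 (merge (leaf 0 528 564) (node 499 (merge (leaf 2 495 498) (leaf 2 496 500))))))) (merge (node 527 (merge (leaf 0 527 562) (node 498 (merge (leaf 2 495 499) (node 526 (merge (leaf 2 494 497) (node 525 (merge (leaf 0 525 561) (node 557 (merge (leaf 1 524 556) (leaf 1 525 558))))))))))) (merge (node 531 (merge (leaf 0 528 564) (node 561 (merge (leaf 1 528 532) (node 499 (merge (leaf 2 496 500) (node 527 (merge (leaf 2 495 498) (node 526 (merge (leaf 0 525 525) (node 494 (merge (leaf 3 493 493) (leaf 3 494 495))))))))))))) (merge (node 562 (merge (leaf 0 527 527) (node 564 (merge (leaf 0 528 531) (leaf 3 528 561))))) (node 564 (merge (leaf 0 528 531) (node 562 (merge (leaf 3 528 561) (leaf 3 529 565)))))))))))))))))) (node 591 (merge (node 496 (merge (leaf 5 495 623) (node 464 (merge (leaf 5 463 559) (node 463 (merge (leaf 7 431 431) (leaf 7 463 495))))))) (merge (node 496 (merge (leaf 5 495 623) (node 593 (merge (leaf 4 496 625) (node 561 (merge (leaf 4 464 464) (node 590 (merge (leaf 2 558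 562) (leaf 2 557 589))))))))) (merge (node 590 (merge (node 561 (merge (leaf 2 557 589) (node 593 (merge (leaf 2 558 562) (node 625 (merge (leaf 0 590 626) (leaf 7 528 657))))))) (merge (node 589 (merge (leaf 2 557 561) (node 588 (merge (leaf 2 556 559) (node 620 (merge (leaf 1 587 619) (leaf 1 588 621))))))) (merge (node 557 (merge (node 589 (merge (leaf 3 556 556) (node 588 (merge (leaf 2 556 559) (node 620 (merge (leaf 1 587 619) (leaf 1 588 621))))))) (merge (node 593 (merge (leaf 3 557 558) (node 496 (merge (leaf 4 496 625) (node 559 (merge (leaf 5 463 464) (node 495 (merge (leaf 7 463 463) (node 527 (merge (leaf 5 494 622) (node 494 (merge (leaf 7 462 462) (node 529 (merge (leaf 0 493 493) (leaf 3 494 530))))))))))))))) (node 589 (merge (leaf 3 556 556) (node 621 (merge (leaf 1 588 620) (node 593 (merge (leaf 3 557 558) (leaf 1 589 622)))))))))) (node 593 (merge (node 625 (merge (leaf 0 590 626) (node 561 (merge (leaf 2 558 562) (leaf 7 528 657))))) (merge (node 496 (merge (leaf 4 496 625) (node 464 (merge (leaf 5 463 559) (leaf 4 464 561))))) (merge (node 562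 (merge (leaf 2 558 561) (node 594 (merge (leaf 2 559 563) (node 558 (merge (leaf 3 557 557) (leaf 3 558 559))))))) (node 622 (merge (leaf 1 589 621) (node 496 (merge (leaf 4 496 625) (node 559 (merge (leaf 5 463 464) (node 495 (merge (leaf 7 463 463) (leaf 5 494 527))))))))))))))))) (node 590 (merge (node 561 (merge (leaf 2 557 589) (node 593 (merge (leaf 2 558 562) (node 625 (merge (leaf 0 590 626) (leaf 7 528 657))))))) (merge (node 589 (merge (leaf 2 557 561) (node 588 (merge (leaf 2 556 559) (node 620 (merge (leaf 1 587 619) (leaf 1 588 621))))))) (merge (node 593 (merge (node 625 (merge (leaf 0 590 626) (node 561 (merge (leaf 2 558 562) (leaf 7 528 657))))) (merge (node 562 (merge (leaf 2 558 561) (node 594 (merge (leaf 2 559 563) (node 558 (merge (leaf 3 557 557) (leaf 3 558 559))))))) (merge (node 626 (merge (leaf 0 590 625) (node 594 (merge (leaf 0 591 627) (node 622 (merge (leaf 1 589 621) (leaf 1 590 623))))))) (node 626 (merge (leaf 0 590 625) (node 594 (merge (leaf 0 591 627) (node 558 (merge (leaf 3 557 557) (leaf 3 558 559))))))))))) (node 621 (merge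 (node 589 (merge (leaf 1 588 620) (node 593 (merge (leaf 1 589 622) (node 557 (merge (leaf 3 556 556) (leaf 3 557 558))))))) (merge (node 593 (merge (leaf 1 589 622) (node 626 (merge (leaf 0 590 625) (node 594 (merge (leaf 0 591 627) (node 558 (merge (leaf 3 557 557) (leaf 3 558 559))))))))) (merge (node 620 (merge (leaf 1 588 589) (node 622 (merge (leaf 1 589 593) (leaf 2 588 623))))) (merge (node 589 (merge (leaf 1 588 620) (node 588 (merge (leaf 2 556 559) (node 556 (merge (leaf 3 555 555) (leaf 3 556 557))))))) (merge (node 589 (merge (leaf 1 588 620) (node 559 (merge (leaf 2 556 588) (node 557 (merge (leaf 3 556 556) (node 558 (merge (leaf 2 525 529) (leaf 0 557 593))))))))) (node 589 (merge (leaf 1 588 620) (node 559 (merge (leaf 2 556 588) (node 557 (merge (leaf 3 556 556) (node 558 (merge (leaf 2 525 529) (node 525 (merge (leaf 3 524 524) (node 622 (merge (leaf 4 493 493) (leaf 7 525 654))))))))))))))))))))))))))))))))))) nE_9 cE_9 12 (by decide +kernel)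
def nE_10 : ℕ := 0x100000001000000000000000000000000000000000000000000000000000000000000000000000000000000000000000000000000000000000000000000000000000000000000
def cE_10 : ℕ := 0x2800000038000000380000001800000078000001e8000003ef800001ff000001ff800000fe0000003c0000003c0000000000000000000000000000000000000000000000000000000000000000000000000000000000000000000
theorem lE_10 : S nE_10 cE_10 12 := S_of_chk [] trivial (node 496 (merge (node 465 (merge (node 433 (merge (leaf 6 432 464) (node 497 (merge (leaf 5 400 401) (leaf 5 432 529))))) (merge (node 497 (merge (leaf 6 464 592) (node 433 (merge (leaf 5 400 401) (leaf 5 432 529))))) (merge (node 592 (merge (leaf 6 464 497) (node 591 (merge (leaf 5 495 623) (node 464 (merge (leaf 5 463 559) (node 463 (merge (leaf 7 431 431) (leaf 7 463 495))))))))) (node 464 (merge (leaf 6 432 433) (node 591 (merge (leaf 5 463 559) (node 463 (merge (leaf 7 431 431) (node 592 (merge (leaf 7 463 495) (leaf 5 495 623))))))))))))) (merge (node 463 (merge (node 431 (merge (leaf 7 431 464) (node 495 (merge (leaf 4 399 399) (leaf 4 431 527)))))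 (merge (node 495 (merge (leaf 7 463 592) (node 431 (merge (leaf 4 399 399) (leaf 4 431 527))))) (merge (node 592 (merge (leaf 7 463 495) (node 465 (merge (leaf 6 464 497) (node 464 (merge (leaf 6 432 433) (node 591 (merge (leaf 5 463 559) (leaf 5 495 623))))))))) (node 464 (merge (leaf 7 431 431) (node 465 (merge (leaf 6 432 433) (node 592 (merge (leaf 6 464 497) (node 591 (merge (leaf 5 463 559) (leaf 5 495 623))))))))))))) (merge (node 464 (merge (node 465 (merge (leaf 6 432 433) (node 592 (merge (leaf 6 464 497) (node 463 (merge (leaf 7 431 431) (leaf 7 463 495))))))) (merge (node 463 (merge (leaf 7 431 431) (node 592 (merge (leaf 7 463 495) (node 497 (merge (leaf 6 464 465) (node 529 (merge (leaf 6 496 624) (node 432 (merge (leaf 4 400 400) (leaf 4 432 561))))))))))) (merge (node 433 (merge (leaf 6 432 465) (node 432 (merge (leaf 6 400 401) (node 529 (merge (leaf 4 432 561) (node 400 (merge (leaf 4 400 497) (node 399 (merge (leaf 7 367 367) (leaf 7 399 431))))))))))) (merge (node 465 (merge (leaf 6 432 433) (node 592 (merge (leaf 6 464 497) (node 495 (merge (leaf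 7 463 463) (node 527 (merge (leaf 7 495 624) (node 432 (merge (leaf 5 399 400) (leaf 5 431 559))))))))))) (node 431 (merge (leaf 7 431 463) (node 432 (merge (leaf 7 399 399) (node 527 (merge (leaf 5 431 559) (node 400 (merge (leaf 5 399 495) (node 401 (merge (leaf 6 368 369) (leaf 6 400 433)))))))))))))))) (merge (node 464 (merge (node 433 (merge (leaf 6 432 465) (node 432 (merge (leaf 6 400 401) (node 431 (merge (leaf 7 399 399) (leaf 7 431 463))))))) (merge (node 465 (merge (leaf 6 432 433) (node 592 (merge (leaf 6 464 497) (node 591 (merge (leaf 5 463 559) (leaf 5 495 623))))))) (merge (node 559 (merge (leaf 5 463 591) (node 432 (merge (leaf 5 431 527) (node 401 (merge (leaf 6 400 433) (node 400 (merge (leaf 6 368 369) (node 399 (merge (leaf 7 367 367) (leaf 7 399 431))))))))))) (node 559 (merge (leaf 5 463 591) (node 432 (merge (leaf 5 431 527) (node 399 (merge (leaf 7 399 431) (node 400 (merge (leaf 7 367 367) (node 497 (merge (leaf 4 400 529) (node 465 (merge (leaf 4 368 368) (leaf 6 464 592))))))))))))))))) (merge (node 591 (merge (node 623 (merge (leaf 5 495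 592) (node 559 (merge (leaf 6 495 527) (leaf 6 527 655))))) (merge (node 464 (merge (leaf 5 463 559) (node 561 (merge (leaf 4 464 593) (node 432 (merge (leaf 4 432 529) (node 431 (merge (leaf 7 399 399) (leaf 7 431 463))))))))) (node 592 (merge (leaf 5 495 623) (node 463 (merge (leaf 7 463 495) (node 464 (merge (leaf 7 431 431) (node 561 (merge (leaf 4 464 593) (node 432 (merge (leaf 4 432 529) (node 433 (merge (leaf 6 400 401) (leaf 6 432 465)))))))))))))))) (merge (node 591 (merge (node 623 (merge (leaf 5 495 592) (node 559 (merge (leaf 6 495 527) (leaf 6 527 655))))) (merge (node 464 (merge (leaf 5 463 559) (node 561 (merge (leaf 4 464 593) (node 432 (merge (leaf 4 432 529) (node 433 (merge (leaf 6 400 401) (leaf 6 432 465))))))))) (node 592 (merge (leaf 5 495 623) (node 465 (merge (leaf 6 464 497) (node 464 (merge (leaf 6 432 433) (node 561 (merge (leaf 4 464 593) (node 562 (merge (leaf 1 559 563) (node 529 (merge (leaf 4 432 432) (node 527 (merge (leaf 0 526 526) (node 624 (merge (leaf 7 495 495) (leaf 6 528 656)))))))))))))))))))) (merge (node 591 (merge (node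 623 (merge (leaf 5 495 592) (node 559 (merge (leaf 6 495 527) (leaf 6 527 655))))) (merge (node 464 (merge (leaf 5 463 559) (node 561 (merge (leaf 4 464 593) (node 432 (merge (leaf 4 432 529) (node 431 (merge (leaf 7 399 399) (leaf 7 431 463))))))))) (node 592 (merge (leaf 5 495 623) (node 495 (merge (leaf 7 463 463) (node 624 (merge (leaf 7 495 527) (node 529 (merge (leaf 6 496 497) (node 656 (merge (leaf 6 528 561) (node 689 (merge (leaf 4 560 657) (node 688 (merge (leaf 4 592 721) (node 687 (merge (leaf 5 559 655) (leaf 5 591 719)))))))))))))))))))) (merge (node 495 (merge (node 592 (merge (leaf 7 463 463) (node 623 (merge (leaf 5 495 591) (node 624 (merge (leaf 7 495 527) (leaf 5 527 655))))))) (merge (node 592 (merge (leaf 7 463 463) (node 497 (merge (leaf 6 464 465) (node 624 (merge (leaf 6 496 529) (node 623 (merge (leaf 5 495 591) (leaf 5 527 655))))))))) (merge (node 497 (merge (node 465 (merge (leaf 6 464 592) (node 433 (merge (leaf 5 400 401) (leaf 5 432 529))))) (merge (node 592 (merge (leaf 6 464 465) (node 623 (merge (leaf 5 495 591) (node 624 (merge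 (leaf 7 495 527) (leaf 5 527 655))))))) (node 530 (merge (node 531 (merge (leaf 0 495 498) (leaf 3 495 529))) (merge (node 498 (merge (leaf 0 495 531) (node 467 (merge (leaf 2 463 466) (node 499 (merge (leaf 2 464 468) (leaf 1 495 527))))))) (node 494 (merge (leaf 0 494 529) (node 461 (merge (leaf 3 461 462) (node 493 (merge (leaf 3 460 460) (node 492 (merge (leaf 0 492 527) (node 524 (merge (leaf 1 491 523) (leaf 1 492 525))))))))))))))))) (node 494 (merge (node 529 (merge (leaf 0 493 493) (node 530 (merge (leaf 0 494 497) (leaf 3 495 531))))) (merge (node 529 (merge (leaf 0 493 493) (node 530 (merge (leaf 3 494 527) (leaf 3 495 531))))) (merge (node 497 (merge (node 465 (merge (leaf 2 462 466) (node 433 (merge (leaf 5 400 401) (leaf 5 432 529))))) (merge (node 530 (merge (leaf 0 494 529) (node 498 (merge (leaf 0 495 531) (node 526 (merge (leaf 1 493 525) (leaf 1 494 527))))))) (node 466 (merge (leaf 2 462 465) (node 498 (merge (leaf 2 463 467) (node 462 (merge (leaf 3 461 461) (leaf 3 462 463)))))))))) (node 497 (merge (node 466 (merge (leaf 2 462 465) (node 498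 (merge (leaf 2 463 467) (node 462 (merge (leaf 3 461 461) (leaf 3 462 463))))))) (merge (node 461 (merge (leaf 3 461 462) (node 493 (merge (leaf 3 460 460) (node 492 (merge (leaf 0 492 527) (node 524 (merge (leaf 1 491 523) (leaf 1 492 525))))))))) (merge (node 525 (merge (leaf 1 493 526) (node 493 (merge (leaf 1 492 524) (node 492 (merge (leaf 0 492 527) (node 460 (merge (leaf 3 459 459) (leaf 3 460 461))))))))) (node 525 (merge (leaf 1 493 526) (node 493 (merge (leaf 1 492 524) (node 527 (merge (leaf 0 492 492) (node 498 (merge (leaf 1 495 499) (node 463 (merge (leaf 4 431 431) (leaf 3 462 462))))))))))))))))))))))) (node 527 (merge (node 464 (merge (node 559 (merge (leaf 5 431 432) (leaf 5 463 591))) (node 561 (merge (leaf 4 464 593) (node 526 (merge (leaf 0 525 525) (node 562 (merge (leaf 0 526 529) (leaf 3 527 563))))))))) (merge (node 464 (merge (node 433 (merge (leaf 6 432 465) (node 432 (merge (leaf 6 400 401) (node 431 (merge (leaf 7 399 399) (leaf 7 431 463))))))) (node 561 (merge (leaf 4 464 593) (node 562 (merge (leaf 3 527 563) (node 559 (merge (leaf 3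 526 526) (leaf 5 463 591))))))))) (merge (node 497 (merge (node 526 (merge (leaf 2 493 525) (node 498 (merge (leaf 1 495 499) (leaf 2 494 529))))) (node 464 (merge (node 559 (merge (leaf 5 431 432) (leaf 5 463 591))) (node 465 (merge (leaf 6 432 433) (node 463 (merge (leaf 7 431 431) (node 462 (merge (leaf 0 461 461) (node 494 (merge (leaf 1 461 493) (node 495 (merge (leaf 1 462 466) (node 430 (merge (leaf 3 429 429) (node 398 (merge (leaf 4 366 366) (leaf 4 398 527))))))))))))))))))) (merge (node 464 (merge (node 561 (merge (leaf 4 464 593) (node 432 (merge (leaf 4 432 529) (node 433 (merge (leaf 6 400 401) (leaf 6 432 465))))))) (merge (node 561 (merge (leaf 4 464 593) (node 432 (merge (leaf 4 432 529) (node 431 (merge (leaf 7 399 399) (leaf 7 431 463))))))) (merge (node 433 (merge (leaf 6 432 465) (node 432 (merge (leaf 6 400 401) (node 431 (merge (leaf 7 399 399) (leaf 7 431 463))))))) (node 561 (merge (leaf 4 464 593) (node 562 (merge (leaf 3 527 563) (node 529 (merge (leaf 0 526 526) (node 465 (merge (leaf 6 432 433) (node 497 (merge (leaf 4 465 594) (node 463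 (merge (leaf 7 431 431) (node 462 (merge (leaf 0 461 461) (leaf 0 462 498))))))))))))))))))) (merge (node 526 (merge (node 525 (merge (leaf 2 493 497) (leaf 0 525 561))) (merge (node 525 (merge (leaf 2 493 497) (node 524 (merge (leaf 2 492 495) (leaf 0 524 559))))) (merge (node 525 (merge (leaf 0 525 561) (node 524 (merge (leaf 2 492 495) (leaf 0 524 559))))) (node 529 (merge (node 498 (merge (leaf 2 494 497) (node 530 (merge (leaf 2 495 499) (node 494 (merge (leaf 3 493 493) (leaf 3 494 495))))))) (merge (node 562 (merge (leaf 0 526 561) (node 530 (merge (leaf 0 527 563) (node 531 (merge (leaf 3 495 495) (leaf 1 527 559))))))) (merge (node 494 (merge (leaf 3 493 493) (node 530 (merge (leaf 3 494 495) (node 563 (merge (leaf 0 527 562) (node 531 (merge (leaf 1 527 559) (leaf 0 528 564))))))))) (merge (node 562 (merge (leaf 0 526 561) (node 530 (merge (leaf 0 527 563) (node 531 (merge (leaf 1 527 559) (node 497 (merge (leaf 2 494 498) (leaf 3 496 532))))))))) (node 497 (merge (leaf 2 494 498) (node 494 (merge (leaf 3 493 493) (node 465 (merge (leaf 5 432 433) (node 495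 (merge (leaf 2 462 466) (node 462 (merge (leaf 3 461 461) (node 559 (merge (leaf 4 430 430) (leaf 7 462 591)))))))))))))))))))))) (node 495 (merge (node 464 (merge (node 559 (merge (leaf 5 431 432) (leaf 5 463 591))) (node 465 (merge (leaf 6 432 433) (node 494 (merge (leaf 2 461 493) (node 466 (merge (leaf 1 463 467) (leaf 2 462 497))))))))) (merge (node 464 (merge (node 465 (merge (leaf 6 432 433) (node 494 (merge (leaf 2 461 493) (node 463 (merge (leaf 7 431 431) (leaf 1 462 466))))))) (merge (node 561 (merge (leaf 4 464 593) (node 432 (merge (leaf 4 432 529) (node 433 (merge (leaf 6 400 401) (leaf 6 432 465))))))) (node 561 (merge (leaf 4 464 593) (node 432 (merge (leaf 4 432 529) (node 431 (merge (leaf 7 399 399) (leaf 7 431 463)))))))))) (merge (node 559 (merge (node 591 (merge (leaf 6 463 464) (leaf 6 495 623))) (merge (node 463 (merge (leaf 4 431 431) (node 462 (merge (leaf 7 430 430) (node 591 (merge (leaf 7 462 494) (node 623 (merge (leaf 6 495 496) (leaf 6 527 655))))))))) (node 463 (merge (leaf 4 431 431) (node 464 (merge (leaf 5 431 432) (node 462 (merge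 (leaf 7 430 430) (node 497 (merge (leaf 0 461 461) (leaf 3 462 498)))))))))))) (merge (node 464 (merge (node 561 (merge (leaf 4 464 593) (node 432 (merge (leaf 4 432 529) (node 433 (merge (leaf 6 400 401) (leaf 6 432 465))))))) (merge (node 561 (merge (leaf 4 464 593) (node 432 (merge (leaf 4 432 529) (node 431 (merge (leaf 7 399 399) (leaf 7 431 463))))))) (merge (node 433 (merge (leaf 6 432 465) (node 432 (merge (leaf 6 400 401) (node 431 (merge (leaf 7 399 399) (leaf 7 431 463))))))) (node 561 (merge (leaf 4 464 593) (node 465 (merge (leaf 6 432 433) (node 466 (merge (leaf 1 463 467) (node 463 (merge (leaf 7 431 431) (node 498 (merge (leaf 0 463 499) (node 497 (merge (leaf 0 462 462) (node 434 (merge (leaf 2 431 435) (leaf 6 433 529))))))))))))))))))) (node 529 (merge (node 494 (merge (leaf 0 493 493) (leaf 3 494 530))) (merge (node 530 (merge (leaf 3 495 531) (node 562 (merge (leaf 0 527 563) (node 498 (merge (leaf 2 495 499) (node 463 (merge (leaf 4 431 431) (node 497 (merge (leaf 3 462 462) (node 465 (merge (leaf 4 433 433) (leaf 7 465 594))))))))))))) (node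 494 (merge (leaf 0 493 493) (node 497 (merge (node 465 (merge (leaf 2 462 466) (node 433 (merge (leaf 5 400 401) (leaf 5 432 529))))) (merge (node 466 (merge (leaf 2 462 465) (node 498 (merge (leaf 2 463 467) (node 462 (merge (leaf 3 461 461) (leaf 3 462 463))))))) (node 462 (merge (leaf 3 461 461) (node 498 (merge (leaf 3 462 463) (node 499 (merge (leaf 1 495 527) (node 532 (merge (leaf 0 496 531) (node 500 (merge (leaf 1 496 529) (leaf 0 497 533))))))))))))))))))))))))))))))))))))))) nE_10 cE_10 12 (by decide +kernel)
def nE_11 : ℕ := 0x100000001000000000000000000000000000000000000000000000000000000000000000000000000000000000000000000000000000000000000000000000000000000000000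
def cE_11 : ℕ := 0x28000000380000007c0000007c000001ff8000007f800001ef800003ee000001f4000000f80000003800000038000000280000000000000000000000000000000000000000000000000000000000000000000000000000000000000000000
theorem lE_11 : S nE_11 cE_11 13 := S_of_chk [(nE_6, cE_6, 12)] ⟨lE_6, trivial⟩ (node 592 (merge (node 496 (merge (node 593 (merge (leaf 4 496 625) (node 464 (merge (leaf 4 464 561) (node 465 (merge (leaf 6 432 433) (leaf 6 464 497))))))) (merge (node 625 (merge (leaf 4 496 593) (node 624 (merge (leaf 4 528 657) (node 623 (merge (leaf 5 495 591) (leaf 5 527 655))))))) (node 465 (merge (leaf 6 464 497) (node 464 (merge (leaf 6 432 433) (node 591 (merge (leaf 5 463 559) (leaf 5 495 623)))))))))) (merge (node 624 (merge (node 657 (merge (leaf 4 528 625) (node 529 (merge (leaf 6 496 497) (node 656 (merge (leaf 6 528 561) (leaf 4 560 689))))))) (merge (node 657 (merge (leaf 4 528 625) (node 656 (merge (leaf 4 560 689) (node 655 (merge (leaf 5 527 623) (leaf 5 559 687))))))) (merge (node 529 (merge (leaf 6 496 497) (node 656 (merge (leaf 6 528 561) (node 655 (merge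 (leaf 5 527 623) (leaf 5 559 687))))))) (node 625 (merge (leaf 4 528 657) (node 496 (merge (leaf 4 496 593) (node 623 (merge (leaf 5 495 591) (leaf 5 527 655))))))))))) (merge (node 496 (merge (node 625 (merge (leaf 4 496 593) (node 497 (merge (leaf 6 464 465) (node 624 (merge (leaf 6 496 529) (leaf 4 528 657))))))) (merge (node 465 (merge (leaf 6 464 497) (node 464 (merge (leaf 6 432 433) (node 591 (merge (leaf 5 463 559) (leaf 5 495 623))))))) (node 593 (merge (leaf 4 496 625) (node 591 (merge (leaf 5 495 623) (node 559 (merge (leaf 5 463 464) (node 558 (merge (leaf 0 557 557) (leaf 3 558 594)))))))))))) (merge (node 624 (merge (node 657 (merge (leaf 4 528 625) (node 656 (merge (leaf 4 560 689) (node 655 (merge (leaf 5 527 623) (leaf 5 559 687))))))) (merge (node 625 (merge (leaf 4 528 657) (node 593 (merge (leaf 4 496 496) (node 623 (merge (leaf 5 527 655) (node 622 (merge (leaf 2 590 594) (leaf 2 589 621))))))))) (merge (node 657 (merge (leaf 4 528 625) (node 656 (merge (leaf 4 560 689) (node 559 (merge (leaf 7 527 527) (node 561 (merge (leaf 6 528 529) (node 593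 (merge (leaf 6 560 688) (node 558 (merge (leaf 0 557 557) (leaf 0 558 594))))))))))))) (merge (node 655 (merge (leaf 5 527 623) (node 656 (merge (leaf 5 559 687) (node 561 (merge (leaf 6 528 529) (node 593 (merge (leaf 6 560 688) (node 496 (merge (leaf 4 464 464) (leaf 4 496 625))))))))))) (node 655 (merge (leaf 5 527 623) (node 656 (merge (leaf 5 559 687) (node 689 (merge (leaf 4 560 657) (node 688 (merge (leaf 4 592 721) (node 561 (merge (leaf 6 528 529) (leaf 6 560 593)))))))))))))))) (merge (node 496 (merge (node 497 (merge (leaf 6 464 465) (node 624 (merge (leaf 6 496 529) (node 623 (merge (leaf 5 495 591) (leaf 5 527 655))))))) (merge (node 591 (merge (leaf 5 495 623) (node 464 (merge (leaf 5 463 559) (node 433 (merge (leaf 6 432 465) (node 432 (merge (leaf 6 400 401) (node 431 (merge (leaf 7 399 399) (leaf 7 431 463))))))))))) (merge (node 591 (merge (leaf 5 495 623) (node 464 (merge (leaf 5 463 559) (node 431 (merge (leaf 7 431 463) (node 432 (merge (leaf 7 399 399) (node 529 (merge (leaf 4 432 561) (node 497 (merge (leaf 4 400 400) (leaf 6 496 624)))))))))))))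 (merge (node 497 (merge (leaf 6 464 465) (node 624 (merge (leaf 6 496 529) (node 657 (merge (leaf 4 528 625) (node 656 (merge (leaf 4 560 689) (node 655 (merge (leaf 5 527 623) (leaf 5 559 687))))))))))) (node 497 (merge (leaf 6 464 465) (node 624 (merge (leaf 6 496 529) (node 657 (merge (leaf 4 528 625) (node 656 (merge (leaf 4 560 689) (node 559 (merge (leaf 7 527 527) (node 688 (merge (leaf 7 559 591) (node 687 (merge (leaf 5 559 655) (leaf 5 591 719)))))))))))))))))))) (merge (node 496 (merge (node 625 (merge (leaf 4 496 593) (node 497 (merge (leaf 6 464 465) (node 624 (merge (leaf 6 496 529) (leaf 4 528 657))))))) (merge (node 593 (merge (leaf 4 496 625) (node 464 (merge (leaf 4 464 561) (node 559 (merge (leaf 5 463 591) (node 432 (merge (leaf 5 431 527) (node 401 (merge (leaf 6 400 433) (node 400 (merge (leaf 6 368 369) (node 399 (merge (leaf 7 367 367) (leaf 7 399 431))))))))))))))) (merge (node 465 (merge (leaf 6 464 497) (node 464 (merge (leaf 6 432 433) (node 561 (merge (leaf 4 464 593) (node 432 (merge (leaf 4 432 529) (node 431 (merge (leaf 7 399 399) (leaf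 7 431 463))))))))))) (node 497 (merge (leaf 6 464 465) (node 624 (merge (leaf 6 496 529) (node 657 (merge (leaf 4 528 625) (node 656 (merge (leaf 4 560 689) (node 559 (merge (leaf 7 527 527) (node 688 (merge (leaf 7 559 591) (node 687 (merge (leaf 5 559 655) (leaf 5 591 719))))))))))))))))))) (merge (node 561 (merge (node 591 (merge (node 623 (merge (leaf 5 495 496) (node 655 (merge (leaf 6 527 559) (leaf 6 559 687))))) (node 590 (merge (leaf 2 557 589) (node 593 (merge (leaf 2 558 562) (node 625 (merge (leaf 0 590 626) (leaf 7 528 657))))))))) (merge (node 562 (merge (node 591 (merge (leaf 1 559 563) (node 590 (merge (leaf 1 558 559) (leaf 2 557 589))))) (merge (node 527 (merge (leaf 3 527 563) (node 526 (merge (leaf 0 525 525) (leaf 0 526 529))))) (node 559 (merge (node 526 (merge (node 527 (merge (leaf 0 525 525) (leaf 3 526 562))) (merge (node 527 (merge (leaf 0 526 529) (leaf 3 526 559))) (node 558 (merge (leaf 3 525 525) (node 529 (merge (leaf 2 526 530) (leaf 2 525 557)))))))) (merge (node 591 (merge (leaf 1 558 590) (node 623 (merge (leaf 6 527 655) (node 527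 (merge (leaf 6 495 496) (leaf 3 526 526))))))) (node 530 (merge (leaf 2 527 531) (node 558 (merge (leaf 2 526 529) (node 590 (merge (leaf 1 557 589) (leaf 1 558 591))))))))))))) (merge (node 562 (merge (node 563 (merge (leaf 3 527 527) (node 564 (merge (leaf 3 528 529) (leaf 1 560 593))))) (merge (node 527 (merge (leaf 3 527 563) (node 526 (merge (leaf 0 525 525) (leaf 3 526 559))))) (merge (node 593 (merge (node 625 (merge (leaf 4 496 496) (leaf 7 528 657))) (node 563 (merge (leaf 1 560 564) (node 531 (merge (leaf 2 528 532) (node 559 (merge (leaf 2 527 530) (node 558 (merge (leaf 0 557 557) (leaf 0 558 594))))))))))) (node 530 (merge (node 531 (merge (leaf 2 527 559) (node 532 (merge (leaf 1 528 529) (leaf 1 529 533))))) (merge (node 559 (merge (leaf 2 527 531) (node 526 (merge (leaf 3 526 527) (node 558 (merge (leaf 3 525 525) (node 593 (merge (leaf 0 557 557) (leaf 0 558 594))))))))) (node 593 (merge (node 625 (merge (leaf 4 496 496) (leaf 7 528 657))) (merge (node 498 (merge (leaf 5 465 466) (node 625 (merge (leaf 6 497 529) (leaf 5 497 594))))) (node 496 (merge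 (leaf 4 464 464) (node 498 (merge (leaf 5 465 466) (node 497 (merge (leaf 6 464 465) (node 499 (merge (leaf 1 495 527) (node 529 (merge (leaf 1 496 500) (node 594 (merge (leaf 6 466 467) (leaf 4 497 626))))))))))))))))))))))) (merge (node 593 (merge (node 625 (merge (leaf 4 496 496) (leaf 7 528 657))) (merge (node 559 (merge (node 558 (merge (leaf 0 557 557) (leaf 0 558 594))) (node 496 (merge (leaf 4 464 464) (node 591 (merge (leaf 5 495 623) (node 562 (merge (leaf 1 559 563) (node 527 (merge (leaf 3 526 526) (node 497 (merge (leaf 6 464 465) (node 498 (merge (leaf 1 495 499) (node 466 (merge (leaf 6 465 529) (leaf 5 465 530))))))))))))))))) (node 625 (merge (leaf 7 528 657) (node 529 (merge (node 626 (merge (leaf 4 529 658) (node 497 (merge (leaf 4 497 594) (node 465 (merge (leaf 5 432 433) (leaf 5 464 592))))))) (node 530 (merge (leaf 6 497 498) (node 559 (merge (leaf 1 527 531) (leaf 2 526 558)))))))))))) (merge (node 562 (merge (node 563 (merge (leaf 3 527 527) (leaf 1 559 591))) (merge (node 563 (merge (leaf 3 527 527) (node 564 (merge (leaf 3 528 529) (leaf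 1 560 593))))) (merge (node 563 (merge (leaf 1 559 591) (node 564 (merge (leaf 3 528 529) (leaf 1 560 593))))) (node 559 (merge (node 526 (merge (leaf 3 526 527) (node 558 (merge (leaf 3 525 525) (node 593 (merge (leaf 0 557 557) (leaf 0 558 594))))))) (merge (node 530 (merge (leaf 2 527 531) (node 558 (merge (leaf 2 526 529) (node 593 (merge (leaf 0 557 557) (leaf 0 558 594))))))) (merge (node 530 (merge (leaf 2 527 531) (node 558 (merge (leaf 2 526 529) (node 590 (merge (leaf 1 557 589) (leaf 1 558 591))))))) (node 591 (merge (leaf 1 558 590) (node 530 (merge (leaf 2 527 531) (node 527 (merge (leaf 3 526 526) (node 623 (merge (leaf 6 527 655) (node 622 (merge (leaf 5 526 654) (node 593 (merge (leaf 1 590 594) (node 625 (merge (leaf 7 528 657) (node 498 (merge (leaf 5 465 466) (leaf 6 497 529))))))))))))))))))))))))) (merge (node 591 (merge (node 623 (merge (leaf 5 495 496) (node 655 (merge (leaf 6 527 559) (leaf 6 559 687))))) (merge (node 496 (merge (leaf 5 495 623) (node 593 (merge (leaf 4 464 464) (leaf 4 496 625))))) (merge (node 590 (merge (leaf 2 557 589) (node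 593 (merge (node 625 (merge (leaf 0 590 626) (leaf 7 528 657))) (node 622 (merge (leaf 1 589 621) (node 594 (merge (leaf 1 590 623) (node 558 (merge (leaf 3 557 557) (leaf 0 558 559))))))))))) (node 593 (merge (node 625 (merge (leaf 4 496 496) (leaf 7 528 657))) (node 590 (merge (leaf 2 557 589) (node 558 (merge (leaf 3 557 557) (node 559 (merge (leaf 0 558 594) (node 529 (merge (leaf 2 526 530) (node 526 (merge (leaf 3 525 525) (node 497 (merge (leaf 5 464 465) (node 498 (merge (leaf 6 465 466) (leaf 2 494 527))))))))))))))))))))) (node 591 (merge (node 590 (merge (leaf 2 557 589) (node 593 (merge (leaf 2 558 562) (node 625 (merge (leaf 0 590 626) (leaf 7 528 657))))))) (node 496 (merge (leaf 5 495 623) (node 465 (merge (leaf 6 464 497) (node 464 (merge (leaf 6 432 433) (node 432 (merge (leaf 4 432 529) (node 431 (merge (leaf 7 399 399) (leaf 7 431 463)))))))))))))))))))) (merge (node 591 (merge (node 623 (merge (leaf 5 495 496) (node 655 (merge (leaf 5 527 624) (leaf 6 559 687))))) (merge (node 496 (merge (leaf 5 495 623) (node 465 (merge (leaf 6 464 497) (node 464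 (merge (leaf 6 432 433) (leaf 5 463 559))))))) (merge (node 590 (merge (node 589 (merge (leaf 2 557 561) (node 588 (merge (leaf 2 556 559) (node 620 (merge (leaf 1 587 619) (leaf 1 588 621))))))) (merge (node 589 (merge (leaf 2 557 561) (node 621 (merge (leaf 1 588 620) (node 593 (merge (leaf 1 589 622) (node 557 (merge (leaf 3 556 556) (leaf 3 557 558))))))))) (merge (node 589 (merge (leaf 2 557 561) (node 559 (merge (leaf 2 556 588) (node 557 (merge (leaf 3 556 556) (node 558 (merge (leaf 2 525 529) (leaf 0 557 593))))))))) (merge (node 557 (merge (node 558 (merge (leaf 3 557 593) (node 559 (merge (leaf 2 525 529) (leaf 0 556 556))))) (merge (node 589 (merge (leaf 3 556 556) (node 588 (merge (leaf 2 556 559) (node 620 (merge (leaf 1 587 619) (leaf 1 588 621))))))) (merge (node 589 (merge (leaf 3 556 556) (node 621 (merge (leaf 1 588 620) (node 593 (merge (leaf 3 557 558) (leaf 1 589 622))))))) (node 593 (merge (leaf 3 557 558) (node 621 (merge (leaf 1 589 622) (node 589 (merge (leaf 1 588 620) (node 559 (merge (leaf 2 556 588) (node 496 (merge (leaf 5 463 464) (node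 497 (merge (leaf 6 464 465) (node 624 (merge (leaf 6 496 529) (node 656 (merge (leaf 7 527 527) (leaf 7 559 688))))))))))))))))))))) (node 593 (merge (node 562 (merge (leaf 2 558 561) (node 594 (merge (leaf 2 559 563) (node 558 (merge (leaf 3 557 557) (leaf 3 558 559))))))) (merge (node 561 (merge (leaf 2 558 562) (node 496 (merge (leaf 4 464 464) (node 497 (merge (leaf 6 464 465) (node 529 (merge (leaf 5 496 624) (node 498 (merge (leaf 6 465 466) (node 527 (merge (leaf 1 495 499) (leaf 2 494 526))))))))))))) (node 622 (merge (leaf 1 589 621) (node 558 (merge (leaf 3 557 557) (node 559 (merge (leaf 3 558 594) (node 654 (merge (leaf 6 526 527) (leaf 6 558 686))))))))))))))))) (node 590 (merge (node 589 (merge (leaf 2 557 561) (node 588 (merge (leaf 2 556 559) (node 620 (merge (leaf 1 587 619) (leaf 1 588 621))))))) (merge (node 589 (merge (leaf 2 557 561) (node 621 (merge (leaf 1 588 620) (node 593 (merge (leaf 1 589 622) (node 557 (merge (leaf 3 556 556) (leaf 3 557 558))))))))) (merge (node 558 (merge (node 557 (merge (leaf 3 557 593) (node 559 (merge (leaf 2 525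 529) (leaf 0 556 556))))) (merge (node 559 (merge (node 557 (merge (leaf 2 525 529) (leaf 0 556 556))) (node 561 (merge (leaf 1 558 562) (node 526 (merge (leaf 3 525 525) (node 623 (merge (leaf 4 494 494) (leaf 7 526 655))))))))) (merge (node 593 (merge (leaf 3 557 557) (node 622 (merge (leaf 1 589 621) (node 623 (merge (leaf 1 590 594) (node 655 (merge (leaf 4 526 526) (leaf 7 558 687))))))))) (node 559 (merge (node 561 (merge (leaf 1 558 562) (node 526 (merge (leaf 3 525 525) (node 623 (merge (leaf 4 494 494) (leaf 7 526 655))))))) (merge (node 593 (merge (leaf 3 558 594) (node 622 (merge (leaf 1 589 621) (node 654 (merge (leaf 6 526 527) (node 655 (merge (leaf 6 527 623) (leaf 4 558 687))))))))) (node 561 (merge (leaf 1 558 562) (node 529 (merge (leaf 2 526 530) (node 624 (merge (leaf 6 496 497) (leaf 6 528 656)))))))))))))) (merge (node 589 (merge (leaf 2 557 561) (node 588 (merge (leaf 2 556 559) (node 623 (merge (leaf 0 588 624) (node 622 (merge (leaf 0 587 587) (node 593 (merge (leaf 1 590 594) (node 557 (merge (leaf 3 556 556) (leaf 3 557 558))))))))))))) (node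 557 (merge (node 589 (merge (leaf 3 556 556) (node 588 (merge (leaf 2 556 559) (node 620 (merge (leaf 1 587 619) (leaf 1 588 621))))))) (merge (node 593 (merge (leaf 3 557 558) (node 622 (merge (leaf 1 589 621) (node 623 (merge (leaf 1 590 594) (node 655 (merge (leaf 6 527 559) (leaf 5 527 624))))))))) (merge (node 556 (merge (leaf 3 556 589) (node 558 (merge (leaf 0 556 559) (leaf 3 557 593))))) (node 589 (merge (leaf 3 556 556) (node 593 (merge (leaf 3 557 558) (node 622 (merge (leaf 1 589 621) (node 623 (merge (leaf 1 590 594) (node 588 (merge (leaf 0 587 587) (leaf 0 588 624)))))))))))))))))))))))) (hyp 0)))))))))) nE_11 cE_11 13 (by decide +kernel)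
def nE_12 : ℕ := 0x100000001000000000000000000000000000000000000000000000000000000000000000000000000000000000000000000000000000000000000000000000000000000000000
def cE_12 : ℕ := 0x2c0000003e0000007f800003ef000003ef800001ff000001ff0000007000000078000000380000002800000000000000000000000000000000000000000000000000000000000000000000000000000000000
theorem lE_12 : S nE_12 cE_12 13 := S_of_chk [] trivial (node 496 (merge (node 592 (merge (node 625 (merge (leaf 4 496 593) (node 624 (merge (leaf 4 528 657) (node 495 (merge (leaf 7 463 463) (leaf 7 495 527))))))) (merge (node 623 (merge (leaf 5 495 591) (node 495 (merge (leaf 7 463 463) (node 624 (merge (leaf 7 495 527) (leaf 5 527 655))))))) (node 593 (merge (leaf 4 496 625) (node 591 (merge (leaf 5 495 623) (node 559 (merge (leaf 5 463 464) (node 558 (merge (leaf 0 557 557) (leaf 3 558 594)))))))))))) (merge (node 591 (merge (node 559 (merge (leaf 5 463 464) (node 623 (merge (leaf 6 495 527) (leaf 6 527 655))))) (merge (node 592 (merge (leaf 5 495 623) (node 497 (merge (leaf 6 464 465) (node 529 (merge (leaf 6 496 624) (node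 495 (merge (leaf 7 463 463) (node 530 (merge (leaf 0 494 494) (leaf 3 495 531))))))))))) (node 464 (merge (leaf 5 463 559) (node 465 (merge (leaf 6 432 433) (node 592 (merge (leaf 6 464 497) (node 495 (merge (leaf 7 463 463) (node 527 (merge (leaf 7 495 624) (node 432 (merge (leaf 5 399 400) (node 529 (merge (leaf 4 432 561) (node 530 (merge (leaf 3 494 494) (leaf 3 495 531)))))))))))))))))))) (merge (node 465 (merge (node 497 (merge (leaf 6 464 592) (node 433 (merge (leaf 5 400 401) (leaf 5 432 529))))) (merge (node 592 (merge (leaf 6 464 497) (node 625 (merge (leaf 4 496 593) (node 624 (merge (leaf 4 528 657) (node 495 (merge (leaf 7 463 463) (leaf 7 495 527))))))))) (node 464 (merge (leaf 6 432 433) (node 561 (merge (leaf 4 464 593) (node 432 (merge (leaf 4 432 529) (node 527 (merge (leaf 5 431 559) (node 400 (merge (leaf 5 399 495) (node 369 (merge (leaf 6 368 401) (node 368 (merge (leaf 6 336 337) (node 367 (merge (leaf 7 335 335) (leaf 7 367 399)))))))))))))))))))) (merge (node 592 (merge (node 625 (merge (leaf 4 496 593) (node 497 (merge (leaf 6 464 465) (node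 624 (merge (leaf 6 496 529) (leaf 4 528 657))))))) (merge (node 625 (merge (leaf 4 496 593) (node 624 (merge (leaf 4 528 657) (node 623 (merge (leaf 5 495 591) (leaf 5 527 655))))))) (merge (node 497 (merge (leaf 6 464 465) (node 624 (merge (leaf 6 496 529) (node 623 (merge (leaf 5 495 591) (leaf 5 527 655))))))) (node 593 (merge (leaf 4 496 625) (node 561 (merge (leaf 4 464 464) (node 591 (merge (leaf 5 495 623) (node 590 (merge (leaf 2 558 562) (leaf 2 557 589))))))))))))) (merge (node 559 (merge (node 591 (merge (leaf 5 463 464) (node 623 (merge (leaf 6 495 527) (leaf 6 527 655))))) (merge (node 464 (merge (leaf 5 463 591) (node 561 (merge (leaf 4 464 593) (node 432 (merge (leaf 4 432 529) (node 433 (merge (leaf 6 400 401) (leaf 6 432 465))))))))) (merge (node 558 (merge (node 529 (merge (leaf 2 525 557) (node 561 (merge (leaf 2 526 530) (node 593 (merge (leaf 0 558 594) (leaf 7 496 625))))))) (merge (node 557 (merge (leaf 2 525 529) (node 556 (merge (leaf 2 524 527) (node 588 (merge (leaf 1 555 587) (leaf 1 556 589))))))) (merge (node 464 (merge (node 433 (merge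 (leaf 6 432 465) (node 432 (merge (leaf 6 400 401) (leaf 5 431 527))))) (merge (node 561 (merge (leaf 4 464 593) (node 527 (merge (leaf 5 431 432) (node 562 (merge (leaf 3 526 526) (leaf 3 527 563))))))) (merge (node 561 (merge (leaf 4 464 593) (node 529 (merge (leaf 4 432 432) (leaf 2 526 530))))) (node 561 (merge (leaf 4 464 593) (node 530 (merge (leaf 2 526 529) (node 562 (merge (leaf 2 527 531) (node 526 (merge (leaf 3 525 525) (leaf 3 526 527))))))))))))) (node 464 (merge (node 433 (merge (leaf 6 432 465) (node 432 (merge (leaf 6 400 401) (leaf 5 431 527))))) (merge (node 561 (merge (leaf 4 464 593) (node 527 (merge (leaf 5 431 432) (node 562 (merge (leaf 3 526 526) (leaf 3 527 563))))))) (node 561 (merge (leaf 4 464 593) (node 589 (merge (leaf 1 557 590) (node 557 (merge (leaf 1 556 588) (node 526 (merge (leaf 3 525 525) (node 494 (merge (leaf 5 461 462) (node 465 (merge (leaf 6 432 433) (node 495 (merge (leaf 2 461 493) (node 466 (merge (leaf 1 462 463) (leaf 1 463 467)))))))))))))))))))))))) (node 558 (merge (node 529 (merge (leaf 2 525 557) (node 561 (merge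 (leaf 2 526 530) (node 593 (merge (leaf 0 558 594) (leaf 7 496 625))))))) (merge (node 557 (merge (leaf 2 525 529) (node 556 (merge (leaf 2 524 527) (node 588 (merge (leaf 1 555 587) (leaf 1 556 589))))))) (merge (node 561 (merge (node 593 (merge (leaf 0 558 594) (node 529 (merge (leaf 2 526 530) (leaf 7 496 625))))) (merge (node 590 (merge (leaf 1 557 589) (node 562 (merge (leaf 1 558 591) (node 526 (merge (leaf 3 525 525) (leaf 3 526 527))))))) (node 590 (merge (leaf 1 557 589) (node 562 (merge (leaf 1 558 591) (node 531 (merge (leaf 2 527 530) (node 563 (merge (leaf 3 527 527) (leaf 2 528 532)))))))))))) (node 527 (merge (node 557 (merge (leaf 2 524 556) (node 525 (merge (leaf 3 524 524) (node 526 (merge (leaf 2 493 497) (leaf 0 525 561))))))) (merge (node 557 (merge (leaf 2 524 556) (node 589 (merge (leaf 1 556 588) (node 561 (merge (leaf 1 557 590) (node 562 (merge (leaf 3 526 526) (leaf 3 527 563))))))))) (merge (node 561 (merge (node 562 (merge (leaf 3 526 526) (leaf 3 527 563))) (merge (node 526 (merge (leaf 0 525 525) (node 590 (merge (leaf 1 557 589) (node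 622 (merge (leaf 6 494 495) (leaf 6 526 654))))))) (node 590 (merge (leaf 1 557 589) (node 562 (merge (leaf 1 558 591) (node 531 (merge (leaf 2 527 530) (node 563 (merge (leaf 3 527 527) (leaf 2 528 532)))))))))))) (merge (node 557 (merge (leaf 2 524 556) (node 589 (merge (leaf 1 556 588) (node 590 (merge (leaf 1 557 561) (node 525 (merge (leaf 3 524 524) (node 622 (merge (leaf 4 493 493) (leaf 7 525 654))))))))))) (node 557 (merge (leaf 2 524 556) (node 589 (merge (leaf 1 556 588) (node 525 (merge (leaf 3 524 524) (node 526 (merge (leaf 2 493 497) (node 493 (merge (leaf 3 492 492) (node 622 (merge (leaf 4 493 590) (node 621 (merge (leaf 6 493 494) (leaf 4 525 654)))))))))))))))))))))))))))) (node 497 (merge (node 465 (merge (leaf 6 464 592) (node 433 (merge (leaf 5 400 401) (leaf 5 432 529))))) (merge (node 592 (merge (leaf 6 464 465) (node 625 (merge (leaf 4 496 593) (node 624 (merge (leaf 4 528 657) (node 495 (merge (leaf 7 463 463) (leaf 7 495 527))))))))) (merge (node 495 (merge (node 592 (merge (leaf 7 463 463) (node 625 (merge (leaf 4 496 593) (node 624 (merge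 (leaf 4 528 657) (node 623 (merge (leaf 5 495 591) (leaf 5 527 655))))))))) (node 494 (merge (node 529 (merge (leaf 0 493 493) (leaf 0 494 530))) (merge (node 461 (merge (leaf 3 461 462) (node 493 (merge (leaf 3 460 460) (node 492 (merge (leaf 0 492 527) (node 524 (merge (leaf 1 491 523) (leaf 1 492 525))))))))) (node 530 (merge (leaf 0 494 529) (node 498 (merge (leaf 0 495 531) (node 526 (merge (leaf 1 493 525) (leaf 1 494 527)))))))))))) (node 498 (merge (node 527 (merge (leaf 1 495 499) (node 526 (merge (leaf 1 494 495) (leaf 2 493 525))))) (merge (node 499 (merge (leaf 1 495 527) (node 532 (merge (leaf 0 496 531) (node 500 (merge (leaf 1 496 529) (leaf 0 497 533))))))) (merge (node 499 (merge (node 532 (merge (leaf 0 496 531) (node 500 (merge (leaf 1 496 529) (leaf 0 497 533))))) (merge (node 531 (merge (leaf 0 496 532) (node 495 (merge (leaf 0 495 530) (node 467 (merge (leaf 2 463 466) (leaf 2 464 468))))))) (node 529 (merge (leaf 1 496 500) (node 467 (merge (leaf 2 464 468) (node 495 (merge (leaf 2 463 466) (node 494 (merge (leaf 0 493 493) (leaf 0 494 530))))))))))))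 (node 530 (merge (node 529 (merge (node 531 (merge (leaf 3 496 532) (leaf 1 527 559))) (node 465 (merge (leaf 5 432 433) (node 562 (merge (leaf 7 465 594) (node 563 (merge (leaf 0 527 527) (node 564 (merge (leaf 3 528 561) (leaf 3 529 565))))))))))) (merge (node 495 (merge (leaf 0 495 531) (node 526 (merge (leaf 1 494 527) (node 494 (merge (leaf 1 493 525) (node 466 (merge (leaf 2 462 465) (leaf 2 463 467))))))))) (merge (node 495 (merge (leaf 0 495 531) (node 494 (merge (leaf 0 494 529) (node 525 (merge (leaf 1 493 526) (node 493 (merge (leaf 1 492 524) (node 461 (merge (leaf 3 460 460) (leaf 3 461 462))))))))))) (node 529 (merge (node 495 (merge (leaf 0 494 494) (node 466 (merge (leaf 2 463 467) (node 561 (merge (leaf 5 433 434) (leaf 6 465 593))))))) (merge (node 495 (merge (leaf 0 494 494) (node 466 (merge (leaf 2 463 467) (node 434 (merge (leaf 5 401 402) (leaf 5 433 561))))))) (node 527 (merge (leaf 2 494 526) (node 562 (merge (leaf 0 527 563) (node 465 (merge (leaf 4 433 433) (leaf 7 465 594)))))))))))))))))))))))))))) nE_12 cE_12 13 (by decide +kernel)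
def nE_13 : ℕ := 0x100000001000000010000000000000000000000000000000000000000000000000000000000000000000000000000000000000000000000000000000000000000000000000000
def cE_13 : ℕ := 0x400000004c000001cf000003ef000003ef800001ff000000fe000000fc000000380000002800000000000000000000000000000000000000000000000000000000000000000000000000000000000
theorem lE_13 : S nE_13 cE_13 11 := S_of_chk [] trivial (node 529 (merge (node 464 (merge (node 559 (merge (leaf 5 463 591) (node 432 (merge (leaf 5 431 527) (node 431 (merge (leaf 7 399 399) (leaf 7 431 463))))))) (merge (node 433 (merge (leaf 6 432 465) (node 432 (merge (leaf 6 400 401) (node 559 (merge (leaf 5 431 527) (leaf 5 463 591))))))) (merge (node 433 (merge (leaf 6 432 465) (node 432 (merge (leaf 6 400 401) (node 431 (merge (leaf 7 399 399) (leaf 7 431 463))))))) (node 559 (merge (leaf 5 463 591) (node 530 (merge (leaf 1 527 531) (node 558 (merge (leaf 1 526 527) (leaf 2 525 557))))))))))) (merge (node 530 (merge (node 495 (merge (leaf 3 495 531) (node 494 (merge (leaf 0 493 493) (leaf 0 494 497))))) (merge (node 559 (merge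 (leaf 1 527 531) (node 558 (merge (leaf 1 526 527) (leaf 2 525 557))))) (node 527 (merge (node 559 (merge (node 558 (merge (leaf 1 526 530) (leaf 2 525 557))) (node 464 (merge (leaf 5 431 432) (leaf 5 463 591))))) (node 562 (merge (leaf 0 527 563) (node 498 (merge (leaf 2 495 499) (node 497 (merge (leaf 2 494 526) (node 594 (merge (leaf 7 465 465) (leaf 7 497 626)))))))))))))) (merge (node 530 (merge (node 495 (merge (leaf 3 495 531) (node 494 (merge (leaf 0 493 493) (leaf 0 494 497))))) (merge (node 559 (merge (leaf 1 527 531) (node 558 (merge (leaf 1 526 527) (leaf 2 525 557))))) (node 527 (merge (node 559 (merge (node 558 (merge (leaf 1 526 530) (leaf 2 525 557))) (node 464 (merge (leaf 5 431 432) (leaf 5 463 591))))) (node 498 (merge (leaf 2 495 499) (node 497 (merge (leaf 2 494 526) (node 495 (merge (leaf 0 494 494) (node 466 (merge (leaf 2 463 467) (node 434 (merge (leaf 5 401 402) (node 433 (merge (leaf 7 401 401) (leaf 5 432 465)))))))))))))))))) (merge (node 530 (merge (node 495 (merge (leaf 3 495 531) (node 494 (merge (leaf 0 493 493) (leaf 0 494 497)))))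 (merge (node 559 (merge (leaf 1 527 531) (node 558 (merge (leaf 1 526 527) (leaf 2 525 557))))) (node 559 (merge (node 558 (merge (leaf 1 526 527) (leaf 2 525 557))) (node 464 (merge (leaf 5 463 591) (node 431 (merge (leaf 7 431 463) (node 432 (merge (leaf 7 399 399) (node 400 (merge (leaf 4 400 497) (node 401 (merge (leaf 6 368 369) (leaf 6 400 433)))))))))))))))) (merge (node 463 (merge (node 464 (merge (leaf 7 431 431) (node 433 (merge (leaf 6 432 465) (node 432 (merge (leaf 6 400 401) (node 559 (merge (leaf 5 431 527) (leaf 5 463 591))))))))) (merge (node 495 (merge (node 431 (merge (leaf 4 399 399) (leaf 4 431 527))) (node 494 (merge (leaf 0 493 493) (node 530 (merge (leaf 0 494 497) (leaf 3 495 531))))))) (merge (node 431 (merge (leaf 7 431 464) (node 495 (merge (leaf 4 399 399) (node 494 (merge (leaf 0 493 493) (node 530 (merge (leaf 0 494 497) (leaf 3 495 531))))))))) (node 497 (merge (node 495 (merge (node 498 (merge (leaf 3 462 462) (node 499 (merge (leaf 1 496 500) (leaf 1 495 527))))) (node 494 (merge (leaf 0 493 493) (node 530 (merge (leaf 0 494 497) (leaf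 3 495 531))))))) (merge (node 462 (merge (node 461 (merge (leaf 0 461 464) (node 495 (merge (leaf 0 460 460) (leaf 3 461 494))))) (merge (node 464 (merge (leaf 0 461 461) (node 465 (merge (leaf 6 432 433) (leaf 0 462 498))))) (merge (node 498 (merge (leaf 3 462 495) (node 465 (merge (leaf 0 462 464) (node 433 (merge (leaf 5 400 401) (leaf 5 432 529))))))) (node 495 (merge (leaf 3 462 498) (node 494 (merge (leaf 3 461 461) (node 465 (merge (leaf 2 462 466) (node 433 (merge (leaf 5 400 401) (leaf 5 432 529))))))))))))) (merge (node 464 (merge (node 462 (merge (leaf 0 461 461) (node 465 (merge (leaf 6 432 433) (leaf 0 462 498))))) (node 432 (merge (leaf 4 400 400) (node 559 (merge (leaf 5 431 527) (leaf 5 463 591))))))) (merge (node 464 (merge (node 432 (merge (leaf 4 400 400) (node 559 (merge (leaf 5 431 527) (leaf 5 463 591))))) (merge (node 432 (merge (leaf 4 400 400) (node 433 (merge (leaf 6 400 401) (leaf 6 432 465))))) (node 462 (merge (leaf 0 461 461) (node 465 (merge (leaf 5 432 433) (node 494 (merge (leaf 1 461 493) (node 530 (merge (leaf 0 494 495) (node 559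 (merge (leaf 1 527 531) (leaf 5 463 591)))))))))))))) (node 464 (merge (node 432 (merge (leaf 4 400 400) (node 559 (merge (leaf 5 431 527) (leaf 5 463 591))))) (merge (node 432 (merge (leaf 4 400 400) (node 433 (merge (leaf 6 400 401) (leaf 6 432 465))))) (node 498 (merge (leaf 3 463 499) (node 527 (merge (leaf 2 494 526) (node 465 (merge (leaf 5 432 433) (node 559 (merge (leaf 5 463 591) (node 530 (merge (leaf 1 527 531) (node 562 (merge (leaf 0 527 563) (leaf 7 465 594))))))))))))))))))))))))) (merge (node 527 (merge (node 464 (merge (node 559 (merge (leaf 5 431 432) (leaf 5 463 591))) (merge (node 433 (merge (leaf 6 432 465) (node 432 (merge (leaf 6 400 401) (node 431 (merge (leaf 7 399 399) (leaf 7 431 463))))))) (node 559 (merge (leaf 5 463 591) (node 558 (merge (leaf 2 525 557) (node 465 (merge (leaf 6 432 433) (node 463 (merge (leaf 7 431 431) (node 495 (merge (leaf 5 462 590) (node 494 (merge (leaf 1 462 466) (leaf 0 493 493)))))))))))))))) (merge (node 526 (merge (node 497 (merge (leaf 2 494 498) (leaf 2 493 525))) (merge (node 557 (merge (leaf 1 525 558)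 (node 525 (merge (leaf 1 524 556) (node 493 (merge (leaf 3 492 492) (leaf 3 493 494))))))) (node 497 (merge (leaf 2 494 498) (node 494 (merge (leaf 3 493 493) (node 465 (merge (leaf 5 432 433) (node 495 (merge (leaf 2 462 466) (node 462 (merge (leaf 3 461 461) (node 559 (merge (leaf 4 430 430) (leaf 7 462 591)))))))))))))))) (merge (node 464 (merge (node 559 (merge (leaf 5 431 432) (leaf 5 463 591))) (merge (node 431 (merge (leaf 7 431 463) (node 432 (merge (leaf 7 399 399) (node 497 (merge (leaf 4 400 400) (node 526 (merge (leaf 2 494 498) (leaf 2 493 525))))))))) (node 559 (merge (leaf 5 463 591) (node 558 (merge (leaf 2 525 557) (node 463 (merge (leaf 7 431 431) (node 495 (merge (leaf 5 462 590) (node 462 (merge (leaf 7 430 430) (node 497 (merge (leaf 0 461 461) (leaf 3 462 498)))))))))))))))) (merge (node 497 (merge (node 526 (merge (leaf 2 494 498) (leaf 2 493 525))) (merge (node 464 (merge (node 432 (merge (leaf 4 400 400) (node 559 (merge (leaf 5 431 527) (leaf 5 463 591))))) (node 463 (merge (leaf 7 431 431) (node 462 (merge (leaf 0 461 461) (node 498 (merge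 (leaf 0 462 465) (leaf 3 463 499))))))))) (node 464 (merge (node 432 (merge (leaf 4 400 400) (leaf 5 431 559))) (merge (node 433 (merge (leaf 6 432 465) (node 432 (merge (leaf 6 400 401) (node 431 (merge (leaf 7 399 399) (leaf 7 431 463))))))) (node 526 (merge (leaf 2 493 525) (node 494 (merge (leaf 3 493 493) (node 465 (merge (leaf 5 432 433) (node 463 (merge (leaf 7 431 431) (node 462 (merge (leaf 0 461 461) (node 430 (merge (leaf 3 429 429) (leaf 4 430 559))))))))))))))))))) (node 526 (merge (node 497 (merge (leaf 2 494 498) (leaf 2 493 525))) (merge (node 557 (merge (leaf 1 525 558) (node 525 (merge (leaf 1 524 556) (node 493 (merge (leaf 3 492 492) (leaf 3 493 494))))))) (node 497 (merge (leaf 2 494 498) (node 494 (merge (leaf 3 493 493) (node 465 (merge (leaf 5 432 433) (node 495 (merge (leaf 2 462 466) (node 462 (merge (leaf 3 461 461) (node 430 (merge (leaf 4 398 398) (node 431 (merge (leaf 6 398 399) (leaf 4 431 463))))))))))))))))))))))) (merge (node 527 (merge (node 526 (merge (node 497 (merge (leaf 2 494 498) (leaf 2 493 525))) (merge (node 557 (merge (leaf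 1 525 558) (node 525 (merge (leaf 1 524 556) (node 495 (merge (leaf 2 492 524) (node 530 (merge (leaf 3 494 494) (leaf 3 495 531))))))))) (node 498 (merge (leaf 2 494 497) (node 530 (merge (leaf 2 495 499) (node 563 (merge (leaf 0 527 562) (node 531 (merge (leaf 3 495 495) (leaf 0 528 564)))))))))))) (merge (node 494 (merge (node 495 (merge (leaf 0 493 493) (leaf 3 494 530))) (merge (node 526 (merge (leaf 3 493 493) (node 525 (merge (leaf 2 493 497) (node 557 (merge (leaf 1 524 556) (leaf 1 525 558))))))) (node 530 (merge (leaf 3 494 495) (node 563 (merge (leaf 0 527 562) (node 531 (merge (leaf 0 528 564) (node 500 (merge (leaf 2 496 499) (node 532 (merge (leaf 3 496 497) (leaf 2 497 501)))))))))))))) (merge (node 530 (merge (node 563 (merge (leaf 0 527 562) (node 531 (merge (leaf 0 528 564) (node 499 (merge (leaf 2 495 498) (leaf 2 496 500))))))) (merge (node 498 (merge (leaf 2 495 499) (node 526 (merge (leaf 2 494 497) (node 557 (merge (leaf 1 525 558) (node 525 (merge (leaf 1 524 556) (node 493 (merge (leaf 3 492 492) (leaf 3 493 494))))))))))) (merge (node 563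 (merge (leaf 0 527 562) (node 531 (merge (leaf 0 528 564) (node 500 (merge (leaf 2 496 499) (node 532 (merge (leaf 3 496 497) (leaf 2 497 501))))))))) (node 563 (merge (leaf 0 527 562) (node 531 (merge (leaf 0 528 564) (node 497 (merge (leaf 3 496 532) (node 526 (merge (leaf 2 494 498) (leaf 2 493 525))))))))))))) (merge (node 526 (merge (node 557 (merge (leaf 1 525 558) (node 525 (merge (leaf 1 524 556) (node 493 (merge (leaf 3 492 492) (leaf 3 493 494))))))) (merge (node 494 (merge (leaf 3 493 493) (node 530 (merge (leaf 3 494 495) (node 563 (merge (leaf 0 527 562) (node 531 (merge (leaf 0 528 564) (node 499 (merge (leaf 2 495 498) (leaf 2 496 500))))))))))) (merge (node 557 (merge (leaf 1 525 558) (node 525 (merge (leaf 1 524 556) (node 524 (merge (leaf 2 492 495) (node 492 (merge (leaf 3 491 491) (leaf 3 492 493))))))))) (node 557 (merge (leaf 1 525 558) (node 525 (merge (leaf 1 524 556) (node 495 (merge (leaf 2 492 524) (node 530 (merge (leaf 3 494 494) (leaf 3 495 531))))))))))))) (merge (node 526 (merge (node 497 (merge (leaf 2 494 498) (leaf 2 493 525))) (merge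 (node 557 (merge (leaf 1 525 558) (node 525 (merge (leaf 1 524 556) (node 524 (merge (leaf 2 492 495) (node 492 (merge (leaf 3 491 491) (leaf 3 492 493))))))))) (node 498 (merge (leaf 2 494 497) (node 530 (merge (leaf 2 495 499) (node 563 (merge (leaf 0 527 562) (node 531 (merge (leaf 3 495 495) (leaf 0 528 564)))))))))))) (merge (node 526 (merge (node 497 (merge (leaf 2 494 498) (leaf 2 493 525))) (merge (node 557 (merge (leaf 1 525 558) (node 525 (merge (leaf 1 524 556) (node 493 (merge (leaf 3 492 492) (leaf 3 493 494))))))) (node 497 (merge (leaf 2 494 498) (node 494 (merge (leaf 3 493 493) (node 465 (merge (leaf 5 432 433) (node 495 (merge (leaf 2 462 466) (node 462 (merge (leaf 3 461 461) (node 430 (merge (leaf 4 398 398) (node 431 (merge (leaf 6 398 399) (leaf 4 431 463)))))))))))))))))) (node 495 (merge (node 494 (merge (leaf 0 493 493) (leaf 3 494 530))) (merge (node 530 (merge (leaf 3 495 531) (node 562 (merge (leaf 0 527 563) (node 498 (merge (leaf 2 495 499) (node 463 (merge (leaf 4 431 431) (node 497 (merge (leaf 3 462 462) (node 465 (merge (leaf 4 433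 433) (leaf 7 465 594))))))))))))) (node 494 (merge (leaf 0 493 493) (node 497 (merge (node 465 (merge (leaf 2 462 466) (node 433 (merge (leaf 5 400 401) (leaf 5 432 529))))) (merge (node 466 (merge (leaf 2 462 465) (node 498 (merge (leaf 2 463 467) (node 462 (merge (leaf 3 461 461) (leaf 3 462 463))))))) (node 462 (merge (leaf 3 461 461) (node 498 (merge (leaf 3 462 463) (node 499 (merge (leaf 1 495 527) (node 532 (merge (leaf 0 496 531) (node 500 (merge (leaf 1 496 529) (leaf 0 497 533)))))))))))))))))))))))))) (merge (node 497 (merge (node 464 (merge (node 432 (merge (leaf 4 400 400) (node 433 (merge (leaf 6 400 401) (leaf 6 432 465))))) (merge (node 463 (merge (leaf 7 431 431) (node 462 (merge (leaf 0 461 461) (node 498 (merge (leaf 0 462 465) (leaf 3 463 499))))))) (node 431 (merge (leaf 7 431 463) (node 432 (merge (leaf 7 399 399) (node 400 (merge (leaf 4 400 497) (node 401 (merge (leaf 6 368 369) (leaf 6 400 433)))))))))))) (merge (node 498 (merge (node 499 (merge (leaf 1 496 500) (node 467 (merge (leaf 2 464 468) (node 495 (merge (leaf 2 463 466) (node 494 (merge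 (leaf 0 493 493) (leaf 0 494 530))))))))) (merge (node 495 (merge (node 530 (merge (leaf 0 494 494) (leaf 0 495 531))) (merge (node 494 (merge (leaf 0 493 493) (node 462 (merge (leaf 3 461 461) (leaf 3 462 463))))) (node 463 (merge (leaf 3 462 462) (node 431 (merge (leaf 4 399 399) (leaf 7 431 464)))))))) (merge (node 499 (merge (leaf 1 496 500) (node 467 (merge (leaf 2 464 468) (node 495 (merge (leaf 2 463 466) (node 494 (merge (leaf 0 493 493) (node 462 (merge (leaf 3 461 461) (leaf 3 462 463))))))))))) (node 499 (merge (leaf 1 496 500) (node 531 (merge (leaf 0 496 532) (node 559 (merge (leaf 1 527 530) (node 464 (merge (leaf 3 463 463) (leaf 5 463 591))))))))))))) (merge (node 498 (merge (node 499 (merge (leaf 1 496 500) (node 531 (merge (leaf 0 496 532) (node 530 (merge (leaf 0 495 495) (leaf 1 527 559))))))) (merge (node 499 (merge (leaf 1 496 500) (node 464 (merge (leaf 3 463 463) (node 432 (merge (leaf 4 400 400) (node 433 (merge (leaf 6 400 401) (leaf 5 432 465))))))))) (node 495 (merge (node 530 (merge (leaf 0 494 494) (leaf 0 495 531))) (merge (node 494 (merge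 (leaf 0 493 493) (node 462 (merge (leaf 3 461 461) (leaf 3 462 463))))) (node 530 (merge (leaf 0 495 531) (node 466 (merge (leaf 2 463 467) (node 434 (merge (leaf 5 401 402) (node 433 (merge (leaf 7 401 401) (leaf 5 432 465))))))))))))))) (merge (node 464 (merge (node 432 (merge (leaf 4 400 400) (node 431 (merge (leaf 7 399 399) (leaf 7 431 463))))) (merge (node 432 (merge (leaf 4 400 400) (node 433 (merge (leaf 6 400 401) (leaf 6 432 465))))) (node 465 (merge (leaf 5 432 433) (node 463 (merge (leaf 7 431 431) (node 462 (merge (leaf 0 461 461) (node 494 (merge (leaf 1 461 493) (node 495 (merge (leaf 1 462 466) (leaf 0 494 530)))))))))))))) (merge (node 433 (merge (leaf 5 432 465) (node 498 (merge (node 499 (merge (leaf 1 496 500) (node 531 (merge (leaf 0 496 532) (node 530 (merge (leaf 0 495 495) (leaf 1 527 559))))))) (merge (node 499 (merge (leaf 1 496 500) (node 467 (merge (leaf 2 464 468) (node 495 (merge (leaf 2 463 466) (node 494 (merge (leaf 0 493 493) (leaf 0 494 530))))))))) (merge (node 530 (merge (node 531 (merge (leaf 3 496 532) (leaf 1 527 559))) (node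 495 (merge (leaf 0 494 494) (node 466 (merge (leaf 2 463 467) (node 434 (merge (leaf 7 401 401) (leaf 5 401 402))))))))) (merge (node 499 (merge (leaf 1 496 500) (node 531 (merge (leaf 0 496 532) (node 530 (merge (leaf 1 527 559) (node 467 (merge (leaf 2 464 468) (node 562 (merge (leaf 5 434 435) (leaf 6 466 594))))))))))) (node 499 (merge (leaf 1 496 500) (node 467 (merge (leaf 2 464 468) (node 466 (merge (leaf 2 463 495) (node 434 (merge (leaf 5 401 402) (node 432 (merge (leaf 0 431 431) (node 464 (merge (leaf 4 400 400) (leaf 6 400 401)))))))))))))))))))) (node 498 (merge (node 499 (merge (leaf 1 496 500) (node 531 (merge (leaf 0 496 532) (node 530 (merge (leaf 0 495 495) (leaf 1 527 559))))))) (merge (node 499 (merge (leaf 1 496 500) (node 467 (merge (leaf 2 464 468) (node 495 (merge (leaf 2 463 466) (node 494 (merge (leaf 0 493 493) (leaf 0 494 530))))))))) (merge (node 499 (merge (leaf 1 496 500) (node 531 (merge (leaf 0 496 532) (node 467 (merge (leaf 2 464 468) (node 466 (merge (leaf 2 463 495) (node 434 (merge (leaf 4 402 402) (leaf 7 434 563))))))))))) (merge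 (node 499 (merge (leaf 1 496 500) (node 531 (merge (leaf 0 496 532) (node 530 (merge (leaf 1 527 559) (node 563 (merge (leaf 0 528 564) (node 467 (merge (leaf 2 464 468) (node 434 (merge (leaf 4 434 466) (node 435 (merge (leaf 7 402 402) (leaf 5 402 403))))))))))))))) (node 495 (merge (node 494 (merge (leaf 0 493 493) (node 462 (merge (leaf 3 461 461) (leaf 3 462 463))))) (merge (node 494 (merge (leaf 0 493 493) (leaf 0 494 530))) (node 530 (merge (leaf 0 495 531) (node 466 (merge (leaf 2 463 467) (node 434 (merge (leaf 5 401 402) (node 433 (merge (leaf 7 401 401) (leaf 5 432 465))))))))))))))))))))))) (node 530 (merge (node 495 (merge (leaf 3 495 531) (node 494 (merge (leaf 0 493 493) (leaf 0 494 497))))) (merge (node 559 (merge (leaf 1 527 531) (node 558 (merge (leaf 1 526 527) (leaf 2 525 557))))) (node 464 (merge (node 559 (merge (leaf 5 463 591) (node 558 (merge (leaf 1 526 527) (leaf 2 525 557))))) (merge (node 433 (merge (leaf 6 432 465) (node 432 (merge (leaf 6 400 401) (node 400 (merge (leaf 4 400 497) (node 399 (merge (leaf 7 367 367) (leaf 7 399 431)))))))))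 (node 559 (merge (leaf 5 463 591) (node 432 (merge (leaf 5 431 527) (node 400 (merge (leaf 4 400 497) (node 369 (merge (leaf 6 368 401) (node 368 (merge (leaf 6 336 337) (node 367 (merge (leaf 7 335 335) (leaf 7 367 399)))))))))))))))))))))))))))) nE_13 cE_13 11 (by decide +kernel)
def nE_14 : ℕ := 0x100000001000000000000000000000000000000000000000000000000000000000000000000000000000000000000000000000000000000000000000000000000000000000000
def cE_14 : ℕ := 0x200000003c0000007c0000005f800001ef000003ef800003ff800001ff800000fe000000fc000000380000002800000000000000000000000000000000000000000000000000000000000000000000000000000000000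
theorem lE_14 : S nE_14 cE_14 12 := S_of_chk [(nE_13, cE_13, 11)] ⟨lE_13, trivial⟩ (node 496 (merge (node 465 (merge (node 433 (merge (leaf 6 432 464) (node 497 (merge (leaf 5 400 401) (leaf 5 432 529))))) (merge (node 497 (merge (leaf 6 464 592) (node 433 (merge (leaf 5 400 401) (leaf 5 432 529))))) (merge (node 592 (merge (leaf 6 464 497) (node 591 (merge (leaf 5 495 623) (node 464 (merge (leaf 5 463 559) (node 463 (merge (leaf 7 431 431) (leaf 7 463 495))))))))) (node 464 (merge (leaf 6 432 433) (node 591 (merge (leaf 5 463 559) (node 463 (merge (leaf 7 431 431) (node 592 (merge (leaf 7 463 495) (leaf 5 495 623))))))))))))) (merge (node 463 (merge (node 431 (merge (leaf 7 431 464) (node 495 (merge (leaf 4 399 399) (leaf 4 431 527))))) (merge (node 495 (merge (leaf 7 463 592) (node 431 (merge (leaf 4 399 399) (leaf 4 431 527))))) (merge (node 592 (merge (leaf 7 463 495) (node 465 (merge (leaf 6 464 497) (node 464 (merge (leaf 6 432 433) (node 591 (merge (leaf 5 463 559) (leaf 5 495 623))))))))) (node 464 (merge (leaf 7 431 431) (node 465 (merge (leaf 6 432 433) (node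 592 (merge (leaf 6 464 497) (node 591 (merge (leaf 5 463 559) (leaf 5 495 623))))))))))))) (merge (node 464 (merge (node 465 (merge (leaf 6 432 433) (node 592 (merge (leaf 6 464 497) (node 463 (merge (leaf 7 431 431) (leaf 7 463 495))))))) (merge (node 463 (merge (leaf 7 431 431) (node 592 (merge (leaf 7 463 495) (node 497 (merge (leaf 6 464 465) (node 529 (merge (leaf 6 496 624) (node 432 (merge (leaf 4 400 400) (leaf 4 432 561))))))))))) (merge (node 433 (merge (leaf 6 432 465) (node 432 (merge (leaf 6 400 401) (node 529 (merge (leaf 4 432 561) (node 400 (merge (leaf 4 400 497) (node 399 (merge (leaf 7 367 367) (leaf 7 399 431))))))))))) (merge (node 465 (merge (leaf 6 432 433) (node 592 (merge (leaf 6 464 497) (node 495 (merge (leaf 7 463 463) (node 527 (merge (leaf 7 495 624) (node 432 (merge (leaf 5 399 400) (leaf 5 431 559))))))))))) (node 431 (merge (leaf 7 431 463) (node 432 (merge (leaf 7 399 399) (node 527 (merge (leaf 5 431 559) (node 400 (merge (leaf 5 399 495) (node 401 (merge (leaf 6 368 369) (leaf 6 400 433)))))))))))))))) (merge (node 464 (merge (node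 433 (merge (leaf 6 432 465) (node 432 (merge (leaf 6 400 401) (node 431 (merge (leaf 7 399 399) (leaf 7 431 463))))))) (merge (node 465 (merge (leaf 6 432 433) (node 592 (merge (leaf 6 464 497) (node 591 (merge (leaf 5 463 559) (leaf 5 495 623))))))) (merge (node 559 (merge (leaf 5 463 591) (node 432 (merge (leaf 5 431 527) (node 401 (merge (leaf 6 400 433) (node 400 (merge (leaf 6 368 369) (node 399 (merge (leaf 7 367 367) (leaf 7 399 431))))))))))) (node 559 (merge (leaf 5 463 591) (node 432 (merge (leaf 5 431 527) (node 399 (merge (leaf 7 399 431) (node 400 (merge (leaf 7 367 367) (node 497 (merge (leaf 4 400 529) (node 465 (merge (leaf 4 368 368) (leaf 6 464 592))))))))))))))))) (merge (node 591 (merge (node 559 (merge (leaf 5 463 464) (node 623 (merge (leaf 6 495 527) (leaf 6 527 655))))) (merge (node 464 (merge (leaf 5 463 559) (node 463 (merge (leaf 7 431 431) (node 592 (merge (leaf 7 463 495) (node 497 (merge (leaf 6 464 465) (node 529 (merge (leaf 6 496 624) (node 432 (merge (leaf 4 400 400) (leaf 4 432 561))))))))))))) (node 592 (merge (leaf 5 495 623) (node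 497 (merge (leaf 6 464 465) (node 529 (merge (leaf 6 496 624) (node 495 (merge (leaf 7 463 463) (node 530 (merge (leaf 0 494 494) (leaf 3 495 531)))))))))))))) (merge (node 591 (merge (node 559 (merge (leaf 5 463 464) (node 623 (merge (leaf 6 495 527) (leaf 6 527 655))))) (merge (node 592 (merge (leaf 5 495 623) (node 497 (merge (leaf 6 464 465) (node 529 (merge (leaf 6 496 624) (node 495 (merge (leaf 7 463 463) (node 530 (merge (leaf 0 494 494) (leaf 3 495 531))))))))))) (node 464 (merge (leaf 5 463 559) (node 465 (merge (leaf 6 432 433) (node 592 (merge (leaf 6 464 497) (node 495 (merge (leaf 7 463 463) (node 527 (merge (leaf 7 495 624) (node 432 (merge (leaf 5 399 400) (node 529 (merge (leaf 4 432 561) (node 530 (merge (leaf 3 494 494) (leaf 3 495 531)))))))))))))))))))) (merge (node 591 (merge (node 623 (merge (leaf 5 495 592) (node 559 (merge (leaf 6 495 527) (leaf 6 527 655))))) (merge (node 464 (merge (leaf 5 463 559) (node 463 (merge (leaf 7 431 431) (node 592 (merge (leaf 7 463 495) (leaf 5 495 623))))))) (merge (node 464 (merge (leaf 5 463 559) (node 431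 (merge (leaf 7 431 463) (node 432 (merge (leaf 7 399 399) (node 529 (merge (leaf 4 432 561) (node 400 (merge (leaf 4 400 497) (node 401 (merge (leaf 6 368 369) (leaf 6 400 433))))))))))))) (node 592 (merge (leaf 5 495 623) (node 495 (merge (leaf 7 463 463) (node 624 (merge (leaf 7 495 527) (node 657 (merge (leaf 4 528 625) (node 656 (merge (leaf 4 560 689) (node 529 (merge (leaf 6 496 497) (leaf 6 528 561))))))))))))))))) (merge (node 495 (merge (node 592 (merge (leaf 7 463 463) (node 623 (merge (leaf 5 495 591) (node 624 (merge (leaf 7 495 527) (leaf 5 527 655))))))) (merge (node 592 (merge (leaf 7 463 463) (node 497 (merge (leaf 6 464 465) (node 624 (merge (leaf 6 496 529) (node 623 (merge (leaf 5 495 591) (leaf 5 527 655))))))))) (merge (node 497 (merge (node 465 (merge (leaf 6 464 592) (node 433 (merge (leaf 5 400 401) (leaf 5 432 529))))) (merge (node 592 (merge (leaf 6 464 465) (node 623 (merge (leaf 5 495 591) (node 624 (merge (leaf 7 495 527) (leaf 5 527 655))))))) (node 530 (merge (node 531 (merge (leaf 0 495 498) (leaf 3 495 529))) (merge (node 498 (merge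 (leaf 0 495 531) (node 467 (merge (leaf 2 463 466) (node 499 (merge (leaf 2 464 468) (leaf 1 495 527))))))) (node 494 (merge (leaf 0 494 529) (node 461 (merge (leaf 3 461 462) (node 493 (merge (leaf 3 460 460) (node 492 (merge (leaf 0 492 527) (node 524 (merge (leaf 1 491 523) (leaf 1 492 525))))))))))))))))) (node 494 (merge (node 529 (merge (leaf 0 493 493) (node 530 (merge (leaf 0 494 497) (leaf 3 495 531))))) (merge (node 529 (merge (leaf 0 493 493) (node 530 (merge (leaf 3 494 527) (leaf 3 495 531))))) (merge (node 497 (merge (node 465 (merge (leaf 2 462 466) (node 433 (merge (leaf 5 400 401) (leaf 5 432 529))))) (merge (node 530 (merge (leaf 0 494 529) (node 498 (merge (leaf 0 495 531) (node 526 (merge (leaf 1 493 525) (leaf 1 494 527))))))) (node 466 (merge (leaf 2 462 465) (node 498 (merge (leaf 2 463 467) (node 462 (merge (leaf 3 461 461) (leaf 3 462 463)))))))))) (node 497 (merge (node 466 (merge (leaf 2 462 465) (node 498 (merge (leaf 2 463 467) (node 462 (merge (leaf 3 461 461) (leaf 3 462 463))))))) (merge (node 461 (merge (leaf 3 461 462) (node 493 (merge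 (leaf 3 460 460) (node 492 (merge (leaf 0 492 527) (node 524 (merge (leaf 1 491 523) (leaf 1 492 525))))))))) (merge (node 525 (merge (leaf 1 493 526) (node 493 (merge (leaf 1 492 524) (node 492 (merge (leaf 0 492 527) (node 460 (merge (leaf 3 459 459) (leaf 3 460 461))))))))) (node 525 (merge (leaf 1 493 526) (node 493 (merge (leaf 1 492 524) (node 527 (merge (leaf 0 492 492) (node 498 (merge (leaf 1 495 499) (node 463 (merge (leaf 4 431 431) (leaf 3 462 462))))))))))))))))))))))) (merge (node 559 (merge (node 591 (merge (leaf 5 463 464) (node 623 (merge (leaf 6 495 527) (leaf 6 527 655))))) (merge (node 464 (merge (leaf 5 463 591) (node 433 (merge (leaf 6 432 465) (node 432 (merge (leaf 6 400 401) (node 431 (merge (leaf 7 399 399) (leaf 7 431 463))))))))) (merge (node 464 (merge (node 433 (merge (leaf 6 432 465) (node 432 (merge (leaf 6 400 401) (leaf 5 431 527))))) (merge (node 465 (merge (leaf 6 432 433) (node 463 (merge (leaf 7 431 431) (node 495 (merge (leaf 7 463 592) (node 494 (merge (leaf 1 462 466) (leaf 2 461 493))))))))) (node 527 (merge (leaf 5 431 432)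 (node 463 (merge (leaf 7 431 431) (node 495 (merge (leaf 4 463 592) (node 558 (merge (leaf 5 462 590) (node 557 (merge (leaf 2 525 529) (leaf 2 524 556)))))))))))))) (node 561 (merge (node 591 (merge (node 623 (merge (leaf 5 495 592) (leaf 6 527 655))) (merge (node 623 (merge (leaf 6 495 527) (leaf 6 527 655))) (node 562 (merge (leaf 1 558 590) (node 563 (merge (leaf 3 527 527) (leaf 1 559 592)))))))) (merge (node 558 (merge (node 529 (merge (leaf 2 526 530) (leaf 2 525 557))) (node 590 (merge (leaf 1 557 589) (node 591 (merge (leaf 1 558 562) (node 526 (merge (leaf 3 525 525) (node 623 (merge (leaf 4 494 494) (leaf 7 526 655))))))))))) (merge (node 530 (merge (node 531 (merge (leaf 1 527 529) (leaf 2 527 562))) (merge (node 562 (merge (leaf 2 527 531) (node 527 (merge (leaf 3 526 526) (leaf 3 527 563))))) (node 558 (merge (leaf 2 526 529) (node 525 (merge (leaf 3 525 526) (node 557 (merge (leaf 3 524 524) (node 588 (merge (leaf 1 556 589) (node 556 (merge (leaf 2 524 527) (leaf 1 555 587)))))))))))))) (node 592 (merge (node 623 (merge (leaf 5 495 591) (node 495 (merge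 (leaf 7 463 463) (node 624 (merge (leaf 7 495 527) (leaf 5 527 655))))))) (merge (node 623 (merge (leaf 5 495 591) (node 624 (merge (leaf 5 527 655) (node 656 (merge (leaf 7 527 527) (leaf 6 528 529))))))) (merge (node 623 (merge (leaf 5 495 591) (node 624 (merge (leaf 5 527 655) (node 657 (merge (leaf 4 528 625) (node 656 (merge (leaf 6 528 529) (leaf 4 560 689))))))))) (merge (node 495 (merge (leaf 7 463 463) (node 624 (merge (leaf 7 495 527) (node 657 (merge (leaf 4 528 625) (node 656 (merge (leaf 6 528 529) (leaf 4 560 689))))))))) (node 591 (merge (leaf 5 495 623) (node 590 (merge (leaf 2 557 589) (node 495 (merge (leaf 7 463 463) (node 527 (merge (leaf 5 494 622) (node 494 (merge (leaf 7 462 462) (node 493 (merge (leaf 0 492 492) (leaf 0 493 529)))))))))))))))))))))))))) (merge (node 559 (merge (node 591 (merge (leaf 5 463 464) (node 623 (merge (leaf 6 495 527) (leaf 6 527 655))))) (merge (node 464 (merge (leaf 5 463 591) (node 433 (merge (leaf 6 432 465) (node 432 (merge (leaf 6 400 401) (node 529 (merge (leaf 4 432 561) (node 400 (merge (leaf 4 400 497) (node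 399 (merge (leaf 7 367 367) (leaf 7 399 431))))))))))))) (merge (node 561 (merge (node 591 (merge (node 623 (merge (leaf 5 495 592) (leaf 6 527 655))) (merge (node 623 (merge (leaf 6 495 527) (leaf 6 527 655))) (node 562 (merge (leaf 1 558 590) (node 563 (merge (leaf 3 527 527) (leaf 1 559 592)))))))) (merge (node 558 (merge (node 529 (merge (leaf 2 526 530) (leaf 2 525 557))) (node 590 (merge (leaf 1 557 589) (node 591 (merge (leaf 1 558 562) (node 526 (merge (leaf 3 525 525) (node 623 (merge (leaf 4 494 494) (leaf 7 526 655))))))))))) (merge (node 530 (merge (node 531 (merge (leaf 1 527 529) (leaf 2 527 562))) (merge (node 562 (merge (leaf 2 527 531) (node 527 (merge (leaf 3 526 526) (leaf 3 527 563))))) (node 558 (merge (leaf 2 526 529) (node 525 (merge (leaf 3 525 526) (node 557 (merge (leaf 3 524 524) (node 588 (merge (leaf 1 556 589) (node 556 (merge (leaf 2 524 527) (leaf 1 555 587)))))))))))))) (node 497 (merge (node 465 (merge (leaf 6 464 592) (node 433 (merge (leaf 5 400 401) (leaf 5 432 529))))) (merge (node 592 (merge (leaf 6 464 465) (node 623 (merge (leaf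 5 495 591) (node 624 (merge (leaf 5 527 655) (node 656 (merge (leaf 7 527 527) (node 657 (merge (leaf 4 528 625) (leaf 4 560 689))))))))))) (merge (node 558 (merge (node 529 (merge (leaf 2 526 530) (leaf 2 525 557))) (merge (node 525 (merge (leaf 3 525 526) (node 557 (merge (leaf 3 524 524) (node 588 (merge (leaf 1 556 589) (node 556 (merge (leaf 2 524 527) (leaf 1 555 587))))))))) (node 590 (merge (leaf 1 557 589) (node 529 (merge (leaf 2 526 530) (node 526 (merge (leaf 3 525 525) (node 527 (merge (leaf 2 494 498) (node 622 (merge (leaf 6 494 495) (node 623 (merge (leaf 6 495 591) (leaf 4 526 655)))))))))))))))) (node 558 (merge (node 529 (merge (leaf 2 526 530) (leaf 2 525 557))) (merge (node 525 (merge (leaf 3 525 526) (node 557 (merge (leaf 3 524 524) (node 588 (merge (leaf 1 556 589) (node 556 (merge (leaf 2 524 527) (leaf 1 555 587))))))))) (node 590 (merge (leaf 1 557 589) (node 529 (merge (leaf 2 526 530) (node 526 (merge (leaf 3 525 525) (node 527 (merge (leaf 2 494 498) (node 622 (merge (leaf 6 494 495) (node 623 (merge (leaf 6 495 591) (leaf 4 526 655))))))))))))))))))))))))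 (node 558 (merge (node 529 (merge (leaf 2 525 557) (node 530 (merge (leaf 1 526 527) (leaf 1 527 531))))) (merge (node 557 (merge (leaf 2 525 529) (node 588 (merge (leaf 1 556 589) (node 556 (merge (leaf 1 555 587) (node 524 (merge (leaf 3 523 523) (leaf 3 524 525))))))))) (merge (node 557 (merge (node 556 (merge (leaf 2 524 527) (node 588 (merge (leaf 1 555 587) (leaf 1 556 589))))) (merge (node 589 (merge (leaf 1 556 588) (node 561 (merge (leaf 1 557 590) (node 525 (merge (leaf 3 524 524) (leaf 3 525 526))))))) (node 527 (merge (leaf 2 524 556) (node 525 (merge (leaf 3 524 524) (node 526 (merge (leaf 2 493 497) (leaf 0 525 561)))))))))) (node 561 (merge (node 530 (merge (leaf 2 526 529) (node 562 (merge (leaf 2 527 531) (node 526 (merge (leaf 3 525 525) (leaf 3 526 527))))))) (merge (node 590 (merge (leaf 1 557 589) (node 526 (merge (leaf 3 525 525) (node 527 (merge (leaf 3 526 562) (node 622 (merge (leaf 6 494 495) (leaf 6 526 654))))))))) (merge (node 529 (merge (leaf 2 526 530) (node 464 (merge (leaf 4 432 432) (node 465 (merge (leaf 6 432 433) (node 497 (merge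 (leaf 5 464 592) (node 466 (merge (leaf 6 433 434) (node 495 (merge (leaf 1 463 467) (leaf 2 462 494))))))))))))) (node 529 (merge (leaf 2 526 530) (node 464 (merge (leaf 4 432 432) (node 465 (merge (leaf 6 432 433) (node 497 (merge (leaf 5 464 592) (node 562 (merge (leaf 4 465 594) (node 563 (merge (leaf 3 527 527) (leaf 3 528 564))))))))))))))))))))))))) (hyp 0)))))))))))) nE_14 cE_14 12 (by decide +kernel)
def nE_15 : ℕ := 0x100000001000000000000000000000000000000000000000000000000000000000000000000000000000000000000000000000000000000000000000000000000000000000000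
def cE_15 : ℕ := 0x28000000380000007c000000760000007fc00001ef800003ef800001ff000003ff8000007c0000002c000000000000000000000000000000000000000000000000000000000000000000000000000000000000000000000000000
theorem lE_15 : S nE_15 cE_15 13 := S_of_chk [] trivial (node 559 (merge (node 558 (merge (node 529 (merge (leaf 2 525 557) (node 530 (merge (leaf 1 526 527) (leaf 1 527 531))))) (merge (node 557 (merge (leaf 2 525 529) (node 588 (merge (leaf 1 556 589) (node 556 (merge (leaf 1 555 587) (node 524 (merge (leaf 3 523 523) (leaf 3 524 525))))))))) (merge (node 557 (merge (node 556 (merge (leaf 2 524 527) (node 588 (merge (leaf 1 555 587) (leaf 1 556 589))))) (node 593 (merge (leaf 0 557 592) (node 561 (merge (leaf 0 558 594) (node 525 (merge (leaf 3 524 524) (leaf 3 525 526))))))))) (node 561 (merge (node 530 (merge (leaf 2 526 529) (node 562 (merge (leaf 2 527 531) (node 526 (merge (leaf 3 525 525) (leaf 3 526 527))))))) (merge (node 593 (merge (leaf 0 558 594) (node 625 (merge (leaf 7 528 657) (node 529 (merge (leaf 7 496 496) (leaf 2 526 530))))))) (node 593 (merge (leaf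 0 558 594) (node 625 (merge (leaf 7 528 657) (node 496 (merge (leaf 4 464 464) (leaf 4 496 592)))))))))))))) (merge (node 496 (merge (node 464 (merge (leaf 5 463 591) (node 433 (merge (leaf 6 432 465) (node 432 (merge (leaf 6 400 401) (node 431 (merge (leaf 7 399 399) (leaf 7 431 463))))))))) (merge (node 464 (merge (leaf 5 463 591) (node 593 (merge (leaf 4 464 561) (node 592 (merge (leaf 4 496 625) (node 463 (merge (leaf 7 431 431) (leaf 7 463 495))))))))) (merge (node 464 (merge (leaf 5 463 591) (node 593 (merge (leaf 4 464 561) (node 465 (merge (leaf 6 432 433) (node 592 (merge (leaf 6 464 497) (leaf 4 496 625))))))))) (merge (node 463 (merge (node 431 (merge (leaf 7 431 464) (node 495 (merge (leaf 4 399 399) (leaf 4 431 527))))) (merge (node 495 (merge (leaf 7 463 592) (node 431 (merge (leaf 4 399 399) (leaf 4 431 527))))) (merge (node 592 (merge (leaf 7 463 495) (node 593 (merge (leaf 4 496 625) (node 464 (merge (leaf 4 464 561) (node 465 (merge (leaf 6 432 433) (leaf 6 464 497))))))))) (node 464 (merge (leaf 7 431 431) (node 465 (merge (leaf 6 432 433) (node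 497 (merge (leaf 6 464 592) (node 498 (merge (leaf 0 462 462) (leaf 3 463 499))))))))))))) (node 592 (merge (node 625 (merge (leaf 4 496 593) (node 624 (merge (leaf 4 528 657) (node 495 (merge (leaf 7 463 463) (leaf 7 495 527))))))) (merge (node 593 (merge (leaf 4 496 625) (node 558 (merge (leaf 0 557 557) (node 594 (merge (leaf 0 558 561) (leaf 3 558 591))))))) (node 497 (merge (leaf 6 464 465) (node 495 (merge (leaf 7 463 463) (node 527 (merge (leaf 7 495 624) (node 526 (merge (leaf 1 494 498) (leaf 2 493 525))))))))))))))))) (merge (node 558 (merge (node 529 (merge (leaf 2 525 557) (node 530 (merge (leaf 1 526 527) (leaf 1 527 531))))) (merge (node 557 (merge (leaf 2 525 529) (node 588 (merge (leaf 1 556 589) (node 556 (merge (leaf 1 555 587) (node 524 (merge (leaf 3 523 523) (leaf 3 524 525))))))))) (merge (node 557 (merge (node 556 (merge (leaf 2 524 527) (node 588 (merge (leaf 1 555 587) (leaf 1 556 589))))) (node 593 (merge (leaf 0 557 592) (node 561 (merge (leaf 0 558 594) (node 525 (merge (leaf 3 524 524) (leaf 3 525 526))))))))) (node 561 (merge (node 590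 (merge (leaf 1 557 589) (node 562 (merge (leaf 1 558 591) (node 526 (merge (leaf 3 525 525) (leaf 3 526 527))))))) (merge (node 530 (merge (leaf 2 526 529) (node 562 (merge (leaf 2 527 531) (node 526 (merge (leaf 3 525 525) (leaf 3 526 527))))))) (merge (node 590 (merge (leaf 1 557 589) (node 562 (merge (leaf 1 558 591) (node 531 (merge (leaf 2 527 530) (node 563 (merge (leaf 3 527 527) (leaf 2 528 532))))))))) (merge (node 593 (merge (leaf 0 558 594) (node 625 (merge (leaf 7 528 657) (node 590 (merge (leaf 1 557 589) (node 529 (merge (leaf 2 526 530) (node 626 (merge (leaf 4 529 658) (node 592 (merge (leaf 0 590 591) (node 624 (merge (leaf 5 496 497) (leaf 5 528 656))))))))))))))) (node 593 (merge (leaf 0 558 594) (node 625 (merge (leaf 7 528 657) (node 590 (merge (leaf 1 557 589) (node 591 (merge (leaf 1 558 562) (node 592 (merge (leaf 0 590 626) (node 529 (merge (leaf 2 526 530) (node 624 (merge (leaf 5 496 497) (leaf 5 528 656)))))))))))))))))))))))) (merge (node 558 (merge (node 529 (merge (leaf 2 525 557) (node 530 (merge (leaf 1 526 527) (leaf 1 527 531)))))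 (merge (node 557 (merge (leaf 2 525 529) (node 588 (merge (leaf 1 556 589) (node 556 (merge (leaf 1 555 587) (node 524 (merge (leaf 3 523 523) (leaf 3 524 525))))))))) (merge (node 557 (merge (node 556 (merge (leaf 2 524 527) (node 588 (merge (leaf 1 555 587) (leaf 1 556 589))))) (node 593 (merge (leaf 0 557 592) (node 561 (merge (leaf 0 558 594) (node 525 (merge (leaf 3 524 524) (leaf 3 525 526))))))))) (node 561 (merge (node 590 (merge (leaf 1 557 589) (node 562 (merge (leaf 1 558 591) (node 526 (merge (leaf 3 525 525) (leaf 3 526 527))))))) (merge (node 530 (merge (leaf 2 526 529) (node 562 (merge (leaf 2 527 531) (node 526 (merge (leaf 3 525 525) (leaf 3 526 527))))))) (merge (node 590 (merge (leaf 1 557 589) (node 562 (merge (leaf 1 558 591) (node 531 (merge (leaf 2 527 530) (node 563 (merge (leaf 3 527 527) (leaf 2 528 532))))))))) (merge (node 590 (merge (leaf 1 557 589) (node 591 (merge (leaf 1 558 562) (node 529 (merge (leaf 2 526 530) (node 526 (merge (leaf 3 525 525) (node 494 (merge (leaf 4 462 462) (node 496 (merge (leaf 5 463 464) (node 493 (merge (leaf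 7 461 461) (leaf 0 493 495))))))))))))))) (node 593 (merge (leaf 0 558 594) (node 590 (merge (leaf 1 557 589) (node 529 (merge (leaf 2 526 530) (node 625 (merge (leaf 7 496 496) (node 626 (merge (leaf 4 529 658) (node 592 (merge (leaf 0 590 591) (node 624 (merge (leaf 5 496 497) (leaf 5 528 656)))))))))))))))))))))))) (merge (node 558 (merge (node 557 (merge (leaf 2 525 529) (node 588 (merge (leaf 1 556 589) (node 556 (merge (leaf 1 555 587) (node 524 (merge (leaf 3 523 523) (leaf 3 524 525))))))))) (merge (node 557 (merge (leaf 2 525 529) (node 593 (merge (leaf 0 557 592) (node 561 (merge (leaf 0 558 594) (node 525 (merge (leaf 3 524 524) (leaf 3 525 526))))))))) (merge (node 557 (merge (leaf 2 525 529) (node 593 (merge (leaf 0 557 592) (node 561 (merge (leaf 0 558 594) (node 589 (merge (leaf 1 556 588) (leaf 1 557 590))))))))) (merge (node 589 (merge (node 590 (merge (leaf 1 557 561) (node 588 (merge (leaf 2 555 587) (leaf 2 556 591))))) (merge (node 557 (merge (leaf 1 556 588) (node 592 (merge (leaf 0 557 593) (node 591 (merge (leaf 0 556 556) (node 525 (merge (leaf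 3 524 524) (node 496 (merge (leaf 5 463 464) (node 497 (merge (leaf 6 464 465) (node 495 (merge (leaf 7 463 463) (node 494 (merge (leaf 1 493 526) (node 462 (merge (leaf 3 461 461) (leaf 6 461 493))))))))))))))))))) (node 561 (merge (leaf 1 557 590) (node 593 (merge (leaf 0 558 594) (node 625 (merge (leaf 7 528 657) (node 496 (merge (leaf 4 464 464) (leaf 4 496 592)))))))))))) (node 561 (merge (node 593 (merge (leaf 0 558 594) (node 625 (merge (leaf 7 528 657) (node 529 (merge (leaf 7 496 496) (leaf 2 526 530))))))) (merge (node 593 (merge (leaf 0 558 594) (node 625 (merge (leaf 7 528 657) (node 529 (merge (leaf 7 496 496) (leaf 2 526 530))))))) (merge (node 590 (merge (leaf 1 557 589) (node 591 (merge (leaf 1 558 562) (node 529 (merge (leaf 2 526 530) (node 526 (merge (leaf 3 525 525) (node 494 (merge (leaf 4 462 462) (node 496 (merge (leaf 5 463 464) (node 493 (merge (leaf 7 461 461) (leaf 0 493 495))))))))))))))) (merge (node 593 (merge (leaf 0 558 594) (node 625 (merge (leaf 7 528 657) (node 496 (merge (leaf 4 464 464) (leaf 4 496 592))))))) (node 593 (merge (leaf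 0 558 594) (node 625 (merge (leaf 7 528 657) (node 590 (merge (leaf 1 557 589) (node 591 (merge (leaf 1 558 562) (node 592 (merge (leaf 0 590 626) (node 529 (merge (leaf 2 526 530) (node 624 (merge (leaf 5 496 497) (leaf 5 528 656))))))))))))))))))))))))) (merge (node 496 (merge (node 464 (merge (leaf 5 463 591) (node 433 (merge (leaf 6 432 465) (node 432 (merge (leaf 6 400 401) (node 431 (merge (leaf 7 399 399) (leaf 7 431 463))))))))) (merge (node 464 (merge (leaf 5 463 591) (node 593 (merge (leaf 4 464 561) (node 592 (merge (leaf 4 496 625) (node 463 (merge (leaf 7 431 431) (leaf 7 463 495))))))))) (merge (node 464 (merge (leaf 5 463 591) (node 593 (merge (leaf 4 464 561) (node 465 (merge (leaf 6 432 433) (node 592 (merge (leaf 6 464 497) (leaf 4 496 625))))))))) (merge (node 465 (merge (node 433 (merge (leaf 6 432 464) (node 497 (merge (leaf 5 400 401) (leaf 5 432 529))))) (merge (node 497 (merge (leaf 6 464 592) (node 433 (merge (leaf 5 400 401) (leaf 5 432 529))))) (merge (node 592 (merge (leaf 6 464 497) (node 593 (merge (leaf 4 496 625) (node 464 (merge (leaf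 4 464 561) (node 463 (merge (leaf 7 431 431) (leaf 7 463 495))))))))) (node 464 (merge (leaf 6 432 433) (node 593 (merge (leaf 4 464 561) (node 592 (merge (leaf 4 496 625) (node 463 (merge (leaf 7 431 431) (leaf 7 463 495))))))))))))) (node 497 (merge (node 592 (merge (leaf 6 464 465) (node 625 (merge (leaf 4 496 593) (node 624 (merge (leaf 6 496 529) (leaf 4 528 657))))))) (merge (node 592 (merge (leaf 6 464 465) (node 625 (merge (leaf 4 496 593) (node 624 (merge (leaf 4 528 657) (node 495 (merge (leaf 7 463 463) (leaf 7 495 527))))))))) (merge (node 495 (merge (node 592 (merge (leaf 7 463 463) (node 625 (merge (leaf 4 496 593) (node 624 (merge (leaf 7 495 527) (leaf 4 528 657))))))) (merge (node 592 (merge (leaf 7 463 463) (node 529 (merge (leaf 6 496 624) (node 530 (merge (leaf 0 494 494) (leaf 3 495 531))))))) (merge (node 530 (merge (node 529 (merge (leaf 0 494 494) (leaf 1 527 531))) (merge (node 498 (merge (leaf 0 495 531) (node 463 (merge (leaf 3 462 462) (node 431 (merge (leaf 4 399 399) (leaf 4 431 527))))))) (node 494 (merge (leaf 0 494 529) (node 462 (merge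 (leaf 3 461 461) (node 463 (merge (leaf 3 462 498) (node 527 (merge (leaf 4 431 431) (leaf 7 462 591)))))))))))) (node 526 (merge (node 527 (merge (leaf 1 494 498) (leaf 2 493 525))) (merge (node 494 (merge (leaf 1 493 525) (node 529 (merge (leaf 0 493 493) (leaf 0 494 530))))) (node 498 (merge (leaf 1 494 527) (node 530 (merge (leaf 0 495 531) (node 529 (merge (leaf 0 494 494) (node 466 (merge (leaf 2 463 467) (node 561 (merge (leaf 5 433 434) (leaf 6 465 593)))))))))))))))))) (node 498 (merge (node 527 (merge (leaf 1 495 499) (node 526 (merge (leaf 1 494 495) (leaf 2 493 525))))) (merge (node 499 (merge (leaf 1 495 527) (node 532 (merge (leaf 0 496 531) (node 500 (merge (leaf 1 496 529) (leaf 0 497 533))))))) (merge (node 495 (merge (node 463 (merge (leaf 3 462 462) (node 431 (merge (leaf 4 399 399) (leaf 4 431 527))))) (node 466 (merge (leaf 2 463 467) (node 494 (merge (leaf 2 462 465) (node 529 (merge (leaf 0 493 493) (leaf 0 494 530))))))))) (node 495 (merge (node 466 (merge (leaf 2 463 467) (node 494 (merge (leaf 2 462 465) (node 529 (merge (leaf 0 493 493) (leaf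 0 494 530))))))) (merge (node 467 (merge (leaf 2 463 466) (node 499 (merge (leaf 2 464 468) (node 532 (merge (leaf 0 496 531) (node 500 (merge (leaf 1 496 529) (leaf 0 497 533))))))))) (merge (node 531 (merge (leaf 0 495 530) (node 499 (merge (leaf 0 496 532) (node 529 (merge (leaf 1 496 500) (node 494 (merge (leaf 0 493 493) (node 465 (merge (leaf 5 432 433) (leaf 2 462 466))))))))))) (merge (node 531 (merge (leaf 0 495 530) (node 499 (merge (leaf 0 496 532) (node 500 (merge (leaf 1 496 529) (node 468 (merge (leaf 2 464 467) (leaf 2 465 469))))))))) (node 530 (merge (leaf 0 495 531) (node 466 (merge (leaf 2 463 467) (node 465 (merge (leaf 2 462 494) (node 433 (merge (leaf 4 401 401) (leaf 7 433 562))))))))))))))))))))))))))) (merge (node 558 (merge (node 529 (merge (leaf 2 525 557) (node 530 (merge (leaf 1 526 527) (leaf 1 527 531))))) (merge (node 557 (merge (leaf 2 525 529) (node 593 (merge (leaf 0 557 592) (node 561 (merge (leaf 0 558 594) (node 589 (merge (leaf 1 556 588) (leaf 1 557 590))))))))) (merge (node 561 (merge (node 593 (merge (leaf 0 558 594) (node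 625 (merge (leaf 7 528 657) (node 529 (merge (leaf 7 496 496) (leaf 2 526 530))))))) (merge (node 590 (merge (leaf 1 557 589) (node 562 (merge (leaf 1 558 591) (node 531 (merge (leaf 2 527 530) (node 563 (merge (leaf 3 527 527) (leaf 2 528 532))))))))) (node 590 (merge (leaf 1 557 589) (node 562 (merge (leaf 1 558 591) (node 563 (merge (leaf 3 527 527) (node 532 (merge (leaf 2 528 531) (node 564 (merge (leaf 3 528 529) (leaf 2 529 533)))))))))))))) (node 557 (merge (node 556 (merge (leaf 2 524 527) (node 588 (merge (leaf 1 555 587) (leaf 1 556 589))))) (merge (node 593 (merge (leaf 0 557 592) (node 561 (merge (leaf 0 558 594) (node 589 (merge (leaf 1 556 588) (leaf 1 557 590))))))) (merge (node 556 (merge (leaf 2 524 527) (node 591 (merge (leaf 0 556 592) (node 590 (merge (leaf 0 555 555) (node 561 (merge (leaf 1 558 562) (leaf 1 557 589))))))))) (node 556 (merge (leaf 2 524 527) (node 591 (merge (leaf 0 556 592) (node 555 (merge (leaf 0 555 590) (node 587 (merge (leaf 1 554 586) (leaf 1 555 588))))))))))))))))) (merge (node 558 (merge (node 529 (merge (leaf 2 525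 557) (node 530 (merge (leaf 1 526 527) (leaf 1 527 531))))) (merge (node 557 (merge (leaf 2 525 529) (node 588 (merge (leaf 1 556 589) (node 556 (merge (leaf 1 555 587) (node 524 (merge (leaf 3 523 523) (leaf 3 524 525))))))))) (merge (node 557 (merge (node 556 (merge (leaf 2 524 527) (node 588 (merge (leaf 1 555 587) (leaf 1 556 589))))) (merge (node 525 (merge (leaf 3 524 524) (node 561 (merge (leaf 3 525 526) (node 590 (merge (leaf 1 557 589) (node 562 (merge (leaf 1 558 591) (node 531 (merge (leaf 2 527 530) (node 563 (merge (leaf 3 527 527) (leaf 2 528 532))))))))))))) (merge (node 525 (merge (leaf 3 524 524) (node 561 (merge (leaf 3 525 526) (node 590 (merge (leaf 1 557 589) (node 591 (merge (leaf 1 558 562) (node 556 (merge (leaf 0 555 555) (leaf 0 556 592))))))))))) (node 556 (merge (leaf 2 524 527) (node 591 (merge (leaf 0 556 592) (node 555 (merge (leaf 0 555 590) (node 587 (merge (leaf 1 554 586) (leaf 1 555 588))))))))))))) (node 496 (merge (node 464 (merge (leaf 5 463 591) (node 433 (merge (leaf 6 432 465) (node 432 (merge (leaf 6 400 401) (leaf 5 431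 527))))))) (merge (node 464 (merge (leaf 5 463 591) (node 465 (merge (leaf 6 432 433) (node 592 (merge (leaf 6 464 497) (node 463 (merge (leaf 7 431 431) (leaf 7 463 495))))))))) (merge (node 464 (merge (leaf 5 463 591) (node 432 (merge (leaf 5 431 527) (node 431 (merge (leaf 7 399 399) (leaf 7 431 463))))))) (merge (node 464 (merge (node 432 (merge (leaf 5 431 527) (node 431 (merge (leaf 7 399 399) (leaf 7 431 463))))) (merge (node 433 (merge (leaf 6 432 465) (node 432 (merge (leaf 6 400 401) (leaf 5 431 527))))) (merge (node 463 (merge (leaf 7 431 431) (node 592 (merge (leaf 7 463 495) (node 497 (merge (leaf 6 464 465) (node 529 (merge (leaf 6 496 624) (node 561 (merge (leaf 4 432 432) (leaf 2 526 530))))))))))) (node 463 (merge (leaf 7 431 431) (node 592 (merge (leaf 7 463 495) (node 497 (merge (leaf 6 464 465) (node 624 (merge (leaf 6 496 529) (node 656 (merge (leaf 7 527 527) (node 689 (merge (leaf 4 560 657) (node 688 (merge (leaf 4 592 721) (node 687 (merge (leaf 5 559 655) (leaf 5 591 719))))))))))))))))))))) (node 495 (merge (node 463 (merge (leaf 7 463 592)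 (node 527 (merge (leaf 4 431 431) (leaf 5 462 590))))) (merge (node 590 (merge (node 527 (merge (leaf 5 462 463) (node 622 (merge (leaf 6 494 526) (leaf 6 526 654))))) (node 589 (merge (leaf 1 557 561) (node 588 (merge (leaf 2 555 587) (leaf 2 556 591))))))) (merge (node 592 (merge (leaf 7 463 463) (node 497 (merge (leaf 6 464 465) (node 529 (merge (leaf 6 496 624) (node 494 (merge (leaf 0 493 493) (leaf 0 494 530))))))))) (node 497 (merge (node 465 (merge (leaf 6 464 592) (node 433 (merge (leaf 5 400 401) (leaf 5 432 529))))) (merge (node 592 (merge (leaf 6 464 465) (node 527 (merge (leaf 7 495 624) (node 526 (merge (leaf 1 494 498) (leaf 2 493 525))))))) (merge (node 529 (merge (node 530 (merge (leaf 0 494 494) (leaf 1 527 531))) (merge (node 530 (merge (leaf 1 526 527) (leaf 1 527 531))) (node 494 (merge (leaf 0 493 493) (node 462 (merge (leaf 3 461 461) (node 591 (merge (leaf 4 462 526) (leaf 7 462 527)))))))))) (node 465 (merge (node 433 (merge (leaf 5 400 401) (leaf 5 432 529))) (node 494 (merge (leaf 2 462 466) (node 525 (merge (leaf 1 493 526) (node 493 (merge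 (leaf 1 492 524) (node 492 (merge (leaf 0 492 527) (node 460 (merge (leaf 3 459 459) (leaf 3 460 461)))))))))))))))))))))))))))))) (merge (node 558 (merge (node 529 (merge (leaf 2 525 557) (node 530 (merge (leaf 1 526 527) (leaf 1 527 531))))) (merge (node 557 (merge (leaf 2 525 529) (node 588 (merge (leaf 1 556 589) (node 556 (merge (leaf 1 555 587) (node 524 (merge (leaf 3 523 523) (leaf 3 524 525))))))))) (merge (node 496 (merge (node 464 (merge (leaf 5 463 591) (node 433 (merge (leaf 6 432 465) (node 432 (merge (leaf 6 400 401) (node 431 (merge (leaf 7 399 399) (leaf 7 431 463))))))))) (merge (node 464 (merge (leaf 5 463 591) (node 527 (merge (leaf 5 431 432) (node 463 (merge (leaf 7 431 431) (node 592 (merge (leaf 4 463 495) (node 624 (merge (leaf 7 527 656) (node 625 (merge (leaf 4 496 593) (leaf 4 528 657))))))))))))) (merge (node 464 (merge (leaf 5 463 591) (node 527 (merge (leaf 5 431 432) (node 465 (merge (leaf 6 432 433) (node 592 (merge (leaf 6 464 497) (node 624 (merge (leaf 7 495 495) (leaf 7 527 656))))))))))) (merge (node 464 (merge (node 432 (merge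 (leaf 5 431 527) (node 431 (merge (leaf 7 399 399) (leaf 7 431 463))))) (merge (node 433 (merge (leaf 6 432 465) (node 432 (merge (leaf 6 400 401) (leaf 5 431 527))))) (node 463 (merge (leaf 7 431 431) (node 592 (merge (leaf 7 463 495) (node 625 (merge (leaf 4 496 593) (node 624 (merge (leaf 4 528 657) (node 497 (merge (leaf 6 464 465) (leaf 6 496 529)))))))))))))) (node 495 (merge (node 463 (merge (leaf 7 463 592) (node 527 (merge (leaf 4 431 431) (leaf 5 462 590))))) (merge (node 592 (merge (leaf 7 463 463) (node 497 (merge (leaf 6 464 465) (node 529 (merge (leaf 6 496 624) (node 494 (merge (leaf 0 493 493) (leaf 0 494 530))))))))) (merge (node 527 (merge (node 463 (merge (leaf 4 431 431) (leaf 5 462 590))) (merge (node 529 (merge (leaf 1 526 530) (node 494 (merge (leaf 0 493 493) (node 591 (merge (leaf 7 462 462) (node 590 (merge (leaf 5 494 622) (node 589 (merge (leaf 2 556 588) (node 526 (merge (leaf 5 493 621) (node 497 (merge (leaf 1 494 498) (leaf 1 493 525))))))))))))))) (node 529 (merge (leaf 1 526 530) (node 494 (merge (leaf 0 493 493) (node 463 (merge (leaf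 4 431 431) (node 462 (merge (leaf 7 430 430) (leaf 7 462 591)))))))))))) (node 527 (merge (node 529 (merge (leaf 1 526 530) (node 494 (merge (leaf 0 493 493) (node 462 (merge (leaf 7 462 591) (node 430 (merge (leaf 4 398 398) (leaf 4 430 526))))))))) (merge (node 592 (merge (leaf 7 495 624) (node 497 (merge (leaf 6 464 465) (node 498 (merge (leaf 1 495 499) (node 530 (merge (leaf 0 495 531) (node 529 (merge (leaf 0 494 494) (leaf 1 526 558))))))))))) (merge (node 592 (merge (leaf 7 495 624) (node 497 (merge (leaf 6 464 465) (node 526 (merge (leaf 1 494 498) (leaf 2 493 525))))))) (merge (node 529 (merge (leaf 1 526 530) (node 494 (merge (leaf 0 493 493) (node 591 (merge (leaf 7 462 462) (node 590 (merge (leaf 5 494 622) (node 589 (merge (leaf 2 556 588) (node 526 (merge (leaf 5 493 621) (node 497 (merge (leaf 1 494 498) (leaf 1 493 525))))))))))))))) (node 592 (merge (leaf 7 495 624) (node 593 (merge (leaf 4 496 625) (node 591 (merge (leaf 3 558 594) (node 497 (merge (leaf 6 464 465) (node 525 (merge (leaf 2 493 526) (node 494 (merge (leaf 7 462 462) (node 493 (merge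 (leaf 0 492 492) (leaf 1 492 524))))))))))))))))))))))))))))) (node 592 (merge (node 557 (merge (leaf 0 557 593) (node 588 (merge (leaf 1 556 589) (node 556 (merge (leaf 2 524 527) (leaf 1 555 587))))))) (merge (node 496 (merge (node 625 (merge (leaf 4 496 593) (node 624 (merge (leaf 4 528 657) (node 495 (merge (leaf 7 463 463) (leaf 7 495 527))))))) (merge (node 593 (merge (leaf 4 496 625) (node 591 (merge (leaf 5 463 464) (leaf 3 558 594))))) (node 464 (merge (leaf 5 463 591) (node 465 (merge (leaf 6 432 433) (leaf 6 464 497)))))))) (merge (node 557 (merge (leaf 0 557 593) (node 591 (merge (leaf 0 556 556) (node 589 (merge (leaf 1 556 588) (node 525 (merge (leaf 3 524 524) (node 496 (merge (leaf 5 463 464) (node 497 (merge (leaf 6 464 465) (node 495 (merge (leaf 7 463 463) (node 494 (merge (leaf 1 493 526) (node 462 (merge (leaf 3 461 461) (leaf 6 461 493))))))))))))))))))) (node 624 (merge (node 656 (merge (leaf 7 527 527) (node 687 (merge (leaf 5 559 655) (node 688 (merge (leaf 7 559 591) (leaf 5 591 719))))))) (merge (node 656 (merge (leaf 7 527 527) (node 657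 (merge (leaf 4 528 625) (leaf 4 560 689))))) (merge (node 657 (merge (leaf 4 528 625) (node 656 (merge (leaf 4 560 689) (node 687 (merge (leaf 5 559 655) (node 688 (merge (leaf 7 559 591) (leaf 5 591 719))))))))) (node 625 (merge (leaf 4 528 657) (node 527 (merge (leaf 7 495 495) (node 557 (merge (leaf 2 524 556) (node 589 (merge (leaf 1 556 588) (node 590 (merge (leaf 0 589 591) (node 525 (merge (leaf 3 524 524) (node 622 (merge (leaf 4 493 493) (leaf 7 525 654))))))))))))))))))))))))))) (node 558 (merge (node 529 (merge (leaf 2 525 557) (node 530 (merge (leaf 1 526 527) (leaf 1 527 531))))) (merge (node 557 (merge (leaf 2 525 529) (node 588 (merge (leaf 1 556 589) (node 556 (merge (leaf 1 555 587) (node 524 (merge (leaf 3 523 523) (leaf 3 524 525))))))))) (merge (node 561 (merge (node 593 (merge (leaf 0 558 594) (node 625 (merge (leaf 7 528 657) (node 529 (merge (leaf 7 496 496) (leaf 2 526 530))))))) (merge (node 590 (merge (leaf 1 557 589) (node 562 (merge (leaf 1 558 591) (node 531 (merge (leaf 2 527 530) (node 563 (merge (leaf 3 527 527) (leaf 2 528 532)))))))))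 (node 590 (merge (leaf 1 557 589) (node 562 (merge (leaf 1 558 591) (node 563 (merge (leaf 3 527 527) (node 532 (merge (leaf 2 528 531) (node 564 (merge (leaf 3 528 529) (leaf 2 529 533)))))))))))))) (node 527 (merge (node 557 (merge (leaf 2 524 556) (node 589 (merge (leaf 1 556 588) (node 561 (merge (leaf 1 557 590) (node 562 (merge (leaf 3 526 526) (leaf 3 527 563))))))))) (merge (node 557 (merge (leaf 2 524 556) (node 589 (merge (leaf 1 556 588) (node 590 (merge (leaf 1 557 561) (node 495 (merge (leaf 5 462 463) (node 622 (merge (leaf 5 494 591) (leaf 6 526 654))))))))))) (merge (node 561 (merge (node 562 (merge (leaf 3 526 526) (leaf 3 527 563))) (merge (node 526 (merge (leaf 0 525 525) (node 590 (merge (leaf 1 557 589) (node 622 (merge (leaf 6 494 495) (leaf 6 526 654))))))) (node 590 (merge (leaf 1 557 589) (node 562 (merge (leaf 1 558 591) (node 531 (merge (leaf 2 527 530) (node 563 (merge (leaf 3 527 527) (leaf 2 528 532)))))))))))) (merge (node 557 (merge (leaf 2 524 556) (node 525 (merge (leaf 3 524 524) (node 526 (merge (leaf 0 525 561) (node 496 (merge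 (leaf 2 493 497) (node 464 (merge (leaf 5 431 432) (leaf 5 463 591))))))))))) (node 590 (merge (node 622 (merge (leaf 6 526 654) (node 495 (merge (leaf 6 494 526) (leaf 5 494 591))))) (merge (node 557 (merge (leaf 2 524 556) (node 525 (merge (leaf 3 524 524) (node 493 (merge (leaf 4 461 461) (node 526 (merge (leaf 3 492 492) (node 496 (merge (leaf 2 493 497) (node 464 (merge (leaf 5 431 432) (leaf 5 463 591))))))))))))) (merge (node 557 (merge (leaf 2 524 556) (node 525 (merge (leaf 3 524 524) (node 622 (merge (leaf 7 525 654) (node 493 (merge (leaf 4 461 461) (leaf 7 493 526))))))))) (node 557 (merge (leaf 2 524 556) (node 589 (merge (leaf 1 556 588) (node 525 (merge (leaf 3 524 524) (node 622 (merge (leaf 4 493 493) (leaf 7 525 654)))))))))))))))))))))))))))))))) nE_15 cE_15 13 (by decide +kernel)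
def nE_16 : ℕ := 0x100000001000000010000000000000000000000000000000000000000000000000000000000000000000000000000000000000000000000000000000000000000000000000000
def cE_16 : ℕ := 0x200000002000000064000000e7000003ef800001ef800003ff800000fe0000003c000000340000000000000000000000000000000000000000000000000000000000000000000000000000000000000000000
theorem lE_16 : S nE_16 cE_16 11 := S_of_chk [] trivial (node 495 (merge (node 464 (merge (node 465 (merge (leaf 6 432 433) (node 494 (merge (leaf 2 461 493) (node 463 (merge (leaf 7 431 431) (leaf 1 462 466))))))) (merge (node 561 (merge (leaf 4 464 593) (node 432 (merge (leaf 4 432 529) (node 433 (merge (leaf 6 400 401) (leaf 6 432 465))))))) (node 561 (merge (leaf 4 464 593) (node 432 (merge (leaf 4 432 529) (node 431 (merge (leaf 7 399 399) (leaf 7 431 463)))))))))) (merge (node 494 (merge (node 529 (merge (leaf 0 493 493) (node 530 (merge (leaf 0 494 497) (leaf 3 495 531))))) (merge (node 529 (merge (leaf 0 493 493) (node 530 (merge (leaf 3 494 527) (leaf 3 495 531))))) (merge (node 493 (merge (leaf 0 493 529) (node 527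 (merge (leaf 0 492 492) (node 525 (merge (leaf 1 492 524) (node 526 (merge (leaf 2 493 497) (leaf 0 525 561))))))))) (merge (node 497 (merge (node 465 (merge (leaf 2 462 466) (node 433 (merge (leaf 5 400 401) (leaf 5 432 529))))) (merge (node 530 (merge (leaf 0 494 529) (node 498 (merge (leaf 0 495 531) (node 526 (merge (leaf 1 493 525) (leaf 1 494 527))))))) (node 526 (merge (leaf 1 493 525) (node 498 (merge (leaf 1 494 527) (node 531 (merge (leaf 0 495 530) (node 499 (merge (leaf 0 496 532) (node 467 (merge (leaf 2 463 466) (leaf 2 464 468)))))))))))))) (node 525 (merge (node 524 (merge (leaf 1 492 493) (node 526 (merge (leaf 1 493 497) (leaf 2 491 523))))) (merge (node 493 (merge (leaf 1 492 524) (node 492 (merge (leaf 0 492 527) (node 460 (merge (leaf 3 459 459) (leaf 3 460 461))))))) (node 497 (merge (leaf 1 493 526) (node 466 (merge (leaf 2 462 465) (node 498 (merge (leaf 2 463 467) (node 531 (merge (leaf 0 495 530) (node 499 (merge (leaf 1 495 527) (leaf 0 496 532))))))))))))))))))) (merge (node 464 (merge (node 561 (merge (leaf 4 464 593) (node 432 (merge (leaf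 4 432 529) (node 433 (merge (leaf 6 400 401) (leaf 6 432 465))))))) (merge (node 561 (merge (leaf 4 464 593) (node 432 (merge (leaf 4 432 529) (node 431 (merge (leaf 7 399 399) (leaf 7 431 463))))))) (merge (node 433 (merge (leaf 6 432 465) (node 432 (merge (leaf 6 400 401) (node 431 (merge (leaf 7 399 399) (leaf 7 431 463))))))) (node 561 (merge (leaf 4 464 593) (node 465 (merge (leaf 6 432 433) (node 466 (merge (leaf 1 463 467) (node 463 (merge (leaf 7 431 431) (node 498 (merge (leaf 0 463 499) (node 497 (merge (leaf 0 462 462) (node 434 (merge (leaf 2 431 435) (leaf 6 433 529))))))))))))))))))) (merge (node 494 (merge (node 529 (merge (leaf 0 493 493) (node 530 (merge (leaf 0 494 497) (leaf 3 495 531))))) (merge (node 529 (merge (leaf 0 493 493) (node 530 (merge (leaf 3 494 527) (leaf 3 495 531))))) (merge (node 497 (merge (node 465 (merge (leaf 2 462 466) (node 433 (merge (leaf 5 400 401) (leaf 5 432 529))))) (merge (node 530 (merge (leaf 0 494 529) (node 498 (merge (leaf 0 495 531) (node 526 (merge (leaf 1 493 525) (leaf 1 494 527))))))) (node 466 (merge (leaf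 2 462 465) (node 498 (merge (leaf 2 463 467) (node 462 (merge (leaf 3 461 461) (leaf 3 462 463)))))))))) (node 497 (merge (node 466 (merge (leaf 2 462 465) (node 498 (merge (leaf 2 463 467) (node 462 (merge (leaf 3 461 461) (leaf 3 462 463))))))) (merge (node 461 (merge (leaf 3 461 462) (node 493 (merge (leaf 3 460 460) (node 492 (merge (leaf 0 492 527) (node 524 (merge (leaf 1 491 523) (leaf 1 492 525))))))))) (merge (node 525 (merge (leaf 1 493 526) (node 493 (merge (leaf 1 492 524) (node 492 (merge (leaf 0 492 527) (node 460 (merge (leaf 3 459 459) (leaf 3 460 461))))))))) (node 525 (merge (leaf 1 493 526) (node 493 (merge (leaf 1 492 524) (node 527 (merge (leaf 0 492 492) (node 498 (merge (leaf 1 495 499) (node 463 (merge (leaf 4 431 431) (leaf 3 462 462))))))))))))))))))) (merge (node 529 (merge (node 494 (merge (leaf 0 493 493) (node 530 (merge (leaf 3 494 527) (leaf 3 495 531))))) (merge (node 494 (merge (leaf 0 493 493) (node 530 (merge (leaf 0 494 497) (leaf 3 495 531))))) (merge (node 530 (merge (leaf 3 495 531) (node 494 (merge (leaf 0 494 497) (leaf 3 494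 527))))) (merge (node 494 (merge (leaf 0 493 493) (node 526 (merge (node 561 (merge (node 593 (merge (leaf 4 464 464) (leaf 7 496 625))) (merge (node 527 (merge (leaf 0 525 525) (leaf 0 526 562))) (node 527 (merge (leaf 0 525 525) (leaf 0 526 562)))))) (merge (node 561 (merge (node 593 (merge (leaf 4 464 464) (leaf 7 496 625))) (merge (node 527 (merge (leaf 0 526 562) (node 497 (merge (leaf 1 494 498) (node 462 (merge (leaf 3 461 461) (node 430 (merge (leaf 4 398 398) (node 431 (merge (leaf 6 398 399) (leaf 4 431 463))))))))))) (node 527 (merge (leaf 0 526 562) (node 497 (merge (leaf 1 494 498) (node 462 (merge (leaf 3 461 461) (node 430 (merge (leaf 4 398 398) (node 431 (merge (leaf 6 398 399) (leaf 4 431 463)))))))))))))) (node 497 (merge (leaf 1 493 525) (node 462 (merge (leaf 3 461 461) (node 463 (merge (leaf 3 462 498) (node 558 (merge (leaf 6 430 431) (leaf 6 462 590)))))))))))))) (node 527 (merge (node 530 (merge (leaf 3 495 531) (node 562 (merge (leaf 0 527 563) (node 526 (merge (leaf 0 526 561) (node 525 (merge (leaf 2 493 497) (leaf 2 492 524))))))))) (merge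 (node 530 (merge (leaf 3 495 531) (node 562 (merge (leaf 0 527 563) (node 498 (merge (leaf 2 495 499) (node 463 (merge (leaf 4 431 431) (node 497 (merge (leaf 3 462 462) (node 465 (merge (leaf 4 433 433) (leaf 7 465 594))))))))))))) (merge (node 530 (merge (leaf 3 495 531) (node 498 (merge (leaf 2 495 499) (node 526 (merge (leaf 1 494 497) (node 525 (merge (leaf 2 492 524) (leaf 0 525 561))))))))) (merge (node 526 (merge (node 497 (merge (leaf 2 494 498) (leaf 2 493 525))) (merge (node 525 (merge (leaf 2 492 524) (leaf 0 525 561))) (node 561 (merge (leaf 0 526 562) (node 593 (merge (leaf 4 464 464) (leaf 7 496 625)))))))) (node 530 (merge (leaf 3 495 531) (node 562 (merge (leaf 0 527 563) (node 526 (merge (leaf 0 526 561) (node 557 (merge (leaf 1 525 558) (node 525 (merge (leaf 2 492 524) (leaf 1 524 556))))))))))))))))))))) (merge (node 463 (merge (node 431 (merge (leaf 4 399 399) (leaf 7 431 464))) (merge (node 431 (merge (leaf 4 399 399) (leaf 4 431 527))) (node 497 (merge (node 498 (merge (leaf 3 462 462) (node 499 (merge (leaf 3 463 464) (leaf 1 495 527))))) (merge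 (node 498 (merge (leaf 3 462 462) (node 530 (merge (leaf 0 495 531) (node 466 (merge (leaf 2 463 467) (node 465 (merge (leaf 2 462 494) (node 433 (merge (leaf 4 401 401) (leaf 7 433 562))))))))))) (merge (node 526 (merge (node 525 (merge (leaf 1 493 494) (leaf 2 493 527))) (merge (node 498 (merge (leaf 1 494 527) (node 467 (merge (leaf 2 463 466) (node 499 (merge (leaf 3 463 464) (leaf 2 464 468))))))) (node 494 (merge (leaf 1 493 525) (node 465 (merge (leaf 2 462 466) (node 464 (merge (leaf 6 432 433) (leaf 2 461 493)))))))))) (node 494 (merge (node 465 (merge (leaf 2 462 466) (node 464 (merge (leaf 6 432 433) (leaf 2 461 493))))) (merge (node 525 (merge (leaf 1 493 526) (node 493 (merge (leaf 1 492 524) (node 492 (merge (leaf 0 492 527) (node 462 (merge (leaf 3 461 461) (leaf 2 459 491))))))))) (node 465 (merge (leaf 2 462 466) (node 462 (merge (leaf 3 461 461) (node 464 (merge (leaf 6 432 433) (node 430 (merge (leaf 3 429 429) (node 398 (merge (leaf 4 366 366) (leaf 4 398 527))))))))))))))))))))) (merge (node 561 (merge (node 593 (merge (leaf 4 464 464) (node 625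 (merge (leaf 7 496 529) (leaf 7 528 657))))) (merge (node 464 (merge (leaf 4 464 593) (node 431 (merge (leaf 7 431 463) (node 432 (merge (leaf 7 399 399) (node 400 (merge (leaf 5 399 527) (node 401 (merge (leaf 6 368 369) (leaf 6 400 433))))))))))) (merge (node 497 (merge (node 498 (merge (node 527 (merge (leaf 1 494 526) (node 463 (merge (leaf 4 431 431) (leaf 3 462 462))))) (merge (node 527 (merge (leaf 1 495 499) (leaf 1 494 526))) (node 463 (merge (leaf 3 462 462) (node 464 (merge (leaf 7 431 431) (leaf 3 463 499)))))))) (merge (node 530 (merge (node 529 (merge (leaf 0 494 494) (leaf 3 495 531))) (merge (node 498 (merge (leaf 0 495 531) (node 527 (merge (leaf 1 495 499) (leaf 1 494 526))))) (node 494 (merge (leaf 0 494 529) (node 525 (merge (leaf 1 493 526) (node 493 (merge (leaf 1 492 524) (node 492 (merge (leaf 0 492 527) (node 460 (merge (leaf 3 459 459) (leaf 3 460 461)))))))))))))) (merge (node 494 (merge (node 529 (merge (leaf 0 493 493) (leaf 0 494 530))) (merge (node 462 (merge (leaf 3 461 461) (node 498 (merge (leaf 3 462 463) (node 531 (merge (leaf 0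 495 530) (node 499 (merge (leaf 0 496 532) (node 467 (merge (leaf 2 463 466) (leaf 2 464 468))))))))))) (node 493 (merge (leaf 0 493 529) (node 524 (merge (leaf 1 492 525) (node 492 (merge (leaf 1 491 523) (node 460 (merge (leaf 3 459 459) (leaf 3 460 461)))))))))))) (merge (node 463 (merge (node 431 (merge (leaf 4 399 399) (leaf 4 431 527))) (merge (node 498 (merge (leaf 3 462 462) (node 531 (merge (leaf 0 495 530) (node 499 (merge (leaf 1 495 527) (leaf 0 496 532))))))) (node 498 (merge (leaf 3 462 462) (node 531 (merge (leaf 0 495 530) (node 499 (merge (leaf 0 496 532) (node 467 (merge (leaf 2 463 466) (leaf 2 464 468)))))))))))) (node 494 (merge (node 529 (merge (leaf 0 493 493) (leaf 0 494 530))) (merge (node 525 (merge (leaf 1 493 526) (node 493 (merge (leaf 1 492 524) (node 461 (merge (leaf 3 460 460) (leaf 3 461 462))))))) (merge (node 493 (merge (leaf 0 493 529) (node 492 (merge (leaf 0 492 527) (node 460 (merge (leaf 3 459 459) (leaf 3 460 461))))))) (node 529 (merge (leaf 0 494 530) (node 526 (merge (leaf 1 493 525) (node 527 (merge (leaf 0 526 562) (node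 462 (merge (leaf 3 461 461) (node 430 (merge (leaf 4 398 398) (node 431 (merge (leaf 6 398 399) (leaf 4 431 463)))))))))))))))))))))) (node 497 (merge (node 463 (merge (node 431 (merge (leaf 4 399 399) (leaf 4 431 527))) (merge (node 498 (merge (leaf 3 462 462) (node 531 (merge (leaf 0 495 530) (node 499 (merge (leaf 1 495 527) (leaf 0 496 532))))))) (node 498 (merge (leaf 3 462 462) (node 531 (merge (leaf 0 495 530) (node 499 (merge (leaf 0 496 532) (node 467 (merge (leaf 2 463 466) (leaf 2 464 468)))))))))))) (merge (node 494 (merge (node 529 (merge (leaf 0 493 493) (leaf 0 494 530))) (merge (node 462 (merge (leaf 3 461 461) (node 498 (merge (leaf 3 462 463) (node 531 (merge (leaf 0 495 530) (node 499 (merge (leaf 0 496 532) (node 467 (merge (leaf 2 463 466) (leaf 2 464 468))))))))))) (node 493 (merge (leaf 0 493 529) (node 524 (merge (leaf 1 492 525) (node 492 (merge (leaf 1 491 523) (node 460 (merge (leaf 3 459 459) (leaf 3 460 461)))))))))))) (merge (node 530 (merge (node 529 (merge (leaf 0 494 494) (leaf 3 495 531))) (merge (node 498 (merge (leaf 0 495 531) (node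 527 (merge (leaf 1 495 499) (leaf 1 494 526))))) (node 494 (merge (leaf 0 494 529) (node 525 (merge (leaf 1 493 526) (node 493 (merge (leaf 1 492 524) (node 492 (merge (leaf 0 492 527) (node 460 (merge (leaf 3 459 459) (leaf 3 460 461)))))))))))))) (merge (node 463 (merge (node 431 (merge (leaf 4 399 399) (leaf 4 431 527))) (merge (node 498 (merge (leaf 3 462 462) (node 527 (merge (leaf 1 495 499) (leaf 1 494 526))))) (node 498 (merge (leaf 3 462 462) (node 467 (merge (leaf 2 463 466) (node 499 (merge (leaf 2 464 468) (node 532 (merge (leaf 0 496 531) (node 500 (merge (leaf 1 496 529) (leaf 0 497 533)))))))))))))) (node 494 (merge (node 529 (merge (leaf 0 493 493) (leaf 0 494 530))) (merge (node 525 (merge (leaf 1 493 526) (node 493 (merge (leaf 1 492 524) (node 461 (merge (leaf 3 460 460) (leaf 3 461 462))))))) (merge (node 493 (merge (leaf 0 493 529) (node 492 (merge (leaf 0 492 527) (node 460 (merge (leaf 3 459 459) (leaf 3 460 461))))))) (node 529 (merge (leaf 0 494 530) (node 526 (merge (leaf 1 493 525) (node 527 (merge (leaf 0 526 562) (node 462 (merge (leaf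 3 461 461) (node 430 (merge (leaf 4 398 398) (node 431 (merge (leaf 6 398 399) (leaf 4 431 463)))))))))))))))))))))))))) (node 497 (merge (node 498 (merge (node 527 (merge (leaf 1 494 526) (node 463 (merge (leaf 4 431 431) (leaf 3 462 462))))) (merge (node 527 (merge (leaf 1 495 499) (leaf 1 494 526))) (node 463 (merge (leaf 3 462 462) (node 464 (merge (leaf 7 431 431) (leaf 3 463 499)))))))) (merge (node 530 (merge (node 531 (merge (leaf 0 495 498) (leaf 3 495 529))) (merge (node 498 (merge (leaf 0 495 531) (node 463 (merge (leaf 3 462 462) (node 464 (merge (leaf 7 431 431) (leaf 3 463 499))))))) (node 494 (merge (leaf 0 494 529) (node 525 (merge (leaf 1 493 526) (node 493 (merge (leaf 1 492 524) (node 465 (merge (leaf 2 461 464) (leaf 2 462 466)))))))))))) (merge (node 494 (merge (node 493 (merge (leaf 0 493 529) (node 465 (merge (leaf 2 461 464) (leaf 2 462 466))))) (merge (node 530 (merge (leaf 0 494 529) (node 498 (merge (leaf 0 495 531) (node 526 (merge (leaf 1 493 525) (leaf 1 494 527))))))) (node 525 (merge (leaf 1 493 526) (node 493 (merge (leaf 1 492 524)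 (node 492 (merge (leaf 0 492 527) (node 460 (merge (leaf 3 459 459) (leaf 3 460 461)))))))))))) (merge (node 463 (merge (node 431 (merge (leaf 4 399 399) (leaf 4 431 527))) (node 498 (merge (leaf 3 462 462) (node 531 (merge (leaf 0 495 530) (node 499 (merge (leaf 0 496 532) (node 500 (merge (leaf 1 496 529) (node 468 (merge (leaf 2 464 467) (leaf 2 465 469))))))))))))) (node 561 (merge (node 593 (merge (leaf 4 464 464) (node 625 (merge (leaf 7 496 529) (leaf 7 528 657))))) (merge (node 464 (merge (leaf 4 464 593) (node 431 (merge (leaf 7 431 463) (node 432 (merge (leaf 7 399 399) (node 400 (merge (leaf 5 399 527) (node 465 (merge (leaf 4 368 368) (node 466 (merge (leaf 1 463 467) (leaf 2 462 494))))))))))))) (merge (node 494 (merge (node 529 (merge (leaf 0 493 493) (leaf 0 494 530))) (merge (node 525 (merge (leaf 1 493 526) (node 493 (merge (leaf 1 492 524) (node 461 (merge (leaf 3 460 460) (leaf 3 461 462))))))) (merge (node 493 (merge (leaf 0 493 529) (node 492 (merge (leaf 0 492 527) (node 460 (merge (leaf 3 459 459) (leaf 3 460 461))))))) (node 529 (merge (leaf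 0 494 530) (node 526 (merge (leaf 1 493 525) (node 527 (merge (leaf 0 526 562) (node 462 (merge (leaf 3 461 461) (node 430 (merge (leaf 4 398 398) (node 431 (merge (leaf 6 398 399) (leaf 4 431 463))))))))))))))))) (node 494 (merge (node 529 (merge (leaf 0 493 493) (leaf 0 494 530))) (merge (node 525 (merge (leaf 1 493 526) (node 493 (merge (leaf 1 492 524) (node 461 (merge (leaf 3 460 460) (leaf 3 461 462))))))) (merge (node 493 (merge (leaf 0 493 529) (node 492 (merge (leaf 0 492 527) (node 460 (merge (leaf 3 459 459) (leaf 3 460 461))))))) (node 529 (merge (leaf 0 494 530) (node 526 (merge (leaf 1 493 525) (node 527 (merge (leaf 0 526 562) (node 462 (merge (leaf 3 461 461) (node 430 (merge (leaf 4 398 398) (node 431 (merge (leaf 6 398 399) (leaf 4 431 463)))))))))))))))))))))))))))))))))) nE_16 cE_16 11 (by decide +kernel)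
def nE_17 : ℕ := 0x100000001000000000000000000000000000000000000000000000000000000000000000000000000000000000000000000000000000000000000000000000000000000000000
def cE_17 : ℕ := 0x2000000038000000380000003800000074000000ef000003ef800001ff800003ff800000fe0000003c0000003c0000002800000000000000000000000000000000000000000000000000000000000000000000000000000000000
theorem lE_17 : S nE_17 cE_17 12 := S_of_chk [(nE_16, cE_16, 11)] ⟨lE_16, trivial⟩ (node 496 (merge (node 465 (merge (node 433 (merge (leaf 6 432 464) (node 497 (merge (leaf 5 400 401) (leaf 5 432 529))))) (merge (node 497 (merge (leaf 6 464 592) (node 433 (merge (leaf 5 400 401) (leaf 5 432 529))))) (merge (node 592 (merge (leaf 6 464 497) (node 593 (merge (leaf 4 496 625) (node 464 (merge (leaf 4 464 561) (node 463 (merge (leaf 7 431 431) (leaf 7 463 495))))))))) (node 464 (merge (leaf 6 432 433) (node 593 (merge (leaf 4 464 561) (node 592 (merge (leaf 4 496 625) (node 463 (merge (leaf 7 431 431) (leaf 7 463 495))))))))))))) (merge (node 592 (merge (node 593 (merge (leaf 4 496 625) (node 464 (merge (leaf 4 464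 561) (node 463 (merge (leaf 7 431 431) (leaf 7 463 495))))))) (merge (node 625 (merge (leaf 4 496 593) (node 624 (merge (leaf 4 528 657) (node 495 (merge (leaf 7 463 463) (leaf 7 495 527))))))) (merge (node 625 (merge (leaf 4 496 593) (node 624 (merge (leaf 4 528 657) (node 655 (merge (leaf 5 527 623) (node 656 (merge (leaf 5 559 687) (node 529 (merge (leaf 6 496 497) (leaf 6 528 561))))))))))) (node 495 (merge (leaf 7 463 463) (node 624 (merge (leaf 7 495 527) (node 655 (merge (leaf 5 527 623) (node 656 (merge (leaf 5 559 687) (node 529 (merge (leaf 6 496 497) (leaf 6 528 561))))))))))))))) (merge (node 464 (merge (node 465 (merge (leaf 6 432 433) (node 592 (merge (leaf 6 464 497) (node 463 (merge (leaf 7 431 431) (leaf 7 463 495))))))) (merge (node 463 (merge (leaf 7 431 431) (node 592 (merge (leaf 7 463 495) (node 497 (merge (leaf 6 464 465) (node 529 (merge (leaf 6 496 624) (node 432 (merge (leaf 4 400 400) (leaf 4 432 561))))))))))) (merge (node 433 (merge (leaf 6 432 465) (node 432 (merge (leaf 6 400 401) (node 529 (merge (leaf 4 432 561) (node 400 (merge (leaf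 4 400 497) (node 399 (merge (leaf 7 367 367) (leaf 7 399 431))))))))))) (merge (node 465 (merge (leaf 6 432 433) (node 592 (merge (leaf 6 464 497) (node 495 (merge (leaf 7 463 463) (node 527 (merge (leaf 7 495 624) (node 432 (merge (leaf 5 399 400) (leaf 5 431 559))))))))))) (node 431 (merge (leaf 7 431 463) (node 432 (merge (leaf 7 399 399) (node 527 (merge (leaf 5 431 559) (node 400 (merge (leaf 5 399 495) (node 401 (merge (leaf 6 368 369) (leaf 6 400 433)))))))))))))))) (merge (node 465 (merge (node 497 (merge (leaf 6 464 592) (node 433 (merge (leaf 5 400 401) (leaf 5 432 529))))) (merge (node 592 (merge (leaf 6 464 497) (node 625 (merge (leaf 4 496 593) (node 624 (merge (leaf 4 528 657) (node 495 (merge (leaf 7 463 463) (leaf 7 495 527))))))))) (node 464 (merge (leaf 6 432 433) (node 561 (merge (leaf 4 464 593) (node 432 (merge (leaf 4 432 529) (node 527 (merge (leaf 5 431 559) (node 400 (merge (leaf 5 399 495) (node 369 (merge (leaf 6 368 401) (node 368 (merge (leaf 6 336 337) (node 367 (merge (leaf 7 335 335) (leaf 7 367 399)))))))))))))))))))) (merge (node 463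 (merge (node 431 (merge (leaf 7 431 464) (node 495 (merge (leaf 4 399 399) (leaf 4 431 527))))) (merge (node 464 (merge (leaf 7 431 431) (node 465 (merge (leaf 6 432 433) (node 497 (merge (leaf 6 464 592) (node 498 (merge (leaf 0 462 462) (leaf 3 463 499))))))))) (node 592 (merge (leaf 7 463 495) (node 625 (merge (leaf 4 496 593) (node 497 (merge (leaf 6 464 465) (node 624 (merge (leaf 6 496 529) (leaf 4 528 657)))))))))))) (merge (node 463 (merge (node 431 (merge (leaf 7 431 464) (node 495 (merge (leaf 4 399 399) (leaf 4 431 527))))) (merge (node 495 (merge (leaf 7 463 592) (node 431 (merge (leaf 4 399 399) (leaf 4 431 527))))) (merge (node 592 (merge (leaf 7 463 495) (node 593 (merge (leaf 4 496 625) (node 464 (merge (leaf 4 464 561) (node 465 (merge (leaf 6 432 433) (leaf 6 464 497))))))))) (node 464 (merge (leaf 7 431 431) (node 465 (merge (leaf 6 432 433) (node 497 (merge (leaf 6 464 592) (node 498 (merge (leaf 0 462 462) (leaf 3 463 499))))))))))))) (merge (node 464 (merge (node 593 (merge (leaf 4 464 561) (node 465 (merge (leaf 6 432 433) (node 592 (merge (leaf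 6 464 497) (leaf 4 496 625))))))) (merge (node 561 (merge (leaf 4 464 593) (node 432 (merge (leaf 4 432 529) (node 527 (merge (leaf 5 431 559) (node 400 (merge (leaf 5 399 495) (node 401 (merge (leaf 6 368 369) (leaf 6 400 433))))))))))) (merge (node 433 (merge (leaf 6 432 465) (node 432 (merge (leaf 6 400 401) (node 529 (merge (leaf 4 432 561) (node 400 (merge (leaf 4 400 497) (node 399 (merge (leaf 7 367 367) (leaf 7 399 431))))))))))) (merge (node 561 (merge (leaf 4 464 593) (node 432 (merge (leaf 4 432 529) (node 527 (merge (leaf 5 431 559) (node 526 (merge (leaf 0 525 525) (node 495 (merge (leaf 5 399 400) (node 497 (merge (leaf 1 494 498) (node 592 (merge (leaf 6 464 465) (leaf 7 495 624))))))))))))))) (node 465 (merge (leaf 6 432 433) (node 592 (merge (leaf 6 464 497) (node 625 (merge (leaf 4 496 593) (node 624 (merge (leaf 4 528 657) (node 655 (merge (leaf 5 527 623) (node 656 (merge (leaf 5 559 687) (node 527 (merge (leaf 7 495 495) (leaf 7 527 559)))))))))))))))))))) (merge (node 592 (merge (node 625 (merge (leaf 4 496 593) (node 624 (merge (leaf 4 528 657)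 (node 495 (merge (leaf 7 463 463) (leaf 7 495 527))))))) (merge (node 593 (merge (leaf 4 496 625) (node 464 (merge (leaf 4 464 561) (node 433 (merge (leaf 6 432 465) (node 432 (merge (leaf 6 400 401) (node 431 (merge (leaf 7 399 399) (leaf 7 431 463))))))))))) (merge (node 593 (merge (leaf 4 496 625) (node 464 (merge (leaf 4 464 561) (node 433 (merge (leaf 6 432 465) (node 432 (merge (leaf 6 400 401) (node 527 (merge (leaf 5 431 559) (node 495 (merge (leaf 5 399 400) (leaf 7 495 624))))))))))))) (merge (node 495 (merge (leaf 7 463 463) (node 624 (merge (leaf 7 495 527) (node 657 (merge (leaf 4 528 625) (node 656 (merge (leaf 4 560 689) (node 655 (merge (leaf 5 527 623) (leaf 5 559 687))))))))))) (node 495 (merge (leaf 7 463 463) (node 624 (merge (leaf 7 495 527) (node 655 (merge (leaf 5 527 623) (node 656 (merge (leaf 5 559 687) (node 689 (merge (leaf 4 560 657) (node 688 (merge (leaf 4 592 721) (node 561 (merge (leaf 6 528 529) (leaf 6 560 593)))))))))))))))))))) (merge (node 592 (merge (node 593 (merge (leaf 4 496 625) (node 464 (merge (leaf 4 464 561) (node 433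 (merge (leaf 6 432 465) (node 432 (merge (leaf 6 400 401) (node 431 (merge (leaf 7 399 399) (leaf 7 431 463))))))))))) (merge (node 465 (merge (leaf 6 464 497) (node 464 (merge (leaf 6 432 433) (node 561 (merge (leaf 4 464 593) (node 432 (merge (leaf 4 432 529) (node 431 (merge (leaf 7 399 399) (leaf 7 431 463))))))))))) (merge (node 497 (merge (leaf 6 464 465) (node 624 (merge (leaf 6 496 529) (node 657 (merge (leaf 4 528 625) (node 656 (merge (leaf 4 560 689) (node 655 (merge (leaf 5 527 623) (leaf 5 559 687))))))))))) (node 625 (merge (leaf 4 496 593) (node 624 (merge (leaf 4 528 657) (node 655 (merge (leaf 5 527 623) (node 656 (merge (leaf 5 559 687) (node 529 (merge (leaf 6 496 497) (leaf 6 528 561))))))))))))))) (merge (node 497 (merge (node 465 (merge (leaf 6 464 592) (node 433 (merge (leaf 5 400 401) (leaf 5 432 529))))) (merge (node 495 (merge (node 592 (merge (leaf 7 463 463) (leaf 6 464 465))) (merge (node 463 (merge (leaf 7 463 592) (node 431 (merge (leaf 4 399 399) (leaf 4 431 527))))) (node 466 (merge (node 494 (merge (leaf 2 462 465) (node 525 (merge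 (leaf 1 493 526) (node 493 (merge (leaf 1 492 524) (node 461 (merge (leaf 3 460 460) (leaf 3 461 462))))))))) (node 498 (merge (leaf 2 463 467) (node 531 (merge (leaf 0 495 530) (node 499 (merge (leaf 1 495 527) (leaf 0 496 532)))))))))))) (merge (node 498 (merge (node 499 (merge (leaf 1 495 527) (node 532 (merge (leaf 0 496 531) (node 500 (merge (leaf 1 496 529) (leaf 0 497 533))))))) (merge (node 495 (merge (node 527 (merge (leaf 1 494 526) (node 463 (merge (leaf 4 431 431) (leaf 3 462 462))))) (merge (node 466 (merge (leaf 2 463 467) (node 494 (merge (leaf 2 462 465) (node 462 (merge (leaf 3 461 461) (leaf 3 462 463))))))) (node 466 (merge (leaf 2 463 467) (node 494 (merge (leaf 2 462 465) (node 526 (merge (leaf 1 493 525) (leaf 1 494 527)))))))))) (node 499 (merge (node 532 (merge (leaf 0 496 531) (node 500 (merge (leaf 1 496 529) (leaf 0 497 533))))) (merge (node 532 (merge (leaf 0 496 531) (node 500 (merge (leaf 0 497 533) (node 468 (merge (leaf 2 464 467) (leaf 2 465 469))))))) (node 467 (merge (leaf 2 464 468) (node 495 (merge (leaf 2 463 466) (node 462 (merge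 (leaf 3 462 463) (node 494 (merge (leaf 3 461 461) (node 493 (merge (leaf 0 493 529) (node 525 (merge (leaf 1 492 524) (leaf 1 493 526))))))))))))))))))) (node 495 (merge (node 463 (merge (leaf 7 463 592) (node 431 (merge (leaf 4 399 399) (leaf 4 431 527))))) (merge (node 494 (merge (node 529 (merge (leaf 0 493 493) (leaf 0 494 530))) (merge (node 461 (merge (leaf 3 461 462) (node 493 (merge (leaf 3 460 460) (node 492 (merge (leaf 0 492 527) (node 524 (merge (leaf 1 491 523) (leaf 1 492 525))))))))) (node 530 (merge (leaf 0 494 529) (node 498 (merge (leaf 0 495 531) (node 526 (merge (leaf 1 493 525) (leaf 1 494 527)))))))))) (node 463 (merge (leaf 7 463 592) (node 498 (merge (leaf 3 462 462) (node 530 (merge (leaf 0 495 531) (node 529 (merge (leaf 0 494 494) (node 466 (merge (leaf 2 463 467) (node 561 (merge (leaf 5 433 434) (leaf 6 465 593)))))))))))))))))))) (hyp 0)))))))))))) nE_17 cE_17 12 (by decide +kernel)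

end Crest.Agent.H26Snaky
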