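import Crest.Agent.H26SnE00

/-! certificate data for S0047, part E 1 (computer generated) -/

set_option autoImplicit false
set_option maxRecDepth 100000

namespace Crest.Agent.H26Snaky

open T

def nE_18 : ℕ := 0x180000001000000000000000000000000000000000000000000000000000000000000000000000000000000000000000000000000000000000000000000000000000000000000
def cE_18 : ℕ := 0x7c000001fe0000007f000001e4000001ee000001ee000000ec0000006c00000000000000000000000000000000000000000000000000000000000000000000000000000000000000000000000000000000000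
theorem lE_18 : S nE_18 cE_18 12 := S_of_chk [] trivial (node 529 (merge (node 530 (merge (leaf 1 527 531) (node 558 (merge (leaf 1 526 527) (leaf 2 526 561))))) (merge (node 530 (merge (leaf 1 527 531) (node 527 (merge (node 495 (merge (leaf 3 494 494) (node 463 (merge (leaf 4 431 431) (node 592 (merge (leaf 4 463 559) (leaf 7 495 624))))))) (node 562 (merge (leaf 0 527 563) (node 498 (merge (leaf 2 495 499) (node 497 (merge (leaf 2 494 526) (node 465 (merge (leaf 4 433 433) (leaf 7 465 594))))))))))))) (merge (node 561 (merge (node 562 (merge (node 563 (merge (leaf 3 527 527) (leaf 3 528 564))) (merge (node 563 (merge (leaf 3 528 564) (node 592 (merge (leaf 1 559 591) (node 497 (merge (leaf 5 464 465) (leaf 6 496 624))))))) (node 527 (merge (leaf 0 526 526) (node 591 (merge (leaf 1 558 590) (node 623 (merge (leaf 6 527 655) (node 624 (merge (leaf 4 527 656) (node 592 (merge (leaf 4 495 495) (leaf 6 496 497)))))))))))))) (merge (node 590 (merge (node 589 (merge (leaf 1 557 558) (node 591 (merge (leaf 2 556 588) (leaf 2 557 592))))) (merge (node 562 (merge (leaf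 1 558 591) (node 563 (merge (leaf 3 527 527) (leaf 3 528 564))))) (node 558 (merge (leaf 1 557 589) (node 526 (merge (leaf 3 525 525) (node 527 (merge (leaf 0 526 562) (node 495 (merge (leaf 5 462 463) (leaf 6 494 622)))))))))))) (merge (node 526 (merge (node 525 (merge (leaf 0 525 527) (leaf 3 525 558))) (merge (node 527 (merge (leaf 0 526 562) (node 497 (merge (leaf 2 494 498) (node 592 (merge (leaf 5 464 465) (leaf 6 496 624))))))) (node 558 (merge (leaf 3 525 525) (node 593 (merge (leaf 0 558 594) (node 625 (merge (leaf 7 528 657) (node 624 (merge (leaf 5 528 656) (node 497 (merge (leaf 5 496 592) (node 465 (merge (leaf 5 432 433) (node 466 (merge (leaf 6 433 434) (leaf 6 465 498)))))))))))))))))) (merge (node 526 (merge (node 525 (merge (leaf 0 525 527) (leaf 3 525 558))) (merge (node 527 (merge (leaf 0 525 525) (node 497 (merge (leaf 2 494 498) (node 592 (merge (leaf 5 464 465) (leaf 6 496 624))))))) (merge (node 527 (merge (node 494 (merge (leaf 3 493 493) (node 462 (merge (leaf 4 430 430) (node 591 (merge (leaf 7 462 495) (leaf 4 462 558))))))) (node 497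 (merge (leaf 2 494 498) (node 592 (merge (leaf 6 496 624) (node 465 (merge (leaf 5 432 433) (leaf 5 464 561))))))))) (node 558 (merge (leaf 3 525 525) (node 593 (merge (leaf 0 558 594) (node 625 (merge (leaf 7 528 657) (node 590 (merge (leaf 1 557 589) (node 626 (merge (leaf 4 529 658) (node 592 (merge (leaf 0 590 591) (node 624 (merge (leaf 5 496 497) (leaf 5 528 656))))))))))))))))))) (merge (node 590 (merge (node 562 (merge (leaf 1 558 591) (node 527 (merge (leaf 3 526 526) (leaf 3 527 563))))) (merge (node 589 (merge (leaf 1 557 558) (node 591 (merge (leaf 1 558 562) (leaf 2 556 588))))) (merge (node 558 (merge (leaf 1 557 589) (node 526 (merge (leaf 3 525 525) (node 527 (merge (leaf 0 526 562) (node 495 (merge (leaf 5 462 463) (leaf 6 494 622))))))))) (node 558 (merge (leaf 1 557 589) (node 593 (merge (leaf 0 558 594) (node 625 (merge (leaf 7 528 657) (node 526 (merge (leaf 3 525 525) (node 626 (merge (leaf 4 529 658) (node 624 (merge (leaf 5 528 656) (node 623 (merge (leaf 3 590 591) (node 655 (merge (leaf 4 526 622) (leaf 1 622 654))))))))))))))))))))) (merge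 (node 562 (merge (node 563 (merge (leaf 3 527 527) (leaf 3 528 564))) (merge (node 563 (merge (leaf 3 528 564) (node 592 (merge (leaf 1 559 591) (node 497 (merge (leaf 5 464 465) (leaf 6 496 624))))))) (node 526 (merge (leaf 0 526 527) (node 558 (merge (leaf 3 525 525) (node 593 (merge (leaf 0 558 594) (node 625 (merge (leaf 7 528 657) (node 626 (merge (leaf 4 529 658) (node 624 (merge (leaf 5 528 656) (node 592 (merge (leaf 5 496 497) (node 627 (merge (leaf 3 591 591) (leaf 3 592 628)))))))))))))))))))) (node 593 (merge (node 625 (merge (leaf 7 528 657) (node 626 (merge (leaf 4 529 658) (node 497 (merge (leaf 4 497 594) (node 465 (merge (leaf 5 432 433) (leaf 5 464 592))))))))) (merge (node 625 (merge (leaf 7 528 657) (node 624 (merge (leaf 5 528 656) (node 592 (merge (leaf 5 496 497) (node 623 (merge (leaf 5 527 655) (node 622 (merge (leaf 2 590 594) (leaf 2 589 621))))))))))) (merge (node 625 (merge (leaf 7 528 657) (node 626 (merge (leaf 4 529 658) (node 624 (merge (leaf 5 528 656) (node 592 (merge (leaf 5 496 497) (node 627 (merge (leaf 3 591 591) (leaf 3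 592 628))))))))))) (merge (node 592 (merge (node 625 (merge (leaf 7 528 657) (node 624 (merge (leaf 5 528 656) (node 623 (merge (leaf 5 527 655) (node 622 (merge (leaf 2 590 594) (leaf 2 589 621))))))))) (merge (node 625 (merge (leaf 7 528 657) (node 626 (merge (leaf 4 529 658) (node 591 (merge (leaf 0 590 590) (node 627 (merge (leaf 0 591 594) (leaf 3 592 628))))))))) (merge (node 625 (merge (leaf 7 528 657) (node 626 (merge (leaf 4 529 658) (node 627 (merge (leaf 3 592 628) (node 624 (merge (leaf 3 591 591) (leaf 5 528 656))))))))) (node 624 (merge (leaf 6 528 656) (node 623 (merge (leaf 5 527 655) (node 622 (merge (leaf 2 589 621) (node 591 (merge (leaf 1 590 594) (node 590 (merge (leaf 2 558 562) (leaf 2 557 589))))))))))))))) (merge (node 625 (merge (leaf 7 528 657) (node 626 (merge (leaf 4 529 658) (node 594 (merge (leaf 4 497 497) (node 624 (merge (leaf 5 528 656) (node 623 (merge (leaf 2 590 622) (node 655 (merge (leaf 1 622 654) (node 591 (merge (leaf 6 527 559) (leaf 3 590 590))))))))))))))) (node 592 (merge (node 497 (merge (leaf 5 464 465) (leaf 6 496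 624))) (merge (node 624 (merge (leaf 6 528 656) (node 623 (merge (leaf 5 527 655) (node 622 (merge (leaf 2 589 621) (node 591 (merge (leaf 1 590 594) (node 590 (merge (leaf 2 558 562) (leaf 2 557 589))))))))))) (node 591 (merge (node 590 (merge (leaf 2 558 562) (leaf 2 557 589))) (node 497 (merge (leaf 5 464 465) (node 594 (merge (leaf 4 497 626) (node 559 (merge (leaf 0 558 558) (node 623 (merge (leaf 1 590 622) (leaf 6 527 655))))))))))))))))))))))))))) (node 561 (merge (node 530 (merge (leaf 1 527 531) (leaf 2 526 558))) (merge (node 593 (merge (node 625 (merge (leaf 7 528 657) (node 626 (merge (leaf 4 529 658) (node 497 (merge (leaf 4 497 594) (node 465 (merge (leaf 5 432 433) (leaf 5 464 592))))))))) (merge (node 625 (merge (leaf 7 528 657) (node 624 (merge (leaf 5 528 656) (node 592 (merge (leaf 5 496 497) (node 623 (merge (leaf 5 527 655) (node 622 (merge (leaf 2 590 594) (leaf 2 589 621))))))))))) (merge (node 625 (merge (leaf 7 528 657) (node 626 (merge (leaf 4 529 658) (node 624 (merge (leaf 5 528 656) (node 592 (merge (leaf 5 496 497) (node 627 (merge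 (leaf 3 591 591) (leaf 3 592 628))))))))))) (merge (node 592 (merge (node 625 (merge (leaf 7 528 657) (node 624 (merge (leaf 5 528 656) (node 623 (merge (leaf 5 527 655) (node 622 (merge (leaf 2 590 594) (leaf 2 589 621))))))))) (merge (node 625 (merge (leaf 7 528 657) (node 626 (merge (leaf 4 529 658) (node 591 (merge (leaf 0 590 590) (node 627 (merge (leaf 0 591 594) (leaf 3 592 628))))))))) (merge (node 625 (merge (leaf 7 528 657) (node 626 (merge (leaf 4 529 658) (node 627 (merge (leaf 3 592 628) (node 624 (merge (leaf 3 591 591) (leaf 5 528 656))))))))) (node 624 (merge (leaf 6 528 656) (node 623 (merge (leaf 5 527 655) (node 622 (merge (leaf 2 589 621) (node 591 (merge (leaf 1 590 594) (node 590 (merge (leaf 2 558 562) (leaf 2 557 589))))))))))))))) (merge (node 625 (merge (leaf 7 528 657) (node 626 (merge (leaf 4 529 658) (node 594 (merge (leaf 4 497 497) (node 624 (merge (leaf 5 528 656) (node 623 (merge (leaf 2 590 622) (node 655 (merge (leaf 1 622 654) (node 591 (merge (leaf 6 527 559) (leaf 3 590 590))))))))))))))) (node 592 (merge (node 497 (merge (leaf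 5 464 465) (leaf 6 496 624))) (merge (node 624 (merge (leaf 6 528 656) (node 623 (merge (leaf 5 527 655) (node 622 (merge (leaf 2 589 621) (node 591 (merge (leaf 1 590 594) (node 590 (merge (leaf 2 558 562) (leaf 2 557 589))))))))))) (node 591 (merge (node 590 (merge (leaf 2 558 562) (leaf 2 557 589))) (node 497 (merge (leaf 5 464 465) (node 594 (merge (leaf 4 497 626) (node 559 (merge (leaf 0 558 558) (node 623 (merge (leaf 1 590 622) (leaf 6 527 655)))))))))))))))))))) (node 530 (merge (node 531 (merge (leaf 1 528 532) (leaf 1 527 559))) (node 593 (merge (node 625 (merge (leaf 6 497 498) (leaf 7 528 657))) (merge (node 497 (merge (node 466 (merge (leaf 6 465 498) (node 465 (merge (leaf 5 432 433) (leaf 6 433 434))))) (merge (node 594 (merge (leaf 4 497 626) (node 465 (merge (leaf 5 432 433) (leaf 4 465 562))))) (node 594 (merge (leaf 4 497 626) (node 592 (merge (leaf 5 496 624) (node 498 (merge (leaf 6 465 466) (node 499 (merge (leaf 1 496 500) (node 562 (merge (leaf 6 466 467) (node 563 (merge (leaf 1 560 564) (leaf 1 559 591)))))))))))))))) (node 625 (merge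 (leaf 7 528 657) (node 624 (merge (leaf 5 528 656) (node 592 (merge (leaf 5 496 497) (node 623 (merge (leaf 5 527 655) (node 622 (merge (leaf 2 590 594) (leaf 2 589 621))))))))))))))))))))))) nE_18 cE_18 12 (by decide +kernel)
def nE_19 : ℕ := 0x180000001000000000000000000000000000000000000000000000000000000000000000000000000000000000000000000000000000000000000000000000000000000000000
def cE_19 : ℕ := 0x20000007e000001ff0000007f000001e78000002f0000006f0000007e0000007c00000000000000000000000000000000000000000000000000000000000000000000000000000000000000000000000000000000000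
theorem lE_19 : S nE_19 cE_19 12 := S_of_chk [] trivial (node 529 (merge (node 558 (merge (leaf 2 525 557) (node 561 (merge (node 590 (merge (leaf 1 557 589) (node 591 (merge (leaf 1 558 562) (node 526 (merge (leaf 3 525 525) (node 623 (merge (leaf 4 494 494) (leaf 7 526 655))))))))) (merge (node 593 (merge (leaf 0 558 594) (node 625 (merge (leaf 7 528 657) (node 624 (merge (leaf 5 528 656) (node 497 (merge (leaf 5 496 592) (node 465 (merge (leaf 5 432 433) (node 466 (merge (leaf 6 433 434) (leaf 6 465 498))))))))))))) (merge (node 593 (merge (leaf 0 558 594) (node 625 (merge (leaf 7 528 657) (node 624 (merge (leaf 5 528 656) (node 497 (merge (leaf 5 496 592) (node 465 (merge (leaf 5 432 433) (node 466 (merge (leaf 6 433 434) (leaf 6 465 498))))))))))))) (node 593 (merge (leaf 0 558 594) (node 625 (merge (leaf 7 528 657) (node 626 (merge (leaf 4 529 658) (node 624 (merge (leaf 5 528 656) (node 592 (merge (leaf 5 496 497) (node 627 (merge (leaf 3 591 591) (leaf 3 592 628))))))))))))))))))) (merge (node 561 (merge (node 558 (merge (leaf 2 525 557) (node 590 (merge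 (leaf 1 557 589) (node 562 (merge (leaf 1 558 591) (node 563 (merge (leaf 3 527 527) (leaf 3 528 564))))))))) (merge (node 558 (merge (leaf 2 525 557) (node 526 (merge (leaf 3 525 525) (node 527 (merge (leaf 0 526 562) (node 494 (merge (leaf 3 493 493) (node 591 (merge (leaf 4 462 462) (leaf 7 494 623))))))))))) (merge (node 558 (merge (leaf 2 525 557) (node 590 (merge (leaf 1 557 589) (node 526 (merge (leaf 3 525 525) (node 527 (merge (leaf 0 526 562) (node 622 (merge (leaf 6 494 495) (leaf 6 526 654))))))))))) (merge (node 562 (merge (node 563 (merge (leaf 3 527 527) (leaf 3 528 564))) (merge (node 591 (merge (leaf 1 558 590) (node 563 (merge (leaf 3 528 564) (leaf 1 559 592))))) (node 527 (merge (leaf 0 526 526) (node 591 (merge (leaf 1 558 590) (node 623 (merge (leaf 6 527 655) (node 624 (merge (leaf 4 527 656) (node 592 (merge (leaf 4 495 495) (node 622 (merge (leaf 5 526 654) (node 621 (merge (leaf 2 589 593) (leaf 2 588 620)))))))))))))))))) (node 558 (merge (leaf 2 525 557) (node 593 (merge (leaf 0 558 594) (node 625 (merge (leaf 7 528 657) (node 590 (merge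 (leaf 1 557 589) (node 526 (merge (leaf 3 525 525) (node 626 (merge (leaf 4 529 658) (node 624 (merge (leaf 5 528 656) (node 623 (merge (leaf 3 590 591) (node 655 (merge (leaf 4 526 622) (leaf 1 622 654)))))))))))))))))))))))) (merge (node 558 (merge (leaf 2 525 557) (node 561 (merge (node 590 (merge (leaf 1 557 589) (node 526 (merge (leaf 3 525 525) (node 527 (merge (leaf 0 526 562) (node 622 (merge (leaf 6 494 495) (leaf 6 526 654))))))))) (merge (node 526 (merge (leaf 3 525 525) (node 527 (merge (leaf 0 526 562) (node 497 (merge (leaf 2 494 498) (node 465 (merge (leaf 5 432 433) (leaf 5 464 592))))))))) (merge (node 593 (merge (leaf 0 558 594) (node 625 (merge (leaf 7 528 657) (node 624 (merge (leaf 5 528 656) (node 497 (merge (leaf 5 496 592) (node 465 (merge (leaf 5 432 433) (node 466 (merge (leaf 6 433 434) (leaf 6 465 498))))))))))))) (node 593 (merge (leaf 0 558 594) (node 625 (merge (leaf 7 528 657) (node 590 (merge (leaf 1 557 589) (node 624 (merge (leaf 5 528 656) (node 592 (merge (leaf 5 496 497) (node 623 (merge (leaf 5 527 655) (node 622 (merge (leaf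 2 589 621) (node 527 (merge (leaf 7 495 495) (leaf 6 526 654))))))))))))))))))))))) (merge (node 558 (merge (leaf 2 525 557) (node 561 (merge (node 590 (merge (leaf 1 557 589) (node 562 (merge (leaf 1 558 591) (node 563 (merge (leaf 3 527 527) (leaf 3 528 564))))))) (merge (node 593 (merge (leaf 0 558 594) (node 625 (merge (leaf 7 528 657) (node 590 (merge (leaf 1 557 589) (node 624 (merge (leaf 5 528 656) (node 592 (merge (leaf 5 496 497) (node 623 (merge (leaf 5 527 655) (node 622 (merge (leaf 2 589 621) (node 527 (merge (leaf 7 495 495) (leaf 6 526 654))))))))))))))))) (merge (node 593 (merge (leaf 0 558 594) (node 625 (merge (leaf 7 528 657) (node 626 (merge (leaf 4 529 658) (node 624 (merge (leaf 5 528 656) (node 592 (merge (leaf 5 496 497) (node 627 (merge (leaf 3 591 591) (leaf 3 592 628))))))))))))) (node 593 (merge (leaf 0 558 594) (node 625 (merge (leaf 7 528 657) (node 624 (merge (leaf 5 528 656) (node 497 (merge (leaf 5 496 592) (node 465 (merge (leaf 5 432 433) (node 466 (merge (leaf 6 433 434) (leaf 6 465 498))))))))))))))))))) (merge (node 526 (merge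 (node 527 (merge (node 525 (merge (leaf 0 524 524) (node 557 (merge (leaf 1 524 556) (leaf 2 525 558))))) (merge (node 494 (merge (leaf 3 493 493) (node 462 (merge (leaf 4 430 430) (node 591 (merge (leaf 7 462 495) (leaf 4 462 558))))))) (node 493 (merge (leaf 3 493 494) (node 525 (merge (leaf 3 492 492) (node 524 (merge (leaf 0 524 559) (node 556 (merge (leaf 1 523 555) (leaf 1 524 557)))))))))))) (merge (node 527 (merge (node 497 (merge (leaf 2 494 498) (node 592 (merge (leaf 6 496 624) (node 465 (merge (leaf 5 432 433) (leaf 5 464 561))))))) (node 493 (merge (leaf 3 493 494) (node 525 (merge (leaf 3 492 492) (node 524 (merge (leaf 0 524 559) (node 556 (merge (leaf 1 523 555) (leaf 1 524 557))))))))))) (merge (node 527 (merge (node 494 (merge (leaf 3 493 493) (node 462 (merge (leaf 4 430 430) (node 591 (merge (leaf 7 462 495) (leaf 4 462 558))))))) (node 497 (merge (leaf 2 494 498) (node 592 (merge (leaf 6 496 624) (node 465 (merge (leaf 5 432 433) (leaf 5 464 561))))))))) (node 558 (merge (leaf 2 525 557) (node 561 (merge (leaf 3 525 525) (node 593 (merge (leaf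 0 558 594) (node 625 (merge (leaf 7 528 657) (node 624 (merge (leaf 5 528 656) (node 497 (merge (leaf 5 496 592) (node 465 (merge (leaf 5 432 433) (node 466 (merge (leaf 6 433 434) (leaf 6 465 498))))))))))))))))))))) (merge (node 526 (merge (node 527 (merge (node 497 (merge (leaf 2 494 498) (node 592 (merge (leaf 6 496 624) (node 465 (merge (leaf 5 432 433) (leaf 5 464 561))))))) (node 493 (merge (leaf 3 493 494) (node 525 (merge (leaf 3 492 492) (node 524 (merge (leaf 0 524 559) (node 556 (merge (leaf 1 523 555) (leaf 1 524 557))))))))))) (merge (node 527 (merge (node 494 (merge (leaf 3 493 493) (node 462 (merge (leaf 4 430 430) (node 591 (merge (leaf 7 462 495) (leaf 4 462 558))))))) (node 497 (merge (leaf 2 494 498) (node 592 (merge (leaf 6 496 624) (node 465 (merge (leaf 5 432 433) (leaf 5 464 561))))))))) (merge (node 527 (merge (node 525 (merge (leaf 0 524 524) (node 557 (merge (leaf 1 524 556) (leaf 2 525 558))))) (merge (node 494 (merge (leaf 3 493 493) (node 462 (merge (leaf 4 430 430) (node 591 (merge (leaf 7 462 495) (leaf 4 462 558))))))) (node 493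 (merge (leaf 3 493 494) (node 525 (merge (leaf 3 492 492) (node 524 (merge (leaf 0 524 559) (node 556 (merge (leaf 1 523 555) (leaf 1 524 557)))))))))))) (node 558 (merge (leaf 2 525 557) (node 561 (merge (leaf 3 525 525) (node 593 (merge (leaf 0 558 594) (node 625 (merge (leaf 7 528 657) (node 626 (merge (leaf 4 529 658) (node 624 (merge (leaf 5 528 656) (node 592 (merge (leaf 5 496 497) (node 627 (merge (leaf 3 591 591) (leaf 3 592 628))))))))))))))))))))) (merge (node 526 (merge (node 558 (merge (leaf 2 525 557) (node 561 (merge (leaf 3 525 525) (node 590 (merge (leaf 1 557 589) (node 591 (merge (leaf 1 558 562) (node 623 (merge (leaf 4 494 494) (leaf 7 526 655))))))))))) (merge (node 558 (merge (leaf 2 525 557) (node 561 (merge (leaf 3 525 525) (node 562 (merge (leaf 0 526 527) (node 590 (merge (leaf 1 557 589) (leaf 1 558 591))))))))) (merge (node 527 (merge (node 525 (merge (leaf 0 524 524) (node 557 (merge (leaf 1 524 556) (leaf 2 525 558))))) (merge (node 494 (merge (leaf 3 493 493) (node 462 (merge (leaf 4 430 430) (node 591 (merge (leaf 7 462 495) (leaf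 4 462 558))))))) (node 493 (merge (leaf 3 493 494) (node 525 (merge (leaf 3 492 492) (node 524 (merge (leaf 0 524 559) (node 556 (merge (leaf 1 523 555) (leaf 1 524 557)))))))))))) (merge (node 527 (merge (node 525 (merge (leaf 0 524 524) (leaf 0 525 561))) (merge (node 525 (merge (leaf 0 524 524) (node 493 (merge (leaf 3 492 492) (leaf 3 493 494))))) (node 558 (merge (leaf 1 525 557) (node 494 (merge (leaf 3 493 493) (node 462 (merge (leaf 4 430 430) (node 463 (merge (leaf 6 430 431) (node 590 (merge (leaf 5 462 495) (node 621 (merge (leaf 5 493 589) (node 622 (merge (leaf 5 525 653) (leaf 6 526 654)))))))))))))))))) (merge (node 558 (merge (leaf 2 525 557) (node 590 (merge (node 561 (merge (leaf 1 557 589) (node 591 (merge (leaf 1 558 562) (node 623 (merge (leaf 4 494 494) (leaf 7 526 655))))))) (merge (node 561 (merge (leaf 1 557 589) (node 562 (merge (leaf 1 558 591) (node 563 (merge (leaf 3 527 527) (leaf 3 528 564))))))) (merge (node 623 (merge (node 655 (merge (leaf 7 526 591) (leaf 4 526 622))) (merge (node 494 (merge (leaf 4 494 591) (node 493 (merge (leaf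 7 461 461) (leaf 3 493 527))))) (node 622 (merge (leaf 4 526 655) (node 653 (merge (leaf 5 525 621) (node 654 (merge (leaf 6 526 527) (leaf 5 557 685)))))))))) (node 561 (merge (leaf 1 557 589) (node 527 (merge (leaf 0 526 562) (node 495 (merge (leaf 5 462 463) (leaf 6 494 622))))))))))))) (node 527 (merge (node 525 (merge (leaf 0 524 524) (leaf 0 525 561))) (merge (node 525 (merge (leaf 0 524 524) (node 493 (merge (leaf 3 492 492) (leaf 3 493 494))))) (node 497 (merge (leaf 2 494 498) (node 494 (merge (leaf 3 493 493) (node 465 (merge (leaf 5 432 433) (node 591 (merge (leaf 7 494 623) (node 495 (merge (leaf 7 462 462) (node 463 (merge (leaf 4 431 431) (node 464 (merge (leaf 6 431 432) (leaf 1 462 466)))))))))))))))))))))))) (merge (node 527 (merge (node 526 (merge (node 525 (merge (leaf 0 524 524) (leaf 0 525 561))) (node 494 (merge (leaf 3 493 493) (node 591 (merge (leaf 7 494 623) (node 495 (merge (leaf 7 462 462) (node 592 (merge (leaf 4 463 463) (leaf 4 495 624))))))))))) (merge (node 526 (merge (node 525 (merge (leaf 0 524 524) (node 493 (merge (leaf 3 492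 492) (leaf 3 493 494))))) (node 497 (merge (leaf 2 494 498) (node 592 (merge (leaf 6 496 624) (node 465 (merge (leaf 5 432 433) (leaf 5 464 561))))))))) (merge (node 591 (merge (node 623 (merge (leaf 6 527 655) (node 624 (merge (leaf 4 527 656) (node 592 (merge (leaf 4 495 495) (leaf 6 496 497))))))) (merge (node 623 (merge (leaf 6 527 655) (node 622 (merge (leaf 5 526 654) (node 495 (merge (leaf 5 494 590) (node 463 (merge (leaf 4 431 431) (leaf 4 463 592))))))))) (merge (node 592 (merge (node 624 (merge (leaf 6 496 497) (leaf 7 527 656))) (node 495 (merge (leaf 4 463 463) (node 590 (merge (leaf 5 494 622) (node 589 (merge (leaf 2 557 561) (leaf 2 556 588))))))))) (merge (node 623 (merge (leaf 6 527 655) (node 624 (merge (leaf 4 527 656) (node 622 (merge (leaf 5 526 654) (node 590 (merge (leaf 5 494 495) (node 589 (merge (leaf 0 588 588) (leaf 3 589 625))))))))))) (node 623 (merge (leaf 6 527 655) (node 624 (merge (leaf 4 527 656) (node 592 (merge (leaf 6 496 497) (node 625 (merge (leaf 4 528 657) (node 626 (merge (leaf 3 590 590) (leaf 3 591 627))))))))))))))))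 (merge (node 526 (merge (node 525 (merge (leaf 0 524 524) (leaf 0 525 561))) (merge (node 525 (merge (leaf 0 524 524) (node 493 (merge (leaf 3 492 492) (leaf 3 493 494))))) (node 497 (merge (leaf 2 494 498) (node 494 (merge (leaf 3 493 493) (node 465 (merge (leaf 5 432 433) (node 591 (merge (leaf 7 494 623) (node 495 (merge (leaf 7 462 462) (node 463 (merge (leaf 4 431 431) (node 464 (merge (leaf 6 431 432) (leaf 1 462 466)))))))))))))))))) (node 591 (merge (node 623 (merge (leaf 6 527 655) (node 622 (merge (leaf 5 526 654) (node 495 (merge (leaf 5 494 590) (node 463 (merge (leaf 4 431 431) (leaf 4 463 592))))))))) (merge (node 623 (merge (leaf 6 527 655) (node 624 (merge (leaf 4 527 656) (node 497 (merge (leaf 6 496 592) (node 526 (merge (leaf 7 494 494) (leaf 2 494 498))))))))) (merge (node 623 (merge (leaf 6 527 655) (node 622 (merge (leaf 5 526 654) (node 495 (merge (leaf 5 494 590) (node 463 (merge (leaf 4 431 431) (node 462 (merge (leaf 7 430 430) (leaf 7 462 494))))))))))) (node 592 (merge (node 624 (merge (leaf 6 496 497) (leaf 7 527 656))) (node 495 (merge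 (leaf 4 463 463) (node 590 (merge (leaf 5 494 622) (node 589 (merge (leaf 2 556 588) (node 557 (merge (leaf 3 556 556) (node 494 (merge (leaf 7 462 462) (node 526 (merge (leaf 3 493 493) (node 525 (merge (leaf 0 524 524) (leaf 6 493 621)))))))))))))))))))))))))) (merge (node 527 (merge (node 526 (merge (node 525 (merge (leaf 0 524 524) (node 557 (merge (leaf 1 524 556) (leaf 2 525 558))))) (merge (node 494 (merge (leaf 3 493 493) (node 462 (merge (leaf 4 430 430) (node 591 (merge (leaf 4 462 558) (leaf 7 494 623))))))) (node 493 (merge (leaf 3 493 494) (node 525 (merge (leaf 3 492 492) (node 524 (merge (leaf 0 524 559) (node 556 (merge (leaf 1 523 555) (leaf 1 524 557)))))))))))) (merge (node 591 (merge (node 623 (merge (leaf 6 527 655) (node 624 (merge (leaf 4 527 656) (node 592 (merge (leaf 4 495 495) (leaf 6 496 497))))))) (merge (node 623 (merge (leaf 6 527 655) (node 622 (merge (leaf 5 526 654) (node 495 (merge (leaf 5 494 590) (node 463 (merge (leaf 4 431 431) (leaf 4 463 592))))))))) (merge (node 592 (merge (node 624 (merge (leaf 6 496 497) (leaf 7 527 656)))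 (node 557 (merge (leaf 2 525 558) (node 495 (merge (leaf 4 463 463) (node 590 (merge (leaf 5 494 622) (node 589 (merge (leaf 3 556 556) (leaf 2 556 588))))))))))) (merge (node 623 (merge (leaf 6 527 655) (node 624 (merge (leaf 4 527 656) (node 622 (merge (leaf 5 526 654) (node 590 (merge (leaf 5 494 495) (node 589 (merge (leaf 0 588 588) (leaf 3 589 625))))))))))) (node 623 (merge (leaf 6 527 655) (node 624 (merge (leaf 4 527 656) (node 592 (merge (leaf 6 496 497) (node 625 (merge (leaf 4 528 657) (node 626 (merge (leaf 3 590 590) (leaf 3 591 627)))))))))))))))) (merge (node 591 (merge (node 623 (merge (leaf 6 527 655) (node 622 (merge (leaf 5 526 654) (node 495 (merge (leaf 5 494 590) (node 463 (merge (leaf 4 431 431) (leaf 4 463 592))))))))) (merge (node 623 (merge (leaf 6 527 655) (node 624 (merge (leaf 4 527 656) (node 497 (merge (leaf 6 496 592) (node 526 (merge (leaf 7 494 494) (leaf 2 494 498))))))))) (merge (node 623 (merge (leaf 6 527 655) (node 622 (merge (leaf 5 526 654) (node 495 (merge (leaf 5 494 590) (node 463 (merge (leaf 4 431 431) (node 462 (merge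 (leaf 7 430 430) (leaf 7 462 494))))))))))) (node 592 (merge (node 624 (merge (leaf 6 496 497) (leaf 7 527 656))) (merge (node 624 (merge (leaf 4 495 495) (leaf 7 527 656))) (node 495 (merge (leaf 4 463 463) (node 590 (merge (leaf 5 494 622) (node 589 (merge (leaf 2 556 588) (node 621 (merge (leaf 1 588 620) (node 494 (merge (leaf 7 462 462) (node 526 (merge (leaf 3 493 493) (leaf 5 493 558)))))))))))))))))))) (merge (node 591 (merge (node 623 (merge (leaf 6 527 655) (node 622 (merge (leaf 5 526 654) (node 495 (merge (leaf 5 494 590) (node 463 (merge (leaf 4 431 431) (leaf 4 463 592))))))))) (merge (node 623 (merge (leaf 6 527 655) (node 624 (merge (leaf 4 527 656) (node 497 (merge (leaf 6 496 592) (node 526 (merge (leaf 7 494 494) (leaf 2 494 498))))))))) (merge (node 623 (merge (leaf 6 527 655) (node 622 (merge (leaf 5 526 654) (node 495 (merge (leaf 5 494 590) (node 463 (merge (leaf 4 431 431) (node 462 (merge (leaf 7 430 430) (leaf 7 462 494))))))))))) (node 592 (merge (node 624 (merge (leaf 6 496 497) (leaf 7 527 656))) (node 495 (merge (leaf 4 463 463) (node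 590 (merge (leaf 5 494 622) (node 589 (merge (leaf 2 556 588) (node 557 (merge (leaf 3 556 556) (node 494 (merge (leaf 7 462 462) (node 526 (merge (leaf 3 493 493) (node 525 (merge (leaf 0 524 524) (leaf 6 493 621))))))))))))))))))))) (node 526 (merge (node 525 (merge (leaf 0 524 524) (node 493 (merge (leaf 3 492 492) (leaf 3 493 494))))) (merge (node 525 (merge (leaf 0 524 524) (node 557 (merge (leaf 1 524 556) (leaf 2 525 558))))) (node 558 (merge (leaf 1 525 557) (node 497 (merge (leaf 2 494 498) (node 494 (merge (leaf 3 493 493) (node 462 (merge (leaf 4 430 430) (node 463 (merge (leaf 6 430 431) (node 592 (merge (leaf 4 463 495) (leaf 6 496 624))))))))))))))))))))) (node 561 (merge (node 562 (merge (node 563 (merge (leaf 3 527 527) (leaf 3 528 564))) (merge (node 563 (merge (leaf 3 528 564) (node 592 (merge (leaf 1 559 591) (node 497 (merge (leaf 5 464 465) (leaf 6 496 624))))))) (node 527 (merge (leaf 0 526 526) (node 591 (merge (leaf 1 558 590) (node 623 (merge (leaf 6 527 655) (node 624 (merge (leaf 4 527 656) (node 592 (merge (leaf 4 495 495) (leaf 6 496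 497)))))))))))))) (merge (node 590 (merge (node 589 (merge (leaf 1 557 558) (node 591 (merge (leaf 2 556 588) (leaf 2 557 592))))) (merge (node 562 (merge (leaf 1 558 591) (node 563 (merge (leaf 3 527 527) (leaf 3 528 564))))) (node 558 (merge (leaf 1 557 589) (node 526 (merge (leaf 3 525 525) (node 527 (merge (leaf 0 526 562) (node 495 (merge (leaf 5 462 463) (leaf 6 494 622)))))))))))) (merge (node 526 (merge (node 525 (merge (leaf 0 525 527) (leaf 3 525 558))) (merge (node 527 (merge (leaf 0 526 562) (node 497 (merge (leaf 2 494 498) (node 592 (merge (leaf 5 464 465) (leaf 6 496 624))))))) (node 558 (merge (leaf 3 525 525) (node 593 (merge (leaf 0 558 594) (node 625 (merge (leaf 7 528 657) (node 624 (merge (leaf 5 528 656) (node 497 (merge (leaf 5 496 592) (node 465 (merge (leaf 5 432 433) (node 466 (merge (leaf 6 433 434) (leaf 6 465 498)))))))))))))))))) (merge (node 526 (merge (node 525 (merge (leaf 0 525 527) (leaf 3 525 558))) (merge (node 527 (merge (leaf 0 525 525) (node 497 (merge (leaf 2 494 498) (node 592 (merge (leaf 5 464 465) (leaf 6 496 624)))))))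 (merge (node 527 (merge (node 494 (merge (leaf 3 493 493) (node 462 (merge (leaf 4 430 430) (node 591 (merge (leaf 7 462 495) (leaf 4 462 558))))))) (node 497 (merge (leaf 2 494 498) (node 592 (merge (leaf 6 496 624) (node 465 (merge (leaf 5 432 433) (leaf 5 464 561))))))))) (node 558 (merge (leaf 3 525 525) (node 593 (merge (leaf 0 558 594) (node 625 (merge (leaf 7 528 657) (node 590 (merge (leaf 1 557 589) (node 626 (merge (leaf 4 529 658) (node 592 (merge (leaf 0 590 591) (node 624 (merge (leaf 5 496 497) (leaf 5 528 656))))))))))))))))))) (merge (node 590 (merge (node 562 (merge (leaf 1 558 591) (node 527 (merge (leaf 3 526 526) (leaf 3 527 563))))) (merge (node 589 (merge (leaf 1 557 558) (node 591 (merge (leaf 1 558 562) (leaf 2 556 588))))) (merge (node 558 (merge (leaf 1 557 589) (node 526 (merge (leaf 3 525 525) (node 527 (merge (leaf 0 526 562) (node 495 (merge (leaf 5 462 463) (leaf 6 494 622))))))))) (node 558 (merge (leaf 1 557 589) (node 593 (merge (leaf 0 558 594) (node 625 (merge (leaf 7 528 657) (node 526 (merge (leaf 3 525 525) (node 626 (merge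 (leaf 4 529 658) (node 624 (merge (leaf 5 528 656) (node 623 (merge (leaf 3 590 591) (node 655 (merge (leaf 4 526 622) (leaf 1 622 654))))))))))))))))))))) (merge (node 562 (merge (node 563 (merge (leaf 3 527 527) (leaf 3 528 564))) (merge (node 563 (merge (leaf 3 528 564) (node 592 (merge (leaf 1 559 591) (node 497 (merge (leaf 5 464 465) (leaf 6 496 624))))))) (node 526 (merge (leaf 0 526 527) (node 558 (merge (leaf 3 525 525) (node 593 (merge (leaf 0 558 594) (node 625 (merge (leaf 7 528 657) (node 626 (merge (leaf 4 529 658) (node 624 (merge (leaf 5 528 656) (node 592 (merge (leaf 5 496 497) (node 627 (merge (leaf 3 591 591) (leaf 3 592 628)))))))))))))))))))) (node 593 (merge (node 625 (merge (leaf 7 528 657) (node 626 (merge (leaf 4 529 658) (node 497 (merge (leaf 4 497 594) (node 465 (merge (leaf 5 432 433) (leaf 5 464 592))))))))) (merge (node 625 (merge (leaf 7 528 657) (node 624 (merge (leaf 5 528 656) (node 592 (merge (leaf 5 496 497) (node 623 (merge (leaf 5 527 655) (node 622 (merge (leaf 2 590 594) (leaf 2 589 621))))))))))) (merge (node 625 (merge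 (leaf 7 528 657) (node 626 (merge (leaf 4 529 658) (node 624 (merge (leaf 5 528 656) (node 592 (merge (leaf 5 496 497) (node 627 (merge (leaf 3 591 591) (leaf 3 592 628))))))))))) (merge (node 592 (merge (node 625 (merge (leaf 7 528 657) (node 624 (merge (leaf 5 528 656) (node 623 (merge (leaf 5 527 655) (node 622 (merge (leaf 2 590 594) (leaf 2 589 621))))))))) (merge (node 625 (merge (leaf 7 528 657) (node 626 (merge (leaf 4 529 658) (node 591 (merge (leaf 0 590 590) (node 627 (merge (leaf 0 591 594) (leaf 3 592 628))))))))) (merge (node 625 (merge (leaf 7 528 657) (node 626 (merge (leaf 4 529 658) (node 627 (merge (leaf 3 592 628) (node 624 (merge (leaf 3 591 591) (leaf 5 528 656))))))))) (node 624 (merge (leaf 6 528 656) (node 623 (merge (leaf 5 527 655) (node 622 (merge (leaf 2 589 621) (node 591 (merge (leaf 1 590 594) (node 590 (merge (leaf 2 558 562) (leaf 2 557 589))))))))))))))) (merge (node 625 (merge (leaf 7 528 657) (node 626 (merge (leaf 4 529 658) (node 594 (merge (leaf 4 497 497) (node 624 (merge (leaf 5 528 656) (node 623 (merge (leaf 2 590 622)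 (node 655 (merge (leaf 1 622 654) (node 591 (merge (leaf 6 527 559) (leaf 3 590 590))))))))))))))) (node 592 (merge (node 497 (merge (leaf 5 464 465) (leaf 6 496 624))) (merge (node 624 (merge (leaf 6 528 656) (node 623 (merge (leaf 5 527 655) (node 622 (merge (leaf 2 589 621) (node 591 (merge (leaf 1 590 594) (node 590 (merge (leaf 2 558 562) (leaf 2 557 589))))))))))) (node 591 (merge (node 590 (merge (leaf 2 558 562) (leaf 2 557 589))) (node 497 (merge (leaf 5 464 465) (node 594 (merge (leaf 4 497 626) (node 559 (merge (leaf 0 558 558) (node 623 (merge (leaf 1 590 622) (leaf 6 527 655))))))))))))))))))))))))))))))))))))) nE_19 cE_19 12 (by decide +kernel)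
def nE_20 : ℕ := 0x180000001000000000000000000000000000000000000000000000000000000000000000000000000000000000000000000000000000000000000000000000000000000000000
def cE_20 : ℕ := 0x20000000e0000003e000000fe0000007fe0000067c000000fe000000f8000000f8000000e0000000a000000000000000000000000000000000000000000000000000000000000000000000000000000000000000000000000000
theorem lE_20 : S nE_20 cE_20 12 := S_of_chk [] trivial (node 558 (merge (node 557 (merge (node 556 (merge (leaf 2 524 527) (node 524 (merge (leaf 3 523 523) (leaf 3 524 525))))) (merge (node 556 (merge (leaf 2 524 527) (node 588 (merge (leaf 1 555 587) (leaf 1 556 589))))) (node 589 (merge (leaf 1 556 588) (node 561 (merge (leaf 1 557 590) (node 525 (merge (leaf 3 524 524) (leaf 3 525 526)))))))))) (merge (node 557 (merge (node 556 (merge (leaf 2 524 527) (node 588 (merge (leaf 1 555 587) (leaf 1 556 589))))) (node 593 (merge (leaf 0 557 592) (node 561 (merge (leaf 0 558 594) (node 525 (merge (leaf 3 524 524) (leaf 3 525 526))))))))) (merge (node 557 (merge (node 588 (merge (leaf 1 556 589) (node 556 (merge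 (leaf 1 555 587) (node 524 (merge (leaf 3 523 523) (leaf 3 524 525))))))) (merge (node 593 (merge (leaf 0 557 592) (node 561 (merge (leaf 0 558 594) (node 589 (merge (leaf 1 556 588) (leaf 1 557 590))))))) (node 593 (merge (leaf 0 557 592) (node 561 (merge (leaf 0 558 594) (node 525 (merge (leaf 3 524 524) (leaf 3 525 526)))))))))) (merge (node 557 (merge (node 593 (merge (leaf 0 557 592) (node 561 (merge (leaf 0 558 594) (node 589 (merge (leaf 1 556 588) (leaf 1 557 590))))))) (merge (node 556 (merge (leaf 2 524 527) (node 587 (merge (leaf 1 555 588) (node 555 (merge (leaf 1 554 586) (node 523 (merge (leaf 3 522 522) (leaf 3 523 524))))))))) (node 556 (merge (leaf 2 524 527) (node 523 (merge (leaf 3 523 524) (node 555 (merge (leaf 3 522 522) (node 590 (merge (leaf 0 555 591) (node 589 (merge (leaf 0 554 554) (leaf 1 557 561)))))))))))))) (merge (node 557 (merge (node 593 (merge (leaf 0 557 592) (node 561 (merge (leaf 0 558 594) (node 525 (merge (leaf 3 524 524) (leaf 3 525 526))))))) (merge (node 556 (merge (leaf 2 524 527) (node 587 (merge (leaf 1 555 588) (node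 555 (merge (leaf 1 554 586) (node 523 (merge (leaf 3 522 522) (leaf 3 523 524))))))))) (node 556 (merge (leaf 2 524 527) (node 591 (merge (leaf 0 556 592) (node 555 (merge (leaf 0 555 590) (node 586 (merge (leaf 1 554 587) (node 554 (merge (leaf 1 553 585) (node 522 (merge (leaf 3 521 521) (leaf 3 522 523)))))))))))))))) (merge (node 557 (merge (node 556 (merge (leaf 2 524 527) (node 588 (merge (leaf 1 555 587) (leaf 1 556 589))))) (merge (node 593 (merge (leaf 0 557 592) (node 561 (merge (leaf 0 558 594) (node 589 (merge (leaf 1 556 588) (leaf 1 557 590))))))) (node 556 (merge (leaf 2 524 527) (node 591 (merge (leaf 0 556 592) (node 555 (merge (leaf 0 555 590) (node 586 (merge (leaf 1 554 587) (node 554 (merge (leaf 1 553 585) (node 522 (merge (leaf 3 521 521) (leaf 3 522 523)))))))))))))))) (merge (node 527 (merge (node 557 (merge (leaf 2 524 556) (node 592 (merge (leaf 0 557 593) (node 624 (merge (leaf 7 495 495) (leaf 7 527 656))))))) (merge (node 590 (merge (node 622 (merge (leaf 6 526 654) (node 495 (merge (leaf 5 462 463) (leaf 5 494 591))))) (merge (node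 557 (merge (leaf 2 524 556) (node 525 (merge (leaf 3 524 524) (node 622 (merge (leaf 7 525 654) (node 493 (merge (leaf 4 461 461) (leaf 4 493 589))))))))) (node 557 (merge (leaf 2 524 556) (node 589 (merge (leaf 1 556 588) (node 525 (merge (leaf 3 524 524) (node 493 (merge (leaf 4 461 461) (node 492 (merge (leaf 7 460 460) (leaf 3 492 526)))))))))))))) (merge (node 557 (merge (leaf 2 524 556) (node 592 (merge (leaf 0 557 593) (node 624 (merge (leaf 7 527 656) (node 589 (merge (leaf 1 556 588) (node 525 (merge (leaf 3 524 524) (node 625 (merge (leaf 4 528 657) (node 590 (merge (leaf 0 589 591) (node 622 (merge (leaf 4 493 493) (leaf 7 525 654))))))))))))))))) (node 591 (merge (node 623 (merge (leaf 6 527 655) (node 622 (merge (leaf 5 526 654) (node 495 (merge (leaf 5 494 590) (node 463 (merge (leaf 4 431 431) (leaf 4 463 592))))))))) (merge (node 623 (merge (leaf 6 527 655) (node 494 (merge (leaf 7 494 526) (node 495 (merge (leaf 7 462 462) (node 463 (merge (leaf 4 431 431) (leaf 4 463 592))))))))) (merge (node 623 (merge (leaf 6 527 655) (node 622 (merge (leaf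 5 526 654) (node 526 (merge (leaf 7 494 494) (node 525 (merge (leaf 0 524 524) (node 493 (merge (leaf 3 492 492) (leaf 7 493 590))))))))))) (node 495 (merge (node 463 (merge (leaf 4 431 431) (node 462 (merge (leaf 7 430 430) (leaf 7 462 494))))) (merge (node 590 (merge (leaf 5 462 463) (node 622 (merge (leaf 6 494 526) (leaf 6 526 654))))) (node 590 (merge (leaf 5 494 622) (node 589 (merge (leaf 2 556 588) (node 494 (merge (leaf 7 462 462) (node 493 (merge (leaf 0 492 492) (node 526 (merge (leaf 7 461 461) (leaf 5 493 621)))))))))))))))))))))) (merge (node 526 (merge (node 525 (merge (leaf 3 525 561) (node 524 (merge (leaf 0 523 523) (leaf 3 524 557))))) (merge (node 561 (merge (leaf 3 525 525) (node 590 (merge (leaf 1 557 589) (node 562 (merge (leaf 3 526 527) (leaf 1 558 591))))))) (merge (node 527 (merge (node 561 (merge (leaf 3 526 562) (node 590 (merge (leaf 1 557 589) (node 622 (merge (leaf 6 494 495) (leaf 6 526 654))))))) (merge (node 557 (merge (leaf 2 524 556) (node 592 (merge (leaf 0 557 593) (node 624 (merge (leaf 7 495 495) (leaf 7 527 656))))))) (node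 557 (merge (leaf 2 524 556) (node 592 (merge (leaf 0 557 593) (node 624 (merge (leaf 7 527 656) (node 625 (merge (leaf 4 528 657) (node 623 (merge (leaf 5 527 655) (node 591 (merge (leaf 7 494 494) (node 626 (merge (leaf 3 590 590) (leaf 3 591 627)))))))))))))))))) (node 494 (merge (node 591 (merge (leaf 4 462 462) (node 623 (merge (leaf 4 494 590) (leaf 7 526 655))))) (merge (node 462 (merge (leaf 4 462 591) (node 431 (merge (leaf 6 430 463) (node 430 (merge (leaf 6 398 399) (node 429 (merge (leaf 7 397 397) (leaf 7 429 461))))))))) (node 590 (merge (node 621 (merge (leaf 5 493 589) (node 622 (merge (leaf 5 525 653) (node 493 (merge (leaf 7 461 461) (leaf 7 493 525))))))) (merge (node 621 (merge (leaf 5 493 589) (node 622 (merge (leaf 5 525 653) (node 495 (merge (leaf 6 462 463) (leaf 6 494 527))))))) (merge (node 493 (merge (leaf 7 461 461) (node 622 (merge (leaf 7 493 525) (node 655 (merge (leaf 4 526 623) (node 654 (merge (leaf 6 526 527) (leaf 4 558 687))))))))) (node 589 (merge (leaf 5 493 621) (node 495 (merge (leaf 6 462 463) (node 493 (merge (leaf 7 461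 461) (node 492 (merge (leaf 0 492 527) (node 524 (merge (leaf 1 491 523) (node 460 (merge (leaf 3 459 459) (node 557 (merge (leaf 3 524 525) (leaf 4 460 556)))))))))))))))))))))))))) (node 526 (merge (node 525 (merge (leaf 3 525 561) (node 524 (merge (leaf 0 523 523) (leaf 0 524 527))))) (merge (node 561 (merge (leaf 3 525 525) (node 590 (merge (leaf 1 557 589) (node 591 (merge (leaf 1 558 562) (node 623 (merge (leaf 4 494 494) (leaf 7 526 655))))))))) (merge (node 590 (merge (node 561 (merge (leaf 1 557 589) (node 591 (merge (leaf 1 558 562) (node 623 (merge (leaf 4 494 494) (leaf 7 526 655))))))) (merge (node 561 (merge (leaf 1 557 589) (node 527 (merge (leaf 3 526 562) (node 622 (merge (leaf 6 494 495) (leaf 6 526 654))))))) (merge (node 623 (merge (node 591 (merge (leaf 4 494 494) (leaf 7 526 655))) (merge (node 622 (merge (leaf 4 526 655) (node 654 (merge (leaf 6 526 527) (node 653 (merge (leaf 5 525 621) (leaf 5 557 685))))))) (node 494 (merge (leaf 4 494 591) (node 621 (merge (leaf 5 493 589) (node 622 (merge (leaf 5 525 653) (node 495 (merge (leaf 6 462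 463) (leaf 6 494 527)))))))))))) (node 591 (merge (node 623 (merge (leaf 4 494 494) (leaf 7 526 655))) (merge (node 494 (merge (leaf 4 462 462) (node 495 (merge (leaf 6 462 463) (node 527 (merge (leaf 5 494 622) (node 493 (merge (leaf 7 461 461) (leaf 0 492 492))))))))) (node 561 (merge (leaf 1 558 562) (node 593 (merge (leaf 0 558 594) (node 625 (merge (leaf 7 528 657) (node 592 (merge (leaf 0 590 626) (node 622 (merge (leaf 1 589 621) (node 654 (merge (leaf 6 526 527) (node 655 (merge (leaf 6 527 623) (leaf 4 558 687)))))))))))))))))))))) (node 494 (merge (node 591 (merge (leaf 4 462 462) (node 623 (merge (leaf 4 494 590) (leaf 7 526 655))))) (merge (node 462 (merge (leaf 4 462 591) (node 431 (merge (leaf 6 430 463) (node 430 (merge (leaf 6 398 399) (node 429 (merge (leaf 7 397 397) (leaf 7 429 461))))))))) (merge (node 590 (merge (node 621 (merge (leaf 5 493 589) (node 622 (merge (leaf 5 525 653) (node 495 (merge (leaf 6 462 463) (leaf 6 494 527))))))) (merge (node 589 (merge (leaf 5 493 621) (node 588 (merge (leaf 2 555 587) (leaf 2 556 591))))) (node 493 (merge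 (leaf 7 461 461) (node 622 (merge (leaf 7 493 525) (node 654 (merge (leaf 6 526 527) (node 685 (merge (leaf 5 557 653) (node 686 (merge (leaf 6 558 591) (leaf 5 589 717)))))))))))))) (node 527 (merge (node 525 (merge (leaf 0 524 524) (node 493 (merge (leaf 3 492 492) (node 461 (merge (leaf 4 429 429) (node 590 (merge (leaf 7 461 494) (leaf 7 493 622))))))))) (merge (node 462 (merge (leaf 4 430 430) (node 463 (merge (leaf 6 430 431) (node 590 (merge (leaf 5 462 495) (node 621 (merge (leaf 5 493 589) (node 622 (merge (leaf 5 525 653) (leaf 6 526 654))))))))))) (node 462 (merge (leaf 4 430 430) (node 463 (merge (leaf 6 430 431) (node 495 (merge (leaf 4 463 592) (node 492 (merge (leaf 0 492 493) (node 461 (merge (leaf 7 429 429) (node 460 (merge (leaf 0 459 459) (leaf 1 459 491))))))))))))))))))))))))))))))))) nE_20 cE_20 12 (by decide +kernel)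
def nE_21 : ℕ := 0x100000001000000000000000000000000000000000000000000000000000000000000000000000000000000000000000000000000000000000000000000000000000000000000
def cE_21 : ℕ := 0x22000000be000000fe000001ff0000007fe00001efc00001efe00003ef800000ff800000fe0000009a000000000000000000000000000000000000000000000000000000000000000000000000000000000000000000000000000
theorem lE_21 : S nE_21 cE_21 13 := S_of_chk [(nE_18, cE_18, 12), (nE_19, cE_19, 12), (nE_20, cE_20, 12)] ⟨lE_18, lE_19, lE_20, trivial⟩ (node 559 (merge (node 558 (merge (node 529 (merge (leaf 2 525 557) (node 530 (merge (leaf 1 526 527) (leaf 1 527 531))))) (merge (node 557 (merge (leaf 2 525 529) (node 588 (merge (leaf 1 556 589) (node 556 (merge (leaf 1 555 587) (node 524 (merge (leaf 3 523 523) (leaf 3 524 525))))))))) (merge (node 557 (merge (node 556 (merge (leaf 2 524 527) (node 524 (merge (leaf 3 523 523) (leaf 3 524 525))))) (merge (node 556 (merge (leaf 2 524 527) (node 588 (merge (leaf 1 555 587) (leaf 1 556 589))))) (node 589 (merge (leaf 1 556 588) (node 561 (merge (leaf 1 557 590) (node 525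 (merge (leaf 3 524 524) (leaf 3 525 526)))))))))) (node 561 (merge (node 530 (merge (leaf 2 526 529) (node 562 (merge (leaf 2 527 531) (node 526 (merge (leaf 3 525 525) (leaf 3 526 527))))))) (merge (node 590 (merge (leaf 1 557 589) (node 562 (merge (leaf 1 558 591) (node 531 (merge (leaf 2 527 530) (node 563 (merge (leaf 3 527 527) (leaf 2 528 532))))))))) (merge (node 590 (merge (leaf 1 557 589) (node 591 (merge (leaf 1 558 562) (node 526 (merge (leaf 3 525 525) (node 623 (merge (leaf 4 494 494) (leaf 7 526 655))))))))) (node 593 (merge (leaf 0 558 594) (node 625 (merge (leaf 7 528 657) (node 590 (merge (leaf 1 557 589) (node 529 (merge (leaf 2 526 530) (node 526 (merge (leaf 3 525 525) (node 626 (merge (leaf 4 529 658) (node 591 (merge (leaf 0 590 592) (node 623 (merge (leaf 4 494 494) (leaf 7 526 655))))))))))))))))))))))))) (merge (node 558 (merge (node 557 (merge (leaf 2 525 529) (node 556 (merge (leaf 2 524 527) (node 588 (merge (leaf 1 555 587) (leaf 1 556 589))))))) (merge (node 557 (merge (leaf 2 525 529) (node 592 (merge (leaf 0 557 593) (node 556 (merge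 (leaf 0 556 591) (node 588 (merge (leaf 1 555 587) (leaf 1 556 589))))))))) (merge (node 557 (merge (node 556 (merge (leaf 2 524 527) (node 588 (merge (leaf 1 555 587) (leaf 1 556 589))))) (node 593 (merge (leaf 0 557 592) (node 561 (merge (leaf 0 558 594) (node 525 (merge (leaf 3 524 524) (leaf 3 525 526))))))))) (node 529 (merge (node 530 (merge (leaf 1 527 531) (leaf 2 526 561))) (merge (node 530 (merge (leaf 1 526 527) (leaf 1 527 531))) (node 561 (merge (node 526 (merge (leaf 3 525 525) (node 527 (merge (leaf 0 526 562) (node 494 (merge (leaf 3 493 493) (node 591 (merge (leaf 4 462 462) (leaf 7 494 623))))))))) (node 593 (merge (leaf 0 558 594) (node 625 (merge (leaf 7 528 657) (node 624 (merge (leaf 5 528 656) (node 497 (merge (leaf 5 496 592) (node 465 (merge (leaf 5 432 433) (node 466 (merge (leaf 6 433 434) (leaf 6 465 498)))))))))))))))))))))) (merge (node 558 (merge (node 557 (merge (leaf 2 525 529) (node 592 (merge (leaf 0 557 593) (node 556 (merge (leaf 0 556 591) (node 588 (merge (leaf 1 555 587) (leaf 1 556 589))))))))) (merge (node 557 (merge (leaf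 2 525 529) (node 593 (merge (leaf 0 557 592) (node 561 (merge (leaf 0 558 594) (node 525 (merge (leaf 3 524 524) (leaf 3 525 526))))))))) (merge (node 557 (merge (leaf 2 525 529) (node 588 (merge (leaf 1 556 589) (node 556 (merge (leaf 1 555 587) (node 524 (merge (leaf 3 523 523) (leaf 3 524 525))))))))) (merge (node 557 (merge (node 588 (merge (leaf 1 556 589) (node 556 (merge (leaf 1 555 587) (node 524 (merge (leaf 3 523 523) (leaf 3 524 525))))))) (merge (node 593 (merge (leaf 0 557 592) (node 561 (merge (leaf 0 558 594) (node 589 (merge (leaf 1 556 588) (leaf 1 557 590))))))) (node 593 (merge (leaf 0 557 592) (node 561 (merge (leaf 0 558 594) (node 525 (merge (leaf 3 524 524) (leaf 3 525 526)))))))))) (node 561 (merge (node 590 (merge (leaf 1 557 589) (node 591 (merge (leaf 1 558 562) (node 526 (merge (leaf 3 525 525) (node 623 (merge (leaf 4 494 494) (leaf 7 526 655))))))))) (merge (node 593 (merge (leaf 0 558 594) (node 625 (merge (leaf 7 528 657) (node 529 (merge (leaf 2 526 530) (node 624 (merge (leaf 5 528 656) (node 497 (merge (leaf 5 496 592) (node 465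 (merge (leaf 5 432 433) (node 466 (merge (leaf 6 433 434) (leaf 6 465 498))))))))))))))) (node 593 (merge (leaf 0 558 594) (node 625 (merge (leaf 7 528 657) (node 529 (merge (leaf 2 526 530) (node 626 (merge (leaf 4 529 658) (node 624 (merge (leaf 5 528 656) (node 592 (merge (leaf 5 496 497) (node 627 (merge (leaf 3 591 591) (leaf 3 592 628))))))))))))))))))))))) (merge (node 558 (merge (node 529 (merge (leaf 2 525 557) (node 530 (merge (leaf 1 526 527) (leaf 1 527 531))))) (merge (node 557 (merge (leaf 2 525 529) (node 588 (merge (leaf 1 556 589) (node 556 (merge (leaf 1 555 587) (node 524 (merge (leaf 3 523 523) (leaf 3 524 525))))))))) (merge (node 557 (merge (node 556 (merge (leaf 2 524 527) (node 524 (merge (leaf 3 523 523) (leaf 3 524 525))))) (merge (node 556 (merge (leaf 2 524 527) (node 588 (merge (leaf 1 555 587) (leaf 1 556 589))))) (node 589 (merge (leaf 1 556 588) (node 561 (merge (leaf 1 557 590) (node 525 (merge (leaf 3 524 524) (leaf 3 525 526)))))))))) (node 561 (merge (node 530 (merge (leaf 2 526 529) (node 562 (merge (leaf 2 527 531) (node 526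 (merge (leaf 3 525 525) (leaf 3 526 527))))))) (merge (node 590 (merge (leaf 1 557 589) (node 562 (merge (leaf 1 558 591) (node 531 (merge (leaf 2 527 530) (node 563 (merge (leaf 3 527 527) (leaf 2 528 532))))))))) (merge (node 590 (merge (leaf 1 557 589) (node 591 (merge (leaf 1 558 562) (node 526 (merge (leaf 3 525 525) (node 623 (merge (leaf 4 494 494) (leaf 7 526 655))))))))) (node 593 (merge (leaf 0 558 594) (node 625 (merge (leaf 7 528 657) (node 590 (merge (leaf 1 557 589) (node 529 (merge (leaf 2 526 530) (node 526 (merge (leaf 3 525 525) (node 626 (merge (leaf 4 529 658) (node 624 (merge (leaf 5 528 656) (node 623 (merge (leaf 3 590 591) (node 655 (merge (leaf 4 526 622) (leaf 1 622 654))))))))))))))))))))))))))) (merge (node 558 (merge (node 529 (merge (leaf 2 525 557) (node 530 (merge (leaf 1 526 527) (leaf 1 527 531))))) (merge (node 557 (merge (leaf 2 525 529) (node 588 (merge (leaf 1 556 589) (node 556 (merge (leaf 1 555 587) (node 524 (merge (leaf 3 523 523) (leaf 3 524 525))))))))) (merge (node 557 (merge (node 556 (merge (leaf 2 524 527) (node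 588 (merge (leaf 1 555 587) (leaf 1 556 589))))) (node 593 (merge (leaf 0 557 592) (node 561 (merge (leaf 0 558 594) (node 525 (merge (leaf 3 524 524) (leaf 3 525 526))))))))) (node 561 (merge (node 590 (merge (leaf 1 557 589) (node 562 (merge (leaf 1 558 591) (node 526 (merge (leaf 3 525 525) (leaf 3 526 527))))))) (merge (node 530 (merge (leaf 2 526 529) (node 562 (merge (leaf 2 527 531) (node 526 (merge (leaf 3 525 525) (leaf 3 526 527))))))) (merge (node 590 (merge (leaf 1 557 589) (node 562 (merge (leaf 1 558 591) (node 531 (merge (leaf 2 527 530) (node 563 (merge (leaf 3 527 527) (leaf 2 528 532))))))))) (merge (node 593 (merge (leaf 0 558 594) (node 625 (merge (leaf 7 528 657) (node 590 (merge (leaf 1 557 589) (node 529 (merge (leaf 2 526 530) (node 626 (merge (leaf 4 529 658) (node 592 (merge (leaf 0 590 591) (node 624 (merge (leaf 5 496 497) (leaf 5 528 656))))))))))))))) (node 593 (merge (leaf 0 558 594) (node 625 (merge (leaf 7 528 657) (node 590 (merge (leaf 1 557 589) (node 591 (merge (leaf 1 558 562) (node 592 (merge (leaf 0 590 626) (node 529 (merge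 (leaf 2 526 530) (node 624 (merge (leaf 5 496 497) (leaf 5 528 656)))))))))))))))))))))))) (merge (node 529 (merge (node 530 (merge (leaf 1 527 531) (node 558 (merge (leaf 1 526 527) (leaf 2 526 561))))) (merge (node 558 (merge (leaf 2 525 557) (node 561 (merge (leaf 2 526 530) (node 593 (merge (leaf 0 558 594) (node 625 (merge (leaf 7 528 657) (node 624 (merge (leaf 5 528 656) (node 497 (merge (leaf 5 496 592) (node 465 (merge (leaf 5 432 433) (node 466 (merge (leaf 6 433 434) (leaf 6 465 498))))))))))))))))) (merge (node 530 (merge (leaf 1 527 531) (node 527 (merge (node 495 (merge (leaf 3 494 494) (node 463 (merge (leaf 4 431 431) (node 592 (merge (leaf 4 463 559) (leaf 7 495 624))))))) (node 562 (merge (leaf 0 527 563) (node 498 (merge (leaf 2 495 499) (node 497 (merge (leaf 2 494 526) (node 465 (merge (leaf 4 433 433) (leaf 7 465 594))))))))))))) (node 558 (merge (leaf 2 525 557) (node 561 (merge (node 590 (merge (leaf 1 557 589) (node 526 (merge (leaf 3 525 525) (node 527 (merge (leaf 0 526 562) (node 622 (merge (leaf 6 494 495) (leaf 6 526 654))))))))) (merge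 (node 526 (merge (leaf 3 525 525) (node 527 (merge (leaf 0 526 562) (node 497 (merge (leaf 2 494 498) (node 465 (merge (leaf 5 432 433) (leaf 5 464 592))))))))) (merge (node 593 (merge (leaf 0 558 594) (node 625 (merge (leaf 7 528 657) (node 624 (merge (leaf 5 528 656) (node 497 (merge (leaf 5 496 592) (node 465 (merge (leaf 5 432 433) (node 466 (merge (leaf 6 433 434) (leaf 6 465 498))))))))))))) (node 593 (merge (leaf 0 558 594) (node 625 (merge (leaf 7 528 657) (node 590 (merge (leaf 1 557 589) (node 624 (merge (leaf 5 528 656) (node 592 (merge (leaf 5 496 497) (node 623 (merge (leaf 5 527 655) (node 622 (merge (leaf 2 589 621) (node 527 (merge (leaf 7 495 495) (leaf 6 526 654))))))))))))))))))))))))))) (merge (node 529 (merge (node 558 (merge (leaf 2 525 557) (node 530 (merge (leaf 1 526 527) (leaf 1 527 531))))) (merge (node 530 (merge (leaf 1 527 531) (node 558 (merge (leaf 1 526 527) (leaf 2 526 561))))) (merge (node 558 (merge (leaf 2 525 557) (node 561 (merge (leaf 2 526 530) (node 590 (merge (leaf 1 557 589) (node 591 (merge (leaf 1 558 562) (node 526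 (merge (leaf 3 525 525) (node 494 (merge (leaf 4 462 462) (leaf 4 494 623))))))))))))) (node 527 (merge (node 526 (merge (node 525 (merge (leaf 0 524 524) (leaf 0 525 561))) (node 494 (merge (leaf 3 493 493) (node 591 (merge (leaf 7 494 623) (node 495 (merge (leaf 7 462 462) (node 592 (merge (leaf 4 463 463) (leaf 4 495 624))))))))))) (merge (node 526 (merge (node 525 (merge (leaf 0 524 524) (node 493 (merge (leaf 3 492 492) (leaf 3 493 494))))) (node 497 (merge (leaf 2 494 498) (node 592 (merge (leaf 6 496 624) (node 465 (merge (leaf 5 432 433) (leaf 5 464 561))))))))) (merge (node 591 (merge (node 623 (merge (leaf 6 527 655) (node 624 (merge (leaf 4 527 656) (node 592 (merge (leaf 4 495 495) (leaf 6 496 497))))))) (merge (node 623 (merge (leaf 6 527 655) (node 622 (merge (leaf 5 526 654) (node 495 (merge (leaf 5 494 590) (node 463 (merge (leaf 4 431 431) (leaf 4 463 592))))))))) (merge (node 592 (merge (node 624 (merge (leaf 6 496 497) (leaf 7 527 656))) (node 495 (merge (leaf 4 463 463) (node 590 (merge (leaf 5 494 622) (node 589 (merge (leaf 2 557 561) (leaf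 2 556 588))))))))) (merge (node 623 (merge (leaf 6 527 655) (node 624 (merge (leaf 4 527 656) (node 622 (merge (leaf 5 526 654) (node 590 (merge (leaf 5 494 495) (node 589 (merge (leaf 0 588 588) (leaf 3 589 625))))))))))) (node 623 (merge (leaf 6 527 655) (node 624 (merge (leaf 4 527 656) (node 592 (merge (leaf 6 496 497) (node 625 (merge (leaf 4 528 657) (node 626 (merge (leaf 3 590 590) (leaf 3 591 627)))))))))))))))) (merge (node 526 (merge (node 525 (merge (leaf 0 524 524) (leaf 0 525 561))) (merge (node 525 (merge (leaf 0 524 524) (node 493 (merge (leaf 3 492 492) (leaf 3 493 494))))) (node 497 (merge (leaf 2 494 498) (node 494 (merge (leaf 3 493 493) (node 465 (merge (leaf 5 432 433) (node 591 (merge (leaf 7 494 623) (node 495 (merge (leaf 7 462 462) (node 463 (merge (leaf 4 431 431) (node 464 (merge (leaf 6 431 432) (leaf 1 462 466)))))))))))))))))) (node 591 (merge (node 623 (merge (leaf 6 527 655) (node 622 (merge (leaf 5 526 654) (node 495 (merge (leaf 5 494 590) (node 463 (merge (leaf 4 431 431) (leaf 4 463 592))))))))) (merge (node 623 (merge (leaf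 6 527 655) (node 624 (merge (leaf 4 527 656) (node 497 (merge (leaf 6 496 592) (node 526 (merge (leaf 7 494 494) (leaf 2 494 498))))))))) (merge (node 623 (merge (leaf 6 527 655) (node 622 (merge (leaf 5 526 654) (node 495 (merge (leaf 5 494 590) (node 463 (merge (leaf 4 431 431) (node 462 (merge (leaf 7 430 430) (leaf 7 462 494))))))))))) (node 592 (merge (node 624 (merge (leaf 6 496 497) (leaf 7 527 656))) (node 495 (merge (leaf 4 463 463) (node 590 (merge (leaf 5 494 622) (node 589 (merge (leaf 2 556 588) (node 557 (merge (leaf 3 556 556) (node 494 (merge (leaf 7 462 462) (node 526 (merge (leaf 3 493 493) (node 525 (merge (leaf 0 524 524) (leaf 6 493 621)))))))))))))))))))))))))))))) (merge (node 558 (merge (node 529 (merge (leaf 2 525 557) (node 530 (merge (leaf 1 526 527) (leaf 1 527 531))))) (merge (node 557 (merge (leaf 2 525 529) (node 588 (merge (leaf 1 556 589) (node 556 (merge (leaf 1 555 587) (node 524 (merge (leaf 3 523 523) (leaf 3 524 525))))))))) (merge (node 557 (merge (node 556 (merge (leaf 2 524 527) (node 524 (merge (leaf 3 523 523) (leaf 3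 524 525))))) (merge (node 556 (merge (leaf 2 524 527) (node 588 (merge (leaf 1 555 587) (leaf 1 556 589))))) (node 589 (merge (leaf 1 556 588) (node 561 (merge (leaf 1 557 590) (node 525 (merge (leaf 3 524 524) (leaf 3 525 526)))))))))) (node 527 (merge (node 561 (merge (node 530 (merge (leaf 2 526 529) (node 562 (merge (leaf 2 527 531) (leaf 3 527 563))))) (node 590 (merge (leaf 1 557 589) (node 622 (merge (leaf 6 526 654) (node 495 (merge (leaf 5 462 463) (leaf 5 494 591))))))))) (merge (node 526 (merge (node 525 (merge (leaf 0 524 524) (leaf 0 525 561))) (merge (node 525 (merge (leaf 0 524 524) (node 493 (merge (leaf 3 492 492) (node 529 (merge (leaf 3 493 494) (node 530 (merge (leaf 1 527 531) (node 498 (merge (leaf 2 494 497) (leaf 2 495 499))))))))))) (node 529 (merge (node 498 (merge (leaf 2 494 497) (node 530 (merge (leaf 2 495 499) (leaf 1 527 531))))) (merge (node 497 (merge (leaf 2 494 498) (node 592 (merge (leaf 6 496 624) (node 465 (merge (leaf 5 432 433) (leaf 5 464 561))))))) (node 562 (merge (leaf 0 526 561) (node 530 (merge (leaf 1 527 531) (leaf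 0 527 563))))))))))) (merge (node 526 (merge (node 525 (merge (leaf 0 524 524) (leaf 0 525 561))) (merge (node 525 (merge (leaf 0 524 524) (node 493 (merge (leaf 3 492 492) (node 529 (merge (leaf 3 493 494) (node 530 (merge (leaf 1 527 531) (node 498 (merge (leaf 2 494 497) (leaf 2 495 499))))))))))) (node 529 (merge (node 497 (merge (leaf 2 494 498) (node 592 (merge (leaf 6 496 624) (node 465 (merge (leaf 5 432 433) (leaf 5 464 561))))))) (node 494 (merge (leaf 3 493 493) (node 530 (merge (leaf 3 494 495) (node 563 (merge (leaf 0 527 562) (node 531 (merge (leaf 1 527 559) (leaf 0 528 564)))))))))))))) (merge (node 495 (merge (node 592 (merge (leaf 4 463 463) (leaf 7 495 624))) (merge (node 463 (merge (leaf 4 431 431) (node 464 (merge (leaf 6 431 432) (node 462 (merge (leaf 7 430 430) (node 494 (merge (leaf 7 462 591) (node 493 (merge (leaf 1 461 465) (leaf 0 492 492))))))))))) (node 591 (merge (node 623 (merge (leaf 6 527 655) (node 494 (merge (leaf 7 462 462) (leaf 7 494 526))))) (merge (node 624 (merge (leaf 4 495 592) (node 623 (merge (leaf 4 527 656) (node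 622 (merge (leaf 5 494 590) (leaf 5 526 654))))))) (node 592 (merge (leaf 4 495 624) (node 590 (merge (leaf 5 494 622) (node 589 (merge (leaf 2 557 561) (leaf 2 556 588))))))))))))) (node 495 (merge (node 463 (merge (leaf 5 462 590) (node 431 (merge (leaf 5 430 526) (leaf 4 431 560))))) (merge (node 463 (merge (leaf 5 462 590) (node 592 (merge (leaf 4 463 560) (node 591 (merge (leaf 4 495 624) (node 462 (merge (leaf 7 430 430) (leaf 7 462 494))))))))) (merge (node 463 (merge (leaf 5 462 590) (node 431 (merge (leaf 5 430 526) (node 432 (merge (leaf 6 399 400) (leaf 6 431 464))))))) (merge (node 592 (merge (node 560 (merge (leaf 4 463 463) (leaf 7 495 624))) (merge (node 624 (merge (leaf 7 495 560) (leaf 4 495 591))) (merge (node 529 (merge (leaf 1 526 530) (node 591 (merge (leaf 4 495 624) (node 494 (merge (leaf 7 462 462) (node 526 (merge (leaf 3 493 493) (leaf 7 494 623))))))))) (node 463 (merge (leaf 4 463 560) (node 431 (merge (leaf 5 430 526) (node 432 (merge (leaf 6 399 400) (leaf 6 431 464))))))))))) (node 591 (merge (node 622 (merge (leaf 5 494 590) (node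 494 (merge (leaf 7 462 462) (node 623 (merge (leaf 7 494 526) (leaf 5 526 654))))))) (merge (node 622 (merge (leaf 5 494 590) (node 623 (merge (leaf 5 526 654) (node 656 (merge (leaf 4 527 624) (node 655 (merge (leaf 6 527 560) (leaf 4 559 688))))))))) (merge (node 494 (merge (leaf 7 462 462) (node 623 (merge (leaf 7 494 526) (node 656 (merge (leaf 4 527 624) (node 655 (merge (leaf 6 527 560) (leaf 4 559 688))))))))) (node 529 (merge (leaf 1 526 530) (node 494 (merge (leaf 7 462 462) (node 493 (merge (leaf 0 492 492) (leaf 3 493 526))))))))))))))))))))))))) (merge (node 527 (merge (node 526 (merge (node 525 (merge (leaf 0 524 524) (leaf 0 525 561))) (node 494 (merge (node 462 (merge (leaf 4 430 430) (node 591 (merge (leaf 7 462 495) (leaf 7 494 623))))) (merge (node 529 (merge (leaf 3 493 493) (node 530 (merge (leaf 3 494 495) (node 563 (merge (leaf 0 527 562) (node 531 (merge (leaf 1 527 559) (leaf 0 528 564))))))))) (node 529 (merge (leaf 3 493 493) (node 530 (merge (leaf 1 527 531) (node 498 (merge (leaf 2 494 497) (leaf 2 495 499)))))))))))) (merge (node 495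 (merge (node 592 (merge (leaf 4 463 463) (leaf 7 495 624))) (merge (node 463 (merge (leaf 4 431 431) (node 464 (merge (leaf 6 431 432) (node 462 (merge (leaf 7 430 430) (node 494 (merge (leaf 7 462 591) (node 493 (merge (leaf 1 461 465) (leaf 0 492 492))))))))))) (node 591 (merge (node 623 (merge (leaf 6 527 655) (node 494 (merge (leaf 7 462 462) (leaf 7 494 526))))) (merge (node 624 (merge (leaf 4 495 592) (node 623 (merge (leaf 4 527 656) (node 622 (merge (leaf 5 494 590) (leaf 5 526 654))))))) (node 592 (merge (leaf 4 495 624) (node 590 (merge (leaf 5 494 622) (node 589 (merge (leaf 2 557 561) (leaf 2 556 588))))))))))))) (merge (node 526 (merge (node 525 (merge (leaf 0 524 524) (leaf 0 525 561))) (merge (node 525 (merge (leaf 0 524 524) (node 493 (merge (leaf 3 492 492) (node 529 (merge (leaf 3 493 494) (node 530 (merge (leaf 1 527 531) (node 498 (merge (leaf 2 494 497) (leaf 2 495 499))))))))))) (node 529 (merge (node 497 (merge (leaf 2 494 498) (node 592 (merge (leaf 6 496 624) (node 465 (merge (leaf 5 432 433) (leaf 5 464 561))))))) (node 494 (merge (leaf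 3 493 493) (node 530 (merge (leaf 3 494 495) (node 563 (merge (leaf 0 527 562) (node 531 (merge (leaf 1 527 559) (leaf 0 528 564)))))))))))))) (merge (node 530 (merge (node 529 (merge (leaf 1 527 531) (node 495 (merge (leaf 3 494 494) (node 463 (merge (leaf 4 431 431) (leaf 4 463 592))))))) (merge (node 529 (merge (leaf 1 527 531) (node 498 (merge (leaf 2 495 499) (node 526 (merge (leaf 2 494 497) (node 525 (merge (leaf 0 524 524) (leaf 0 525 561))))))))) (node 591 (merge (node 623 (merge (leaf 6 527 655) (node 526 (merge (leaf 7 494 494) (node 561 (merge (leaf 0 525 525) (leaf 3 526 562))))))) (merge (node 623 (merge (leaf 6 527 655) (node 622 (merge (leaf 5 526 654) (node 495 (merge (leaf 5 494 590) (node 463 (merge (leaf 4 431 431) (leaf 4 463 592))))))))) (node 495 (merge (node 592 (merge (leaf 4 463 463) (leaf 4 495 624))) (merge (node 463 (merge (leaf 4 431 431) (node 462 (merge (leaf 7 430 430) (leaf 7 462 494))))) (node 592 (merge (leaf 4 495 624) (node 590 (merge (leaf 5 494 622) (node 589 (merge (leaf 2 557 561) (leaf 2 556 588)))))))))))))))) (merge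 (node 526 (merge (node 525 (merge (leaf 0 524 524) (leaf 0 525 561))) (merge (node 525 (merge (leaf 0 524 524) (node 493 (merge (leaf 3 492 492) (node 529 (merge (leaf 3 493 494) (node 530 (merge (leaf 1 527 531) (node 498 (merge (leaf 2 494 497) (leaf 2 495 499))))))))))) (node 529 (merge (node 498 (merge (leaf 2 494 497) (node 530 (merge (leaf 2 495 499) (leaf 1 527 531))))) (merge (node 497 (merge (leaf 2 494 498) (node 592 (merge (leaf 6 496 624) (node 465 (merge (leaf 5 432 433) (leaf 5 464 561))))))) (node 562 (merge (leaf 0 526 561) (node 530 (merge (leaf 1 527 531) (leaf 0 527 563))))))))))) (merge (node 495 (merge (node 592 (merge (leaf 4 463 463) (leaf 7 495 624))) (merge (node 463 (merge (leaf 4 431 431) (node 464 (merge (leaf 6 431 432) (node 462 (merge (leaf 7 430 430) (node 494 (merge (leaf 7 462 591) (node 493 (merge (leaf 1 461 465) (leaf 0 492 492))))))))))) (node 591 (merge (node 623 (merge (leaf 6 527 655) (node 622 (merge (leaf 5 494 590) (leaf 5 526 654))))) (merge (node 624 (merge (leaf 4 495 592) (node 623 (merge (leaf 6 527 655) (leaf 4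 527 656))))) (node 592 (merge (leaf 4 495 624) (node 590 (merge (leaf 5 494 622) (node 589 (merge (leaf 2 557 561) (leaf 2 556 588))))))))))))) (merge (node 495 (merge (node 592 (merge (leaf 4 463 463) (leaf 7 495 624))) (merge (node 463 (merge (leaf 4 431 431) (node 464 (merge (leaf 6 431 432) (node 462 (merge (leaf 7 430 430) (node 494 (merge (leaf 7 462 591) (node 493 (merge (leaf 1 461 465) (leaf 0 492 492))))))))))) (node 591 (merge (node 623 (merge (leaf 6 527 655) (node 494 (merge (leaf 7 462 462) (leaf 7 494 526))))) (merge (node 624 (merge (leaf 4 495 592) (node 623 (merge (leaf 4 527 656) (node 622 (merge (leaf 5 494 590) (leaf 5 526 654))))))) (node 590 (merge (leaf 5 494 622) (node 589 (merge (leaf 2 556 588) (node 494 (merge (leaf 7 462 462) (node 529 (merge (leaf 3 494 530) (node 526 (merge (leaf 3 493 493) (node 525 (merge (leaf 0 524 524) (node 557 (merge (leaf 1 524 556) (leaf 6 493 621))))))))))))))))))))) (node 591 (merge (node 623 (merge (leaf 6 527 655) (node 622 (merge (leaf 5 526 654) (node 495 (merge (leaf 5 494 590) (node 463 (merge (leaf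 4 431 431) (leaf 4 463 592))))))))) (merge (node 623 (merge (leaf 6 527 655) (node 624 (merge (leaf 4 527 656) (node 592 (merge (leaf 4 495 495) (node 625 (merge (leaf 4 528 657) (node 626 (merge (leaf 3 590 590) (leaf 3 591 627))))))))))) (merge (node 623 (merge (leaf 6 527 655) (node 624 (merge (leaf 4 527 656) (node 622 (merge (leaf 5 526 654) (node 590 (merge (leaf 5 494 495) (node 589 (merge (leaf 0 588 588) (leaf 3 589 625))))))))))) (merge (node 623 (merge (leaf 6 527 655) (node 624 (merge (leaf 4 527 656) (node 592 (merge (leaf 4 495 495) (node 622 (merge (leaf 5 526 654) (node 593 (merge (leaf 1 590 594) (leaf 2 589 621))))))))))) (merge (node 592 (merge (node 495 (merge (leaf 4 463 463) (leaf 7 495 624))) (merge (node 495 (merge (leaf 4 463 463) (node 590 (merge (leaf 5 494 622) (node 589 (merge (leaf 2 557 561) (leaf 2 556 588))))))) (node 624 (merge (leaf 7 527 656) (node 625 (merge (leaf 4 528 657) (node 529 (merge (leaf 6 496 497) (node 530 (merge (leaf 1 527 531) (node 562 (merge (leaf 0 527 563) (node 561 (merge (leaf 0 526 526) (node 498 (merge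 (leaf 2 495 499) (leaf 6 497 593)))))))))))))))))) (node 590 (merge (node 623 (merge (leaf 6 527 655) (node 624 (merge (leaf 4 527 656) (node 625 (merge (leaf 3 590 626) (node 622 (merge (leaf 3 589 589) (leaf 5 526 654))))))))) (merge (node 589 (merge (leaf 2 556 588) (node 592 (merge (leaf 2 557 561) (node 621 (merge (leaf 1 588 620) (node 622 (merge (leaf 1 589 593) (node 557 (merge (leaf 3 556 556) (node 654 (merge (leaf 4 525 525) (leaf 7 557 686))))))))))))) (merge (node 561 (merge (leaf 1 558 562) (node 589 (merge (leaf 2 556 588) (leaf 2 557 592))))) (node 562 (merge (leaf 1 558 561) (node 623 (merge (leaf 6 527 655) (node 624 (merge (leaf 4 527 656) (node 625 (merge (leaf 3 590 626) (node 592 (merge (leaf 4 528 657) (node 529 (merge (leaf 6 496 497) (node 530 (merge (leaf 1 527 531) (leaf 0 527 563))))))))))))))))))))))))))))))))) (merge (node 529 (merge (node 558 (merge (leaf 2 525 557) (node 530 (merge (leaf 1 527 531) (leaf 2 526 561))))) (merge (node 558 (merge (leaf 2 525 557) (node 530 (merge (leaf 1 526 527) (leaf 1 527 531))))) (merge (node 561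 (merge (node 558 (merge (leaf 2 525 557) (node 590 (merge (leaf 1 557 589) (node 562 (merge (leaf 1 558 591) (node 563 (merge (leaf 3 527 527) (leaf 3 528 564))))))))) (merge (node 558 (merge (leaf 2 525 557) (node 593 (merge (leaf 0 558 594) (node 625 (merge (leaf 7 528 657) (node 590 (merge (leaf 1 557 589) (node 626 (merge (leaf 4 529 658) (node 592 (merge (leaf 0 590 591) (node 624 (merge (leaf 5 496 497) (leaf 5 528 656))))))))))))))) (merge (node 562 (merge (node 563 (merge (leaf 3 527 527) (leaf 3 528 564))) (merge (node 563 (merge (leaf 3 528 564) (node 592 (merge (leaf 1 559 591) (node 497 (merge (leaf 5 464 465) (leaf 6 496 624))))))) (node 527 (merge (leaf 0 526 526) (node 591 (merge (leaf 1 558 590) (node 623 (merge (leaf 6 527 655) (node 624 (merge (leaf 4 527 656) (node 592 (merge (leaf 4 495 495) (leaf 6 496 497)))))))))))))) (merge (node 558 (merge (leaf 2 525 557) (node 593 (merge (leaf 0 558 594) (node 625 (merge (leaf 7 528 657) (node 624 (merge (leaf 5 528 656) (node 592 (merge (leaf 5 496 497) (node 527 (merge (leaf 7 495 495) (node 562 (merge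 (leaf 0 526 526) (leaf 3 527 563))))))))))))))) (node 558 (merge (leaf 2 525 557) (node 593 (merge (leaf 0 558 594) (node 625 (merge (leaf 7 528 657) (node 626 (merge (leaf 4 529 658) (node 624 (merge (leaf 5 528 656) (node 592 (merge (leaf 5 496 497) (node 627 (merge (leaf 3 591 591) (leaf 3 592 628)))))))))))))))))))) (node 561 (merge (node 562 (merge (node 527 (merge (leaf 3 526 526) (leaf 3 527 563))) (merge (node 591 (merge (leaf 1 558 590) (node 592 (merge (leaf 1 559 563) (node 624 (merge (leaf 6 496 497) (leaf 6 528 656))))))) (node 527 (merge (leaf 0 526 526) (node 591 (merge (leaf 1 558 590) (node 623 (merge (leaf 6 527 655) (node 624 (merge (leaf 4 527 656) (node 592 (merge (leaf 4 495 495) (leaf 6 496 497)))))))))))))) (merge (node 593 (merge (node 625 (merge (leaf 7 528 657) (node 530 (merge (leaf 6 497 498) (leaf 1 527 531))))) (merge (node 625 (merge (leaf 7 528 657) (node 626 (merge (leaf 4 529 658) (node 497 (merge (leaf 4 497 594) (node 465 (merge (leaf 5 432 433) (leaf 5 464 592))))))))) (node 497 (merge (node 592 (merge (leaf 5 464 465) (leaf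 6 496 624))) (merge (node 466 (merge (leaf 6 465 498) (node 465 (merge (leaf 5 432 433) (leaf 6 433 434))))) (node 530 (merge (leaf 1 527 531) (node 498 (merge (leaf 6 465 466) (node 527 (merge (leaf 2 495 499) (leaf 2 494 526))))))))))))) (merge (node 562 (merge (node 563 (merge (leaf 3 527 527) (leaf 3 528 564))) (merge (node 531 (merge (leaf 2 527 530) (node 563 (merge (leaf 2 528 532) (leaf 3 528 564))))) (node 527 (merge (leaf 0 526 526) (node 530 (merge (leaf 1 527 531) (node 498 (merge (leaf 2 495 499) (node 466 (merge (leaf 5 433 434) (leaf 5 465 593)))))))))))) (merge (node 530 (merge (node 531 (merge (leaf 1 528 532) (leaf 1 527 559))) (node 593 (merge (node 625 (merge (leaf 6 497 498) (leaf 7 528 657))) (merge (node 497 (merge (node 466 (merge (leaf 6 465 498) (node 465 (merge (leaf 5 432 433) (leaf 6 433 434))))) (merge (node 594 (merge (leaf 4 497 626) (node 465 (merge (leaf 5 432 433) (leaf 4 465 562))))) (node 594 (merge (leaf 4 497 626) (node 592 (merge (leaf 5 496 624) (node 498 (merge (leaf 6 465 466) (node 499 (merge (leaf 1 496 500) (node 562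 (merge (leaf 6 466 467) (node 563 (merge (leaf 1 560 564) (leaf 1 559 591)))))))))))))))) (node 625 (merge (leaf 7 528 657) (node 624 (merge (leaf 5 528 656) (node 592 (merge (leaf 5 496 497) (node 623 (merge (leaf 5 527 655) (node 622 (merge (leaf 2 590 594) (leaf 2 589 621)))))))))))))))) (node 562 (merge (node 563 (merge (leaf 3 527 527) (leaf 3 528 564))) (merge (node 591 (merge (leaf 1 558 590) (node 563 (merge (leaf 3 528 564) (leaf 1 559 592))))) (node 527 (merge (leaf 0 526 526) (node 591 (merge (leaf 1 558 590) (node 623 (merge (leaf 6 527 655) (node 624 (merge (leaf 4 527 656) (node 592 (merge (leaf 4 495 495) (node 622 (merge (leaf 5 526 654) (node 621 (merge (leaf 2 589 593) (leaf 2 588 620))))))))))))))))))))))))))) (merge (hyp 0) (merge (node 527 (merge (node 529 (merge (node 558 (merge (leaf 1 526 530) (leaf 2 525 557))) (merge (node 530 (merge (leaf 1 527 531) (node 562 (merge (leaf 0 527 563) (node 498 (merge (leaf 2 495 499) (node 497 (merge (leaf 2 494 526) (node 465 (merge (leaf 4 433 433) (leaf 7 465 594))))))))))) (node 526 (merge (node 525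 (merge (leaf 0 524 524) (node 557 (merge (leaf 1 524 556) (leaf 2 525 558))))) (merge (node 494 (merge (leaf 3 493 493) (node 462 (merge (leaf 4 430 430) (node 591 (merge (leaf 4 462 558) (leaf 7 494 623))))))) (node 493 (merge (leaf 3 493 494) (node 525 (merge (leaf 3 492 492) (node 524 (merge (leaf 0 524 559) (node 556 (merge (leaf 1 523 555) (leaf 1 524 557))))))))))))))) (merge (node 591 (merge (node 623 (merge (leaf 6 527 655) (node 622 (merge (leaf 5 526 654) (node 495 (merge (leaf 5 494 590) (node 463 (merge (leaf 4 431 431) (leaf 4 463 592))))))))) (merge (node 623 (merge (leaf 6 527 655) (node 624 (merge (leaf 4 527 656) (node 592 (merge (leaf 4 495 495) (node 529 (merge (leaf 6 496 497) (node 558 (merge (leaf 1 526 530) (leaf 2 525 557))))))))))) (merge (node 592 (merge (node 495 (merge (leaf 4 463 463) (leaf 7 495 624))) (merge (node 624 (merge (leaf 7 527 656) (node 529 (merge (leaf 6 496 497) (node 530 (merge (leaf 1 527 531) (leaf 1 526 558))))))) (node 495 (merge (leaf 4 463 463) (node 590 (merge (leaf 5 494 622) (node 589 (merge (leaf 2 556 588)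 (node 557 (merge (leaf 3 556 556) (node 558 (merge (leaf 2 525 529) (leaf 0 557 593)))))))))))))) (merge (node 623 (merge (leaf 6 527 655) (node 624 (merge (leaf 4 527 656) (node 622 (merge (leaf 5 526 654) (node 590 (merge (leaf 5 494 495) (node 589 (merge (leaf 0 588 588) (leaf 3 589 625))))))))))) (node 592 (merge (node 624 (merge (leaf 7 527 656) (node 529 (merge (leaf 6 496 497) (node 530 (merge (leaf 1 527 531) (leaf 1 526 558))))))) (node 623 (merge (leaf 6 527 655) (node 622 (merge (leaf 5 526 654) (node 593 (merge (leaf 1 590 594) (node 621 (merge (leaf 1 589 590) (leaf 2 588 620)))))))))))))))) (merge (node 592 (merge (node 624 (merge (leaf 7 495 495) (leaf 7 527 656))) (merge (node 624 (merge (leaf 7 527 656) (node 529 (merge (leaf 6 496 497) (node 530 (merge (leaf 1 527 531) (leaf 1 526 558))))))) (node 591 (merge (node 495 (merge (leaf 4 463 463) (node 623 (merge (leaf 6 527 655) (node 494 (merge (leaf 7 462 462) (leaf 7 494 526))))))) (merge (node 623 (merge (leaf 6 527 655) (node 622 (merge (leaf 5 526 654) (node 593 (merge (leaf 1 590 594) (node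 621 (merge (leaf 1 589 590) (leaf 2 588 620))))))))) (node 495 (merge (leaf 4 463 463) (node 590 (merge (leaf 5 494 622) (node 589 (merge (leaf 2 556 588) (node 621 (merge (leaf 1 588 620) (node 494 (merge (leaf 7 462 462) (node 529 (merge (leaf 3 494 530) (node 526 (merge (leaf 3 493 493) (leaf 5 493 558))))))))))))))))))))) (merge (node 592 (merge (node 624 (merge (leaf 7 495 495) (leaf 7 527 656))) (merge (node 591 (merge (node 495 (merge (leaf 4 463 463) (node 623 (merge (leaf 6 527 655) (node 494 (merge (leaf 7 462 462) (leaf 7 494 526))))))) (merge (node 623 (merge (leaf 6 527 655) (node 622 (merge (leaf 5 526 654) (node 593 (merge (leaf 1 590 594) (node 621 (merge (leaf 1 589 590) (leaf 2 588 620))))))))) (node 495 (merge (leaf 4 463 463) (node 590 (merge (leaf 5 494 622) (node 589 (merge (leaf 2 556 588) (node 621 (merge (leaf 1 588 620) (node 557 (merge (leaf 3 556 556) (node 558 (merge (leaf 0 557 593) (node 494 (merge (leaf 7 462 462) (leaf 5 493 526)))))))))))))))))) (node 591 (merge (node 624 (merge (leaf 7 527 656) (node 625 (merge (leaf 4 528 657)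 (node 590 (merge (leaf 0 589 589) (node 626 (merge (leaf 0 590 593) (leaf 3 591 627))))))))) (merge (node 623 (merge (leaf 6 527 655) (node 622 (merge (leaf 5 526 654) (node 593 (merge (leaf 1 590 594) (node 621 (merge (leaf 1 589 590) (leaf 2 588 620))))))))) (merge (node 624 (merge (leaf 7 527 656) (node 625 (merge (leaf 4 528 657) (node 626 (merge (leaf 3 591 627) (node 623 (merge (leaf 3 590 590) (leaf 5 527 655))))))))) (node 624 (merge (leaf 7 527 656) (node 623 (merge (leaf 5 527 655) (node 622 (merge (leaf 5 526 654) (node 621 (merge (leaf 2 589 593) (leaf 2 588 620)))))))))))))))) (merge (node 592 (merge (node 624 (merge (leaf 7 495 495) (leaf 7 527 656))) (merge (node 624 (merge (leaf 7 527 656) (node 529 (merge (leaf 6 496 497) (node 530 (merge (leaf 1 527 531) (leaf 1 526 558))))))) (node 526 (merge (node 525 (merge (leaf 0 524 524) (node 557 (merge (leaf 1 524 556) (node 558 (merge (leaf 1 525 529) (leaf 0 557 593))))))) (merge (node 558 (merge (node 557 (merge (leaf 2 524 556) (leaf 0 557 593))) (node 529 (merge (leaf 1 526 530) (node 494 (merge (leaf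 3 493 493) (node 462 (merge (leaf 4 430 430) (node 463 (merge (leaf 6 430 431) (leaf 4 463 495))))))))))) (merge (node 525 (merge (leaf 0 524 524) (node 557 (merge (leaf 1 524 556) (node 558 (merge (leaf 0 557 593) (node 493 (merge (leaf 3 492 492) (node 590 (merge (leaf 4 461 461) (leaf 7 493 622))))))))))) (node 525 (merge (leaf 0 524 524) (node 493 (merge (leaf 3 492 492) (node 529 (merge (leaf 3 493 494) (node 530 (merge (leaf 1 527 531) (node 498 (merge (leaf 2 494 497) (leaf 2 495 499)))))))))))))))))) (node 495 (merge (node 592 (merge (leaf 4 463 463) (leaf 7 495 624))) (merge (node 463 (merge (leaf 4 431 431) (node 464 (merge (leaf 6 431 432) (node 462 (merge (leaf 7 430 430) (node 494 (merge (leaf 7 462 591) (node 493 (merge (leaf 1 461 465) (leaf 0 492 492))))))))))) (node 591 (merge (node 623 (merge (leaf 6 527 655) (node 494 (merge (leaf 7 462 462) (leaf 7 494 526))))) (merge (node 624 (merge (leaf 4 495 592) (node 623 (merge (leaf 4 527 656) (node 622 (merge (leaf 5 494 590) (leaf 5 526 654))))))) (node 590 (merge (leaf 5 494 622) (node 589 (merge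 (leaf 2 556 588) (node 494 (merge (leaf 7 462 462) (node 529 (merge (leaf 3 494 530) (node 526 (merge (leaf 3 493 493) (node 525 (merge (leaf 0 524 524) (node 557 (merge (leaf 1 524 556) (leaf 6 493 621))))))))))))))))))))))))))) (merge (hyp 1) (merge (node 558 (merge (node 529 (merge (leaf 2 525 557) (node 530 (merge (leaf 1 526 527) (leaf 1 527 531))))) (merge (node 557 (merge (leaf 2 525 529) (node 593 (merge (leaf 0 557 592) (node 561 (merge (leaf 0 558 594) (node 525 (merge (leaf 3 524 524) (leaf 3 525 526))))))))) (merge (node 557 (merge (node 593 (merge (leaf 0 557 592) (node 561 (merge (leaf 0 558 594) (node 525 (merge (leaf 3 524 524) (leaf 3 525 526))))))) (merge (node 556 (merge (leaf 2 524 527) (node 587 (merge (leaf 1 555 588) (node 555 (merge (leaf 1 554 586) (node 523 (merge (leaf 3 522 522) (leaf 3 523 524))))))))) (node 556 (merge (leaf 2 524 527) (node 591 (merge (leaf 0 556 592) (node 555 (merge (leaf 0 555 590) (node 586 (merge (leaf 1 554 587) (node 554 (merge (leaf 1 553 585) (node 522 (merge (leaf 3 521 521) (leaf 3 522 523))))))))))))))))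 (node 529 (merge (node 530 (merge (leaf 1 527 531) (leaf 2 526 561))) (merge (node 530 (merge (leaf 1 526 527) (leaf 1 527 531))) (node 526 (merge (node 527 (merge (node 525 (merge (leaf 0 524 524) (leaf 0 525 561))) (node 494 (merge (leaf 3 493 493) (node 462 (merge (leaf 4 430 430) (node 591 (merge (leaf 7 462 495) (leaf 4 462 558))))))))) (merge (node 527 (merge (node 494 (merge (leaf 3 493 493) (node 462 (merge (leaf 4 430 430) (node 591 (merge (leaf 7 462 495) (leaf 4 462 558))))))) (node 497 (merge (leaf 2 494 498) (node 592 (merge (leaf 6 496 624) (node 465 (merge (leaf 5 432 433) (leaf 5 464 561))))))))) (merge (node 561 (merge (leaf 3 525 525) (node 593 (merge (leaf 0 558 594) (node 625 (merge (leaf 7 528 657) (node 624 (merge (leaf 5 528 656) (node 497 (merge (leaf 5 496 592) (node 465 (merge (leaf 5 432 433) (node 466 (merge (leaf 6 433 434) (leaf 6 465 498))))))))))))))) (node 494 (merge (node 591 (merge (leaf 4 462 462) (node 623 (merge (leaf 7 494 527) (leaf 7 526 655))))) (merge (node 591 (merge (leaf 4 462 462) (node 623 (merge (leaf 4 494 590)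 (leaf 7 526 655))))) (merge (node 527 (merge (leaf 3 493 493) (node 462 (merge (leaf 4 430 430) (node 463 (merge (leaf 6 430 431) (node 495 (merge (leaf 5 462 590) (leaf 4 463 592))))))))) (node 493 (merge (leaf 3 493 527) (node 590 (merge (leaf 7 461 461) (node 623 (merge (leaf 4 494 591) (node 622 (merge (leaf 7 493 525) (leaf 4 526 655)))))))))))))))))))))))) (merge (hyp 2) (node 529 (merge (node 558 (merge (leaf 2 525 557) (node 530 (merge (leaf 1 527 531) (leaf 2 526 561))))) (merge (node 558 (merge (leaf 2 525 557) (node 530 (merge (leaf 1 526 527) (leaf 1 527 531))))) (merge (node 558 (merge (leaf 2 525 557) (node 561 (merge (node 590 (merge (leaf 1 557 589) (node 562 (merge (leaf 1 558 591) (node 563 (merge (leaf 3 527 527) (leaf 3 528 564))))))) (merge (node 593 (merge (leaf 0 558 594) (node 625 (merge (leaf 7 528 657) (node 590 (merge (leaf 1 557 589) (node 624 (merge (leaf 5 528 656) (node 592 (merge (leaf 5 496 497) (node 623 (merge (leaf 5 527 655) (node 622 (merge (leaf 2 589 621) (node 527 (merge (leaf 7 495 495) (leaf 6 526 654)))))))))))))))))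 (merge (node 593 (merge (leaf 0 558 594) (node 625 (merge (leaf 7 528 657) (node 626 (merge (leaf 4 529 658) (node 624 (merge (leaf 5 528 656) (node 592 (merge (leaf 5 496 497) (node 627 (merge (leaf 3 591 591) (leaf 3 592 628))))))))))))) (node 593 (merge (leaf 0 558 594) (node 625 (merge (leaf 7 528 657) (node 624 (merge (leaf 5 528 656) (node 497 (merge (leaf 5 496 592) (node 465 (merge (leaf 5 432 433) (node 466 (merge (leaf 6 433 434) (leaf 6 465 498))))))))))))))))))) (node 530 (merge (leaf 1 527 531) (node 592 (merge (node 497 (merge (leaf 6 496 624) (node 465 (merge (leaf 5 432 433) (leaf 5 464 561))))) (merge (node 624 (merge (leaf 6 496 497) (node 656 (merge (leaf 7 527 527) (node 688 (merge (leaf 7 559 591) (node 689 (merge (leaf 4 560 657) (leaf 4 592 721))))))))) (merge (node 624 (merge (node 657 (merge (leaf 4 528 625) (node 656 (merge (leaf 6 528 561) (leaf 4 560 689))))) (merge (node 656 (merge (leaf 6 528 561) (node 655 (merge (leaf 5 527 623) (leaf 5 559 687))))) (merge (node 657 (merge (leaf 4 528 625) (node 656 (merge (leaf 4 560 689) (node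 655 (merge (leaf 5 527 623) (leaf 5 559 687))))))) (node 625 (merge (leaf 4 528 657) (node 623 (merge (leaf 5 527 655) (node 527 (merge (leaf 7 495 495) (node 498 (merge (leaf 2 495 499) (node 593 (merge (leaf 6 497 561) (node 594 (merge (leaf 5 497 562) (leaf 2 590 622))))))))))))))))) (node 562 (merge (node 527 (merge (leaf 0 527 563) (node 495 (merge (leaf 3 494 494) (node 463 (merge (leaf 4 431 431) (leaf 4 463 559))))))) (node 498 (merge (node 465 (merge (node 433 (merge (leaf 7 433 466) (leaf 4 433 497))) (merge (node 497 (merge (leaf 5 432 433) (leaf 5 464 561))) (merge (node 561 (merge (leaf 5 464 497) (node 593 (merge (leaf 5 465 466) (leaf 6 497 625))))) (node 466 (merge (leaf 7 433 433) (node 561 (merge (leaf 5 433 434) (leaf 5 465 593))))))))) (merge (node 497 (merge (node 465 (merge (leaf 5 432 433) (leaf 5 464 561))) (node 499 (merge (leaf 1 496 500) (node 594 (merge (leaf 6 466 467) (leaf 7 497 626))))))) (merge (node 499 (merge (node 500 (merge (leaf 1 496 497) (leaf 1 497 501))) (merge (node 594 (merge (leaf 6 466 467) (node 625 (merge (leaf 5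 497 593) (node 626 (merge (leaf 7 497 497) (leaf 5 529 657))))))) (node 500 (merge (leaf 1 497 501) (node 467 (merge (leaf 6 466 594) (node 466 (merge (leaf 6 434 435) (node 465 (merge (leaf 7 433 433) (leaf 0 464 464)))))))))))) (node 467 (merge (node 435 (merge (leaf 6 434 466) (node 499 (merge (leaf 5 402 403) (leaf 6 466 594))))) (merge (node 466 (merge (leaf 6 434 435) (node 561 (merge (leaf 5 433 434) (leaf 5 465 593))))) (node 594 (merge (leaf 6 466 499) (node 625 (merge (leaf 5 497 593) (node 626 (merge (leaf 5 529 657) (node 658 (merge (leaf 7 529 561) (node 659 (merge (leaf 4 530 627) (leaf 4 562 691)))))))))))))))))))))))))))))))))))))))))))))) nE_21 cE_21 13 (by decide +kernel)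
def nE_22 : ℕ := 0x100000001800000000000000000000000000000000000000000000000000000000000000000000000000000000000000000000000000000000000000000000000000000000000
def cE_22 : ℕ := 0x3c0000007c0000006f000000ef000000e3800000ff000000ff0000007c00000024000000000000000000000000000000000000000000000000000000000000000000000000000000000000000000000000000
theorem lE_22 : S nE_22 cE_22 12 := S_of_chk [] trivial (node 559 (merge (node 495 (merge (node 463 (merge (leaf 4 431 431) (node 558 (merge (leaf 5 462 590) (node 557 (merge (leaf 2 525 529) (leaf 2 524 556))))))) (merge (node 463 (merge (leaf 4 431 431) (node 462 (merge (leaf 7 430 430) (node 591 (merge (leaf 7 462 494) (node 623 (merge (leaf 6 495 496) (leaf 6 527 655))))))))) (node 494 (merge (node 493 (merge (leaf 0 492 492) (node 529 (merge (leaf 0 493 496) (leaf 3 494 530))))) (node 591 (merge (leaf 7 462 462) (node 623 (merge (leaf 6 527 655) (node 622 (merge (leaf 5 494 590) (leaf 5 526 654)))))))))))) (merge (node 558 (merge (node 529 (merge (leaf 1 526 530) (leaf 2 525 557))) (merge (node 557 (merge (leaf 2 524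 556) (node 589 (merge (leaf 1 556 588) (node 590 (merge (leaf 1 557 561) (node 525 (merge (leaf 3 524 524) (node 622 (merge (leaf 4 493 493) (leaf 7 525 654))))))))))) (node 561 (merge (node 530 (merge (leaf 2 526 529) (node 562 (merge (leaf 2 527 531) (leaf 3 527 563))))) (node 590 (merge (leaf 1 557 589) (node 622 (merge (leaf 6 526 654) (node 495 (merge (leaf 5 462 463) (leaf 5 494 591)))))))))))) (merge (node 591 (merge (node 623 (merge (leaf 6 495 496) (leaf 6 527 655))) (merge (node 623 (merge (leaf 6 527 655) (node 622 (merge (leaf 5 526 654) (node 495 (merge (leaf 5 494 590) (node 463 (merge (leaf 4 431 431) (node 462 (merge (leaf 7 430 430) (leaf 7 462 494))))))))))) (node 590 (merge (node 561 (merge (leaf 1 558 562) (node 589 (merge (leaf 1 557 558) (leaf 2 556 588))))) (merge (node 495 (merge (leaf 5 494 622) (node 463 (merge (leaf 4 431 431) (leaf 5 462 558))))) (node 464 (merge (leaf 5 463 496) (node 495 (merge (leaf 5 494 622) (node 463 (merge (leaf 4 431 431) (leaf 6 431 432))))))))))))) (merge (node 561 (merge (node 562 (merge (leaf 3 527 563) (node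 591 (merge (leaf 1 558 590) (node 623 (merge (leaf 6 495 496) (leaf 6 527 655))))))) (merge (node 562 (merge (leaf 3 527 563) (node 530 (merge (leaf 2 527 531) (node 558 (merge (leaf 1 526 529) (node 589 (merge (leaf 1 557 590) (node 557 (merge (leaf 2 524 556) (leaf 1 556 588))))))))))) (merge (node 558 (merge (node 589 (merge (leaf 1 557 590) (node 557 (merge (leaf 1 556 588) (node 556 (merge (leaf 2 524 527) (node 524 (merge (leaf 3 523 523) (leaf 3 524 525))))))))) (node 593 (merge (leaf 0 558 594) (node 625 (merge (leaf 7 528 657) (node 529 (merge (leaf 7 496 496) (leaf 2 526 530))))))))) (node 496 (merge (node 464 (merge (leaf 5 431 432) (leaf 4 464 593))) (merge (node 464 (merge (leaf 5 463 591) (node 432 (merge (leaf 5 431 527) (leaf 4 432 529))))) (node 562 (merge (leaf 3 527 563) (node 530 (merge (leaf 2 527 531) (node 529 (merge (leaf 1 526 558) (node 498 (merge (leaf 2 495 499) (node 593 (merge (leaf 5 465 466) (leaf 6 497 625)))))))))))))))))) (merge (node 591 (merge (node 623 (merge (leaf 6 495 496) (leaf 6 527 655))) (merge (node 623 (merge (leaf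 6 527 655) (node 624 (merge (leaf 4 527 656) (node 622 (merge (leaf 5 526 654) (node 590 (merge (leaf 5 494 495) (node 589 (merge (leaf 0 588 588) (leaf 3 589 625))))))))))) (node 495 (merge (node 463 (merge (leaf 4 431 431) (node 462 (merge (leaf 7 430 430) (leaf 7 462 494))))) (merge (node 463 (merge (leaf 4 431 431) (node 464 (merge (leaf 6 431 432) (leaf 6 463 496))))) (node 494 (merge (leaf 7 462 462) (node 493 (merge (leaf 0 492 492) (node 529 (merge (leaf 0 493 496) (leaf 3 494 530))))))))))))) (merge (node 495 (merge (node 463 (merge (leaf 4 431 431) (node 464 (merge (leaf 6 431 432) (node 496 (merge (leaf 5 463 591) (node 465 (merge (leaf 6 432 433) (node 494 (merge (leaf 1 462 466) (leaf 2 461 493))))))))))) (merge (node 463 (merge (leaf 4 431 431) (node 464 (merge (leaf 6 431 432) (node 462 (merge (leaf 7 430 430) (node 494 (merge (leaf 7 462 591) (node 493 (merge (leaf 1 461 465) (leaf 0 492 492))))))))))) (merge (node 463 (merge (leaf 4 431 431) (node 464 (merge (leaf 6 431 432) (node 496 (merge (leaf 5 463 591) (node 462 (merge (leaf 7 430 430) (node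 461 (merge (leaf 0 460 460) (leaf 0 461 497))))))))))) (merge (node 494 (merge (node 591 (merge (leaf 7 462 462) (node 623 (merge (leaf 6 495 496) (leaf 6 527 655))))) (merge (node 493 (merge (leaf 0 492 492) (node 529 (merge (leaf 0 493 496) (leaf 3 494 530))))) (node 493 (merge (leaf 0 492 492) (node 529 (merge (leaf 3 494 530) (node 557 (merge (leaf 2 525 558) (node 462 (merge (leaf 7 462 591) (node 430 (merge (leaf 4 398 398) (node 525 (merge (leaf 6 429 461) (leaf 6 461 589)))))))))))))))) (node 494 (merge (node 493 (merge (leaf 0 492 492) (node 529 (merge (leaf 0 493 496) (leaf 3 494 530))))) (merge (node 463 (merge (leaf 4 431 431) (node 464 (merge (leaf 6 431 432) (node 465 (merge (leaf 1 462 466) (node 462 (merge (leaf 7 430 430) (leaf 1 461 493))))))))) (merge (node 493 (merge (leaf 0 492 492) (node 463 (merge (leaf 4 431 431) (node 464 (merge (leaf 6 431 432) (node 462 (merge (leaf 7 430 430) (leaf 1 461 465))))))))) (node 530 (merge (leaf 3 494 529) (node 463 (merge (leaf 4 431 431) (node 464 (merge (leaf 6 431 432) (node 465 (merge (leaf 1 462 466)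 (node 496 (merge (leaf 6 432 433) (node 561 (merge (leaf 4 464 593) (node 562 (merge (leaf 2 527 531) (leaf 3 527 563)))))))))))))))))))))))) (node 496 (merge (node 464 (merge (leaf 5 431 432) (node 561 (merge (leaf 4 464 593) (node 562 (merge (leaf 3 527 563) (node 530 (merge (leaf 2 527 531) (node 558 (merge (leaf 1 526 529) (node 590 (merge (leaf 1 557 589) (node 463 (merge (leaf 7 431 431) (leaf 5 462 495))))))))))))))) (merge (node 495 (merge (node 464 (merge (leaf 5 431 432) (node 465 (merge (leaf 6 432 433) (node 466 (merge (leaf 1 463 467) (node 494 (merge (leaf 2 461 493) (leaf 2 462 497))))))))) (merge (node 463 (merge (leaf 4 431 431) (node 558 (merge (leaf 5 462 590) (node 557 (merge (leaf 2 525 529) (leaf 2 524 556))))))) (node 463 (merge (leaf 4 431 431) (node 558 (merge (leaf 5 462 590) (node 557 (merge (leaf 2 525 529) (leaf 2 524 556)))))))))) (merge (node 464 (merge (leaf 5 431 432) (node 561 (merge (leaf 4 464 593) (node 562 (merge (leaf 3 527 563) (node 530 (merge (leaf 2 527 531) (node 558 (merge (leaf 1 526 529) (node 589 (merge (leaf 1 557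 590) (node 557 (merge (leaf 2 524 556) (leaf 1 556 588))))))))))))))) (merge (node 529 (merge (node 530 (merge (leaf 1 527 531) (node 498 (merge (leaf 2 495 499) (node 495 (merge (leaf 3 494 494) (node 463 (merge (leaf 4 431 431) (node 462 (merge (leaf 7 430 430) (leaf 3 462 497))))))))))) (merge (node 464 (merge (leaf 5 431 432) (node 561 (merge (leaf 4 464 593) (node 562 (merge (leaf 3 527 563) (node 465 (merge (leaf 6 432 433) (node 497 (merge (leaf 4 465 594) (node 498 (merge (leaf 1 495 499) (node 463 (merge (leaf 7 431 431) (leaf 0 462 462))))))))))))))) (merge (node 530 (merge (leaf 1 527 531) (node 498 (merge (leaf 2 495 499) (node 495 (merge (leaf 3 494 494) (node 464 (merge (leaf 5 431 432) (node 561 (merge (leaf 4 464 593) (node 466 (merge (leaf 5 433 434) (node 465 (merge (leaf 6 432 433) (leaf 1 463 467))))))))))))))) (node 530 (merge (leaf 1 527 531) (node 495 (merge (leaf 3 494 494) (node 463 (merge (leaf 4 431 431) (node 464 (merge (leaf 5 431 432) (node 462 (merge (leaf 7 430 430) (node 461 (merge (leaf 0 460 460) (leaf 0 461 497)))))))))))))))))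 (merge (node 495 (merge (node 463 (merge (leaf 4 431 431) (node 558 (merge (leaf 5 462 590) (node 557 (merge (leaf 2 525 529) (leaf 2 524 556))))))) (merge (node 463 (merge (leaf 4 431 431) (node 462 (merge (leaf 7 430 430) (node 461 (merge (leaf 0 460 460) (node 497 (merge (leaf 3 461 494) (leaf 3 462 498))))))))) (node 497 (merge (node 498 (merge (leaf 1 495 499) (node 530 (merge (leaf 0 495 531) (node 529 (merge (leaf 0 494 494) (leaf 1 526 558))))))) (merge (node 498 (merge (leaf 1 495 499) (node 466 (merge (leaf 2 463 467) (node 494 (merge (leaf 2 462 465) (node 493 (merge (leaf 0 492 492) (leaf 0 493 529))))))))) (merge (node 529 (merge (node 530 (merge (leaf 0 494 494) (leaf 3 495 531))) (merge (node 494 (merge (leaf 0 493 493) (node 465 (merge (leaf 5 432 433) (leaf 2 462 466))))) (node 530 (merge (leaf 3 495 531) (node 562 (merge (leaf 0 527 563) (node 465 (merge (leaf 4 433 433) (node 594 (merge (leaf 4 465 561) (leaf 7 497 626)))))))))))) (merge (node 498 (merge (leaf 1 495 499) (node 530 (merge (leaf 0 495 531) (node 529 (merge (leaf 1 526 558) (node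 466 (merge (leaf 2 463 467) (node 561 (merge (leaf 5 433 434) (leaf 6 465 593))))))))))) (node 498 (merge (leaf 1 495 499) (node 530 (merge (leaf 0 495 531) (node 466 (merge (leaf 2 463 467) (node 465 (merge (leaf 2 462 494) (node 433 (merge (leaf 4 401 401) (leaf 7 433 562))))))))))))))))))) (node 495 (merge (node 463 (merge (leaf 4 431 431) (node 558 (merge (leaf 5 462 590) (node 557 (merge (leaf 2 524 556) (node 525 (merge (leaf 3 524 524) (node 462 (merge (leaf 7 430 430) (node 497 (merge (leaf 3 462 498) (node 494 (merge (leaf 3 461 461) (node 493 (merge (leaf 0 492 492) (leaf 6 461 589))))))))))))))))) (merge (node 463 (merge (leaf 4 431 431) (node 464 (merge (leaf 5 431 432) (node 462 (merge (leaf 7 430 430) (node 461 (merge (leaf 0 460 460) (leaf 0 461 497))))))))) (merge (node 463 (merge (leaf 4 431 431) (node 464 (merge (leaf 5 431 432) (node 465 (merge (leaf 6 432 433) (node 494 (merge (leaf 1 462 466) (leaf 2 461 493))))))))) (node 464 (merge (leaf 5 431 432) (node 561 (merge (leaf 4 464 593) (node 562 (merge (leaf 3 527 563) (node 530 (merge (leaf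 2 527 531) (node 465 (merge (leaf 6 432 433) (node 494 (merge (leaf 2 461 493) (node 497 (merge (leaf 2 462 466) (node 498 (merge (leaf 1 495 499) (leaf 7 465 594)))))))))))))))))))))))))))))))))) nE_22 cE_22 12 (by decide +kernel)
def nE_23 : ℕ := 0x100000001800000000000000000000000000000000000000000000000000000000000000000000000000000000000000000000000000000000000000000000000000000000000
def cE_23 : ℕ := 0xa0000000e0000000e0000000f000001cf800000e7000001ff8000003f0000003f8000001e0000000e0000000800000000000000000000000000000000000000000000000000000000000000000000000000000000000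
theorem lE_23 : S nE_23 cE_23 12 := S_of_chk [] trivial (node 526 (merge (node 525 (merge (node 524 (merge (leaf 0 524 559) (node 496 (merge (leaf 2 492 495) (leaf 2 493 497))))) (node 557 (merge (leaf 1 524 556) (node 529 (merge (leaf 1 525 558) (node 493 (merge (leaf 3 492 492) (leaf 3 493 494))))))))) (merge (node 529 (merge (node 557 (merge (leaf 1 525 558) (node 525 (merge (leaf 1 524 556) (node 493 (merge (leaf 3 492 492) (leaf 3 493 494))))))) (merge (node 498 (merge (leaf 2 494 497) (node 530 (merge (leaf 2 495 499) (node 494 (merge (leaf 3 493 493) (leaf 3 494 495))))))) (node 497 (merge (leaf 2 494 498) (node 525 (merge (leaf 2 493 496) (node 557 (merge (leaf 1 524 556) (leaf 1 525 558)))))))))) (merge (node 493 (merge (node 494 (merge (leaf 3 493 529) (node 492 (merge (leaf 0 491 491) (leaf 0 492 495))))) (merge (node 525 (merge (leaf 3 492 492) (node 524 (merge (leaf 0 524 559) (node 556 (merge (leaf 1 523 555) (leaf 1 524 557))))))) (node 529 (merge (leaf 3 493 494) (node 558 (merge (leaf 1 525 557) (node 530 (merge (leaf 1 526 559) (node 563 (merge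 (leaf 0 527 562) (node 531 (merge (leaf 0 528 564) (node 499 (merge (leaf 2 495 498) (leaf 2 496 500)))))))))))))))) (merge (node 557 (merge (node 556 (merge (leaf 1 524 525) (node 558 (merge (leaf 2 523 555) (leaf 2 524 559))))) (merge (node 525 (merge (leaf 1 524 556) (node 497 (merge (leaf 2 493 496) (node 529 (merge (leaf 2 494 498) (node 493 (merge (leaf 3 492 492) (leaf 3 493 494))))))))) (node 529 (merge (leaf 1 525 558) (node 498 (merge (leaf 2 494 497) (node 530 (merge (leaf 2 495 499) (node 563 (merge (leaf 0 527 562) (node 531 (merge (leaf 1 527 559) (leaf 0 528 564)))))))))))))) (merge (node 525 (merge (node 524 (merge (leaf 0 524 559) (node 496 (merge (leaf 2 492 495) (leaf 2 493 497))))) (merge (node 556 (merge (leaf 1 524 557) (node 524 (merge (leaf 1 523 555) (node 492 (merge (leaf 3 491 491) (leaf 3 492 493))))))) (node 557 (merge (leaf 1 524 556) (node 529 (merge (leaf 1 525 558) (node 498 (merge (leaf 2 494 497) (node 530 (merge (leaf 2 495 499) (node 563 (merge (leaf 0 527 562) (node 531 (merge (leaf 1 527 559) (leaf 0 528 564))))))))))))))))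 (merge (node 493 (merge (node 494 (merge (leaf 3 493 529) (node 492 (merge (leaf 0 491 491) (leaf 0 492 495))))) (merge (node 525 (merge (leaf 3 492 492) (node 524 (merge (leaf 0 524 559) (node 496 (merge (leaf 2 492 495) (leaf 2 493 497))))))) (node 529 (merge (leaf 3 493 494) (node 497 (merge (leaf 2 494 498) (node 525 (merge (leaf 2 493 496) (node 559 (merge (leaf 0 524 524) (node 530 (merge (leaf 1 527 531) (leaf 1 526 558)))))))))))))) (merge (node 493 (merge (node 494 (merge (leaf 3 493 529) (node 492 (merge (leaf 0 491 491) (leaf 0 492 495))))) (merge (node 525 (merge (leaf 3 492 492) (node 524 (merge (leaf 0 524 559) (node 556 (merge (leaf 1 523 555) (leaf 1 524 557))))))) (node 529 (merge (leaf 3 493 494) (node 497 (merge (leaf 2 494 498) (node 525 (merge (leaf 2 493 496) (node 524 (merge (leaf 0 524 559) (node 556 (merge (leaf 1 523 555) (leaf 1 524 557)))))))))))))) (merge (node 557 (merge (node 558 (merge (leaf 1 525 529) (node 556 (merge (leaf 2 523 555) (leaf 2 524 559))))) (merge (node 525 (merge (leaf 1 524 556) (node 497 (merge (leaf 2 493 496)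 (node 529 (merge (leaf 2 494 498) (leaf 1 525 558))))))) (merge (node 525 (merge (leaf 1 524 556) (node 524 (merge (leaf 0 524 559) (node 496 (merge (leaf 2 492 495) (leaf 2 493 497))))))) (node 529 (merge (leaf 1 525 558) (node 498 (merge (leaf 2 494 497) (node 530 (merge (leaf 2 495 499) (node 531 (merge (leaf 1 527 559) (node 495 (merge (leaf 3 494 494) (leaf 3 495 496))))))))))))))) (merge (node 494 (merge (node 529 (merge (leaf 3 493 493) (node 498 (merge (leaf 2 494 497) (node 530 (merge (leaf 3 494 495) (leaf 2 495 499))))))) (merge (node 529 (merge (leaf 3 493 493) (node 558 (merge (leaf 1 525 557) (node 559 (merge (leaf 1 526 530) (node 591 (merge (leaf 4 462 462) (leaf 7 494 623))))))))) (merge (node 558 (merge (node 557 (merge (leaf 1 525 529) (node 556 (merge (leaf 2 523 555) (leaf 2 524 559))))) (merge (node 529 (merge (leaf 1 525 557) (node 498 (merge (leaf 2 494 497) (node 530 (merge (leaf 3 494 495) (leaf 2 495 499))))))) (merge (node 591 (merge (node 559 (merge (leaf 4 462 462) (leaf 7 494 623))) (merge (node 590 (merge (leaf 4 494 623) (node 622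 (merge (leaf 6 494 495) (node 621 (merge (leaf 5 493 589) (leaf 5 525 653))))))) (node 462 (merge (leaf 4 462 559) (node 589 (merge (leaf 5 461 557) (node 590 (merge (leaf 5 493 621) (node 463 (merge (leaf 6 430 431) (leaf 6 462 495)))))))))))) (node 591 (merge (node 559 (merge (leaf 4 462 462) (leaf 7 494 623))) (merge (node 590 (merge (leaf 4 494 623) (node 622 (merge (leaf 6 494 495) (node 621 (merge (leaf 5 493 589) (leaf 5 525 653))))))) (node 462 (merge (leaf 4 462 559) (node 463 (merge (leaf 6 430 431) (node 495 (merge (leaf 6 462 590) (node 461 (merge (leaf 7 429 429) (node 496 (merge (leaf 0 460 460) (leaf 3 461 497)))))))))))))))))) (node 462 (merge (node 430 (merge (leaf 4 430 559) (node 431 (merge (leaf 6 398 399) (node 558 (merge (leaf 6 430 463) (node 429 (merge (leaf 7 397 397) (leaf 7 429 461))))))))) (merge (node 558 (merge (node 463 (merge (leaf 6 430 431) (node 590 (merge (leaf 6 462 495) (node 589 (merge (leaf 5 461 557) (leaf 5 493 621))))))) (merge (node 557 (merge (leaf 5 461 589) (node 556 (merge (leaf 2 523 555) (leaf 2 524 559))))) (node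 461 (merge (leaf 7 429 429) (node 590 (merge (leaf 7 461 493) (node 622 (merge (leaf 6 494 495) (node 653 (merge (leaf 5 525 621) (node 654 (merge (leaf 6 526 559) (leaf 5 557 685)))))))))))))) (merge (node 430 (merge (leaf 4 430 559) (node 495 (merge (leaf 4 398 398) (node 429 (merge (leaf 7 397 397) (node 558 (merge (leaf 7 429 461) (node 590 (merge (leaf 6 462 463) (leaf 6 494 622))))))))))) (merge (node 430 (merge (leaf 4 430 559) (node 495 (merge (leaf 4 398 398) (node 493 (merge (leaf 0 492 492) (node 431 (merge (leaf 6 398 399) (node 558 (merge (leaf 5 430 463) (node 590 (merge (leaf 7 461 461) (leaf 6 494 622))))))))))))) (merge (node 430 (merge (leaf 4 430 559) (node 398 (merge (leaf 4 398 495) (node 399 (merge (leaf 6 366 367) (leaf 6 398 431))))))) (merge (node 558 (merge (node 589 (merge (leaf 5 461 557) (node 590 (merge (leaf 5 493 621) (node 461 (merge (leaf 7 429 429) (leaf 7 461 493))))))) (merge (node 463 (merge (leaf 6 430 431) (node 590 (merge (leaf 6 462 495) (node 589 (merge (leaf 5 461 557) (leaf 5 493 621))))))) (node 431 (merge (leaf 6 430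 463) (node 430 (merge (leaf 6 398 399) (node 429 (merge (leaf 7 397 397) (leaf 7 429 461)))))))))) (merge (node 559 (merge (leaf 4 430 430) (node 591 (merge (leaf 7 462 495) (leaf 4 462 558))))) (node 430 (merge (leaf 4 430 559) (node 495 (merge (leaf 4 398 398) (node 431 (merge (leaf 6 398 399) (node 463 (merge (leaf 4 431 560) (node 429 (merge (leaf 7 397 397) (node 428 (merge (leaf 0 427 427) (leaf 0 428 464))))))))))))))))))))))))) (node 493 (merge (node 492 (merge (leaf 3 492 525) (node 494 (merge (leaf 0 491 491) (leaf 0 492 495))))) (merge (node 525 (merge (leaf 3 492 492) (node 524 (merge (leaf 0 524 559) (node 556 (merge (leaf 1 523 555) (leaf 1 524 557))))))) (merge (node 496 (merge (node 497 (merge (leaf 2 493 525) (node 498 (merge (leaf 1 494 495) (leaf 1 495 499))))) (merge (node 464 (merge (node 559 (merge (leaf 5 431 432) (leaf 5 463 591))) (merge (node 465 (merge (leaf 6 432 433) (node 494 (merge (leaf 2 461 495) (node 463 (merge (leaf 7 431 431) (leaf 1 461 462))))))) (node 559 (merge (leaf 5 431 432) (leaf 5 463 591)))))) (node 525 (merge (leaf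 2 493 497) (node 559 (merge (leaf 0 524 524) (node 591 (merge (leaf 5 463 464) (leaf 6 495 623)))))))))) (node 494 (merge (node 492 (merge (leaf 0 491 491) (leaf 0 492 495))) (merge (node 558 (merge (node 590 (merge (leaf 7 461 461) (node 621 (merge (leaf 5 493 589) (node 622 (merge (leaf 6 494 495) (leaf 5 525 653))))))) (merge (node 559 (merge (node 591 (merge (leaf 4 462 462) (leaf 7 494 623))) (merge (node 557 (merge (leaf 2 524 556) (node 589 (merge (leaf 5 461 462) (leaf 1 556 588))))) (node 557 (merge (leaf 2 524 556) (node 589 (merge (leaf 1 556 588) (node 621 (merge (leaf 5 493 590) (leaf 6 525 653)))))))))) (merge (node 590 (merge (leaf 7 461 461) (node 622 (merge (leaf 6 494 495) (node 655 (merge (leaf 4 526 623) (node 654 (merge (leaf 6 526 559) (leaf 4 558 687))))))))) (node 462 (merge (node 557 (merge (leaf 5 461 589) (node 556 (merge (leaf 2 523 555) (leaf 2 524 559))))) (merge (node 557 (merge (leaf 5 461 589) (node 556 (merge (leaf 2 523 555) (leaf 2 524 559))))) (node 463 (merge (leaf 6 430 431) (node 464 (merge (leaf 1 461 465) (node 461 (merge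 (leaf 7 429 429) (node 496 (merge (leaf 0 461 497) (node 495 (merge (leaf 0 460 460) (node 432 (merge (leaf 5 399 400) (leaf 2 429 433)))))))))))))))))))) (node 462 (merge (node 430 (merge (leaf 4 430 559) (node 397 (merge (leaf 7 397 429) (node 398 (merge (leaf 7 365 365) (node 366 (merge (leaf 5 365 461) (node 367 (merge (leaf 6 334 335) (leaf 6 366 399))))))))))) (merge (node 430 (merge (leaf 4 430 559) (node 431 (merge (leaf 6 398 399) (node 558 (merge (leaf 6 430 463) (node 589 (merge (leaf 5 461 557) (node 590 (merge (leaf 7 461 461) (leaf 5 493 621))))))))))) (merge (node 558 (merge (node 461 (merge (leaf 7 429 429) (leaf 7 461 590))) (node 557 (merge (leaf 5 461 589) (node 556 (merge (leaf 2 523 555) (leaf 2 524 559))))))) (merge (node 463 (merge (node 492 (merge (leaf 0 491 491) (node 464 (merge (leaf 1 460 461) (leaf 1 461 465))))) (merge (node 558 (merge (leaf 6 430 431) (node 589 (merge (leaf 5 461 557) (node 590 (merge (leaf 7 461 461) (leaf 5 493 621))))))) (node 464 (merge (leaf 1 461 465) (node 431 (merge (leaf 6 430 558) (node 430 (merge (leaf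 6 398 399) (node 429 (merge (leaf 7 397 397) (leaf 0 428 428)))))))))))) (node 430 (merge (leaf 4 430 559) (node 431 (merge (leaf 6 398 399) (node 463 (merge (leaf 6 430 558) (node 464 (merge (leaf 1 461 465) (node 429 (merge (leaf 7 397 397) (leaf 0 428 428))))))))))))))))))))))))))))))))) nE_23 cE_23 12 (by decide +kernel)
def nE_24 : ℕ := 0x100000001000000000000000000000000000000000000000000000000000000000000000000000000000000000000000000000000000000000000000000000000000000000000
def cE_24 : ℕ := 0xa0000007e0000007e0000006f800003ef800003ef800001ff800000ff000000ff8000003e0000000e0000000800000000000000000000000000000000000000000000000000000000000000000000000000000000000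
theorem lE_24 : S nE_24 cE_24 13 := S_of_chk [(nE_22, cE_22, 12), (nE_23, cE_23, 12)] ⟨lE_22, lE_23, trivial⟩ (node 527 (merge (node 526 (merge (node 561 (merge (leaf 0 525 525) (node 562 (merge (leaf 0 526 529) (leaf 3 527 563))))) (merge (node 525 (merge (leaf 0 525 561) (node 496 (merge (leaf 2 493 497) (node 524 (merge (leaf 2 492 495) (node 492 (merge (leaf 3 491 491) (leaf 3 492 493))))))))) (merge (node 529 (merge (node 557 (merge (leaf 1 525 558) (node 525 (merge (leaf 1 524 556) (node 493 (merge (leaf 3 492 492) (leaf 3 493 494))))))) (merge (node 498 (merge (leaf 2 494 497) (node 530 (merge (leaf 2 495 499) (node 494 (merge (leaf 3 493 493) (leaf 3 494 495))))))) (node 497 (merge (leaf 2 494 498) (node 525 (merge (leaf 2 493 496) (node 557 (merge (leaf 1 524 556) (leaf 1 525 558)))))))))) (node 529 (merge (node 562 (merge (leaf 0 526 561) (node 530 (merge (leaf 0 527 563) (node 498 (merge (leaf 2 494 497) (leaf 2 495 499))))))) (merge (node 562 (merge (leaf 0 526 561) (node 530 (merge (leaf 0 527 563) (node 494 (merge (leaf 3 493 493) (leaf 3 494 495)))))))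 (merge (node 498 (merge (leaf 2 494 497) (node 530 (merge (leaf 2 495 499) (node 494 (merge (leaf 3 493 493) (leaf 3 494 495))))))) (node 561 (merge (leaf 0 526 562) (node 497 (merge (leaf 2 494 498) (node 465 (merge (leaf 5 432 433) (node 464 (merge (leaf 7 432 432) (node 593 (merge (leaf 4 464 496) (node 625 (merge (leaf 7 528 657) (node 626 (merge (leaf 4 497 594) (leaf 4 529 658))))))))))))))))))))))) (merge (node 526 (merge (node 561 (merge (leaf 0 525 525) (node 562 (merge (leaf 0 526 529) (leaf 3 527 563))))) (merge (node 525 (merge (leaf 0 525 561) (node 524 (merge (leaf 0 524 559) (node 496 (merge (leaf 2 492 495) (leaf 2 493 497))))))) (merge (node 557 (merge (node 558 (merge (leaf 1 525 529) (node 556 (merge (leaf 2 523 555) (leaf 2 524 559))))) (merge (node 525 (merge (leaf 1 524 556) (node 497 (merge (leaf 2 493 496) (node 529 (merge (leaf 2 494 498) (leaf 1 525 558))))))) (merge (node 525 (merge (leaf 1 524 556) (node 524 (merge (leaf 0 524 559) (node 496 (merge (leaf 2 492 495) (leaf 2 493 497))))))) (node 529 (merge (leaf 1 525 558) (node 498 (merge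 (leaf 2 494 497) (node 530 (merge (leaf 2 495 499) (node 531 (merge (leaf 1 527 559) (node 495 (merge (leaf 3 494 494) (leaf 3 495 496))))))))))))))) (node 529 (merge (node 498 (merge (leaf 2 494 497) (node 530 (merge (leaf 2 495 499) (node 558 (merge (leaf 1 525 557) (leaf 1 526 559))))))) (merge (node 562 (merge (leaf 0 526 561) (node 530 (merge (leaf 0 527 563) (node 558 (merge (leaf 1 525 557) (leaf 1 526 559))))))) (node 561 (merge (leaf 0 526 562) (node 497 (merge (leaf 2 494 498) (node 465 (merge (leaf 5 432 433) (node 464 (merge (leaf 7 432 432) (node 593 (merge (leaf 4 464 496) (node 625 (merge (leaf 7 528 657) (node 626 (merge (leaf 4 497 594) (leaf 4 529 658)))))))))))))))))))))) (merge (node 526 (merge (node 561 (merge (leaf 0 525 525) (node 562 (merge (leaf 3 526 559) (leaf 3 527 563))))) (merge (node 525 (merge (leaf 0 525 561) (node 557 (merge (leaf 1 524 556) (node 529 (merge (leaf 1 525 558) (node 493 (merge (leaf 3 492 492) (leaf 3 493 494))))))))) (merge (node 557 (merge (node 556 (merge (leaf 1 524 525) (node 558 (merge (leaf 2 523 555) (leaf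 2 524 559))))) (merge (node 525 (merge (leaf 1 524 556) (node 497 (merge (leaf 2 493 496) (node 529 (merge (leaf 2 494 498) (node 493 (merge (leaf 3 492 492) (leaf 3 493 494))))))))) (node 529 (merge (leaf 1 525 558) (node 498 (merge (leaf 2 494 497) (node 530 (merge (leaf 2 495 499) (node 563 (merge (leaf 0 527 562) (node 531 (merge (leaf 1 527 559) (leaf 0 528 564)))))))))))))) (node 529 (merge (node 498 (merge (leaf 2 494 497) (node 530 (merge (leaf 2 495 499) (node 558 (merge (leaf 1 525 557) (leaf 1 526 559))))))) (merge (node 562 (merge (leaf 0 526 561) (node 530 (merge (leaf 0 527 563) (node 558 (merge (leaf 1 525 557) (leaf 1 526 559))))))) (node 561 (merge (leaf 0 526 562) (node 497 (merge (leaf 2 494 498) (node 465 (merge (leaf 5 432 433) (node 464 (merge (leaf 7 432 432) (node 593 (merge (leaf 4 464 496) (node 625 (merge (leaf 7 528 657) (node 626 (merge (leaf 4 497 594) (leaf 4 529 658)))))))))))))))))))))) (merge (node 526 (merge (node 561 (merge (leaf 0 525 525) (node 562 (merge (leaf 0 526 529) (leaf 3 527 563))))) (merge (node 525 (merge (leaf 0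 525 561) (node 524 (merge (leaf 0 524 559) (node 496 (merge (leaf 2 492 495) (leaf 2 493 497))))))) (merge (node 525 (merge (node 524 (merge (leaf 0 524 559) (node 496 (merge (leaf 2 492 495) (leaf 2 493 497))))) (merge (node 556 (merge (leaf 1 524 557) (node 524 (merge (leaf 1 523 555) (node 492 (merge (leaf 3 491 491) (leaf 3 492 493))))))) (node 557 (merge (leaf 1 524 556) (node 529 (merge (leaf 1 525 558) (node 498 (merge (leaf 2 494 497) (node 530 (merge (leaf 2 495 499) (node 563 (merge (leaf 0 527 562) (node 531 (merge (leaf 1 527 559) (leaf 0 528 564)))))))))))))))) (node 529 (merge (node 498 (merge (leaf 2 494 497) (node 530 (merge (leaf 2 495 499) (node 558 (merge (leaf 1 525 557) (leaf 1 526 559))))))) (merge (node 562 (merge (leaf 0 526 561) (node 530 (merge (leaf 0 527 563) (node 558 (merge (leaf 1 525 557) (leaf 1 526 559))))))) (node 561 (merge (leaf 0 526 562) (node 497 (merge (leaf 2 494 498) (node 465 (merge (leaf 5 432 433) (node 464 (merge (leaf 7 432 432) (node 593 (merge (leaf 4 464 496) (node 625 (merge (leaf 7 528 657) (node 626 (merge (leaf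 4 497 594) (leaf 4 529 658)))))))))))))))))))))) (merge (node 529 (merge (node 530 (merge (node 559 (merge (leaf 1 527 531) (leaf 1 526 558))) (merge (node 499 (merge (leaf 2 495 498) (node 531 (merge (leaf 2 496 500) (node 495 (merge (leaf 3 494 494) (leaf 3 495 496))))))) (node 558 (merge (leaf 1 526 559) (node 526 (merge (leaf 1 525 557) (node 494 (merge (leaf 3 493 493) (leaf 3 494 495)))))))))) (merge (node 530 (merge (node 559 (merge (leaf 1 527 531) (leaf 1 526 558))) (node 562 (merge (leaf 0 527 563) (node 498 (merge (leaf 2 495 499) (node 497 (merge (leaf 2 494 526) (node 465 (merge (leaf 4 433 433) (leaf 7 465 594))))))))))) (merge (node 562 (merge (node 561 (merge (leaf 0 526 526) (leaf 3 527 563))) (merge (node 563 (merge (leaf 0 527 530) (leaf 3 527 561))) (merge (node 530 (merge (leaf 0 527 563) (node 498 (merge (leaf 2 495 499) (node 497 (merge (leaf 2 494 526) (node 594 (merge (leaf 7 465 465) (leaf 7 497 626))))))))) (node 526 (merge (leaf 0 526 561) (node 498 (merge (leaf 2 494 497) (node 530 (merge (leaf 2 495 499) (node 494 (merge (leaf 3 493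 493) (leaf 3 494 495))))))))))))) (merge (node 530 (merge (node 559 (merge (leaf 1 527 531) (leaf 1 526 558))) (merge (node 563 (merge (leaf 0 527 562) (node 531 (merge (leaf 0 528 564) (node 495 (merge (leaf 3 494 494) (leaf 3 495 496))))))) (node 558 (merge (leaf 1 526 559) (node 526 (merge (leaf 1 525 557) (node 494 (merge (leaf 3 493 493) (leaf 3 494 495)))))))))) (merge (node 530 (merge (node 559 (merge (leaf 1 527 531) (leaf 1 526 558))) (merge (node 563 (merge (leaf 0 527 562) (node 531 (merge (leaf 0 528 564) (node 499 (merge (leaf 2 495 498) (leaf 2 496 500))))))) (node 559 (merge (leaf 1 526 558) (node 498 (merge (leaf 2 495 499) (node 495 (merge (leaf 3 494 494) (node 463 (merge (leaf 4 431 431) (node 462 (merge (leaf 7 430 430) (node 497 (merge (leaf 3 462 496) (node 465 (merge (leaf 5 432 433) (leaf 0 462 464)))))))))))))))))) (node 561 (merge (node 562 (merge (leaf 0 526 526) (leaf 3 527 563))) (merge (node 496 (merge (node 593 (merge (leaf 4 464 464) (leaf 7 496 625))) (merge (node 464 (merge (leaf 4 432 432) (node 559 (merge (leaf 5 463 591) (node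 558 (merge (leaf 2 525 557) (node 590 (merge (leaf 1 557 589) (node 465 (merge (leaf 6 432 433) (node 463 (merge (leaf 7 431 431) (node 495 (merge (leaf 5 462 527) (node 494 (merge (leaf 1 462 466) (leaf 0 493 493))))))))))))))))) (node 593 (merge (leaf 7 496 625) (node 497 (merge (node 498 (merge (leaf 6 465 466) (leaf 1 495 499))) (merge (node 526 (merge (leaf 2 494 498) (node 558 (merge (leaf 1 525 557) (node 594 (merge (leaf 0 558 559) (leaf 4 497 626))))))) (node 594 (merge (leaf 4 497 626) (node 558 (merge (leaf 0 558 559) (node 526 (merge (leaf 1 525 557) (node 494 (merge (leaf 3 493 493) (node 465 (merge (leaf 5 432 433) (node 466 (merge (leaf 6 433 434) (leaf 2 462 495))))))))))))))))))))) (node 496 (merge (node 593 (merge (leaf 4 464 464) (leaf 7 496 625))) (merge (node 464 (merge (leaf 4 432 432) (node 559 (merge (leaf 5 463 591) (node 558 (merge (leaf 2 525 557) (node 590 (merge (leaf 1 557 589) (node 465 (merge (leaf 6 432 433) (node 463 (merge (leaf 7 431 431) (node 495 (merge (leaf 5 462 527) (node 494 (merge (leaf 1 462 466) (leaf 0 493 493)))))))))))))))))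 (node 559 (merge (node 558 (merge (leaf 2 525 557) (node 593 (merge (leaf 0 558 594) (leaf 7 496 625))))) (merge (node 558 (merge (leaf 2 525 557) (node 590 (merge (leaf 1 557 589) (node 562 (merge (leaf 1 558 591) (node 563 (merge (leaf 3 527 527) (leaf 3 528 564))))))))) (node 591 (merge (node 623 (merge (leaf 6 495 527) (leaf 6 527 655))) (merge (node 562 (merge (leaf 1 558 590) (node 563 (merge (leaf 3 527 527) (leaf 3 528 564))))) (node 590 (merge (leaf 1 558 562) (node 589 (merge (leaf 2 556 588) (node 623 (merge (leaf 6 527 655) (node 625 (merge (leaf 7 496 593) (node 624 (merge (leaf 3 589 622) (leaf 3 590 626))))))))))))))))))))))))))))) (merge (node 561 (merge (node 562 (merge (leaf 3 527 563) (node 526 (merge (leaf 0 526 529) (leaf 3 526 559))))) (merge (node 526 (merge (leaf 0 525 525) (node 562 (merge (leaf 3 526 559) (leaf 3 527 563))))) (merge (node 526 (merge (leaf 0 525 525) (node 562 (merge (leaf 0 526 529) (leaf 3 527 563))))) (merge (node 559 (merge (node 562 (merge (leaf 3 527 563) (node 591 (merge (leaf 1 558 590) (node 623 (merge (leaf 6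 495 496) (leaf 6 527 655))))))) (merge (node 562 (merge (leaf 3 527 563) (node 530 (merge (leaf 2 527 531) (node 558 (merge (leaf 1 526 529) (node 589 (merge (leaf 1 557 590) (node 557 (merge (leaf 2 524 556) (leaf 1 556 588))))))))))) (merge (node 558 (merge (node 589 (merge (leaf 1 557 590) (node 557 (merge (leaf 1 556 588) (node 556 (merge (leaf 2 524 527) (node 524 (merge (leaf 3 523 523) (leaf 3 524 525))))))))) (node 593 (merge (leaf 0 558 594) (node 625 (merge (leaf 7 528 657) (node 529 (merge (leaf 7 496 496) (leaf 2 526 530))))))))) (node 496 (merge (node 464 (merge (leaf 5 431 432) (leaf 4 464 593))) (merge (node 464 (merge (leaf 5 463 591) (node 432 (merge (leaf 5 431 527) (leaf 4 432 529))))) (node 562 (merge (leaf 3 527 563) (node 530 (merge (leaf 2 527 531) (node 529 (merge (leaf 1 526 558) (node 498 (merge (leaf 2 495 499) (node 593 (merge (leaf 5 465 466) (leaf 6 497 625)))))))))))))))))) (node 559 (merge (node 558 (merge (node 525 (merge (leaf 0 525 526) (node 557 (merge (leaf 3 524 524) (leaf 2 524 556))))) (node 593 (merge (leaf 0 558 594) (node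 625 (merge (leaf 7 528 657) (node 529 (merge (leaf 7 496 496) (leaf 2 526 530))))))))) (merge (node 558 (merge (node 525 (merge (leaf 0 525 526) (node 557 (merge (leaf 3 524 524) (leaf 2 524 556))))) (merge (node 526 (merge (leaf 0 525 525) (node 590 (merge (leaf 1 557 589) (node 622 (merge (leaf 6 494 495) (leaf 6 526 654))))))) (node 590 (merge (leaf 1 557 589) (node 495 (merge (leaf 5 462 463) (node 622 (merge (leaf 5 494 591) (leaf 6 526 654)))))))))) (node 591 (merge (node 623 (merge (leaf 6 495 496) (leaf 6 527 655))) (merge (node 623 (merge (leaf 6 527 655) (node 624 (merge (leaf 4 527 656) (node 622 (merge (leaf 5 526 654) (node 590 (merge (leaf 5 494 495) (node 589 (merge (leaf 0 588 588) (leaf 3 589 625))))))))))) (node 495 (merge (node 463 (merge (leaf 4 431 431) (node 462 (merge (leaf 7 430 430) (leaf 7 462 494))))) (merge (node 463 (merge (leaf 4 431 431) (node 464 (merge (leaf 6 431 432) (leaf 6 463 496))))) (node 494 (merge (leaf 7 462 462) (node 493 (merge (leaf 0 492 492) (node 529 (merge (leaf 0 493 496) (leaf 3 494 530))))))))))))))))))))) (merge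 (node 526 (merge (node 561 (merge (leaf 0 525 525) (node 562 (merge (leaf 0 526 529) (leaf 3 527 563))))) (merge (node 525 (merge (leaf 0 525 561) (node 524 (merge (leaf 0 524 559) (node 496 (merge (leaf 2 492 495) (leaf 2 493 497))))))) (merge (node 525 (merge (node 524 (merge (leaf 0 524 559) (node 496 (merge (leaf 2 492 495) (leaf 2 493 497))))) (node 557 (merge (leaf 1 524 556) (node 529 (merge (leaf 1 525 558) (node 493 (merge (leaf 3 492 492) (leaf 3 493 494))))))))) (node 558 (merge (node 557 (merge (leaf 1 525 529) (node 556 (merge (leaf 2 523 555) (leaf 2 524 559))))) (merge (node 529 (merge (leaf 1 525 557) (node 494 (merge (leaf 3 493 493) (node 495 (merge (leaf 3 494 530) (node 590 (merge (leaf 6 462 463) (leaf 6 494 622))))))))) (merge (node 590 (merge (node 622 (merge (leaf 6 494 495) (node 655 (merge (leaf 4 526 623) (node 654 (merge (leaf 6 526 559) (leaf 4 558 687))))))) (merge (node 622 (merge (leaf 6 494 495) (node 655 (merge (leaf 4 526 623) (node 654 (merge (leaf 4 558 687) (node 653 (merge (leaf 5 525 621) (leaf 5 557 685))))))))) (merge (node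 494 (merge (node 493 (merge (leaf 7 461 461) (leaf 3 493 529))) (merge (node 589 (merge (leaf 5 493 621) (node 561 (merge (leaf 1 557 559) (node 562 (merge (leaf 0 526 529) (leaf 3 527 563))))))) (node 623 (merge (leaf 4 494 591) (node 622 (merge (leaf 4 526 655) (node 589 (merge (leaf 5 493 621) (node 559 (merge (leaf 1 557 561) (leaf 6 526 654)))))))))))) (node 494 (merge (node 493 (merge (leaf 7 461 461) (leaf 3 493 529))) (merge (node 493 (merge (leaf 7 461 461) (node 492 (merge (leaf 0 491 491) (leaf 0 492 495))))) (node 589 (merge (leaf 5 493 621) (node 559 (merge (leaf 1 557 561) (node 591 (merge (leaf 4 462 462) (leaf 2 556 588)))))))))))))) (node 590 (merge (node 495 (merge (leaf 6 494 622) (node 463 (merge (leaf 4 431 431) (leaf 5 462 559))))) (merge (node 622 (merge (leaf 6 494 495) (node 655 (merge (leaf 4 526 623) (node 654 (merge (leaf 4 558 687) (node 653 (merge (leaf 5 525 621) (leaf 5 557 685))))))))) (merge (node 622 (merge (node 655 (merge (leaf 4 526 623) (node 654 (merge (leaf 6 526 559) (leaf 4 558 687))))) (merge (node 654 (merge (leaf 6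 526 559) (node 653 (merge (leaf 5 525 621) (leaf 5 557 685))))) (node 623 (merge (leaf 4 526 655) (node 494 (merge (leaf 4 494 591) (node 621 (merge (leaf 5 493 589) (leaf 5 525 653)))))))))) (node 591 (merge (node 494 (merge (leaf 4 494 623) (node 493 (merge (leaf 7 461 461) (node 492 (merge (leaf 0 491 491) (leaf 0 492 495))))))) (merge (node 559 (merge (node 623 (merge (leaf 6 495 496) (leaf 6 527 655))) (merge (node 561 (merge (leaf 1 558 562) (leaf 1 557 589))) (node 561 (merge (leaf 1 558 562) (leaf 1 557 589)))))) (merge (node 494 (merge (leaf 4 494 623) (node 462 (merge (leaf 4 462 559) (node 589 (merge (leaf 5 461 557) (leaf 5 493 621))))))) (node 494 (merge (node 493 (merge (leaf 7 461 461) (node 492 (merge (leaf 0 491 491) (leaf 0 492 495))))) (merge (node 462 (merge (leaf 4 462 559) (node 431 (merge (leaf 6 430 463) (node 430 (merge (leaf 6 398 399) (node 429 (merge (leaf 7 397 397) (leaf 7 429 461))))))))) (node 559 (merge (leaf 4 462 462) (node 561 (merge (leaf 1 558 562) (leaf 1 557 589)))))))))))))))))))))))) (merge (node 559 (merge (node 591 (merge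 (node 623 (merge (leaf 6 495 496) (leaf 6 527 655))) (node 561 (merge (node 562 (merge (leaf 3 527 563) (leaf 1 558 590))) (merge (node 526 (merge (leaf 0 525 525) (leaf 3 526 562))) (node 558 (merge (node 525 (merge (leaf 0 525 526) (node 557 (merge (leaf 3 524 524) (leaf 2 524 556))))) (merge (node 526 (merge (leaf 0 525 525) (node 590 (merge (leaf 1 557 589) (node 622 (merge (leaf 6 494 495) (leaf 6 526 654))))))) (node 590 (merge (leaf 1 557 589) (node 495 (merge (leaf 5 462 463) (node 622 (merge (leaf 5 494 591) (leaf 6 526 654))))))))))))))) (merge (node 591 (merge (node 623 (merge (leaf 6 495 496) (leaf 6 527 655))) (merge (node 623 (merge (leaf 6 527 655) (node 526 (merge (leaf 7 494 494) (node 561 (merge (leaf 0 525 525) (leaf 3 526 562))))))) (node 495 (merge (node 463 (merge (leaf 4 431 431) (node 462 (merge (leaf 7 430 430) (leaf 7 462 494))))) (merge (node 463 (merge (leaf 4 431 431) (node 464 (merge (leaf 6 431 432) (leaf 6 463 496))))) (node 496 (merge (leaf 5 463 464) (node 494 (merge (leaf 7 462 462) (node 493 (merge (leaf 0 492 492) (node 525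 (merge (leaf 1 492 524) (node 526 (merge (leaf 1 493 497) (leaf 0 525 561))))))))))))))))) (merge (node 591 (merge (node 623 (merge (leaf 6 495 496) (leaf 6 527 655))) (merge (node 623 (merge (leaf 6 527 655) (node 622 (merge (leaf 5 526 654) (node 495 (merge (leaf 5 494 590) (node 463 (merge (leaf 4 431 431) (node 462 (merge (leaf 7 430 430) (leaf 7 462 494))))))))))) (node 590 (merge (node 561 (merge (leaf 1 558 562) (node 589 (merge (leaf 1 557 558) (leaf 2 556 588))))) (merge (node 495 (merge (leaf 5 494 622) (node 463 (merge (leaf 4 431 431) (leaf 5 462 558))))) (node 464 (merge (leaf 5 463 496) (node 495 (merge (leaf 5 494 622) (node 463 (merge (leaf 4 431 431) (leaf 6 431 432))))))))))))) (merge (node 561 (merge (node 562 (merge (leaf 3 526 526) (leaf 3 527 563))) (merge (node 562 (merge (leaf 3 527 563) (node 591 (merge (leaf 1 558 590) (node 623 (merge (leaf 6 495 496) (leaf 6 527 655))))))) (node 558 (merge (node 557 (merge (leaf 2 524 556) (node 589 (merge (leaf 1 556 588) (leaf 1 557 590))))) (merge (node 525 (merge (leaf 0 525 526) (node 557 (merge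 (leaf 3 524 524) (leaf 2 524 556))))) (node 526 (merge (leaf 0 525 525) (node 590 (merge (leaf 1 557 589) (node 622 (merge (leaf 6 526 654) (node 623 (merge (leaf 4 526 655) (node 591 (merge (leaf 4 494 494) (leaf 6 495 496))))))))))))))))) (merge (node 558 (merge (node 557 (merge (leaf 2 524 556) (node 589 (merge (leaf 1 556 588) (node 561 (merge (leaf 1 557 590) (node 562 (merge (leaf 3 526 526) (leaf 3 527 563))))))))) (merge (node 557 (merge (leaf 2 524 556) (node 525 (merge (leaf 3 524 524) (node 526 (merge (leaf 0 525 561) (node 493 (merge (leaf 3 492 492) (node 590 (merge (leaf 4 461 461) (leaf 7 493 622))))))))))) (merge (node 557 (merge (leaf 2 524 556) (node 589 (merge (leaf 1 556 588) (node 590 (merge (leaf 1 557 561) (node 525 (merge (leaf 3 524 524) (node 622 (merge (leaf 4 493 493) (leaf 7 525 654))))))))))) (merge (node 557 (merge (leaf 2 524 556) (node 589 (merge (leaf 1 556 588) (node 525 (merge (leaf 3 524 524) (node 526 (merge (leaf 0 525 561) (node 621 (merge (leaf 6 493 494) (leaf 6 525 653))))))))))) (merge (node 590 (merge (node 622 (merge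 (leaf 6 526 654) (node 526 (merge (leaf 6 494 495) (node 525 (merge (leaf 7 493 493) (leaf 0 524 524))))))) (merge (node 557 (merge (leaf 2 524 556) (node 525 (merge (leaf 3 524 524) (node 622 (merge (leaf 7 525 654) (node 493 (merge (leaf 4 461 461) (leaf 4 493 589))))))))) (merge (node 557 (merge (leaf 2 524 556) (node 589 (merge (leaf 1 556 588) (node 525 (merge (leaf 3 524 524) (node 493 (merge (leaf 4 461 461) (node 492 (merge (leaf 7 460 460) (leaf 3 492 526))))))))))) (node 622 (merge (leaf 6 526 654) (node 526 (merge (leaf 6 494 495) (node 621 (merge (leaf 5 525 653) (node 589 (merge (leaf 5 493 494) (node 588 (merge (leaf 1 556 557) (leaf 2 555 587))))))))))))))) (node 496 (merge (node 464 (merge (leaf 5 431 432) (node 561 (merge (leaf 4 464 593) (node 562 (merge (leaf 3 526 526) (leaf 3 527 563))))))) (merge (node 464 (merge (leaf 5 431 432) (node 463 (merge (leaf 7 431 431) (node 495 (merge (leaf 5 462 590) (node 462 (merge (leaf 7 430 430) (node 497 (merge (leaf 0 461 461) (leaf 3 462 498))))))))))) (node 526 (merge (node 525 (merge (leaf 2 493 497)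 (leaf 0 524 524))) (node 561 (merge (leaf 3 526 562) (node 590 (merge (leaf 1 557 589) (node 622 (merge (leaf 6 494 495) (leaf 6 526 654)))))))))))))))))) (merge (node 591 (merge (node 623 (merge (leaf 6 527 655) (node 526 (merge (leaf 7 494 494) (node 561 (merge (leaf 0 525 525) (leaf 3 526 562))))))) (merge (node 623 (merge (leaf 6 527 655) (node 624 (merge (leaf 4 527 656) (node 622 (merge (leaf 5 526 654) (node 590 (merge (leaf 5 494 495) (node 589 (merge (leaf 0 588 588) (leaf 3 589 625))))))))))) (node 561 (merge (node 562 (merge (leaf 3 527 563) (leaf 1 558 590))) (merge (node 526 (merge (leaf 0 525 525) (leaf 3 526 562))) (node 558 (merge (node 525 (merge (leaf 0 525 526) (node 557 (merge (leaf 3 524 524) (leaf 2 524 556))))) (merge (node 526 (merge (leaf 0 525 525) (node 590 (merge (leaf 1 557 589) (node 622 (merge (leaf 6 494 495) (leaf 6 526 654))))))) (node 590 (merge (leaf 1 557 589) (node 495 (merge (leaf 5 462 463) (node 622 (merge (leaf 5 494 591) (leaf 6 526 654)))))))))))))))) (node 496 (merge (node 591 (merge (leaf 5 463 464) (leaf 6 495 623)))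 (merge (node 497 (merge (node 526 (merge (leaf 2 493 525) (node 498 (merge (leaf 1 494 495) (leaf 1 495 499))))) (merge (node 464 (merge (node 432 (merge (leaf 5 431 527) (node 431 (merge (leaf 7 399 399) (leaf 7 431 463))))) (merge (node 433 (merge (leaf 6 432 465) (node 432 (merge (leaf 6 400 401) (leaf 5 431 527))))) (node 463 (merge (leaf 7 431 431) (node 462 (merge (leaf 0 461 461) (node 498 (merge (leaf 0 462 465) (leaf 3 463 499)))))))))) (node 526 (merge (leaf 2 493 525) (node 464 (merge (leaf 5 431 432) (node 463 (merge (leaf 7 431 431) (node 462 (merge (leaf 0 461 461) (node 430 (merge (leaf 4 430 494) (leaf 7 430 495)))))))))))))) (node 495 (merge (node 463 (merge (leaf 4 431 431) (node 462 (merge (leaf 7 430 430) (node 591 (merge (leaf 7 462 494) (node 623 (merge (leaf 6 495 496) (leaf 6 527 655))))))))) (merge (node 591 (merge (leaf 6 495 623) (node 590 (merge (leaf 5 494 622) (node 494 (merge (leaf 7 462 462) (node 493 (merge (leaf 0 492 492) (node 525 (merge (leaf 1 492 524) (node 526 (merge (leaf 1 493 497) (node 461 (merge (leaf 3 460 460) (leaf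 7 461 558))))))))))))))) (merge (node 463 (merge (leaf 4 431 431) (node 558 (merge (leaf 5 462 590) (node 557 (merge (leaf 2 524 556) (node 525 (merge (leaf 3 524 524) (node 526 (merge (leaf 2 493 497) (node 493 (merge (leaf 3 492 492) (node 461 (merge (leaf 4 429 429) (node 460 (merge (leaf 7 428 428) (leaf 3 460 494))))))))))))))))) (node 591 (merge (leaf 6 495 623) (node 590 (merge (leaf 5 494 622) (node 463 (merge (leaf 5 462 558) (node 431 (merge (leaf 4 399 399) (node 430 (merge (leaf 7 398 398) (leaf 7 430 462))))))))))))))))))))))))) (merge (hyp 0) (merge (node 529 (merge (node 562 (merge (node 561 (merge (leaf 0 526 526) (leaf 3 527 563))) (merge (node 563 (merge (leaf 0 527 530) (leaf 3 527 561))) (merge (node 530 (merge (leaf 0 527 563) (node 498 (merge (leaf 2 495 499) (node 497 (merge (leaf 2 494 526) (node 594 (merge (leaf 7 465 465) (leaf 7 497 626))))))))) (node 526 (merge (leaf 0 526 561) (node 498 (merge (leaf 2 494 497) (node 530 (merge (leaf 2 495 499) (node 494 (merge (leaf 3 493 493) (leaf 3 494 495))))))))))))) (merge (node 530 (merge (node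 559 (merge (leaf 1 527 531) (leaf 1 526 558))) (merge (node 563 (merge (leaf 0 527 562) (node 531 (merge (leaf 1 527 559) (leaf 0 528 564))))) (node 562 (merge (leaf 0 527 563) (node 526 (merge (leaf 0 526 561) (node 557 (merge (leaf 1 525 558) (node 525 (merge (leaf 1 524 556) (node 493 (merge (leaf 3 492 492) (leaf 3 493 494)))))))))))))) (merge (node 530 (merge (node 559 (merge (leaf 1 527 531) (leaf 1 526 558))) (merge (node 499 (merge (leaf 2 495 498) (node 531 (merge (leaf 2 496 500) (node 564 (merge (leaf 0 528 563) (node 532 (merge (leaf 1 528 561) (leaf 0 529 565))))))))) (node 498 (merge (leaf 2 495 499) (node 526 (merge (leaf 2 494 497) (node 558 (merge (leaf 1 525 557) (leaf 1 526 559)))))))))) (merge (node 526 (merge (node 561 (merge (leaf 0 525 525) (leaf 0 526 562))) (merge (node 557 (merge (leaf 1 525 558) (node 525 (merge (leaf 1 524 556) (node 493 (merge (leaf 3 492 492) (leaf 3 493 494))))))) (node 561 (merge (leaf 0 526 562) (node 558 (merge (leaf 1 525 557) (node 497 (merge (leaf 2 494 498) (node 494 (merge (leaf 3 493 493) (node 465 (merge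 (leaf 5 432 433) (node 466 (merge (leaf 6 433 434) (node 464 (merge (leaf 7 432 432) (node 463 (merge (leaf 1 462 495) (node 431 (merge (leaf 3 430 430) (leaf 6 430 462)))))))))))))))))))))) (node 530 (merge (node 559 (merge (leaf 1 527 531) (leaf 1 526 558))) (merge (node 563 (merge (leaf 0 527 562) (node 531 (merge (leaf 0 528 564) (node 499 (merge (leaf 2 495 498) (leaf 2 496 500))))))) (node 562 (merge (leaf 0 527 563) (node 559 (merge (leaf 1 526 558) (node 498 (merge (leaf 2 495 499) (node 495 (merge (leaf 3 494 494) (node 463 (merge (leaf 4 431 431) (node 464 (merge (leaf 6 431 432) (node 462 (merge (leaf 7 430 430) (node 465 (merge (leaf 0 462 497) (node 433 (merge (leaf 2 430 434) (leaf 7 433 466))))))))))))))))))))))))))) (merge (node 496 (merge (node 464 (merge (node 559 (merge (leaf 5 431 432) (leaf 5 463 591))) (node 561 (merge (leaf 4 464 593) (node 526 (merge (leaf 0 525 525) (node 562 (merge (leaf 0 526 529) (leaf 3 527 563))))))))) (merge (node 464 (merge (node 433 (merge (leaf 6 432 465) (node 432 (merge (leaf 6 400 401) (node 431 (merge (leaf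 7 399 399) (leaf 7 431 463))))))) (node 561 (merge (leaf 4 464 593) (node 562 (merge (leaf 3 527 563) (node 559 (merge (leaf 3 526 526) (leaf 5 463 591))))))))) (merge (node 497 (merge (node 526 (merge (leaf 2 493 525) (node 498 (merge (leaf 1 495 499) (leaf 2 494 529))))) (node 464 (merge (node 559 (merge (leaf 5 431 432) (leaf 5 463 591))) (node 465 (merge (leaf 6 432 433) (node 463 (merge (leaf 7 431 431) (node 462 (merge (leaf 0 461 461) (node 494 (merge (leaf 1 461 493) (node 495 (merge (leaf 1 462 466) (node 430 (merge (leaf 3 429 429) (node 398 (merge (leaf 4 366 366) (leaf 4 398 527))))))))))))))))))) (merge (node 464 (merge (node 561 (merge (leaf 4 464 593) (node 432 (merge (leaf 4 432 529) (node 433 (merge (leaf 6 400 401) (leaf 6 432 465))))))) (merge (node 561 (merge (leaf 4 464 593) (node 432 (merge (leaf 4 432 529) (node 431 (merge (leaf 7 399 399) (leaf 7 431 463))))))) (merge (node 433 (merge (leaf 6 432 465) (node 432 (merge (leaf 6 400 401) (node 431 (merge (leaf 7 399 399) (leaf 7 431 463))))))) (node 561 (merge (leaf 4 464 593) (node 562 (merge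 (leaf 3 527 563) (node 529 (merge (leaf 0 526 526) (node 465 (merge (leaf 6 432 433) (node 497 (merge (leaf 4 465 594) (node 463 (merge (leaf 7 431 431) (node 462 (merge (leaf 0 461 461) (leaf 0 462 498))))))))))))))))))) (merge (node 526 (merge (node 525 (merge (leaf 2 493 497) (leaf 0 525 561))) (merge (node 525 (merge (leaf 2 493 497) (node 524 (merge (leaf 2 492 495) (leaf 0 524 559))))) (merge (node 525 (merge (leaf 0 525 561) (node 524 (merge (leaf 2 492 495) (leaf 0 524 559))))) (node 529 (merge (node 498 (merge (leaf 2 494 497) (node 530 (merge (leaf 2 495 499) (node 494 (merge (leaf 3 493 493) (leaf 3 494 495))))))) (merge (node 562 (merge (leaf 0 526 561) (node 530 (merge (leaf 0 527 563) (node 531 (merge (leaf 3 495 495) (leaf 1 527 559))))))) (merge (node 494 (merge (leaf 3 493 493) (node 530 (merge (leaf 3 494 495) (node 563 (merge (leaf 0 527 562) (node 531 (merge (leaf 1 527 559) (leaf 0 528 564))))))))) (merge (node 562 (merge (leaf 0 526 561) (node 530 (merge (leaf 0 527 563) (node 531 (merge (leaf 1 527 559) (node 497 (merge (leaf 2 494 498) (leaf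 3 496 532))))))))) (node 497 (merge (leaf 2 494 498) (node 494 (merge (leaf 3 493 493) (node 465 (merge (leaf 5 432 433) (node 495 (merge (leaf 2 462 466) (node 462 (merge (leaf 3 461 461) (node 559 (merge (leaf 4 430 430) (leaf 7 462 591)))))))))))))))))))))) (node 495 (merge (node 464 (merge (node 559 (merge (leaf 5 431 432) (leaf 5 463 591))) (node 465 (merge (leaf 6 432 433) (node 494 (merge (leaf 2 461 493) (node 466 (merge (leaf 1 463 467) (leaf 2 462 497))))))))) (merge (node 464 (merge (node 465 (merge (leaf 6 432 433) (node 494 (merge (leaf 2 461 493) (node 463 (merge (leaf 7 431 431) (leaf 1 462 466))))))) (merge (node 561 (merge (leaf 4 464 593) (node 432 (merge (leaf 4 432 529) (node 433 (merge (leaf 6 400 401) (leaf 6 432 465))))))) (node 561 (merge (leaf 4 464 593) (node 432 (merge (leaf 4 432 529) (node 431 (merge (leaf 7 399 399) (leaf 7 431 463)))))))))) (merge (node 559 (merge (node 591 (merge (leaf 6 463 464) (leaf 6 495 623))) (merge (node 463 (merge (leaf 4 431 431) (node 462 (merge (leaf 7 430 430) (node 591 (merge (leaf 7 462 494) (node 623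 (merge (leaf 6 495 496) (leaf 6 527 655))))))))) (node 463 (merge (leaf 4 431 431) (node 464 (merge (leaf 5 431 432) (node 462 (merge (leaf 7 430 430) (node 497 (merge (leaf 0 461 461) (leaf 3 462 498)))))))))))) (merge (node 464 (merge (node 561 (merge (leaf 4 464 593) (node 432 (merge (leaf 4 432 529) (node 433 (merge (leaf 6 400 401) (leaf 6 432 465))))))) (merge (node 561 (merge (leaf 4 464 593) (node 432 (merge (leaf 4 432 529) (node 431 (merge (leaf 7 399 399) (leaf 7 431 463))))))) (merge (node 433 (merge (leaf 6 432 465) (node 432 (merge (leaf 6 400 401) (node 431 (merge (leaf 7 399 399) (leaf 7 431 463))))))) (node 561 (merge (leaf 4 464 593) (node 465 (merge (leaf 6 432 433) (node 466 (merge (leaf 1 463 467) (node 463 (merge (leaf 7 431 431) (node 498 (merge (leaf 0 463 499) (node 497 (merge (leaf 0 462 462) (node 434 (merge (leaf 2 431 435) (leaf 6 433 529))))))))))))))))))) (node 529 (merge (node 494 (merge (leaf 0 493 493) (leaf 3 494 530))) (merge (node 530 (merge (leaf 3 495 531) (node 562 (merge (leaf 0 527 563) (node 498 (merge (leaf 2 495 499)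 (node 463 (merge (leaf 4 431 431) (node 497 (merge (leaf 3 462 462) (node 465 (merge (leaf 4 433 433) (leaf 7 465 594))))))))))))) (node 494 (merge (leaf 0 493 493) (node 497 (merge (node 465 (merge (leaf 2 462 466) (node 433 (merge (leaf 5 400 401) (leaf 5 432 529))))) (merge (node 466 (merge (leaf 2 462 465) (node 498 (merge (leaf 2 463 467) (node 462 (merge (leaf 3 461 461) (leaf 3 462 463))))))) (node 462 (merge (leaf 3 461 461) (node 498 (merge (leaf 3 462 463) (node 499 (merge (leaf 1 495 527) (node 532 (merge (leaf 0 496 531) (node 500 (merge (leaf 1 496 529) (leaf 0 497 533)))))))))))))))))))))))))))))) (merge (node 526 (merge (node 525 (merge (leaf 0 525 561) (node 524 (merge (leaf 0 524 559) (node 496 (merge (leaf 2 492 495) (leaf 2 493 497))))))) (merge (node 525 (merge (leaf 0 525 561) (node 557 (merge (leaf 1 524 556) (node 529 (merge (leaf 1 525 558) (node 493 (merge (leaf 3 492 492) (leaf 3 493 494))))))))) (node 494 (merge (node 529 (merge (leaf 3 493 493) (node 498 (merge (leaf 2 494 497) (node 530 (merge (leaf 3 494 495) (leaf 2 495 499)))))))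 (merge (node 529 (merge (leaf 3 493 493) (node 558 (merge (leaf 1 525 557) (node 559 (merge (leaf 1 526 530) (node 591 (merge (leaf 4 462 462) (leaf 7 494 623))))))))) (merge (node 558 (merge (node 557 (merge (leaf 1 525 529) (node 556 (merge (leaf 2 523 555) (leaf 2 524 559))))) (merge (node 529 (merge (leaf 1 525 557) (node 498 (merge (leaf 2 494 497) (node 530 (merge (leaf 3 494 495) (leaf 2 495 499))))))) (merge (node 591 (merge (node 559 (merge (leaf 4 462 462) (leaf 7 494 623))) (merge (node 590 (merge (leaf 4 494 623) (node 622 (merge (leaf 6 494 495) (node 621 (merge (leaf 5 493 589) (leaf 5 525 653))))))) (node 462 (merge (leaf 4 462 559) (node 589 (merge (leaf 5 461 557) (node 590 (merge (leaf 5 493 621) (node 463 (merge (leaf 6 430 431) (leaf 6 462 495)))))))))))) (node 591 (merge (node 559 (merge (leaf 4 462 462) (leaf 7 494 623))) (merge (node 590 (merge (leaf 4 494 623) (node 622 (merge (leaf 6 494 495) (node 621 (merge (leaf 5 493 589) (leaf 5 525 653))))))) (node 462 (merge (leaf 4 462 559) (node 463 (merge (leaf 6 430 431) (node 495 (merge (leaf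 6 462 590) (node 461 (merge (leaf 7 429 429) (node 496 (merge (leaf 0 460 460) (leaf 3 461 497)))))))))))))))))) (node 462 (merge (node 430 (merge (leaf 4 430 559) (node 431 (merge (leaf 6 398 399) (node 558 (merge (leaf 6 430 463) (node 429 (merge (leaf 7 397 397) (leaf 7 429 461))))))))) (merge (node 558 (merge (node 463 (merge (leaf 6 430 431) (node 590 (merge (leaf 6 462 495) (node 589 (merge (leaf 5 461 557) (leaf 5 493 621))))))) (merge (node 557 (merge (leaf 5 461 589) (node 556 (merge (leaf 2 523 555) (leaf 2 524 559))))) (node 461 (merge (leaf 7 429 429) (node 590 (merge (leaf 7 461 493) (node 622 (merge (leaf 6 494 495) (node 653 (merge (leaf 5 525 621) (node 654 (merge (leaf 6 526 559) (leaf 5 557 685)))))))))))))) (merge (node 430 (merge (leaf 4 430 559) (node 495 (merge (leaf 4 398 398) (node 429 (merge (leaf 7 397 397) (node 558 (merge (leaf 7 429 461) (node 590 (merge (leaf 6 462 463) (leaf 6 494 622))))))))))) (merge (node 430 (merge (leaf 4 430 559) (node 495 (merge (leaf 4 398 398) (node 493 (merge (leaf 0 492 492) (node 431 (merge (leaf 6 398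 399) (node 558 (merge (leaf 5 430 463) (node 590 (merge (leaf 7 461 461) (leaf 6 494 622))))))))))))) (merge (node 430 (merge (leaf 4 430 559) (node 398 (merge (leaf 4 398 495) (node 399 (merge (leaf 6 366 367) (leaf 6 398 431))))))) (merge (node 558 (merge (node 589 (merge (leaf 5 461 557) (node 590 (merge (leaf 5 493 621) (node 461 (merge (leaf 7 429 429) (leaf 7 461 493))))))) (merge (node 463 (merge (leaf 6 430 431) (node 590 (merge (leaf 6 462 495) (node 589 (merge (leaf 5 461 557) (leaf 5 493 621))))))) (node 431 (merge (leaf 6 430 463) (node 430 (merge (leaf 6 398 399) (node 429 (merge (leaf 7 397 397) (leaf 7 429 461)))))))))) (merge (node 559 (merge (leaf 4 430 430) (node 591 (merge (leaf 7 462 495) (leaf 4 462 558))))) (node 430 (merge (leaf 4 430 559) (node 495 (merge (leaf 4 398 398) (node 431 (merge (leaf 6 398 399) (node 463 (merge (leaf 4 431 560) (node 429 (merge (leaf 7 397 397) (node 428 (merge (leaf 0 427 427) (leaf 0 428 464)))))))))))))))))))))))))))) (merge (node 526 (merge (node 561 (merge (leaf 0 525 525) (node 562 (merge (leaf 0 526 529)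 (leaf 3 527 563))))) (merge (node 525 (merge (leaf 0 525 561) (node 524 (merge (leaf 0 524 559) (node 496 (merge (leaf 2 492 495) (leaf 2 493 497))))))) (merge (node 525 (merge (node 524 (merge (leaf 0 524 559) (node 496 (merge (leaf 2 492 495) (leaf 2 493 497))))) (node 557 (merge (leaf 1 524 556) (node 529 (merge (leaf 1 525 558) (node 493 (merge (leaf 3 492 492) (leaf 3 493 494))))))))) (node 494 (merge (node 529 (merge (leaf 3 493 493) (node 562 (merge (leaf 0 526 561) (node 530 (merge (leaf 3 494 495) (leaf 0 527 563))))))) (merge (node 529 (merge (leaf 3 493 493) (node 562 (merge (leaf 0 526 561) (node 530 (merge (leaf 0 527 563) (node 558 (merge (leaf 1 525 557) (leaf 1 526 559))))))))) (merge (node 558 (merge (node 557 (merge (leaf 1 525 529) (node 556 (merge (leaf 2 523 555) (leaf 2 524 559))))) (merge (node 529 (merge (leaf 1 525 557) (node 498 (merge (leaf 2 494 497) (node 530 (merge (leaf 3 494 495) (leaf 2 495 499))))))) (merge (node 591 (merge (node 559 (merge (leaf 4 462 462) (leaf 7 494 623))) (merge (node 590 (merge (leaf 4 494 623) (node 622 (merge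 (leaf 6 494 495) (node 621 (merge (leaf 5 493 589) (leaf 5 525 653))))))) (node 462 (merge (leaf 4 462 559) (node 589 (merge (leaf 5 461 557) (node 590 (merge (leaf 5 493 621) (node 463 (merge (leaf 6 430 431) (leaf 6 462 495)))))))))))) (node 591 (merge (node 559 (merge (leaf 4 462 462) (leaf 7 494 623))) (merge (node 590 (merge (leaf 4 494 623) (node 622 (merge (leaf 6 494 495) (node 621 (merge (leaf 5 493 589) (leaf 5 525 653))))))) (node 462 (merge (leaf 4 462 559) (node 463 (merge (leaf 6 430 431) (node 495 (merge (leaf 6 462 590) (node 461 (merge (leaf 7 429 429) (node 496 (merge (leaf 0 460 460) (leaf 3 461 497)))))))))))))))))) (node 462 (merge (node 430 (merge (leaf 4 430 559) (node 431 (merge (leaf 6 398 399) (node 558 (merge (leaf 6 430 463) (node 429 (merge (leaf 7 397 397) (leaf 7 429 461))))))))) (merge (node 430 (merge (leaf 4 430 559) (node 495 (merge (leaf 4 398 398) (node 431 (merge (leaf 6 398 399) (leaf 4 431 463))))))) (merge (node 430 (merge (leaf 4 430 559) (node 495 (merge (leaf 4 398 398) (node 429 (merge (leaf 7 397 397) (node 558 (merge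 (leaf 7 429 461) (node 590 (merge (leaf 6 462 463) (leaf 6 494 622))))))))))) (merge (node 430 (merge (leaf 4 430 559) (node 495 (merge (leaf 4 398 398) (node 493 (merge (leaf 0 492 492) (node 431 (merge (leaf 6 398 399) (node 558 (merge (leaf 5 430 463) (node 590 (merge (leaf 7 461 461) (leaf 6 494 622))))))))))))) (merge (node 430 (merge (leaf 4 430 559) (node 398 (merge (leaf 4 398 495) (node 399 (merge (leaf 6 366 367) (leaf 6 398 431))))))) (merge (node 558 (merge (node 589 (merge (leaf 5 461 557) (node 590 (merge (leaf 5 493 621) (node 461 (merge (leaf 7 429 429) (leaf 7 461 493))))))) (merge (node 463 (merge (leaf 6 430 431) (node 590 (merge (leaf 6 462 495) (node 589 (merge (leaf 5 461 557) (leaf 5 493 621))))))) (node 431 (merge (leaf 6 430 463) (node 430 (merge (leaf 6 398 399) (node 429 (merge (leaf 7 397 397) (leaf 7 429 461)))))))))) (node 558 (merge (node 463 (merge (leaf 6 430 431) (node 590 (merge (leaf 6 462 495) (node 589 (merge (leaf 5 461 557) (leaf 5 493 621))))))) (merge (node 557 (merge (leaf 5 461 589) (node 556 (merge (leaf 2 523 555) (leaf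 2 524 559))))) (node 461 (merge (leaf 7 429 429) (node 590 (merge (leaf 7 461 493) (node 622 (merge (leaf 6 494 495) (node 653 (merge (leaf 5 525 621) (node 654 (merge (leaf 6 526 559) (leaf 5 557 685))))))))))))))))))))))))))))) (merge (node 526 (merge (node 561 (merge (leaf 0 525 525) (node 562 (merge (leaf 0 526 529) (leaf 3 527 563))))) (merge (node 525 (merge (leaf 0 525 561) (node 524 (merge (leaf 0 524 559) (node 496 (merge (leaf 2 492 495) (leaf 2 493 497))))))) (merge (node 525 (merge (node 524 (merge (leaf 0 524 559) (node 496 (merge (leaf 2 492 495) (leaf 2 493 497))))) (node 557 (merge (leaf 1 524 556) (node 529 (merge (leaf 1 525 558) (node 493 (merge (leaf 3 492 492) (leaf 3 493 494))))))))) (node 494 (merge (node 529 (merge (leaf 3 493 493) (node 562 (merge (leaf 0 526 561) (node 530 (merge (leaf 3 494 495) (leaf 0 527 563))))))) (merge (node 529 (merge (leaf 3 493 493) (node 562 (merge (leaf 0 526 561) (node 530 (merge (leaf 0 527 563) (node 558 (merge (leaf 1 525 557) (leaf 1 526 559))))))))) (merge (node 462 (merge (node 430 (merge (leaf 4 430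 559) (node 495 (merge (leaf 4 398 398) (node 431 (merge (leaf 6 398 399) (leaf 4 431 463))))))) (merge (node 430 (merge (leaf 4 430 559) (node 429 (merge (leaf 7 397 397) (node 558 (merge (leaf 7 429 461) (node 557 (merge (leaf 1 525 529) (leaf 5 461 589))))))))) (merge (node 430 (merge (leaf 4 430 559) (node 431 (merge (leaf 6 398 399) (node 558 (merge (leaf 6 430 463) (node 557 (merge (leaf 1 525 529) (leaf 5 461 589))))))))) (merge (node 495 (merge (node 430 (merge (leaf 4 398 398) (node 431 (merge (leaf 6 398 399) (leaf 4 431 463))))) (merge (node 529 (merge (leaf 3 494 530) (node 561 (merge (leaf 0 526 562) (node 558 (merge (leaf 1 525 557) (node 461 (merge (leaf 7 429 429) (node 496 (merge (leaf 3 461 497) (node 593 (merge (leaf 4 464 464) (leaf 7 496 625))))))))))))) (node 529 (merge (leaf 3 494 530) (node 561 (merge (leaf 0 526 562) (node 558 (merge (leaf 1 525 557) (node 461 (merge (leaf 7 429 429) (node 496 (merge (leaf 3 461 497) (node 593 (merge (leaf 4 464 464) (leaf 7 496 625)))))))))))))))) (node 529 (merge (node 562 (merge (leaf 0 526 561) (node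 530 (merge (leaf 3 494 495) (leaf 0 527 563))))) (merge (node 562 (merge (leaf 0 526 561) (node 530 (merge (leaf 0 527 563) (node 558 (merge (leaf 1 525 557) (leaf 1 526 559))))))) (merge (node 561 (merge (leaf 0 526 562) (node 558 (merge (leaf 1 525 557) (node 463 (merge (leaf 6 430 431) (node 590 (merge (leaf 6 462 495) (node 589 (merge (leaf 1 557 559) (leaf 5 493 621))))))))))) (merge (node 530 (merge (leaf 3 494 495) (node 563 (merge (leaf 0 527 562) (node 531 (merge (leaf 1 527 559) (leaf 0 528 564))))))) (node 530 (merge (leaf 3 494 495) (node 531 (merge (leaf 1 527 559) (node 564 (merge (leaf 0 528 563) (node 532 (merge (leaf 1 528 561) (leaf 0 529 565))))))))))))))))))) (node 462 (merge (node 430 (merge (leaf 4 430 559) (node 431 (merge (leaf 6 398 399) (node 558 (merge (leaf 6 430 463) (node 429 (merge (leaf 7 397 397) (leaf 7 429 461))))))))) (merge (node 558 (merge (node 463 (merge (leaf 6 430 431) (node 590 (merge (leaf 6 462 495) (node 589 (merge (leaf 5 461 557) (leaf 5 493 621))))))) (merge (node 557 (merge (leaf 5 461 589) (node 556 (merge (leaf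 2 523 555) (leaf 2 524 559))))) (node 461 (merge (leaf 7 429 429) (node 590 (merge (leaf 7 461 493) (node 622 (merge (leaf 6 494 495) (node 653 (merge (leaf 5 525 621) (node 654 (merge (leaf 6 526 559) (leaf 5 557 685)))))))))))))) (merge (node 430 (merge (leaf 4 430 559) (node 495 (merge (leaf 4 398 398) (node 429 (merge (leaf 7 397 397) (node 558 (merge (leaf 7 429 461) (node 590 (merge (leaf 6 462 463) (leaf 6 494 622))))))))))) (merge (node 430 (merge (leaf 4 430 559) (node 495 (merge (leaf 4 398 398) (node 493 (merge (leaf 0 492 492) (node 431 (merge (leaf 6 398 399) (node 558 (merge (leaf 5 430 463) (node 590 (merge (leaf 7 461 461) (leaf 6 494 622))))))))))))) (merge (node 430 (merge (leaf 4 430 559) (node 398 (merge (leaf 4 398 495) (node 399 (merge (leaf 6 366 367) (leaf 6 398 431))))))) (merge (node 558 (merge (node 589 (merge (leaf 5 461 557) (node 590 (merge (leaf 5 493 621) (node 461 (merge (leaf 7 429 429) (leaf 7 461 493))))))) (merge (node 463 (merge (leaf 6 430 431) (node 590 (merge (leaf 6 462 495) (node 589 (merge (leaf 5 461 557) (leaf 5 493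 621))))))) (node 431 (merge (leaf 6 430 463) (node 430 (merge (leaf 6 398 399) (node 429 (merge (leaf 7 397 397) (leaf 7 429 461)))))))))) (merge (node 559 (merge (leaf 4 430 430) (node 591 (merge (leaf 7 462 495) (leaf 4 462 558))))) (node 430 (merge (leaf 4 430 559) (node 495 (merge (leaf 4 398 398) (node 431 (merge (leaf 6 398 399) (node 463 (merge (leaf 4 431 560) (node 429 (merge (leaf 7 397 397) (node 428 (merge (leaf 0 427 427) (leaf 0 428 464))))))))))))))))))))))))))))) (hyp 1)))))))))))))))) nE_24 cE_24 13 (by decide +kernel)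
def nE_25 : ℕ := 0x1000000000000000000000000000000000000000000000000000000000000000000000000000000000000000000000000000000000000000000000000000000000000
def cE_25 : ℕ := 0x28000000ba000000fe000000fe000001ff8000007fe00003ffc0000fefe00007ff800003ff800000ff800000fe0000003e0000002800000000000000000000000000000000000000000000000000000000000000000000000000000000000
theorem lE_25 : S nE_25 cE_25 14 := S_of_chk [(nE_0, cE_0, 12), (nE_1, cE_1, 12), (nE_2, cE_2, 13), (nE_3, cE_3, 12), (nE_4, cE_4, 11), (nE_5, cE_5, 13), (nE_6, cE_6, 12), (nE_7, cE_7, 13), (nE_8, cE_8, 13), (nE_9, cE_9, 12), (nE_10, cE_10, 12), (nE_11, cE_11, 13), (nE_12, cE_12, 13), (nE_14, cE_14, 12), (nE_13, cE_13, 11), (nE_15, cE_15, 13), (nE_17, cE_17, 12), (nE_16, cE_16, 11), (nE_21, cE_21, 13), (nE_24, cE_24, 13)] ⟨lE_0, lE_1, lE_2, lE_3, lE_4, lE_5, lE_6, lE_7, lE_8, lE_9, lE_10, lE_11, lE_12, lE_14, lE_13, lE_15, lE_17, lE_16, lE_21, lE_24, trivial⟩ (node 560 (merge (node 496 (merge (node 465 (merge (node 433 (merge (leaf 6 432 464) (node 497 (merge (leaf 5 400 401) (leaf 5 432 529))))) (merge (node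 497 (merge (leaf 6 464 592) (node 433 (merge (leaf 5 400 401) (leaf 5 432 529))))) (merge (node 592 (merge (leaf 6 464 497) (node 593 (merge (leaf 4 496 625) (node 464 (merge (leaf 4 464 561) (node 463 (merge (leaf 7 431 431) (leaf 7 463 495))))))))) (node 464 (merge (leaf 6 432 433) (node 593 (merge (leaf 4 464 561) (node 592 (merge (leaf 4 496 625) (node 463 (merge (leaf 7 431 431) (leaf 7 463 495))))))))))))) (merge (node 463 (merge (node 431 (merge (leaf 7 431 464) (node 495 (merge (leaf 4 399 399) (leaf 4 431 527))))) (merge (node 495 (merge (leaf 7 463 592) (node 431 (merge (leaf 4 399 399) (leaf 4 431 527))))) (merge (node 592 (merge (leaf 7 463 495) (node 465 (merge (leaf 6 464 497) (node 464 (merge (leaf 6 432 433) (node 591 (merge (leaf 5 463 559) (leaf 5 495 623))))))))) (node 464 (merge (leaf 7 431 431) (node 465 (merge (leaf 6 432 433) (node 592 (merge (leaf 6 464 497) (node 591 (merge (leaf 5 463 559) (leaf 5 495 623))))))))))))) (merge (node 464 (merge (node 593 (merge (leaf 4 464 561) (node 592 (merge (leaf 4 496 625) (node 463 (merge (leaf 7 431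 431) (leaf 7 463 495))))))) (merge (node 561 (merge (leaf 4 464 593) (node 432 (merge (leaf 4 432 529) (node 559 (merge (leaf 5 431 527) (leaf 5 463 591))))))) (node 591 (merge (leaf 5 463 559) (node 463 (merge (leaf 7 431 431) (node 592 (merge (leaf 7 463 495) (leaf 5 495 623)))))))))) (merge (node 464 (merge (node 593 (merge (leaf 4 464 561) (node 465 (merge (leaf 6 432 433) (node 592 (merge (leaf 6 464 497) (leaf 4 496 625))))))) (merge (node 561 (merge (leaf 4 464 593) (node 432 (merge (leaf 4 432 529) (node 559 (merge (leaf 5 431 527) (leaf 5 463 591))))))) (node 465 (merge (leaf 6 432 433) (node 592 (merge (leaf 6 464 497) (node 591 (merge (leaf 5 463 559) (leaf 5 495 623)))))))))) (merge (node 495 (merge (node 592 (merge (leaf 7 463 463) (node 623 (merge (leaf 5 495 591) (node 624 (merge (leaf 7 495 527) (leaf 5 527 655))))))) (merge (node 592 (merge (leaf 7 463 463) (node 497 (merge (leaf 6 464 465) (node 624 (merge (leaf 6 496 529) (node 623 (merge (leaf 5 495 591) (leaf 5 527 655))))))))) (merge (node 497 (merge (node 465 (merge (leaf 6 464 592) (node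 433 (merge (leaf 5 400 401) (leaf 5 432 529))))) (merge (node 592 (merge (leaf 6 464 465) (node 623 (merge (leaf 5 495 591) (node 624 (merge (leaf 7 495 527) (leaf 5 527 655))))))) (node 530 (merge (node 531 (merge (leaf 0 495 498) (leaf 3 495 529))) (merge (node 498 (merge (leaf 0 495 531) (node 467 (merge (leaf 2 463 466) (node 499 (merge (leaf 2 464 468) (leaf 1 495 527))))))) (node 494 (merge (leaf 0 494 529) (node 461 (merge (leaf 3 461 462) (node 493 (merge (leaf 3 460 460) (node 492 (merge (leaf 0 492 527) (node 524 (merge (leaf 1 491 523) (leaf 1 492 525))))))))))))))))) (node 494 (merge (node 529 (merge (leaf 0 493 493) (node 530 (merge (leaf 0 494 497) (leaf 3 495 531))))) (merge (node 529 (merge (leaf 0 493 493) (node 530 (merge (leaf 3 494 527) (leaf 3 495 531))))) (merge (node 497 (merge (node 465 (merge (leaf 2 462 466) (node 433 (merge (leaf 5 400 401) (leaf 5 432 529))))) (merge (node 530 (merge (leaf 0 494 529) (node 498 (merge (leaf 0 495 531) (node 526 (merge (leaf 1 493 525) (leaf 1 494 527))))))) (node 466 (merge (leaf 2 462 465) (node 498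 (merge (leaf 2 463 467) (node 462 (merge (leaf 3 461 461) (leaf 3 462 463)))))))))) (node 497 (merge (node 466 (merge (leaf 2 462 465) (node 498 (merge (leaf 2 463 467) (node 462 (merge (leaf 3 461 461) (leaf 3 462 463))))))) (merge (node 461 (merge (leaf 3 461 462) (node 493 (merge (leaf 3 460 460) (node 492 (merge (leaf 0 492 527) (node 524 (merge (leaf 1 491 523) (leaf 1 492 525))))))))) (merge (node 525 (merge (leaf 1 493 526) (node 493 (merge (leaf 1 492 524) (node 492 (merge (leaf 0 492 527) (node 460 (merge (leaf 3 459 459) (leaf 3 460 461))))))))) (node 525 (merge (leaf 1 493 526) (node 493 (merge (leaf 1 492 524) (node 527 (merge (leaf 0 492 492) (node 498 (merge (leaf 1 495 499) (node 463 (merge (leaf 4 431 431) (leaf 3 462 462))))))))))))))))))))))) (node 559 (merge (node 591 (merge (leaf 5 463 464) (node 623 (merge (leaf 6 495 527) (leaf 6 527 655))))) (merge (node 561 (merge (node 464 (merge (leaf 4 464 593) (node 433 (merge (leaf 6 432 465) (node 432 (merge (leaf 6 400 401) (node 431 (merge (leaf 7 399 399) (leaf 7 431 463))))))))) (merge (node 558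 (merge (node 529 (merge (leaf 2 526 530) (leaf 2 525 557))) (merge (node 589 (merge (leaf 1 557 590) (node 557 (merge (leaf 1 556 588) (node 525 (merge (leaf 3 524 524) (leaf 3 525 526))))))) (node 593 (merge (leaf 0 558 594) (node 529 (merge (leaf 2 526 530) (leaf 7 496 625)))))))) (node 558 (merge (node 529 (merge (leaf 2 526 530) (leaf 2 525 557))) (merge (node 589 (merge (leaf 1 557 590) (node 557 (merge (leaf 1 556 588) (node 525 (merge (leaf 3 524 524) (leaf 3 525 526))))))) (node 590 (merge (leaf 1 557 589) (node 529 (merge (leaf 2 526 530) (node 526 (merge (leaf 3 525 525) (node 464 (merge (leaf 4 432 432) (node 465 (merge (leaf 6 432 433) (node 463 (merge (leaf 7 431 431) (node 494 (merge (leaf 6 462 495) (node 493 (merge (leaf 7 461 461) (leaf 1 461 462))))))))))))))))))))))) (node 529 (merge (node 558 (merge (leaf 2 525 557) (node 530 (merge (leaf 1 526 527) (leaf 1 527 531))))) (merge (node 558 (merge (leaf 2 525 557) (node 561 (merge (leaf 2 526 530) (node 593 (merge (leaf 0 558 594) (leaf 7 496 625))))))) (merge (node 527 (merge (node 530 (merge (leaf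 1 527 531) (node 498 (merge (leaf 2 495 499) (node 526 (merge (leaf 2 494 497) (node 525 (merge (leaf 0 524 524) (leaf 0 525 561))))))))) (merge (node 530 (merge (leaf 1 527 531) (node 498 (merge (leaf 2 495 499) (node 495 (merge (leaf 3 494 494) (node 463 (merge (leaf 4 431 431) (node 462 (merge (leaf 7 430 430) (leaf 3 462 497))))))))))) (merge (node 530 (merge (leaf 1 527 531) (node 498 (merge (leaf 2 495 499) (node 526 (merge (leaf 2 494 497) (node 525 (merge (leaf 0 524 524) (leaf 0 525 561))))))))) (merge (node 530 (merge (leaf 1 527 531) (node 494 (merge (leaf 3 494 495) (node 526 (merge (leaf 3 493 493) (node 525 (merge (leaf 0 524 524) (leaf 0 525 561))))))))) (node 526 (merge (node 497 (merge (leaf 2 493 525) (node 498 (merge (leaf 1 494 495) (leaf 1 495 499))))) (merge (node 525 (merge (leaf 0 524 524) (leaf 0 525 561))) (node 497 (merge (leaf 2 494 498) (node 494 (merge (leaf 3 493 493) (node 465 (merge (leaf 5 432 433) (node 495 (merge (leaf 2 462 466) (node 462 (merge (leaf 3 461 461) (node 559 (merge (leaf 4 430 430) (leaf 7 462 591)))))))))))))))))))))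 (node 558 (merge (leaf 2 525 557) (node 526 (merge (node 561 (merge (leaf 3 525 525) (node 593 (merge (leaf 0 558 594) (leaf 7 496 625))))) (merge (node 527 (merge (node 525 (merge (leaf 2 493 497) (leaf 0 524 524))) (node 494 (merge (leaf 3 493 493) (node 462 (merge (leaf 4 430 430) (node 591 (merge (leaf 4 462 558) (leaf 6 495 623))))))))) (node 591 (merge (node 623 (merge (leaf 6 495 527) (leaf 7 526 655))) (merge (node 494 (merge (leaf 4 462 462) (node 590 (merge (leaf 4 494 623) (node 589 (merge (leaf 1 557 561) (leaf 2 556 588))))))) (node 494 (merge (leaf 4 462 462) (node 493 (merge (leaf 0 493 495) (leaf 3 493 527)))))))))))))))))))))))))) (merge (node 496 (merge (node 465 (merge (node 433 (merge (leaf 6 432 464) (node 497 (merge (leaf 5 400 401) (leaf 5 432 529))))) (merge (node 497 (merge (leaf 6 464 592) (node 433 (merge (leaf 5 400 401) (leaf 5 432 529))))) (merge (node 592 (merge (leaf 6 464 497) (node 593 (merge (leaf 4 496 625) (node 464 (merge (leaf 4 464 561) (node 463 (merge (leaf 7 431 431) (leaf 7 463 495))))))))) (node 464 (merge (leaf 6 432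 433) (node 593 (merge (leaf 4 464 561) (node 592 (merge (leaf 4 496 625) (node 463 (merge (leaf 7 431 431) (leaf 7 463 495))))))))))))) (merge (node 463 (merge (node 431 (merge (leaf 7 431 464) (node 495 (merge (leaf 4 399 399) (leaf 4 431 527))))) (merge (node 495 (merge (leaf 7 463 592) (node 431 (merge (leaf 4 399 399) (leaf 4 431 527))))) (merge (node 592 (merge (leaf 7 463 495) (node 465 (merge (leaf 6 464 497) (node 464 (merge (leaf 6 432 433) (node 591 (merge (leaf 5 463 559) (leaf 5 495 623))))))))) (node 464 (merge (leaf 7 431 431) (node 465 (merge (leaf 6 432 433) (node 592 (merge (leaf 6 464 497) (node 591 (merge (leaf 5 463 559) (leaf 5 495 623))))))))))))) (merge (node 464 (merge (node 593 (merge (leaf 4 464 561) (node 592 (merge (leaf 4 496 625) (node 463 (merge (leaf 7 431 431) (leaf 7 463 495))))))) (merge (node 561 (merge (leaf 4 464 593) (node 432 (merge (leaf 4 432 529) (node 559 (merge (leaf 5 431 527) (leaf 5 463 591))))))) (node 591 (merge (leaf 5 463 559) (node 463 (merge (leaf 7 431 431) (node 592 (merge (leaf 7 463 495) (leaf 5 495 623))))))))))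 (merge (node 464 (merge (node 593 (merge (leaf 4 464 561) (node 465 (merge (leaf 6 432 433) (node 592 (merge (leaf 6 464 497) (leaf 4 496 625))))))) (merge (node 561 (merge (leaf 4 464 593) (node 432 (merge (leaf 4 432 529) (node 559 (merge (leaf 5 431 527) (leaf 5 463 591))))))) (node 465 (merge (leaf 6 432 433) (node 592 (merge (leaf 6 464 497) (node 591 (merge (leaf 5 463 559) (leaf 5 495 623)))))))))) (merge (node 559 (merge (node 591 (merge (leaf 5 463 464) (node 623 (merge (leaf 6 495 527) (leaf 6 527 655))))) (merge (node 464 (merge (leaf 5 463 591) (node 561 (merge (leaf 4 464 593) (node 432 (merge (leaf 4 432 529) (node 433 (merge (leaf 6 400 401) (leaf 6 432 465))))))))) (merge (node 558 (merge (node 529 (merge (leaf 2 525 557) (node 561 (merge (leaf 2 526 530) (node 593 (merge (leaf 0 558 594) (leaf 7 496 625))))))) (merge (node 557 (merge (leaf 2 525 529) (node 556 (merge (leaf 2 524 527) (node 588 (merge (leaf 1 555 587) (leaf 1 556 589))))))) (merge (node 561 (merge (node 593 (merge (leaf 0 558 594) (node 625 (merge (leaf 7 528 657) (node 529 (merge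 (leaf 7 496 496) (leaf 2 526 530))))))) (node 590 (merge (leaf 1 557 589) (node 562 (merge (leaf 1 558 591) (node 526 (merge (leaf 3 525 525) (leaf 3 526 527))))))))) (node 557 (merge (node 556 (merge (leaf 2 524 527) (node 588 (merge (leaf 1 555 587) (leaf 1 556 589))))) (merge (node 589 (merge (leaf 1 556 588) (node 561 (merge (leaf 1 557 590) (node 525 (merge (leaf 3 524 524) (leaf 3 525 526))))))) (node 527 (merge (leaf 2 524 556) (node 525 (merge (leaf 3 524 524) (node 561 (merge (leaf 0 525 526) (node 562 (merge (leaf 3 527 563) (node 591 (merge (leaf 1 558 590) (leaf 6 495 623)))))))))))))))))) (node 561 (merge (node 464 (merge (leaf 4 464 593) (node 433 (merge (leaf 6 432 465) (node 432 (merge (leaf 6 400 401) (node 431 (merge (leaf 7 399 399) (leaf 7 431 463))))))))) (node 530 (merge (node 531 (merge (leaf 1 527 529) (leaf 2 527 562))) (merge (node 562 (merge (leaf 2 527 531) (node 527 (merge (leaf 3 526 526) (leaf 3 527 563))))) (node 558 (merge (leaf 2 526 529) (node 525 (merge (leaf 3 525 526) (node 557 (merge (leaf 3 524 524) (node 588 (merge (leaf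 1 556 589) (node 556 (merge (leaf 2 524 527) (leaf 1 555 587)))))))))))))))))))) (node 497 (merge (node 465 (merge (leaf 6 464 592) (node 433 (merge (leaf 5 400 401) (leaf 5 432 529))))) (merge (node 592 (merge (leaf 6 464 465) (node 625 (merge (leaf 4 496 593) (node 624 (merge (leaf 4 528 657) (node 495 (merge (leaf 7 463 463) (leaf 7 495 527))))))))) (merge (node 495 (merge (node 463 (merge (leaf 7 463 592) (node 431 (merge (leaf 4 399 399) (leaf 4 431 527))))) (merge (node 592 (merge (leaf 7 463 463) (node 624 (merge (leaf 6 496 529) (node 623 (merge (leaf 5 495 591) (leaf 5 527 655))))))) (merge (node 463 (merge (node 431 (merge (leaf 4 399 399) (leaf 4 431 527))) (node 498 (merge (leaf 3 462 462) (node 531 (merge (leaf 0 495 530) (node 499 (merge (leaf 0 496 532) (node 500 (merge (leaf 1 496 529) (node 468 (merge (leaf 2 464 467) (leaf 2 465 469))))))))))))) (node 498 (merge (node 527 (merge (leaf 1 495 499) (leaf 1 494 526))) (merge (node 531 (merge (leaf 0 495 530) (node 499 (merge (leaf 1 495 527) (leaf 0 496 532))))) (merge (node 467 (merge (leaf 2 463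 466) (node 499 (merge (leaf 2 464 468) (node 532 (merge (leaf 0 496 531) (node 500 (merge (leaf 1 496 529) (leaf 0 497 533))))))))) (node 530 (merge (leaf 0 495 531) (node 527 (merge (leaf 1 494 526) (node 466 (merge (leaf 2 463 467) (node 592 (merge (leaf 7 495 624) (node 593 (merge (leaf 4 496 625) (node 561 (merge (leaf 6 465 529) (leaf 5 465 562))))))))))))))))))))) (node 498 (merge (node 527 (merge (leaf 1 495 499) (node 526 (merge (leaf 1 494 495) (leaf 2 493 525))))) (merge (node 499 (merge (leaf 1 495 527) (node 468 (merge (leaf 2 464 467) (node 500 (merge (leaf 2 465 469) (leaf 1 496 529))))))) (merge (node 499 (merge (node 532 (merge (leaf 0 496 531) (node 500 (merge (leaf 1 496 529) (leaf 0 497 533))))) (merge (node 531 (merge (leaf 0 496 532) (node 495 (merge (leaf 0 495 530) (node 467 (merge (leaf 2 463 466) (leaf 2 464 468))))))) (node 500 (merge (leaf 1 496 529) (node 467 (merge (leaf 2 464 468) (node 466 (merge (leaf 2 463 495) (node 501 (merge (leaf 3 465 465) (leaf 3 466 502)))))))))))) (node 530 (merge (node 495 (merge (leaf 0 495 531) (node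 463 (merge (leaf 3 462 462) (node 431 (merge (leaf 4 399 399) (leaf 4 431 527))))))) (merge (node 529 (merge (node 531 (merge (leaf 3 496 532) (leaf 1 527 559))) (node 465 (merge (leaf 5 432 433) (node 562 (merge (leaf 7 465 594) (node 563 (merge (leaf 0 527 527) (node 564 (merge (leaf 3 528 561) (leaf 3 529 565))))))))))) (merge (node 531 (merge (leaf 0 495 495) (node 529 (merge (leaf 3 496 532) (leaf 1 527 559))))) (node 466 (merge (node 467 (merge (leaf 2 463 495) (node 468 (merge (leaf 1 464 465) (leaf 1 465 469))))) (merge (node 495 (merge (leaf 2 463 467) (node 463 (merge (leaf 3 462 462) (node 431 (merge (leaf 4 399 399) (leaf 4 431 527))))))) (node 561 (merge (node 529 (merge (leaf 6 465 593) (node 434 (merge (leaf 5 401 402) (leaf 5 433 530))))) (merge (node 562 (merge (leaf 5 465 593) (node 465 (merge (leaf 7 433 433) (leaf 7 465 594))))) (node 434 (merge (leaf 5 433 529) (node 433 (merge (leaf 7 401 401) (node 562 (merge (leaf 7 433 465) (node 527 (merge (leaf 3 527 563) (node 559 (merge (leaf 3 526 526) (node 591 (merge (leaf 1 558 590) (leaf 6 495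 623))))))))))))))))))))))))))))))))))))) (merge (node 496 (merge (node 465 (merge (node 433 (merge (leaf 6 432 464) (node 497 (merge (leaf 5 400 401) (leaf 5 432 529))))) (merge (node 497 (merge (leaf 6 464 592) (node 433 (merge (leaf 5 400 401) (leaf 5 432 529))))) (merge (node 592 (merge (leaf 6 464 497) (node 593 (merge (leaf 4 496 625) (node 464 (merge (leaf 4 464 561) (node 463 (merge (leaf 7 431 431) (leaf 7 463 495))))))))) (node 464 (merge (leaf 6 432 433) (node 593 (merge (leaf 4 464 561) (node 592 (merge (leaf 4 496 625) (node 463 (merge (leaf 7 431 431) (leaf 7 463 495))))))))))))) (merge (node 463 (merge (node 431 (merge (leaf 7 431 464) (node 495 (merge (leaf 4 399 399) (leaf 4 431 527))))) (merge (node 495 (merge (leaf 7 463 592) (node 431 (merge (leaf 4 399 399) (leaf 4 431 527))))) (merge (node 592 (merge (leaf 7 463 495) (node 465 (merge (leaf 6 464 497) (node 464 (merge (leaf 6 432 433) (node 591 (merge (leaf 5 463 559) (leaf 5 495 623))))))))) (node 464 (merge (leaf 7 431 431) (node 465 (merge (leaf 6 432 433) (node 592 (merge (leaf 6 464 497)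 (node 591 (merge (leaf 5 463 559) (leaf 5 495 623))))))))))))) (merge (node 464 (merge (node 593 (merge (leaf 4 464 561) (node 592 (merge (leaf 4 496 625) (node 463 (merge (leaf 7 431 431) (leaf 7 463 495))))))) (merge (node 561 (merge (leaf 4 464 593) (node 432 (merge (leaf 4 432 529) (node 559 (merge (leaf 5 431 527) (leaf 5 463 591))))))) (node 591 (merge (leaf 5 463 559) (node 463 (merge (leaf 7 431 431) (node 592 (merge (leaf 7 463 495) (leaf 5 495 623)))))))))) (merge (node 464 (merge (node 593 (merge (leaf 4 464 561) (node 465 (merge (leaf 6 432 433) (node 592 (merge (leaf 6 464 497) (leaf 4 496 625))))))) (merge (node 561 (merge (leaf 4 464 593) (node 432 (merge (leaf 4 432 529) (node 559 (merge (leaf 5 431 527) (leaf 5 463 591))))))) (node 465 (merge (leaf 6 432 433) (node 592 (merge (leaf 6 464 497) (node 591 (merge (leaf 5 463 559) (leaf 5 495 623)))))))))) (merge (node 559 (merge (node 591 (merge (leaf 5 463 464) (node 623 (merge (leaf 6 495 527) (leaf 6 527 655))))) (merge (node 464 (merge (leaf 5 463 591) (node 561 (merge (leaf 4 464 593) (node 432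 (merge (leaf 4 432 529) (node 433 (merge (leaf 6 400 401) (leaf 6 432 465))))))))) (merge (node 558 (merge (node 529 (merge (leaf 2 525 557) (node 561 (merge (leaf 2 526 530) (node 593 (merge (leaf 0 558 594) (leaf 7 496 625))))))) (merge (node 557 (merge (leaf 2 525 529) (node 556 (merge (leaf 2 524 527) (node 588 (merge (leaf 1 555 587) (leaf 1 556 589))))))) (merge (node 561 (merge (node 593 (merge (leaf 0 558 594) (node 625 (merge (leaf 7 528 657) (node 529 (merge (leaf 7 496 496) (leaf 2 526 530))))))) (node 590 (merge (leaf 1 557 589) (node 562 (merge (leaf 1 558 591) (node 526 (merge (leaf 3 525 525) (leaf 3 526 527))))))))) (node 557 (merge (node 556 (merge (leaf 2 524 527) (node 588 (merge (leaf 1 555 587) (leaf 1 556 589))))) (merge (node 589 (merge (leaf 1 556 588) (node 561 (merge (leaf 1 557 590) (node 525 (merge (leaf 3 524 524) (leaf 3 525 526))))))) (node 527 (merge (leaf 2 524 556) (node 525 (merge (leaf 3 524 524) (node 561 (merge (leaf 0 525 526) (node 562 (merge (leaf 3 527 563) (node 591 (merge (leaf 1 558 590) (leaf 6 495 623))))))))))))))))))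 (node 561 (merge (node 464 (merge (leaf 4 464 593) (node 433 (merge (leaf 6 432 465) (node 432 (merge (leaf 6 400 401) (node 431 (merge (leaf 7 399 399) (leaf 7 431 463))))))))) (node 530 (merge (node 531 (merge (leaf 1 527 529) (leaf 2 527 562))) (merge (node 562 (merge (leaf 2 527 531) (node 527 (merge (leaf 3 526 526) (leaf 3 527 563))))) (node 558 (merge (leaf 2 526 529) (node 525 (merge (leaf 3 525 526) (node 557 (merge (leaf 3 524 524) (node 588 (merge (leaf 1 556 589) (node 556 (merge (leaf 2 524 527) (leaf 1 555 587)))))))))))))))))))) (node 495 (merge (node 592 (merge (leaf 7 463 463) (node 625 (merge (leaf 4 496 593) (node 624 (merge (leaf 7 495 527) (leaf 4 528 657))))))) (merge (node 592 (merge (leaf 7 463 463) (node 625 (merge (leaf 4 496 593) (node 624 (merge (leaf 4 528 657) (node 623 (merge (leaf 5 495 591) (leaf 5 527 655))))))))) (merge (node 497 (merge (node 592 (merge (leaf 6 464 465) (node 623 (merge (leaf 5 495 591) (node 624 (merge (leaf 7 495 527) (leaf 5 527 655))))))) (merge (node 494 (merge (node 465 (merge (leaf 2 462 466) (node 433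 (merge (leaf 5 400 401) (leaf 5 432 529))))) (node 525 (merge (leaf 1 493 526) (node 493 (merge (leaf 1 492 524) (node 461 (merge (leaf 3 460 460) (leaf 3 461 462))))))))) (node 494 (merge (node 529 (merge (leaf 0 493 493) (leaf 0 494 530))) (merge (node 529 (merge (leaf 0 493 493) (leaf 0 494 530))) (merge (node 525 (merge (leaf 1 493 526) (node 493 (merge (leaf 1 492 524) (node 461 (merge (leaf 3 460 460) (leaf 3 461 462))))))) (node 529 (merge (leaf 0 494 530) (node 526 (merge (leaf 1 493 525) (node 462 (merge (leaf 3 461 461) (node 592 (merge (leaf 6 496 624) (node 591 (merge (leaf 5 495 623) (node 559 (merge (leaf 7 462 527) (leaf 4 462 558)))))))))))))))))))) (node 494 (merge (node 529 (merge (leaf 0 493 493) (node 530 (merge (leaf 0 494 497) (leaf 3 495 531))))) (merge (node 529 (merge (leaf 0 493 493) (node 530 (merge (leaf 3 494 527) (leaf 3 495 531))))) (merge (node 526 (merge (node 525 (merge (leaf 1 493 497) (node 524 (merge (leaf 2 491 523) (leaf 2 492 527))))) (merge (node 497 (merge (leaf 1 493 525) (node 465 (merge (leaf 2 462 466) (node 433 (merge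 (leaf 5 400 401) (leaf 5 432 529))))))) (merge (node 527 (merge (node 525 (merge (leaf 2 492 524) (leaf 0 525 561))) (merge (node 529 (merge (leaf 3 494 530) (node 558 (merge (leaf 1 525 557) (node 463 (merge (leaf 4 431 431) (leaf 6 462 590))))))) (node 529 (merge (leaf 3 494 530) (node 558 (merge (leaf 1 525 557) (node 590 (merge (leaf 6 462 463) (leaf 6 494 622)))))))))) (node 462 (merge (node 461 (merge (leaf 3 461 497) (node 460 (merge (leaf 0 459 459) (leaf 0 460 463))))) (merge (node 497 (merge (leaf 3 461 461) (node 465 (merge (leaf 2 462 466) (node 433 (merge (leaf 5 400 401) (leaf 5 432 529))))))) (node 463 (merge (node 431 (merge (leaf 4 399 399) (leaf 4 431 527))) (node 558 (merge (leaf 6 462 590) (node 559 (merge (leaf 4 462 591) (node 557 (merge (leaf 2 525 529) (leaf 5 461 589)))))))))))))))) (node 527 (merge (node 493 (merge (leaf 0 492 492) (node 525 (merge (leaf 1 492 524) (node 526 (merge (leaf 2 493 497) (leaf 0 525 561))))))) (merge (node 493 (merge (leaf 0 492 492) (node 461 (merge (leaf 3 460 460) (node 462 (merge (leaf 3 461 497) (node 430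 (merge (leaf 4 398 398) (node 559 (merge (leaf 7 430 463) (leaf 4 430 526))))))))))) (merge (node 493 (merge (leaf 0 492 492) (node 525 (merge (leaf 1 492 524) (node 461 (merge (leaf 3 460 460) (node 462 (merge (leaf 3 461 497) (node 430 (merge (leaf 4 398 398) (leaf 6 429 557))))))))))) (merge (node 493 (merge (leaf 0 492 492) (node 525 (merge (leaf 1 492 524) (node 526 (merge (leaf 0 525 561) (node 461 (merge (leaf 3 460 460) (node 558 (merge (leaf 4 429 429) (leaf 7 461 590))))))))))) (node 559 (merge (node 591 (merge (leaf 7 462 462) (leaf 6 495 623))) (merge (node 463 (merge (leaf 4 431 431) (node 558 (merge (leaf 5 462 590) (node 557 (merge (leaf 2 524 556) (node 525 (merge (leaf 3 524 524) (node 497 (merge (leaf 1 493 526) (node 462 (merge (leaf 7 430 430) (leaf 3 461 461))))))))))))) (node 463 (merge (leaf 4 431 431) (node 590 (merge (leaf 5 462 558) (node 591 (merge (leaf 5 494 622) (leaf 6 495 623))))))))))))))))))))))))))))) (merge (node 496 (merge (node 465 (merge (node 433 (merge (leaf 6 432 464) (node 497 (merge (leaf 5 400 401) (leaf 5 432 529)))))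 (merge (node 497 (merge (leaf 6 464 592) (node 433 (merge (leaf 5 400 401) (leaf 5 432 529))))) (merge (node 592 (merge (leaf 6 464 497) (node 593 (merge (leaf 4 496 625) (node 464 (merge (leaf 4 464 561) (node 463 (merge (leaf 7 431 431) (leaf 7 463 495))))))))) (node 464 (merge (leaf 6 432 433) (node 593 (merge (leaf 4 464 561) (node 592 (merge (leaf 4 496 625) (node 463 (merge (leaf 7 431 431) (leaf 7 463 495))))))))))))) (merge (node 463 (merge (node 431 (merge (leaf 7 431 464) (node 495 (merge (leaf 4 399 399) (leaf 4 431 527))))) (merge (node 495 (merge (leaf 7 463 592) (node 431 (merge (leaf 4 399 399) (leaf 4 431 527))))) (merge (node 592 (merge (leaf 7 463 495) (node 465 (merge (leaf 6 464 497) (node 464 (merge (leaf 6 432 433) (node 591 (merge (leaf 5 463 559) (leaf 5 495 623))))))))) (node 464 (merge (leaf 7 431 431) (node 465 (merge (leaf 6 432 433) (node 592 (merge (leaf 6 464 497) (node 591 (merge (leaf 5 463 559) (leaf 5 495 623))))))))))))) (merge (node 464 (merge (node 593 (merge (leaf 4 464 561) (node 592 (merge (leaf 4 496 625) (node 463 (merge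 (leaf 7 431 431) (leaf 7 463 495))))))) (merge (node 561 (merge (leaf 4 464 593) (node 432 (merge (leaf 4 432 529) (node 559 (merge (leaf 5 431 527) (leaf 5 463 591))))))) (node 591 (merge (leaf 5 463 559) (node 463 (merge (leaf 7 431 431) (node 592 (merge (leaf 7 463 495) (leaf 5 495 623)))))))))) (merge (node 464 (merge (node 593 (merge (leaf 4 464 561) (node 465 (merge (leaf 6 432 433) (node 592 (merge (leaf 6 464 497) (leaf 4 496 625))))))) (merge (node 561 (merge (leaf 4 464 593) (node 432 (merge (leaf 4 432 529) (node 559 (merge (leaf 5 431 527) (leaf 5 463 591))))))) (node 465 (merge (leaf 6 432 433) (node 592 (merge (leaf 6 464 497) (node 591 (merge (leaf 5 463 559) (leaf 5 495 623)))))))))) (merge (node 559 (merge (node 464 (merge (leaf 5 463 591) (node 433 (merge (leaf 6 432 465) (node 432 (merge (leaf 6 400 401) (leaf 5 431 527))))))) (merge (node 464 (merge (leaf 5 463 591) (node 561 (merge (leaf 4 464 593) (node 432 (merge (leaf 4 432 529) (node 433 (merge (leaf 6 400 401) (leaf 6 432 465))))))))) (merge (node 558 (merge (node 529 (merge (leaf 2 525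 557) (node 561 (merge (leaf 2 526 530) (node 593 (merge (leaf 0 558 594) (leaf 7 496 625))))))) (merge (node 557 (merge (leaf 2 525 529) (node 556 (merge (leaf 2 524 527) (node 588 (merge (leaf 1 555 587) (leaf 1 556 589))))))) (merge (node 561 (merge (node 593 (merge (leaf 0 558 594) (node 625 (merge (leaf 7 528 657) (node 529 (merge (leaf 7 496 496) (leaf 2 526 530))))))) (node 590 (merge (leaf 1 557 589) (node 562 (merge (leaf 1 558 591) (node 526 (merge (leaf 3 525 525) (leaf 3 526 527))))))))) (node 557 (merge (node 556 (merge (leaf 2 524 527) (node 524 (merge (leaf 3 523 523) (leaf 3 524 525))))) (merge (node 556 (merge (leaf 2 524 527) (node 588 (merge (leaf 1 555 587) (leaf 1 556 589))))) (node 589 (merge (leaf 1 556 588) (node 590 (merge (leaf 1 557 561) (node 525 (merge (leaf 3 524 524) (node 622 (merge (leaf 4 493 493) (leaf 7 525 654)))))))))))))))) (node 558 (merge (node 529 (merge (leaf 2 525 557) (node 561 (merge (leaf 2 526 530) (node 593 (merge (leaf 0 558 594) (leaf 7 496 625))))))) (merge (node 557 (merge (leaf 2 525 529) (node 556 (merge (leaf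 2 524 527) (node 588 (merge (leaf 1 555 587) (leaf 1 556 589))))))) (merge (node 557 (merge (node 556 (merge (leaf 2 524 527) (node 524 (merge (leaf 3 523 523) (leaf 3 524 525))))) (merge (node 556 (merge (leaf 2 524 527) (node 588 (merge (leaf 1 555 587) (leaf 1 556 589))))) (node 589 (merge (leaf 1 556 588) (node 590 (merge (leaf 1 557 561) (node 525 (merge (leaf 3 524 524) (node 622 (merge (leaf 4 493 493) (leaf 7 525 654)))))))))))) (node 464 (merge (node 432 (merge (leaf 5 431 527) (node 431 (merge (leaf 7 399 399) (leaf 7 431 463))))) (merge (node 561 (merge (leaf 4 464 593) (node 529 (merge (leaf 4 432 432) (leaf 2 526 530))))) (node 561 (merge (leaf 4 464 593) (node 590 (merge (leaf 1 557 589) (node 465 (merge (leaf 6 432 433) (node 463 (merge (leaf 7 431 431) (node 495 (merge (leaf 5 462 527) (node 494 (merge (leaf 1 462 466) (leaf 2 461 493)))))))))))))))))))))))) (node 497 (merge (node 465 (merge (leaf 6 464 592) (node 433 (merge (leaf 5 400 401) (leaf 5 432 529))))) (merge (node 495 (merge (node 592 (merge (leaf 7 463 463) (leaf 6 464 465))) (merge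 (node 463 (merge (leaf 7 463 592) (node 431 (merge (leaf 4 399 399) (leaf 4 431 527))))) (node 466 (merge (node 494 (merge (leaf 2 462 465) (node 525 (merge (leaf 1 493 526) (node 493 (merge (leaf 1 492 524) (node 461 (merge (leaf 3 460 460) (leaf 3 461 462))))))))) (node 498 (merge (leaf 2 463 467) (node 531 (merge (leaf 0 495 530) (node 499 (merge (leaf 1 495 527) (leaf 0 496 532)))))))))))) (merge (node 498 (merge (node 499 (merge (leaf 1 495 527) (node 532 (merge (leaf 0 496 531) (node 500 (merge (leaf 1 496 529) (leaf 0 497 533))))))) (merge (node 495 (merge (node 527 (merge (leaf 1 494 526) (node 463 (merge (leaf 4 431 431) (leaf 3 462 462))))) (merge (node 466 (merge (leaf 2 463 467) (node 494 (merge (leaf 2 462 465) (node 462 (merge (leaf 3 461 461) (leaf 3 462 463))))))) (node 466 (merge (leaf 2 463 467) (node 494 (merge (leaf 2 462 465) (node 526 (merge (leaf 1 493 525) (leaf 1 494 527)))))))))) (node 499 (merge (node 532 (merge (leaf 0 496 531) (node 500 (merge (leaf 1 496 529) (leaf 0 497 533))))) (merge (node 532 (merge (leaf 0 496 531) (node 500 (merge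 (leaf 0 497 533) (node 468 (merge (leaf 2 464 467) (leaf 2 465 469))))))) (node 467 (merge (leaf 2 464 468) (node 495 (merge (leaf 2 463 466) (node 462 (merge (leaf 3 462 463) (node 494 (merge (leaf 3 461 461) (node 493 (merge (leaf 0 493 529) (node 525 (merge (leaf 1 492 524) (leaf 1 493 526))))))))))))))))))) (node 495 (merge (node 463 (merge (leaf 7 463 592) (node 431 (merge (leaf 4 399 399) (leaf 4 431 527))))) (merge (node 494 (merge (node 529 (merge (leaf 0 493 493) (leaf 0 494 530))) (merge (node 461 (merge (leaf 3 461 462) (node 493 (merge (leaf 3 460 460) (node 492 (merge (leaf 0 492 527) (node 524 (merge (leaf 1 491 523) (leaf 1 492 525))))))))) (node 530 (merge (leaf 0 494 529) (node 498 (merge (leaf 0 495 531) (node 526 (merge (leaf 1 493 525) (leaf 1 494 527)))))))))) (node 463 (merge (leaf 7 463 592) (node 498 (merge (leaf 3 462 462) (node 530 (merge (leaf 0 495 531) (node 529 (merge (leaf 0 494 494) (node 466 (merge (leaf 2 463 467) (node 561 (merge (leaf 5 433 434) (leaf 6 465 593)))))))))))))))))))))))))) (merge (hyp 0) (merge (node 496 (merge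 (node 465 (merge (node 433 (merge (leaf 6 432 464) (node 497 (merge (leaf 5 400 401) (leaf 5 432 529))))) (merge (node 497 (merge (leaf 6 464 592) (node 433 (merge (leaf 5 400 401) (leaf 5 432 529))))) (merge (node 592 (merge (leaf 6 464 497) (node 593 (merge (leaf 4 496 625) (node 464 (merge (leaf 4 464 561) (node 463 (merge (leaf 7 431 431) (leaf 7 463 495))))))))) (node 464 (merge (leaf 6 432 433) (node 593 (merge (leaf 4 464 561) (node 592 (merge (leaf 4 496 625) (node 463 (merge (leaf 7 431 431) (leaf 7 463 495))))))))))))) (merge (node 463 (merge (node 431 (merge (leaf 7 431 464) (node 495 (merge (leaf 4 399 399) (leaf 4 431 527))))) (merge (node 495 (merge (leaf 7 463 592) (node 431 (merge (leaf 4 399 399) (leaf 4 431 527))))) (merge (node 592 (merge (leaf 7 463 495) (node 465 (merge (leaf 6 464 497) (node 464 (merge (leaf 6 432 433) (node 591 (merge (leaf 5 463 559) (leaf 5 495 623))))))))) (node 464 (merge (leaf 7 431 431) (node 465 (merge (leaf 6 432 433) (node 592 (merge (leaf 6 464 497) (node 591 (merge (leaf 5 463 559) (leaf 5 495 623)))))))))))))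 (merge (node 464 (merge (node 593 (merge (leaf 4 464 561) (node 592 (merge (leaf 4 496 625) (node 463 (merge (leaf 7 431 431) (leaf 7 463 495))))))) (merge (node 561 (merge (leaf 4 464 593) (node 432 (merge (leaf 4 432 529) (node 559 (merge (leaf 5 431 527) (leaf 5 463 591))))))) (node 591 (merge (leaf 5 463 559) (node 463 (merge (leaf 7 431 431) (node 592 (merge (leaf 7 463 495) (leaf 5 495 623)))))))))) (merge (node 464 (merge (node 593 (merge (leaf 4 464 561) (node 465 (merge (leaf 6 432 433) (node 592 (merge (leaf 6 464 497) (leaf 4 496 625))))))) (merge (node 561 (merge (leaf 4 464 593) (node 432 (merge (leaf 4 432 529) (node 559 (merge (leaf 5 431 527) (leaf 5 463 591))))))) (node 465 (merge (leaf 6 432 433) (node 592 (merge (leaf 6 464 497) (node 591 (merge (leaf 5 463 559) (leaf 5 495 623)))))))))) (merge (node 559 (merge (node 591 (merge (leaf 5 463 464) (node 623 (merge (leaf 6 495 527) (leaf 6 527 655))))) (merge (node 464 (merge (leaf 5 463 591) (node 561 (merge (leaf 4 464 593) (node 432 (merge (leaf 4 432 529) (node 433 (merge (leaf 6 400 401) (leaf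 6 432 465))))))))) (merge (node 558 (merge (node 529 (merge (leaf 2 525 557) (node 561 (merge (leaf 2 526 530) (node 593 (merge (leaf 0 558 594) (leaf 7 496 625))))))) (merge (node 557 (merge (leaf 2 525 529) (node 556 (merge (leaf 2 524 527) (node 588 (merge (leaf 1 555 587) (leaf 1 556 589))))))) (merge (node 557 (merge (node 556 (merge (leaf 2 524 527) (node 524 (merge (leaf 3 523 523) (leaf 3 524 525))))) (merge (node 556 (merge (leaf 2 524 527) (node 588 (merge (leaf 1 555 587) (leaf 1 556 589))))) (node 589 (merge (leaf 1 556 588) (node 590 (merge (leaf 1 557 561) (node 525 (merge (leaf 3 524 524) (node 622 (merge (leaf 4 493 493) (leaf 7 525 654)))))))))))) (node 464 (merge (node 432 (merge (leaf 5 431 527) (node 431 (merge (leaf 7 399 399) (leaf 7 431 463))))) (merge (node 561 (merge (leaf 4 464 593) (node 529 (merge (leaf 4 432 432) (leaf 2 526 530))))) (node 561 (merge (leaf 4 464 593) (node 590 (merge (leaf 1 557 589) (node 465 (merge (leaf 6 432 433) (node 463 (merge (leaf 7 431 431) (node 495 (merge (leaf 5 462 527) (node 494 (merge (leaf 1 462 466)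 (leaf 2 461 493)))))))))))))))))))) (node 558 (merge (node 529 (merge (leaf 2 525 557) (node 561 (merge (leaf 2 526 530) (node 593 (merge (leaf 0 558 594) (leaf 7 496 625))))))) (merge (node 557 (merge (leaf 2 525 529) (node 556 (merge (leaf 2 524 527) (node 588 (merge (leaf 1 555 587) (leaf 1 556 589))))))) (merge (node 557 (merge (node 556 (merge (leaf 2 524 527) (node 524 (merge (leaf 3 523 523) (leaf 3 524 525))))) (merge (node 556 (merge (leaf 2 524 527) (node 588 (merge (leaf 1 555 587) (leaf 1 556 589))))) (node 589 (merge (leaf 1 556 588) (node 590 (merge (leaf 1 557 561) (node 525 (merge (leaf 3 524 524) (node 622 (merge (leaf 4 493 493) (leaf 7 525 654)))))))))))) (node 561 (merge (node 593 (merge (leaf 0 558 594) (node 625 (merge (leaf 7 528 657) (node 529 (merge (leaf 7 496 496) (leaf 2 526 530))))))) (merge (node 590 (merge (leaf 1 557 589) (node 562 (merge (leaf 1 558 591) (node 531 (merge (leaf 2 527 530) (node 563 (merge (leaf 3 527 527) (leaf 2 528 532))))))))) (node 590 (merge (leaf 1 557 589) (node 562 (merge (leaf 1 558 591) (node 563 (merge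 (leaf 3 527 527) (node 532 (merge (leaf 2 528 531) (node 564 (merge (leaf 3 528 529) (leaf 2 529 533)))))))))))))))))))))) (node 495 (merge (node 592 (merge (leaf 7 463 463) (node 625 (merge (leaf 4 496 593) (node 624 (merge (leaf 7 495 527) (leaf 4 528 657))))))) (merge (node 592 (merge (leaf 7 463 463) (node 625 (merge (leaf 4 496 593) (node 624 (merge (leaf 4 528 657) (node 623 (merge (leaf 5 495 591) (leaf 5 527 655))))))))) (merge (node 497 (merge (node 465 (merge (leaf 6 464 592) (node 433 (merge (leaf 5 400 401) (leaf 5 432 529))))) (merge (node 592 (merge (leaf 6 464 465) (node 623 (merge (leaf 5 495 591) (node 624 (merge (leaf 7 495 527) (leaf 5 527 655))))))) (node 530 (merge (node 531 (merge (leaf 0 495 498) (leaf 3 495 529))) (merge (node 498 (merge (leaf 0 495 531) (node 467 (merge (leaf 2 463 466) (node 499 (merge (leaf 2 464 468) (leaf 1 495 527))))))) (node 494 (merge (leaf 0 494 529) (node 461 (merge (leaf 3 461 462) (node 493 (merge (leaf 3 460 460) (node 492 (merge (leaf 0 492 527) (node 524 (merge (leaf 1 491 523) (leaf 1 492 525)))))))))))))))))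 (node 529 (merge (node 494 (merge (leaf 0 493 493) (node 530 (merge (leaf 3 494 527) (leaf 3 495 531))))) (merge (node 494 (merge (leaf 0 493 493) (node 530 (merge (leaf 0 494 497) (leaf 3 494 527))))) (merge (node 494 (merge (leaf 0 493 493) (node 530 (merge (leaf 0 494 497) (leaf 3 495 531))))) (merge (node 530 (merge (leaf 3 495 531) (node 527 (merge (node 498 (merge (leaf 2 495 499) (node 463 (merge (leaf 4 431 431) (node 497 (merge (leaf 3 462 462) (node 466 (merge (leaf 2 463 467) (node 434 (merge (leaf 5 401 402) (node 433 (merge (leaf 7 401 401) (leaf 5 432 465))))))))))))) (merge (node 562 (merge (leaf 0 527 563) (node 559 (merge (leaf 1 526 558) (node 591 (merge (leaf 6 495 623) (node 590 (merge (leaf 1 558 561) (leaf 5 494 622))))))))) (node 562 (merge (leaf 0 527 563) (node 559 (merge (leaf 1 526 558) (node 498 (merge (leaf 2 495 499) (node 591 (merge (leaf 6 495 623) (node 561 (merge (leaf 1 558 590) (node 593 (merge (leaf 5 465 466) (leaf 6 497 625)))))))))))))))))) (node 494 (merge (leaf 0 493 493) (node 497 (merge (node 465 (merge (leaf 2 462 466)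 (node 433 (merge (leaf 5 400 401) (leaf 5 432 529))))) (merge (node 466 (merge (leaf 2 462 465) (node 498 (merge (leaf 2 463 467) (node 462 (merge (leaf 3 461 461) (leaf 3 462 463))))))) (node 462 (merge (leaf 3 461 461) (node 498 (merge (leaf 3 462 463) (node 499 (merge (leaf 1 495 527) (node 532 (merge (leaf 0 496 531) (node 500 (merge (leaf 1 496 529) (leaf 0 497 533))))))))))))))))))))))))))))))) (merge (hyp 1) (merge (hyp 2) (merge (hyp 3) (merge (node 592 (merge (node 496 (merge (node 593 (merge (leaf 4 496 625) (node 464 (merge (leaf 4 464 561) (node 465 (merge (leaf 6 432 433) (leaf 6 464 497))))))) (merge (node 625 (merge (leaf 4 496 593) (node 624 (merge (leaf 4 528 657) (node 495 (merge (leaf 7 463 463) (leaf 7 495 527))))))) (node 465 (merge (leaf 6 464 497) (node 464 (merge (leaf 6 432 433) (node 463 (merge (leaf 7 431 431) (leaf 7 463 495)))))))))) (merge (node 496 (merge (node 593 (merge (leaf 4 496 625) (node 464 (merge (leaf 4 464 561) (node 465 (merge (leaf 6 432 433) (leaf 6 464 497))))))) (merge (node 625 (merge (leaf 4 496 593) (node 624 (merge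 (leaf 4 528 657) (node 623 (merge (leaf 5 495 591) (leaf 5 527 655))))))) (node 465 (merge (leaf 6 464 497) (node 464 (merge (leaf 6 432 433) (node 591 (merge (leaf 5 463 559) (leaf 5 495 623)))))))))) (merge (node 496 (merge (node 465 (merge (leaf 6 464 497) (node 464 (merge (leaf 6 432 433) (node 463 (merge (leaf 7 431 431) (leaf 7 463 495))))))) (merge (node 623 (merge (leaf 5 495 591) (node 495 (merge (leaf 7 463 463) (node 624 (merge (leaf 7 495 527) (leaf 5 527 655))))))) (node 465 (merge (leaf 6 464 497) (node 464 (merge (leaf 6 432 433) (node 591 (merge (leaf 5 463 559) (leaf 5 495 623)))))))))) (merge (node 591 (merge (node 496 (merge (leaf 5 495 623) (node 465 (merge (leaf 6 464 497) (node 464 (merge (leaf 6 432 433) (node 463 (merge (leaf 7 431 431) (leaf 7 463 495))))))))) (merge (node 593 (merge (node 496 (merge (leaf 4 496 625) (node 465 (merge (leaf 6 464 497) (node 464 (merge (leaf 6 432 433) (node 463 (merge (leaf 7 431 431) (leaf 7 463 495))))))))) (node 590 (merge (node 561 (merge (leaf 2 558 562) (leaf 2 557 589))) (merge (node 621 (merge (leaf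 1 589 622) (node 589 (merge (leaf 1 588 620) (node 557 (merge (leaf 3 556 556) (leaf 3 557 558))))))) (node 562 (merge (leaf 2 558 561) (node 594 (merge (leaf 2 559 563) (node 558 (merge (leaf 3 557 557) (leaf 3 558 559)))))))))))) (node 590 (merge (node 561 (merge (leaf 2 557 589) (node 593 (merge (leaf 2 558 562) (node 625 (merge (leaf 0 590 626) (leaf 7 528 657))))))) (merge (node 589 (merge (leaf 2 557 561) (node 588 (merge (leaf 2 556 559) (node 620 (merge (leaf 1 587 619) (leaf 1 588 621))))))) (merge (node 621 (merge (node 620 (merge (leaf 1 588 589) (node 622 (merge (leaf 2 587 619) (leaf 2 588 623))))) (merge (node 589 (merge (leaf 1 588 620) (node 557 (merge (leaf 3 556 556) (node 558 (merge (leaf 3 557 593) (node 653 (merge (leaf 6 525 526) (leaf 6 557 685))))))))) (node 593 (merge (leaf 1 589 622) (node 626 (merge (leaf 0 590 625) (node 594 (merge (leaf 0 591 627) (node 558 (merge (leaf 3 557 557) (leaf 3 558 559)))))))))))) (node 593 (merge (node 625 (merge (leaf 0 590 626) (node 561 (merge (leaf 2 558 562) (leaf 7 528 657))))) (merge (node 562 (merge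 (leaf 2 558 561) (node 594 (merge (leaf 2 559 563) (node 558 (merge (leaf 3 557 557) (leaf 3 558 559))))))) (merge (node 626 (merge (leaf 0 590 625) (node 594 (merge (leaf 0 591 627) (node 622 (merge (leaf 1 589 621) (leaf 1 590 623))))))) (node 626 (merge (leaf 0 590 625) (node 594 (merge (leaf 0 591 627) (node 558 (merge (leaf 3 557 557) (leaf 3 558 559)))))))))))))))))) (hyp 4)))))) (merge (hyp 5) (merge (node 592 (merge (node 496 (merge (node 593 (merge (leaf 4 496 625) (node 464 (merge (leaf 4 464 561) (node 463 (merge (leaf 7 431 431) (leaf 7 463 495))))))) (merge (node 465 (merge (leaf 6 464 497) (node 464 (merge (leaf 6 432 433) (node 463 (merge (leaf 7 431 431) (leaf 7 463 495))))))) (node 625 (merge (leaf 4 496 593) (node 497 (merge (leaf 6 464 465) (node 624 (merge (leaf 6 496 529) (leaf 4 528 657)))))))))) (merge (node 624 (merge (node 657 (merge (leaf 4 528 625) (node 529 (merge (leaf 6 496 497) (node 656 (merge (leaf 6 528 561) (leaf 4 560 689))))))) (merge (node 657 (merge (leaf 4 528 625) (node 656 (merge (leaf 4 560 689) (node 655 (merge (leaf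 5 527 623) (leaf 5 559 687))))))) (merge (node 529 (merge (leaf 6 496 497) (node 656 (merge (leaf 6 528 561) (node 655 (merge (leaf 5 527 623) (leaf 5 559 687))))))) (node 625 (merge (leaf 4 528 657) (node 496 (merge (leaf 4 496 593) (node 623 (merge (leaf 5 495 591) (leaf 5 527 655))))))))))) (merge (node 496 (merge (node 625 (merge (leaf 4 496 593) (node 624 (merge (leaf 4 528 657) (node 623 (merge (leaf 5 495 591) (leaf 5 527 655))))))) (node 465 (merge (leaf 6 464 497) (node 464 (merge (leaf 6 432 433) (node 463 (merge (leaf 7 431 431) (leaf 7 463 495))))))))) (merge (node 496 (merge (node 465 (merge (leaf 6 464 497) (node 464 (merge (leaf 6 432 433) (node 463 (merge (leaf 7 431 431) (leaf 7 463 495))))))) (merge (node 497 (merge (leaf 6 464 465) (node 624 (merge (leaf 6 496 529) (node 623 (merge (leaf 5 495 591) (leaf 5 527 655))))))) (merge (node 591 (merge (leaf 5 495 623) (node 464 (merge (leaf 5 463 559) (node 433 (merge (leaf 6 432 465) (node 432 (merge (leaf 6 400 401) (node 431 (merge (leaf 7 399 399) (leaf 7 431 463))))))))))) (node 591 (merge (leaf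 5 495 623) (node 464 (merge (leaf 5 463 559) (node 431 (merge (leaf 7 431 463) (node 432 (merge (leaf 7 399 399) (node 529 (merge (leaf 4 432 561) (node 497 (merge (leaf 4 400 400) (leaf 6 496 624))))))))))))))))) (merge (node 624 (merge (node 657 (merge (leaf 4 528 625) (node 656 (merge (leaf 4 560 689) (node 655 (merge (leaf 5 527 623) (leaf 5 559 687))))))) (merge (node 625 (merge (leaf 4 528 657) (node 593 (merge (leaf 4 496 496) (node 623 (merge (leaf 5 527 655) (node 622 (merge (leaf 2 590 594) (leaf 2 589 621))))))))) (merge (node 623 (merge (leaf 5 527 655) (node 496 (merge (leaf 5 495 591) (node 463 (merge (leaf 7 463 495) (node 464 (merge (leaf 7 431 431) (node 561 (merge (leaf 4 464 593) (node 529 (merge (leaf 4 432 432) (leaf 6 528 656))))))))))))) (merge (node 625 (merge (leaf 4 528 657) (node 496 (merge (leaf 4 496 593) (node 591 (merge (leaf 5 495 623) (node 590 (merge (leaf 0 589 589) (node 559 (merge (leaf 5 463 464) (node 656 (merge (leaf 7 559 688) (node 561 (merge (leaf 6 528 529) (leaf 1 558 562))))))))))))))) (node 657 (merge (leaf 4 528 625)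 (node 656 (merge (leaf 4 560 689) (node 687 (merge (leaf 5 559 655) (node 688 (merge (leaf 5 591 719) (node 561 (merge (leaf 6 528 529) (leaf 6 560 593)))))))))))))))) (merge (node 591 (merge (node 496 (merge (leaf 5 495 623) (node 465 (merge (leaf 6 464 497) (node 464 (merge (leaf 6 432 433) (node 463 (merge (leaf 7 431 431) (leaf 7 463 495))))))))) (merge (node 593 (merge (node 496 (merge (leaf 4 496 625) (node 465 (merge (leaf 6 464 497) (node 464 (merge (leaf 6 432 433) (node 463 (merge (leaf 7 431 431) (leaf 7 463 495))))))))) (node 590 (merge (node 561 (merge (leaf 2 558 562) (leaf 2 557 589))) (merge (node 621 (merge (leaf 1 589 622) (node 589 (merge (leaf 1 588 620) (node 557 (merge (leaf 3 556 556) (leaf 3 557 558))))))) (node 562 (merge (leaf 2 558 561) (node 594 (merge (leaf 2 559 563) (node 558 (merge (leaf 3 557 557) (leaf 3 558 559)))))))))))) (node 590 (merge (node 561 (merge (leaf 2 557 589) (node 593 (merge (leaf 2 558 562) (node 625 (merge (leaf 0 590 626) (leaf 7 528 657))))))) (merge (node 589 (merge (leaf 2 557 561) (node 588 (merge (leaf 2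 556 559) (node 620 (merge (leaf 1 587 619) (leaf 1 588 621))))))) (merge (node 593 (merge (node 625 (merge (leaf 0 590 626) (node 561 (merge (leaf 2 558 562) (leaf 7 528 657))))) (merge (node 562 (merge (leaf 2 558 561) (node 594 (merge (leaf 2 559 563) (node 558 (merge (leaf 3 557 557) (leaf 3 558 559))))))) (merge (node 626 (merge (leaf 0 590 625) (node 594 (merge (leaf 0 591 627) (node 622 (merge (leaf 1 589 621) (leaf 1 590 623))))))) (node 626 (merge (leaf 0 590 625) (node 594 (merge (leaf 0 591 627) (node 558 (merge (leaf 3 557 557) (leaf 3 558 559))))))))))) (node 621 (merge (node 589 (merge (leaf 1 588 620) (node 593 (merge (leaf 1 589 622) (node 557 (merge (leaf 3 556 556) (leaf 3 557 558))))))) (merge (node 593 (merge (leaf 1 589 622) (node 626 (merge (leaf 0 590 625) (node 594 (merge (leaf 0 591 627) (node 558 (merge (leaf 3 557 557) (leaf 3 558 559))))))))) (merge (node 620 (merge (leaf 1 588 589) (node 622 (merge (leaf 1 589 593) (leaf 2 588 623))))) (merge (node 589 (merge (leaf 1 588 620) (node 588 (merge (leaf 2 556 559) (node 556 (merge (leaf 3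 555 555) (leaf 3 556 557))))))) (merge (node 589 (merge (leaf 1 588 620) (node 559 (merge (leaf 2 556 588) (node 557 (merge (leaf 3 556 556) (node 558 (merge (leaf 2 525 529) (leaf 0 557 593))))))))) (node 589 (merge (leaf 1 588 620) (node 559 (merge (leaf 2 556 588) (node 557 (merge (leaf 3 556 556) (node 558 (merge (leaf 2 525 529) (node 525 (merge (leaf 3 524 524) (node 622 (merge (leaf 4 493 493) (leaf 7 525 654)))))))))))))))))))))))))) (hyp 6)))))))) (merge (hyp 7) (merge (hyp 8) (merge (hyp 9) (merge (hyp 10) (merge (hyp 11) (merge (hyp 12) (merge (hyp 13) (merge (node 496 (merge (node 592 (merge (node 625 (merge (leaf 4 496 593) (node 497 (merge (leaf 6 464 465) (node 624 (merge (leaf 6 496 529) (leaf 4 528 657))))))) (merge (node 465 (merge (leaf 6 464 497) (node 464 (merge (leaf 6 432 433) (node 591 (merge (leaf 5 463 559) (leaf 5 495 623))))))) (node 625 (merge (leaf 4 496 593) (node 624 (merge (leaf 4 528 657) (node 623 (merge (leaf 5 495 591) (leaf 5 527 655)))))))))) (merge (node 592 (merge (node 625 (merge (leaf 4 496 593) (node 624 (merge (leaf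 4 528 657) (node 495 (merge (leaf 7 463 463) (leaf 7 495 527))))))) (merge (node 623 (merge (leaf 5 495 591) (node 495 (merge (leaf 7 463 463) (node 624 (merge (leaf 7 495 527) (leaf 5 527 655))))))) (node 593 (merge (leaf 4 496 625) (node 591 (merge (leaf 5 495 623) (node 559 (merge (leaf 5 463 464) (node 558 (merge (leaf 0 557 557) (leaf 3 558 594)))))))))))) (merge (node 463 (merge (node 431 (merge (leaf 7 431 464) (node 495 (merge (leaf 4 399 399) (leaf 4 431 527))))) (merge (node 464 (merge (leaf 7 431 431) (node 465 (merge (leaf 6 432 433) (node 497 (merge (leaf 6 464 592) (node 498 (merge (leaf 0 462 462) (leaf 3 463 499))))))))) (node 592 (merge (leaf 7 463 495) (node 625 (merge (leaf 4 496 593) (node 497 (merge (leaf 6 464 465) (node 624 (merge (leaf 6 496 529) (leaf 4 528 657)))))))))))) (merge (node 495 (merge (node 592 (merge (leaf 7 463 463) (node 623 (merge (leaf 5 495 591) (node 624 (merge (leaf 7 495 527) (leaf 5 527 655))))))) (merge (node 592 (merge (leaf 7 463 463) (node 497 (merge (leaf 6 464 465) (node 624 (merge (leaf 6 496 529) (node 623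 (merge (leaf 5 495 591) (leaf 5 527 655))))))))) (merge (node 497 (merge (node 465 (merge (leaf 6 464 592) (node 433 (merge (leaf 5 400 401) (leaf 5 432 529))))) (merge (node 592 (merge (leaf 6 464 465) (node 623 (merge (leaf 5 495 591) (node 624 (merge (leaf 7 495 527) (leaf 5 527 655))))))) (node 530 (merge (node 531 (merge (leaf 0 495 498) (leaf 3 495 529))) (merge (node 498 (merge (leaf 0 495 531) (node 467 (merge (leaf 2 463 466) (node 499 (merge (leaf 2 464 468) (leaf 1 495 527))))))) (node 494 (merge (leaf 0 494 529) (node 461 (merge (leaf 3 461 462) (node 493 (merge (leaf 3 460 460) (node 492 (merge (leaf 0 492 527) (node 524 (merge (leaf 1 491 523) (leaf 1 492 525))))))))))))))))) (node 494 (merge (node 529 (merge (leaf 0 493 493) (node 530 (merge (leaf 0 494 497) (leaf 3 495 531))))) (merge (node 529 (merge (leaf 0 493 493) (node 530 (merge (leaf 3 494 527) (leaf 3 495 531))))) (merge (node 497 (merge (node 465 (merge (leaf 2 462 466) (node 433 (merge (leaf 5 400 401) (leaf 5 432 529))))) (merge (node 530 (merge (leaf 0 494 529) (node 498 (merge (leaf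 0 495 531) (node 526 (merge (leaf 1 493 525) (leaf 1 494 527))))))) (node 466 (merge (leaf 2 462 465) (node 498 (merge (leaf 2 463 467) (node 462 (merge (leaf 3 461 461) (leaf 3 462 463)))))))))) (node 497 (merge (node 466 (merge (leaf 2 462 465) (node 498 (merge (leaf 2 463 467) (node 462 (merge (leaf 3 461 461) (leaf 3 462 463))))))) (merge (node 461 (merge (leaf 3 461 462) (node 493 (merge (leaf 3 460 460) (node 492 (merge (leaf 0 492 527) (node 524 (merge (leaf 1 491 523) (leaf 1 492 525))))))))) (merge (node 525 (merge (leaf 1 493 526) (node 493 (merge (leaf 1 492 524) (node 492 (merge (leaf 0 492 527) (node 460 (merge (leaf 3 459 459) (leaf 3 460 461))))))))) (node 525 (merge (leaf 1 493 526) (node 493 (merge (leaf 1 492 524) (node 527 (merge (leaf 0 492 492) (node 498 (merge (leaf 1 495 499) (node 463 (merge (leaf 4 431 431) (leaf 3 462 462))))))))))))))))))))))) (hyp 14)))))) (merge (hyp 15) (merge (hyp 16) (merge (node 496 (merge (node 592 (merge (node 593 (merge (leaf 4 496 625) (node 464 (merge (leaf 4 464 561) (node 463 (merge (leaf 7 431 431) (leaf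 7 463 495))))))) (merge (node 625 (merge (leaf 4 496 593) (node 624 (merge (leaf 4 528 657) (node 623 (merge (leaf 5 495 591) (leaf 5 527 655))))))) (node 623 (merge (leaf 5 495 591) (node 495 (merge (leaf 7 463 463) (node 624 (merge (leaf 7 495 527) (leaf 5 527 655)))))))))) (merge (node 592 (merge (node 625 (merge (leaf 4 496 593) (node 497 (merge (leaf 6 464 465) (node 624 (merge (leaf 6 496 529) (leaf 4 528 657))))))) (merge (node 625 (merge (leaf 4 496 593) (node 624 (merge (leaf 4 528 657) (node 623 (merge (leaf 5 495 591) (leaf 5 527 655))))))) (merge (node 497 (merge (leaf 6 464 465) (node 624 (merge (leaf 6 496 529) (node 623 (merge (leaf 5 495 591) (leaf 5 527 655))))))) (node 593 (merge (leaf 4 496 625) (node 561 (merge (leaf 4 464 464) (node 591 (merge (leaf 5 495 623) (node 590 (merge (leaf 2 558 562) (leaf 2 557 589))))))))))))) (merge (node 495 (merge (node 592 (merge (leaf 7 463 463) (node 623 (merge (leaf 5 495 591) (node 624 (merge (leaf 7 495 527) (leaf 5 527 655))))))) (merge (node 592 (merge (leaf 7 463 463) (node 497 (merge (leaf 6 464 465)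 (node 624 (merge (leaf 6 496 529) (node 623 (merge (leaf 5 495 591) (leaf 5 527 655))))))))) (merge (node 497 (merge (node 465 (merge (leaf 6 464 592) (node 433 (merge (leaf 5 400 401) (leaf 5 432 529))))) (merge (node 592 (merge (leaf 6 464 465) (node 623 (merge (leaf 5 495 591) (node 624 (merge (leaf 7 495 527) (leaf 5 527 655))))))) (node 530 (merge (node 531 (merge (leaf 0 495 498) (leaf 3 495 529))) (merge (node 498 (merge (leaf 0 495 531) (node 467 (merge (leaf 2 463 466) (node 499 (merge (leaf 2 464 468) (leaf 1 495 527))))))) (node 494 (merge (leaf 0 494 529) (node 461 (merge (leaf 3 461 462) (node 493 (merge (leaf 3 460 460) (node 492 (merge (leaf 0 492 527) (node 524 (merge (leaf 1 491 523) (leaf 1 492 525))))))))))))))))) (node 494 (merge (node 529 (merge (leaf 0 493 493) (node 530 (merge (leaf 0 494 497) (leaf 3 495 531))))) (merge (node 529 (merge (leaf 0 493 493) (node 530 (merge (leaf 3 494 527) (leaf 3 495 531))))) (merge (node 497 (merge (node 465 (merge (leaf 2 462 466) (node 433 (merge (leaf 5 400 401) (leaf 5 432 529))))) (merge (node 530 (merge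 (leaf 0 494 529) (node 498 (merge (leaf 0 495 531) (node 526 (merge (leaf 1 493 525) (leaf 1 494 527))))))) (node 466 (merge (leaf 2 462 465) (node 498 (merge (leaf 2 463 467) (node 462 (merge (leaf 3 461 461) (leaf 3 462 463)))))))))) (node 497 (merge (node 466 (merge (leaf 2 462 465) (node 498 (merge (leaf 2 463 467) (node 462 (merge (leaf 3 461 461) (leaf 3 462 463))))))) (merge (node 461 (merge (leaf 3 461 462) (node 493 (merge (leaf 3 460 460) (node 492 (merge (leaf 0 492 527) (node 524 (merge (leaf 1 491 523) (leaf 1 492 525))))))))) (merge (node 525 (merge (leaf 1 493 526) (node 493 (merge (leaf 1 492 524) (node 492 (merge (leaf 0 492 527) (node 460 (merge (leaf 3 459 459) (leaf 3 460 461))))))))) (node 525 (merge (leaf 1 493 526) (node 493 (merge (leaf 1 492 524) (node 527 (merge (leaf 0 492 492) (node 498 (merge (leaf 1 495 499) (node 463 (merge (leaf 4 431 431) (leaf 3 462 462))))))))))))))))))))))) (hyp 17))))) (merge (hyp 18) (hyp 19)))))))))))))))))))))))))) nE_25 cE_25 14 (by decide +kernel)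

end Crest.Agent.H26Snaky
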