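import Crest.Agent.H26SnakyTree

/-! certificate data for S0047, part F 0 (computer generated) -/

set_option autoImplicit false
set_option maxRecDepth 100000

namespace Crest.Agent.H26Snaky

open T

def nF_0 : ℕ := 0x1800000000000000000000000000000000000000000000000000000000000000000000000000000000000000000000000000000000000000000000000000000000000
def cF_0 : ℕ := 0xc0000006c0000007c000001ff000000e6000001ff000000fe000000fc0000007c000000540000000000000000000000000000000000000000000000000000000000000000000000000000000000000000000
theorem lF_0 : S nF_0 cF_0 12 := S_of_chk [] trivial (node 529 (merge (node 494 (merge (node 495 (merge (leaf 3 494 530) (node 493 (merge (leaf 0 492 492) (leaf 0 493 496))))) (merge (node 493 (merge (leaf 3 493 526) (node 495 (merge (leaf 0 492 492) (leaf 0 493 496))))) (merge (node 530 (merge (leaf 3 494 495) (node 562 (merge (leaf 0 527 563) (node 526 (merge (leaf 0 526 561) (node 558 (merge (leaf 1 525 557) (leaf 1 526 559))))))))) (node 526 (merge (leaf 3 493 493) (node 562 (merge (leaf 0 526 561) (node 530 (merge (leaf 0 527 563) (node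 558 (merge (leaf 1 525 557) (leaf 1 526 559))))))))))))) (merge (node 530 (merge (node 563 (merge (leaf 0 527 562) (node 531 (merge (leaf 0 528 564) (node 559 (merge (leaf 1 526 558) (leaf 1 527 560))))))) (merge (node 563 (merge (leaf 0 527 562) (node 531 (merge (leaf 0 528 564) (node 499 (merge (leaf 2 495 498) (leaf 2 496 500))))))) (node 498 (merge (leaf 2 495 499) (node 526 (merge (leaf 2 494 497) (node 558 (merge (leaf 1 525 557) (leaf 1 526 559)))))))))) (merge (node 526 (merge (node 561 (merge (leaf 0 526 562) (node 525 (merge (leaf 0 525 560) (node 493 (merge (leaf 3 492 492) (leaf 3 493 494))))))) (merge (node 562 (merge (leaf 0 526 561) (node 530 (merge (leaf 0 527 563) (node 498 (merge (leaf 2 494 497) (leaf 2 495 499))))))) (node 498 (merge (leaf 2 494 497) (node 530 (merge (leaf 2 495 499) (node 494 (merge (leaf 3 493 493) (leaf 3 494 495)))))))))) (merge (node 526 (merge (node 557 (merge (leaf 1 525 558) (node 525 (merge (leaf 1 524 556) (node 493 (merge (leaf 3 492 492) (leaf 3 493 494))))))) (merge (node 498 (merge (leaf 2 494 497) (node 530 (merge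 (leaf 2 495 499) (node 494 (merge (leaf 3 493 493) (leaf 3 494 495))))))) (node 497 (merge (leaf 2 494 498) (node 525 (merge (leaf 2 493 496) (node 557 (merge (leaf 1 524 556) (leaf 1 525 558)))))))))) (merge (node 495 (merge (node 530 (merge (leaf 3 494 494) (node 563 (merge (leaf 0 527 562) (node 531 (merge (leaf 0 528 564) (node 499 (merge (leaf 2 495 498) (leaf 2 496 500))))))))) (merge (node 559 (merge (node 558 (merge (leaf 1 526 530) (node 557 (merge (leaf 2 524 556) (leaf 2 525 560))))) (merge (node 530 (merge (leaf 1 526 558) (node 563 (merge (leaf 0 527 562) (node 531 (merge (leaf 3 495 496) (leaf 0 528 564))))))) (node 464 (merge (node 496 (merge (leaf 5 431 432) (leaf 6 463 591))) (merge (node 463 (merge (leaf 6 431 432) (node 560 (merge (leaf 4 431 431) (leaf 4 463 592))))) (node 591 (merge (leaf 6 463 496) (node 622 (merge (leaf 5 494 590) (node 623 (merge (leaf 5 526 654) (node 560 (merge (leaf 6 527 655) (node 463 (merge (leaf 4 431 431) (leaf 4 463 592))))))))))))))))) (node 463 (merge (node 431 (merge (leaf 4 431 560) (node 496 (merge (leaf 4 399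 399) (node 432 (merge (leaf 6 399 400) (node 464 (merge (leaf 6 431 559) (leaf 4 432 561))))))))) (merge (node 431 (merge (leaf 4 431 560) (node 400 (merge (leaf 6 399 432) (node 399 (merge (leaf 6 367 368) (node 398 (merge (leaf 7 366 366) (leaf 7 398 430))))))))) (merge (node 431 (merge (leaf 4 431 560) (node 496 (merge (leaf 4 399 399) (node 430 (merge (leaf 7 398 398) (node 559 (merge (leaf 7 430 462) (node 591 (merge (leaf 6 463 464) (leaf 6 495 623))))))))))) (merge (node 559 (merge (node 590 (merge (leaf 5 462 558) (node 591 (merge (leaf 5 494 622) (node 462 (merge (leaf 7 430 430) (leaf 7 462 494))))))) (merge (node 464 (merge (leaf 6 431 432) (node 591 (merge (leaf 6 463 496) (node 590 (merge (leaf 5 462 558) (leaf 5 494 622))))))) (node 432 (merge (leaf 6 431 464) (node 431 (merge (leaf 6 399 400) (node 430 (merge (leaf 7 398 398) (leaf 7 430 462)))))))))) (node 559 (merge (node 558 (merge (leaf 5 462 590) (node 557 (merge (leaf 2 524 556) (leaf 2 525 560))))) (node 464 (merge (leaf 6 431 432) (node 462 (merge (leaf 7 430 430) (node 494 (merge (leaf 7 462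 591) (node 493 (merge (leaf 1 461 465) (leaf 0 492 492))))))))))))))))))) (node 497 (merge (node 526 (merge (leaf 2 494 498) (node 557 (merge (leaf 1 525 558) (node 525 (merge (leaf 1 524 556) (node 493 (merge (leaf 3 492 492) (leaf 3 493 494))))))))) (merge (node 465 (merge (node 433 (merge (leaf 5 432 560) (node 402 (merge (leaf 6 401 434) (node 401 (merge (leaf 6 369 370) (leaf 5 400 496))))))) (merge (node 561 (merge (node 466 (merge (leaf 6 433 434) (node 593 (merge (leaf 6 465 498) (node 464 (merge (leaf 7 432 432) (leaf 7 464 496))))))) (node 562 (merge (leaf 4 465 594) (node 563 (merge (leaf 3 528 564) (node 560 (merge (leaf 3 527 527) (leaf 5 464 592))))))))) (merge (node 433 (merge (leaf 5 432 560) (node 402 (merge (leaf 6 401 434) (node 401 (merge (leaf 6 369 370) (node 400 (merge (leaf 7 368 368) (leaf 7 400 432))))))))) (merge (node 433 (merge (leaf 5 432 560) (node 496 (merge (leaf 5 400 401) (node 498 (merge (leaf 1 495 499) (node 432 (merge (leaf 7 400 400) (node 561 (merge (leaf 4 432 464) (node 593 (merge (leaf 6 465 466) (leaf 7 496 625)))))))))))))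 (node 433 (merge (node 402 (merge (leaf 6 401 434) (node 401 (merge (leaf 6 369 370) (node 400 (merge (leaf 7 368 368) (leaf 7 400 432))))))) (merge (node 434 (merge (leaf 6 401 402) (node 561 (merge (leaf 6 433 466) (node 594 (merge (leaf 4 465 562) (node 593 (merge (leaf 4 497 626) (node 464 (merge (leaf 7 432 432) (leaf 7 464 496))))))))))) (merge (node 496 (merge (leaf 5 400 401) (node 432 (merge (leaf 7 400 400) (node 464 (merge (leaf 5 431 559) (node 431 (merge (leaf 7 399 399) (node 466 (merge (leaf 0 430 430) (leaf 3 431 467))))))))))) (node 496 (merge (leaf 5 400 401) (node 434 (merge (leaf 6 401 402) (node 561 (merge (leaf 6 433 466) (node 593 (merge (leaf 7 464 464) (leaf 7 496 625)))))))))))))))))) (node 465 (merge (node 433 (merge (leaf 5 432 560) (node 402 (merge (leaf 6 401 434) (node 401 (merge (leaf 6 369 370) (leaf 5 400 496))))))) (merge (node 433 (merge (leaf 5 432 560) (node 432 (merge (leaf 7 400 400) (node 561 (merge (leaf 7 432 464) (node 562 (merge (leaf 0 526 526) (leaf 4 465 594))))))))) (merge (node 526 (merge (node 525 (merge (leaf 2 493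 496) (node 493 (merge (leaf 3 492 492) (leaf 3 493 494))))) (merge (node 525 (merge (leaf 2 493 496) (node 557 (merge (leaf 1 524 556) (leaf 1 525 558))))) (merge (node 557 (merge (leaf 1 525 558) (node 525 (merge (leaf 1 524 556) (node 493 (merge (leaf 3 492 492) (leaf 3 493 494))))))) (node 561 (merge (leaf 0 526 562) (node 558 (merge (leaf 1 525 557) (node 560 (merge (leaf 5 464 592) (node 464 (merge (leaf 7 432 432) (node 593 (merge (leaf 4 464 496) (node 594 (merge (leaf 0 558 559) (leaf 4 497 626))))))))))))))))) (node 496 (merge (node 526 (merge (leaf 2 493 525) (node 558 (merge (leaf 1 525 557) (node 494 (merge (leaf 3 493 493) (node 495 (merge (leaf 2 462 466) (node 590 (merge (leaf 6 462 463) (leaf 6 494 622))))))))))) (merge (node 433 (merge (leaf 5 400 401) (node 434 (merge (leaf 6 401 402) (node 432 (merge (leaf 7 400 400) (node 464 (merge (leaf 5 431 559) (node 463 (merge (leaf 1 431 435) (leaf 2 430 462))))))))))) (merge (node 526 (merge (leaf 2 493 525) (node 558 (merge (leaf 1 525 557) (node 494 (merge (leaf 3 493 493) (node 495 (merge (leaf 2 462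 466) (node 462 (merge (leaf 3 461 461) (node 591 (merge (leaf 4 462 559) (node 590 (merge (leaf 6 462 463) (leaf 4 494 623))))))))))))))) (node 526 (merge (leaf 2 493 525) (node 558 (merge (leaf 1 525 557) (node 494 (merge (leaf 3 493 493) (node 495 (merge (leaf 2 462 466) (node 462 (merge (leaf 3 461 461) (node 591 (merge (leaf 4 462 559) (node 590 (merge (leaf 6 494 622) (leaf 4 494 623)))))))))))))))))))))))))))))))) nF_0 cF_0 12 (by decide +kernel)
def nF_1 : ℕ := 0x1800000000000000000000000000000000000000000000000000000000000000000000000000000000000000000000000000000000000000000000000000000000000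
def cF_1 : ℕ := 0x540000007c0000007c000000ec000001ff000000e6000001ff0000007c0000007c0000003c000000100000000000000000000000000000000000000000000000000000000000000000000000000000000000000000000
theorem lF_1 : S nF_1 cF_1 13 := S_of_chk [] trivial (node 529 (merge (node 494 (merge (node 495 (merge (leaf 3 494 530) (node 493 (merge (leaf 0 492 492) (leaf 0 493 496))))) (merge (node 493 (merge (leaf 3 493 526) (node 495 (merge (leaf 0 492 492) (leaf 0 493 496))))) (merge (node 530 (merge (leaf 3 494 495) (node 562 (merge (leaf 0 527 563) (node 526 (merge (leaf 0 526 561) (node 558 (merge (leaf 1 525 557) (leaf 1 526 559))))))))) (node 526 (merge (leaf 3 493 493) (node 562 (merge (leaf 0 526 561) (node 530 (merge (leaf 0 527 563) (node 558 (merge (leaf 1 525 557) (leaf 1 526 559))))))))))))) (merge (node 530 (merge (node 563 (merge (leaf 0 527 562) (node 531 (merge (leaf 0 528 564) (node 559 (merge (leaf 1 526 558) (leaf 1 527 560))))))) (merge (node 563 (merge (leaf 0 527 562) (node 531 (merge (leaf 0 528 564) (node 499 (merge (leaf 2 495 498) (leaf 2 496 500))))))) (node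 498 (merge (leaf 2 495 499) (node 526 (merge (leaf 2 494 497) (node 558 (merge (leaf 1 525 557) (leaf 1 526 559)))))))))) (merge (node 526 (merge (node 561 (merge (leaf 0 526 562) (node 525 (merge (leaf 0 525 560) (node 493 (merge (leaf 3 492 492) (leaf 3 493 494))))))) (merge (node 562 (merge (leaf 0 526 561) (node 530 (merge (leaf 0 527 563) (node 498 (merge (leaf 2 494 497) (leaf 2 495 499))))))) (node 498 (merge (leaf 2 494 497) (node 530 (merge (leaf 2 495 499) (node 494 (merge (leaf 3 493 493) (leaf 3 494 495)))))))))) (merge (node 526 (merge (node 557 (merge (leaf 1 525 558) (node 525 (merge (leaf 1 524 556) (node 493 (merge (leaf 3 492 492) (leaf 3 493 494))))))) (merge (node 498 (merge (leaf 2 494 497) (node 530 (merge (leaf 2 495 499) (node 494 (merge (leaf 3 493 493) (leaf 3 494 495))))))) (node 497 (merge (leaf 2 494 498) (node 525 (merge (leaf 2 493 496) (node 557 (merge (leaf 1 524 556) (leaf 1 525 558)))))))))) (merge (node 561 (merge (node 526 (merge (leaf 0 526 562) (node 557 (merge (leaf 1 525 558) (node 525 (merge (leaf 1 524 556) (node 493 (merge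 (leaf 3 492 492) (leaf 3 493 494))))))))) (merge (node 497 (merge (node 526 (merge (leaf 2 494 498) (node 557 (merge (leaf 1 525 558) (node 525 (merge (leaf 1 524 556) (node 493 (merge (leaf 3 492 492) (leaf 3 493 494))))))))) (merge (node 593 (merge (node 498 (merge (leaf 6 465 466) (node 499 (merge (leaf 1 495 496) (leaf 1 496 500))))) (node 625 (merge (node 657 (merge (leaf 7 528 560) (node 658 (merge (leaf 4 529 626) (leaf 4 561 690))))) (merge (node 657 (merge (leaf 7 528 560) (node 656 (merge (leaf 5 528 624) (leaf 5 560 688))))) (node 626 (merge (leaf 4 529 658) (node 594 (merge (leaf 4 497 497) (node 624 (merge (leaf 5 528 656) (node 623 (merge (leaf 2 591 595) (leaf 2 590 622)))))))))))))) (node 593 (merge (node 625 (merge (leaf 7 496 496) (node 657 (merge (leaf 7 528 560) (node 656 (merge (leaf 5 528 624) (leaf 5 560 688))))))) (merge (node 626 (merge (leaf 4 497 594) (node 625 (merge (leaf 7 496 496) (leaf 4 529 658))))) (merge (node 625 (merge (node 657 (merge (leaf 7 528 560) (node 658 (merge (leaf 4 529 626) (leaf 4 561 690))))) (merge (node 657 (merge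 (leaf 7 528 560) (node 656 (merge (leaf 5 528 624) (leaf 5 560 688))))) (node 626 (merge (leaf 4 529 658) (node 594 (merge (leaf 4 497 497) (node 624 (merge (leaf 5 528 656) (node 623 (merge (leaf 2 591 595) (leaf 2 590 622)))))))))))) (node 594 (merge (leaf 4 497 626) (node 496 (merge (leaf 7 464 464) (node 526 (merge (leaf 2 493 525) (node 558 (merge (leaf 1 525 557) (node 559 (merge (leaf 0 558 560) (node 494 (merge (leaf 3 493 493) (node 591 (merge (leaf 4 462 462) (leaf 6 495 623)))))))))))))))))))))) (node 593 (merge (node 496 (merge (leaf 7 496 625) (node 497 (merge (leaf 7 464 464) (node 498 (merge (leaf 6 465 466) (leaf 1 495 499))))))) (merge (node 625 (merge (leaf 7 496 496) (node 657 (merge (leaf 7 528 560) (node 658 (merge (leaf 4 529 626) (leaf 4 561 690))))))) (merge (node 497 (merge (node 498 (merge (leaf 6 465 466) (node 499 (merge (leaf 1 495 496) (leaf 1 496 500))))) (merge (node 594 (merge (leaf 4 497 626) (node 465 (merge (leaf 4 465 562) (node 433 (merge (leaf 5 432 560) (node 496 (merge (leaf 5 400 401) (leaf 7 464 464))))))))) (node 594 (merge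 (leaf 4 497 626) (node 465 (merge (leaf 4 465 562) (node 433 (merge (leaf 5 432 560) (node 432 (merge (leaf 7 400 400) (leaf 7 432 464)))))))))))) (node 625 (merge (node 657 (merge (leaf 7 528 560) (node 658 (merge (leaf 4 529 626) (leaf 4 561 690))))) (merge (node 657 (merge (leaf 7 528 560) (node 656 (merge (leaf 5 528 624) (leaf 5 560 688))))) (node 626 (merge (leaf 4 529 658) (node 594 (merge (leaf 4 497 497) (node 624 (merge (leaf 5 528 656) (node 623 (merge (leaf 2 591 595) (leaf 2 590 622))))))))))))))))))) (node 559 (merge (node 530 (merge (leaf 1 526 558) (node 563 (merge (leaf 0 527 562) (node 531 (merge (leaf 0 528 564) (node 499 (merge (leaf 2 495 498) (leaf 2 496 500))))))))) (merge (node 591 (merge (node 496 (merge (leaf 6 495 623) (node 495 (merge (leaf 6 463 464) (node 494 (merge (leaf 7 462 462) (leaf 0 493 493))))))) (merge (node 623 (merge (leaf 6 495 496) (node 656 (merge (leaf 4 527 624) (node 655 (merge (leaf 6 527 560) (leaf 4 559 688))))))) (merge (node 623 (merge (node 656 (merge (leaf 4 527 624) (node 655 (merge (leaf 6 527 560) (leaf 4 559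 688))))) (merge (node 656 (merge (leaf 4 527 624) (node 655 (merge (leaf 4 559 688) (node 654 (merge (leaf 5 526 622) (leaf 5 558 686))))))) (node 622 (merge (leaf 5 526 654) (node 495 (merge (leaf 5 494 590) (node 462 (merge (leaf 7 462 494) (node 463 (merge (leaf 7 430 430) (node 431 (merge (leaf 4 431 560) (node 432 (merge (leaf 6 399 400) (leaf 6 431 464)))))))))))))))) (node 495 (merge (node 494 (merge (leaf 7 462 462) (node 493 (merge (leaf 0 492 492) (leaf 0 493 496))))) (merge (node 590 (merge (leaf 5 494 622) (node 463 (merge (leaf 5 462 558) (node 462 (merge (leaf 7 430 430) (leaf 7 462 494))))))) (merge (node 590 (merge (leaf 5 494 622) (node 463 (merge (leaf 5 462 558) (node 431 (merge (leaf 4 431 560) (node 496 (merge (leaf 4 399 399) (leaf 6 463 464))))))))) (node 590 (merge (leaf 5 494 622) (node 463 (merge (leaf 5 462 558) (node 496 (merge (leaf 6 463 464) (node 431 (merge (leaf 4 399 399) (node 430 (merge (leaf 7 398 398) (leaf 7 430 462))))))))))))))))))) (node 495 (merge (node 494 (merge (leaf 3 494 530) (node 493 (merge (leaf 0 492 492) (leaf 0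 493 496))))) (merge (node 530 (merge (leaf 3 494 494) (node 563 (merge (leaf 0 527 562) (node 531 (merge (leaf 1 527 560) (leaf 0 528 564))))))) (merge (node 591 (merge (node 496 (merge (leaf 6 463 464) (node 494 (merge (leaf 7 462 462) (leaf 0 493 493))))) (node 622 (merge (leaf 5 494 590) (node 623 (merge (leaf 5 526 654) (node 656 (merge (leaf 4 527 624) (node 655 (merge (leaf 6 527 560) (leaf 4 559 688))))))))))) (node 463 (merge (node 430 (merge (leaf 7 430 462) (node 431 (merge (leaf 7 398 398) (node 399 (merge (leaf 4 399 496) (node 400 (merge (leaf 6 367 368) (leaf 6 399 432))))))))) (merge (node 431 (merge (leaf 4 431 560) (node 496 (merge (leaf 4 399 399) (node 432 (merge (leaf 6 399 400) (node 464 (merge (leaf 6 431 559) (leaf 4 432 561))))))))) (merge (node 430 (merge (leaf 7 430 462) (node 431 (merge (leaf 7 398 398) (node 496 (merge (leaf 4 399 399) (node 591 (merge (leaf 6 463 464) (leaf 6 495 623))))))))) (merge (node 464 (merge (leaf 6 431 432) (node 591 (merge (leaf 6 463 496) (node 622 (merge (leaf 5 494 590) (node 623 (merge (leaf 5 526 654) (node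 656 (merge (leaf 4 527 624) (node 655 (merge (leaf 6 527 560) (leaf 4 559 688))))))))))))) (node 560 (merge (leaf 4 431 431) (node 530 (merge (leaf 1 527 531) (node 562 (merge (leaf 0 527 563) (node 498 (merge (leaf 2 495 499) (node 464 (merge (leaf 6 431 432) (node 462 (merge (leaf 7 430 430) (node 465 (merge (leaf 0 462 497) (node 433 (merge (leaf 2 430 434) (leaf 7 433 466))))))))))))))))))))))))))))))))))) nF_1 cF_1 13 (by decide +kernel)
def nF_2 : ℕ := 0x1800000000000000000000000000000000000000000000000000000000000000000000000000000000000000000000000000000000000000000000000000000000000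
def cF_2 : ℕ := 0x140000001e0000001f8000001f000001ff000000e7000001ff0000003e0000001e0000001c000000100000000000000000000000000000000000000000000000000000000000000000000000000000000000000000000
theorem lF_2 : S nF_2 cF_2 11 := S_of_chk [] trivial (node 529 (merge (node 494 (merge (node 495 (merge (leaf 3 494 530) (node 493 (merge (leaf 0 492 492) (leaf 0 493 496))))) (merge (node 493 (merge (leaf 3 493 526) (node 495 (merge (leaf 0 492 492) (leaf 0 493 496))))) (merge (node 530 (merge (leaf 3 494 495) (node 562 (merge (leaf 0 527 563) (node 526 (merge (leaf 0 526 561) (node 558 (merge (leaf 1 525 557) (leaf 1 526 559))))))))) (node 526 (merge (leaf 3 493 493) (node 562 (merge (leaf 0 526 561) (node 530 (merge (leaf 0 527 563) (node 558 (merge (leaf 1 525 557) (leaf 1 526 559))))))))))))) (merge (node 530 (merge (node 563 (merge (leaf 0 527 562) (node 531 (merge (leaf 0 528 564) (node 559 (merge (leaf 1 526 558) (leaf 1 527 560))))))) (merge (node 563 (merge (leaf 0 527 562) (node 531 (merge (leaf 0 528 564) (node 499 (merge (leaf 2 495 498) (leaf 2 496 500))))))) (node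 498 (merge (leaf 2 495 499) (node 526 (merge (leaf 2 494 497) (node 558 (merge (leaf 1 525 557) (leaf 1 526 559)))))))))) (merge (node 526 (merge (node 561 (merge (leaf 0 526 562) (node 525 (merge (leaf 0 525 560) (node 493 (merge (leaf 3 492 492) (leaf 3 493 494))))))) (merge (node 562 (merge (leaf 0 526 561) (node 530 (merge (leaf 0 527 563) (node 498 (merge (leaf 2 494 497) (leaf 2 495 499))))))) (node 498 (merge (leaf 2 494 497) (node 530 (merge (leaf 2 495 499) (node 494 (merge (leaf 3 493 493) (leaf 3 494 495)))))))))) (merge (node 559 (merge (node 558 (merge (leaf 1 526 530) (node 557 (merge (leaf 2 524 556) (leaf 2 525 560))))) (merge (node 530 (merge (leaf 1 526 558) (node 499 (merge (leaf 2 495 498) (node 531 (merge (leaf 2 496 500) (node 495 (merge (leaf 3 494 494) (leaf 3 495 496))))))))) (merge (node 591 (merge (node 496 (merge (leaf 6 495 623) (node 464 (merge (leaf 5 431 432) (leaf 5 463 560))))) (merge (node 496 (merge (leaf 6 495 623) (node 495 (merge (leaf 6 463 464) (node 494 (merge (leaf 7 462 462) (leaf 0 493 493))))))) (merge (node 623 (merge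 (node 656 (merge (leaf 4 527 624) (node 655 (merge (leaf 6 527 560) (leaf 4 559 688))))) (merge (node 655 (merge (leaf 6 527 560) (node 654 (merge (leaf 5 526 622) (leaf 5 558 686))))) (node 624 (merge (leaf 4 527 656) (node 495 (merge (leaf 4 495 592) (node 622 (merge (leaf 5 494 590) (leaf 5 526 654)))))))))) (node 495 (merge (node 494 (merge (leaf 7 462 462) (node 493 (merge (leaf 0 492 492) (leaf 0 493 496))))) (node 590 (merge (leaf 5 494 622) (node 463 (merge (leaf 5 462 558) (node 560 (merge (leaf 4 431 431) (leaf 4 463 592))))))))))))) (node 591 (merge (node 496 (merge (leaf 6 495 623) (node 495 (merge (leaf 6 463 464) (node 494 (merge (leaf 7 462 462) (leaf 0 493 493))))))) (merge (node 623 (merge (leaf 6 495 496) (node 656 (merge (leaf 4 527 624) (node 655 (merge (leaf 6 527 560) (leaf 4 559 688))))))) (merge (node 623 (merge (node 656 (merge (leaf 4 527 624) (node 655 (merge (leaf 6 527 560) (leaf 4 559 688))))) (merge (node 655 (merge (leaf 6 527 560) (node 654 (merge (leaf 5 526 622) (leaf 5 558 686))))) (node 624 (merge (leaf 4 527 656) (node 495 (merge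 (leaf 4 495 592) (node 622 (merge (leaf 5 494 590) (leaf 5 526 654)))))))))) (node 530 (merge (node 495 (merge (leaf 3 494 494) (node 496 (merge (leaf 6 463 464) (leaf 3 495 531))))) (merge (node 499 (merge (leaf 2 495 498) (node 531 (merge (leaf 2 496 500) (leaf 1 527 560))))) (node 495 (merge (leaf 3 494 494) (node 592 (merge (leaf 4 495 624) (node 560 (merge (leaf 4 463 463) (node 590 (merge (leaf 5 494 622) (node 589 (merge (leaf 2 557 561) (leaf 2 556 588)))))))))))))))))))))) (node 559 (merge (node 591 (merge (node 496 (merge (leaf 6 495 623) (node 464 (merge (leaf 5 431 432) (leaf 5 463 560))))) (merge (node 496 (merge (leaf 6 495 623) (node 495 (merge (leaf 6 463 464) (node 494 (merge (leaf 7 462 462) (leaf 0 493 493))))))) (merge (node 623 (merge (node 656 (merge (leaf 4 527 624) (node 655 (merge (leaf 6 527 560) (leaf 4 559 688))))) (merge (node 655 (merge (leaf 6 527 560) (node 654 (merge (leaf 5 526 622) (leaf 5 558 686))))) (node 624 (merge (leaf 4 527 656) (node 495 (merge (leaf 4 495 592) (node 622 (merge (leaf 5 494 590) (leaf 5 526 654)))))))))) (node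 495 (merge (node 494 (merge (leaf 7 462 462) (node 493 (merge (leaf 0 492 492) (leaf 0 493 496))))) (node 590 (merge (leaf 5 494 622) (node 463 (merge (leaf 5 462 558) (node 560 (merge (leaf 4 431 431) (leaf 4 463 592))))))))))))) (merge (node 561 (merge (node 526 (merge (leaf 0 526 562) (node 525 (merge (leaf 0 525 560) (node 497 (merge (leaf 2 493 496) (leaf 2 494 498))))))) (merge (node 526 (merge (leaf 0 526 562) (node 497 (merge (leaf 2 494 498) (node 525 (merge (leaf 2 493 496) (node 557 (merge (leaf 1 524 556) (leaf 1 525 558))))))))) (merge (node 560 (merge (node 526 (merge (leaf 0 525 525) (node 497 (merge (leaf 2 494 498) (node 592 (merge (leaf 5 464 465) (leaf 6 496 624))))))) (node 558 (merge (leaf 2 525 557) (node 590 (merge (leaf 1 557 589) (node 495 (merge (leaf 5 462 463) (node 622 (merge (leaf 5 494 591) (leaf 6 526 654))))))))))) (node 591 (merge (node 623 (merge (leaf 6 495 496) (node 656 (merge (leaf 4 527 624) (node 655 (merge (leaf 6 527 560) (leaf 4 559 688))))))) (merge (node 623 (merge (leaf 6 495 496) (node 624 (merge (leaf 4 527 656) (node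 495 (merge (leaf 4 495 592) (node 622 (merge (leaf 5 494 590) (leaf 5 526 654))))))))) (merge (node 590 (merge (node 622 (merge (leaf 5 494 495) (node 654 (merge (leaf 5 526 623) (leaf 6 558 686))))) (merge (node 560 (merge (leaf 1 558 562) (node 589 (merge (leaf 1 557 558) (leaf 2 556 588))))) (node 622 (merge (leaf 5 494 495) (node 654 (merge (leaf 6 526 558) (leaf 6 558 686)))))))) (node 590 (merge (node 622 (merge (leaf 5 494 495) (node 654 (merge (leaf 6 526 558) (leaf 6 558 686))))) (merge (node 560 (merge (leaf 1 558 562) (node 589 (merge (leaf 1 557 558) (leaf 2 556 588))))) (node 560 (merge (leaf 1 558 562) (node 592 (merge (leaf 2 557 589) (node 495 (merge (leaf 5 494 622) (leaf 4 495 624)))))))))))))))))) (merge (node 526 (merge (node 494 (merge (leaf 3 493 493) (node 462 (merge (leaf 4 430 430) (node 591 (merge (leaf 7 462 495) (leaf 4 462 558))))))) (node 561 (merge (leaf 0 526 562) (node 560 (merge (leaf 0 525 525) (node 497 (merge (leaf 2 494 498) (node 592 (merge (leaf 5 464 465) (leaf 6 496 624))))))))))) (merge (node 526 (merge (node 497 (merge (leaf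 2 494 498) (node 525 (merge (leaf 2 493 496) (node 560 (merge (leaf 0 524 524) (leaf 0 525 561))))))) (merge (node 557 (merge (leaf 1 525 558) (node 525 (merge (leaf 1 524 556) (node 493 (merge (leaf 3 492 492) (leaf 3 493 494))))))) (node 558 (merge (leaf 1 525 557) (node 497 (merge (leaf 2 494 498) (node 494 (merge (leaf 3 493 493) (node 462 (merge (leaf 4 430 430) (node 461 (merge (leaf 7 429 429) (node 496 (merge (leaf 3 461 495) (node 464 (merge (leaf 5 431 432) (leaf 0 461 463)))))))))))))))))) (merge (node 496 (merge (node 591 (merge (leaf 6 495 623) (node 464 (merge (leaf 5 431 432) (leaf 5 463 560))))) (merge (node 591 (merge (leaf 6 495 623) (node 526 (merge (node 494 (merge (leaf 3 493 493) (node 462 (merge (leaf 4 430 430) (leaf 4 462 558))))) (merge (node 497 (merge (leaf 2 494 498) (node 525 (merge (leaf 2 493 496) (node 557 (merge (leaf 1 524 556) (leaf 1 525 558))))))) (node 497 (merge (leaf 2 494 498) (leaf 2 493 525)))))))) (node 526 (merge (node 497 (merge (leaf 2 494 498) (leaf 2 493 525))) (merge (node 558 (merge (leaf 1 525 557) (node 497 (merge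 (leaf 2 494 498) (node 494 (merge (leaf 3 493 493) (node 462 (merge (leaf 4 430 430) (node 463 (merge (leaf 6 430 431) (node 461 (merge (leaf 7 429 429) (leaf 0 461 464))))))))))))) (node 557 (merge (leaf 1 525 558) (node 525 (merge (leaf 1 524 556) (node 560 (merge (leaf 0 524 524) (leaf 0 525 561))))))))))))) (merge (node 591 (merge (node 496 (merge (leaf 6 495 623) (node 464 (merge (leaf 5 431 432) (leaf 5 463 560))))) (merge (node 496 (merge (leaf 6 495 623) (node 495 (merge (leaf 6 463 464) (node 494 (merge (leaf 7 462 462) (leaf 0 493 493))))))) (merge (node 623 (merge (node 656 (merge (leaf 4 527 624) (node 655 (merge (leaf 6 527 560) (leaf 4 559 688))))) (merge (node 655 (merge (leaf 6 527 560) (node 654 (merge (leaf 5 526 622) (leaf 5 558 686))))) (node 624 (merge (leaf 4 527 656) (node 495 (merge (leaf 4 495 592) (node 622 (merge (leaf 5 494 590) (leaf 5 526 654)))))))))) (node 495 (merge (node 494 (merge (leaf 7 462 462) (node 493 (merge (leaf 0 492 492) (leaf 0 493 496))))) (merge (node 592 (merge (leaf 4 495 624) (node 463 (merge (leaf 4 463 560) (node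 430 (merge (leaf 7 430 462) (node 431 (merge (leaf 7 398 398) (node 399 (merge (leaf 4 399 496) (node 400 (merge (leaf 6 367 368) (leaf 6 399 432))))))))))))) (merge (node 592 (merge (leaf 4 495 624) (node 560 (merge (leaf 4 463 463) (node 590 (merge (leaf 5 494 622) (node 589 (merge (leaf 2 557 561) (leaf 2 556 588))))))))) (node 592 (merge (leaf 4 495 624) (node 560 (merge (leaf 4 463 463) (node 496 (merge (leaf 5 463 464) (node 497 (merge (leaf 6 464 465) (node 526 (merge (leaf 1 494 498) (leaf 2 493 525))))))))))))))))))) (node 591 (merge (node 496 (merge (leaf 6 495 623) (node 495 (merge (leaf 6 463 464) (node 494 (merge (leaf 7 462 462) (leaf 0 493 493))))))) (merge (node 623 (merge (leaf 6 495 496) (node 656 (merge (leaf 4 527 624) (node 655 (merge (leaf 4 559 688) (node 654 (merge (leaf 5 526 622) (leaf 5 558 686))))))))) (merge (node 526 (merge (node 494 (merge (leaf 3 493 493) (node 462 (merge (leaf 4 430 430) (leaf 4 462 558))))) (merge (node 623 (merge (leaf 7 494 494) (node 624 (merge (leaf 4 527 656) (node 495 (merge (leaf 4 495 592) (node 622 (merge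 (leaf 5 494 590) (leaf 5 526 654))))))))) (node 558 (merge (leaf 1 525 557) (node 623 (merge (leaf 7 526 655) (node 622 (merge (leaf 5 526 654) (node 590 (merge (leaf 5 494 495) (node 621 (merge (leaf 5 525 653) (node 620 (merge (leaf 2 588 592) (leaf 2 587 619)))))))))))))))) (node 495 (merge (node 494 (merge (leaf 7 462 462) (node 493 (merge (leaf 0 492 492) (leaf 0 493 496))))) (merge (node 590 (merge (leaf 5 494 622) (node 463 (merge (leaf 5 462 558) (node 496 (merge (leaf 6 463 464) (node 431 (merge (leaf 4 399 399) (node 430 (merge (leaf 7 398 398) (leaf 7 430 462))))))))))) (merge (node 590 (merge (leaf 5 494 622) (node 558 (merge (leaf 5 462 463) (node 526 (merge (leaf 1 525 557) (node 494 (merge (leaf 4 462 462) (leaf 3 493 493))))))))) (node 590 (merge (leaf 5 494 622) (node 558 (merge (leaf 5 462 463) (node 526 (merge (leaf 1 525 557) (node 496 (merge (leaf 6 463 464) (node 525 (merge (leaf 2 493 497) (leaf 2 492 524))))))))))))))))))))))))))))))) nF_2 cF_2 11 (by decide +kernel)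
def nF_3 : ℕ := 0x1800000000000000000000000000000000000000000000000000000000000000000000000000000000000000000000000000000000000000000000000000000000000
def cF_3 : ℕ := 0xa0000003e0000003e000000ff000000ff80000027000000ff8000007e0000007e0000003a000000380000000000000000000000000000000000000000000000000000000000000000000000000000000000000000000
theorem lF_3 : S nF_3 cF_3 12 := S_of_chk [] trivial (node 496 (merge (node 464 (merge (node 559 (merge (leaf 5 431 432) (node 591 (merge (leaf 5 463 560) (leaf 6 495 623))))) (merge (node 432 (merge (leaf 5 431 559) (node 529 (merge (leaf 4 432 561) (node 400 (merge (leaf 4 400 497) (node 401 (merge (leaf 6 368 369) (leaf 6 400 433))))))))) (merge (node 560 (merge (node 561 (merge (leaf 4 464 593) (node 526 (merge (leaf 0 525 525) (node 562 (merge (leaf 0 526 529) (leaf 3 527 563))))))) (node 465 (merge (leaf 6 432 433) (node 592 (merge (leaf 6 464 497) (node 591 (merge (leaf 5 463 559) (leaf 5 495 623))))))))) (node 433 (merge (node 401 (merge (leaf 6 400 432) (node 465 (merge (leaf 5 368 369) (leaf 5 400 497))))) (merge (node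 465 (merge (leaf 6 432 560) (node 401 (merge (leaf 5 368 369) (leaf 5 400 497))))) (merge (node 432 (merge (leaf 6 400 401) (node 561 (merge (leaf 4 432 529) (node 560 (merge (leaf 4 464 593) (node 431 (merge (leaf 7 399 399) (leaf 7 431 463))))))))) (node 560 (merge (leaf 6 432 465) (node 561 (merge (leaf 4 464 593) (node 526 (merge (leaf 0 525 525) (node 529 (merge (leaf 4 432 432) (leaf 0 526 562))))))))))))))))) (merge (node 464 (merge (node 559 (merge (leaf 5 431 432) (node 591 (merge (leaf 6 463 495) (leaf 6 495 623))))) (merge (node 432 (merge (leaf 5 431 559) (node 433 (merge (leaf 6 400 401) (node 560 (merge (leaf 6 432 465) (node 431 (merge (leaf 7 399 399) (leaf 7 431 463))))))))) (merge (node 560 (merge (node 561 (merge (leaf 4 464 593) (node 562 (merge (leaf 3 527 563) (node 559 (merge (leaf 3 526 526) (leaf 5 463 591))))))) (node 465 (merge (leaf 6 432 433) (node 592 (merge (leaf 6 464 497) (node 463 (merge (leaf 7 431 431) (leaf 7 463 495))))))))) (node 432 (merge (node 401 (merge (leaf 6 400 433) (node 400 (merge (leaf 6 368 369) (node 399 (merge (leaf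 7 367 367) (leaf 7 399 431))))))) (merge (node 431 (merge (leaf 7 399 399) (node 560 (merge (leaf 7 431 463) (node 593 (merge (leaf 4 464 561) (node 592 (merge (leaf 4 496 625) (node 623 (merge (leaf 5 495 591) (node 624 (merge (leaf 7 495 495) (leaf 5 527 655))))))))))))) (node 495 (merge (leaf 5 399 400) (node 433 (merge (leaf 6 400 401) (node 560 (merge (leaf 6 432 465) (node 592 (merge (leaf 7 463 463) (leaf 7 495 624)))))))))))))))) (merge (node 464 (merge (node 559 (merge (leaf 5 431 432) (node 591 (merge (leaf 6 463 495) (leaf 6 495 623))))) (merge (node 432 (merge (leaf 5 431 559) (node 433 (merge (leaf 6 400 401) (node 560 (merge (leaf 6 432 465) (node 431 (merge (leaf 7 399 399) (leaf 7 431 463))))))))) (merge (node 560 (merge (node 561 (merge (leaf 4 464 593) (node 526 (merge (leaf 0 525 525) (node 562 (merge (leaf 0 526 529) (leaf 3 527 563))))))) (node 591 (merge (leaf 5 463 559) (node 463 (merge (leaf 7 431 431) (node 592 (merge (leaf 7 463 495) (leaf 5 495 623))))))))) (node 432 (merge (node 401 (merge (leaf 6 400 433) (node 400 (merge (leaf 6 368 369)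 (node 399 (merge (leaf 7 367 367) (leaf 7 399 431))))))) (merge (node 431 (merge (leaf 7 399 399) (node 560 (merge (leaf 7 431 463) (node 593 (merge (leaf 4 464 561) (node 592 (merge (leaf 4 496 625) (node 623 (merge (leaf 5 495 591) (node 624 (merge (leaf 7 495 495) (leaf 5 527 655))))))))))))) (node 495 (merge (leaf 5 399 400) (node 433 (merge (leaf 6 400 401) (node 560 (merge (leaf 6 432 465) (node 592 (merge (leaf 7 463 463) (leaf 7 495 624)))))))))))))))) (merge (node 561 (merge (node 560 (merge (node 593 (merge (leaf 4 464 464) (node 625 (merge (leaf 4 496 592) (leaf 7 528 657))))) (node 526 (merge (leaf 0 525 525) (node 562 (merge (leaf 3 526 559) (leaf 3 527 563))))))) (merge (node 526 (merge (node 562 (merge (leaf 0 526 529) (node 560 (merge (leaf 3 526 559) (leaf 3 527 563))))) (node 525 (merge (leaf 2 493 497) (node 524 (merge (leaf 2 492 495) (node 556 (merge (leaf 1 523 555) (leaf 1 524 557))))))))) (merge (node 464 (merge (node 593 (merge (leaf 4 464 560) (node 529 (merge (leaf 7 464 497) (leaf 7 496 625))))) (node 432 (merge (leaf 5 431 559) (node 401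 (merge (leaf 6 400 433) (node 400 (merge (leaf 6 368 369) (node 399 (merge (leaf 7 367 367) (leaf 7 399 431))))))))))) (node 529 (merge (node 464 (merge (leaf 4 432 432) (node 593 (merge (leaf 7 464 497) (leaf 7 496 625))))) (node 526 (merge (leaf 0 526 562) (node 557 (merge (leaf 1 525 558) (node 525 (merge (leaf 1 524 556) (node 493 (merge (leaf 3 492 492) (leaf 3 493 494))))))))))))))) (merge (node 526 (merge (node 525 (merge (leaf 2 493 497) (node 556 (merge (leaf 1 524 557) (node 524 (merge (leaf 1 523 555) (node 492 (merge (leaf 3 491 491) (leaf 3 492 493))))))))) (merge (node 525 (merge (node 524 (merge (leaf 2 492 495) (node 492 (merge (leaf 3 491 491) (leaf 3 492 493))))) (merge (node 524 (merge (leaf 2 492 495) (node 556 (merge (leaf 1 523 555) (leaf 1 524 557))))) (node 557 (merge (leaf 1 524 556) (node 558 (merge (leaf 1 525 529) (node 493 (merge (leaf 3 492 492) (node 590 (merge (leaf 4 461 461) (leaf 7 493 622)))))))))))) (node 561 (merge (node 562 (merge (leaf 0 526 529) (node 560 (merge (leaf 3 526 559) (leaf 3 527 563))))) (merge (node 529 (merge (leaf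 0 526 562) (node 497 (merge (leaf 2 494 498) (node 464 (merge (leaf 4 432 432) (leaf 7 464 593))))))) (merge (node 560 (merge (node 593 (merge (leaf 4 464 464) (node 625 (merge (leaf 4 496 592) (leaf 7 528 657))))) (node 562 (merge (leaf 3 527 563) (node 559 (merge (leaf 3 526 526) (node 591 (merge (leaf 1 558 590) (leaf 6 495 623))))))))) (node 464 (merge (node 432 (merge (leaf 4 432 529) (leaf 5 431 559))) (merge (node 559 (merge (leaf 5 431 432) (node 591 (merge (leaf 6 463 495) (leaf 6 495 623))))) (node 560 (merge (leaf 4 464 593) (node 463 (merge (leaf 7 431 431) (node 592 (merge (leaf 7 463 495) (node 623 (merge (leaf 5 495 591) (node 624 (merge (leaf 5 527 655) (node 497 (merge (leaf 6 464 465) (leaf 6 496 529))))))))))))))))))))))) (merge (node 526 (merge (node 525 (merge (leaf 2 493 497) (node 556 (merge (leaf 1 524 557) (node 524 (merge (leaf 1 523 555) (node 492 (merge (leaf 3 491 491) (leaf 3 492 493))))))))) (merge (node 525 (merge (node 524 (merge (leaf 2 492 495) (node 492 (merge (leaf 3 491 491) (leaf 3 492 493))))) (merge (node 524 (merge (leaf 2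 492 495) (node 556 (merge (leaf 1 523 555) (leaf 1 524 557))))) (node 557 (merge (leaf 1 524 556) (node 558 (merge (leaf 1 525 529) (node 493 (merge (leaf 3 492 492) (node 590 (merge (leaf 4 461 461) (leaf 7 493 622)))))))))))) (node 497 (merge (node 498 (merge (leaf 1 495 499) (leaf 2 494 529))) (merge (node 498 (merge (leaf 1 494 495) (leaf 1 495 499))) (node 560 (merge (node 592 (merge (leaf 6 464 465) (node 624 (merge (leaf 7 495 495) (leaf 6 496 529))))) (merge (node 464 (merge (node 559 (merge (leaf 5 431 432) (leaf 5 463 591))) (merge (node 559 (merge (leaf 5 431 432) (leaf 5 463 591))) (merge (node 433 (merge (leaf 6 432 465) (node 432 (merge (leaf 6 400 401) (node 431 (merge (leaf 7 399 399) (leaf 7 431 463))))))) (node 559 (merge (leaf 5 463 591) (node 465 (merge (leaf 6 432 433) (node 463 (merge (leaf 7 431 431) (node 462 (merge (leaf 0 461 461) (node 430 (merge (leaf 3 429 429) (leaf 4 430 494))))))))))))))) (node 591 (merge (node 559 (merge (leaf 5 463 464) (leaf 6 495 623))) (merge (node 592 (merge (leaf 5 495 623) (node 624 (merge (leaf 7 495 495) (leaf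 6 496 529))))) (node 464 (merge (leaf 5 463 559) (node 463 (merge (leaf 7 431 431) (node 592 (merge (leaf 7 463 495) (node 529 (merge (leaf 6 496 624) (node 432 (merge (leaf 4 400 400) (leaf 4 432 561))))))))))))))))))))))) (merge (node 526 (merge (node 525 (merge (leaf 2 493 497) (node 556 (merge (leaf 1 524 557) (node 524 (merge (leaf 1 523 555) (node 492 (merge (leaf 3 491 491) (leaf 3 492 493))))))))) (merge (node 525 (merge (node 524 (merge (leaf 2 492 495) (node 492 (merge (leaf 3 491 491) (leaf 3 492 493))))) (merge (node 524 (merge (leaf 2 492 495) (node 556 (merge (leaf 1 523 555) (leaf 1 524 557))))) (node 557 (merge (leaf 1 524 556) (node 558 (merge (leaf 1 525 529) (node 493 (merge (leaf 3 492 492) (node 590 (merge (leaf 4 461 461) (leaf 7 493 622)))))))))))) (node 497 (merge (node 498 (merge (leaf 1 495 499) (leaf 2 494 529))) (merge (node 498 (merge (leaf 1 494 495) (leaf 1 495 499))) (node 464 (merge (node 432 (merge (leaf 5 431 559) (node 400 (merge (leaf 5 399 495) (leaf 4 400 529))))) (merge (node 432 (merge (leaf 5 431 559) (node 400 (merge (leaf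 5 399 495) (leaf 4 400 529))))) (merge (node 559 (merge (leaf 5 431 432) (node 591 (merge (leaf 5 463 560) (leaf 6 495 623))))) (merge (node 560 (merge (node 592 (merge (leaf 6 464 465) (node 463 (merge (leaf 7 431 431) (leaf 7 463 495))))) (merge (node 592 (merge (leaf 6 464 465) (node 625 (merge (leaf 4 496 593) (node 624 (merge (leaf 4 528 657) (node 623 (merge (leaf 5 495 591) (leaf 5 527 655))))))))) (merge (node 463 (merge (leaf 7 431 431) (node 592 (merge (leaf 7 463 495) (node 625 (merge (leaf 4 496 593) (node 624 (merge (leaf 4 528 657) (node 623 (merge (leaf 5 495 591) (leaf 5 527 655))))))))))) (node 559 (merge (leaf 5 463 591) (node 465 (merge (leaf 6 432 433) (node 463 (merge (leaf 7 431 431) (node 462 (merge (leaf 0 461 461) (node 430 (merge (leaf 3 429 429) (leaf 4 430 494))))))))))))))) (node 433 (merge (node 401 (merge (leaf 6 400 432) (node 465 (merge (leaf 5 368 369) (leaf 5 400 497))))) (merge (node 432 (merge (leaf 6 400 401) (node 431 (merge (leaf 7 399 399) (node 463 (merge (leaf 7 431 560) (node 462 (merge (leaf 1 430 434) (leaf 2 429 461)))))))))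 (node 560 (merge (leaf 6 432 465) (node 463 (merge (leaf 7 431 431) (node 592 (merge (leaf 7 463 495) (node 623 (merge (leaf 5 495 591) (node 624 (merge (leaf 6 496 529) (leaf 5 527 655))))))))))))))))))))))))) (merge (node 526 (merge (node 525 (merge (leaf 2 493 497) (node 556 (merge (leaf 1 524 557) (node 524 (merge (leaf 1 523 555) (node 492 (merge (leaf 3 491 491) (leaf 3 492 493))))))))) (merge (node 525 (merge (node 524 (merge (leaf 2 492 495) (node 492 (merge (leaf 3 491 491) (leaf 3 492 493))))) (merge (node 524 (merge (leaf 2 492 495) (node 556 (merge (leaf 1 523 555) (leaf 1 524 557))))) (node 557 (merge (leaf 1 524 556) (node 558 (merge (leaf 1 525 529) (node 493 (merge (leaf 3 492 492) (node 590 (merge (leaf 4 461 461) (leaf 7 493 622)))))))))))) (node 497 (merge (node 498 (merge (leaf 1 495 499) (leaf 2 494 529))) (merge (node 498 (merge (leaf 1 494 495) (leaf 1 495 499))) (node 560 (merge (node 592 (merge (leaf 6 464 465) (node 624 (merge (leaf 7 495 495) (leaf 6 496 529))))) (merge (node 561 (merge (node 562 (merge (leaf 0 526 529) (leaf 3 527 563)))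 (node 593 (merge (leaf 4 464 464) (node 625 (merge (leaf 4 496 592) (leaf 7 528 657))))))) (merge (node 592 (merge (leaf 6 464 465) (node 625 (merge (leaf 4 496 593) (node 624 (merge (leaf 4 528 657) (node 623 (merge (leaf 5 495 591) (leaf 5 527 655))))))))) (node 464 (merge (node 561 (merge (leaf 4 464 593) (node 529 (merge (leaf 4 432 432) (leaf 0 526 562))))) (merge (node 433 (merge (leaf 6 432 465) (node 432 (merge (leaf 6 400 401) (node 431 (merge (leaf 7 399 399) (leaf 7 431 463))))))) (merge (node 561 (merge (leaf 4 464 593) (node 562 (merge (leaf 0 526 529) (leaf 3 527 563))))) (merge (node 561 (merge (leaf 4 464 593) (node 432 (merge (leaf 4 432 529) (node 400 (merge (leaf 5 399 495) (node 401 (merge (leaf 6 368 369) (leaf 6 400 433))))))))) (node 561 (merge (leaf 4 464 593) (node 432 (merge (leaf 4 432 529) (node 431 (merge (leaf 7 399 399) (leaf 7 431 463)))))))))))))))))))))) (merge (node 526 (merge (node 497 (merge (leaf 2 493 525) (node 498 (merge (leaf 1 494 495) (leaf 1 495 499))))) (merge (node 525 (merge (leaf 2 493 497) (node 556 (merge (leaf 1 524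 557) (node 524 (merge (leaf 1 523 555) (node 492 (merge (leaf 3 491 491) (leaf 3 492 493))))))))) (merge (node 525 (merge (node 524 (merge (leaf 2 492 495) (node 492 (merge (leaf 3 491 491) (leaf 3 492 493))))) (merge (node 524 (merge (leaf 2 492 495) (node 556 (merge (leaf 1 523 555) (leaf 1 524 557))))) (node 557 (merge (leaf 1 524 556) (node 558 (merge (leaf 1 525 529) (node 493 (merge (leaf 3 492 492) (node 590 (merge (leaf 4 461 461) (leaf 7 493 622)))))))))))) (node 558 (merge (node 557 (merge (leaf 1 525 529) (node 556 (merge (leaf 2 523 555) (leaf 2 524 559))))) (merge (node 529 (merge (leaf 1 525 557) (node 561 (merge (leaf 0 526 562) (node 497 (merge (leaf 2 494 498) (node 593 (merge (leaf 7 464 464) (leaf 7 496 625))))))))) (merge (node 590 (merge (node 622 (merge (leaf 6 494 495) (node 654 (merge (leaf 6 526 559) (node 653 (merge (leaf 5 525 621) (leaf 5 557 685))))))) (merge (node 495 (merge (leaf 6 494 622) (node 494 (merge (leaf 6 462 463) (node 493 (merge (leaf 7 461 461) (leaf 0 492 492))))))) (merge (node 623 (merge (node 591 (merge (leaf 4 494 494)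 (leaf 6 495 559))) (merge (node 655 (merge (leaf 4 526 622) (node 591 (merge (leaf 7 526 559) (leaf 7 558 687))))) (node 622 (merge (leaf 4 526 655) (node 621 (merge (leaf 5 525 653) (node 589 (merge (leaf 5 493 494) (node 624 (merge (leaf 3 588 588) (leaf 3 589 625)))))))))))) (node 494 (merge (node 493 (merge (leaf 7 461 461) (node 492 (merge (leaf 0 491 491) (leaf 0 492 495))))) (merge (node 589 (merge (leaf 5 493 621) (node 462 (merge (leaf 5 461 557) (node 559 (merge (leaf 4 430 430) (leaf 4 462 591))))))) (node 591 (merge (leaf 4 494 623) (node 462 (merge (leaf 4 462 559) (node 589 (merge (leaf 5 461 557) (leaf 5 493 621)))))))))))))) (node 590 (merge (node 622 (merge (leaf 6 494 495) (node 654 (merge (leaf 6 526 559) (node 653 (merge (leaf 5 525 621) (leaf 5 557 685))))))) (merge (node 495 (merge (leaf 6 494 622) (node 494 (merge (leaf 6 462 463) (node 493 (merge (leaf 7 461 461) (leaf 0 492 492))))))) (merge (node 623 (merge (node 591 (merge (leaf 4 494 494) (leaf 6 495 559))) (merge (node 655 (merge (leaf 4 526 622) (node 591 (merge (leaf 7 526 559) (leaf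 7 558 687))))) (node 622 (merge (leaf 4 526 655) (node 621 (merge (leaf 5 525 653) (node 589 (merge (leaf 5 493 494) (node 624 (merge (leaf 3 588 588) (leaf 3 589 625)))))))))))) (node 494 (merge (node 493 (merge (leaf 7 461 461) (node 492 (merge (leaf 0 491 491) (leaf 0 492 495))))) (merge (node 493 (merge (leaf 3 493 529) (node 495 (merge (leaf 6 462 463) (leaf 0 492 492))))) (node 591 (merge (leaf 4 494 623) (node 462 (merge (leaf 4 462 559) (node 431 (merge (leaf 6 430 463) (node 430 (merge (leaf 6 398 399) (node 429 (merge (leaf 7 397 397) (leaf 7 429 461)))))))))))))))))))))))))) (merge (node 526 (merge (node 497 (merge (leaf 2 493 525) (node 498 (merge (leaf 1 494 495) (leaf 1 495 499))))) (merge (node 525 (merge (leaf 2 493 497) (node 556 (merge (leaf 1 524 557) (node 524 (merge (leaf 1 523 555) (node 492 (merge (leaf 3 491 491) (leaf 3 492 493))))))))) (merge (node 525 (merge (node 524 (merge (leaf 2 492 495) (node 492 (merge (leaf 3 491 491) (leaf 3 492 493))))) (merge (node 524 (merge (leaf 2 492 495) (node 556 (merge (leaf 1 523 555) (leaf 1 524 557)))))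 (node 557 (merge (leaf 1 524 556) (node 558 (merge (leaf 1 525 529) (node 493 (merge (leaf 3 492 492) (node 590 (merge (leaf 4 461 461) (leaf 7 493 622)))))))))))) (node 558 (merge (node 557 (merge (leaf 1 525 529) (node 556 (merge (leaf 2 523 555) (leaf 2 524 559))))) (merge (node 529 (merge (leaf 1 525 557) (node 561 (merge (leaf 0 526 562) (node 497 (merge (leaf 2 494 498) (node 494 (merge (leaf 3 493 493) (node 593 (merge (leaf 7 496 625) (node 592 (merge (leaf 5 496 624) (node 465 (merge (leaf 5 464 560) (node 466 (merge (leaf 6 433 434) (leaf 2 462 495))))))))))))))))) (merge (node 590 (merge (node 622 (merge (leaf 6 494 495) (node 654 (merge (leaf 6 526 559) (node 653 (merge (leaf 5 525 621) (leaf 5 557 685))))))) (merge (node 495 (merge (leaf 6 494 622) (node 494 (merge (leaf 6 462 463) (node 493 (merge (leaf 7 461 461) (leaf 0 492 492))))))) (merge (node 623 (merge (node 591 (merge (leaf 4 494 494) (leaf 6 495 559))) (merge (node 655 (merge (leaf 4 526 622) (node 591 (merge (leaf 7 526 559) (leaf 7 558 687))))) (node 622 (merge (leaf 4 526 655) (node 621 (merge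 (leaf 5 525 653) (node 589 (merge (leaf 5 493 494) (node 624 (merge (leaf 3 588 588) (leaf 3 589 625)))))))))))) (node 494 (merge (node 493 (merge (leaf 7 461 461) (node 492 (merge (leaf 0 491 491) (leaf 0 492 495))))) (merge (node 589 (merge (leaf 5 493 621) (node 462 (merge (leaf 5 461 557) (node 559 (merge (leaf 4 430 430) (leaf 4 462 591))))))) (node 591 (merge (leaf 4 494 623) (node 462 (merge (leaf 4 462 559) (node 589 (merge (leaf 5 461 557) (leaf 5 493 621)))))))))))))) (node 590 (merge (node 622 (merge (leaf 6 494 495) (node 654 (merge (leaf 6 526 559) (node 653 (merge (leaf 5 525 621) (leaf 5 557 685))))))) (merge (node 495 (merge (leaf 6 494 622) (node 494 (merge (leaf 6 462 463) (node 493 (merge (leaf 7 461 461) (leaf 0 492 492))))))) (merge (node 623 (merge (node 591 (merge (leaf 4 494 494) (leaf 6 495 559))) (merge (node 655 (merge (leaf 4 526 622) (node 591 (merge (leaf 7 526 559) (leaf 7 558 687))))) (node 622 (merge (leaf 4 526 655) (node 621 (merge (leaf 5 525 653) (node 589 (merge (leaf 5 493 494) (node 624 (merge (leaf 3 588 588) (leaf 3 589 625))))))))))))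 (node 494 (merge (node 493 (merge (leaf 7 461 461) (node 492 (merge (leaf 0 491 491) (leaf 0 492 495))))) (merge (node 493 (merge (leaf 3 493 529) (node 495 (merge (leaf 6 462 463) (leaf 0 492 492))))) (node 591 (merge (leaf 4 494 623) (node 462 (merge (leaf 4 462 559) (node 431 (merge (leaf 6 430 463) (node 430 (merge (leaf 6 398 399) (node 429 (merge (leaf 7 397 397) (leaf 7 429 461)))))))))))))))))))))))))) (merge (node 526 (merge (node 525 (merge (leaf 2 493 497) (node 556 (merge (leaf 1 524 557) (node 524 (merge (leaf 1 523 555) (node 492 (merge (leaf 3 491 491) (leaf 3 492 493))))))))) (merge (node 525 (merge (node 524 (merge (leaf 2 492 495) (node 492 (merge (leaf 3 491 491) (leaf 3 492 493))))) (merge (node 524 (merge (leaf 2 492 495) (node 556 (merge (leaf 1 523 555) (leaf 1 524 557))))) (node 557 (merge (leaf 1 524 556) (node 558 (merge (leaf 1 525 529) (node 493 (merge (leaf 3 492 492) (node 590 (merge (leaf 4 461 461) (leaf 7 493 622)))))))))))) (node 464 (merge (node 559 (merge (leaf 5 431 432) (node 591 (merge (leaf 6 463 495) (leaf 6 495 623))))) (merge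 (node 432 (merge (leaf 5 431 559) (node 561 (merge (leaf 4 432 529) (node 433 (merge (leaf 6 400 401) (node 560 (merge (leaf 6 432 465) (leaf 4 464 593))))))))) (merge (node 432 (merge (node 401 (merge (leaf 6 400 433) (node 400 (merge (leaf 6 368 369) (leaf 5 399 495))))) (merge (node 561 (merge (leaf 4 432 529) (node 560 (merge (leaf 4 464 593) (node 433 (merge (leaf 6 400 401) (leaf 6 432 465))))))) (merge (node 529 (merge (leaf 4 432 561) (node 400 (merge (leaf 5 399 495) (leaf 4 400 497))))) (node 400 (merge (leaf 5 399 495) (node 497 (merge (leaf 4 400 529) (node 465 (merge (leaf 4 368 368) (node 560 (merge (leaf 6 432 433) (leaf 6 464 592))))))))))))) (node 560 (merge (node 561 (merge (leaf 4 464 593) (node 562 (merge (leaf 0 526 529) (leaf 3 526 559))))) (merge (node 593 (merge (leaf 4 464 561) (node 592 (merge (leaf 4 496 625) (node 465 (merge (leaf 6 432 433) (leaf 6 464 497))))))) (node 465 (merge (leaf 6 432 433) (node 592 (merge (leaf 6 464 497) (node 624 (merge (leaf 7 495 495) (node 656 (merge (leaf 7 527 559) (node 655 (merge (leaf 5 527 623) (leaf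 5 559 687))))))))))))))))))))) (node 464 (merge (node 559 (merge (leaf 5 431 432) (node 591 (merge (leaf 6 463 495) (leaf 6 495 623))))) (merge (node 432 (merge (leaf 5 431 559) (node 433 (merge (leaf 6 400 401) (node 560 (merge (leaf 6 432 465) (node 431 (merge (leaf 7 399 399) (leaf 7 431 463))))))))) (merge (node 432 (merge (node 401 (merge (leaf 6 400 433) (node 400 (merge (leaf 6 368 369) (leaf 5 399 495))))) (merge (node 400 (merge (leaf 5 399 495) (node 399 (merge (leaf 7 367 367) (leaf 7 399 431))))) (node 433 (merge (leaf 6 400 401) (node 431 (merge (leaf 7 399 399) (node 463 (merge (leaf 7 431 560) (node 462 (merge (leaf 1 430 434) (leaf 2 429 461)))))))))))) (node 560 (merge (node 593 (merge (leaf 4 464 561) (node 592 (merge (leaf 4 496 625) (node 591 (merge (leaf 5 463 559) (leaf 5 495 623))))))) (merge (node 465 (merge (leaf 6 432 433) (node 592 (merge (leaf 6 464 497) (node 463 (merge (leaf 7 431 431) (leaf 7 463 495))))))) (node 561 (merge (leaf 4 464 593) (node 562 (merge (leaf 3 527 563) (node 559 (merge (leaf 5 463 591) (node 594 (merge (leaf 0 559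 595) (node 465 (merge (leaf 6 432 433) (node 497 (merge (leaf 4 465 529) (node 498 (merge (leaf 1 495 499) (node 463 (merge (leaf 7 431 431) (leaf 0 462 462)))))))))))))))))))))))))))))))))))) nF_3 cF_3 12 (by decide +kernel)
def nF_4 : ℕ := 0x3800000000000000000000000000000000000000000000000000000000000000000000000000000000000000000000000000000000000000000000000000000000000
def cF_4 : ℕ := 0x1c0000003e0000007f8000007f000000fe00000007000001ff800001fc000000fc0000007c000000500000000000000000000000000000000000000000000000000000000000000000000000000000000000000000000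
theorem lF_4 : S nF_4 cF_4 12 := S_of_chk [] trivial (node 559 (merge (node 526 (merge (node 497 (merge (leaf 2 494 498) (node 525 (merge (leaf 2 493 496) (node 560 (merge (leaf 0 524 524) (leaf 0 525 561))))))) (node 494 (merge (leaf 3 493 493) (node 462 (merge (leaf 4 430 430) (node 591 (merge (leaf 7 462 495) (leaf 4 462 558))))))))) (merge (node 591 (merge (node 496 (merge (leaf 6 495 623) (node 464 (merge (leaf 5 431 432) (leaf 5 463 560))))) (merge (node 496 (merge (leaf 6 495 623) (node 495 (merge (leaf 6 463 464) (node 494 (merge (leaf 7 462 462) (leaf 0 493 493))))))) (merge (node 623 (merge (node 656 (merge (leaf 4 527 624) (node 655 (merge (leaf 6 527 560) (leaf 4 559 688))))) (merge (node 655 (merge (leaf 6 527 560) (node 654 (merge (leaf 5 526 622) (leaf 5 558 686))))) (node 624 (merge (leaf 4 527 656) (node 495 (merge (leaf 4 495 592) (node 622 (merge (leaf 5 494 590) (leaf 5 526 654)))))))))) (node 495 (merge (node 494 (merge (leaf 7 462 462) (node 493 (merge (leaf 0 492 492) (leaf 0 493 496))))) (node 590 (merge (leaf 5 494 622) (node 463 (merge (leaf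 5 462 558) (node 560 (merge (leaf 4 431 431) (leaf 4 463 592))))))))))))) (merge (node 526 (merge (node 494 (merge (leaf 3 493 493) (node 462 (merge (leaf 4 430 430) (node 591 (merge (leaf 7 462 495) (leaf 4 462 558))))))) (node 561 (merge (leaf 0 526 562) (node 560 (merge (leaf 0 525 525) (node 497 (merge (leaf 2 494 498) (node 592 (merge (leaf 5 464 465) (leaf 6 496 624))))))))))) (merge (node 591 (merge (node 496 (merge (leaf 6 495 623) (node 464 (merge (leaf 5 431 432) (leaf 5 463 560))))) (merge (node 496 (merge (leaf 6 495 623) (node 495 (merge (leaf 6 463 464) (node 494 (merge (leaf 7 462 462) (leaf 0 493 493))))))) (merge (node 623 (merge (node 656 (merge (leaf 4 527 624) (node 655 (merge (leaf 6 527 560) (leaf 4 559 688))))) (merge (node 655 (merge (leaf 6 527 560) (node 654 (merge (leaf 5 526 622) (leaf 5 558 686))))) (node 624 (merge (leaf 4 527 656) (node 495 (merge (leaf 4 495 592) (node 622 (merge (leaf 5 494 590) (leaf 5 526 654)))))))))) (node 495 (merge (node 494 (merge (leaf 7 462 462) (node 493 (merge (leaf 0 492 492) (leaf 0 493 496))))) (merge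 (node 592 (merge (leaf 4 495 624) (node 463 (merge (leaf 4 463 560) (node 430 (merge (leaf 7 430 462) (node 431 (merge (leaf 7 398 398) (node 399 (merge (leaf 4 399 496) (node 400 (merge (leaf 6 367 368) (leaf 6 399 432))))))))))))) (merge (node 592 (merge (leaf 4 495 624) (node 560 (merge (leaf 4 463 463) (node 590 (merge (leaf 5 494 622) (node 589 (merge (leaf 2 557 561) (leaf 2 556 588))))))))) (node 592 (merge (leaf 4 495 624) (node 560 (merge (leaf 4 463 463) (node 496 (merge (leaf 5 463 464) (node 497 (merge (leaf 6 464 465) (node 526 (merge (leaf 1 494 498) (leaf 2 493 525))))))))))))))))))) (merge (node 591 (merge (node 496 (merge (leaf 6 495 623) (node 495 (merge (leaf 6 463 464) (node 494 (merge (leaf 7 462 462) (leaf 0 493 493))))))) (merge (node 623 (merge (leaf 6 495 496) (node 656 (merge (leaf 4 527 624) (node 655 (merge (leaf 4 559 688) (node 654 (merge (leaf 5 526 622) (leaf 5 558 686))))))))) (merge (node 526 (merge (node 494 (merge (leaf 3 493 493) (node 462 (merge (leaf 4 430 430) (leaf 4 462 558))))) (merge (node 623 (merge (leaf 7 494 494) (node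 624 (merge (leaf 4 527 656) (node 495 (merge (leaf 4 495 592) (node 622 (merge (leaf 5 494 590) (leaf 5 526 654))))))))) (node 558 (merge (leaf 1 525 557) (node 623 (merge (leaf 7 526 655) (node 622 (merge (leaf 5 526 654) (node 590 (merge (leaf 5 494 495) (node 621 (merge (leaf 5 525 653) (node 620 (merge (leaf 2 588 592) (leaf 2 587 619)))))))))))))))) (node 495 (merge (node 494 (merge (leaf 7 462 462) (node 493 (merge (leaf 0 492 492) (leaf 0 493 496))))) (merge (node 590 (merge (leaf 5 494 622) (node 463 (merge (leaf 5 462 558) (node 496 (merge (leaf 6 463 464) (node 431 (merge (leaf 4 399 399) (node 430 (merge (leaf 7 398 398) (leaf 7 430 462))))))))))) (merge (node 590 (merge (leaf 5 494 622) (node 558 (merge (leaf 5 462 463) (node 526 (merge (leaf 1 525 557) (node 494 (merge (leaf 4 462 462) (leaf 3 493 493))))))))) (node 590 (merge (leaf 5 494 622) (node 558 (merge (leaf 5 462 463) (node 526 (merge (leaf 1 525 557) (node 496 (merge (leaf 6 463 464) (node 525 (merge (leaf 2 493 497) (leaf 2 492 524))))))))))))))))))) (merge (node 497 (merge (node 498 (merge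 (leaf 2 494 526) (node 499 (merge (leaf 1 495 496) (leaf 1 496 500))))) (merge (node 526 (merge (leaf 2 494 498) (node 561 (merge (leaf 0 526 562) (node 560 (merge (leaf 0 525 525) (node 592 (merge (leaf 5 464 465) (leaf 6 496 624))))))))) (merge (node 496 (merge (node 591 (merge (leaf 6 495 623) (node 464 (merge (leaf 5 431 432) (leaf 5 463 560))))) (merge (node 526 (merge (leaf 2 493 525) (node 561 (merge (leaf 0 526 562) (node 593 (merge (leaf 7 464 464) (leaf 7 496 625))))))) (node 526 (merge (leaf 2 493 525) (node 561 (merge (leaf 0 526 562) (node 558 (merge (leaf 1 525 557) (node 593 (merge (leaf 7 496 625) (node 594 (merge (leaf 4 497 626) (node 559 (merge (leaf 0 558 560) (node 591 (merge (leaf 3 558 592) (leaf 6 495 623)))))))))))))))))) (node 465 (merge (node 560 (merge (leaf 5 432 433) (node 592 (merge (leaf 5 464 561) (leaf 6 496 624))))) (merge (node 433 (merge (leaf 5 432 560) (node 401 (merge (leaf 5 400 496) (node 402 (merge (leaf 6 369 370) (leaf 6 401 434))))))) (merge (node 433 (merge (leaf 5 432 560) (node 496 (merge (leaf 5 400 401) (node 434 (merge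 (leaf 6 401 402) (node 561 (merge (leaf 6 433 466) (node 593 (merge (leaf 7 464 464) (leaf 7 496 625))))))))))) (merge (node 560 (merge (leaf 5 432 433) (node 592 (merge (leaf 6 464 496) (leaf 5 464 561))))) (merge (node 433 (merge (leaf 5 432 560) (node 496 (merge (leaf 5 400 401) (node 498 (merge (leaf 1 495 499) (node 432 (merge (leaf 7 400 400) (node 561 (merge (leaf 4 432 464) (node 593 (merge (leaf 6 465 466) (leaf 7 496 625))))))))))))) (merge (node 561 (merge (node 592 (merge (leaf 5 464 560) (node 464 (merge (leaf 7 432 432) (node 593 (merge (leaf 7 464 496) (leaf 5 496 624))))))) (merge (node 562 (merge (leaf 4 465 594) (node 560 (merge (leaf 3 527 563) (leaf 5 464 592))))) (merge (node 466 (merge (leaf 6 433 434) (node 593 (merge (leaf 6 465 498) (node 625 (merge (leaf 7 496 496) (node 657 (merge (leaf 7 528 560) (node 656 (merge (leaf 5 528 624) (leaf 5 560 688))))))))))) (node 594 (merge (leaf 4 465 562) (node 593 (merge (leaf 4 497 626) (node 464 (merge (leaf 7 432 432) (leaf 7 464 496))))))))))) (merge (node 432 (merge (node 561 (merge (leaf 7 432 464)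 (node 594 (merge (leaf 4 465 562) (node 593 (merge (leaf 4 497 626) (node 466 (merge (leaf 6 433 434) (leaf 6 465 498))))))))) (merge (node 400 (merge (leaf 7 400 433) (node 464 (merge (leaf 4 400 496) (leaf 7 432 561))))) (merge (node 433 (merge (leaf 7 400 400) (node 434 (merge (leaf 6 401 402) (node 561 (merge (leaf 6 433 466) (node 594 (merge (leaf 4 465 562) (node 593 (merge (leaf 4 497 626) (node 624 (merge (leaf 5 496 592) (node 625 (merge (leaf 7 496 496) (leaf 5 528 656))))))))))))))) (merge (node 400 (merge (leaf 7 400 433) (node 464 (merge (leaf 4 400 496) (leaf 7 432 561))))) (node 433 (merge (leaf 7 400 400) (node 496 (merge (leaf 5 400 401) (node 464 (merge (leaf 5 431 559) (node 434 (merge (leaf 6 401 402) (node 435 (merge (leaf 1 431 463) (node 467 (merge (leaf 0 432 468) (node 431 (merge (leaf 7 399 399) (leaf 0 431 466)))))))))))))))))))) (node 433 (merge (leaf 5 432 560) (node 496 (merge (leaf 5 400 401) (node 434 (merge (leaf 6 401 402) (node 432 (merge (leaf 7 400 400) (node 464 (merge (leaf 5 431 559) (node 435 (merge (leaf 1 431 463) (node 467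 (merge (leaf 0 432 468) (node 431 (merge (leaf 7 399 399) (leaf 0 431 466))))))))))))))))))))))))))))) (merge (node 497 (merge (node 526 (merge (leaf 2 494 498) (node 525 (merge (leaf 2 493 496) (node 493 (merge (leaf 3 492 492) (leaf 3 493 494))))))) (merge (node 526 (merge (leaf 2 494 498) (node 561 (merge (leaf 0 526 562) (node 560 (merge (leaf 0 525 525) (node 592 (merge (leaf 5 464 465) (leaf 6 496 624))))))))) (merge (node 465 (merge (node 433 (merge (leaf 5 432 560) (node 434 (merge (leaf 6 401 402) (node 561 (merge (leaf 6 433 466) (node 562 (merge (leaf 0 526 526) (leaf 4 465 594))))))))) (merge (node 433 (merge (leaf 5 432 560) (node 496 (merge (leaf 5 400 401) (node 434 (merge (leaf 6 401 402) (node 432 (merge (leaf 7 400 400) (node 464 (merge (leaf 5 431 559) (node 463 (merge (leaf 1 431 435) (leaf 2 430 462))))))))))))) (merge (node 496 (merge (node 433 (merge (leaf 5 400 401) (node 432 (merge (leaf 7 400 400) (leaf 5 431 464))))) (merge (node 526 (merge (leaf 2 493 525) (node 558 (merge (leaf 1 525 557) (node 494 (merge (leaf 3 493 493) (node 495 (merge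 (leaf 2 462 466) (node 590 (merge (leaf 5 462 463) (leaf 6 494 622))))))))))) (node 526 (merge (leaf 2 493 525) (node 558 (merge (leaf 1 525 557) (node 494 (merge (leaf 3 493 493) (node 495 (merge (leaf 2 462 466) (node 590 (merge (leaf 5 462 463) (leaf 6 494 622)))))))))))))) (node 561 (merge (node 594 (merge (leaf 4 465 562) (node 593 (merge (leaf 4 497 626) (node 464 (merge (leaf 7 432 432) (leaf 7 464 496))))))) (merge (node 592 (merge (leaf 5 464 560) (node 464 (merge (leaf 7 432 432) (node 593 (merge (leaf 7 464 496) (leaf 5 496 624))))))) (node 562 (merge (leaf 0 526 526) (node 560 (merge (leaf 3 527 563) (leaf 5 464 592)))))))))))) (node 465 (merge (node 560 (merge (leaf 5 432 433) (node 592 (merge (leaf 5 464 561) (leaf 6 496 624))))) (merge (node 433 (merge (leaf 5 432 560) (node 401 (merge (leaf 5 400 496) (node 402 (merge (leaf 6 369 370) (leaf 6 401 434))))))) (merge (node 433 (merge (leaf 5 432 560) (node 496 (merge (leaf 5 400 401) (node 434 (merge (leaf 6 401 402) (node 561 (merge (leaf 6 433 466) (node 593 (merge (leaf 7 464 464) (leaf 7 496 625)))))))))))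 (merge (node 560 (merge (leaf 5 432 433) (node 592 (merge (leaf 6 464 496) (leaf 5 464 561))))) (merge (node 433 (merge (leaf 5 432 560) (node 496 (merge (leaf 5 400 401) (node 498 (merge (leaf 1 495 499) (node 432 (merge (leaf 7 400 400) (node 561 (merge (leaf 4 432 464) (node 593 (merge (leaf 6 465 466) (leaf 7 496 625))))))))))))) (merge (node 561 (merge (node 592 (merge (leaf 5 464 560) (node 464 (merge (leaf 7 432 432) (node 593 (merge (leaf 7 464 496) (leaf 5 496 624))))))) (merge (node 562 (merge (leaf 4 465 594) (node 560 (merge (leaf 3 527 563) (leaf 5 464 592))))) (merge (node 466 (merge (leaf 6 433 434) (node 593 (merge (leaf 6 465 498) (node 625 (merge (leaf 7 496 496) (node 657 (merge (leaf 7 528 560) (node 656 (merge (leaf 5 528 624) (leaf 5 560 688))))))))))) (node 594 (merge (leaf 4 465 562) (node 593 (merge (leaf 4 497 626) (node 464 (merge (leaf 7 432 432) (leaf 7 464 496))))))))))) (merge (node 432 (merge (node 561 (merge (leaf 7 432 464) (node 594 (merge (leaf 4 465 562) (node 593 (merge (leaf 4 497 626) (node 466 (merge (leaf 6 433 434) (leaf 6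 465 498))))))))) (merge (node 400 (merge (leaf 7 400 433) (node 464 (merge (leaf 4 400 496) (leaf 7 432 561))))) (merge (node 433 (merge (leaf 7 400 400) (node 434 (merge (leaf 6 401 402) (node 561 (merge (leaf 6 433 466) (node 594 (merge (leaf 4 465 562) (node 593 (merge (leaf 4 497 626) (node 624 (merge (leaf 5 496 592) (node 625 (merge (leaf 7 496 496) (leaf 5 528 656))))))))))))))) (merge (node 400 (merge (leaf 7 400 433) (node 464 (merge (leaf 4 400 496) (leaf 7 432 561))))) (node 433 (merge (leaf 7 400 400) (node 496 (merge (leaf 5 400 401) (node 464 (merge (leaf 5 431 559) (node 434 (merge (leaf 6 401 402) (node 435 (merge (leaf 1 431 463) (node 467 (merge (leaf 0 432 468) (node 431 (merge (leaf 7 399 399) (leaf 0 431 466)))))))))))))))))))) (node 433 (merge (leaf 5 432 560) (node 496 (merge (leaf 5 400 401) (node 434 (merge (leaf 6 401 402) (node 432 (merge (leaf 7 400 400) (node 464 (merge (leaf 5 431 559) (node 435 (merge (leaf 1 431 463) (node 467 (merge (leaf 0 432 468) (node 431 (merge (leaf 7 399 399) (leaf 0 431 466))))))))))))))))))))))))))))) (node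 496 (merge (node 591 (merge (leaf 6 495 623) (node 464 (merge (leaf 5 431 432) (leaf 6 463 495))))) (merge (node 591 (merge (leaf 6 495 623) (node 464 (merge (leaf 5 431 432) (leaf 5 463 560))))) (merge (node 464 (merge (leaf 5 431 432) (node 560 (merge (node 561 (merge (leaf 4 464 593) (node 562 (merge (leaf 3 526 526) (leaf 3 527 563))))) (merge (node 465 (merge (leaf 6 432 433) (node 592 (merge (leaf 6 464 497) (node 624 (merge (leaf 7 495 495) (node 656 (merge (leaf 7 527 559) (node 655 (merge (leaf 5 527 623) (leaf 5 559 687))))))))))) (node 463 (merge (leaf 7 431 431) (node 592 (merge (leaf 7 463 495) (node 625 (merge (leaf 4 496 593) (node 624 (merge (leaf 4 528 657) (node 656 (merge (leaf 7 527 527) (node 655 (merge (leaf 5 527 623) (leaf 5 559 687)))))))))))))))))) (node 526 (merge (node 497 (merge (leaf 2 494 498) (leaf 2 493 525))) (merge (node 561 (merge (leaf 0 526 562) (node 525 (merge (leaf 0 525 560) (node 524 (merge (leaf 2 492 495) (node 492 (merge (leaf 3 491 491) (leaf 3 492 493))))))))) (node 561 (merge (leaf 0 526 562) (node 558 (merge (leaf 1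 525 557) (node 497 (merge (leaf 2 494 498) (node 593 (merge (leaf 7 496 625) (node 594 (merge (leaf 4 497 626) (node 559 (merge (leaf 0 558 560) (node 592 (merge (leaf 3 558 591) (leaf 5 496 624)))))))))))))))))))))))))))))) nF_4 cF_4 12 (by decide +kernel)
def nF_5 : ℕ := 0x3800000000000000000000000000000000000000000000000000000000000000000000000000000000000000000000000000000000000000000000000000000000000
def cF_5 : ℕ := 0x140000003c000000fc0000001f80000007800001ff8000007e0000007e0000003c000000140000000000000000000000000000000000000000000000000000000000000000000000000000000000000000000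
theorem lF_5 : S nF_5 cF_5 11 := S_of_chk [] trivial (node 495 (merge (node 526 (merge (node 558 (merge (leaf 1 525 557) (node 590 (merge (leaf 6 494 622) (node 494 (merge (leaf 6 462 463) (leaf 3 493 493))))))) (merge (node 497 (merge (leaf 2 494 498) (node 525 (merge (leaf 2 493 496) (node 493 (merge (leaf 3 492 492) (leaf 3 493 494))))))) (node 497 (merge (leaf 2 494 498) (node 525 (merge (leaf 2 493 496) (node 557 (merge (leaf 1 524 556) (leaf 1 525 558)))))))))) (merge (node 463 (merge (node 560 (merge (leaf 4 431 431) (node 592 (merge (leaf 7 463 496) (leaf 7 495 624))))) (merge (node 431 (merge (leaf 4 431 560) (node 400 (merge (leaf 6 399 432) (node 399 (merge (leaf 6 367 368) (node 398 (merge (leaf 7 366 366) (leaf 7 398 430))))))))) (merge (node 559 (merge (node 558 (merge (leaf 5 462 590) (node 557 (merge (leaf 2 524 556) (leaf 2 525 560))))) (merge (node 592 (merge (leaf 4 463 560) (node 464 (merge (leaf 6 431 432) (node 591 (merge (leaf 6 463 496) (leaf 4 495 624))))))) (node 464 (merge (leaf 6 431 432) (node 591 (merge (leaf 6 463 496) (node 590 (merge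 (leaf 5 462 558) (leaf 5 494 622)))))))))) (node 431 (merge (node 399 (merge (leaf 4 399 496) (node 398 (merge (leaf 7 366 366) (leaf 7 398 430))))) (merge (node 432 (merge (leaf 6 399 400) (node 464 (merge (leaf 6 431 559) (node 430 (merge (leaf 7 398 398) (node 465 (merge (leaf 0 429 429) (leaf 3 430 466))))))))) (node 432 (merge (leaf 6 399 400) (node 559 (merge (leaf 6 431 464) (node 590 (merge (leaf 5 462 558) (node 591 (merge (leaf 5 494 622) (node 624 (merge (leaf 4 495 592) (node 623 (merge (leaf 6 495 496) (leaf 4 527 656)))))))))))))))))))) (merge (node 463 (merge (node 431 (merge (leaf 4 431 560) (node 558 (merge (leaf 5 430 526) (node 430 (merge (leaf 7 398 398) (node 559 (merge (leaf 7 430 462) (leaf 5 462 590))))))))) (merge (node 431 (merge (leaf 4 431 560) (node 400 (merge (leaf 6 399 432) (node 399 (merge (leaf 6 367 368) (node 398 (merge (leaf 7 366 366) (leaf 7 398 430))))))))) (merge (node 431 (merge (leaf 4 431 560) (node 432 (merge (leaf 6 399 400) (node 559 (merge (leaf 6 431 464) (node 558 (merge (leaf 5 430 526) (leaf 5 462 590))))))))) (merge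 (node 430 (merge (node 462 (merge (leaf 7 430 559) (node 398 (merge (leaf 4 366 366) (leaf 4 398 494))))) (merge (node 431 (merge (leaf 7 398 398) (node 526 (merge (leaf 5 430 558) (node 494 (merge (leaf 5 398 399) (leaf 3 493 493))))))) (node 559 (merge (leaf 7 430 462) (node 558 (merge (leaf 5 462 590) (node 526 (merge (leaf 5 430 431) (leaf 1 525 557)))))))))) (node 559 (merge (node 558 (merge (leaf 5 462 590) (node 557 (merge (leaf 2 524 556) (leaf 2 525 560))))) (node 464 (merge (leaf 6 431 432) (node 462 (merge (leaf 7 430 430) (node 494 (merge (leaf 7 462 591) (node 493 (merge (leaf 1 461 465) (leaf 0 492 492)))))))))))))))) (merge (node 463 (merge (node 560 (merge (leaf 4 431 431) (node 592 (merge (leaf 7 463 496) (leaf 7 495 624))))) (merge (node 431 (merge (leaf 4 431 560) (node 400 (merge (leaf 6 399 432) (node 399 (merge (leaf 6 367 368) (node 398 (merge (leaf 7 366 366) (leaf 7 398 430))))))))) (merge (node 432 (merge (node 400 (merge (leaf 6 399 431) (node 464 (merge (leaf 5 367 368) (leaf 5 399 496))))) (merge (node 431 (merge (leaf 6 399 400) (node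 399 (merge (leaf 4 399 496) (node 398 (merge (leaf 7 366 366) (leaf 7 398 430))))))) (node 559 (merge (leaf 6 431 464) (node 462 (merge (leaf 7 430 430) (node 591 (merge (leaf 7 462 494) (node 624 (merge (leaf 4 495 592) (node 623 (merge (leaf 4 527 656) (node 622 (merge (leaf 5 494 590) (leaf 5 526 654)))))))))))))))) (node 494 (merge (node 493 (merge (leaf 0 492 492) (leaf 3 493 526))) (merge (node 493 (merge (leaf 0 492 492) (leaf 0 493 496))) (node 559 (merge (node 591 (merge (leaf 7 462 462) (node 623 (merge (leaf 6 495 496) (leaf 7 494 526))))) (merge (node 592 (merge (leaf 4 463 560) (node 464 (merge (leaf 6 431 432) (node 591 (merge (leaf 6 463 496) (leaf 4 495 624))))))) (merge (node 592 (merge (leaf 4 463 560) (node 591 (merge (leaf 4 495 624) (node 462 (merge (leaf 7 430 430) (leaf 7 462 494))))))) (node 560 (merge (leaf 4 463 592) (node 464 (merge (leaf 6 431 432) (node 465 (merge (leaf 1 462 466) (node 433 (merge (leaf 6 432 496) (node 462 (merge (leaf 7 430 430) (leaf 2 430 434)))))))))))))))))))))) (merge (node 463 (merge (node 560 (merge (leaf 4 431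 431) (node 592 (merge (leaf 7 463 496) (leaf 7 495 624))))) (merge (node 431 (merge (leaf 4 431 560) (node 400 (merge (leaf 6 399 432) (node 399 (merge (leaf 6 367 368) (node 398 (merge (leaf 7 366 366) (leaf 7 398 430))))))))) (merge (node 432 (merge (node 400 (merge (leaf 6 399 431) (node 464 (merge (leaf 5 367 368) (leaf 5 399 496))))) (merge (node 431 (merge (leaf 6 399 400) (node 399 (merge (leaf 4 399 496) (node 398 (merge (leaf 7 366 366) (leaf 7 398 430))))))) (merge (node 559 (merge (leaf 6 431 464) (node 462 (merge (leaf 7 430 430) (node 494 (merge (leaf 7 462 591) (node 526 (merge (leaf 3 493 493) (node 558 (merge (leaf 5 430 431) (leaf 1 525 557))))))))))) (node 559 (merge (leaf 6 431 464) (node 462 (merge (leaf 7 430 430) (node 591 (merge (leaf 7 462 494) (node 624 (merge (leaf 4 495 592) (node 623 (merge (leaf 6 495 496) (leaf 4 527 656))))))))))))))) (node 559 (merge (node 592 (merge (leaf 4 463 560) (node 464 (merge (leaf 6 431 432) (node 591 (merge (leaf 6 463 496) (leaf 4 495 624))))))) (merge (node 464 (merge (leaf 6 431 432) (node 462 (merge (leaf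 7 430 430) (node 494 (merge (leaf 7 462 591) (node 493 (merge (leaf 1 461 465) (leaf 0 492 492))))))))) (merge (node 462 (merge (leaf 7 430 430) (node 591 (merge (leaf 7 462 494) (node 624 (merge (leaf 4 495 592) (node 623 (merge (leaf 6 495 496) (leaf 4 527 656))))))))) (node 526 (merge (node 497 (merge (leaf 2 494 498) (node 525 (merge (leaf 2 493 496) (node 557 (merge (leaf 1 524 556) (leaf 1 525 558))))))) (merge (node 493 (merge (leaf 3 493 494) (node 525 (merge (leaf 3 492 492) (node 524 (merge (leaf 2 492 496) (node 556 (merge (leaf 1 523 555) (leaf 1 524 557))))))))) (merge (node 557 (merge (leaf 1 525 558) (node 525 (merge (leaf 1 524 556) (node 524 (merge (leaf 0 524 560) (node 492 (merge (leaf 3 491 491) (leaf 3 492 493))))))))) (node 497 (merge (leaf 2 494 498) (node 494 (merge (leaf 3 493 493) (node 462 (merge (leaf 4 430 430) (node 496 (merge (leaf 3 461 461) (node 465 (merge (leaf 2 462 466) (node 433 (merge (leaf 5 400 401) (leaf 5 432 560))))))))))))))))))))))))) (node 559 (merge (node 591 (merge (node 496 (merge (leaf 6 463 464) (node 494 (merge (leaf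 7 462 462) (leaf 0 493 493))))) (merge (node 623 (merge (leaf 6 495 496) (node 622 (merge (leaf 5 494 590) (leaf 5 526 654))))) (node 622 (merge (leaf 5 494 590) (node 623 (merge (leaf 5 526 654) (node 494 (merge (leaf 7 462 462) (leaf 7 494 526)))))))))) (merge (node 591 (merge (node 494 (merge (leaf 7 462 462) (node 493 (merge (leaf 0 492 492) (leaf 0 493 496))))) (merge (node 624 (merge (leaf 4 495 592) (node 623 (merge (leaf 6 495 496) (leaf 4 527 656))))) (node 624 (merge (leaf 4 495 592) (node 623 (merge (leaf 4 527 656) (node 622 (merge (leaf 5 494 590) (leaf 5 526 654)))))))))) (merge (node 526 (merge (node 494 (merge (leaf 3 493 493) (node 591 (merge (leaf 7 462 462) (leaf 7 494 623))))) (merge (node 557 (merge (leaf 1 525 558) (node 525 (merge (leaf 1 524 556) (node 524 (merge (leaf 0 524 560) (node 492 (merge (leaf 3 491 491) (leaf 3 492 493))))))))) (node 557 (merge (leaf 1 525 558) (node 525 (merge (leaf 1 524 556) (node 524 (merge (leaf 0 524 560) (node 494 (merge (leaf 2 491 523) (node 591 (merge (leaf 7 462 462) (leaf 7 494 623)))))))))))))) (merge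 (node 526 (merge (node 497 (merge (leaf 2 494 498) (node 525 (merge (leaf 2 493 496) (node 557 (merge (leaf 1 524 556) (leaf 1 525 558))))))) (merge (node 493 (merge (leaf 3 493 494) (node 525 (merge (leaf 3 492 492) (node 524 (merge (leaf 2 492 496) (node 556 (merge (leaf 1 523 555) (leaf 1 524 557))))))))) (merge (node 557 (merge (leaf 1 525 558) (node 525 (merge (leaf 1 524 556) (node 524 (merge (leaf 0 524 560) (node 492 (merge (leaf 3 491 491) (leaf 3 492 493))))))))) (node 497 (merge (leaf 2 494 498) (node 494 (merge (leaf 3 493 493) (node 462 (merge (leaf 4 430 430) (node 496 (merge (leaf 3 461 461) (node 465 (merge (leaf 2 462 466) (node 433 (merge (leaf 5 400 401) (leaf 5 432 560))))))))))))))))) (merge (node 497 (merge (node 498 (merge (leaf 2 494 526) (node 499 (merge (leaf 1 495 496) (leaf 1 496 500))))) (merge (node 526 (merge (leaf 2 494 498) (node 557 (merge (leaf 1 525 558) (node 525 (merge (leaf 1 524 556) (node 524 (merge (leaf 0 524 560) (node 492 (merge (leaf 3 491 491) (leaf 3 492 493))))))))))) (merge (node 591 (merge (node 496 (merge (leaf 6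 495 623) (node 464 (merge (leaf 5 431 432) (leaf 5 463 560))))) (merge (node 623 (merge (leaf 6 495 496) (node 624 (merge (leaf 4 527 656) (node 495 (merge (leaf 4 495 592) (node 622 (merge (leaf 5 494 590) (leaf 5 526 654))))))))) (merge (node 624 (merge (leaf 4 495 592) (node 623 (merge (leaf 4 527 656) (node 622 (merge (leaf 5 494 590) (leaf 5 526 654))))))) (node 592 (merge (leaf 4 495 624) (node 496 (merge (leaf 6 463 464) (node 560 (merge (leaf 6 464 465) (node 593 (merge (leaf 4 496 625) (node 594 (merge (leaf 3 558 558) (leaf 3 559 595))))))))))))))) (node 591 (merge (node 496 (merge (leaf 6 495 623) (node 464 (merge (leaf 5 431 432) (leaf 5 463 560))))) (merge (node 623 (merge (leaf 6 495 496) (node 624 (merge (leaf 4 527 656) (node 495 (merge (leaf 4 495 592) (node 622 (merge (leaf 5 494 590) (leaf 5 526 654))))))))) (merge (node 624 (merge (leaf 4 495 592) (node 623 (merge (leaf 4 527 656) (node 622 (merge (leaf 5 494 590) (leaf 5 526 654))))))) (node 592 (merge (leaf 4 495 624) (node 496 (merge (leaf 6 463 464) (node 560 (merge (leaf 6 464 465) (node 593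 (merge (leaf 4 496 625) (node 594 (merge (leaf 3 558 558) (leaf 3 559 595))))))))))))))))))) (node 497 (merge (node 498 (merge (leaf 2 494 526) (node 499 (merge (leaf 1 495 496) (leaf 1 496 500))))) (merge (node 591 (merge (node 496 (merge (leaf 6 495 623) (node 464 (merge (leaf 5 431 432) (leaf 5 463 560))))) (merge (node 623 (merge (leaf 6 495 496) (node 624 (merge (leaf 4 527 656) (node 495 (merge (leaf 4 495 592) (node 622 (merge (leaf 5 494 590) (leaf 5 526 654))))))))) (merge (node 592 (merge (leaf 4 495 624) (node 496 (merge (leaf 6 463 464) (node 465 (merge (leaf 6 464 560) (node 494 (merge (leaf 7 462 462) (leaf 2 462 466))))))))) (node 624 (merge (leaf 4 495 592) (node 623 (merge (leaf 4 527 656) (node 622 (merge (leaf 5 494 590) (leaf 5 526 654))))))))))) (node 526 (merge (leaf 2 494 498) (node 557 (merge (leaf 1 525 558) (node 525 (merge (leaf 1 524 556) (node 524 (merge (leaf 0 524 560) (node 494 (merge (leaf 2 491 523) (node 591 (merge (leaf 7 462 462) (leaf 7 494 623)))))))))))))))))))))))))))) nF_5 cF_5 11 (by decide +kernel)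
def nF_6 : ℕ := 0x3800000000000000000000000000000000000000000000000000000000000000000000000000000000000000000000000000000000000000000000000000000000000
def cF_6 : ℕ := 0x500000007c0000007e000001fc000001fc000003c0000007f00000007c000000fc00000070000000700000001000000000000000000000000000000000000000000000000000000000000000000000000000000000000
theorem lF_6 : S nF_6 cF_6 12 := S_of_chk [] trivial (node 498 (merge (node 499 (merge (leaf 2 495 530) (node 497 (merge (leaf 1 495 496) (leaf 1 496 500))))) (merge (node 530 (merge (leaf 2 495 499) (node 563 (merge (leaf 0 527 562) (node 531 (merge (leaf 0 528 564) (node 559 (merge (leaf 1 526 558) (leaf 1 527 560))))))))) (merge (node 497 (merge (node 499 (merge (leaf 1 495 496) (leaf 1 496 500))) (merge (node 561 (merge (node 593 (merge (leaf 6 465 466) (node 624 (merge (leaf 5 496 592) (node 625 (merge (leaf 7 496 496) (leaf 5 528 656))))))) (merge (node 592 (merge (node 560 (merge (leaf 5 464 465) (leaf 6 496 624))) (merge (node 593 (merge (leaf 5 496 624) (node 626 (merge (leaf 4 497 594) (node 625 (merge (leaf 7 496 496)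 (leaf 4 529 658))))))) (node 465 (merge (leaf 5 464 560) (node 594 (merge (leaf 4 465 562) (node 593 (merge (leaf 4 497 626) (node 464 (merge (leaf 7 432 432) (leaf 7 464 496)))))))))))) (node 562 (merge (node 563 (merge (leaf 3 527 560) (leaf 3 528 564))) (node 465 (merge (leaf 4 465 594) (node 434 (merge (leaf 6 433 466) (node 433 (merge (leaf 6 401 402) (node 432 (merge (leaf 7 400 400) (leaf 7 432 464)))))))))))))) (node 465 (merge (node 433 (merge (leaf 5 432 560) (node 434 (merge (leaf 6 401 402) (node 432 (merge (leaf 7 400 400) (node 464 (merge (leaf 7 432 561) (node 463 (merge (leaf 1 431 435) (leaf 0 462 462))))))))))) (merge (node 433 (merge (leaf 5 432 560) (node 402 (merge (leaf 6 401 434) (node 401 (merge (leaf 6 369 370) (node 369 (merge (leaf 4 369 466) (node 368 (merge (leaf 7 336 336) (leaf 7 368 400))))))))))) (merge (node 560 (merge (leaf 5 432 433) (node 592 (merge (leaf 5 464 561) (leaf 6 496 624))))) (merge (node 464 (merge (node 463 (merge (leaf 0 462 462) (node 499 (merge (leaf 0 463 466) (leaf 1 496 500))))) (merge (node 561 (merge (leaf 7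 432 432) (node 594 (merge (leaf 4 465 562) (node 593 (merge (leaf 4 497 626) (node 466 (merge (leaf 6 433 434) (leaf 6 465 498))))))))) (node 463 (merge (leaf 0 462 462) (node 432 (merge (leaf 7 432 561) (node 433 (merge (leaf 7 400 400) (node 434 (merge (leaf 6 401 402) (leaf 1 431 435)))))))))))) (node 561 (merge (node 592 (merge (leaf 5 464 560) (node 593 (merge (leaf 5 496 624) (node 466 (merge (leaf 6 433 434) (leaf 6 465 498))))))) (merge (node 593 (merge (leaf 6 465 466) (node 594 (merge (leaf 4 497 626) (node 562 (merge (leaf 4 465 465) (node 563 (merge (leaf 3 528 564) (node 592 (merge (leaf 2 559 591) (leaf 5 496 624))))))))))) (merge (node 562 (merge (leaf 4 465 594) (node 563 (merge (leaf 3 528 564) (node 560 (merge (leaf 3 527 527) (leaf 5 464 592))))))) (node 594 (merge (leaf 4 465 562) (node 593 (merge (leaf 6 465 466) (leaf 4 497 626))))))))))))))))) (node 561 (merge (node 466 (merge (node 530 (merge (leaf 5 433 434) (node 593 (merge (leaf 5 465 562) (leaf 6 497 625))))) (merge (node 434 (merge (leaf 5 433 530) (node 497 (merge (leaf 5 401 402) (leaf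 6 433 465))))) (node 593 (merge (leaf 6 465 497) (node 625 (merge (leaf 7 496 496) (node 658 (merge (leaf 4 529 626) (node 657 (merge (leaf 4 561 690) (node 656 (merge (leaf 5 528 624) (leaf 5 560 688)))))))))))))) (merge (node 466 (merge (node 434 (merge (leaf 5 433 530) (node 497 (merge (leaf 5 401 402) (leaf 6 433 465))))) (merge (node 593 (merge (leaf 6 465 497) (node 562 (merge (leaf 5 465 530) (node 563 (merge (leaf 3 527 560) (leaf 3 528 564))))))) (merge (node 530 (merge (leaf 5 433 434) (node 563 (merge (leaf 0 527 562) (node 531 (merge (leaf 0 528 564) (node 559 (merge (leaf 1 526 558) (leaf 1 527 560))))))))) (node 497 (merge (leaf 6 465 593) (node 465 (merge (leaf 6 433 434) (node 560 (merge (leaf 5 432 433) (leaf 5 464 592))))))))))) (merge (node 593 (merge (node 625 (merge (leaf 7 496 496) (leaf 6 497 530))) (merge (node 625 (merge (leaf 7 496 496) (node 657 (merge (leaf 7 528 560) (node 656 (merge (leaf 5 528 624) (leaf 5 560 688))))))) (merge (node 625 (merge (leaf 6 497 530) (node 657 (merge (leaf 7 528 560) (node 656 (merge (leaf 5 528 624) (leaf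 5 560 688))))))) (node 562 (merge (node 563 (merge (leaf 0 527 530) (leaf 3 528 564))) (merge (node 563 (merge (leaf 3 527 560) (leaf 3 528 564))) (node 530 (merge (leaf 5 465 466) (node 559 (merge (leaf 1 526 558) (node 560 (merge (leaf 1 527 531) (node 591 (merge (leaf 1 558 590) (node 496 (merge (leaf 4 464 464) (leaf 6 495 623)))))))))))))))))) (merge (node 593 (merge (node 625 (merge (leaf 7 496 496) (node 657 (merge (leaf 7 528 560) (node 656 (merge (leaf 5 528 624) (leaf 5 560 688))))))) (merge (node 497 (merge (leaf 6 465 466) (node 594 (merge (leaf 4 497 626) (node 562 (merge (leaf 4 465 465) (node 563 (merge (leaf 3 528 564) (node 592 (merge (leaf 2 559 591) (leaf 5 496 624))))))))))) (node 497 (merge (leaf 6 465 466) (node 594 (merge (leaf 4 497 626) (node 465 (merge (leaf 4 465 562) (node 433 (merge (leaf 5 432 560) (node 432 (merge (leaf 7 400 400) (leaf 7 432 464)))))))))))))) (merge (node 593 (merge (node 625 (merge (leaf 7 496 496) (leaf 6 497 530))) (merge (node 497 (merge (leaf 6 465 466) (node 624 (merge (leaf 5 496 592) (node 625 (merge (leaf 5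 528 656) (node 657 (merge (leaf 7 528 560) (node 658 (merge (leaf 4 529 626) (leaf 4 561 690))))))))))) (node 497 (merge (leaf 6 465 466) (node 594 (merge (leaf 4 497 626) (node 592 (merge (leaf 5 496 624) (node 560 (merge (leaf 5 464 465) (node 595 (merge (leaf 3 559 559) (leaf 3 560 596)))))))))))))) (merge (node 593 (merge (node 625 (merge (leaf 7 496 496) (leaf 6 497 530))) (merge (node 625 (merge (leaf 7 496 496) (node 657 (merge (leaf 7 528 560) (node 656 (merge (leaf 5 528 624) (leaf 5 560 688))))))) (merge (node 625 (merge (leaf 6 497 530) (node 657 (merge (leaf 7 528 560) (node 656 (merge (leaf 5 528 624) (leaf 5 560 688))))))) (node 592 (merge (node 624 (merge (leaf 5 496 497) (node 656 (merge (leaf 6 528 560) (leaf 6 560 688))))) (merge (node 497 (merge (leaf 5 496 624) (node 594 (merge (leaf 4 497 626) (node 562 (merge (leaf 4 465 465) (node 563 (merge (leaf 1 560 564) (leaf 2 559 591))))))))) (merge (node 594 (merge (node 626 (merge (leaf 4 497 497) (node 658 (merge (leaf 7 529 562) (leaf 7 561 690))))) (merge (node 562 (merge (node 563 (merge (leaf 3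 527 560) (leaf 1 560 564))) (node 591 (merge (leaf 2 558 590) (node 623 (merge (leaf 1 590 622) (node 559 (merge (leaf 6 495 496) (leaf 3 558 558))))))))) (node 497 (merge (leaf 4 497 626) (node 560 (merge (leaf 5 464 465) (node 559 (merge (leaf 0 558 558) (leaf 3 559 595)))))))))) (node 530 (merge (node 563 (merge (leaf 0 527 562) (node 531 (merge (leaf 0 528 564) (node 559 (merge (leaf 1 526 558) (leaf 1 527 560))))))) (merge (node 562 (merge (leaf 0 527 563) (node 559 (merge (leaf 1 526 558) (node 591 (merge (leaf 2 558 590) (node 623 (merge (leaf 6 495 496) (node 622 (merge (leaf 1 590 594) (leaf 5 526 654))))))))))) (merge (node 559 (merge (leaf 1 526 558) (node 560 (merge (leaf 1 527 531) (node 624 (merge (leaf 7 527 656) (node 623 (merge (leaf 5 527 655) (node 622 (merge (leaf 2 589 621) (node 591 (merge (leaf 5 495 496) (leaf 1 590 594))))))))))))) (node 563 (merge (leaf 0 527 562) (node 531 (merge (leaf 0 528 564) (node 560 (merge (leaf 1 528 532) (node 496 (merge (leaf 4 464 464) (node 623 (merge (leaf 5 495 591) (node 624 (merge (leaf 5 527 655) (leaf 6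 528 656))))))))))))))))))))))))) (node 497 (merge (node 562 (merge (node 563 (merge (leaf 0 527 530) (leaf 3 528 564))) (node 465 (merge (leaf 4 465 594) (node 434 (merge (leaf 6 433 466) (node 433 (merge (leaf 6 401 402) (node 432 (merge (leaf 7 400 400) (leaf 7 432 464))))))))))) (merge (node 562 (merge (node 563 (merge (leaf 0 527 530) (leaf 3 528 564))) (node 465 (merge (leaf 4 465 594) (node 560 (merge (leaf 5 432 433) (leaf 5 464 592))))))) (merge (node 562 (merge (node 563 (merge (leaf 3 527 560) (leaf 3 528 564))) (node 465 (merge (leaf 4 465 594) (node 434 (merge (leaf 6 433 466) (node 433 (merge (leaf 6 401 402) (node 432 (merge (leaf 7 400 400) (leaf 7 432 464))))))))))) (merge (node 465 (merge (node 560 (merge (leaf 5 432 433) (leaf 5 464 592))) (merge (node 560 (merge (leaf 5 432 433) (leaf 5 464 592))) (merge (node 434 (merge (leaf 6 433 466) (node 433 (merge (leaf 6 401 402) (node 401 (merge (leaf 5 400 496) (leaf 4 401 530))))))) (node 560 (merge (leaf 5 464 592) (node 466 (merge (leaf 6 433 434) (node 464 (merge (leaf 7 432 432) (node 463 (merge (leaf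 0 462 462) (node 431 (merge (leaf 3 430 430) (leaf 7 431 496))))))))))))))) (node 530 (merge (node 563 (merge (leaf 0 527 562) (node 531 (merge (leaf 0 528 564) (node 559 (merge (leaf 1 526 558) (leaf 1 527 560))))))) (merge (node 559 (merge (leaf 1 526 558) (node 531 (merge (leaf 1 527 560) (node 532 (merge (leaf 3 496 496) (leaf 3 497 533))))))) (merge (node 563 (merge (leaf 0 527 562) (node 531 (merge (leaf 0 528 564) (node 532 (merge (leaf 3 496 496) (leaf 3 497 533))))))) (merge (node 563 (merge (leaf 0 527 562) (node 531 (merge (leaf 0 528 564) (node 532 (merge (leaf 1 528 560) (node 501 (merge (leaf 2 497 500) (node 533 (merge (leaf 3 497 497) (leaf 2 498 502))))))))))) (node 562 (merge (leaf 0 527 563) (node 559 (merge (leaf 1 526 558) (node 594 (merge (leaf 7 497 626) (node 560 (merge (leaf 0 559 595) (node 591 (merge (leaf 1 558 590) (node 623 (merge (leaf 6 495 496) (leaf 6 527 655)))))))))))))))))))))))))))))))))) nF_6 cF_6 12 (by decide +kernel)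
def nF_7 : ℕ := 0x200000001800000000000000000000000000000000000000000000000000000000000000000000000000000000000000000000000000000000000000000000000000000000000
def cF_7 : ℕ := 0x800000038000000380000003e0000003e0000001b800001e7000000ff8000007e0000007e00000038000000280000000000000000000000000000000000000000000000000000000000000000000000000000000000000000000
theorem lF_7 : S nF_7 cF_7 11 := S_of_chk [] trivial (node 496 (merge (node 593 (merge (node 625 (merge (leaf 7 496 529) (node 560 (merge (leaf 4 496 592) (leaf 7 528 657))))) (merge (node 529 (merge (leaf 7 496 625) (node 497 (merge (leaf 7 464 464) (node 498 (merge (leaf 6 465 466) (leaf 1 495 499))))))) (merge (node 560 (merge (leaf 4 464 464) (node 625 (merge (leaf 4 496 592) (leaf 7 528 657))))) (node 464 (merge (leaf 4 464 560) (node 497 (merge (leaf 7 464 529) (node 498 (merge (leaf 1 495 499) (node 526 (merge (leaf 1 494 495) (leaf 2 493 525))))))))))))) (merge (node 464 (merge (node 559 (merge (leaf 5 431 432) (node 591 (merge (leaf 6 463 495) (leaf 6 495 623))))) (merge (node 560 (merge (leaf 4 464 593)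 (node 465 (merge (leaf 6 432 433) (node 592 (merge (leaf 6 464 497) (node 463 (merge (leaf 7 431 431) (leaf 7 463 495))))))))) (node 560 (merge (leaf 4 464 593) (node 465 (merge (leaf 6 432 433) (node 592 (merge (leaf 6 464 497) (node 591 (merge (leaf 5 463 559) (leaf 5 495 623)))))))))))) (merge (node 464 (merge (node 593 (merge (leaf 4 464 560) (node 529 (merge (leaf 7 464 497) (leaf 7 496 625))))) (node 432 (merge (leaf 5 431 559) (node 401 (merge (leaf 6 400 433) (node 400 (merge (leaf 6 368 369) (node 399 (merge (leaf 7 367 367) (leaf 7 399 431))))))))))) (merge (node 464 (merge (node 559 (merge (leaf 5 431 432) (node 591 (merge (leaf 6 463 495) (leaf 6 495 623))))) (merge (node 432 (merge (leaf 4 432 529) (node 401 (merge (leaf 6 400 433) (node 400 (merge (leaf 6 368 369) (node 399 (merge (leaf 7 367 367) (leaf 7 399 431))))))))) (node 560 (merge (leaf 4 464 593) (node 591 (merge (leaf 5 463 559) (node 463 (merge (leaf 7 431 431) (node 592 (merge (leaf 7 463 495) (leaf 5 495 623)))))))))))) (merge (node 526 (merge (node 525 (merge (leaf 2 493 497) (leaf 0 525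 560))) (merge (node 497 (merge (leaf 2 493 525) (node 498 (merge (leaf 1 494 495) (leaf 1 495 499))))) (merge (node 525 (merge (leaf 0 525 560) (node 524 (merge (leaf 2 492 495) (node 492 (merge (leaf 3 491 491) (leaf 3 492 493))))))) (node 497 (merge (node 498 (merge (leaf 1 495 499) (leaf 2 494 529))) (merge (node 498 (merge (leaf 1 494 495) (leaf 1 495 499))) (node 560 (merge (node 592 (merge (leaf 6 464 465) (node 624 (merge (leaf 7 495 495) (leaf 6 496 529))))) (merge (node 464 (merge (node 559 (merge (leaf 5 431 432) (leaf 5 463 591))) (merge (node 559 (merge (leaf 5 431 432) (leaf 5 463 591))) (merge (node 433 (merge (leaf 6 432 465) (node 432 (merge (leaf 6 400 401) (node 431 (merge (leaf 7 399 399) (leaf 7 431 463))))))) (node 559 (merge (leaf 5 463 591) (node 465 (merge (leaf 6 432 433) (node 463 (merge (leaf 7 431 431) (node 462 (merge (leaf 0 461 461) (node 430 (merge (leaf 3 429 429) (leaf 4 430 494))))))))))))))) (node 591 (merge (node 559 (merge (leaf 5 463 464) (leaf 6 495 623))) (merge (node 592 (merge (leaf 5 495 623) (node 624 (merge (leaf 7 495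 495) (leaf 6 496 529))))) (node 464 (merge (leaf 5 463 559) (node 463 (merge (leaf 7 431 431) (node 592 (merge (leaf 7 463 495) (node 529 (merge (leaf 6 496 624) (node 432 (merge (leaf 4 400 400) (leaf 4 432 561)))))))))))))))))))))))) (merge (node 464 (merge (node 529 (merge (leaf 4 432 432) (node 593 (merge (leaf 7 464 497) (leaf 7 496 625))))) (merge (node 559 (merge (leaf 5 431 432) (node 591 (merge (leaf 6 463 495) (leaf 6 495 623))))) (node 526 (merge (node 497 (merge (leaf 2 493 525) (node 498 (merge (leaf 1 494 495) (leaf 1 495 499))))) (merge (node 525 (merge (leaf 2 493 497) (node 557 (merge (leaf 1 524 556) (node 493 (merge (leaf 3 492 492) (node 494 (merge (leaf 3 493 529) (node 589 (merge (leaf 6 461 462) (leaf 6 493 621))))))))))) (merge (node 525 (merge (node 524 (merge (leaf 2 492 495) (node 492 (merge (leaf 3 491 491) (leaf 3 492 493))))) (merge (node 524 (merge (leaf 2 492 495) (node 556 (merge (leaf 1 523 555) (leaf 1 524 557))))) (node 557 (merge (leaf 1 524 556) (node 493 (merge (leaf 3 492 492) (node 494 (merge (leaf 3 493 529) (node 589 (merge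 (leaf 6 461 462) (leaf 6 493 621)))))))))))) (node 497 (merge (node 498 (merge (leaf 1 494 495) (leaf 1 495 499))) (merge (node 529 (merge (leaf 2 494 498) (leaf 7 464 593))) (node 529 (merge (leaf 7 464 593) (node 494 (merge (leaf 3 493 493) (node 495 (merge (leaf 0 494 530) (node 462 (merge (leaf 3 461 461) (node 559 (merge (leaf 4 430 430) (leaf 6 463 591))))))))))))))))))))) (node 560 (merge (node 497 (merge (node 526 (merge (leaf 2 493 525) (node 498 (merge (leaf 1 494 495) (leaf 1 495 499))))) (node 592 (merge (leaf 6 464 465) (node 625 (merge (leaf 4 496 593) (node 624 (merge (leaf 4 528 657) (node 623 (merge (leaf 5 495 591) (leaf 5 527 655))))))))))) (merge (node 592 (merge (node 623 (merge (leaf 5 495 591) (node 624 (merge (leaf 5 527 655) (node 656 (merge (leaf 7 527 559) (node 657 (merge (leaf 4 528 625) (leaf 4 560 689))))))))) (node 497 (merge (leaf 6 464 465) (node 526 (merge (leaf 2 493 525) (node 495 (merge (leaf 7 463 463) (leaf 1 494 498))))))))) (merge (node 592 (merge (node 625 (merge (leaf 4 496 593) (node 624 (merge (leaf 7 495 495) (leaf 4 528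 657))))) (merge (node 623 (merge (leaf 5 495 591) (node 624 (merge (leaf 5 527 655) (node 657 (merge (leaf 4 528 625) (node 656 (merge (leaf 6 528 529) (leaf 4 560 689))))))))) (node 591 (merge (leaf 5 495 623) (node 590 (merge (leaf 2 557 589) (node 495 (merge (leaf 7 463 463) (node 559 (merge (leaf 5 494 622) (node 494 (merge (leaf 7 462 462) (node 493 (merge (leaf 0 492 492) (leaf 0 493 529)))))))))))))))) (merge (node 592 (merge (node 495 (merge (leaf 7 463 463) (node 624 (merge (leaf 7 495 527) (node 655 (merge (leaf 5 527 623) (node 656 (merge (leaf 6 528 529) (leaf 5 559 687))))))))) (merge (node 624 (merge (leaf 7 495 495) (node 656 (merge (leaf 7 527 559) (node 687 (merge (leaf 5 559 655) (node 688 (merge (leaf 6 560 593) (leaf 5 591 719))))))))) (merge (node 497 (merge (leaf 6 464 465) (node 624 (merge (leaf 6 496 529) (node 656 (merge (leaf 7 527 559) (node 687 (merge (leaf 5 559 655) (node 688 (merge (leaf 6 560 593) (leaf 5 591 719))))))))))) (node 591 (merge (leaf 5 495 623) (node 590 (merge (leaf 2 557 589) (node 495 (merge (leaf 7 463 463) (node 559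 (merge (leaf 5 494 622) (node 494 (merge (leaf 7 462 462) (node 529 (merge (leaf 0 493 493) (leaf 3 494 530))))))))))))))))) (merge (node 497 (merge (node 498 (merge (leaf 1 495 499) (node 529 (merge (leaf 2 494 526) (node 593 (merge (leaf 6 465 466) (leaf 7 496 625))))))) (merge (node 592 (merge (leaf 6 464 465) (node 623 (merge (leaf 5 495 591) (node 624 (merge (leaf 5 527 655) (node 656 (merge (leaf 7 527 559) (node 657 (merge (leaf 4 528 625) (leaf 4 560 689))))))))))) (node 592 (merge (leaf 6 464 465) (node 624 (merge (leaf 6 496 529) (node 656 (merge (leaf 7 527 559) (node 687 (merge (leaf 5 559 655) (node 688 (merge (leaf 6 560 593) (leaf 5 591 719)))))))))))))) (node 529 (merge (node 526 (merge (leaf 0 525 525) (node 494 (merge (leaf 3 493 493) (node 530 (merge (leaf 3 494 495) (node 531 (merge (leaf 1 528 532) (leaf 1 527 559))))))))) (merge (node 526 (merge (leaf 0 525 525) (node 497 (merge (leaf 2 494 498) (node 494 (merge (leaf 3 493 493) (node 465 (merge (leaf 5 432 433) (node 466 (merge (leaf 6 433 434) (leaf 2 462 495))))))))))) (merge (node 498 (merge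 (node 530 (merge (leaf 2 495 499) (node 531 (merge (leaf 3 495 495) (leaf 1 527 559))))) (merge (node 497 (merge (leaf 1 495 499) (node 593 (merge (leaf 6 465 466) (leaf 7 496 625))))) (node 593 (merge (leaf 7 496 625) (node 466 (merge (leaf 6 465 497) (node 530 (merge (leaf 5 433 434) (node 531 (merge (leaf 1 528 532) (leaf 1 527 559)))))))))))) (node 526 (merge (leaf 0 525 525) (node 498 (merge (leaf 2 494 497) (node 530 (merge (leaf 2 495 499) (node 531 (merge (leaf 1 528 532) (leaf 1 527 559)))))))))))))))))))))))))) nF_7 cF_7 11 (by decide +kernel)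
def nF_8 : ℕ := 0x200000001800000000000000000000000000000000000000000000000000000000000000000000000000000000000000000000000000000000000000000000000000000000000
def cF_8 : ℕ := 0x800000038000000780000007c000000fe000003da000003e3000007ff000000ff000000fc0000007c000000280000000000000000000000000000000000000000000000000000000000000000000000000000000000000000000
theorem lF_8 : S nF_8 cF_8 12 := S_of_chk [] trivial (node 496 (merge (node 464 (merge (node 559 (merge (leaf 5 431 432) (node 591 (merge (leaf 6 463 495) (leaf 6 495 623))))) (merge (node 560 (merge (leaf 4 464 593) (node 465 (merge (leaf 6 432 433) (node 592 (merge (leaf 6 464 497) (node 463 (merge (leaf 7 431 431) (leaf 7 463 495))))))))) (node 560 (merge (leaf 4 464 593) (node 465 (merge (leaf 6 432 433) (node 592 (merge (leaf 6 464 497) (node 591 (merge (leaf 5 463 559) (leaf 5 495 623)))))))))))) (merge (node 464 (merge (node 559 (merge (leaf 5 431 432) (node 591 (merge (leaf 6 463 495) (leaf 6 495 623))))) (merge (node 432 (merge (leaf 4 432 529) (node 401 (merge (leaf 6 400 433) (node 400 (merge (leaf 6 368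 369) (node 399 (merge (leaf 7 367 367) (leaf 7 399 431))))))))) (node 560 (merge (leaf 4 464 593) (node 591 (merge (leaf 5 463 559) (node 463 (merge (leaf 7 431 431) (node 592 (merge (leaf 7 463 495) (leaf 5 495 623)))))))))))) (merge (node 593 (merge (node 625 (merge (leaf 7 496 529) (node 560 (merge (leaf 4 496 592) (leaf 7 528 657))))) (merge (node 464 (merge (leaf 4 464 560) (node 529 (merge (leaf 4 432 432) (leaf 7 464 497))))) (merge (node 560 (merge (leaf 4 464 464) (node 625 (merge (leaf 4 496 592) (leaf 7 528 657))))) (node 529 (merge (leaf 7 496 625) (node 497 (merge (leaf 7 464 464) (node 594 (merge (leaf 4 497 626) (node 562 (merge (leaf 4 465 465) (node 563 (merge (leaf 3 528 564) (node 592 (merge (leaf 2 559 591) (leaf 5 496 624))))))))))))))))) (merge (node 563 (merge (node 562 (merge (leaf 3 527 560) (node 529 (merge (leaf 0 527 530) (leaf 3 528 564))))) (merge (node 560 (merge (leaf 3 527 562) (node 464 (merge (leaf 4 464 593) (node 591 (merge (leaf 5 463 559) (node 592 (merge (leaf 5 495 623) (node 463 (merge (leaf 7 431 431) (leaf 7 463 495)))))))))))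 (merge (node 529 (merge (node 562 (merge (leaf 0 527 530) (leaf 3 528 564))) (node 593 (merge (leaf 7 496 625) (node 497 (merge (leaf 7 464 464) (node 498 (merge (leaf 6 465 466) (leaf 1 495 499))))))))) (node 560 (merge (node 593 (merge (leaf 4 464 464) (node 625 (merge (leaf 7 496 529) (leaf 7 528 657))))) (merge (node 464 (merge (leaf 4 464 593) (node 591 (merge (leaf 5 463 559) (node 592 (merge (leaf 5 495 623) (node 463 (merge (leaf 7 431 431) (leaf 7 463 495))))))))) (merge (node 465 (merge (node 433 (merge (leaf 6 432 464) (node 497 (merge (leaf 5 400 401) (leaf 5 432 529))))) (merge (node 592 (merge (leaf 6 464 497) (node 624 (merge (leaf 7 495 495) (node 656 (merge (leaf 6 528 529) (leaf 7 527 559))))))) (node 464 (merge (leaf 6 432 433) (node 591 (merge (leaf 5 463 559) (node 592 (merge (leaf 5 495 623) (node 463 (merge (leaf 7 431 431) (leaf 7 463 495)))))))))))) (node 592 (merge (node 624 (merge (leaf 7 495 495) (node 656 (merge (leaf 6 528 529) (leaf 7 527 559))))) (merge (node 593 (merge (leaf 4 496 625) (node 497 (merge (leaf 6 464 465) (node 498 (merge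 (leaf 1 495 499) (node 466 (merge (leaf 6 465 529) (node 495 (merge (leaf 7 463 463) (leaf 2 463 467))))))))))) (merge (node 497 (merge (leaf 6 464 465) (node 624 (merge (leaf 6 496 529) (node 656 (merge (leaf 7 527 559) (node 687 (merge (leaf 5 559 655) (node 688 (merge (leaf 6 560 593) (leaf 5 591 719))))))))))) (node 624 (merge (leaf 7 495 495) (node 656 (merge (leaf 7 527 559) (node 687 (merge (leaf 5 559 655) (node 688 (merge (leaf 6 560 593) (leaf 5 591 719))))))))))))))))))))) (merge (node 464 (merge (node 559 (merge (leaf 5 431 432) (node 591 (merge (leaf 5 463 560) (leaf 6 495 623))))) (merge (node 432 (merge (leaf 4 432 529) (node 401 (merge (leaf 6 400 433) (node 400 (merge (leaf 6 368 369) (node 399 (merge (leaf 7 367 367) (leaf 7 399 431))))))))) (node 560 (merge (node 465 (merge (leaf 6 432 433) (node 592 (merge (leaf 6 464 497) (node 623 (merge (leaf 5 495 591) (node 624 (merge (leaf 7 495 495) (leaf 5 527 655))))))))) (merge (node 463 (merge (leaf 7 431 431) (node 592 (merge (leaf 7 463 495) (node 623 (merge (leaf 5 495 591) (node 624 (merge (leaf 5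 527 655) (node 657 (merge (leaf 4 528 625) (node 656 (merge (leaf 6 528 529) (leaf 4 560 689))))))))))))) (merge (node 465 (merge (leaf 6 432 433) (node 497 (merge (leaf 6 464 592) (node 498 (merge (leaf 1 495 499) (node 463 (merge (leaf 7 431 431) (leaf 0 462 462))))))))) (node 562 (merge (leaf 3 527 563) (node 559 (merge (leaf 5 463 591) (node 594 (merge (leaf 0 559 595) (node 530 (merge (leaf 2 527 531) (node 465 (merge (leaf 6 432 433) (node 497 (merge (leaf 7 465 498) (leaf 4 465 529)))))))))))))))))))) (merge (node 529 (merge (node 464 (merge (leaf 4 432 432) (node 593 (merge (leaf 7 464 497) (leaf 7 496 625))))) (merge (node 530 (merge (node 499 (merge (leaf 2 495 498) (node 531 (merge (leaf 3 495 495) (leaf 2 496 500))))) (merge (node 498 (merge (leaf 2 495 499) (node 593 (merge (leaf 6 497 625) (node 466 (merge (leaf 5 433 434) (leaf 5 465 562))))))) (node 531 (merge (leaf 3 495 495) (node 564 (merge (leaf 0 528 563) (node 532 (merge (leaf 0 529 565) (node 533 (merge (leaf 1 529 562) (node 501 (merge (leaf 2 497 500) (leaf 2 498 502)))))))))))))) (node 495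 (merge (node 530 (merge (leaf 3 494 494) (leaf 3 495 531))) (merge (node 530 (merge (leaf 3 495 531) (node 562 (merge (leaf 0 527 563) (node 498 (merge (leaf 2 495 499) (node 466 (merge (leaf 5 433 434) (node 467 (merge (leaf 6 434 435) (leaf 2 463 497))))))))))) (node 497 (merge (node 494 (merge (leaf 0 493 493) (node 462 (merge (leaf 3 461 461) (node 498 (merge (leaf 3 462 463) (node 499 (merge (leaf 1 496 500) (leaf 1 495 527))))))))) (merge (node 498 (merge (leaf 1 495 499) (node 466 (merge (leaf 2 463 467) (node 494 (merge (leaf 2 462 465) (node 493 (merge (leaf 0 492 492) (leaf 0 493 529))))))))) (merge (node 498 (merge (leaf 1 495 499) (node 466 (merge (leaf 2 463 467) (node 463 (merge (leaf 3 462 462) (node 431 (merge (leaf 4 399 399) (node 430 (merge (leaf 7 398 398) (node 465 (merge (leaf 3 430 464) (node 433 (merge (leaf 5 400 401) (leaf 0 430 432))))))))))))))) (node 494 (merge (leaf 0 493 493) (node 465 (merge (leaf 2 462 466) (node 462 (merge (leaf 3 461 461) (node 433 (merge (leaf 5 400 401) (node 434 (merge (leaf 6 401 402) (node 463 (merge (leaf 2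 430 464) (node 431 (merge (leaf 4 399 399) (leaf 1 430 432))))))))))))))))))))))))) (node 495 (merge (node 529 (merge (node 530 (merge (leaf 3 494 494) (leaf 3 495 531))) (node 592 (merge (node 560 (merge (leaf 7 463 463) (leaf 7 495 624))) (merge (node 593 (merge (leaf 7 496 625) (node 497 (merge (leaf 5 496 624) (node 498 (merge (leaf 6 465 466) (leaf 1 495 499))))))) (node 560 (merge (leaf 7 463 463) (node 593 (merge (leaf 4 496 625) (node 591 (merge (leaf 5 495 623) (node 590 (merge (leaf 2 558 562) (leaf 2 557 589)))))))))))))) (merge (node 497 (merge (node 498 (merge (leaf 1 495 499) (node 466 (merge (leaf 2 463 467) (node 494 (merge (leaf 2 462 465) (node 493 (merge (leaf 0 492 492) (node 461 (merge (leaf 3 460 460) (leaf 3 461 462))))))))))) (merge (node 494 (merge (node 529 (merge (leaf 0 493 493) (leaf 0 494 530))) (merge (node 493 (merge (leaf 0 492 492) (node 461 (merge (leaf 3 460 460) (leaf 3 461 462))))) (node 462 (merge (leaf 3 461 461) (node 430 (merge (leaf 4 398 398) (node 559 (merge (leaf 7 430 463) (leaf 7 462 591)))))))))) (node 498 (merge (leaf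 1 495 499) (node 530 (merge (leaf 0 495 531) (node 466 (merge (leaf 2 463 467) (node 593 (merge (leaf 6 465 529) (leaf 5 465 562)))))))))))) (merge (node 463 (merge (node 560 (merge (leaf 4 431 431) (leaf 7 463 592))) (merge (node 431 (merge (leaf 4 399 399) (node 432 (merge (leaf 6 399 400) (node 430 (merge (leaf 7 398 398) (node 462 (merge (leaf 7 430 559) (node 461 (merge (leaf 1 429 433) (leaf 0 460 460))))))))))) (node 462 (merge (node 461 (merge (leaf 0 460 460) (node 497 (merge (leaf 3 461 494) (leaf 3 462 498))))) (node 559 (merge (leaf 7 430 430) (node 592 (merge (leaf 4 463 560) (node 591 (merge (leaf 6 495 623) (leaf 4 495 624)))))))))))) (merge (node 497 (merge (node 498 (merge (leaf 1 495 499) (node 463 (merge (leaf 3 462 462) (node 431 (merge (leaf 4 399 399) (leaf 4 431 560))))))) (merge (node 498 (merge (leaf 1 495 499) (node 530 (merge (leaf 0 495 531) (node 529 (merge (leaf 0 494 494) (node 466 (merge (leaf 5 433 434) (leaf 2 463 467))))))))) (node 494 (merge (node 529 (merge (leaf 0 493 493) (leaf 0 494 530))) (merge (node 493 (merge (leaf 0 492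 492) (node 461 (merge (leaf 3 460 460) (leaf 3 461 462))))) (node 462 (merge (leaf 3 461 461) (node 430 (merge (leaf 4 398 398) (node 559 (merge (leaf 7 430 463) (leaf 7 462 591))))))))))))) (merge (node 559 (merge (node 591 (merge (leaf 6 495 623) (node 462 (merge (leaf 7 462 494) (node 463 (merge (leaf 7 430 430) (node 431 (merge (leaf 4 399 399) (leaf 4 431 560))))))))) (merge (node 591 (merge (leaf 6 495 623) (node 592 (merge (leaf 4 495 624) (node 590 (merge (leaf 5 494 622) (node 593 (merge (leaf 2 558 562) (node 625 (merge (leaf 7 496 529) (leaf 0 590 626))))))))))) (node 463 (merge (node 431 (merge (leaf 4 399 399) (node 430 (merge (leaf 7 398 398) (leaf 7 430 462))))) (node 560 (merge (leaf 4 463 592) (node 562 (merge (leaf 3 527 563) (node 594 (merge (leaf 0 559 595) (node 530 (merge (leaf 2 527 531) (node 529 (merge (leaf 3 494 494) (node 626 (merge (leaf 7 529 658) (node 625 (merge (leaf 7 496 593) (leaf 5 529 657)))))))))))))))))))) (merge (node 497 (merge (node 498 (merge (leaf 1 495 499) (node 463 (merge (leaf 3 462 462) (node 431 (merge (leaf 4 399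 399) (leaf 4 431 560))))))) (merge (node 498 (merge (leaf 1 495 499) (node 530 (merge (leaf 0 495 531) (node 466 (merge (leaf 2 463 467) (node 593 (merge (leaf 6 465 529) (leaf 5 465 562))))))))) (node 529 (merge (node 593 (merge (leaf 7 496 625) (node 592 (merge (leaf 5 496 624) (node 560 (merge (leaf 7 463 463) (leaf 6 464 465))))))) (merge (node 530 (merge (leaf 3 495 531) (node 562 (merge (leaf 0 527 563) (node 465 (merge (leaf 4 433 433) (node 594 (merge (leaf 4 465 561) (leaf 7 497 626))))))))) (node 593 (merge (leaf 7 496 625) (node 592 (merge (leaf 5 496 624) (node 560 (merge (leaf 7 463 463) (node 591 (merge (leaf 5 495 623) (node 590 (merge (leaf 2 558 562) (leaf 2 557 589))))))))))))))))) (node 494 (merge (node 529 (merge (leaf 0 493 493) (leaf 3 494 530))) (merge (node 493 (merge (leaf 0 492 492) (node 525 (merge (leaf 1 492 524) (node 461 (merge (leaf 3 460 460) (node 462 (merge (leaf 3 461 497) (node 430 (merge (leaf 4 398 398) (leaf 6 429 557))))))))))) (node 497 (merge (node 466 (merge (leaf 2 462 465) (node 498 (merge (leaf 2 463 467) (leaf 1 495 499)))))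 (merge (node 465 (merge (leaf 2 462 466) (node 433 (merge (leaf 5 400 401) (node 560 (merge (leaf 5 432 529) (leaf 6 464 592))))))) (merge (node 530 (merge (leaf 0 494 529) (node 498 (merge (leaf 1 495 499) (leaf 0 495 531))))) (node 498 (merge (leaf 1 495 499) (node 530 (merge (leaf 0 495 531) (node 529 (merge (leaf 0 494 494) (node 562 (merge (leaf 0 527 563) (node 594 (merge (leaf 7 465 465) (leaf 7 497 626)))))))))))))))))))))))))))))))) nF_8 cF_8 12 (by decide +kernel)
def nF_9 : ℕ := 0x1800000000000000000000000000000000000000000000000000000000000000000000000000000000000000000000000000000000000000000000000000000000000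
def cF_9 : ℕ := 0x540000007c0000007c000001ff000007ff000003e60000077f000001fe000000ff0000007c000000100000000000000000000000000000000000000000000000000000000000000000000000000000000000000000000
theorem lF_9 : S nF_9 cF_9 13 := S_of_chk [] trivial (node 529 (merge (node 526 (merge (node 561 (merge (leaf 0 526 562) (node 525 (merge (leaf 0 525 560) (node 493 (merge (leaf 3 492 492) (leaf 3 493 494))))))) (merge (node 562 (merge (leaf 0 526 561) (node 530 (merge (leaf 0 527 563) (node 558 (merge (leaf 1 525 557) (leaf 1 526 559))))))) (node 557 (merge (leaf 1 525 558) (node 525 (merge (leaf 1 524 556) (node 493 (merge (leaf 3 492 492) (leaf 3 493 494)))))))))) (merge (node 526 (merge (node 562 (merge (leaf 0 526 561) (node 530 (merge (leaf 0 527 563) (node 494 (merge (leaf 3 493 493) (leaf 3 494 495))))))) (node 497 (merge (leaf 2 494 498) (node 525 (merge (leaf 2 493 496) (node 557 (merge (leaf 1 524 556) (leaf 1 525 558))))))))) (merge (node 494 (merge (node 493 (merge (leaf 3 493 526) (node 495 (merge (leaf 0 492 492) (leaf 0 493 496))))) (merge (node 526 (merge (leaf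 3 493 493) (node 558 (merge (leaf 1 525 557) (node 559 (merge (leaf 1 526 530) (node 591 (merge (leaf 4 462 462) (leaf 7 494 623))))))))) (node 530 (merge (leaf 3 494 495) (node 563 (merge (leaf 0 527 562) (node 531 (merge (leaf 0 528 564) (node 559 (merge (leaf 1 526 558) (leaf 1 527 560)))))))))))) (merge (node 562 (merge (node 563 (merge (leaf 0 527 530) (node 561 (merge (leaf 3 527 560) (leaf 3 528 564))))) (merge (node 526 (merge (leaf 0 526 561) (node 497 (merge (leaf 2 494 498) (node 525 (merge (leaf 2 493 496) (node 493 (merge (leaf 3 492 492) (leaf 3 493 494))))))))) (node 530 (merge (leaf 0 527 563) (node 494 (merge (leaf 3 494 495) (node 526 (merge (leaf 3 493 493) (node 497 (merge (leaf 2 494 498) (node 496 (merge (leaf 2 493 525) (node 531 (merge (leaf 3 496 532) (node 560 (merge (leaf 1 527 559) (node 465 (merge (leaf 4 433 433) (leaf 6 464 592)))))))))))))))))))) (merge (node 562 (merge (node 563 (merge (leaf 0 527 530) (node 561 (merge (leaf 3 527 560) (leaf 3 528 564))))) (merge (node 526 (merge (leaf 0 526 561) (node 497 (merge (leaf 2 494 498) (node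 525 (merge (leaf 2 493 496) (node 557 (merge (leaf 1 524 556) (leaf 1 525 558))))))))) (node 530 (merge (leaf 0 527 563) (node 559 (merge (leaf 1 526 558) (node 531 (merge (leaf 1 527 560) (node 496 (merge (leaf 3 495 495) (node 532 (merge (leaf 3 496 497) (node 565 (merge (leaf 0 529 564) (node 533 (merge (leaf 0 530 566) (node 501 (merge (leaf 2 497 500) (leaf 2 498 502)))))))))))))))))))) (merge (node 559 (merge (node 558 (merge (leaf 1 526 530) (node 557 (merge (leaf 1 525 526) (leaf 2 524 556))))) (merge (node 530 (merge (leaf 1 526 558) (node 531 (merge (leaf 1 527 560) (node 495 (merge (leaf 3 494 494) (leaf 3 495 496))))))) (node 591 (merge (node 496 (merge (leaf 6 495 623) (node 464 (merge (leaf 5 431 432) (leaf 5 463 560))))) (merge (node 496 (merge (leaf 6 495 623) (node 495 (merge (leaf 6 463 464) (node 494 (merge (leaf 7 462 462) (leaf 0 493 493))))))) (merge (node 623 (merge (node 656 (merge (leaf 4 527 624) (node 655 (merge (leaf 6 527 560) (leaf 4 559 688))))) (merge (node 655 (merge (leaf 6 527 560) (node 654 (merge (leaf 5 526 622) (leaf 5 558 686)))))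 (node 624 (merge (leaf 4 527 656) (node 495 (merge (leaf 4 495 592) (node 622 (merge (leaf 5 494 590) (leaf 5 526 654)))))))))) (node 495 (merge (node 494 (merge (leaf 7 462 462) (node 493 (merge (leaf 0 492 492) (leaf 0 493 496))))) (merge (node 592 (merge (leaf 4 495 624) (node 463 (merge (leaf 4 463 560) (node 430 (merge (leaf 7 430 462) (node 431 (merge (leaf 7 398 398) (node 399 (merge (leaf 4 399 496) (node 400 (merge (leaf 6 367 368) (leaf 6 399 432))))))))))))) (merge (node 592 (merge (leaf 4 495 624) (node 560 (merge (leaf 4 463 463) (node 590 (merge (leaf 5 494 622) (node 589 (merge (leaf 2 557 561) (leaf 2 556 588))))))))) (node 592 (merge (leaf 4 495 624) (node 560 (merge (leaf 4 463 463) (node 496 (merge (leaf 5 463 464) (node 497 (merge (leaf 6 464 465) (node 526 (merge (leaf 1 494 498) (leaf 2 493 525)))))))))))))))))))))) (merge (node 495 (merge (node 530 (merge (leaf 3 494 494) (node 563 (merge (leaf 0 527 562) (node 531 (merge (leaf 3 495 496) (leaf 0 528 564))))))) (merge (node 530 (merge (leaf 3 494 494) (node 563 (merge (leaf 0 527 562) (node 531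 (merge (leaf 0 528 564) (node 559 (merge (leaf 1 526 558) (leaf 1 527 560))))))))) (merge (node 559 (merge (node 558 (merge (leaf 1 526 530) (node 557 (merge (leaf 2 524 556) (leaf 2 525 560))))) (merge (node 530 (merge (leaf 1 526 558) (node 563 (merge (leaf 0 527 562) (node 531 (merge (leaf 3 495 496) (leaf 0 528 564))))))) (merge (node 592 (merge (node 560 (merge (leaf 4 463 463) (leaf 7 495 624))) (merge (node 591 (merge (leaf 4 495 624) (node 623 (merge (leaf 6 495 496) (node 622 (merge (leaf 5 494 590) (leaf 5 526 654))))))) (node 463 (merge (leaf 4 463 560) (node 590 (merge (leaf 5 462 558) (node 591 (merge (leaf 5 494 622) (node 464 (merge (leaf 6 431 432) (leaf 6 463 496)))))))))))) (node 592 (merge (node 560 (merge (leaf 4 463 463) (leaf 7 495 624))) (merge (node 591 (merge (leaf 4 495 624) (node 623 (merge (leaf 6 495 496) (node 622 (merge (leaf 5 494 590) (leaf 5 526 654))))))) (node 463 (merge (leaf 4 463 560) (node 464 (merge (leaf 6 431 432) (node 496 (merge (leaf 6 463 591) (node 462 (merge (leaf 7 430 430) (node 497 (merge (leaf 0 461 461) (leaf 3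 462 498)))))))))))))))))) (node 463 (merge (node 431 (merge (leaf 4 431 560) (node 432 (merge (leaf 6 399 400) (node 559 (merge (leaf 6 431 464) (node 430 (merge (leaf 7 398 398) (leaf 7 430 462))))))))) (merge (node 559 (merge (node 464 (merge (leaf 6 431 432) (node 591 (merge (leaf 6 463 496) (node 590 (merge (leaf 5 462 558) (leaf 5 494 622))))))) (merge (node 558 (merge (leaf 5 462 590) (node 557 (merge (leaf 2 524 556) (leaf 2 525 560))))) (node 462 (merge (leaf 7 430 430) (node 591 (merge (leaf 7 462 494) (node 623 (merge (leaf 6 495 496) (node 654 (merge (leaf 5 526 622) (node 655 (merge (leaf 6 527 560) (leaf 5 558 686)))))))))))))) (merge (node 431 (merge (leaf 4 431 560) (node 496 (merge (leaf 4 399 399) (node 430 (merge (leaf 7 398 398) (node 559 (merge (leaf 7 430 462) (node 591 (merge (leaf 6 463 464) (leaf 6 495 623))))))))))) (merge (node 431 (merge (leaf 4 431 560) (node 496 (merge (leaf 4 399 399) (node 494 (merge (leaf 0 493 493) (node 432 (merge (leaf 6 399 400) (node 559 (merge (leaf 5 431 464) (node 591 (merge (leaf 7 462 462) (leaf 6 495 623)))))))))))))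 (merge (node 431 (merge (leaf 4 431 560) (node 399 (merge (leaf 4 399 496) (node 400 (merge (leaf 6 367 368) (leaf 6 399 432))))))) (merge (node 559 (merge (node 590 (merge (leaf 5 462 558) (node 591 (merge (leaf 5 494 622) (node 462 (merge (leaf 7 430 430) (leaf 7 462 494))))))) (merge (node 464 (merge (leaf 6 431 432) (node 591 (merge (leaf 6 463 496) (node 590 (merge (leaf 5 462 558) (leaf 5 494 622))))))) (node 432 (merge (leaf 6 431 464) (node 431 (merge (leaf 6 399 400) (node 430 (merge (leaf 7 398 398) (leaf 7 430 462)))))))))) (merge (node 560 (merge (leaf 4 431 431) (node 592 (merge (leaf 7 463 496) (leaf 4 463 559))))) (node 431 (merge (leaf 4 431 560) (node 496 (merge (leaf 4 399 399) (node 432 (merge (leaf 6 399 400) (node 464 (merge (leaf 4 432 561) (node 430 (merge (leaf 7 398 398) (node 429 (merge (leaf 0 428 428) (leaf 0 429 465))))))))))))))))))))))))) (node 561 (merge (node 562 (merge (leaf 0 526 526) (node 563 (merge (leaf 3 527 560) (leaf 3 528 564))))) (merge (node 526 (merge (leaf 0 526 562) (node 557 (merge (leaf 1 525 558) (node 525 (merge (leaf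 1 524 556) (node 493 (merge (leaf 3 492 492) (leaf 3 493 494))))))))) (merge (node 497 (merge (node 526 (merge (leaf 2 494 498) (node 557 (merge (leaf 1 525 558) (node 525 (merge (leaf 1 524 556) (node 493 (merge (leaf 3 492 492) (leaf 3 493 494))))))))) (node 465 (merge (node 560 (merge (leaf 5 432 433) (leaf 5 464 592))) (merge (node 464 (merge (leaf 7 432 432) (node 593 (merge (leaf 7 464 496) (node 626 (merge (leaf 4 497 594) (node 625 (merge (leaf 4 529 658) (node 624 (merge (leaf 5 496 592) (leaf 5 528 656))))))))))) (node 433 (merge (leaf 5 432 560) (node 496 (merge (leaf 5 400 401) (node 434 (merge (leaf 6 401 402) (node 432 (merge (leaf 7 400 400) (node 464 (merge (leaf 5 431 559) (node 435 (merge (leaf 1 431 463) (node 467 (merge (leaf 0 432 468) (node 431 (merge (leaf 7 399 399) (leaf 0 431 466)))))))))))))))))))))) (node 593 (merge (node 496 (merge (leaf 7 496 625) (node 464 (merge (leaf 4 432 432) (leaf 4 464 560))))) (merge (node 625 (merge (leaf 7 496 496) (node 658 (merge (leaf 4 529 626) (node 657 (merge (leaf 4 561 690) (node 656 (merge (leaf 5 528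 624) (leaf 5 560 688))))))))) (merge (node 625 (merge (node 657 (merge (leaf 7 528 560) (node 658 (merge (leaf 4 529 626) (leaf 4 561 690))))) (merge (node 657 (merge (leaf 7 528 560) (node 656 (merge (leaf 5 528 624) (leaf 5 560 688))))) (node 626 (merge (leaf 4 529 658) (node 497 (merge (leaf 4 497 594) (node 624 (merge (leaf 5 496 592) (leaf 5 528 656)))))))))) (node 592 (merge (node 497 (merge (leaf 5 496 624) (node 466 (merge (leaf 6 465 498) (node 465 (merge (leaf 6 433 434) (leaf 5 464 560))))))) (merge (node 560 (merge (node 624 (merge (leaf 7 495 495) (leaf 6 528 656))) (merge (node 496 (merge (leaf 4 464 464) (node 591 (merge (leaf 5 495 623) (node 590 (merge (leaf 2 558 562) (leaf 2 557 589))))))) (node 496 (merge (leaf 4 464 464) (node 591 (merge (leaf 5 495 623) (node 590 (merge (leaf 2 558 562) (leaf 2 557 589)))))))))) (merge (node 560 (merge (node 497 (merge (leaf 5 464 465) (node 594 (merge (leaf 4 497 626) (node 595 (merge (leaf 3 559 559) (leaf 3 560 596))))))) (node 496 (merge (leaf 4 464 464) (node 591 (merge (leaf 5 495 623) (node 590 (merge (leaf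 2 558 562) (leaf 2 557 589))))))))) (node 497 (merge (leaf 5 496 624) (node 594 (merge (leaf 4 497 626) (node 562 (merge (leaf 4 465 465) (node 563 (merge (leaf 1 560 564) (leaf 2 559 591))))))))))))))))))))))))))))) nF_9 cF_9 13 (by decide +kernel)
def nF_10 : ℕ := 0x1800000000000000000000000000000000000000000000000000000000000000000000000000000000000000000000000000000000000000000000000000000000000
def cF_10 : ℕ := 0x540000007c0000007c000000ff000007ff800003e7800007fb800001fc000000fc0000007c000000100000000000000000000000000000000000000000000000000000000000000000000000000000000000000000000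
theorem lF_10 : S nF_10 cF_10 13 := S_of_chk [] trivial (node 529 (merge (node 530 (merge (node 563 (merge (leaf 0 527 562) (node 531 (merge (leaf 0 528 564) (node 559 (merge (leaf 1 526 558) (leaf 1 527 560))))))) (merge (node 563 (merge (leaf 0 527 562) (node 531 (merge (leaf 0 528 564) (node 499 (merge (leaf 2 495 498) (leaf 2 496 500))))))) (node 498 (merge (leaf 2 495 499) (node 526 (merge (leaf 2 494 497) (node 558 (merge (leaf 1 525 557) (leaf 1 526 559)))))))))) (merge (node 526 (merge (node 562 (merge (leaf 0 526 561) (node 530 (merge (leaf 0 527 563) (node 498 (merge (leaf 2 494 497) (leaf 2 495 499))))))) (merge (node 562 (merge (leaf 0 526 561) (node 530 (merge (leaf 0 527 563) (node 558 (merge (leaf 1 525 557) (leaf 1 526 559))))))) (node 497 (merge (leaf 2 494 498) (node 525 (merge (leaf 2 493 496) (node 557 (merge (leaf 1 524 556) (leaf 1 525 558)))))))))) (merge (node 526 (merge (node 562 (merge (leaf 0 526 561) (node 530 (merge (leaf 0 527 563) (node 498 (merge (leaf 2 494 497) (leaf 2 495 499))))))) (merge (node 497 (merge (leaf 2 494 498) (node 525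 (merge (leaf 2 493 496) (node 556 (merge (leaf 1 524 557) (node 524 (merge (leaf 1 523 555) (node 492 (merge (leaf 3 491 491) (leaf 3 492 493))))))))))) (node 561 (merge (leaf 0 526 562) (node 525 (merge (leaf 0 525 560) (node 556 (merge (leaf 1 524 557) (node 524 (merge (leaf 1 523 555) (node 492 (merge (leaf 3 491 491) (leaf 3 492 493)))))))))))))) (merge (node 526 (merge (node 498 (merge (leaf 2 494 497) (node 530 (merge (leaf 2 495 499) (node 558 (merge (leaf 1 525 557) (leaf 1 526 559))))))) (merge (node 497 (merge (leaf 2 494 498) (node 525 (merge (leaf 2 493 496) (node 556 (merge (leaf 1 524 557) (node 524 (merge (leaf 1 523 555) (node 492 (merge (leaf 3 491 491) (leaf 3 492 493))))))))))) (merge (node 497 (merge (leaf 2 494 498) (node 525 (merge (leaf 2 493 496) (node 492 (merge (leaf 3 492 493) (node 524 (merge (leaf 3 491 491) (node 559 (merge (leaf 0 524 560) (node 558 (merge (leaf 0 523 523) (leaf 1 526 530))))))))))))) (node 557 (merge (leaf 1 525 558) (node 525 (merge (leaf 1 524 556) (node 560 (merge (leaf 0 525 561) (node 524 (merge (leaf 0 524 559)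 (node 492 (merge (leaf 3 491 491) (leaf 3 492 493))))))))))))))) (merge (node 526 (merge (node 562 (merge (leaf 0 526 561) (node 530 (merge (leaf 0 527 563) (node 558 (merge (leaf 1 525 557) (leaf 1 526 559))))))) (merge (node 561 (merge (leaf 0 526 562) (node 525 (merge (leaf 0 525 560) (node 556 (merge (leaf 1 524 557) (node 524 (merge (leaf 1 523 555) (node 492 (merge (leaf 3 491 491) (leaf 3 492 493))))))))))) (merge (node 557 (merge (leaf 1 525 558) (node 525 (merge (leaf 1 524 556) (node 560 (merge (leaf 0 525 561) (node 524 (merge (leaf 0 524 559) (node 492 (merge (leaf 3 491 491) (leaf 3 492 493))))))))))) (merge (node 558 (merge (leaf 1 525 557) (node 530 (merge (leaf 1 526 559) (node 563 (merge (leaf 0 527 562) (node 531 (merge (leaf 0 528 564) (node 499 (merge (leaf 2 495 498) (leaf 2 496 500))))))))))) (node 562 (merge (leaf 0 526 561) (node 530 (merge (leaf 0 527 563) (node 559 (merge (leaf 1 526 558) (node 531 (merge (leaf 1 527 560) (node 499 (merge (leaf 2 495 498) (leaf 2 496 500)))))))))))))))) (merge (node 562 (merge (node 563 (merge (leaf 0 527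 530) (node 561 (merge (leaf 3 527 560) (leaf 3 528 564))))) (merge (node 526 (merge (leaf 0 526 561) (node 557 (merge (leaf 1 525 558) (node 525 (merge (leaf 1 524 556) (node 496 (merge (leaf 2 493 497) (node 524 (merge (leaf 2 492 495) (node 492 (merge (leaf 3 491 491) (leaf 3 492 493))))))))))))) (node 530 (merge (leaf 0 527 563) (node 559 (merge (leaf 1 526 558) (node 531 (merge (leaf 1 527 560) (node 496 (merge (leaf 3 495 495) (node 532 (merge (leaf 3 496 497) (node 565 (merge (leaf 0 529 564) (node 533 (merge (leaf 0 530 566) (node 501 (merge (leaf 2 497 500) (leaf 2 498 502)))))))))))))))))))) (merge (node 526 (merge (node 562 (merge (leaf 0 526 561) (node 530 (merge (leaf 0 527 563) (node 498 (merge (leaf 2 494 497) (leaf 2 495 499))))))) (merge (node 561 (merge (leaf 0 526 562) (node 525 (merge (leaf 0 525 560) (node 497 (merge (leaf 2 493 496) (leaf 2 494 498))))))) (merge (node 497 (merge (leaf 2 494 498) (node 525 (merge (leaf 2 493 496) (node 492 (merge (leaf 3 492 493) (node 524 (merge (leaf 3 491 491) (node 559 (merge (leaf 0 524 560) (node 558 (merge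 (leaf 0 523 523) (leaf 1 526 530))))))))))))) (merge (node 561 (merge (leaf 0 526 562) (node 525 (merge (leaf 0 525 560) (node 496 (merge (leaf 2 493 497) (node 495 (merge (leaf 2 492 524) (node 530 (merge (leaf 3 495 531) (node 559 (merge (leaf 1 526 558) (node 464 (merge (leaf 4 432 432) (leaf 6 463 591))))))))))))))) (node 562 (merge (leaf 0 526 561) (node 530 (merge (leaf 0 527 563) (node 559 (merge (leaf 1 526 558) (node 531 (merge (leaf 1 527 560) (node 499 (merge (leaf 2 495 498) (leaf 2 496 500)))))))))))))))) (merge (node 561 (merge (node 562 (merge (leaf 0 526 526) (node 563 (merge (leaf 3 527 560) (leaf 3 528 564))))) (merge (node 526 (merge (leaf 0 526 562) (node 497 (merge (leaf 2 494 498) (node 496 (merge (leaf 2 493 525) (node 593 (merge (leaf 7 464 464) (leaf 7 496 625))))))))) (merge (node 593 (merge (node 496 (merge (leaf 7 496 625) (node 497 (merge (leaf 7 464 464) (node 498 (merge (leaf 6 465 466) (leaf 1 495 499))))))) (merge (node 625 (merge (leaf 7 496 496) (node 657 (merge (leaf 7 528 560) (node 658 (merge (leaf 4 529 626) (leaf 4 561 690)))))))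 (merge (node 497 (merge (node 498 (merge (leaf 6 465 466) (node 496 (merge (leaf 7 464 464) (leaf 1 495 499))))) (merge (node 594 (merge (leaf 4 497 626) (node 465 (merge (leaf 4 465 562) (node 592 (merge (leaf 5 464 560) (leaf 5 496 624))))))) (node 594 (merge (leaf 4 497 626) (node 465 (merge (leaf 4 465 562) (node 592 (merge (leaf 5 464 560) (leaf 5 496 624)))))))))) (node 625 (merge (node 657 (merge (leaf 7 528 560) (node 658 (merge (leaf 4 529 626) (leaf 4 561 690))))) (merge (node 657 (merge (leaf 7 528 560) (node 656 (merge (leaf 5 528 624) (leaf 5 560 688))))) (node 626 (merge (leaf 4 529 658) (node 497 (merge (leaf 4 497 594) (node 624 (merge (leaf 5 496 592) (leaf 5 528 656)))))))))))))) (node 497 (merge (node 498 (merge (leaf 2 494 526) (node 499 (merge (leaf 1 495 496) (leaf 1 496 500))))) (merge (node 526 (merge (leaf 2 494 498) (node 560 (merge (leaf 0 525 525) (node 592 (merge (leaf 5 464 465) (leaf 6 496 624))))))) (node 465 (merge (node 560 (merge (leaf 5 432 433) (leaf 5 464 592))) (merge (node 464 (merge (leaf 7 432 432) (node 593 (merge (leaf 7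 464 496) (node 626 (merge (leaf 4 497 594) (node 625 (merge (leaf 4 529 658) (node 624 (merge (leaf 5 496 592) (leaf 5 528 656))))))))))) (node 433 (merge (leaf 5 432 560) (node 496 (merge (leaf 5 400 401) (node 434 (merge (leaf 6 401 402) (node 432 (merge (leaf 7 400 400) (node 464 (merge (leaf 5 431 559) (node 435 (merge (leaf 1 431 463) (node 467 (merge (leaf 0 432 468) (node 431 (merge (leaf 7 399 399) (leaf 0 431 466))))))))))))))))))))))))))) (node 559 (merge (node 530 (merge (leaf 1 526 558) (node 563 (merge (leaf 0 527 562) (node 531 (merge (leaf 1 527 560) (leaf 0 528 564))))))) (merge (node 530 (merge (leaf 1 526 558) (node 563 (merge (leaf 0 527 562) (node 531 (merge (leaf 0 528 564) (node 499 (merge (leaf 2 495 498) (leaf 2 496 500))))))))) (merge (node 591 (merge (node 496 (merge (leaf 6 495 623) (node 464 (merge (leaf 5 431 432) (leaf 5 463 560))))) (merge (node 623 (merge (leaf 6 495 496) (node 656 (merge (leaf 4 527 624) (node 655 (merge (leaf 4 559 688) (node 654 (merge (leaf 5 526 622) (leaf 5 558 686))))))))) (merge (node 623 (merge (node 656 (merge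 (leaf 4 527 624) (node 655 (merge (leaf 6 527 560) (leaf 4 559 688))))) (merge (node 655 (merge (leaf 6 527 560) (node 654 (merge (leaf 5 526 622) (leaf 5 558 686))))) (node 624 (merge (leaf 4 527 656) (node 495 (merge (leaf 4 495 592) (node 622 (merge (leaf 5 494 590) (leaf 5 526 654)))))))))) (node 495 (merge (node 592 (merge (leaf 4 495 624) (node 463 (merge (leaf 4 463 560) (node 432 (merge (leaf 6 431 464) (node 431 (merge (leaf 6 399 400) (node 430 (merge (leaf 7 398 398) (leaf 7 430 462))))))))))) (merge (node 592 (merge (leaf 4 495 624) (node 463 (merge (leaf 4 463 560) (node 496 (merge (leaf 6 463 464) (node 431 (merge (leaf 4 399 399) (node 430 (merge (leaf 7 398 398) (leaf 7 430 462))))))))))) (merge (node 590 (merge (leaf 5 494 622) (node 496 (merge (leaf 6 463 464) (node 530 (merge (leaf 3 495 531) (node 562 (merge (leaf 0 527 563) (node 561 (merge (leaf 1 558 560) (node 498 (merge (leaf 2 495 499) (node 593 (merge (leaf 5 465 466) (leaf 6 497 625))))))))))))))) (merge (node 592 (merge (leaf 4 495 624) (node 463 (merge (leaf 4 463 560) (node 430 (merge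 (leaf 7 430 462) (node 431 (merge (leaf 7 398 398) (node 399 (merge (leaf 4 399 496) (node 400 (merge (leaf 6 367 368) (leaf 6 399 432))))))))))))) (node 592 (merge (leaf 4 495 624) (node 590 (merge (leaf 5 494 622) (node 496 (merge (leaf 6 463 464) (node 530 (merge (leaf 3 495 531) (node 562 (merge (leaf 0 527 563) (node 498 (merge (leaf 2 495 499) (node 593 (merge (leaf 2 558 561) (node 625 (merge (leaf 5 497 594) (leaf 0 590 626)))))))))))))))))))))))))) (node 591 (merge (node 496 (merge (leaf 6 495 623) (node 464 (merge (leaf 5 431 432) (leaf 5 463 560))))) (merge (node 623 (merge (leaf 6 495 496) (node 656 (merge (leaf 4 527 624) (node 655 (merge (leaf 4 559 688) (node 654 (merge (leaf 5 526 622) (leaf 5 558 686))))))))) (merge (node 623 (merge (node 656 (merge (leaf 4 527 624) (node 655 (merge (leaf 6 527 560) (leaf 4 559 688))))) (merge (node 655 (merge (leaf 6 527 560) (node 654 (merge (leaf 5 526 622) (leaf 5 558 686))))) (node 624 (merge (leaf 4 527 656) (node 495 (merge (leaf 4 495 592) (node 622 (merge (leaf 5 494 590) (leaf 5 526 654)))))))))) (node 592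 (merge (node 495 (merge (leaf 4 495 624) (node 463 (merge (leaf 4 463 560) (node 590 (merge (leaf 5 462 558) (leaf 5 494 622))))))) (merge (node 495 (merge (leaf 4 495 624) (node 590 (merge (leaf 5 494 622) (node 463 (merge (leaf 5 462 558) (node 496 (merge (leaf 6 463 464) (node 431 (merge (leaf 4 399 399) (node 430 (merge (leaf 7 398 398) (leaf 7 430 462))))))))))))) (merge (node 495 (merge (leaf 4 495 624) (node 463 (merge (leaf 4 463 560) (node 430 (merge (leaf 7 430 462) (node 431 (merge (leaf 7 398 398) (node 399 (merge (leaf 4 399 496) (node 400 (merge (leaf 6 367 368) (leaf 6 399 432))))))))))))) (merge (node 560 (merge (node 495 (merge (leaf 4 463 463) (node 590 (merge (leaf 5 494 622) (node 589 (merge (leaf 2 557 561) (leaf 2 556 588))))))) (node 496 (merge (leaf 5 463 464) (node 593 (merge (leaf 4 496 625) (node 594 (merge (leaf 3 558 558) (leaf 3 559 595))))))))) (node 560 (merge (node 624 (merge (leaf 6 496 497) (leaf 7 527 656))) (merge (node 496 (merge (leaf 5 463 464) (node 593 (merge (leaf 4 496 625) (node 594 (merge (leaf 3 558 558) (leaf 3 559 595)))))))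 (node 624 (merge (leaf 7 527 656) (node 558 (merge (leaf 2 525 557) (node 593 (merge (leaf 3 558 594) (node 625 (merge (leaf 4 496 496) (leaf 4 528 657)))))))))))))))))))))))))))))))))) nF_10 cF_10 13 (by decide +kernel)
def nF_11 : ℕ := 0x3800000000000000000000000000000000000000000000000000000000000000000000000000000000000000000000000000000000000000000000000000000000000
def cF_11 : ℕ := 0x40000000700000007000000078000003f0000003c0000007fc000000fe000000fc000000fc000000700000001000000000000000000000000000000000000000000000000000000000000000000000000000000000000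
theorem lF_11 : S nF_11 cF_11 12 := S_of_chk [] trivial (node 497 (merge (node 530 (merge (node 563 (merge (leaf 0 527 562) (node 531 (merge (leaf 0 528 564) (node 495 (merge (leaf 3 494 494) (leaf 3 495 496))))))) (merge (node 563 (merge (leaf 0 527 562) (node 531 (merge (leaf 0 528 564) (node 499 (merge (leaf 2 495 498) (leaf 2 496 500))))))) (merge (node 499 (merge (leaf 2 495 498) (node 531 (merge (leaf 2 496 500) (node 495 (merge (leaf 3 494 494) (leaf 3 495 496))))))) (node 562 (merge (leaf 0 527 563) (node 498 (merge (leaf 2 495 499) (node 594 (merge (leaf 7 465 465) (leaf 7 497 626))))))))))) (merge (node 465 (merge (node 560 (merge (leaf 5 432 433) (node 592 (merge (leaf 5 464 561) (leaf 6 496 624))))) (merge (node 433 (merge (leaf 5 432 560) (node 402 (merge (leaf 6 401 434) (node 401 (merge (leaf 6 369 370) (node 400 (merge (leaf 7 368 368) (leaf 7 400 432))))))))) (merge (node 561 (merge (node 466 (merge (leaf 6 433 434) (node 593 (merge (leaf 6 465 498) (node 592 (merge (leaf 5 464 560) (leaf 5 496 624))))))) (merge (node 562 (merge (leaf 4 465 594) (node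 563 (merge (leaf 3 528 564) (node 560 (merge (leaf 3 527 527) (leaf 5 464 592))))))) (node 594 (merge (leaf 4 465 562) (node 466 (merge (leaf 6 433 434) (node 593 (merge (leaf 6 465 498) (leaf 4 497 626)))))))))) (node 530 (merge (node 562 (merge (leaf 0 527 563) (node 498 (merge (leaf 2 495 499) (leaf 7 465 594))))) (merge (node 433 (merge (leaf 4 433 562) (node 434 (merge (leaf 6 401 402) (node 561 (merge (leaf 6 433 466) (node 432 (merge (leaf 7 400 400) (leaf 7 432 464))))))))) (node 498 (merge (leaf 2 495 499) (node 433 (merge (leaf 4 401 401) (node 434 (merge (leaf 6 401 402) (node 561 (merge (leaf 5 433 466) (node 432 (merge (leaf 7 400 400) (leaf 7 432 464)))))))))))))))))) (merge (node 498 (merge (node 499 (merge (leaf 1 495 496) (leaf 1 496 500))) (merge (node 561 (merge (node 593 (merge (leaf 6 465 466) (node 624 (merge (leaf 5 496 592) (node 625 (merge (leaf 7 496 496) (leaf 5 528 656))))))) (merge (node 592 (merge (node 560 (merge (leaf 5 464 465) (leaf 6 496 624))) (merge (node 593 (merge (leaf 5 496 624) (node 626 (merge (leaf 4 497 594) (node 625 (merge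 (leaf 7 496 496) (leaf 4 529 658))))))) (node 465 (merge (leaf 5 464 560) (node 594 (merge (leaf 4 465 562) (node 593 (merge (leaf 4 497 626) (node 464 (merge (leaf 7 432 432) (leaf 7 464 496)))))))))))) (node 562 (merge (node 563 (merge (leaf 3 527 560) (leaf 3 528 564))) (node 465 (merge (leaf 4 465 594) (node 434 (merge (leaf 6 433 466) (node 433 (merge (leaf 6 401 402) (node 432 (merge (leaf 7 400 400) (leaf 7 432 464)))))))))))))) (node 465 (merge (node 433 (merge (leaf 5 432 560) (node 434 (merge (leaf 6 401 402) (node 432 (merge (leaf 7 400 400) (node 464 (merge (leaf 7 432 561) (node 463 (merge (leaf 1 431 435) (leaf 0 462 462))))))))))) (merge (node 433 (merge (leaf 5 432 560) (node 402 (merge (leaf 6 401 434) (node 401 (merge (leaf 6 369 370) (node 369 (merge (leaf 4 369 466) (node 368 (merge (leaf 7 336 336) (leaf 7 368 400))))))))))) (merge (node 560 (merge (leaf 5 432 433) (node 592 (merge (leaf 5 464 561) (leaf 6 496 624))))) (merge (node 464 (merge (node 463 (merge (leaf 0 462 462) (node 499 (merge (leaf 0 463 466) (leaf 1 496 500))))) (merge (node 561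 (merge (leaf 7 432 432) (node 594 (merge (leaf 4 465 562) (node 593 (merge (leaf 4 497 626) (node 466 (merge (leaf 6 433 434) (leaf 6 465 498))))))))) (node 463 (merge (leaf 0 462 462) (node 432 (merge (leaf 7 432 561) (node 433 (merge (leaf 7 400 400) (node 434 (merge (leaf 6 401 402) (leaf 1 431 435)))))))))))) (node 561 (merge (node 592 (merge (leaf 5 464 560) (node 593 (merge (leaf 5 496 624) (node 466 (merge (leaf 6 433 434) (leaf 6 465 498))))))) (merge (node 593 (merge (leaf 6 465 466) (node 594 (merge (leaf 4 497 626) (node 562 (merge (leaf 4 465 465) (node 563 (merge (leaf 3 528 564) (node 592 (merge (leaf 2 559 591) (leaf 5 496 624))))))))))) (merge (node 562 (merge (leaf 4 465 594) (node 563 (merge (leaf 3 528 564) (node 560 (merge (leaf 3 527 527) (leaf 5 464 592))))))) (node 594 (merge (leaf 4 465 562) (node 593 (merge (leaf 6 465 466) (leaf 4 497 626))))))))))))))))) (merge (node 530 (merge (node 563 (merge (leaf 0 527 562) (node 531 (merge (leaf 0 528 564) (node 495 (merge (leaf 3 494 494) (leaf 3 495 496))))))) (merge (node 499 (merge (leaf 2 495 498)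 (node 531 (merge (leaf 2 496 500) (node 495 (merge (leaf 3 494 494) (leaf 3 495 496))))))) (node 562 (merge (leaf 0 527 563) (node 498 (merge (leaf 2 495 499) (node 594 (merge (leaf 7 497 626) (node 593 (merge (leaf 5 497 625) (node 466 (merge (leaf 5 465 561) (node 434 (merge (leaf 5 401 402) (node 435 (merge (leaf 6 402 403) (leaf 6 434 467)))))))))))))))))) (merge (node 465 (merge (node 560 (merge (leaf 5 432 433) (node 592 (merge (leaf 6 464 496) (leaf 6 496 624))))) (merge (node 433 (merge (leaf 5 432 560) (node 562 (merge (leaf 4 433 530) (node 561 (merge (leaf 4 465 594) (node 432 (merge (leaf 7 400 400) (leaf 7 432 464))))))))) (merge (node 561 (merge (node 562 (merge (leaf 4 465 594) (node 563 (merge (leaf 3 528 564) (node 560 (merge (leaf 3 527 527) (leaf 5 464 592))))))) (merge (node 594 (merge (leaf 4 465 562) (node 593 (merge (leaf 4 497 626) (node 464 (merge (leaf 7 432 432) (leaf 7 464 496))))))) (node 592 (merge (leaf 5 464 560) (node 464 (merge (leaf 7 432 432) (node 593 (merge (leaf 7 464 496) (leaf 5 496 624)))))))))) (node 530 (merge (node 433 (merge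 (leaf 4 433 562) (node 434 (merge (leaf 6 401 402) (node 561 (merge (leaf 6 433 466) (node 432 (merge (leaf 7 400 400) (leaf 7 432 464))))))))) (node 495 (merge (leaf 3 494 494) (node 531 (merge (leaf 3 495 496) (node 564 (merge (leaf 0 528 563) (node 532 (merge (leaf 0 529 565) (node 500 (merge (leaf 2 496 499) (leaf 2 497 501))))))))))))))))) (merge (node 465 (merge (node 560 (merge (leaf 5 432 433) (node 592 (merge (leaf 6 464 496) (leaf 6 496 624))))) (merge (node 433 (merge (leaf 5 432 560) (node 402 (merge (leaf 6 401 434) (node 401 (merge (leaf 6 369 370) (node 400 (merge (leaf 7 368 368) (leaf 7 400 432))))))))) (merge (node 530 (merge (node 433 (merge (leaf 4 433 562) (node 434 (merge (leaf 6 401 402) (node 561 (merge (leaf 6 433 466) (node 432 (merge (leaf 7 400 400) (leaf 7 432 464))))))))) (node 495 (merge (leaf 3 494 494) (node 531 (merge (leaf 3 495 496) (node 564 (merge (leaf 0 528 563) (node 532 (merge (leaf 0 529 565) (node 500 (merge (leaf 2 496 499) (leaf 2 497 501))))))))))))) (node 464 (merge (node 432 (merge (leaf 7 432 561) (node 400 (merge (leaf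 4 368 368) (leaf 4 400 496))))) (merge (node 561 (merge (leaf 7 432 432) (node 592 (merge (leaf 5 464 560) (node 593 (merge (leaf 5 496 624) (node 466 (merge (leaf 6 433 434) (leaf 6 465 498))))))))) (node 530 (merge (node 499 (merge (leaf 2 495 498) (node 531 (merge (leaf 2 496 500) (node 564 (merge (leaf 0 528 563) (node 532 (merge (leaf 3 496 496) (leaf 0 529 565))))))))) (merge (node 495 (merge (leaf 3 494 494) (node 531 (merge (leaf 3 495 496) (node 564 (merge (leaf 0 528 563) (node 532 (merge (leaf 0 529 565) (node 500 (merge (leaf 2 496 499) (leaf 2 497 501))))))))))) (merge (node 498 (merge (leaf 2 495 499) (node 463 (merge (leaf 0 462 462) (node 495 (merge (leaf 3 494 494) (node 431 (merge (leaf 4 431 560) (node 430 (merge (leaf 7 398 398) (leaf 3 430 466))))))))))) (node 495 (merge (leaf 3 494 494) (node 531 (merge (leaf 3 495 496) (node 564 (merge (leaf 0 528 563) (node 532 (merge (leaf 0 529 565) (node 501 (merge (leaf 2 497 500) (node 533 (merge (leaf 3 497 498) (leaf 2 498 502)))))))))))))))))))))))) (merge (node 530 (merge (node 563 (merge (leaf 0 527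 562) (node 531 (merge (leaf 0 528 564) (node 495 (merge (leaf 3 494 494) (leaf 3 495 496))))))) (merge (node 562 (merge (leaf 0 527 563) (node 594 (merge (leaf 7 497 626) (node 465 (merge (leaf 7 465 498) (leaf 4 465 561))))))) (merge (node 560 (merge (node 592 (merge (leaf 6 496 624) (node 465 (merge (leaf 5 432 433) (leaf 5 464 561))))) (merge (node 592 (merge (leaf 6 496 624) (node 496 (merge (leaf 6 464 465) (node 495 (merge (leaf 7 463 463) (leaf 3 495 531))))))) (merge (node 495 (merge (leaf 3 494 494) (node 531 (merge (leaf 3 495 496) (node 532 (merge (leaf 1 528 561) (node 501 (merge (leaf 2 497 500) (node 533 (merge (leaf 3 497 498) (leaf 2 498 502))))))))))) (node 495 (merge (leaf 3 494 494) (node 496 (merge (leaf 3 495 531) (node 463 (merge (leaf 4 431 431) (leaf 7 463 592))))))))))) (node 562 (merge (leaf 0 527 563) (node 594 (merge (leaf 7 497 626) (node 465 (merge (leaf 7 465 498) (leaf 4 465 561))))))))))) (merge (node 465 (merge (node 560 (merge (leaf 5 432 433) (node 592 (merge (leaf 6 464 496) (leaf 6 496 624))))) (merge (node 433 (merge (leaf 5 432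 560) (node 402 (merge (leaf 6 401 434) (node 401 (merge (leaf 6 369 370) (node 400 (merge (leaf 7 368 368) (leaf 7 400 432))))))))) (merge (node 464 (merge (node 432 (merge (leaf 7 432 561) (node 400 (merge (leaf 4 368 368) (leaf 4 400 496))))) (merge (node 561 (merge (leaf 7 432 432) (node 592 (merge (leaf 5 464 560) (node 593 (merge (leaf 5 496 624) (node 466 (merge (leaf 6 433 434) (leaf 6 465 498))))))))) (node 530 (merge (node 499 (merge (leaf 2 495 498) (node 531 (merge (leaf 2 496 500) (node 564 (merge (leaf 0 528 563) (node 532 (merge (leaf 3 496 496) (leaf 0 529 565))))))))) (merge (node 495 (merge (leaf 3 494 494) (node 531 (merge (leaf 3 495 496) (node 564 (merge (leaf 0 528 563) (node 532 (merge (leaf 0 529 565) (node 500 (merge (leaf 2 496 499) (leaf 2 497 501))))))))))) (merge (node 498 (merge (leaf 2 495 499) (node 463 (merge (leaf 0 462 462) (node 495 (merge (leaf 3 494 494) (node 431 (merge (leaf 4 431 560) (node 430 (merge (leaf 7 398 398) (leaf 3 430 466))))))))))) (node 495 (merge (leaf 3 494 494) (node 531 (merge (leaf 3 495 496) (node 564 (merge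 (leaf 0 528 563) (node 532 (merge (leaf 0 529 565) (node 501 (merge (leaf 2 497 500) (node 533 (merge (leaf 3 497 498) (leaf 2 498 502)))))))))))))))))))) (node 434 (merge (node 466 (merge (leaf 6 433 561) (node 402 (merge (leaf 5 369 370) (leaf 5 401 498))))) (merge (node 433 (merge (leaf 6 401 402) (node 432 (merge (leaf 7 400 400) (node 464 (merge (leaf 7 432 561) (node 463 (merge (leaf 1 431 435) (leaf 2 430 462))))))))) (merge (node 402 (merge (leaf 6 401 433) (node 466 (merge (leaf 5 369 370) (leaf 5 401 498))))) (node 561 (merge (leaf 6 433 466) (node 464 (merge (leaf 7 432 432) (node 593 (merge (leaf 7 464 496) (node 626 (merge (leaf 4 497 594) (node 625 (merge (leaf 4 529 658) (node 624 (merge (leaf 5 496 592) (leaf 5 528 656))))))))))))))))))))) (node 465 (merge (node 560 (merge (leaf 5 432 433) (node 592 (merge (leaf 6 464 496) (leaf 6 496 624))))) (merge (node 433 (merge (leaf 5 432 560) (node 562 (merge (leaf 4 433 530) (node 561 (merge (leaf 4 465 594) (node 432 (merge (leaf 7 400 400) (leaf 7 432 464))))))))) (merge (node 434 (merge (node 466 (merge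 (leaf 6 433 561) (node 402 (merge (leaf 5 369 370) (leaf 5 401 498))))) (merge (node 433 (merge (leaf 6 401 402) (node 561 (merge (leaf 6 433 466) (node 496 (merge (leaf 5 400 401) (node 464 (merge (leaf 4 432 432) (leaf 7 464 593))))))))) (merge (node 433 (merge (leaf 6 401 402) (node 530 (merge (leaf 4 433 562) (node 401 (merge (leaf 5 400 496) (leaf 4 401 498))))))) (merge (node 402 (merge (leaf 6 401 433) (node 466 (merge (leaf 5 369 370) (leaf 5 401 498))))) (node 561 (merge (leaf 6 433 466) (node 464 (merge (leaf 7 432 432) (node 593 (merge (leaf 7 464 496) (node 624 (merge (leaf 5 496 592) (node 625 (merge (leaf 5 528 656) (node 658 (merge (leaf 4 529 626) (node 657 (merge (leaf 4 561 690) (node 530 (merge (leaf 6 497 498) (leaf 6 529 562)))))))))))))))))))))) (node 464 (merge (node 432 (merge (leaf 7 432 561) (node 400 (merge (leaf 4 368 368) (leaf 4 400 496))))) (merge (node 561 (merge (leaf 7 432 432) (node 592 (merge (leaf 5 464 560) (node 593 (merge (leaf 5 496 624) (node 466 (merge (leaf 6 433 434) (leaf 6 465 498))))))))) (merge (node 530 (merge (node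 499 (merge (leaf 2 495 498) (node 531 (merge (leaf 2 496 500) (node 495 (merge (leaf 3 494 494) (leaf 3 495 496))))))) (merge (node 498 (merge (leaf 2 495 499) (node 463 (merge (leaf 0 462 462) (node 495 (merge (leaf 3 494 494) (node 431 (merge (leaf 4 431 560) (node 430 (merge (leaf 7 398 398) (leaf 3 430 466))))))))))) (merge (node 495 (merge (leaf 3 494 494) (node 496 (merge (leaf 3 495 531) (node 432 (merge (leaf 4 400 400) (node 560 (merge (leaf 6 464 592) (node 431 (merge (leaf 7 399 399) (leaf 4 431 463))))))))))) (node 499 (merge (leaf 2 495 498) (node 531 (merge (leaf 2 496 500) (node 496 (merge (leaf 3 496 532) (node 432 (merge (leaf 4 400 400) (node 560 (merge (leaf 6 464 592) (node 431 (merge (leaf 7 399 399) (leaf 7 431 463))))))))))))))))) (node 530 (merge (node 499 (merge (leaf 2 495 498) (node 531 (merge (leaf 2 496 500) (node 495 (merge (leaf 3 494 494) (leaf 3 495 496))))))) (merge (node 498 (merge (leaf 2 495 499) (node 463 (merge (leaf 0 462 462) (node 495 (merge (leaf 3 494 494) (node 431 (merge (leaf 4 431 560) (node 430 (merge (leaf 7 398 398)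 (leaf 3 430 466))))))))))) (merge (node 499 (merge (leaf 2 495 498) (node 531 (merge (leaf 2 496 500) (node 532 (merge (leaf 3 496 496) (node 561 (merge (leaf 1 528 560) (node 562 (merge (leaf 1 529 533) (leaf 4 465 594))))))))))) (merge (node 495 (merge (leaf 3 494 494) (node 531 (merge (leaf 3 495 496) (node 500 (merge (leaf 2 496 499) (node 532 (merge (leaf 2 497 501) (node 561 (merge (leaf 1 528 560) (node 562 (merge (leaf 1 529 533) (leaf 4 465 594))))))))))))) (node 495 (merge (leaf 3 494 494) (node 496 (merge (leaf 3 495 531) (node 560 (merge (leaf 6 464 592) (node 463 (merge (leaf 4 431 431) (node 462 (merge (leaf 0 461 461) (leaf 0 462 498))))))))))))))))))))))))))))))))) nF_11 cF_11 12 (by decide +kernel)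
def nF_12 : ℕ := 0x1800000000000000000000000000000000000000000000000000000000000000000000000000000000000000000000000000000000000000000000000000000000000
def cF_12 : ℕ := 0x2a0000003e0000003f000000ff000003ffc00001e7800003bfc000007e0000003e0000003a000000000000000000000000000000000000000000000000000000000000000000000000000000000000000000000000000
theorem lF_12 : S nF_12 cF_12 11 := S_of_chk [] trivial (node 526 (merge (node 493 (merge (node 494 (merge (leaf 3 493 529) (node 492 (merge (leaf 0 491 491) (leaf 0 492 495))))) (merge (node 492 (merge (leaf 3 492 525) (node 494 (merge (leaf 0 491 491) (leaf 0 492 495))))) (merge (node 529 (merge (leaf 3 493 494) (node 561 (merge (leaf 0 526 562) (node 525 (merge (leaf 0 525 560) (node 557 (merge (leaf 1 524 556) (leaf 1 525 558))))))))) (node 525 (merge (leaf 3 492 492) (node 561 (merge (leaf 0 525 560) (node 529 (merge (leaf 0 526 562) (node 557 (merge (leaf 1 524 556) (leaf 1 525 558))))))))))))) (merge (node 557 (merge (node 556 (merge (leaf 1 524 525) (node 558 (merge (leaf 2 523 555) (leaf 2 524 559))))) (merge (node 558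 (merge (leaf 1 525 529) (node 556 (merge (leaf 2 523 555) (leaf 2 524 559))))) (merge (node 529 (merge (leaf 1 525 558) (node 561 (merge (leaf 0 526 562) (node 525 (merge (leaf 0 525 560) (node 493 (merge (leaf 3 492 492) (leaf 3 493 494))))))))) (node 525 (merge (leaf 1 524 556) (node 561 (merge (leaf 0 525 560) (node 529 (merge (leaf 0 526 562) (node 493 (merge (leaf 3 492 492) (leaf 3 493 494))))))))))))) (merge (node 525 (merge (node 560 (merge (leaf 0 525 561) (node 524 (merge (leaf 0 524 559) (node 492 (merge (leaf 3 491 491) (leaf 3 492 493))))))) (merge (node 561 (merge (leaf 0 525 560) (node 529 (merge (leaf 0 526 562) (node 493 (merge (leaf 3 492 492) (leaf 3 493 494))))))) (merge (node 492 (merge (leaf 3 492 493) (node 524 (merge (leaf 3 491 491) (node 495 (merge (leaf 2 492 496) (node 523 (merge (leaf 2 491 494) (node 555 (merge (leaf 1 522 554) (leaf 1 523 556))))))))))) (node 560 (merge (leaf 0 525 561) (node 524 (merge (leaf 0 524 559) (node 555 (merge (leaf 1 523 556) (node 523 (merge (leaf 1 522 554) (node 495 (merge (leaf 2 491 494) (leaf 2 492 496)))))))))))))))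 (merge (node 493 (merge (node 492 (merge (leaf 3 492 525) (node 494 (merge (leaf 0 491 491) (leaf 0 492 495))))) (merge (node 529 (merge (leaf 3 493 494) (node 562 (merge (leaf 0 526 561) (node 530 (merge (leaf 0 527 563) (node 558 (merge (leaf 1 525 557) (leaf 1 526 559))))))))) (node 525 (merge (leaf 3 492 492) (node 561 (merge (leaf 0 525 560) (node 529 (merge (leaf 0 526 562) (node 558 (merge (leaf 1 525 557) (node 559 (merge (leaf 1 526 530) (node 524 (merge (leaf 0 523 523) (node 495 (merge (leaf 2 492 496) (node 590 (merge (leaf 5 462 463) (leaf 6 494 622)))))))))))))))))))) (merge (node 561 (merge (node 562 (merge (leaf 0 526 529) (node 560 (merge (leaf 3 526 559) (leaf 3 527 563))))) (merge (node 525 (merge (leaf 0 525 560) (node 556 (merge (leaf 1 524 557) (node 524 (merge (leaf 1 523 555) (node 492 (merge (leaf 3 491 491) (leaf 3 492 493))))))))) (node 529 (merge (leaf 0 526 562) (node 557 (merge (leaf 1 525 558) (node 525 (merge (leaf 1 524 556) (node 496 (merge (leaf 2 493 497) (node 524 (merge (leaf 2 492 495) (node 492 (merge (leaf 3 491 491) (leaf 3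 492 493)))))))))))))))) (merge (node 561 (merge (node 560 (merge (leaf 0 525 525) (node 562 (merge (leaf 3 526 559) (leaf 3 527 563))))) (merge (node 525 (merge (leaf 0 525 560) (node 496 (merge (leaf 2 493 497) (node 524 (merge (leaf 2 492 495) (node 556 (merge (leaf 1 523 555) (leaf 1 524 557))))))))) (node 529 (merge (leaf 0 526 562) (node 558 (merge (leaf 1 525 557) (node 530 (merge (leaf 1 526 559) (node 495 (merge (leaf 3 494 494) (node 531 (merge (leaf 3 495 496) (node 564 (merge (leaf 0 528 563) (node 532 (merge (leaf 0 529 565) (node 500 (merge (leaf 2 496 499) (leaf 2 497 501)))))))))))))))))))) (merge (node 558 (merge (node 557 (merge (leaf 1 525 529) (node 556 (merge (leaf 2 523 555) (leaf 2 524 559))))) (merge (node 529 (merge (leaf 1 525 557) (node 494 (merge (leaf 3 493 493) (node 495 (merge (leaf 3 494 530) (node 590 (merge (leaf 6 462 463) (leaf 6 494 622))))))))) (merge (node 529 (merge (node 494 (merge (leaf 3 493 493) (node 495 (merge (leaf 3 494 530) (node 590 (merge (leaf 6 462 463) (leaf 6 494 622))))))) (merge (node 559 (merge (leaf 1 526 530)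 (node 494 (merge (leaf 3 493 493) (node 591 (merge (leaf 4 462 462) (leaf 7 494 623))))))) (merge (node 530 (merge (leaf 1 526 559) (node 563 (merge (leaf 0 527 562) (node 531 (merge (leaf 0 528 564) (node 500 (merge (leaf 2 496 499) (node 532 (merge (leaf 2 497 501) (node 496 (merge (leaf 3 495 495) (leaf 3 496 497))))))))))))) (node 493 (merge (leaf 3 493 494) (node 525 (merge (leaf 3 492 492) (node 496 (merge (leaf 2 493 497) (node 524 (merge (leaf 2 492 495) (node 559 (merge (leaf 0 524 560) (node 523 (merge (leaf 0 523 558) (node 555 (merge (leaf 1 522 554) (leaf 1 523 556))))))))))))))))))) (node 590 (merge (node 495 (merge (leaf 6 494 622) (node 494 (merge (leaf 6 462 463) (node 493 (merge (leaf 7 461 461) (leaf 0 492 492))))))) (merge (node 622 (merge (leaf 6 494 495) (node 655 (merge (leaf 4 526 623) (node 654 (merge (leaf 6 526 559) (leaf 4 558 687))))))) (merge (node 494 (merge (node 493 (merge (leaf 7 461 461) (node 492 (merge (leaf 0 491 491) (leaf 0 492 495))))) (merge (node 589 (merge (leaf 5 493 621) (node 462 (merge (leaf 5 461 557) (node 559 (merge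 (leaf 4 430 430) (leaf 4 462 591))))))) (node 591 (merge (leaf 4 494 623) (node 462 (merge (leaf 4 462 559) (node 589 (merge (leaf 5 461 557) (leaf 5 493 621)))))))))) (node 623 (merge (node 494 (merge (leaf 4 494 591) (node 622 (merge (leaf 4 526 655) (node 621 (merge (leaf 5 493 589) (leaf 5 525 653))))))) (merge (node 622 (merge (leaf 4 526 655) (node 654 (merge (leaf 6 526 559) (node 653 (merge (leaf 5 525 621) (leaf 5 557 685))))))) (merge (node 494 (merge (leaf 4 494 591) (node 589 (merge (leaf 5 493 621) (node 462 (merge (leaf 5 461 557) (node 430 (merge (leaf 4 430 559) (node 431 (merge (leaf 6 398 399) (leaf 6 430 463))))))))))) (node 591 (merge (leaf 4 494 494) (node 655 (merge (leaf 7 526 559) (leaf 4 526 622))))))))))))))))) (merge (node 558 (merge (node 557 (merge (leaf 1 525 529) (node 556 (merge (leaf 2 523 555) (leaf 2 524 559))))) (merge (node 529 (merge (leaf 1 525 557) (node 494 (merge (leaf 3 493 493) (node 495 (merge (leaf 3 494 530) (node 590 (merge (leaf 6 462 463) (leaf 6 494 622))))))))) (merge (node 590 (merge (node 495 (merge (leaf 6 494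 622) (node 494 (merge (leaf 6 462 463) (node 493 (merge (leaf 7 461 461) (leaf 0 492 492))))))) (merge (node 622 (merge (leaf 6 494 495) (node 655 (merge (leaf 4 526 623) (node 654 (merge (leaf 6 526 559) (leaf 4 558 687))))))) (merge (node 529 (merge (node 562 (merge (leaf 0 526 561) (node 530 (merge (leaf 1 526 559) (leaf 0 527 563))))) (node 494 (merge (leaf 3 493 493) (node 623 (merge (leaf 4 494 591) (node 622 (merge (leaf 4 526 655) (node 621 (merge (leaf 5 493 589) (leaf 5 525 653))))))))))) (node 494 (merge (node 493 (merge (leaf 7 461 461) (node 492 (merge (leaf 0 491 491) (leaf 0 492 495))))) (merge (node 529 (merge (leaf 3 493 493) (node 562 (merge (leaf 0 526 561) (node 530 (merge (leaf 1 526 559) (leaf 0 527 563))))))) (node 591 (merge (leaf 4 494 623) (node 462 (merge (leaf 4 462 559) (node 431 (merge (leaf 6 430 463) (node 430 (merge (leaf 6 398 399) (node 429 (merge (leaf 7 397 397) (leaf 7 429 461)))))))))))))))))) (node 590 (merge (node 495 (merge (leaf 6 494 622) (node 494 (merge (leaf 6 462 463) (node 493 (merge (leaf 7 461 461) (leaf 0 492 492)))))))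 (merge (node 622 (merge (leaf 6 494 495) (node 655 (merge (leaf 4 526 623) (node 654 (merge (leaf 6 526 559) (leaf 4 558 687))))))) (merge (node 494 (merge (node 493 (merge (leaf 7 461 461) (node 492 (merge (leaf 0 491 491) (leaf 0 492 495))))) (merge (node 589 (merge (leaf 5 493 621) (node 462 (merge (leaf 5 461 557) (node 559 (merge (leaf 4 430 430) (leaf 4 462 591))))))) (node 591 (merge (leaf 4 494 623) (node 462 (merge (leaf 4 462 559) (node 589 (merge (leaf 5 461 557) (leaf 5 493 621)))))))))) (node 623 (merge (node 494 (merge (leaf 4 494 591) (node 622 (merge (leaf 4 526 655) (node 621 (merge (leaf 5 493 589) (leaf 5 525 653))))))) (merge (node 622 (merge (leaf 4 526 655) (node 654 (merge (leaf 6 526 559) (node 653 (merge (leaf 5 525 621) (leaf 5 557 685))))))) (merge (node 494 (merge (leaf 4 494 591) (node 589 (merge (leaf 5 493 621) (node 462 (merge (leaf 5 461 557) (node 430 (merge (leaf 4 430 559) (node 431 (merge (leaf 6 398 399) (leaf 6 430 463))))))))))) (node 591 (merge (leaf 4 494 494) (node 655 (merge (leaf 7 526 559) (leaf 4 526 622)))))))))))))))))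 (merge (node 558 (merge (node 557 (merge (leaf 1 525 529) (node 556 (merge (leaf 2 523 555) (leaf 2 524 559))))) (merge (node 529 (merge (leaf 1 525 557) (node 494 (merge (leaf 3 493 493) (node 495 (merge (leaf 3 494 530) (node 590 (merge (leaf 6 462 463) (leaf 6 494 622))))))))) (merge (node 590 (merge (node 495 (merge (leaf 6 494 622) (node 494 (merge (leaf 6 462 463) (node 493 (merge (leaf 7 461 461) (leaf 0 492 492))))))) (merge (node 622 (merge (leaf 6 494 495) (node 655 (merge (leaf 4 526 623) (node 654 (merge (leaf 6 526 559) (leaf 4 558 687))))))) (merge (node 494 (merge (node 493 (merge (leaf 7 461 461) (node 492 (merge (leaf 0 491 491) (leaf 0 492 495))))) (merge (node 589 (merge (leaf 5 493 621) (node 462 (merge (leaf 5 461 557) (node 559 (merge (leaf 4 430 430) (leaf 4 462 591))))))) (node 591 (merge (leaf 4 494 623) (node 462 (merge (leaf 4 462 559) (node 589 (merge (leaf 5 461 557) (leaf 5 493 621)))))))))) (node 623 (merge (node 494 (merge (leaf 4 494 591) (node 622 (merge (leaf 4 526 655) (node 621 (merge (leaf 5 493 589) (leaf 5 525 653))))))) (merge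 (node 622 (merge (leaf 4 526 655) (node 654 (merge (leaf 6 526 559) (node 653 (merge (leaf 5 525 621) (leaf 5 557 685))))))) (merge (node 494 (merge (leaf 4 494 591) (node 589 (merge (leaf 5 493 621) (node 462 (merge (leaf 5 461 557) (node 430 (merge (leaf 4 430 559) (node 431 (merge (leaf 6 398 399) (leaf 6 430 463))))))))))) (node 591 (merge (leaf 4 494 494) (node 655 (merge (leaf 7 526 559) (leaf 4 526 622))))))))))))) (node 590 (merge (node 495 (merge (leaf 6 494 622) (node 494 (merge (leaf 6 462 463) (node 493 (merge (leaf 7 461 461) (leaf 0 492 492))))))) (merge (node 622 (merge (leaf 6 494 495) (node 655 (merge (leaf 4 526 623) (node 654 (merge (leaf 6 526 559) (leaf 4 558 687))))))) (merge (node 525 (merge (node 622 (merge (leaf 7 493 493) (node 623 (merge (leaf 4 526 655) (node 494 (merge (leaf 4 494 591) (node 621 (merge (leaf 5 493 589) (leaf 5 525 653))))))))) (node 560 (merge (leaf 0 525 561) (node 524 (merge (leaf 0 524 559) (node 555 (merge (leaf 1 523 556) (node 523 (merge (leaf 1 522 554) (node 491 (merge (leaf 3 490 490) (leaf 3 491 492)))))))))))))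 (node 493 (merge (node 494 (merge (leaf 7 461 461) (leaf 3 493 529))) (merge (node 525 (merge (leaf 3 492 492) (node 496 (merge (leaf 2 493 497) (node 524 (merge (leaf 2 492 495) (node 559 (merge (leaf 0 523 523) (leaf 0 524 560))))))))) (node 492 (merge (leaf 3 492 525) (node 494 (merge (leaf 0 492 495) (leaf 3 493 529)))))))))))))))) (node 560 (merge (node 561 (merge (leaf 0 525 525) (node 562 (merge (leaf 3 526 559) (leaf 3 527 563))))) (merge (node 525 (merge (leaf 0 525 561) (node 556 (merge (leaf 1 524 557) (node 524 (merge (leaf 1 523 555) (node 492 (merge (leaf 3 491 491) (leaf 3 492 493))))))))) (merge (node 496 (merge (node 525 (merge (leaf 2 493 497) (node 524 (merge (leaf 2 492 495) (node 556 (merge (leaf 1 523 555) (leaf 1 524 557))))))) (merge (node 525 (merge (leaf 2 493 497) (node 559 (merge (leaf 0 524 524) (node 591 (merge (leaf 5 463 464) (leaf 6 495 623))))))) (merge (node 591 (merge (node 559 (merge (leaf 5 463 464) (leaf 6 495 623))) (merge (node 592 (merge (leaf 5 495 623) (node 625 (merge (leaf 4 496 593) (node 624 (merge (leaf 7 495 495) (leaf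 4 528 657))))))) (node 464 (merge (leaf 5 463 559) (node 465 (merge (leaf 6 432 433) (node 592 (merge (leaf 6 464 497) (node 463 (merge (leaf 7 431 431) (leaf 7 463 495)))))))))))) (node 591 (merge (node 559 (merge (leaf 5 463 464) (leaf 6 495 623))) (merge (node 592 (merge (leaf 5 495 623) (node 625 (merge (leaf 4 496 593) (node 624 (merge (leaf 7 495 495) (leaf 4 528 657))))))) (node 464 (merge (leaf 5 463 559) (node 465 (merge (leaf 6 432 433) (node 463 (merge (leaf 7 431 431) (node 495 (merge (leaf 7 463 592) (node 494 (merge (leaf 1 462 466) (leaf 2 461 493)))))))))))))))))) (node 592 (merge (node 495 (merge (leaf 7 495 624) (node 463 (merge (leaf 4 431 431) (leaf 4 463 559))))) (merge (node 624 (merge (leaf 7 495 495) (node 657 (merge (leaf 4 528 625) (node 656 (merge (leaf 4 560 689) (node 655 (merge (leaf 5 527 623) (leaf 5 559 687))))))))) (merge (node 624 (merge (node 656 (merge (leaf 7 527 559) (node 657 (merge (leaf 4 528 625) (leaf 4 560 689))))) (merge (node 656 (merge (leaf 7 527 559) (node 655 (merge (leaf 5 527 623) (leaf 5 559 687))))) (node 625 (merge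 (leaf 4 528 657) (node 496 (merge (leaf 4 496 593) (node 623 (merge (leaf 5 495 591) (leaf 5 527 655)))))))))) (node 591 (merge (node 623 (merge (leaf 5 495 496) (node 559 (merge (leaf 7 494 494) (leaf 6 527 655))))) (merge (node 496 (merge (leaf 5 495 623) (node 593 (merge (leaf 4 496 625) (node 464 (merge (leaf 4 464 561) (node 433 (merge (leaf 6 432 465) (node 432 (merge (leaf 6 400 401) (node 495 (merge (leaf 5 399 400) (leaf 7 463 463))))))))))))) (merge (node 559 (merge (node 496 (merge (leaf 5 463 464) (node 593 (merge (leaf 4 496 625) (node 594 (merge (leaf 3 558 558) (leaf 3 559 595))))))) (node 495 (merge (leaf 4 463 463) (node 590 (merge (leaf 5 494 622) (node 589 (merge (leaf 2 557 561) (leaf 2 556 588))))))))) (node 559 (merge (node 494 (merge (leaf 7 494 623) (node 462 (merge (leaf 4 430 430) (leaf 4 462 558))))) (merge (node 623 (merge (leaf 6 527 655) (node 622 (merge (leaf 5 526 654) (node 593 (merge (leaf 1 590 594) (node 621 (merge (leaf 1 589 590) (leaf 2 588 620))))))))) (node 495 (merge (leaf 4 463 463) (node 590 (merge (leaf 5 494 622) (node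 589 (merge (leaf 2 557 561) (leaf 2 556 588)))))))))))))))))))))))))))))))) nF_12 cF_12 11 (by decide +kernel)
def nF_13 : ℕ := 0x1800000000000000000000000000000000000000000000000000000000000000000000000000000000000000000000000000000000000000000000000000000000000
def cF_13 : ℕ := 0x2a0000003e0000003e0000003f8000007fc0000067800000ff8000007e0000002c00000008000000000000000000000000000000000000000000000000000000000000000000000000000000000000000000000000000
theorem lF_13 : S nF_13 cF_13 10 := S_of_chk [] trivial (node 526 (merge (node 493 (merge (node 494 (merge (leaf 3 493 529) (node 492 (merge (leaf 0 491 491) (leaf 0 492 495))))) (merge (node 492 (merge (leaf 3 492 525) (node 494 (merge (leaf 0 491 491) (leaf 0 492 495))))) (merge (node 529 (merge (leaf 3 493 494) (node 561 (merge (leaf 0 526 562) (node 525 (merge (leaf 0 525 560) (node 557 (merge (leaf 1 524 556) (leaf 1 525 558))))))))) (node 525 (merge (leaf 3 492 492) (node 561 (merge (leaf 0 525 560) (node 529 (merge (leaf 0 526 562) (node 557 (merge (leaf 1 524 556) (leaf 1 525 558))))))))))))) (merge (node 529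 (merge (node 497 (merge (leaf 2 494 498) (node 525 (merge (leaf 2 493 496) (node 493 (merge (leaf 3 492 492) (leaf 3 493 494))))))) (merge (node 498 (merge (leaf 2 494 497) (node 530 (merge (leaf 2 495 499) (node 558 (merge (leaf 1 525 557) (leaf 1 526 559))))))) (node 557 (merge (leaf 1 525 558) (node 525 (merge (leaf 1 524 556) (node 493 (merge (leaf 3 492 492) (leaf 3 493 494)))))))))) (merge (node 497 (merge (node 496 (merge (leaf 2 493 525) (node 498 (merge (leaf 1 494 495) (leaf 1 495 499))))) (merge (node 498 (merge (leaf 2 494 529) (node 496 (merge (leaf 1 494 495) (leaf 1 495 499))))) (merge (node 525 (merge (leaf 2 493 496) (node 561 (merge (leaf 0 525 560) (node 529 (merge (leaf 0 526 562) (node 557 (merge (leaf 1 524 556) (leaf 1 525 558))))))))) (node 529 (merge (leaf 2 494 498) (node 561 (merge (leaf 0 526 562) (node 560 (merge (leaf 0 525 525) (node 592 (merge (leaf 5 464 465) (leaf 6 496 624))))))))))))) (merge (node 525 (merge (node 560 (merge (leaf 0 525 561) (node 524 (merge (leaf 0 524 559) (node 492 (merge (leaf 3 491 491) (leaf 3 492 493)))))))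 (merge (node 561 (merge (leaf 0 525 560) (node 529 (merge (leaf 0 526 562) (node 493 (merge (leaf 3 492 492) (leaf 3 493 494))))))) (merge (node 492 (merge (leaf 3 492 493) (node 524 (merge (leaf 3 491 491) (node 495 (merge (leaf 2 492 496) (node 523 (merge (leaf 2 491 494) (node 555 (merge (leaf 1 522 554) (leaf 1 523 556))))))))))) (node 560 (merge (leaf 0 525 561) (node 524 (merge (leaf 0 524 559) (node 555 (merge (leaf 1 523 556) (node 523 (merge (leaf 1 522 554) (node 495 (merge (leaf 2 491 494) (leaf 2 492 496))))))))))))))) (merge (node 529 (merge (node 497 (merge (leaf 2 494 498) (node 525 (merge (leaf 2 493 496) (node 493 (merge (leaf 3 492 492) (leaf 3 493 494))))))) (merge (node 498 (merge (leaf 2 494 497) (node 530 (merge (leaf 2 495 499) (node 558 (merge (leaf 1 525 557) (leaf 1 526 559))))))) (merge (node 558 (merge (leaf 1 525 557) (node 530 (merge (leaf 1 526 559) (node 494 (merge (leaf 3 493 493) (leaf 3 494 495))))))) (node 558 (merge (leaf 1 525 557) (node 493 (merge (leaf 3 493 494) (node 525 (merge (leaf 3 492 492) (node 496 (merge (leaf 2 493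 497) (node 524 (merge (leaf 2 492 495) (node 559 (merge (leaf 0 523 523) (leaf 0 524 560))))))))))))))))) (merge (node 560 (merge (node 525 (merge (leaf 0 525 561) (node 524 (merge (leaf 0 524 559) (node 492 (merge (leaf 3 491 491) (leaf 3 492 493))))))) (merge (node 525 (merge (leaf 0 525 561) (node 524 (merge (leaf 0 524 559) (node 496 (merge (leaf 2 492 495) (leaf 2 493 497))))))) (merge (node 525 (merge (leaf 0 525 561) (node 496 (merge (leaf 2 493 497) (node 495 (merge (leaf 2 492 524) (node 592 (merge (leaf 7 463 463) (leaf 7 495 624))))))))) (merge (node 592 (merge (node 624 (merge (leaf 7 495 495) (node 656 (merge (leaf 7 527 559) (node 657 (merge (leaf 4 528 625) (leaf 4 560 689))))))) (merge (node 624 (merge (leaf 7 495 495) (node 656 (merge (leaf 7 527 559) (node 655 (merge (leaf 5 527 623) (leaf 5 559 687))))))) (merge (node 624 (merge (leaf 7 495 495) (node 625 (merge (leaf 4 528 657) (node 496 (merge (leaf 4 496 593) (node 623 (merge (leaf 5 495 591) (leaf 5 527 655))))))))) (merge (node 624 (merge (node 656 (merge (leaf 7 527 559) (node 657 (merge (leaf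 4 528 625) (leaf 4 560 689))))) (merge (node 656 (merge (leaf 7 527 559) (node 655 (merge (leaf 5 527 623) (leaf 5 559 687))))) (node 625 (merge (leaf 4 528 657) (node 496 (merge (leaf 4 496 593) (node 623 (merge (leaf 5 495 591) (leaf 5 527 655)))))))))) (node 496 (merge (node 497 (merge (leaf 6 464 465) (node 495 (merge (leaf 7 463 463) (leaf 1 494 498))))) (merge (node 593 (merge (leaf 4 496 625) (node 464 (merge (leaf 4 464 561) (node 591 (merge (leaf 5 463 559) (leaf 5 495 623))))))) (node 591 (merge (leaf 5 495 623) (node 559 (merge (leaf 5 463 464) (node 495 (merge (leaf 4 463 463) (node 590 (merge (leaf 5 494 622) (node 589 (merge (leaf 2 557 561) (leaf 2 556 588))))))))))))))))))) (node 496 (merge (node 525 (merge (leaf 2 493 497) (node 524 (merge (leaf 2 492 495) (node 556 (merge (leaf 1 523 555) (leaf 1 524 557))))))) (merge (node 525 (merge (leaf 2 493 497) (node 559 (merge (leaf 0 524 524) (node 591 (merge (leaf 5 463 464) (leaf 6 495 623))))))) (merge (node 591 (merge (node 559 (merge (leaf 5 463 464) (leaf 6 495 623))) (merge (node 592 (merge (leaf 5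 495 623) (node 625 (merge (leaf 4 496 593) (node 624 (merge (leaf 7 495 495) (leaf 4 528 657))))))) (node 464 (merge (leaf 5 463 559) (node 465 (merge (leaf 6 432 433) (node 592 (merge (leaf 6 464 497) (node 463 (merge (leaf 7 431 431) (leaf 7 463 495)))))))))))) (node 591 (merge (node 559 (merge (leaf 5 463 464) (leaf 6 495 623))) (merge (node 592 (merge (leaf 5 495 623) (node 625 (merge (leaf 4 496 593) (node 624 (merge (leaf 7 495 495) (leaf 4 528 657))))))) (node 464 (merge (leaf 5 463 559) (node 465 (merge (leaf 6 432 433) (node 463 (merge (leaf 7 431 431) (node 495 (merge (leaf 7 463 592) (node 494 (merge (leaf 1 462 466) (leaf 2 461 493))))))))))))))))))))))) (node 558 (merge (node 557 (merge (leaf 1 525 529) (node 556 (merge (leaf 2 523 555) (leaf 2 524 559))))) (merge (node 529 (merge (leaf 1 525 557) (node 494 (merge (leaf 3 493 493) (node 495 (merge (leaf 3 494 530) (node 590 (merge (leaf 6 462 463) (leaf 6 494 622))))))))) (merge (node 590 (merge (node 495 (merge (leaf 6 494 622) (node 494 (merge (leaf 6 462 463) (node 493 (merge (leaf 7 461 461) (leaf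 0 492 492))))))) (merge (node 622 (merge (leaf 6 494 495) (node 655 (merge (leaf 4 526 623) (node 654 (merge (leaf 6 526 559) (leaf 4 558 687))))))) (merge (node 529 (merge (node 498 (merge (leaf 2 494 497) (node 530 (merge (leaf 2 495 499) (leaf 1 526 559))))) (node 494 (merge (leaf 3 493 493) (node 623 (merge (leaf 4 494 591) (node 622 (merge (leaf 4 526 655) (node 621 (merge (leaf 5 493 589) (leaf 5 525 653))))))))))) (node 494 (merge (node 493 (merge (leaf 7 461 461) (leaf 3 493 529))) (merge (node 493 (merge (leaf 7 461 461) (node 492 (merge (leaf 0 491 491) (leaf 0 492 495))))) (node 591 (merge (leaf 4 494 623) (node 559 (merge (leaf 4 462 462) (node 589 (merge (leaf 5 493 621) (node 588 (merge (leaf 2 556 560) (leaf 2 555 587)))))))))))))))) (node 590 (merge (node 495 (merge (leaf 6 494 622) (node 494 (merge (leaf 6 462 463) (node 493 (merge (leaf 7 461 461) (leaf 0 492 492))))))) (merge (node 622 (merge (leaf 6 494 495) (node 655 (merge (leaf 4 526 623) (node 654 (merge (leaf 6 526 559) (leaf 4 558 687))))))) (merge (node 494 (merge (node 493 (merge (leaf 7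 461 461) (node 492 (merge (leaf 0 491 491) (leaf 0 492 495))))) (merge (node 589 (merge (leaf 5 493 621) (node 462 (merge (leaf 5 461 557) (node 559 (merge (leaf 4 430 430) (leaf 4 462 591))))))) (node 591 (merge (leaf 4 494 623) (node 462 (merge (leaf 4 462 559) (node 589 (merge (leaf 5 461 557) (leaf 5 493 621)))))))))) (node 623 (merge (node 494 (merge (leaf 4 494 591) (node 622 (merge (leaf 4 526 655) (node 621 (merge (leaf 5 493 589) (leaf 5 525 653))))))) (merge (node 622 (merge (leaf 4 526 655) (node 654 (merge (leaf 6 526 559) (node 653 (merge (leaf 5 525 621) (leaf 5 557 685))))))) (merge (node 494 (merge (leaf 4 494 591) (node 589 (merge (leaf 5 493 621) (node 462 (merge (leaf 5 461 557) (node 430 (merge (leaf 4 430 559) (node 431 (merge (leaf 6 398 399) (leaf 6 430 463))))))))))) (node 591 (merge (leaf 4 494 494) (node 655 (merge (leaf 7 526 559) (leaf 4 526 622)))))))))))))))))))))))) nF_13 cF_13 10 (by decide +kernel)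
def nF_14 : ℕ := 0x1800000000000000000000000000000000000000000000000000000000000000000000000000000000000000000000000000000000000000000000000000000000000
def cF_14 : ℕ := 0x2a0000003e0000003e000000fe000003ffe00001e7c00001dfe000003e0000003e0000003a000000080000000000000000000000000000000000000000000000000000000000000000000000000000000000000000000
theorem lF_14 : S nF_14 cF_14 13 := S_of_chk [] trivial (node 526 (merge (node 493 (merge (node 494 (merge (leaf 3 493 529) (node 492 (merge (leaf 0 491 491) (leaf 0 492 495))))) (merge (node 492 (merge (leaf 3 492 525) (node 494 (merge (leaf 0 491 491) (leaf 0 492 495))))) (merge (node 529 (merge (leaf 3 493 494) (node 561 (merge (leaf 0 526 562) (node 525 (merge (leaf 0 525 560) (node 557 (merge (leaf 1 524 556) (leaf 1 525 558))))))))) (node 525 (merge (leaf 3 492 492) (node 561 (merge (leaf 0 525 560) (node 529 (merge (leaf 0 526 562) (node 557 (merge (leaf 1 524 556) (leaf 1 525 558))))))))))))) (merge (node 557 (merge (node 556 (merge (leaf 1 524 525) (node 558 (merge (leaf 2 523 555) (leaf 2 524 559))))) (merge (node 558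 (merge (leaf 1 525 529) (node 556 (merge (leaf 2 523 555) (leaf 2 524 559))))) (merge (node 529 (merge (leaf 1 525 558) (node 561 (merge (leaf 0 526 562) (node 525 (merge (leaf 0 525 560) (node 493 (merge (leaf 3 492 492) (leaf 3 493 494))))))))) (node 525 (merge (leaf 1 524 556) (node 561 (merge (leaf 0 525 560) (node 529 (merge (leaf 0 526 562) (node 493 (merge (leaf 3 492 492) (leaf 3 493 494))))))))))))) (merge (node 525 (merge (node 560 (merge (leaf 0 525 561) (node 524 (merge (leaf 0 524 559) (node 492 (merge (leaf 3 491 491) (leaf 3 492 493))))))) (merge (node 561 (merge (leaf 0 525 560) (node 529 (merge (leaf 0 526 562) (node 493 (merge (leaf 3 492 492) (leaf 3 493 494))))))) (merge (node 492 (merge (leaf 3 492 493) (node 524 (merge (leaf 3 491 491) (node 495 (merge (leaf 2 492 496) (node 523 (merge (leaf 2 491 494) (node 555 (merge (leaf 1 522 554) (leaf 1 523 556))))))))))) (node 560 (merge (leaf 0 525 561) (node 524 (merge (leaf 0 524 559) (node 555 (merge (leaf 1 523 556) (node 523 (merge (leaf 1 522 554) (node 495 (merge (leaf 2 491 494) (leaf 2 492 496)))))))))))))))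 (merge (node 557 (merge (node 558 (merge (leaf 1 525 529) (node 556 (merge (leaf 2 523 555) (leaf 2 524 559))))) (merge (node 529 (merge (leaf 1 525 558) (node 562 (merge (leaf 0 526 561) (node 530 (merge (leaf 0 527 563) (node 499 (merge (leaf 2 495 498) (node 531 (merge (leaf 2 496 500) (node 495 (merge (leaf 3 494 494) (leaf 3 495 496))))))))))))) (node 525 (merge (leaf 1 524 556) (node 560 (merge (leaf 0 525 561) (node 524 (merge (leaf 0 524 559) (node 495 (merge (leaf 2 492 496) (node 523 (merge (leaf 2 491 494) (node 554 (merge (leaf 1 522 555) (node 522 (merge (leaf 1 521 553) (node 490 (merge (leaf 3 489 489) (leaf 3 490 491)))))))))))))))))))) (merge (node 493 (merge (node 492 (merge (leaf 3 492 525) (node 494 (merge (leaf 0 491 491) (leaf 0 492 495))))) (merge (node 529 (merge (leaf 3 493 494) (node 562 (merge (leaf 0 526 561) (node 530 (merge (leaf 0 527 563) (node 558 (merge (leaf 1 525 557) (leaf 1 526 559))))))))) (node 525 (merge (leaf 3 492 492) (node 561 (merge (leaf 0 525 560) (node 529 (merge (leaf 0 526 562) (node 558 (merge (leaf 1 525 557) (node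 559 (merge (leaf 1 526 530) (node 524 (merge (leaf 0 523 523) (node 495 (merge (leaf 2 492 496) (node 590 (merge (leaf 5 462 463) (leaf 6 494 622)))))))))))))))))))) (merge (node 557 (merge (node 556 (merge (leaf 1 524 525) (node 558 (merge (leaf 2 523 555) (leaf 2 524 559))))) (merge (node 525 (merge (leaf 1 524 556) (node 493 (merge (leaf 3 492 492) (node 494 (merge (leaf 3 493 529) (node 589 (merge (leaf 6 461 462) (leaf 6 493 621))))))))) (node 529 (merge (leaf 1 525 558) (node 494 (merge (leaf 3 493 493) (node 530 (merge (leaf 3 494 495) (node 563 (merge (leaf 0 527 562) (node 531 (merge (leaf 0 528 564) (node 499 (merge (leaf 2 495 498) (leaf 2 496 500)))))))))))))))) (merge (node 557 (merge (node 556 (merge (leaf 1 524 525) (node 558 (merge (leaf 2 523 555) (leaf 2 524 559))))) (merge (node 525 (merge (leaf 1 524 556) (node 493 (merge (leaf 3 492 492) (node 494 (merge (leaf 3 493 529) (node 589 (merge (leaf 6 461 462) (leaf 6 493 621))))))))) (node 529 (merge (leaf 1 525 558) (node 494 (merge (leaf 3 493 493) (node 530 (merge (leaf 3 494 495) (node 499 (merge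 (leaf 2 495 498) (node 531 (merge (leaf 2 496 500) (node 564 (merge (leaf 0 528 563) (node 532 (merge (leaf 0 529 565) (node 560 (merge (leaf 1 527 559) (leaf 1 528 561)))))))))))))))))))) (merge (node 558 (merge (node 557 (merge (leaf 1 525 529) (node 556 (merge (leaf 2 523 555) (leaf 2 524 559))))) (merge (node 529 (merge (leaf 1 525 557) (node 494 (merge (leaf 3 493 493) (node 495 (merge (leaf 3 494 530) (node 590 (merge (leaf 6 462 463) (leaf 6 494 622))))))))) (merge (node 590 (merge (node 495 (merge (leaf 6 494 622) (node 494 (merge (leaf 6 462 463) (node 493 (merge (leaf 7 461 461) (leaf 0 492 492))))))) (merge (node 622 (merge (leaf 6 494 495) (node 655 (merge (leaf 4 526 623) (node 654 (merge (leaf 6 526 559) (leaf 4 558 687))))))) (merge (node 529 (merge (node 562 (merge (leaf 0 526 561) (node 530 (merge (leaf 1 526 559) (leaf 0 527 563))))) (node 494 (merge (leaf 3 493 493) (node 623 (merge (leaf 4 494 591) (node 622 (merge (leaf 4 526 655) (node 621 (merge (leaf 5 493 589) (leaf 5 525 653))))))))))) (node 494 (merge (node 493 (merge (leaf 7 461 461) (node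 492 (merge (leaf 0 491 491) (leaf 0 492 495))))) (merge (node 529 (merge (leaf 3 493 493) (node 562 (merge (leaf 0 526 561) (node 530 (merge (leaf 1 526 559) (leaf 0 527 563))))))) (node 591 (merge (leaf 4 494 623) (node 462 (merge (leaf 4 462 559) (node 431 (merge (leaf 6 430 463) (node 430 (merge (leaf 6 398 399) (node 429 (merge (leaf 7 397 397) (leaf 7 429 461)))))))))))))))))) (node 590 (merge (node 495 (merge (leaf 6 494 622) (node 494 (merge (leaf 6 462 463) (node 493 (merge (leaf 7 461 461) (leaf 0 492 492))))))) (merge (node 622 (merge (leaf 6 494 495) (node 655 (merge (leaf 4 526 623) (node 654 (merge (leaf 6 526 559) (leaf 4 558 687))))))) (merge (node 494 (merge (node 493 (merge (leaf 7 461 461) (node 492 (merge (leaf 0 491 491) (leaf 0 492 495))))) (merge (node 589 (merge (leaf 5 493 621) (node 462 (merge (leaf 5 461 557) (node 559 (merge (leaf 4 430 430) (leaf 4 462 591))))))) (node 591 (merge (leaf 4 494 623) (node 462 (merge (leaf 4 462 559) (node 589 (merge (leaf 5 461 557) (leaf 5 493 621)))))))))) (node 623 (merge (node 494 (merge (leaf 4 494 591)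 (node 622 (merge (leaf 4 526 655) (node 621 (merge (leaf 5 493 589) (leaf 5 525 653))))))) (merge (node 622 (merge (leaf 4 526 655) (node 654 (merge (leaf 6 526 559) (node 653 (merge (leaf 5 525 621) (leaf 5 557 685))))))) (merge (node 494 (merge (leaf 4 494 591) (node 589 (merge (leaf 5 493 621) (node 462 (merge (leaf 5 461 557) (node 430 (merge (leaf 4 430 559) (node 431 (merge (leaf 6 398 399) (leaf 6 430 463))))))))))) (node 591 (merge (leaf 4 494 494) (node 655 (merge (leaf 7 526 559) (leaf 4 526 622))))))))))))))))) (node 560 (merge (node 525 (merge (leaf 0 525 561) (node 524 (merge (leaf 0 524 559) (node 492 (merge (leaf 3 491 491) (leaf 3 492 493))))))) (merge (node 525 (merge (leaf 0 525 561) (node 556 (merge (leaf 1 524 557) (node 524 (merge (leaf 1 523 555) (node 492 (merge (leaf 3 491 491) (leaf 3 492 493))))))))) (merge (node 592 (merge (node 495 (merge (leaf 7 495 624) (node 463 (merge (leaf 4 431 431) (leaf 4 463 559))))) (merge (node 624 (merge (leaf 7 495 495) (node 657 (merge (leaf 4 528 625) (node 656 (merge (leaf 4 560 689) (node 655 (merge (leaf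 5 527 623) (leaf 5 559 687))))))))) (merge (node 624 (merge (node 656 (merge (leaf 7 527 559) (node 657 (merge (leaf 4 528 625) (leaf 4 560 689))))) (merge (node 656 (merge (leaf 7 527 559) (node 655 (merge (leaf 5 527 623) (leaf 5 559 687))))) (node 625 (merge (leaf 4 528 657) (node 496 (merge (leaf 4 496 593) (node 623 (merge (leaf 5 495 591) (leaf 5 527 655)))))))))) (node 496 (merge (node 463 (merge (leaf 7 463 495) (node 464 (merge (leaf 7 431 431) (node 433 (merge (leaf 6 432 465) (node 432 (merge (leaf 6 400 401) (leaf 5 431 559))))))))) (merge (node 593 (merge (leaf 4 496 625) (node 591 (merge (leaf 5 495 623) (node 495 (merge (leaf 7 463 463) (node 525 (merge (leaf 2 492 524) (node 557 (merge (leaf 1 524 556) (node 493 (merge (leaf 3 492 492) (node 590 (merge (leaf 3 557 558) (node 622 (merge (leaf 4 493 589) (leaf 1 589 621))))))))))))))))) (merge (node 591 (merge (leaf 5 495 623) (node 464 (merge (leaf 5 463 559) (node 433 (merge (leaf 6 432 465) (node 432 (merge (leaf 6 400 401) (node 431 (merge (leaf 7 399 399) (leaf 7 431 463))))))))))) (node 591 (merge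 (leaf 5 495 623) (node 464 (merge (leaf 5 463 559) (node 433 (merge (leaf 6 432 465) (node 432 (merge (leaf 6 400 401) (node 400 (merge (leaf 5 399 495) (node 399 (merge (leaf 7 367 367) (leaf 7 399 431))))))))))))))))))))) (node 592 (merge (node 495 (merge (leaf 7 495 624) (node 463 (merge (leaf 4 431 431) (leaf 4 463 559))))) (merge (node 624 (merge (leaf 7 495 495) (node 657 (merge (leaf 4 528 625) (node 656 (merge (leaf 4 560 689) (node 655 (merge (leaf 5 527 623) (leaf 5 559 687))))))))) (merge (node 624 (merge (node 656 (merge (leaf 7 527 559) (node 657 (merge (leaf 4 528 625) (leaf 4 560 689))))) (merge (node 656 (merge (leaf 7 527 559) (node 655 (merge (leaf 5 527 623) (leaf 5 559 687))))) (node 625 (merge (leaf 4 528 657) (node 496 (merge (leaf 4 496 593) (node 623 (merge (leaf 5 495 591) (leaf 5 527 655)))))))))) (node 593 (merge (node 625 (merge (leaf 4 496 496) (node 657 (merge (leaf 7 528 561) (leaf 7 560 689))))) (merge (node 496 (merge (leaf 4 496 625) (node 463 (merge (leaf 7 463 495) (node 464 (merge (leaf 7 431 431) (node 432 (merge (leaf 5 431 559)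 (node 433 (merge (leaf 6 400 401) (leaf 6 432 465))))))))))) (merge (node 561 (merge (node 562 (merge (leaf 3 526 559) (leaf 3 527 563))) (merge (node 496 (merge (leaf 4 464 464) (node 591 (merge (leaf 5 495 623) (node 590 (merge (leaf 2 558 562) (leaf 2 557 589))))))) (node 496 (merge (leaf 4 464 464) (node 591 (merge (leaf 5 495 623) (node 590 (merge (leaf 2 557 589) (node 622 (merge (leaf 1 589 621) (node 495 (merge (leaf 7 463 463) (leaf 5 494 559)))))))))))))) (node 559 (merge (node 594 (merge (leaf 3 559 595) (node 591 (merge (leaf 3 558 558) (node 623 (merge (leaf 1 590 622) (leaf 6 527 655))))))) (merge (node 561 (merge (leaf 3 526 562) (node 558 (merge (leaf 0 558 594) (node 557 (merge (leaf 2 524 556) (leaf 0 557 592))))))) (merge (node 562 (merge (leaf 3 526 561) (node 594 (merge (leaf 3 559 595) (node 591 (merge (leaf 2 559 563) (node 623 (merge (leaf 1 590 622) (leaf 6 527 655))))))))) (node 558 (merge (leaf 0 557 557) (node 561 (merge (leaf 3 526 562) (node 590 (merge (leaf 1 557 589) (node 495 (merge (leaf 4 463 463) (leaf 6 494 622))))))))))))))))))))))))))))))))))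 nF_14 cF_14 13 (by decide +kernel)
def nF_15 : ℕ := 0x1800000000000000000000000000000000000000000000000000000000000000000000000000000000000000000000000000000000000000000000000000000000000
def cF_15 : ℕ := 0x80000002e0000003e0000003e0000007f800003bfe00001e7c00003ffe000007e0000002e0000000e000000000000000000000000000000000000000000000000000000000000000000000000000000000000000000000000000
theorem lF_15 : S nF_15 cF_15 11 := S_of_chk [] trivial (node 526 (merge (node 529 (merge (node 497 (merge (leaf 2 494 498) (node 525 (merge (leaf 2 493 496) (node 493 (merge (leaf 3 492 492) (leaf 3 493 494))))))) (merge (node 498 (merge (leaf 2 494 497) (node 530 (merge (leaf 2 495 499) (node 558 (merge (leaf 1 525 557) (leaf 1 526 559))))))) (node 557 (merge (leaf 1 525 558) (node 525 (merge (leaf 1 524 556) (node 493 (merge (leaf 3 492 492) (leaf 3 493 494)))))))))) (merge (node 529 (merge (node 557 (merge (leaf 1 525 558) (node 525 (merge (leaf 1 524 556) (node 493 (merge (leaf 3 492 492) (leaf 3 493 494))))))) (merge (node 498 (merge (leaf 2 494 497) (node 530 (merge (leaf 2 495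 499) (node 494 (merge (leaf 3 493 493) (leaf 3 494 495))))))) (node 497 (merge (leaf 2 494 498) (node 525 (merge (leaf 2 493 496) (node 557 (merge (leaf 1 524 556) (leaf 1 525 558)))))))))) (merge (node 525 (merge (node 497 (merge (leaf 2 493 496) (node 529 (merge (leaf 2 494 498) (node 493 (merge (leaf 3 492 492) (leaf 3 493 494))))))) (merge (node 492 (merge (leaf 3 492 493) (node 524 (merge (leaf 3 491 491) (node 559 (merge (leaf 0 524 560) (node 523 (merge (leaf 0 523 558) (node 555 (merge (leaf 1 522 554) (leaf 1 523 556))))))))))) (node 496 (merge (leaf 2 493 497) (node 524 (merge (leaf 2 492 495) (node 559 (merge (leaf 0 524 560) (node 523 (merge (leaf 0 523 558) (node 554 (merge (leaf 1 522 555) (node 522 (merge (leaf 1 521 553) (node 490 (merge (leaf 3 489 489) (leaf 3 490 491)))))))))))))))))) (merge (node 529 (merge (node 497 (merge (leaf 2 494 498) (node 525 (merge (leaf 2 493 496) (node 493 (merge (leaf 3 492 492) (leaf 3 493 494))))))) (merge (node 498 (merge (leaf 2 494 497) (node 530 (merge (leaf 2 495 499) (node 558 (merge (leaf 1 525 557) (leaf 1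 526 559))))))) (merge (node 558 (merge (leaf 1 525 557) (node 530 (merge (leaf 1 526 559) (node 494 (merge (leaf 3 493 493) (leaf 3 494 495))))))) (node 558 (merge (leaf 1 525 557) (node 493 (merge (leaf 3 493 494) (node 525 (merge (leaf 3 492 492) (node 496 (merge (leaf 2 493 497) (node 524 (merge (leaf 2 492 495) (node 559 (merge (leaf 0 523 523) (leaf 0 524 560))))))))))))))))) (merge (node 529 (merge (node 498 (merge (leaf 2 494 497) (node 530 (merge (leaf 2 495 499) (node 558 (merge (leaf 1 525 557) (leaf 1 526 559))))))) (merge (node 497 (merge (leaf 2 494 498) (node 525 (merge (leaf 2 493 496) (node 556 (merge (leaf 1 524 557) (node 524 (merge (leaf 1 523 555) (node 492 (merge (leaf 3 491 491) (leaf 3 492 493))))))))))) (merge (node 497 (merge (leaf 2 494 498) (node 525 (merge (leaf 2 493 496) (node 492 (merge (leaf 3 492 493) (node 524 (merge (leaf 3 491 491) (node 559 (merge (leaf 0 524 560) (node 558 (merge (leaf 0 523 523) (leaf 1 526 530))))))))))))) (node 557 (merge (leaf 1 525 558) (node 525 (merge (leaf 1 524 556) (node 560 (merge (leaf 0 525 561) (node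 524 (merge (leaf 0 524 559) (node 492 (merge (leaf 3 491 491) (leaf 3 492 493))))))))))))))) (merge (node 557 (merge (node 556 (merge (leaf 1 524 525) (node 558 (merge (leaf 2 523 555) (leaf 2 524 559))))) (merge (node 525 (merge (leaf 1 524 556) (node 493 (merge (leaf 3 492 492) (node 494 (merge (leaf 3 493 529) (node 589 (merge (leaf 6 461 462) (leaf 6 493 621))))))))) (node 529 (merge (leaf 1 525 558) (node 494 (merge (leaf 3 493 493) (node 530 (merge (leaf 3 494 495) (node 499 (merge (leaf 2 495 498) (node 531 (merge (leaf 2 496 500) (node 564 (merge (leaf 0 528 563) (node 532 (merge (leaf 0 529 565) (node 560 (merge (leaf 1 527 559) (leaf 1 528 561)))))))))))))))))))) (merge (node 560 (merge (node 525 (merge (leaf 0 525 561) (node 524 (merge (leaf 0 524 559) (node 492 (merge (leaf 3 491 491) (leaf 3 492 493))))))) (merge (node 525 (merge (leaf 0 525 561) (node 524 (merge (leaf 0 524 559) (node 496 (merge (leaf 2 492 495) (leaf 2 493 497))))))) (merge (node 525 (merge (leaf 0 525 561) (node 496 (merge (leaf 2 493 497) (node 495 (merge (leaf 2 492 524) (node 592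 (merge (leaf 7 463 463) (leaf 7 495 624))))))))) (merge (node 592 (merge (node 624 (merge (leaf 7 495 495) (node 656 (merge (leaf 7 527 559) (node 657 (merge (leaf 4 528 625) (leaf 4 560 689))))))) (merge (node 624 (merge (leaf 7 495 495) (node 656 (merge (leaf 7 527 559) (node 655 (merge (leaf 5 527 623) (leaf 5 559 687))))))) (merge (node 624 (merge (leaf 7 495 495) (node 625 (merge (leaf 4 528 657) (node 496 (merge (leaf 4 496 593) (node 623 (merge (leaf 5 495 591) (leaf 5 527 655))))))))) (merge (node 624 (merge (node 656 (merge (leaf 7 527 559) (node 657 (merge (leaf 4 528 625) (leaf 4 560 689))))) (merge (node 656 (merge (leaf 7 527 559) (node 655 (merge (leaf 5 527 623) (leaf 5 559 687))))) (node 625 (merge (leaf 4 528 657) (node 496 (merge (leaf 4 496 593) (node 623 (merge (leaf 5 495 591) (leaf 5 527 655)))))))))) (node 496 (merge (node 497 (merge (leaf 6 464 465) (node 495 (merge (leaf 7 463 463) (leaf 1 494 498))))) (merge (node 593 (merge (leaf 4 496 625) (node 464 (merge (leaf 4 464 561) (node 591 (merge (leaf 5 463 559) (leaf 5 495 623))))))) (node 591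 (merge (leaf 5 495 623) (node 559 (merge (leaf 5 463 464) (node 495 (merge (leaf 4 463 463) (node 590 (merge (leaf 5 494 622) (node 589 (merge (leaf 2 557 561) (leaf 2 556 588))))))))))))))))))) (node 496 (merge (node 525 (merge (leaf 2 493 497) (node 524 (merge (leaf 2 492 495) (node 556 (merge (leaf 1 523 555) (leaf 1 524 557))))))) (merge (node 525 (merge (leaf 2 493 497) (node 559 (merge (leaf 0 524 524) (node 591 (merge (leaf 5 463 464) (leaf 6 495 623))))))) (merge (node 591 (merge (node 559 (merge (leaf 5 463 464) (leaf 6 495 623))) (merge (node 592 (merge (leaf 5 495 623) (node 625 (merge (leaf 4 496 593) (node 624 (merge (leaf 7 495 495) (leaf 4 528 657))))))) (node 464 (merge (leaf 5 463 559) (node 465 (merge (leaf 6 432 433) (node 592 (merge (leaf 6 464 497) (node 463 (merge (leaf 7 431 431) (leaf 7 463 495)))))))))))) (node 591 (merge (node 559 (merge (leaf 5 463 464) (leaf 6 495 623))) (merge (node 592 (merge (leaf 5 495 623) (node 625 (merge (leaf 4 496 593) (node 624 (merge (leaf 7 495 495) (leaf 4 528 657))))))) (node 464 (merge (leaf 5 463 559) (node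 465 (merge (leaf 6 432 433) (node 463 (merge (leaf 7 431 431) (node 495 (merge (leaf 7 463 592) (node 494 (merge (leaf 1 462 466) (leaf 2 461 493))))))))))))))))))))))) (merge (node 558 (merge (node 557 (merge (leaf 1 525 529) (node 556 (merge (leaf 2 523 555) (leaf 2 524 559))))) (merge (node 529 (merge (leaf 1 525 557) (node 494 (merge (leaf 3 493 493) (node 495 (merge (leaf 3 494 530) (node 590 (merge (leaf 6 462 463) (leaf 6 494 622))))))))) (merge (node 590 (merge (node 495 (merge (leaf 6 494 622) (node 494 (merge (leaf 6 462 463) (node 493 (merge (leaf 7 461 461) (leaf 0 492 492))))))) (merge (node 622 (merge (leaf 6 494 495) (node 655 (merge (leaf 4 526 623) (node 654 (merge (leaf 6 526 559) (leaf 4 558 687))))))) (merge (node 529 (merge (node 498 (merge (leaf 2 494 497) (node 530 (merge (leaf 2 495 499) (leaf 1 526 559))))) (node 494 (merge (leaf 3 493 493) (node 623 (merge (leaf 4 494 591) (node 622 (merge (leaf 4 526 655) (node 621 (merge (leaf 5 493 589) (leaf 5 525 653))))))))))) (node 494 (merge (node 493 (merge (leaf 7 461 461) (leaf 3 493 529))) (merge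 (node 493 (merge (leaf 7 461 461) (node 492 (merge (leaf 0 491 491) (leaf 0 492 495))))) (node 591 (merge (leaf 4 494 623) (node 559 (merge (leaf 4 462 462) (node 589 (merge (leaf 5 493 621) (node 588 (merge (leaf 2 556 560) (leaf 2 555 587)))))))))))))))) (node 590 (merge (node 495 (merge (leaf 6 494 622) (node 494 (merge (leaf 6 462 463) (node 493 (merge (leaf 7 461 461) (leaf 0 492 492))))))) (merge (node 622 (merge (leaf 6 494 495) (node 655 (merge (leaf 4 526 623) (node 654 (merge (leaf 6 526 559) (leaf 4 558 687))))))) (merge (node 494 (merge (node 493 (merge (leaf 7 461 461) (node 492 (merge (leaf 0 491 491) (leaf 0 492 495))))) (merge (node 589 (merge (leaf 5 493 621) (node 462 (merge (leaf 5 461 557) (node 559 (merge (leaf 4 430 430) (leaf 4 462 591))))))) (node 591 (merge (leaf 4 494 623) (node 462 (merge (leaf 4 462 559) (node 589 (merge (leaf 5 461 557) (leaf 5 493 621)))))))))) (node 623 (merge (node 494 (merge (leaf 4 494 591) (node 622 (merge (leaf 4 526 655) (node 621 (merge (leaf 5 493 589) (leaf 5 525 653))))))) (merge (node 622 (merge (leaf 4 526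 655) (node 654 (merge (leaf 6 526 559) (node 653 (merge (leaf 5 525 621) (leaf 5 557 685))))))) (merge (node 494 (merge (leaf 4 494 591) (node 589 (merge (leaf 5 493 621) (node 462 (merge (leaf 5 461 557) (node 430 (merge (leaf 4 430 559) (node 431 (merge (leaf 6 398 399) (leaf 6 430 463))))))))))) (node 591 (merge (leaf 4 494 494) (node 655 (merge (leaf 7 526 559) (leaf 4 526 622))))))))))))))))) (merge (node 558 (merge (node 557 (merge (leaf 1 525 529) (node 556 (merge (leaf 2 523 555) (leaf 2 524 559))))) (merge (node 529 (merge (leaf 1 525 557) (node 494 (merge (leaf 3 493 493) (node 495 (merge (leaf 3 494 530) (node 590 (merge (leaf 6 462 463) (leaf 6 494 622))))))))) (merge (node 590 (merge (node 495 (merge (leaf 6 494 622) (node 494 (merge (leaf 6 462 463) (node 493 (merge (leaf 7 461 461) (leaf 0 492 492))))))) (merge (node 622 (merge (leaf 6 494 495) (node 655 (merge (leaf 4 526 623) (node 654 (merge (leaf 6 526 559) (leaf 4 558 687))))))) (merge (node 494 (merge (node 493 (merge (leaf 7 461 461) (node 492 (merge (leaf 0 491 491) (leaf 0 492 495))))) (merge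 (node 589 (merge (leaf 5 493 621) (node 462 (merge (leaf 5 461 557) (node 559 (merge (leaf 4 430 430) (leaf 4 462 591))))))) (node 591 (merge (leaf 4 494 623) (node 462 (merge (leaf 4 462 559) (node 589 (merge (leaf 5 461 557) (leaf 5 493 621)))))))))) (node 623 (merge (node 494 (merge (leaf 4 494 591) (node 622 (merge (leaf 4 526 655) (node 621 (merge (leaf 5 493 589) (leaf 5 525 653))))))) (merge (node 622 (merge (leaf 4 526 655) (node 654 (merge (leaf 6 526 559) (node 653 (merge (leaf 5 525 621) (leaf 5 557 685))))))) (merge (node 494 (merge (leaf 4 494 591) (node 589 (merge (leaf 5 493 621) (node 462 (merge (leaf 5 461 557) (node 430 (merge (leaf 4 430 559) (node 431 (merge (leaf 6 398 399) (leaf 6 430 463))))))))))) (node 591 (merge (leaf 4 494 494) (node 655 (merge (leaf 7 526 559) (leaf 4 526 622))))))))))))) (node 590 (merge (node 495 (merge (leaf 6 494 622) (node 494 (merge (leaf 6 462 463) (node 493 (merge (leaf 7 461 461) (leaf 0 492 492))))))) (merge (node 622 (merge (leaf 6 494 495) (node 655 (merge (leaf 4 526 623) (node 654 (merge (leaf 6 526 559) (leaf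 4 558 687))))))) (merge (node 525 (merge (node 622 (merge (leaf 7 493 493) (node 623 (merge (leaf 4 526 655) (node 494 (merge (leaf 4 494 591) (node 621 (merge (leaf 5 493 589) (leaf 5 525 653))))))))) (node 560 (merge (leaf 0 525 561) (node 524 (merge (leaf 0 524 559) (node 555 (merge (leaf 1 523 556) (node 523 (merge (leaf 1 522 554) (node 491 (merge (leaf 3 490 490) (leaf 3 491 492))))))))))))) (node 493 (merge (node 494 (merge (leaf 7 461 461) (leaf 3 493 529))) (merge (node 525 (merge (leaf 3 492 492) (node 496 (merge (leaf 2 493 497) (node 524 (merge (leaf 2 492 495) (node 559 (merge (leaf 0 523 523) (leaf 0 524 560))))))))) (node 492 (merge (leaf 3 492 525) (node 494 (merge (leaf 0 492 495) (leaf 3 493 529)))))))))))))))) (merge (node 558 (merge (node 557 (merge (leaf 1 525 529) (node 556 (merge (leaf 2 523 555) (leaf 2 524 559))))) (merge (node 529 (merge (leaf 1 525 557) (node 494 (merge (leaf 3 493 493) (node 495 (merge (leaf 3 494 530) (node 590 (merge (leaf 6 462 463) (leaf 6 494 622))))))))) (merge (node 529 (merge (node 530 (merge (leaf 1 526 559) (node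 494 (merge (leaf 3 493 493) (leaf 3 494 495))))) (merge (node 498 (merge (leaf 2 494 497) (node 530 (merge (leaf 2 495 499) (leaf 1 526 559))))) (merge (node 498 (merge (leaf 2 494 497) (node 530 (merge (leaf 2 495 499) (node 494 (merge (leaf 3 493 493) (leaf 3 494 495))))))) (node 497 (merge (leaf 2 494 498) (node 525 (merge (leaf 2 493 496) (node 560 (merge (leaf 0 525 561) (node 524 (merge (leaf 0 524 559) (node 555 (merge (leaf 1 523 556) (node 523 (merge (leaf 1 522 554) (node 494 (merge (leaf 3 493 493) (leaf 2 491 495))))))))))))))))))) (node 590 (merge (node 495 (merge (leaf 6 494 622) (node 463 (merge (leaf 5 430 431) (leaf 5 462 559))))) (merge (node 622 (merge (leaf 6 494 495) (node 655 (merge (leaf 4 526 623) (node 654 (merge (leaf 4 558 687) (node 653 (merge (leaf 5 525 621) (leaf 5 557 685))))))))) (merge (node 622 (merge (node 654 (merge (leaf 6 526 559) (node 653 (merge (leaf 5 525 621) (leaf 5 557 685))))) (merge (node 623 (merge (leaf 4 526 655) (node 494 (merge (leaf 4 494 591) (node 621 (merge (leaf 5 493 589) (leaf 5 525 653))))))) (node 654 (merge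 (leaf 6 526 559) (node 557 (merge (leaf 7 525 525) (node 686 (merge (leaf 7 557 589) (node 687 (merge (leaf 4 558 655) (leaf 4 590 719)))))))))))) (node 591 (merge (node 494 (merge (leaf 4 494 623) (node 462 (merge (leaf 4 462 559) (node 589 (merge (leaf 5 461 557) (leaf 5 493 621))))))) (merge (node 559 (merge (node 623 (merge (leaf 6 495 496) (leaf 7 526 655))) (merge (node 495 (merge (leaf 5 462 463) (node 496 (merge (leaf 6 463 464) (node 525 (merge (leaf 2 493 497) (leaf 2 492 524))))))) (node 495 (merge (leaf 5 462 463) (node 592 (merge (leaf 4 495 624) (node 593 (merge (leaf 3 557 557) (leaf 3 558 594)))))))))) (merge (node 559 (merge (node 494 (merge (leaf 4 462 462) (node 589 (merge (leaf 5 493 621) (node 588 (merge (leaf 2 556 560) (leaf 2 555 587))))))) (node 495 (merge (leaf 5 462 463) (node 496 (merge (leaf 6 463 464) (node 525 (merge (leaf 2 493 497) (leaf 2 492 524))))))))) (node 494 (merge (leaf 4 494 623) (node 589 (merge (leaf 5 493 621) (node 462 (merge (leaf 5 461 557) (node 495 (merge (leaf 6 462 463) (node 430 (merge (leaf 4 398 398) (node 429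 (merge (leaf 7 397 397) (leaf 7 429 461))))))))))))))))))))))))) (node 558 (merge (node 557 (merge (leaf 1 525 529) (node 556 (merge (leaf 2 523 555) (leaf 2 524 559))))) (merge (node 529 (merge (leaf 1 525 557) (node 498 (merge (leaf 2 494 497) (node 530 (merge (leaf 2 495 499) (node 495 (merge (leaf 3 494 494) (node 496 (merge (leaf 3 495 531) (node 525 (merge (leaf 2 492 524) (node 560 (merge (leaf 0 525 561) (node 463 (merge (leaf 4 431 431) (leaf 7 463 592))))))))))))))))) (merge (node 529 (merge (node 498 (merge (leaf 2 494 497) (node 530 (merge (leaf 2 495 499) (leaf 1 526 559))))) (merge (node 497 (merge (leaf 2 494 498) (node 525 (merge (leaf 2 493 496) (node 560 (merge (leaf 0 525 561) (node 524 (merge (leaf 0 524 559) (node 555 (merge (leaf 1 523 556) (node 523 (merge (leaf 1 522 554) (node 491 (merge (leaf 3 490 490) (leaf 3 491 492))))))))))))))) (merge (node 498 (merge (leaf 2 494 497) (node 530 (merge (leaf 2 495 499) (node 495 (merge (leaf 3 494 494) (node 496 (merge (leaf 3 495 531) (node 525 (merge (leaf 2 492 524) (node 560 (merge (leaf 0 525 561)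 (node 463 (merge (leaf 4 431 431) (leaf 7 463 592))))))))))))))) (node 530 (merge (leaf 1 526 559) (node 495 (merge (leaf 3 494 494) (node 531 (merge (leaf 3 495 496) (node 564 (merge (leaf 0 528 563) (node 532 (merge (leaf 0 529 565) (node 500 (merge (leaf 2 496 499) (leaf 2 497 501))))))))))))))))) (node 590 (merge (node 495 (merge (leaf 6 494 622) (node 463 (merge (leaf 5 430 431) (leaf 5 462 559))))) (merge (node 622 (merge (leaf 6 494 495) (node 655 (merge (leaf 4 526 623) (node 654 (merge (leaf 4 558 687) (node 653 (merge (leaf 5 525 621) (leaf 5 557 685))))))))) (merge (node 622 (merge (node 654 (merge (leaf 6 526 559) (node 653 (merge (leaf 5 525 621) (leaf 5 557 685))))) (merge (node 623 (merge (leaf 4 526 655) (node 494 (merge (leaf 4 494 591) (node 621 (merge (leaf 5 493 589) (leaf 5 525 653))))))) (node 654 (merge (leaf 6 526 559) (node 557 (merge (leaf 7 525 525) (node 686 (merge (leaf 7 557 589) (node 687 (merge (leaf 4 558 655) (leaf 4 590 719)))))))))))) (node 591 (merge (node 494 (merge (leaf 4 494 623) (node 462 (merge (leaf 4 462 559) (node 589 (merge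 (leaf 5 461 557) (leaf 5 493 621))))))) (merge (node 559 (merge (node 623 (merge (leaf 6 495 496) (leaf 7 526 655))) (merge (node 495 (merge (leaf 5 462 463) (node 496 (merge (leaf 6 463 464) (node 525 (merge (leaf 2 493 497) (leaf 2 492 524))))))) (node 495 (merge (leaf 5 462 463) (node 592 (merge (leaf 4 495 624) (node 593 (merge (leaf 3 557 557) (leaf 3 558 594)))))))))) (merge (node 559 (merge (node 494 (merge (leaf 4 462 462) (node 589 (merge (leaf 5 493 621) (node 588 (merge (leaf 2 556 560) (leaf 2 555 587))))))) (node 495 (merge (leaf 5 462 463) (node 496 (merge (leaf 6 463 464) (node 525 (merge (leaf 2 493 497) (leaf 2 492 524))))))))) (node 494 (merge (leaf 4 494 623) (node 589 (merge (leaf 5 493 621) (node 462 (merge (leaf 5 461 557) (node 495 (merge (leaf 6 462 463) (node 430 (merge (leaf 4 398 398) (node 429 (merge (leaf 7 397 397) (leaf 7 429 461)))))))))))))))))))))))))))))))))))) nF_15 cF_15 11 (by decide +kernel)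
def nF_16 : ℕ := 0x1800000000000000000000000000000000000000000000000000000000000000000000000000000000000000000000000000000000000000000000000000000000000
def cF_16 : ℕ := 0x8000000380000007c000001ff000003fdc00001e7800003ff800000ff0000003f0000003d000000280000000000000000000000000000000000000000000000000000000000000000000000000000000000000000000
theorem lF_16 : S nF_16 cF_16 13 := S_of_chk [] trivial (node 496 (merge (node 464 (merge (node 559 (merge (leaf 5 431 432) (node 591 (merge (leaf 5 463 560) (leaf 6 495 623))))) (merge (node 432 (merge (leaf 5 431 559) (node 529 (merge (leaf 4 432 561) (node 400 (merge (leaf 4 400 497) (node 401 (merge (leaf 6 368 369) (leaf 6 400 433))))))))) (merge (node 560 (merge (node 561 (merge (leaf 4 464 593) (node 526 (merge (leaf 0 525 525) (node 562 (merge (leaf 0 526 529) (leaf 3 527 563))))))) (node 465 (merge (leaf 6 432 433) (node 592 (merge (leaf 6 464 497) (node 591 (merge (leaf 5 463 559) (leaf 5 495 623))))))))) (node 433 (merge (node 401 (merge (leaf 6 400 432) (node 465 (merge (leaf 5 368 369) (leaf 5 400 497))))) (merge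 (node 465 (merge (leaf 6 432 560) (node 401 (merge (leaf 5 368 369) (leaf 5 400 497))))) (merge (node 432 (merge (leaf 6 400 401) (node 561 (merge (leaf 4 432 529) (node 560 (merge (leaf 4 464 593) (node 431 (merge (leaf 7 399 399) (leaf 7 431 463))))))))) (node 560 (merge (leaf 6 432 465) (node 561 (merge (leaf 4 464 593) (node 526 (merge (leaf 0 525 525) (node 529 (merge (leaf 4 432 432) (leaf 0 526 562))))))))))))))))) (merge (node 526 (merge (node 497 (merge (leaf 2 493 525) (node 498 (merge (leaf 1 494 495) (leaf 1 495 499))))) (merge (node 525 (merge (leaf 2 493 497) (node 561 (merge (leaf 0 525 560) (node 529 (merge (leaf 0 526 562) (node 493 (merge (leaf 3 492 492) (leaf 3 493 494))))))))) (merge (node 529 (merge (node 561 (merge (leaf 0 526 562) (node 497 (merge (leaf 2 494 498) (node 593 (merge (leaf 7 464 464) (leaf 7 496 625))))))) (merge (node 562 (merge (leaf 0 526 561) (node 530 (merge (leaf 0 527 563) (node 494 (merge (leaf 3 493 493) (leaf 3 494 495))))))) (node 498 (merge (leaf 2 494 497) (node 530 (merge (leaf 2 495 499) (node 494 (merge (leaf 3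 493 493) (leaf 3 494 495)))))))))) (node 495 (merge (node 525 (merge (leaf 2 492 524) (node 560 (merge (leaf 0 525 561) (node 592 (merge (leaf 7 463 463) (leaf 7 495 624))))))) (merge (node 529 (merge (node 530 (merge (leaf 3 494 494) (leaf 3 495 531))) (node 561 (merge (leaf 0 526 562) (node 464 (merge (leaf 4 432 432) (node 593 (merge (leaf 4 464 560) (leaf 7 496 625))))))))) (node 525 (merge (leaf 2 492 524) (node 493 (merge (leaf 3 492 492) (node 494 (merge (leaf 0 493 529) (node 461 (merge (leaf 3 460 460) (node 558 (merge (leaf 4 429 429) (leaf 7 461 590)))))))))))))))))) (merge (node 464 (merge (node 559 (merge (leaf 5 431 432) (node 591 (merge (leaf 6 463 495) (leaf 6 495 623))))) (merge (node 432 (merge (leaf 5 431 559) (node 433 (merge (leaf 6 400 401) (node 560 (merge (leaf 6 432 465) (node 431 (merge (leaf 7 399 399) (leaf 7 431 463))))))))) (merge (node 560 (merge (node 561 (merge (leaf 4 464 593) (node 526 (merge (leaf 0 525 525) (node 562 (merge (leaf 0 526 529) (leaf 3 527 563))))))) (node 591 (merge (leaf 5 463 559) (node 463 (merge (leaf 7 431 431)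 (node 592 (merge (leaf 7 463 495) (leaf 5 495 623))))))))) (node 432 (merge (node 401 (merge (leaf 6 400 433) (node 400 (merge (leaf 6 368 369) (node 399 (merge (leaf 7 367 367) (leaf 7 399 431))))))) (merge (node 431 (merge (leaf 7 399 399) (node 560 (merge (leaf 7 431 463) (node 593 (merge (leaf 4 464 561) (node 592 (merge (leaf 4 496 625) (node 623 (merge (leaf 5 495 591) (node 624 (merge (leaf 7 495 495) (leaf 5 527 655))))))))))))) (node 495 (merge (leaf 5 399 400) (node 433 (merge (leaf 6 400 401) (node 560 (merge (leaf 6 432 465) (node 592 (merge (leaf 7 463 463) (leaf 7 495 624)))))))))))))))) (merge (node 526 (merge (node 497 (merge (leaf 2 493 525) (node 498 (merge (leaf 1 494 495) (leaf 1 495 499))))) (merge (node 525 (merge (leaf 2 493 497) (node 561 (merge (leaf 0 525 560) (node 529 (merge (leaf 0 526 562) (node 493 (merge (leaf 3 492 492) (leaf 3 493 494))))))))) (merge (node 529 (merge (node 561 (merge (leaf 0 526 562) (node 497 (merge (leaf 2 494 498) (node 593 (merge (leaf 7 464 464) (leaf 7 496 625))))))) (merge (node 562 (merge (leaf 0 526 561) (node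 530 (merge (leaf 0 527 563) (node 494 (merge (leaf 3 493 493) (leaf 3 494 495))))))) (node 498 (merge (leaf 2 494 497) (node 530 (merge (leaf 2 495 499) (node 494 (merge (leaf 3 493 493) (leaf 3 494 495)))))))))) (node 529 (merge (node 561 (merge (leaf 0 526 562) (node 525 (merge (leaf 0 525 560) (node 493 (merge (leaf 3 492 492) (leaf 3 493 494))))))) (merge (node 562 (merge (leaf 0 526 561) (node 530 (merge (leaf 0 527 563) (node 559 (merge (leaf 1 526 558) (node 531 (merge (leaf 1 527 560) (node 499 (merge (leaf 2 495 498) (leaf 2 496 500))))))))))) (merge (node 494 (merge (leaf 3 493 493) (node 530 (merge (leaf 3 494 495) (node 563 (merge (leaf 0 527 562) (node 531 (merge (leaf 0 528 564) (node 499 (merge (leaf 2 495 498) (leaf 2 496 500))))))))))) (node 494 (merge (leaf 3 493 493) (node 530 (merge (leaf 3 494 495) (node 559 (merge (leaf 1 526 558) (node 560 (merge (leaf 1 527 531) (node 525 (merge (leaf 0 524 524) (leaf 0 525 561))))))))))))))))))) (merge (node 498 (merge (node 497 (merge (leaf 1 495 499) (node 526 (merge (leaf 2 493 525) (leaf 2 494 529)))))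 (merge (node 497 (merge (leaf 1 495 499) (node 526 (merge (leaf 1 494 495) (leaf 2 493 525))))) (merge (node 464 (merge (node 559 (merge (leaf 5 431 432) (node 591 (merge (leaf 5 463 560) (leaf 6 495 623))))) (merge (node 432 (merge (leaf 5 431 559) (node 401 (merge (leaf 6 400 433) (node 400 (merge (leaf 6 368 369) (leaf 5 399 495))))))) (merge (node 432 (merge (node 401 (merge (leaf 6 400 433) (node 400 (merge (leaf 6 368 369) (leaf 5 399 495))))) (merge (node 400 (merge (leaf 5 399 495) (node 399 (merge (leaf 7 367 367) (leaf 7 399 431))))) (node 561 (merge (leaf 4 432 529) (node 560 (merge (leaf 4 464 593) (node 431 (merge (leaf 7 399 399) (leaf 7 431 463)))))))))) (node 560 (merge (node 591 (merge (leaf 5 463 559) (node 592 (merge (leaf 5 495 623) (node 465 (merge (leaf 6 432 433) (leaf 6 464 497))))))) (merge (node 593 (merge (leaf 4 464 561) (node 592 (merge (leaf 4 496 625) (node 463 (merge (leaf 7 431 431) (leaf 7 463 495))))))) (merge (node 561 (merge (leaf 4 464 593) (node 465 (merge (leaf 6 432 433) (node 592 (merge (leaf 6 464 497) (node 624 (merge (leaf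 7 495 495) (node 656 (merge (leaf 6 528 529) (leaf 7 527 559))))))))))) (node 559 (merge (leaf 5 463 591) (node 465 (merge (leaf 6 432 433) (node 463 (merge (leaf 7 431 431) (node 462 (merge (leaf 0 462 497) (node 430 (merge (leaf 3 429 429) (leaf 7 430 495))))))))))))))))))) (node 464 (merge (node 559 (merge (leaf 5 431 432) (node 591 (merge (leaf 5 463 560) (leaf 6 495 623))))) (merge (node 432 (merge (leaf 5 431 559) (node 401 (merge (leaf 6 400 433) (node 400 (merge (leaf 6 368 369) (leaf 5 399 495))))))) (merge (node 432 (merge (node 401 (merge (leaf 6 400 433) (node 400 (merge (leaf 6 368 369) (leaf 5 399 495))))) (merge (node 400 (merge (leaf 5 399 495) (node 399 (merge (leaf 7 367 367) (leaf 7 399 431))))) (node 561 (merge (leaf 4 432 529) (node 560 (merge (leaf 4 464 593) (node 431 (merge (leaf 7 399 399) (leaf 7 431 463)))))))))) (node 560 (merge (node 593 (merge (leaf 4 464 561) (node 592 (merge (leaf 4 496 625) (node 463 (merge (leaf 7 431 431) (leaf 7 463 495))))))) (merge (node 465 (merge (leaf 6 432 433) (node 463 (merge (leaf 7 431 431) (node 466 (merge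 (leaf 0 463 499) (node 495 (merge (leaf 1 463 467) (leaf 1 462 494))))))))) (merge (node 593 (merge (leaf 4 464 561) (node 592 (merge (leaf 4 496 625) (node 591 (merge (leaf 5 463 559) (leaf 5 495 623))))))) (node 593 (merge (leaf 4 464 561) (node 592 (merge (leaf 4 496 625) (node 559 (merge (leaf 5 463 591) (node 624 (merge (leaf 7 495 495) (leaf 7 527 656))))))))))))))))))))) (merge (node 559 (merge (node 591 (merge (leaf 6 495 623) (node 464 (merge (leaf 5 431 432) (leaf 6 463 495))))) (merge (node 464 (merge (leaf 5 431 432) (node 591 (merge (leaf 6 463 495) (leaf 5 463 560))))) (merge (node 591 (merge (leaf 6 495 623) (node 464 (merge (leaf 5 431 432) (leaf 5 463 560))))) (merge (node 591 (merge (leaf 6 495 623) (node 495 (merge (node 494 (merge (leaf 7 462 462) (node 529 (merge (leaf 0 493 493) (leaf 3 494 530))))) (node 592 (merge (leaf 4 495 624) (node 463 (merge (leaf 4 463 560) (node 590 (merge (leaf 5 462 558) (leaf 5 494 622))))))))))) (node 464 (merge (leaf 5 431 432) (node 560 (merge (node 593 (merge (leaf 4 464 561) (node 592 (merge (leaf 4 496 625)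 (node 465 (merge (leaf 6 432 433) (leaf 6 464 497))))))) (merge (node 465 (merge (leaf 6 432 433) (node 592 (merge (leaf 6 464 497) (node 624 (merge (leaf 7 495 495) (node 656 (merge (leaf 7 527 559) (node 655 (merge (leaf 5 527 623) (leaf 5 559 687))))))))))) (merge (node 463 (merge (leaf 7 431 431) (node 592 (merge (leaf 7 463 495) (node 625 (merge (leaf 4 496 593) (node 624 (merge (leaf 4 528 657) (node 656 (merge (leaf 7 527 527) (node 655 (merge (leaf 5 527 623) (leaf 5 559 687))))))))))))) (node 561 (merge (leaf 4 464 593) (node 562 (merge (leaf 3 527 563) (node 530 (merge (leaf 2 527 531) (node 558 (merge (leaf 1 526 529) (node 465 (merge (leaf 6 432 433) (node 463 (merge (leaf 7 431 431) (node 495 (merge (leaf 5 462 590) (node 494 (merge (leaf 1 462 466) (leaf 2 461 493)))))))))))))))))))))))))))) (merge (node 559 (merge (node 591 (merge (leaf 6 495 623) (node 464 (merge (leaf 5 431 432) (leaf 6 463 495))))) (merge (node 464 (merge (leaf 5 431 432) (node 591 (merge (leaf 6 463 495) (leaf 5 463 560))))) (merge (node 591 (merge (leaf 6 495 623) (node 464 (merge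 (leaf 5 431 432) (leaf 5 463 560))))) (merge (node 591 (merge (leaf 6 495 623) (node 495 (merge (node 494 (merge (leaf 7 462 462) (node 529 (merge (leaf 0 493 493) (leaf 3 494 530))))) (node 592 (merge (leaf 4 495 624) (node 463 (merge (leaf 4 463 560) (node 590 (merge (leaf 5 462 558) (leaf 5 494 622))))))))))) (node 560 (merge (node 464 (merge (leaf 5 431 432) (node 465 (merge (leaf 6 432 433) (node 592 (merge (leaf 6 464 497) (node 624 (merge (leaf 7 495 495) (leaf 7 527 656))))))))) (merge (node 464 (merge (leaf 5 431 432) (node 463 (merge (leaf 7 431 431) (node 592 (merge (leaf 4 463 495) (node 624 (merge (leaf 7 527 656) (node 625 (merge (leaf 4 496 593) (leaf 4 528 657))))))))))) (merge (node 464 (merge (leaf 5 431 432) (node 465 (merge (leaf 6 432 433) (node 592 (merge (leaf 6 464 497) (node 624 (merge (leaf 7 527 656) (node 625 (merge (leaf 4 496 593) (leaf 4 528 657))))))))))) (merge (node 495 (merge (node 592 (merge (leaf 4 463 463) (leaf 7 495 624))) (merge (node 592 (merge (leaf 7 495 624) (node 497 (merge (leaf 6 464 465) (node 498 (merge (leaf 1 495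 499) (leaf 1 494 526))))))) (node 463 (merge (leaf 4 431 431) (node 462 (merge (leaf 7 430 430) (node 497 (merge (leaf 3 462 498) (node 494 (merge (leaf 3 461 461) (node 493 (merge (leaf 0 492 492) (leaf 0 493 529)))))))))))))) (node 497 (merge (node 498 (merge (leaf 1 495 499) (node 529 (merge (leaf 2 494 526) (node 530 (merge (leaf 1 526 558) (node 562 (merge (leaf 0 527 563) (node 594 (merge (leaf 7 465 465) (leaf 7 497 626))))))))))) (merge (node 498 (merge (leaf 1 495 499) (node 495 (merge (leaf 1 494 526) (node 463 (merge (leaf 4 431 431) (leaf 3 462 462))))))) (merge (node 526 (merge (leaf 2 493 525) (node 464 (merge (leaf 5 431 432) (node 463 (merge (leaf 7 431 431) (node 462 (merge (leaf 0 461 461) (node 430 (merge (leaf 4 430 494) (leaf 7 430 495))))))))))) (merge (node 498 (merge (leaf 1 495 499) (node 464 (merge (leaf 5 431 432) (node 465 (merge (leaf 6 432 433) (node 463 (merge (leaf 7 431 431) (leaf 0 462 462))))))))) (node 498 (merge (leaf 1 495 499) (node 526 (merge (leaf 1 494 495) (leaf 2 493 525)))))))))))))))))))) (merge (node 559 (merge (node 591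 (merge (leaf 6 495 623) (node 464 (merge (leaf 5 431 432) (leaf 6 463 495))))) (merge (node 591 (merge (leaf 6 495 623) (node 464 (merge (leaf 5 431 432) (leaf 5 463 560))))) (merge (node 591 (merge (leaf 6 495 623) (node 495 (merge (node 494 (merge (leaf 7 462 462) (node 529 (merge (leaf 0 493 493) (leaf 3 494 530))))) (node 592 (merge (leaf 4 495 624) (node 463 (merge (leaf 4 463 560) (node 590 (merge (leaf 5 462 558) (leaf 5 494 622))))))))))) (node 526 (merge (node 497 (merge (leaf 2 493 525) (node 498 (merge (leaf 1 494 495) (leaf 1 495 499))))) (merge (node 525 (merge (leaf 2 493 497) (node 561 (merge (leaf 0 525 560) (node 529 (merge (leaf 0 526 562) (node 493 (merge (leaf 3 492 492) (leaf 3 493 494))))))))) (merge (node 560 (merge (node 561 (merge (leaf 0 525 525) (leaf 3 526 562))) (merge (node 464 (merge (leaf 5 431 432) (node 465 (merge (leaf 6 432 433) (node 463 (merge (leaf 7 431 431) (node 495 (merge (leaf 4 463 592) (node 494 (merge (leaf 1 462 466) (leaf 2 461 493))))))))))) (node 464 (merge (leaf 5 431 432) (node 465 (merge (leaf 6 432 433) (node 463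 (merge (leaf 7 431 431) (node 495 (merge (leaf 4 463 592) (node 494 (merge (leaf 1 462 466) (leaf 2 461 493)))))))))))))) (node 529 (merge (node 530 (merge (leaf 1 526 558) (node 531 (merge (leaf 3 495 495) (leaf 1 527 560))))) (merge (node 497 (merge (leaf 2 494 498) (node 494 (merge (leaf 3 493 493) (node 462 (merge (leaf 4 430 430) (node 495 (merge (leaf 3 461 461) (node 465 (merge (leaf 2 462 466) (node 433 (merge (leaf 5 400 401) (leaf 5 432 560))))))))))))) (node 530 (merge (leaf 1 526 558) (node 499 (merge (leaf 2 495 498) (node 531 (merge (leaf 2 496 500) (node 564 (merge (leaf 0 528 563) (node 532 (merge (leaf 3 496 497) (leaf 0 529 565)))))))))))))))))))))) (merge (node 559 (merge (node 591 (merge (leaf 6 495 623) (node 464 (merge (leaf 5 431 432) (leaf 6 463 495))))) (merge (node 464 (merge (leaf 5 431 432) (node 591 (merge (leaf 6 463 495) (leaf 5 463 560))))) (merge (node 591 (merge (leaf 6 495 623) (node 464 (merge (leaf 5 431 432) (leaf 5 463 560))))) (merge (node 464 (merge (leaf 5 431 432) (node 560 (merge (node 561 (merge (leaf 4 464 593) (node 562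 (merge (leaf 3 526 526) (leaf 3 527 563))))) (merge (node 465 (merge (leaf 6 432 433) (node 592 (merge (leaf 6 464 497) (node 624 (merge (leaf 7 495 495) (node 656 (merge (leaf 7 527 559) (node 655 (merge (leaf 5 527 623) (leaf 5 559 687))))))))))) (node 463 (merge (leaf 7 431 431) (node 592 (merge (leaf 7 463 495) (node 625 (merge (leaf 4 496 593) (node 624 (merge (leaf 4 528 657) (node 656 (merge (leaf 7 527 527) (node 655 (merge (leaf 5 527 623) (leaf 5 559 687)))))))))))))))))) (node 591 (merge (leaf 6 495 623) (node 495 (merge (node 592 (merge (leaf 4 495 624) (node 463 (merge (leaf 4 463 560) (node 590 (merge (leaf 5 462 558) (leaf 5 494 622))))))) (merge (node 590 (merge (leaf 5 494 622) (node 494 (merge (leaf 7 462 462) (node 493 (merge (leaf 0 492 492) (node 525 (merge (leaf 1 492 524) (node 526 (merge (leaf 1 493 497) (node 461 (merge (leaf 3 460 460) (leaf 7 461 558))))))))))))) (merge (node 592 (merge (leaf 4 495 624) (node 560 (merge (leaf 4 463 463) (node 593 (merge (leaf 4 496 625) (node 594 (merge (leaf 3 558 558) (leaf 3 559 595))))))))) (node 592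 (merge (leaf 4 495 624) (node 560 (merge (leaf 4 463 463) (node 590 (merge (leaf 5 494 622) (node 589 (merge (leaf 2 557 561) (leaf 2 556 588)))))))))))))))))))) (merge (node 526 (merge (node 497 (merge (leaf 2 493 525) (node 498 (merge (leaf 1 494 495) (leaf 1 495 499))))) (merge (node 525 (merge (leaf 2 493 497) (node 561 (merge (leaf 0 525 560) (node 529 (merge (leaf 0 526 562) (node 493 (merge (leaf 3 492 492) (leaf 3 493 494))))))))) (merge (node 525 (merge (node 560 (merge (leaf 0 525 561) (node 524 (merge (leaf 0 524 559) (node 492 (merge (leaf 3 491 491) (leaf 3 492 493))))))) (merge (node 561 (merge (leaf 0 525 560) (node 529 (merge (leaf 0 526 562) (node 493 (merge (leaf 3 492 492) (leaf 3 493 494))))))) (merge (node 492 (merge (leaf 3 492 493) (node 524 (merge (leaf 3 491 491) (node 495 (merge (leaf 2 492 496) (node 523 (merge (leaf 2 491 494) (node 555 (merge (leaf 1 522 554) (leaf 1 523 556))))))))))) (node 560 (merge (leaf 0 525 561) (node 524 (merge (leaf 0 524 559) (node 555 (merge (leaf 1 523 556) (node 523 (merge (leaf 1 522 554) (node 495 (merge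 (leaf 2 491 494) (leaf 2 492 496))))))))))))))) (node 529 (merge (node 562 (merge (leaf 0 526 561) (node 530 (merge (leaf 0 527 563) (node 499 (merge (leaf 2 495 498) (node 531 (merge (leaf 3 495 495) (leaf 2 496 500))))))))) (merge (node 498 (merge (leaf 2 494 497) (node 530 (merge (leaf 2 495 499) (node 563 (merge (leaf 0 527 562) (node 531 (merge (leaf 3 495 495) (leaf 0 528 564))))))))) (merge (node 561 (merge (leaf 0 526 562) (node 497 (merge (leaf 2 494 498) (node 593 (merge (leaf 7 496 625) (node 594 (merge (leaf 4 497 626) (node 592 (merge (leaf 5 496 624) (node 560 (merge (leaf 5 464 465) (node 595 (merge (leaf 3 559 559) (leaf 3 560 596))))))))))))))) (merge (node 562 (merge (leaf 0 526 561) (node 530 (merge (leaf 0 527 563) (node 531 (merge (leaf 3 495 495) (node 500 (merge (leaf 2 496 499) (node 532 (merge (leaf 3 496 497) (leaf 2 497 501))))))))))) (node 498 (merge (leaf 2 494 497) (node 530 (merge (leaf 2 495 499) (node 531 (merge (leaf 3 495 495) (node 564 (merge (leaf 0 528 563) (node 532 (merge (leaf 0 529 565) (node 560 (merge (leaf 1 527 559) (leaf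 1 528 561)))))))))))))))))))))) (node 526 (merge (node 497 (merge (leaf 2 493 525) (node 529 (merge (leaf 2 494 498) (node 561 (merge (leaf 0 526 562) (node 593 (merge (leaf 7 464 464) (leaf 7 496 625))))))))) (merge (node 529 (merge (node 561 (merge (leaf 0 526 562) (node 497 (merge (leaf 2 494 498) (node 593 (merge (leaf 7 464 464) (leaf 7 496 625))))))) (merge (node 562 (merge (leaf 0 526 561) (node 530 (merge (leaf 0 527 563) (node 494 (merge (leaf 3 493 493) (leaf 3 494 495))))))) (node 498 (merge (leaf 2 494 497) (node 530 (merge (leaf 2 495 499) (node 494 (merge (leaf 3 493 493) (leaf 3 494 495)))))))))) (merge (node 525 (merge (leaf 2 493 497) (node 524 (merge (leaf 2 492 495) (node 492 (merge (leaf 3 491 491) (leaf 3 492 493))))))) (node 495 (merge (node 525 (merge (leaf 2 492 524) (node 493 (merge (leaf 3 492 492) (node 529 (merge (leaf 0 493 494) (node 562 (merge (leaf 0 526 561) (node 530 (merge (leaf 3 495 531) (leaf 0 527 563))))))))))) (merge (node 463 (merge (node 431 (merge (leaf 4 399 399) (leaf 5 430 558))) (merge (node 431 (merge (leaf 4 399 399)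 (node 430 (merge (leaf 7 398 398) (node 559 (merge (leaf 7 430 462) (node 591 (merge (leaf 6 463 464) (leaf 6 495 623))))))))) (node 464 (merge (node 559 (merge (leaf 6 463 591) (node 558 (merge (leaf 5 462 590) (node 462 (merge (leaf 7 430 430) (node 461 (merge (leaf 0 460 460) (node 429 (merge (leaf 3 428 428) (leaf 7 429 494))))))))))) (merge (node 432 (merge (leaf 5 399 400) (leaf 5 431 559))) (merge (node 432 (merge (leaf 5 399 400) (node 529 (merge (leaf 4 432 561) (node 530 (merge (leaf 3 494 494) (leaf 3 495 531))))))) (node 432 (merge (leaf 5 399 400) (leaf 5 431 559)))))))))) (node 463 (merge (node 431 (merge (leaf 4 399 399) (leaf 5 430 558))) (merge (node 431 (merge (leaf 4 399 399) (node 430 (merge (leaf 7 398 398) (node 559 (merge (leaf 7 430 462) (node 591 (merge (leaf 6 463 464) (leaf 6 495 623))))))))) (node 462 (merge (node 559 (merge (leaf 7 430 430) (node 591 (merge (leaf 6 463 464) (leaf 6 495 623))))) (merge (node 461 (merge (leaf 0 460 460) (node 525 (merge (leaf 2 492 524) (node 493 (merge (leaf 3 492 492) (node 429 (merge (leaf 4 429 558) (node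 428 (merge (leaf 7 396 396) (leaf 3 428 464))))))))))) (node 559 (merge (leaf 7 430 430) (node 591 (merge (leaf 6 495 623) (node 590 (merge (leaf 5 462 558) (leaf 5 494 622))))))))))))))))))))))))))))))) nF_16 cF_16 13 (by decide +kernel)
def nF_17 : ℕ := 0x1c00000000000000000000000000000000000000000000000000000000000000000000000000000000000000000000000000000000000000000000000000000000000
def cF_17 : ℕ := 0xa0000000e0000000f0000001fc000000fc0000003c00000ffe000007f0000003f0000002e0000000e0000000800000000000000000000000000000000000000000000000000000000000000000000000000000000000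
theorem lF_17 : S nF_17 cF_17 12 := S_of_chk [] trivial (node 494 (merge (node 525 (merge (node 492 (merge (leaf 3 492 493) (node 524 (merge (leaf 3 491 491) (node 495 (merge (leaf 2 492 496) (leaf 2 491 523))))))) (merge (node 557 (merge (leaf 1 524 556) (node 589 (merge (leaf 6 493 621) (node 493 (merge (leaf 6 461 462) (leaf 3 492 492))))))) (node 496 (merge (leaf 2 493 497) (node 524 (merge (leaf 2 492 495) (node 556 (merge (leaf 1 523 555) (leaf 1 524 557)))))))))) (merge (node 462 (merge (node 559 (merge (leaf 4 430 430) (node 591 (merge (leaf 4 462 558) (leaf 7 494 623))))) (merge (node 430 (merge (leaf 4 430 559) (node 399 (merge (leaf 6 398 431) (node 398 (merge (leaf 6 366 367) (node 397 (merge (leaf 7 365 365) (leaf 7 397 429))))))))) (merge (node 558 (merge (node 591 (merge (leaf 4 462 559) (node 590 (merge (leaf 4 494 623) (node 461 (merge (leaf 7 429 429) (leaf 7 461 493))))))) (merge (node 557 (merge (leaf 5 461 589) (node 556 (merge (leaf 2 523 555) (leaf 2 524 559))))) (node 589 (merge (leaf 5 461 557) (node 590 (merge (leaf 5 493 621) (node 461 (merge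 (leaf 7 429 429) (leaf 7 461 493)))))))))) (node 558 (merge (node 589 (merge (leaf 5 461 557) (node 590 (merge (leaf 5 493 621) (node 461 (merge (leaf 7 429 429) (leaf 7 461 493))))))) (merge (node 463 (merge (leaf 6 430 431) (node 590 (merge (leaf 6 462 495) (node 589 (merge (leaf 5 461 557) (leaf 5 493 621))))))) (node 431 (merge (leaf 6 430 463) (node 430 (merge (leaf 6 398 399) (node 429 (merge (leaf 7 397 397) (leaf 7 429 461)))))))))))))) (merge (node 525 (merge (node 557 (merge (leaf 1 524 556) (node 589 (merge (leaf 6 493 621) (node 462 (merge (leaf 5 429 430) (leaf 5 461 558))))))) (merge (node 496 (merge (leaf 2 493 497) (node 524 (merge (leaf 2 492 495) (node 555 (merge (leaf 1 523 556) (node 523 (merge (leaf 1 522 554) (node 491 (merge (leaf 3 490 490) (leaf 3 491 492))))))))))) (node 496 (merge (leaf 2 493 497) (node 524 (merge (leaf 2 492 495) (node 491 (merge (leaf 3 491 492) (node 523 (merge (leaf 3 490 490) (node 558 (merge (leaf 0 523 559) (node 557 (merge (leaf 0 522 522) (node 589 (merge (leaf 5 461 462) (leaf 6 493 621)))))))))))))))))) (merge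 (node 525 (merge (node 492 (merge (leaf 3 492 493) (node 524 (merge (leaf 3 491 491) (node 495 (merge (leaf 2 492 496) (leaf 2 491 523))))))) (merge (node 496 (merge (leaf 2 493 497) (node 524 (merge (leaf 2 492 495) (node 556 (merge (leaf 1 523 555) (leaf 1 524 557))))))) (merge (node 556 (merge (leaf 1 524 557) (node 524 (merge (leaf 1 523 555) (node 492 (merge (leaf 3 491 491) (leaf 3 492 493))))))) (node 557 (merge (leaf 1 524 556) (node 493 (merge (leaf 3 492 492) (node 589 (merge (leaf 6 461 462) (node 590 (merge (leaf 4 493 622) (node 558 (merge (leaf 4 461 461) (node 588 (merge (leaf 5 492 620) (node 587 (merge (leaf 2 555 559) (leaf 2 554 586))))))))))))))))))) (merge (node 525 (merge (node 492 (merge (leaf 3 492 493) (node 524 (merge (leaf 3 491 491) (node 495 (merge (leaf 2 492 496) (leaf 2 491 523))))))) (merge (node 496 (merge (leaf 2 493 497) (node 524 (merge (leaf 2 492 495) (node 556 (merge (leaf 1 523 555) (leaf 1 524 557))))))) (merge (node 556 (merge (leaf 1 524 557) (node 524 (merge (leaf 1 523 555) (node 492 (merge (leaf 3 491 491) (leaf 3 492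 493))))))) (node 557 (merge (leaf 1 524 556) (node 493 (merge (leaf 3 492 492) (node 589 (merge (leaf 6 493 621) (node 590 (merge (leaf 4 493 622) (node 558 (merge (leaf 4 461 461) (node 588 (merge (leaf 5 492 620) (node 587 (merge (leaf 2 555 559) (leaf 2 554 586))))))))))))))))))) (merge (node 493 (merge (node 492 (merge (leaf 0 491 491) (leaf 3 492 525))) (merge (node 462 (merge (node 430 (merge (leaf 4 430 559) (node 397 (merge (leaf 7 397 429) (node 398 (merge (leaf 7 365 365) (node 366 (merge (leaf 5 365 461) (node 367 (merge (leaf 6 334 335) (leaf 6 366 399))))))))))) (merge (node 430 (merge (leaf 4 430 559) (node 431 (merge (leaf 6 398 399) (node 558 (merge (leaf 6 430 463) (node 589 (merge (leaf 5 461 557) (node 590 (merge (leaf 7 461 461) (leaf 5 493 621))))))))))) (merge (node 558 (merge (node 461 (merge (leaf 7 429 429) (leaf 7 461 590))) (node 557 (merge (leaf 5 461 589) (node 556 (merge (leaf 2 523 555) (leaf 2 524 559))))))) (merge (node 463 (merge (node 492 (merge (leaf 0 491 491) (node 464 (merge (leaf 1 460 461) (leaf 1 461 465))))) (merge (node 558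 (merge (leaf 6 430 431) (node 589 (merge (leaf 5 461 557) (node 590 (merge (leaf 7 461 461) (leaf 5 493 621))))))) (node 464 (merge (leaf 1 461 465) (node 431 (merge (leaf 6 430 558) (node 430 (merge (leaf 6 398 399) (node 429 (merge (leaf 7 397 397) (leaf 0 428 428)))))))))))) (node 430 (merge (leaf 4 430 559) (node 431 (merge (leaf 6 398 399) (node 463 (merge (leaf 6 430 558) (node 464 (merge (leaf 1 461 465) (node 429 (merge (leaf 7 397 397) (leaf 0 428 428)))))))))))))))) (node 558 (merge (node 557 (merge (node 556 (merge (leaf 1 524 525) (leaf 2 523 555))) (node 589 (merge (leaf 5 461 462) (node 621 (merge (leaf 5 493 590) (leaf 6 525 653))))))) (merge (node 590 (merge (leaf 7 461 461) (node 591 (merge (leaf 4 494 623) (node 589 (merge (leaf 5 493 621) (node 557 (merge (leaf 5 461 462) (node 556 (merge (leaf 0 555 555) (leaf 3 556 592))))))))))) (merge (node 590 (merge (leaf 7 461 461) (node 622 (merge (leaf 7 493 525) (node 655 (merge (leaf 4 526 623) (node 654 (merge (leaf 6 526 559) (leaf 4 558 687))))))))) (node 557 (merge (node 556 (merge (leaf 1 524 525)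 (leaf 2 523 555))) (node 462 (merge (leaf 5 461 589) (node 431 (merge (leaf 6 430 463) (node 430 (merge (leaf 6 398 399) (node 429 (merge (leaf 7 397 397) (leaf 7 429 461)))))))))))))))))) (merge (node 493 (merge (node 492 (merge (leaf 0 491 491) (leaf 3 492 525))) (merge (node 492 (merge (leaf 0 491 491) (leaf 0 492 495))) (node 558 (merge (node 590 (merge (leaf 7 461 461) (node 622 (merge (leaf 6 494 495) (leaf 7 493 525))))) (merge (node 590 (merge (leaf 7 461 461) (node 589 (merge (leaf 5 493 621) (node 462 (merge (leaf 5 461 557) (node 559 (merge (leaf 4 430 430) (leaf 4 462 591))))))))) (merge (node 590 (merge (node 495 (merge (leaf 6 494 622) (node 463 (merge (leaf 5 430 431) (leaf 5 462 559))))) (merge (node 622 (merge (leaf 7 493 525) (node 653 (merge (leaf 5 525 621) (node 654 (merge (leaf 6 526 559) (leaf 5 557 685))))))) (merge (node 622 (merge (leaf 6 494 495) (node 655 (merge (leaf 4 526 623) (node 654 (merge (leaf 4 558 687) (node 653 (merge (leaf 5 525 621) (leaf 5 557 685))))))))) (node 591 (merge (leaf 4 494 623) (node 462 (merge (leaf 4 462 559)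 (node 589 (merge (leaf 5 461 557) (leaf 5 493 621))))))))))) (node 462 (merge (node 430 (merge (leaf 4 430 559) (node 557 (merge (leaf 5 429 525) (leaf 5 461 589))))) (merge (node 557 (merge (leaf 5 461 589) (node 525 (merge (leaf 5 429 430) (node 496 (merge (leaf 2 493 497) (node 461 (merge (leaf 4 429 429) (node 460 (merge (leaf 7 428 428) (leaf 3 460 495))))))))))) (node 559 (merge (leaf 4 462 591) (node 463 (merge (leaf 6 430 431) (node 464 (merge (leaf 1 461 465) (node 432 (merge (leaf 5 431 496) (node 461 (merge (leaf 7 429 429) (leaf 2 429 433))))))))))))))))))))) (merge (node 462 (merge (node 559 (merge (leaf 4 430 430) (node 591 (merge (leaf 4 462 558) (leaf 7 494 623))))) (merge (node 430 (merge (leaf 4 430 559) (node 399 (merge (leaf 6 398 431) (node 398 (merge (leaf 6 366 367) (node 397 (merge (leaf 7 365 365) (leaf 7 397 429))))))))) (merge (node 429 (merge (node 397 (merge (leaf 7 397 430) (node 461 (merge (leaf 4 365 365) (leaf 4 397 493))))) (merge (node 430 (merge (leaf 7 397 397) (node 431 (merge (leaf 6 398 399) (node 463 (merge (leaf 6 430 558)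 (node 464 (merge (leaf 0 428 428) (leaf 3 429 465))))))))) (node 558 (merge (leaf 7 429 461) (node 463 (merge (leaf 6 430 431) (node 590 (merge (leaf 6 462 495) (node 623 (merge (leaf 4 494 591) (node 622 (merge (leaf 4 526 655) (node 653 (merge (leaf 5 525 621) (node 654 (merge (leaf 5 557 685) (node 525 (merge (leaf 7 493 493) (leaf 7 525 557)))))))))))))))))))) (node 463 (merge (node 431 (merge (leaf 6 430 558) (node 399 (merge (leaf 5 366 367) (leaf 5 398 495))))) (merge (node 558 (merge (leaf 6 430 431) (node 591 (merge (leaf 4 462 559) (node 590 (merge (leaf 4 494 623) (node 461 (merge (leaf 7 429 429) (leaf 7 461 493))))))))) (merge (node 461 (merge (node 429 (merge (leaf 7 429 558) (node 397 (merge (leaf 4 365 365) (leaf 4 397 493))))) (merge (node 558 (merge (leaf 7 429 429) (node 591 (merge (leaf 4 462 559) (node 590 (merge (leaf 6 462 495) (leaf 4 494 623))))))) (node 464 (merge (node 496 (merge (leaf 0 461 497) (node 432 (merge (leaf 2 429 433) (leaf 5 431 559))))) (merge (node 432 (merge (leaf 2 429 433) (node 559 (merge (leaf 6 431 495) (leaf 5 431 496)))))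 (node 465 (merge (leaf 1 461 493) (node 498 (merge (leaf 0 462 497) (node 466 (merge (leaf 1 462 495) (leaf 0 463 499))))))))))))) (node 525 (merge (node 492 (merge (leaf 3 492 493) (node 524 (merge (leaf 3 491 491) (node 555 (merge (leaf 1 523 556) (node 523 (merge (leaf 2 491 495) (leaf 1 522 554))))))))) (merge (node 496 (merge (leaf 2 493 497) (node 493 (merge (leaf 3 492 492) (node 464 (merge (leaf 1 461 465) (node 432 (merge (leaf 5 431 559) (node 433 (merge (leaf 6 400 401) (leaf 2 429 461))))))))))) (merge (node 496 (merge (leaf 2 493 497) (node 524 (merge (leaf 2 492 495) (node 555 (merge (leaf 1 523 556) (node 523 (merge (leaf 1 522 554) (node 491 (merge (leaf 3 490 490) (leaf 3 491 492))))))))))) (node 496 (merge (leaf 2 493 497) (node 524 (merge (leaf 2 492 495) (node 555 (merge (leaf 1 523 556) (node 523 (merge (leaf 1 522 554) (node 522 (merge (leaf 2 490 493) (node 490 (merge (leaf 3 489 489) (leaf 3 490 491))))))))))))))))))))))))) (node 462 (merge (node 559 (merge (leaf 4 430 430) (node 591 (merge (leaf 4 462 558) (leaf 7 494 623))))) (merge (node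 430 (merge (leaf 4 430 559) (node 399 (merge (leaf 6 398 431) (node 398 (merge (leaf 6 366 367) (node 397 (merge (leaf 7 365 365) (leaf 7 397 429))))))))) (merge (node 429 (merge (node 397 (merge (leaf 7 397 430) (node 461 (merge (leaf 4 365 365) (leaf 4 397 493))))) (merge (node 430 (merge (leaf 7 397 397) (node 431 (merge (leaf 6 398 399) (node 463 (merge (leaf 6 430 558) (node 464 (merge (leaf 0 428 428) (leaf 3 429 465))))))))) (node 558 (merge (leaf 7 429 461) (node 463 (merge (leaf 6 430 431) (node 590 (merge (leaf 6 462 495) (node 623 (merge (leaf 4 494 591) (node 622 (merge (leaf 4 526 655) (node 621 (merge (leaf 5 493 589) (leaf 5 525 653)))))))))))))))) (node 463 (merge (node 431 (merge (leaf 6 430 558) (node 399 (merge (leaf 5 366 367) (leaf 5 398 495))))) (merge (node 558 (merge (leaf 6 430 431) (node 591 (merge (leaf 4 462 559) (node 590 (merge (leaf 4 494 623) (node 461 (merge (leaf 7 429 429) (leaf 7 461 493))))))))) (merge (node 461 (merge (node 429 (merge (leaf 7 429 558) (node 397 (merge (leaf 4 365 365) (leaf 4 397 493))))) (merge (node 558 (merge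 (leaf 7 429 429) (node 591 (merge (leaf 4 462 559) (node 590 (merge (leaf 6 462 495) (leaf 4 494 623))))))) (node 464 (merge (node 496 (merge (leaf 0 461 497) (node 432 (merge (leaf 2 429 433) (leaf 5 431 559))))) (merge (node 432 (merge (leaf 2 429 433) (node 559 (merge (leaf 6 431 495) (leaf 5 431 496))))) (node 465 (merge (leaf 1 461 493) (node 498 (merge (leaf 0 462 497) (node 466 (merge (leaf 1 462 495) (leaf 0 463 499))))))))))))) (node 525 (merge (node 492 (merge (leaf 3 492 493) (node 524 (merge (leaf 3 491 491) (node 555 (merge (leaf 1 523 556) (node 523 (merge (leaf 2 491 495) (leaf 1 522 554))))))))) (merge (node 496 (merge (leaf 2 493 497) (node 493 (merge (leaf 3 492 492) (node 464 (merge (leaf 1 461 465) (node 432 (merge (leaf 5 431 559) (node 433 (merge (leaf 6 400 401) (leaf 2 429 461))))))))))) (merge (node 496 (merge (leaf 2 493 497) (node 524 (merge (leaf 2 492 495) (node 555 (merge (leaf 1 523 556) (node 523 (merge (leaf 1 522 554) (node 491 (merge (leaf 3 490 490) (leaf 3 491 492))))))))))) (node 496 (merge (leaf 2 493 497) (node 524 (merge (leaf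 2 492 495) (node 555 (merge (leaf 1 523 556) (node 523 (merge (leaf 1 522 554) (node 522 (merge (leaf 2 490 493) (node 490 (merge (leaf 3 489 489) (leaf 3 490 491)))))))))))))))))))))))))))))))))) nF_17 cF_17 12 (by decide +kernel)
def nF_18 : ℕ := 0x1c00000000000000000000000000000000000000000000000000000000000000000000000000000000000000000000000000000000000000000000000000000000000
def cF_18 : ℕ := 0xd0000000f0000000f0000003f0000003f8000007fe0000003c000000fc000003f8000001f8000000e000000080000000000000000000000000000000000000000000000000000000000000000000000000000000000000000000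
theorem lF_18 : S nF_18 cF_18 10 := S_of_chk [] trivial (node 557 (merge (node 556 (merge (leaf 1 524 525) (node 558 (merge (leaf 2 523 555) (leaf 2 524 559))))) (merge (node 525 (merge (leaf 1 524 556) (node 560 (merge (leaf 0 525 561) (node 524 (merge (leaf 0 524 559) (node 492 (merge (leaf 3 491 491) (leaf 3 492 493))))))))) (merge (node 558 (merge (node 556 (merge (leaf 1 524 525) (leaf 2 523 555))) (merge (node 494 (merge (node 589 (merge (leaf 5 461 462) (node 621 (merge (leaf 5 493 590) (leaf 6 525 653))))) (merge (node 462 (merge (leaf 5 461 589) (node 431 (merge (leaf 6 430 463) (node 430 (merge (leaf 6 398 399) (node 429 (merge (leaf 7 397 397) (leaf 7 429 461))))))))) (node 590 (merge (node 493 (merge (leaf 7 461 461) (node 492 (merge (leaf 0 491 491) (leaf 0 492 495))))) (merge (node 622 (merge (leaf 6 494 495) (node 654 (merge (leaf 7 525 525) (node 653 (merge (leaf 5 525 621) (leaf 5 557 685))))))) (node 623 (merge (leaf 4 494 591) (node 622 (merge (leaf 4 526 655) (node 493 (merge (leaf 7 461 461) (leaf 7 493 525))))))))))))) (node 590 (merge (node 495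 (merge (leaf 6 494 622) (node 494 (merge (leaf 6 462 463) (node 493 (merge (leaf 7 461 461) (leaf 0 492 492))))))) (merge (node 494 (merge (node 493 (merge (leaf 7 461 461) (node 492 (merge (leaf 0 491 491) (leaf 0 492 495))))) (node 589 (merge (leaf 5 461 462) (node 621 (merge (leaf 5 493 590) (leaf 6 525 653))))))) (merge (node 622 (merge (leaf 6 494 495) (node 653 (merge (leaf 5 525 621) (node 654 (merge (leaf 5 557 685) (node 686 (merge (leaf 7 557 589) (node 687 (merge (leaf 4 558 655) (leaf 4 590 719))))))))))) (node 591 (merge (node 623 (merge (leaf 4 494 494) (node 655 (merge (leaf 4 526 622) (leaf 7 558 687))))) (merge (node 592 (merge (leaf 3 557 593) (node 589 (merge (leaf 3 556 556) (node 621 (merge (leaf 5 493 494) (leaf 1 588 620))))))) (node 592 (merge (leaf 3 557 593) (node 589 (merge (leaf 3 556 556) (node 624 (merge (leaf 0 589 625) (node 623 (merge (leaf 0 588 588) (node 560 (merge (leaf 2 557 561) (leaf 5 527 655))))))))))))))))))))) (merge (node 558 (merge (node 556 (merge (leaf 2 523 555) (leaf 2 524 559))) (merge (node 494 (merge (node 589 (merge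 (leaf 5 461 462) (node 621 (merge (leaf 5 493 590) (leaf 6 525 653))))) (merge (node 462 (merge (leaf 5 461 589) (node 431 (merge (leaf 6 430 463) (node 430 (merge (leaf 6 398 399) (node 429 (merge (leaf 7 397 397) (leaf 7 429 461))))))))) (node 590 (merge (node 493 (merge (leaf 7 461 461) (node 492 (merge (leaf 0 491 491) (leaf 0 492 495))))) (merge (node 622 (merge (leaf 6 494 495) (node 654 (merge (leaf 6 526 559) (node 653 (merge (leaf 5 525 621) (leaf 5 557 685))))))) (node 623 (merge (leaf 4 494 591) (node 622 (merge (leaf 4 526 655) (node 653 (merge (leaf 5 525 621) (node 654 (merge (leaf 6 526 559) (leaf 5 557 685))))))))))))))) (node 590 (merge (node 495 (merge (leaf 6 494 622) (node 494 (merge (leaf 6 462 463) (node 493 (merge (leaf 7 461 461) (leaf 0 492 492))))))) (merge (node 494 (merge (node 493 (merge (leaf 7 461 461) (node 492 (merge (leaf 0 491 491) (leaf 0 492 495))))) (node 589 (merge (leaf 5 461 462) (node 621 (merge (leaf 5 493 590) (leaf 6 525 653))))))) (merge (node 622 (merge (leaf 6 494 495) (node 653 (merge (leaf 5 525 621) (node 654 (merge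 (leaf 5 557 685) (node 686 (merge (leaf 7 557 589) (node 687 (merge (leaf 4 558 655) (leaf 4 590 719))))))))))) (node 591 (merge (node 623 (merge (leaf 4 494 494) (node 655 (merge (leaf 4 526 622) (leaf 7 558 687))))) (merge (node 592 (merge (leaf 3 557 593) (node 589 (merge (leaf 3 556 556) (node 621 (merge (leaf 5 493 494) (leaf 1 588 620))))))) (node 592 (merge (leaf 3 557 593) (node 589 (merge (leaf 3 556 556) (node 624 (merge (leaf 0 589 625) (node 623 (merge (leaf 0 588 588) (node 560 (merge (leaf 2 557 561) (leaf 5 527 655))))))))))))))))))))) (node 494 (merge (node 589 (merge (node 462 (merge (leaf 5 461 558) (node 525 (merge (leaf 5 429 430) (leaf 6 461 493))))) (merge (node 558 (merge (leaf 5 461 462) (node 621 (merge (leaf 5 493 590) (leaf 6 525 653))))) (merge (node 525 (merge (leaf 6 493 621) (node 493 (merge (leaf 6 461 462) (leaf 3 492 492))))) (node 621 (merge (leaf 6 493 525) (node 653 (merge (leaf 6 525 558) (node 686 (merge (leaf 4 557 654) (node 685 (merge (leaf 4 589 718) (node 684 (merge (leaf 5 556 652) (leaf 5 588 716))))))))))))))) (merge (node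 462 (merge (node 559 (merge (leaf 4 430 430) (node 558 (merge (leaf 5 461 589) (leaf 4 462 591))))) (merge (node 558 (merge (leaf 5 461 589) (node 591 (merge (leaf 4 462 559) (node 590 (merge (leaf 4 494 623) (node 463 (merge (leaf 6 430 431) (leaf 6 462 495))))))))) (merge (node 558 (merge (leaf 5 461 589) (node 431 (merge (leaf 6 430 463) (node 430 (merge (leaf 6 398 399) (node 429 (merge (leaf 7 397 397) (leaf 7 429 461))))))))) (node 430 (merge (leaf 4 430 559) (node 495 (merge (leaf 4 398 398) (node 431 (merge (leaf 6 398 399) (node 463 (merge (leaf 4 431 560) (node 429 (merge (leaf 7 397 397) (node 428 (merge (leaf 0 427 427) (leaf 0 428 464))))))))))))))))) (merge (node 525 (merge (node 560 (merge (leaf 0 525 561) (node 524 (merge (leaf 0 524 559) (node 523 (merge (leaf 2 491 495) (node 493 (merge (leaf 3 492 492) (leaf 2 490 522))))))))) (merge (node 560 (merge (leaf 0 525 561) (node 524 (merge (leaf 0 524 559) (node 492 (merge (leaf 3 491 491) (leaf 3 492 493))))))) (merge (node 492 (merge (leaf 3 492 493) (node 524 (merge (leaf 3 491 491) (node 523 (merge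 (leaf 2 491 495) (node 522 (merge (leaf 0 522 558) (node 554 (merge (leaf 1 521 553) (leaf 1 522 555))))))))))) (merge (node 560 (merge (leaf 0 525 561) (node 524 (merge (leaf 0 524 559) (node 523 (merge (leaf 2 491 495) (node 522 (merge (leaf 0 522 558) (node 554 (merge (leaf 1 521 553) (leaf 1 522 555))))))))))) (merge (node 560 (merge (leaf 0 525 561) (node 524 (merge (leaf 0 524 559) (node 523 (merge (leaf 2 491 495) (node 522 (merge (leaf 2 490 493) (leaf 0 522 558))))))))) (node 493 (merge (leaf 3 492 492) (node 589 (merge (leaf 6 493 621) (node 590 (merge (leaf 4 493 622) (node 558 (merge (leaf 4 461 461) (node 588 (merge (leaf 5 492 620) (node 559 (merge (leaf 1 556 560) (leaf 2 555 587))))))))))))))))))) (merge (node 525 (merge (node 589 (merge (leaf 6 493 621) (node 493 (merge (leaf 6 461 462) (leaf 3 492 492))))) (merge (node 560 (merge (leaf 0 525 561) (node 524 (merge (leaf 0 524 559) (node 523 (merge (leaf 2 491 495) (node 493 (merge (leaf 3 492 492) (leaf 2 490 522))))))))) (merge (node 560 (merge (leaf 0 525 561) (node 524 (merge (leaf 0 524 559) (node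 523 (merge (leaf 2 491 495) (node 491 (merge (leaf 3 490 490) (leaf 3 491 492))))))))) (node 462 (merge (leaf 5 429 430) (node 589 (merge (leaf 6 461 493) (leaf 6 493 621))))))))) (node 462 (merge (node 430 (merge (leaf 5 429 525) (leaf 4 430 559))) (merge (node 430 (merge (leaf 5 429 525) (node 495 (merge (leaf 4 398 398) (node 429 (merge (leaf 7 397 397) (node 558 (merge (leaf 7 429 461) (node 463 (merge (leaf 5 430 431) (leaf 6 462 590))))))))))) (merge (node 430 (merge (leaf 4 430 559) (node 495 (merge (leaf 4 398 398) (node 431 (merge (leaf 6 398 399) (node 463 (merge (leaf 4 431 560) (node 429 (merge (leaf 7 397 397) (node 428 (merge (leaf 0 427 427) (leaf 0 428 464))))))))))))) (node 463 (merge (node 431 (merge (leaf 6 430 558) (node 399 (merge (leaf 5 366 367) (leaf 5 398 495))))) (merge (node 558 (merge (leaf 6 430 431) (node 591 (merge (leaf 4 462 559) (node 590 (merge (leaf 4 494 623) (node 461 (merge (leaf 7 429 429) (leaf 7 461 493))))))))) (merge (node 495 (merge (node 431 (merge (leaf 5 398 399) (leaf 4 431 560))) (merge (node 493 (merge (leaf 0 492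 492) (node 464 (merge (leaf 1 461 465) (node 559 (merge (leaf 6 431 432) (leaf 7 462 591))))))) (node 493 (merge (leaf 0 492 492) (node 464 (merge (leaf 1 461 465) (node 559 (merge (leaf 6 431 432) (leaf 7 462 591)))))))))) (node 495 (merge (node 492 (merge (leaf 0 492 493) (node 558 (merge (leaf 6 462 590) (node 461 (merge (leaf 7 429 429) (node 460 (merge (leaf 0 459 459) (leaf 1 459 491))))))))) (merge (node 559 (merge (leaf 7 462 591) (node 560 (merge (leaf 4 463 592) (node 561 (merge (leaf 0 525 525) (leaf 3 526 562))))))) (merge (node 493 (merge (leaf 0 492 492) (node 464 (merge (leaf 1 461 465) (node 559 (merge (leaf 6 431 432) (leaf 7 462 591))))))) (node 492 (merge (leaf 0 492 493) (node 558 (merge (leaf 6 462 590) (node 461 (merge (leaf 7 429 429) (node 460 (merge (leaf 0 459 459) (leaf 1 459 491))))))))))))))))))))))))))))))) nF_18 cF_18 10 (by decide +kernel)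
def nF_19 : ℕ := 0x1800000000000000000000000000000000000000000000000000000000000000000000000000000000000000000000000000000000000000000000000000000000000
def cF_19 : ℕ := 0xd0000000f0000000f0000003f0000003f800003ffe00001e7c00001efc000003f8000001f8000000e0000000a0000000000000000000000000000000000000000000000000000000000000000000000000000000000000000000
theorem lF_19 : S nF_19 cF_19 11 := S_of_chk [(nF_18, cF_18, 10)] ⟨lF_18, trivial⟩ (node 526 (merge (node 493 (merge (node 494 (merge (leaf 3 493 529) (node 492 (merge (leaf 0 491 491) (leaf 0 492 495))))) (merge (node 492 (merge (leaf 3 492 525) (node 494 (merge (leaf 0 491 491) (leaf 0 492 495))))) (merge (node 529 (merge (leaf 3 493 494) (node 561 (merge (leaf 0 526 562) (node 525 (merge (leaf 0 525 560) (node 557 (merge (leaf 1 524 556) (leaf 1 525 558))))))))) (node 525 (merge (leaf 3 492 492) (node 561 (merge (leaf 0 525 560) (node 529 (merge (leaf 0 526 562) (node 557 (merge (leaf 1 524 556) (leaf 1 525 558))))))))))))) (merge (node 561 (merge (node 560 (merge (leaf 0 525 525) (node 562 (merge (leaf 3 526 559) (leaf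 3 527 563))))) (merge (node 529 (merge (leaf 0 526 562) (node 498 (merge (leaf 2 494 497) (node 530 (merge (leaf 2 495 499) (node 494 (merge (leaf 3 493 493) (leaf 3 494 495))))))))) (node 525 (merge (leaf 0 525 560) (node 556 (merge (leaf 1 524 557) (node 524 (merge (leaf 1 523 555) (node 492 (merge (leaf 3 491 491) (leaf 3 492 493)))))))))))) (merge (node 561 (merge (node 560 (merge (leaf 0 525 525) (node 562 (merge (leaf 3 526 559) (leaf 3 527 563))))) (merge (node 525 (merge (leaf 0 525 560) (node 556 (merge (leaf 1 524 557) (node 524 (merge (leaf 1 523 555) (node 492 (merge (leaf 3 491 491) (leaf 3 492 493))))))))) (node 529 (merge (leaf 0 526 562) (node 558 (merge (leaf 1 525 557) (node 530 (merge (leaf 1 526 559) (node 498 (merge (leaf 2 494 497) (leaf 2 495 499)))))))))))) (merge (node 525 (merge (node 560 (merge (leaf 0 525 561) (node 524 (merge (leaf 0 524 559) (node 492 (merge (leaf 3 491 491) (leaf 3 492 493))))))) (merge (node 561 (merge (leaf 0 525 560) (node 529 (merge (leaf 0 526 562) (node 558 (merge (leaf 1 525 557) (node 530 (merge (leaf 1 526 559)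 (node 498 (merge (leaf 2 494 497) (leaf 2 495 499))))))))))) (merge (node 493 (merge (leaf 3 492 492) (node 529 (merge (leaf 3 493 494) (node 562 (merge (leaf 0 526 561) (node 530 (merge (leaf 0 527 563) (node 498 (merge (leaf 2 494 497) (leaf 2 495 499))))))))))) (node 493 (merge (leaf 3 492 492) (node 529 (merge (leaf 3 493 494) (node 558 (merge (leaf 1 525 557) (node 559 (merge (leaf 1 526 530) (node 524 (merge (leaf 0 523 523) (leaf 0 524 560))))))))))))))) (merge (node 525 (merge (node 560 (merge (leaf 0 525 561) (node 524 (merge (leaf 0 524 559) (node 492 (merge (leaf 3 491 491) (leaf 3 492 493))))))) (merge (node 561 (merge (leaf 0 525 560) (node 529 (merge (leaf 0 526 562) (node 498 (merge (leaf 2 494 497) (node 530 (merge (leaf 2 495 499) (node 494 (merge (leaf 3 493 493) (leaf 3 494 495))))))))))) (merge (node 493 (merge (leaf 3 492 492) (node 529 (merge (leaf 3 493 494) (node 562 (merge (leaf 0 526 561) (node 530 (merge (leaf 0 527 563) (node 498 (merge (leaf 2 494 497) (leaf 2 495 499))))))))))) (merge (node 493 (merge (leaf 3 492 492) (node 529 (merge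 (leaf 3 493 494) (node 498 (merge (leaf 2 494 497) (node 530 (merge (leaf 2 495 499) (node 563 (merge (leaf 0 527 562) (node 531 (merge (leaf 0 528 564) (node 559 (merge (leaf 1 526 558) (leaf 1 527 560))))))))))))))) (node 560 (merge (leaf 0 525 561) (node 524 (merge (leaf 0 524 559) (node 555 (merge (leaf 1 523 556) (node 523 (merge (leaf 1 522 554) (node 491 (merge (leaf 3 490 490) (leaf 3 491 492)))))))))))))))) (merge (node 525 (merge (node 561 (merge (leaf 0 525 560) (node 529 (merge (leaf 0 526 562) (node 557 (merge (leaf 1 524 556) (leaf 1 525 558))))))) (merge (node 560 (merge (leaf 0 525 561) (node 524 (merge (leaf 0 524 559) (node 555 (merge (leaf 1 523 556) (node 523 (merge (leaf 1 522 554) (node 491 (merge (leaf 3 490 490) (leaf 3 491 492))))))))))) (merge (node 556 (merge (leaf 1 524 557) (node 524 (merge (leaf 1 523 555) (node 559 (merge (leaf 0 524 560) (node 523 (merge (leaf 0 523 558) (node 491 (merge (leaf 3 490 490) (leaf 3 491 492))))))))))) (merge (node 557 (merge (leaf 1 524 556) (node 529 (merge (leaf 1 525 558) (node 562 (merge (leaf 0 526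 561) (node 530 (merge (leaf 0 527 563) (node 498 (merge (leaf 2 494 497) (leaf 2 495 499))))))))))) (node 561 (merge (leaf 0 525 560) (node 529 (merge (leaf 0 526 562) (node 558 (merge (leaf 1 525 557) (node 530 (merge (leaf 1 526 559) (node 498 (merge (leaf 2 494 497) (leaf 2 495 499)))))))))))))))) (merge (node 557 (merge (node 556 (merge (leaf 1 524 525) (node 558 (merge (leaf 2 523 555) (leaf 2 524 559))))) (merge (node 525 (merge (leaf 1 524 556) (node 493 (merge (leaf 3 492 492) (node 494 (merge (leaf 3 493 529) (node 589 (merge (leaf 6 461 462) (leaf 6 493 621))))))))) (node 529 (merge (leaf 1 525 558) (node 494 (merge (leaf 3 493 493) (node 530 (merge (leaf 3 494 495) (node 563 (merge (leaf 0 527 562) (node 531 (merge (leaf 0 528 564) (node 499 (merge (leaf 2 495 498) (leaf 2 496 500)))))))))))))))) (merge (node 557 (merge (node 556 (merge (leaf 1 524 525) (node 558 (merge (leaf 2 523 555) (leaf 2 524 559))))) (merge (node 525 (merge (leaf 1 524 556) (node 493 (merge (leaf 3 492 492) (node 494 (merge (leaf 3 493 529) (node 589 (merge (leaf 6 461 462) (leaf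 6 493 621))))))))) (node 529 (merge (leaf 1 525 558) (node 494 (merge (leaf 3 493 493) (node 530 (merge (leaf 3 494 495) (node 499 (merge (leaf 2 495 498) (node 531 (merge (leaf 2 496 500) (node 564 (merge (leaf 0 528 563) (node 532 (merge (leaf 0 529 565) (node 560 (merge (leaf 1 527 559) (leaf 1 528 561)))))))))))))))))))) (merge (node 494 (merge (node 529 (merge (leaf 3 493 493) (node 562 (merge (leaf 0 526 561) (node 530 (merge (leaf 0 527 563) (node 498 (merge (leaf 2 494 497) (leaf 2 495 499))))))))) (merge (node 529 (merge (node 498 (merge (leaf 2 494 497) (node 530 (merge (leaf 3 494 495) (leaf 2 495 499))))) (merge (node 562 (merge (leaf 0 526 561) (node 530 (merge (leaf 0 527 563) (node 558 (merge (leaf 1 525 557) (leaf 1 526 559))))))) (node 561 (merge (leaf 0 526 562) (node 560 (merge (leaf 0 525 525) (node 497 (merge (leaf 2 494 498) (node 592 (merge (leaf 5 464 465) (leaf 6 496 624)))))))))))) (node 462 (merge (node 559 (merge (leaf 4 430 430) (node 591 (merge (leaf 4 462 558) (leaf 7 494 623))))) (merge (node 430 (merge (leaf 4 430 559) (node 399 (merge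 (leaf 6 398 431) (node 398 (merge (leaf 6 366 367) (node 397 (merge (leaf 7 365 365) (leaf 7 397 429))))))))) (merge (node 558 (merge (node 591 (merge (leaf 4 462 559) (node 590 (merge (leaf 4 494 623) (node 461 (merge (leaf 7 429 429) (leaf 7 461 493))))))) (merge (node 557 (merge (leaf 5 461 589) (node 556 (merge (leaf 2 523 555) (leaf 2 524 559))))) (node 589 (merge (leaf 5 461 557) (node 590 (merge (leaf 5 493 621) (node 461 (merge (leaf 7 429 429) (leaf 7 461 493)))))))))) (node 558 (merge (node 589 (merge (leaf 5 461 557) (node 590 (merge (leaf 5 493 621) (node 461 (merge (leaf 7 429 429) (leaf 7 461 493))))))) (merge (node 463 (merge (leaf 6 430 431) (node 590 (merge (leaf 6 462 495) (node 589 (merge (leaf 5 461 557) (leaf 5 493 621))))))) (node 431 (merge (leaf 6 430 463) (node 430 (merge (leaf 6 398 399) (node 429 (merge (leaf 7 397 397) (leaf 7 429 461))))))))))))))))) (merge (node 558 (merge (node 557 (merge (leaf 1 525 529) (node 556 (merge (leaf 2 523 555) (leaf 2 524 559))))) (merge (node 529 (merge (leaf 1 525 557) (node 494 (merge (leaf 3 493 493) (node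 495 (merge (leaf 3 494 530) (node 590 (merge (leaf 6 462 463) (leaf 6 494 622))))))))) (merge (node 590 (merge (node 495 (merge (leaf 6 494 622) (node 494 (merge (leaf 6 462 463) (node 493 (merge (leaf 7 461 461) (leaf 0 492 492))))))) (merge (node 622 (merge (leaf 6 494 495) (node 655 (merge (leaf 4 526 623) (node 654 (merge (leaf 6 526 559) (leaf 4 558 687))))))) (merge (node 529 (merge (node 562 (merge (leaf 0 526 561) (node 530 (merge (leaf 1 526 559) (leaf 0 527 563))))) (node 494 (merge (leaf 3 493 493) (node 623 (merge (leaf 4 494 591) (node 622 (merge (leaf 4 526 655) (node 621 (merge (leaf 5 493 589) (leaf 5 525 653))))))))))) (node 494 (merge (node 493 (merge (leaf 7 461 461) (node 492 (merge (leaf 0 491 491) (leaf 0 492 495))))) (merge (node 529 (merge (leaf 3 493 493) (node 562 (merge (leaf 0 526 561) (node 530 (merge (leaf 1 526 559) (leaf 0 527 563))))))) (node 591 (merge (leaf 4 494 623) (node 462 (merge (leaf 4 462 559) (node 431 (merge (leaf 6 430 463) (node 430 (merge (leaf 6 398 399) (node 429 (merge (leaf 7 397 397) (leaf 7 429 461))))))))))))))))))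 (node 590 (merge (node 495 (merge (leaf 6 494 622) (node 494 (merge (leaf 6 462 463) (node 493 (merge (leaf 7 461 461) (leaf 0 492 492))))))) (merge (node 622 (merge (leaf 6 494 495) (node 655 (merge (leaf 4 526 623) (node 654 (merge (leaf 6 526 559) (leaf 4 558 687))))))) (merge (node 494 (merge (node 493 (merge (leaf 7 461 461) (node 492 (merge (leaf 0 491 491) (leaf 0 492 495))))) (merge (node 589 (merge (leaf 5 493 621) (node 462 (merge (leaf 5 461 557) (node 559 (merge (leaf 4 430 430) (leaf 4 462 591))))))) (node 591 (merge (leaf 4 494 623) (node 462 (merge (leaf 4 462 559) (node 589 (merge (leaf 5 461 557) (leaf 5 493 621)))))))))) (node 623 (merge (node 494 (merge (leaf 4 494 591) (node 622 (merge (leaf 4 526 655) (node 621 (merge (leaf 5 493 589) (leaf 5 525 653))))))) (merge (node 622 (merge (leaf 4 526 655) (node 654 (merge (leaf 6 526 559) (node 653 (merge (leaf 5 525 621) (leaf 5 557 685))))))) (merge (node 494 (merge (leaf 4 494 591) (node 589 (merge (leaf 5 493 621) (node 462 (merge (leaf 5 461 557) (node 430 (merge (leaf 4 430 559) (node 431 (merge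 (leaf 6 398 399) (leaf 6 430 463))))))))))) (node 591 (merge (leaf 4 494 494) (node 655 (merge (leaf 7 526 559) (leaf 4 526 622))))))))))))))))) (hyp 0)))))))))))) nF_19 cF_19 11 (by decide +kernel)

end Crest.Agent.H26Snaky
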