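import Crest.Agent.H26SnF00

/-! certificate data for S0047, part F 1 (computer generated) -/

set_option autoImplicit false
set_option maxRecDepth 100000

namespace Crest.Agent.H26Snaky

open T

def nF_20 : ℕ := 0x1c00000010000000000000000000000000000000000000000000000000000000000000000000000000000000000000000000000000000000000000000000000000000
def cF_20 : ℕ := 0x8000000380000003c0000003400000000000003ef800001ffc00001ffc000003e0000003a0000003800000000000000000000000000000000000000000000000000000000000000000000000000000000000
theorem lF_20 : S nF_20 cF_20 10 := S_of_chk [] trivial (node 464 (merge (node 432 (merge (node 401 (merge (leaf 6 400 433) (node 400 (merge (leaf 6 368 369) (leaf 5 399 495))))) (merge (node 400 (merge (leaf 5 399 495) (node 399 (merge (leaf 7 367 367) (leaf 7 399 431))))) (node 433 (merge (leaf 6 400 401) (node 431 (merge (leaf 7 399 399) (node 463 (merge (leaf 7 431 560) (node 462 (merge (leaf 1 430 434) (leaf 2 429 461)))))))))))) (merge (node 495 (merge (node 432 (merge (leaf 5 399 400) (node 431 (merge (leaf 7 399 399) (node 560 (merge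 (leaf 4 431 463) (node 593 (merge (leaf 4 464 561) (node 592 (merge (leaf 7 495 624) (leaf 4 496 625))))))))))) (merge (node 494 (merge (node 493 (merge (leaf 2 461 465) (leaf 0 492 492))) (merge (node 497 (merge (leaf 1 494 498) (node 465 (merge (leaf 2 462 466) (node 462 (merge (leaf 3 461 461) (node 430 (merge (leaf 4 398 398) (node 429 (merge (leaf 7 397 397) (leaf 3 429 463))))))))))) (node 493 (merge (leaf 0 492 492) (node 461 (merge (leaf 3 460 460) (node 429 (merge (leaf 4 397 397) (node 558 (merge (leaf 7 429 462) (leaf 7 461 590)))))))))))) (node 494 (merge (node 493 (merge (leaf 2 461 465) (leaf 0 492 492))) (merge (node 497 (merge (leaf 1 494 498) (node 462 (merge (leaf 3 461 461) (node 430 (merge (leaf 4 398 398) (node 432 (merge (leaf 5 399 400) (node 431 (merge (leaf 6 398 399) (node 429 (merge (leaf 7 397 397) (leaf 0 429 465))))))))))))) (node 493 (merge (leaf 0 492 492) (node 461 (merge (leaf 3 460 460) (node 429 (merge (leaf 4 397 397) (node 558 (merge (leaf 7 429 462) (leaf 7 461 590))))))))))))))) (merge (node 465 (merge (node 433 (merge (leaf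 6 432 560) (node 401 (merge (leaf 5 368 369) (leaf 5 400 497))))) (merge (node 560 (merge (leaf 6 432 433) (node 593 (merge (leaf 4 464 561) (node 592 (merge (leaf 4 496 625) (node 623 (merge (leaf 5 495 591) (node 624 (merge (leaf 7 495 495) (leaf 5 527 655))))))))))) (merge (node 495 (merge (node 494 (merge (leaf 2 461 493) (node 466 (merge (leaf 1 462 463) (leaf 1 463 467))))) (merge (node 497 (merge (leaf 1 494 498) (node 494 (merge (leaf 2 462 466) (node 493 (merge (leaf 2 461 464) (leaf 0 492 492))))))) (merge (node 466 (merge (leaf 1 463 467) (node 498 (merge (leaf 1 494 497) (node 463 (merge (leaf 0 463 499) (node 431 (merge (leaf 3 430 430) (leaf 5 430 558))))))))) (node 497 (merge (leaf 1 494 498) (node 494 (merge (leaf 2 461 493) (node 462 (merge (leaf 3 461 461) (node 430 (merge (leaf 4 398 398) (node 429 (merge (leaf 7 397 397) (leaf 3 429 463))))))))))))))) (node 495 (merge (node 494 (merge (leaf 2 461 493) (node 466 (merge (leaf 1 462 463) (leaf 1 463 467))))) (merge (node 497 (merge (leaf 1 494 498) (node 494 (merge (leaf 2 462 466) (node 493 (merge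 (leaf 2 461 464) (leaf 0 492 492))))))) (merge (node 466 (merge (leaf 1 463 467) (node 498 (merge (leaf 1 494 497) (node 463 (merge (leaf 0 463 499) (node 431 (merge (leaf 3 430 430) (leaf 5 430 558))))))))) (node 497 (merge (leaf 1 494 498) (node 494 (merge (leaf 2 461 493) (node 462 (merge (leaf 3 461 461) (node 430 (merge (leaf 4 398 398) (node 429 (merge (leaf 7 397 397) (leaf 3 429 463))))))))))))))))))) (merge (node 432 (merge (node 433 (merge (leaf 6 400 401) (node 560 (merge (leaf 6 432 465) (node 593 (merge (leaf 4 464 561) (node 592 (merge (leaf 4 496 625) (node 623 (merge (leaf 5 495 591) (node 624 (merge (leaf 7 495 495) (leaf 5 527 655))))))))))))) (merge (node 400 (merge (leaf 5 399 495) (node 369 (merge (leaf 6 368 401) (node 368 (merge (leaf 6 336 337) (node 367 (merge (leaf 7 335 335) (leaf 7 367 399))))))))) (merge (node 400 (merge (node 401 (merge (leaf 6 368 369) (leaf 6 400 433))) (merge (node 369 (merge (leaf 6 368 401) (node 368 (merge (leaf 6 336 337) (node 367 (merge (leaf 7 335 335) (leaf 7 367 399))))))) (merge (node 367 (merge (leaf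 7 367 399) (node 368 (merge (leaf 7 335 335) (node 465 (merge (leaf 4 368 497) (node 433 (merge (leaf 4 336 336) (leaf 6 432 560))))))))) (node 433 (merge (leaf 6 400 401) (node 465 (merge (leaf 6 432 560) (node 368 (merge (leaf 4 336 336) (leaf 4 368 497))))))))))) (node 400 (merge (leaf 5 399 495) (node 367 (merge (leaf 7 367 399) (node 368 (merge (leaf 7 335 335) (node 465 (merge (leaf 4 368 497) (node 433 (merge (leaf 4 336 336) (leaf 6 432 560))))))))))))))) (merge (node 463 (merge (node 431 (merge (leaf 7 431 560) (node 399 (merge (leaf 4 367 367) (leaf 7 399 432))))) (merge (node 560 (merge (leaf 7 431 431) (node 593 (merge (leaf 4 464 561) (node 592 (merge (leaf 4 496 625) (node 465 (merge (leaf 6 432 433) (leaf 6 464 497))))))))) (merge (node 462 (merge (node 461 (merge (leaf 0 461 497) (node 432 (merge (leaf 2 429 433) (node 431 (merge (leaf 7 399 399) (leaf 2 428 460))))))) (merge (node 461 (merge (leaf 0 461 497) (node 429 (merge (leaf 3 428 428) (node 494 (merge (leaf 7 429 558) (node 397 (merge (leaf 4 365 365) (leaf 4 397 493))))))))) (merge (node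 432 (merge (node 433 (merge (leaf 6 400 401) (node 434 (merge (leaf 1 431 435) (node 462 (merge (leaf 2 429 461) (leaf 2 430 465))))))) (merge (node 433 (merge (leaf 6 400 401) (node 431 (merge (leaf 7 399 399) (leaf 1 430 434))))) (node 431 (merge (leaf 7 399 399) (node 494 (merge (leaf 6 430 558) (node 465 (merge (leaf 1 461 493) (node 430 (merge (leaf 0 429 429) (leaf 3 430 466)))))))))))) (node 465 (merge (node 498 (merge (leaf 0 462 497) (node 466 (merge (leaf 0 463 499) (node 430 (merge (leaf 3 429 429) (leaf 3 430 431))))))) (merge (node 433 (merge (leaf 2 430 434) (node 401 (merge (leaf 5 368 369) (leaf 5 400 497))))) (merge (node 434 (merge (leaf 2 430 433) (node 466 (merge (leaf 2 431 435) (node 430 (merge (leaf 3 429 429) (leaf 3 430 431))))))) (node 497 (merge (leaf 0 462 498) (node 433 (merge (leaf 5 400 401) (leaf 2 430 434))))))))))))) (node 465 (merge (node 433 (merge (leaf 6 432 560) (node 462 (merge (leaf 2 430 434) (node 432 (merge (leaf 6 400 401) (leaf 2 429 461))))))) (merge (node 433 (merge (node 401 (merge (leaf 5 368 369) (leaf 5 400 497)))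 (merge (node 462 (merge (leaf 2 430 434) (node 432 (merge (leaf 6 400 401) (leaf 2 429 461))))) (node 462 (merge (leaf 2 430 434) (node 461 (merge (leaf 2 429 432) (leaf 0 461 497)))))))) (merge (node 560 (merge (leaf 6 432 433) (node 593 (merge (leaf 4 464 561) (node 592 (merge (leaf 6 464 497) (leaf 4 496 625))))))) (node 466 (merge (node 499 (merge (leaf 0 463 498) (node 467 (merge (leaf 0 464 500) (node 435 (merge (leaf 2 431 434) (leaf 2 432 436))))))) (merge (node 498 (merge (leaf 0 463 499) (node 462 (merge (leaf 0 462 497) (node 494 (merge (leaf 1 461 493) (node 429 (merge (leaf 3 429 430) (node 461 (merge (leaf 3 428 428) (leaf 7 429 558))))))))))) (merge (node 435 (merge (leaf 2 431 434) (node 467 (merge (leaf 2 432 436) (node 500 (merge (leaf 0 464 499) (node 468 (merge (leaf 1 464 497) (leaf 0 465 501))))))))) (node 435 (merge (leaf 2 431 434) (node 467 (merge (leaf 2 432 436) (node 497 (merge (leaf 1 464 468) (node 462 (merge (leaf 0 461 461) (leaf 0 462 498))))))))))))))))))))) (merge (node 463 (merge (node 431 (merge (leaf 7 431 560) (node 495 (merge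 (leaf 4 399 399) (leaf 5 430 558))))) (merge (node 560 (merge (leaf 7 431 431) (node 593 (merge (leaf 4 464 561) (node 592 (merge (leaf 4 496 625) (node 465 (merge (leaf 6 432 433) (leaf 6 464 497))))))))) (merge (node 462 (merge (node 461 (merge (leaf 0 461 497) (node 429 (merge (leaf 3 428 428) (node 494 (merge (leaf 7 429 558) (node 397 (merge (leaf 4 365 365) (leaf 4 397 493))))))))) (merge (node 461 (merge (leaf 0 461 497) (node 493 (merge (leaf 1 460 492) (node 494 (merge (leaf 1 461 465) (node 558 (merge (leaf 7 429 429) (leaf 7 461 590))))))))) (merge (node 431 (merge (node 558 (merge (leaf 6 430 494) (leaf 5 430 495))) (merge (node 399 (merge (leaf 4 367 367) (leaf 4 399 495))) (node 494 (merge (leaf 6 430 558) (node 430 (merge (leaf 6 398 399) (node 429 (merge (leaf 0 428 428) (leaf 3 429 465)))))))))) (merge (node 461 (merge (leaf 0 461 497) (node 460 (merge (leaf 0 460 495) (node 492 (merge (leaf 1 459 491) (leaf 1 460 493))))))) (node 461 (merge (leaf 0 461 497) (node 460 (merge (leaf 0 460 495) (node 493 (merge (leaf 1 460 492) (node 494 (merge (leaf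 1 461 465) (node 459 (merge (leaf 0 458 458) (node 427 (merge (leaf 3 426 426) (leaf 3 427 428)))))))))))))))))) (node 465 (merge (node 560 (merge (leaf 6 432 433) (node 593 (merge (leaf 4 464 561) (node 592 (merge (leaf 7 463 495) (leaf 4 496 625))))))) (merge (node 497 (merge (node 498 (merge (leaf 0 462 462) (leaf 1 495 499))) (merge (node 498 (merge (leaf 1 494 495) (leaf 1 495 499))) (node 462 (merge (leaf 0 461 461) (node 494 (merge (leaf 1 461 493) (node 495 (merge (leaf 1 462 466) (node 430 (merge (leaf 4 398 398) (leaf 3 429 429)))))))))))) (node 466 (merge (node 499 (merge (leaf 0 463 498) (node 467 (merge (leaf 0 464 500) (node 435 (merge (leaf 2 431 434) (leaf 2 432 436))))))) (merge (node 498 (merge (leaf 0 463 499) (node 462 (merge (leaf 0 462 497) (node 494 (merge (leaf 1 461 493) (node 429 (merge (leaf 3 429 430) (node 461 (merge (leaf 3 428 428) (leaf 7 429 558))))))))))) (merge (node 435 (merge (leaf 2 431 434) (node 467 (merge (leaf 2 432 436) (node 500 (merge (leaf 0 464 499) (node 468 (merge (leaf 1 464 497) (leaf 0 465 501))))))))) (node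 435 (merge (leaf 2 431 434) (node 467 (merge (leaf 2 432 436) (node 497 (merge (leaf 1 464 468) (node 462 (merge (leaf 0 461 461) (leaf 0 462 498)))))))))))))))))))) (node 463 (merge (node 431 (merge (node 399 (merge (leaf 4 367 367) (leaf 7 399 432))) (merge (node 495 (merge (leaf 4 399 399) (leaf 5 430 558))) (node 495 (merge (leaf 5 430 558) (node 432 (merge (leaf 5 399 400) (node 433 (merge (leaf 6 400 401) (node 462 (merge (leaf 1 430 434) (leaf 2 429 461)))))))))))) (merge (node 431 (merge (node 399 (merge (leaf 4 367 367) (leaf 7 399 432))) (merge (node 495 (merge (leaf 4 399 399) (leaf 5 430 558))) (node 495 (merge (leaf 5 430 558) (node 432 (merge (leaf 5 399 400) (node 430 (merge (leaf 7 398 398) (node 429 (merge (leaf 0 428 428) (leaf 0 429 465)))))))))))) (merge (node 432 (merge (node 433 (merge (leaf 6 400 401) (node 434 (merge (leaf 1 431 435) (node 462 (merge (leaf 2 429 461) (leaf 2 430 465))))))) (merge (node 400 (merge (leaf 5 399 495) (node 369 (merge (leaf 6 368 401) (node 368 (merge (leaf 6 336 337) (node 367 (merge (leaf 7 335 335) (leaf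 7 367 399))))))))) (node 400 (merge (leaf 5 399 495) (node 367 (merge (leaf 7 367 399) (node 368 (merge (leaf 7 335 335) (node 465 (merge (leaf 4 368 497) (node 433 (merge (leaf 4 336 336) (node 462 (merge (leaf 2 430 434) (leaf 2 429 461)))))))))))))))) (merge (node 495 (merge (node 432 (merge (leaf 5 399 400) (node 431 (merge (leaf 5 430 558) (node 433 (merge (leaf 6 400 401) (node 462 (merge (leaf 1 430 434) (leaf 2 429 461))))))))) (merge (node 432 (merge (leaf 5 399 400) (node 433 (merge (leaf 6 400 401) (node 462 (merge (leaf 2 429 461) (node 465 (merge (leaf 2 430 434) (node 498 (merge (leaf 0 462 497) (node 466 (merge (leaf 1 462 494) (leaf 0 463 499))))))))))))) (merge (node 497 (merge (leaf 1 494 498) (node 462 (merge (leaf 0 461 461) (node 431 (merge (leaf 5 430 558) (node 430 (merge (leaf 7 398 398) (node 465 (merge (leaf 3 429 429) (leaf 3 430 466))))))))))) (node 432 (merge (leaf 5 399 400) (node 431 (merge (leaf 5 430 558) (node 430 (merge (leaf 7 398 398) (node 429 (merge (leaf 0 428 428) (leaf 0 429 465))))))))))))) (merge (node 462 (merge (node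 461 (merge (leaf 0 461 497) (node 432 (merge (leaf 2 429 433) (node 431 (merge (leaf 7 399 399) (leaf 2 428 460))))))) (merge (node 461 (merge (leaf 0 461 497) (node 429 (merge (leaf 3 428 428) (node 494 (merge (leaf 7 429 558) (node 397 (merge (leaf 4 365 365) (leaf 4 397 493))))))))) (merge (node 432 (merge (node 433 (merge (leaf 6 400 401) (node 434 (merge (leaf 1 431 435) (node 462 (merge (leaf 2 429 461) (leaf 2 430 465))))))) (merge (node 433 (merge (leaf 6 400 401) (node 431 (merge (leaf 7 399 399) (leaf 1 430 434))))) (node 431 (merge (leaf 7 399 399) (node 494 (merge (leaf 6 430 558) (node 465 (merge (leaf 1 461 493) (node 430 (merge (leaf 0 429 429) (leaf 3 430 466)))))))))))) (node 465 (merge (node 498 (merge (leaf 0 462 497) (node 466 (merge (leaf 0 463 499) (node 430 (merge (leaf 3 429 429) (leaf 3 430 431))))))) (merge (node 433 (merge (leaf 2 430 434) (node 401 (merge (leaf 5 368 369) (leaf 5 400 497))))) (merge (node 434 (merge (leaf 2 430 433) (node 466 (merge (leaf 2 431 435) (node 430 (merge (leaf 3 429 429) (leaf 3 430 431))))))) (node 497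 (merge (leaf 0 462 498) (node 433 (merge (leaf 5 400 401) (leaf 2 430 434))))))))))))) (node 462 (merge (node 461 (merge (leaf 0 461 497) (node 429 (merge (leaf 3 428 428) (node 494 (merge (leaf 7 429 558) (node 397 (merge (leaf 4 365 365) (leaf 4 397 493))))))))) (merge (node 461 (merge (leaf 0 461 497) (node 493 (merge (leaf 1 460 492) (node 494 (merge (leaf 1 461 465) (node 558 (merge (leaf 7 429 429) (leaf 7 461 590))))))))) (merge (node 431 (merge (node 558 (merge (leaf 6 430 494) (leaf 5 430 495))) (merge (node 399 (merge (leaf 4 367 367) (leaf 4 399 495))) (node 494 (merge (leaf 6 430 558) (node 430 (merge (leaf 6 398 399) (node 429 (merge (leaf 0 428 428) (leaf 3 429 465)))))))))) (merge (node 461 (merge (leaf 0 461 497) (node 460 (merge (leaf 0 460 495) (node 492 (merge (leaf 1 459 491) (leaf 1 460 493))))))) (node 461 (merge (leaf 0 461 497) (node 460 (merge (leaf 0 460 495) (node 493 (merge (leaf 1 460 492) (node 494 (merge (leaf 1 461 465) (node 459 (merge (leaf 0 458 458) (node 427 (merge (leaf 3 426 426) (leaf 3 427 428)))))))))))))))))))))))))))))))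 nF_20 cF_20 10 (by decide +kernel)
def nF_21 : ℕ := 0x1800000010000000000000000000000000000000000000000000000000000000000000000000000000000000000000000000000000000000000000000000000000000
def cF_21 : ℕ := 0x1e0000003f0000000f000000c7000000ef000001ff000000ff000001ff000000600000004000000000000000000000000000000000000000000000000000000000000000000000000000000000000
theorem lF_21 : S nF_21 cF_21 12 := S_of_chk [] trivial (node 495 (merge (node 463 (merge (node 431 (merge (leaf 4 399 399) (node 526 (merge (leaf 5 430 558) (node 525 (merge (leaf 2 493 497) (leaf 2 492 524))))))) (merge (node 431 (merge (leaf 4 399 399) (node 430 (merge (leaf 7 398 398) (node 559 (merge (leaf 7 430 462) (node 591 (merge (leaf 6 463 464) (leaf 6 495 623))))))))) (node 559 (merge (node 591 (merge (leaf 6 495 623) (node 590 (merge (leaf 5 462 558) (leaf 5 494 622))))) (node 462 (merge (leaf 7 430 430) (node 461 (merge (leaf 0 460 460) (node 497 (merge (leaf 0 461 464) (leaf 3 462 498)))))))))))) (merge (node 494 (merge (node 493 (merge (leaf 0 492 492) (node 464 (merge (leaf 2 461 465)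 (node 432 (merge (leaf 5 399 400) (leaf 5 431 559))))))) (merge (node 493 (merge (leaf 0 492 492) (node 461 (merge (leaf 3 460 460) (node 497 (merge (leaf 3 461 462) (node 498 (merge (leaf 1 495 499) (leaf 1 494 526))))))))) (node 497 (merge (node 466 (merge (leaf 2 462 465) (node 498 (merge (leaf 2 463 467) (leaf 1 495 499))))) (node 462 (merge (leaf 3 461 461) (node 430 (merge (leaf 4 398 398) (node 559 (merge (leaf 4 430 526) (leaf 7 462 591)))))))))))) (merge (node 494 (merge (node 493 (merge (leaf 0 492 492) (node 464 (merge (leaf 2 461 465) (node 432 (merge (leaf 5 399 400) (leaf 5 431 559))))))) (merge (node 493 (merge (leaf 0 492 492) (node 461 (merge (leaf 3 460 460) (node 497 (merge (leaf 3 461 462) (node 498 (merge (leaf 1 495 499) (leaf 1 494 526))))))))) (node 497 (merge (node 526 (merge (leaf 1 494 498) (leaf 2 493 525))) (merge (node 466 (merge (leaf 2 462 465) (node 498 (merge (leaf 2 463 467) (leaf 1 495 499))))) (node 526 (merge (leaf 1 493 525) (node 465 (merge (leaf 2 462 466) (node 462 (merge (leaf 3 461 461) (node 433 (merge (leaf 5 400 401)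 (node 559 (merge (leaf 7 462 591) (node 464 (merge (leaf 5 431 432) (node 463 (merge (leaf 2 430 434) (node 558 (merge (leaf 5 430 431) (leaf 5 462 590))))))))))))))))))))))) (merge (node 463 (merge (node 431 (merge (leaf 4 399 399) (node 526 (merge (leaf 5 430 558) (node 525 (merge (leaf 2 493 497) (leaf 2 492 524))))))) (merge (node 431 (merge (leaf 4 399 399) (node 432 (merge (leaf 6 399 400) (node 430 (merge (leaf 7 398 398) (node 462 (merge (leaf 7 430 559) (node 461 (merge (leaf 1 429 433) (leaf 0 460 460))))))))))) (node 559 (merge (node 591 (merge (leaf 6 495 623) (node 590 (merge (leaf 5 462 558) (leaf 5 494 622))))) (node 462 (merge (leaf 7 430 430) (node 497 (merge (leaf 3 462 498) (node 525 (merge (leaf 2 493 526) (node 494 (merge (leaf 3 461 461) (node 493 (merge (leaf 0 492 492) (leaf 1 492 524)))))))))))))))) (merge (node 494 (merge (node 493 (merge (leaf 0 492 492) (node 465 (merge (leaf 2 461 464) (node 497 (merge (leaf 2 462 466) (node 498 (merge (leaf 1 495 499) (leaf 1 494 526))))))))) (merge (node 493 (merge (leaf 0 492 492) (node 525 (merge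 (leaf 1 492 524) (node 526 (merge (leaf 1 493 497) (node 557 (merge (leaf 1 524 556) (node 589 (merge (leaf 6 461 462) (leaf 6 493 621))))))))))) (merge (node 493 (merge (leaf 0 492 492) (node 525 (merge (leaf 1 492 524) (node 464 (merge (leaf 2 461 465) (node 461 (merge (leaf 3 460 460) (node 432 (merge (leaf 5 399 400) (node 433 (merge (leaf 6 400 401) (node 462 (merge (leaf 2 429 463) (node 430 (merge (leaf 4 398 398) (leaf 6 429 557))))))))))))))))) (node 497 (merge (node 466 (merge (leaf 2 462 465) (node 498 (merge (leaf 2 463 467) (leaf 1 495 499))))) (node 526 (merge (leaf 1 493 525) (node 462 (merge (leaf 3 461 461) (node 430 (merge (leaf 4 398 398) (node 431 (merge (leaf 6 398 399) (node 558 (merge (leaf 5 430 463) (node 589 (merge (leaf 5 461 557) (node 590 (merge (leaf 5 493 621) (leaf 6 494 622))))))))))))))))))))) (merge (node 494 (merge (node 493 (merge (leaf 0 492 492) (node 464 (merge (leaf 2 461 465) (node 559 (merge (leaf 5 431 432) (leaf 6 463 591))))))) (merge (node 462 (merge (node 493 (merge (leaf 0 492 492) (node 525 (merge (leaf 1 492 524)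 (node 461 (merge (leaf 3 460 460) (node 430 (merge (leaf 4 398 398) (leaf 6 429 557))))))))) (merge (node 559 (merge (leaf 7 462 591) (node 430 (merge (leaf 7 430 463) (leaf 4 430 526))))) (merge (node 430 (merge (leaf 4 398 398) (node 559 (merge (leaf 4 430 526) (leaf 7 462 591))))) (node 493 (merge (leaf 0 492 492) (node 525 (merge (leaf 1 492 524) (node 461 (merge (leaf 3 460 460) (node 557 (merge (leaf 6 461 589) (node 556 (merge (leaf 1 524 526) (leaf 5 460 588))))))))))))))) (merge (node 463 (merge (node 431 (merge (leaf 4 399 399) (node 432 (merge (leaf 6 399 400) (node 559 (merge (leaf 5 431 464) (node 591 (merge (leaf 7 462 462) (leaf 6 495 623))))))))) (merge (node 431 (merge (leaf 4 399 399) (node 432 (merge (leaf 6 399 400) (node 559 (merge (leaf 6 431 464) (node 558 (merge (leaf 5 430 526) (leaf 5 462 590))))))))) (merge (node 431 (merge (leaf 4 399 399) (node 558 (merge (leaf 5 430 526) (node 559 (merge (leaf 5 462 590) (node 430 (merge (leaf 7 398 398) (leaf 7 430 462))))))))) (merge (node 559 (merge (node 591 (merge (leaf 7 462 462) (leaf 6 495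 623))) (merge (node 591 (merge (leaf 6 495 623) (node 590 (merge (leaf 5 462 558) (leaf 5 494 622))))) (node 464 (merge (leaf 5 431 432) (node 558 (merge (leaf 5 462 590) (node 462 (merge (leaf 7 430 430) (node 461 (merge (leaf 0 460 460) (node 429 (merge (leaf 3 428 428) (leaf 7 429 526)))))))))))))) (node 431 (merge (leaf 4 399 399) (node 526 (merge (leaf 5 430 558) (node 525 (merge (leaf 2 492 524) (node 430 (merge (leaf 7 398 398) (node 462 (merge (leaf 5 429 557) (node 429 (merge (leaf 7 397 397) (node 464 (merge (leaf 0 428 428) (leaf 3 429 465)))))))))))))))))))) (node 493 (merge (leaf 0 492 492) (node 525 (merge (leaf 1 492 524) (node 464 (merge (leaf 2 461 465) (node 461 (merge (leaf 3 460 460) (node 432 (merge (leaf 5 399 400) (node 433 (merge (leaf 6 400 401) (node 462 (merge (leaf 2 429 463) (node 430 (merge (leaf 4 398 398) (leaf 6 429 557))))))))))))))))))))) (merge (node 463 (merge (node 431 (merge (leaf 4 399 399) (node 432 (merge (leaf 6 399 400) (node 559 (merge (leaf 5 431 464) (node 590 (merge (leaf 5 462 558) (node 591 (merge (leaf 5 494 622)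 (leaf 6 495 623))))))))))) (merge (node 431 (merge (leaf 4 399 399) (node 430 (merge (leaf 7 398 398) (node 559 (merge (leaf 7 430 462) (node 590 (merge (leaf 5 462 558) (node 591 (merge (leaf 5 494 622) (leaf 6 495 623))))))))))) (merge (node 462 (merge (node 559 (merge (leaf 7 430 430) (node 591 (merge (leaf 7 462 494) (leaf 6 495 623))))) (merge (node 497 (merge (leaf 3 462 498) (node 461 (merge (leaf 0 461 464) (leaf 3 461 494))))) (merge (node 497 (merge (leaf 3 462 498) (node 461 (merge (leaf 0 461 464) (leaf 3 461 494))))) (node 559 (merge (leaf 7 430 430) (node 464 (merge (leaf 5 431 432) (leaf 6 463 591))))))))) (node 461 (merge (node 462 (merge (leaf 0 460 460) (node 497 (merge (leaf 3 461 494) (leaf 3 462 498))))) (merge (node 431 (merge (leaf 4 399 399) (node 432 (merge (leaf 6 399 400) (node 430 (merge (leaf 7 398 398) (node 429 (merge (leaf 1 428 460) (node 464 (merge (leaf 0 428 428) (leaf 0 429 465))))))))))) (node 431 (merge (leaf 4 399 399) (node 432 (merge (leaf 6 399 400) (node 430 (merge (leaf 7 398 398) (node 433 (merge (leaf 1 429 462) (node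 466 (merge (leaf 0 430 465) (node 434 (merge (leaf 0 431 467) (node 464 (merge (leaf 6 400 401) (leaf 1 431 435)))))))))))))))))))))) (node 432 (merge (node 464 (merge (leaf 5 399 400) (leaf 5 431 559))) (merge (node 559 (merge (leaf 5 431 464) (node 591 (merge (leaf 6 495 623) (node 592 (merge (leaf 4 495 624) (node 590 (merge (leaf 5 494 622) (node 558 (merge (leaf 5 462 463) (node 557 (merge (leaf 0 556 556) (leaf 3 557 593))))))))))))) (node 431 (merge (node 463 (merge (leaf 4 399 399) (leaf 6 399 400))) (merge (node 463 (merge (leaf 4 399 399) (node 526 (merge (leaf 5 430 558) (node 525 (merge (leaf 2 493 497) (leaf 2 492 524))))))) (merge (node 463 (merge (leaf 6 399 400) (node 526 (merge (leaf 5 430 558) (node 525 (merge (leaf 2 493 497) (leaf 2 492 524))))))) (node 433 (merge (node 497 (merge (node 526 (merge (leaf 1 494 498) (leaf 2 493 525))) (node 401 (merge (leaf 5 400 465) (node 430 (merge (leaf 2 398 402) (node 429 (merge (leaf 2 397 400) (node 397 (merge (leaf 3 396 396) (leaf 3 397 398))))))))))) (merge (node 497 (merge (node 526 (merge (leaf 1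 494 498) (leaf 2 493 525))) (merge (node 498 (merge (leaf 1 495 499) (node 530 (merge (leaf 0 495 531) (node 466 (merge (leaf 2 463 467) (node 401 (merge (leaf 7 401 434) (leaf 4 401 465))))))))) (node 525 (merge (leaf 2 493 526) (node 465 (merge (leaf 5 400 401) (node 494 (merge (leaf 2 462 466) (node 493 (merge (leaf 0 492 492) (leaf 1 492 524)))))))))))) (merge (node 434 (merge (node 403 (merge (leaf 2 399 402) (node 435 (merge (leaf 2 400 404) (node 399 (merge (leaf 3 398 398) (leaf 3 399 400))))))) (merge (node 467 (merge (leaf 0 431 466) (node 435 (merge (leaf 0 432 468) (node 399 (merge (leaf 3 398 398) (leaf 3 399 400))))))) (node 466 (merge (leaf 0 431 467) (node 402 (merge (leaf 2 399 403) (node 401 (merge (leaf 2 398 430) (node 498 (merge (leaf 7 369 369) (leaf 7 401 530)))))))))))) (node 434 (merge (node 403 (merge (leaf 2 399 402) (node 435 (merge (leaf 2 400 404) (node 399 (merge (leaf 3 398 398) (leaf 3 399 400))))))) (merge (node 467 (merge (leaf 0 431 466) (node 435 (merge (leaf 0 432 468) (node 399 (merge (leaf 3 398 398) (leaf 3 399 400)))))))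 (node 466 (merge (leaf 0 431 467) (node 465 (merge (leaf 0 430 430) (node 402 (merge (leaf 2 399 403) (node 370 (merge (leaf 5 337 338) (leaf 5 369 497))))))))))))))))))))))))))))))) nF_21 cF_21 12 (by decide +kernel)
def nF_22 : ℕ := 0x1800000000000000000000000000000000000000000000000000000000000000000000000000000000000000000000000000000000000000000000000000000000000
def cF_22 : ℕ := 0x3c0000003f000001ff000000ff800001c7000003ff800001ffc00001ffc00001ff0000007a0000007800000000000000000000000000000000000000000000000000000000000000000000000000000000000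
theorem lF_22 : S nF_22 cF_22 13 := S_of_chk [(nF_20, cF_20, 10), (nF_21, cF_21, 12)] ⟨lF_20, lF_21, trivial⟩ (node 496 (merge (node 464 (merge (node 559 (merge (leaf 5 431 432) (node 591 (merge (leaf 5 463 560) (leaf 6 495 623))))) (merge (node 432 (merge (leaf 5 431 559) (node 401 (merge (leaf 6 400 433) (node 400 (merge (leaf 6 368 369) (leaf 5 399 495))))))) (merge (node 432 (merge (node 401 (merge (leaf 6 400 433) (node 400 (merge (leaf 6 368 369) (leaf 5 399 495))))) (merge (node 400 (merge (leaf 5 399 495) (node 399 (merge (leaf 7 367 367) (leaf 7 399 431))))) (node 433 (merge (leaf 6 400 401) (node 431 (merge (leaf 7 399 399) (node 463 (merge (leaf 7 431 560) (node 462 (merge (leaf 1 430 434) (leaf 2 429 461)))))))))))) (node 560 (merge (node 561 (merge (leaf 4 464 593) (node 562 (merge (leaf 3 527 563) (node 559 (merge (leaf 3 526 526) (leaf 5 463 591))))))) (merge (node 593 (merge (leaf 4 464 561) (node 592 (merge (leaf 4 496 625) (node 463 (merge (leaf 7 431 431) (leaf 7 463 495))))))) (node 591 (merge (leaf 5 463 559) (node 463 (merge (leaf 7 431 431)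 (node 592 (merge (leaf 7 463 495) (leaf 5 495 623)))))))))))))) (merge (node 559 (merge (node 591 (merge (leaf 6 495 623) (node 464 (merge (leaf 5 431 432) (leaf 6 463 495))))) (merge (node 591 (merge (leaf 6 495 623) (node 464 (merge (leaf 5 431 432) (leaf 5 463 560))))) (merge (node 591 (merge (leaf 6 495 623) (node 495 (merge (node 592 (merge (leaf 4 495 624) (node 463 (merge (leaf 4 463 560) (node 590 (merge (leaf 5 462 558) (leaf 5 494 622))))))) (merge (node 592 (merge (leaf 4 495 624) (node 560 (merge (leaf 4 463 463) (node 497 (merge (leaf 6 464 465) (node 526 (merge (leaf 1 494 498) (leaf 2 493 525))))))))) (node 590 (merge (leaf 5 494 622) (node 494 (merge (leaf 7 462 462) (node 493 (merge (leaf 0 492 492) (node 525 (merge (leaf 1 492 524) (node 526 (merge (leaf 1 493 497) (node 461 (merge (leaf 3 460 460) (leaf 7 461 558)))))))))))))))))) (node 560 (merge (node 464 (merge (leaf 5 431 432) (node 465 (merge (leaf 6 432 433) (node 592 (merge (leaf 6 464 497) (node 624 (merge (leaf 7 495 495) (leaf 7 527 656))))))))) (merge (node 464 (merge (leaf 5 431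 432) (node 463 (merge (leaf 7 431 431) (node 495 (merge (leaf 4 463 592) (node 462 (merge (leaf 7 430 430) (node 497 (merge (leaf 0 461 461) (leaf 3 462 498))))))))))) (merge (node 495 (merge (node 592 (merge (leaf 4 463 463) (leaf 7 495 624))) (merge (node 592 (merge (leaf 7 495 624) (node 497 (merge (leaf 6 464 465) (node 498 (merge (leaf 1 495 499) (leaf 1 494 526))))))) (node 463 (merge (leaf 4 431 431) (node 558 (merge (leaf 5 462 590) (node 557 (merge (leaf 2 524 556) (node 525 (merge (leaf 3 524 524) (node 526 (merge (leaf 2 493 497) (leaf 0 525 561)))))))))))))) (merge (node 464 (merge (leaf 5 431 432) (node 465 (merge (leaf 6 432 433) (node 497 (merge (leaf 6 464 592) (node 498 (merge (leaf 1 495 499) (node 463 (merge (leaf 7 431 431) (leaf 0 462 462))))))))))) (merge (node 464 (merge (leaf 5 431 432) (node 465 (merge (leaf 6 432 433) (node 463 (merge (leaf 7 431 431) (node 495 (merge (leaf 4 463 592) (node 494 (merge (leaf 1 462 466) (leaf 2 461 493))))))))))) (node 558 (merge (node 557 (merge (leaf 2 524 556) (node 525 (merge (leaf 3 524 524) (node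 526 (merge (leaf 2 493 497) (leaf 0 525 561))))))) (merge (node 464 (merge (leaf 5 431 432) (node 465 (merge (leaf 6 432 433) (node 463 (merge (leaf 7 431 431) (node 495 (merge (leaf 5 462 590) (node 494 (merge (leaf 1 462 466) (leaf 2 461 493))))))))))) (node 557 (merge (leaf 2 524 556) (node 589 (merge (leaf 1 556 588) (node 561 (merge (leaf 1 557 590) (node 525 (merge (leaf 3 524 524) (leaf 0 525 526)))))))))))))))))))))) (merge (node 464 (merge (node 559 (merge (leaf 5 431 432) (node 591 (merge (leaf 6 463 495) (leaf 6 495 623))))) (merge (node 432 (merge (leaf 5 431 559) (node 433 (merge (leaf 6 400 401) (node 560 (merge (leaf 6 432 465) (node 431 (merge (leaf 7 399 399) (leaf 7 431 463))))))))) (merge (node 432 (merge (node 401 (merge (leaf 6 400 433) (node 400 (merge (leaf 6 368 369) (leaf 5 399 495))))) (merge (node 400 (merge (leaf 5 399 495) (node 399 (merge (leaf 7 367 367) (leaf 7 399 431))))) (node 433 (merge (leaf 6 400 401) (node 465 (merge (leaf 6 432 560) (node 431 (merge (leaf 7 399 399) (node 466 (merge (leaf 0 430 430) (leaf 3 431 467))))))))))))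 (node 465 (merge (node 433 (merge (leaf 6 432 560) (node 401 (merge (leaf 5 368 369) (leaf 5 400 497))))) (merge (node 560 (merge (leaf 6 432 433) (node 561 (merge (leaf 4 464 593) (node 562 (merge (leaf 3 527 563) (node 559 (merge (leaf 3 526 526) (leaf 5 463 591))))))))) (merge (node 466 (merge (node 467 (merge (leaf 1 463 495) (node 500 (merge (leaf 0 464 499) (node 468 (merge (leaf 1 464 497) (leaf 0 465 501))))))) (merge (node 467 (merge (leaf 1 463 495) (node 499 (merge (leaf 0 464 500) (node 463 (merge (leaf 0 463 498) (node 435 (merge (leaf 2 431 434) (leaf 2 432 436))))))))) (merge (node 433 (merge (node 401 (merge (leaf 5 368 369) (leaf 5 400 497))) (node 463 (merge (node 434 (merge (leaf 2 431 435) (leaf 2 430 462))) (node 431 (merge (leaf 3 430 430) (node 399 (merge (leaf 4 367 367) (leaf 4 399 495))))))))) (node 499 (merge (node 498 (merge (leaf 0 463 463) (leaf 1 495 497))) (merge (node 500 (merge (leaf 0 464 467) (node 498 (merge (leaf 1 495 497) (leaf 3 465 501))))) (merge (node 463 (merge (leaf 0 463 498) (node 467 (merge (leaf 0 464 500) (node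 435 (merge (leaf 2 431 434) (leaf 2 432 436))))))) (node 467 (merge (leaf 0 464 500) (node 497 (merge (leaf 1 464 468) (node 435 (merge (leaf 2 432 436) (node 463 (merge (leaf 2 431 434) (node 462 (merge (leaf 0 461 461) (node 430 (merge (leaf 3 429 429) (leaf 3 430 431))))))))))))))))))))) (node 463 (merge (node 431 (merge (leaf 7 431 560) (node 399 (merge (leaf 4 367 367) (leaf 4 399 495))))) (merge (node 560 (merge (leaf 7 431 431) (node 561 (merge (leaf 4 464 593) (node 562 (merge (leaf 3 527 563) (node 559 (merge (leaf 3 526 526) (leaf 5 463 591))))))))) (merge (node 494 (merge (node 495 (merge (leaf 1 462 466) (leaf 2 461 493))) (merge (node 462 (merge (leaf 1 461 493) (node 430 (merge (leaf 3 429 429) (node 526 (merge (leaf 4 430 559) (node 525 (merge (leaf 2 493 497) (leaf 5 429 557))))))))) (node 466 (merge (leaf 1 462 495) (node 498 (merge (leaf 0 463 499) (node 462 (merge (leaf 0 462 497) (node 430 (merge (leaf 3 429 429) (node 559 (merge (leaf 4 430 526) (node 591 (merge (leaf 5 463 560) (leaf 6 495 623)))))))))))))))) (node 494 (merge (node 493 (merge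 (leaf 1 461 462) (leaf 2 461 495))) (merge (node 462 (merge (leaf 1 461 493) (node 430 (merge (leaf 3 429 429) (node 526 (merge (leaf 4 430 559) (node 525 (merge (leaf 2 493 497) (leaf 5 429 557))))))))) (node 466 (merge (leaf 1 462 495) (node 435 (merge (leaf 2 431 434) (node 467 (merge (leaf 2 432 436) (node 500 (merge (leaf 0 464 499) (node 468 (merge (leaf 1 464 497) (leaf 0 465 501)))))))))))))))))))))))))) (merge (node 464 (merge (node 432 (merge (leaf 5 431 559) (node 433 (merge (leaf 6 400 401) (node 560 (merge (leaf 6 432 465) (node 431 (merge (leaf 7 399 399) (leaf 7 431 463))))))))) (merge (node 432 (merge (leaf 5 431 559) (node 401 (merge (leaf 6 400 433) (node 400 (merge (leaf 6 368 369) (leaf 5 399 495))))))) (merge (node 432 (merge (leaf 5 431 559) (node 495 (merge (leaf 5 399 400) (node 431 (merge (leaf 7 399 399) (node 560 (merge (leaf 4 431 463) (node 593 (merge (leaf 4 464 561) (node 592 (merge (leaf 7 495 624) (leaf 4 496 625))))))))))))) (merge (node 432 (merge (leaf 5 431 559) (node 495 (merge (leaf 5 399 400) (node 433 (merge (leaf 6 400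 401) (node 560 (merge (leaf 6 432 465) (node 592 (merge (leaf 7 463 463) (leaf 7 495 624))))))))))) (merge (node 432 (merge (node 401 (merge (leaf 6 400 433) (node 400 (merge (leaf 6 368 369) (leaf 5 399 495))))) (merge (node 400 (merge (leaf 5 399 495) (node 399 (merge (leaf 7 367 367) (leaf 7 399 431))))) (node 433 (merge (leaf 6 400 401) (node 431 (merge (leaf 7 399 399) (node 463 (merge (leaf 7 431 560) (node 462 (merge (leaf 1 430 434) (leaf 2 429 461)))))))))))) (node 560 (merge (node 465 (merge (leaf 6 432 433) (node 592 (merge (leaf 6 464 497) (node 463 (merge (leaf 7 431 431) (leaf 7 463 495))))))) (merge (node 593 (merge (leaf 4 464 561) (node 465 (merge (leaf 6 432 433) (node 592 (merge (leaf 6 464 497) (leaf 4 496 625))))))) (merge (node 593 (merge (leaf 4 464 561) (node 592 (merge (leaf 4 496 625) (node 463 (merge (leaf 7 431 431) (leaf 7 463 495))))))) (node 561 (merge (leaf 4 464 593) (node 562 (merge (leaf 3 527 563) (node 559 (merge (leaf 3 526 526) (node 594 (merge (leaf 0 559 595) (node 530 (merge (leaf 2 527 531) (node 465 (merge (leaf 6 432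 433) (node 463 (merge (leaf 7 431 431) (node 498 (merge (leaf 7 465 497) (node 499 (merge (leaf 0 463 466) (leaf 6 466 467))))))))))))))))))))))))))))) (merge (node 495 (merge (node 463 (merge (node 560 (merge (leaf 4 431 431) (leaf 7 463 592))) (merge (node 431 (merge (leaf 4 399 399) (node 432 (merge (leaf 6 399 400) (node 430 (merge (leaf 7 398 398) (node 462 (merge (leaf 7 430 559) (node 461 (merge (leaf 1 429 433) (leaf 0 460 460))))))))))) (node 559 (merge (node 591 (merge (leaf 6 495 623) (node 590 (merge (leaf 5 462 558) (leaf 5 494 622))))) (node 462 (merge (leaf 7 430 430) (node 461 (merge (leaf 0 460 460) (node 497 (merge (leaf 3 461 494) (leaf 3 462 498)))))))))))) (merge (node 497 (merge (node 526 (merge (leaf 1 494 498) (leaf 2 493 525))) (merge (node 498 (merge (leaf 1 495 499) (node 463 (merge (leaf 3 462 462) (node 431 (merge (leaf 4 399 399) (leaf 4 431 560))))))) (node 494 (merge (node 493 (merge (leaf 0 492 492) (node 461 (merge (leaf 3 460 460) (leaf 3 461 462))))) (merge (node 493 (merge (leaf 0 492 492) (node 525 (merge (leaf 1 492 524)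 (leaf 1 493 526))))) (node 526 (merge (leaf 1 493 525) (node 465 (merge (leaf 2 462 466) (node 462 (merge (leaf 3 461 461) (node 430 (merge (leaf 4 398 398) (node 431 (merge (leaf 6 398 399) (node 560 (merge (leaf 4 431 463) (leaf 6 464 592))))))))))))))))))) (merge (node 463 (merge (node 431 (merge (leaf 4 399 399) (node 526 (merge (leaf 5 430 558) (node 525 (merge (leaf 2 493 497) (leaf 2 492 524))))))) (merge (node 431 (merge (leaf 4 399 399) (node 432 (merge (leaf 6 399 400) (node 430 (merge (leaf 7 398 398) (node 462 (merge (leaf 7 430 559) (node 461 (merge (leaf 1 429 433) (leaf 0 460 460))))))))))) (node 559 (merge (node 591 (merge (leaf 6 495 623) (node 590 (merge (leaf 5 462 558) (leaf 5 494 622))))) (node 462 (merge (leaf 7 430 430) (node 497 (merge (leaf 3 462 498) (node 525 (merge (leaf 2 493 526) (node 494 (merge (leaf 3 461 461) (node 493 (merge (leaf 0 492 492) (leaf 1 492 524)))))))))))))))) (merge (node 497 (merge (node 526 (merge (leaf 1 494 498) (leaf 2 493 525))) (merge (node 498 (merge (leaf 1 495 499) (node 530 (merge (leaf 0 495 531) (node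 466 (merge (leaf 2 463 467) (node 465 (merge (leaf 2 462 494) (node 433 (merge (leaf 4 401 401) (leaf 7 433 562))))))))))) (node 494 (merge (node 493 (merge (leaf 0 492 492) (node 461 (merge (leaf 3 460 460) (leaf 3 461 462))))) (merge (node 462 (merge (leaf 3 461 461) (node 430 (merge (leaf 4 398 398) (node 559 (merge (leaf 4 430 526) (leaf 7 462 591))))))) (node 493 (merge (leaf 0 492 492) (node 525 (merge (leaf 1 492 524) (leaf 1 493 526))))))))))) (merge (node 463 (merge (node 560 (merge (leaf 4 431 431) (leaf 7 463 592))) (merge (node 431 (merge (leaf 4 399 399) (node 526 (merge (leaf 5 430 558) (node 525 (merge (leaf 2 493 497) (leaf 2 492 524))))))) (node 559 (merge (node 591 (merge (leaf 6 495 623) (node 590 (merge (leaf 5 462 558) (leaf 5 494 622))))) (merge (node 560 (merge (leaf 4 463 592) (node 558 (merge (leaf 5 462 590) (node 557 (merge (leaf 2 524 556) (node 525 (merge (leaf 3 524 524) (node 561 (merge (leaf 0 525 526) (node 594 (merge (leaf 0 558 593) (node 562 (merge (leaf 3 527 563) (leaf 0 559 595))))))))))))))) (merge (node 591 (merge (leaf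 6 495 623) (node 592 (merge (leaf 4 495 624) (node 560 (merge (leaf 4 463 463) (node 593 (merge (leaf 4 496 625) (node 594 (merge (leaf 3 558 558) (leaf 3 559 595))))))))))) (node 591 (merge (leaf 6 495 623) (node 592 (merge (leaf 4 495 624) (node 560 (merge (leaf 4 463 463) (node 590 (merge (leaf 5 494 622) (node 561 (merge (leaf 1 558 562) (leaf 2 557 589)))))))))))))))))) (node 463 (merge (node 560 (merge (leaf 4 431 431) (leaf 7 463 592))) (merge (node 431 (merge (leaf 4 399 399) (node 432 (merge (leaf 6 399 400) (node 430 (merge (leaf 7 398 398) (node 462 (merge (leaf 7 430 559) (node 461 (merge (leaf 1 429 433) (leaf 0 460 460))))))))))) (node 559 (merge (node 591 (merge (leaf 6 495 623) (node 462 (merge (leaf 7 430 430) (leaf 7 462 494))))) (node 560 (merge (leaf 4 463 592) (node 558 (merge (leaf 5 462 590) (node 557 (merge (leaf 2 524 556) (node 525 (merge (leaf 3 524 524) (node 561 (merge (leaf 0 525 526) (node 594 (merge (leaf 0 558 593) (node 562 (merge (leaf 3 527 563) (leaf 0 559 595)))))))))))))))))))))))))) (merge (node 464 (merge (node 559 (merge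 (leaf 5 431 432) (node 591 (merge (leaf 6 463 495) (leaf 6 495 623))))) (merge (node 432 (merge (leaf 5 431 559) (node 433 (merge (leaf 6 400 401) (node 560 (merge (leaf 6 432 465) (node 431 (merge (leaf 7 399 399) (leaf 7 431 463))))))))) (merge (node 432 (merge (node 401 (merge (leaf 6 400 433) (node 400 (merge (leaf 6 368 369) (leaf 5 399 495))))) (merge (node 400 (merge (leaf 5 399 495) (node 399 (merge (leaf 7 367 367) (leaf 7 399 431))))) (node 433 (merge (leaf 6 400 401) (node 465 (merge (leaf 6 432 560) (node 431 (merge (leaf 7 399 399) (node 466 (merge (leaf 0 430 430) (leaf 3 431 467)))))))))))) (node 560 (merge (node 593 (merge (leaf 4 464 561) (node 592 (merge (leaf 4 496 625) (node 591 (merge (leaf 5 463 559) (leaf 5 495 623))))))) (merge (node 465 (merge (leaf 6 432 433) (node 592 (merge (leaf 6 464 497) (node 463 (merge (leaf 7 431 431) (leaf 7 463 495))))))) (node 561 (merge (leaf 4 464 593) (node 562 (merge (leaf 3 527 563) (node 559 (merge (leaf 5 463 591) (node 594 (merge (leaf 0 559 595) (node 530 (merge (leaf 2 527 531) (node 465 (merge (leaf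 6 432 433) (node 463 (merge (leaf 7 431 431) (node 498 (merge (leaf 7 465 497) (node 499 (merge (leaf 0 463 466) (leaf 6 466 467)))))))))))))))))))))))))) (merge (node 464 (merge (node 559 (merge (leaf 5 431 432) (node 591 (merge (leaf 5 463 560) (leaf 6 495 623))))) (merge (node 432 (merge (leaf 5 431 559) (node 400 (merge (leaf 5 399 495) (node 399 (merge (leaf 7 367 367) (leaf 7 399 431))))))) (merge (node 560 (merge (node 561 (merge (leaf 4 464 593) (node 562 (merge (leaf 3 527 563) (node 559 (merge (leaf 3 526 526) (leaf 5 463 591))))))) (merge (node 593 (merge (leaf 4 464 561) (node 592 (merge (leaf 4 496 625) (node 463 (merge (leaf 7 431 431) (leaf 7 463 495))))))) (node 591 (merge (leaf 5 463 559) (node 463 (merge (leaf 7 431 431) (node 592 (merge (leaf 7 463 495) (leaf 5 495 623)))))))))) (node 495 (merge (node 432 (merge (leaf 5 399 400) (node 431 (merge (leaf 7 399 399) (node 560 (merge (leaf 4 431 463) (node 593 (merge (leaf 4 464 561) (node 592 (merge (leaf 7 495 624) (leaf 4 496 625))))))))))) (merge (node 494 (merge (node 493 (merge (leaf 2 461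 465) (leaf 0 492 492))) (merge (node 493 (merge (leaf 0 492 492) (node 525 (merge (leaf 1 492 524) (node 497 (merge (leaf 2 493 526) (node 461 (merge (leaf 3 460 460) (leaf 3 461 462))))))))) (node 526 (merge (node 525 (merge (leaf 2 493 497) (leaf 2 492 524))) (merge (node 497 (merge (leaf 1 494 498) (node 465 (merge (leaf 2 462 466) (node 462 (merge (leaf 3 461 461) (node 430 (merge (leaf 4 398 398) (node 429 (merge (leaf 7 397 397) (leaf 3 429 463))))))))))) (node 525 (merge (leaf 2 492 524) (node 557 (merge (leaf 1 524 556) (node 462 (merge (leaf 5 429 430) (node 589 (merge (leaf 5 461 558) (leaf 6 493 621))))))))))))))) (node 494 (merge (node 493 (merge (leaf 2 461 465) (leaf 0 492 492))) (merge (node 493 (merge (leaf 0 492 492) (node 525 (merge (leaf 1 492 524) (node 497 (merge (leaf 2 493 526) (node 461 (merge (leaf 3 460 460) (leaf 3 461 462))))))))) (node 526 (merge (node 525 (merge (leaf 2 493 497) (leaf 2 492 524))) (merge (node 525 (merge (leaf 2 492 524) (node 557 (merge (leaf 1 524 556) (node 462 (merge (leaf 5 429 430) (node 589 (merge (leaf 5 461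 558) (leaf 6 493 621))))))))) (node 497 (merge (leaf 1 494 498) (node 462 (merge (leaf 3 461 461) (node 430 (merge (leaf 4 398 398) (node 432 (merge (leaf 5 399 400) (node 431 (merge (leaf 6 398 399) (node 429 (merge (leaf 7 397 397) (leaf 0 429 465)))))))))))))))))))))))))) (merge (node 560 (merge (node 463 (merge (node 431 (merge (leaf 7 431 464) (node 495 (merge (leaf 4 399 399) (leaf 4 431 527))))) (merge (node 495 (merge (leaf 7 463 592) (node 431 (merge (leaf 4 399 399) (leaf 4 431 527))))) (merge (node 592 (merge (leaf 7 463 495) (node 465 (merge (leaf 6 464 497) (node 464 (merge (leaf 6 432 433) (node 591 (merge (leaf 5 463 559) (leaf 5 495 623))))))))) (node 464 (merge (leaf 7 431 431) (node 465 (merge (leaf 6 432 433) (node 592 (merge (leaf 6 464 497) (node 591 (merge (leaf 5 463 559) (leaf 5 495 623))))))))))))) (merge (node 592 (merge (node 625 (merge (leaf 4 496 593) (node 624 (merge (leaf 7 495 495) (leaf 4 528 657))))) (merge (node 623 (merge (leaf 5 495 591) (node 624 (merge (leaf 7 495 495) (leaf 5 527 655))))) (node 593 (merge (leaf 4 496 625)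 (node 561 (merge (leaf 4 464 464) (node 591 (merge (leaf 5 495 623) (node 562 (merge (leaf 1 559 563) (leaf 2 558 590)))))))))))) (merge (node 592 (merge (node 625 (merge (leaf 4 496 593) (node 624 (merge (leaf 7 495 495) (leaf 4 528 657))))) (merge (node 495 (merge (leaf 7 495 624) (node 463 (merge (leaf 4 431 431) (leaf 4 463 559))))) (node 593 (merge (leaf 4 496 625) (node 464 (merge (leaf 4 464 561) (node 465 (merge (leaf 6 432 433) (leaf 6 464 497)))))))))) (merge (node 591 (merge (node 559 (merge (leaf 5 463 464) (node 623 (merge (leaf 6 495 527) (leaf 6 527 655))))) (merge (node 623 (merge (leaf 5 495 592) (node 559 (merge (leaf 6 495 527) (leaf 6 527 655))))) (merge (node 464 (merge (leaf 5 463 559) (node 593 (merge (leaf 4 464 561) (node 465 (merge (leaf 6 432 433) (node 592 (merge (leaf 6 464 497) (leaf 4 496 625))))))))) (node 592 (merge (leaf 5 495 623) (node 593 (merge (leaf 4 496 625) (node 561 (merge (leaf 4 464 464) (node 590 (merge (leaf 2 558 562) (leaf 2 557 589))))))))))))) (merge (node 497 (merge (node 526 (merge (leaf 2 493 525) (node 498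 (merge (leaf 1 494 495) (leaf 1 495 499))))) (node 592 (merge (leaf 6 464 465) (node 625 (merge (leaf 4 496 593) (node 624 (merge (leaf 4 528 657) (node 623 (merge (leaf 5 495 591) (leaf 5 527 655))))))))))) (node 559 (merge (node 591 (merge (leaf 5 463 464) (leaf 6 495 623))) (merge (node 526 (merge (node 525 (merge (leaf 2 493 497) (leaf 0 524 524))) (node 561 (merge (leaf 3 526 562) (node 593 (merge (leaf 4 464 464) (node 558 (merge (leaf 0 558 594) (node 590 (merge (leaf 1 557 589) (node 622 (merge (leaf 6 494 495) (leaf 6 526 654))))))))))))) (node 558 (merge (node 557 (merge (leaf 2 524 556) (node 525 (merge (leaf 3 524 524) (node 526 (merge (leaf 2 493 497) (leaf 0 525 561))))))) (merge (node 557 (merge (leaf 2 524 556) (node 589 (merge (leaf 1 556 588) (node 561 (merge (leaf 1 557 590) (node 562 (merge (leaf 3 526 526) (leaf 3 527 563))))))))) (merge (node 557 (merge (leaf 2 524 556) (node 589 (merge (leaf 1 556 588) (node 561 (merge (leaf 1 557 590) (node 594 (merge (leaf 0 558 593) (node 562 (merge (leaf 3 527 563) (leaf 0 559 595))))))))))) (merge (node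 590 (merge (node 561 (merge (leaf 1 557 589) (node 562 (merge (leaf 3 527 563) (leaf 1 558 591))))) (merge (node 495 (merge (leaf 5 462 463) (node 591 (merge (leaf 5 494 622) (leaf 6 495 623))))) (merge (node 495 (merge (leaf 5 462 463) (node 591 (merge (leaf 5 494 622) (leaf 6 495 623))))) (node 561 (merge (leaf 1 557 589) (node 526 (merge (leaf 3 525 525) (node 562 (merge (leaf 3 526 527) (node 595 (merge (leaf 0 559 594) (node 563 (merge (leaf 0 560 596) (node 531 (merge (leaf 2 527 530) (leaf 2 528 532))))))))))))))))) (node 557 (merge (leaf 2 524 556) (node 589 (merge (leaf 1 556 588) (node 525 (merge (leaf 3 524 524) (node 526 (merge (leaf 2 493 497) (node 493 (merge (leaf 3 492 492) (node 622 (merge (leaf 4 493 590) (node 621 (merge (leaf 6 493 494) (leaf 4 525 654))))))))))))))))))))))))))))) (merge (node 464 (merge (node 559 (merge (leaf 5 431 432) (node 591 (merge (leaf 5 463 560) (leaf 6 495 623))))) (merge (node 432 (merge (leaf 5 431 559) (node 401 (merge (leaf 6 400 433) (node 400 (merge (leaf 6 368 369) (leaf 5 399 495))))))) (merge (node 560 (merge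 (node 561 (merge (leaf 4 464 593) (node 562 (merge (leaf 3 527 563) (node 559 (merge (leaf 3 526 526) (leaf 5 463 591))))))) (merge (node 593 (merge (leaf 4 464 561) (node 465 (merge (leaf 6 432 433) (node 592 (merge (leaf 6 464 497) (leaf 4 496 625))))))) (node 465 (merge (leaf 6 432 433) (node 592 (merge (leaf 6 464 497) (node 591 (merge (leaf 5 463 559) (leaf 5 495 623)))))))))) (node 432 (merge (node 433 (merge (leaf 6 400 401) (node 560 (merge (leaf 6 432 465) (node 593 (merge (leaf 4 464 561) (node 592 (merge (leaf 4 496 625) (node 623 (merge (leaf 5 495 591) (node 624 (merge (leaf 7 495 495) (leaf 5 527 655))))))))))))) (merge (node 400 (merge (leaf 5 399 495) (node 369 (merge (leaf 6 368 401) (node 368 (merge (leaf 6 336 337) (node 367 (merge (leaf 7 335 335) (leaf 7 367 399))))))))) (merge (node 400 (merge (node 401 (merge (leaf 6 368 369) (leaf 6 400 433))) (merge (node 369 (merge (leaf 6 368 401) (node 368 (merge (leaf 6 336 337) (node 367 (merge (leaf 7 335 335) (leaf 7 367 399))))))) (merge (node 367 (merge (leaf 7 367 399) (node 368 (merge (leaf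 7 335 335) (node 465 (merge (leaf 4 368 497) (node 433 (merge (leaf 4 336 336) (leaf 6 432 560))))))))) (node 433 (merge (leaf 6 400 401) (node 465 (merge (leaf 6 432 560) (node 368 (merge (leaf 4 336 336) (leaf 4 368 497))))))))))) (node 400 (merge (leaf 5 399 495) (node 367 (merge (leaf 7 367 399) (node 368 (merge (leaf 7 335 335) (node 465 (merge (leaf 4 368 497) (node 433 (merge (leaf 4 336 336) (leaf 6 432 560))))))))))))))))))) (merge (node 526 (merge (node 525 (merge (leaf 2 493 497) (node 560 (merge (leaf 0 525 561) (node 524 (merge (leaf 0 524 559) (node 556 (merge (leaf 1 523 555) (leaf 1 524 557))))))))) (merge (node 525 (merge (leaf 2 493 497) (node 556 (merge (leaf 1 524 557) (node 524 (merge (leaf 1 523 555) (node 492 (merge (leaf 3 491 491) (leaf 3 492 493))))))))) (merge (node 464 (merge (node 559 (merge (leaf 5 431 432) (node 591 (merge (leaf 5 463 560) (leaf 6 495 623))))) (merge (node 432 (merge (leaf 5 431 559) (node 401 (merge (leaf 6 400 433) (node 400 (merge (leaf 6 368 369) (node 399 (merge (leaf 7 367 367) (leaf 7 399 431))))))))) (merge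 (node 560 (merge (node 561 (merge (leaf 4 464 593) (node 562 (merge (leaf 3 527 563) (node 559 (merge (leaf 3 526 526) (leaf 5 463 591))))))) (merge (node 593 (merge (leaf 4 464 561) (node 465 (merge (leaf 6 432 433) (node 592 (merge (leaf 6 464 497) (leaf 4 496 625))))))) (node 465 (merge (leaf 6 432 433) (node 592 (merge (leaf 6 464 497) (node 591 (merge (leaf 5 463 559) (leaf 5 495 623)))))))))) (node 463 (merge (node 431 (merge (leaf 7 431 560) (node 399 (merge (leaf 4 367 367) (leaf 7 399 432))))) (merge (node 560 (merge (leaf 7 431 431) (node 593 (merge (leaf 4 464 561) (node 592 (merge (leaf 4 496 625) (node 465 (merge (leaf 6 432 433) (leaf 6 464 497))))))))) (merge (node 462 (merge (node 461 (merge (leaf 0 461 497) (node 432 (merge (leaf 2 429 433) (node 431 (merge (leaf 7 399 399) (leaf 2 428 460))))))) (merge (node 461 (merge (leaf 0 461 497) (node 429 (merge (leaf 3 428 428) (node 494 (merge (leaf 7 429 558) (node 397 (merge (leaf 4 365 365) (leaf 4 397 493))))))))) (merge (node 432 (merge (node 433 (merge (leaf 6 400 401) (node 434 (merge (leaf 1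 431 435) (node 462 (merge (leaf 2 429 461) (leaf 2 430 465))))))) (merge (node 433 (merge (leaf 6 400 401) (node 431 (merge (leaf 7 399 399) (leaf 1 430 434))))) (node 431 (merge (leaf 7 399 399) (node 494 (merge (leaf 6 430 558) (node 465 (merge (leaf 1 461 493) (node 430 (merge (leaf 0 429 429) (leaf 3 430 466)))))))))))) (node 465 (merge (node 498 (merge (leaf 0 462 497) (node 466 (merge (leaf 0 463 499) (node 430 (merge (leaf 3 429 429) (leaf 3 430 431))))))) (merge (node 433 (merge (leaf 2 430 434) (node 401 (merge (leaf 5 368 369) (leaf 5 400 497))))) (merge (node 434 (merge (leaf 2 430 433) (node 466 (merge (leaf 2 431 435) (node 430 (merge (leaf 3 429 429) (leaf 3 430 431))))))) (node 497 (merge (leaf 0 462 498) (node 433 (merge (leaf 5 400 401) (leaf 2 430 434))))))))))))) (node 465 (merge (node 433 (merge (leaf 6 432 560) (node 462 (merge (leaf 2 430 434) (node 432 (merge (leaf 6 400 401) (leaf 2 429 461))))))) (merge (node 433 (merge (node 401 (merge (leaf 5 368 369) (leaf 5 400 497))) (merge (node 462 (merge (leaf 2 430 434) (node 432 (merge (leaf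 6 400 401) (leaf 2 429 461))))) (node 462 (merge (leaf 2 430 434) (node 461 (merge (leaf 2 429 432) (leaf 0 461 497)))))))) (merge (node 560 (merge (leaf 6 432 433) (node 593 (merge (leaf 4 464 561) (node 592 (merge (leaf 6 464 497) (leaf 4 496 625))))))) (node 466 (merge (node 499 (merge (leaf 0 463 498) (node 467 (merge (leaf 0 464 500) (node 435 (merge (leaf 2 431 434) (leaf 2 432 436))))))) (merge (node 498 (merge (leaf 0 463 499) (node 462 (merge (leaf 0 462 497) (node 494 (merge (leaf 1 461 493) (node 429 (merge (leaf 3 429 430) (node 461 (merge (leaf 3 428 428) (leaf 7 429 558))))))))))) (merge (node 435 (merge (leaf 2 431 434) (node 467 (merge (leaf 2 432 436) (node 500 (merge (leaf 0 464 499) (node 468 (merge (leaf 1 464 497) (leaf 0 465 501))))))))) (node 435 (merge (leaf 2 431 434) (node 467 (merge (leaf 2 432 436) (node 497 (merge (leaf 1 464 468) (node 462 (merge (leaf 0 461 461) (leaf 0 462 498))))))))))))))))))))))))) (node 560 (merge (node 525 (merge (leaf 0 525 561) (node 556 (merge (leaf 1 524 557) (node 524 (merge (leaf 1 523 555) (node 492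 (merge (leaf 3 491 491) (leaf 3 492 493))))))))) (merge (node 464 (merge (node 561 (merge (leaf 4 464 593) (node 562 (merge (leaf 3 527 563) (node 559 (merge (leaf 3 526 526) (leaf 5 463 591))))))) (node 433 (merge (leaf 6 432 465) (node 432 (merge (leaf 6 400 401) (node 431 (merge (leaf 7 399 399) (leaf 7 431 463))))))))) (node 559 (merge (node 591 (merge (leaf 5 463 464) (leaf 6 495 623))) (merge (node 494 (merge (node 462 (merge (leaf 4 430 430) (node 591 (merge (leaf 4 462 558) (leaf 7 494 623))))) (merge (node 525 (merge (leaf 0 524 524) (node 557 (merge (leaf 1 524 556) (node 493 (merge (leaf 3 492 492) (node 589 (merge (leaf 6 461 462) (leaf 6 493 621))))))))) (merge (node 525 (merge (leaf 0 524 524) (node 557 (merge (leaf 1 524 556) (node 493 (merge (leaf 3 492 492) (node 462 (merge (leaf 4 430 430) (leaf 6 461 589))))))))) (node 525 (merge (leaf 0 524 524) (node 557 (merge (leaf 1 524 556) (node 493 (merge (leaf 3 492 492) (node 589 (merge (leaf 6 493 621) (node 588 (merge (leaf 1 556 558) (leaf 5 492 620))))))))))))))) (node 525 (merge (leaf 0 524 524)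 (node 557 (merge (leaf 1 524 556) (node 493 (merge (leaf 3 492 492) (node 464 (merge (leaf 5 431 432) (node 465 (merge (leaf 6 432 433) (node 463 (merge (leaf 7 431 431) (node 462 (merge (leaf 1 461 494) (node 430 (merge (leaf 3 429 429) (leaf 6 429 461))))))))))))))))))))))))))) (merge (node 526 (merge (node 497 (merge (leaf 2 493 525) (node 498 (merge (leaf 1 494 495) (leaf 1 495 499))))) (merge (node 525 (merge (leaf 2 493 497) (node 556 (merge (leaf 1 524 557) (node 524 (merge (leaf 1 523 555) (node 492 (merge (leaf 3 491 491) (leaf 3 492 493))))))))) (merge (node 560 (merge (node 525 (merge (leaf 0 525 561) (node 556 (merge (leaf 1 524 557) (node 524 (merge (leaf 1 523 555) (node 492 (merge (leaf 3 491 491) (leaf 3 492 493))))))))) (merge (node 592 (merge (node 625 (merge (leaf 4 496 593) (node 624 (merge (leaf 7 495 495) (leaf 4 528 657))))) (merge (node 623 (merge (leaf 5 495 591) (node 624 (merge (leaf 7 495 495) (leaf 5 527 655))))) (node 593 (merge (leaf 4 496 625) (node 561 (merge (leaf 4 464 464) (node 591 (merge (leaf 5 495 623) (node 562 (merge (leaf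 1 559 563) (leaf 2 558 590)))))))))))) (node 495 (merge (node 464 (merge (node 431 (merge (leaf 4 431 463) (node 432 (merge (leaf 7 399 399) (leaf 5 399 400))))) (merge (node 433 (merge (leaf 6 432 465) (node 432 (merge (leaf 5 399 400) (leaf 6 400 401))))) (node 463 (merge (leaf 4 431 431) (node 465 (merge (leaf 6 432 433) (node 466 (merge (leaf 1 463 467) (leaf 1 462 494)))))))))) (node 525 (merge (leaf 2 492 524) (node 557 (merge (leaf 1 524 556) (node 493 (merge (leaf 3 492 492) (node 592 (merge (leaf 7 495 624) (node 593 (merge (leaf 4 496 625) (node 591 (merge (leaf 5 495 623) (node 590 (merge (leaf 3 557 558) (node 622 (merge (leaf 4 493 589) (leaf 1 589 621)))))))))))))))))))))) (hyp 0))))) (hyp 1))))))))))))) nF_22 cF_22 13 (by decide +kernel)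
def nF_23 : ℕ := 0x1800000008000000000000000000000000000000000000000000000000000000000000000000000000000000000000000000000000000000000000000000000000000
def cF_23 : ℕ := 0x7c000000ff000000ff000000e3000000f7000000f7000000f400000034000000000000000000000000000000000000000000000000000000000000000000000000000000000000000000000000000
theorem lF_23 : S nF_23 cF_23 12 := S_of_chk [] trivial (node 496 (merge (node 464 (merge (node 432 (merge (leaf 5 399 400) (leaf 5 431 559))) (node 530 (merge (node 494 (merge (leaf 3 494 529) (node 493 (merge (leaf 2 461 465) (leaf 0 492 492))))) (merge (node 498 (merge (node 497 (merge (leaf 1 495 499) (leaf 0 495 531))) (merge (node 529 (merge (leaf 2 495 499) (leaf 3 495 531))) (merge (node 531 (merge (leaf 0 495 497) (leaf 3 495 529))) (node 499 (merge (leaf 1 495 497) (leaf 2 495 529))))))) (node 497 (merge (node 498 (merge (leaf 1 495 499) (leaf 0 495 531))) (node 494 (merge (node 493 (merge (leaf 0 492 492) (node 461 (merge (leaf 3 460 460) (leaf 3 461 462))))) (merge (node 493 (merge (leaf 0 492 492) (node 465 (merge (leaf 2 461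 464) (leaf 2 462 466))))) (node 465 (merge (leaf 2 462 466) (node 433 (merge (leaf 5 400 401) (node 560 (merge (leaf 6 432 464) (leaf 6 464 592))))))))))))))))) (merge (node 494 (merge (node 493 (merge (leaf 0 492 492) (leaf 0 493 529))) (merge (node 493 (merge (leaf 0 492 492) (node 464 (merge (leaf 2 461 465) (node 559 (merge (leaf 5 431 432) (leaf 6 463 591))))))) (node 560 (merge (node 592 (merge (leaf 7 495 624) (node 591 (merge (leaf 5 495 623) (node 497 (merge (leaf 6 464 465) (node 462 (merge (leaf 3 461 461) (leaf 7 462 559))))))))) (merge (node 592 (merge (leaf 7 495 624) (node 593 (merge (leaf 4 496 625) (node 464 (merge (leaf 4 464 561) (node 432 (merge (leaf 5 399 400) (leaf 5 431 559))))))))) (merge (node 592 (merge (leaf 7 495 624) (node 593 (merge (leaf 4 496 625) (node 464 (merge (leaf 4 464 561) (node 432 (merge (leaf 5 399 400) (node 433 (merge (leaf 6 400 401) (leaf 6 432 465))))))))))) (node 559 (merge (node 591 (merge (leaf 7 462 462) (leaf 6 495 623))) (merge (node 464 (merge (leaf 5 431 432) (node 561 (merge (leaf 4 464 593) (node 562 (merge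 (leaf 3 527 563) (node 594 (merge (leaf 0 559 595) (node 465 (merge (leaf 6 432 433) (node 497 (merge (leaf 2 462 466) (leaf 4 465 529))))))))))))) (node 464 (merge (leaf 5 431 432) (leaf 5 463 591))))))))))))) (merge (node 494 (merge (node 529 (merge (leaf 0 493 493) (leaf 3 494 530))) (merge (node 493 (merge (leaf 0 492 492) (node 464 (merge (leaf 2 461 465) (node 559 (merge (leaf 5 431 432) (leaf 6 463 591))))))) (node 497 (merge (node 466 (merge (leaf 2 462 465) (node 498 (merge (leaf 2 463 467) (leaf 1 495 499))))) (merge (node 530 (merge (leaf 0 494 529) (node 498 (merge (leaf 1 495 499) (leaf 0 495 531))))) (merge (node 498 (merge (leaf 1 495 499) (node 530 (merge (leaf 0 495 531) (node 529 (merge (leaf 0 494 494) (node 562 (merge (leaf 0 527 563) (node 594 (merge (leaf 7 465 465) (leaf 7 497 626))))))))))) (node 529 (merge (leaf 0 494 530) (node 465 (merge (leaf 2 462 466) (node 433 (merge (leaf 5 400 401) (node 432 (merge (leaf 7 400 400) (node 561 (merge (leaf 4 432 464) (node 594 (merge (leaf 4 465 562) (node 593 (merge (leaf 7 496 625) (leaf 4 497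 626)))))))))))))))))))))) (merge (node 494 (merge (node 529 (merge (leaf 0 493 493) (leaf 3 494 530))) (merge (node 493 (merge (leaf 0 492 492) (node 464 (merge (leaf 2 461 465) (node 559 (merge (leaf 5 431 432) (leaf 6 463 591))))))) (node 497 (merge (node 466 (merge (leaf 2 462 465) (node 498 (merge (leaf 2 463 467) (leaf 1 495 499))))) (merge (node 465 (merge (leaf 2 462 466) (node 433 (merge (leaf 5 400 401) (node 560 (merge (leaf 6 432 464) (leaf 5 432 529))))))) (merge (node 530 (merge (leaf 0 494 529) (node 498 (merge (leaf 1 495 499) (leaf 0 495 531))))) (node 498 (merge (leaf 1 495 499) (node 530 (merge (leaf 0 495 531) (node 529 (merge (leaf 0 494 494) (node 562 (merge (leaf 0 527 563) (node 594 (merge (leaf 7 465 465) (leaf 7 497 626)))))))))))))))))) (merge (node 494 (merge (node 529 (merge (leaf 0 493 493) (leaf 3 494 530))) (merge (node 493 (merge (leaf 0 492 492) (node 525 (merge (leaf 1 492 524) (node 461 (merge (leaf 3 460 460) (node 462 (merge (leaf 3 461 497) (node 430 (merge (leaf 4 398 398) (leaf 6 429 557))))))))))) (node 497 (merge (node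 466 (merge (leaf 2 462 465) (node 498 (merge (leaf 2 463 467) (leaf 1 495 499))))) (merge (node 465 (merge (leaf 2 462 466) (node 433 (merge (leaf 5 400 401) (node 560 (merge (leaf 5 432 529) (leaf 6 464 592))))))) (merge (node 530 (merge (leaf 0 494 529) (node 498 (merge (leaf 1 495 499) (leaf 0 495 531))))) (node 498 (merge (leaf 1 495 499) (node 530 (merge (leaf 0 495 531) (node 529 (merge (leaf 0 494 494) (node 562 (merge (leaf 0 527 563) (node 594 (merge (leaf 7 465 465) (leaf 7 497 626)))))))))))))))))) (merge (node 464 (merge (node 432 (merge (leaf 5 399 400) (leaf 5 431 559))) (merge (node 432 (merge (leaf 5 399 400) (node 529 (merge (leaf 4 432 561) (node 530 (merge (leaf 3 494 494) (leaf 3 495 531))))))) (node 560 (merge (node 593 (merge (leaf 4 464 561) (node 592 (merge (leaf 7 495 624) (leaf 4 496 625))))) (merge (node 561 (merge (leaf 4 464 593) (node 562 (merge (leaf 3 527 563) (node 559 (merge (leaf 5 463 591) (node 530 (merge (leaf 2 527 531) (node 558 (merge (leaf 1 526 529) (node 589 (merge (leaf 1 557 590) (node 557 (merge (leaf 2 524 556) (leaf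 1 556 588))))))))))))))) (merge (node 592 (merge (leaf 7 495 624) (node 593 (merge (leaf 4 496 625) (node 591 (merge (leaf 5 495 623) (node 559 (merge (leaf 5 463 464) (node 594 (merge (leaf 3 558 558) (leaf 3 559 595))))))))))) (node 592 (merge (leaf 7 495 624) (node 591 (merge (leaf 5 495 623) (node 559 (merge (leaf 5 463 464) (node 590 (merge (leaf 5 494 622) (node 589 (merge (leaf 2 557 561) (leaf 2 556 588)))))))))))))))))) (merge (node 560 (merge (node 592 (merge (leaf 7 495 624) (node 593 (merge (leaf 4 496 625) (node 464 (merge (leaf 4 464 561) (node 432 (merge (leaf 5 399 400) (leaf 5 431 559))))))))) (merge (node 592 (merge (leaf 7 495 624) (node 591 (merge (leaf 5 495 623) (node 559 (merge (leaf 5 463 464) (node 590 (merge (leaf 5 494 622) (node 589 (merge (leaf 2 557 561) (leaf 2 556 588))))))))))) (merge (node 592 (merge (leaf 7 495 624) (node 593 (merge (leaf 4 496 625) (node 591 (merge (leaf 5 495 623) (node 559 (merge (leaf 5 463 464) (node 594 (merge (leaf 3 558 558) (leaf 3 559 595))))))))))) (merge (node 592 (merge (leaf 7 495 624) (node 593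 (merge (leaf 4 496 625) (node 591 (merge (leaf 5 495 623) (node 497 (merge (leaf 6 464 465) (node 498 (merge (leaf 1 495 499) (node 530 (merge (leaf 0 495 531) (node 466 (merge (leaf 2 463 467) (node 562 (merge (leaf 5 465 561) (node 563 (merge (leaf 2 559 594) (leaf 4 466 595))))))))))))))))))) (node 464 (merge (node 432 (merge (leaf 5 399 400) (leaf 5 431 559))) (merge (node 433 (merge (leaf 6 432 465) (node 432 (merge (leaf 5 399 400) (leaf 6 400 401))))) (node 561 (merge (leaf 4 464 593) (node 562 (merge (leaf 3 527 563) (node 465 (merge (leaf 6 432 433) (node 494 (merge (leaf 2 461 493) (node 497 (merge (leaf 2 462 466) (node 498 (merge (leaf 1 495 499) (node 530 (merge (leaf 0 495 531) (leaf 7 465 594))))))))))))))))))))))) (node 529 (merge (node 530 (merge (leaf 3 495 531) (node 559 (merge (leaf 1 526 558) (node 591 (merge (leaf 6 463 464) (leaf 6 495 623))))))) (merge (node 561 (merge (node 464 (merge (leaf 4 432 432) (node 593 (merge (leaf 4 464 560) (leaf 7 496 625))))) (merge (node 530 (merge (leaf 3 495 531) (node 498 (merge (leaf 2 495 499) (node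 466 (merge (leaf 5 433 434) (node 593 (merge (leaf 5 465 562) (leaf 6 497 625))))))))) (node 530 (merge (leaf 3 495 531) (node 562 (merge (leaf 0 527 563) (node 498 (merge (leaf 2 495 499) (node 464 (merge (leaf 4 432 432) (node 466 (merge (leaf 5 433 434) (node 467 (merge (leaf 6 434 435) (leaf 1 463 465)))))))))))))))) (merge (node 530 (merge (leaf 3 495 531) (node 562 (merge (leaf 0 527 563) (node 559 (merge (leaf 1 526 558) (node 498 (merge (leaf 2 495 499) (node 591 (merge (leaf 6 495 623) (node 590 (merge (leaf 5 494 622) (node 561 (merge (leaf 1 558 560) (node 593 (merge (leaf 5 465 466) (leaf 6 497 625))))))))))))))))) (node 560 (merge (node 592 (merge (leaf 7 495 624) (node 465 (merge (leaf 6 464 497) (node 464 (merge (leaf 6 432 433) (node 432 (merge (leaf 5 399 400) (leaf 4 432 561))))))))) (merge (node 592 (merge (leaf 7 495 624) (node 593 (merge (leaf 4 496 625) (node 497 (merge (leaf 6 464 465) (node 498 (merge (leaf 1 495 499) (node 466 (merge (leaf 2 463 467) (leaf 6 465 561))))))))))) (merge (node 464 (merge (node 433 (merge (leaf 6 432 465) (node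 432 (merge (leaf 5 399 400) (leaf 6 400 401))))) (merge (node 561 (merge (leaf 4 432 432) (node 593 (merge (leaf 7 464 497) (leaf 7 496 625))))) (node 561 (merge (leaf 4 464 593) (node 562 (merge (leaf 3 527 563) (node 465 (merge (leaf 6 432 433) (node 466 (merge (leaf 1 463 467) (node 497 (merge (leaf 6 433 434) (leaf 4 465 594)))))))))))))) (node 592 (merge (leaf 7 495 624) (node 593 (merge (leaf 4 496 625) (node 591 (merge (leaf 5 495 623) (node 559 (merge (leaf 5 463 464) (node 594 (merge (leaf 3 558 558) (leaf 3 559 595))))))))))))))))))))))))))) nF_23 cF_23 12 (by decide +kernel)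
def nF_24 : ℕ := 0x1800000008000000000000000000000000000000000000000000000000000000000000000000000000000000000000000000000000000000000000000000000000000
def cF_24 : ℕ := 0x100000007c0000007c000001ec000000e0000001f7c00000ff800001ff8000007c0000007c0000005c00000000000000000000000000000000000000000000000000000000000000000000000000000000000
theorem lF_24 : S nF_24 cF_24 12 := S_of_chk [] trivial (node 463 (merge (node 431 (merge (node 399 (merge (leaf 4 399 496) (node 398 (merge (leaf 7 366 366) (leaf 7 398 430))))) (merge (node 432 (merge (leaf 6 399 400) (node 464 (merge (leaf 6 431 559) (node 430 (merge (leaf 7 398 398) (node 465 (merge (leaf 0 429 429) (leaf 3 430 466))))))))) (node 432 (merge (leaf 6 399 400) (node 559 (merge (leaf 6 431 464) (node 590 (merge (leaf 5 462 558) (node 591 (merge (leaf 5 494 622) (node 624 (merge (leaf 4 495 592) (node 623 (merge (leaf 6 495 496) (leaf 4 527 656)))))))))))))))) (merge (node 431 (merge (node 430 (merge (leaf 7 398 398) (node 559 (merge (leaf 7 430 462) (node 590 (merge (leaf 5 462 558) (node 591 (merge (leaf 5 494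 622) (node 624 (merge (leaf 4 495 592) (node 623 (merge (leaf 6 495 496) (leaf 4 527 656))))))))))))) (merge (node 399 (merge (leaf 4 399 496) (node 368 (merge (leaf 6 367 400) (node 367 (merge (leaf 6 335 336) (node 366 (merge (leaf 7 334 334) (leaf 7 366 398))))))))) (merge (node 399 (merge (node 398 (merge (leaf 7 366 366) (leaf 7 398 430))) (merge (node 368 (merge (leaf 6 367 400) (node 367 (merge (leaf 6 335 336) (node 366 (merge (leaf 7 334 334) (leaf 7 366 398))))))) (merge (node 368 (merge (leaf 6 367 400) (node 367 (merge (leaf 6 335 336) (node 462 (merge (leaf 5 366 494) (node 430 (merge (leaf 5 334 335) (leaf 7 430 559))))))))) (node 430 (merge (leaf 7 398 398) (node 462 (merge (leaf 7 430 559) (node 367 (merge (leaf 5 334 335) (leaf 5 366 494))))))))))) (node 399 (merge (leaf 4 399 496) (node 368 (merge (leaf 6 367 400) (node 367 (merge (leaf 6 335 336) (node 462 (merge (leaf 5 366 494) (node 430 (merge (leaf 5 334 335) (leaf 7 430 559))))))))))))))) (merge (node 496 (merge (node 494 (merge (node 529 (merge (leaf 0 493 493) (leaf 3 494 530))) (merge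 (node 529 (merge (leaf 3 494 530) (node 431 (merge (leaf 4 399 399) (node 432 (merge (leaf 6 399 400) (node 464 (merge (leaf 4 432 561) (node 465 (merge (leaf 1 462 466) (node 430 (merge (leaf 7 398 398) (leaf 0 429 429))))))))))))) (node 493 (merge (leaf 0 492 492) (node 465 (merge (leaf 2 461 464) (node 466 (merge (leaf 2 462 497) (node 431 (merge (leaf 4 399 399) (node 432 (merge (leaf 6 399 400) (node 430 (merge (leaf 7 398 398) (leaf 0 430 433)))))))))))))))) (merge (node 494 (merge (node 529 (merge (leaf 0 493 493) (leaf 3 494 530))) (merge (node 493 (merge (leaf 0 492 492) (node 465 (merge (leaf 2 461 464) (node 497 (merge (leaf 2 462 466) (node 461 (merge (leaf 3 460 460) (leaf 3 461 462))))))))) (node 497 (merge (node 462 (merge (leaf 3 462 498) (node 461 (merge (leaf 0 460 460) (leaf 0 461 464))))) (merge (node 530 (merge (leaf 0 494 529) (node 498 (merge (leaf 1 495 499) (leaf 0 495 531))))) (node 529 (merge (leaf 0 494 530) (node 465 (merge (leaf 2 462 466) (node 462 (merge (leaf 3 461 461) (node 433 (merge (leaf 5 400 401) (node 434 (merge (leaf 6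 401 402) (leaf 2 430 464))))))))))))))))) (merge (node 464 (merge (node 432 (merge (leaf 5 399 400) (node 529 (merge (leaf 4 432 561) (node 530 (merge (leaf 3 494 494) (leaf 3 495 531))))))) (node 431 (merge (leaf 4 399 399) (node 430 (merge (leaf 7 398 398) (node 465 (merge (leaf 3 430 466) (node 462 (merge (leaf 3 429 429) (node 497 (merge (leaf 0 462 498) (node 433 (merge (leaf 5 400 401) (leaf 2 430 434))))))))))))))) (merge (node 462 (merge (node 497 (merge (leaf 3 462 498) (node 494 (merge (leaf 3 461 461) (node 529 (merge (leaf 0 493 493) (leaf 0 494 530))))))) (merge (node 461 (merge (leaf 0 460 460) (node 431 (merge (leaf 4 399 399) (node 432 (merge (leaf 6 399 400) (node 430 (merge (leaf 7 398 398) (leaf 1 429 433))))))))) (node 498 (merge (leaf 3 462 497) (node 431 (merge (leaf 4 399 399) (node 432 (merge (leaf 6 399 400) (node 433 (merge (leaf 1 430 434) (node 464 (merge (leaf 6 400 401) (node 529 (merge (leaf 4 432 561) (node 530 (merge (leaf 3 494 494) (leaf 2 495 499)))))))))))))))))) (merge (node 462 (merge (node 461 (merge (leaf 0 460 460) (node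 431 (merge (leaf 4 399 399) (node 432 (merge (leaf 6 399 400) (node 430 (merge (leaf 7 398 398) (leaf 1 429 433))))))))) (merge (node 497 (merge (leaf 3 462 498) (node 494 (merge (leaf 3 461 461) (node 529 (merge (leaf 0 493 493) (leaf 0 494 530))))))) (merge (node 497 (merge (leaf 3 462 498) (node 431 (merge (leaf 4 399 399) (node 432 (merge (leaf 6 399 400) (node 433 (merge (leaf 1 430 434) (node 401 (merge (leaf 5 400 465) (node 430 (merge (leaf 7 398 398) (leaf 2 398 402))))))))))))) (node 497 (merge (leaf 3 462 498) (node 494 (merge (leaf 3 461 461) (node 493 (merge (leaf 0 492 492) (leaf 0 493 529))))))))))) (merge (node 494 (merge (node 529 (merge (leaf 0 493 493) (leaf 3 494 530))) (merge (node 493 (merge (leaf 0 492 492) (node 465 (merge (leaf 2 461 464) (node 497 (merge (leaf 2 462 466) (node 461 (merge (leaf 3 460 460) (leaf 3 461 462))))))))) (node 529 (merge (leaf 3 494 530) (node 431 (merge (leaf 4 399 399) (node 432 (merge (leaf 6 399 400) (node 464 (merge (leaf 4 432 561) (node 465 (merge (leaf 1 462 466) (node 430 (merge (leaf 7 398 398) (leaf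 0 429 429)))))))))))))))) (merge (node 461 (merge (node 462 (merge (leaf 0 460 460) (node 497 (merge (leaf 3 461 494) (leaf 3 462 498))))) (merge (node 431 (merge (leaf 4 399 399) (node 432 (merge (leaf 6 399 400) (node 430 (merge (leaf 7 398 398) (node 429 (merge (leaf 1 428 460) (node 464 (merge (leaf 0 428 428) (leaf 0 429 465))))))))))) (node 431 (merge (leaf 4 399 399) (node 432 (merge (leaf 6 399 400) (node 430 (merge (leaf 7 398 398) (node 433 (merge (leaf 1 429 462) (node 466 (merge (leaf 0 430 465) (node 434 (merge (leaf 0 431 467) (node 464 (merge (leaf 6 400 401) (leaf 1 431 435)))))))))))))))))) (merge (node 494 (merge (node 529 (merge (leaf 0 493 493) (leaf 3 494 530))) (merge (node 493 (merge (leaf 0 492 492) (node 465 (merge (leaf 2 461 464) (node 497 (merge (leaf 2 462 466) (node 461 (merge (leaf 3 460 460) (leaf 3 461 462))))))))) (node 529 (merge (leaf 3 494 530) (node 431 (merge (leaf 4 399 399) (node 432 (merge (leaf 6 399 400) (node 464 (merge (leaf 4 432 561) (node 433 (merge (leaf 6 400 401) (node 462 (merge (leaf 1 430 434) (leaf 2 429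 461)))))))))))))))) (merge (node 464 (merge (node 432 (merge (leaf 5 399 400) (node 529 (merge (leaf 4 432 561) (node 530 (merge (leaf 3 494 494) (leaf 3 495 531))))))) (merge (node 431 (merge (leaf 4 399 399) (node 432 (merge (leaf 5 399 400) (node 430 (merge (leaf 7 398 398) (node 429 (merge (leaf 0 428 428) (leaf 0 429 465))))))))) (node 431 (merge (leaf 4 399 399) (node 430 (merge (leaf 7 398 398) (node 465 (merge (leaf 3 430 466) (node 493 (merge (leaf 2 461 494) (node 462 (merge (leaf 3 429 429) (node 461 (merge (leaf 0 460 460) (leaf 1 460 492)))))))))))))))) (node 529 (merge (node 431 (merge (leaf 4 399 399) (node 432 (merge (leaf 6 399 400) (node 464 (merge (leaf 4 432 561) (node 430 (merge (leaf 7 398 398) (node 465 (merge (leaf 0 429 429) (leaf 3 430 466))))))))))) (merge (node 530 (merge (leaf 3 495 531) (node 562 (merge (leaf 0 527 563) (node 498 (merge (leaf 2 495 499) (node 497 (merge (leaf 3 462 462) (node 466 (merge (leaf 2 463 467) (node 593 (merge (leaf 5 465 561) (node 594 (merge (leaf 5 497 625) (leaf 7 497 626))))))))))))))) (merge (node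 530 (merge (leaf 3 495 531) (node 498 (merge (leaf 2 495 499) (node 497 (merge (leaf 3 462 462) (node 466 (merge (leaf 2 463 467) (node 434 (merge (leaf 5 401 402) (leaf 5 433 561))))))))))) (merge (node 530 (merge (leaf 3 495 531) (node 562 (merge (leaf 0 527 563) (node 498 (merge (leaf 2 495 499) (node 497 (merge (leaf 3 462 462) (node 594 (merge (leaf 7 465 465) (leaf 7 497 626))))))))))) (node 431 (merge (leaf 4 399 399) (node 432 (merge (leaf 6 399 400) (node 464 (merge (leaf 4 432 561) (node 430 (merge (leaf 7 398 398) (node 429 (merge (leaf 0 428 428) (leaf 0 429 465)))))))))))))))))))))))))) (merge (node 496 (merge (node 431 (merge (leaf 4 399 399) (node 432 (merge (leaf 6 399 400) (node 559 (merge (leaf 5 431 464) (node 590 (merge (leaf 5 462 558) (node 591 (merge (leaf 5 494 622) (leaf 6 495 623))))))))))) (merge (node 497 (merge (node 462 (merge (leaf 3 462 498) (node 461 (merge (leaf 0 460 460) (leaf 0 461 464))))) (merge (node 498 (merge (leaf 1 495 499) (node 466 (merge (leaf 2 463 467) (node 494 (merge (leaf 2 462 465) (node 493 (merge (leaf 0 492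 492) (leaf 0 493 529))))))))) (node 559 (merge (node 591 (merge (leaf 6 463 464) (leaf 6 495 623))) (merge (node 591 (merge (leaf 6 495 623) (node 590 (merge (leaf 5 462 558) (leaf 5 494 622))))) (node 558 (merge (leaf 5 462 590) (node 529 (merge (leaf 1 526 530) (node 494 (merge (leaf 0 493 493) (node 465 (merge (leaf 2 462 466) (node 462 (merge (leaf 3 461 461) (node 433 (merge (leaf 5 400 401) (node 434 (merge (leaf 6 401 402) (leaf 2 430 464))))))))))))))))))))) (merge (node 497 (merge (node 498 (merge (leaf 3 462 462) (leaf 1 495 499))) (merge (node 498 (merge (leaf 1 495 499) (node 466 (merge (leaf 2 463 467) (node 494 (merge (leaf 2 462 465) (node 493 (merge (leaf 0 492 492) (leaf 0 493 529))))))))) (node 494 (merge (node 529 (merge (leaf 0 493 493) (leaf 0 494 530))) (merge (node 493 (merge (leaf 0 492 492) (node 461 (merge (leaf 3 460 460) (leaf 3 461 462))))) (node 465 (merge (leaf 2 462 466) (node 462 (merge (leaf 3 461 461) (node 431 (merge (leaf 4 399 399) (node 433 (merge (leaf 5 400 401) (node 432 (merge (leaf 6 399 400) (leaf 1 430 434)))))))))))))))))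 (node 494 (merge (node 529 (merge (leaf 0 493 493) (leaf 3 494 530))) (merge (node 493 (merge (leaf 0 492 492) (node 465 (merge (leaf 2 461 464) (node 497 (merge (leaf 2 462 466) (node 461 (merge (leaf 3 460 460) (leaf 3 461 462))))))))) (node 529 (merge (leaf 3 494 530) (node 431 (merge (leaf 4 399 399) (node 432 (merge (leaf 6 399 400) (node 464 (merge (leaf 4 432 561) (node 433 (merge (leaf 6 400 401) (node 462 (merge (leaf 1 430 434) (leaf 2 429 461)))))))))))))))))))) (merge (node 529 (merge (node 530 (merge (leaf 3 494 494) (node 563 (merge (leaf 0 527 562) (node 531 (merge (leaf 3 495 496) (leaf 0 528 564))))))) (merge (node 530 (merge (leaf 3 494 494) (node 563 (merge (leaf 0 527 562) (node 531 (merge (leaf 0 528 564) (node 499 (merge (leaf 2 495 498) (leaf 2 496 500))))))))) (merge (node 559 (merge (node 530 (merge (leaf 1 526 558) (node 563 (merge (leaf 0 527 562) (node 531 (merge (leaf 0 528 564) (node 499 (merge (leaf 2 495 498) (leaf 2 496 500))))))))) (node 430 (merge (leaf 7 430 462) (node 431 (merge (leaf 7 398 398) (node 496 (merge (leaf 4 399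 399) (node 591 (merge (leaf 6 463 464) (leaf 6 495 623))))))))))) (node 462 (merge (node 430 (merge (leaf 7 430 559) (node 398 (merge (leaf 4 366 366) (leaf 4 398 494))))) (merge (node 559 (merge (leaf 7 430 430) (node 464 (merge (leaf 6 431 432) (node 496 (merge (leaf 6 463 591) (node 497 (merge (leaf 0 461 461) (leaf 3 462 498))))))))) (merge (node 494 (merge (node 493 (merge (leaf 0 492 492) (leaf 0 493 496))) (merge (node 493 (merge (leaf 0 492 492) (node 464 (merge (leaf 1 461 465) (node 559 (merge (leaf 6 431 432) (leaf 7 462 591))))))) (node 559 (merge (leaf 7 462 591) (node 464 (merge (leaf 6 431 432) (node 465 (merge (leaf 1 462 466) (node 497 (merge (leaf 0 462 498) (node 496 (merge (leaf 0 461 461) (node 433 (merge (leaf 5 400 401) (leaf 2 430 434)))))))))))))))) (node 496 (merge (node 461 (merge (leaf 0 460 460) (node 497 (merge (leaf 0 461 464) (leaf 3 462 498))))) (merge (node 494 (merge (leaf 0 493 493) (node 497 (merge (leaf 3 461 461) (node 498 (merge (leaf 3 462 463) (leaf 1 495 499))))))) (merge (node 461 (merge (leaf 0 460 460) (node 493 (merge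 (leaf 0 493 494) (node 464 (merge (leaf 1 460 492) (node 432 (merge (leaf 2 429 433) (leaf 4 432 561))))))))) (node 494 (merge (leaf 0 493 493) (node 497 (merge (leaf 3 462 498) (node 465 (merge (leaf 2 462 466) (node 433 (merge (leaf 5 400 401) (node 434 (merge (leaf 6 401 402) (leaf 2 430 464))))))))))))))))))))))) (merge (node 464 (merge (node 559 (merge (leaf 6 431 432) (node 591 (merge (leaf 6 463 496) (node 590 (merge (leaf 5 462 558) (leaf 5 494 622))))))) (merge (node 559 (merge (leaf 6 431 432) (node 590 (merge (leaf 5 462 558) (node 462 (merge (leaf 7 430 430) (node 591 (merge (leaf 7 462 494) (leaf 5 494 622))))))))) (merge (node 496 (merge (node 432 (merge (leaf 5 399 400) (node 529 (merge (leaf 4 432 561) (node 530 (merge (leaf 3 494 494) (leaf 3 495 531))))))) (merge (node 432 (merge (leaf 5 399 400) (node 433 (merge (leaf 6 400 401) (node 462 (merge (leaf 2 429 461) (node 465 (merge (leaf 2 430 434) (node 498 (merge (leaf 0 462 497) (node 466 (merge (leaf 1 462 494) (leaf 0 463 499))))))))))))) (merge (node 432 (merge (leaf 5 399 400) (node 529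 (merge (leaf 4 432 561) (node 530 (merge (leaf 3 495 531) (node 498 (merge (leaf 2 495 499) (node 462 (merge (leaf 3 462 497) (node 433 (merge (leaf 6 400 401) (leaf 2 429 461))))))))))))) (node 494 (merge (node 529 (merge (leaf 0 493 493) (leaf 3 494 530))) (merge (node 493 (merge (leaf 0 492 492) (node 465 (merge (leaf 2 461 464) (node 497 (merge (leaf 2 462 466) (node 461 (merge (leaf 3 460 460) (leaf 3 461 462))))))))) (node 497 (merge (node 462 (merge (leaf 3 462 498) (node 461 (merge (leaf 0 460 460) (leaf 0 461 464))))) (merge (node 530 (merge (leaf 0 494 529) (node 498 (merge (leaf 1 495 499) (leaf 0 495 531))))) (node 529 (merge (leaf 0 494 530) (node 465 (merge (leaf 2 462 466) (node 462 (merge (leaf 3 461 461) (node 433 (merge (leaf 5 400 401) (node 434 (merge (leaf 6 401 402) (leaf 2 430 464))))))))))))))))))))) (node 462 (merge (node 430 (merge (leaf 7 430 559) (node 398 (merge (leaf 4 366 366) (leaf 4 398 494))))) (merge (node 559 (merge (leaf 7 430 430) (node 591 (merge (leaf 6 463 496) (node 590 (merge (leaf 5 462 558) (leaf 5 494 622))))))) (node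 493 (merge (node 494 (merge (leaf 0 492 492) (node 465 (merge (leaf 1 461 462) (leaf 1 462 466))))) (merge (node 461 (merge (leaf 1 460 492) (node 496 (merge (leaf 0 460 460) (leaf 0 461 497))))) (node 465 (merge (leaf 1 461 494) (node 497 (merge (leaf 0 462 498) (node 433 (merge (leaf 2 430 434) (node 401 (merge (leaf 5 400 496) (node 370 (merge (leaf 6 369 402) (node 369 (merge (leaf 6 337 338) (node 368 (merge (leaf 7 336 336) (leaf 7 368 400))))))))))))))))))))))))) (node 464 (merge (node 432 (merge (leaf 6 431 559) (node 400 (merge (leaf 5 367 368) (leaf 6 399 431))))) (merge (node 559 (merge (leaf 6 431 432) (node 462 (merge (leaf 7 430 430) (node 494 (merge (leaf 7 462 591) (node 493 (merge (leaf 1 461 465) (leaf 0 492 492))))))))) (merge (node 465 (merge (node 494 (merge (leaf 1 462 466) (node 493 (merge (leaf 1 461 462) (leaf 0 492 492))))) (merge (node 466 (merge (leaf 1 462 494) (node 499 (merge (leaf 0 463 498) (node 467 (merge (leaf 0 464 500) (node 435 (merge (leaf 2 431 434) (leaf 2 432 436))))))))) (merge (node 462 (merge (node 430 (merge (leaf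 3 429 429) (node 398 (merge (leaf 4 366 366) (leaf 4 398 494))))) (merge (node 493 (merge (leaf 1 461 494) (node 461 (merge (leaf 1 460 492) (node 433 (merge (leaf 2 429 432) (leaf 2 430 434))))))) (node 430 (merge (leaf 3 429 429) (node 431 (merge (leaf 7 398 398) (node 432 (merge (leaf 6 399 400) (node 461 (merge (leaf 1 429 433) (leaf 2 428 460)))))))))))) (node 430 (merge (node 431 (merge (leaf 7 398 398) (leaf 3 430 466))) (merge (node 462 (merge (leaf 3 429 429) (node 434 (merge (leaf 2 430 433) (node 466 (merge (leaf 3 430 431) (leaf 2 431 435))))))) (node 462 (merge (leaf 3 429 429) (node 497 (merge (leaf 0 462 498) (node 433 (merge (leaf 2 430 434) (node 432 (merge (leaf 2 429 461) (node 400 (merge (leaf 4 368 368) (leaf 7 400 529)))))))))))))))))) (node 462 (merge (node 559 (merge (leaf 7 430 430) (node 590 (merge (leaf 5 462 558) (node 591 (merge (leaf 7 462 494) (leaf 5 494 622))))))) (merge (node 430 (merge (node 398 (merge (leaf 4 366 366) (leaf 4 398 494))) (merge (node 465 (merge (leaf 3 429 429) (node 466 (merge (leaf 3 430 431) (leaf 1 462 494)))))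 (node 465 (merge (leaf 3 429 429) (node 431 (merge (leaf 7 398 398) (leaf 3 430 466)))))))) (merge (node 430 (merge (leaf 7 430 559) (node 465 (merge (leaf 3 429 429) (node 431 (merge (leaf 7 398 398) (leaf 3 430 466))))))) (node 461 (merge (node 492 (merge (leaf 1 460 493) (node 460 (merge (leaf 1 459 491) (node 428 (merge (leaf 3 427 427) (leaf 3 428 429))))))) (merge (node 493 (merge (leaf 1 460 492) (node 465 (merge (leaf 1 461 494) (node 498 (merge (leaf 0 462 497) (node 466 (merge (leaf 0 463 499) (node 434 (merge (leaf 2 430 433) (leaf 2 431 435))))))))))) (merge (node 428 (merge (leaf 3 428 429) (node 460 (merge (leaf 3 427 427) (node 459 (merge (leaf 0 459 494) (node 491 (merge (leaf 1 458 490) (leaf 1 459 492))))))))) (node 428 (merge (leaf 3 428 429) (node 460 (merge (leaf 3 427 427) (node 494 (merge (leaf 0 459 459) (node 465 (merge (leaf 1 462 466) (leaf 1 461 493)))))))))))))))))))))))))))) nF_24 cF_24 12 (by decide +kernel)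
def nF_25 : ℕ := 0x1800000008000000000000000000000000000000000000000000000000000000000000000000000000000000000000000000000000000000000000000000000000000
def cF_25 : ℕ := 0x780000007c000001f2000000e3000001f7000001ff800000ff000001ff800000060000000200000000000000000000000000000000000000000000000000000000000000000000000000000000000
theorem lF_25 : S nF_25 cF_25 12 := S_of_chk [] trivial (node 496 (merge (node 497 (merge (node 498 (merge (leaf 1 495 499) (node 463 (merge (leaf 3 462 462) (node 431 (merge (leaf 4 399 399) (leaf 4 431 560))))))) (merge (node 498 (merge (leaf 1 495 499) (node 530 (merge (leaf 0 495 531) (node 466 (merge (leaf 2 463 467) (node 465 (merge (leaf 2 462 494) (node 433 (merge (leaf 4 401 401) (leaf 7 433 562))))))))))) (node 494 (merge (node 493 (merge (leaf 0 492 492) (node 461 (merge (leaf 3 460 460) (leaf 3 461 462))))) (merge (node 493 (merge (leaf 0 492 492) (node 465 (merge (leaf 2 461 464) (leaf 2 462 466))))) (node 465 (merge (leaf 2 462 466) (node 433 (merge (leaf 5 400 401) (node 560 (merge (leaf 6 432 464) (leaf 6 464 592)))))))))))))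 (merge (node 463 (merge (node 560 (merge (leaf 4 431 431) (leaf 7 463 592))) (merge (node 464 (merge (node 432 (merge (leaf 5 399 400) (node 561 (merge (leaf 4 432 529) (node 560 (merge (leaf 7 463 592) (leaf 4 464 593))))))) (merge (node 560 (merge (leaf 7 463 592) (node 465 (merge (leaf 6 432 433) (node 466 (merge (leaf 1 463 467) (leaf 1 462 494))))))) (node 432 (merge (leaf 5 399 400) (node 529 (merge (leaf 4 432 561) (node 530 (merge (leaf 3 494 494) (leaf 3 495 531)))))))))) (node 494 (merge (node 529 (merge (leaf 0 493 493) (leaf 3 494 530))) (merge (node 529 (merge (leaf 3 494 530) (node 431 (merge (leaf 4 399 399) (node 432 (merge (leaf 6 399 400) (node 464 (merge (leaf 4 432 561) (node 465 (merge (leaf 1 462 466) (node 430 (merge (leaf 7 398 398) (leaf 0 429 429))))))))))))) (node 493 (merge (leaf 0 492 492) (node 465 (merge (leaf 2 461 464) (node 466 (merge (leaf 2 462 497) (node 431 (merge (leaf 4 399 399) (node 432 (merge (leaf 6 399 400) (node 430 (merge (leaf 7 398 398) (leaf 0 430 433))))))))))))))))))) (merge (node 463 (merge (node 560 (merge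 (leaf 4 431 431) (leaf 7 463 592))) (merge (node 494 (merge (node 529 (merge (leaf 0 493 493) (leaf 3 494 530))) (merge (node 493 (merge (leaf 0 492 492) (node 465 (merge (leaf 2 461 464) (node 497 (merge (leaf 2 462 466) (node 461 (merge (leaf 3 460 460) (leaf 3 461 462))))))))) (node 529 (merge (leaf 3 494 530) (node 431 (merge (leaf 4 399 399) (node 432 (merge (leaf 6 399 400) (node 464 (merge (leaf 4 432 561) (node 465 (merge (leaf 1 462 466) (node 430 (merge (leaf 7 398 398) (leaf 0 429 429)))))))))))))))) (node 497 (merge (node 462 (merge (leaf 3 462 498) (node 461 (merge (leaf 0 460 460) (leaf 0 461 464))))) (merge (node 498 (merge (leaf 1 495 499) (node 466 (merge (leaf 2 463 467) (node 494 (merge (leaf 2 462 465) (node 493 (merge (leaf 0 492 492) (leaf 0 493 529))))))))) (node 494 (merge (node 493 (merge (leaf 0 492 492) (leaf 0 493 529))) (merge (node 493 (merge (leaf 0 492 492) (leaf 0 493 529))) (merge (node 493 (merge (leaf 0 492 492) (node 465 (merge (leaf 2 461 464) (leaf 2 462 466))))) (node 529 (merge (leaf 0 494 530) (node 465 (merge (leaf 2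 462 466) (node 462 (merge (leaf 3 461 461) (node 430 (merge (leaf 4 398 398) (node 464 (merge (leaf 3 429 429) (node 561 (merge (leaf 4 432 432) (leaf 7 464 593))))))))))))))))))))))) (merge (node 529 (merge (node 530 (merge (leaf 3 494 494) (leaf 3 495 531))) (merge (node 497 (merge (node 498 (merge (leaf 1 495 499) (node 463 (merge (leaf 3 462 462) (node 431 (merge (leaf 4 399 399) (leaf 4 431 560))))))) (node 530 (merge (leaf 3 495 531) (node 562 (merge (leaf 0 527 563) (node 465 (merge (leaf 4 433 433) (node 594 (merge (leaf 4 465 561) (leaf 7 497 626))))))))))) (node 464 (merge (node 561 (merge (leaf 4 432 432) (node 593 (merge (leaf 7 464 497) (leaf 7 496 625))))) (merge (node 432 (merge (leaf 5 399 400) (node 433 (merge (leaf 6 400 401) (node 560 (merge (leaf 6 432 465) (node 431 (merge (leaf 7 399 399) (leaf 4 431 463))))))))) (node 560 (merge (node 592 (merge (leaf 7 463 463) (leaf 7 495 624))) (merge (node 593 (merge (leaf 4 464 561) (node 592 (merge (leaf 4 496 625) (node 465 (merge (leaf 6 432 433) (leaf 6 464 497))))))) (node 463 (merge (leaf 4 431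 431) (node 561 (merge (leaf 4 464 593) (node 562 (merge (leaf 3 527 563) (node 465 (merge (leaf 6 432 433) (node 497 (merge (leaf 4 465 594) (node 498 (merge (leaf 0 462 462) (leaf 1 495 499)))))))))))))))))))))) (merge (node 463 (merge (node 560 (merge (leaf 4 431 431) (leaf 7 463 592))) (merge (node 464 (merge (node 432 (merge (leaf 5 399 400) (node 561 (merge (leaf 4 432 529) (node 560 (merge (leaf 7 463 592) (leaf 4 464 593))))))) (merge (node 560 (merge (leaf 7 463 592) (node 465 (merge (leaf 6 432 433) (node 466 (merge (leaf 1 463 467) (leaf 1 462 494))))))) (node 432 (merge (leaf 5 399 400) (node 433 (merge (leaf 6 400 401) (node 462 (merge (leaf 2 429 461) (node 465 (merge (leaf 2 430 434) (node 498 (merge (leaf 0 462 497) (node 466 (merge (leaf 1 462 494) (leaf 0 463 499)))))))))))))))) (node 461 (merge (node 462 (merge (leaf 0 460 460) (node 497 (merge (leaf 3 461 494) (leaf 3 462 498))))) (merge (node 431 (merge (leaf 4 399 399) (node 432 (merge (leaf 6 399 400) (node 430 (merge (leaf 7 398 398) (node 429 (merge (leaf 1 428 460) (node 464 (merge (leaf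 0 428 428) (leaf 0 429 465))))))))))) (node 431 (merge (leaf 4 399 399) (node 432 (merge (leaf 6 399 400) (node 430 (merge (leaf 7 398 398) (node 433 (merge (leaf 1 429 462) (node 466 (merge (leaf 0 430 465) (node 434 (merge (leaf 0 431 467) (node 464 (merge (leaf 6 400 401) (leaf 1 431 435))))))))))))))))))))) (merge (node 463 (merge (node 494 (merge (node 529 (merge (leaf 0 493 493) (leaf 3 494 530))) (merge (node 529 (merge (leaf 3 494 530) (node 431 (merge (leaf 4 399 399) (node 432 (merge (leaf 6 399 400) (node 464 (merge (leaf 4 432 561) (node 465 (merge (leaf 1 462 466) (node 430 (merge (leaf 7 398 398) (leaf 0 429 429))))))))))))) (node 493 (merge (leaf 0 492 492) (node 465 (merge (leaf 2 461 464) (node 466 (merge (leaf 2 462 497) (node 431 (merge (leaf 4 399 399) (node 432 (merge (leaf 6 399 400) (node 430 (merge (leaf 7 398 398) (leaf 0 430 433)))))))))))))))) (merge (node 494 (merge (node 529 (merge (leaf 0 493 493) (leaf 3 494 530))) (merge (node 493 (merge (leaf 0 492 492) (node 465 (merge (leaf 2 461 464) (node 497 (merge (leaf 2 462 466) (node 461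 (merge (leaf 3 460 460) (leaf 3 461 462))))))))) (node 497 (merge (node 462 (merge (leaf 3 462 498) (node 461 (merge (leaf 0 460 460) (leaf 0 461 464))))) (merge (node 530 (merge (leaf 0 494 529) (node 498 (merge (leaf 1 495 499) (leaf 0 495 531))))) (node 529 (merge (leaf 0 494 530) (node 465 (merge (leaf 2 462 466) (node 462 (merge (leaf 3 461 461) (node 433 (merge (leaf 5 400 401) (node 434 (merge (leaf 6 401 402) (leaf 2 430 464))))))))))))))))) (merge (node 464 (merge (node 432 (merge (leaf 5 399 400) (node 529 (merge (leaf 4 432 561) (node 530 (merge (leaf 3 494 494) (leaf 3 495 531))))))) (node 431 (merge (leaf 4 399 399) (node 430 (merge (leaf 7 398 398) (node 465 (merge (leaf 3 430 466) (node 462 (merge (leaf 3 429 429) (node 497 (merge (leaf 0 462 498) (node 433 (merge (leaf 5 400 401) (leaf 2 430 434))))))))))))))) (merge (node 462 (merge (node 497 (merge (leaf 3 462 498) (node 494 (merge (leaf 3 461 461) (node 529 (merge (leaf 0 493 493) (leaf 0 494 530))))))) (merge (node 461 (merge (leaf 0 460 460) (node 431 (merge (leaf 4 399 399) (node 432 (merge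 (leaf 6 399 400) (node 430 (merge (leaf 7 398 398) (leaf 1 429 433))))))))) (node 498 (merge (leaf 3 462 497) (node 431 (merge (leaf 4 399 399) (node 432 (merge (leaf 6 399 400) (node 433 (merge (leaf 1 430 434) (node 464 (merge (leaf 6 400 401) (node 529 (merge (leaf 4 432 561) (node 530 (merge (leaf 3 494 494) (leaf 2 495 499)))))))))))))))))) (merge (node 462 (merge (node 461 (merge (leaf 0 460 460) (node 431 (merge (leaf 4 399 399) (node 432 (merge (leaf 6 399 400) (node 430 (merge (leaf 7 398 398) (leaf 1 429 433))))))))) (merge (node 497 (merge (leaf 3 462 498) (node 494 (merge (leaf 3 461 461) (node 529 (merge (leaf 0 493 493) (leaf 0 494 530))))))) (merge (node 497 (merge (leaf 3 462 498) (node 431 (merge (leaf 4 399 399) (node 432 (merge (leaf 6 399 400) (node 433 (merge (leaf 1 430 434) (node 401 (merge (leaf 5 400 465) (node 430 (merge (leaf 7 398 398) (leaf 2 398 402))))))))))))) (node 497 (merge (leaf 3 462 498) (node 494 (merge (leaf 3 461 461) (node 493 (merge (leaf 0 492 492) (leaf 0 493 529))))))))))) (merge (node 494 (merge (node 529 (merge (leaf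 0 493 493) (leaf 3 494 530))) (merge (node 493 (merge (leaf 0 492 492) (node 465 (merge (leaf 2 461 464) (node 497 (merge (leaf 2 462 466) (node 461 (merge (leaf 3 460 460) (leaf 3 461 462))))))))) (node 529 (merge (leaf 3 494 530) (node 431 (merge (leaf 4 399 399) (node 432 (merge (leaf 6 399 400) (node 464 (merge (leaf 4 432 561) (node 465 (merge (leaf 1 462 466) (node 430 (merge (leaf 7 398 398) (leaf 0 429 429)))))))))))))))) (merge (node 461 (merge (node 462 (merge (leaf 0 460 460) (node 497 (merge (leaf 3 461 494) (leaf 3 462 498))))) (merge (node 431 (merge (leaf 4 399 399) (node 432 (merge (leaf 6 399 400) (node 430 (merge (leaf 7 398 398) (node 429 (merge (leaf 1 428 460) (node 464 (merge (leaf 0 428 428) (leaf 0 429 465))))))))))) (node 431 (merge (leaf 4 399 399) (node 432 (merge (leaf 6 399 400) (node 430 (merge (leaf 7 398 398) (node 433 (merge (leaf 1 429 462) (node 466 (merge (leaf 0 430 465) (node 434 (merge (leaf 0 431 467) (node 464 (merge (leaf 6 400 401) (leaf 1 431 435)))))))))))))))))) (merge (node 494 (merge (node 529 (merge (leaf 0 493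 493) (leaf 3 494 530))) (merge (node 493 (merge (leaf 0 492 492) (node 465 (merge (leaf 2 461 464) (node 497 (merge (leaf 2 462 466) (node 461 (merge (leaf 3 460 460) (leaf 3 461 462))))))))) (node 529 (merge (leaf 3 494 530) (node 431 (merge (leaf 4 399 399) (node 432 (merge (leaf 6 399 400) (node 464 (merge (leaf 4 432 561) (node 433 (merge (leaf 6 400 401) (node 462 (merge (leaf 1 430 434) (leaf 2 429 461)))))))))))))))) (merge (node 464 (merge (node 432 (merge (leaf 5 399 400) (node 529 (merge (leaf 4 432 561) (node 530 (merge (leaf 3 494 494) (leaf 3 495 531))))))) (merge (node 431 (merge (leaf 4 399 399) (node 432 (merge (leaf 5 399 400) (node 430 (merge (leaf 7 398 398) (node 429 (merge (leaf 0 428 428) (leaf 0 429 465))))))))) (node 431 (merge (leaf 4 399 399) (node 430 (merge (leaf 7 398 398) (node 465 (merge (leaf 3 430 466) (node 493 (merge (leaf 2 461 494) (node 462 (merge (leaf 3 429 429) (node 461 (merge (leaf 0 460 460) (leaf 1 460 492)))))))))))))))) (node 529 (merge (node 431 (merge (leaf 4 399 399) (node 432 (merge (leaf 6 399 400) (node 464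 (merge (leaf 4 432 561) (node 430 (merge (leaf 7 398 398) (node 465 (merge (leaf 0 429 429) (leaf 3 430 466))))))))))) (merge (node 530 (merge (leaf 3 495 531) (node 562 (merge (leaf 0 527 563) (node 498 (merge (leaf 2 495 499) (node 497 (merge (leaf 3 462 462) (node 466 (merge (leaf 2 463 467) (node 593 (merge (leaf 5 465 561) (node 594 (merge (leaf 5 497 625) (leaf 7 497 626))))))))))))))) (merge (node 530 (merge (leaf 3 495 531) (node 498 (merge (leaf 2 495 499) (node 497 (merge (leaf 3 462 462) (node 466 (merge (leaf 2 463 467) (node 434 (merge (leaf 5 401 402) (leaf 5 433 561))))))))))) (merge (node 530 (merge (leaf 3 495 531) (node 562 (merge (leaf 0 527 563) (node 498 (merge (leaf 2 495 499) (node 497 (merge (leaf 3 462 462) (node 594 (merge (leaf 7 465 465) (leaf 7 497 626))))))))))) (node 431 (merge (leaf 4 399 399) (node 432 (merge (leaf 6 399 400) (node 464 (merge (leaf 4 432 561) (node 430 (merge (leaf 7 398 398) (node 429 (merge (leaf 0 428 428) (leaf 0 429 465)))))))))))))))))))))))))) (merge (node 463 (merge (node 560 (merge (leaf 4 431 431) (leaf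 7 463 592))) (merge (node 464 (merge (node 432 (merge (leaf 5 399 400) (node 561 (merge (leaf 4 432 529) (node 560 (merge (leaf 7 463 592) (leaf 4 464 593))))))) (merge (node 560 (merge (leaf 7 463 592) (node 465 (merge (leaf 6 432 433) (node 466 (merge (leaf 1 463 467) (leaf 1 462 494))))))) (node 432 (merge (leaf 5 399 400) (node 529 (merge (leaf 4 432 561) (node 530 (merge (leaf 3 494 494) (leaf 3 495 531)))))))))) (node 464 (merge (node 432 (merge (leaf 5 399 400) (node 529 (merge (leaf 4 432 561) (node 530 (merge (leaf 3 494 494) (leaf 3 495 531))))))) (merge (node 431 (merge (leaf 4 399 399) (node 432 (merge (leaf 5 399 400) (node 430 (merge (leaf 7 398 398) (node 429 (merge (leaf 0 428 428) (leaf 0 429 465))))))))) (node 431 (merge (leaf 4 399 399) (node 430 (merge (leaf 7 398 398) (node 465 (merge (leaf 3 430 466) (node 493 (merge (leaf 2 461 494) (node 462 (merge (leaf 3 429 429) (node 461 (merge (leaf 0 460 460) (leaf 1 460 492))))))))))))))))))) (merge (node 497 (merge (node 498 (merge (leaf 1 495 499) (node 463 (merge (leaf 3 462 462) (node 560 (merge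 (leaf 4 431 431) (leaf 7 463 592))))))) (merge (node 529 (merge (node 530 (merge (leaf 3 495 531) (node 562 (merge (leaf 0 527 563) (node 465 (merge (leaf 4 433 433) (node 594 (merge (leaf 4 465 561) (leaf 7 497 626))))))))) (merge (node 498 (merge (leaf 1 495 499) (node 466 (merge (leaf 2 463 467) (node 561 (merge (leaf 6 465 593) (node 465 (merge (leaf 6 433 434) (node 433 (merge (leaf 5 400 401) (leaf 5 432 560))))))))))) (merge (node 498 (merge (leaf 1 495 499) (node 530 (merge (leaf 0 495 531) (node 562 (merge (leaf 0 527 563) (node 594 (merge (leaf 7 465 465) (leaf 7 497 626))))))))) (node 530 (merge (node 563 (merge (leaf 0 527 562) (node 531 (merge (leaf 3 495 496) (leaf 0 528 564))))) (merge (node 499 (merge (leaf 2 495 498) (node 531 (merge (leaf 3 495 496) (leaf 2 496 500))))) (node 562 (merge (leaf 0 527 563) (node 498 (merge (leaf 2 495 499) (node 594 (merge (leaf 7 497 626) (node 593 (merge (leaf 5 497 625) (node 466 (merge (leaf 5 465 561) (node 434 (merge (leaf 5 401 402) (node 435 (merge (leaf 6 402 403) (leaf 6 434 467)))))))))))))))))))))) (merge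 (node 464 (merge (node 432 (merge (leaf 5 399 400) (node 431 (merge (leaf 7 399 399) (node 560 (merge (leaf 4 431 463) (node 465 (merge (leaf 6 432 433) (node 592 (merge (leaf 6 464 497) (leaf 7 495 624))))))))))) (merge (node 432 (merge (leaf 5 399 400) (node 561 (merge (leaf 4 432 529) (node 560 (merge (leaf 4 464 593) (node 431 (merge (leaf 7 399 399) (leaf 4 431 463))))))))) (merge (node 432 (merge (leaf 5 399 400) (node 561 (merge (leaf 4 432 529) (node 560 (merge (leaf 4 464 593) (node 433 (merge (leaf 6 400 401) (leaf 6 432 465))))))))) (merge (node 432 (merge (leaf 5 399 400) (node 529 (merge (leaf 4 432 561) (node 530 (merge (leaf 3 495 531) (node 433 (merge (leaf 6 400 401) (node 465 (merge (leaf 4 433 562) (node 434 (merge (leaf 6 401 402) (node 463 (merge (leaf 1 431 435) (leaf 2 430 462))))))))))))))) (node 560 (merge (node 592 (merge (leaf 6 464 465) (leaf 7 495 624))) (merge (node 593 (merge (leaf 4 464 561) (node 592 (merge (leaf 7 495 624) (leaf 4 496 625))))) (node 463 (merge (leaf 4 431 431) (node 561 (merge (leaf 4 464 593) (node 465 (merge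 (leaf 6 432 433) (node 466 (merge (leaf 1 463 467) (node 434 (merge (leaf 2 431 435) (leaf 6 433 529))))))))))))))))))) (node 498 (merge (leaf 1 495 499) (node 530 (merge (leaf 0 495 531) (node 466 (merge (leaf 2 463 467) (node 463 (merge (leaf 3 462 462) (node 431 (merge (leaf 4 399 399) (node 430 (merge (leaf 7 398 398) (node 465 (merge (leaf 3 430 464) (node 433 (merge (leaf 4 401 401) (leaf 7 433 562))))))))))))))))))))) (merge (node 494 (merge (node 529 (merge (leaf 0 493 493) (leaf 3 494 530))) (merge (node 493 (merge (leaf 0 492 492) (node 525 (merge (leaf 1 492 524) (node 461 (merge (leaf 3 460 460) (node 462 (merge (leaf 3 461 497) (node 430 (merge (leaf 4 398 398) (leaf 6 429 557))))))))))) (node 497 (merge (node 466 (merge (leaf 2 462 465) (node 498 (merge (leaf 2 463 467) (leaf 1 495 499))))) (merge (node 465 (merge (leaf 2 462 466) (node 433 (merge (leaf 5 400 401) (node 560 (merge (leaf 5 432 529) (leaf 6 464 592))))))) (merge (node 530 (merge (leaf 0 494 529) (node 498 (merge (leaf 1 495 499) (leaf 0 495 531))))) (node 498 (merge (leaf 1 495 499)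 (node 530 (merge (leaf 0 495 531) (node 529 (merge (leaf 0 494 494) (node 562 (merge (leaf 0 527 563) (node 594 (merge (leaf 7 465 465) (leaf 7 497 626)))))))))))))))))) (node 431 (merge (node 463 (merge (leaf 4 399 399) (leaf 4 431 560))) (merge (node 560 (merge (leaf 4 431 463) (node 592 (merge (leaf 7 495 624) (node 593 (merge (leaf 4 496 625) (node 561 (merge (leaf 4 464 464) (node 562 (merge (leaf 3 527 563) (node 591 (merge (leaf 2 558 590) (leaf 5 495 623))))))))))))) (node 430 (merge (node 432 (merge (node 464 (merge (leaf 7 399 399) (leaf 5 399 400))) (merge (node 464 (merge (leaf 7 399 399) (node 433 (merge (leaf 6 400 401) (node 462 (merge (leaf 1 429 461) (node 398 (merge (leaf 3 397 397) (leaf 4 398 494))))))))) (merge (node 400 (merge (leaf 5 399 464) (node 429 (merge (leaf 2 397 401) (node 461 (merge (leaf 1 428 460) (node 433 (merge (leaf 1 429 462) (node 397 (merge (leaf 3 396 396) (leaf 3 397 398))))))))))) (node 433 (merge (node 462 (merge (leaf 1 429 461) (node 398 (merge (leaf 3 397 397) (leaf 4 398 494))))) (merge (node 402 (merge (leaf 2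 398 401) (node 434 (merge (leaf 2 399 403) (node 398 (merge (leaf 3 397 397) (leaf 3 398 399))))))) (node 461 (merge (leaf 1 429 462) (node 429 (merge (leaf 1 428 460) (node 401 (merge (leaf 2 397 400) (leaf 2 398 402)))))))))))))) (merge (node 432 (merge (node 464 (merge (leaf 7 399 399) (leaf 5 399 400))) (merge (node 494 (merge (node 529 (merge (leaf 0 493 493) (leaf 3 494 530))) (node 398 (merge (leaf 4 398 462) (node 433 (merge (leaf 3 397 397) (node 402 (merge (leaf 2 398 401) (node 434 (merge (leaf 3 398 399) (leaf 2 399 403))))))))))) (node 464 (merge (leaf 5 399 400) (node 433 (merge (leaf 6 400 401) (node 398 (merge (leaf 3 397 397) (node 494 (merge (leaf 4 398 462) (node 529 (merge (leaf 0 493 493) (leaf 3 494 530)))))))))))))) (merge (node 494 (merge (node 493 (merge (leaf 0 492 492) (node 529 (merge (leaf 0 493 496) (leaf 3 494 530))))) (node 462 (merge (leaf 4 398 398) (node 461 (merge (leaf 3 461 497) (node 432 (merge (leaf 1 429 433) (node 464 (merge (leaf 7 399 399) (leaf 5 399 400))))))))))) (merge (node 494 (merge (node 493 (merge (leaf 0 492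 492) (node 529 (merge (leaf 0 493 496) (leaf 3 494 530))))) (merge (node 493 (merge (leaf 0 492 492) (node 525 (merge (leaf 1 492 524) (node 461 (merge (leaf 3 460 460) (node 398 (merge (leaf 6 397 429) (leaf 4 398 462))))))))) (node 530 (merge (leaf 3 494 529) (node 462 (merge (leaf 4 398 398) (node 497 (merge (leaf 3 461 461) (node 498 (merge (leaf 1 495 499) (leaf 0 495 531)))))))))))) (merge (node 432 (merge (node 464 (merge (leaf 7 399 399) (leaf 5 399 400))) (merge (node 464 (merge (leaf 7 399 399) (node 433 (merge (leaf 6 400 401) (node 461 (merge (leaf 1 429 462) (node 429 (merge (leaf 1 428 460) (node 397 (merge (leaf 3 396 396) (leaf 3 397 398))))))))))) (merge (node 400 (merge (leaf 5 399 464) (node 429 (merge (leaf 2 397 401) (node 461 (merge (leaf 1 428 460) (node 433 (merge (leaf 1 429 462) (node 397 (merge (leaf 3 396 396) (leaf 3 397 398))))))))))) (node 433 (merge (node 461 (merge (leaf 1 429 462) (node 429 (merge (leaf 1 428 460) (node 401 (merge (leaf 2 397 400) (leaf 2 398 402))))))) (merge (node 461 (merge (leaf 1 429 462) (node 429 (merge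 (leaf 1 428 460) (node 400 (merge (leaf 2 397 401) (node 399 (merge (leaf 2 396 428) (node 398 (merge (leaf 0 397 397) (leaf 3 398 434))))))))))) (node 398 (merge (leaf 3 397 397) (node 434 (merge (leaf 3 398 399) (node 467 (merge (leaf 0 431 466) (node 435 (merge (leaf 0 432 468) (node 403 (merge (leaf 2 399 402) (leaf 2 400 404)))))))))))))))))) (merge (node 432 (merge (node 464 (merge (leaf 7 399 399) (leaf 5 399 400))) (merge (node 464 (merge (leaf 7 399 399) (node 529 (merge (leaf 4 432 561) (node 530 (merge (leaf 3 494 494) (leaf 3 495 531))))))) (merge (node 400 (merge (leaf 5 399 464) (node 429 (merge (leaf 2 397 401) (node 461 (merge (leaf 1 428 460) (node 397 (merge (leaf 3 396 396) (node 398 (merge (leaf 3 397 433) (node 493 (merge (leaf 6 365 366) (leaf 6 397 525))))))))))))) (node 433 (merge (node 401 (merge (leaf 2 398 402) (node 429 (merge (leaf 2 397 400) (node 460 (merge (leaf 1 428 461) (node 428 (merge (leaf 1 427 459) (node 396 (merge (leaf 3 395 395) (leaf 3 396 397))))))))))) (merge (node 397 (merge (leaf 3 397 398) (node 429 (merge (leaf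 3 396 396) (node 460 (merge (leaf 1 428 461) (node 428 (merge (leaf 1 427 459) (node 400 (merge (leaf 2 396 399) (leaf 2 397 401))))))))))) (merge (node 402 (merge (leaf 2 398 401) (node 434 (merge (leaf 2 399 403) (node 467 (merge (leaf 0 431 466) (node 435 (merge (leaf 0 432 468) (node 399 (merge (leaf 3 398 398) (leaf 3 399 400))))))))))) (node 398 (merge (leaf 3 397 397) (node 434 (merge (leaf 3 398 399) (node 467 (merge (leaf 0 431 466) (node 435 (merge (leaf 0 432 468) (node 403 (merge (leaf 2 399 402) (leaf 2 400 404))))))))))))))))))) (node 432 (merge (node 464 (merge (leaf 7 399 399) (leaf 5 399 400))) (merge (node 464 (merge (leaf 7 399 399) (node 529 (merge (leaf 4 432 561) (node 530 (merge (leaf 3 494 494) (leaf 3 495 531))))))) (merge (node 400 (merge (leaf 5 399 464) (node 429 (merge (leaf 2 397 401) (node 461 (merge (leaf 1 428 460) (node 462 (merge (leaf 1 429 433) (node 397 (merge (leaf 3 396 396) (node 365 (merge (leaf 4 333 333) (leaf 4 365 494))))))))))))) (node 461 (merge (node 429 (merge (leaf 1 428 460) (node 433 (merge (leaf 1 429 462)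 (node 401 (merge (leaf 2 397 400) (leaf 2 398 402))))))) (merge (node 462 (merge (leaf 1 429 433) (node 494 (merge (leaf 3 461 497) (node 493 (merge (leaf 0 492 492) (leaf 0 493 529))))))) (node 429 (merge (leaf 1 428 460) (node 400 (merge (leaf 2 397 401) (node 428 (merge (leaf 2 396 399) (node 396 (merge (leaf 3 395 395) (leaf 3 396 397)))))))))))))))))))))))))))))))))))) nF_25 cF_25 12 (by decide +kernel)
def nF_26 : ℕ := 0x1800000000000000000000000000000000000000000000000000000000000000000000000000000000000000000000000000000000000000000000000000000000000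
def cF_26 : ℕ := 0x140000001c0000007c000000ff000001ff000000e3000001ffc00001ff800001ff800001ff8000007e0000005e00000000000000000000000000000000000000000000000000000000000000000000000000000000000
theorem lF_26 : S nF_26 cF_26 13 := S_of_chk [(nF_23, cF_23, 12), (nF_24, cF_24, 12), (nF_25, cF_25, 12)] ⟨lF_23, lF_24, lF_25, trivial⟩ (node 495 (merge (node 463 (merge (node 560 (merge (leaf 4 431 431) (node 592 (merge (leaf 4 463 559) (leaf 7 495 624))))) (merge (node 431 (merge (leaf 4 431 560) (node 399 (merge (leaf 4 399 496) (node 400 (merge (leaf 6 367 368) (leaf 6 399 432))))))) (merge (node 559 (merge (node 592 (merge (leaf 4 463 560) (node 464 (merge (leaf 6 431 432) (node 591 (merge (leaf 6 463 496) (leaf 4 495 624))))))) (merge (node 464 (merge (leaf 6 431 432) (node 591 (merge (leaf 6 463 496) (node 590 (merge (leaf 5 462 558) (leaf 5 494 622))))))) (merge (node 590 (merge (leaf 5 462 558) (node 591 (merge (leaf 5 494 622) (node 624 (merge (leaf 4 495 592) (node 623 (merge (leaf 6 495 496) (leaf 4 527 656))))))))) (node 560 (merge (leaf 4 463 592) (node 558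 (merge (leaf 5 462 590) (node 557 (merge (leaf 2 525 529) (leaf 2 524 556))))))))))) (node 431 (merge (node 399 (merge (leaf 4 399 496) (node 398 (merge (leaf 7 366 366) (leaf 7 398 430))))) (merge (node 432 (merge (leaf 6 399 400) (node 464 (merge (leaf 6 431 559) (node 430 (merge (leaf 7 398 398) (node 465 (merge (leaf 0 429 429) (leaf 3 430 466))))))))) (node 432 (merge (leaf 6 399 400) (node 559 (merge (leaf 6 431 464) (node 590 (merge (leaf 5 462 558) (node 591 (merge (leaf 5 494 622) (node 624 (merge (leaf 4 495 592) (node 623 (merge (leaf 6 495 496) (leaf 4 527 656)))))))))))))))))))) (merge (node 463 (merge (node 560 (merge (leaf 4 431 431) (node 592 (merge (leaf 4 463 559) (leaf 7 495 624))))) (merge (node 431 (merge (leaf 4 431 560) (node 399 (merge (leaf 4 399 496) (node 398 (merge (leaf 7 366 366) (leaf 7 398 430))))))) (merge (node 559 (merge (node 592 (merge (leaf 4 463 560) (node 591 (merge (leaf 4 495 624) (node 462 (merge (leaf 7 430 430) (leaf 7 462 494))))))) (merge (node 590 (merge (leaf 5 462 558) (node 462 (merge (leaf 7 430 430) (node 591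 (merge (leaf 7 462 494) (leaf 5 494 622))))))) (merge (node 590 (merge (leaf 5 462 558) (node 591 (merge (leaf 5 494 622) (node 624 (merge (leaf 4 495 592) (node 623 (merge (leaf 6 495 496) (leaf 4 527 656))))))))) (node 560 (merge (leaf 4 463 592) (node 558 (merge (leaf 5 462 590) (node 557 (merge (leaf 2 525 529) (leaf 2 524 556))))))))))) (node 431 (merge (node 430 (merge (leaf 7 398 398) (node 559 (merge (leaf 7 430 462) (node 590 (merge (leaf 5 462 558) (node 591 (merge (leaf 5 494 622) (node 624 (merge (leaf 4 495 592) (node 623 (merge (leaf 6 495 496) (leaf 4 527 656))))))))))))) (merge (node 399 (merge (leaf 4 399 496) (node 368 (merge (leaf 6 367 400) (node 367 (merge (leaf 6 335 336) (node 366 (merge (leaf 7 334 334) (leaf 7 366 398))))))))) (merge (node 399 (merge (node 398 (merge (leaf 7 366 366) (leaf 7 398 430))) (merge (node 368 (merge (leaf 6 367 400) (node 367 (merge (leaf 6 335 336) (node 366 (merge (leaf 7 334 334) (leaf 7 366 398))))))) (merge (node 368 (merge (leaf 6 367 400) (node 367 (merge (leaf 6 335 336) (node 462 (merge (leaf 5 366 494)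 (node 430 (merge (leaf 5 334 335) (leaf 7 430 559))))))))) (node 430 (merge (leaf 7 398 398) (node 462 (merge (leaf 7 430 559) (node 367 (merge (leaf 5 334 335) (leaf 5 366 494))))))))))) (node 399 (merge (leaf 4 399 496) (node 368 (merge (leaf 6 367 400) (node 367 (merge (leaf 6 335 336) (node 462 (merge (leaf 5 366 494) (node 430 (merge (leaf 5 334 335) (leaf 7 430 559))))))))))))))))))) (merge (node 463 (merge (node 560 (merge (leaf 4 431 431) (node 592 (merge (leaf 4 463 559) (leaf 7 495 624))))) (merge (node 431 (merge (leaf 4 431 560) (node 399 (merge (leaf 4 399 496) (node 400 (merge (leaf 6 367 368) (leaf 6 399 432))))))) (merge (node 431 (merge (node 399 (merge (leaf 4 399 496) (node 398 (merge (leaf 7 366 366) (leaf 7 398 430))))) (merge (node 432 (merge (leaf 6 399 400) (node 559 (merge (leaf 6 431 464) (node 430 (merge (leaf 7 398 398) (leaf 7 430 462))))))) (node 496 (merge (leaf 4 399 399) (node 432 (merge (leaf 6 399 400) (node 559 (merge (leaf 5 431 464) (node 591 (merge (leaf 6 495 623) (node 494 (merge (leaf 7 462 462) (node 529 (merge (leaf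 0 493 493) (leaf 3 494 530)))))))))))))))) (node 464 (merge (node 432 (merge (leaf 6 431 559) (node 400 (merge (leaf 5 367 368) (leaf 5 399 496))))) (merge (node 559 (merge (leaf 6 431 432) (node 462 (merge (leaf 7 430 430) (node 494 (merge (leaf 7 462 591) (node 493 (merge (leaf 1 461 465) (leaf 0 492 492))))))))) (merge (node 496 (merge (node 432 (merge (leaf 5 399 400) (node 529 (merge (leaf 4 432 561) (node 530 (merge (leaf 3 494 494) (leaf 3 495 531))))))) (merge (node 432 (merge (leaf 5 399 400) (node 433 (merge (leaf 6 400 401) (node 560 (merge (leaf 6 432 465) (node 592 (merge (leaf 7 463 463) (leaf 7 495 624))))))))) (merge (node 432 (merge (leaf 5 399 400) (node 529 (merge (leaf 4 432 561) (node 530 (merge (leaf 3 494 494) (leaf 3 495 531))))))) (node 560 (merge (leaf 7 463 592) (node 465 (merge (leaf 6 432 433) (node 466 (merge (leaf 1 463 467) (leaf 1 462 494))))))))))) (node 496 (merge (node 559 (merge (leaf 6 463 591) (node 462 (merge (leaf 7 430 430) (node 497 (merge (leaf 0 461 461) (leaf 3 462 498))))))) (merge (node 560 (merge (leaf 7 463 592)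 (node 465 (merge (leaf 6 432 433) (node 466 (merge (leaf 1 463 467) (leaf 1 462 494))))))) (node 559 (merge (leaf 6 463 591) (node 462 (merge (leaf 7 430 430) (node 461 (merge (leaf 0 460 460) (node 493 (merge (leaf 1 460 492) (node 494 (merge (leaf 1 461 465) (leaf 0 493 529)))))))))))))))))))))) (merge (node 559 (merge (node 464 (merge (node 496 (merge (leaf 5 431 432) (leaf 6 463 591))) (merge (node 463 (merge (leaf 6 431 432) (node 560 (merge (leaf 4 431 431) (leaf 4 463 592))))) (node 591 (merge (leaf 6 463 496) (node 622 (merge (leaf 5 494 590) (node 623 (merge (leaf 5 526 654) (node 560 (merge (leaf 6 527 655) (node 463 (merge (leaf 4 431 431) (leaf 4 463 592)))))))))))))) (merge (node 591 (merge (node 624 (merge (leaf 4 495 592) (node 623 (merge (leaf 4 527 656) (node 622 (merge (leaf 5 494 590) (leaf 5 526 654))))))) (node 494 (merge (leaf 7 462 462) (node 493 (merge (leaf 0 492 492) (node 529 (merge (leaf 0 493 496) (leaf 3 494 530))))))))) (merge (node 529 (merge (node 530 (merge (leaf 3 494 494) (leaf 1 526 558))) (merge (node 530 (merge (leaf 3 494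 494) (node 563 (merge (leaf 0 527 562) (node 531 (merge (leaf 1 527 560) (leaf 0 528 564))))))) (node 558 (merge (node 557 (merge (leaf 2 524 556) (leaf 2 525 560))) (node 590 (merge (leaf 5 462 463) (node 622 (merge (leaf 5 494 591) (leaf 6 526 654)))))))))) (merge (node 591 (merge (node 496 (merge (leaf 6 495 623) (node 464 (merge (leaf 5 431 432) (leaf 5 463 560))))) (merge (node 494 (merge (leaf 7 462 462) (node 493 (merge (leaf 0 492 492) (node 529 (merge (leaf 0 493 496) (leaf 3 494 530))))))) (node 624 (merge (leaf 4 495 592) (node 623 (merge (leaf 4 527 656) (node 654 (merge (leaf 5 526 622) (node 655 (merge (leaf 6 527 560) (leaf 5 558 686)))))))))))) (node 560 (merge (node 592 (merge (leaf 4 463 463) (leaf 7 495 624))) (merge (node 463 (merge (leaf 4 431 431) (node 558 (merge (leaf 5 462 590) (node 557 (merge (leaf 2 525 529) (leaf 2 524 556))))))) (node 496 (merge (node 592 (merge (leaf 7 495 624) (node 593 (merge (leaf 4 496 625) (node 558 (merge (leaf 0 557 557) (node 594 (merge (leaf 0 558 561) (leaf 3 559 595))))))))) (merge (node 464 (merge (leaf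 5 431 432) (node 465 (merge (leaf 6 432 433) (node 592 (merge (leaf 6 464 497) (node 624 (merge (leaf 7 495 495) (leaf 7 527 656))))))))) (node 464 (merge (leaf 5 431 432) (node 561 (merge (leaf 4 464 593) (node 562 (merge (leaf 3 527 563) (node 530 (merge (leaf 2 527 531) (node 529 (merge (leaf 3 494 494) (leaf 1 526 558)))))))))))))))))))))) (merge (node 529 (merge (node 530 (merge (leaf 3 494 494) (node 563 (merge (leaf 0 527 562) (node 531 (merge (leaf 0 528 564) (node 499 (merge (leaf 2 495 498) (leaf 2 496 500))))))))) (merge (node 559 (merge (node 558 (merge (leaf 1 526 530) (node 557 (merge (leaf 2 524 556) (leaf 2 525 560))))) (merge (node 530 (merge (leaf 1 526 558) (node 563 (merge (leaf 0 527 562) (node 531 (merge (leaf 3 495 496) (leaf 0 528 564))))))) (node 464 (merge (node 496 (merge (leaf 5 431 432) (leaf 6 463 591))) (merge (node 463 (merge (leaf 6 431 432) (node 560 (merge (leaf 4 431 431) (leaf 4 463 592))))) (node 591 (merge (leaf 6 463 496) (node 622 (merge (leaf 5 494 590) (node 623 (merge (leaf 5 526 654) (node 560 (merge (leaf 6 527 655)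 (node 463 (merge (leaf 4 431 431) (leaf 4 463 592))))))))))))))))) (node 463 (merge (node 431 (merge (leaf 4 431 560) (node 496 (merge (leaf 4 399 399) (node 432 (merge (leaf 6 399 400) (node 464 (merge (leaf 6 431 559) (leaf 4 432 561))))))))) (merge (node 431 (merge (leaf 4 431 560) (node 400 (merge (leaf 6 399 432) (node 399 (merge (leaf 6 367 368) (node 398 (merge (leaf 7 366 366) (leaf 7 398 430))))))))) (merge (node 431 (merge (leaf 4 431 560) (node 496 (merge (leaf 4 399 399) (node 430 (merge (leaf 7 398 398) (node 559 (merge (leaf 7 430 462) (node 591 (merge (leaf 6 463 464) (leaf 6 495 623))))))))))) (merge (node 559 (merge (node 590 (merge (leaf 5 462 558) (node 591 (merge (leaf 5 494 622) (node 462 (merge (leaf 7 430 430) (leaf 7 462 494))))))) (merge (node 464 (merge (leaf 6 431 432) (node 591 (merge (leaf 6 463 496) (node 590 (merge (leaf 5 462 558) (leaf 5 494 622))))))) (node 432 (merge (leaf 6 431 464) (node 431 (merge (leaf 6 399 400) (node 430 (merge (leaf 7 398 398) (leaf 7 430 462)))))))))) (node 559 (merge (node 558 (merge (leaf 5 462 590)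 (node 557 (merge (leaf 2 524 556) (leaf 2 525 560))))) (node 464 (merge (leaf 6 431 432) (node 462 (merge (leaf 7 430 430) (node 494 (merge (leaf 7 462 591) (node 493 (merge (leaf 1 461 465) (leaf 0 492 492))))))))))))))))))) (merge (node 529 (merge (node 530 (merge (leaf 3 494 494) (node 563 (merge (leaf 0 527 562) (node 531 (merge (leaf 3 495 496) (leaf 0 528 564))))))) (merge (node 530 (merge (leaf 3 494 494) (node 563 (merge (leaf 0 527 562) (node 531 (merge (leaf 0 528 564) (node 499 (merge (leaf 2 495 498) (leaf 2 496 500))))))))) (merge (node 559 (merge (node 558 (merge (leaf 1 526 530) (node 557 (merge (leaf 2 524 556) (leaf 2 525 560))))) (merge (node 530 (merge (leaf 1 526 558) (node 563 (merge (leaf 0 527 562) (node 531 (merge (leaf 3 495 496) (leaf 0 528 564))))))) (merge (node 463 (merge (node 558 (merge (leaf 5 462 590) (node 557 (merge (leaf 2 524 556) (leaf 2 525 560))))) (node 430 (merge (leaf 7 430 462) (node 431 (merge (leaf 7 398 398) (node 399 (merge (leaf 4 399 496) (node 400 (merge (leaf 6 367 368) (leaf 6 399 432))))))))))) (node 463 (merge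 (node 560 (merge (leaf 4 431 431) (leaf 4 463 592))) (merge (node 560 (merge (leaf 4 431 431) (leaf 4 463 592))) (merge (node 430 (merge (leaf 7 430 462) (node 431 (merge (leaf 7 398 398) (node 399 (merge (leaf 4 399 496) (node 400 (merge (leaf 6 367 368) (leaf 6 399 432))))))))) (node 560 (merge (leaf 4 463 592) (node 530 (merge (leaf 1 527 531) (node 498 (merge (leaf 2 495 499) (node 464 (merge (leaf 6 431 432) (node 462 (merge (leaf 7 430 430) (node 497 (merge (leaf 0 462 465) (leaf 3 462 496))))))))))))))))))))) (node 463 (merge (node 560 (merge (leaf 4 431 431) (node 592 (merge (leaf 7 463 496) (leaf 7 495 624))))) (merge (node 431 (merge (leaf 4 431 560) (node 400 (merge (leaf 6 399 432) (node 399 (merge (leaf 6 367 368) (node 398 (merge (leaf 7 366 366) (leaf 7 398 430))))))))) (merge (node 431 (merge (node 399 (merge (leaf 4 399 496) (node 398 (merge (leaf 7 366 366) (leaf 7 398 430))))) (merge (node 432 (merge (leaf 6 399 400) (node 464 (merge (leaf 6 431 559) (node 430 (merge (leaf 7 398 398) (node 465 (merge (leaf 0 429 429) (leaf 3 430 466)))))))))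 (node 496 (merge (leaf 4 399 399) (node 432 (merge (leaf 6 399 400) (node 464 (merge (leaf 4 432 561) (node 433 (merge (leaf 6 400 401) (node 462 (merge (leaf 1 430 434) (leaf 2 429 461)))))))))))))) (node 464 (merge (node 432 (merge (leaf 6 431 559) (node 400 (merge (leaf 5 367 368) (leaf 5 399 496))))) (merge (node 559 (merge (leaf 6 431 432) (node 558 (merge (leaf 5 462 590) (node 557 (merge (leaf 2 524 556) (leaf 2 525 560))))))) (merge (node 462 (merge (node 430 (merge (leaf 7 430 559) (node 398 (merge (leaf 4 366 366) (leaf 4 398 494))))) (merge (node 559 (merge (leaf 7 430 430) (node 558 (merge (leaf 5 462 590) (node 557 (merge (leaf 2 524 556) (leaf 2 525 560))))))) (node 494 (merge (node 493 (merge (leaf 0 492 492) (leaf 0 493 496))) (merge (node 465 (merge (leaf 1 462 466) (node 433 (merge (leaf 2 430 434) (node 560 (merge (leaf 6 432 496) (leaf 5 432 497))))))) (node 493 (merge (leaf 1 461 465) (leaf 0 492 492))))))))) (node 496 (merge (node 432 (merge (leaf 5 399 400) (leaf 4 432 561))) (merge (node 494 (merge (leaf 0 493 493) (node 465 (merge (leaf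 1 462 466) (node 560 (merge (leaf 6 432 433) (leaf 7 463 592))))))) (node 432 (merge (leaf 5 399 400) (node 433 (merge (leaf 6 400 401) (node 560 (merge (leaf 6 432 465) (leaf 7 463 592)))))))))))))))))))))) (merge (node 529 (merge (node 530 (merge (leaf 3 494 494) (node 563 (merge (leaf 0 527 562) (node 531 (merge (leaf 0 528 564) (node 499 (merge (leaf 2 495 498) (leaf 2 496 500))))))))) (merge (node 463 (merge (node 431 (merge (leaf 4 431 560) (node 496 (merge (leaf 4 399 399) (node 432 (merge (leaf 6 399 400) (node 464 (merge (leaf 6 431 559) (leaf 4 432 561))))))))) (merge (node 431 (merge (leaf 4 431 560) (node 400 (merge (leaf 6 399 432) (node 399 (merge (leaf 6 367 368) (node 398 (merge (leaf 7 366 366) (leaf 7 398 430))))))))) (merge (node 431 (merge (leaf 4 431 560) (node 496 (merge (leaf 4 399 399) (node 430 (merge (leaf 7 398 398) (node 559 (merge (leaf 7 430 462) (node 591 (merge (leaf 6 463 464) (leaf 6 495 623))))))))))) (merge (node 559 (merge (node 590 (merge (leaf 5 462 558) (node 591 (merge (leaf 5 494 622) (node 462 (merge (leaf 7 430 430)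 (leaf 7 462 494))))))) (merge (node 464 (merge (leaf 6 431 432) (node 591 (merge (leaf 6 463 496) (node 590 (merge (leaf 5 462 558) (leaf 5 494 622))))))) (node 432 (merge (leaf 6 431 464) (node 431 (merge (leaf 6 399 400) (node 430 (merge (leaf 7 398 398) (leaf 7 430 462)))))))))) (node 559 (merge (node 558 (merge (leaf 5 462 590) (node 557 (merge (leaf 2 524 556) (leaf 2 525 560))))) (node 464 (merge (leaf 6 431 432) (node 462 (merge (leaf 7 430 430) (node 494 (merge (leaf 7 462 591) (node 493 (merge (leaf 1 461 465) (leaf 0 492 492)))))))))))))))) (node 559 (merge (node 558 (merge (leaf 1 526 530) (node 557 (merge (leaf 2 524 556) (leaf 2 525 560))))) (merge (node 530 (merge (leaf 1 526 558) (node 563 (merge (leaf 0 527 562) (node 531 (merge (leaf 3 495 496) (leaf 0 528 564))))))) (merge (node 463 (merge (node 558 (merge (leaf 5 462 590) (node 557 (merge (leaf 2 524 556) (leaf 2 525 560))))) (node 430 (merge (leaf 7 430 462) (node 431 (merge (leaf 7 398 398) (node 399 (merge (leaf 4 399 496) (node 400 (merge (leaf 6 367 368) (leaf 6 399 432))))))))))) (node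 463 (merge (node 430 (merge (leaf 7 430 462) (node 431 (merge (leaf 7 398 398) (node 399 (merge (leaf 4 399 496) (node 400 (merge (leaf 6 367 368) (leaf 6 399 432))))))))) (merge (node 431 (merge (leaf 4 431 560) (node 496 (merge (leaf 4 399 399) (node 432 (merge (leaf 6 399 400) (node 464 (merge (leaf 6 431 559) (leaf 4 432 561))))))))) (merge (node 430 (merge (leaf 7 430 462) (node 431 (merge (leaf 7 398 398) (node 496 (merge (leaf 4 399 399) (node 591 (merge (leaf 6 463 464) (leaf 6 495 623))))))))) (merge (node 464 (merge (leaf 6 431 432) (node 591 (merge (leaf 6 463 496) (node 622 (merge (leaf 5 494 590) (node 623 (merge (leaf 5 526 654) (node 656 (merge (leaf 4 527 624) (node 655 (merge (leaf 6 527 560) (leaf 4 559 688))))))))))))) (node 560 (merge (leaf 4 431 431) (node 530 (merge (leaf 1 527 531) (node 562 (merge (leaf 0 527 563) (node 498 (merge (leaf 2 495 499) (node 464 (merge (leaf 6 431 432) (node 462 (merge (leaf 7 430 430) (node 465 (merge (leaf 0 462 497) (node 433 (merge (leaf 2 430 434) (leaf 7 433 466))))))))))))))))))))))))))))) (merge (hyp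 0) (merge (node 463 (merge (node 560 (merge (leaf 4 431 431) (node 592 (merge (leaf 4 463 559) (leaf 7 495 624))))) (merge (node 431 (merge (leaf 4 431 560) (node 399 (merge (leaf 4 399 496) (node 400 (merge (leaf 6 367 368) (leaf 6 399 432))))))) (merge (node 559 (merge (node 432 (merge (leaf 6 431 464) (node 431 (merge (leaf 6 399 400) (node 430 (merge (leaf 7 398 398) (leaf 7 430 462))))))) (merge (node 590 (merge (leaf 5 462 558) (node 462 (merge (leaf 7 430 430) (node 591 (merge (leaf 7 462 494) (leaf 5 494 622))))))) (node 464 (merge (leaf 6 431 432) (node 591 (merge (leaf 6 463 496) (node 590 (merge (leaf 5 462 558) (leaf 5 494 622)))))))))) (node 559 (merge (node 592 (merge (leaf 4 463 560) (node 464 (merge (leaf 6 431 432) (node 591 (merge (leaf 6 463 496) (leaf 4 495 624))))))) (merge (node 590 (merge (leaf 5 462 558) (node 462 (merge (leaf 7 430 430) (node 591 (merge (leaf 7 462 494) (leaf 5 494 622))))))) (node 560 (merge (leaf 4 463 592) (node 558 (merge (leaf 5 462 590) (node 557 (merge (leaf 2 524 556) (node 589 (merge (leaf 1 556 588) (node 525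 (merge (leaf 3 524 524) (node 464 (merge (leaf 6 431 432) (node 462 (merge (leaf 7 430 430) (node 493 (merge (leaf 6 461 494) (node 492 (merge (leaf 7 460 460) (leaf 1 460 461)))))))))))))))))))))))))) (merge (node 463 (merge (node 560 (merge (leaf 4 431 431) (node 592 (merge (leaf 4 463 559) (leaf 7 495 624))))) (merge (node 431 (merge (leaf 4 431 560) (node 400 (merge (leaf 6 399 432) (node 399 (merge (leaf 6 367 368) (node 398 (merge (leaf 7 366 366) (leaf 7 398 430))))))))) (merge (node 559 (merge (node 592 (merge (leaf 4 463 560) (node 591 (merge (leaf 4 495 624) (node 462 (merge (leaf 7 430 430) (leaf 7 462 494))))))) (merge (node 590 (merge (leaf 5 462 558) (node 462 (merge (leaf 7 430 430) (node 591 (merge (leaf 7 462 494) (leaf 5 494 622))))))) (node 560 (merge (leaf 4 463 592) (node 558 (merge (leaf 5 462 590) (node 557 (merge (leaf 2 525 529) (leaf 2 524 556)))))))))) (node 464 (merge (node 432 (merge (leaf 6 431 559) (node 400 (merge (leaf 5 367 368) (leaf 6 399 431))))) (merge (node 559 (merge (leaf 6 431 432) (node 462 (merge (leaf 7 430 430) (node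 494 (merge (leaf 7 462 591) (node 493 (merge (leaf 1 461 465) (leaf 0 492 492))))))))) (merge (node 465 (merge (node 494 (merge (leaf 1 462 466) (node 493 (merge (leaf 1 461 462) (leaf 0 492 492))))) (merge (node 466 (merge (leaf 1 462 494) (node 499 (merge (leaf 0 463 498) (node 467 (merge (leaf 0 464 500) (node 435 (merge (leaf 2 431 434) (leaf 2 432 436))))))))) (merge (node 462 (merge (node 430 (merge (leaf 3 429 429) (node 398 (merge (leaf 4 366 366) (leaf 4 398 494))))) (merge (node 493 (merge (leaf 1 461 494) (node 461 (merge (leaf 1 460 492) (node 433 (merge (leaf 2 429 432) (leaf 2 430 434))))))) (node 430 (merge (leaf 3 429 429) (node 431 (merge (leaf 7 398 398) (node 432 (merge (leaf 6 399 400) (node 461 (merge (leaf 1 429 433) (leaf 2 428 460)))))))))))) (node 430 (merge (node 431 (merge (leaf 7 398 398) (leaf 3 430 466))) (merge (node 462 (merge (leaf 3 429 429) (node 434 (merge (leaf 2 430 433) (node 466 (merge (leaf 3 430 431) (leaf 2 431 435))))))) (node 462 (merge (leaf 3 429 429) (node 497 (merge (leaf 0 462 498) (node 433 (merge (leaf 2 430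 434) (node 432 (merge (leaf 2 429 461) (node 400 (merge (leaf 4 368 368) (leaf 7 400 529)))))))))))))))))) (node 462 (merge (node 559 (merge (leaf 7 430 430) (node 590 (merge (leaf 5 462 558) (node 591 (merge (leaf 7 462 494) (leaf 5 494 622))))))) (merge (node 430 (merge (node 398 (merge (leaf 4 366 366) (leaf 4 398 494))) (merge (node 465 (merge (leaf 3 429 429) (node 466 (merge (leaf 3 430 431) (leaf 1 462 494))))) (node 465 (merge (leaf 3 429 429) (node 431 (merge (leaf 7 398 398) (leaf 3 430 466)))))))) (merge (node 430 (merge (leaf 7 430 559) (node 465 (merge (leaf 3 429 429) (node 431 (merge (leaf 7 398 398) (leaf 3 430 466))))))) (node 461 (merge (node 492 (merge (leaf 1 460 493) (node 460 (merge (leaf 1 459 491) (node 428 (merge (leaf 3 427 427) (leaf 3 428 429))))))) (merge (node 493 (merge (leaf 1 460 492) (node 465 (merge (leaf 1 461 494) (node 498 (merge (leaf 0 462 497) (node 466 (merge (leaf 0 463 499) (node 434 (merge (leaf 2 430 433) (leaf 2 431 435))))))))))) (merge (node 428 (merge (leaf 3 428 429) (node 460 (merge (leaf 3 427 427) (node 459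 (merge (leaf 0 459 494) (node 491 (merge (leaf 1 458 490) (leaf 1 459 492))))))))) (node 428 (merge (leaf 3 428 429) (node 460 (merge (leaf 3 427 427) (node 494 (merge (leaf 0 459 459) (node 465 (merge (leaf 1 462 466) (leaf 1 461 493))))))))))))))))))))))))) (merge (hyp 1) (hyp 2))))))))))))) nF_26 cF_26 13 (by decide +kernel)
def nF_27 : ℕ := 0x1000000000000000000000000000000000000000000000000000000000000000000000000000000000000000000000000000000000000000000000000000000000000
def cF_27 : ℕ := 0xd0000007f0000007f0000007f800001ffc00007ffe00003efc00007ffe00001ffc00001ffc00001ff8000007e0000007e00000000000000000000000000000000000000000000000000000000000000000000000000000000000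
theorem lF_27 : S nF_27 cF_27 14 := S_of_chk [(nF_0, cF_0, 12), (nF_1, cF_1, 13), (nF_2, cF_2, 11), (nF_3, cF_3, 12), (nF_4, cF_4, 12), (nF_5, cF_5, 11), (nF_6, cF_6, 12), (nF_7, cF_7, 11), (nF_8, cF_8, 12), (nF_9, cF_9, 13), (nF_10, cF_10, 13), (nF_11, cF_11, 12), (nF_12, cF_12, 11), (nF_13, cF_13, 10), (nF_14, cF_14, 13), (nF_15, cF_15, 11), (nF_16, cF_16, 13), (nF_17, cF_17, 12), (nF_19, cF_19, 11), (nF_22, cF_22, 13), (nF_26, cF_26, 13)] ⟨lF_0, lF_1, lF_2, lF_3, lF_4, lF_5, lF_6, lF_7, lF_8, lF_9, lF_10, lF_11, lF_12, lF_13, lF_14, lF_15, lF_16, lF_17, lF_19, lF_22, lF_26, trivial⟩ (node 527 (merge (node 529 (merge (node 494 (merge (node 495 (merge (leaf 3 494 530) (node 493 (merge (leaf 0 492 492) (leaf 0 493 496))))) (merge (node 493 (merge (leaf 3 493 526) (node 495 (merge (leaf 0 492 492) (leaf 0 493 496))))) (merge (node 530 (merge (leaf 3 494 495) (node 562 (merge (leaf 0 527 563) (node 526 (merge (leaf 0 526 561) (node 558 (merge (leaf 1 525 557) (leaf 1 526 559))))))))) (node 526 (merge (leaf 3 493 493) (node 562 (merge (leaf 0 526 561) (node 530 (merge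 (leaf 0 527 563) (node 558 (merge (leaf 1 525 557) (leaf 1 526 559))))))))))))) (merge (node 530 (merge (node 563 (merge (leaf 0 527 562) (node 531 (merge (leaf 0 528 564) (node 559 (merge (leaf 1 526 558) (leaf 1 527 560))))))) (merge (node 563 (merge (leaf 0 527 562) (node 531 (merge (leaf 0 528 564) (node 499 (merge (leaf 2 495 498) (leaf 2 496 500))))))) (node 498 (merge (leaf 2 495 499) (node 526 (merge (leaf 2 494 497) (node 558 (merge (leaf 1 525 557) (leaf 1 526 559)))))))))) (merge (node 526 (merge (node 561 (merge (leaf 0 526 562) (node 525 (merge (leaf 0 525 560) (node 493 (merge (leaf 3 492 492) (leaf 3 493 494))))))) (merge (node 562 (merge (leaf 0 526 561) (node 530 (merge (leaf 0 527 563) (node 498 (merge (leaf 2 494 497) (leaf 2 495 499))))))) (node 498 (merge (leaf 2 494 497) (node 530 (merge (leaf 2 495 499) (node 494 (merge (leaf 3 493 493) (leaf 3 494 495)))))))))) (merge (node 526 (merge (node 557 (merge (leaf 1 525 558) (node 525 (merge (leaf 1 524 556) (node 493 (merge (leaf 3 492 492) (leaf 3 493 494))))))) (merge (node 498 (merge (leaf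 2 494 497) (node 530 (merge (leaf 2 495 499) (node 494 (merge (leaf 3 493 493) (leaf 3 494 495))))))) (node 497 (merge (leaf 2 494 498) (node 525 (merge (leaf 2 493 496) (node 557 (merge (leaf 1 524 556) (leaf 1 525 558)))))))))) (merge (node 559 (merge (node 530 (merge (leaf 1 526 558) (node 563 (merge (leaf 0 527 562) (node 531 (merge (leaf 0 528 564) (node 499 (merge (leaf 2 495 498) (leaf 2 496 500))))))))) (merge (node 591 (merge (node 496 (merge (leaf 6 495 623) (node 495 (merge (leaf 6 463 464) (node 494 (merge (leaf 7 462 462) (leaf 0 493 493))))))) (merge (node 623 (merge (leaf 6 495 496) (node 656 (merge (leaf 4 527 624) (node 655 (merge (leaf 6 527 560) (leaf 4 559 688))))))) (merge (node 623 (merge (node 656 (merge (leaf 4 527 624) (node 655 (merge (leaf 6 527 560) (leaf 4 559 688))))) (merge (node 655 (merge (leaf 6 527 560) (node 654 (merge (leaf 5 526 622) (leaf 5 558 686))))) (node 624 (merge (leaf 4 527 656) (node 495 (merge (leaf 4 495 592) (node 622 (merge (leaf 5 494 590) (leaf 5 526 654)))))))))) (node 495 (merge (node 494 (merge (leaf 7 462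 462) (node 493 (merge (leaf 0 492 492) (leaf 0 493 496))))) (node 592 (merge (leaf 4 495 624) (node 590 (merge (leaf 5 494 622) (node 558 (merge (leaf 5 462 463) (node 557 (merge (leaf 0 556 556) (leaf 3 557 593))))))))))))))) (node 591 (merge (node 496 (merge (leaf 6 495 623) (node 495 (merge (leaf 6 463 464) (node 494 (merge (leaf 7 462 462) (leaf 0 493 493))))))) (merge (node 623 (merge (leaf 6 495 496) (node 656 (merge (leaf 4 527 624) (node 655 (merge (leaf 6 527 560) (leaf 4 559 688))))))) (merge (node 623 (merge (node 656 (merge (leaf 4 527 624) (node 655 (merge (leaf 6 527 560) (leaf 4 559 688))))) (merge (node 655 (merge (leaf 6 527 560) (node 654 (merge (leaf 5 526 622) (leaf 5 558 686))))) (node 624 (merge (leaf 4 527 656) (node 495 (merge (leaf 4 495 592) (node 622 (merge (leaf 5 494 590) (leaf 5 526 654)))))))))) (node 530 (merge (node 495 (merge (leaf 3 494 494) (node 496 (merge (leaf 6 463 464) (leaf 3 495 531))))) (merge (node 499 (merge (leaf 2 495 498) (node 531 (merge (leaf 2 496 500) (leaf 1 527 560))))) (node 495 (merge (leaf 3 494 494) (node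 592 (merge (leaf 4 495 624) (node 560 (merge (leaf 4 463 463) (node 590 (merge (leaf 5 494 622) (node 589 (merge (leaf 2 557 561) (leaf 2 556 588))))))))))))))))))))) (node 561 (merge (node 562 (merge (leaf 0 526 526) (node 563 (merge (leaf 3 527 560) (leaf 3 528 564))))) (merge (node 526 (merge (leaf 0 526 562) (node 557 (merge (leaf 1 525 558) (node 525 (merge (leaf 1 524 556) (node 493 (merge (leaf 3 492 492) (leaf 3 493 494))))))))) (merge (node 497 (merge (node 498 (merge (leaf 2 494 526) (node 499 (merge (leaf 1 495 496) (leaf 1 496 500))))) (merge (node 526 (merge (leaf 2 494 498) (node 560 (merge (leaf 0 525 525) (node 592 (merge (leaf 5 464 465) (leaf 6 496 624))))))) (merge (node 592 (merge (node 560 (merge (leaf 5 464 465) (leaf 6 496 624))) (merge (node 593 (merge (leaf 5 496 624) (node 496 (merge (leaf 7 464 464) (leaf 7 496 625))))) (node 465 (merge (leaf 5 464 560) (node 466 (merge (leaf 6 433 434) (node 593 (merge (leaf 6 465 498) (node 626 (merge (leaf 4 497 594) (node 625 (merge (leaf 7 496 496) (leaf 4 529 658)))))))))))))) (node 593 (merge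 (node 624 (merge (leaf 5 496 592) (node 625 (merge (leaf 7 496 496) (leaf 5 528 656))))) (merge (node 625 (merge (leaf 7 496 496) (node 657 (merge (leaf 7 528 560) (node 658 (merge (leaf 4 529 626) (leaf 4 561 690))))))) (merge (node 594 (merge (leaf 4 497 626) (node 592 (merge (leaf 5 496 624) (node 560 (merge (leaf 5 464 465) (node 595 (merge (leaf 3 559 559) (leaf 3 560 596))))))))) (node 594 (merge (leaf 4 497 626) (node 592 (merge (leaf 5 496 624) (node 560 (merge (leaf 5 464 465) (node 595 (merge (leaf 3 559 559) (leaf 3 560 596))))))))))))))))) (node 593 (merge (node 496 (merge (leaf 7 496 625) (node 497 (merge (leaf 7 464 464) (node 498 (merge (leaf 6 465 466) (leaf 1 495 499))))))) (merge (node 625 (merge (leaf 7 496 496) (node 657 (merge (leaf 7 528 560) (node 658 (merge (leaf 4 529 626) (leaf 4 561 690))))))) (merge (node 625 (merge (node 657 (merge (leaf 7 528 560) (node 658 (merge (leaf 4 529 626) (leaf 4 561 690))))) (merge (node 657 (merge (leaf 7 528 560) (node 656 (merge (leaf 5 528 624) (leaf 5 560 688))))) (node 626 (merge (leaf 4 529 658) (node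 497 (merge (leaf 4 497 594) (node 624 (merge (leaf 5 496 592) (leaf 5 528 656)))))))))) (node 592 (merge (node 497 (merge (leaf 5 496 624) (node 466 (merge (leaf 6 465 498) (node 465 (merge (leaf 6 433 434) (leaf 5 464 560))))))) (merge (node 560 (merge (node 624 (merge (leaf 7 495 495) (leaf 6 528 656))) (merge (node 496 (merge (leaf 4 464 464) (node 591 (merge (leaf 5 495 623) (node 590 (merge (leaf 2 558 562) (leaf 2 557 589))))))) (node 496 (merge (leaf 4 464 464) (node 591 (merge (leaf 5 495 623) (node 590 (merge (leaf 2 558 562) (leaf 2 557 589)))))))))) (merge (node 560 (merge (node 497 (merge (leaf 5 464 465) (node 594 (merge (leaf 4 497 626) (node 595 (merge (leaf 3 559 559) (leaf 3 560 596))))))) (node 496 (merge (leaf 4 464 464) (node 591 (merge (leaf 5 495 623) (node 590 (merge (leaf 2 558 562) (leaf 2 557 589))))))))) (node 497 (merge (leaf 5 496 624) (node 594 (merge (leaf 4 497 626) (node 562 (merge (leaf 4 465 465) (node 563 (merge (leaf 1 560 564) (leaf 2 559 591))))))))))))))))))))))))))) (merge (node 529 (merge (node 494 (merge (node 495 (merge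 (leaf 3 494 530) (node 493 (merge (leaf 0 492 492) (leaf 0 493 496))))) (merge (node 493 (merge (leaf 3 493 526) (node 495 (merge (leaf 0 492 492) (leaf 0 493 496))))) (merge (node 530 (merge (leaf 3 494 495) (node 562 (merge (leaf 0 527 563) (node 526 (merge (leaf 0 526 561) (node 558 (merge (leaf 1 525 557) (leaf 1 526 559))))))))) (node 526 (merge (leaf 3 493 493) (node 562 (merge (leaf 0 526 561) (node 530 (merge (leaf 0 527 563) (node 558 (merge (leaf 1 525 557) (leaf 1 526 559))))))))))))) (merge (node 530 (merge (node 563 (merge (leaf 0 527 562) (node 531 (merge (leaf 0 528 564) (node 559 (merge (leaf 1 526 558) (leaf 1 527 560))))))) (merge (node 563 (merge (leaf 0 527 562) (node 531 (merge (leaf 0 528 564) (node 499 (merge (leaf 2 495 498) (leaf 2 496 500))))))) (node 498 (merge (leaf 2 495 499) (node 526 (merge (leaf 2 494 497) (node 558 (merge (leaf 1 525 557) (leaf 1 526 559)))))))))) (merge (node 526 (merge (node 561 (merge (leaf 0 526 562) (node 525 (merge (leaf 0 525 560) (node 493 (merge (leaf 3 492 492) (leaf 3 493 494))))))) (merge (node 562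 (merge (leaf 0 526 561) (node 530 (merge (leaf 0 527 563) (node 498 (merge (leaf 2 494 497) (leaf 2 495 499))))))) (node 498 (merge (leaf 2 494 497) (node 530 (merge (leaf 2 495 499) (node 494 (merge (leaf 3 493 493) (leaf 3 494 495)))))))))) (merge (node 526 (merge (node 557 (merge (leaf 1 525 558) (node 525 (merge (leaf 1 524 556) (node 493 (merge (leaf 3 492 492) (leaf 3 493 494))))))) (merge (node 498 (merge (leaf 2 494 497) (node 530 (merge (leaf 2 495 499) (node 494 (merge (leaf 3 493 493) (leaf 3 494 495))))))) (node 497 (merge (leaf 2 494 498) (node 525 (merge (leaf 2 493 496) (node 557 (merge (leaf 1 524 556) (leaf 1 525 558)))))))))) (merge (node 497 (merge (node 526 (merge (leaf 2 494 498) (node 557 (merge (leaf 1 525 558) (node 525 (merge (leaf 1 524 556) (node 493 (merge (leaf 3 492 492) (leaf 3 493 494))))))))) (merge (node 561 (merge (node 562 (merge (leaf 0 526 526) (node 563 (merge (leaf 3 527 560) (leaf 3 528 564))))) (merge (node 526 (merge (leaf 0 526 562) (node 525 (merge (leaf 2 493 496) (node 557 (merge (leaf 1 524 556) (leaf 1 525 558)))))))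 (node 465 (merge (node 560 (merge (leaf 5 432 433) (leaf 5 464 592))) (merge (node 434 (merge (leaf 6 433 466) (node 433 (merge (leaf 6 401 402) (node 401 (merge (leaf 5 400 496) (node 400 (merge (leaf 7 368 368) (leaf 7 400 432))))))))) (node 592 (merge (leaf 5 464 560) (node 593 (merge (leaf 5 496 624) (node 626 (merge (leaf 4 497 594) (node 625 (merge (leaf 7 496 496) (leaf 4 529 658))))))))))))))) (node 465 (merge (node 560 (merge (leaf 5 432 433) (node 592 (merge (leaf 5 464 561) (leaf 6 496 624))))) (merge (node 433 (merge (leaf 5 432 560) (node 402 (merge (leaf 6 401 434) (node 401 (merge (leaf 6 369 370) (leaf 5 400 496))))))) (merge (node 434 (merge (node 466 (merge (leaf 6 433 561) (node 402 (merge (leaf 5 369 370) (leaf 5 401 498))))) (merge (node 433 (merge (leaf 6 401 402) (node 401 (merge (leaf 5 400 496) (node 400 (merge (leaf 7 368 368) (leaf 7 400 432))))))) (node 561 (merge (leaf 6 433 466) (node 594 (merge (leaf 4 465 562) (node 593 (merge (leaf 4 497 626) (node 624 (merge (leaf 5 496 592) (node 625 (merge (leaf 7 496 496) (leaf 5 528 656))))))))))))))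 (node 561 (merge (node 562 (merge (leaf 4 465 594) (node 563 (merge (leaf 3 528 564) (node 560 (merge (leaf 3 527 527) (leaf 5 464 592))))))) (merge (node 466 (merge (leaf 6 433 434) (node 593 (merge (leaf 6 465 498) (node 626 (merge (leaf 4 497 594) (node 625 (merge (leaf 7 496 496) (leaf 4 529 658))))))))) (node 466 (merge (leaf 6 433 434) (node 593 (merge (leaf 6 465 498) (node 624 (merge (leaf 5 496 592) (node 625 (merge (leaf 7 496 496) (leaf 5 528 656))))))))))))))))))) (node 495 (merge (node 530 (merge (leaf 3 494 494) (node 563 (merge (leaf 0 527 562) (node 531 (merge (leaf 3 495 496) (leaf 0 528 564))))))) (merge (node 530 (merge (leaf 3 494 494) (node 563 (merge (leaf 0 527 562) (node 531 (merge (leaf 0 528 564) (node 499 (merge (leaf 2 495 498) (leaf 2 496 500))))))))) (merge (node 559 (merge (node 558 (merge (leaf 1 526 530) (node 557 (merge (leaf 2 524 556) (leaf 2 525 560))))) (merge (node 530 (merge (leaf 1 526 558) (node 563 (merge (leaf 0 527 562) (node 531 (merge (leaf 3 495 496) (leaf 0 528 564))))))) (merge (node 463 (merge (node 558 (merge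 (leaf 5 462 590) (node 557 (merge (leaf 2 524 556) (leaf 2 525 560))))) (node 430 (merge (leaf 7 430 462) (node 431 (merge (leaf 7 398 398) (node 399 (merge (leaf 4 399 496) (node 400 (merge (leaf 6 367 368) (leaf 6 399 432))))))))))) (node 463 (merge (node 560 (merge (leaf 4 431 431) (leaf 4 463 592))) (merge (node 560 (merge (leaf 4 431 431) (leaf 4 463 592))) (merge (node 430 (merge (leaf 7 430 462) (node 431 (merge (leaf 7 398 398) (node 399 (merge (leaf 4 399 496) (node 400 (merge (leaf 6 367 368) (leaf 6 399 432))))))))) (node 560 (merge (leaf 4 463 592) (node 530 (merge (leaf 1 527 531) (node 498 (merge (leaf 2 495 499) (node 464 (merge (leaf 6 431 432) (node 462 (merge (leaf 7 430 430) (node 497 (merge (leaf 0 462 465) (leaf 3 462 496))))))))))))))))))))) (node 463 (merge (node 560 (merge (leaf 4 431 431) (node 592 (merge (leaf 7 463 496) (leaf 7 495 624))))) (merge (node 431 (merge (leaf 4 431 560) (node 400 (merge (leaf 6 399 432) (node 399 (merge (leaf 6 367 368) (node 398 (merge (leaf 7 366 366) (leaf 7 398 430))))))))) (merge (node 431 (merge (node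 399 (merge (leaf 4 399 496) (node 398 (merge (leaf 7 366 366) (leaf 7 398 430))))) (merge (node 432 (merge (leaf 6 399 400) (node 464 (merge (leaf 6 431 559) (node 430 (merge (leaf 7 398 398) (node 465 (merge (leaf 0 429 429) (leaf 3 430 466))))))))) (node 496 (merge (leaf 4 399 399) (node 432 (merge (leaf 6 399 400) (node 464 (merge (leaf 4 432 561) (node 433 (merge (leaf 6 400 401) (node 462 (merge (leaf 1 430 434) (leaf 2 429 461)))))))))))))) (node 464 (merge (node 432 (merge (leaf 6 431 559) (node 400 (merge (leaf 5 367 368) (leaf 5 399 496))))) (merge (node 559 (merge (leaf 6 431 432) (node 558 (merge (leaf 5 462 590) (node 557 (merge (leaf 2 524 556) (leaf 2 525 560))))))) (merge (node 462 (merge (node 430 (merge (leaf 7 430 559) (node 398 (merge (leaf 4 366 366) (leaf 4 398 494))))) (merge (node 559 (merge (leaf 7 430 430) (node 558 (merge (leaf 5 462 590) (node 557 (merge (leaf 2 524 556) (leaf 2 525 560))))))) (node 494 (merge (node 493 (merge (leaf 0 492 492) (leaf 0 493 496))) (merge (node 465 (merge (leaf 1 462 466) (node 433 (merge (leaf 2 430 434)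 (node 560 (merge (leaf 6 432 496) (leaf 5 432 497))))))) (node 493 (merge (leaf 1 461 465) (leaf 0 492 492))))))))) (node 496 (merge (node 432 (merge (leaf 5 399 400) (leaf 4 432 561))) (merge (node 494 (merge (leaf 0 493 493) (node 465 (merge (leaf 1 462 466) (node 560 (merge (leaf 6 432 433) (leaf 7 463 592))))))) (node 432 (merge (leaf 5 399 400) (node 433 (merge (leaf 6 400 401) (node 560 (merge (leaf 6 432 465) (leaf 7 463 592)))))))))))))))))))))))))))) (merge (node 529 (merge (node 494 (merge (node 495 (merge (leaf 3 494 530) (node 493 (merge (leaf 0 492 492) (leaf 0 493 496))))) (merge (node 493 (merge (leaf 3 493 526) (node 495 (merge (leaf 0 492 492) (leaf 0 493 496))))) (merge (node 530 (merge (leaf 3 494 495) (node 562 (merge (leaf 0 527 563) (node 526 (merge (leaf 0 526 561) (node 558 (merge (leaf 1 525 557) (leaf 1 526 559))))))))) (node 526 (merge (leaf 3 493 493) (node 562 (merge (leaf 0 526 561) (node 530 (merge (leaf 0 527 563) (node 558 (merge (leaf 1 525 557) (leaf 1 526 559))))))))))))) (merge (node 530 (merge (node 563 (merge (leaf 0 527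 562) (node 531 (merge (leaf 0 528 564) (node 559 (merge (leaf 1 526 558) (leaf 1 527 560))))))) (merge (node 563 (merge (leaf 0 527 562) (node 531 (merge (leaf 0 528 564) (node 499 (merge (leaf 2 495 498) (leaf 2 496 500))))))) (node 498 (merge (leaf 2 495 499) (node 526 (merge (leaf 2 494 497) (node 558 (merge (leaf 1 525 557) (leaf 1 526 559)))))))))) (merge (node 526 (merge (node 561 (merge (leaf 0 526 562) (node 525 (merge (leaf 0 525 560) (node 493 (merge (leaf 3 492 492) (leaf 3 493 494))))))) (merge (node 562 (merge (leaf 0 526 561) (node 530 (merge (leaf 0 527 563) (node 498 (merge (leaf 2 494 497) (leaf 2 495 499))))))) (node 498 (merge (leaf 2 494 497) (node 530 (merge (leaf 2 495 499) (node 494 (merge (leaf 3 493 493) (leaf 3 494 495)))))))))) (merge (node 526 (merge (node 557 (merge (leaf 1 525 558) (node 525 (merge (leaf 1 524 556) (node 493 (merge (leaf 3 492 492) (leaf 3 493 494))))))) (merge (node 498 (merge (leaf 2 494 497) (node 530 (merge (leaf 2 495 499) (node 494 (merge (leaf 3 493 493) (leaf 3 494 495))))))) (node 497 (merge (leaf 2 494 498)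 (node 525 (merge (leaf 2 493 496) (node 557 (merge (leaf 1 524 556) (leaf 1 525 558)))))))))) (merge (node 495 (merge (node 530 (merge (leaf 3 494 494) (node 563 (merge (leaf 0 527 562) (node 531 (merge (leaf 0 528 564) (node 499 (merge (leaf 2 495 498) (leaf 2 496 500))))))))) (merge (node 463 (merge (node 560 (merge (leaf 4 431 431) (node 592 (merge (leaf 7 463 496) (leaf 7 495 624))))) (merge (node 431 (merge (leaf 4 431 560) (node 400 (merge (leaf 6 399 432) (node 399 (merge (leaf 6 367 368) (node 398 (merge (leaf 7 366 366) (leaf 7 398 430))))))))) (merge (node 559 (merge (node 590 (merge (leaf 5 462 558) (node 591 (merge (leaf 5 494 622) (node 462 (merge (leaf 7 430 430) (leaf 7 462 494))))))) (merge (node 430 (merge (leaf 7 430 462) (node 431 (merge (leaf 7 398 398) (node 399 (merge (leaf 4 399 496) (node 400 (merge (leaf 6 367 368) (leaf 6 399 432))))))))) (node 590 (merge (leaf 5 462 558) (node 591 (merge (leaf 5 494 622) (node 624 (merge (leaf 4 495 592) (node 623 (merge (leaf 6 495 496) (leaf 4 527 656)))))))))))) (node 559 (merge (node 558 (merge (leaf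 5 462 590) (node 557 (merge (leaf 2 524 556) (leaf 2 525 560))))) (node 462 (merge (leaf 7 430 430) (node 591 (merge (leaf 7 462 494) (node 624 (merge (leaf 4 495 592) (node 623 (merge (leaf 6 495 496) (leaf 4 527 656))))))))))))))) (node 559 (merge (node 558 (merge (leaf 1 526 530) (node 557 (merge (leaf 2 524 556) (leaf 2 525 560))))) (merge (node 530 (merge (leaf 1 526 558) (node 563 (merge (leaf 0 527 562) (node 531 (merge (leaf 3 495 496) (leaf 0 528 564))))))) (node 591 (merge (node 624 (merge (leaf 4 495 592) (node 623 (merge (leaf 6 495 496) (leaf 4 527 656))))) (merge (node 623 (merge (leaf 6 495 496) (node 622 (merge (leaf 5 494 590) (leaf 5 526 654))))) (merge (node 622 (merge (leaf 5 494 590) (node 623 (merge (leaf 5 526 654) (node 656 (merge (leaf 4 527 624) (node 655 (merge (leaf 6 527 560) (leaf 4 559 688))))))))) (node 592 (merge (leaf 4 495 624) (node 463 (merge (leaf 4 463 560) (node 430 (merge (leaf 7 430 462) (node 431 (merge (leaf 7 398 398) (node 399 (merge (leaf 4 399 496) (node 400 (merge (leaf 6 367 368) (leaf 6 399 432)))))))))))))))))))))))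 (node 561 (merge (node 562 (merge (leaf 0 526 526) (node 563 (merge (leaf 3 527 560) (leaf 3 528 564))))) (merge (node 526 (merge (leaf 0 526 562) (node 557 (merge (leaf 1 525 558) (node 525 (merge (leaf 1 524 556) (node 493 (merge (leaf 3 492 492) (leaf 3 493 494))))))))) (merge (node 497 (merge (node 526 (merge (leaf 2 494 498) (node 557 (merge (leaf 1 525 558) (node 525 (merge (leaf 1 524 556) (node 493 (merge (leaf 3 492 492) (leaf 3 493 494))))))))) (merge (node 593 (merge (node 498 (merge (leaf 6 465 466) (node 499 (merge (leaf 1 495 496) (leaf 1 496 500))))) (node 625 (merge (node 657 (merge (leaf 7 528 560) (node 658 (merge (leaf 4 529 626) (leaf 4 561 690))))) (merge (node 657 (merge (leaf 7 528 560) (node 656 (merge (leaf 5 528 624) (leaf 5 560 688))))) (node 626 (merge (leaf 4 529 658) (node 594 (merge (leaf 4 497 497) (node 624 (merge (leaf 5 528 656) (node 623 (merge (leaf 2 591 595) (leaf 2 590 622)))))))))))))) (node 593 (merge (node 625 (merge (leaf 7 496 496) (node 657 (merge (leaf 7 528 560) (node 656 (merge (leaf 5 528 624) (leaf 5 560 688)))))))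 (merge (node 626 (merge (leaf 4 497 594) (node 625 (merge (leaf 7 496 496) (leaf 4 529 658))))) (merge (node 625 (merge (node 657 (merge (leaf 7 528 560) (node 658 (merge (leaf 4 529 626) (leaf 4 561 690))))) (merge (node 657 (merge (leaf 7 528 560) (node 656 (merge (leaf 5 528 624) (leaf 5 560 688))))) (node 626 (merge (leaf 4 529 658) (node 594 (merge (leaf 4 497 497) (node 624 (merge (leaf 5 528 656) (node 623 (merge (leaf 2 591 595) (leaf 2 590 622)))))))))))) (node 594 (merge (leaf 4 497 626) (node 496 (merge (leaf 7 464 464) (node 526 (merge (leaf 2 493 525) (node 558 (merge (leaf 1 525 557) (node 559 (merge (leaf 0 558 560) (node 494 (merge (leaf 3 493 493) (node 591 (merge (leaf 4 462 462) (leaf 6 495 623)))))))))))))))))))))) (node 593 (merge (node 496 (merge (leaf 7 496 625) (node 464 (merge (leaf 4 432 432) (leaf 4 464 560))))) (merge (node 496 (merge (leaf 7 496 625) (node 497 (merge (leaf 7 464 464) (node 498 (merge (leaf 6 465 466) (leaf 1 495 499))))))) (merge (node 625 (merge (node 657 (merge (leaf 7 528 560) (node 658 (merge (leaf 4 529 626) (leaf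 4 561 690))))) (merge (node 657 (merge (leaf 7 528 560) (node 656 (merge (leaf 5 528 624) (leaf 5 560 688))))) (node 626 (merge (leaf 4 529 658) (node 497 (merge (leaf 4 497 594) (node 624 (merge (leaf 5 496 592) (leaf 5 528 656)))))))))) (node 592 (merge (node 624 (merge (leaf 5 496 497) (node 560 (merge (leaf 7 495 495) (leaf 6 528 656))))) (merge (node 497 (merge (leaf 5 496 624) (node 498 (merge (leaf 6 465 466) (node 496 (merge (leaf 7 464 464) (leaf 1 495 499))))))) (merge (node 560 (merge (node 624 (merge (leaf 7 495 495) (leaf 6 528 656))) (merge (node 496 (merge (leaf 4 464 464) (node 591 (merge (leaf 5 495 623) (node 590 (merge (leaf 2 558 562) (leaf 2 557 589))))))) (node 496 (merge (leaf 4 464 464) (node 591 (merge (leaf 5 495 623) (node 590 (merge (leaf 2 558 562) (leaf 2 557 589)))))))))) (node 594 (merge (node 626 (merge (leaf 4 497 497) (node 658 (merge (leaf 7 529 562) (leaf 7 561 690))))) (merge (node 497 (merge (leaf 4 497 626) (node 498 (merge (leaf 6 465 466) (node 496 (merge (leaf 7 464 464) (leaf 1 495 499))))))) (node 562 (merge (node 563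 (merge (leaf 3 527 560) (leaf 1 560 564))) (node 591 (merge (leaf 2 558 590) (node 623 (merge (leaf 1 590 622) (node 559 (merge (leaf 6 495 496) (leaf 3 558 558)))))))))))))))))))))))))))))) (merge (node 529 (merge (node 494 (merge (node 495 (merge (leaf 3 494 530) (node 493 (merge (leaf 0 492 492) (leaf 0 493 496))))) (merge (node 493 (merge (leaf 3 493 526) (node 495 (merge (leaf 0 492 492) (leaf 0 493 496))))) (merge (node 530 (merge (leaf 3 494 495) (node 562 (merge (leaf 0 527 563) (node 526 (merge (leaf 0 526 561) (node 558 (merge (leaf 1 525 557) (leaf 1 526 559))))))))) (node 526 (merge (leaf 3 493 493) (node 562 (merge (leaf 0 526 561) (node 530 (merge (leaf 0 527 563) (node 558 (merge (leaf 1 525 557) (leaf 1 526 559))))))))))))) (merge (node 530 (merge (node 563 (merge (leaf 0 527 562) (node 531 (merge (leaf 0 528 564) (node 559 (merge (leaf 1 526 558) (leaf 1 527 560))))))) (merge (node 563 (merge (leaf 0 527 562) (node 531 (merge (leaf 0 528 564) (node 499 (merge (leaf 2 495 498) (leaf 2 496 500))))))) (node 498 (merge (leaf 2 495 499) (node 526 (merge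 (leaf 2 494 497) (node 558 (merge (leaf 1 525 557) (leaf 1 526 559)))))))))) (merge (node 530 (merge (node 563 (merge (leaf 0 527 562) (node 531 (merge (leaf 0 528 564) (node 495 (merge (leaf 3 494 494) (leaf 3 495 496))))))) (merge (node 563 (merge (leaf 0 527 562) (node 531 (merge (leaf 0 528 564) (node 499 (merge (leaf 2 495 498) (leaf 2 496 500))))))) (merge (node 499 (merge (leaf 2 495 498) (node 531 (merge (leaf 2 496 500) (node 495 (merge (leaf 3 494 494) (leaf 3 495 496))))))) (node 562 (merge (leaf 0 527 563) (node 498 (merge (leaf 2 495 499) (node 497 (merge (leaf 2 494 526) (node 594 (merge (leaf 7 465 465) (leaf 7 497 626))))))))))))) (merge (node 494 (merge (node 495 (merge (leaf 3 494 530) (node 493 (merge (leaf 0 492 492) (leaf 0 493 496))))) (merge (node 493 (merge (leaf 3 493 526) (node 495 (merge (leaf 0 492 492) (leaf 0 493 496))))) (merge (node 530 (merge (leaf 3 494 495) (node 498 (merge (leaf 2 495 499) (node 526 (merge (leaf 2 494 497) (node 558 (merge (leaf 1 525 557) (leaf 1 526 559))))))))) (node 526 (merge (leaf 3 493 493) (node 558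 (merge (leaf 1 525 557) (node 559 (merge (leaf 1 526 530) (node 591 (merge (leaf 4 462 462) (leaf 7 494 623))))))))))))) (merge (node 559 (merge (node 530 (merge (leaf 1 526 558) (node 563 (merge (leaf 0 527 562) (node 531 (merge (leaf 0 528 564) (node 499 (merge (leaf 2 495 498) (leaf 2 496 500))))))))) (merge (node 591 (merge (node 496 (merge (leaf 6 495 623) (node 495 (merge (leaf 6 463 464) (node 494 (merge (leaf 7 462 462) (leaf 0 493 493))))))) (merge (node 623 (merge (leaf 6 495 496) (node 656 (merge (leaf 4 527 624) (node 655 (merge (leaf 6 527 560) (leaf 4 559 688))))))) (merge (node 623 (merge (node 656 (merge (leaf 4 527 624) (node 655 (merge (leaf 6 527 560) (leaf 4 559 688))))) (merge (node 655 (merge (leaf 6 527 560) (node 654 (merge (leaf 5 526 622) (leaf 5 558 686))))) (node 624 (merge (leaf 4 527 656) (node 495 (merge (leaf 4 495 592) (node 622 (merge (leaf 5 494 590) (leaf 5 526 654)))))))))) (node 495 (merge (node 494 (merge (leaf 7 462 462) (node 493 (merge (leaf 0 492 492) (leaf 0 493 496))))) (node 592 (merge (leaf 4 495 624) (node 590 (merge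 (leaf 5 494 622) (node 558 (merge (leaf 5 462 463) (node 557 (merge (leaf 0 556 556) (leaf 3 557 593))))))))))))))) (node 591 (merge (node 496 (merge (leaf 6 495 623) (node 495 (merge (leaf 6 463 464) (node 494 (merge (leaf 7 462 462) (leaf 0 493 493))))))) (merge (node 623 (merge (leaf 6 495 496) (node 656 (merge (leaf 4 527 624) (node 655 (merge (leaf 6 527 560) (leaf 4 559 688))))))) (merge (node 623 (merge (node 656 (merge (leaf 4 527 624) (node 655 (merge (leaf 6 527 560) (leaf 4 559 688))))) (merge (node 655 (merge (leaf 6 527 560) (node 654 (merge (leaf 5 526 622) (leaf 5 558 686))))) (node 624 (merge (leaf 4 527 656) (node 495 (merge (leaf 4 495 592) (node 622 (merge (leaf 5 494 590) (leaf 5 526 654)))))))))) (node 530 (merge (node 495 (merge (leaf 3 494 494) (node 496 (merge (leaf 6 463 464) (leaf 3 495 531))))) (merge (node 499 (merge (leaf 2 495 498) (node 531 (merge (leaf 2 496 500) (leaf 1 527 560))))) (node 495 (merge (leaf 3 494 494) (node 592 (merge (leaf 4 495 624) (node 560 (merge (leaf 4 463 463) (node 590 (merge (leaf 5 494 622) (node 589 (merge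 (leaf 2 557 561) (leaf 2 556 588))))))))))))))))))))) (node 561 (merge (node 562 (merge (leaf 0 526 526) (node 563 (merge (leaf 3 527 560) (leaf 3 528 564))))) (merge (node 593 (merge (node 496 (merge (leaf 7 496 625) (node 497 (merge (leaf 7 464 464) (node 498 (merge (leaf 6 465 466) (leaf 1 495 499))))))) (merge (node 625 (merge (leaf 7 496 496) (node 657 (merge (leaf 7 528 560) (node 658 (merge (leaf 4 529 626) (leaf 4 561 690))))))) (merge (node 497 (merge (node 498 (merge (leaf 6 465 466) (node 496 (merge (leaf 7 464 464) (leaf 1 495 499))))) (merge (node 594 (merge (leaf 4 497 626) (node 465 (merge (leaf 4 465 562) (node 592 (merge (leaf 5 464 560) (leaf 5 496 624))))))) (node 594 (merge (leaf 4 497 626) (node 465 (merge (leaf 4 465 562) (node 592 (merge (leaf 5 464 560) (leaf 5 496 624)))))))))) (node 625 (merge (node 657 (merge (leaf 7 528 560) (node 658 (merge (leaf 4 529 626) (leaf 4 561 690))))) (merge (node 657 (merge (leaf 7 528 560) (node 656 (merge (leaf 5 528 624) (leaf 5 560 688))))) (node 626 (merge (leaf 4 529 658) (node 497 (merge (leaf 4 497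 594) (node 624 (merge (leaf 5 496 592) (leaf 5 528 656)))))))))))))) (merge (node 593 (merge (node 496 (merge (leaf 7 496 625) (node 464 (merge (leaf 4 432 432) (leaf 4 464 560))))) (merge (node 496 (merge (leaf 7 496 625) (node 497 (merge (leaf 7 464 464) (node 498 (merge (leaf 6 465 466) (leaf 1 495 499))))))) (merge (node 625 (merge (node 657 (merge (leaf 7 528 560) (node 658 (merge (leaf 4 529 626) (leaf 4 561 690))))) (merge (node 657 (merge (leaf 7 528 560) (node 656 (merge (leaf 5 528 624) (leaf 5 560 688))))) (node 626 (merge (leaf 4 529 658) (node 497 (merge (leaf 4 497 594) (node 624 (merge (leaf 5 496 592) (leaf 5 528 656)))))))))) (node 497 (merge (node 498 (merge (leaf 6 465 466) (leaf 2 494 526))) (node 594 (merge (leaf 4 497 626) (node 592 (merge (leaf 5 496 624) (node 560 (merge (leaf 5 464 465) (node 595 (merge (leaf 3 559 559) (leaf 3 560 596))))))))))))))) (node 497 (merge (node 526 (merge (leaf 2 494 498) (leaf 0 526 562))) (merge (node 498 (merge (leaf 2 494 526) (node 499 (merge (leaf 1 495 496) (leaf 1 496 500))))) (merge (node 593 (merge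 (node 498 (merge (leaf 6 465 466) (node 499 (merge (leaf 1 495 496) (leaf 1 496 500))))) (merge (node 624 (merge (leaf 5 496 592) (node 625 (merge (leaf 7 496 496) (leaf 5 528 656))))) (node 594 (merge (leaf 4 497 626) (node 562 (merge (leaf 4 465 465) (node 563 (merge (leaf 3 528 564) (node 592 (merge (leaf 2 559 591) (leaf 5 496 624)))))))))))) (node 562 (merge (leaf 0 526 526) (node 465 (merge (leaf 4 465 594) (node 466 (merge (leaf 6 433 434) (node 464 (merge (leaf 7 432 432) (node 496 (merge (leaf 7 464 593) (node 495 (merge (leaf 1 463 467) (leaf 2 462 494))))))))))))))))))))))))))) (merge (node 529 (merge (node 494 (merge (node 495 (merge (leaf 3 494 530) (node 493 (merge (leaf 0 492 492) (leaf 0 493 496))))) (merge (node 493 (merge (leaf 3 493 526) (node 495 (merge (leaf 0 492 492) (leaf 0 493 496))))) (merge (node 530 (merge (leaf 3 494 495) (node 562 (merge (leaf 0 527 563) (node 526 (merge (leaf 0 526 561) (node 558 (merge (leaf 1 525 557) (leaf 1 526 559))))))))) (node 526 (merge (leaf 3 493 493) (node 562 (merge (leaf 0 526 561) (node 530 (merge (leaf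 0 527 563) (node 558 (merge (leaf 1 525 557) (leaf 1 526 559))))))))))))) (merge (node 530 (merge (node 563 (merge (leaf 0 527 562) (node 531 (merge (leaf 0 528 564) (node 559 (merge (leaf 1 526 558) (leaf 1 527 560))))))) (merge (node 563 (merge (leaf 0 527 562) (node 531 (merge (leaf 0 528 564) (node 499 (merge (leaf 2 495 498) (leaf 2 496 500))))))) (node 498 (merge (leaf 2 495 499) (node 526 (merge (leaf 2 494 497) (node 558 (merge (leaf 1 525 557) (leaf 1 526 559)))))))))) (merge (node 526 (merge (node 561 (merge (leaf 0 526 562) (node 525 (merge (leaf 0 525 560) (node 493 (merge (leaf 3 492 492) (leaf 3 493 494))))))) (merge (node 562 (merge (leaf 0 526 561) (node 530 (merge (leaf 0 527 563) (node 498 (merge (leaf 2 494 497) (leaf 2 495 499))))))) (node 498 (merge (leaf 2 494 497) (node 530 (merge (leaf 2 495 499) (node 494 (merge (leaf 3 493 493) (leaf 3 494 495)))))))))) (merge (node 526 (merge (node 557 (merge (leaf 1 525 558) (node 525 (merge (leaf 1 524 556) (node 493 (merge (leaf 3 492 492) (leaf 3 493 494))))))) (merge (node 498 (merge (leaf 2 494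 497) (node 530 (merge (leaf 2 495 499) (node 494 (merge (leaf 3 493 493) (leaf 3 494 495))))))) (node 497 (merge (leaf 2 494 498) (node 525 (merge (leaf 2 493 496) (node 557 (merge (leaf 1 524 556) (leaf 1 525 558)))))))))) (merge (node 497 (merge (node 526 (merge (leaf 2 494 498) (node 557 (merge (leaf 1 525 558) (node 525 (merge (leaf 1 524 556) (node 493 (merge (leaf 3 492 492) (leaf 3 493 494))))))))) (merge (node 561 (merge (node 562 (merge (leaf 0 526 526) (node 563 (merge (leaf 3 527 560) (leaf 3 528 564))))) (merge (node 526 (merge (leaf 0 526 562) (node 525 (merge (leaf 2 493 496) (node 557 (merge (leaf 1 524 556) (leaf 1 525 558))))))) (node 465 (merge (node 560 (merge (leaf 5 432 433) (leaf 5 464 592))) (merge (node 434 (merge (leaf 6 433 466) (node 433 (merge (leaf 6 401 402) (node 401 (merge (leaf 5 400 496) (node 400 (merge (leaf 7 368 368) (leaf 7 400 432))))))))) (node 592 (merge (leaf 5 464 560) (node 593 (merge (leaf 5 496 624) (node 626 (merge (leaf 4 497 594) (node 625 (merge (leaf 7 496 496) (leaf 4 529 658))))))))))))))) (node 465 (merge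 (node 560 (merge (leaf 5 432 433) (node 592 (merge (leaf 5 464 561) (leaf 6 496 624))))) (merge (node 433 (merge (leaf 5 432 560) (node 402 (merge (leaf 6 401 434) (node 401 (merge (leaf 6 369 370) (leaf 5 400 496))))))) (merge (node 434 (merge (node 466 (merge (leaf 6 433 561) (node 402 (merge (leaf 5 369 370) (leaf 5 401 498))))) (merge (node 433 (merge (leaf 6 401 402) (node 401 (merge (leaf 5 400 496) (node 400 (merge (leaf 7 368 368) (leaf 7 400 432))))))) (node 561 (merge (leaf 6 433 466) (node 594 (merge (leaf 4 465 562) (node 593 (merge (leaf 4 497 626) (node 624 (merge (leaf 5 496 592) (node 625 (merge (leaf 7 496 496) (leaf 5 528 656)))))))))))))) (node 561 (merge (node 562 (merge (leaf 4 465 594) (node 563 (merge (leaf 3 528 564) (node 560 (merge (leaf 3 527 527) (leaf 5 464 592))))))) (merge (node 466 (merge (leaf 6 433 434) (node 593 (merge (leaf 6 465 498) (node 626 (merge (leaf 4 497 594) (node 625 (merge (leaf 7 496 496) (leaf 4 529 658))))))))) (node 466 (merge (leaf 6 433 434) (node 593 (merge (leaf 6 465 498) (node 624 (merge (leaf 5 496 592)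 (node 625 (merge (leaf 7 496 496) (leaf 5 528 656))))))))))))))))))) (node 495 (merge (node 530 (merge (leaf 3 494 494) (node 563 (merge (leaf 0 527 562) (node 531 (merge (leaf 0 528 564) (node 499 (merge (leaf 2 495 498) (leaf 2 496 500))))))))) (merge (node 463 (merge (node 560 (merge (leaf 4 431 431) (node 592 (merge (leaf 7 463 496) (leaf 7 495 624))))) (merge (node 431 (merge (leaf 4 431 560) (node 400 (merge (leaf 6 399 432) (node 399 (merge (leaf 6 367 368) (node 398 (merge (leaf 7 366 366) (leaf 7 398 430))))))))) (merge (node 559 (merge (node 590 (merge (leaf 5 462 558) (node 591 (merge (leaf 5 494 622) (node 462 (merge (leaf 7 430 430) (leaf 7 462 494))))))) (merge (node 430 (merge (leaf 7 430 462) (node 431 (merge (leaf 7 398 398) (node 399 (merge (leaf 4 399 496) (node 400 (merge (leaf 6 367 368) (leaf 6 399 432))))))))) (node 590 (merge (leaf 5 462 558) (node 591 (merge (leaf 5 494 622) (node 624 (merge (leaf 4 495 592) (node 623 (merge (leaf 6 495 496) (leaf 4 527 656)))))))))))) (node 559 (merge (node 558 (merge (leaf 5 462 590) (node 557 (merge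 (leaf 2 524 556) (leaf 2 525 560))))) (node 462 (merge (leaf 7 430 430) (node 591 (merge (leaf 7 462 494) (node 624 (merge (leaf 4 495 592) (node 623 (merge (leaf 6 495 496) (leaf 4 527 656))))))))))))))) (node 559 (merge (node 558 (merge (leaf 1 526 530) (node 557 (merge (leaf 2 524 556) (leaf 2 525 560))))) (merge (node 530 (merge (leaf 1 526 558) (node 563 (merge (leaf 0 527 562) (node 531 (merge (leaf 3 495 496) (leaf 0 528 564))))))) (node 591 (merge (node 624 (merge (leaf 4 495 592) (node 623 (merge (leaf 6 495 496) (leaf 4 527 656))))) (merge (node 623 (merge (leaf 6 495 496) (node 622 (merge (leaf 5 494 590) (leaf 5 526 654))))) (merge (node 622 (merge (leaf 5 494 590) (node 623 (merge (leaf 5 526 654) (node 656 (merge (leaf 4 527 624) (node 655 (merge (leaf 6 527 560) (leaf 4 559 688))))))))) (node 592 (merge (leaf 4 495 624) (node 463 (merge (leaf 4 463 560) (node 430 (merge (leaf 7 430 462) (node 431 (merge (leaf 7 398 398) (node 399 (merge (leaf 4 399 496) (node 400 (merge (leaf 6 367 368) (leaf 6 399 432))))))))))))))))))))))))))))) (merge (hyp 0)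 (merge (hyp 1) (merge (node 529 (merge (node 494 (merge (node 495 (merge (leaf 3 494 530) (node 493 (merge (leaf 0 492 492) (leaf 0 493 496))))) (merge (node 493 (merge (leaf 3 493 526) (node 495 (merge (leaf 0 492 492) (leaf 0 493 496))))) (merge (node 530 (merge (leaf 3 494 495) (node 562 (merge (leaf 0 527 563) (node 526 (merge (leaf 0 526 561) (node 558 (merge (leaf 1 525 557) (leaf 1 526 559))))))))) (node 526 (merge (leaf 3 493 493) (node 562 (merge (leaf 0 526 561) (node 530 (merge (leaf 0 527 563) (node 558 (merge (leaf 1 525 557) (leaf 1 526 559))))))))))))) (merge (node 530 (merge (node 563 (merge (leaf 0 527 562) (node 531 (merge (leaf 0 528 564) (node 559 (merge (leaf 1 526 558) (leaf 1 527 560))))))) (merge (node 563 (merge (leaf 0 527 562) (node 531 (merge (leaf 0 528 564) (node 499 (merge (leaf 2 495 498) (leaf 2 496 500))))))) (node 498 (merge (leaf 2 495 499) (node 526 (merge (leaf 2 494 497) (node 558 (merge (leaf 1 525 557) (leaf 1 526 559)))))))))) (merge (node 526 (merge (node 561 (merge (leaf 0 526 562) (node 525 (merge (leaf 0 525 560) (node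 493 (merge (leaf 3 492 492) (leaf 3 493 494))))))) (merge (node 562 (merge (leaf 0 526 561) (node 530 (merge (leaf 0 527 563) (node 498 (merge (leaf 2 494 497) (leaf 2 495 499))))))) (node 498 (merge (leaf 2 494 497) (node 530 (merge (leaf 2 495 499) (node 494 (merge (leaf 3 493 493) (leaf 3 494 495)))))))))) (merge (node 526 (merge (node 557 (merge (leaf 1 525 558) (node 525 (merge (leaf 1 524 556) (node 493 (merge (leaf 3 492 492) (leaf 3 493 494))))))) (merge (node 498 (merge (leaf 2 494 497) (node 530 (merge (leaf 2 495 499) (node 494 (merge (leaf 3 493 493) (leaf 3 494 495))))))) (node 497 (merge (leaf 2 494 498) (node 525 (merge (leaf 2 493 496) (node 557 (merge (leaf 1 524 556) (leaf 1 525 558)))))))))) (merge (node 561 (merge (node 526 (merge (leaf 0 526 562) (node 557 (merge (leaf 1 525 558) (node 525 (merge (leaf 1 524 556) (node 493 (merge (leaf 3 492 492) (leaf 3 493 494))))))))) (merge (node 593 (merge (node 496 (merge (leaf 7 496 625) (node 497 (merge (leaf 7 464 464) (node 498 (merge (leaf 6 465 466) (leaf 1 495 499))))))) (merge (node 625 (merge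 (leaf 7 496 496) (node 657 (merge (leaf 7 528 560) (node 658 (merge (leaf 4 529 626) (leaf 4 561 690))))))) (merge (node 497 (merge (node 498 (merge (leaf 6 465 466) (node 496 (merge (leaf 7 464 464) (leaf 1 495 499))))) (merge (node 594 (merge (leaf 4 497 626) (node 465 (merge (leaf 4 465 562) (node 592 (merge (leaf 5 464 560) (leaf 5 496 624))))))) (node 594 (merge (leaf 4 497 626) (node 465 (merge (leaf 4 465 562) (node 592 (merge (leaf 5 464 560) (leaf 5 496 624)))))))))) (node 625 (merge (node 657 (merge (leaf 7 528 560) (node 658 (merge (leaf 4 529 626) (leaf 4 561 690))))) (merge (node 657 (merge (leaf 7 528 560) (node 656 (merge (leaf 5 528 624) (leaf 5 560 688))))) (node 626 (merge (leaf 4 529 658) (node 497 (merge (leaf 4 497 594) (node 624 (merge (leaf 5 496 592) (leaf 5 528 656)))))))))))))) (node 593 (merge (node 496 (merge (leaf 7 496 625) (node 464 (merge (leaf 4 432 432) (leaf 4 464 560))))) (merge (node 496 (merge (leaf 7 496 625) (node 497 (merge (leaf 7 464 464) (node 498 (merge (leaf 6 465 466) (leaf 1 495 499))))))) (merge (node 625 (merge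 (node 657 (merge (leaf 7 528 560) (node 658 (merge (leaf 4 529 626) (leaf 4 561 690))))) (merge (node 657 (merge (leaf 7 528 560) (node 656 (merge (leaf 5 528 624) (leaf 5 560 688))))) (node 626 (merge (leaf 4 529 658) (node 497 (merge (leaf 4 497 594) (node 624 (merge (leaf 5 496 592) (leaf 5 528 656)))))))))) (node 497 (merge (node 498 (merge (leaf 6 465 466) (node 496 (merge (leaf 7 464 464) (leaf 1 495 499))))) (merge (node 526 (merge (leaf 2 494 498) (node 525 (merge (leaf 2 493 496) (leaf 0 525 560))))) (node 592 (merge (leaf 5 496 624) (node 465 (merge (leaf 5 464 560) (node 434 (merge (leaf 6 433 466) (node 433 (merge (leaf 6 401 402) (node 432 (merge (leaf 7 400 400) (leaf 7 432 464))))))))))))))))))))) (node 559 (merge (node 558 (merge (leaf 1 526 530) (node 557 (merge (leaf 2 524 556) (leaf 2 525 560))))) (merge (node 530 (merge (leaf 1 526 558) (node 563 (merge (leaf 0 527 562) (node 531 (merge (leaf 0 528 564) (node 499 (merge (leaf 2 495 498) (leaf 2 496 500))))))))) (merge (node 495 (merge (node 494 (merge (leaf 3 494 530) (node 493 (merge (leaf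 0 492 492) (leaf 0 493 496))))) (merge (node 530 (merge (leaf 3 494 494) (node 563 (merge (leaf 0 527 562) (node 531 (merge (leaf 1 527 560) (leaf 0 528 564))))))) (node 464 (merge (node 432 (merge (leaf 6 431 463) (leaf 5 431 496))) (merge (node 463 (merge (leaf 6 431 432) (node 560 (merge (leaf 4 431 431) (leaf 4 463 592))))) (node 591 (merge (leaf 6 463 496) (node 624 (merge (leaf 4 495 592) (node 623 (merge (leaf 4 527 656) (node 654 (merge (leaf 5 526 622) (node 655 (merge (leaf 6 527 560) (leaf 5 558 686))))))))))))))))) (node 591 (merge (node 496 (merge (leaf 6 495 623) (node 495 (merge (leaf 6 463 464) (node 494 (merge (leaf 7 462 462) (leaf 0 493 493))))))) (merge (node 623 (merge (leaf 6 495 496) (node 656 (merge (leaf 4 527 624) (node 655 (merge (leaf 6 527 560) (leaf 4 559 688))))))) (merge (node 623 (merge (node 656 (merge (leaf 4 527 624) (node 655 (merge (leaf 6 527 560) (leaf 4 559 688))))) (merge (node 655 (merge (leaf 6 527 560) (node 654 (merge (leaf 5 526 622) (leaf 5 558 686))))) (merge (node 656 (merge (leaf 4 527 624) (node 655 (merge (leaf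 4 559 688) (node 654 (merge (leaf 5 526 622) (leaf 5 558 686))))))) (node 624 (merge (leaf 4 527 656) (node 495 (merge (leaf 4 495 592) (node 462 (merge (leaf 7 462 494) (node 463 (merge (leaf 7 430 430) (node 431 (merge (leaf 4 431 560) (node 432 (merge (leaf 6 399 400) (leaf 6 431 464))))))))))))))))) (node 495 (merge (node 494 (merge (leaf 7 462 462) (node 493 (merge (leaf 0 492 492) (leaf 0 493 496))))) (merge (node 462 (merge (leaf 7 462 494) (node 463 (merge (leaf 7 430 430) (node 560 (merge (leaf 4 431 431) (leaf 4 463 592))))))) (node 592 (merge (leaf 4 495 624) (node 560 (merge (leaf 4 463 463) (node 496 (merge (leaf 5 463 464) (node 593 (merge (leaf 4 496 625) (node 594 (merge (leaf 3 558 558) (leaf 3 559 595)))))))))))))))))))))))))))) (merge (hyp 2) (merge (node 529 (merge (node 494 (merge (node 495 (merge (leaf 3 494 530) (node 493 (merge (leaf 0 492 492) (leaf 0 493 496))))) (merge (node 493 (merge (leaf 3 493 526) (node 495 (merge (leaf 0 492 492) (leaf 0 493 496))))) (merge (node 530 (merge (leaf 3 494 495) (node 562 (merge (leaf 0 527 563) (node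 526 (merge (leaf 0 526 561) (node 558 (merge (leaf 1 525 557) (leaf 1 526 559))))))))) (node 526 (merge (leaf 3 493 493) (node 562 (merge (leaf 0 526 561) (node 530 (merge (leaf 0 527 563) (node 558 (merge (leaf 1 525 557) (leaf 1 526 559))))))))))))) (merge (node 530 (merge (node 563 (merge (leaf 0 527 562) (node 531 (merge (leaf 0 528 564) (node 559 (merge (leaf 1 526 558) (leaf 1 527 560))))))) (merge (node 563 (merge (leaf 0 527 562) (node 531 (merge (leaf 0 528 564) (node 499 (merge (leaf 2 495 498) (leaf 2 496 500))))))) (node 498 (merge (leaf 2 495 499) (node 526 (merge (leaf 2 494 497) (node 558 (merge (leaf 1 525 557) (leaf 1 526 559)))))))))) (merge (node 526 (merge (node 561 (merge (leaf 0 526 562) (node 525 (merge (leaf 0 525 560) (node 493 (merge (leaf 3 492 492) (leaf 3 493 494))))))) (merge (node 562 (merge (leaf 0 526 561) (node 530 (merge (leaf 0 527 563) (node 498 (merge (leaf 2 494 497) (leaf 2 495 499))))))) (node 498 (merge (leaf 2 494 497) (node 530 (merge (leaf 2 495 499) (node 494 (merge (leaf 3 493 493) (leaf 3 494 495)))))))))) (merge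 (node 526 (merge (node 557 (merge (leaf 1 525 558) (node 525 (merge (leaf 1 524 556) (node 493 (merge (leaf 3 492 492) (leaf 3 493 494))))))) (merge (node 498 (merge (leaf 2 494 497) (node 530 (merge (leaf 2 495 499) (node 494 (merge (leaf 3 493 493) (leaf 3 494 495))))))) (node 497 (merge (leaf 2 494 498) (node 525 (merge (leaf 2 493 496) (node 557 (merge (leaf 1 524 556) (leaf 1 525 558)))))))))) (merge (node 497 (merge (node 526 (merge (leaf 2 494 498) (node 557 (merge (leaf 1 525 558) (node 525 (merge (leaf 1 524 556) (node 493 (merge (leaf 3 492 492) (leaf 3 493 494))))))))) (merge (node 561 (merge (node 562 (merge (leaf 0 526 526) (node 563 (merge (leaf 3 527 560) (leaf 3 528 564))))) (merge (node 526 (merge (leaf 0 526 562) (node 525 (merge (leaf 2 493 496) (node 557 (merge (leaf 1 524 556) (leaf 1 525 558))))))) (node 465 (merge (node 560 (merge (leaf 5 432 433) (leaf 5 464 592))) (merge (node 434 (merge (leaf 6 433 466) (node 433 (merge (leaf 6 401 402) (node 401 (merge (leaf 5 400 496) (node 400 (merge (leaf 7 368 368) (leaf 7 400 432))))))))) (node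 592 (merge (leaf 5 464 560) (node 593 (merge (leaf 5 496 624) (node 626 (merge (leaf 4 497 594) (node 625 (merge (leaf 7 496 496) (leaf 4 529 658))))))))))))))) (node 465 (merge (node 560 (merge (leaf 5 432 433) (node 592 (merge (leaf 5 464 561) (leaf 6 496 624))))) (merge (node 433 (merge (leaf 5 432 560) (node 402 (merge (leaf 6 401 434) (node 401 (merge (leaf 6 369 370) (leaf 5 400 496))))))) (merge (node 434 (merge (node 466 (merge (leaf 6 433 561) (node 402 (merge (leaf 5 369 370) (leaf 5 401 498))))) (merge (node 433 (merge (leaf 6 401 402) (node 401 (merge (leaf 5 400 496) (node 400 (merge (leaf 7 368 368) (leaf 7 400 432))))))) (node 561 (merge (leaf 6 433 466) (node 594 (merge (leaf 4 465 562) (node 593 (merge (leaf 4 497 626) (node 624 (merge (leaf 5 496 592) (node 625 (merge (leaf 7 496 496) (leaf 5 528 656)))))))))))))) (node 561 (merge (node 562 (merge (leaf 4 465 594) (node 563 (merge (leaf 3 528 564) (node 560 (merge (leaf 3 527 527) (leaf 5 464 592))))))) (merge (node 466 (merge (leaf 6 433 434) (node 593 (merge (leaf 6 465 498) (node 626 (merge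 (leaf 4 497 594) (node 625 (merge (leaf 7 496 496) (leaf 4 529 658))))))))) (node 466 (merge (leaf 6 433 434) (node 593 (merge (leaf 6 465 498) (node 624 (merge (leaf 5 496 592) (node 625 (merge (leaf 7 496 496) (leaf 5 528 656))))))))))))))))))) (node 559 (merge (node 558 (merge (leaf 1 526 530) (node 557 (merge (leaf 2 524 556) (leaf 2 525 560))))) (merge (node 530 (merge (leaf 1 526 558) (node 563 (merge (leaf 0 527 562) (node 531 (merge (leaf 0 528 564) (node 499 (merge (leaf 2 495 498) (leaf 2 496 500))))))))) (merge (node 591 (merge (node 496 (merge (leaf 6 495 623) (node 464 (merge (leaf 5 431 432) (leaf 5 463 560))))) (merge (node 496 (merge (leaf 6 495 623) (node 495 (merge (leaf 6 463 464) (node 494 (merge (leaf 7 462 462) (leaf 0 493 493))))))) (merge (node 623 (merge (node 656 (merge (leaf 4 527 624) (node 655 (merge (leaf 6 527 560) (leaf 4 559 688))))) (merge (node 655 (merge (leaf 6 527 560) (node 654 (merge (leaf 5 526 622) (leaf 5 558 686))))) (node 624 (merge (leaf 4 527 656) (node 495 (merge (leaf 4 495 592) (node 622 (merge (leaf 5 494 590)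 (leaf 5 526 654)))))))))) (node 495 (merge (node 494 (merge (leaf 7 462 462) (leaf 3 494 530))) (merge (node 496 (merge (leaf 6 463 464) (node 494 (merge (leaf 7 462 462) (leaf 0 493 493))))) (node 590 (merge (leaf 5 494 622) (node 496 (merge (leaf 6 463 464) (node 530 (merge (leaf 3 495 531) (node 562 (merge (leaf 0 527 563) (node 561 (merge (leaf 1 558 560) (node 498 (merge (leaf 2 495 499) (node 593 (merge (leaf 5 465 466) (leaf 6 497 625)))))))))))))))))))))) (node 591 (merge (node 496 (merge (leaf 6 495 623) (node 464 (merge (leaf 5 431 432) (leaf 5 463 560))))) (merge (node 496 (merge (leaf 6 495 623) (node 495 (merge (leaf 6 463 464) (node 494 (merge (leaf 7 462 462) (leaf 0 493 493))))))) (merge (node 623 (merge (node 656 (merge (leaf 4 527 624) (node 655 (merge (leaf 6 527 560) (leaf 4 559 688))))) (merge (node 655 (merge (leaf 6 527 560) (node 654 (merge (leaf 5 526 622) (leaf 5 558 686))))) (node 624 (merge (leaf 4 527 656) (node 495 (merge (leaf 4 495 592) (node 622 (merge (leaf 5 494 590) (leaf 5 526 654)))))))))) (node 592 (merge (node 495 (merge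 (leaf 4 495 624) (node 494 (merge (leaf 7 462 462) (node 493 (merge (leaf 0 492 492) (leaf 0 493 496))))))) (merge (node 624 (merge (leaf 4 495 495) (node 656 (merge (leaf 7 527 560) (leaf 7 559 688))))) (merge (node 590 (merge (node 622 (merge (leaf 5 494 495) (node 654 (merge (leaf 6 526 558) (leaf 6 558 686))))) (merge (node 495 (merge (leaf 5 494 622) (node 494 (merge (leaf 7 462 462) (node 493 (merge (leaf 0 492 492) (leaf 0 493 496))))))) (node 558 (merge (node 557 (merge (leaf 0 556 556) (leaf 2 525 560))) (node 593 (merge (leaf 3 558 594) (node 625 (merge (leaf 0 590 626) (node 561 (merge (leaf 7 496 496) (leaf 2 558 562)))))))))))) (node 560 (merge (node 624 (merge (leaf 6 496 497) (leaf 7 527 656))) (merge (node 496 (merge (leaf 5 463 464) (node 593 (merge (leaf 4 496 625) (node 594 (merge (leaf 3 558 558) (leaf 3 559 595))))))) (node 624 (merge (leaf 7 527 656) (node 558 (merge (leaf 2 525 557) (node 593 (merge (leaf 3 558 594) (node 625 (merge (leaf 4 496 496) (leaf 4 528 657)))))))))))))))))))))))))))))) (merge (hyp 3) (merge (node 529 (merge (node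 494 (merge (node 495 (merge (leaf 3 494 530) (node 493 (merge (leaf 0 492 492) (leaf 0 493 496))))) (merge (node 493 (merge (leaf 3 493 526) (node 495 (merge (leaf 0 492 492) (leaf 0 493 496))))) (merge (node 530 (merge (leaf 3 494 495) (node 562 (merge (leaf 0 527 563) (node 526 (merge (leaf 0 526 561) (node 558 (merge (leaf 1 525 557) (leaf 1 526 559))))))))) (node 526 (merge (leaf 3 493 493) (node 562 (merge (leaf 0 526 561) (node 530 (merge (leaf 0 527 563) (node 558 (merge (leaf 1 525 557) (leaf 1 526 559))))))))))))) (merge (node 530 (merge (node 563 (merge (leaf 0 527 562) (node 531 (merge (leaf 0 528 564) (node 559 (merge (leaf 1 526 558) (leaf 1 527 560))))))) (merge (node 563 (merge (leaf 0 527 562) (node 531 (merge (leaf 0 528 564) (node 499 (merge (leaf 2 495 498) (leaf 2 496 500))))))) (node 498 (merge (leaf 2 495 499) (node 526 (merge (leaf 2 494 497) (node 558 (merge (leaf 1 525 557) (leaf 1 526 559)))))))))) (merge (node 526 (merge (node 561 (merge (leaf 0 526 562) (node 525 (merge (leaf 0 525 560) (node 493 (merge (leaf 3 492 492) (leaf 3 493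 494))))))) (merge (node 562 (merge (leaf 0 526 561) (node 530 (merge (leaf 0 527 563) (node 498 (merge (leaf 2 494 497) (leaf 2 495 499))))))) (node 498 (merge (leaf 2 494 497) (node 530 (merge (leaf 2 495 499) (node 494 (merge (leaf 3 493 493) (leaf 3 494 495)))))))))) (merge (node 494 (merge (node 495 (merge (leaf 3 494 530) (node 493 (merge (leaf 0 492 492) (leaf 0 493 496))))) (merge (node 493 (merge (leaf 3 493 526) (node 495 (merge (leaf 0 492 492) (leaf 0 493 496))))) (merge (node 530 (merge (leaf 3 494 495) (node 498 (merge (leaf 2 495 499) (node 526 (merge (leaf 2 494 497) (node 558 (merge (leaf 1 525 557) (leaf 1 526 559))))))))) (node 526 (merge (leaf 3 493 493) (node 558 (merge (leaf 1 525 557) (node 559 (merge (leaf 1 526 530) (node 591 (merge (leaf 4 462 462) (leaf 7 494 623))))))))))))) (merge (node 559 (merge (node 530 (merge (leaf 1 526 558) (node 563 (merge (leaf 0 527 562) (node 531 (merge (leaf 0 528 564) (node 499 (merge (leaf 2 495 498) (leaf 2 496 500))))))))) (merge (node 591 (merge (node 496 (merge (leaf 6 495 623) (node 464 (merge (leaf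 5 431 432) (leaf 5 463 560))))) (merge (node 496 (merge (leaf 6 495 623) (node 495 (merge (leaf 6 463 464) (node 494 (merge (leaf 7 462 462) (leaf 0 493 493))))))) (merge (node 623 (merge (node 656 (merge (leaf 4 527 624) (node 655 (merge (leaf 6 527 560) (leaf 4 559 688))))) (merge (node 655 (merge (leaf 6 527 560) (node 654 (merge (leaf 5 526 622) (leaf 5 558 686))))) (node 624 (merge (leaf 4 527 656) (node 495 (merge (leaf 4 495 592) (node 622 (merge (leaf 5 494 590) (leaf 5 526 654)))))))))) (node 495 (merge (node 494 (merge (leaf 7 462 462) (node 493 (merge (leaf 0 492 492) (leaf 0 493 496))))) (node 590 (merge (leaf 5 494 622) (node 463 (merge (leaf 5 462 558) (node 560 (merge (leaf 4 431 431) (leaf 4 463 592))))))))))))) (node 591 (merge (node 496 (merge (leaf 6 495 623) (node 495 (merge (leaf 6 463 464) (node 494 (merge (leaf 7 462 462) (leaf 0 493 493))))))) (merge (node 623 (merge (leaf 6 495 496) (node 656 (merge (leaf 4 527 624) (node 655 (merge (leaf 6 527 560) (leaf 4 559 688))))))) (merge (node 623 (merge (node 656 (merge (leaf 4 527 624) (node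 655 (merge (leaf 6 527 560) (leaf 4 559 688))))) (merge (node 655 (merge (leaf 6 527 560) (node 654 (merge (leaf 5 526 622) (leaf 5 558 686))))) (node 624 (merge (leaf 4 527 656) (node 495 (merge (leaf 4 495 592) (node 622 (merge (leaf 5 494 590) (leaf 5 526 654)))))))))) (node 530 (merge (node 495 (merge (leaf 3 494 494) (node 496 (merge (leaf 6 463 464) (leaf 3 495 531))))) (merge (node 499 (merge (leaf 2 495 498) (node 531 (merge (leaf 2 496 500) (leaf 1 527 560))))) (node 495 (merge (leaf 3 494 494) (node 592 (merge (leaf 4 495 624) (node 560 (merge (leaf 4 463 463) (node 590 (merge (leaf 5 494 622) (node 589 (merge (leaf 2 557 561) (leaf 2 556 588))))))))))))))))))))) (hyp 4))))))) (merge (node 529 (merge (node 530 (merge (node 563 (merge (leaf 0 527 562) (node 531 (merge (leaf 0 528 564) (node 559 (merge (leaf 1 526 558) (leaf 1 527 560))))))) (merge (node 563 (merge (leaf 0 527 562) (node 531 (merge (leaf 0 528 564) (node 499 (merge (leaf 2 495 498) (leaf 2 496 500))))))) (node 498 (merge (leaf 2 495 499) (node 526 (merge (leaf 2 494 497) (node 558 (merge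 (leaf 1 525 557) (leaf 1 526 559)))))))))) (merge (node 530 (merge (node 563 (merge (leaf 0 527 562) (node 531 (merge (leaf 0 528 564) (node 495 (merge (leaf 3 494 494) (leaf 3 495 496))))))) (merge (node 563 (merge (leaf 0 527 562) (node 531 (merge (leaf 0 528 564) (node 499 (merge (leaf 2 495 498) (leaf 2 496 500))))))) (merge (node 499 (merge (leaf 2 495 498) (node 531 (merge (leaf 2 496 500) (node 495 (merge (leaf 3 494 494) (leaf 3 495 496))))))) (node 562 (merge (leaf 0 527 563) (node 498 (merge (leaf 2 495 499) (node 497 (merge (leaf 2 494 526) (node 594 (merge (leaf 7 465 465) (leaf 7 497 626))))))))))))) (merge (node 498 (merge (node 497 (merge (leaf 2 494 526) (node 499 (merge (leaf 1 495 496) (leaf 1 496 500))))) (merge (node 526 (merge (leaf 2 494 497) (node 561 (merge (leaf 0 526 562) (node 525 (merge (leaf 0 525 560) (node 557 (merge (leaf 1 524 556) (leaf 1 525 558))))))))) (node 530 (merge (leaf 2 495 499) (node 559 (merge (leaf 1 526 558) (node 560 (merge (leaf 1 527 531) (node 495 (merge (leaf 3 494 494) (node 592 (merge (leaf 4 463 463) (leaf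 7 495 624)))))))))))))) (merge (node 530 (merge (node 499 (merge (leaf 2 495 498) (node 531 (merge (leaf 2 496 500) (node 495 (merge (leaf 3 494 494) (leaf 3 495 496))))))) (merge (node 498 (merge (leaf 2 495 499) (node 526 (merge (leaf 2 494 497) (node 558 (merge (leaf 1 525 557) (leaf 1 526 559))))))) (node 495 (merge (leaf 3 494 494) (node 531 (merge (leaf 3 495 496) (node 564 (merge (leaf 0 528 563) (node 532 (merge (leaf 0 529 565) (node 560 (merge (leaf 1 527 559) (leaf 1 528 561)))))))))))))) (merge (node 562 (merge (node 561 (merge (leaf 0 526 526) (node 563 (merge (leaf 3 527 560) (leaf 3 528 564))))) (merge (node 530 (merge (leaf 0 527 563) (node 559 (merge (leaf 1 526 558) (node 495 (merge (leaf 3 494 494) (node 496 (merge (leaf 3 495 531) (node 591 (merge (leaf 6 463 464) (leaf 6 495 623))))))))))) (node 526 (merge (leaf 0 526 561) (node 558 (merge (leaf 1 525 557) (node 530 (merge (leaf 1 526 559) (node 495 (merge (leaf 3 494 494) (node 496 (merge (leaf 3 495 531) (node 525 (merge (leaf 2 493 497) (leaf 2 492 524)))))))))))))))) (merge (node 495 (merge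 (node 530 (merge (leaf 3 494 494) (node 563 (merge (leaf 0 527 562) (node 531 (merge (leaf 0 528 564) (node 499 (merge (leaf 2 495 498) (leaf 2 496 500))))))))) (node 463 (merge (node 560 (merge (leaf 4 431 431) (node 592 (merge (leaf 7 463 496) (leaf 7 495 624))))) (merge (node 431 (merge (leaf 4 431 560) (node 400 (merge (leaf 6 399 432) (node 399 (merge (leaf 6 367 368) (node 398 (merge (leaf 7 366 366) (leaf 7 398 430))))))))) (merge (node 559 (merge (node 558 (merge (leaf 5 462 590) (node 557 (merge (leaf 2 524 556) (leaf 2 525 560))))) (merge (node 592 (merge (leaf 4 463 560) (node 464 (merge (leaf 6 431 432) (node 591 (merge (leaf 6 463 496) (leaf 4 495 624))))))) (node 464 (merge (leaf 6 431 432) (node 591 (merge (leaf 6 463 496) (node 590 (merge (leaf 5 462 558) (leaf 5 494 622)))))))))) (node 431 (merge (node 399 (merge (leaf 4 399 496) (node 398 (merge (leaf 7 366 366) (leaf 7 398 430))))) (merge (node 432 (merge (leaf 6 399 400) (node 464 (merge (leaf 6 431 559) (node 430 (merge (leaf 7 398 398) (node 465 (merge (leaf 0 429 429) (leaf 3 430 466)))))))))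 (node 432 (merge (leaf 6 399 400) (node 559 (merge (leaf 6 431 464) (node 590 (merge (leaf 5 462 558) (node 591 (merge (leaf 5 494 622) (node 624 (merge (leaf 4 495 592) (node 623 (merge (leaf 6 495 496) (leaf 4 527 656)))))))))))))))))))))) (node 561 (merge (node 562 (merge (leaf 0 526 526) (node 563 (merge (leaf 3 527 560) (leaf 3 528 564))))) (merge (node 526 (merge (leaf 0 526 562) (node 497 (merge (leaf 2 494 498) (node 496 (merge (leaf 2 493 525) (node 593 (merge (leaf 7 464 464) (leaf 7 496 625))))))))) (merge (node 593 (merge (node 496 (merge (leaf 7 496 625) (node 497 (merge (leaf 7 464 464) (node 498 (merge (leaf 6 465 466) (leaf 1 495 499))))))) (merge (node 625 (merge (leaf 7 496 496) (node 657 (merge (leaf 7 528 560) (node 658 (merge (leaf 4 529 626) (leaf 4 561 690))))))) (merge (node 497 (merge (node 498 (merge (leaf 6 465 466) (node 496 (merge (leaf 7 464 464) (leaf 1 495 499))))) (merge (node 594 (merge (leaf 4 497 626) (node 465 (merge (leaf 4 465 562) (node 592 (merge (leaf 5 464 560) (leaf 5 496 624))))))) (node 594 (merge (leaf 4 497 626)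 (node 465 (merge (leaf 4 465 562) (node 592 (merge (leaf 5 464 560) (leaf 5 496 624)))))))))) (node 625 (merge (node 657 (merge (leaf 7 528 560) (node 658 (merge (leaf 4 529 626) (leaf 4 561 690))))) (merge (node 657 (merge (leaf 7 528 560) (node 656 (merge (leaf 5 528 624) (leaf 5 560 688))))) (node 626 (merge (leaf 4 529 658) (node 497 (merge (leaf 4 497 594) (node 624 (merge (leaf 5 496 592) (leaf 5 528 656)))))))))))))) (node 497 (merge (node 498 (merge (leaf 2 494 526) (node 499 (merge (leaf 1 495 496) (leaf 1 496 500))))) (merge (node 526 (merge (leaf 2 494 498) (node 560 (merge (leaf 0 525 525) (node 592 (merge (leaf 5 464 465) (leaf 6 496 624))))))) (node 465 (merge (node 560 (merge (leaf 5 432 433) (leaf 5 464 592))) (merge (node 464 (merge (leaf 7 432 432) (node 593 (merge (leaf 7 464 496) (node 626 (merge (leaf 4 497 594) (node 625 (merge (leaf 4 529 658) (node 624 (merge (leaf 5 496 592) (leaf 5 528 656))))))))))) (node 433 (merge (leaf 5 432 560) (node 496 (merge (leaf 5 400 401) (node 434 (merge (leaf 6 401 402) (node 432 (merge (leaf 7 400 400)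 (node 464 (merge (leaf 5 431 559) (node 435 (merge (leaf 1 431 463) (node 467 (merge (leaf 0 432 468) (node 431 (merge (leaf 7 399 399) (leaf 0 431 466)))))))))))))))))))))))))))))))))) (merge (node 529 (merge (node 530 (merge (node 563 (merge (leaf 0 527 562) (node 531 (merge (leaf 0 528 564) (node 559 (merge (leaf 1 526 558) (leaf 1 527 560))))))) (merge (node 563 (merge (leaf 0 527 562) (node 531 (merge (leaf 0 528 564) (node 499 (merge (leaf 2 495 498) (leaf 2 496 500))))))) (node 498 (merge (leaf 2 495 499) (node 526 (merge (leaf 2 494 497) (node 558 (merge (leaf 1 525 557) (leaf 1 526 559)))))))))) (merge (node 530 (merge (node 563 (merge (leaf 0 527 562) (node 531 (merge (leaf 0 528 564) (node 495 (merge (leaf 3 494 494) (leaf 3 495 496))))))) (merge (node 563 (merge (leaf 0 527 562) (node 531 (merge (leaf 0 528 564) (node 499 (merge (leaf 2 495 498) (leaf 2 496 500))))))) (merge (node 499 (merge (leaf 2 495 498) (node 531 (merge (leaf 2 496 500) (node 495 (merge (leaf 3 494 494) (leaf 3 495 496))))))) (node 562 (merge (leaf 0 527 563) (node 498 (merge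 (leaf 2 495 499) (node 497 (merge (leaf 2 494 526) (node 594 (merge (leaf 7 465 465) (leaf 7 497 626))))))))))))) (merge (node 494 (merge (node 493 (merge (leaf 3 493 526) (node 495 (merge (leaf 0 492 492) (leaf 0 493 496))))) (merge (node 526 (merge (leaf 3 493 493) (node 558 (merge (leaf 1 525 557) (node 559 (merge (leaf 1 526 530) (node 591 (merge (leaf 4 462 462) (leaf 7 494 623))))))))) (node 530 (merge (leaf 3 494 495) (node 563 (merge (leaf 0 527 562) (node 531 (merge (leaf 0 528 564) (node 559 (merge (leaf 1 526 558) (leaf 1 527 560)))))))))))) (merge (node 495 (merge (node 530 (merge (leaf 3 494 494) (node 563 (merge (leaf 0 527 562) (node 531 (merge (leaf 0 528 564) (node 499 (merge (leaf 2 495 498) (leaf 2 496 500))))))))) (node 463 (merge (node 560 (merge (leaf 4 431 431) (node 592 (merge (leaf 7 463 496) (leaf 7 495 624))))) (merge (node 431 (merge (leaf 4 431 560) (node 400 (merge (leaf 6 399 432) (node 399 (merge (leaf 6 367 368) (node 398 (merge (leaf 7 366 366) (leaf 7 398 430))))))))) (merge (node 559 (merge (node 558 (merge (leaf 5 462 590)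 (node 557 (merge (leaf 2 524 556) (leaf 2 525 560))))) (merge (node 592 (merge (leaf 4 463 560) (node 464 (merge (leaf 6 431 432) (node 591 (merge (leaf 6 463 496) (leaf 4 495 624))))))) (node 464 (merge (leaf 6 431 432) (node 591 (merge (leaf 6 463 496) (node 590 (merge (leaf 5 462 558) (leaf 5 494 622)))))))))) (node 431 (merge (node 399 (merge (leaf 4 399 496) (node 398 (merge (leaf 7 366 366) (leaf 7 398 430))))) (merge (node 432 (merge (leaf 6 399 400) (node 464 (merge (leaf 6 431 559) (node 430 (merge (leaf 7 398 398) (node 465 (merge (leaf 0 429 429) (leaf 3 430 466))))))))) (node 432 (merge (leaf 6 399 400) (node 559 (merge (leaf 6 431 464) (node 590 (merge (leaf 5 462 558) (node 591 (merge (leaf 5 494 622) (node 624 (merge (leaf 4 495 592) (node 623 (merge (leaf 6 495 496) (leaf 4 527 656)))))))))))))))))))))) (hyp 5)))))) (merge (node 529 (merge (node 526 (merge (node 561 (merge (leaf 0 526 562) (node 525 (merge (leaf 0 525 560) (node 493 (merge (leaf 3 492 492) (leaf 3 493 494))))))) (merge (node 562 (merge (leaf 0 526 561) (node 530 (merge (leaf 0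 527 563) (node 558 (merge (leaf 1 525 557) (leaf 1 526 559))))))) (node 557 (merge (leaf 1 525 558) (node 525 (merge (leaf 1 524 556) (node 493 (merge (leaf 3 492 492) (leaf 3 493 494)))))))))) (merge (node 562 (merge (node 563 (merge (leaf 0 527 530) (node 561 (merge (leaf 3 527 560) (leaf 3 528 564))))) (merge (node 530 (merge (leaf 0 527 563) (node 498 (merge (leaf 2 495 499) (node 497 (merge (leaf 2 494 526) (node 594 (merge (leaf 7 465 465) (leaf 7 497 626))))))))) (node 526 (merge (leaf 0 526 561) (node 497 (merge (leaf 2 494 498) (node 525 (merge (leaf 2 493 496) (node 493 (merge (leaf 3 492 492) (leaf 3 493 494)))))))))))) (merge (node 526 (merge (node 562 (merge (leaf 0 526 561) (node 530 (merge (leaf 0 527 563) (node 498 (merge (leaf 2 494 497) (leaf 2 495 499))))))) (merge (node 562 (merge (leaf 0 526 561) (node 530 (merge (leaf 0 527 563) (node 558 (merge (leaf 1 525 557) (leaf 1 526 559))))))) (node 497 (merge (leaf 2 494 498) (node 525 (merge (leaf 2 493 496) (node 557 (merge (leaf 1 524 556) (leaf 1 525 558)))))))))) (merge (node 526 (merge (node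 498 (merge (leaf 2 494 497) (node 530 (merge (leaf 2 495 499) (node 558 (merge (leaf 1 525 557) (leaf 1 526 559))))))) (merge (node 557 (merge (leaf 1 525 558) (node 525 (merge (leaf 1 524 556) (node 493 (merge (leaf 3 492 492) (leaf 3 493 494))))))) (merge (node 497 (merge (leaf 2 494 498) (node 525 (merge (leaf 2 493 496) (node 556 (merge (leaf 1 524 557) (node 524 (merge (leaf 1 523 555) (node 492 (merge (leaf 3 491 491) (leaf 3 492 493))))))))))) (node 497 (merge (leaf 2 494 498) (node 525 (merge (leaf 2 493 496) (node 492 (merge (leaf 3 492 493) (node 524 (merge (leaf 3 491 491) (node 559 (merge (leaf 0 524 560) (node 558 (merge (leaf 0 523 523) (leaf 1 526 530))))))))))))))))) (merge (node 497 (merge (node 526 (merge (leaf 2 494 498) (node 557 (merge (leaf 1 525 558) (node 525 (merge (leaf 1 524 556) (node 493 (merge (leaf 3 492 492) (leaf 3 493 494))))))))) (merge (node 561 (merge (node 562 (merge (leaf 0 526 526) (node 563 (merge (leaf 3 527 560) (leaf 3 528 564))))) (merge (node 526 (merge (leaf 0 526 562) (node 525 (merge (leaf 2 493 496) (node 557 (merge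 (leaf 1 524 556) (leaf 1 525 558))))))) (node 465 (merge (node 560 (merge (leaf 5 432 433) (leaf 5 464 592))) (merge (node 434 (merge (leaf 6 433 466) (node 433 (merge (leaf 6 401 402) (node 401 (merge (leaf 5 400 496) (node 400 (merge (leaf 7 368 368) (leaf 7 400 432))))))))) (node 592 (merge (leaf 5 464 560) (node 593 (merge (leaf 5 496 624) (node 626 (merge (leaf 4 497 594) (node 625 (merge (leaf 7 496 496) (leaf 4 529 658))))))))))))))) (node 465 (merge (node 560 (merge (leaf 5 432 433) (node 592 (merge (leaf 5 464 561) (leaf 6 496 624))))) (merge (node 433 (merge (leaf 5 432 560) (node 402 (merge (leaf 6 401 434) (node 401 (merge (leaf 6 369 370) (leaf 5 400 496))))))) (merge (node 434 (merge (node 466 (merge (leaf 6 433 561) (node 402 (merge (leaf 5 369 370) (leaf 5 401 498))))) (merge (node 433 (merge (leaf 6 401 402) (node 401 (merge (leaf 5 400 496) (node 400 (merge (leaf 7 368 368) (leaf 7 400 432))))))) (node 561 (merge (leaf 6 433 466) (node 594 (merge (leaf 4 465 562) (node 593 (merge (leaf 4 497 626) (node 624 (merge (leaf 5 496 592) (node 625 (merge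 (leaf 7 496 496) (leaf 5 528 656)))))))))))))) (node 561 (merge (node 562 (merge (leaf 4 465 594) (node 563 (merge (leaf 3 528 564) (node 560 (merge (leaf 3 527 527) (leaf 5 464 592))))))) (merge (node 466 (merge (leaf 6 433 434) (node 593 (merge (leaf 6 465 498) (node 626 (merge (leaf 4 497 594) (node 625 (merge (leaf 7 496 496) (leaf 4 529 658))))))))) (node 466 (merge (leaf 6 433 434) (node 593 (merge (leaf 6 465 498) (node 624 (merge (leaf 5 496 592) (node 625 (merge (leaf 7 496 496) (leaf 5 528 656))))))))))))))))))) (hyp 6))))))) (merge (node 561 (merge (node 562 (merge (node 560 (merge (leaf 3 527 563) (node 526 (merge (leaf 0 525 525) (leaf 3 526 559))))) (merge (node 529 (merge (leaf 0 526 526) (node 563 (merge (leaf 0 527 530) (leaf 3 528 564))))) (merge (node 526 (merge (leaf 0 526 529) (node 560 (merge (leaf 0 525 525) (leaf 3 526 559))))) (node 563 (merge (leaf 3 527 560) (node 529 (merge (leaf 0 527 530) (leaf 3 528 564))))))))) (merge (node 529 (merge (node 562 (merge (leaf 0 526 526) (node 563 (merge (leaf 0 527 530) (leaf 3 528 564))))) (merge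 (node 526 (merge (leaf 0 526 562) (node 497 (merge (leaf 2 494 498) (node 496 (merge (leaf 2 493 525) (node 593 (merge (leaf 7 464 464) (leaf 7 496 625))))))))) (merge (node 494 (merge (node 495 (merge (leaf 3 494 530) (node 493 (merge (leaf 0 492 492) (leaf 0 493 496))))) (merge (node 530 (merge (leaf 3 494 495) (node 498 (merge (leaf 2 495 499) (node 497 (merge (leaf 2 494 526) (node 593 (merge (leaf 6 465 466) (leaf 6 497 625))))))))) (node 526 (merge (leaf 3 493 493) (node 497 (merge (leaf 2 494 498) (node 496 (merge (leaf 2 493 525) (node 593 (merge (leaf 7 464 464) (leaf 7 496 625)))))))))))) (node 530 (merge (node 563 (merge (leaf 0 527 562) (node 531 (merge (leaf 0 528 564) (node 495 (merge (leaf 3 494 494) (leaf 3 495 496))))))) (merge (node 563 (merge (leaf 0 527 562) (node 531 (merge (leaf 0 528 564) (node 499 (merge (leaf 2 495 498) (leaf 2 496 500))))))) (merge (node 499 (merge (leaf 2 495 498) (node 531 (merge (leaf 2 496 500) (node 495 (merge (leaf 3 494 494) (leaf 3 495 496))))))) (node 562 (merge (leaf 0 527 563) (node 498 (merge (leaf 2 495 499)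 (node 466 (merge (leaf 5 433 434) (leaf 5 465 593))))))))))))))) (merge (node 529 (merge (node 562 (merge (leaf 0 526 526) (node 563 (merge (leaf 3 527 560) (leaf 3 528 564))))) (merge (node 530 (merge (node 563 (merge (leaf 0 527 562) (node 531 (merge (leaf 0 528 564) (node 495 (merge (leaf 3 494 494) (leaf 3 495 496))))))) (merge (node 563 (merge (leaf 0 527 562) (node 531 (merge (leaf 0 528 564) (node 499 (merge (leaf 2 495 498) (leaf 2 496 500))))))) (merge (node 499 (merge (leaf 2 495 498) (node 531 (merge (leaf 2 496 500) (node 495 (merge (leaf 3 494 494) (leaf 3 495 496))))))) (node 562 (merge (leaf 0 527 563) (node 498 (merge (leaf 2 495 499) (node 466 (merge (leaf 5 433 434) (leaf 5 465 593))))))))))) (node 593 (merge (node 496 (merge (leaf 7 496 625) (node 464 (merge (leaf 4 432 432) (leaf 4 464 560))))) (merge (node 496 (merge (leaf 7 496 625) (node 497 (merge (leaf 7 464 464) (node 498 (merge (leaf 6 465 466) (leaf 1 495 499))))))) (merge (node 625 (merge (node 657 (merge (leaf 7 528 560) (node 658 (merge (leaf 4 529 626) (leaf 4 561 690))))) (merge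 (node 657 (merge (leaf 7 528 560) (node 656 (merge (leaf 5 528 624) (leaf 5 560 688))))) (node 626 (merge (leaf 4 529 658) (node 497 (merge (leaf 4 497 594) (node 624 (merge (leaf 5 496 592) (leaf 5 528 656)))))))))) (node 497 (merge (node 498 (merge (leaf 6 465 466) (leaf 2 494 526))) (node 594 (merge (leaf 4 497 626) (node 592 (merge (leaf 5 496 624) (node 560 (merge (leaf 5 464 465) (node 595 (merge (leaf 3 559 559) (leaf 3 560 596)))))))))))))))))) (merge (node 560 (merge (node 526 (merge (leaf 0 525 525) (node 562 (merge (leaf 3 526 559) (leaf 3 527 563))))) (merge (node 496 (merge (node 593 (merge (leaf 4 464 464) (node 625 (merge (leaf 4 496 592) (leaf 7 528 657))))) (merge (node 464 (merge (leaf 4 464 593) (node 433 (merge (leaf 6 432 465) (node 432 (merge (leaf 6 400 401) (node 431 (merge (leaf 7 399 399) (leaf 7 431 463))))))))) (merge (node 463 (merge (node 495 (merge (leaf 4 431 431) (leaf 7 463 592))) (merge (node 464 (merge (leaf 7 431 431) (node 559 (merge (leaf 5 431 432) (leaf 5 463 591))))) (node 592 (merge (leaf 7 463 495) (node 623 (merge (leaf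 5 495 591) (node 624 (merge (leaf 5 527 655) (node 656 (merge (leaf 7 527 559) (node 657 (merge (leaf 4 528 625) (leaf 4 560 689)))))))))))))) (node 592 (merge (node 625 (merge (leaf 4 496 593) (node 624 (merge (leaf 4 528 657) (node 495 (merge (leaf 7 463 463) (leaf 7 495 527))))))) (merge (node 623 (merge (leaf 5 495 591) (node 495 (merge (leaf 7 463 463) (node 624 (merge (leaf 7 495 527) (leaf 5 527 655))))))) (node 593 (merge (leaf 4 496 625) (node 591 (merge (leaf 5 495 623) (node 590 (merge (leaf 2 558 562) (leaf 2 557 589)))))))))))))) (merge (node 526 (merge (leaf 0 525 525) (node 592 (merge (node 624 (merge (leaf 7 495 495) (node 656 (merge (leaf 7 527 559) (node 657 (merge (leaf 4 528 625) (leaf 4 560 689))))))) (merge (node 624 (merge (leaf 7 495 495) (node 656 (merge (leaf 7 527 559) (node 655 (merge (leaf 5 527 623) (leaf 5 559 687))))))) (merge (node 624 (merge (leaf 7 495 495) (node 625 (merge (leaf 4 528 657) (node 496 (merge (leaf 4 496 593) (node 623 (merge (leaf 5 495 591) (leaf 5 527 655))))))))) (merge (node 624 (merge (node 656 (merge (leaf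 7 527 559) (node 657 (merge (leaf 4 528 625) (leaf 4 560 689))))) (merge (node 656 (merge (leaf 7 527 559) (node 655 (merge (leaf 5 527 623) (leaf 5 559 687))))) (node 625 (merge (leaf 4 528 657) (node 496 (merge (leaf 4 496 593) (node 623 (merge (leaf 5 495 591) (leaf 5 527 655)))))))))) (node 496 (merge (node 497 (merge (leaf 6 464 465) (node 495 (merge (leaf 7 463 463) (leaf 1 494 498))))) (merge (node 593 (merge (leaf 4 496 625) (node 464 (merge (leaf 4 464 561) (node 591 (merge (leaf 5 463 559) (leaf 5 495 623))))))) (node 591 (merge (leaf 5 495 623) (node 559 (merge (leaf 5 463 464) (node 495 (merge (leaf 4 463 463) (node 590 (merge (leaf 5 494 622) (node 589 (merge (leaf 2 557 561) (leaf 2 556 588))))))))))))))))))))) (node 496 (merge (node 593 (merge (leaf 4 464 464) (node 625 (merge (leaf 4 496 592) (leaf 7 528 657))))) (merge (node 464 (merge (leaf 4 464 593) (node 433 (merge (leaf 6 432 465) (node 432 (merge (leaf 6 400 401) (node 431 (merge (leaf 7 399 399) (leaf 7 431 463))))))))) (merge (node 592 (merge (node 625 (merge (leaf 4 496 593) (node 624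 (merge (leaf 4 528 657) (node 495 (merge (leaf 7 463 463) (leaf 7 495 527))))))) (merge (node 623 (merge (leaf 5 495 591) (node 495 (merge (leaf 7 463 463) (node 624 (merge (leaf 7 495 527) (leaf 5 527 655))))))) (node 593 (merge (leaf 4 496 625) (node 591 (merge (leaf 5 495 623) (node 590 (merge (leaf 2 558 562) (leaf 2 557 589)))))))))) (node 497 (merge (node 526 (merge (leaf 2 493 525) (node 495 (merge (leaf 1 494 498) (node 592 (merge (leaf 7 463 463) (leaf 7 495 624))))))) (merge (node 592 (merge (leaf 6 464 465) (node 623 (merge (leaf 5 495 591) (node 624 (merge (leaf 7 495 495) (leaf 5 527 655))))))) (merge (node 498 (merge (leaf 1 495 499) (node 465 (merge (leaf 6 464 592) (node 464 (merge (leaf 6 432 433) (node 463 (merge (leaf 7 431 431) (leaf 0 462 462))))))))) (node 498 (merge (leaf 1 495 499) (node 495 (merge (leaf 1 494 526) (node 463 (merge (leaf 4 431 431) (leaf 3 462 462))))))))))))))))))) (merge (hyp 7) (hyp 8))))))) (merge (hyp 9) (merge (hyp 10) (merge (node 529 (merge (node 526 (merge (node 561 (merge (leaf 0 526 562) (node 525 (merge (leaf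 0 525 560) (node 493 (merge (leaf 3 492 492) (leaf 3 493 494))))))) (merge (node 562 (merge (leaf 0 526 561) (node 530 (merge (leaf 0 527 563) (node 498 (merge (leaf 2 494 497) (leaf 2 495 499))))))) (node 498 (merge (leaf 2 494 497) (node 530 (merge (leaf 2 495 499) (node 494 (merge (leaf 3 493 493) (leaf 3 494 495)))))))))) (merge (node 526 (merge (node 557 (merge (leaf 1 525 558) (node 525 (merge (leaf 1 524 556) (node 493 (merge (leaf 3 492 492) (leaf 3 493 494))))))) (merge (node 498 (merge (leaf 2 494 497) (node 530 (merge (leaf 2 495 499) (node 494 (merge (leaf 3 493 493) (leaf 3 494 495))))))) (node 497 (merge (leaf 2 494 498) (node 525 (merge (leaf 2 493 496) (node 557 (merge (leaf 1 524 556) (leaf 1 525 558)))))))))) (merge (node 526 (merge (node 562 (merge (leaf 0 526 561) (node 530 (merge (leaf 0 527 563) (node 494 (merge (leaf 3 493 493) (leaf 3 494 495))))))) (node 497 (merge (leaf 2 494 498) (node 525 (merge (leaf 2 493 496) (node 557 (merge (leaf 1 524 556) (leaf 1 525 558))))))))) (merge (node 562 (merge (node 563 (merge (leaf 0 527 530) (node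 561 (merge (leaf 3 527 560) (leaf 3 528 564))))) (merge (node 526 (merge (leaf 0 526 561) (node 557 (merge (leaf 1 525 558) (node 525 (merge (leaf 1 524 556) (node 493 (merge (leaf 3 492 492) (leaf 3 493 494))))))))) (node 530 (merge (leaf 0 527 563) (node 499 (merge (leaf 2 495 498) (node 531 (merge (leaf 2 496 500) (node 495 (merge (leaf 3 494 494) (leaf 3 495 496)))))))))))) (merge (node 526 (merge (node 562 (merge (leaf 0 526 561) (node 530 (merge (leaf 0 527 563) (node 498 (merge (leaf 2 494 497) (leaf 2 495 499))))))) (merge (node 497 (merge (leaf 2 494 498) (node 525 (merge (leaf 2 493 496) (node 556 (merge (leaf 1 524 557) (node 524 (merge (leaf 1 523 555) (node 492 (merge (leaf 3 491 491) (leaf 3 492 493))))))))))) (node 561 (merge (leaf 0 526 562) (node 525 (merge (leaf 0 525 560) (node 556 (merge (leaf 1 524 557) (node 524 (merge (leaf 1 523 555) (node 492 (merge (leaf 3 491 491) (leaf 3 492 493)))))))))))))) (merge (node 530 (merge (node 563 (merge (leaf 0 527 562) (node 531 (merge (leaf 0 528 564) (node 495 (merge (leaf 3 494 494) (leaf 3 495 496)))))))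 (merge (node 562 (merge (leaf 0 527 563) (node 526 (merge (leaf 0 526 561) (node 494 (merge (leaf 3 493 493) (leaf 3 494 495))))))) (merge (node 562 (merge (leaf 0 527 563) (node 526 (merge (leaf 0 526 561) (node 557 (merge (leaf 1 525 558) (node 525 (merge (leaf 1 524 556) (node 493 (merge (leaf 3 492 492) (leaf 3 493 494))))))))))) (merge (node 562 (merge (leaf 0 527 563) (node 526 (merge (leaf 0 526 561) (node 557 (merge (leaf 1 525 558) (node 525 (merge (leaf 1 524 556) (node 496 (merge (leaf 2 493 497) (node 495 (merge (leaf 2 492 524) (leaf 3 495 531))))))))))))) (merge (node 495 (merge (leaf 3 494 494) (node 531 (merge (leaf 3 495 496) (node 564 (merge (leaf 0 528 563) (node 532 (merge (leaf 0 529 565) (node 500 (merge (leaf 2 496 499) (leaf 2 497 501))))))))))) (node 495 (merge (leaf 3 494 494) (node 531 (merge (leaf 3 495 496) (node 500 (merge (leaf 2 496 499) (node 532 (merge (leaf 2 497 501) (node 565 (merge (leaf 0 529 564) (node 533 (merge (leaf 0 530 566) (node 561 (merge (leaf 1 528 560) (leaf 1 529 562))))))))))))))))))))) (merge (node 497 (merge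 (node 526 (merge (leaf 2 494 498) (node 557 (merge (leaf 1 525 558) (node 525 (merge (leaf 1 524 556) (node 493 (merge (leaf 3 492 492) (leaf 3 493 494))))))))) (merge (node 561 (merge (node 562 (merge (leaf 0 526 526) (node 563 (merge (leaf 3 527 560) (leaf 3 528 564))))) (merge (node 526 (merge (leaf 0 526 562) (node 557 (merge (leaf 1 525 558) (node 525 (merge (leaf 2 493 496) (leaf 1 524 556))))))) (node 593 (merge (node 624 (merge (leaf 5 496 592) (node 625 (merge (leaf 7 496 496) (leaf 5 528 656))))) (merge (node 625 (merge (leaf 7 496 496) (node 657 (merge (leaf 7 528 560) (node 658 (merge (leaf 4 529 626) (leaf 4 561 690))))))) (node 592 (merge (leaf 5 496 624) (node 465 (merge (leaf 5 464 560) (node 434 (merge (leaf 6 433 466) (node 433 (merge (leaf 6 401 402) (node 432 (merge (leaf 7 400 400) (leaf 7 432 464))))))))))))))))) (node 498 (merge (node 499 (merge (leaf 1 495 496) (leaf 1 496 500))) (merge (node 561 (merge (node 593 (merge (leaf 6 465 466) (node 624 (merge (leaf 5 496 592) (node 625 (merge (leaf 7 496 496) (leaf 5 528 656))))))) (merge (node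 592 (merge (node 560 (merge (leaf 5 464 465) (leaf 6 496 624))) (merge (node 593 (merge (leaf 5 496 624) (node 626 (merge (leaf 4 497 594) (node 625 (merge (leaf 7 496 496) (leaf 4 529 658))))))) (node 465 (merge (leaf 5 464 560) (node 594 (merge (leaf 4 465 562) (node 593 (merge (leaf 4 497 626) (node 464 (merge (leaf 7 432 432) (leaf 7 464 496)))))))))))) (node 562 (merge (node 563 (merge (leaf 3 527 560) (leaf 3 528 564))) (node 465 (merge (leaf 4 465 594) (node 434 (merge (leaf 6 433 466) (node 433 (merge (leaf 6 401 402) (node 432 (merge (leaf 7 400 400) (leaf 7 432 464)))))))))))))) (node 465 (merge (node 433 (merge (leaf 5 432 560) (node 434 (merge (leaf 6 401 402) (node 432 (merge (leaf 7 400 400) (node 464 (merge (leaf 7 432 561) (node 463 (merge (leaf 1 431 435) (leaf 0 462 462))))))))))) (merge (node 433 (merge (leaf 5 432 560) (node 402 (merge (leaf 6 401 434) (node 401 (merge (leaf 6 369 370) (node 369 (merge (leaf 4 369 466) (node 368 (merge (leaf 7 336 336) (leaf 7 368 400))))))))))) (merge (node 560 (merge (leaf 5 432 433) (node 592 (merge (leaf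 5 464 561) (leaf 6 496 624))))) (merge (node 464 (merge (node 463 (merge (leaf 0 462 462) (node 499 (merge (leaf 0 463 466) (leaf 1 496 500))))) (merge (node 561 (merge (leaf 7 432 432) (node 594 (merge (leaf 4 465 562) (node 593 (merge (leaf 4 497 626) (node 466 (merge (leaf 6 433 434) (leaf 6 465 498))))))))) (node 463 (merge (leaf 0 462 462) (node 432 (merge (leaf 7 432 561) (node 433 (merge (leaf 7 400 400) (node 434 (merge (leaf 6 401 402) (leaf 1 431 435)))))))))))) (node 561 (merge (node 592 (merge (leaf 5 464 560) (node 593 (merge (leaf 5 496 624) (node 466 (merge (leaf 6 433 434) (leaf 6 465 498))))))) (merge (node 593 (merge (leaf 6 465 466) (node 594 (merge (leaf 4 497 626) (node 562 (merge (leaf 4 465 465) (node 563 (merge (leaf 3 528 564) (node 592 (merge (leaf 2 559 591) (leaf 5 496 624))))))))))) (merge (node 562 (merge (leaf 4 465 594) (node 563 (merge (leaf 3 528 564) (node 560 (merge (leaf 3 527 527) (leaf 5 464 592))))))) (node 594 (merge (leaf 4 465 562) (node 593 (merge (leaf 6 465 466) (leaf 4 497 626)))))))))))))))))))) (hyp 11)))))))))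 (merge (hyp 12) (merge (hyp 13) (merge (hyp 14) (merge (hyp 15) (merge (hyp 16) (merge (node 526 (merge (node 529 (merge (node 562 (merge (leaf 0 526 561) (node 530 (merge (leaf 0 527 563) (node 498 (merge (leaf 2 494 497) (leaf 2 495 499))))))) (merge (node 562 (merge (leaf 0 526 561) (node 530 (merge (leaf 0 527 563) (node 558 (merge (leaf 1 525 557) (leaf 1 526 559))))))) (node 497 (merge (leaf 2 494 498) (node 525 (merge (leaf 2 493 496) (node 557 (merge (leaf 1 524 556) (leaf 1 525 558)))))))))) (merge (node 529 (merge (node 497 (merge (leaf 2 494 498) (node 525 (merge (leaf 2 493 496) (node 493 (merge (leaf 3 492 492) (leaf 3 493 494))))))) (node 562 (merge (leaf 0 526 561) (node 530 (merge (leaf 0 527 563) (node 558 (merge (leaf 1 525 557) (leaf 1 526 559))))))))) (merge (node 493 (merge (node 492 (merge (leaf 3 492 525) (node 494 (merge (leaf 0 491 491) (leaf 0 492 495))))) (merge (node 529 (merge (leaf 3 493 494) (node 562 (merge (leaf 0 526 561) (node 530 (merge (leaf 0 527 563) (node 498 (merge (leaf 2 494 497) (leaf 2 495 499))))))))) (node 525 (merge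 (leaf 3 492 492) (node 496 (merge (leaf 2 493 497) (node 524 (merge (leaf 2 492 495) (node 556 (merge (leaf 1 523 555) (leaf 1 524 557)))))))))))) (merge (node 558 (merge (node 557 (merge (leaf 1 525 529) (node 556 (merge (leaf 2 523 555) (leaf 2 524 559))))) (merge (node 529 (merge (leaf 1 525 557) (node 494 (merge (leaf 3 493 493) (node 495 (merge (leaf 3 494 530) (node 590 (merge (leaf 6 462 463) (leaf 6 494 622))))))))) (merge (node 590 (merge (node 495 (merge (leaf 6 494 622) (node 494 (merge (leaf 6 462 463) (node 493 (merge (leaf 7 461 461) (leaf 0 492 492))))))) (merge (node 622 (merge (leaf 6 494 495) (node 655 (merge (leaf 4 526 623) (node 654 (merge (leaf 6 526 559) (leaf 4 558 687))))))) (merge (node 529 (merge (node 562 (merge (leaf 0 526 561) (node 530 (merge (leaf 1 526 559) (leaf 0 527 563))))) (node 494 (merge (leaf 3 493 493) (node 623 (merge (leaf 4 494 591) (node 622 (merge (leaf 4 526 655) (node 621 (merge (leaf 5 493 589) (leaf 5 525 653))))))))))) (node 494 (merge (node 493 (merge (leaf 7 461 461) (node 492 (merge (leaf 0 491 491) (leaf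 0 492 495))))) (merge (node 529 (merge (leaf 3 493 493) (node 562 (merge (leaf 0 526 561) (node 530 (merge (leaf 1 526 559) (leaf 0 527 563))))))) (node 591 (merge (leaf 4 494 623) (node 462 (merge (leaf 4 462 559) (node 431 (merge (leaf 6 430 463) (node 430 (merge (leaf 6 398 399) (node 429 (merge (leaf 7 397 397) (leaf 7 429 461)))))))))))))))))) (node 590 (merge (node 495 (merge (leaf 6 494 622) (node 494 (merge (leaf 6 462 463) (node 493 (merge (leaf 7 461 461) (leaf 0 492 492))))))) (merge (node 622 (merge (leaf 6 494 495) (node 655 (merge (leaf 4 526 623) (node 654 (merge (leaf 6 526 559) (leaf 4 558 687))))))) (merge (node 494 (merge (node 493 (merge (leaf 7 461 461) (node 492 (merge (leaf 0 491 491) (leaf 0 492 495))))) (merge (node 589 (merge (leaf 5 493 621) (node 462 (merge (leaf 5 461 557) (node 559 (merge (leaf 4 430 430) (leaf 4 462 591))))))) (node 591 (merge (leaf 4 494 623) (node 462 (merge (leaf 4 462 559) (node 589 (merge (leaf 5 461 557) (leaf 5 493 621)))))))))) (node 623 (merge (node 494 (merge (leaf 4 494 591) (node 622 (merge (leaf 4 526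 655) (node 621 (merge (leaf 5 493 589) (leaf 5 525 653))))))) (merge (node 622 (merge (leaf 4 526 655) (node 654 (merge (leaf 6 526 559) (node 653 (merge (leaf 5 525 621) (leaf 5 557 685))))))) (merge (node 494 (merge (leaf 4 494 591) (node 589 (merge (leaf 5 493 621) (node 462 (merge (leaf 5 461 557) (node 430 (merge (leaf 4 430 559) (node 431 (merge (leaf 6 398 399) (leaf 6 430 463))))))))))) (node 591 (merge (leaf 4 494 494) (node 655 (merge (leaf 7 526 559) (leaf 4 526 622))))))))))))))))) (merge (node 496 (merge (node 497 (merge (leaf 2 493 525) (node 529 (merge (leaf 2 494 498) (node 561 (merge (leaf 0 526 562) (node 593 (merge (leaf 7 464 464) (leaf 7 496 625))))))))) (merge (node 529 (merge (node 561 (merge (leaf 0 526 562) (node 497 (merge (leaf 2 494 498) (node 593 (merge (leaf 7 464 464) (leaf 7 496 625))))))) (merge (node 562 (merge (leaf 0 526 561) (node 530 (merge (leaf 0 527 563) (node 494 (merge (leaf 3 493 493) (leaf 3 494 495))))))) (node 498 (merge (leaf 2 494 497) (node 530 (merge (leaf 2 495 499) (node 494 (merge (leaf 3 493 493) (leaf 3 494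 495)))))))))) (merge (node 525 (merge (leaf 2 493 497) (node 524 (merge (leaf 2 492 495) (node 492 (merge (leaf 3 491 491) (leaf 3 492 493))))))) (node 495 (merge (node 525 (merge (leaf 2 492 524) (node 493 (merge (leaf 3 492 492) (node 529 (merge (leaf 0 493 494) (node 562 (merge (leaf 0 526 561) (node 530 (merge (leaf 3 495 531) (leaf 0 527 563))))))))))) (merge (node 463 (merge (node 431 (merge (leaf 4 399 399) (leaf 5 430 558))) (merge (node 431 (merge (leaf 4 399 399) (node 430 (merge (leaf 7 398 398) (node 559 (merge (leaf 7 430 462) (node 591 (merge (leaf 6 463 464) (leaf 6 495 623))))))))) (node 464 (merge (node 559 (merge (leaf 6 463 591) (node 558 (merge (leaf 5 462 590) (node 462 (merge (leaf 7 430 430) (node 461 (merge (leaf 0 460 460) (node 429 (merge (leaf 3 428 428) (leaf 7 429 494))))))))))) (merge (node 432 (merge (leaf 5 399 400) (leaf 5 431 559))) (merge (node 432 (merge (leaf 5 399 400) (node 529 (merge (leaf 4 432 561) (node 530 (merge (leaf 3 494 494) (leaf 3 495 531))))))) (node 432 (merge (leaf 5 399 400) (leaf 5 431 559)))))))))) (node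 463 (merge (node 431 (merge (leaf 4 399 399) (leaf 5 430 558))) (merge (node 431 (merge (leaf 4 399 399) (node 430 (merge (leaf 7 398 398) (node 559 (merge (leaf 7 430 462) (node 591 (merge (leaf 6 463 464) (leaf 6 495 623))))))))) (node 462 (merge (node 559 (merge (leaf 7 430 430) (node 591 (merge (leaf 6 463 464) (leaf 6 495 623))))) (merge (node 461 (merge (leaf 0 460 460) (node 525 (merge (leaf 2 492 524) (node 493 (merge (leaf 3 492 492) (node 429 (merge (leaf 4 429 558) (node 428 (merge (leaf 7 396 396) (leaf 3 428 464))))))))))) (node 559 (merge (leaf 7 430 430) (node 591 (merge (leaf 6 495 623) (node 590 (merge (leaf 5 462 558) (leaf 5 494 622)))))))))))))))))))) (hyp 17))))))) (merge (hyp 18) (merge (hyp 19) (hyp 20))))))))))))))))))))))))))))) nF_27 cF_27 14 (by decide +kernel)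

end Crest.Agent.H26Snaky
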