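import Crest.Agent.H26SnakyTree

/-! certificate data for S0047, part G 0 (computer generated) -/

set_option autoImplicit false
set_option maxRecDepth 100000

namespace Crest.Agent.H26Snaky

open T

def nG_0 : ℕ := 0x1800000000000000000000000000000000000000000000000000000000000000000000000000000000000000000000000000000000000000000000000000000000000
def cG_0 : ℕ := 0x10000000700000007000000074000001ff000000e6000001ff000001ff000000fc0000007c0000005c0000001c00000000000000000000000000000000000000000000000000000000000000000000000000000000000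
theorem lG_0 : S nG_0 cG_0 13 := S_of_chk [] trivial (node 529 (merge (node 558 (merge (node 557 (merge (leaf 1 525 526) (node 559 (merge (leaf 2 524 556) (leaf 2 525 560))))) (merge (node 559 (merge (leaf 1 526 530) (node 557 (merge (leaf 2 524 556) (leaf 2 525 560))))) (merge (node 530 (merge (leaf 1 526 559) (node 498 (merge (leaf 2 495 499) (node 526 (merge (leaf 2 494 497) (node 494 (merge (leaf 3 493 493) (leaf 3 494 495))))))))) (node 526 (merge (leaf 1 525 557) (node 498 (merge (leaf 2 494 497) (node 530 (merge (leaf 2 495 499) (node 494 (merge (leaf 3 493 493) (leaf 3 494 495))))))))))))) (merge (node 530 (merge (node 499 (merge (leaf 2 495 498) (node 531 (merge (leaf 2 496 500) (node 559 (merge (leaf 1 526 558) (leaf 1 527 560))))))) (merge (node 562 (merge (leaf 0 527 563) (node 526 (merge (leaf 0 526 561) (node 498 (merge (leaf 2 494 497) (leaf 2 495 499))))))) (node 563 (merge (leaf 0 527 562) (node 531 (merge (leaf 0 528 564) (node 559 (merge (leaf 1 526 558) (leaf 1 527 560)))))))))) (merge (node 494 (merge (node 493 (merge (leaf 3 493 526) (node 495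 (merge (leaf 0 492 492) (leaf 0 493 496))))) (merge (node 526 (merge (leaf 3 493 493) (node 562 (merge (leaf 0 526 561) (node 530 (merge (leaf 0 527 563) (node 498 (merge (leaf 2 494 497) (leaf 2 495 499))))))))) (node 530 (merge (leaf 3 494 495) (node 563 (merge (leaf 0 527 562) (node 531 (merge (leaf 0 528 564) (node 499 (merge (leaf 2 495 498) (leaf 2 496 500)))))))))))) (merge (node 526 (merge (node 561 (merge (leaf 0 526 562) (node 525 (merge (leaf 0 525 560) (node 493 (merge (leaf 3 492 492) (leaf 3 493 494))))))) (merge (node 562 (merge (leaf 0 526 561) (node 530 (merge (leaf 0 527 563) (node 558 (merge (leaf 1 525 557) (leaf 1 526 559))))))) (node 557 (merge (leaf 1 525 558) (node 525 (merge (leaf 1 524 556) (node 493 (merge (leaf 3 492 492) (leaf 3 493 494)))))))))) (merge (node 497 (merge (node 498 (merge (leaf 2 494 526) (node 499 (merge (leaf 1 495 496) (leaf 1 496 500))))) (merge (node 526 (merge (leaf 2 494 498) (node 561 (merge (leaf 0 526 562) (node 560 (merge (leaf 0 525 525) (node 592 (merge (leaf 5 464 465) (leaf 6 496 624))))))))) (merge (node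 561 (merge (node 562 (merge (leaf 0 526 526) (node 563 (merge (leaf 3 527 560) (leaf 3 528 564))))) (merge (node 526 (merge (leaf 0 526 562) (node 557 (merge (leaf 1 525 558) (node 525 (merge (leaf 2 493 496) (leaf 1 524 556))))))) (node 465 (merge (node 560 (merge (leaf 5 432 433) (leaf 5 464 592))) (merge (node 464 (merge (leaf 7 432 432) (node 593 (merge (leaf 7 464 496) (node 626 (merge (leaf 4 497 594) (node 625 (merge (leaf 4 529 658) (node 624 (merge (leaf 5 496 592) (leaf 5 528 656))))))))))) (node 433 (merge (leaf 5 432 560) (node 496 (merge (leaf 5 400 401) (node 434 (merge (leaf 6 401 402) (node 432 (merge (leaf 7 400 400) (node 464 (merge (leaf 5 431 559) (node 435 (merge (leaf 1 431 463) (node 467 (merge (leaf 0 432 468) (node 431 (merge (leaf 7 399 399) (leaf 0 431 466))))))))))))))))))))))) (node 465 (merge (node 560 (merge (leaf 5 432 433) (node 592 (merge (leaf 5 464 561) (leaf 6 496 624))))) (merge (node 433 (merge (leaf 5 432 560) (node 401 (merge (leaf 5 400 496) (node 402 (merge (leaf 6 369 370) (leaf 6 401 434))))))) (merge (node 433 (merge (leaf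 5 432 560) (node 496 (merge (leaf 5 400 401) (node 434 (merge (leaf 6 401 402) (node 561 (merge (leaf 6 433 466) (node 593 (merge (leaf 7 464 464) (leaf 7 496 625))))))))))) (merge (node 560 (merge (leaf 5 432 433) (node 592 (merge (leaf 6 464 496) (leaf 5 464 561))))) (merge (node 433 (merge (leaf 5 432 560) (node 496 (merge (leaf 5 400 401) (node 498 (merge (leaf 1 495 499) (node 432 (merge (leaf 7 400 400) (node 561 (merge (leaf 4 432 464) (node 593 (merge (leaf 6 465 466) (leaf 7 496 625))))))))))))) (merge (node 561 (merge (node 592 (merge (leaf 5 464 560) (node 464 (merge (leaf 7 432 432) (node 593 (merge (leaf 7 464 496) (leaf 5 496 624))))))) (merge (node 562 (merge (leaf 4 465 594) (node 560 (merge (leaf 3 527 563) (leaf 5 464 592))))) (merge (node 466 (merge (leaf 6 433 434) (node 593 (merge (leaf 6 465 498) (node 625 (merge (leaf 7 496 496) (node 657 (merge (leaf 7 528 560) (node 656 (merge (leaf 5 528 624) (leaf 5 560 688))))))))))) (node 594 (merge (leaf 4 465 562) (node 593 (merge (leaf 4 497 626) (node 464 (merge (leaf 7 432 432) (leaf 7 464 496)))))))))))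 (merge (node 432 (merge (node 561 (merge (leaf 7 432 464) (node 594 (merge (leaf 4 465 562) (node 593 (merge (leaf 4 497 626) (node 466 (merge (leaf 6 433 434) (leaf 6 465 498))))))))) (merge (node 400 (merge (leaf 7 400 433) (node 464 (merge (leaf 4 400 496) (leaf 7 432 561))))) (merge (node 433 (merge (leaf 7 400 400) (node 434 (merge (leaf 6 401 402) (node 561 (merge (leaf 6 433 466) (node 594 (merge (leaf 4 465 562) (node 593 (merge (leaf 4 497 626) (node 624 (merge (leaf 5 496 592) (node 625 (merge (leaf 7 496 496) (leaf 5 528 656))))))))))))))) (merge (node 400 (merge (leaf 7 400 433) (node 464 (merge (leaf 4 400 496) (leaf 7 432 561))))) (node 433 (merge (leaf 7 400 400) (node 496 (merge (leaf 5 400 401) (node 464 (merge (leaf 5 431 559) (node 434 (merge (leaf 6 401 402) (node 435 (merge (leaf 1 431 463) (node 467 (merge (leaf 0 432 468) (node 431 (merge (leaf 7 399 399) (leaf 0 431 466)))))))))))))))))))) (node 433 (merge (leaf 5 432 560) (node 496 (merge (leaf 5 400 401) (node 434 (merge (leaf 6 401 402) (node 432 (merge (leaf 7 400 400) (node 464 (merge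 (leaf 5 431 559) (node 435 (merge (leaf 1 431 463) (node 467 (merge (leaf 0 432 468) (node 431 (merge (leaf 7 399 399) (leaf 0 431 466))))))))))))))))))))))))))))) (node 495 (merge (node 530 (merge (leaf 3 494 494) (node 563 (merge (leaf 0 527 562) (node 531 (merge (leaf 3 495 496) (leaf 0 528 564))))))) (merge (node 530 (merge (leaf 3 494 494) (node 563 (merge (leaf 0 527 562) (node 531 (merge (leaf 0 528 564) (node 499 (merge (leaf 2 495 498) (leaf 2 496 500))))))))) (merge (node 559 (merge (node 530 (merge (leaf 1 526 558) (node 499 (merge (leaf 2 495 498) (node 531 (merge (leaf 3 495 496) (leaf 2 496 500))))))) (merge (node 463 (merge (node 560 (merge (leaf 4 431 431) (leaf 4 463 592))) (merge (node 432 (merge (leaf 6 431 464) (node 431 (merge (leaf 6 399 400) (node 430 (merge (leaf 7 398 398) (leaf 7 430 462))))))) (node 558 (merge (leaf 5 462 590) (node 557 (merge (leaf 2 524 556) (leaf 2 525 560)))))))) (node 463 (merge (node 560 (merge (leaf 4 431 431) (leaf 4 463 592))) (merge (node 432 (merge (leaf 6 431 464) (node 431 (merge (leaf 6 399 400) (node 430 (merge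 (leaf 7 398 398) (leaf 7 430 462))))))) (node 560 (merge (leaf 4 463 592) (node 530 (merge (leaf 1 527 531) (node 498 (merge (leaf 2 495 499) (node 464 (merge (leaf 6 431 432) (node 462 (merge (leaf 7 430 430) (node 497 (merge (leaf 0 462 465) (leaf 3 462 496))))))))))))))))))) (node 463 (merge (node 560 (merge (leaf 4 431 431) (node 592 (merge (leaf 4 463 559) (leaf 7 495 624))))) (merge (node 431 (merge (leaf 4 431 560) (node 399 (merge (leaf 4 399 496) (node 400 (merge (leaf 6 367 368) (leaf 6 399 432))))))) (merge (node 431 (merge (node 399 (merge (leaf 4 399 496) (node 398 (merge (leaf 7 366 366) (leaf 7 398 430))))) (merge (node 432 (merge (leaf 6 399 400) (node 559 (merge (leaf 6 431 464) (node 430 (merge (leaf 7 398 398) (leaf 7 430 462))))))) (merge (node 399 (merge (leaf 4 399 496) (node 368 (merge (leaf 6 367 400) (node 367 (merge (leaf 6 335 336) (node 366 (merge (leaf 7 334 334) (leaf 7 366 398))))))))) (node 399 (merge (leaf 4 399 496) (node 368 (merge (leaf 6 367 400) (node 367 (merge (leaf 6 335 336) (node 462 (merge (leaf 5 366 494) (node 430 (merge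 (leaf 5 334 335) (leaf 7 430 559))))))))))))))) (node 464 (merge (node 432 (merge (leaf 6 431 559) (node 400 (merge (leaf 5 367 368) (leaf 5 399 496))))) (merge (node 559 (merge (leaf 6 431 432) (node 560 (merge (leaf 4 463 592) (node 558 (merge (leaf 5 462 590) (node 557 (merge (leaf 2 525 529) (leaf 2 524 556))))))))) (merge (node 496 (merge (node 432 (merge (leaf 5 399 400) (leaf 4 432 561))) (merge (node 494 (merge (leaf 0 493 493) (node 465 (merge (leaf 1 462 466) (node 560 (merge (leaf 6 432 433) (leaf 7 463 592))))))) (node 432 (merge (leaf 5 399 400) (node 433 (merge (leaf 6 400 401) (node 434 (merge (leaf 1 431 435) (node 465 (merge (leaf 2 430 462) (node 494 (merge (leaf 1 462 466) (leaf 2 461 493)))))))))))))) (node 462 (merge (node 430 (merge (leaf 7 430 559) (node 398 (merge (leaf 4 366 366) (leaf 4 398 494))))) (merge (node 559 (merge (leaf 7 430 430) (node 558 (merge (leaf 5 462 590) (node 557 (merge (leaf 2 524 556) (leaf 2 525 560))))))) (node 496 (merge (node 497 (merge (leaf 0 461 461) (leaf 3 462 498))) (merge (node 461 (merge (leaf 0 460 460)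 (node 493 (merge (leaf 1 460 492) (leaf 0 493 494))))) (node 494 (merge (leaf 0 493 493) (node 465 (merge (leaf 1 462 466) (node 433 (merge (leaf 2 430 434) (leaf 6 432 560))))))))))))))))))))))))))))))) nG_0 cG_0 13 (by decide +kernel)
def nG_1 : ℕ := 0x1800000000000000000000000000000000000000000000000000000000000000000000000000000000000000000000000000000000000000000000000000000000000
def cG_1 : ℕ := 0x2a0000003e0000003e0000003f8000007f80000027000000ff8000007f0000002e0000000a000000000000000000000000000000000000000000000000000000000000000000000000000000000000000000000000000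
theorem lG_1 : S nG_1 cG_1 10 := S_of_chk [] trivial (node 526 (merge (node 493 (merge (node 494 (merge (leaf 3 493 529) (node 492 (merge (leaf 0 491 491) (leaf 0 492 495))))) (merge (node 492 (merge (leaf 3 492 525) (node 494 (merge (leaf 0 491 491) (leaf 0 492 495))))) (merge (node 529 (merge (leaf 3 493 494) (node 561 (merge (leaf 0 526 562) (node 525 (merge (leaf 0 525 560) (node 557 (merge (leaf 1 524 556) (leaf 1 525 558))))))))) (node 525 (merge (leaf 3 492 492) (node 561 (merge (leaf 0 525 560) (node 529 (merge (leaf 0 526 562) (node 557 (merge (leaf 1 524 556) (leaf 1 525 558))))))))))))) (merge (node 525 (merge (node 497 (merge (leaf 2 493 496) (node 529 (merge (leaf 2 494 498) (node 557 (merge (leaf 1 524 556) (leaf 1 525 558))))))) (merge (node 556 (merge (leaf 1 524 557) (node 524 (merge (leaf 1 523 555) (node 492 (merge (leaf 3 491 491) (leaf 3 492 493))))))) (node 497 (merge (leaf 2 493 496) (node 529 (merge (leaf 2 494 498) (node 493 (merge (leaf 3 492 492) (leaf 3 493 494)))))))))) (merge (node 497 (merge (node 496 (merge (leaf 2 493 525) (node 498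 (merge (leaf 1 494 495) (leaf 1 495 499))))) (merge (node 498 (merge (leaf 2 494 529) (node 496 (merge (leaf 1 494 495) (leaf 1 495 499))))) (merge (node 525 (merge (leaf 2 493 496) (node 561 (merge (leaf 0 525 560) (node 529 (merge (leaf 0 526 562) (node 557 (merge (leaf 1 524 556) (leaf 1 525 558))))))))) (node 529 (merge (leaf 2 494 498) (node 561 (merge (leaf 0 526 562) (node 560 (merge (leaf 0 525 525) (node 592 (merge (leaf 5 464 465) (leaf 6 496 624))))))))))))) (merge (node 497 (merge (node 496 (merge (leaf 2 493 525) (node 498 (merge (leaf 1 494 495) (leaf 1 495 499))))) (merge (node 498 (merge (leaf 2 494 529) (node 496 (merge (leaf 1 494 495) (leaf 1 495 499))))) (merge (node 525 (merge (leaf 2 493 496) (node 561 (merge (leaf 0 525 560) (node 529 (merge (leaf 0 526 562) (node 493 (merge (leaf 3 492 492) (leaf 3 493 494))))))))) (node 529 (merge (leaf 2 494 498) (node 561 (merge (leaf 0 526 562) (node 560 (merge (leaf 0 525 525) (node 592 (merge (leaf 5 464 465) (leaf 6 496 624))))))))))))) (merge (node 560 (merge (node 525 (merge (leaf 0 525 561) (node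 524 (merge (leaf 0 524 559) (node 496 (merge (leaf 2 492 495) (leaf 2 493 497))))))) (merge (node 525 (merge (leaf 0 525 561) (node 556 (merge (leaf 1 524 557) (node 524 (merge (leaf 1 523 555) (node 492 (merge (leaf 3 491 491) (leaf 3 492 493))))))))) (merge (node 592 (merge (node 624 (merge (leaf 7 495 495) (node 656 (merge (leaf 7 527 559) (node 657 (merge (leaf 4 528 625) (leaf 4 560 689))))))) (merge (node 624 (merge (leaf 7 495 495) (node 656 (merge (leaf 7 527 559) (node 655 (merge (leaf 5 527 623) (leaf 5 559 687))))))) (merge (node 624 (merge (leaf 7 495 495) (node 625 (merge (leaf 4 528 657) (node 496 (merge (leaf 4 496 593) (node 623 (merge (leaf 5 495 591) (leaf 5 527 655))))))))) (merge (node 624 (merge (node 656 (merge (leaf 7 527 559) (node 657 (merge (leaf 4 528 625) (leaf 4 560 689))))) (merge (node 656 (merge (leaf 7 527 559) (node 655 (merge (leaf 5 527 623) (leaf 5 559 687))))) (node 625 (merge (leaf 4 528 657) (node 496 (merge (leaf 4 496 593) (node 623 (merge (leaf 5 495 591) (leaf 5 527 655)))))))))) (node 496 (merge (node 497 (merge (leaf 6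 464 465) (node 495 (merge (leaf 7 463 463) (leaf 1 494 498))))) (merge (node 593 (merge (leaf 4 496 625) (node 464 (merge (leaf 4 464 561) (node 591 (merge (leaf 5 463 559) (leaf 5 495 623))))))) (node 591 (merge (leaf 5 495 623) (node 559 (merge (leaf 5 463 464) (node 495 (merge (leaf 4 463 463) (node 590 (merge (leaf 5 494 622) (node 589 (merge (leaf 2 557 561) (leaf 2 556 588))))))))))))))))))) (node 496 (merge (node 525 (merge (leaf 2 493 497) (node 524 (merge (leaf 2 492 495) (node 556 (merge (leaf 1 523 555) (leaf 1 524 557))))))) (merge (node 525 (merge (leaf 2 493 497) (node 559 (merge (leaf 0 524 524) (node 591 (merge (leaf 5 463 464) (leaf 6 495 623))))))) (merge (node 591 (merge (node 559 (merge (leaf 5 463 464) (leaf 6 495 623))) (merge (node 592 (merge (leaf 5 495 623) (node 625 (merge (leaf 4 496 593) (node 624 (merge (leaf 7 495 495) (leaf 4 528 657))))))) (node 464 (merge (leaf 5 463 559) (node 465 (merge (leaf 6 432 433) (node 592 (merge (leaf 6 464 497) (node 463 (merge (leaf 7 431 431) (leaf 7 463 495)))))))))))) (node 591 (merge (node 559 (merge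 (leaf 5 463 464) (leaf 6 495 623))) (merge (node 592 (merge (leaf 5 495 623) (node 625 (merge (leaf 4 496 593) (node 624 (merge (leaf 7 495 495) (leaf 4 528 657))))))) (node 464 (merge (leaf 5 463 559) (node 465 (merge (leaf 6 432 433) (node 463 (merge (leaf 7 431 431) (node 495 (merge (leaf 7 463 592) (node 494 (merge (leaf 1 462 466) (leaf 2 461 493)))))))))))))))))))))) (node 558 (merge (node 557 (merge (leaf 1 525 529) (node 556 (merge (leaf 2 523 555) (leaf 2 524 559))))) (merge (node 494 (merge (node 529 (merge (leaf 3 493 493) (leaf 1 525 557))) (merge (node 493 (merge (leaf 3 493 529) (node 492 (merge (leaf 0 491 491) (leaf 0 492 495))))) (merge (node 462 (merge (node 431 (merge (leaf 6 430 463) (node 430 (merge (leaf 6 398 399) (node 429 (merge (leaf 7 397 397) (leaf 7 429 461))))))) (merge (node 589 (merge (leaf 5 461 557) (node 590 (merge (leaf 5 493 621) (node 461 (merge (leaf 7 429 429) (leaf 7 461 493))))))) (node 463 (merge (leaf 6 430 431) (node 590 (merge (leaf 6 462 495) (node 589 (merge (leaf 5 461 557) (leaf 5 493 621)))))))))) (node 557 (merge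 (leaf 1 525 529) (node 462 (merge (leaf 5 461 589) (node 463 (merge (leaf 6 430 431) (node 495 (merge (leaf 6 462 590) (node 461 (merge (leaf 7 429 429) (node 496 (merge (leaf 0 460 460) (leaf 3 461 497))))))))))))))))) (merge (node 590 (merge (node 495 (merge (leaf 6 494 622) (node 494 (merge (leaf 6 462 463) (node 493 (merge (leaf 7 461 461) (leaf 0 492 492))))))) (merge (node 622 (merge (leaf 6 494 495) (node 655 (merge (leaf 4 526 623) (node 654 (merge (leaf 6 526 559) (leaf 4 558 687))))))) (merge (node 622 (merge (node 655 (merge (leaf 4 526 623) (node 654 (merge (leaf 6 526 559) (leaf 4 558 687))))) (merge (node 654 (merge (leaf 6 526 559) (node 653 (merge (leaf 5 525 621) (leaf 5 557 685))))) (node 623 (merge (leaf 4 526 655) (node 494 (merge (leaf 4 494 591) (node 621 (merge (leaf 5 493 589) (leaf 5 525 653)))))))))) (node 494 (merge (node 493 (merge (leaf 7 461 461) (node 492 (merge (leaf 0 491 491) (leaf 0 492 495))))) (node 589 (merge (leaf 5 493 621) (node 462 (merge (leaf 5 461 557) (node 559 (merge (leaf 4 430 430) (leaf 4 462 591))))))))))))) (node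 590 (merge (node 495 (merge (leaf 6 494 622) (node 463 (merge (leaf 5 430 431) (leaf 5 462 559))))) (merge (node 622 (merge (leaf 6 494 495) (node 621 (merge (leaf 5 525 653) (node 494 (merge (leaf 5 493 589) (node 493 (merge (leaf 7 461 461) (leaf 3 493 529))))))))) (merge (node 622 (merge (node 655 (merge (leaf 4 526 623) (node 654 (merge (leaf 6 526 559) (leaf 4 558 687))))) (merge (node 654 (merge (leaf 6 526 559) (node 653 (merge (leaf 5 525 621) (leaf 5 557 685))))) (node 623 (merge (leaf 4 526 655) (node 494 (merge (leaf 4 494 591) (node 621 (merge (leaf 5 493 589) (leaf 5 525 653)))))))))) (node 494 (merge (node 493 (merge (leaf 7 461 461) (node 492 (merge (leaf 0 491 491) (leaf 0 492 495))))) (merge (node 591 (merge (leaf 4 494 623) (node 462 (merge (leaf 4 462 559) (node 431 (merge (leaf 6 430 463) (node 430 (merge (leaf 6 398 399) (node 429 (merge (leaf 7 397 397) (leaf 7 429 461))))))))))) (node 591 (merge (leaf 4 494 623) (node 559 (merge (leaf 4 462 462) (node 589 (merge (leaf 5 493 621) (node 588 (merge (leaf 2 556 560) (leaf 2 555 587))))))))))))))))))))))))))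 nG_1 cG_1 10 (by decide +kernel)
def nG_2 : ℕ := 0x1800000000000000000000000000000000000000000000000000000000000000000000000000000000000000000000000000000000000000000000000000000000000
def cG_2 : ℕ := 0x140000007c0000007c0000007e000001ff000000e7000001fe000001fe000000ff0000007c000000500000000000000000000000000000000000000000000000000000000000000000000000000000000000000000000
theorem lG_2 : S nG_2 cG_2 13 := S_of_chk [] trivial (node 529 (merge (node 526 (merge (node 562 (merge (leaf 0 526 561) (node 530 (merge (leaf 0 527 563) (node 494 (merge (leaf 3 493 493) (leaf 3 494 495))))))) (node 497 (merge (leaf 2 494 498) (node 525 (merge (leaf 2 493 496) (node 557 (merge (leaf 1 524 556) (leaf 1 525 558))))))))) (merge (node 526 (merge (node 497 (merge (leaf 2 494 498) (node 525 (merge (leaf 2 493 496) (node 557 (merge (leaf 1 524 556) (leaf 1 525 558))))))) (merge (node 498 (merge (leaf 2 494 497) (node 530 (merge (leaf 2 495 499) (node 494 (merge (leaf 3 493 493) (leaf 3 494 495))))))) (node 494 (merge (leaf 3 493 493) (node 530 (merge (leaf 3 494 495) (node 559 (merge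 (leaf 1 526 558) (node 560 (merge (leaf 1 527 531) (node 525 (merge (leaf 0 524 524) (leaf 0 525 561)))))))))))))) (merge (node 530 (merge (node 563 (merge (leaf 0 527 562) (node 531 (merge (leaf 0 528 564) (node 499 (merge (leaf 2 495 498) (leaf 2 496 500))))))) (merge (node 563 (merge (leaf 0 527 562) (node 531 (merge (leaf 0 528 564) (node 495 (merge (leaf 3 494 494) (leaf 3 495 496))))))) (merge (node 499 (merge (leaf 2 495 498) (node 531 (merge (leaf 2 496 500) (node 495 (merge (leaf 3 494 494) (leaf 3 495 496))))))) (node 562 (merge (leaf 0 527 563) (node 498 (merge (leaf 2 495 499) (node 497 (merge (leaf 2 494 526) (node 594 (merge (leaf 7 465 465) (leaf 7 497 626))))))))))))) (merge (node 530 (merge (node 499 (merge (leaf 2 495 498) (node 531 (merge (leaf 2 496 500) (node 559 (merge (leaf 1 526 558) (leaf 1 527 560))))))) (merge (node 563 (merge (leaf 0 527 562) (node 531 (merge (leaf 0 528 564) (node 559 (merge (leaf 1 526 558) (leaf 1 527 560))))))) (merge (node 563 (merge (leaf 0 527 562) (node 531 (merge (leaf 0 528 564) (node 499 (merge (leaf 2 495 498)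 (leaf 2 496 500))))))) (node 562 (merge (leaf 0 527 563) (node 561 (merge (leaf 0 526 526) (node 498 (merge (leaf 2 495 499) (node 593 (merge (leaf 5 465 466) (leaf 6 497 625))))))))))))) (merge (node 559 (merge (node 558 (merge (leaf 1 526 530) (node 557 (merge (leaf 2 524 556) (leaf 2 525 560))))) (merge (node 530 (merge (leaf 1 526 558) (node 562 (merge (leaf 0 527 563) (node 526 (merge (leaf 0 526 561) (node 494 (merge (leaf 3 493 493) (leaf 3 494 495))))))))) (merge (node 530 (merge (node 531 (merge (leaf 1 527 560) (node 495 (merge (leaf 3 494 494) (leaf 3 495 496))))) (merge (node 563 (merge (leaf 0 527 562) (node 531 (merge (leaf 1 527 560) (leaf 0 528 564))))) (node 562 (merge (leaf 0 527 563) (node 526 (merge (leaf 0 526 561) (node 494 (merge (leaf 3 493 493) (leaf 3 494 495)))))))))) (node 591 (merge (node 623 (merge (leaf 6 495 496) (node 655 (merge (leaf 6 527 560) (node 654 (merge (leaf 5 526 622) (leaf 5 558 686))))))) (merge (node 623 (merge (leaf 6 495 496) (node 655 (merge (leaf 6 527 560) (node 526 (merge (leaf 7 494 494) (leaf 7 526 558)))))))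 (merge (node 623 (merge (leaf 6 495 496) (node 654 (merge (leaf 5 526 622) (node 655 (merge (leaf 5 558 686) (node 526 (merge (leaf 7 494 494) (leaf 7 526 558))))))))) (merge (node 494 (merge (node 526 (merge (leaf 3 493 493) (node 462 (merge (leaf 4 430 430) (leaf 4 462 558))))) (merge (node 495 (merge (leaf 7 462 462) (node 496 (merge (leaf 6 463 464) (leaf 0 493 493))))) (merge (node 495 (merge (leaf 7 462 462) (node 590 (merge (leaf 5 494 622) (node 463 (merge (leaf 5 462 558) (node 560 (merge (leaf 4 431 431) (leaf 4 463 592))))))))) (node 526 (merge (leaf 3 493 493) (node 561 (merge (leaf 0 526 562) (node 560 (merge (leaf 0 525 525) (node 558 (merge (leaf 1 525 557) (node 590 (merge (leaf 1 557 589) (node 622 (merge (leaf 5 494 495) (leaf 6 526 654))))))))))))))))) (node 623 (merge (node 655 (merge (leaf 6 527 560) (node 654 (merge (leaf 5 526 622) (leaf 5 558 686))))) (merge (node 655 (merge (leaf 6 527 560) (node 526 (merge (leaf 7 494 494) (leaf 7 526 558))))) (merge (node 654 (merge (leaf 5 526 622) (node 655 (merge (leaf 5 558 686) (node 526 (merge (leaf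 7 494 494) (leaf 7 526 558))))))) (node 624 (merge (leaf 4 527 656) (node 495 (merge (leaf 4 495 592) (node 622 (merge (leaf 5 494 590) (leaf 5 526 654)))))))))))))))))))) (merge (node 495 (merge (node 530 (merge (leaf 3 494 494) (node 499 (merge (leaf 2 495 498) (node 531 (merge (leaf 3 495 496) (leaf 2 496 500))))))) (merge (node 530 (merge (leaf 3 494 494) (node 563 (merge (leaf 0 527 562) (node 531 (merge (leaf 0 528 564) (node 559 (merge (leaf 1 526 558) (leaf 1 527 560))))))))) (merge (node 559 (merge (node 558 (merge (leaf 1 526 530) (node 557 (merge (leaf 2 524 556) (leaf 2 525 560))))) (merge (node 530 (merge (leaf 1 526 558) (node 499 (merge (leaf 2 495 498) (node 531 (merge (leaf 3 495 496) (leaf 2 496 500))))))) (merge (node 592 (merge (node 560 (merge (leaf 4 463 463) (leaf 7 495 624))) (merge (node 591 (merge (leaf 4 495 624) (node 623 (merge (leaf 6 495 496) (node 622 (merge (leaf 5 494 590) (leaf 5 526 654))))))) (node 463 (merge (leaf 4 463 560) (node 590 (merge (leaf 5 462 558) (node 591 (merge (leaf 5 494 622) (node 464 (merge (leaf 6 431 432) (leaf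 6 463 496)))))))))))) (node 592 (merge (node 560 (merge (leaf 4 463 463) (leaf 7 495 624))) (merge (node 591 (merge (leaf 4 495 624) (node 623 (merge (leaf 6 495 496) (node 622 (merge (leaf 5 494 590) (leaf 5 526 654))))))) (node 463 (merge (leaf 4 463 560) (node 464 (merge (leaf 6 431 432) (node 496 (merge (leaf 6 463 591) (node 462 (merge (leaf 7 430 430) (node 497 (merge (leaf 0 461 461) (leaf 3 462 498)))))))))))))))))) (node 463 (merge (node 431 (merge (leaf 4 431 560) (node 432 (merge (leaf 6 399 400) (node 559 (merge (leaf 6 431 464) (node 430 (merge (leaf 7 398 398) (leaf 7 430 462))))))))) (merge (node 431 (merge (leaf 4 431 560) (node 496 (merge (leaf 4 399 399) (node 430 (merge (leaf 7 398 398) (node 559 (merge (leaf 7 430 462) (node 591 (merge (leaf 6 463 464) (leaf 6 495 623))))))))))) (merge (node 431 (merge (leaf 4 431 560) (node 496 (merge (leaf 4 399 399) (node 494 (merge (leaf 0 493 493) (node 432 (merge (leaf 6 399 400) (node 559 (merge (leaf 5 431 464) (node 591 (merge (leaf 7 462 462) (leaf 6 495 623))))))))))))) (merge (node 431 (merge (leaf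 4 431 560) (node 399 (merge (leaf 4 399 496) (node 400 (merge (leaf 6 367 368) (leaf 6 399 432))))))) (merge (node 559 (merge (node 590 (merge (leaf 5 462 558) (node 591 (merge (leaf 5 494 622) (node 462 (merge (leaf 7 430 430) (leaf 7 462 494))))))) (merge (node 464 (merge (leaf 6 431 432) (node 591 (merge (leaf 6 463 496) (node 590 (merge (leaf 5 462 558) (leaf 5 494 622))))))) (node 432 (merge (leaf 6 431 464) (node 431 (merge (leaf 6 399 400) (node 430 (merge (leaf 7 398 398) (leaf 7 430 462)))))))))) (merge (node 560 (merge (leaf 4 431 431) (node 592 (merge (leaf 7 463 496) (leaf 4 463 559))))) (merge (node 559 (merge (node 464 (merge (leaf 6 431 432) (node 591 (merge (leaf 6 463 496) (node 590 (merge (leaf 5 462 558) (leaf 5 494 622))))))) (merge (node 558 (merge (leaf 5 462 590) (node 557 (merge (leaf 2 524 556) (leaf 2 525 560))))) (node 462 (merge (leaf 7 430 430) (node 591 (merge (leaf 7 462 494) (node 624 (merge (leaf 4 495 592) (node 623 (merge (leaf 6 495 496) (leaf 4 527 656)))))))))))) (node 431 (merge (leaf 4 431 560) (node 496 (merge (leaf 4 399 399)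 (node 432 (merge (leaf 6 399 400) (node 464 (merge (leaf 4 432 561) (node 430 (merge (leaf 7 398 398) (node 429 (merge (leaf 0 428 428) (leaf 0 429 465))))))))))))))))))))))))) (node 497 (merge (node 498 (merge (leaf 2 494 526) (node 499 (merge (leaf 1 495 496) (leaf 1 496 500))))) (merge (node 526 (merge (leaf 2 494 498) (node 561 (merge (leaf 0 526 562) (node 560 (merge (leaf 0 525 525) (node 592 (merge (leaf 5 464 465) (leaf 6 496 624))))))))) (merge (node 561 (merge (node 562 (merge (leaf 0 526 526) (node 563 (merge (leaf 3 527 560) (leaf 3 528 564))))) (merge (node 526 (merge (leaf 0 526 562) (node 557 (merge (leaf 1 525 558) (node 525 (merge (leaf 2 493 496) (leaf 1 524 556))))))) (node 465 (merge (node 560 (merge (leaf 5 432 433) (leaf 5 464 592))) (merge (node 464 (merge (leaf 7 432 432) (node 593 (merge (leaf 7 464 496) (node 626 (merge (leaf 4 497 594) (node 625 (merge (leaf 4 529 658) (node 624 (merge (leaf 5 496 592) (leaf 5 528 656))))))))))) (node 433 (merge (leaf 5 432 560) (node 496 (merge (leaf 5 400 401) (node 434 (merge (leaf 6 401 402) (node 432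 (merge (leaf 7 400 400) (node 464 (merge (leaf 5 431 559) (node 435 (merge (leaf 1 431 463) (node 467 (merge (leaf 0 432 468) (node 431 (merge (leaf 7 399 399) (leaf 0 431 466))))))))))))))))))))))) (node 465 (merge (node 560 (merge (leaf 5 432 433) (node 592 (merge (leaf 5 464 561) (leaf 6 496 624))))) (merge (node 433 (merge (leaf 5 432 560) (node 401 (merge (leaf 5 400 496) (node 402 (merge (leaf 6 369 370) (leaf 6 401 434))))))) (merge (node 433 (merge (leaf 5 432 560) (node 496 (merge (leaf 5 400 401) (node 434 (merge (leaf 6 401 402) (node 561 (merge (leaf 6 433 466) (node 593 (merge (leaf 7 464 464) (leaf 7 496 625))))))))))) (merge (node 560 (merge (leaf 5 432 433) (node 592 (merge (leaf 6 464 496) (leaf 5 464 561))))) (merge (node 433 (merge (leaf 5 432 560) (node 496 (merge (leaf 5 400 401) (node 498 (merge (leaf 1 495 499) (node 432 (merge (leaf 7 400 400) (node 561 (merge (leaf 4 432 464) (node 593 (merge (leaf 6 465 466) (leaf 7 496 625))))))))))))) (merge (node 561 (merge (node 592 (merge (leaf 5 464 560) (node 464 (merge (leaf 7 432 432) (node 593 (merge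 (leaf 7 464 496) (leaf 5 496 624))))))) (merge (node 562 (merge (leaf 4 465 594) (node 560 (merge (leaf 3 527 563) (leaf 5 464 592))))) (merge (node 466 (merge (leaf 6 433 434) (node 593 (merge (leaf 6 465 498) (node 625 (merge (leaf 7 496 496) (node 657 (merge (leaf 7 528 560) (node 656 (merge (leaf 5 528 624) (leaf 5 560 688))))))))))) (node 594 (merge (leaf 4 465 562) (node 593 (merge (leaf 4 497 626) (node 464 (merge (leaf 7 432 432) (leaf 7 464 496))))))))))) (merge (node 432 (merge (node 561 (merge (leaf 7 432 464) (node 594 (merge (leaf 4 465 562) (node 593 (merge (leaf 4 497 626) (node 466 (merge (leaf 6 433 434) (leaf 6 465 498))))))))) (merge (node 400 (merge (leaf 7 400 433) (node 464 (merge (leaf 4 400 496) (leaf 7 432 561))))) (merge (node 433 (merge (leaf 7 400 400) (node 434 (merge (leaf 6 401 402) (node 561 (merge (leaf 6 433 466) (node 594 (merge (leaf 4 465 562) (node 593 (merge (leaf 4 497 626) (node 624 (merge (leaf 5 496 592) (node 625 (merge (leaf 7 496 496) (leaf 5 528 656))))))))))))))) (merge (node 400 (merge (leaf 7 400 433) (node 464 (merge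 (leaf 4 400 496) (leaf 7 432 561))))) (node 433 (merge (leaf 7 400 400) (node 496 (merge (leaf 5 400 401) (node 464 (merge (leaf 5 431 559) (node 434 (merge (leaf 6 401 402) (node 435 (merge (leaf 1 431 463) (node 467 (merge (leaf 0 432 468) (node 431 (merge (leaf 7 399 399) (leaf 0 431 466)))))))))))))))))))) (node 433 (merge (leaf 5 432 560) (node 496 (merge (leaf 5 400 401) (node 434 (merge (leaf 6 401 402) (node 432 (merge (leaf 7 400 400) (node 464 (merge (leaf 5 431 559) (node 435 (merge (leaf 1 431 463) (node 467 (merge (leaf 0 432 468) (node 431 (merge (leaf 7 399 399) (leaf 0 431 466)))))))))))))))))))))))))))))))))))) nG_2 cG_2 13 (by decide +kernel)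
def nG_3 : ℕ := 0x1800000000000000000000000000000000000000000000000000000000000000000000000000000000000000000000000000000000000000000000000000000000000
def cG_3 : ℕ := 0xa0000001e0000003f0000003f000001ffc00000e7c00000efc000000e0000000e0000000a000000000000000000000000000000000000000000000000000000000000000000000000000000000000000000000000000
theorem lG_3 : S nG_3 cG_3 11 := S_of_chk [] trivial (node 526 (merge (node 493 (merge (node 494 (merge (leaf 3 493 529) (node 492 (merge (leaf 0 491 491) (leaf 0 492 495))))) (merge (node 492 (merge (leaf 3 492 525) (node 494 (merge (leaf 0 491 491) (leaf 0 492 495))))) (merge (node 529 (merge (leaf 3 493 494) (node 561 (merge (leaf 0 526 562) (node 525 (merge (leaf 0 525 560) (node 557 (merge (leaf 1 524 556) (leaf 1 525 558))))))))) (node 525 (merge (leaf 3 492 492) (node 561 (merge (leaf 0 525 560) (node 529 (merge (leaf 0 526 562) (node 557 (merge (leaf 1 524 556) (leaf 1 525 558))))))))))))) (merge (node 525 (merge (node 560 (merge (leaf 0 525 561) (node 524 (merge (leaf 0 524 559) (node 492 (merge (leaf 3 491 491) (leaf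 3 492 493))))))) (merge (node 561 (merge (leaf 0 525 560) (node 529 (merge (leaf 0 526 562) (node 557 (merge (leaf 1 524 556) (leaf 1 525 558))))))) (node 556 (merge (leaf 1 524 557) (node 524 (merge (leaf 1 523 555) (node 492 (merge (leaf 3 491 491) (leaf 3 492 493)))))))))) (merge (node 557 (merge (node 556 (merge (leaf 1 524 525) (node 558 (merge (leaf 2 523 555) (leaf 2 524 559))))) (merge (node 525 (merge (leaf 1 524 556) (node 493 (merge (leaf 3 492 492) (node 494 (merge (leaf 3 493 529) (node 589 (merge (leaf 6 461 462) (leaf 6 493 621))))))))) (node 529 (merge (leaf 1 525 558) (node 498 (merge (leaf 2 494 497) (node 530 (merge (leaf 2 495 499) (node 494 (merge (leaf 3 493 493) (leaf 3 494 495)))))))))))) (merge (node 557 (merge (node 556 (merge (leaf 1 524 525) (node 558 (merge (leaf 2 523 555) (leaf 2 524 559))))) (merge (node 529 (merge (leaf 1 525 558) (node 562 (merge (leaf 0 526 561) (node 530 (merge (leaf 0 527 563) (node 494 (merge (leaf 3 493 493) (leaf 3 494 495))))))))) (node 525 (merge (leaf 1 524 556) (node 561 (merge (leaf 0 525 560) (node 529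 (merge (leaf 0 526 562) (node 498 (merge (leaf 2 494 497) (node 530 (merge (leaf 2 495 499) (node 494 (merge (leaf 3 493 493) (leaf 3 494 495)))))))))))))))) (merge (node 493 (merge (node 492 (merge (leaf 3 492 525) (node 494 (merge (leaf 0 491 491) (leaf 0 492 495))))) (merge (node 529 (merge (leaf 3 493 494) (node 562 (merge (leaf 0 526 561) (node 530 (merge (leaf 0 527 563) (node 498 (merge (leaf 2 494 497) (leaf 2 495 499))))))))) (node 525 (merge (leaf 3 492 492) (node 560 (merge (leaf 0 525 561) (node 524 (merge (leaf 0 524 559) (node 556 (merge (leaf 1 523 555) (leaf 1 524 557)))))))))))) (merge (node 525 (merge (node 560 (merge (leaf 0 525 561) (node 524 (merge (leaf 0 524 559) (node 492 (merge (leaf 3 491 491) (leaf 3 492 493))))))) (merge (node 493 (merge (leaf 3 492 492) (node 529 (merge (leaf 3 493 494) (node 562 (merge (leaf 0 526 561) (node 530 (merge (leaf 0 527 563) (node 498 (merge (leaf 2 494 497) (leaf 2 495 499))))))))))) (merge (node 493 (merge (leaf 3 492 492) (node 529 (merge (leaf 3 493 494) (node 498 (merge (leaf 2 494 497) (node 530 (merge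 (leaf 2 495 499) (node 563 (merge (leaf 0 527 562) (node 531 (merge (leaf 0 528 564) (node 559 (merge (leaf 1 526 558) (leaf 1 527 560))))))))))))))) (merge (node 560 (merge (leaf 0 525 561) (node 524 (merge (leaf 0 524 559) (node 555 (merge (leaf 1 523 556) (node 523 (merge (leaf 1 522 554) (node 491 (merge (leaf 3 490 490) (leaf 3 491 492))))))))))) (node 560 (merge (leaf 0 525 561) (node 524 (merge (leaf 0 524 559) (node 555 (merge (leaf 1 523 556) (node 523 (merge (leaf 1 522 554) (node 494 (merge (leaf 2 491 495) (node 493 (merge (leaf 2 490 522) (leaf 3 493 529)))))))))))))))))) (merge (node 525 (merge (node 561 (merge (leaf 0 525 560) (node 529 (merge (leaf 0 526 562) (node 557 (merge (leaf 1 524 556) (leaf 1 525 558))))))) (merge (node 560 (merge (leaf 0 525 561) (node 524 (merge (leaf 0 524 559) (node 555 (merge (leaf 1 523 556) (node 523 (merge (leaf 1 522 554) (node 491 (merge (leaf 3 490 490) (leaf 3 491 492))))))))))) (merge (node 556 (merge (leaf 1 524 557) (node 524 (merge (leaf 1 523 555) (node 559 (merge (leaf 0 524 560) (node 523 (merge (leaf 0 523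 558) (node 491 (merge (leaf 3 490 490) (leaf 3 491 492))))))))))) (merge (node 557 (merge (leaf 1 524 556) (node 529 (merge (leaf 1 525 558) (node 562 (merge (leaf 0 526 561) (node 530 (merge (leaf 0 527 563) (node 498 (merge (leaf 2 494 497) (leaf 2 495 499))))))))))) (node 561 (merge (leaf 0 525 560) (node 529 (merge (leaf 0 526 562) (node 558 (merge (leaf 1 525 557) (node 530 (merge (leaf 1 526 559) (node 498 (merge (leaf 2 494 497) (leaf 2 495 499)))))))))))))))) (merge (node 558 (merge (node 529 (merge (leaf 1 525 557) (node 562 (merge (leaf 0 526 561) (node 530 (merge (leaf 1 526 559) (leaf 0 527 563))))))) (merge (node 529 (merge (leaf 1 525 557) (node 562 (merge (leaf 0 526 561) (node 530 (merge (leaf 0 527 563) (node 494 (merge (leaf 3 493 493) (leaf 3 494 495))))))))) (merge (node 590 (merge (node 495 (merge (leaf 6 494 622) (node 494 (merge (leaf 6 462 463) (node 493 (merge (leaf 7 461 461) (leaf 0 492 492))))))) (merge (node 622 (merge (leaf 6 494 495) (node 655 (merge (leaf 4 526 623) (node 654 (merge (leaf 6 526 559) (leaf 4 558 687))))))) (merge (node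 622 (merge (node 655 (merge (leaf 4 526 623) (node 654 (merge (leaf 6 526 559) (leaf 4 558 687))))) (merge (node 654 (merge (leaf 6 526 559) (node 653 (merge (leaf 5 525 621) (leaf 5 557 685))))) (node 623 (merge (leaf 4 526 655) (node 494 (merge (leaf 4 494 591) (node 621 (merge (leaf 5 493 589) (leaf 5 525 653)))))))))) (node 494 (merge (node 493 (merge (leaf 7 461 461) (node 492 (merge (leaf 0 491 491) (leaf 0 492 495))))) (node 589 (merge (leaf 5 493 621) (node 462 (merge (leaf 5 461 557) (node 559 (merge (leaf 4 430 430) (leaf 4 462 591))))))))))))) (node 590 (merge (node 495 (merge (leaf 6 494 622) (node 463 (merge (leaf 5 430 431) (leaf 5 462 559))))) (merge (node 622 (merge (leaf 6 494 495) (node 621 (merge (leaf 5 525 653) (node 494 (merge (leaf 5 493 589) (node 493 (merge (leaf 7 461 461) (leaf 3 493 529))))))))) (merge (node 622 (merge (node 655 (merge (leaf 4 526 623) (node 654 (merge (leaf 6 526 559) (leaf 4 558 687))))) (merge (node 654 (merge (leaf 6 526 559) (node 653 (merge (leaf 5 525 621) (leaf 5 557 685))))) (node 623 (merge (leaf 4 526 655) (node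 494 (merge (leaf 4 494 591) (node 621 (merge (leaf 5 493 589) (leaf 5 525 653)))))))))) (node 494 (merge (node 493 (merge (leaf 7 461 461) (node 492 (merge (leaf 0 491 491) (leaf 0 492 495))))) (merge (node 529 (merge (leaf 3 493 493) (node 562 (merge (leaf 0 526 561) (node 530 (merge (leaf 1 526 559) (leaf 0 527 563))))))) (node 591 (merge (leaf 4 494 623) (node 462 (merge (leaf 4 462 559) (node 431 (merge (leaf 6 430 463) (node 430 (merge (leaf 6 398 399) (node 429 (merge (leaf 7 397 397) (leaf 7 429 461)))))))))))))))))))))) (node 558 (merge (node 525 (merge (node 493 (merge (leaf 3 492 492) (node 461 (merge (leaf 4 429 429) (node 590 (merge (leaf 4 461 557) (leaf 7 493 622))))))) (merge (node 560 (merge (leaf 0 525 561) (node 524 (merge (leaf 0 524 559) (node 556 (merge (leaf 1 523 555) (leaf 1 524 557))))))) (node 560 (merge (leaf 0 525 561) (node 524 (merge (leaf 0 524 559) (node 492 (merge (leaf 3 491 491) (leaf 3 492 493)))))))))) (merge (node 590 (merge (node 495 (merge (leaf 6 494 622) (node 494 (merge (leaf 6 462 463) (node 493 (merge (leaf 7 461 461) (leaf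 0 492 492))))))) (merge (node 622 (merge (leaf 6 494 495) (node 655 (merge (leaf 4 526 623) (node 654 (merge (leaf 6 526 559) (leaf 4 558 687))))))) (merge (node 622 (merge (node 655 (merge (leaf 4 526 623) (node 654 (merge (leaf 6 526 559) (leaf 4 558 687))))) (merge (node 654 (merge (leaf 6 526 559) (node 653 (merge (leaf 5 525 621) (leaf 5 557 685))))) (node 623 (merge (leaf 4 526 655) (node 494 (merge (leaf 4 494 591) (node 621 (merge (leaf 5 493 589) (leaf 5 525 653)))))))))) (node 494 (merge (node 493 (merge (leaf 7 461 461) (node 492 (merge (leaf 0 491 491) (leaf 0 492 495))))) (node 589 (merge (leaf 5 493 621) (node 462 (merge (leaf 5 461 557) (node 559 (merge (leaf 4 430 430) (leaf 4 462 591))))))))))))) (merge (node 525 (merge (node 560 (merge (leaf 0 525 561) (node 524 (merge (leaf 0 524 559) (node 556 (merge (leaf 1 523 555) (leaf 1 524 557))))))) (merge (node 560 (merge (leaf 0 525 561) (node 524 (merge (leaf 0 524 559) (node 492 (merge (leaf 3 491 491) (leaf 3 492 493))))))) (merge (node 556 (merge (leaf 1 524 557) (node 524 (merge (leaf 1 523 555) (node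 492 (merge (leaf 3 491 491) (leaf 3 492 493))))))) (node 560 (merge (leaf 0 525 561) (node 557 (merge (leaf 1 524 556) (node 493 (merge (leaf 3 492 492) (node 461 (merge (leaf 4 429 429) (node 462 (merge (leaf 6 429 430) (node 589 (merge (leaf 5 461 494) (node 588 (merge (leaf 1 556 559) (leaf 5 492 620))))))))))))))))))) (merge (node 557 (merge (node 556 (merge (leaf 1 524 525) (leaf 2 523 555))) (merge (node 556 (merge (leaf 2 523 555) (leaf 2 524 559))) (node 494 (merge (node 589 (merge (leaf 5 461 462) (node 621 (merge (leaf 5 493 590) (leaf 6 525 653))))) (merge (node 462 (merge (leaf 5 461 589) (node 431 (merge (leaf 6 430 463) (node 430 (merge (leaf 6 398 399) (node 429 (merge (leaf 7 397 397) (leaf 7 429 461))))))))) (merge (node 591 (merge (node 462 (merge (leaf 4 462 559) (node 431 (merge (leaf 6 430 463) (node 430 (merge (leaf 6 398 399) (node 429 (merge (leaf 7 397 397) (leaf 7 429 461))))))))) (node 590 (merge (leaf 4 494 623) (node 622 (merge (leaf 6 494 495) (node 654 (merge (leaf 7 525 525) (node 653 (merge (leaf 5 525 621) (leaf 5 557 685)))))))))))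 (node 590 (merge (node 622 (merge (leaf 6 494 495) (node 654 (merge (leaf 7 525 525) (leaf 6 526 559))))) (merge (node 623 (merge (leaf 4 494 591) (node 622 (merge (leaf 4 526 655) (node 621 (merge (leaf 5 493 589) (leaf 5 525 653))))))) (node 591 (merge (leaf 4 494 623) (node 592 (merge (leaf 3 557 593) (node 589 (merge (leaf 5 493 621) (node 624 (merge (leaf 0 589 625) (node 495 (merge (leaf 6 462 463) (leaf 4 495 559))))))))))))))))))))) (merge (node 525 (merge (node 493 (merge (leaf 3 492 492) (node 461 (merge (leaf 4 429 429) (node 590 (merge (leaf 7 461 494) (leaf 7 493 622))))))) (merge (node 560 (merge (leaf 0 525 561) (node 524 (merge (leaf 0 524 559) (node 492 (merge (leaf 3 491 491) (leaf 3 492 493))))))) (merge (node 560 (merge (leaf 0 525 561) (node 524 (merge (leaf 0 524 559) (node 555 (merge (leaf 1 523 556) (node 523 (merge (leaf 1 522 554) (node 491 (merge (leaf 3 490 490) (leaf 3 491 492))))))))))) (node 560 (merge (leaf 0 525 561) (node 524 (merge (leaf 0 524 559) (node 555 (merge (leaf 1 523 556) (node 523 (merge (leaf 1 522 554) (node 494 (merge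 (leaf 2 491 495) (node 493 (merge (leaf 2 490 522) (node 590 (merge (leaf 7 461 461) (leaf 7 493 622))))))))))))))))))) (merge (node 560 (merge (node 561 (merge (leaf 0 525 525) (node 562 (merge (leaf 3 526 559) (leaf 3 527 563))))) (merge (node 525 (merge (leaf 0 525 561) (node 556 (merge (leaf 1 524 557) (node 524 (merge (leaf 1 523 555) (node 492 (merge (leaf 3 491 491) (leaf 3 492 493))))))))) (merge (node 559 (merge (node 561 (merge (leaf 3 526 562) (node 590 (merge (leaf 1 557 589) (node 622 (merge (leaf 6 494 495) (leaf 6 526 654))))))) (merge (node 557 (merge (leaf 2 524 556) (node 589 (merge (leaf 1 556 588) (node 561 (merge (leaf 1 557 590) (node 562 (merge (leaf 3 526 526) (leaf 3 527 563))))))))) (merge (node 557 (merge (leaf 2 524 556) (node 592 (merge (leaf 0 557 593) (node 624 (merge (leaf 7 495 495) (leaf 7 527 656))))))) (node 557 (merge (leaf 2 524 556) (node 592 (merge (leaf 0 557 593) (node 624 (merge (leaf 7 495 495) (leaf 7 527 656))))))))))) (node 557 (merge (node 556 (merge (leaf 1 524 525) (leaf 2 523 555))) (merge (node 556 (merge (leaf 2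 523 555) (leaf 2 524 559))) (node 589 (merge (node 621 (merge (leaf 6 525 653) (node 494 (merge (leaf 5 461 462) (leaf 5 493 590))))) (merge (node 621 (merge (leaf 6 525 653) (node 525 (merge (leaf 6 493 494) (node 524 (merge (leaf 7 492 492) (node 523 (merge (leaf 0 522 522) (leaf 0 523 559))))))))) (merge (node 559 (merge (leaf 1 556 588) (node 592 (merge (leaf 0 557 593) (node 624 (merge (leaf 7 495 495) (leaf 7 527 656))))))) (node 559 (merge (leaf 1 556 588) (node 592 (merge (leaf 0 557 593) (node 624 (merge (leaf 7 495 495) (leaf 7 527 656)))))))))))))))))) (node 494 (merge (node 493 (merge (node 492 (merge (leaf 0 491 491) (leaf 3 492 525))) (merge (node 492 (merge (leaf 0 491 491) (leaf 0 492 495))) (node 590 (merge (leaf 7 461 461) (node 622 (merge (leaf 6 494 495) (leaf 7 493 525)))))))) (merge (node 590 (merge (node 623 (merge (leaf 4 494 591) (node 622 (merge (leaf 6 494 495) (leaf 4 526 655))))) (merge (node 622 (merge (leaf 6 494 495) (node 621 (merge (leaf 5 493 589) (leaf 5 525 653))))) (node 591 (merge (leaf 4 494 623) (node 589 (merge (leaf 5 493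 621) (node 557 (merge (leaf 5 461 462) (node 556 (merge (leaf 0 555 555) (leaf 3 556 592)))))))))))) (merge (node 462 (merge (node 431 (merge (leaf 6 430 463) (node 430 (merge (leaf 6 398 399) (node 429 (merge (leaf 7 397 397) (leaf 7 429 461))))))) (merge (node 557 (merge (leaf 5 461 589) (node 525 (merge (leaf 5 429 430) (leaf 1 524 556))))) (merge (node 557 (merge (leaf 5 461 589) (node 556 (merge (leaf 1 524 525) (leaf 2 523 555))))) (node 557 (merge (leaf 5 461 589) (node 430 (merge (leaf 5 429 525) (node 429 (merge (leaf 7 397 397) (leaf 7 429 461))))))))))) (node 461 (merge (node 429 (merge (leaf 7 429 462) (node 493 (merge (leaf 4 397 397) (leaf 7 461 590))))) (merge (node 462 (merge (leaf 7 429 429) (node 557 (merge (leaf 5 461 589) (node 525 (merge (leaf 5 429 430) (leaf 1 524 556))))))) (node 590 (merge (leaf 7 461 493) (node 623 (merge (leaf 4 494 591) (node 622 (merge (leaf 4 526 655) (node 621 (merge (leaf 5 493 589) (leaf 5 525 653)))))))))))))))))))))))))))))))) nG_3 cG_3 11 (by decide +kernel)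
def nG_4 : ℕ := 0x1800000000000000000000000000000000000000000000000000000000000000000000000000000000000000000000000000000000000000000000000000000000000
def cG_4 : ℕ := 0x2a0000003e0000003e0000003f8000003f800000e7000000ff8000007f0000002e0000000a000000000000000000000000000000000000000000000000000000000000000000000000000000000000000000000000000
theorem lG_4 : S nG_4 cG_4 11 := S_of_chk [] trivial (node 526 (merge (node 525 (merge (node 497 (merge (leaf 2 493 496) (node 529 (merge (leaf 2 494 498) (node 557 (merge (leaf 1 524 556) (leaf 1 525 558))))))) (merge (node 556 (merge (leaf 1 524 557) (node 524 (merge (leaf 1 523 555) (node 492 (merge (leaf 3 491 491) (leaf 3 492 493))))))) (node 497 (merge (leaf 2 493 496) (node 529 (merge (leaf 2 494 498) (node 493 (merge (leaf 3 492 492) (leaf 3 493 494)))))))))) (merge (node 557 (merge (node 556 (merge (leaf 1 524 525) (node 558 (merge (leaf 2 523 555) (leaf 2 524 559))))) (merge (node 525 (merge (leaf 1 524 556) (node 493 (merge (leaf 3 492 492) (node 494 (merge (leaf 3 493 529) (node 589 (merge (leaf 6 461 462) (leaf 6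 493 621))))))))) (node 529 (merge (leaf 1 525 558) (node 498 (merge (leaf 2 494 497) (node 530 (merge (leaf 2 495 499) (node 494 (merge (leaf 3 493 493) (leaf 3 494 495)))))))))))) (merge (node 497 (merge (node 496 (merge (leaf 2 493 525) (node 498 (merge (leaf 1 494 495) (leaf 1 495 499))))) (merge (node 498 (merge (leaf 2 494 529) (node 496 (merge (leaf 1 494 495) (leaf 1 495 499))))) (merge (node 525 (merge (leaf 2 493 496) (node 560 (merge (leaf 0 525 561) (node 559 (merge (leaf 0 524 524) (node 529 (merge (leaf 2 494 498) (node 558 (merge (leaf 1 526 530) (leaf 2 525 557))))))))))) (merge (node 525 (merge (leaf 2 493 496) (node 560 (merge (leaf 0 525 561) (node 559 (merge (leaf 0 524 524) (node 557 (merge (leaf 1 524 556) (node 529 (merge (leaf 1 525 558) (node 530 (merge (leaf 1 527 531) (node 495 (merge (leaf 3 494 494) (node 592 (merge (leaf 4 463 463) (leaf 6 496 624))))))))))))))))) (node 529 (merge (leaf 2 494 498) (node 557 (merge (leaf 1 525 558) (node 525 (merge (leaf 1 524 556) (node 560 (merge (leaf 0 525 561) (node 559 (merge (leaf 0 524 524) (node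 530 (merge (leaf 1 527 531) (node 495 (merge (leaf 3 494 494) (node 592 (merge (leaf 4 463 463) (leaf 6 496 624)))))))))))))))))))))) (merge (node 497 (merge (node 496 (merge (leaf 2 493 525) (node 498 (merge (leaf 1 494 495) (leaf 1 495 499))))) (merge (node 525 (merge (leaf 2 493 496) (node 560 (merge (leaf 0 525 561) (node 559 (merge (leaf 0 524 524) (node 493 (merge (leaf 3 492 492) (node 529 (merge (leaf 3 493 494) (node 530 (merge (leaf 1 527 531) (leaf 1 526 558))))))))))))) (node 529 (merge (leaf 2 494 498) (node 494 (merge (leaf 3 493 493) (node 530 (merge (leaf 3 494 495) (node 559 (merge (leaf 1 526 558) (node 560 (merge (leaf 1 527 531) (node 465 (merge (leaf 5 432 433) (node 592 (merge (leaf 5 464 561) (leaf 6 496 624)))))))))))))))))) (merge (node 529 (merge (node 498 (merge (leaf 2 494 497) (node 530 (merge (leaf 2 495 499) (node 558 (merge (leaf 1 525 557) (leaf 1 526 559))))))) (merge (node 497 (merge (leaf 2 494 498) (node 525 (merge (leaf 2 493 496) (node 557 (merge (leaf 1 524 556) (leaf 1 525 558))))))) (merge (node 557 (merge (leaf 1 525 558)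 (node 525 (merge (leaf 1 524 556) (node 560 (merge (leaf 0 525 561) (node 524 (merge (leaf 0 524 559) (node 492 (merge (leaf 3 491 491) (leaf 3 492 493))))))))))) (merge (node 497 (merge (leaf 2 494 498) (node 525 (merge (leaf 2 493 496) (node 560 (merge (leaf 0 525 561) (node 524 (merge (leaf 0 524 559) (node 556 (merge (leaf 1 523 555) (leaf 1 524 557))))))))))) (node 497 (merge (leaf 2 494 498) (node 525 (merge (leaf 2 493 496) (node 560 (merge (leaf 0 525 561) (node 559 (merge (leaf 0 524 524) (node 530 (merge (leaf 1 527 531) (leaf 1 526 558)))))))))))))))) (merge (node 558 (merge (node 557 (merge (leaf 1 525 529) (node 556 (merge (leaf 1 524 525) (leaf 2 523 555))))) (merge (node 590 (merge (node 495 (merge (leaf 6 494 622) (node 494 (merge (leaf 6 462 463) (node 493 (merge (leaf 7 461 461) (leaf 0 492 492))))))) (merge (node 622 (merge (leaf 6 494 495) (node 655 (merge (leaf 4 526 623) (node 654 (merge (leaf 6 526 559) (leaf 4 558 687))))))) (merge (node 622 (merge (node 655 (merge (leaf 4 526 623) (node 654 (merge (leaf 6 526 559) (leaf 4 558 687))))) (merge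 (node 654 (merge (leaf 6 526 559) (node 653 (merge (leaf 5 525 621) (leaf 5 557 685))))) (node 623 (merge (leaf 4 526 655) (node 494 (merge (leaf 4 494 591) (node 621 (merge (leaf 5 493 589) (leaf 5 525 653)))))))))) (node 494 (merge (node 493 (merge (leaf 7 461 461) (node 492 (merge (leaf 0 491 491) (leaf 0 492 495))))) (node 589 (merge (leaf 5 493 621) (node 462 (merge (leaf 5 461 557) (node 559 (merge (leaf 4 430 430) (leaf 4 462 591))))))))))))) (node 590 (merge (node 495 (merge (leaf 6 494 622) (node 463 (merge (leaf 5 430 431) (leaf 5 462 559))))) (merge (node 622 (merge (leaf 6 494 495) (node 621 (merge (leaf 5 525 653) (node 494 (merge (leaf 5 493 589) (node 493 (merge (leaf 7 461 461) (leaf 3 493 529))))))))) (merge (node 622 (merge (node 655 (merge (leaf 4 526 623) (node 654 (merge (leaf 6 526 559) (leaf 4 558 687))))) (merge (node 654 (merge (leaf 6 526 559) (node 653 (merge (leaf 5 525 621) (leaf 5 557 685))))) (node 623 (merge (leaf 4 526 655) (node 494 (merge (leaf 4 494 591) (node 621 (merge (leaf 5 493 589) (leaf 5 525 653)))))))))) (node 494 (merge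 (node 493 (merge (leaf 7 461 461) (node 492 (merge (leaf 0 491 491) (leaf 0 492 495))))) (merge (node 591 (merge (leaf 4 494 623) (node 462 (merge (leaf 4 462 559) (node 431 (merge (leaf 6 430 463) (node 430 (merge (leaf 6 398 399) (node 429 (merge (leaf 7 397 397) (leaf 7 429 461))))))))))) (node 529 (merge (leaf 3 493 493) (node 530 (merge (leaf 3 494 495) (leaf 1 526 559))))))))))))))) (merge (node 558 (merge (node 557 (merge (leaf 1 525 529) (node 556 (merge (leaf 2 523 555) (leaf 2 524 559))))) (merge (node 494 (merge (node 529 (merge (leaf 3 493 493) (leaf 1 525 557))) (merge (node 493 (merge (leaf 3 493 529) (node 492 (merge (leaf 0 491 491) (leaf 0 492 495))))) (merge (node 462 (merge (node 431 (merge (leaf 6 430 463) (node 430 (merge (leaf 6 398 399) (node 429 (merge (leaf 7 397 397) (leaf 7 429 461))))))) (merge (node 589 (merge (leaf 5 461 557) (node 590 (merge (leaf 5 493 621) (node 461 (merge (leaf 7 429 429) (leaf 7 461 493))))))) (node 463 (merge (leaf 6 430 431) (node 590 (merge (leaf 6 462 495) (node 589 (merge (leaf 5 461 557) (leaf 5 493 621))))))))))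 (node 557 (merge (leaf 1 525 529) (node 462 (merge (leaf 5 461 589) (node 463 (merge (leaf 6 430 431) (node 495 (merge (leaf 6 462 590) (node 461 (merge (leaf 7 429 429) (node 496 (merge (leaf 0 460 460) (leaf 3 461 497))))))))))))))))) (merge (node 590 (merge (node 495 (merge (leaf 6 494 622) (node 494 (merge (leaf 6 462 463) (node 493 (merge (leaf 7 461 461) (leaf 0 492 492))))))) (merge (node 622 (merge (leaf 6 494 495) (node 655 (merge (leaf 4 526 623) (node 654 (merge (leaf 6 526 559) (leaf 4 558 687))))))) (merge (node 622 (merge (node 655 (merge (leaf 4 526 623) (node 654 (merge (leaf 6 526 559) (leaf 4 558 687))))) (merge (node 654 (merge (leaf 6 526 559) (node 653 (merge (leaf 5 525 621) (leaf 5 557 685))))) (node 623 (merge (leaf 4 526 655) (node 494 (merge (leaf 4 494 591) (node 621 (merge (leaf 5 493 589) (leaf 5 525 653)))))))))) (node 494 (merge (node 493 (merge (leaf 7 461 461) (node 492 (merge (leaf 0 491 491) (leaf 0 492 495))))) (node 589 (merge (leaf 5 493 621) (node 462 (merge (leaf 5 461 557) (node 559 (merge (leaf 4 430 430) (leaf 4 462 591)))))))))))))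 (node 590 (merge (node 495 (merge (leaf 6 494 622) (node 463 (merge (leaf 5 430 431) (leaf 5 462 559))))) (merge (node 622 (merge (leaf 6 494 495) (node 621 (merge (leaf 5 525 653) (node 494 (merge (leaf 5 493 589) (node 493 (merge (leaf 7 461 461) (leaf 3 493 529))))))))) (merge (node 622 (merge (node 655 (merge (leaf 4 526 623) (node 654 (merge (leaf 6 526 559) (leaf 4 558 687))))) (merge (node 654 (merge (leaf 6 526 559) (node 653 (merge (leaf 5 525 621) (leaf 5 557 685))))) (node 623 (merge (leaf 4 526 655) (node 494 (merge (leaf 4 494 591) (node 621 (merge (leaf 5 493 589) (leaf 5 525 653)))))))))) (node 494 (merge (node 493 (merge (leaf 7 461 461) (node 492 (merge (leaf 0 491 491) (leaf 0 492 495))))) (merge (node 591 (merge (leaf 4 494 623) (node 462 (merge (leaf 4 462 559) (node 431 (merge (leaf 6 430 463) (node 430 (merge (leaf 6 398 399) (node 429 (merge (leaf 7 397 397) (leaf 7 429 461))))))))))) (node 591 (merge (leaf 4 494 623) (node 559 (merge (leaf 4 462 462) (node 589 (merge (leaf 5 493 621) (node 588 (merge (leaf 2 556 560) (leaf 2 555 587))))))))))))))))))))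 (node 560 (merge (node 525 (merge (leaf 0 525 561) (node 524 (merge (leaf 0 524 559) (node 496 (merge (leaf 2 492 495) (leaf 2 493 497))))))) (merge (node 525 (merge (leaf 0 525 561) (node 556 (merge (leaf 1 524 557) (node 524 (merge (leaf 1 523 555) (node 492 (merge (leaf 3 491 491) (leaf 3 492 493))))))))) (merge (node 592 (merge (node 624 (merge (leaf 7 495 495) (node 656 (merge (leaf 7 527 559) (node 657 (merge (leaf 4 528 625) (leaf 4 560 689))))))) (merge (node 624 (merge (leaf 7 495 495) (node 656 (merge (leaf 7 527 559) (node 655 (merge (leaf 5 527 623) (leaf 5 559 687))))))) (merge (node 624 (merge (leaf 7 495 495) (node 625 (merge (leaf 4 528 657) (node 496 (merge (leaf 4 496 593) (node 623 (merge (leaf 5 495 591) (leaf 5 527 655))))))))) (merge (node 624 (merge (node 656 (merge (leaf 7 527 559) (node 657 (merge (leaf 4 528 625) (leaf 4 560 689))))) (merge (node 656 (merge (leaf 7 527 559) (node 655 (merge (leaf 5 527 623) (leaf 5 559 687))))) (node 625 (merge (leaf 4 528 657) (node 496 (merge (leaf 4 496 593) (node 623 (merge (leaf 5 495 591) (leaf 5 527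 655)))))))))) (node 496 (merge (node 497 (merge (leaf 6 464 465) (node 495 (merge (leaf 7 463 463) (leaf 1 494 498))))) (merge (node 593 (merge (leaf 4 496 625) (node 464 (merge (leaf 4 464 561) (node 591 (merge (leaf 5 463 559) (leaf 5 495 623))))))) (node 591 (merge (leaf 5 495 623) (node 559 (merge (leaf 5 463 464) (node 495 (merge (leaf 4 463 463) (node 590 (merge (leaf 5 494 622) (node 589 (merge (leaf 2 557 561) (leaf 2 556 588))))))))))))))))))) (node 496 (merge (node 525 (merge (leaf 2 493 497) (node 524 (merge (leaf 2 492 495) (node 556 (merge (leaf 1 523 555) (leaf 1 524 557))))))) (merge (node 525 (merge (leaf 2 493 497) (node 559 (merge (leaf 0 524 524) (node 591 (merge (leaf 5 463 464) (leaf 6 495 623))))))) (merge (node 591 (merge (node 559 (merge (leaf 5 463 464) (leaf 6 495 623))) (merge (node 592 (merge (leaf 5 495 623) (node 625 (merge (leaf 4 496 593) (node 624 (merge (leaf 7 495 495) (leaf 4 528 657))))))) (node 464 (merge (leaf 5 463 559) (node 465 (merge (leaf 6 432 433) (node 592 (merge (leaf 6 464 497) (node 463 (merge (leaf 7 431 431) (leaf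 7 463 495)))))))))))) (node 591 (merge (node 559 (merge (leaf 5 463 464) (leaf 6 495 623))) (merge (node 592 (merge (leaf 5 495 623) (node 625 (merge (leaf 4 496 593) (node 624 (merge (leaf 7 495 495) (leaf 4 528 657))))))) (node 464 (merge (leaf 5 463 559) (node 465 (merge (leaf 6 432 433) (node 463 (merge (leaf 7 431 431) (node 495 (merge (leaf 7 463 592) (node 494 (merge (leaf 1 462 466) (leaf 2 461 493)))))))))))))))))))))))))))))) nG_4 cG_4 11 (by decide +kernel)
def nG_5 : ℕ := 0x3800000000000000000000000000000000000000000000000000000000000000000000000000000000000000000000000000000000000000000000000000000000000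
def cG_5 : ℕ := 0x140000001c0000003e000000ff8000001f80000007800001ffc00000fe0000007f0000003c000000140000000000000000000000000000000000000000000000000000000000000000000000000000000000000000000
theorem lG_5 : S nG_5 cG_5 12 := S_of_chk [] trivial (node 495 (merge (node 526 (merge (node 558 (merge (leaf 1 525 557) (node 590 (merge (leaf 6 494 622) (node 494 (merge (leaf 6 462 463) (leaf 3 493 493))))))) (merge (node 497 (merge (leaf 2 494 498) (node 525 (merge (leaf 2 493 496) (node 493 (merge (leaf 3 492 492) (leaf 3 493 494))))))) (node 497 (merge (leaf 2 494 498) (node 525 (merge (leaf 2 493 496) (node 557 (merge (leaf 1 524 556) (leaf 1 525 558)))))))))) (merge (node 463 (merge (node 560 (merge (leaf 4 431 431) (node 592 (merge (leaf 4 463 559) (leaf 7 495 624))))) (merge (node 431 (merge (leaf 4 431 560) (node 400 (merge (leaf 6 399 432) (node 399 (merge (leaf 6 367 368) (node 398 (merge (leaf 7 366 366) (leaf 7 398 430))))))))) (merge (node 559 (merge (node 558 (merge (leaf 5 462 590) (node 557 (merge (leaf 1 525 526) (leaf 2 524 556))))) (node 592 (merge (leaf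 4 463 560) (node 591 (merge (leaf 4 495 624) (node 462 (merge (leaf 7 430 430) (leaf 7 462 494))))))))) (node 526 (merge (node 558 (merge (leaf 1 525 557) (node 494 (merge (leaf 3 493 493) (leaf 6 462 590))))) (merge (node 558 (merge (leaf 1 525 557) (node 590 (merge (leaf 6 494 622) (node 463 (merge (leaf 5 430 431) (leaf 5 462 559))))))) (node 494 (merge (leaf 3 493 493) (node 431 (merge (leaf 5 398 399) (node 432 (merge (leaf 6 399 400) (node 559 (merge (leaf 6 431 464) (node 430 (merge (leaf 7 398 398) (leaf 4 430 462)))))))))))))))))) (merge (node 559 (merge (node 591 (merge (node 496 (merge (leaf 6 463 464) (node 494 (merge (leaf 7 462 462) (leaf 0 493 493))))) (node 624 (merge (leaf 4 495 592) (node 623 (merge (leaf 4 527 656) (node 622 (merge (leaf 5 494 590) (leaf 5 526 654))))))))) (merge (node 463 (merge (node 560 (merge (leaf 4 431 431) (leaf 4 463 592))) (merge (node 432 (merge (leaf 6 431 464) (node 431 (merge (leaf 6 399 400) (node 430 (merge (leaf 7 398 398) (leaf 7 430 462))))))) (node 558 (merge (leaf 5 462 590) (node 557 (merge (leaf 2 524 556)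 (leaf 2 525 560)))))))) (merge (node 590 (merge (node 591 (merge (leaf 5 494 622) (node 496 (merge (leaf 6 463 464) (leaf 6 495 623))))) (merge (node 463 (merge (leaf 5 462 558) (node 560 (merge (leaf 4 431 431) (leaf 4 463 592))))) (node 591 (merge (leaf 5 494 622) (node 624 (merge (leaf 4 495 592) (node 623 (merge (leaf 6 495 496) (leaf 4 527 656)))))))))) (merge (node 462 (merge (node 430 (merge (leaf 7 430 463) (node 494 (merge (leaf 4 398 398) (leaf 7 462 591))))) (merge (node 463 (merge (leaf 7 430 430) (node 558 (merge (leaf 5 462 590) (node 557 (merge (leaf 2 524 556) (leaf 2 525 560))))))) (node 591 (merge (leaf 7 462 494) (node 623 (merge (leaf 6 495 496) (node 654 (merge (leaf 5 526 622) (node 655 (merge (leaf 6 527 560) (leaf 5 558 686)))))))))))) (node 591 (merge (node 494 (merge (leaf 7 462 462) (node 493 (merge (leaf 0 492 492) (leaf 0 493 496))))) (merge (node 624 (merge (leaf 4 495 592) (node 623 (merge (leaf 6 495 496) (leaf 4 527 656))))) (node 624 (merge (leaf 4 495 592) (node 623 (merge (leaf 4 527 656) (node 654 (merge (leaf 5 526 622) (node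 655 (merge (leaf 6 527 560) (leaf 5 558 686))))))))))))))))) (merge (node 526 (merge (node 558 (merge (leaf 1 525 557) (node 590 (merge (leaf 6 494 622) (node 463 (merge (leaf 5 430 431) (leaf 5 462 559))))))) (merge (node 497 (merge (leaf 2 494 498) (node 525 (merge (leaf 2 493 496) (node 556 (merge (leaf 1 524 557) (node 524 (merge (leaf 1 523 555) (node 492 (merge (leaf 3 491 491) (leaf 3 492 493))))))))))) (node 497 (merge (leaf 2 494 498) (node 525 (merge (leaf 2 493 496) (node 492 (merge (leaf 3 492 493) (node 524 (merge (leaf 3 491 491) (node 559 (merge (leaf 0 524 560) (node 558 (merge (leaf 0 523 523) (node 590 (merge (leaf 5 462 463) (leaf 6 494 622)))))))))))))))))) (merge (node 526 (merge (node 497 (merge (leaf 2 494 498) (node 525 (merge (leaf 2 493 496) (node 493 (merge (leaf 3 492 492) (leaf 3 493 494))))))) (merge (node 557 (merge (leaf 1 525 558) (node 525 (merge (leaf 1 524 556) (node 493 (merge (leaf 3 492 492) (leaf 3 493 494))))))) (merge (node 497 (merge (leaf 2 494 498) (node 525 (merge (leaf 2 493 496) (node 557 (merge (leaf 1 524 556) (leaf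 1 525 558))))))) (node 558 (merge (leaf 1 525 557) (node 494 (merge (leaf 3 493 493) (node 590 (merge (leaf 6 462 463) (node 591 (merge (leaf 4 494 623) (node 559 (merge (leaf 4 462 462) (node 589 (merge (leaf 5 493 621) (node 588 (merge (leaf 2 556 560) (leaf 2 555 587))))))))))))))))))) (merge (node 559 (merge (node 463 (merge (node 560 (merge (leaf 4 431 431) (leaf 4 463 592))) (node 558 (merge (leaf 5 462 590) (node 557 (merge (leaf 1 525 526) (leaf 2 524 556))))))) (merge (node 464 (merge (node 432 (merge (leaf 6 431 463) (leaf 5 431 496))) (merge (node 463 (merge (leaf 6 431 432) (node 560 (merge (leaf 4 431 431) (leaf 4 463 592))))) (node 591 (merge (leaf 6 463 496) (node 494 (merge (leaf 7 462 462) (node 623 (merge (leaf 7 494 526) (node 654 (merge (leaf 5 526 622) (node 655 (merge (leaf 6 527 560) (leaf 5 558 686)))))))))))))) (merge (node 462 (merge (node 430 (merge (leaf 7 430 463) (node 494 (merge (leaf 4 398 398) (leaf 7 462 591))))) (merge (node 463 (merge (leaf 7 430 430) (node 558 (merge (leaf 5 462 590) (node 557 (merge (leaf 2 524 556) (leaf 2 525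 560))))))) (node 591 (merge (leaf 7 462 494) (node 623 (merge (leaf 6 495 496) (node 654 (merge (leaf 5 526 622) (node 655 (merge (leaf 6 527 560) (leaf 5 558 686)))))))))))) (merge (node 462 (merge (node 430 (merge (leaf 7 430 463) (node 494 (merge (leaf 4 398 398) (leaf 7 462 591))))) (merge (node 591 (merge (leaf 7 462 494) (node 624 (merge (leaf 4 495 592) (node 623 (merge (leaf 4 527 656) (node 622 (merge (leaf 5 494 590) (leaf 5 526 654))))))))) (merge (node 463 (merge (leaf 7 430 430) (node 464 (merge (leaf 6 431 432) (node 591 (merge (leaf 6 463 496) (node 624 (merge (leaf 4 495 592) (node 623 (merge (leaf 4 527 656) (node 622 (merge (leaf 5 494 590) (leaf 5 526 654))))))))))))) (node 430 (merge (leaf 7 430 463) (node 494 (merge (leaf 4 398 398) (leaf 4 430 526))))))))) (node 497 (merge (node 526 (merge (leaf 2 494 498) (node 525 (merge (leaf 2 493 496) (node 557 (merge (leaf 1 524 556) (leaf 1 525 558))))))) (merge (node 591 (merge (node 623 (merge (leaf 6 495 496) (node 655 (merge (leaf 6 527 560) (node 654 (merge (leaf 5 526 622) (leaf 5 558 686)))))))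 (merge (node 624 (merge (leaf 4 495 592) (node 623 (merge (leaf 4 527 656) (node 622 (merge (leaf 5 494 590) (leaf 5 526 654))))))) (node 592 (merge (leaf 4 495 624) (node 496 (merge (leaf 6 463 464) (node 465 (merge (leaf 6 464 560) (node 494 (merge (leaf 7 462 462) (leaf 2 462 466)))))))))))) (node 526 (merge (leaf 2 494 498) (node 557 (merge (leaf 1 525 558) (node 525 (merge (leaf 1 524 556) (node 524 (merge (leaf 0 524 560) (node 494 (merge (leaf 2 491 523) (node 591 (merge (leaf 7 462 462) (leaf 7 494 623))))))))))))))))))))) (merge (node 559 (merge (node 494 (merge (node 493 (merge (leaf 0 492 492) (leaf 3 493 526))) (merge (node 493 (merge (leaf 0 492 492) (leaf 0 493 496))) (node 591 (merge (leaf 7 462 462) (node 623 (merge (leaf 6 495 496) (leaf 7 494 526)))))))) (merge (node 592 (merge (node 560 (merge (leaf 4 463 463) (leaf 7 495 624))) (merge (node 624 (merge (leaf 7 495 560) (leaf 4 495 591))) (merge (node 463 (merge (leaf 4 463 560) (node 590 (merge (leaf 5 462 558) (node 591 (merge (leaf 5 494 622) (node 462 (merge (leaf 7 430 430) (leaf 7 462 494)))))))))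 (node 591 (merge (leaf 4 495 624) (node 590 (merge (leaf 5 494 622) (node 463 (merge (leaf 5 462 558) (node 462 (merge (leaf 7 430 430) (leaf 7 462 494))))))))))))) (merge (node 590 (merge (node 591 (merge (leaf 5 494 622) (node 496 (merge (leaf 6 463 464) (leaf 6 495 623))))) (merge (node 463 (merge (leaf 5 462 558) (node 560 (merge (leaf 4 431 431) (leaf 4 463 592))))) (node 591 (merge (leaf 5 494 622) (node 624 (merge (leaf 4 495 592) (node 623 (merge (leaf 6 495 496) (leaf 4 527 656)))))))))) (node 494 (merge (node 493 (merge (leaf 0 492 492) (leaf 3 493 526))) (merge (node 493 (merge (leaf 0 492 492) (leaf 0 493 496))) (node 463 (merge (node 431 (merge (leaf 4 431 560) (node 558 (merge (leaf 5 430 526) (leaf 5 462 590))))) (merge (node 558 (merge (leaf 5 462 590) (node 526 (merge (leaf 5 430 431) (node 497 (merge (leaf 2 494 498) (node 462 (merge (leaf 4 430 430) (node 461 (merge (leaf 7 429 429) (leaf 3 461 496))))))))))) (node 560 (merge (leaf 4 463 592) (node 464 (merge (leaf 6 431 432) (node 465 (merge (leaf 1 462 466) (node 433 (merge (leaf 5 432 497) (node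 462 (merge (leaf 7 430 430) (leaf 2 430 434))))))))))))))))))))) (merge (node 559 (merge (node 494 (merge (node 493 (merge (leaf 0 492 492) (leaf 3 493 526))) (merge (node 493 (merge (leaf 0 492 492) (leaf 0 493 496))) (node 591 (merge (leaf 7 462 462) (node 623 (merge (leaf 6 495 496) (leaf 7 494 526)))))))) (merge (node 591 (merge (node 624 (merge (leaf 4 495 592) (node 623 (merge (leaf 6 495 496) (leaf 4 527 656))))) (merge (node 623 (merge (leaf 6 495 496) (node 622 (merge (leaf 5 494 590) (leaf 5 526 654))))) (merge (node 624 (merge (leaf 4 495 592) (node 623 (merge (leaf 4 527 656) (node 622 (merge (leaf 5 494 590) (leaf 5 526 654))))))) (node 592 (merge (leaf 4 495 624) (node 560 (merge (leaf 4 463 463) (node 496 (merge (leaf 5 463 464) (node 497 (merge (leaf 6 464 465) (node 526 (merge (leaf 1 494 498) (leaf 2 493 525))))))))))))))) (merge (node 591 (merge (node 494 (merge (leaf 7 462 462) (node 493 (merge (leaf 0 492 492) (leaf 0 493 496))))) (merge (node 624 (merge (leaf 4 495 592) (node 623 (merge (leaf 6 495 496) (leaf 4 527 656))))) (node 624 (merge (leaf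 4 495 592) (node 623 (merge (leaf 4 527 656) (node 622 (merge (leaf 5 494 590) (leaf 5 526 654)))))))))) (merge (node 592 (merge (node 560 (merge (leaf 4 463 463) (leaf 7 495 624))) (merge (node 591 (merge (leaf 4 495 624) (node 622 (merge (leaf 5 494 590) (node 623 (merge (leaf 5 526 654) (node 494 (merge (leaf 7 462 462) (leaf 7 494 526))))))))) (node 463 (merge (leaf 4 463 560) (node 432 (merge (leaf 6 431 464) (node 431 (merge (leaf 6 399 400) (node 462 (merge (leaf 7 430 430) (node 494 (merge (leaf 7 462 591) (node 526 (merge (leaf 5 398 399) (leaf 3 493 493)))))))))))))))) (node 526 (merge (node 493 (merge (leaf 3 493 494) (node 525 (merge (leaf 3 492 492) (node 524 (merge (leaf 2 492 496) (node 556 (merge (leaf 1 523 555) (leaf 1 524 557))))))))) (merge (node 497 (merge (leaf 2 494 498) (node 525 (merge (leaf 2 493 496) (node 524 (merge (leaf 0 524 560) (node 523 (merge (leaf 2 491 494) (node 491 (merge (leaf 3 490 490) (leaf 3 491 492))))))))))) (merge (node 497 (merge (leaf 2 494 498) (node 494 (merge (leaf 3 493 493) (node 462 (merge (leaf 4 430 430) (node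 496 (merge (leaf 3 461 461) (node 465 (merge (leaf 2 462 466) (node 433 (merge (leaf 5 400 401) (leaf 5 432 560))))))))))))) (merge (node 493 (merge (leaf 3 493 494) (node 525 (merge (leaf 3 492 492) (node 560 (merge (leaf 0 524 524) (node 592 (merge (leaf 4 463 463) (leaf 7 495 624))))))))) (node 497 (merge (leaf 2 494 498) (node 525 (merge (leaf 2 493 496) (node 560 (merge (leaf 0 524 524) (node 592 (merge (leaf 4 463 463) (leaf 6 496 624))))))))))))))))))) (merge (node 497 (merge (node 498 (merge (leaf 2 494 526) (node 499 (merge (leaf 1 495 496) (leaf 1 496 500))))) (merge (node 526 (merge (leaf 2 494 498) (node 557 (merge (leaf 1 525 558) (node 525 (merge (leaf 1 524 556) (node 493 (merge (leaf 3 492 492) (leaf 3 493 494))))))))) (merge (node 496 (merge (node 498 (merge (leaf 1 495 499) (node 463 (merge (leaf 3 462 462) (node 560 (merge (leaf 4 431 431) (leaf 7 463 592))))))) (merge (node 494 (merge (leaf 0 493 493) (node 466 (merge (leaf 2 462 465) (node 498 (merge (leaf 2 463 467) (node 462 (merge (leaf 3 461 461) (leaf 3 462 463))))))))) (merge (node 494 (merge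 (leaf 0 493 493) (node 465 (merge (leaf 2 462 466) (node 560 (merge (leaf 5 432 433) (leaf 6 464 592))))))) (node 494 (merge (leaf 0 493 493) (node 465 (merge (leaf 2 462 466) (node 433 (merge (leaf 5 400 401) (leaf 5 432 560))))))))))) (node 463 (merge (node 431 (merge (leaf 4 431 560) (node 399 (merge (leaf 4 399 496) (node 526 (merge (leaf 5 398 494) (leaf 5 430 558))))))) (merge (node 431 (merge (leaf 4 431 560) (node 496 (merge (leaf 4 399 399) (node 430 (merge (leaf 7 398 398) (node 559 (merge (leaf 7 430 462) (node 464 (merge (leaf 5 431 432) (leaf 6 463 591))))))))))) (merge (node 431 (merge (leaf 4 431 560) (node 399 (merge (leaf 4 399 496) (node 526 (merge (leaf 5 398 494) (leaf 5 430 558))))))) (merge (node 431 (merge (leaf 4 431 560) (node 399 (merge (leaf 4 399 496) (node 526 (merge (leaf 5 398 494) (leaf 5 430 558))))))) (merge (node 559 (merge (node 592 (merge (leaf 4 463 560) (node 591 (merge (leaf 4 495 624) (node 462 (merge (leaf 7 430 430) (leaf 7 462 494))))))) (merge (node 592 (merge (leaf 4 463 560) (node 464 (merge (leaf 6 431 432) (node 591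 (merge (leaf 6 463 496) (leaf 4 495 624))))))) (node 464 (merge (leaf 6 431 432) (node 462 (merge (leaf 7 430 430) (node 461 (merge (leaf 0 461 496) (node 493 (merge (leaf 1 460 492) (node 429 (merge (leaf 3 428 428) (node 526 (merge (leaf 3 493 494) (node 558 (merge (leaf 4 429 525) (leaf 1 525 557)))))))))))))))))) (merge (node 431 (merge (leaf 4 431 560) (node 526 (merge (leaf 5 430 558) (node 494 (merge (leaf 5 398 399) (leaf 3 493 493))))))) (node 432 (merge (node 400 (merge (leaf 6 399 431) (node 464 (merge (leaf 5 367 368) (leaf 5 399 496))))) (merge (node 559 (merge (leaf 6 431 464) (node 462 (merge (leaf 7 430 430) (node 494 (merge (leaf 7 462 591) (node 526 (merge (leaf 3 493 493) (node 558 (merge (leaf 5 430 431) (leaf 1 525 557))))))))))) (merge (node 431 (merge (leaf 6 399 400) (node 399 (merge (leaf 4 399 496) (node 526 (merge (leaf 5 398 494) (leaf 5 430 558))))))) (node 559 (merge (leaf 6 431 464) (node 462 (merge (leaf 7 430 430) (node 591 (merge (leaf 7 462 494) (node 624 (merge (leaf 4 495 592) (node 623 (merge (leaf 6 495 496) (leaf 4 527 656))))))))))))))))))))))))))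 (node 559 (merge (node 591 (merge (node 496 (merge (leaf 6 463 464) (node 494 (merge (leaf 7 462 462) (leaf 0 493 493))))) (node 624 (merge (leaf 4 495 592) (node 623 (merge (leaf 4 527 656) (node 622 (merge (leaf 5 494 590) (leaf 5 526 654))))))))) (merge (node 497 (merge (node 498 (merge (leaf 2 494 526) (node 499 (merge (leaf 1 495 496) (leaf 1 496 500))))) (merge (node 526 (merge (leaf 2 494 498) (node 557 (merge (leaf 1 525 558) (node 525 (merge (leaf 1 524 556) (node 524 (merge (leaf 0 524 560) (node 492 (merge (leaf 3 491 491) (leaf 3 492 493))))))))))) (merge (node 591 (merge (node 623 (merge (leaf 6 495 496) (node 655 (merge (leaf 6 527 560) (node 654 (merge (leaf 5 526 622) (leaf 5 558 686))))))) (merge (node 624 (merge (leaf 4 495 592) (node 623 (merge (leaf 4 527 656) (node 622 (merge (leaf 5 494 590) (leaf 5 526 654))))))) (merge (node 623 (merge (leaf 6 495 496) (node 656 (merge (leaf 4 527 624) (node 655 (merge (leaf 6 527 560) (leaf 4 559 688))))))) (node 592 (merge (leaf 4 495 624) (node 496 (merge (leaf 6 463 464) (node 560 (merge (leaf 6 464 465)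 (node 593 (merge (leaf 4 496 625) (node 594 (merge (leaf 3 558 558) (leaf 3 559 595))))))))))))))) (node 591 (merge (node 623 (merge (leaf 6 495 496) (node 655 (merge (leaf 6 527 560) (node 654 (merge (leaf 5 526 622) (leaf 5 558 686))))))) (merge (node 624 (merge (leaf 4 495 592) (node 623 (merge (leaf 4 527 656) (node 622 (merge (leaf 5 494 590) (leaf 5 526 654))))))) (merge (node 623 (merge (leaf 6 495 496) (node 656 (merge (leaf 4 527 624) (node 655 (merge (leaf 6 527 560) (leaf 4 559 688))))))) (node 592 (merge (leaf 4 495 624) (node 496 (merge (leaf 6 463 464) (node 560 (merge (leaf 6 464 465) (node 593 (merge (leaf 4 496 625) (node 594 (merge (leaf 3 558 558) (leaf 3 559 595))))))))))))))))))) (merge (node 526 (merge (node 494 (merge (leaf 3 493 493) (node 591 (merge (leaf 7 462 462) (leaf 7 494 623))))) (merge (node 557 (merge (leaf 1 525 558) (node 525 (merge (leaf 1 524 556) (node 524 (merge (leaf 0 524 560) (node 492 (merge (leaf 3 491 491) (leaf 3 492 493))))))))) (node 557 (merge (leaf 1 525 558) (node 525 (merge (leaf 1 524 556) (node 524 (merge (leaf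 0 524 560) (node 494 (merge (leaf 2 491 523) (node 591 (merge (leaf 7 462 462) (leaf 7 494 623)))))))))))))) (merge (node 497 (merge (node 526 (merge (leaf 2 494 498) (node 525 (merge (leaf 2 493 496) (node 557 (merge (leaf 1 524 556) (leaf 1 525 558))))))) (merge (node 591 (merge (node 623 (merge (leaf 6 495 496) (node 655 (merge (leaf 6 527 560) (node 654 (merge (leaf 5 526 622) (leaf 5 558 686))))))) (merge (node 624 (merge (leaf 4 495 592) (node 623 (merge (leaf 4 527 656) (node 622 (merge (leaf 5 494 590) (leaf 5 526 654))))))) (node 592 (merge (leaf 4 495 624) (node 496 (merge (leaf 6 463 464) (node 465 (merge (leaf 6 464 560) (node 494 (merge (leaf 7 462 462) (leaf 2 462 466)))))))))))) (node 526 (merge (leaf 2 494 498) (node 557 (merge (leaf 1 525 558) (node 525 (merge (leaf 1 524 556) (node 524 (merge (leaf 0 524 560) (node 494 (merge (leaf 2 491 523) (node 591 (merge (leaf 7 462 462) (leaf 7 494 623)))))))))))))))) (node 526 (merge (node 497 (merge (leaf 2 494 498) (node 525 (merge (leaf 2 493 496) (node 557 (merge (leaf 1 524 556) (leaf 1 525 558)))))))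 (merge (node 493 (merge (leaf 3 493 494) (node 525 (merge (leaf 3 492 492) (node 524 (merge (leaf 2 492 496) (node 556 (merge (leaf 1 523 555) (leaf 1 524 557))))))))) (merge (node 557 (merge (leaf 1 525 558) (node 525 (merge (leaf 1 524 556) (node 524 (merge (leaf 0 524 560) (node 492 (merge (leaf 3 491 491) (leaf 3 492 493))))))))) (node 497 (merge (leaf 2 494 498) (node 494 (merge (leaf 3 493 493) (node 462 (merge (leaf 4 430 430) (node 496 (merge (leaf 3 461 461) (node 465 (merge (leaf 2 462 466) (node 433 (merge (leaf 5 400 401) (leaf 5 432 560)))))))))))))))))))))))))))))))) nG_5 cG_5 12 (by decide +kernel)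
def nG_6 : ℕ := 0x1800000000000000000000000000000000000000000000000000000000000000000000000000000000000000000000000000000000000000000000000000000000000
def cG_6 : ℕ := 0xa0000001e0000003f0000003f000000ffc00000e7c000007fc000000e0000000e0000000a000000000000000000000000000000000000000000000000000000000000000000000000000000000000000000000000000
theorem lG_6 : S nG_6 cG_6 11 := S_of_chk [] trivial (node 526 (merge (node 525 (merge (node 556 (merge (leaf 1 524 557) (node 524 (merge (leaf 1 523 555) (node 492 (merge (leaf 3 491 491) (leaf 3 492 493))))))) (merge (node 496 (merge (leaf 2 493 497) (node 524 (merge (leaf 2 492 495) (node 556 (merge (leaf 1 523 555) (leaf 1 524 557))))))) (node 497 (merge (leaf 2 493 496) (node 529 (merge (leaf 2 494 498) (node 493 (merge (leaf 3 492 492) (leaf 3 493 494)))))))))) (merge (node 525 (merge (node 560 (merge (leaf 0 525 561) (node 524 (merge (leaf 0 524 559) (node 492 (merge (leaf 3 491 491) (leaf 3 492 493))))))) (merge (node 561 (merge (leaf 0 525 560) (node 529 (merge (leaf 0 526 562) (node 557 (merge (leaf 1 524 556) (leaf 1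 525 558))))))) (node 556 (merge (leaf 1 524 557) (node 524 (merge (leaf 1 523 555) (node 492 (merge (leaf 3 491 491) (leaf 3 492 493)))))))))) (merge (node 525 (merge (node 561 (merge (leaf 0 525 560) (node 529 (merge (leaf 0 526 562) (node 493 (merge (leaf 3 492 492) (leaf 3 493 494))))))) (merge (node 560 (merge (leaf 0 525 561) (node 524 (merge (leaf 0 524 559) (node 492 (merge (leaf 3 491 491) (leaf 3 492 493))))))) (merge (node 492 (merge (leaf 3 492 493) (node 524 (merge (leaf 3 491 491) (node 495 (merge (leaf 2 492 496) (node 523 (merge (leaf 2 491 494) (node 555 (merge (leaf 1 522 554) (leaf 1 523 556))))))))))) (merge (node 560 (merge (leaf 0 525 561) (node 524 (merge (leaf 0 524 559) (node 555 (merge (leaf 1 523 556) (node 523 (merge (leaf 1 522 554) (node 491 (merge (leaf 3 490 490) (leaf 3 491 492))))))))))) (node 560 (merge (leaf 0 525 561) (node 524 (merge (leaf 0 524 559) (node 555 (merge (leaf 1 523 556) (node 523 (merge (leaf 1 522 554) (node 494 (merge (leaf 2 491 495) (node 493 (merge (leaf 2 490 522) (leaf 3 493 529)))))))))))))))))) (merge (node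 561 (merge (node 525 (merge (leaf 0 525 560) (node 529 (merge (leaf 0 526 562) (node 497 (merge (leaf 2 493 496) (leaf 2 494 498))))))) (merge (node 529 (merge (leaf 0 526 562) (node 558 (merge (leaf 1 525 557) (node 494 (merge (leaf 3 493 493) (node 495 (merge (leaf 3 494 530) (node 590 (merge (leaf 6 462 463) (leaf 6 494 622))))))))))) (node 525 (merge (leaf 0 525 560) (node 496 (merge (leaf 2 493 497) (node 524 (merge (leaf 2 492 495) (node 556 (merge (leaf 1 523 555) (leaf 1 524 557)))))))))))) (merge (node 557 (merge (node 558 (merge (leaf 1 525 529) (node 556 (merge (leaf 2 523 555) (leaf 2 524 559))))) (merge (node 525 (merge (leaf 1 524 556) (node 560 (merge (leaf 0 525 561) (node 524 (merge (leaf 0 524 559) (node 496 (merge (leaf 2 492 495) (leaf 2 493 497))))))))) (node 529 (merge (leaf 1 525 558) (node 561 (merge (leaf 0 526 562) (node 525 (merge (leaf 0 525 560) (node 496 (merge (leaf 2 493 497) (node 495 (merge (leaf 2 492 524) (node 530 (merge (leaf 3 494 494) (leaf 3 495 531)))))))))))))))) (merge (node 558 (merge (node 529 (merge (leaf 1 525 557) (node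 562 (merge (leaf 0 526 561) (node 530 (merge (leaf 1 526 559) (leaf 0 527 563))))))) (merge (node 529 (merge (leaf 1 525 557) (node 562 (merge (leaf 0 526 561) (node 530 (merge (leaf 0 527 563) (node 494 (merge (leaf 3 493 493) (leaf 3 494 495))))))))) (merge (node 590 (merge (node 495 (merge (leaf 6 494 622) (node 494 (merge (leaf 6 462 463) (node 493 (merge (leaf 7 461 461) (leaf 0 492 492))))))) (merge (node 622 (merge (leaf 6 494 495) (node 655 (merge (leaf 4 526 623) (node 654 (merge (leaf 6 526 559) (leaf 4 558 687))))))) (merge (node 622 (merge (node 655 (merge (leaf 4 526 623) (node 654 (merge (leaf 6 526 559) (leaf 4 558 687))))) (merge (node 654 (merge (leaf 6 526 559) (node 653 (merge (leaf 5 525 621) (leaf 5 557 685))))) (node 623 (merge (leaf 4 526 655) (node 494 (merge (leaf 4 494 591) (node 621 (merge (leaf 5 493 589) (leaf 5 525 653)))))))))) (node 494 (merge (node 493 (merge (leaf 7 461 461) (node 492 (merge (leaf 0 491 491) (leaf 0 492 495))))) (node 589 (merge (leaf 5 493 621) (node 462 (merge (leaf 5 461 557) (node 559 (merge (leaf 4 430 430) (leaf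 4 462 591))))))))))))) (node 590 (merge (node 495 (merge (leaf 6 494 622) (node 463 (merge (leaf 5 430 431) (leaf 5 462 559))))) (merge (node 622 (merge (leaf 6 494 495) (node 621 (merge (leaf 5 525 653) (node 494 (merge (leaf 5 493 589) (node 493 (merge (leaf 7 461 461) (leaf 3 493 529))))))))) (merge (node 622 (merge (node 655 (merge (leaf 4 526 623) (node 654 (merge (leaf 6 526 559) (leaf 4 558 687))))) (merge (node 654 (merge (leaf 6 526 559) (node 653 (merge (leaf 5 525 621) (leaf 5 557 685))))) (node 623 (merge (leaf 4 526 655) (node 494 (merge (leaf 4 494 591) (node 621 (merge (leaf 5 493 589) (leaf 5 525 653)))))))))) (node 494 (merge (node 493 (merge (leaf 7 461 461) (node 492 (merge (leaf 0 491 491) (leaf 0 492 495))))) (merge (node 529 (merge (leaf 3 493 493) (node 562 (merge (leaf 0 526 561) (node 530 (merge (leaf 1 526 559) (leaf 0 527 563))))))) (node 591 (merge (leaf 4 494 623) (node 462 (merge (leaf 4 462 559) (node 431 (merge (leaf 6 430 463) (node 430 (merge (leaf 6 398 399) (node 429 (merge (leaf 7 397 397) (leaf 7 429 461))))))))))))))))))))))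 (node 558 (merge (node 525 (merge (node 493 (merge (leaf 3 492 492) (node 461 (merge (leaf 4 429 429) (node 590 (merge (leaf 4 461 557) (leaf 7 493 622))))))) (merge (node 560 (merge (leaf 0 525 561) (node 524 (merge (leaf 0 524 559) (node 556 (merge (leaf 1 523 555) (leaf 1 524 557))))))) (node 560 (merge (leaf 0 525 561) (node 524 (merge (leaf 0 524 559) (node 492 (merge (leaf 3 491 491) (leaf 3 492 493)))))))))) (merge (node 590 (merge (node 495 (merge (leaf 6 494 622) (node 494 (merge (leaf 6 462 463) (node 493 (merge (leaf 7 461 461) (leaf 0 492 492))))))) (merge (node 622 (merge (leaf 6 494 495) (node 655 (merge (leaf 4 526 623) (node 654 (merge (leaf 6 526 559) (leaf 4 558 687))))))) (merge (node 622 (merge (node 655 (merge (leaf 4 526 623) (node 654 (merge (leaf 6 526 559) (leaf 4 558 687))))) (merge (node 654 (merge (leaf 6 526 559) (node 653 (merge (leaf 5 525 621) (leaf 5 557 685))))) (node 623 (merge (leaf 4 526 655) (node 494 (merge (leaf 4 494 591) (node 621 (merge (leaf 5 493 589) (leaf 5 525 653)))))))))) (node 494 (merge (node 493 (merge (leaf 7 461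 461) (node 492 (merge (leaf 0 491 491) (leaf 0 492 495))))) (node 589 (merge (leaf 5 493 621) (node 462 (merge (leaf 5 461 557) (node 559 (merge (leaf 4 430 430) (leaf 4 462 591))))))))))))) (merge (node 525 (merge (node 560 (merge (leaf 0 525 561) (node 524 (merge (leaf 0 524 559) (node 556 (merge (leaf 1 523 555) (leaf 1 524 557))))))) (merge (node 560 (merge (leaf 0 525 561) (node 524 (merge (leaf 0 524 559) (node 492 (merge (leaf 3 491 491) (leaf 3 492 493))))))) (merge (node 556 (merge (leaf 1 524 557) (node 524 (merge (leaf 1 523 555) (node 492 (merge (leaf 3 491 491) (leaf 3 492 493))))))) (node 560 (merge (leaf 0 525 561) (node 557 (merge (leaf 1 524 556) (node 493 (merge (leaf 3 492 492) (node 461 (merge (leaf 4 429 429) (node 462 (merge (leaf 6 429 430) (node 589 (merge (leaf 5 461 494) (node 588 (merge (leaf 1 556 559) (leaf 5 492 620))))))))))))))))))) (merge (node 557 (merge (node 556 (merge (leaf 1 524 525) (leaf 2 523 555))) (merge (node 556 (merge (leaf 2 523 555) (leaf 2 524 559))) (node 494 (merge (node 589 (merge (leaf 5 461 462) (node 621 (merge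 (leaf 5 493 590) (leaf 6 525 653))))) (merge (node 462 (merge (leaf 5 461 589) (node 431 (merge (leaf 6 430 463) (node 430 (merge (leaf 6 398 399) (node 429 (merge (leaf 7 397 397) (leaf 7 429 461))))))))) (merge (node 591 (merge (node 462 (merge (leaf 4 462 559) (node 431 (merge (leaf 6 430 463) (node 430 (merge (leaf 6 398 399) (node 429 (merge (leaf 7 397 397) (leaf 7 429 461))))))))) (node 590 (merge (leaf 4 494 623) (node 622 (merge (leaf 6 494 495) (node 654 (merge (leaf 7 525 525) (node 653 (merge (leaf 5 525 621) (leaf 5 557 685))))))))))) (node 590 (merge (node 622 (merge (leaf 6 494 495) (node 654 (merge (leaf 7 525 525) (leaf 6 526 559))))) (merge (node 623 (merge (leaf 4 494 591) (node 622 (merge (leaf 4 526 655) (node 621 (merge (leaf 5 493 589) (leaf 5 525 653))))))) (node 591 (merge (leaf 4 494 623) (node 592 (merge (leaf 3 557 593) (node 589 (merge (leaf 5 493 621) (node 624 (merge (leaf 0 589 625) (node 495 (merge (leaf 6 462 463) (leaf 4 495 559))))))))))))))))))))) (merge (node 525 (merge (node 493 (merge (leaf 3 492 492) (node 461 (merge (leaf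 4 429 429) (node 590 (merge (leaf 7 461 494) (leaf 7 493 622))))))) (merge (node 560 (merge (leaf 0 525 561) (node 524 (merge (leaf 0 524 559) (node 492 (merge (leaf 3 491 491) (leaf 3 492 493))))))) (merge (node 560 (merge (leaf 0 525 561) (node 524 (merge (leaf 0 524 559) (node 555 (merge (leaf 1 523 556) (node 523 (merge (leaf 1 522 554) (node 491 (merge (leaf 3 490 490) (leaf 3 491 492))))))))))) (node 560 (merge (leaf 0 525 561) (node 524 (merge (leaf 0 524 559) (node 555 (merge (leaf 1 523 556) (node 523 (merge (leaf 1 522 554) (node 494 (merge (leaf 2 491 495) (node 493 (merge (leaf 2 490 522) (node 590 (merge (leaf 7 461 461) (leaf 7 493 622))))))))))))))))))) (merge (node 560 (merge (node 561 (merge (leaf 0 525 525) (node 562 (merge (leaf 3 526 559) (leaf 3 527 563))))) (merge (node 525 (merge (leaf 0 525 561) (node 556 (merge (leaf 1 524 557) (node 524 (merge (leaf 1 523 555) (node 492 (merge (leaf 3 491 491) (leaf 3 492 493))))))))) (merge (node 559 (merge (node 561 (merge (leaf 3 526 562) (node 590 (merge (leaf 1 557 589) (node 622 (merge (leaf 6 494 495)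 (leaf 6 526 654))))))) (merge (node 557 (merge (leaf 2 524 556) (node 589 (merge (leaf 1 556 588) (node 561 (merge (leaf 1 557 590) (node 562 (merge (leaf 3 526 526) (leaf 3 527 563))))))))) (merge (node 557 (merge (leaf 2 524 556) (node 592 (merge (leaf 0 557 593) (node 624 (merge (leaf 7 495 495) (leaf 7 527 656))))))) (node 557 (merge (leaf 2 524 556) (node 592 (merge (leaf 0 557 593) (node 624 (merge (leaf 7 495 495) (leaf 7 527 656))))))))))) (node 557 (merge (node 556 (merge (leaf 1 524 525) (leaf 2 523 555))) (merge (node 556 (merge (leaf 2 523 555) (leaf 2 524 559))) (node 589 (merge (node 621 (merge (leaf 6 525 653) (node 494 (merge (leaf 5 461 462) (leaf 5 493 590))))) (merge (node 621 (merge (leaf 6 525 653) (node 525 (merge (leaf 6 493 494) (node 524 (merge (leaf 7 492 492) (node 523 (merge (leaf 0 522 522) (leaf 0 523 559))))))))) (merge (node 559 (merge (leaf 1 556 588) (node 592 (merge (leaf 0 557 593) (node 624 (merge (leaf 7 495 495) (leaf 7 527 656))))))) (node 559 (merge (leaf 1 556 588) (node 592 (merge (leaf 0 557 593) (node 624 (merge (leaf 7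 495 495) (leaf 7 527 656)))))))))))))))))) (node 494 (merge (node 493 (merge (node 492 (merge (leaf 0 491 491) (leaf 3 492 525))) (merge (node 492 (merge (leaf 0 491 491) (leaf 0 492 495))) (node 590 (merge (leaf 7 461 461) (node 622 (merge (leaf 6 494 495) (leaf 7 493 525)))))))) (merge (node 590 (merge (node 623 (merge (leaf 4 494 591) (node 622 (merge (leaf 6 494 495) (leaf 4 526 655))))) (merge (node 622 (merge (leaf 6 494 495) (node 621 (merge (leaf 5 493 589) (leaf 5 525 653))))) (node 591 (merge (leaf 4 494 623) (node 589 (merge (leaf 5 493 621) (node 557 (merge (leaf 5 461 462) (node 556 (merge (leaf 0 555 555) (leaf 3 556 592)))))))))))) (merge (node 462 (merge (node 431 (merge (leaf 6 430 463) (node 430 (merge (leaf 6 398 399) (node 429 (merge (leaf 7 397 397) (leaf 7 429 461))))))) (merge (node 557 (merge (leaf 5 461 589) (node 525 (merge (leaf 5 429 430) (leaf 1 524 556))))) (merge (node 557 (merge (leaf 5 461 589) (node 556 (merge (leaf 1 524 525) (leaf 2 523 555))))) (node 557 (merge (leaf 5 461 589) (node 430 (merge (leaf 5 429 525) (node 429 (merge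 (leaf 7 397 397) (leaf 7 429 461))))))))))) (node 461 (merge (node 429 (merge (leaf 7 429 462) (node 493 (merge (leaf 4 397 397) (leaf 7 461 590))))) (merge (node 462 (merge (leaf 7 429 429) (node 557 (merge (leaf 5 461 589) (node 525 (merge (leaf 5 429 430) (leaf 1 524 556))))))) (node 590 (merge (leaf 7 461 493) (node 623 (merge (leaf 4 494 591) (node 622 (merge (leaf 4 526 655) (node 621 (merge (leaf 5 493 589) (leaf 5 525 653)))))))))))))))))))))))))))))) nG_6 cG_6 11 (by decide +kernel)
def nG_7 : ℕ := 0x1800000000000000000000000000000000000000000000000000000000000000000000000000000000000000000000000000000000000000000000000000000000000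
def cG_7 : ℕ := 0x540000007c0000007c000001ff000001ff800000e7000001fb800000fc0000007c0000007c000000100000000000000000000000000000000000000000000000000000000000000000000000000000000000000000000
theorem lG_7 : S nG_7 cG_7 13 := S_of_chk [] trivial (node 529 (merge (node 530 (merge (node 563 (merge (leaf 0 527 562) (node 531 (merge (leaf 0 528 564) (node 559 (merge (leaf 1 526 558) (leaf 1 527 560))))))) (merge (node 563 (merge (leaf 0 527 562) (node 531 (merge (leaf 0 528 564) (node 499 (merge (leaf 2 495 498) (leaf 2 496 500))))))) (node 498 (merge (leaf 2 495 499) (node 526 (merge (leaf 2 494 497) (node 558 (merge (leaf 1 525 557) (leaf 1 526 559)))))))))) (merge (node 526 (merge (node 562 (merge (leaf 0 526 561) (node 530 (merge (leaf 0 527 563) (node 498 (merge (leaf 2 494 497) (leaf 2 495 499))))))) (merge (node 562 (merge (leaf 0 526 561) (node 530 (merge (leaf 0 527 563) (node 558 (merge (leaf 1 525 557) (leaf 1 526 559))))))) (node 497 (merge (leaf 2 494 498) (node 525 (merge (leaf 2 493 496) (node 557 (merge (leaf 1 524 556) (leaf 1 525 558)))))))))) (merge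 (node 530 (merge (node 499 (merge (leaf 2 495 498) (node 531 (merge (leaf 2 496 500) (node 559 (merge (leaf 1 526 558) (leaf 1 527 560))))))) (merge (node 563 (merge (leaf 0 527 562) (node 531 (merge (leaf 0 528 564) (node 559 (merge (leaf 1 526 558) (leaf 1 527 560))))))) (merge (node 563 (merge (leaf 0 527 562) (node 531 (merge (leaf 0 528 564) (node 499 (merge (leaf 2 495 498) (leaf 2 496 500))))))) (node 562 (merge (leaf 0 527 563) (node 561 (merge (leaf 0 526 526) (node 498 (merge (leaf 2 495 499) (node 593 (merge (leaf 5 465 466) (leaf 6 497 625))))))))))))) (merge (node 562 (merge (node 563 (merge (leaf 0 527 530) (node 561 (merge (leaf 3 527 560) (leaf 3 528 564))))) (merge (node 530 (merge (leaf 0 527 563) (node 498 (merge (leaf 2 495 499) (node 497 (merge (leaf 2 494 526) (node 594 (merge (leaf 7 465 465) (leaf 7 497 626))))))))) (node 526 (merge (leaf 0 526 561) (node 497 (merge (leaf 2 494 498) (node 525 (merge (leaf 2 493 496) (node 556 (merge (leaf 1 524 557) (node 524 (merge (leaf 1 523 555) (node 492 (merge (leaf 3 491 491) (leaf 3 492 493))))))))))))))))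 (merge (node 526 (merge (node 498 (merge (leaf 2 494 497) (node 530 (merge (leaf 2 495 499) (node 558 (merge (leaf 1 525 557) (leaf 1 526 559))))))) (merge (node 497 (merge (leaf 2 494 498) (node 525 (merge (leaf 2 493 496) (node 557 (merge (leaf 1 524 556) (leaf 1 525 558))))))) (merge (node 557 (merge (leaf 1 525 558) (node 525 (merge (leaf 1 524 556) (node 560 (merge (leaf 0 525 561) (node 524 (merge (leaf 0 524 559) (node 492 (merge (leaf 3 491 491) (leaf 3 492 493))))))))))) (merge (node 497 (merge (leaf 2 494 498) (node 525 (merge (leaf 2 493 496) (node 560 (merge (leaf 0 525 561) (node 524 (merge (leaf 0 524 559) (node 556 (merge (leaf 1 523 555) (leaf 1 524 557))))))))))) (node 497 (merge (leaf 2 494 498) (node 525 (merge (leaf 2 493 496) (node 560 (merge (leaf 0 525 561) (node 559 (merge (leaf 0 524 524) (node 530 (merge (leaf 1 527 531) (leaf 1 526 558)))))))))))))))) (merge (node 561 (merge (node 526 (merge (leaf 0 526 562) (node 525 (merge (leaf 0 525 560) (node 557 (merge (leaf 1 524 556) (leaf 1 525 558))))))) (merge (node 526 (merge (leaf 0 526 562)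 (node 497 (merge (leaf 2 494 498) (node 525 (merge (leaf 2 493 496) (node 557 (merge (leaf 1 524 556) (leaf 1 525 558))))))))) (merge (node 593 (merge (node 496 (merge (leaf 7 496 625) (node 464 (merge (leaf 4 432 432) (leaf 4 464 560))))) (merge (node 625 (merge (leaf 7 496 496) (node 624 (merge (leaf 5 528 656) (node 497 (merge (leaf 5 496 592) (node 498 (merge (leaf 6 465 466) (leaf 2 494 526))))))))) (merge (node 497 (merge (node 498 (merge (leaf 6 465 466) (node 496 (merge (leaf 7 464 464) (leaf 1 495 499))))) (merge (node 526 (merge (leaf 2 494 498) (node 525 (merge (leaf 2 493 496) (leaf 0 525 560))))) (node 592 (merge (leaf 5 496 624) (node 465 (merge (leaf 5 464 560) (node 434 (merge (leaf 6 433 466) (node 433 (merge (leaf 6 401 402) (node 432 (merge (leaf 7 400 400) (leaf 7 432 464)))))))))))))) (node 625 (merge (node 657 (merge (leaf 7 528 560) (node 658 (merge (leaf 4 529 626) (leaf 4 561 690))))) (merge (node 657 (merge (leaf 7 528 560) (node 656 (merge (leaf 5 528 624) (leaf 5 560 688))))) (node 626 (merge (leaf 4 529 658) (node 497 (merge (leaf 4 497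 594) (node 624 (merge (leaf 5 496 592) (leaf 5 528 656)))))))))))))) (node 593 (merge (node 496 (merge (leaf 7 496 625) (node 497 (merge (leaf 7 464 464) (node 498 (merge (leaf 6 465 466) (leaf 1 495 499))))))) (merge (node 625 (merge (leaf 7 496 496) (node 657 (merge (leaf 7 528 560) (node 658 (merge (leaf 4 529 626) (leaf 4 561 690))))))) (merge (node 625 (merge (node 657 (merge (leaf 7 528 560) (node 658 (merge (leaf 4 529 626) (leaf 4 561 690))))) (merge (node 657 (merge (leaf 7 528 560) (node 656 (merge (leaf 5 528 624) (leaf 5 560 688))))) (node 626 (merge (leaf 4 529 658) (node 497 (merge (leaf 4 497 594) (node 624 (merge (leaf 5 496 592) (leaf 5 528 656)))))))))) (node 497 (merge (node 498 (merge (leaf 6 465 466) (node 496 (merge (leaf 7 464 464) (leaf 1 495 499))))) (merge (node 592 (merge (leaf 5 496 624) (node 465 (merge (leaf 5 464 560) (node 434 (merge (leaf 6 433 466) (node 433 (merge (leaf 6 401 402) (node 432 (merge (leaf 7 400 400) (leaf 7 432 464))))))))))) (merge (node 594 (merge (leaf 4 497 626) (node 465 (merge (leaf 4 465 562) (node 592 (merge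 (leaf 5 464 560) (leaf 5 496 624))))))) (node 592 (merge (leaf 5 496 624) (node 560 (merge (leaf 5 464 465) (node 496 (merge (leaf 4 464 464) (node 591 (merge (leaf 5 495 623) (node 590 (merge (leaf 2 558 562) (leaf 2 557 589))))))))))))))))))))))) (merge (node 561 (merge (node 562 (merge (leaf 0 526 526) (node 563 (merge (leaf 0 527 530) (leaf 3 528 564))))) (merge (node 526 (merge (leaf 0 526 562) (node 525 (merge (leaf 0 525 560) (node 557 (merge (leaf 1 524 556) (leaf 1 525 558))))))) (merge (node 593 (merge (node 625 (merge (leaf 7 496 496) (node 658 (merge (leaf 4 529 626) (node 657 (merge (leaf 4 561 690) (node 656 (merge (leaf 5 528 624) (leaf 5 560 688))))))))) (merge (node 625 (merge (node 657 (merge (leaf 7 528 560) (node 658 (merge (leaf 4 529 626) (leaf 4 561 690))))) (merge (node 657 (merge (leaf 7 528 560) (node 656 (merge (leaf 5 528 624) (leaf 5 560 688))))) (node 626 (merge (leaf 4 529 658) (node 497 (merge (leaf 4 497 594) (node 624 (merge (leaf 5 496 592) (leaf 5 528 656)))))))))) (node 526 (merge (node 525 (merge (leaf 0 525 560) (node 557 (merge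 (leaf 1 524 556) (leaf 1 525 558))))) (merge (node 558 (merge (leaf 1 525 557) (node 559 (merge (leaf 1 526 530) (node 560 (merge (leaf 0 558 594) (node 590 (merge (leaf 1 557 589) (node 622 (merge (leaf 6 494 495) (leaf 6 526 654))))))))))) (merge (node 525 (merge (leaf 0 525 560) (node 556 (merge (leaf 1 524 557) (node 524 (merge (leaf 1 523 555) (node 496 (merge (leaf 2 492 495) (leaf 2 493 497))))))))) (merge (node 525 (merge (leaf 0 525 560) (node 496 (merge (leaf 2 493 497) (node 495 (merge (leaf 2 492 524) (node 530 (merge (leaf 3 495 531) (node 559 (merge (leaf 1 526 558) (node 464 (merge (leaf 4 432 432) (leaf 6 463 591))))))))))))) (node 557 (merge (leaf 1 525 558) (node 525 (merge (leaf 1 524 556) (node 496 (merge (leaf 2 493 497) (node 524 (merge (leaf 2 492 495) (node 492 (merge (leaf 3 491 491) (leaf 3 492 493))))))))))))))))))) (node 593 (merge (node 496 (merge (leaf 7 496 625) (node 464 (merge (leaf 4 432 432) (leaf 4 464 560))))) (merge (node 625 (merge (leaf 7 496 496) (node 658 (merge (leaf 4 529 626) (node 657 (merge (leaf 4 561 690) (node 656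 (merge (leaf 5 528 624) (leaf 5 560 688))))))))) (merge (node 625 (merge (node 657 (merge (leaf 7 528 560) (node 658 (merge (leaf 4 529 626) (leaf 4 561 690))))) (merge (node 657 (merge (leaf 7 528 560) (node 656 (merge (leaf 5 528 624) (leaf 5 560 688))))) (node 626 (merge (leaf 4 529 658) (node 497 (merge (leaf 4 497 594) (node 624 (merge (leaf 5 496 592) (leaf 5 528 656)))))))))) (node 592 (merge (node 624 (merge (leaf 5 496 497) (node 560 (merge (leaf 7 495 495) (leaf 6 528 656))))) (merge (node 497 (merge (leaf 5 496 624) (node 594 (merge (leaf 4 497 626) (node 465 (merge (leaf 4 465 562) (node 434 (merge (leaf 6 433 466) (node 433 (merge (leaf 6 401 402) (node 496 (merge (leaf 5 400 401) (leaf 7 464 464))))))))))))) (merge (node 560 (merge (node 624 (merge (leaf 7 495 495) (leaf 6 528 656))) (merge (node 496 (merge (leaf 4 464 464) (node 591 (merge (leaf 5 495 623) (node 590 (merge (leaf 2 558 562) (leaf 2 557 589))))))) (node 496 (merge (leaf 4 464 464) (node 591 (merge (leaf 5 495 623) (node 590 (merge (leaf 2 558 562) (leaf 2 557 589)))))))))) (node 560 (merge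 (node 497 (merge (leaf 5 464 465) (node 594 (merge (leaf 4 497 626) (node 595 (merge (leaf 3 559 559) (leaf 3 560 596))))))) (merge (node 496 (merge (leaf 4 464 464) (node 591 (merge (leaf 5 495 623) (node 590 (merge (leaf 2 558 562) (leaf 2 557 589))))))) (node 497 (merge (leaf 5 464 465) (node 594 (merge (leaf 4 497 626) (node 559 (merge (leaf 0 558 558) (leaf 3 559 595)))))))))))))))))))))) (node 559 (merge (node 558 (merge (leaf 1 526 530) (node 557 (merge (leaf 2 524 556) (leaf 2 525 560))))) (merge (node 530 (merge (leaf 1 526 558) (node 563 (merge (leaf 0 527 562) (node 531 (merge (leaf 0 528 564) (node 499 (merge (leaf 2 495 498) (leaf 2 496 500))))))))) (merge (node 591 (merge (node 496 (merge (leaf 6 495 623) (node 464 (merge (leaf 5 431 432) (leaf 5 463 560))))) (merge (node 623 (merge (leaf 6 495 496) (node 656 (merge (leaf 4 527 624) (node 655 (merge (leaf 4 559 688) (node 654 (merge (leaf 5 526 622) (leaf 5 558 686))))))))) (merge (node 623 (merge (node 656 (merge (leaf 4 527 624) (node 655 (merge (leaf 6 527 560) (leaf 4 559 688))))) (merge (node 655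 (merge (leaf 6 527 560) (node 654 (merge (leaf 5 526 622) (leaf 5 558 686))))) (node 624 (merge (leaf 4 527 656) (node 495 (merge (leaf 4 495 592) (node 622 (merge (leaf 5 494 590) (leaf 5 526 654)))))))))) (node 495 (merge (node 592 (merge (leaf 4 495 624) (node 463 (merge (leaf 4 463 560) (node 496 (merge (leaf 6 463 464) (node 431 (merge (leaf 4 399 399) (node 430 (merge (leaf 7 398 398) (leaf 7 430 462))))))))))) (merge (node 592 (merge (leaf 4 495 624) (node 463 (merge (leaf 4 463 560) (node 432 (merge (leaf 6 431 464) (node 431 (merge (leaf 6 399 400) (node 430 (merge (leaf 7 398 398) (leaf 7 430 462))))))))))) (merge (node 590 (merge (leaf 5 494 622) (node 496 (merge (leaf 6 463 464) (node 530 (merge (leaf 3 495 531) (node 562 (merge (leaf 0 527 563) (node 561 (merge (leaf 1 558 560) (node 498 (merge (leaf 2 495 499) (node 593 (merge (leaf 5 465 466) (leaf 6 497 625))))))))))))))) (merge (node 592 (merge (leaf 4 495 624) (node 463 (merge (leaf 4 463 560) (node 430 (merge (leaf 7 430 462) (node 431 (merge (leaf 7 398 398) (node 399 (merge (leaf 4 399 496) (node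 400 (merge (leaf 6 367 368) (leaf 6 399 432))))))))))))) (node 592 (merge (leaf 4 495 624) (node 590 (merge (leaf 5 494 622) (node 496 (merge (leaf 6 463 464) (node 530 (merge (leaf 3 495 531) (node 562 (merge (leaf 0 527 563) (node 498 (merge (leaf 2 495 499) (node 593 (merge (leaf 2 558 561) (node 625 (merge (leaf 5 497 594) (leaf 0 590 626)))))))))))))))))))))))))) (node 591 (merge (node 496 (merge (leaf 6 495 623) (node 464 (merge (leaf 5 431 432) (leaf 5 463 560))))) (merge (node 623 (merge (leaf 6 495 496) (node 656 (merge (leaf 4 527 624) (node 655 (merge (leaf 4 559 688) (node 654 (merge (leaf 5 526 622) (leaf 5 558 686))))))))) (merge (node 623 (merge (node 656 (merge (leaf 4 527 624) (node 655 (merge (leaf 6 527 560) (leaf 4 559 688))))) (merge (node 655 (merge (leaf 6 527 560) (node 654 (merge (leaf 5 526 622) (leaf 5 558 686))))) (node 624 (merge (leaf 4 527 656) (node 495 (merge (leaf 4 495 592) (node 622 (merge (leaf 5 494 590) (leaf 5 526 654)))))))))) (node 592 (merge (node 495 (merge (leaf 4 495 624) (node 463 (merge (leaf 4 463 560) (node 590 (merge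 (leaf 5 462 558) (leaf 5 494 622))))))) (merge (node 560 (merge (node 624 (merge (leaf 6 496 497) (leaf 7 527 656))) (merge (node 496 (merge (leaf 5 463 464) (node 593 (merge (leaf 4 496 625) (node 594 (merge (leaf 3 558 558) (leaf 3 559 595))))))) (node 624 (merge (leaf 7 527 656) (node 558 (merge (leaf 2 525 557) (node 593 (merge (leaf 3 558 594) (node 625 (merge (leaf 4 496 496) (leaf 4 528 657)))))))))))) (merge (node 560 (merge (node 495 (merge (leaf 4 463 463) (node 590 (merge (leaf 5 494 622) (node 589 (merge (leaf 2 557 561) (leaf 2 556 588))))))) (node 496 (merge (leaf 5 463 464) (node 593 (merge (leaf 4 496 625) (node 594 (merge (leaf 3 558 558) (leaf 3 559 595))))))))) (merge (node 495 (merge (leaf 4 495 624) (node 560 (merge (leaf 4 463 463) (node 496 (merge (leaf 5 463 464) (node 593 (merge (leaf 4 496 625) (node 497 (merge (leaf 6 464 465) (node 498 (merge (leaf 1 495 499) (node 466 (merge (leaf 2 463 467) (leaf 6 465 561))))))))))))))) (node 495 (merge (leaf 4 495 624) (node 590 (merge (leaf 5 494 622) (node 463 (merge (leaf 5 462 558) (node 496 (merge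 (leaf 6 463 464) (node 431 (merge (leaf 4 399 399) (node 430 (merge (leaf 7 398 398) (leaf 7 430 462)))))))))))))))))))))))))))))))))) nG_7 cG_7 13 (by decide +kernel)
def nG_8 : ℕ := 0x1800000000000000000000000000000000000000000000000000000000000000000000000000000000000000000000000000000000000000000000000000000000000
def cG_8 : ℕ := 0x8000000380000007a000001fa000000fb800000e7000003ff800001ff000001ff00000038000000280000000000000000000000000000000000000000000000000000000000000000000000000000000000000000000
theorem lG_8 : S nG_8 cG_8 13 := S_of_chk [] trivial (node 496 (merge (node 526 (merge (node 525 (merge (leaf 2 493 497) (node 524 (merge (leaf 2 492 495) (node 556 (merge (leaf 1 523 555) (leaf 1 524 557))))))) (merge (node 525 (merge (leaf 2 493 497) (node 556 (merge (leaf 1 524 557) (node 524 (merge (leaf 1 523 555) (node 492 (merge (leaf 3 491 491) (leaf 3 492 493))))))))) (merge (node 525 (merge (node 524 (merge (leaf 2 492 495) (node 492 (merge (leaf 3 491 491) (leaf 3 492 493))))) (merge (node 524 (merge (leaf 2 492 495) (node 556 (merge (leaf 1 523 555) (leaf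 1 524 557))))) (node 557 (merge (leaf 1 524 556) (node 493 (merge (leaf 3 492 492) (node 494 (merge (leaf 3 493 529) (node 589 (merge (leaf 6 461 462) (leaf 6 493 621)))))))))))) (node 529 (merge (node 562 (merge (leaf 0 526 561) (node 530 (merge (leaf 0 527 563) (node 498 (merge (leaf 2 494 497) (leaf 2 495 499))))))) (merge (node 562 (merge (leaf 0 526 561) (node 530 (merge (leaf 0 527 563) (node 494 (merge (leaf 3 493 493) (leaf 3 494 495))))))) (merge (node 498 (merge (leaf 2 494 497) (node 530 (merge (leaf 2 495 499) (node 494 (merge (leaf 3 493 493) (leaf 3 494 495))))))) (node 561 (merge (leaf 0 526 562) (node 497 (merge (leaf 2 494 498) (node 593 (merge (leaf 7 464 464) (leaf 7 496 625))))))))))))))) (merge (node 464 (merge (node 559 (merge (leaf 5 431 432) (node 591 (merge (leaf 5 463 560) (leaf 6 495 623))))) (merge (node 432 (merge (leaf 5 431 559) (node 401 (merge (leaf 6 400 433) (node 400 (merge (leaf 6 368 369) (leaf 5 399 495))))))) (merge (node 560 (merge (node 433 (merge (leaf 6 432 465) (node 432 (merge (leaf 6 400 401) (node 431 (merge (leaf 7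 399 399) (leaf 7 431 463))))))) (merge (node 465 (merge (leaf 6 432 433) (node 592 (merge (leaf 6 464 497) (node 623 (merge (leaf 5 495 591) (node 624 (merge (leaf 7 495 495) (leaf 5 527 655))))))))) (merge (node 463 (merge (leaf 7 431 431) (node 592 (merge (leaf 7 463 495) (node 623 (merge (leaf 5 495 591) (node 624 (merge (leaf 5 527 655) (node 497 (merge (leaf 6 464 465) (leaf 6 496 529))))))))))) (node 431 (merge (leaf 7 431 463) (node 432 (merge (leaf 7 399 399) (node 401 (merge (leaf 6 400 433) (node 400 (merge (leaf 6 368 369) (leaf 5 399 495))))))))))))) (node 497 (merge (node 526 (merge (leaf 2 493 525) (node 498 (merge (leaf 1 495 499) (leaf 2 494 529))))) (merge (node 526 (merge (leaf 2 493 525) (node 498 (merge (leaf 1 494 495) (leaf 1 495 499))))) (node 560 (merge (node 592 (merge (leaf 6 464 465) (node 591 (merge (leaf 5 463 559) (leaf 5 495 623))))) (merge (node 592 (merge (leaf 6 464 465) (node 624 (merge (leaf 7 495 495) (leaf 6 496 529))))) (merge (node 591 (merge (leaf 5 463 559) (node 592 (merge (leaf 5 495 623) (node 625 (merge (leaf 4 496 593)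 (node 624 (merge (leaf 7 495 495) (leaf 4 528 657))))))))) (node 559 (merge (leaf 5 463 591) (node 465 (merge (leaf 6 432 433) (node 463 (merge (leaf 7 431 431) (node 462 (merge (leaf 0 461 461) (node 430 (merge (leaf 3 429 429) (leaf 7 430 495)))))))))))))))))))))) (merge (node 464 (merge (node 559 (merge (leaf 5 431 432) (node 591 (merge (leaf 5 463 560) (leaf 6 495 623))))) (merge (node 432 (merge (leaf 5 431 559) (node 401 (merge (leaf 6 400 433) (node 400 (merge (leaf 6 368 369) (leaf 5 399 495))))))) (merge (node 431 (merge (node 399 (merge (leaf 7 399 432) (node 463 (merge (leaf 4 367 367) (leaf 7 431 560))))) (merge (node 432 (merge (leaf 7 399 399) (node 401 (merge (leaf 6 400 433) (node 400 (merge (leaf 6 368 369) (leaf 5 399 495))))))) (node 560 (merge (leaf 7 431 463) (node 593 (merge (leaf 4 464 561) (node 592 (merge (leaf 4 496 625) (node 623 (merge (leaf 5 495 591) (node 624 (merge (leaf 7 495 495) (leaf 5 527 655)))))))))))))) (node 560 (merge (node 561 (merge (leaf 4 464 593) (node 562 (merge (leaf 3 527 563) (node 559 (merge (leaf 3 526 526) (leaf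 5 463 591))))))) (merge (node 593 (merge (leaf 4 464 561) (node 592 (merge (leaf 4 496 625) (node 463 (merge (leaf 7 431 431) (leaf 7 463 495))))))) (node 591 (merge (leaf 5 463 559) (node 463 (merge (leaf 7 431 431) (node 592 (merge (leaf 7 463 495) (leaf 5 495 623)))))))))))))) (merge (node 526 (merge (node 525 (merge (leaf 2 493 497) (node 560 (merge (leaf 0 525 561) (node 524 (merge (leaf 0 524 559) (node 556 (merge (leaf 1 523 555) (leaf 1 524 557))))))))) (merge (node 525 (merge (node 524 (merge (leaf 2 492 495) (node 492 (merge (leaf 3 491 491) (leaf 3 492 493))))) (merge (node 524 (merge (leaf 2 492 495) (node 556 (merge (leaf 1 523 555) (leaf 1 524 557))))) (node 557 (merge (leaf 1 524 556) (node 493 (merge (leaf 3 492 492) (node 494 (merge (leaf 3 493 529) (node 589 (merge (leaf 6 461 462) (leaf 6 493 621)))))))))))) (node 529 (merge (node 562 (merge (leaf 0 526 561) (node 530 (merge (leaf 0 527 563) (node 494 (merge (leaf 3 493 493) (leaf 3 494 495))))))) (merge (node 498 (merge (leaf 2 494 497) (node 530 (merge (leaf 2 495 499) (node 494 (merge (leaf 3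 493 493) (leaf 3 494 495))))))) (node 561 (merge (leaf 0 526 562) (node 497 (merge (leaf 2 494 498) (node 593 (merge (leaf 7 496 625) (node 594 (merge (leaf 4 497 626) (node 592 (merge (leaf 5 496 624) (node 560 (merge (leaf 5 464 465) (node 595 (merge (leaf 3 559 559) (leaf 3 560 596))))))))))))))))))))) (merge (node 464 (merge (node 559 (merge (leaf 5 431 432) (node 591 (merge (leaf 5 463 560) (leaf 6 495 623))))) (merge (node 432 (merge (leaf 5 431 559) (node 401 (merge (leaf 6 400 433) (node 400 (merge (leaf 6 368 369) (leaf 5 399 495))))))) (merge (node 433 (merge (node 432 (merge (leaf 6 400 401) (node 400 (merge (leaf 5 399 495) (node 399 (merge (leaf 7 367 367) (leaf 7 399 431))))))) (merge (node 465 (merge (leaf 6 432 560) (node 401 (merge (leaf 5 368 369) (leaf 5 400 497))))) (node 560 (merge (leaf 6 432 465) (node 593 (merge (leaf 4 464 561) (node 592 (merge (leaf 4 496 625) (node 463 (merge (leaf 7 431 431) (leaf 7 463 495)))))))))))) (node 560 (merge (node 465 (merge (leaf 6 432 433) (node 592 (merge (leaf 6 464 497) (node 463 (merge (leaf 7 431 431)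 (leaf 7 463 495))))))) (merge (node 593 (merge (leaf 4 464 561) (node 592 (merge (leaf 4 496 625) (node 591 (merge (leaf 5 463 559) (leaf 5 495 623))))))) (node 561 (merge (leaf 4 464 593) (node 562 (merge (leaf 3 527 563) (node 559 (merge (leaf 5 463 591) (node 594 (merge (leaf 0 559 595) (node 530 (merge (leaf 2 527 531) (node 465 (merge (leaf 6 432 433) (node 463 (merge (leaf 7 431 431) (node 498 (merge (leaf 7 465 497) (node 499 (merge (leaf 0 463 466) (leaf 6 466 467)))))))))))))))))))))))))) (merge (node 464 (merge (node 559 (merge (leaf 5 431 432) (node 591 (merge (leaf 5 463 560) (leaf 6 495 623))))) (merge (node 432 (merge (leaf 5 431 559) (node 401 (merge (leaf 6 400 433) (node 400 (merge (leaf 6 368 369) (leaf 5 399 495))))))) (merge (node 560 (merge (node 433 (merge (leaf 6 432 465) (node 432 (merge (leaf 6 400 401) (node 431 (merge (leaf 7 399 399) (leaf 7 431 463))))))) (merge (node 465 (merge (leaf 6 432 433) (node 592 (merge (leaf 6 464 497) (node 623 (merge (leaf 5 495 591) (node 624 (merge (leaf 7 495 495) (leaf 5 527 655))))))))) (merge (node 463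 (merge (leaf 7 431 431) (node 592 (merge (leaf 7 463 495) (node 623 (merge (leaf 5 495 591) (node 624 (merge (leaf 5 527 655) (node 497 (merge (leaf 6 464 465) (leaf 6 496 529))))))))))) (node 431 (merge (leaf 7 431 463) (node 432 (merge (leaf 7 399 399) (node 401 (merge (leaf 6 400 433) (node 400 (merge (leaf 6 368 369) (leaf 5 399 495))))))))))))) (node 526 (merge (node 525 (merge (leaf 2 493 497) (node 524 (merge (leaf 2 492 495) (node 556 (merge (leaf 1 523 555) (leaf 1 524 557))))))) (merge (node 525 (merge (leaf 2 493 497) (node 560 (merge (leaf 0 525 561) (node 524 (merge (leaf 0 524 559) (node 556 (merge (leaf 1 523 555) (leaf 1 524 557))))))))) (merge (node 525 (merge (node 524 (merge (leaf 2 492 495) (node 556 (merge (leaf 1 523 555) (leaf 1 524 557))))) (merge (node 560 (merge (leaf 0 525 561) (node 559 (merge (leaf 0 524 524) (node 591 (merge (leaf 5 463 464) (leaf 6 495 623))))))) (node 560 (merge (leaf 0 525 561) (node 591 (merge (leaf 5 463 559) (node 592 (merge (leaf 5 495 623) (node 463 (merge (leaf 7 431 431) (leaf 7 463 495)))))))))))) (node 494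 (merge (node 493 (merge (leaf 3 493 529) (node 495 (merge (leaf 2 461 465) (leaf 0 492 492))))) (merge (node 529 (merge (leaf 3 493 493) (node 498 (merge (leaf 2 494 497) (node 530 (merge (leaf 3 494 495) (leaf 2 495 499))))))) (merge (node 529 (merge (leaf 3 493 493) (node 562 (merge (leaf 0 526 561) (node 530 (merge (leaf 0 527 563) (node 497 (merge (leaf 2 494 498) (node 465 (merge (leaf 4 433 433) (node 560 (merge (leaf 6 464 592) (node 559 (merge (leaf 1 527 531) (leaf 5 463 591))))))))))))))) (merge (node 560 (merge (node 465 (merge (leaf 6 432 433) (node 493 (merge (leaf 2 461 495) (node 463 (merge (leaf 7 431 431) (leaf 1 461 462))))))) (merge (node 591 (merge (leaf 5 463 559) (node 463 (merge (leaf 7 431 431) (node 592 (merge (leaf 7 463 495) (leaf 5 495 623))))))) (merge (node 591 (merge (leaf 5 463 559) (node 592 (merge (leaf 5 495 623) (node 465 (merge (leaf 6 432 433) (leaf 6 464 497))))))) (node 465 (merge (leaf 6 432 433) (node 592 (merge (leaf 6 464 497) (node 624 (merge (leaf 7 495 495) (node 656 (merge (leaf 7 527 559) (node 655 (merge (leaf 5 527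 623) (leaf 5 559 687))))))))))))))) (node 560 (merge (node 591 (merge (leaf 5 463 559) (node 463 (merge (leaf 7 431 431) (node 592 (merge (leaf 7 463 495) (leaf 5 495 623))))))) (merge (node 591 (merge (leaf 5 463 559) (node 592 (merge (leaf 5 495 623) (node 465 (merge (leaf 6 432 433) (leaf 6 464 497))))))) (merge (node 465 (merge (leaf 6 432 433) (node 592 (merge (leaf 6 464 497) (node 624 (merge (leaf 7 495 495) (node 656 (merge (leaf 7 527 559) (node 655 (merge (leaf 5 527 623) (leaf 5 559 687))))))))))) (node 465 (merge (leaf 6 432 433) (node 463 (merge (leaf 7 431 431) (node 466 (merge (leaf 1 462 495) (node 498 (merge (leaf 0 463 499) (node 434 (merge (leaf 2 431 435) (node 529 (merge (leaf 2 494 497) (node 561 (merge (leaf 5 433 530) (leaf 0 526 562)))))))))))))))))))))))))))))))) (node 464 (merge (node 559 (merge (leaf 5 431 432) (node 591 (merge (leaf 5 463 560) (leaf 6 495 623))))) (merge (node 432 (merge (leaf 5 431 559) (node 401 (merge (leaf 6 400 433) (node 400 (merge (leaf 6 368 369) (node 399 (merge (leaf 7 367 367) (leaf 7 399 431))))))))) (merge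 (node 560 (merge (node 561 (merge (leaf 4 464 593) (node 562 (merge (leaf 3 527 563) (node 559 (merge (leaf 3 526 526) (leaf 5 463 591))))))) (merge (node 593 (merge (leaf 4 464 561) (node 465 (merge (leaf 6 432 433) (node 592 (merge (leaf 6 464 497) (leaf 4 496 625))))))) (node 465 (merge (leaf 6 432 433) (node 592 (merge (leaf 6 464 497) (node 591 (merge (leaf 5 463 559) (leaf 5 495 623)))))))))) (node 463 (merge (node 431 (merge (leaf 7 431 560) (node 399 (merge (leaf 4 367 367) (leaf 7 399 432))))) (merge (node 560 (merge (leaf 7 431 431) (node 593 (merge (leaf 4 464 561) (node 465 (merge (leaf 6 432 433) (node 592 (merge (leaf 6 464 497) (leaf 4 496 625))))))))) (merge (node 462 (merge (node 461 (merge (leaf 0 461 497) (node 432 (merge (leaf 2 429 433) (node 431 (merge (leaf 7 399 399) (leaf 2 428 460))))))) (merge (node 461 (merge (leaf 0 461 497) (node 493 (merge (leaf 1 460 492) (node 465 (merge (leaf 1 461 494) (node 429 (merge (leaf 3 428 428) (leaf 3 429 430))))))))) (merge (node 465 (merge (node 433 (merge (leaf 2 430 434) (node 401 (merge (leaf 5 368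 369) (leaf 5 400 497))))) (merge (node 498 (merge (leaf 0 462 497) (node 466 (merge (leaf 0 463 499) (node 430 (merge (leaf 3 429 429) (leaf 3 430 431))))))) (node 434 (merge (leaf 2 430 433) (node 466 (merge (leaf 2 431 435) (node 430 (merge (leaf 3 429 429) (leaf 3 430 431)))))))))) (node 433 (merge (node 432 (merge (leaf 6 400 401) (leaf 2 429 461))) (merge (node 465 (merge (leaf 2 430 434) (node 494 (merge (leaf 1 461 493) (node 430 (merge (leaf 3 429 429) (node 431 (merge (leaf 3 430 466) (node 399 (merge (leaf 4 367 367) (leaf 6 398 526))))))))))) (node 432 (merge (leaf 2 429 461) (node 434 (merge (leaf 1 430 431) (leaf 2 430 465)))))))))))) (node 465 (merge (node 433 (merge (leaf 6 432 560) (node 401 (merge (leaf 5 368 369) (leaf 5 400 497))))) (merge (node 433 (merge (leaf 6 432 560) (node 462 (merge (leaf 2 430 434) (node 432 (merge (leaf 6 400 401) (leaf 2 429 461))))))) (merge (node 462 (merge (node 433 (merge (leaf 2 430 434) (node 401 (merge (leaf 5 368 369) (leaf 5 400 497))))) (node 493 (merge (leaf 1 461 494) (node 461 (merge (leaf 1 460 492) (node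 429 (merge (leaf 3 428 428) (leaf 3 429 430))))))))) (node 466 (merge (node 499 (merge (leaf 0 463 498) (node 467 (merge (leaf 0 464 500) (node 435 (merge (leaf 2 431 434) (leaf 2 432 436))))))) (merge (node 498 (merge (leaf 0 463 499) (node 462 (merge (leaf 0 462 497) (node 493 (merge (leaf 1 461 494) (node 461 (merge (leaf 1 460 492) (node 429 (merge (leaf 3 428 428) (leaf 3 429 430))))))))))) (merge (node 435 (merge (leaf 2 431 434) (node 467 (merge (leaf 2 432 436) (node 500 (merge (leaf 0 464 499) (node 468 (merge (leaf 1 464 497) (leaf 0 465 501))))))))) (node 435 (merge (leaf 2 431 434) (node 467 (merge (leaf 2 432 436) (node 497 (merge (leaf 1 464 468) (node 462 (merge (leaf 0 461 461) (leaf 0 462 498)))))))))))))))))))))))))))))))) nG_8 cG_8 13 (by decide +kernel)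
def nG_9 : ℕ := 0x1800000000000000000000000000000000000000000000000000000000000000000000000000000000000000000000000000000000000000000000000000000000000
def cG_9 : ℕ := 0xa0000001e0000003f0000003f000001ffe00000e7c000003fe000000e0000000e0000000a000000000000000000000000000000000000000000000000000000000000000000000000000000000000000000000000000
theorem lG_9 : S nG_9 cG_9 11 := S_of_chk [] trivial (node 526 (merge (node 493 (merge (node 494 (merge (leaf 3 493 529) (node 492 (merge (leaf 0 491 491) (leaf 0 492 495))))) (merge (node 492 (merge (leaf 3 492 525) (node 494 (merge (leaf 0 491 491) (leaf 0 492 495))))) (merge (node 529 (merge (leaf 3 493 494) (node 561 (merge (leaf 0 526 562) (node 525 (merge (leaf 0 525 560) (node 557 (merge (leaf 1 524 556) (leaf 1 525 558))))))))) (node 525 (merge (leaf 3 492 492) (node 561 (merge (leaf 0 525 560) (node 529 (merge (leaf 0 526 562) (node 557 (merge (leaf 1 524 556) (leaf 1 525 558))))))))))))) (merge (node 525 (merge (node 560 (merge (leaf 0 525 561) (node 524 (merge (leaf 0 524 559) (node 492 (merge (leaf 3 491 491) (leaf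 3 492 493))))))) (merge (node 561 (merge (leaf 0 525 560) (node 529 (merge (leaf 0 526 562) (node 557 (merge (leaf 1 524 556) (leaf 1 525 558))))))) (node 556 (merge (leaf 1 524 557) (node 524 (merge (leaf 1 523 555) (node 492 (merge (leaf 3 491 491) (leaf 3 492 493)))))))))) (merge (node 525 (merge (node 561 (merge (leaf 0 525 560) (node 529 (merge (leaf 0 526 562) (node 493 (merge (leaf 3 492 492) (leaf 3 493 494))))))) (merge (node 560 (merge (leaf 0 525 561) (node 524 (merge (leaf 0 524 559) (node 492 (merge (leaf 3 491 491) (leaf 3 492 493))))))) (merge (node 492 (merge (leaf 3 492 493) (node 524 (merge (leaf 3 491 491) (node 495 (merge (leaf 2 492 496) (node 523 (merge (leaf 2 491 494) (node 555 (merge (leaf 1 522 554) (leaf 1 523 556))))))))))) (merge (node 560 (merge (leaf 0 525 561) (node 524 (merge (leaf 0 524 559) (node 555 (merge (leaf 1 523 556) (node 523 (merge (leaf 1 522 554) (node 491 (merge (leaf 3 490 490) (leaf 3 491 492))))))))))) (node 560 (merge (leaf 0 525 561) (node 524 (merge (leaf 0 524 559) (node 555 (merge (leaf 1 523 556) (node 523 (merge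 (leaf 1 522 554) (node 494 (merge (leaf 2 491 495) (node 493 (merge (leaf 2 490 522) (leaf 3 493 529)))))))))))))))))) (merge (node 557 (merge (node 556 (merge (leaf 1 524 525) (node 558 (merge (leaf 2 523 555) (leaf 2 524 559))))) (merge (node 525 (merge (leaf 1 524 556) (node 493 (merge (leaf 3 492 492) (node 494 (merge (leaf 3 493 529) (node 589 (merge (leaf 6 461 462) (leaf 6 493 621))))))))) (node 529 (merge (leaf 1 525 558) (node 562 (merge (leaf 0 526 561) (node 530 (merge (leaf 0 527 563) (node 494 (merge (leaf 3 493 493) (leaf 3 494 495)))))))))))) (merge (node 557 (merge (node 558 (merge (leaf 1 525 529) (node 556 (merge (leaf 2 523 555) (leaf 2 524 559))))) (merge (node 529 (merge (leaf 1 525 558) (node 562 (merge (leaf 0 526 561) (node 530 (merge (leaf 0 527 563) (node 494 (merge (leaf 3 493 493) (leaf 3 494 495))))))))) (node 525 (merge (leaf 1 524 556) (node 560 (merge (leaf 0 525 561) (node 524 (merge (leaf 0 524 559) (node 495 (merge (leaf 2 492 496) (node 523 (merge (leaf 2 491 494) (node 554 (merge (leaf 1 522 555) (node 522 (merge (leaf 1 521 553)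 (node 490 (merge (leaf 3 489 489) (leaf 3 490 491)))))))))))))))))))) (merge (node 525 (merge (node 496 (merge (leaf 2 493 497) (node 524 (merge (leaf 2 492 495) (node 492 (merge (leaf 3 491 491) (leaf 3 492 493))))))) (merge (node 556 (merge (leaf 1 524 557) (node 524 (merge (leaf 1 523 555) (node 492 (merge (leaf 3 491 491) (leaf 3 492 493))))))) (merge (node 496 (merge (leaf 2 493 497) (node 524 (merge (leaf 2 492 495) (node 556 (merge (leaf 1 523 555) (leaf 1 524 557))))))) (node 560 (merge (leaf 0 525 561) (node 496 (merge (leaf 2 493 497) (node 493 (merge (leaf 3 492 492) (node 529 (merge (leaf 3 493 494) (node 558 (merge (leaf 1 525 557) (node 530 (merge (leaf 1 526 559) (node 495 (merge (leaf 3 495 531) (node 463 (merge (leaf 4 431 431) (leaf 7 463 592))))))))))))))))))))) (merge (node 557 (merge (node 558 (merge (leaf 1 525 529) (node 556 (merge (leaf 2 523 555) (leaf 2 524 559))))) (merge (node 525 (merge (leaf 1 524 556) (node 560 (merge (leaf 0 525 561) (node 524 (merge (leaf 0 524 559) (node 496 (merge (leaf 2 492 495) (leaf 2 493 497))))))))) (node 529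 (merge (leaf 1 525 558) (node 561 (merge (leaf 0 526 562) (node 525 (merge (leaf 0 525 560) (node 496 (merge (leaf 2 493 497) (node 495 (merge (leaf 2 492 524) (node 530 (merge (leaf 3 494 494) (leaf 3 495 531)))))))))))))))) (merge (node 529 (merge (node 557 (merge (leaf 1 525 558) (node 525 (merge (leaf 1 524 556) (node 493 (merge (leaf 3 492 492) (leaf 3 493 494))))))) (merge (node 493 (merge (leaf 3 493 494) (node 525 (merge (leaf 3 492 492) (node 556 (merge (leaf 1 524 557) (node 524 (merge (leaf 1 523 555) (node 496 (merge (leaf 2 492 495) (leaf 2 493 497))))))))))) (merge (node 557 (merge (leaf 1 525 558) (node 525 (merge (leaf 1 524 556) (node 496 (merge (leaf 2 493 497) (node 524 (merge (leaf 2 492 495) (node 492 (merge (leaf 3 491 491) (leaf 3 492 493))))))))))) (merge (node 493 (merge (leaf 3 493 494) (node 525 (merge (leaf 3 492 492) (node 496 (merge (leaf 2 493 497) (node 524 (merge (leaf 2 492 495) (node 559 (merge (leaf 0 524 560) (node 523 (merge (leaf 0 523 558) (node 555 (merge (leaf 1 522 554) (leaf 1 523 556))))))))))))))) (node 558 (merge (leaf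 1 525 557) (node 530 (merge (leaf 1 526 559) (node 563 (merge (leaf 0 527 562) (node 531 (merge (leaf 0 528 564) (node 495 (merge (leaf 3 494 494) (leaf 3 495 496)))))))))))))))) (merge (node 558 (merge (node 529 (merge (leaf 1 525 557) (node 562 (merge (leaf 0 526 561) (node 530 (merge (leaf 1 526 559) (leaf 0 527 563))))))) (merge (node 529 (merge (leaf 1 525 557) (node 562 (merge (leaf 0 526 561) (node 530 (merge (leaf 0 527 563) (node 494 (merge (leaf 3 493 493) (leaf 3 494 495))))))))) (merge (node 590 (merge (node 495 (merge (leaf 6 494 622) (node 494 (merge (leaf 6 462 463) (node 493 (merge (leaf 7 461 461) (leaf 0 492 492))))))) (merge (node 622 (merge (leaf 6 494 495) (node 655 (merge (leaf 4 526 623) (node 654 (merge (leaf 6 526 559) (leaf 4 558 687))))))) (merge (node 622 (merge (node 655 (merge (leaf 4 526 623) (node 654 (merge (leaf 6 526 559) (leaf 4 558 687))))) (merge (node 654 (merge (leaf 6 526 559) (node 653 (merge (leaf 5 525 621) (leaf 5 557 685))))) (node 623 (merge (leaf 4 526 655) (node 494 (merge (leaf 4 494 591) (node 621 (merge (leaf 5 493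 589) (leaf 5 525 653)))))))))) (node 494 (merge (node 493 (merge (leaf 7 461 461) (node 492 (merge (leaf 0 491 491) (leaf 0 492 495))))) (node 589 (merge (leaf 5 493 621) (node 462 (merge (leaf 5 461 557) (node 559 (merge (leaf 4 430 430) (leaf 4 462 591))))))))))))) (node 590 (merge (node 495 (merge (leaf 6 494 622) (node 463 (merge (leaf 5 430 431) (leaf 5 462 559))))) (merge (node 622 (merge (leaf 6 494 495) (node 621 (merge (leaf 5 525 653) (node 494 (merge (leaf 5 493 589) (node 493 (merge (leaf 7 461 461) (leaf 3 493 529))))))))) (merge (node 622 (merge (node 655 (merge (leaf 4 526 623) (node 654 (merge (leaf 6 526 559) (leaf 4 558 687))))) (merge (node 654 (merge (leaf 6 526 559) (node 653 (merge (leaf 5 525 621) (leaf 5 557 685))))) (node 623 (merge (leaf 4 526 655) (node 494 (merge (leaf 4 494 591) (node 621 (merge (leaf 5 493 589) (leaf 5 525 653)))))))))) (node 494 (merge (node 493 (merge (leaf 7 461 461) (node 492 (merge (leaf 0 491 491) (leaf 0 492 495))))) (merge (node 529 (merge (leaf 3 493 493) (node 562 (merge (leaf 0 526 561) (node 530 (merge (leaf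 1 526 559) (leaf 0 527 563))))))) (node 591 (merge (leaf 4 494 623) (node 462 (merge (leaf 4 462 559) (node 431 (merge (leaf 6 430 463) (node 430 (merge (leaf 6 398 399) (node 429 (merge (leaf 7 397 397) (leaf 7 429 461)))))))))))))))))))))) (node 558 (merge (node 525 (merge (node 493 (merge (leaf 3 492 492) (node 461 (merge (leaf 4 429 429) (node 590 (merge (leaf 4 461 557) (leaf 7 493 622))))))) (merge (node 560 (merge (leaf 0 525 561) (node 524 (merge (leaf 0 524 559) (node 556 (merge (leaf 1 523 555) (leaf 1 524 557))))))) (node 560 (merge (leaf 0 525 561) (node 524 (merge (leaf 0 524 559) (node 492 (merge (leaf 3 491 491) (leaf 3 492 493)))))))))) (merge (node 590 (merge (node 495 (merge (leaf 6 494 622) (node 494 (merge (leaf 6 462 463) (node 493 (merge (leaf 7 461 461) (leaf 0 492 492))))))) (merge (node 622 (merge (leaf 6 494 495) (node 655 (merge (leaf 4 526 623) (node 654 (merge (leaf 6 526 559) (leaf 4 558 687))))))) (merge (node 622 (merge (node 655 (merge (leaf 4 526 623) (node 654 (merge (leaf 6 526 559) (leaf 4 558 687))))) (merge (node 654 (merge (leaf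 6 526 559) (node 653 (merge (leaf 5 525 621) (leaf 5 557 685))))) (node 623 (merge (leaf 4 526 655) (node 494 (merge (leaf 4 494 591) (node 621 (merge (leaf 5 493 589) (leaf 5 525 653)))))))))) (node 494 (merge (node 493 (merge (leaf 7 461 461) (node 492 (merge (leaf 0 491 491) (leaf 0 492 495))))) (node 589 (merge (leaf 5 493 621) (node 462 (merge (leaf 5 461 557) (node 559 (merge (leaf 4 430 430) (leaf 4 462 591))))))))))))) (merge (node 525 (merge (node 560 (merge (leaf 0 525 561) (node 524 (merge (leaf 0 524 559) (node 556 (merge (leaf 1 523 555) (leaf 1 524 557))))))) (merge (node 560 (merge (leaf 0 525 561) (node 524 (merge (leaf 0 524 559) (node 492 (merge (leaf 3 491 491) (leaf 3 492 493))))))) (merge (node 556 (merge (leaf 1 524 557) (node 524 (merge (leaf 1 523 555) (node 492 (merge (leaf 3 491 491) (leaf 3 492 493))))))) (node 560 (merge (leaf 0 525 561) (node 557 (merge (leaf 1 524 556) (node 493 (merge (leaf 3 492 492) (node 461 (merge (leaf 4 429 429) (node 462 (merge (leaf 6 429 430) (node 589 (merge (leaf 5 461 494) (node 588 (merge (leaf 1 556 559)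 (leaf 5 492 620))))))))))))))))))) (merge (node 557 (merge (node 556 (merge (leaf 1 524 525) (leaf 2 523 555))) (merge (node 556 (merge (leaf 2 523 555) (leaf 2 524 559))) (node 494 (merge (node 589 (merge (leaf 5 461 462) (node 621 (merge (leaf 5 493 590) (leaf 6 525 653))))) (merge (node 462 (merge (leaf 5 461 589) (node 431 (merge (leaf 6 430 463) (node 430 (merge (leaf 6 398 399) (node 429 (merge (leaf 7 397 397) (leaf 7 429 461))))))))) (merge (node 591 (merge (node 462 (merge (leaf 4 462 559) (node 431 (merge (leaf 6 430 463) (node 430 (merge (leaf 6 398 399) (node 429 (merge (leaf 7 397 397) (leaf 7 429 461))))))))) (node 590 (merge (leaf 4 494 623) (node 622 (merge (leaf 6 494 495) (node 654 (merge (leaf 7 525 525) (node 653 (merge (leaf 5 525 621) (leaf 5 557 685))))))))))) (node 590 (merge (node 622 (merge (leaf 6 494 495) (node 654 (merge (leaf 7 525 525) (leaf 6 526 559))))) (merge (node 623 (merge (leaf 4 494 591) (node 622 (merge (leaf 4 526 655) (node 621 (merge (leaf 5 493 589) (leaf 5 525 653))))))) (node 591 (merge (leaf 4 494 623) (node 592 (merge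 (leaf 3 557 593) (node 589 (merge (leaf 5 493 621) (node 624 (merge (leaf 0 589 625) (node 495 (merge (leaf 6 462 463) (leaf 4 495 559))))))))))))))))))))) (merge (node 525 (merge (node 493 (merge (leaf 3 492 492) (node 461 (merge (leaf 4 429 429) (node 590 (merge (leaf 7 461 494) (leaf 7 493 622))))))) (merge (node 560 (merge (leaf 0 525 561) (node 524 (merge (leaf 0 524 559) (node 492 (merge (leaf 3 491 491) (leaf 3 492 493))))))) (merge (node 560 (merge (leaf 0 525 561) (node 524 (merge (leaf 0 524 559) (node 555 (merge (leaf 1 523 556) (node 523 (merge (leaf 1 522 554) (node 491 (merge (leaf 3 490 490) (leaf 3 491 492))))))))))) (node 560 (merge (leaf 0 525 561) (node 524 (merge (leaf 0 524 559) (node 555 (merge (leaf 1 523 556) (node 523 (merge (leaf 1 522 554) (node 494 (merge (leaf 2 491 495) (node 493 (merge (leaf 2 490 522) (node 590 (merge (leaf 7 461 461) (leaf 7 493 622))))))))))))))))))) (merge (node 560 (merge (node 561 (merge (leaf 0 525 525) (node 562 (merge (leaf 3 526 559) (leaf 3 527 563))))) (merge (node 525 (merge (leaf 0 525 561) (node 556 (merge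 (leaf 1 524 557) (node 524 (merge (leaf 1 523 555) (node 492 (merge (leaf 3 491 491) (leaf 3 492 493))))))))) (merge (node 559 (merge (node 561 (merge (leaf 3 526 562) (node 590 (merge (leaf 1 557 589) (node 622 (merge (leaf 6 494 495) (leaf 6 526 654))))))) (merge (node 557 (merge (leaf 2 524 556) (node 589 (merge (leaf 1 556 588) (node 561 (merge (leaf 1 557 590) (node 562 (merge (leaf 3 526 526) (leaf 3 527 563))))))))) (merge (node 557 (merge (leaf 2 524 556) (node 592 (merge (leaf 0 557 593) (node 624 (merge (leaf 7 495 495) (leaf 7 527 656))))))) (node 557 (merge (leaf 2 524 556) (node 592 (merge (leaf 0 557 593) (node 624 (merge (leaf 7 495 495) (leaf 7 527 656))))))))))) (node 557 (merge (node 556 (merge (leaf 1 524 525) (leaf 2 523 555))) (merge (node 556 (merge (leaf 2 523 555) (leaf 2 524 559))) (node 589 (merge (node 621 (merge (leaf 6 525 653) (node 494 (merge (leaf 5 461 462) (leaf 5 493 590))))) (merge (node 621 (merge (leaf 6 525 653) (node 525 (merge (leaf 6 493 494) (node 524 (merge (leaf 7 492 492) (node 523 (merge (leaf 0 522 522) (leaf 0 523 559)))))))))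 (merge (node 559 (merge (leaf 1 556 588) (node 592 (merge (leaf 0 557 593) (node 624 (merge (leaf 7 495 495) (leaf 7 527 656))))))) (node 559 (merge (leaf 1 556 588) (node 592 (merge (leaf 0 557 593) (node 624 (merge (leaf 7 495 495) (leaf 7 527 656)))))))))))))))))) (node 494 (merge (node 493 (merge (node 492 (merge (leaf 0 491 491) (leaf 3 492 525))) (merge (node 492 (merge (leaf 0 491 491) (leaf 0 492 495))) (node 590 (merge (leaf 7 461 461) (node 622 (merge (leaf 6 494 495) (leaf 7 493 525)))))))) (merge (node 590 (merge (node 623 (merge (leaf 4 494 591) (node 622 (merge (leaf 6 494 495) (leaf 4 526 655))))) (merge (node 622 (merge (leaf 6 494 495) (node 621 (merge (leaf 5 493 589) (leaf 5 525 653))))) (node 591 (merge (leaf 4 494 623) (node 589 (merge (leaf 5 493 621) (node 557 (merge (leaf 5 461 462) (node 556 (merge (leaf 0 555 555) (leaf 3 556 592)))))))))))) (merge (node 462 (merge (node 431 (merge (leaf 6 430 463) (node 430 (merge (leaf 6 398 399) (node 429 (merge (leaf 7 397 397) (leaf 7 429 461))))))) (merge (node 557 (merge (leaf 5 461 589) (node 525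 (merge (leaf 5 429 430) (leaf 1 524 556))))) (merge (node 557 (merge (leaf 5 461 589) (node 556 (merge (leaf 1 524 525) (leaf 2 523 555))))) (node 557 (merge (leaf 5 461 589) (node 430 (merge (leaf 5 429 525) (node 429 (merge (leaf 7 397 397) (leaf 7 429 461))))))))))) (node 461 (merge (node 429 (merge (leaf 7 429 462) (node 493 (merge (leaf 4 397 397) (leaf 7 461 590))))) (merge (node 462 (merge (leaf 7 429 429) (node 557 (merge (leaf 5 461 589) (node 525 (merge (leaf 5 429 430) (leaf 1 524 556))))))) (node 590 (merge (leaf 7 461 493) (node 623 (merge (leaf 4 494 591) (node 622 (merge (leaf 4 526 655) (node 621 (merge (leaf 5 493 589) (leaf 5 525 653))))))))))))))))))))))))))))))))) nG_9 cG_9 11 (by decide +kernel)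
def nG_10 : ℕ := 0x1800000000000000000000000000000000000000000000000000000000000000000000000000000000000000000000000000000000000000000000000000000000000
def cG_10 : ℕ := 0x2a0000003e0000003e000000ff000001ffe00000e7c00001dfe000003e0000003e0000003a000000080000000000000000000000000000000000000000000000000000000000000000000000000000000000000000000
theorem lG_10 : S nG_10 cG_10 13 := S_of_chk [] trivial (node 526 (merge (node 493 (merge (node 494 (merge (leaf 3 493 529) (node 492 (merge (leaf 0 491 491) (leaf 0 492 495))))) (merge (node 492 (merge (leaf 3 492 525) (node 494 (merge (leaf 0 491 491) (leaf 0 492 495))))) (merge (node 529 (merge (leaf 3 493 494) (node 561 (merge (leaf 0 526 562) (node 525 (merge (leaf 0 525 560) (node 557 (merge (leaf 1 524 556) (leaf 1 525 558))))))))) (node 525 (merge (leaf 3 492 492) (node 561 (merge (leaf 0 525 560) (node 529 (merge (leaf 0 526 562) (node 557 (merge (leaf 1 524 556) (leaf 1 525 558))))))))))))) (merge (node 525 (merge (node 560 (merge (leaf 0 525 561) (node 524 (merge (leaf 0 524 559) (node 492 (merge (leaf 3 491 491)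 (leaf 3 492 493))))))) (merge (node 561 (merge (leaf 0 525 560) (node 529 (merge (leaf 0 526 562) (node 557 (merge (leaf 1 524 556) (leaf 1 525 558))))))) (node 556 (merge (leaf 1 524 557) (node 524 (merge (leaf 1 523 555) (node 492 (merge (leaf 3 491 491) (leaf 3 492 493)))))))))) (merge (node 525 (merge (node 561 (merge (leaf 0 525 560) (node 529 (merge (leaf 0 526 562) (node 493 (merge (leaf 3 492 492) (leaf 3 493 494))))))) (merge (node 560 (merge (leaf 0 525 561) (node 524 (merge (leaf 0 524 559) (node 492 (merge (leaf 3 491 491) (leaf 3 492 493))))))) (merge (node 492 (merge (leaf 3 492 493) (node 524 (merge (leaf 3 491 491) (node 495 (merge (leaf 2 492 496) (node 523 (merge (leaf 2 491 494) (node 555 (merge (leaf 1 522 554) (leaf 1 523 556))))))))))) (merge (node 560 (merge (leaf 0 525 561) (node 524 (merge (leaf 0 524 559) (node 555 (merge (leaf 1 523 556) (node 523 (merge (leaf 1 522 554) (node 491 (merge (leaf 3 490 490) (leaf 3 491 492))))))))))) (node 560 (merge (leaf 0 525 561) (node 524 (merge (leaf 0 524 559) (node 555 (merge (leaf 1 523 556) (node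 523 (merge (leaf 1 522 554) (node 494 (merge (leaf 2 491 495) (node 493 (merge (leaf 2 490 522) (leaf 3 493 529)))))))))))))))))) (merge (node 557 (merge (node 558 (merge (leaf 1 525 529) (node 556 (merge (leaf 2 523 555) (leaf 2 524 559))))) (merge (node 529 (merge (leaf 1 525 558) (node 562 (merge (leaf 0 526 561) (node 530 (merge (leaf 0 527 563) (node 499 (merge (leaf 2 495 498) (node 531 (merge (leaf 2 496 500) (node 495 (merge (leaf 3 494 494) (leaf 3 495 496))))))))))))) (node 525 (merge (leaf 1 524 556) (node 560 (merge (leaf 0 525 561) (node 524 (merge (leaf 0 524 559) (node 495 (merge (leaf 2 492 496) (node 523 (merge (leaf 2 491 494) (node 554 (merge (leaf 1 522 555) (node 522 (merge (leaf 1 521 553) (node 490 (merge (leaf 3 489 489) (leaf 3 490 491)))))))))))))))))))) (merge (node 557 (merge (node 556 (merge (leaf 1 524 525) (node 558 (merge (leaf 2 523 555) (leaf 2 524 559))))) (merge (node 525 (merge (leaf 1 524 556) (node 493 (merge (leaf 3 492 492) (node 494 (merge (leaf 3 493 529) (node 589 (merge (leaf 6 461 462) (leaf 6 493 621))))))))) (node 529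 (merge (leaf 1 525 558) (node 494 (merge (leaf 3 493 493) (node 530 (merge (leaf 3 494 495) (node 563 (merge (leaf 0 527 562) (node 531 (merge (leaf 0 528 564) (node 499 (merge (leaf 2 495 498) (leaf 2 496 500)))))))))))))))) (merge (node 558 (merge (node 529 (merge (leaf 1 525 557) (node 562 (merge (leaf 0 526 561) (node 530 (merge (leaf 1 526 559) (leaf 0 527 563))))))) (merge (node 529 (merge (leaf 1 525 557) (node 562 (merge (leaf 0 526 561) (node 530 (merge (leaf 0 527 563) (node 494 (merge (leaf 3 493 493) (leaf 3 494 495))))))))) (merge (node 590 (merge (node 495 (merge (leaf 6 494 622) (node 494 (merge (leaf 6 462 463) (node 493 (merge (leaf 7 461 461) (leaf 0 492 492))))))) (merge (node 622 (merge (leaf 6 494 495) (node 655 (merge (leaf 4 526 623) (node 654 (merge (leaf 6 526 559) (leaf 4 558 687))))))) (merge (node 622 (merge (node 655 (merge (leaf 4 526 623) (node 654 (merge (leaf 6 526 559) (leaf 4 558 687))))) (merge (node 654 (merge (leaf 6 526 559) (node 653 (merge (leaf 5 525 621) (leaf 5 557 685))))) (node 623 (merge (leaf 4 526 655) (node 494 (merge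 (leaf 4 494 591) (node 621 (merge (leaf 5 493 589) (leaf 5 525 653)))))))))) (node 494 (merge (node 493 (merge (leaf 7 461 461) (node 492 (merge (leaf 0 491 491) (leaf 0 492 495))))) (node 589 (merge (leaf 5 493 621) (node 462 (merge (leaf 5 461 557) (node 559 (merge (leaf 4 430 430) (leaf 4 462 591))))))))))))) (node 590 (merge (node 495 (merge (leaf 6 494 622) (node 463 (merge (leaf 5 430 431) (leaf 5 462 559))))) (merge (node 622 (merge (leaf 6 494 495) (node 621 (merge (leaf 5 525 653) (node 494 (merge (leaf 5 493 589) (node 493 (merge (leaf 7 461 461) (leaf 3 493 529))))))))) (merge (node 622 (merge (node 655 (merge (leaf 4 526 623) (node 654 (merge (leaf 6 526 559) (leaf 4 558 687))))) (merge (node 654 (merge (leaf 6 526 559) (node 653 (merge (leaf 5 525 621) (leaf 5 557 685))))) (node 623 (merge (leaf 4 526 655) (node 494 (merge (leaf 4 494 591) (node 621 (merge (leaf 5 493 589) (leaf 5 525 653)))))))))) (node 494 (merge (node 493 (merge (leaf 7 461 461) (node 492 (merge (leaf 0 491 491) (leaf 0 492 495))))) (merge (node 529 (merge (leaf 3 493 493) (node 562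 (merge (leaf 0 526 561) (node 530 (merge (leaf 1 526 559) (leaf 0 527 563))))))) (node 591 (merge (leaf 4 494 623) (node 462 (merge (leaf 4 462 559) (node 431 (merge (leaf 6 430 463) (node 430 (merge (leaf 6 398 399) (node 429 (merge (leaf 7 397 397) (leaf 7 429 461)))))))))))))))))))))) (merge (node 558 (merge (node 557 (merge (leaf 1 525 529) (node 556 (merge (leaf 1 524 525) (leaf 2 523 555))))) (merge (node 590 (merge (node 495 (merge (leaf 6 494 622) (node 494 (merge (leaf 6 462 463) (node 493 (merge (leaf 7 461 461) (leaf 0 492 492))))))) (merge (node 622 (merge (leaf 6 494 495) (node 655 (merge (leaf 4 526 623) (node 654 (merge (leaf 6 526 559) (leaf 4 558 687))))))) (merge (node 622 (merge (node 655 (merge (leaf 4 526 623) (node 654 (merge (leaf 6 526 559) (leaf 4 558 687))))) (merge (node 654 (merge (leaf 6 526 559) (node 653 (merge (leaf 5 525 621) (leaf 5 557 685))))) (node 623 (merge (leaf 4 526 655) (node 494 (merge (leaf 4 494 591) (node 621 (merge (leaf 5 493 589) (leaf 5 525 653)))))))))) (node 494 (merge (node 493 (merge (leaf 7 461 461) (node 492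 (merge (leaf 0 491 491) (leaf 0 492 495))))) (node 589 (merge (leaf 5 493 621) (node 462 (merge (leaf 5 461 557) (node 559 (merge (leaf 4 430 430) (leaf 4 462 591))))))))))))) (node 590 (merge (node 495 (merge (leaf 6 494 622) (node 463 (merge (leaf 5 430 431) (leaf 5 462 559))))) (merge (node 622 (merge (leaf 6 494 495) (node 621 (merge (leaf 5 525 653) (node 494 (merge (leaf 5 493 589) (node 493 (merge (leaf 7 461 461) (leaf 3 493 529))))))))) (merge (node 622 (merge (node 655 (merge (leaf 4 526 623) (node 654 (merge (leaf 6 526 559) (leaf 4 558 687))))) (merge (node 654 (merge (leaf 6 526 559) (node 653 (merge (leaf 5 525 621) (leaf 5 557 685))))) (node 623 (merge (leaf 4 526 655) (node 494 (merge (leaf 4 494 591) (node 621 (merge (leaf 5 493 589) (leaf 5 525 653)))))))))) (node 494 (merge (node 493 (merge (leaf 7 461 461) (node 492 (merge (leaf 0 491 491) (leaf 0 492 495))))) (merge (node 591 (merge (leaf 4 494 623) (node 462 (merge (leaf 4 462 559) (node 431 (merge (leaf 6 430 463) (node 430 (merge (leaf 6 398 399) (node 429 (merge (leaf 7 397 397) (leaf 7 429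 461))))))))))) (node 529 (merge (leaf 3 493 493) (node 530 (merge (leaf 3 494 495) (leaf 1 526 559))))))))))))))) (node 560 (merge (node 561 (merge (leaf 0 525 525) (node 562 (merge (leaf 3 526 559) (leaf 3 527 563))))) (merge (node 525 (merge (leaf 0 525 561) (node 556 (merge (leaf 1 524 557) (node 524 (merge (leaf 1 523 555) (node 492 (merge (leaf 3 491 491) (leaf 3 492 493))))))))) (merge (node 592 (merge (node 495 (merge (leaf 7 495 624) (node 463 (merge (leaf 4 431 431) (leaf 4 463 559))))) (merge (node 624 (merge (leaf 7 495 495) (node 657 (merge (leaf 4 528 625) (node 656 (merge (leaf 4 560 689) (node 655 (merge (leaf 5 527 623) (leaf 5 559 687))))))))) (merge (node 624 (merge (node 656 (merge (leaf 7 527 559) (node 657 (merge (leaf 4 528 625) (leaf 4 560 689))))) (merge (node 656 (merge (leaf 7 527 559) (node 655 (merge (leaf 5 527 623) (leaf 5 559 687))))) (node 625 (merge (leaf 4 528 657) (node 496 (merge (leaf 4 496 593) (node 623 (merge (leaf 5 495 591) (leaf 5 527 655)))))))))) (node 496 (merge (node 591 (merge (leaf 5 495 623) (node 464 (merge (leaf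 5 463 559) (node 433 (merge (leaf 6 432 465) (node 432 (merge (leaf 6 400 401) (node 431 (merge (leaf 7 399 399) (leaf 7 431 463))))))))))) (merge (node 593 (merge (leaf 4 496 625) (node 495 (merge (leaf 7 463 463) (node 525 (merge (leaf 2 492 524) (node 557 (merge (leaf 1 524 556) (node 558 (merge (leaf 0 557 559) (node 493 (merge (leaf 3 492 492) (node 590 (merge (leaf 4 461 461) (leaf 6 494 622))))))))))))))) (merge (node 593 (merge (leaf 4 496 625) (node 591 (merge (leaf 5 495 623) (node 495 (merge (leaf 7 463 463) (node 525 (merge (leaf 2 492 524) (node 557 (merge (leaf 1 524 556) (node 493 (merge (leaf 3 492 492) (node 590 (merge (leaf 3 557 558) (node 622 (merge (leaf 4 493 589) (leaf 1 589 621))))))))))))))))) (node 591 (merge (leaf 5 495 623) (node 464 (merge (leaf 5 463 559) (node 433 (merge (leaf 6 432 465) (node 432 (merge (leaf 6 400 401) (node 400 (merge (leaf 5 399 495) (node 399 (merge (leaf 7 367 367) (leaf 7 399 431))))))))))))))))))))) (node 592 (merge (node 495 (merge (leaf 7 495 624) (node 463 (merge (leaf 4 431 431) (leaf 4 463 559))))) (merge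 (node 624 (merge (leaf 7 495 495) (node 657 (merge (leaf 4 528 625) (node 656 (merge (leaf 4 560 689) (node 655 (merge (leaf 5 527 623) (leaf 5 559 687))))))))) (merge (node 624 (merge (node 656 (merge (leaf 7 527 559) (node 657 (merge (leaf 4 528 625) (leaf 4 560 689))))) (merge (node 656 (merge (leaf 7 527 559) (node 655 (merge (leaf 5 527 623) (leaf 5 559 687))))) (node 625 (merge (leaf 4 528 657) (node 496 (merge (leaf 4 496 593) (node 623 (merge (leaf 5 495 591) (leaf 5 527 655)))))))))) (node 591 (merge (node 623 (merge (leaf 5 495 496) (node 559 (merge (leaf 7 494 494) (leaf 6 527 655))))) (merge (node 496 (merge (leaf 5 495 623) (node 593 (merge (leaf 4 496 625) (node 464 (merge (leaf 4 464 561) (node 433 (merge (leaf 6 432 465) (node 432 (merge (leaf 6 400 401) (node 495 (merge (leaf 5 399 400) (leaf 7 463 463))))))))))))) (merge (node 559 (merge (node 623 (merge (leaf 7 494 494) (leaf 6 527 655))) (merge (node 495 (merge (leaf 4 463 463) (node 590 (merge (leaf 5 494 622) (node 589 (merge (leaf 2 557 561) (leaf 2 556 588))))))) (node 495 (merge (leaf 4 463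 463) (node 590 (merge (leaf 5 494 622) (node 589 (merge (leaf 2 557 561) (leaf 2 556 588)))))))))) (node 559 (merge (node 496 (merge (leaf 5 463 464) (node 593 (merge (leaf 4 496 625) (node 594 (merge (leaf 3 558 558) (leaf 3 559 595))))))) (merge (node 495 (merge (leaf 4 463 463) (node 590 (merge (leaf 5 494 622) (node 589 (merge (leaf 2 557 561) (leaf 2 556 588))))))) (node 496 (merge (leaf 5 463 464) (node 593 (merge (leaf 4 496 625) (node 558 (merge (leaf 0 557 557) (leaf 3 558 594)))))))))))))))))))))))))))))) nG_10 cG_10 13 (by decide +kernel)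
def nG_11 : ℕ := 0x1800000000000000000000000000000000000000000000000000000000000000000000000000000000000000000000000000000000000000000000000000000000000
def cG_11 : ℕ := 0x200000002a000000fe000000ff80000067000003f7e00001ffc00001ffc000003e0000002a0000000000000000000000000000000000000000000000000000000000000000000000000000000000000000000
theorem lG_11 : S nG_11 cG_11 13 := S_of_chk [] trivial (node 526 (merge (node 557 (merge (node 556 (merge (leaf 1 524 525) (node 558 (merge (leaf 2 523 555) (leaf 2 524 559))))) (merge (node 558 (merge (leaf 1 525 529) (node 556 (merge (leaf 2 523 555) (leaf 2 524 559))))) (merge (node 529 (merge (leaf 1 525 558) (node 561 (merge (leaf 0 526 562) (node 525 (merge (leaf 0 525 560) (node 493 (merge (leaf 3 492 492) (leaf 3 493 494))))))))) (node 525 (merge (leaf 1 524 556) (node 561 (merge (leaf 0 525 560) (node 529 (merge (leaf 0 526 562) (node 493 (merge (leaf 3 492 492) (leaf 3 493 494))))))))))))) (merge (node 529 (merge (node 562 (merge (leaf 0 526 561) (node 530 (merge (leaf 0 527 563) (node 498 (merge (leaf 2 494 497) (leaf 2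 495 499))))))) (merge (node 562 (merge (leaf 0 526 561) (node 530 (merge (leaf 0 527 563) (node 558 (merge (leaf 1 525 557) (leaf 1 526 559))))))) (node 497 (merge (leaf 2 494 498) (node 525 (merge (leaf 2 493 496) (node 557 (merge (leaf 1 524 556) (leaf 1 525 558)))))))))) (merge (node 525 (merge (node 497 (merge (leaf 2 493 496) (node 529 (merge (leaf 2 494 498) (node 557 (merge (leaf 1 524 556) (leaf 1 525 558))))))) (merge (node 556 (merge (leaf 1 524 557) (node 524 (merge (leaf 1 523 555) (node 492 (merge (leaf 3 491 491) (leaf 3 492 493))))))) (node 497 (merge (leaf 2 493 496) (node 529 (merge (leaf 2 494 498) (node 493 (merge (leaf 3 492 492) (leaf 3 493 494)))))))))) (merge (node 493 (merge (node 525 (merge (leaf 3 492 492) (node 561 (merge (leaf 0 525 560) (node 529 (merge (leaf 3 493 494) (leaf 0 526 562))))))) (merge (node 525 (merge (leaf 3 492 492) (node 497 (merge (leaf 2 493 496) (node 529 (merge (leaf 3 493 494) (leaf 2 494 498))))))) (merge (node 529 (merge (leaf 3 493 494) (node 562 (merge (leaf 0 526 561) (node 530 (merge (leaf 0 527 563) (node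 498 (merge (leaf 2 494 497) (leaf 2 495 499))))))))) (node 525 (merge (leaf 3 492 492) (node 560 (merge (leaf 0 525 561) (node 559 (merge (leaf 0 524 524) (node 496 (merge (leaf 2 493 497) (node 591 (merge (leaf 5 463 464) (leaf 6 495 623))))))))))))))) (merge (node 494 (merge (node 529 (merge (leaf 3 493 493) (node 558 (merge (leaf 1 525 557) (node 559 (merge (leaf 1 526 530) (node 591 (merge (leaf 4 462 462) (leaf 7 494 623))))))))) (merge (node 529 (merge (leaf 3 493 493) (node 562 (merge (leaf 0 526 561) (node 530 (merge (leaf 0 527 563) (node 498 (merge (leaf 2 494 497) (leaf 2 495 499))))))))) (merge (node 462 (merge (node 559 (merge (leaf 4 430 430) (node 591 (merge (leaf 4 462 558) (leaf 7 494 623))))) (merge (node 430 (merge (leaf 4 430 559) (node 399 (merge (leaf 6 398 431) (node 398 (merge (leaf 6 366 367) (node 397 (merge (leaf 7 365 365) (leaf 7 397 429))))))))) (merge (node 558 (merge (node 591 (merge (leaf 4 462 559) (node 590 (merge (leaf 4 494 623) (node 461 (merge (leaf 7 429 429) (leaf 7 461 493))))))) (merge (node 557 (merge (leaf 5 461 589) (node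 556 (merge (leaf 2 523 555) (leaf 2 524 559))))) (node 589 (merge (leaf 5 461 557) (node 590 (merge (leaf 5 493 621) (node 461 (merge (leaf 7 429 429) (leaf 7 461 493)))))))))) (node 463 (merge (node 431 (merge (leaf 6 430 558) (node 399 (merge (leaf 5 366 367) (leaf 6 398 430))))) (merge (node 558 (merge (leaf 6 430 431) (node 589 (merge (leaf 5 461 557) (node 590 (merge (leaf 5 493 621) (node 461 (merge (leaf 7 429 429) (leaf 7 461 493))))))))) (merge (node 464 (merge (node 465 (merge (leaf 1 461 493) (node 430 (merge (leaf 3 429 429) (node 431 (merge (leaf 6 398 399) (leaf 3 430 466))))))) (merge (node 465 (merge (leaf 1 461 493) (node 433 (merge (leaf 2 430 434) (node 432 (merge (leaf 2 429 461) (node 496 (merge (leaf 6 400 401) (leaf 6 432 560))))))))) (node 431 (merge (node 399 (merge (leaf 5 366 367) (leaf 6 398 430))) (merge (node 496 (merge (leaf 7 431 560) (node 432 (merge (leaf 7 399 399) (node 433 (merge (leaf 1 430 434) (leaf 2 429 461))))))) (node 496 (merge (leaf 7 431 560) (node 461 (merge (leaf 0 461 497) (node 460 (merge (leaf 2 428 432) (node 430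 (merge (leaf 2 427 459) (node 429 (merge (leaf 7 397 397) (leaf 0 428 428))))))))))))))))) (node 461 (merge (node 429 (merge (leaf 7 429 558) (node 464 (merge (leaf 3 428 428) (node 430 (merge (leaf 7 397 397) (leaf 3 429 465))))))) (merge (node 558 (merge (leaf 7 429 429) (node 589 (merge (leaf 5 461 557) (node 590 (merge (leaf 7 461 493) (leaf 5 493 621))))))) (merge (node 492 (merge (node 491 (merge (leaf 1 459 460) (leaf 0 491 493))) (merge (node 464 (merge (leaf 1 460 493) (node 496 (merge (leaf 0 461 497) (node 433 (merge (leaf 2 429 432) (node 465 (merge (leaf 2 430 434) (leaf 6 432 560))))))))) (node 460 (merge (leaf 1 459 491) (node 428 (merge (leaf 3 427 427) (node 464 (merge (leaf 3 428 429) (node 496 (merge (leaf 0 461 497) (node 433 (merge (leaf 2 429 432) (node 465 (merge (leaf 2 430 434) (leaf 6 432 560)))))))))))))))) (node 460 (merge (node 491 (merge (leaf 1 459 492) (node 459 (merge (leaf 1 458 490) (node 427 (merge (leaf 3 426 426) (leaf 3 427 428))))))) (merge (node 492 (merge (leaf 1 459 491) (node 464 (merge (leaf 1 460 493) (node 496 (merge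 (leaf 0 461 497) (node 433 (merge (leaf 2 429 432) (node 465 (merge (leaf 2 430 434) (leaf 6 432 560))))))))))) (merge (node 427 (merge (leaf 3 427 428) (node 459 (merge (leaf 3 426 426) (node 458 (merge (leaf 0 458 493) (node 490 (merge (leaf 1 457 489) (leaf 1 458 491))))))))) (node 427 (merge (leaf 3 427 428) (node 459 (merge (leaf 3 426 426) (node 493 (merge (leaf 0 458 458) (node 464 (merge (leaf 1 461 465) (leaf 1 460 492))))))))))))))))))))))))) (node 558 (merge (node 529 (merge (leaf 1 525 557) (node 562 (merge (leaf 0 526 561) (node 530 (merge (leaf 0 527 563) (node 498 (merge (leaf 2 494 497) (leaf 2 495 499))))))))) (merge (node 462 (merge (node 559 (merge (leaf 4 430 430) (leaf 4 462 591))) (merge (node 559 (merge (leaf 4 430 430) (leaf 4 462 591))) (merge (node 431 (merge (leaf 6 430 463) (node 430 (merge (leaf 6 398 399) (node 429 (merge (leaf 7 397 397) (leaf 7 429 461))))))) (node 559 (merge (leaf 4 462 591) (node 529 (merge (leaf 1 526 530) (node 561 (merge (leaf 0 526 562) (node 497 (merge (leaf 2 494 498) (node 463 (merge (leaf 6 430 431) (node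 461 (merge (leaf 7 429 429) (node 464 (merge (leaf 0 461 496) (node 432 (merge (leaf 2 429 433) (leaf 7 432 465))))))))))))))))))))) (node 591 (merge (node 623 (merge (leaf 7 494 559) (leaf 4 494 590))) (merge (node 590 (merge (leaf 4 494 623) (node 589 (merge (leaf 5 493 621) (node 557 (merge (leaf 5 461 462) (node 592 (merge (leaf 3 556 556) (leaf 3 557 593))))))))) (node 462 (merge (leaf 4 462 559) (node 431 (merge (leaf 6 430 463) (node 430 (merge (leaf 6 398 399) (node 429 (merge (leaf 7 397 397) (leaf 7 429 461))))))))))))))))))) (node 496 (merge (node 525 (merge (leaf 2 493 497) (node 556 (merge (leaf 1 524 557) (node 524 (merge (leaf 1 523 555) (node 492 (merge (leaf 3 491 491) (leaf 3 492 493))))))))) (merge (node 560 (merge (node 525 (merge (leaf 2 493 497) (leaf 0 525 561))) (merge (node 561 (merge (node 562 (merge (leaf 3 526 559) (leaf 3 527 563))) (node 593 (merge (leaf 4 464 464) (node 625 (merge (leaf 4 496 592) (leaf 7 528 657))))))) (node 497 (merge (leaf 2 493 525) (node 592 (merge (leaf 6 464 465) (node 593 (merge (leaf 4 496 625) (node 591 (merge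 (leaf 5 495 623) (node 559 (merge (leaf 5 463 464) (node 594 (merge (leaf 3 558 558) (leaf 3 559 595)))))))))))))))) (merge (node 560 (merge (node 525 (merge (leaf 0 525 561) (node 556 (merge (leaf 1 524 557) (node 524 (merge (leaf 1 523 555) (node 492 (merge (leaf 3 491 491) (leaf 3 492 493))))))))) (merge (node 561 (merge (node 562 (merge (leaf 3 526 559) (leaf 3 527 563))) (node 593 (merge (leaf 4 464 464) (node 625 (merge (leaf 4 496 592) (leaf 7 528 657))))))) (node 464 (merge (node 559 (merge (leaf 5 431 432) (leaf 5 463 591))) (merge (node 433 (merge (leaf 6 432 465) (node 432 (merge (leaf 6 400 401) (node 431 (merge (leaf 7 399 399) (leaf 7 431 463))))))) (node 559 (merge (leaf 5 463 591) (node 525 (merge (leaf 0 524 524) (node 557 (merge (leaf 1 524 556) (node 493 (merge (leaf 3 492 492) (node 465 (merge (leaf 6 432 433) (node 463 (merge (leaf 7 431 431) (node 462 (merge (leaf 1 461 494) (node 430 (merge (leaf 3 429 429) (leaf 6 429 461))))))))))))))))))))))) (node 464 (merge (node 559 (merge (leaf 5 431 432) (node 591 (merge (leaf 5 463 560) (leaf 6 495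 623))))) (merge (node 432 (merge (leaf 5 431 559) (node 401 (merge (leaf 6 400 433) (node 400 (merge (leaf 6 368 369) (node 399 (merge (leaf 7 367 367) (leaf 7 399 431))))))))) (merge (node 560 (merge (node 561 (merge (leaf 4 464 593) (node 562 (merge (leaf 3 527 563) (node 559 (merge (leaf 3 526 526) (leaf 5 463 591))))))) (merge (node 593 (merge (leaf 4 464 561) (node 465 (merge (leaf 6 432 433) (node 592 (merge (leaf 6 464 497) (leaf 4 496 625))))))) (node 465 (merge (leaf 6 432 433) (node 592 (merge (leaf 6 464 497) (node 591 (merge (leaf 5 463 559) (leaf 5 495 623)))))))))) (node 463 (merge (node 431 (merge (leaf 7 431 560) (node 399 (merge (leaf 4 367 367) (leaf 7 399 432))))) (merge (node 560 (merge (leaf 7 431 431) (node 593 (merge (leaf 4 464 561) (node 592 (merge (leaf 4 496 625) (node 465 (merge (leaf 6 432 433) (leaf 6 464 497))))))))) (merge (node 462 (merge (node 461 (merge (leaf 0 461 497) (node 432 (merge (leaf 2 429 433) (node 431 (merge (leaf 7 399 399) (leaf 2 428 460))))))) (merge (node 461 (merge (leaf 0 461 497) (node 429 (merge (leaf 3 428 428)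 (node 494 (merge (leaf 7 429 558) (node 397 (merge (leaf 4 365 365) (leaf 4 397 493))))))))) (merge (node 432 (merge (node 433 (merge (leaf 6 400 401) (node 431 (merge (leaf 7 399 399) (leaf 1 430 434))))) (merge (node 433 (merge (leaf 6 400 401) (node 434 (merge (leaf 1 431 435) (node 462 (merge (leaf 2 429 461) (leaf 2 430 465))))))) (node 431 (merge (leaf 7 399 399) (node 494 (merge (leaf 6 430 558) (node 465 (merge (leaf 1 461 493) (node 430 (merge (leaf 0 429 429) (leaf 3 430 466)))))))))))) (node 465 (merge (node 433 (merge (leaf 2 430 434) (node 401 (merge (leaf 5 368 369) (leaf 5 400 497))))) (merge (node 498 (merge (leaf 0 462 497) (node 466 (merge (leaf 0 463 499) (node 430 (merge (leaf 3 429 429) (leaf 3 430 431))))))) (node 434 (merge (leaf 2 430 433) (node 466 (merge (leaf 2 431 435) (node 430 (merge (leaf 3 429 429) (leaf 3 430 431)))))))))))))) (node 465 (merge (node 433 (merge (leaf 6 432 560) (node 401 (merge (leaf 5 368 369) (leaf 5 400 497))))) (merge (node 433 (merge (leaf 6 432 560) (node 462 (merge (leaf 2 430 434) (node 432 (merge (leaf 6 400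 401) (leaf 2 429 461))))))) (merge (node 462 (merge (node 433 (merge (leaf 2 430 434) (node 401 (merge (leaf 5 368 369) (leaf 5 400 497))))) (node 493 (merge (leaf 1 461 494) (node 461 (merge (leaf 1 460 492) (node 429 (merge (leaf 3 428 428) (leaf 3 429 430))))))))) (node 466 (merge (node 499 (merge (leaf 0 463 498) (node 467 (merge (leaf 0 464 500) (node 435 (merge (leaf 2 431 434) (leaf 2 432 436))))))) (merge (node 498 (merge (leaf 0 463 499) (node 462 (merge (leaf 0 462 497) (node 493 (merge (leaf 1 461 494) (node 461 (merge (leaf 1 460 492) (node 429 (merge (leaf 3 428 428) (leaf 3 429 430))))))))))) (merge (node 435 (merge (leaf 2 431 434) (node 467 (merge (leaf 2 432 436) (node 500 (merge (leaf 0 464 499) (node 468 (merge (leaf 1 464 497) (leaf 0 465 501))))))))) (node 435 (merge (leaf 2 431 434) (node 467 (merge (leaf 2 432 436) (node 497 (merge (leaf 1 464 468) (node 462 (merge (leaf 0 461 461) (leaf 0 462 498))))))))))))))))))))))))))))))))))) nG_11 cG_11 13 (by decide +kernel)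
def nG_12 : ℕ := 0x1800000000000000000000000000000000000000000000000000000000000000000000000000000000000000000000000000000000000000000000000000000000000
def cG_12 : ℕ := 0x20000000e0000000e0000000f0000003fc00000efc0000067800000ff8000001f0000001f0000000a000000000000000000000000000000000000000000000000000000000000000000000000000000000000000000000000000
theorem lG_12 : S nG_12 cG_12 11 := S_of_chk [] trivial (node 526 (merge (node 529 (merge (node 497 (merge (leaf 2 494 498) (node 525 (merge (leaf 2 493 496) (node 493 (merge (leaf 3 492 492) (leaf 3 493 494))))))) (merge (node 562 (merge (leaf 0 526 561) (node 530 (merge (leaf 0 527 563) (node 498 (merge (leaf 2 494 497) (leaf 2 495 499))))))) (node 562 (merge (leaf 0 526 561) (node 530 (merge (leaf 0 527 563) (node 494 (merge (leaf 3 493 493) (leaf 3 494 495)))))))))) (merge (node 529 (merge (node 562 (merge (leaf 0 526 561) (node 530 (merge (leaf 0 527 563) (node 498 (merge (leaf 2 494 497) (leaf 2 495 499))))))) (merge (node 562 (merge (leaf 0 526 561) (node 530 (merge (leaf 0 527 563) (node 558 (merge (leaf 1 525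 557) (leaf 1 526 559))))))) (node 497 (merge (leaf 2 494 498) (node 525 (merge (leaf 2 493 496) (node 557 (merge (leaf 1 524 556) (leaf 1 525 558)))))))))) (merge (node 558 (merge (node 529 (merge (leaf 1 525 557) (node 562 (merge (leaf 0 526 561) (node 530 (merge (leaf 1 526 559) (leaf 0 527 563))))))) (merge (node 529 (merge (leaf 1 525 557) (node 562 (merge (leaf 0 526 561) (node 530 (merge (leaf 0 527 563) (node 494 (merge (leaf 3 493 493) (leaf 3 494 495))))))))) (merge (node 590 (merge (node 495 (merge (leaf 6 494 622) (node 494 (merge (leaf 6 462 463) (node 493 (merge (leaf 7 461 461) (leaf 0 492 492))))))) (merge (node 622 (merge (leaf 6 494 495) (node 655 (merge (leaf 4 526 623) (node 654 (merge (leaf 6 526 559) (leaf 4 558 687))))))) (merge (node 622 (merge (node 655 (merge (leaf 4 526 623) (node 654 (merge (leaf 6 526 559) (leaf 4 558 687))))) (merge (node 654 (merge (leaf 6 526 559) (node 653 (merge (leaf 5 525 621) (leaf 5 557 685))))) (node 623 (merge (leaf 4 526 655) (node 494 (merge (leaf 4 494 591) (node 621 (merge (leaf 5 493 589) (leaf 5 525 653))))))))))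 (node 494 (merge (node 493 (merge (leaf 7 461 461) (node 492 (merge (leaf 0 491 491) (leaf 0 492 495))))) (node 589 (merge (leaf 5 493 621) (node 462 (merge (leaf 5 461 557) (node 559 (merge (leaf 4 430 430) (leaf 4 462 591))))))))))))) (node 590 (merge (node 495 (merge (leaf 6 494 622) (node 463 (merge (leaf 5 430 431) (leaf 5 462 559))))) (merge (node 622 (merge (leaf 6 494 495) (node 621 (merge (leaf 5 525 653) (node 494 (merge (leaf 5 493 589) (node 493 (merge (leaf 7 461 461) (leaf 3 493 529))))))))) (merge (node 622 (merge (node 655 (merge (leaf 4 526 623) (node 654 (merge (leaf 6 526 559) (leaf 4 558 687))))) (merge (node 654 (merge (leaf 6 526 559) (node 653 (merge (leaf 5 525 621) (leaf 5 557 685))))) (node 623 (merge (leaf 4 526 655) (node 494 (merge (leaf 4 494 591) (node 621 (merge (leaf 5 493 589) (leaf 5 525 653)))))))))) (node 494 (merge (node 493 (merge (leaf 7 461 461) (node 492 (merge (leaf 0 491 491) (leaf 0 492 495))))) (merge (node 529 (merge (leaf 3 493 493) (node 562 (merge (leaf 0 526 561) (node 530 (merge (leaf 1 526 559) (leaf 0 527 563)))))))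 (node 591 (merge (leaf 4 494 623) (node 462 (merge (leaf 4 462 559) (node 431 (merge (leaf 6 430 463) (node 430 (merge (leaf 6 398 399) (node 429 (merge (leaf 7 397 397) (leaf 7 429 461)))))))))))))))))))))) (node 558 (merge (node 525 (merge (node 493 (merge (leaf 3 492 492) (node 461 (merge (leaf 4 429 429) (node 590 (merge (leaf 4 461 557) (leaf 7 493 622))))))) (merge (node 496 (merge (leaf 2 493 497) (node 524 (merge (leaf 2 492 495) (node 556 (merge (leaf 1 523 555) (leaf 1 524 557))))))) (node 496 (merge (leaf 2 493 497) (node 524 (merge (leaf 2 492 495) (node 492 (merge (leaf 3 491 491) (leaf 3 492 493)))))))))) (merge (node 590 (merge (node 495 (merge (leaf 6 494 622) (node 494 (merge (leaf 6 462 463) (node 493 (merge (leaf 7 461 461) (leaf 0 492 492))))))) (merge (node 622 (merge (leaf 6 494 495) (node 655 (merge (leaf 4 526 623) (node 654 (merge (leaf 6 526 559) (leaf 4 558 687))))))) (merge (node 622 (merge (node 655 (merge (leaf 4 526 623) (node 654 (merge (leaf 6 526 559) (leaf 4 558 687))))) (merge (node 654 (merge (leaf 6 526 559) (node 653 (merge (leaf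 5 525 621) (leaf 5 557 685))))) (node 623 (merge (leaf 4 526 655) (node 494 (merge (leaf 4 494 591) (node 621 (merge (leaf 5 493 589) (leaf 5 525 653)))))))))) (node 494 (merge (node 493 (merge (leaf 7 461 461) (node 492 (merge (leaf 0 491 491) (leaf 0 492 495))))) (node 589 (merge (leaf 5 493 621) (node 462 (merge (leaf 5 461 557) (node 559 (merge (leaf 4 430 430) (leaf 4 462 591))))))))))))) (merge (node 525 (merge (node 496 (merge (leaf 2 493 497) (node 524 (merge (leaf 2 492 495) (node 492 (merge (leaf 3 491 491) (leaf 3 492 493))))))) (merge (node 556 (merge (leaf 1 524 557) (node 524 (merge (leaf 1 523 555) (node 492 (merge (leaf 3 491 491) (leaf 3 492 493))))))) (merge (node 496 (merge (leaf 2 493 497) (node 524 (merge (leaf 2 492 495) (node 556 (merge (leaf 1 523 555) (leaf 1 524 557))))))) (node 557 (merge (leaf 1 524 556) (node 496 (merge (leaf 2 493 497) (node 493 (merge (leaf 3 492 492) (node 461 (merge (leaf 4 429 429) (node 460 (merge (leaf 7 428 428) (node 495 (merge (leaf 3 460 494) (node 463 (merge (leaf 5 430 431) (leaf 0 460 462)))))))))))))))))))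 (merge (node 525 (merge (node 493 (merge (leaf 3 492 492) (node 461 (merge (leaf 4 429 429) (node 590 (merge (leaf 7 461 494) (leaf 7 493 622))))))) (node 496 (merge (leaf 2 493 497) (node 524 (merge (leaf 2 492 495) (node 523 (merge (leaf 0 523 559) (node 555 (merge (leaf 1 522 554) (leaf 1 523 556))))))))))) (merge (node 590 (merge (node 495 (merge (leaf 6 494 622) (node 463 (merge (leaf 5 430 431) (leaf 5 462 559))))) (merge (node 622 (merge (leaf 6 494 495) (node 655 (merge (leaf 4 526 623) (node 654 (merge (leaf 4 558 687) (node 653 (merge (leaf 5 525 621) (leaf 5 557 685))))))))) (merge (node 623 (merge (node 591 (merge (leaf 4 494 494) (node 655 (merge (leaf 4 526 622) (leaf 7 558 687))))) (merge (node 622 (merge (leaf 4 526 655) (node 654 (merge (leaf 6 526 559) (node 653 (merge (leaf 5 525 621) (leaf 5 557 685))))))) (node 494 (merge (leaf 4 494 591) (node 589 (merge (leaf 5 493 621) (node 462 (merge (leaf 5 461 557) (node 430 (merge (leaf 4 430 559) (node 431 (merge (leaf 6 398 399) (leaf 6 430 463)))))))))))))) (node 591 (merge (node 496 (merge (node 559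 (merge (leaf 6 495 623) (node 464 (merge (leaf 5 431 432) (leaf 6 463 495))))) (merge (node 497 (merge (leaf 2 493 525) (node 498 (merge (leaf 1 494 495) (leaf 1 495 499))))) (node 525 (merge (leaf 2 493 497) (node 556 (merge (leaf 1 524 557) (node 524 (merge (leaf 1 523 555) (node 559 (merge (leaf 0 523 523) (leaf 6 495 623)))))))))))) (merge (node 494 (merge (leaf 4 494 623) (node 589 (merge (leaf 5 493 621) (node 557 (merge (leaf 5 461 462) (node 592 (merge (leaf 3 556 556) (leaf 3 557 593))))))))) (merge (node 559 (merge (node 495 (merge (leaf 5 462 463) (node 496 (merge (leaf 6 463 464) (node 525 (merge (leaf 2 493 497) (leaf 2 492 524))))))) (node 556 (merge (leaf 2 524 557) (node 494 (merge (leaf 4 462 462) (node 589 (merge (leaf 5 493 621) (node 588 (merge (leaf 3 555 555) (leaf 2 555 587))))))))))) (node 623 (merge (leaf 4 494 494) (node 559 (merge (leaf 6 495 496) (leaf 7 526 655))))))))))))) (node 557 (merge (node 556 (merge (leaf 1 524 525) (leaf 2 523 555))) (merge (node 556 (merge (leaf 2 523 555) (leaf 2 524 559))) (node 494 (merge (node 589 (merge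 (leaf 5 461 462) (node 621 (merge (leaf 5 493 590) (leaf 6 525 653))))) (merge (node 462 (merge (leaf 5 461 589) (node 431 (merge (leaf 6 430 463) (node 430 (merge (leaf 6 398 399) (node 429 (merge (leaf 7 397 397) (leaf 7 429 461))))))))) (merge (node 591 (merge (node 623 (merge (leaf 7 494 559) (leaf 4 494 590))) (merge (node 462 (merge (leaf 4 462 559) (node 431 (merge (leaf 6 430 463) (node 430 (merge (leaf 6 398 399) (node 429 (merge (leaf 7 397 397) (leaf 7 429 461))))))))) (node 590 (merge (leaf 4 494 623) (node 493 (merge (leaf 7 461 461) (node 525 (merge (leaf 3 492 492) (leaf 7 493 622)))))))))) (node 590 (merge (node 623 (merge (leaf 4 494 591) (node 622 (merge (leaf 4 526 655) (node 621 (merge (leaf 5 493 589) (leaf 5 525 653))))))) (merge (node 493 (merge (leaf 7 461 461) (node 622 (merge (leaf 7 493 525) (node 653 (merge (leaf 5 525 621) (node 654 (merge (leaf 6 526 559) (leaf 5 557 685))))))))) (merge (node 589 (merge (leaf 5 493 621) (node 493 (merge (leaf 7 461 461) (node 525 (merge (leaf 3 492 492) (node 588 (merge (leaf 5 492 620) (node 587 (merge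 (leaf 2 555 559) (leaf 2 554 586))))))))))) (node 493 (merge (leaf 7 461 461) (node 622 (merge (leaf 7 493 525) (node 654 (merge (leaf 6 526 559) (node 686 (merge (leaf 7 557 589) (node 685 (merge (leaf 5 557 653) (leaf 5 589 717)))))))))))))))))))))))))))))))) nG_12 cG_12 11 (by decide +kernel)
def nG_13 : ℕ := 0x3800000000000000000000000000000000000000000000000000000000000000000000000000000000000000000000000000000000000000000000000000000000000
def cG_13 : ℕ := 0x50000000f0000000f8000001fe000001f0000000c0000001fc000000fc000000fc00000078000000700000001000000000000000000000000000000000000000000000000000000000000000000000000000000000000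
theorem lG_13 : S nG_13 cG_13 11 := S_of_chk [] trivial (node 498 (merge (node 499 (merge (leaf 2 495 530) (node 497 (merge (leaf 1 495 496) (leaf 1 496 500))))) (merge (node 530 (merge (leaf 2 495 499) (node 563 (merge (leaf 0 527 562) (node 531 (merge (leaf 0 528 564) (node 495 (merge (leaf 3 494 494) (leaf 3 495 496))))))))) (merge (node 561 (merge (node 530 (merge (leaf 2 495 499) (node 593 (merge (leaf 6 497 625) (node 466 (merge (leaf 5 433 434) (leaf 5 465 562))))))) (merge (node 562 (merge (node 563 (merge (leaf 0 527 530) (leaf 3 528 564))) (merge (node 563 (merge (leaf 3 527 560) (leaf 3 528 564))) (node 499 (merge (leaf 2 495 530) (node 497 (merge (leaf 1 496 500) (node 465 (merge (leaf 4 465 594) (node 560 (merge (leaf 5 432 433) (leaf 5 464 592)))))))))))) (merge (node 466 (merge (node 530 (merge (leaf 5 433 434) (node 562 (merge (leaf 0 527 563) (leaf 5 465 593))))) (merge (node 434 (merge (leaf 5 433 530) (node 497 (merge (leaf 5 401 402) (leaf 6 433 465))))) (merge (node 593 (merge (leaf 6 465 497) (node 562 (merge (leaf 5 465 530) (node 563 (merge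 (leaf 3 527 560) (leaf 3 528 564))))))) (node 497 (merge (leaf 6 465 593) (node 465 (merge (leaf 6 433 434) (node 560 (merge (leaf 5 432 433) (leaf 5 464 592))))))))))) (merge (node 530 (merge (leaf 2 495 499) (node 593 (merge (leaf 6 497 625) (node 497 (merge (leaf 6 465 466) (node 592 (merge (leaf 5 496 624) (node 465 (merge (leaf 5 464 560) (node 433 (merge (leaf 4 401 401) (node 432 (merge (leaf 7 400 400) (leaf 7 432 464))))))))))))))) (node 497 (merge (node 562 (merge (node 563 (merge (leaf 3 527 560) (leaf 3 528 564))) (node 594 (merge (leaf 4 465 465) (node 626 (merge (leaf 4 497 593) (leaf 7 529 658))))))) (merge (node 593 (merge (leaf 6 465 466) (node 624 (merge (leaf 5 496 592) (node 625 (merge (leaf 5 528 656) (node 657 (merge (leaf 7 528 560) (node 658 (merge (leaf 4 529 626) (leaf 4 561 690))))))))))) (merge (node 593 (merge (leaf 6 465 466) (node 594 (merge (leaf 4 497 626) (node 562 (merge (leaf 4 465 465) (node 563 (merge (leaf 3 528 564) (node 592 (merge (leaf 2 559 591) (leaf 5 496 624))))))))))) (node 465 (merge (node 560 (merge (leaf 5 432 433)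 (leaf 5 464 592))) (merge (node 499 (merge (leaf 1 496 500) (node 464 (merge (leaf 7 432 432) (node 463 (merge (leaf 0 462 462) (leaf 0 463 466))))))) (node 560 (merge (leaf 5 432 433) (leaf 5 464 592))))))))))))))) (merge (node 561 (merge (node 593 (merge (node 466 (merge (leaf 6 465 497) (node 530 (merge (leaf 5 433 434) (leaf 5 465 562))))) (node 496 (merge (leaf 7 496 625) (node 464 (merge (leaf 4 432 432) (leaf 4 464 560))))))) (merge (node 466 (merge (node 530 (merge (leaf 5 433 434) (node 562 (merge (leaf 0 527 563) (leaf 5 465 593))))) (merge (node 434 (merge (leaf 5 433 530) (node 497 (merge (leaf 5 401 402) (leaf 6 433 465))))) (merge (node 593 (merge (leaf 6 465 497) (node 562 (merge (leaf 5 465 530) (node 563 (merge (leaf 3 527 560) (leaf 3 528 564))))))) (node 497 (merge (leaf 6 465 593) (node 465 (merge (leaf 6 433 434) (node 560 (merge (leaf 5 432 433) (leaf 5 464 592))))))))))) (merge (node 593 (merge (node 496 (merge (leaf 7 496 625) (node 464 (merge (leaf 4 432 432) (leaf 4 464 560))))) (node 497 (merge (leaf 6 465 466) (node 594 (merge (leaf 4 497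 626) (node 562 (merge (leaf 4 465 465) (node 592 (merge (leaf 5 496 624) (node 563 (merge (leaf 1 560 564) (leaf 2 559 591))))))))))))) (merge (node 530 (merge (node 593 (merge (leaf 6 497 625) (node 466 (merge (leaf 5 433 434) (leaf 5 465 562))))) (merge (node 563 (merge (leaf 0 527 562) (node 531 (merge (leaf 0 528 564) (node 495 (merge (leaf 3 494 494) (leaf 3 495 496))))))) (merge (node 563 (merge (leaf 0 527 562) (node 531 (merge (leaf 0 528 564) (node 495 (merge (leaf 3 494 494) (leaf 3 495 496))))))) (node 495 (merge (leaf 3 494 494) (node 496 (merge (leaf 3 495 531) (node 464 (merge (leaf 4 432 432) (node 593 (merge (leaf 4 464 560) (leaf 6 497 625))))))))))))) (merge (node 593 (merge (node 496 (merge (leaf 7 496 625) (node 464 (merge (leaf 4 432 432) (leaf 4 464 560))))) (merge (node 625 (merge (leaf 6 497 530) (node 657 (merge (leaf 7 528 560) (node 656 (merge (leaf 5 528 624) (leaf 5 560 688))))))) (merge (node 625 (merge (leaf 7 496 496) (node 658 (merge (leaf 4 529 626) (node 657 (merge (leaf 4 561 690) (node 656 (merge (leaf 5 528 624) (leaf 5 560 688)))))))))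 (node 497 (merge (leaf 6 465 466) (node 592 (merge (leaf 5 496 624) (node 560 (merge (leaf 5 464 465) (node 496 (merge (leaf 4 464 464) (node 495 (merge (leaf 7 463 463) (node 530 (merge (leaf 0 494 494) (leaf 0 495 531))))))))))))))))) (merge (node 466 (merge (node 530 (merge (leaf 5 433 434) (node 593 (merge (leaf 5 465 562) (leaf 6 497 625))))) (merge (node 434 (merge (leaf 5 433 530) (node 497 (merge (leaf 5 401 402) (leaf 6 433 465))))) (node 593 (merge (leaf 6 465 497) (node 625 (merge (leaf 7 496 496) (node 658 (merge (leaf 4 529 626) (node 657 (merge (leaf 4 561 690) (node 656 (merge (leaf 5 528 624) (leaf 5 560 688)))))))))))))) (merge (node 593 (merge (node 625 (merge (leaf 7 496 496) (leaf 6 497 530))) (merge (node 496 (merge (leaf 7 496 625) (node 464 (merge (leaf 4 432 432) (leaf 4 464 560))))) (merge (node 625 (merge (leaf 6 497 530) (node 657 (merge (leaf 7 528 560) (node 656 (merge (leaf 5 528 624) (leaf 5 560 688))))))) (node 592 (merge (node 624 (merge (leaf 5 496 497) (node 560 (merge (leaf 7 495 495) (leaf 6 528 656))))) (merge (node 497 (merge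 (leaf 5 496 624) (node 594 (merge (leaf 4 497 626) (node 562 (merge (leaf 4 465 465) (node 563 (merge (leaf 0 527 530) (leaf 1 560 564))))))))) (merge (node 560 (merge (node 624 (merge (leaf 7 495 495) (leaf 6 528 656))) (merge (node 496 (merge (leaf 4 464 464) (node 591 (merge (leaf 5 495 623) (node 590 (merge (leaf 2 558 562) (leaf 2 557 589))))))) (node 496 (merge (leaf 4 464 464) (node 591 (merge (leaf 5 495 623) (node 590 (merge (leaf 2 558 562) (leaf 2 557 589)))))))))) (node 560 (merge (node 563 (merge (leaf 3 527 562) (node 497 (merge (leaf 5 464 465) (node 594 (merge (leaf 4 497 626) (node 595 (merge (leaf 2 560 564) (leaf 3 560 596))))))))) (merge (node 496 (merge (leaf 4 464 464) (node 591 (merge (leaf 5 495 623) (node 590 (merge (leaf 2 558 562) (leaf 2 557 589))))))) (node 496 (merge (leaf 4 464 464) (node 495 (merge (leaf 7 463 463) (node 530 (merge (leaf 3 494 494) (leaf 3 495 531)))))))))))))))))) (node 530 (merge (node 563 (merge (leaf 0 527 562) (node 531 (merge (leaf 0 528 564) (node 495 (merge (leaf 3 494 494) (leaf 3 495 496))))))) (merge (node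 562 (merge (leaf 0 527 563) (node 466 (merge (leaf 5 433 434) (node 465 (merge (leaf 7 433 433) (node 594 (merge (leaf 4 465 497) (node 626 (merge (leaf 7 529 658) (node 627 (merge (leaf 4 498 595) (leaf 4 530 659))))))))))))) (node 495 (merge (leaf 3 494 494) (node 496 (merge (leaf 3 495 531) (node 466 (merge (leaf 5 433 434) (node 497 (merge (leaf 2 463 467) (node 463 (merge (leaf 3 462 462) (node 431 (merge (leaf 4 399 399) (leaf 4 431 560)))))))))))))))))))))))) (node 497 (merge (node 499 (merge (leaf 1 495 496) (leaf 1 496 500))) (merge (node 465 (merge (node 433 (merge (leaf 5 432 560) (node 402 (merge (leaf 6 401 434) (node 401 (merge (leaf 6 369 370) (node 369 (merge (leaf 4 369 466) (node 368 (merge (leaf 7 336 336) (leaf 7 368 400))))))))))) (merge (node 560 (merge (leaf 5 432 433) (node 592 (merge (leaf 6 464 496) (leaf 5 464 561))))) (merge (node 433 (merge (leaf 5 432 560) (node 401 (merge (leaf 5 400 496) (node 402 (merge (leaf 6 369 370) (leaf 6 401 434))))))) (merge (node 433 (merge (node 432 (merge (leaf 7 400 400) (node 561 (merge (leaf 7 432 464)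 (node 594 (merge (leaf 4 465 562) (node 593 (merge (leaf 6 465 466) (leaf 4 497 626))))))))) (merge (node 401 (merge (leaf 5 400 496) (node 402 (merge (leaf 6 369 370) (leaf 6 401 434))))) (merge (node 496 (merge (leaf 5 400 401) (node 434 (merge (leaf 6 401 402) (node 561 (merge (leaf 6 433 466) (node 593 (merge (leaf 7 464 464) (leaf 7 496 625))))))))) (merge (node 434 (merge (leaf 6 401 402) (node 561 (merge (leaf 6 433 466) (node 594 (merge (leaf 4 465 562) (node 593 (merge (leaf 4 497 626) (node 624 (merge (leaf 5 496 592) (node 625 (merge (leaf 7 496 496) (leaf 5 528 656))))))))))))) (node 401 (merge (leaf 5 400 496) (node 402 (merge (leaf 6 369 370) (leaf 6 401 434)))))))))) (node 561 (merge (node 593 (merge (leaf 6 465 466) (node 594 (merge (leaf 4 497 626) (node 465 (merge (leaf 4 465 562) (node 592 (merge (leaf 5 464 560) (leaf 5 496 624))))))))) (merge (node 594 (merge (leaf 4 465 562) (node 593 (merge (leaf 4 497 626) (node 464 (merge (leaf 7 432 432) (leaf 7 464 496))))))) (node 466 (merge (leaf 6 433 434) (node 464 (merge (leaf 7 432 432) (node 463 (merge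 (leaf 0 462 462) (node 495 (merge (leaf 1 462 494) (node 496 (merge (leaf 1 463 467) (node 431 (merge (leaf 4 399 399) (leaf 3 430 430))))))))))))))))))))) (node 465 (merge (node 433 (merge (leaf 5 432 560) (node 402 (merge (leaf 6 401 434) (node 401 (merge (leaf 6 369 370) (node 369 (merge (leaf 4 369 466) (node 368 (merge (leaf 7 336 336) (leaf 7 368 400))))))))))) (merge (node 561 (merge (node 499 (merge (leaf 1 496 500) (node 464 (merge (leaf 7 432 432) (node 463 (merge (leaf 0 462 462) (leaf 0 463 466))))))) (merge (node 593 (merge (leaf 6 465 466) (node 594 (merge (leaf 4 497 626) (node 465 (merge (leaf 4 465 562) (node 592 (merge (leaf 5 464 560) (leaf 5 496 624))))))))) (node 562 (merge (leaf 4 465 594) (node 560 (merge (leaf 3 527 563) (leaf 5 464 592)))))))) (merge (node 464 (merge (node 463 (merge (leaf 0 462 462) (node 499 (merge (leaf 0 463 466) (leaf 1 496 500))))) (merge (node 561 (merge (leaf 7 432 432) (node 594 (merge (leaf 4 465 562) (node 593 (merge (leaf 6 465 466) (leaf 4 497 626))))))) (node 463 (merge (leaf 0 462 462) (node 432 (merge (leaf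 7 432 561) (node 433 (merge (leaf 7 400 400) (node 434 (merge (leaf 6 401 402) (leaf 1 431 435)))))))))))) (node 433 (merge (leaf 5 432 560) (node 434 (merge (leaf 6 401 402) (node 432 (merge (leaf 7 400 400) (node 464 (merge (leaf 7 432 561) (node 463 (merge (leaf 1 431 435) (leaf 0 462 462))))))))))))))))))))))) nG_13 cG_13 11 (by decide +kernel)
def nG_14 : ℕ := 0x1800000000000000000000000000000000000000000000000000000000000000000000000000000000000000000000000000000000000000000000000000000000000
def cG_14 : ℕ := 0x1000000030000000740000007c000001fc000001fe000001ff000000e4000001ff0000007e0000007400000050000000000000000000000000000000000000000000000000000000000000000000000000000000000000000000000000000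
theorem lG_14 : S nG_14 cG_14 12 := S_of_chk [] trivial (node 529 (merge (node 558 (merge (node 557 (merge (leaf 1 525 526) (node 559 (merge (leaf 2 524 556) (leaf 2 525 560))))) (merge (node 559 (merge (leaf 1 526 530) (node 557 (merge (leaf 2 524 556) (leaf 2 525 560))))) (merge (node 530 (merge (leaf 1 526 559) (node 498 (merge (leaf 2 495 499) (node 526 (merge (leaf 2 494 497) (node 494 (merge (leaf 3 493 493) (leaf 3 494 495))))))))) (node 526 (merge (leaf 1 525 557) (node 498 (merge (leaf 2 494 497) (node 530 (merge (leaf 2 495 499) (node 494 (merge (leaf 3 493 493) (leaf 3 494 495))))))))))))) (merge (node 530 (merge (node 499 (merge (leaf 2 495 498) (node 531 (merge (leaf 2 496 500) (node 559 (merge (leaf 1 526 558) (leaf 1 527 560))))))) (merge (node 562 (merge (leaf 0 527 563) (node 526 (merge (leaf 0 526 561) (node 498 (merge (leaf 2 494 497) (leaf 2 495 499))))))) (node 563 (merge (leaf 0 527 562) (node 531 (merge (leaf 0 528 564) (node 559 (merge (leaf 1 526 558) (leaf 1 527 560)))))))))) (merge (node 494 (merge (node 493 (merge (leaf 3 493 526) (node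 495 (merge (leaf 0 492 492) (leaf 0 493 496))))) (merge (node 526 (merge (leaf 3 493 493) (node 562 (merge (leaf 0 526 561) (node 530 (merge (leaf 0 527 563) (node 498 (merge (leaf 2 494 497) (leaf 2 495 499))))))))) (node 530 (merge (leaf 3 494 495) (node 563 (merge (leaf 0 527 562) (node 531 (merge (leaf 0 528 564) (node 499 (merge (leaf 2 495 498) (leaf 2 496 500)))))))))))) (merge (node 494 (merge (node 495 (merge (leaf 3 494 530) (node 493 (merge (leaf 0 492 492) (leaf 0 493 496))))) (merge (node 493 (merge (leaf 3 493 526) (node 495 (merge (leaf 0 492 492) (leaf 0 493 496))))) (merge (node 530 (merge (leaf 3 494 495) (node 562 (merge (leaf 0 527 563) (node 526 (merge (leaf 0 526 561) (node 558 (merge (leaf 1 525 557) (leaf 1 526 559))))))))) (node 526 (merge (leaf 3 493 493) (node 558 (merge (leaf 1 525 557) (node 559 (merge (leaf 1 526 530) (node 591 (merge (leaf 4 462 462) (leaf 7 494 623))))))))))))) (merge (node 559 (merge (node 530 (merge (leaf 1 526 558) (node 563 (merge (leaf 0 527 562) (node 531 (merge (leaf 0 528 564) (node 499 (merge (leaf 2 495 498)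 (leaf 2 496 500))))))))) (merge (node 495 (merge (node 530 (merge (leaf 3 494 494) (node 563 (merge (leaf 0 527 562) (node 531 (merge (leaf 0 528 564) (node 499 (merge (leaf 2 495 498) (leaf 2 496 500))))))))) (merge (node 591 (merge (node 494 (merge (leaf 7 462 462) (node 493 (merge (leaf 0 492 492) (leaf 0 493 496))))) (merge (node 624 (merge (leaf 4 495 592) (node 623 (merge (leaf 6 495 496) (leaf 4 527 656))))) (node 624 (merge (leaf 4 495 592) (node 623 (merge (leaf 4 527 656) (node 622 (merge (leaf 5 494 590) (leaf 5 526 654)))))))))) (node 592 (merge (node 560 (merge (leaf 4 463 463) (leaf 7 495 624))) (merge (node 591 (merge (leaf 4 495 624) (node 496 (merge (leaf 6 463 464) (leaf 6 495 623))))) (node 463 (merge (leaf 4 463 560) (node 464 (merge (leaf 6 431 432) (node 496 (merge (leaf 6 463 591) (node 462 (merge (leaf 7 430 430) (node 497 (merge (leaf 0 461 461) (leaf 3 462 498))))))))))))))))) (node 591 (merge (node 496 (merge (leaf 6 495 623) (node 464 (merge (leaf 5 431 432) (leaf 5 463 560))))) (merge (node 496 (merge (leaf 6 495 623) (node 495 (merge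 (leaf 6 463 464) (node 494 (merge (leaf 7 462 462) (leaf 0 493 493))))))) (merge (node 623 (merge (node 656 (merge (leaf 4 527 624) (node 655 (merge (leaf 6 527 560) (leaf 4 559 688))))) (merge (node 655 (merge (leaf 6 527 560) (node 654 (merge (leaf 5 526 622) (leaf 5 558 686))))) (node 624 (merge (leaf 4 527 656) (node 495 (merge (leaf 4 495 592) (node 622 (merge (leaf 5 494 590) (leaf 5 526 654)))))))))) (node 495 (merge (node 494 (merge (leaf 7 462 462) (node 493 (merge (leaf 0 492 492) (leaf 0 493 496))))) (merge (node 592 (merge (leaf 4 495 624) (node 463 (merge (leaf 4 463 560) (node 590 (merge (leaf 5 462 558) (leaf 5 494 622))))))) (node 592 (merge (node 560 (merge (leaf 4 463 463) (leaf 7 495 624))) (merge (node 624 (merge (leaf 7 495 560) (leaf 4 495 591))) (merge (node 463 (merge (leaf 4 463 560) (node 590 (merge (leaf 5 462 558) (node 591 (merge (leaf 5 494 622) (node 462 (merge (leaf 7 430 430) (leaf 7 462 494))))))))) (node 591 (merge (leaf 4 495 624) (node 590 (merge (leaf 5 494 622) (node 463 (merge (leaf 5 462 558) (node 462 (merge (leaf 7 430 430)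 (leaf 7 462 494))))))))))))))))))))))) (node 561 (merge (node 562 (merge (leaf 0 526 526) (node 563 (merge (leaf 3 527 560) (leaf 3 528 564))))) (merge (node 593 (merge (node 496 (merge (leaf 7 496 625) (node 464 (merge (leaf 4 432 432) (leaf 4 464 560))))) (merge (node 496 (merge (leaf 7 496 625) (node 497 (merge (leaf 7 464 464) (node 498 (merge (leaf 6 465 466) (leaf 1 495 499))))))) (merge (node 625 (merge (node 657 (merge (leaf 7 528 560) (node 658 (merge (leaf 4 529 626) (leaf 4 561 690))))) (merge (node 657 (merge (leaf 7 528 560) (node 656 (merge (leaf 5 528 624) (leaf 5 560 688))))) (node 626 (merge (leaf 4 529 658) (node 497 (merge (leaf 4 497 594) (node 624 (merge (leaf 5 496 592) (leaf 5 528 656)))))))))) (node 497 (merge (node 498 (merge (leaf 6 465 466) (leaf 2 494 526))) (node 594 (merge (leaf 4 497 626) (node 592 (merge (leaf 5 496 624) (node 560 (merge (leaf 5 464 465) (node 595 (merge (leaf 3 559 559) (leaf 3 560 596))))))))))))))) (merge (node 593 (merge (node 496 (merge (leaf 7 496 625) (node 497 (merge (leaf 7 464 464) (node 498 (merge (leaf 6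 465 466) (leaf 1 495 499))))))) (merge (node 625 (merge (leaf 7 496 496) (node 657 (merge (leaf 7 528 560) (node 658 (merge (leaf 4 529 626) (leaf 4 561 690))))))) (merge (node 625 (merge (node 657 (merge (leaf 7 528 560) (node 658 (merge (leaf 4 529 626) (leaf 4 561 690))))) (merge (node 657 (merge (leaf 7 528 560) (node 656 (merge (leaf 5 528 624) (leaf 5 560 688))))) (node 626 (merge (leaf 4 529 658) (node 497 (merge (leaf 4 497 594) (node 624 (merge (leaf 5 496 592) (leaf 5 528 656)))))))))) (node 497 (merge (node 498 (merge (leaf 6 465 466) (node 496 (merge (leaf 7 464 464) (leaf 1 495 499))))) (merge (node 592 (merge (leaf 5 496 624) (node 465 (merge (leaf 5 464 560) (node 434 (merge (leaf 6 433 466) (node 433 (merge (leaf 6 401 402) (node 432 (merge (leaf 7 400 400) (leaf 7 432 464))))))))))) (merge (node 594 (merge (leaf 4 497 626) (node 465 (merge (leaf 4 465 562) (node 592 (merge (leaf 5 464 560) (leaf 5 496 624))))))) (node 592 (merge (leaf 5 496 624) (node 560 (merge (leaf 5 464 465) (node 496 (merge (leaf 4 464 464) (node 591 (merge (leaf 5 495 623) (node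 590 (merge (leaf 2 558 562) (leaf 2 557 589))))))))))))))))))) (node 562 (merge (leaf 0 526 526) (node 593 (merge (node 625 (merge (leaf 7 496 496) (node 658 (merge (leaf 4 529 626) (node 657 (merge (leaf 4 561 690) (node 688 (merge (leaf 5 560 656) (node 689 (merge (leaf 6 561 594) (leaf 5 592 720))))))))))) (merge (node 625 (merge (leaf 7 496 496) (node 626 (merge (leaf 4 529 658) (node 624 (merge (leaf 5 528 656) (node 592 (merge (leaf 5 496 497) (node 591 (merge (leaf 0 590 590) (leaf 3 591 627))))))))))) (merge (node 625 (merge (leaf 7 496 496) (node 624 (merge (leaf 5 528 656) (node 497 (merge (leaf 5 496 592) (node 465 (merge (leaf 4 465 594) (node 466 (merge (leaf 6 433 434) (leaf 6 465 498))))))))))) (merge (node 592 (merge (node 497 (merge (leaf 5 496 624) (node 498 (merge (leaf 6 465 466) (node 496 (merge (leaf 7 464 464) (leaf 1 495 499))))))) (merge (node 591 (merge (leaf 2 558 590) (node 594 (merge (leaf 2 559 563) (node 623 (merge (leaf 1 590 622) (node 559 (merge (leaf 6 495 496) (leaf 3 558 558))))))))) (node 497 (merge (leaf 5 496 624) (node 594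 (merge (leaf 4 465 465) (leaf 4 497 626)))))))) (node 624 (merge (node 497 (merge (leaf 5 496 592) (node 594 (merge (leaf 4 465 465) (leaf 4 497 626))))) (merge (node 497 (merge (leaf 5 496 592) (node 465 (merge (leaf 4 465 594) (node 466 (merge (leaf 6 433 434) (leaf 6 465 498))))))) (merge (node 592 (merge (leaf 5 496 497) (node 625 (merge (leaf 5 528 656) (node 626 (merge (leaf 4 529 658) (node 627 (merge (leaf 3 591 591) (leaf 3 592 628))))))))) (merge (node 625 (merge (leaf 5 528 656) (node 626 (merge (leaf 4 529 658) (node 594 (merge (leaf 4 497 497) (node 623 (merge (leaf 2 591 595) (leaf 2 590 622))))))))) (node 625 (merge (leaf 5 528 656) (node 658 (merge (leaf 4 529 626) (node 657 (merge (leaf 4 561 690) (node 689 (merge (leaf 6 561 594) (node 721 (merge (leaf 7 592 592) (node 720 (merge (leaf 5 592 688) (leaf 5 624 752))))))))))))))))))))))))))))))))))) nG_14 cG_14 12 (by decide +kernel)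
def nG_15 : ℕ := 0x1800000008000000000000000000000000000000000000000000000000000000000000000000000000000000000000000000000000000000000000000000000000000
def cG_15 : ℕ := 0x88000000fc000001ff000000fe000000e0000000f7000000f7000000fc00000078000000000000000000000000000000000000000000000000000000000000000000000000000000000000000000000000000
theorem lG_15 : S nG_15 cG_15 12 := S_of_chk [] trivial (node 496 (merge (node 464 (merge (node 559 (merge (leaf 5 431 432) (leaf 6 463 591))) (merge (node 432 (merge (leaf 5 399 400) (node 529 (merge (leaf 4 432 561) (node 530 (merge (leaf 3 494 494) (leaf 3 495 531))))))) (node 560 (merge (node 591 (merge (leaf 6 463 559) (node 592 (merge (leaf 5 495 623) (leaf 7 495 624))))) (merge (node 593 (merge (leaf 4 464 561) (node 592 (merge (leaf 7 495 624) (leaf 4 496 625))))) (node 561 (merge (leaf 4 464 593) (node 562 (merge (leaf 3 527 563) (node 559 (merge (leaf 5 463 591) (node 530 (merge (leaf 2 527 531) (node 529 (merge (leaf 3 494 494) (leaf 1 526 558))))))))))))))))) (merge (node 464 (merge (node 432 (merge (leaf 5 399 400) (leaf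 5 431 559))) (merge (node 432 (merge (leaf 5 399 400) (node 433 (merge (leaf 6 400 401) (node 560 (merge (leaf 6 432 465) (node 593 (merge (leaf 4 464 561) (node 592 (merge (leaf 7 495 624) (leaf 4 496 625))))))))))) (node 560 (merge (node 593 (merge (leaf 4 464 561) (node 592 (merge (leaf 7 495 624) (leaf 4 496 625))))) (node 465 (merge (leaf 6 432 433) (node 466 (merge (leaf 1 463 467) (node 494 (merge (leaf 2 461 493) (leaf 2 462 497)))))))))))) (merge (node 494 (merge (node 529 (merge (leaf 0 493 493) (leaf 3 494 530))) (merge (node 493 (merge (leaf 0 492 492) (node 461 (merge (leaf 3 460 460) (node 497 (merge (leaf 3 461 462) (node 498 (merge (leaf 1 495 499) (node 466 (merge (leaf 2 462 465) (leaf 2 463 467))))))))))) (node 497 (merge (node 466 (merge (leaf 2 462 465) (node 498 (merge (leaf 2 463 467) (leaf 1 495 499))))) (merge (node 530 (merge (leaf 0 494 529) (node 498 (merge (leaf 1 495 499) (leaf 0 495 531))))) (node 465 (merge (leaf 2 462 466) (node 433 (merge (leaf 5 400 401) (node 560 (merge (leaf 5 432 529) (leaf 6 464 592))))))))))))) (merge (node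 432 (merge (node 464 (merge (leaf 5 399 400) (leaf 5 431 559))) (merge (node 464 (merge (leaf 5 399 400) (node 529 (merge (leaf 4 432 561) (node 530 (merge (leaf 3 494 494) (leaf 3 495 531))))))) (merge (node 464 (merge (leaf 5 431 559) (node 529 (merge (leaf 4 432 561) (node 530 (merge (leaf 3 494 494) (leaf 3 495 531))))))) (node 494 (merge (node 529 (merge (leaf 0 493 493) (leaf 3 494 530))) (merge (node 493 (merge (leaf 0 492 492) (node 461 (merge (leaf 3 460 460) (node 497 (merge (leaf 3 461 462) (node 498 (merge (leaf 1 495 499) (node 466 (merge (leaf 2 462 465) (leaf 2 463 467))))))))))) (node 497 (merge (node 466 (merge (leaf 2 462 465) (node 498 (merge (leaf 2 463 467) (leaf 1 495 499))))) (merge (node 530 (merge (leaf 0 494 529) (node 498 (merge (leaf 1 495 499) (leaf 0 495 531))))) (node 529 (merge (leaf 0 494 530) (node 465 (merge (leaf 2 462 466) (node 433 (merge (leaf 7 400 400) (leaf 5 400 401))))))))))))))))) (merge (node 494 (merge (node 529 (merge (leaf 0 493 493) (leaf 3 494 530))) (merge (node 493 (merge (leaf 0 492 492) (node 464 (merge (leaf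 2 461 465) (node 432 (merge (leaf 5 399 400) (leaf 5 431 559))))))) (node 497 (merge (node 466 (merge (leaf 2 462 465) (node 498 (merge (leaf 2 463 467) (leaf 1 495 499))))) (merge (node 498 (merge (leaf 1 495 499) (node 530 (merge (leaf 0 495 531) (node 529 (merge (leaf 0 494 494) (node 562 (merge (leaf 0 527 563) (node 594 (merge (leaf 7 465 465) (leaf 7 497 626))))))))))) (merge (node 498 (merge (leaf 1 495 499) (node 530 (merge (leaf 0 495 531) (node 529 (merge (leaf 0 494 494) (node 562 (merge (leaf 0 527 563) (node 466 (merge (leaf 2 463 467) (node 593 (merge (leaf 5 465 561) (node 594 (merge (leaf 5 497 625) (leaf 7 497 626))))))))))))))) (node 529 (merge (leaf 0 494 530) (node 465 (merge (leaf 2 462 466) (node 433 (merge (leaf 5 400 401) (leaf 5 432 560)))))))))))))) (merge (node 464 (merge (node 432 (merge (leaf 5 399 400) (node 529 (merge (leaf 4 432 561) (node 530 (merge (leaf 3 494 494) (leaf 3 495 531))))))) (merge (node 432 (merge (leaf 5 399 400) (node 433 (merge (leaf 6 400 401) (node 560 (merge (leaf 6 432 465) (node 593 (merge (leaf 4 464 561) (node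 592 (merge (leaf 7 495 624) (leaf 4 496 625))))))))))) (merge (node 465 (merge (node 494 (merge (leaf 2 461 493) (node 497 (merge (leaf 2 462 466) (node 530 (merge (leaf 0 494 529) (node 498 (merge (leaf 1 495 499) (leaf 0 495 531))))))))) (merge (node 560 (merge (leaf 6 432 433) (node 593 (merge (leaf 4 464 561) (node 592 (merge (leaf 4 496 625) (node 623 (merge (leaf 5 495 591) (node 624 (merge (leaf 7 495 495) (leaf 5 527 655))))))))))) (node 494 (merge (leaf 2 461 493) (node 497 (merge (leaf 2 462 466) (node 530 (merge (leaf 0 494 529) (node 498 (merge (leaf 1 495 499) (leaf 0 495 531)))))))))))) (node 432 (merge (leaf 5 399 400) (node 433 (merge (leaf 6 400 401) (node 465 (merge (leaf 6 432 560) (node 466 (merge (leaf 1 463 467) (node 431 (merge (leaf 7 399 399) (leaf 0 430 430))))))))))))))) (node 529 (merge (node 530 (merge (leaf 3 495 531) (node 559 (merge (leaf 1 526 558) (node 591 (merge (leaf 6 463 464) (leaf 6 495 623))))))) (merge (node 530 (merge (leaf 3 495 531) (node 562 (merge (leaf 0 527 563) (node 559 (merge (leaf 1 526 558) (node 591 (merge (leaf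 6 495 623) (node 592 (merge (leaf 4 495 624) (node 590 (merge (leaf 5 494 622) (node 561 (merge (leaf 1 558 560) (leaf 2 558 593))))))))))))))) (merge (node 593 (merge (node 561 (merge (leaf 7 496 625) (node 497 (merge (leaf 7 464 464) (node 498 (merge (leaf 6 465 466) (leaf 1 495 499))))))) (merge (node 530 (merge (leaf 3 495 531) (node 562 (merge (leaf 0 527 563) (node 498 (merge (leaf 2 495 499) (node 625 (merge (leaf 6 497 561) (leaf 5 497 594))))))))) (merge (node 561 (merge (leaf 7 496 625) (node 464 (merge (leaf 7 464 497) (leaf 4 464 560))))) (merge (node 530 (merge (leaf 3 495 531) (node 562 (merge (leaf 0 527 563) (node 498 (merge (leaf 2 495 499) (node 594 (merge (leaf 5 497 625) (node 627 (merge (leaf 4 498 595) (node 626 (merge (leaf 7 497 497) (leaf 4 530 659))))))))))))) (node 530 (merge (leaf 3 495 531) (node 562 (merge (leaf 0 527 563) (node 498 (merge (leaf 2 495 499) (node 466 (merge (leaf 5 465 561) (node 467 (merge (leaf 6 434 435) (leaf 2 463 497)))))))))))))))) (merge (node 497 (merge (node 498 (merge (leaf 1 495 499) (node 466 (merge (leaf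 2 463 467) (node 434 (merge (leaf 5 401 402) (node 465 (merge (leaf 6 433 561) (node 560 (merge (leaf 5 432 433) (leaf 6 464 592))))))))))) (merge (node 498 (merge (leaf 1 495 499) (node 530 (merge (leaf 0 495 531) (node 562 (merge (leaf 0 527 563) (node 594 (merge (leaf 7 465 465) (leaf 7 497 626))))))))) (merge (node 530 (merge (leaf 3 495 531) (node 562 (merge (leaf 0 527 563) (node 465 (merge (leaf 4 433 433) (node 594 (merge (leaf 4 465 561) (leaf 7 497 626))))))))) (node 498 (merge (leaf 1 495 499) (node 530 (merge (leaf 0 495 531) (node 466 (merge (leaf 2 463 467) (node 434 (merge (leaf 5 401 402) (leaf 5 433 561))))))))))))) (node 560 (merge (node 592 (merge (leaf 7 495 624) (node 591 (merge (leaf 5 495 623) (node 559 (merge (leaf 5 463 464) (node 590 (merge (leaf 5 494 622) (node 589 (merge (leaf 2 557 561) (leaf 2 556 588))))))))))) (merge (node 592 (merge (leaf 7 495 624) (node 593 (merge (leaf 4 496 625) (node 561 (merge (leaf 4 464 464) (node 497 (merge (leaf 5 464 465) (node 594 (merge (leaf 4 497 626) (node 595 (merge (leaf 3 559 559) (leaf 3 560 596)))))))))))))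 (merge (node 592 (merge (leaf 7 495 624) (node 593 (merge (leaf 4 496 625) (node 591 (merge (leaf 5 495 623) (node 497 (merge (leaf 6 464 465) (node 498 (merge (leaf 1 495 499) (node 466 (merge (leaf 2 463 467) (node 561 (merge (leaf 6 465 529) (node 562 (merge (leaf 1 559 563) (leaf 2 558 590))))))))))))))))) (merge (node 464 (merge (node 561 (merge (leaf 4 432 432) (node 593 (merge (leaf 7 464 497) (leaf 7 496 625))))) (merge (node 559 (merge (leaf 5 431 432) (leaf 6 463 591))) (node 561 (merge (leaf 4 464 593) (node 562 (merge (leaf 3 527 563) (node 465 (merge (leaf 6 432 433) (node 466 (merge (leaf 1 463 467) (node 497 (merge (leaf 6 433 434) (leaf 4 465 594)))))))))))))) (node 592 (merge (leaf 7 495 624) (node 593 (merge (leaf 4 496 625) (node 591 (merge (leaf 5 495 623) (node 559 (merge (leaf 5 463 464) (node 558 (merge (leaf 0 557 557) (leaf 3 558 594)))))))))))))))))))))))))))) nG_15 cG_15 12 (by decide +kernel)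
def nG_16 : ℕ := 0x1800000008000000000000000000000000000000000000000000000000000000000000000000000000000000000000000000000000000000000000000000000000000
def cG_16 : ℕ := 0x100000005c0000005c000001ec000000e2000001f7800000ff800000ffc000007c0000003c0000001c00000010000000000000000000000000000000000000000000000000000000000000000000000000000
theorem lG_16 : S nG_16 cG_16 12 := S_of_chk [] trivial (node 463 (merge (node 431 (merge (node 430 (merge (leaf 7 398 398) (node 559 (merge (leaf 7 430 462) (node 590 (merge (leaf 5 462 558) (node 591 (merge (leaf 5 494 622) (node 624 (merge (leaf 4 495 592) (node 623 (merge (leaf 6 495 496) (leaf 4 527 656))))))))))))) (merge (node 399 (merge (leaf 4 399 496) (node 368 (merge (leaf 6 367 400) (node 367 (merge (leaf 6 335 336) (node 366 (merge (leaf 7 334 334) (leaf 7 366 398))))))))) (merge (node 399 (merge (node 398 (merge (leaf 7 366 366) (leaf 7 398 430))) (merge (node 368 (merge (leaf 6 367 400) (node 367 (merge (leaf 6 335 336) (node 366 (merge (leaf 7 334 334) (leaf 7 366 398))))))) (merge (node 368 (merge (leaf 6 367 400) (node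 367 (merge (leaf 6 335 336) (node 462 (merge (leaf 5 366 494) (node 430 (merge (leaf 5 334 335) (leaf 7 430 559))))))))) (node 430 (merge (leaf 7 398 398) (node 462 (merge (leaf 7 430 559) (node 367 (merge (leaf 5 334 335) (leaf 5 366 494))))))))))) (node 399 (merge (leaf 4 399 496) (node 368 (merge (leaf 6 367 400) (node 367 (merge (leaf 6 335 336) (node 462 (merge (leaf 5 366 494) (node 430 (merge (leaf 5 334 335) (leaf 7 430 559))))))))))))))) (merge (node 431 (merge (node 399 (merge (leaf 4 399 496) (node 398 (merge (leaf 7 366 366) (leaf 7 398 430))))) (merge (node 432 (merge (leaf 6 399 400) (node 559 (merge (leaf 6 431 464) (node 590 (merge (leaf 5 462 558) (node 591 (merge (leaf 5 494 622) (node 624 (merge (leaf 4 495 592) (node 623 (merge (leaf 6 495 496) (leaf 4 527 656))))))))))))) (node 400 (merge (leaf 6 399 432) (node 399 (merge (leaf 6 367 368) (node 398 (merge (leaf 7 366 366) (leaf 7 398 430)))))))))) (merge (node 496 (merge (node 431 (merge (leaf 4 399 399) (node 432 (merge (leaf 6 399 400) (node 559 (merge (leaf 5 431 464) (node 590 (merge (leaf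 5 462 558) (node 591 (merge (leaf 5 494 622) (leaf 6 495 623))))))))))) (merge (node 497 (merge (node 498 (merge (leaf 3 462 462) (leaf 1 495 499))) (merge (node 498 (merge (leaf 1 495 499) (node 530 (merge (leaf 0 495 531) (node 494 (merge (leaf 0 494 529) (node 466 (merge (leaf 2 462 465) (leaf 2 463 467))))))))) (node 494 (merge (node 493 (merge (leaf 0 492 492) (node 465 (merge (leaf 2 461 464) (leaf 2 462 466))))) (merge (node 493 (merge (leaf 0 492 492) (node 461 (merge (leaf 3 460 460) (leaf 3 461 462))))) (node 529 (merge (leaf 0 494 530) (node 465 (merge (leaf 2 462 466) (node 462 (merge (leaf 3 461 461) (node 433 (merge (leaf 5 400 401) (node 434 (merge (leaf 6 401 402) (leaf 2 430 464))))))))))))))))) (merge (node 462 (merge (node 461 (merge (leaf 0 460 460) (node 497 (merge (leaf 0 461 464) (leaf 3 462 498))))) (merge (node 461 (merge (leaf 0 460 460) (node 497 (merge (leaf 3 461 494) (leaf 3 462 498))))) (merge (node 498 (merge (leaf 3 462 497) (node 431 (merge (leaf 4 399 399) (node 432 (merge (leaf 6 399 400) (node 433 (merge (leaf 1 430 434) (node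 464 (merge (leaf 6 400 401) (node 529 (merge (leaf 4 432 561) (node 530 (merge (leaf 3 494 494) (leaf 2 495 499))))))))))))))) (node 461 (merge (leaf 0 460 460) (node 431 (merge (leaf 4 399 399) (node 432 (merge (leaf 6 399 400) (node 433 (merge (leaf 1 430 434) (leaf 2 429 464))))))))))))) (node 497 (merge (node 498 (merge (leaf 3 462 462) (leaf 1 495 499))) (merge (node 530 (merge (node 529 (merge (leaf 0 494 494) (leaf 3 495 531))) (merge (node 498 (merge (leaf 0 495 531) (node 466 (merge (leaf 2 463 467) (node 465 (merge (leaf 2 462 494) (node 562 (merge (leaf 7 433 433) (leaf 7 465 594))))))))) (merge (node 529 (merge (leaf 0 494 494) (node 562 (merge (leaf 0 527 563) (node 465 (merge (leaf 4 433 433) (node 594 (merge (leaf 4 465 561) (leaf 7 497 626))))))))) (node 529 (merge (leaf 3 495 531) (node 562 (merge (leaf 0 527 563) (node 465 (merge (leaf 4 433 433) (node 594 (merge (leaf 4 465 561) (leaf 7 497 626))))))))))))) (node 494 (merge (node 529 (merge (leaf 0 493 493) (leaf 0 494 530))) (merge (node 493 (merge (leaf 0 492 492) (node 461 (merge (leaf 3 460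 460) (leaf 3 461 462))))) (node 465 (merge (leaf 2 462 466) (node 462 (merge (leaf 3 461 461) (node 431 (merge (leaf 4 399 399) (node 433 (merge (leaf 5 400 401) (node 432 (merge (leaf 6 399 400) (leaf 1 430 434))))))))))))))))))))) (merge (node 464 (merge (node 559 (merge (leaf 6 431 432) (node 591 (merge (leaf 6 463 496) (node 590 (merge (leaf 5 462 558) (leaf 5 494 622))))))) (merge (node 559 (merge (leaf 6 431 432) (node 590 (merge (leaf 5 462 558) (node 462 (merge (leaf 7 430 430) (node 591 (merge (leaf 7 462 494) (leaf 5 494 622))))))))) (merge (node 462 (merge (node 430 (merge (leaf 7 430 559) (node 398 (merge (leaf 4 366 366) (leaf 4 398 494))))) (merge (node 559 (merge (leaf 7 430 430) (node 591 (merge (leaf 6 463 496) (node 590 (merge (leaf 5 462 558) (leaf 5 494 622))))))) (merge (node 493 (merge (node 494 (merge (leaf 1 461 465) (leaf 0 492 492))) (merge (node 461 (merge (leaf 1 460 492) (node 496 (merge (leaf 0 460 460) (leaf 0 461 497))))) (node 465 (merge (leaf 1 461 494) (node 497 (merge (leaf 0 462 498) (node 496 (merge (leaf 0 461 461) (node 433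 (merge (leaf 5 400 401) (leaf 2 430 434)))))))))))) (node 496 (merge (node 497 (merge (leaf 0 461 461) (leaf 3 462 498))) (merge (node 461 (merge (leaf 0 460 460) (node 493 (merge (leaf 1 460 492) (node 494 (merge (leaf 1 461 465) (leaf 0 493 529))))))) (node 559 (merge (leaf 6 463 591) (node 558 (merge (leaf 5 462 590) (node 529 (merge (leaf 1 526 530) (node 494 (merge (leaf 0 493 493) (node 465 (merge (leaf 1 462 466) (node 433 (merge (leaf 2 430 434) (node 401 (merge (leaf 5 368 369) (leaf 5 400 497)))))))))))))))))))))) (node 496 (merge (node 432 (merge (leaf 5 399 400) (node 529 (merge (leaf 4 432 561) (node 530 (merge (leaf 3 494 494) (leaf 3 495 531))))))) (merge (node 465 (merge (node 466 (merge (leaf 1 463 467) (leaf 1 462 494))) (merge (node 466 (merge (leaf 1 463 467) (node 498 (merge (leaf 0 463 499) (node 462 (merge (leaf 0 462 497) (node 434 (merge (leaf 2 430 433) (leaf 2 431 435))))))))) (node 462 (merge (node 433 (merge (leaf 2 430 434) (node 401 (merge (leaf 5 368 369) (leaf 5 400 497))))) (node 493 (merge (leaf 1 461 494) (node 461 (merge (leaf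 1 460 492) (node 429 (merge (leaf 3 428 428) (leaf 3 429 430)))))))))))) (node 432 (merge (leaf 5 399 400) (node 433 (merge (leaf 6 400 401) (node 462 (merge (leaf 2 429 461) (node 465 (merge (leaf 2 430 434) (node 498 (merge (leaf 0 462 497) (node 466 (merge (leaf 1 463 467) (leaf 0 463 499)))))))))))))))))))) (merge (node 432 (merge (node 400 (merge (leaf 6 399 431) (node 464 (merge (leaf 5 367 368) (leaf 6 431 559))))) (merge (node 559 (merge (leaf 6 431 464) (node 590 (merge (leaf 5 462 558) (node 462 (merge (leaf 7 430 430) (node 591 (merge (leaf 7 462 494) (leaf 5 494 622))))))))) (merge (node 431 (merge (leaf 6 399 400) (node 430 (merge (leaf 7 398 398) (node 462 (merge (leaf 7 430 559) (node 433 (merge (leaf 1 430 434) (leaf 1 429 461))))))))) (node 462 (merge (node 431 (merge (leaf 6 399 400) (node 433 (merge (leaf 1 430 434) (node 430 (merge (leaf 7 398 398) (leaf 1 429 461))))))) (merge (node 431 (merge (leaf 6 399 400) (node 398 (merge (leaf 7 398 430) (node 399 (merge (leaf 7 366 366) (node 367 (merge (leaf 5 366 494) (node 335 (merge (leaf 4 335 464)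 (node 336 (merge (leaf 6 303 304) (leaf 6 335 368))))))))))))) (merge (node 431 (merge (leaf 6 399 400) (node 461 (merge (leaf 2 428 460) (node 464 (merge (leaf 2 429 433) (node 493 (merge (leaf 1 460 492) (node 465 (merge (leaf 1 461 494) (node 498 (merge (leaf 0 462 497) (node 466 (merge (leaf 3 431 467) (leaf 0 463 499))))))))))))))) (merge (node 464 (merge (node 461 (merge (leaf 2 429 433) (node 492 (merge (leaf 1 460 493) (node 460 (merge (leaf 2 428 431) (leaf 1 459 491))))))) (merge (node 430 (merge (node 398 (merge (leaf 4 366 366) (leaf 4 398 494))) (merge (node 465 (merge (leaf 3 429 429) (node 431 (merge (leaf 7 398 398) (leaf 3 430 466))))) (node 465 (merge (leaf 3 429 429) (node 466 (merge (leaf 3 430 431) (leaf 1 462 494)))))))) (node 433 (merge (leaf 2 429 461) (node 434 (merge (leaf 1 431 435) (leaf 2 430 465)))))))) (node 464 (merge (node 461 (merge (leaf 2 429 433) (node 493 (merge (leaf 1 460 492) (node 429 (merge (leaf 3 428 428) (node 430 (merge (leaf 3 429 465) (node 398 (merge (leaf 4 366 366) (leaf 6 397 525))))))))))) (merge (node 430 (merge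 (node 398 (merge (leaf 4 366 366) (leaf 4 398 494))) (merge (node 465 (merge (leaf 3 429 429) (node 498 (merge (leaf 0 462 497) (node 466 (merge (leaf 1 462 494) (leaf 0 463 499))))))) (node 465 (merge (leaf 3 429 429) (node 497 (merge (leaf 0 462 498) (node 433 (merge (leaf 2 430 434) (node 529 (merge (leaf 7 400 400) (leaf 7 432 561)))))))))))) (merge (node 430 (merge (node 398 (merge (leaf 4 366 366) (leaf 4 398 494))) (merge (node 465 (merge (leaf 3 429 429) (node 498 (merge (leaf 0 462 497) (node 466 (merge (leaf 1 462 494) (leaf 0 463 499))))))) (node 429 (merge (leaf 3 429 465) (node 428 (merge (leaf 0 427 427) (leaf 3 428 461)))))))) (node 461 (merge (leaf 2 429 433) (node 492 (merge (leaf 1 460 493) (node 460 (merge (leaf 1 459 491) (node 459 (merge (leaf 0 459 494) (node 427 (merge (leaf 3 426 426) (leaf 3 427 428)))))))))))))))))))))))) (merge (node 432 (merge (node 400 (merge (leaf 6 399 431) (node 464 (merge (leaf 5 367 368) (leaf 5 399 496))))) (merge (node 431 (merge (leaf 6 399 400) (node 399 (merge (leaf 4 399 496) (node 398 (merge (leaf 7 366 366)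 (leaf 7 398 430))))))) (merge (node 464 (merge (node 433 (merge (node 462 (merge (leaf 2 429 461) (node 434 (merge (leaf 1 430 431) (leaf 1 431 435))))) (node 496 (merge (leaf 6 400 401) (node 529 (merge (leaf 4 432 561) (node 530 (merge (leaf 3 494 494) (leaf 3 495 531))))))))) (merge (node 494 (merge (node 493 (merge (leaf 0 492 492) (node 529 (merge (leaf 0 493 496) (leaf 3 494 530))))) (merge (node 493 (merge (leaf 0 492 492) (node 465 (merge (leaf 1 461 462) (leaf 1 462 466))))) (node 465 (merge (leaf 1 462 466) (node 529 (merge (leaf 3 494 530) (node 496 (merge (leaf 4 432 561) (node 431 (merge (leaf 4 399 399) (node 430 (merge (leaf 7 398 398) (leaf 0 429 429)))))))))))))) (merge (node 496 (merge (node 529 (merge (leaf 4 432 561) (node 530 (merge (leaf 3 494 494) (leaf 3 495 531))))) (merge (node 529 (merge (leaf 4 432 561) (node 530 (merge (leaf 3 494 494) (leaf 3 495 531))))) (node 431 (merge (leaf 4 399 399) (node 430 (merge (leaf 7 398 398) (node 429 (merge (leaf 0 428 428) (leaf 0 429 465)))))))))) (merge (node 494 (merge (node 493 (merge (leaf 0 492 492)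 (node 529 (merge (leaf 0 493 496) (leaf 3 494 530))))) (merge (node 493 (merge (leaf 0 492 492) (node 465 (merge (leaf 1 461 462) (leaf 1 462 466))))) (node 465 (merge (leaf 1 462 466) (node 529 (merge (leaf 3 494 530) (node 561 (merge (leaf 4 432 496) (leaf 7 432 497)))))))))) (merge (node 433 (merge (node 462 (merge (leaf 2 429 461) (node 434 (merge (leaf 1 430 431) (leaf 1 431 435))))) (merge (node 434 (merge (leaf 1 431 435) (node 496 (merge (leaf 6 400 401) (node 431 (merge (leaf 4 399 399) (node 466 (merge (leaf 0 431 467) (node 430 (merge (leaf 7 398 398) (leaf 0 430 465))))))))))) (merge (node 496 (merge (leaf 6 400 401) (node 431 (merge (leaf 4 399 399) (node 430 (merge (leaf 7 398 398) (node 429 (merge (leaf 0 428 428) (leaf 0 429 465))))))))) (node 462 (merge (leaf 2 429 461) (node 465 (merge (leaf 2 430 434) (node 498 (merge (leaf 0 462 497) (node 466 (merge (leaf 0 463 499) (node 496 (merge (leaf 6 400 401) (leaf 1 463 467))))))))))))))) (node 462 (merge (node 461 (merge (leaf 2 429 433) (node 492 (merge (leaf 1 460 493) (node 460 (merge (leaf 2 428 431)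 (leaf 1 459 491))))))) (merge (node 430 (merge (node 398 (merge (leaf 4 366 366) (leaf 4 398 494))) (merge (node 465 (merge (leaf 3 429 429) (node 431 (merge (leaf 7 398 398) (leaf 3 430 466))))) (node 465 (merge (leaf 3 429 429) (node 466 (merge (leaf 3 430 431) (leaf 1 462 494)))))))) (node 433 (merge (leaf 2 429 461) (node 434 (merge (leaf 1 431 435) (leaf 2 430 465)))))))))))))) (merge (node 496 (merge (node 464 (merge (leaf 5 399 400) (node 529 (merge (leaf 4 432 561) (node 530 (merge (leaf 3 494 494) (leaf 3 495 531))))))) (merge (node 464 (merge (leaf 5 399 400) (node 433 (merge (leaf 6 400 401) (node 462 (merge (leaf 2 429 461) (node 465 (merge (leaf 2 430 434) (node 430 (merge (leaf 3 429 429) (node 398 (merge (leaf 4 366 366) (leaf 4 398 494))))))))))))) (merge (node 464 (merge (leaf 5 399 400) (node 529 (merge (leaf 4 432 561) (node 530 (merge (leaf 3 495 531) (node 498 (merge (leaf 2 495 499) (node 462 (merge (leaf 3 462 497) (node 433 (merge (leaf 6 400 401) (leaf 2 429 461))))))))))))) (merge (node 529 (merge (node 530 (merge (leaf 3 494 494) (node 563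 (merge (leaf 0 527 562) (node 531 (merge (leaf 3 495 496) (leaf 0 528 564))))))) (merge (node 530 (merge (leaf 3 495 531) (node 498 (merge (leaf 2 495 499) (node 462 (merge (leaf 3 462 497) (node 464 (merge (leaf 4 432 561) (node 433 (merge (leaf 6 400 401) (leaf 2 429 461))))))))))) (node 464 (merge (leaf 4 432 561) (node 433 (merge (leaf 6 400 401) (node 462 (merge (leaf 2 429 461) (node 465 (merge (leaf 2 430 434) (node 430 (merge (leaf 3 429 429) (node 398 (merge (leaf 4 366 366) (leaf 4 398 494)))))))))))))))) (node 497 (merge (node 498 (merge (leaf 3 462 462) (leaf 1 495 499))) (merge (node 530 (merge (node 529 (merge (leaf 0 494 494) (leaf 3 495 531))) (merge (node 498 (merge (leaf 0 495 531) (node 466 (merge (leaf 2 463 467) (node 465 (merge (leaf 2 462 494) (node 562 (merge (leaf 7 433 433) (leaf 7 465 594))))))))) (merge (node 529 (merge (leaf 0 494 494) (node 562 (merge (leaf 0 527 563) (node 465 (merge (leaf 4 433 433) (node 594 (merge (leaf 4 465 561) (leaf 7 497 626))))))))) (node 529 (merge (leaf 3 495 531) (node 562 (merge (leaf 0 527 563) (node 465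 (merge (leaf 4 433 433) (node 594 (merge (leaf 4 465 561) (leaf 7 497 626))))))))))))) (node 494 (merge (node 529 (merge (leaf 0 493 493) (leaf 0 494 530))) (merge (node 493 (merge (leaf 0 492 492) (node 461 (merge (leaf 3 460 460) (leaf 3 461 462))))) (node 529 (merge (leaf 0 494 530) (node 465 (merge (leaf 2 462 466) (node 433 (merge (leaf 7 400 400) (leaf 5 400 401)))))))))))))))))) (node 462 (merge (node 431 (merge (leaf 6 399 400) (node 433 (merge (leaf 1 430 434) (node 430 (merge (leaf 7 398 398) (leaf 1 429 461))))))) (merge (node 431 (merge (leaf 6 399 400) (node 398 (merge (leaf 7 398 430) (node 399 (merge (leaf 7 366 366) (node 367 (merge (leaf 5 366 494) (node 335 (merge (leaf 4 335 464) (node 336 (merge (leaf 6 303 304) (leaf 6 335 368))))))))))))) (merge (node 431 (merge (leaf 6 399 400) (node 461 (merge (leaf 2 428 460) (node 464 (merge (leaf 2 429 433) (node 493 (merge (leaf 1 460 492) (node 465 (merge (leaf 1 461 494) (node 498 (merge (leaf 0 462 497) (node 466 (merge (leaf 3 431 467) (leaf 0 463 499))))))))))))))) (merge (node 464 (merge (node 461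 (merge (leaf 2 429 433) (node 492 (merge (leaf 1 460 493) (node 460 (merge (leaf 2 428 431) (leaf 1 459 491))))))) (merge (node 430 (merge (node 398 (merge (leaf 4 366 366) (leaf 4 398 494))) (merge (node 465 (merge (leaf 3 429 429) (node 431 (merge (leaf 7 398 398) (leaf 3 430 466))))) (node 465 (merge (leaf 3 429 429) (node 466 (merge (leaf 3 430 431) (leaf 1 462 494)))))))) (node 433 (merge (leaf 2 429 461) (node 434 (merge (leaf 1 431 435) (leaf 2 430 465)))))))) (node 464 (merge (node 461 (merge (leaf 2 429 433) (node 493 (merge (leaf 1 460 492) (node 429 (merge (leaf 3 428 428) (node 430 (merge (leaf 3 429 465) (node 398 (merge (leaf 4 366 366) (leaf 6 397 525))))))))))) (merge (node 430 (merge (node 398 (merge (leaf 4 366 366) (leaf 4 398 494))) (merge (node 465 (merge (leaf 3 429 429) (node 498 (merge (leaf 0 462 497) (node 466 (merge (leaf 1 462 494) (leaf 0 463 499))))))) (node 465 (merge (leaf 3 429 429) (node 497 (merge (leaf 0 462 498) (node 433 (merge (leaf 2 430 434) (node 529 (merge (leaf 7 400 400) (leaf 7 432 561)))))))))))) (merge (node 430 (merge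 (node 398 (merge (leaf 4 366 366) (leaf 4 398 494))) (merge (node 465 (merge (leaf 3 429 429) (node 498 (merge (leaf 0 462 497) (node 466 (merge (leaf 1 462 494) (leaf 0 463 499))))))) (node 429 (merge (leaf 3 429 465) (node 428 (merge (leaf 0 427 427) (leaf 3 428 461)))))))) (node 461 (merge (leaf 2 429 433) (node 492 (merge (leaf 1 460 493) (node 460 (merge (leaf 1 459 491) (node 459 (merge (leaf 0 459 494) (node 427 (merge (leaf 3 426 426) (leaf 3 427 428))))))))))))))))))))))))) (node 462 (merge (node 430 (merge (leaf 7 430 559) (node 398 (merge (leaf 4 366 366) (leaf 7 398 431))))) (merge (node 559 (merge (leaf 7 430 430) (node 590 (merge (leaf 5 462 558) (node 591 (merge (leaf 7 462 494) (leaf 5 494 622))))))) (merge (node 494 (merge (node 493 (merge (leaf 0 492 492) (node 464 (merge (leaf 1 461 465) (node 559 (merge (leaf 6 431 432) (leaf 7 462 591))))))) (merge (node 493 (merge (leaf 0 492 492) (node 496 (merge (leaf 0 493 529) (node 465 (merge (leaf 2 461 464) (node 497 (merge (leaf 2 462 466) (node 461 (merge (leaf 3 460 460) (leaf 3 461 462))))))))))) (merge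 (node 529 (merge (leaf 3 494 530) (node 496 (merge (leaf 0 493 493) (node 497 (merge (leaf 3 461 461) (leaf 3 462 498))))))) (node 559 (merge (leaf 7 462 591) (node 464 (merge (leaf 6 431 432) (node 465 (merge (leaf 1 462 466) (node 497 (merge (leaf 0 462 498) (node 496 (merge (leaf 0 461 461) (node 433 (merge (leaf 5 400 401) (leaf 2 430 434))))))))))))))))) (node 461 (merge (node 460 (merge (leaf 0 460 496) (node 431 (merge (leaf 2 428 432) (node 430 (merge (leaf 7 398 398) (leaf 2 427 459))))))) (merge (node 460 (merge (leaf 0 460 496) (node 492 (merge (leaf 1 459 491) (node 493 (merge (leaf 1 460 464) (leaf 0 492 494))))))) (merge (node 460 (merge (node 431 (merge (leaf 2 428 432) (node 430 (merge (leaf 7 398 398) (leaf 2 427 459))))) (merge (node 432 (merge (leaf 2 428 431) (node 464 (merge (leaf 2 429 433) (node 428 (merge (leaf 3 427 427) (leaf 3 428 429))))))) (node 494 (merge (leaf 0 459 459) (node 493 (merge (leaf 0 492 492) (node 464 (merge (leaf 1 461 465) (node 428 (merge (leaf 3 427 427) (leaf 3 428 429)))))))))))) (node 464 (merge (node 433 (merge (leaf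 2 429 432) (node 465 (merge (leaf 2 430 434) (node 429 (merge (leaf 3 428 428) (leaf 3 429 430))))))) (merge (node 497 (merge (leaf 0 461 496) (node 465 (merge (leaf 0 462 498) (node 493 (merge (leaf 1 460 492) (leaf 1 461 494))))))) (merge (node 496 (merge (leaf 0 461 497) (node 493 (merge (leaf 1 460 492) (node 529 (merge (leaf 0 493 494) (node 432 (merge (leaf 2 429 433) (leaf 4 432 561))))))))) (merge (node 429 (merge (leaf 3 428 428) (node 465 (merge (leaf 3 429 430) (node 466 (merge (leaf 1 462 494) (node 499 (merge (leaf 0 463 498) (node 467 (merge (leaf 1 463 496) (leaf 0 464 500))))))))))) (node 429 (merge (leaf 3 428 428) (node 465 (merge (leaf 3 429 430) (node 466 (merge (leaf 1 462 494) (node 434 (merge (leaf 2 430 433) (leaf 2 431 435))))))))))))))))))))))))))))) nG_16 cG_16 12 (by decide +kernel)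
def nG_17 : ℕ := 0x1800000008000000000000000000000000000000000000000000000000000000000000000000000000000000000000000000000000000000000000000000000000000
def cG_17 : ℕ := 0x8000000780000007c000000f2000000e3000000f7000000ff800000ff0000007f800000270000000200000000000000000000000000000000000000000000000000000000000000000000000000000000000
theorem lG_17 : S nG_17 cG_17 12 := S_of_chk [] trivial (node 496 (merge (node 464 (merge (node 432 (merge (leaf 5 399 400) (node 529 (merge (leaf 4 432 561) (node 530 (merge (leaf 3 494 494) (leaf 3 495 531))))))) (merge (node 432 (merge (leaf 5 399 400) (node 433 (merge (leaf 6 400 401) (node 560 (merge (leaf 6 432 465) (node 592 (merge (leaf 7 463 463) (leaf 7 495 624))))))))) (node 560 (merge (node 593 (merge (leaf 4 464 561) (node 592 (merge (leaf 7 495 624) (leaf 4 496 625))))) (node 463 (merge (leaf 4 431 431) (node 465 (merge (leaf 6 432 433) (node 494 (merge (leaf 1 462 466) (leaf 2 461 493)))))))))))) (merge (node 494 (merge (node 529 (merge (leaf 0 493 493) (leaf 3 494 530))) (merge (node 493 (merge (leaf 0 492 492) (node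 465 (merge (leaf 2 461 464) (node 497 (merge (leaf 2 462 466) (node 461 (merge (leaf 3 460 460) (leaf 3 461 462))))))))) (node 497 (merge (node 466 (merge (leaf 2 462 465) (node 498 (merge (leaf 2 463 467) (leaf 1 495 499))))) (merge (node 462 (merge (leaf 3 461 461) (node 463 (merge (leaf 3 462 498) (node 560 (merge (leaf 4 431 431) (leaf 7 463 592))))))) (node 465 (merge (leaf 2 462 466) (node 462 (merge (leaf 3 461 461) (node 430 (merge (leaf 4 398 398) (node 560 (merge (leaf 6 464 592) (node 463 (merge (leaf 4 431 431) (node 464 (merge (leaf 3 429 429) (node 561 (merge (leaf 4 464 593) (node 432 (merge (leaf 5 399 400) (leaf 4 432 529))))))))))))))))))))))) (merge (node 464 (merge (node 432 (merge (leaf 5 399 400) (node 433 (merge (leaf 6 400 401) (node 560 (merge (leaf 6 432 465) (node 592 (merge (leaf 7 463 463) (leaf 7 495 624))))))))) (merge (node 432 (merge (leaf 5 399 400) (node 431 (merge (leaf 7 399 399) (node 463 (merge (leaf 4 431 560) (node 430 (merge (leaf 7 398 398) (node 465 (merge (leaf 0 429 429) (leaf 3 430 466))))))))))) (merge (node 432 (merge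 (leaf 5 399 400) (node 433 (merge (leaf 6 400 401) (node 431 (merge (leaf 7 399 399) (node 463 (merge (leaf 4 431 560) (node 462 (merge (leaf 1 430 434) (leaf 2 429 461))))))))))) (merge (node 560 (merge (node 592 (merge (leaf 7 463 463) (leaf 7 495 624))) (merge (node 593 (merge (leaf 4 464 561) (node 592 (merge (leaf 7 495 624) (leaf 4 496 625))))) (node 463 (merge (leaf 4 431 431) (node 561 (merge (leaf 4 464 593) (node 465 (merge (leaf 6 432 433) (node 466 (merge (leaf 1 463 467) (node 498 (merge (leaf 0 463 499) (node 497 (merge (leaf 0 462 462) (node 434 (merge (leaf 2 431 435) (leaf 6 433 529)))))))))))))))))) (node 432 (merge (leaf 5 399 400) (node 529 (merge (leaf 4 432 561) (node 530 (merge (leaf 3 495 531) (node 562 (merge (leaf 0 527 563) (node 498 (merge (leaf 2 495 499) (node 433 (merge (leaf 6 400 401) (node 465 (merge (leaf 7 433 466) (leaf 4 433 497)))))))))))))))))))) (merge (node 463 (merge (node 560 (merge (leaf 4 431 431) (leaf 7 463 592))) (merge (node 462 (merge (node 461 (merge (leaf 0 460 460) (node 497 (merge (leaf 3 461 494) (leaf 3 462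 498))))) (merge (node 497 (merge (leaf 3 462 498) (node 431 (merge (leaf 4 399 399) (node 432 (merge (leaf 6 399 400) (node 433 (merge (leaf 1 430 434) (node 401 (merge (leaf 6 400 464) (leaf 5 400 465))))))))))) (node 461 (merge (leaf 0 460 460) (node 431 (merge (leaf 4 399 399) (node 432 (merge (leaf 6 399 400) (node 430 (merge (leaf 7 398 398) (leaf 1 429 433)))))))))))) (node 497 (merge (node 462 (merge (leaf 3 462 498) (node 461 (merge (leaf 0 460 460) (leaf 0 461 464))))) (merge (node 498 (merge (leaf 1 495 499) (node 530 (merge (leaf 0 495 531) (node 466 (merge (leaf 2 463 467) (node 465 (merge (leaf 2 462 494) (node 433 (merge (leaf 4 401 401) (leaf 7 433 562))))))))))) (node 494 (merge (node 493 (merge (leaf 0 492 492) (node 465 (merge (leaf 2 461 464) (leaf 2 462 466))))) (merge (node 493 (merge (leaf 0 492 492) (node 461 (merge (leaf 3 460 460) (leaf 3 461 462))))) (node 465 (merge (leaf 2 462 466) (node 433 (merge (leaf 5 400 401) (node 560 (merge (leaf 6 432 464) (leaf 6 464 592)))))))))))))))) (merge (node 432 (merge (node 431 (merge (node 464 (merge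 (leaf 7 399 399) (leaf 5 399 400))) (merge (node 463 (merge (leaf 4 399 399) (leaf 6 399 400))) (merge (node 400 (merge (leaf 6 399 463) (leaf 5 399 464))) (node 399 (merge (leaf 4 399 463) (leaf 7 399 464))))))) (merge (node 464 (merge (leaf 5 399 400) (node 529 (merge (leaf 4 432 561) (node 530 (merge (leaf 3 494 494) (leaf 3 495 531))))))) (merge (node 497 (merge (node 498 (merge (leaf 1 495 499) (node 463 (merge (leaf 3 462 462) (node 431 (merge (leaf 4 399 399) (leaf 6 399 400))))))) (merge (node 498 (merge (leaf 1 495 499) (node 466 (merge (leaf 2 463 467) (node 494 (merge (leaf 2 462 465) (node 529 (merge (leaf 0 493 493) (leaf 0 494 530))))))))) (node 494 (merge (node 529 (merge (leaf 0 493 493) (leaf 0 494 530))) (merge (node 493 (merge (leaf 0 492 492) (node 461 (merge (leaf 3 460 460) (leaf 3 461 462))))) (node 529 (merge (leaf 0 494 530) (node 465 (merge (leaf 2 462 466) (node 433 (merge (leaf 7 400 400) (leaf 5 400 401))))))))))))) (node 497 (merge (node 498 (merge (leaf 1 495 499) (node 530 (merge (leaf 0 495 531) (node 529 (merge (leaf 0 494 494) (node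 562 (merge (leaf 0 527 563) (node 594 (merge (leaf 7 465 465) (leaf 7 497 626))))))))))) (merge (node 498 (merge (leaf 1 495 499) (node 530 (merge (leaf 0 495 531) (node 529 (merge (leaf 0 494 494) (node 466 (merge (leaf 2 463 467) (node 561 (merge (leaf 5 433 434) (leaf 6 465 593))))))))))) (merge (node 494 (merge (node 493 (merge (leaf 0 492 492) (node 465 (merge (leaf 2 461 464) (leaf 2 462 466))))) (merge (node 493 (merge (leaf 0 492 492) (node 461 (merge (leaf 3 460 460) (leaf 3 461 462))))) (node 529 (merge (leaf 0 494 530) (node 465 (merge (leaf 2 462 466) (node 462 (merge (leaf 3 461 461) (node 430 (merge (leaf 4 398 398) (node 464 (merge (leaf 4 432 561) (node 431 (merge (leaf 7 399 399) (leaf 0 429 429)))))))))))))))) (node 498 (merge (leaf 1 495 499) (node 466 (merge (leaf 2 463 467) (node 463 (merge (leaf 3 462 462) (node 431 (merge (leaf 4 399 399) (node 430 (merge (leaf 7 398 398) (node 465 (merge (leaf 0 430 433) (leaf 3 430 464))))))))))))))))))))) (merge (node 463 (merge (node 560 (merge (leaf 4 431 431) (leaf 7 463 592))) (merge (node 462 (merge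 (node 461 (merge (leaf 0 460 460) (node 497 (merge (leaf 0 461 464) (leaf 3 462 498))))) (merge (node 461 (merge (leaf 0 460 460) (node 497 (merge (leaf 3 461 494) (leaf 3 462 498))))) (merge (node 498 (merge (leaf 3 462 497) (node 431 (merge (leaf 4 399 399) (node 432 (merge (leaf 6 399 400) (node 433 (merge (leaf 1 430 434) (node 464 (merge (leaf 6 400 401) (node 529 (merge (leaf 4 432 561) (node 530 (merge (leaf 3 494 494) (leaf 2 495 499))))))))))))))) (node 461 (merge (leaf 0 460 460) (node 431 (merge (leaf 4 399 399) (node 432 (merge (leaf 6 399 400) (node 433 (merge (leaf 1 430 434) (leaf 2 429 464))))))))))))) (node 464 (merge (node 432 (merge (leaf 5 399 400) (node 529 (merge (leaf 4 432 561) (node 530 (merge (leaf 3 494 494) (leaf 3 495 531))))))) (merge (node 432 (merge (leaf 5 399 400) (node 433 (merge (leaf 6 400 401) (node 560 (merge (leaf 6 432 465) (node 592 (merge (leaf 7 463 463) (leaf 7 495 624))))))))) (node 560 (merge (leaf 7 463 592) (node 561 (merge (leaf 4 464 593) (node 562 (merge (leaf 3 527 563) (node 465 (merge (leaf 6 432 433) (node 494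 (merge (leaf 2 461 493) (node 529 (merge (leaf 3 494 530) (node 497 (merge (leaf 4 465 594) (node 498 (merge (leaf 0 462 462) (leaf 1 495 499))))))))))))))))))))))) (merge (node 463 (merge (node 560 (merge (leaf 4 431 431) (leaf 7 463 592))) (merge (node 462 (merge (node 461 (merge (leaf 0 460 460) (node 497 (merge (leaf 3 461 494) (leaf 3 462 498))))) (merge (node 497 (merge (leaf 3 462 498) (node 431 (merge (leaf 4 399 399) (node 432 (merge (leaf 6 399 400) (node 433 (merge (leaf 1 430 434) (node 401 (merge (leaf 6 400 464) (leaf 5 400 465))))))))))) (node 461 (merge (leaf 0 460 460) (node 431 (merge (leaf 4 399 399) (node 432 (merge (leaf 6 399 400) (node 430 (merge (leaf 7 398 398) (leaf 1 429 433)))))))))))) (node 560 (merge (leaf 7 463 592) (node 464 (merge (node 561 (merge (leaf 4 464 593) (node 432 (merge (leaf 5 399 400) (leaf 4 432 529))))) (node 465 (merge (node 466 (merge (leaf 1 463 467) (leaf 1 462 494))) (merge (node 466 (merge (leaf 1 463 467) (node 498 (merge (leaf 0 463 499) (node 462 (merge (leaf 0 462 497) (node 434 (merge (leaf 2 430 433) (leaf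 2 431 435))))))))) (node 462 (merge (node 433 (merge (leaf 2 430 434) (node 401 (merge (leaf 5 368 369) (leaf 5 400 497))))) (node 493 (merge (leaf 1 461 494) (node 461 (merge (leaf 1 460 492) (node 429 (merge (leaf 3 428 428) (leaf 3 429 430))))))))))))))))))) (merge (node 494 (merge (node 529 (merge (leaf 0 493 493) (leaf 3 494 530))) (merge (node 493 (merge (leaf 0 492 492) (node 525 (merge (leaf 1 492 524) (node 461 (merge (leaf 3 460 460) (node 462 (merge (leaf 3 461 497) (node 430 (merge (leaf 4 398 398) (leaf 6 429 557))))))))))) (node 497 (merge (node 498 (merge (leaf 1 495 499) (node 462 (merge (leaf 3 461 461) (leaf 3 462 463))))) (merge (node 466 (merge (leaf 2 462 465) (node 498 (merge (leaf 2 463 467) (leaf 1 495 499))))) (node 529 (merge (leaf 0 494 530) (node 465 (merge (leaf 2 462 466) (node 560 (merge (leaf 5 432 433) (leaf 6 464 592))))))))))))) (merge (node 464 (merge (node 432 (merge (leaf 5 399 400) (node 529 (merge (leaf 4 432 561) (node 530 (merge (leaf 3 494 494) (leaf 3 495 531))))))) (merge (node 432 (merge (leaf 5 399 400) (node 433 (merge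 (leaf 6 400 401) (node 560 (merge (leaf 6 432 465) (node 593 (merge (leaf 4 464 561) (node 592 (merge (leaf 7 495 624) (leaf 4 496 625))))))))))) (merge (node 465 (merge (node 494 (merge (leaf 2 461 493) (node 497 (merge (leaf 2 462 466) (node 530 (merge (leaf 0 494 529) (node 498 (merge (leaf 1 495 499) (leaf 0 495 531))))))))) (merge (node 560 (merge (leaf 6 432 433) (node 593 (merge (leaf 4 464 561) (node 592 (merge (leaf 4 496 625) (node 623 (merge (leaf 5 495 591) (node 624 (merge (leaf 7 495 495) (leaf 5 527 655))))))))))) (node 494 (merge (leaf 2 461 493) (node 497 (merge (leaf 2 462 466) (node 530 (merge (leaf 0 494 529) (node 498 (merge (leaf 1 495 499) (leaf 0 495 531)))))))))))) (node 432 (merge (leaf 5 399 400) (node 433 (merge (leaf 6 400 401) (node 465 (merge (leaf 6 432 560) (node 466 (merge (leaf 1 463 467) (node 431 (merge (leaf 7 399 399) (leaf 0 430 430))))))))))))))) (node 432 (merge (node 431 (merge (node 464 (merge (leaf 7 399 399) (leaf 5 399 400))) (merge (node 463 (merge (leaf 4 399 399) (leaf 6 399 400))) (merge (node 400 (merge (leaf 6 399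 463) (leaf 5 399 464))) (node 399 (merge (leaf 4 399 463) (leaf 7 399 464))))))) (merge (node 464 (merge (leaf 5 399 400) (node 529 (merge (leaf 4 432 561) (node 530 (merge (leaf 3 494 494) (leaf 3 495 531))))))) (merge (node 431 (merge (node 463 (merge (leaf 4 399 399) (leaf 4 431 560))) (merge (node 464 (merge (leaf 7 399 399) (node 529 (merge (leaf 4 432 561) (node 530 (merge (leaf 3 494 494) (leaf 3 495 531))))))) (node 560 (merge (leaf 4 431 463) (node 592 (merge (leaf 7 495 624) (node 593 (merge (leaf 4 496 625) (node 561 (merge (leaf 4 464 464) (node 562 (merge (leaf 3 527 563) (node 591 (merge (leaf 2 558 590) (leaf 5 495 623)))))))))))))))) (node 431 (merge (node 463 (merge (leaf 6 399 400) (leaf 4 431 560))) (merge (node 463 (merge (leaf 4 399 399) (leaf 4 431 560))) (node 430 (merge (node 494 (merge (node 529 (merge (leaf 0 493 493) (leaf 3 494 530))) (node 398 (merge (leaf 4 398 462) (node 397 (merge (leaf 3 397 433) (node 396 (merge (leaf 0 395 395) (leaf 3 396 429))))))))) (merge (node 429 (merge (node 460 (merge (leaf 1 428 461) (node 428 (merge (leaf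 1 427 459) (node 400 (merge (leaf 2 396 399) (leaf 2 397 401))))))) (merge (node 401 (merge (leaf 2 397 400) (node 433 (merge (leaf 2 398 402) (node 397 (merge (leaf 3 396 396) (leaf 3 397 398))))))) (node 461 (merge (leaf 1 428 460) (node 397 (merge (leaf 3 396 396) (node 398 (merge (leaf 3 397 433) (node 493 (merge (leaf 6 365 366) (leaf 6 397 525)))))))))))) (merge (node 429 (merge (node 400 (merge (leaf 2 397 401) (node 428 (merge (leaf 2 396 399) (node 396 (merge (leaf 3 395 395) (leaf 3 396 397))))))) (merge (node 460 (merge (leaf 1 428 461) (node 428 (merge (leaf 1 427 459) (node 400 (merge (leaf 2 396 399) (leaf 2 397 401))))))) (node 461 (merge (leaf 1 428 460) (node 462 (merge (leaf 1 429 433) (node 397 (merge (leaf 3 396 396) (node 365 (merge (leaf 4 333 333) (leaf 4 365 494)))))))))))) (merge (node 494 (merge (node 529 (merge (leaf 0 493 493) (leaf 3 494 530))) (merge (node 493 (merge (leaf 0 492 492) (node 461 (merge (leaf 3 460 460) (node 462 (merge (leaf 3 461 497) (node 430 (merge (leaf 4 398 398) (leaf 1 429 433))))))))) (node 530 (merge (leaf 3 494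 529) (node 462 (merge (leaf 4 398 398) (node 497 (merge (leaf 3 461 461) (node 498 (merge (leaf 1 495 499) (leaf 0 495 531)))))))))))) (node 494 (merge (node 529 (merge (leaf 0 493 493) (leaf 3 494 530))) (merge (node 530 (merge (leaf 3 494 529) (node 462 (merge (leaf 4 398 398) (node 497 (merge (leaf 3 461 461) (node 498 (merge (leaf 1 495 499) (leaf 0 495 531))))))))) (node 493 (merge (leaf 0 492 492) (node 525 (merge (leaf 1 492 524) (node 461 (merge (leaf 3 460 460) (node 429 (merge (leaf 6 397 398) (node 396 (merge (leaf 7 396 428) (node 397 (merge (leaf 7 364 364) (leaf 3 396 431)))))))))))))))))))))))))))))))))))))) nG_17 cG_17 12 (by decide +kernel)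
def nG_18 : ℕ := 0x1800000000000000000000000000000000000000000000000000000000000000000000000000000000000000000000000000000000000000000000000000000000000
def cG_18 : ℕ := 0x10000000bc000000fc000001ff000001ff000000e3000001ff800000ff800000ffc000007f8000003f0000001e00000010000000000000000000000000000000000000000000000000000000000000000000000000000
theorem lG_18 : S nG_18 cG_18 13 := S_of_chk [(nG_15, cG_15, 12), (nG_16, cG_16, 12), (nG_17, cG_17, 12)] ⟨lG_15, lG_16, lG_17, trivial⟩ (node 495 (merge (node 463 (merge (node 560 (merge (leaf 4 431 431) (node 592 (merge (leaf 4 463 559) (leaf 7 495 624))))) (merge (node 431 (merge (leaf 4 431 560) (node 399 (merge (leaf 4 399 496) (node 400 (merge (leaf 6 367 368) (leaf 6 399 432))))))) (merge (node 431 (merge (node 399 (merge (leaf 4 399 496) (node 398 (merge (leaf 7 366 366) (leaf 7 398 430))))) (merge (node 432 (merge (leaf 6 399 400) (node 559 (merge (leaf 6 431 464) (node 590 (merge (leaf 5 462 558) (node 591 (merge (leaf 5 494 622) (node 624 (merge (leaf 4 495 592) (node 623 (merge (leaf 6 495 496) (leaf 4 527 656)))))))))))))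 (node 400 (merge (leaf 6 399 432) (node 399 (merge (leaf 6 367 368) (node 398 (merge (leaf 7 366 366) (leaf 7 398 430)))))))))) (node 559 (merge (node 592 (merge (leaf 4 463 560) (node 464 (merge (leaf 6 431 432) (node 591 (merge (leaf 6 463 496) (leaf 4 495 624))))))) (merge (node 464 (merge (leaf 6 431 432) (node 591 (merge (leaf 6 463 496) (node 590 (merge (leaf 5 462 558) (leaf 5 494 622))))))) (merge (node 590 (merge (leaf 5 462 558) (node 591 (merge (leaf 5 494 622) (node 624 (merge (leaf 4 495 592) (node 623 (merge (leaf 6 495 496) (leaf 4 527 656))))))))) (node 560 (merge (leaf 4 463 592) (node 558 (merge (leaf 5 462 590) (node 557 (merge (leaf 2 525 529) (leaf 2 524 556))))))))))))))) (merge (node 463 (merge (node 560 (merge (leaf 4 431 431) (node 592 (merge (leaf 4 463 559) (leaf 7 495 624))))) (merge (node 431 (merge (leaf 4 431 560) (node 399 (merge (leaf 4 399 496) (node 400 (merge (leaf 6 367 368) (leaf 6 399 432))))))) (merge (node 431 (merge (node 399 (merge (leaf 4 399 496) (node 398 (merge (leaf 7 366 366) (leaf 7 398 430))))) (merge (node 432 (merge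 (leaf 6 399 400) (node 559 (merge (leaf 6 431 464) (node 430 (merge (leaf 7 398 398) (leaf 7 430 462))))))) (merge (node 399 (merge (leaf 4 399 496) (node 368 (merge (leaf 6 367 400) (node 367 (merge (leaf 6 335 336) (node 366 (merge (leaf 7 334 334) (leaf 7 366 398))))))))) (node 399 (merge (leaf 4 399 496) (node 368 (merge (leaf 6 367 400) (node 367 (merge (leaf 6 335 336) (node 462 (merge (leaf 5 366 494) (node 430 (merge (leaf 5 334 335) (leaf 7 430 559))))))))))))))) (node 496 (merge (node 462 (merge (node 461 (merge (leaf 0 460 460) (node 497 (merge (leaf 0 461 464) (leaf 3 462 498))))) (node 559 (merge (leaf 7 430 430) (node 592 (merge (leaf 4 463 560) (node 591 (merge (leaf 6 495 623) (leaf 4 495 624))))))))) (merge (node 464 (merge (node 432 (merge (leaf 5 399 400) (node 561 (merge (leaf 4 432 529) (node 560 (merge (leaf 7 463 592) (leaf 4 464 593))))))) (merge (node 560 (merge (leaf 7 463 592) (node 465 (merge (leaf 6 432 433) (node 466 (merge (leaf 1 463 467) (leaf 1 462 494))))))) (node 432 (merge (leaf 5 399 400) (node 529 (merge (leaf 4 432 561) (node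 530 (merge (leaf 3 494 494) (leaf 3 495 531)))))))))) (merge (node 462 (merge (node 461 (merge (leaf 0 460 460) (node 497 (merge (leaf 3 461 494) (leaf 3 462 498))))) (node 559 (merge (leaf 7 430 430) (node 592 (merge (leaf 4 463 560) (node 591 (merge (leaf 6 495 623) (leaf 4 495 624))))))))) (node 559 (merge (node 591 (merge (leaf 6 463 464) (leaf 6 495 623))) (merge (node 591 (merge (leaf 6 495 623) (node 462 (merge (leaf 7 430 430) (leaf 7 462 494))))) (node 462 (merge (leaf 7 430 430) (node 497 (merge (leaf 3 462 498) (node 461 (merge (leaf 0 461 464) (leaf 3 461 494)))))))))))))))))) (merge (node 463 (merge (node 560 (merge (leaf 4 431 431) (node 592 (merge (leaf 4 463 559) (leaf 7 495 624))))) (merge (node 560 (merge (leaf 4 431 431) (node 592 (merge (leaf 7 463 496) (leaf 7 495 624))))) (merge (node 431 (merge (leaf 4 431 560) (node 496 (merge (leaf 4 399 399) (node 430 (merge (leaf 7 398 398) (node 559 (merge (leaf 7 430 462) (node 591 (merge (leaf 6 463 464) (leaf 6 495 623))))))))))) (merge (node 559 (merge (node 592 (merge (leaf 4 463 560) (node 591 (merge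 (leaf 4 495 624) (node 462 (merge (leaf 7 430 430) (leaf 7 462 494))))))) (merge (node 590 (merge (leaf 5 462 558) (node 462 (merge (leaf 7 430 430) (node 591 (merge (leaf 7 462 494) (leaf 5 494 622))))))) (merge (node 590 (merge (leaf 5 462 558) (node 591 (merge (leaf 5 494 622) (node 624 (merge (leaf 4 495 592) (node 623 (merge (leaf 6 495 496) (leaf 4 527 656))))))))) (node 560 (merge (leaf 4 463 592) (node 558 (merge (leaf 5 462 590) (node 557 (merge (leaf 2 525 529) (leaf 2 524 556))))))))))) (node 431 (merge (node 430 (merge (leaf 7 398 398) (node 559 (merge (leaf 7 430 462) (node 590 (merge (leaf 5 462 558) (node 591 (merge (leaf 5 494 622) (node 624 (merge (leaf 4 495 592) (node 623 (merge (leaf 6 495 496) (leaf 4 527 656))))))))))))) (merge (node 399 (merge (leaf 4 399 496) (node 368 (merge (leaf 6 367 400) (node 367 (merge (leaf 6 335 336) (node 366 (merge (leaf 7 334 334) (leaf 7 366 398))))))))) (merge (node 399 (merge (node 398 (merge (leaf 7 366 366) (leaf 7 398 430))) (merge (node 368 (merge (leaf 6 367 400) (node 367 (merge (leaf 6 335 336) (node 366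 (merge (leaf 7 334 334) (leaf 7 366 398))))))) (merge (node 368 (merge (leaf 6 367 400) (node 367 (merge (leaf 6 335 336) (node 462 (merge (leaf 5 366 494) (node 430 (merge (leaf 5 334 335) (leaf 7 430 559))))))))) (node 430 (merge (leaf 7 398 398) (node 462 (merge (leaf 7 430 559) (node 367 (merge (leaf 5 334 335) (leaf 5 366 494))))))))))) (node 399 (merge (leaf 4 399 496) (node 368 (merge (leaf 6 367 400) (node 367 (merge (leaf 6 335 336) (node 462 (merge (leaf 5 366 494) (node 430 (merge (leaf 5 334 335) (leaf 7 430 559)))))))))))))))))))) (merge (node 463 (merge (node 560 (merge (leaf 4 431 431) (node 592 (merge (leaf 4 463 559) (leaf 7 495 624))))) (merge (node 431 (merge (leaf 4 431 560) (node 399 (merge (leaf 4 399 496) (node 400 (merge (leaf 6 367 368) (leaf 6 399 432))))))) (merge (node 559 (merge (node 592 (merge (leaf 4 463 560) (node 591 (merge (leaf 4 495 624) (node 462 (merge (leaf 7 430 430) (leaf 7 462 494))))))) (merge (node 590 (merge (leaf 5 462 558) (node 462 (merge (leaf 7 430 430) (node 591 (merge (leaf 7 462 494) (leaf 5 494 622))))))) (merge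 (node 590 (merge (leaf 5 462 558) (node 591 (merge (leaf 5 494 622) (node 624 (merge (leaf 4 495 592) (node 623 (merge (leaf 6 495 496) (leaf 4 527 656))))))))) (node 560 (merge (leaf 4 463 592) (node 558 (merge (leaf 5 462 590) (node 557 (merge (leaf 2 525 529) (leaf 2 524 556))))))))))) (node 431 (merge (node 400 (merge (leaf 6 399 432) (node 399 (merge (leaf 6 367 368) (node 398 (merge (leaf 7 366 366) (leaf 7 398 430))))))) (merge (node 399 (merge (leaf 4 399 496) (node 368 (merge (leaf 6 367 400) (node 367 (merge (leaf 6 335 336) (node 366 (merge (leaf 7 334 334) (leaf 7 366 398))))))))) (merge (node 399 (merge (leaf 4 399 496) (node 368 (merge (leaf 6 367 400) (node 367 (merge (leaf 6 335 336) (node 462 (merge (leaf 5 366 494) (node 430 (merge (leaf 5 334 335) (leaf 7 430 559))))))))))) (node 430 (merge (leaf 7 398 398) (node 559 (merge (leaf 7 430 462) (node 590 (merge (leaf 5 462 558) (node 591 (merge (leaf 5 494 622) (node 624 (merge (leaf 4 495 592) (node 623 (merge (leaf 6 495 496) (leaf 4 527 656))))))))))))))))))))) (merge (node 463 (merge (node 431 (merge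 (leaf 4 431 560) (node 400 (merge (leaf 6 399 432) (node 399 (merge (leaf 6 367 368) (node 398 (merge (leaf 7 366 366) (leaf 7 398 430))))))))) (merge (node 431 (merge (leaf 4 431 560) (node 496 (merge (leaf 4 399 399) (node 430 (merge (leaf 7 398 398) (node 559 (merge (leaf 7 430 462) (node 591 (merge (leaf 6 463 464) (leaf 6 495 623))))))))))) (merge (node 431 (merge (leaf 4 431 560) (node 496 (merge (leaf 4 399 399) (node 432 (merge (leaf 6 399 400) (node 559 (merge (leaf 5 431 464) (node 591 (merge (leaf 6 495 623) (node 494 (merge (leaf 7 462 462) (node 529 (merge (leaf 0 493 493) (leaf 3 494 530))))))))))))))) (merge (node 559 (merge (node 432 (merge (leaf 6 431 464) (node 431 (merge (leaf 6 399 400) (node 430 (merge (leaf 7 398 398) (leaf 7 430 462))))))) (merge (node 590 (merge (leaf 5 462 558) (node 462 (merge (leaf 7 430 430) (node 591 (merge (leaf 7 462 494) (leaf 5 494 622))))))) (node 464 (merge (leaf 6 431 432) (node 591 (merge (leaf 6 463 496) (node 590 (merge (leaf 5 462 558) (leaf 5 494 622)))))))))) (node 559 (merge (node 590 (merge (leaf 5 462 558)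 (node 462 (merge (leaf 7 430 430) (node 591 (merge (leaf 7 462 494) (leaf 5 494 622))))))) (merge (node 464 (merge (leaf 6 431 432) (node 591 (merge (leaf 6 463 496) (node 590 (merge (leaf 5 462 558) (leaf 5 494 622))))))) (merge (node 464 (merge (leaf 6 431 432) (node 462 (merge (leaf 7 430 430) (node 494 (merge (leaf 7 462 591) (node 493 (merge (leaf 1 461 465) (leaf 0 492 492))))))))) (node 558 (merge (leaf 5 462 590) (node 557 (merge (leaf 2 524 556) (node 560 (merge (leaf 2 525 529) (node 589 (merge (leaf 1 556 588) (node 525 (merge (leaf 3 524 524) (node 464 (merge (leaf 6 431 432) (node 462 (merge (leaf 7 430 430) (node 493 (merge (leaf 6 461 494) (node 492 (merge (leaf 7 460 460) (leaf 1 460 461)))))))))))))))))))))))))))) (merge (node 463 (merge (node 560 (merge (leaf 4 431 431) (node 592 (merge (leaf 4 463 559) (leaf 7 495 624))))) (merge (node 431 (merge (leaf 4 431 560) (node 399 (merge (leaf 4 399 496) (node 400 (merge (leaf 6 367 368) (leaf 6 399 432))))))) (merge (node 559 (merge (node 432 (merge (leaf 6 431 464) (node 431 (merge (leaf 6 399 400) (node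 430 (merge (leaf 7 398 398) (leaf 7 430 462))))))) (merge (node 590 (merge (leaf 5 462 558) (node 462 (merge (leaf 7 430 430) (node 591 (merge (leaf 7 462 494) (leaf 5 494 622))))))) (node 464 (merge (leaf 6 431 432) (node 591 (merge (leaf 6 463 496) (node 590 (merge (leaf 5 462 558) (leaf 5 494 622)))))))))) (node 559 (merge (node 592 (merge (leaf 4 463 560) (node 591 (merge (leaf 4 495 624) (node 462 (merge (leaf 7 430 430) (leaf 7 462 494))))))) (merge (node 464 (merge (leaf 6 431 432) (node 591 (merge (leaf 6 463 496) (node 590 (merge (leaf 5 462 558) (leaf 5 494 622))))))) (node 560 (merge (leaf 4 463 592) (node 558 (merge (leaf 5 462 590) (node 557 (merge (leaf 2 524 556) (node 589 (merge (leaf 1 556 588) (node 525 (merge (leaf 3 524 524) (node 464 (merge (leaf 6 431 432) (node 462 (merge (leaf 7 430 430) (node 493 (merge (leaf 6 461 494) (node 492 (merge (leaf 7 460 460) (leaf 1 460 461)))))))))))))))))))))))))) (merge (node 463 (merge (node 560 (merge (leaf 4 431 431) (node 592 (merge (leaf 4 463 559) (leaf 7 495 624))))) (merge (node 560 (merge (leaf 4 431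 431) (node 592 (merge (leaf 7 463 496) (leaf 7 495 624))))) (merge (node 559 (merge (node 592 (merge (leaf 4 463 560) (node 464 (merge (leaf 6 431 432) (node 591 (merge (leaf 6 463 496) (leaf 4 495 624))))))) (merge (node 464 (merge (leaf 6 431 432) (node 591 (merge (leaf 6 463 496) (node 590 (merge (leaf 5 462 558) (leaf 5 494 622))))))) (merge (node 590 (merge (leaf 5 462 558) (node 591 (merge (leaf 5 494 622) (node 624 (merge (leaf 4 495 592) (node 623 (merge (leaf 6 495 496) (leaf 4 527 656))))))))) (node 560 (merge (leaf 4 463 592) (node 558 (merge (leaf 5 462 590) (node 557 (merge (leaf 2 525 529) (leaf 2 524 556))))))))))) (node 496 (merge (node 431 (merge (leaf 4 399 399) (node 432 (merge (leaf 6 399 400) (node 559 (merge (leaf 5 431 464) (node 590 (merge (leaf 5 462 558) (node 591 (merge (leaf 5 494 622) (leaf 6 495 623))))))))))) (merge (node 497 (merge (node 498 (merge (leaf 3 462 462) (leaf 1 495 499))) (merge (node 498 (merge (leaf 1 495 499) (node 530 (merge (leaf 0 495 531) (node 494 (merge (leaf 0 494 529) (node 466 (merge (leaf 2 462 465) (leaf 2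 463 467))))))))) (node 494 (merge (node 493 (merge (leaf 0 492 492) (node 465 (merge (leaf 2 461 464) (leaf 2 462 466))))) (merge (node 493 (merge (leaf 0 492 492) (node 461 (merge (leaf 3 460 460) (leaf 3 461 462))))) (node 529 (merge (leaf 0 494 530) (node 465 (merge (leaf 2 462 466) (node 462 (merge (leaf 3 461 461) (node 433 (merge (leaf 5 400 401) (node 434 (merge (leaf 6 401 402) (leaf 2 430 464))))))))))))))))) (merge (node 462 (merge (node 461 (merge (leaf 0 460 460) (node 497 (merge (leaf 0 461 464) (leaf 3 462 498))))) (merge (node 461 (merge (leaf 0 460 460) (node 497 (merge (leaf 3 461 494) (leaf 3 462 498))))) (merge (node 498 (merge (leaf 3 462 497) (node 431 (merge (leaf 4 399 399) (node 432 (merge (leaf 6 399 400) (node 433 (merge (leaf 1 430 434) (node 464 (merge (leaf 6 400 401) (node 529 (merge (leaf 4 432 561) (node 530 (merge (leaf 3 494 494) (leaf 2 495 499))))))))))))))) (node 461 (merge (leaf 0 460 460) (node 431 (merge (leaf 4 399 399) (node 432 (merge (leaf 6 399 400) (node 433 (merge (leaf 1 430 434) (leaf 2 429 464))))))))))))) (node 497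 (merge (node 498 (merge (leaf 3 462 462) (leaf 1 495 499))) (merge (node 530 (merge (node 529 (merge (leaf 0 494 494) (leaf 3 495 531))) (merge (node 498 (merge (leaf 0 495 531) (node 466 (merge (leaf 2 463 467) (node 465 (merge (leaf 2 462 494) (node 562 (merge (leaf 7 433 433) (leaf 7 465 594))))))))) (merge (node 529 (merge (leaf 0 494 494) (node 562 (merge (leaf 0 527 563) (node 465 (merge (leaf 4 433 433) (node 594 (merge (leaf 4 465 561) (leaf 7 497 626))))))))) (node 529 (merge (leaf 3 495 531) (node 562 (merge (leaf 0 527 563) (node 465 (merge (leaf 4 433 433) (node 594 (merge (leaf 4 465 561) (leaf 7 497 626))))))))))))) (node 494 (merge (node 529 (merge (leaf 0 493 493) (leaf 0 494 530))) (merge (node 493 (merge (leaf 0 492 492) (node 461 (merge (leaf 3 460 460) (leaf 3 461 462))))) (node 465 (merge (leaf 2 462 466) (node 462 (merge (leaf 3 461 461) (node 431 (merge (leaf 4 399 399) (node 433 (merge (leaf 5 400 401) (node 432 (merge (leaf 6 399 400) (leaf 1 430 434))))))))))))))))))))))))) (merge (node 560 (merge (node 592 (merge (leaf 7 495 624) (node 463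 (merge (leaf 7 463 496) (leaf 4 463 559))))) (merge (node 592 (merge (leaf 7 495 624) (node 496 (merge (leaf 7 463 463) (node 593 (merge (leaf 4 496 625) (node 497 (merge (leaf 6 464 465) (node 498 (merge (leaf 1 495 499) (node 530 (merge (leaf 0 495 531) (node 529 (merge (leaf 0 494 494) (node 466 (merge (leaf 2 463 467) (leaf 6 465 561))))))))))))))))) (merge (node 592 (merge (leaf 7 495 624) (node 463 (merge (leaf 7 463 496) (leaf 4 463 559))))) (merge (node 592 (merge (leaf 7 495 624) (node 496 (merge (node 593 (merge (leaf 4 496 625) (node 561 (merge (leaf 4 464 464) (node 562 (merge (leaf 3 527 563) (node 591 (merge (leaf 2 558 590) (leaf 5 495 623))))))))) (node 497 (merge (leaf 6 464 465) (node 498 (merge (leaf 1 495 499) (node 530 (merge (leaf 0 495 531) (node 494 (merge (leaf 0 494 529) (node 493 (merge (leaf 0 492 492) (node 461 (merge (leaf 3 460 460) (leaf 3 461 462))))))))))))))))) (merge (node 559 (merge (node 463 (merge (leaf 4 463 592) (node 558 (merge (leaf 5 462 590) (node 557 (merge (leaf 2 525 529) (leaf 2 524 556))))))) (merge (node 463 (merge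 (leaf 4 463 592) (node 464 (merge (leaf 6 431 432) (node 591 (merge (leaf 5 463 496) (node 462 (merge (leaf 7 430 430) (leaf 7 462 494))))))))) (merge (node 463 (merge (leaf 4 463 592) (node 590 (merge (leaf 5 462 558) (node 591 (merge (leaf 5 494 622) (node 496 (merge (leaf 5 463 464) (leaf 6 495 623))))))))) (merge (node 464 (merge (node 496 (merge (leaf 5 431 432) (leaf 6 463 591))) (merge (node 432 (merge (leaf 6 431 463) (leaf 5 431 496))) (merge (node 463 (merge (leaf 6 431 432) (node 462 (merge (leaf 7 430 430) (node 494 (merge (leaf 7 462 591) (node 493 (merge (leaf 1 461 465) (leaf 0 492 492))))))))) (node 591 (merge (leaf 6 463 496) (node 590 (merge (leaf 5 494 622) (node 463 (merge (leaf 5 462 558) (node 462 (merge (leaf 7 430 430) (leaf 7 462 494))))))))))))) (node 494 (merge (node 493 (merge (leaf 0 492 492) (node 529 (merge (leaf 0 493 496) (leaf 3 494 530))))) (merge (node 591 (merge (leaf 7 462 462) (node 623 (merge (leaf 6 495 496) (node 622 (merge (leaf 5 494 590) (leaf 5 526 654))))))) (node 591 (merge (leaf 7 462 462) (node 590 (merge (leaf 5 494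 622) (node 589 (merge (leaf 2 556 588) (node 561 (merge (leaf 1 557 558) (leaf 2 557 592))))))))))))))))) (merge (node 559 (merge (node 592 (merge (leaf 4 463 463) (leaf 7 495 624))) (merge (node 529 (merge (node 558 (merge (leaf 1 526 530) (leaf 2 525 557))) (merge (node 530 (merge (leaf 3 494 494) (node 563 (merge (leaf 0 527 562) (node 531 (merge (leaf 1 527 560) (leaf 0 528 564))))))) (node 558 (merge (leaf 2 525 557) (node 463 (merge (leaf 5 462 590) (node 464 (merge (leaf 6 431 432) (node 462 (merge (leaf 7 430 430) (node 494 (merge (leaf 7 462 591) (node 493 (merge (leaf 1 461 465) (leaf 0 492 492)))))))))))))))) (node 561 (merge (node 562 (merge (leaf 3 527 563) (node 530 (merge (leaf 2 527 531) (node 529 (merge (leaf 3 494 494) (leaf 2 526 558))))))) (merge (node 562 (merge (leaf 3 527 563) (node 594 (merge (leaf 0 559 595) (node 558 (merge (leaf 0 558 593) (node 589 (merge (leaf 1 557 590) (node 557 (merge (leaf 2 524 556) (leaf 1 556 588))))))))))) (merge (node 562 (merge (leaf 3 527 563) (node 594 (merge (leaf 0 559 595) (node 558 (merge (leaf 0 558 593)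 (node 557 (merge (leaf 2 525 529) (leaf 2 524 556))))))))) (merge (node 529 (merge (node 530 (merge (leaf 3 494 494) (leaf 1 527 531))) (node 558 (merge (leaf 2 525 557) (node 593 (merge (leaf 0 558 594) (node 625 (merge (leaf 7 528 657) (node 624 (merge (leaf 7 495 592) (leaf 5 528 656))))))))))) (node 562 (merge (leaf 3 527 563) (node 530 (merge (leaf 2 527 531) (node 529 (merge (leaf 3 494 494) (node 498 (merge (leaf 2 495 499) (node 466 (merge (leaf 5 433 434) (leaf 5 465 593))))))))))))))))))) (node 559 (merge (node 464 (merge (node 496 (merge (leaf 5 431 432) (leaf 6 463 591))) (merge (node 432 (merge (leaf 6 431 463) (leaf 5 431 496))) (merge (node 463 (merge (leaf 6 431 432) (node 462 (merge (leaf 7 430 430) (node 494 (merge (leaf 7 462 591) (node 493 (merge (leaf 1 461 465) (leaf 0 492 492))))))))) (node 591 (merge (leaf 6 463 496) (node 590 (merge (leaf 5 494 622) (node 463 (merge (leaf 5 462 558) (node 462 (merge (leaf 7 430 430) (leaf 7 462 494))))))))))))) (merge (node 591 (merge (node 623 (merge (leaf 6 495 496) (leaf 6 527 655))) (merge (node 622 (merge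 (leaf 5 494 590) (node 623 (merge (leaf 5 526 654) (node 656 (merge (leaf 4 527 624) (node 655 (merge (leaf 6 527 560) (leaf 4 559 688))))))))) (node 590 (merge (leaf 5 494 622) (node 558 (merge (leaf 5 462 463) (node 557 (merge (leaf 2 525 529) (leaf 2 524 556)))))))))) (merge (node 591 (merge (node 622 (merge (leaf 5 494 590) (node 623 (merge (leaf 5 526 654) (node 656 (merge (leaf 4 527 624) (node 655 (merge (leaf 6 527 560) (leaf 4 559 688))))))))) (node 494 (merge (leaf 7 462 462) (node 493 (merge (leaf 0 492 492) (node 529 (merge (leaf 0 493 496) (leaf 3 494 530))))))))) (merge (node 494 (merge (node 493 (merge (leaf 0 492 492) (node 529 (merge (leaf 0 493 496) (leaf 3 494 530))))) (merge (node 591 (merge (leaf 7 462 462) (node 623 (merge (leaf 6 495 496) (node 656 (merge (leaf 4 527 624) (node 655 (merge (leaf 6 527 560) (leaf 4 559 688))))))))) (node 493 (merge (leaf 0 492 492) (node 462 (merge (leaf 7 462 591) (node 463 (merge (leaf 7 430 430) (node 464 (merge (leaf 6 431 432) (leaf 1 461 465)))))))))))) (merge (node 529 (merge (node 558 (merge (leaf 1 526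 530) (leaf 2 525 557))) (merge (node 530 (merge (leaf 3 494 494) (node 563 (merge (leaf 0 527 562) (node 531 (merge (leaf 1 527 560) (leaf 0 528 564))))))) (node 558 (merge (leaf 2 525 557) (node 463 (merge (leaf 5 462 590) (node 464 (merge (leaf 6 431 432) (node 462 (merge (leaf 7 430 430) (node 494 (merge (leaf 7 462 591) (node 493 (merge (leaf 1 461 465) (leaf 0 492 492)))))))))))))))) (node 561 (merge (node 562 (merge (leaf 3 527 563) (node 530 (merge (leaf 2 527 531) (node 529 (merge (leaf 3 494 494) (leaf 2 526 558))))))) (merge (node 562 (merge (leaf 3 527 563) (node 594 (merge (leaf 0 559 595) (node 558 (merge (leaf 0 558 593) (node 557 (merge (leaf 2 525 529) (leaf 2 524 556))))))))) (merge (node 529 (merge (node 530 (merge (leaf 3 494 494) (leaf 1 527 531))) (node 558 (merge (leaf 2 525 557) (node 593 (merge (leaf 0 558 594) (node 625 (merge (leaf 7 496 496) (leaf 7 528 657))))))))) (merge (node 562 (merge (leaf 3 527 563) (node 594 (merge (leaf 0 559 595) (node 558 (merge (leaf 0 558 593) (node 589 (merge (leaf 1 557 590) (node 557 (merge (leaf 2 524 556)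 (leaf 1 556 588))))))))))) (node 562 (merge (leaf 3 527 563) (node 530 (merge (leaf 2 527 531) (node 529 (merge (leaf 3 494 494) (node 498 (merge (leaf 2 495 499) (node 466 (merge (leaf 5 433 434) (leaf 5 465 593))))))))))))))))))))))))))))) (merge (node 529 (merge (node 530 (merge (leaf 3 494 494) (node 563 (merge (leaf 0 527 562) (node 531 (merge (leaf 3 495 496) (leaf 0 528 564))))))) (merge (node 530 (merge (leaf 3 494 494) (node 563 (merge (leaf 0 527 562) (node 531 (merge (leaf 0 528 564) (node 499 (merge (leaf 2 495 498) (leaf 2 496 500))))))))) (merge (node 559 (merge (node 530 (merge (leaf 1 526 558) (node 499 (merge (leaf 2 495 498) (node 531 (merge (leaf 3 495 496) (leaf 2 496 500))))))) (merge (node 463 (merge (node 560 (merge (leaf 4 431 431) (leaf 4 463 592))) (merge (node 432 (merge (leaf 6 431 464) (node 431 (merge (leaf 6 399 400) (node 430 (merge (leaf 7 398 398) (leaf 7 430 462))))))) (node 558 (merge (leaf 5 462 590) (node 557 (merge (leaf 2 524 556) (leaf 2 525 560)))))))) (node 463 (merge (node 560 (merge (leaf 4 431 431) (leaf 4 463 592))) (merge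 (node 432 (merge (leaf 6 431 464) (node 431 (merge (leaf 6 399 400) (node 430 (merge (leaf 7 398 398) (leaf 7 430 462))))))) (node 560 (merge (leaf 4 463 592) (node 530 (merge (leaf 1 527 531) (node 498 (merge (leaf 2 495 499) (node 464 (merge (leaf 6 431 432) (node 462 (merge (leaf 7 430 430) (node 497 (merge (leaf 0 462 465) (leaf 3 462 496))))))))))))))))))) (node 463 (merge (node 560 (merge (leaf 4 431 431) (node 592 (merge (leaf 4 463 559) (leaf 7 495 624))))) (merge (node 431 (merge (leaf 4 431 560) (node 399 (merge (leaf 4 399 496) (node 400 (merge (leaf 6 367 368) (leaf 6 399 432))))))) (merge (node 431 (merge (node 399 (merge (leaf 4 399 496) (node 398 (merge (leaf 7 366 366) (leaf 7 398 430))))) (merge (node 432 (merge (leaf 6 399 400) (node 559 (merge (leaf 6 431 464) (node 430 (merge (leaf 7 398 398) (leaf 7 430 462))))))) (merge (node 399 (merge (leaf 4 399 496) (node 368 (merge (leaf 6 367 400) (node 367 (merge (leaf 6 335 336) (node 366 (merge (leaf 7 334 334) (leaf 7 366 398))))))))) (node 399 (merge (leaf 4 399 496) (node 368 (merge (leaf 6 367 400)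 (node 367 (merge (leaf 6 335 336) (node 462 (merge (leaf 5 366 494) (node 430 (merge (leaf 5 334 335) (leaf 7 430 559))))))))))))))) (node 464 (merge (node 432 (merge (leaf 6 431 559) (node 400 (merge (leaf 5 367 368) (leaf 5 399 496))))) (merge (node 559 (merge (leaf 6 431 432) (node 560 (merge (leaf 4 463 592) (node 558 (merge (leaf 5 462 590) (node 557 (merge (leaf 2 525 529) (leaf 2 524 556))))))))) (merge (node 496 (merge (node 432 (merge (leaf 5 399 400) (leaf 4 432 561))) (merge (node 494 (merge (leaf 0 493 493) (node 465 (merge (leaf 1 462 466) (node 560 (merge (leaf 6 432 433) (leaf 7 463 592))))))) (node 432 (merge (leaf 5 399 400) (node 433 (merge (leaf 6 400 401) (node 434 (merge (leaf 1 431 435) (node 465 (merge (leaf 2 430 462) (node 494 (merge (leaf 1 462 466) (leaf 2 461 493)))))))))))))) (node 462 (merge (node 430 (merge (leaf 7 430 559) (node 398 (merge (leaf 4 366 366) (leaf 4 398 494))))) (merge (node 559 (merge (leaf 7 430 430) (node 558 (merge (leaf 5 462 590) (node 557 (merge (leaf 2 524 556) (leaf 2 525 560))))))) (node 496 (merge (node 497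 (merge (leaf 0 461 461) (leaf 3 462 498))) (merge (node 461 (merge (leaf 0 460 460) (node 493 (merge (leaf 1 460 492) (leaf 0 493 494))))) (node 494 (merge (leaf 0 493 493) (node 465 (merge (leaf 1 462 466) (node 433 (merge (leaf 2 430 434) (leaf 6 432 560))))))))))))))))))))))))) (merge (hyp 0) (merge (node 463 (merge (node 560 (merge (leaf 4 431 431) (node 592 (merge (leaf 4 463 559) (leaf 7 495 624))))) (merge (node 431 (merge (leaf 4 431 560) (node 400 (merge (leaf 6 399 432) (node 399 (merge (leaf 6 367 368) (node 398 (merge (leaf 7 366 366) (leaf 7 398 430))))))))) (merge (node 529 (merge (node 530 (merge (leaf 3 494 494) (node 563 (merge (leaf 0 527 562) (node 531 (merge (leaf 0 528 564) (node 499 (merge (leaf 2 495 498) (leaf 2 496 500))))))))) (merge (node 559 (merge (node 558 (merge (leaf 5 462 590) (node 557 (merge (leaf 2 524 556) (leaf 2 525 560))))) (merge (node 592 (merge (leaf 4 463 560) (node 591 (merge (leaf 4 495 624) (node 462 (merge (leaf 7 430 430) (leaf 7 462 494))))))) (node 590 (merge (leaf 5 462 558) (node 591 (merge (leaf 5 494 622) (node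 462 (merge (leaf 7 430 430) (leaf 7 462 494)))))))))) (node 530 (merge (node 563 (merge (leaf 0 527 562) (node 531 (merge (leaf 0 528 564) (node 499 (merge (leaf 2 495 498) (leaf 2 496 500))))))) (merge (node 559 (merge (leaf 1 526 558) (node 560 (merge (leaf 1 527 531) (leaf 4 463 592))))) (node 562 (merge (leaf 0 527 563) (node 559 (merge (leaf 1 526 558) (node 498 (merge (leaf 2 495 499) (node 464 (merge (leaf 6 431 432) (node 462 (merge (leaf 7 430 430) (node 465 (merge (leaf 0 462 497) (node 433 (merge (leaf 2 430 434) (leaf 7 433 466))))))))))))))))))))) (node 432 (merge (node 400 (merge (leaf 6 399 431) (node 464 (merge (leaf 5 367 368) (leaf 6 431 559))))) (merge (node 559 (merge (leaf 6 431 464) (node 590 (merge (leaf 5 462 558) (node 462 (merge (leaf 7 430 430) (node 591 (merge (leaf 7 462 494) (leaf 5 494 622))))))))) (merge (node 431 (merge (leaf 6 399 400) (node 430 (merge (leaf 7 398 398) (node 462 (merge (leaf 7 430 559) (node 433 (merge (leaf 1 430 434) (leaf 1 429 461))))))))) (node 462 (merge (node 431 (merge (leaf 6 399 400) (node 433 (merge (leaf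 1 430 434) (node 430 (merge (leaf 7 398 398) (leaf 1 429 461))))))) (merge (node 431 (merge (leaf 6 399 400) (node 398 (merge (leaf 7 398 430) (node 399 (merge (leaf 7 366 366) (node 367 (merge (leaf 5 366 494) (node 335 (merge (leaf 4 335 464) (node 336 (merge (leaf 6 303 304) (leaf 6 335 368))))))))))))) (merge (node 431 (merge (leaf 6 399 400) (node 461 (merge (leaf 2 428 460) (node 464 (merge (leaf 2 429 433) (node 493 (merge (leaf 1 460 492) (node 465 (merge (leaf 1 461 494) (node 498 (merge (leaf 0 462 497) (node 466 (merge (leaf 3 431 467) (leaf 0 463 499))))))))))))))) (merge (node 464 (merge (node 461 (merge (leaf 2 429 433) (node 492 (merge (leaf 1 460 493) (node 460 (merge (leaf 2 428 431) (leaf 1 459 491))))))) (merge (node 430 (merge (node 398 (merge (leaf 4 366 366) (leaf 4 398 494))) (merge (node 465 (merge (leaf 3 429 429) (node 431 (merge (leaf 7 398 398) (leaf 3 430 466))))) (node 465 (merge (leaf 3 429 429) (node 466 (merge (leaf 3 430 431) (leaf 1 462 494)))))))) (node 433 (merge (leaf 2 429 461) (node 434 (merge (leaf 1 431 435) (leaf 2 430 465))))))))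 (node 464 (merge (node 461 (merge (leaf 2 429 433) (node 493 (merge (leaf 1 460 492) (node 429 (merge (leaf 3 428 428) (node 430 (merge (leaf 3 429 465) (node 398 (merge (leaf 4 366 366) (leaf 6 397 525))))))))))) (merge (node 430 (merge (node 398 (merge (leaf 4 366 366) (leaf 4 398 494))) (merge (node 465 (merge (leaf 3 429 429) (node 498 (merge (leaf 0 462 497) (node 466 (merge (leaf 1 462 494) (leaf 0 463 499))))))) (node 465 (merge (leaf 3 429 429) (node 497 (merge (leaf 0 462 498) (node 433 (merge (leaf 2 430 434) (node 529 (merge (leaf 7 400 400) (leaf 7 432 561)))))))))))) (merge (node 430 (merge (node 398 (merge (leaf 4 366 366) (leaf 4 398 494))) (merge (node 465 (merge (leaf 3 429 429) (node 498 (merge (leaf 0 462 497) (node 466 (merge (leaf 1 462 494) (leaf 0 463 499))))))) (node 429 (merge (leaf 3 429 465) (node 428 (merge (leaf 0 427 427) (leaf 3 428 461)))))))) (node 461 (merge (leaf 2 429 433) (node 492 (merge (leaf 1 460 493) (node 460 (merge (leaf 1 459 491) (node 459 (merge (leaf 0 459 494) (node 427 (merge (leaf 3 426 426) (leaf 3 427 428))))))))))))))))))))))))))))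 (merge (hyp 1) (hyp 2)))))))))))))) nG_18 cG_18 13 (by decide +kernel)

end Crest.Agent.H26Snaky
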