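import Crest.Agent.H26SnG00

/-! certificate data for S0047, part G 1 (computer generated) -/

set_option autoImplicit false
set_option maxRecDepth 100000

namespace Crest.Agent.H26Snaky

open T

def nG_19 : ℕ := 0x1800000010000000000000000000000000000000000000000000000000000000000000000000000000000000000000000000000000000000000000000000000000000
def cG_19 : ℕ := 0x40000003d000000ff0000007f800000c7000000ef000000ef0000003e0000003e000000000000000000000000000000000000000000000000000000000000000000000000000000000000000000000000000
theorem lG_19 : S nG_19 cG_19 12 := S_of_chk [] trivial (node 495 (merge (node 463 (merge (node 560 (merge (leaf 4 431 431) (leaf 7 463 592))) (merge (node 431 (merge (leaf 4 399 399) (node 558 (merge (leaf 5 430 526) (node 430 (merge (leaf 7 398 398) (node 559 (merge (leaf 7 430 462) (leaf 5 462 590))))))))) (node 462 (merge (node 461 (merge (leaf 0 460 460) (node 497 (merge (leaf 3 461 494) (leaf 3 462 498))))) (node 559 (merge (leaf 7 430 430) (node 592 (merge (leaf 4 463 560) (node 591 (merge (leaf 6 495 623) (leaf 4 495 624))))))))))))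 (merge (node 497 (merge (node 498 (merge (leaf 1 495 499) (leaf 1 494 526))) (merge (node 498 (merge (leaf 1 495 499) (node 463 (merge (leaf 3 462 462) (node 560 (merge (leaf 4 431 431) (leaf 7 463 592))))))) (node 494 (merge (node 493 (merge (leaf 0 492 492) (node 461 (merge (leaf 3 460 460) (leaf 3 461 462))))) (merge (node 493 (merge (leaf 0 492 492) (node 525 (merge (leaf 1 492 524) (leaf 1 493 526))))) (node 526 (merge (leaf 1 493 525) (node 465 (merge (leaf 2 462 466) (node 462 (merge (leaf 3 461 461) (node 430 (merge (leaf 4 398 398) (node 431 (merge (leaf 6 398 399) (node 560 (merge (leaf 4 431 463) (leaf 6 464 592))))))))))))))))))) (merge (node 463 (merge (node 431 (merge (leaf 4 399 399) (node 526 (merge (leaf 5 430 558) (node 525 (merge (leaf 2 493 497) (leaf 2 492 524))))))) (merge (node 431 (merge (leaf 4 399 399) (node 558 (merge (leaf 5 430 526) (node 430 (merge (leaf 7 398 398) (node 559 (merge (leaf 7 430 462) (leaf 5 462 590))))))))) (merge (node 431 (merge (leaf 4 399 399) (node 432 (merge (leaf 6 399 400) (node 430 (merge (leaf 7 398 398)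 (node 462 (merge (leaf 7 430 559) (node 461 (merge (leaf 1 429 433) (leaf 0 460 460))))))))))) (node 462 (merge (node 559 (merge (leaf 7 430 430) (node 591 (merge (leaf 6 495 623) (node 590 (merge (leaf 5 462 558) (leaf 5 494 622))))))) (merge (node 497 (merge (leaf 3 462 498) (node 525 (merge (leaf 2 493 526) (node 494 (merge (leaf 3 461 461) (node 493 (merge (leaf 0 492 492) (leaf 1 492 524))))))))) (node 497 (merge (leaf 3 462 498) (node 525 (merge (leaf 2 493 526) (node 494 (merge (leaf 3 461 461) (node 493 (merge (leaf 0 492 492) (leaf 1 492 524)))))))))))))))) (merge (node 559 (merge (node 560 (merge (node 592 (merge (leaf 7 495 624) (node 497 (merge (leaf 6 464 465) (node 498 (merge (leaf 1 495 499) (leaf 1 494 526))))))) (node 591 (merge (leaf 6 495 623) (node 590 (merge (leaf 5 494 622) (node 561 (merge (leaf 1 558 562) (node 589 (merge (leaf 1 557 558) (leaf 2 556 588))))))))))) (merge (node 591 (merge (leaf 6 495 623) (node 592 (merge (leaf 4 495 624) (node 590 (merge (leaf 5 494 622) (node 494 (merge (leaf 7 462 462) (node 493 (merge (leaf 0 492 492)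 (node 525 (merge (leaf 1 492 524) (node 461 (merge (leaf 3 460 460) (node 557 (merge (leaf 4 461 558) (node 556 (merge (leaf 5 460 588) (leaf 3 556 589))))))))))))))))))) (merge (node 591 (merge (leaf 6 495 623) (node 494 (merge (leaf 7 462 462) (node 493 (merge (leaf 0 492 492) (node 525 (merge (leaf 1 492 524) (node 497 (merge (leaf 1 493 526) (node 498 (merge (leaf 1 495 499) (node 466 (merge (leaf 2 462 465) (leaf 2 463 467))))))))))))))) (node 560 (merge (node 592 (merge (leaf 7 495 624) (node 497 (merge (leaf 6 464 465) (node 498 (merge (leaf 1 495 499) (leaf 1 494 526))))))) (merge (node 592 (merge (leaf 7 495 624) (node 593 (merge (leaf 4 496 625) (node 558 (merge (leaf 0 557 557) (node 594 (merge (leaf 0 558 561) (leaf 3 559 595))))))))) (node 494 (merge (node 493 (merge (leaf 0 492 492) (node 525 (merge (leaf 1 492 524) (node 526 (merge (leaf 2 493 497) (leaf 0 525 561))))))) (merge (node 497 (merge (node 498 (merge (leaf 1 495 499) (leaf 1 494 526))) (merge (node 462 (merge (leaf 3 461 461) (node 430 (merge (leaf 4 398 398) (leaf 4 430 526))))) (node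 498 (merge (leaf 1 495 499) (node 466 (merge (leaf 2 462 465) (leaf 2 463 467)))))))) (merge (node 493 (merge (leaf 0 492 492) (node 461 (merge (leaf 3 460 460) (node 497 (merge (leaf 3 461 462) (node 498 (merge (leaf 1 495 499) (node 466 (merge (leaf 2 462 465) (leaf 2 463 467))))))))))) (node 493 (merge (leaf 0 492 492) (node 525 (merge (leaf 1 492 524) (node 526 (merge (leaf 0 525 561) (node 461 (merge (leaf 3 460 460) (node 429 (merge (leaf 4 397 397) (leaf 4 429 558)))))))))))))))))))))) (merge (node 463 (merge (node 560 (merge (leaf 4 431 431) (leaf 7 463 592))) (merge (node 431 (merge (leaf 4 399 399) (node 526 (merge (leaf 5 430 558) (node 525 (merge (leaf 2 493 497) (leaf 2 492 524))))))) (node 559 (merge (node 591 (merge (leaf 6 495 623) (node 592 (merge (leaf 4 495 624) (node 463 (merge (leaf 4 463 560) (node 590 (merge (leaf 5 462 558) (leaf 5 494 622))))))))) (merge (node 590 (merge (leaf 5 462 558) (node 591 (merge (leaf 5 494 622) (leaf 6 495 623))))) (merge (node 560 (merge (leaf 4 463 592) (node 558 (merge (leaf 5 462 590) (node 557 (merge (leaf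 2 524 556) (node 525 (merge (leaf 3 524 524) (node 497 (merge (leaf 2 493 526) (node 462 (merge (leaf 7 430 430) (leaf 3 462 498))))))))))))) (merge (node 591 (merge (leaf 6 495 623) (node 592 (merge (leaf 4 495 624) (node 560 (merge (leaf 4 463 463) (node 590 (merge (leaf 5 494 622) (node 589 (merge (leaf 2 557 561) (leaf 2 556 588))))))))))) (node 591 (merge (leaf 6 495 623) (node 592 (merge (leaf 4 495 624) (node 560 (merge (leaf 4 463 463) (node 593 (merge (leaf 4 496 625) (node 594 (merge (leaf 3 558 558) (leaf 3 559 595))))))))))))))))))) (merge (node 559 (merge (node 591 (merge (leaf 6 495 623) (node 590 (merge (leaf 5 494 622) (node 463 (merge (leaf 5 462 558) (node 431 (merge (leaf 4 399 399) (node 430 (merge (leaf 7 398 398) (leaf 7 430 462))))))))))) (merge (node 463 (merge (node 560 (merge (leaf 4 431 431) (leaf 4 463 592))) (merge (node 431 (merge (leaf 4 399 399) (node 430 (merge (leaf 7 398 398) (leaf 7 430 462))))) (node 558 (merge (leaf 5 462 590) (node 557 (merge (leaf 2 524 556) (node 462 (merge (leaf 7 430 430) (node 497 (merge (leaf 3 462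 498) (node 494 (merge (leaf 3 461 461) (node 493 (merge (leaf 0 492 492) (node 525 (merge (leaf 1 492 524) (leaf 6 461 589)))))))))))))))))) (merge (node 591 (merge (leaf 6 495 623) (node 592 (merge (leaf 4 495 624) (node 590 (merge (leaf 5 494 622) (node 494 (merge (leaf 7 462 462) (node 493 (merge (leaf 0 492 492) (node 525 (merge (leaf 1 492 524) (node 461 (merge (leaf 3 460 460) (node 557 (merge (leaf 4 461 558) (node 556 (merge (leaf 5 460 588) (leaf 3 556 589))))))))))))))))))) (merge (node 591 (merge (leaf 6 495 623) (node 592 (merge (leaf 4 495 624) (node 560 (merge (leaf 4 463 463) (node 590 (merge (leaf 5 494 622) (node 589 (merge (leaf 2 557 561) (leaf 2 556 588))))))))))) (node 591 (merge (leaf 6 495 623) (node 592 (merge (leaf 4 495 624) (node 560 (merge (leaf 4 463 463) (node 593 (merge (leaf 4 496 625) (node 594 (merge (leaf 3 558 558) (leaf 3 559 595)))))))))))))))) (merge (node 525 (merge (node 493 (merge (node 494 (merge (leaf 0 492 492) (leaf 1 492 524))) (merge (node 524 (merge (leaf 1 492 494) (leaf 2 492 526))) (merge (node 492 (merge (leaf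 0 492 494) (leaf 3 492 526))) (node 526 (merge (leaf 3 492 492) (node 524 (merge (leaf 2 492 495) (node 556 (merge (leaf 1 523 555) (leaf 1 524 557))))))))))) (merge (node 526 (merge (leaf 2 492 524) (node 560 (merge (leaf 0 525 561) (node 592 (merge (leaf 7 463 463) (leaf 7 495 624))))))) (merge (node 526 (merge (leaf 2 492 524) (node 560 (merge (leaf 0 525 561) (node 592 (merge (leaf 7 463 463) (leaf 7 495 624))))))) (merge (node 559 (merge (node 591 (merge (leaf 6 495 623) (node 592 (merge (leaf 4 495 624) (node 463 (merge (leaf 4 463 560) (node 590 (merge (leaf 5 462 558) (leaf 5 494 622))))))))) (merge (node 591 (merge (leaf 6 495 623) (node 590 (merge (leaf 5 494 622) (node 463 (merge (leaf 5 462 558) (node 431 (merge (leaf 4 399 399) (node 430 (merge (leaf 7 398 398) (leaf 7 430 462))))))))))) (merge (node 463 (merge (node 560 (merge (leaf 4 431 431) (leaf 4 463 592))) (merge (node 431 (merge (leaf 4 399 399) (node 430 (merge (leaf 7 398 398) (leaf 7 430 462))))) (node 560 (merge (leaf 4 463 592) (node 526 (merge (leaf 0 525 561) (node 557 (merge (leaf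 1 524 556) (node 493 (merge (leaf 3 492 492) (node 462 (merge (leaf 7 430 430) (node 589 (merge (leaf 6 461 494) (node 588 (merge (leaf 1 556 558) (leaf 5 492 620)))))))))))))))))) (merge (node 591 (merge (leaf 6 495 623) (node 592 (merge (leaf 4 495 624) (node 590 (merge (leaf 5 494 622) (node 494 (merge (leaf 7 462 462) (node 493 (merge (leaf 0 492 492) (node 461 (merge (leaf 3 460 460) (node 557 (merge (leaf 4 461 558) (node 556 (merge (leaf 5 460 588) (leaf 3 556 589))))))))))))))))) (node 591 (merge (leaf 6 495 623) (node 592 (merge (leaf 4 495 624) (node 560 (merge (leaf 4 463 463) (node 590 (merge (leaf 5 494 622) (node 561 (merge (leaf 1 558 562) (leaf 2 557 589)))))))))))))))) (node 559 (merge (node 591 (merge (leaf 6 495 623) (node 592 (merge (leaf 4 495 624) (node 463 (merge (leaf 4 463 560) (node 590 (merge (leaf 5 462 558) (leaf 5 494 622))))))))) (merge (node 591 (merge (leaf 6 495 623) (node 590 (merge (leaf 5 494 622) (node 463 (merge (leaf 5 462 558) (node 431 (merge (leaf 4 399 399) (node 430 (merge (leaf 7 398 398) (leaf 7 430 462)))))))))))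 (merge (node 463 (merge (node 560 (merge (leaf 4 431 431) (leaf 4 463 592))) (merge (node 431 (merge (leaf 4 399 399) (node 430 (merge (leaf 7 398 398) (leaf 7 430 462))))) (node 560 (merge (leaf 4 463 592) (node 558 (merge (leaf 5 462 590) (node 557 (merge (leaf 3 524 524) (leaf 2 524 556)))))))))) (merge (node 591 (merge (leaf 6 495 623) (node 592 (merge (leaf 4 495 624) (node 590 (merge (leaf 5 494 622) (node 494 (merge (leaf 7 462 462) (node 493 (merge (leaf 0 492 492) (node 461 (merge (leaf 3 460 460) (node 557 (merge (leaf 4 461 558) (node 556 (merge (leaf 5 460 588) (leaf 3 556 589))))))))))))))))) (merge (node 591 (merge (leaf 6 495 623) (node 592 (merge (leaf 4 495 624) (node 560 (merge (leaf 4 463 463) (node 593 (merge (leaf 4 496 625) (node 594 (merge (leaf 3 558 558) (leaf 3 559 595))))))))))) (node 591 (merge (leaf 6 495 623) (node 592 (merge (leaf 4 495 624) (node 560 (merge (leaf 4 463 463) (node 590 (merge (leaf 5 494 622) (node 561 (merge (leaf 1 558 562) (leaf 2 557 589)))))))))))))))))))))) (node 497 (merge (node 498 (merge (leaf 1 495 499)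 (leaf 1 494 526))) (merge (node 498 (merge (leaf 1 495 499) (node 530 (merge (leaf 0 495 531) (node 466 (merge (leaf 2 463 467) (node 465 (merge (leaf 2 462 494) (node 433 (merge (leaf 4 401 401) (leaf 7 433 562))))))))))) (node 559 (merge (node 591 (merge (leaf 6 495 623) (node 592 (merge (leaf 4 495 624) (node 560 (merge (leaf 4 463 463) (leaf 6 464 465))))))) (merge (node 591 (merge (leaf 6 495 623) (node 590 (merge (leaf 5 494 622) (node 463 (merge (leaf 5 462 558) (node 431 (merge (leaf 4 399 399) (leaf 4 431 560))))))))) (merge (node 591 (merge (leaf 6 495 623) (node 592 (merge (leaf 4 495 624) (node 590 (merge (leaf 5 494 622) (node 558 (merge (leaf 5 462 463) (node 557 (merge (leaf 0 556 556) (leaf 3 557 593))))))))))) (merge (node 591 (merge (leaf 6 495 623) (node 592 (merge (leaf 4 495 624) (node 590 (merge (leaf 5 494 622) (node 560 (merge (leaf 6 464 465) (node 561 (merge (leaf 1 558 562) (leaf 2 557 589))))))))))) (node 558 (merge (node 463 (merge (leaf 5 462 590) (node 560 (merge (leaf 4 431 431) (leaf 4 463 592))))) (merge (node 590 (merge (leaf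 5 462 463) (node 622 (merge (leaf 6 494 526) (leaf 6 526 654))))) (merge (node 525 (merge (leaf 2 493 526) (node 557 (merge (leaf 2 524 556) (node 560 (merge (leaf 3 524 524) (node 592 (merge (leaf 4 463 463) (leaf 0 557 593))))))))) (node 525 (merge (leaf 2 493 526) (node 557 (merge (leaf 2 524 556) (node 560 (merge (leaf 3 524 524) (node 589 (merge (leaf 1 556 588) (node 590 (merge (leaf 1 557 561) (node 622 (merge (leaf 4 493 493) (leaf 7 525 654))))))))))))))))))))))))))))))))) nG_19 cG_19 12 (by decide +kernel)
def nG_20 : ℕ := 0x1800000010000000000000000000000000000000000000000000000000000000000000000000000000000000000000000000000000000000000000000000000000000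
def cG_20 : ℕ := 0x50000001f0000003f8000004f800000c7000000ef000000ff0000003f0000003f000000000000000000000000000000000000000000000000000000000000000000000000000000000000000000000000000
theorem lG_20 : S nG_20 cG_20 12 := S_of_chk [] trivial (node 495 (merge (node 559 (merge (node 591 (merge (leaf 6 463 464) (leaf 6 495 623))) (merge (node 591 (merge (leaf 6 495 623) (node 590 (merge (leaf 5 494 622) (node 463 (merge (leaf 5 462 558) (node 431 (merge (leaf 4 399 399) (node 430 (merge (leaf 7 398 398) (leaf 7 430 462))))))))))) (node 463 (merge (node 431 (merge (leaf 4 399 399) (node 432 (merge (leaf 6 399 400) (leaf 6 431 464))))) (merge (node 431 (merge (leaf 4 399 399) (node 430 (merge (leaf 7 398 398) (leaf 7 430 462))))) (node 462 (merge (leaf 7 430 430) (node 461 (merge (leaf 0 460 460) (node 497 (merge (leaf 0 461 464) (leaf 3 462 498))))))))))))) (merge (node 497 (merge (node 498 (merge (leaf 1 495 499) (leaf 1 494 526))) (merge (node 498 (merge (leaf 1 495 499) (node 530 (merge (leaf 0 495 531) (node 466 (merge (leaf 2 463 467) (node 465 (merge (leaf 2 462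 494) (node 433 (merge (leaf 4 401 401) (leaf 7 433 562))))))))))) (node 494 (merge (node 493 (merge (leaf 0 492 492) (node 464 (merge (leaf 2 461 465) (node 559 (merge (leaf 5 431 432) (leaf 6 463 591))))))) (merge (node 462 (merge (leaf 3 461 461) (node 430 (merge (leaf 4 398 398) (node 559 (merge (leaf 4 430 526) (leaf 7 462 591))))))) (node 493 (merge (leaf 0 492 492) (node 525 (merge (leaf 1 492 524) (node 497 (merge (leaf 2 493 526) (node 461 (merge (leaf 3 460 460) (leaf 3 461 462))))))))))))))) (merge (node 463 (merge (node 431 (merge (leaf 4 399 399) (node 526 (merge (leaf 5 430 558) (node 525 (merge (leaf 2 493 497) (leaf 2 492 524))))))) (merge (node 431 (merge (leaf 4 399 399) (node 430 (merge (leaf 7 398 398) (node 559 (merge (leaf 7 430 462) (node 591 (merge (leaf 6 463 464) (leaf 6 495 623))))))))) (node 559 (merge (node 591 (merge (leaf 6 463 464) (leaf 6 495 623))) (merge (node 591 (merge (leaf 6 495 623) (node 462 (merge (leaf 7 430 430) (leaf 7 462 494))))) (node 462 (merge (leaf 7 430 430) (node 497 (merge (leaf 3 462 498) (node 461 (merge (leaf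 0 461 464) (leaf 3 461 494))))))))))))) (merge (node 463 (merge (node 431 (merge (leaf 4 399 399) (node 526 (merge (leaf 5 430 558) (node 525 (merge (leaf 2 493 497) (leaf 2 492 524))))))) (merge (node 431 (merge (leaf 4 399 399) (node 558 (merge (leaf 5 430 526) (node 430 (merge (leaf 7 398 398) (node 559 (merge (leaf 7 430 462) (leaf 5 462 590))))))))) (merge (node 431 (merge (leaf 4 399 399) (node 432 (merge (leaf 6 399 400) (node 430 (merge (leaf 7 398 398) (node 462 (merge (leaf 7 430 559) (node 461 (merge (leaf 1 429 433) (leaf 0 460 460))))))))))) (node 462 (merge (node 559 (merge (leaf 7 430 430) (node 591 (merge (leaf 6 495 623) (node 590 (merge (leaf 5 462 558) (leaf 5 494 622))))))) (merge (node 497 (merge (leaf 3 462 498) (node 525 (merge (leaf 2 493 526) (node 494 (merge (leaf 3 461 461) (node 493 (merge (leaf 0 492 492) (leaf 1 492 524))))))))) (node 497 (merge (leaf 3 462 498) (node 525 (merge (leaf 2 493 526) (node 494 (merge (leaf 3 461 461) (node 493 (merge (leaf 0 492 492) (leaf 1 492 524)))))))))))))))) (merge (node 463 (merge (node 431 (merge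 (leaf 4 399 399) (node 430 (merge (leaf 7 398 398) (node 559 (merge (leaf 7 430 462) (node 591 (merge (leaf 6 463 464) (leaf 6 495 623))))))))) (merge (node 431 (merge (leaf 4 399 399) (node 558 (merge (leaf 5 430 526) (node 559 (merge (leaf 5 462 590) (node 432 (merge (leaf 6 399 400) (leaf 5 431 464))))))))) (merge (node 559 (merge (node 591 (merge (leaf 6 463 464) (leaf 6 495 623))) (merge (node 591 (merge (leaf 6 495 623) (node 462 (merge (leaf 7 430 430) (leaf 7 462 494))))) (node 464 (merge (leaf 5 431 432) (node 558 (merge (leaf 5 462 590) (node 462 (merge (leaf 7 430 430) (node 461 (merge (leaf 0 460 460) (node 493 (merge (leaf 1 460 492) (node 494 (merge (leaf 1 461 465) (node 429 (merge (leaf 3 428 428) (leaf 7 429 526)))))))))))))))))) (node 431 (merge (leaf 4 399 399) (node 526 (merge (leaf 5 430 558) (node 525 (merge (leaf 2 492 524) (node 557 (merge (leaf 1 524 556) (node 493 (merge (leaf 3 492 492) (node 430 (merge (leaf 7 398 398) (node 462 (merge (leaf 6 429 461) (leaf 5 429 494))))))))))))))))))) (merge (node 494 (merge (node 493 (merge (leaf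 0 492 492) (node 525 (merge (leaf 1 492 524) (node 526 (merge (leaf 1 493 497) (node 557 (merge (leaf 1 524 556) (node 589 (merge (leaf 6 461 462) (leaf 6 493 621))))))))))) (merge (node 526 (merge (node 497 (merge (leaf 1 494 498) (leaf 2 493 525))) (merge (node 525 (merge (leaf 2 492 524) (node 557 (merge (leaf 1 524 556) (node 462 (merge (leaf 5 429 430) (node 589 (merge (leaf 5 461 558) (leaf 6 493 621))))))))) (node 497 (merge (leaf 1 494 498) (node 462 (merge (leaf 3 461 461) (node 430 (merge (leaf 4 398 398) (node 431 (merge (leaf 6 398 399) (node 558 (merge (leaf 5 430 463) (node 589 (merge (leaf 5 461 557) (node 590 (merge (leaf 5 493 621) (leaf 6 494 622)))))))))))))))))) (merge (node 493 (merge (leaf 0 492 492) (node 525 (merge (leaf 1 492 524) (node 526 (merge (leaf 1 493 497) (node 461 (merge (leaf 3 460 460) (node 429 (merge (leaf 4 397 397) (leaf 4 429 558))))))))))) (node 493 (merge (leaf 0 492 492) (node 464 (merge (leaf 2 461 465) (node 461 (merge (leaf 3 460 460) (node 432 (merge (leaf 5 399 400) (node 433 (merge (leaf 6 400 401) (node 462 (merge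 (leaf 2 429 463) (node 431 (merge (leaf 7 399 399) (leaf 1 429 430))))))))))))))))))) (merge (node 559 (merge (node 591 (merge (leaf 6 463 464) (leaf 6 495 623))) (merge (node 591 (merge (leaf 6 495 623) (node 592 (merge (leaf 4 495 624) (node 590 (merge (leaf 5 494 622) (node 558 (merge (leaf 5 462 463) (node 557 (merge (leaf 0 556 556) (leaf 3 557 593))))))))))) (node 463 (merge (node 431 (merge (leaf 4 399 399) (node 430 (merge (leaf 7 398 398) (leaf 7 430 462))))) (merge (node 431 (merge (leaf 4 399 399) (node 526 (merge (leaf 5 430 558) (node 525 (merge (leaf 2 493 497) (leaf 2 492 524))))))) (node 464 (merge (leaf 5 431 432) (node 558 (merge (leaf 5 462 590) (node 557 (merge (leaf 2 524 556) (node 462 (merge (leaf 7 430 430) (node 497 (merge (leaf 3 462 498) (node 526 (merge (leaf 2 493 525) (node 494 (merge (leaf 5 461 589) (node 465 (merge (leaf 1 462 466) (leaf 1 461 493))))))))))))))))))))))) (node 525 (merge (node 526 (merge (leaf 2 493 497) (leaf 2 492 524))) (merge (node 497 (merge (leaf 2 493 526) (node 498 (merge (leaf 1 495 499) (node 530 (merge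 (leaf 0 495 531) (node 466 (merge (leaf 2 463 467) (node 465 (merge (leaf 2 462 494) (node 433 (merge (leaf 4 401 401) (leaf 7 433 562))))))))))))) (node 493 (merge (node 494 (merge (leaf 0 492 492) (leaf 1 492 524))) (merge (node 494 (merge (leaf 0 492 492) (node 464 (merge (leaf 2 461 465) (node 559 (merge (leaf 5 431 432) (leaf 6 463 591))))))) (merge (node 494 (merge (leaf 1 492 524) (node 464 (merge (leaf 2 461 465) (node 559 (merge (leaf 5 431 432) (leaf 6 463 591))))))) (node 557 (merge (node 556 (merge (node 559 (merge (leaf 2 524 558) (node 591 (merge (leaf 6 463 464) (leaf 6 495 623))))) (node 461 (merge (leaf 5 460 588) (node 429 (merge (leaf 5 428 524) (node 428 (merge (leaf 7 396 396) (leaf 7 428 460))))))))) (merge (node 589 (merge (node 622 (merge (leaf 4 493 590) (node 621 (merge (leaf 4 525 654) (node 492 (merge (leaf 7 460 460) (leaf 7 492 524))))))) (merge (node 620 (merge (leaf 5 492 588) (node 621 (merge (leaf 5 524 652) (node 492 (merge (leaf 7 460 460) (leaf 7 492 524))))))) (node 590 (merge (leaf 4 493 622) (node 558 (merge (leaf 4 461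 461) (node 559 (merge (leaf 5 462 463) (node 588 (merge (leaf 2 555 587) (leaf 5 492 620)))))))))))) (merge (node 589 (merge (node 622 (merge (leaf 4 493 590) (node 621 (merge (leaf 4 525 654) (node 492 (merge (leaf 7 460 460) (leaf 7 492 524))))))) (merge (node 620 (merge (leaf 5 492 588) (node 621 (merge (leaf 5 524 652) (node 492 (merge (leaf 7 460 460) (leaf 7 492 524))))))) (node 590 (merge (leaf 4 493 622) (node 588 (merge (leaf 5 492 620) (node 556 (merge (leaf 5 460 461) (node 591 (merge (leaf 3 555 555) (leaf 3 556 592)))))))))))) (node 559 (merge (node 591 (merge (leaf 6 463 464) (leaf 6 495 623))) (merge (node 558 (merge (leaf 2 524 556) (node 432 (merge (leaf 5 431 464) (node 463 (merge (leaf 5 462 590) (node 431 (merge (leaf 4 399 399) (leaf 6 399 400))))))))) (node 558 (merge (leaf 2 524 556) (node 590 (merge (leaf 5 462 463) (node 622 (merge (leaf 4 493 589) (leaf 5 494 591))))))))))))))))))))))))))))) nG_20 cG_20 12 (by decide +kernel)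
def nG_21 : ℕ := 0x1800000010000000000000000000000000000000000000000000000000000000000000000000000000000000000000000000000000000000000000000000000000000
def cG_21 : ℕ := 0x80000003e0000003e0000003700000047000003ef000001ff000001ff800001fe000000780000003800000000000000000000000000000000000000000000000000000000000000000000000000000000000
theorem lG_21 : S nG_21 cG_21 12 := S_of_chk [] trivial (node 464 (merge (node 431 (merge (node 399 (merge (leaf 7 399 432) (node 463 (merge (leaf 4 367 367) (leaf 7 431 560))))) (merge (node 432 (merge (leaf 7 399 399) (node 401 (merge (leaf 6 400 433) (node 400 (merge (leaf 6 368 369) (leaf 5 399 495))))))) (node 560 (merge (leaf 7 431 463) (node 593 (merge (leaf 4 464 561) (node 592 (merge (leaf 4 496 625) (node 623 (merge (leaf 5 495 591) (node 624 (merge (leaf 7 495 495) (leaf 5 527 655)))))))))))))) (merge (node 432 (merge (node 433 (merge (leaf 6 400 401) (node 560 (merge (leaf 6 432 465) (node 593 (merge (leaf 4 464 561) (node 592 (merge (leaf 4 496 625) (node 623 (merge (leaf 5 495 591) (node 624 (merge (leaf 7 495 495)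 (leaf 5 527 655))))))))))))) (merge (node 400 (merge (leaf 5 399 495) (node 369 (merge (leaf 6 368 401) (node 368 (merge (leaf 6 336 337) (node 367 (merge (leaf 7 335 335) (leaf 7 367 399))))))))) (merge (node 400 (merge (node 401 (merge (leaf 6 368 369) (leaf 6 400 433))) (merge (node 369 (merge (leaf 6 368 401) (node 368 (merge (leaf 6 336 337) (node 367 (merge (leaf 7 335 335) (leaf 7 367 399))))))) (merge (node 367 (merge (leaf 7 367 399) (node 368 (merge (leaf 7 335 335) (node 465 (merge (leaf 4 368 497) (node 433 (merge (leaf 4 336 336) (leaf 6 432 560))))))))) (node 433 (merge (leaf 6 400 401) (node 465 (merge (leaf 6 432 560) (node 368 (merge (leaf 4 336 336) (leaf 4 368 497))))))))))) (node 400 (merge (leaf 5 399 495) (node 367 (merge (leaf 7 367 399) (node 368 (merge (leaf 7 335 335) (node 465 (merge (leaf 4 368 497) (node 433 (merge (leaf 4 336 336) (leaf 6 432 560))))))))))))))) (merge (node 463 (merge (node 431 (merge (leaf 7 431 560) (node 399 (merge (leaf 4 367 367) (leaf 7 399 432))))) (merge (node 560 (merge (leaf 7 431 431) (node 593 (merge (leaf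 4 464 561) (node 465 (merge (leaf 6 432 433) (node 592 (merge (leaf 6 464 497) (leaf 4 496 625))))))))) (merge (node 462 (merge (node 461 (merge (leaf 0 461 497) (node 432 (merge (leaf 2 429 433) (node 431 (merge (leaf 7 399 399) (leaf 2 428 460))))))) (merge (node 461 (merge (leaf 0 461 497) (node 493 (merge (leaf 1 460 492) (node 465 (merge (leaf 1 461 494) (node 429 (merge (leaf 3 428 428) (leaf 3 429 430))))))))) (merge (node 465 (merge (node 433 (merge (leaf 2 430 434) (node 401 (merge (leaf 5 368 369) (leaf 5 400 497))))) (merge (node 498 (merge (leaf 0 462 497) (node 466 (merge (leaf 0 463 499) (node 430 (merge (leaf 3 429 429) (leaf 3 430 431))))))) (node 434 (merge (leaf 2 430 433) (node 466 (merge (leaf 2 431 435) (node 430 (merge (leaf 3 429 429) (leaf 3 430 431)))))))))) (node 433 (merge (node 432 (merge (leaf 6 400 401) (leaf 2 429 461))) (merge (node 465 (merge (leaf 2 430 434) (node 494 (merge (leaf 1 461 493) (node 430 (merge (leaf 3 429 429) (node 431 (merge (leaf 3 430 466) (node 399 (merge (leaf 4 367 367) (leaf 6 398 526))))))))))) (node 432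 (merge (leaf 2 429 461) (node 434 (merge (leaf 1 430 431) (leaf 2 430 465)))))))))))) (node 465 (merge (node 433 (merge (leaf 6 432 560) (node 401 (merge (leaf 5 368 369) (leaf 5 400 497))))) (merge (node 433 (merge (leaf 6 432 560) (node 462 (merge (leaf 2 430 434) (node 432 (merge (leaf 6 400 401) (leaf 2 429 461))))))) (merge (node 462 (merge (node 433 (merge (leaf 2 430 434) (node 401 (merge (leaf 5 368 369) (leaf 5 400 497))))) (node 493 (merge (leaf 1 461 494) (node 461 (merge (leaf 1 460 492) (node 429 (merge (leaf 3 428 428) (leaf 3 429 430))))))))) (node 466 (merge (node 499 (merge (leaf 0 463 498) (node 467 (merge (leaf 0 464 500) (node 435 (merge (leaf 2 431 434) (leaf 2 432 436))))))) (merge (node 498 (merge (leaf 0 463 499) (node 462 (merge (leaf 0 462 497) (node 493 (merge (leaf 1 461 494) (node 461 (merge (leaf 1 460 492) (node 429 (merge (leaf 3 428 428) (leaf 3 429 430))))))))))) (merge (node 435 (merge (leaf 2 431 434) (node 467 (merge (leaf 2 432 436) (node 500 (merge (leaf 0 464 499) (node 468 (merge (leaf 1 464 497) (leaf 0 465 501)))))))))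 (node 435 (merge (leaf 2 431 434) (node 467 (merge (leaf 2 432 436) (node 497 (merge (leaf 1 464 468) (node 462 (merge (leaf 0 461 461) (leaf 0 462 498))))))))))))))))))))) (merge (node 463 (merge (node 431 (merge (leaf 7 431 560) (node 399 (merge (leaf 4 367 367) (leaf 4 399 495))))) (merge (node 560 (merge (leaf 7 431 431) (node 593 (merge (leaf 4 464 561) (node 465 (merge (leaf 6 432 433) (node 592 (merge (leaf 6 464 497) (leaf 4 496 625))))))))) (merge (node 465 (merge (node 433 (merge (leaf 6 432 560) (node 401 (merge (leaf 5 368 369) (leaf 5 400 497))))) (merge (node 560 (merge (leaf 6 432 433) (node 593 (merge (leaf 4 464 561) (node 592 (merge (leaf 4 496 625) (node 623 (merge (leaf 5 495 591) (node 624 (merge (leaf 7 495 495) (leaf 5 527 655))))))))))) (merge (node 497 (merge (node 526 (merge (leaf 2 493 525) (node 498 (merge (leaf 1 494 495) (leaf 1 495 499))))) (merge (node 462 (merge (leaf 0 461 461) (node 498 (merge (leaf 0 462 465) (leaf 1 495 499))))) (node 462 (merge (leaf 0 461 461) (node 494 (merge (leaf 1 461 493) (node 495 (merge (leaf 1 462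 466) (node 430 (merge (leaf 4 398 398) (leaf 3 429 429)))))))))))) (node 497 (merge (node 526 (merge (leaf 2 493 525) (node 498 (merge (leaf 1 494 495) (leaf 1 495 499))))) (merge (node 462 (merge (leaf 0 461 461) (node 498 (merge (leaf 0 462 465) (leaf 1 495 499))))) (node 462 (merge (leaf 0 461 461) (node 494 (merge (leaf 1 461 493) (node 495 (merge (leaf 1 462 466) (node 430 (merge (leaf 4 398 398) (leaf 3 429 429)))))))))))))))) (node 462 (merge (node 461 (merge (leaf 0 461 497) (node 493 (merge (leaf 1 460 492) (node 465 (merge (leaf 1 461 494) (node 429 (merge (leaf 3 428 428) (leaf 3 429 430))))))))) (merge (node 465 (merge (node 433 (merge (leaf 2 430 434) (node 401 (merge (leaf 5 368 369) (leaf 5 400 497))))) (merge (node 434 (merge (leaf 2 430 433) (node 466 (merge (leaf 2 431 435) (node 430 (merge (leaf 3 429 429) (leaf 3 430 431))))))) (node 430 (merge (leaf 3 429 429) (node 466 (merge (leaf 3 430 431) (node 467 (merge (leaf 1 463 495) (node 500 (merge (leaf 0 464 499) (node 468 (merge (leaf 1 464 497) (leaf 0 465 501)))))))))))))) (merge (node 497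 (merge (leaf 0 461 461) (node 498 (merge (leaf 0 462 465) (leaf 3 462 495))))) (merge (node 461 (merge (leaf 0 461 497) (node 495 (merge (leaf 0 460 460) (node 493 (merge (leaf 1 460 492) (node 465 (merge (leaf 1 461 494) (node 466 (merge (leaf 1 463 467) (node 431 (merge (leaf 4 399 399) (leaf 3 430 430))))))))))))) (merge (node 465 (merge (node 434 (merge (leaf 2 430 433) (node 466 (merge (leaf 2 431 435) (node 430 (merge (leaf 3 429 429) (leaf 3 430 431))))))) (merge (node 493 (merge (leaf 1 461 494) (node 461 (merge (leaf 1 460 492) (node 460 (merge (leaf 0 460 495) (node 428 (merge (leaf 3 427 427) (leaf 3 428 429))))))))) (merge (node 493 (merge (leaf 1 461 494) (node 461 (merge (leaf 1 460 492) (node 495 (merge (leaf 0 460 460) (node 466 (merge (leaf 1 463 467) (node 431 (merge (leaf 4 399 399) (leaf 3 430 430))))))))))) (node 430 (merge (leaf 3 429 429) (node 466 (merge (leaf 3 430 431) (node 499 (merge (leaf 0 463 498) (node 467 (merge (leaf 1 463 495) (leaf 0 464 500))))))))))))) (node 461 (merge (leaf 0 461 497) (node 495 (merge (leaf 0 460 460) (node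 493 (merge (leaf 1 460 492) (node 431 (merge (leaf 4 399 399) (node 430 (merge (leaf 7 398 398) (node 525 (merge (leaf 6 429 557) (node 524 (merge (leaf 1 492 494) (leaf 2 492 526))))))))))))))))))))))))) (merge (node 465 (merge (node 560 (merge (leaf 6 432 433) (node 593 (merge (leaf 4 464 561) (node 592 (merge (leaf 6 464 497) (leaf 4 496 625))))))) (merge (node 560 (merge (leaf 6 432 433) (node 593 (merge (leaf 4 464 561) (node 592 (merge (leaf 4 496 625) (node 463 (merge (leaf 7 431 431) (leaf 7 463 495))))))))) (merge (node 497 (merge (node 526 (merge (leaf 2 493 525) (node 498 (merge (leaf 1 494 495) (leaf 1 495 499))))) (merge (node 498 (merge (leaf 1 495 499) (node 463 (merge (leaf 0 462 462) (node 560 (merge (leaf 7 431 431) (leaf 6 464 592))))))) (node 560 (merge (leaf 6 464 592) (node 463 (merge (leaf 7 431 431) (node 462 (merge (leaf 0 461 461) (node 494 (merge (leaf 1 461 493) (node 495 (merge (leaf 1 462 466) (node 430 (merge (leaf 4 398 398) (leaf 3 429 429)))))))))))))))) (node 466 (merge (node 467 (merge (leaf 1 463 495) (node 432 (merge (leaf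 3 431 431) (node 433 (merge (leaf 6 400 401) (leaf 3 432 468))))))) (merge (node 467 (merge (leaf 1 463 495) (node 497 (merge (leaf 1 464 468) (node 498 (merge (leaf 1 495 499) (node 463 (merge (leaf 0 462 462) (node 435 (merge (leaf 2 431 434) (leaf 2 432 436))))))))))) (merge (node 499 (merge (node 498 (merge (leaf 0 463 463) (leaf 1 495 497))) (node 467 (merge (leaf 0 464 500) (node 432 (merge (leaf 3 431 431) (node 433 (merge (leaf 6 400 401) (leaf 3 432 468))))))))) (node 497 (merge (node 526 (merge (leaf 2 493 525) (node 498 (merge (leaf 1 494 495) (leaf 1 495 499))))) (merge (node 498 (merge (leaf 1 495 499) (node 463 (merge (leaf 0 462 462) (node 434 (merge (leaf 2 431 435) (node 402 (merge (leaf 5 369 370) (node 401 (merge (leaf 7 369 369) (leaf 5 400 433))))))))))) (merge (node 498 (merge (leaf 1 495 499) (node 463 (merge (leaf 0 462 462) (node 434 (merge (leaf 2 431 435) (node 402 (merge (leaf 5 369 370) (node 401 (merge (leaf 7 369 369) (leaf 5 400 433))))))))))) (node 495 (merge (leaf 2 462 494) (node 526 (merge (leaf 2 493 525) (node 432 (merge (leaf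 5 399 400) (node 433 (merge (leaf 5 400 401) (node 431 (merge (leaf 0 430 430) (node 463 (merge (leaf 5 430 558) (node 434 (merge (leaf 1 431 435) (leaf 1 430 462))))))))))))))))))))))))))) (merge (node 495 (merge (node 432 (merge (leaf 5 399 400) (node 431 (merge (leaf 7 399 399) (node 560 (merge (leaf 4 431 463) (node 593 (merge (leaf 4 464 561) (node 592 (merge (leaf 7 495 624) (leaf 4 496 625))))))))))) (merge (node 494 (merge (node 493 (merge (leaf 2 461 465) (leaf 0 492 492))) (merge (node 493 (merge (leaf 0 492 492) (node 525 (merge (leaf 1 492 524) (node 497 (merge (leaf 2 493 526) (node 461 (merge (leaf 3 460 460) (leaf 3 461 462))))))))) (node 526 (merge (node 525 (merge (leaf 2 493 497) (leaf 2 492 524))) (merge (node 497 (merge (leaf 1 494 498) (node 465 (merge (leaf 2 462 466) (node 462 (merge (leaf 3 461 461) (node 430 (merge (leaf 4 398 398) (node 429 (merge (leaf 7 397 397) (leaf 3 429 463))))))))))) (node 525 (merge (leaf 2 492 524) (node 557 (merge (leaf 1 524 556) (node 462 (merge (leaf 5 429 430) (node 589 (merge (leaf 5 461 558) (leaf 6 493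 621))))))))))))))) (node 494 (merge (node 493 (merge (leaf 2 461 465) (leaf 0 492 492))) (merge (node 493 (merge (leaf 0 492 492) (node 525 (merge (leaf 1 492 524) (node 497 (merge (leaf 2 493 526) (node 461 (merge (leaf 3 460 460) (leaf 3 461 462))))))))) (node 526 (merge (node 525 (merge (leaf 2 493 497) (leaf 2 492 524))) (merge (node 497 (merge (leaf 1 494 498) (node 462 (merge (leaf 3 461 461) (node 430 (merge (leaf 4 398 398) (node 432 (merge (leaf 5 399 400) (node 431 (merge (leaf 6 398 399) (node 429 (merge (leaf 7 397 397) (leaf 0 429 465))))))))))))) (node 525 (merge (leaf 2 492 524) (node 557 (merge (leaf 1 524 556) (node 462 (merge (leaf 5 429 430) (node 589 (merge (leaf 5 461 558) (leaf 6 493 621)))))))))))))))))) (node 495 (merge (node 526 (merge (node 497 (merge (leaf 1 494 498) (leaf 2 493 525))) (node 432 (merge (leaf 5 399 400) (node 433 (merge (leaf 6 400 401) (node 431 (merge (leaf 7 399 399) (node 463 (merge (leaf 5 430 558) (node 462 (merge (leaf 1 430 434) (leaf 2 429 461))))))))))))) (merge (node 494 (merge (node 493 (merge (leaf 2 461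 465) (leaf 0 492 492))) (merge (node 493 (merge (leaf 0 492 492) (node 525 (merge (leaf 1 492 524) (node 497 (merge (leaf 2 493 526) (node 461 (merge (leaf 3 460 460) (leaf 3 461 462))))))))) (node 526 (merge (node 525 (merge (leaf 2 493 497) (leaf 2 492 524))) (merge (node 497 (merge (leaf 1 494 498) (node 465 (merge (leaf 2 462 466) (node 462 (merge (leaf 3 461 461) (node 430 (merge (leaf 4 398 398) (node 429 (merge (leaf 7 397 397) (leaf 3 429 463))))))))))) (node 525 (merge (leaf 2 492 524) (node 557 (merge (leaf 1 524 556) (node 462 (merge (leaf 5 429 430) (node 589 (merge (leaf 5 461 558) (leaf 6 493 621))))))))))))))) (merge (node 465 (merge (node 494 (merge (leaf 2 461 493) (node 497 (merge (leaf 2 462 466) (node 526 (merge (leaf 1 494 498) (leaf 1 493 525))))))) (merge (node 466 (merge (leaf 1 463 467) (node 432 (merge (leaf 5 399 400) (node 431 (merge (leaf 7 399 399) (node 430 (merge (leaf 0 429 429) (leaf 3 430 463))))))))) (merge (node 466 (merge (leaf 1 463 467) (node 494 (merge (leaf 1 462 463) (leaf 2 461 493))))) (node 432 (merge (leaf 5 399 400)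 (node 431 (merge (leaf 7 399 399) (node 430 (merge (leaf 0 429 429) (node 463 (merge (leaf 7 398 398) (node 526 (merge (leaf 5 430 558) (node 525 (merge (leaf 2 493 497) (leaf 2 492 524))))))))))))))))) (merge (node 466 (merge (node 465 (merge (leaf 1 463 467) (node 494 (merge (leaf 2 461 493) (leaf 2 462 497))))) (merge (node 432 (merge (leaf 5 399 400) (node 433 (merge (leaf 6 400 401) (node 431 (merge (leaf 7 399 399) (node 434 (merge (leaf 0 431 467) (node 463 (merge (leaf 1 431 435) (leaf 1 430 462))))))))))) (node 432 (merge (leaf 5 399 400) (node 433 (merge (leaf 6 400 401) (node 431 (merge (leaf 7 399 399) (node 430 (merge (leaf 0 430 465) (node 461 (merge (leaf 1 429 462) (node 429 (merge (leaf 1 428 460) (node 463 (merge (leaf 7 398 398) (leaf 0 428 428)))))))))))))))))) (merge (node 526 (merge (node 432 (merge (leaf 5 399 400) (node 433 (merge (leaf 6 400 401) (node 431 (merge (leaf 7 399 399) (node 463 (merge (leaf 5 430 558) (node 462 (merge (leaf 1 430 434) (leaf 2 429 461))))))))))) (merge (node 525 (merge (leaf 2 492 524) (node 557 (merge (leaf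 1 524 556) (node 493 (merge (leaf 3 492 492) (node 494 (merge (leaf 2 461 465) (node 589 (merge (leaf 6 461 462) (leaf 6 493 621))))))))))) (merge (node 525 (merge (leaf 2 492 524) (node 493 (merge (leaf 3 492 492) (node 494 (merge (leaf 2 461 465) (node 461 (merge (leaf 3 460 460) (node 429 (merge (leaf 4 397 397) (leaf 4 429 558))))))))))) (node 525 (merge (leaf 2 492 524) (node 557 (merge (leaf 1 524 556) (node 493 (merge (leaf 3 492 492) (node 494 (merge (leaf 2 461 465) (node 461 (merge (leaf 3 460 460) (node 590 (merge (leaf 4 461 558) (node 589 (merge (leaf 6 493 621) (leaf 4 493 622))))))))))))))))))) (node 466 (merge (node 465 (merge (leaf 1 463 467) (node 494 (merge (leaf 2 461 493) (leaf 2 462 497))))) (merge (node 432 (merge (leaf 5 399 400) (node 433 (merge (leaf 6 400 401) (node 431 (merge (leaf 7 399 399) (node 430 (merge (leaf 0 430 465) (node 462 (merge (leaf 1 429 461) (node 398 (merge (leaf 3 397 397) (leaf 4 398 494))))))))))))) (node 432 (merge (leaf 5 399 400) (node 433 (merge (leaf 6 400 401) (node 431 (merge (leaf 7 399 399) (node 434 (merge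 (leaf 0 431 467) (node 403 (merge (leaf 2 399 402) (node 435 (merge (leaf 2 400 404) (node 498 (merge (leaf 6 402 530) (node 497 (merge (leaf 1 495 499) (leaf 1 494 526))))))))))))))))))))))))))))))))) nG_21 cG_21 12 (by decide +kernel)
def nG_22 : ℕ := 0x1800000000000000000000000000000000000000000000000000000000000000000000000000000000000000000000000000000000000000000000000000000000000
def cG_22 : ℕ := 0x200000003d0000003f000000ff800000ff800000c7000003ff800001ff000001ff800001ff000000780000003800000028000000000000000000000000000000000000000000000000000000000000000000000000000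
theorem lG_22 : S nG_22 cG_22 13 := S_of_chk [(nG_19, cG_19, 12), (nG_20, cG_20, 12), (nG_21, cG_21, 12)] ⟨lG_19, lG_20, lG_21, trivial⟩ (node 496 (merge (node 464 (merge (node 559 (merge (leaf 5 431 432) (node 591 (merge (leaf 5 463 560) (leaf 6 495 623))))) (merge (node 432 (merge (leaf 5 431 559) (node 401 (merge (leaf 6 400 433) (node 400 (merge (leaf 6 368 369) (leaf 5 399 495))))))) (merge (node 431 (merge (node 399 (merge (leaf 7 399 432) (node 463 (merge (leaf 4 367 367) (leaf 7 431 560))))) (merge (node 432 (merge (leaf 7 399 399) (node 401 (merge (leaf 6 400 433) (node 400 (merge (leaf 6 368 369) (leaf 5 399 495))))))) (node 560 (merge (leaf 7 431 463) (node 593 (merge (leaf 4 464 561) (node 592 (merge (leaf 4 496 625) (node 623 (merge (leaf 5 495 591) (node 624 (merge (leaf 7 495 495) (leaf 5 527 655)))))))))))))) (node 560 (merge (node 561 (merge (leaf 4 464 593) (node 562 (merge (leaf 3 527 563) (node 559 (merge (leaf 3 526 526) (leaf 5 463 591))))))) (merge (node 593 (merge (leaf 4 464 561) (node 592 (merge (leaf 4 496 625) (node 463 (merge (leaf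 7 431 431) (leaf 7 463 495))))))) (node 591 (merge (leaf 5 463 559) (node 463 (merge (leaf 7 431 431) (node 592 (merge (leaf 7 463 495) (leaf 5 495 623)))))))))))))) (merge (node 464 (merge (node 559 (merge (leaf 5 431 432) (node 591 (merge (leaf 5 463 560) (leaf 6 495 623))))) (merge (node 432 (merge (leaf 5 431 559) (node 401 (merge (leaf 6 400 433) (node 400 (merge (leaf 6 368 369) (leaf 5 399 495))))))) (merge (node 560 (merge (node 561 (merge (leaf 4 464 593) (node 562 (merge (leaf 3 527 563) (node 559 (merge (leaf 3 526 526) (leaf 5 463 591))))))) (merge (node 593 (merge (leaf 4 464 561) (node 465 (merge (leaf 6 432 433) (node 592 (merge (leaf 6 464 497) (leaf 4 496 625))))))) (node 465 (merge (leaf 6 432 433) (node 592 (merge (leaf 6 464 497) (node 591 (merge (leaf 5 463 559) (leaf 5 495 623)))))))))) (node 432 (merge (node 433 (merge (leaf 6 400 401) (node 560 (merge (leaf 6 432 465) (node 593 (merge (leaf 4 464 561) (node 592 (merge (leaf 4 496 625) (node 623 (merge (leaf 5 495 591) (node 624 (merge (leaf 7 495 495) (leaf 5 527 655))))))))))))) (merge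 (node 400 (merge (leaf 5 399 495) (node 369 (merge (leaf 6 368 401) (node 368 (merge (leaf 6 336 337) (node 367 (merge (leaf 7 335 335) (leaf 7 367 399))))))))) (merge (node 400 (merge (node 401 (merge (leaf 6 368 369) (leaf 6 400 433))) (merge (node 369 (merge (leaf 6 368 401) (node 368 (merge (leaf 6 336 337) (node 367 (merge (leaf 7 335 335) (leaf 7 367 399))))))) (merge (node 367 (merge (leaf 7 367 399) (node 368 (merge (leaf 7 335 335) (node 465 (merge (leaf 4 368 497) (node 433 (merge (leaf 4 336 336) (leaf 6 432 560))))))))) (node 433 (merge (leaf 6 400 401) (node 465 (merge (leaf 6 432 560) (node 368 (merge (leaf 4 336 336) (leaf 4 368 497))))))))))) (node 400 (merge (leaf 5 399 495) (node 367 (merge (leaf 7 367 399) (node 368 (merge (leaf 7 335 335) (node 465 (merge (leaf 4 368 497) (node 433 (merge (leaf 4 336 336) (leaf 6 432 560))))))))))))))))))) (merge (node 464 (merge (node 559 (merge (leaf 5 431 432) (node 591 (merge (leaf 5 463 560) (leaf 6 495 623))))) (merge (node 432 (merge (leaf 5 431 559) (node 401 (merge (leaf 6 400 433) (node 400 (merge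 (leaf 6 368 369) (leaf 5 399 495))))))) (merge (node 433 (merge (node 432 (merge (leaf 6 400 401) (node 400 (merge (leaf 5 399 495) (node 399 (merge (leaf 7 367 367) (leaf 7 399 431))))))) (merge (node 465 (merge (leaf 6 432 560) (node 401 (merge (leaf 5 368 369) (leaf 5 400 497))))) (node 560 (merge (leaf 6 432 465) (node 463 (merge (leaf 7 431 431) (node 592 (merge (leaf 7 463 495) (node 625 (merge (leaf 4 496 593) (node 624 (merge (leaf 4 528 657) (node 623 (merge (leaf 5 495 591) (leaf 5 527 655)))))))))))))))) (node 463 (merge (node 431 (merge (leaf 7 431 560) (node 399 (merge (leaf 4 367 367) (leaf 4 399 495))))) (merge (node 560 (merge (leaf 7 431 431) (node 465 (merge (leaf 6 432 433) (node 592 (merge (leaf 6 464 497) (node 591 (merge (leaf 5 463 559) (leaf 5 495 623))))))))) (merge (node 495 (merge (node 559 (merge (leaf 6 463 591) (node 462 (merge (leaf 7 430 430) (node 497 (merge (leaf 0 461 461) (leaf 3 462 498))))))) (merge (node 431 (merge (leaf 4 399 399) (node 526 (merge (leaf 5 430 558) (node 525 (merge (leaf 2 493 497) (leaf 2 492 524)))))))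 (merge (node 431 (merge (leaf 4 399 399) (node 526 (merge (leaf 5 430 558) (node 525 (merge (leaf 2 493 497) (leaf 2 492 524))))))) (node 431 (merge (leaf 4 399 399) (node 558 (merge (leaf 5 430 526) (node 559 (merge (leaf 5 462 590) (leaf 6 463 591))))))))))) (node 462 (merge (node 461 (merge (leaf 0 461 497) (node 493 (merge (leaf 1 460 492) (node 465 (merge (leaf 1 461 494) (node 429 (merge (leaf 3 428 428) (leaf 3 429 430))))))))) (merge (node 461 (merge (leaf 0 461 497) (node 493 (merge (leaf 1 460 492) (node 465 (merge (leaf 1 461 494) (node 560 (merge (leaf 6 432 433) (node 591 (merge (leaf 5 463 559) (node 592 (merge (leaf 7 463 495) (leaf 5 495 623))))))))))))) (merge (node 461 (merge (leaf 0 461 497) (node 429 (merge (leaf 3 428 428) (node 465 (merge (leaf 3 429 430) (node 560 (merge (leaf 6 432 433) (node 591 (merge (leaf 5 463 559) (node 592 (merge (leaf 7 463 495) (leaf 5 495 623))))))))))))) (merge (node 559 (merge (node 591 (merge (leaf 5 463 560) (leaf 6 495 623))) (merge (node 495 (merge (leaf 7 430 430) (leaf 6 463 591))) (node 495 (merge (leaf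 7 430 430) (node 461 (merge (leaf 0 460 460) (node 493 (merge (leaf 1 460 492) (node 429 (merge (leaf 3 428 428) (node 558 (merge (leaf 5 462 590) (node 526 (merge (leaf 7 429 494) (leaf 4 429 525)))))))))))))))) (node 559 (merge (node 591 (merge (leaf 5 463 560) (leaf 6 495 623))) (merge (node 495 (merge (leaf 7 430 430) (leaf 6 463 591))) (node 495 (merge (leaf 7 430 430) (node 560 (merge (leaf 4 463 592) (node 465 (merge (leaf 6 432 433) (node 494 (merge (leaf 1 462 466) (leaf 1 461 493))))))))))))))))))))))))) (merge (node 464 (merge (node 559 (merge (leaf 5 431 432) (node 591 (merge (leaf 5 463 560) (leaf 6 495 623))))) (merge (node 432 (merge (leaf 5 431 559) (node 401 (merge (leaf 6 400 433) (node 400 (merge (leaf 6 368 369) (leaf 5 399 495))))))) (merge (node 465 (merge (node 433 (merge (leaf 6 432 560) (node 401 (merge (leaf 5 368 369) (leaf 5 400 497))))) (merge (node 560 (merge (leaf 6 432 433) (node 561 (merge (leaf 4 464 593) (node 562 (merge (leaf 3 527 563) (node 559 (merge (leaf 3 526 526) (leaf 5 463 591))))))))) (merge (node 463 (merge (node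 431 (merge (leaf 7 431 560) (node 399 (merge (leaf 4 367 367) (leaf 4 399 495))))) (merge (node 560 (merge (leaf 7 431 431) (node 561 (merge (leaf 4 464 593) (node 562 (merge (leaf 3 527 563) (node 559 (merge (leaf 3 526 526) (leaf 5 463 591))))))))) (merge (node 497 (merge (node 462 (merge (leaf 0 461 461) (node 498 (merge (leaf 0 462 465) (leaf 1 495 499))))) (merge (node 526 (merge (leaf 2 493 525) (node 498 (merge (leaf 1 494 495) (leaf 1 495 499))))) (node 462 (merge (leaf 0 461 461) (node 430 (merge (leaf 3 429 429) (node 559 (merge (leaf 7 430 495) (node 591 (merge (leaf 5 463 560) (leaf 6 495 623)))))))))))) (node 495 (merge (node 559 (merge (leaf 6 463 591) (node 462 (merge (leaf 7 430 430) (node 497 (merge (leaf 0 461 461) (leaf 3 462 498))))))) (merge (node 431 (merge (leaf 4 399 399) (node 526 (merge (leaf 5 430 558) (node 525 (merge (leaf 2 493 497) (leaf 2 492 524))))))) (merge (node 431 (merge (leaf 4 399 399) (node 526 (merge (leaf 5 430 558) (node 525 (merge (leaf 2 493 497) (leaf 2 492 524))))))) (node 431 (merge (leaf 4 399 399) (node 558 (merge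 (leaf 5 430 526) (node 559 (merge (leaf 5 462 590) (leaf 6 463 591))))))))))))))) (node 495 (merge (node 494 (merge (leaf 2 461 493) (node 497 (merge (leaf 2 462 466) (node 526 (merge (leaf 1 494 498) (leaf 1 493 525))))))) (merge (node 466 (merge (leaf 1 463 467) (node 463 (merge (leaf 1 462 494) (node 431 (merge (leaf 4 399 399) (leaf 3 430 430))))))) (node 463 (merge (node 559 (merge (leaf 6 463 591) (node 462 (merge (leaf 7 430 430) (node 497 (merge (leaf 0 461 461) (leaf 3 462 498))))))) (merge (node 431 (merge (leaf 4 399 399) (node 526 (merge (leaf 5 430 558) (node 525 (merge (leaf 2 493 497) (leaf 2 492 524))))))) (node 431 (merge (leaf 4 399 399) (node 558 (merge (leaf 5 430 526) (node 559 (merge (leaf 5 462 590) (leaf 6 463 591))))))))))))))))) (node 465 (merge (node 433 (merge (leaf 6 432 560) (node 401 (merge (leaf 5 368 369) (leaf 5 400 497))))) (merge (node 432 (merge (node 400 (merge (leaf 5 399 495) (node 368 (merge (leaf 4 368 497) (node 369 (merge (leaf 6 336 337) (leaf 6 368 401))))))) (node 431 (merge (leaf 7 399 399) (node 466 (merge (leaf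 3 431 467) (node 463 (merge (leaf 3 430 430) (leaf 7 431 560))))))))) (merge (node 560 (merge (leaf 6 432 433) (node 431 (merge (leaf 7 431 463) (node 432 (merge (leaf 7 399 399) (node 400 (merge (leaf 5 399 495) (node 368 (merge (leaf 4 368 497) (node 337 (merge (leaf 6 336 369) (node 336 (merge (leaf 6 304 305) (node 335 (merge (leaf 7 303 303) (leaf 7 335 367))))))))))))))))) (merge (node 433 (merge (leaf 6 432 560) (node 432 (merge (leaf 6 400 401) (node 431 (merge (leaf 7 399 399) (node 430 (merge (leaf 0 429 429) (leaf 0 430 466))))))))) (node 495 (merge (node 494 (merge (leaf 2 461 493) (node 497 (merge (leaf 2 462 466) (node 526 (merge (leaf 1 494 498) (leaf 1 493 525))))))) (merge (node 494 (merge (leaf 2 461 493) (node 466 (merge (leaf 1 462 463) (leaf 2 462 497))))) (merge (node 466 (merge (leaf 1 463 467) (node 463 (merge (leaf 1 462 494) (node 431 (merge (leaf 4 399 399) (leaf 3 430 430))))))) (node 526 (merge (node 497 (merge (leaf 1 494 498) (leaf 2 493 525))) (node 432 (merge (leaf 5 399 400) (node 433 (merge (leaf 6 400 401) (node 431 (merge (leaf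 7 399 399) (node 463 (merge (leaf 5 430 558) (node 462 (merge (leaf 1 430 434) (leaf 2 429 461)))))))))))))))))))))))))) (merge (node 464 (merge (node 559 (merge (leaf 5 431 432) (node 591 (merge (leaf 5 463 560) (leaf 6 495 623))))) (merge (node 432 (merge (leaf 5 431 559) (node 401 (merge (leaf 6 400 433) (node 400 (merge (leaf 6 368 369) (node 399 (merge (leaf 7 367 367) (leaf 7 399 431))))))))) (merge (node 560 (merge (node 561 (merge (leaf 4 464 593) (node 562 (merge (leaf 3 527 563) (node 559 (merge (leaf 3 526 526) (leaf 5 463 591))))))) (merge (node 593 (merge (leaf 4 464 561) (node 465 (merge (leaf 6 432 433) (node 592 (merge (leaf 6 464 497) (leaf 4 496 625))))))) (node 465 (merge (leaf 6 432 433) (node 592 (merge (leaf 6 464 497) (node 591 (merge (leaf 5 463 559) (leaf 5 495 623)))))))))) (node 463 (merge (node 431 (merge (leaf 7 431 560) (node 399 (merge (leaf 4 367 367) (leaf 7 399 432))))) (merge (node 560 (merge (leaf 7 431 431) (node 593 (merge (leaf 4 464 561) (node 465 (merge (leaf 6 432 433) (node 592 (merge (leaf 6 464 497) (leaf 4 496 625)))))))))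 (merge (node 462 (merge (node 461 (merge (leaf 0 461 497) (node 432 (merge (leaf 2 429 433) (node 431 (merge (leaf 7 399 399) (leaf 2 428 460))))))) (merge (node 461 (merge (leaf 0 461 497) (node 493 (merge (leaf 1 460 492) (node 465 (merge (leaf 1 461 494) (node 429 (merge (leaf 3 428 428) (leaf 3 429 430))))))))) (merge (node 465 (merge (node 433 (merge (leaf 2 430 434) (node 401 (merge (leaf 5 368 369) (leaf 5 400 497))))) (merge (node 498 (merge (leaf 0 462 497) (node 466 (merge (leaf 0 463 499) (node 430 (merge (leaf 3 429 429) (leaf 3 430 431))))))) (node 434 (merge (leaf 2 430 433) (node 466 (merge (leaf 2 431 435) (node 430 (merge (leaf 3 429 429) (leaf 3 430 431)))))))))) (node 433 (merge (node 432 (merge (leaf 6 400 401) (leaf 2 429 461))) (merge (node 465 (merge (leaf 2 430 434) (node 494 (merge (leaf 1 461 493) (node 430 (merge (leaf 3 429 429) (node 431 (merge (leaf 3 430 466) (node 399 (merge (leaf 4 367 367) (leaf 6 398 526))))))))))) (node 432 (merge (leaf 2 429 461) (node 434 (merge (leaf 1 430 431) (leaf 2 430 465)))))))))))) (node 465 (merge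 (node 433 (merge (leaf 6 432 560) (node 401 (merge (leaf 5 368 369) (leaf 5 400 497))))) (merge (node 433 (merge (leaf 6 432 560) (node 462 (merge (leaf 2 430 434) (node 432 (merge (leaf 6 400 401) (leaf 2 429 461))))))) (merge (node 462 (merge (node 433 (merge (leaf 2 430 434) (node 401 (merge (leaf 5 368 369) (leaf 5 400 497))))) (node 493 (merge (leaf 1 461 494) (node 461 (merge (leaf 1 460 492) (node 429 (merge (leaf 3 428 428) (leaf 3 429 430))))))))) (node 466 (merge (node 499 (merge (leaf 0 463 498) (node 467 (merge (leaf 0 464 500) (node 435 (merge (leaf 2 431 434) (leaf 2 432 436))))))) (merge (node 498 (merge (leaf 0 463 499) (node 462 (merge (leaf 0 462 497) (node 493 (merge (leaf 1 461 494) (node 461 (merge (leaf 1 460 492) (node 429 (merge (leaf 3 428 428) (leaf 3 429 430))))))))))) (merge (node 435 (merge (leaf 2 431 434) (node 467 (merge (leaf 2 432 436) (node 500 (merge (leaf 0 464 499) (node 468 (merge (leaf 1 464 497) (leaf 0 465 501))))))))) (node 435 (merge (leaf 2 431 434) (node 467 (merge (leaf 2 432 436) (node 497 (merge (leaf 1 464 468)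 (node 462 (merge (leaf 0 461 461) (leaf 0 462 498))))))))))))))))))))))))) (merge (node 464 (merge (node 432 (merge (leaf 5 431 559) (node 401 (merge (leaf 6 400 433) (node 400 (merge (leaf 6 368 369) (node 399 (merge (leaf 7 367 367) (leaf 7 399 431))))))))) (merge (node 432 (merge (leaf 5 431 559) (node 495 (merge (leaf 5 399 400) (node 433 (merge (leaf 6 400 401) (node 560 (merge (leaf 6 432 465) (node 592 (merge (leaf 7 463 463) (leaf 7 495 624))))))))))) (merge (node 432 (merge (leaf 5 431 559) (node 495 (merge (leaf 5 399 400) (node 431 (merge (leaf 7 399 399) (node 560 (merge (leaf 4 431 463) (node 592 (merge (leaf 7 495 624) (node 497 (merge (leaf 6 464 465) (node 526 (merge (leaf 1 494 498) (leaf 2 493 525))))))))))))))) (merge (node 433 (merge (node 432 (merge (leaf 6 400 401) (node 400 (merge (leaf 5 399 495) (node 399 (merge (leaf 7 367 367) (leaf 7 399 431))))))) (merge (node 432 (merge (leaf 6 400 401) (node 560 (merge (leaf 6 432 465) (node 431 (merge (leaf 7 399 399) (leaf 7 431 463))))))) (merge (node 560 (merge (leaf 6 432 465) (node 593 (merge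 (leaf 4 464 561) (node 592 (merge (leaf 4 496 625) (node 463 (merge (leaf 7 431 431) (leaf 7 463 495))))))))) (node 432 (merge (leaf 6 400 401) (node 495 (merge (leaf 5 399 400) (node 560 (merge (leaf 6 432 465) (node 592 (merge (leaf 7 463 463) (leaf 7 495 624))))))))))))) (node 560 (merge (node 465 (merge (leaf 6 432 433) (node 592 (merge (leaf 6 464 497) (node 463 (merge (leaf 7 431 431) (leaf 7 463 495))))))) (merge (node 593 (merge (leaf 4 464 561) (node 465 (merge (leaf 6 432 433) (node 592 (merge (leaf 6 464 497) (leaf 4 496 625))))))) (merge (node 593 (merge (leaf 4 464 561) (node 592 (merge (leaf 4 496 625) (node 463 (merge (leaf 7 431 431) (leaf 7 463 495))))))) (node 561 (merge (leaf 4 464 593) (node 562 (merge (leaf 3 527 563) (node 559 (merge (leaf 3 526 526) (node 594 (merge (leaf 0 559 595) (node 530 (merge (leaf 2 527 531) (node 465 (merge (leaf 6 432 433) (node 463 (merge (leaf 7 431 431) (node 498 (merge (leaf 7 465 497) (node 499 (merge (leaf 0 463 466) (leaf 6 466 467)))))))))))))))))))))))))))) (merge (node 464 (merge (node 559 (merge (leaf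 5 431 432) (node 591 (merge (leaf 5 463 560) (leaf 6 495 623))))) (merge (node 432 (merge (leaf 5 431 559) (node 401 (merge (leaf 6 400 433) (node 400 (merge (leaf 6 368 369) (leaf 5 399 495))))))) (merge (node 433 (merge (node 432 (merge (leaf 6 400 401) (node 400 (merge (leaf 5 399 495) (node 399 (merge (leaf 7 367 367) (leaf 7 399 431))))))) (merge (node 465 (merge (leaf 6 432 560) (node 401 (merge (leaf 5 368 369) (leaf 5 400 497))))) (node 560 (merge (leaf 6 432 465) (node 593 (merge (leaf 4 464 561) (node 592 (merge (leaf 4 496 625) (node 463 (merge (leaf 7 431 431) (leaf 7 463 495)))))))))))) (node 560 (merge (node 465 (merge (leaf 6 432 433) (node 592 (merge (leaf 6 464 497) (node 463 (merge (leaf 7 431 431) (leaf 7 463 495))))))) (merge (node 593 (merge (leaf 4 464 561) (node 592 (merge (leaf 4 496 625) (node 591 (merge (leaf 5 463 559) (leaf 5 495 623))))))) (node 561 (merge (leaf 4 464 593) (node 562 (merge (leaf 3 527 563) (node 559 (merge (leaf 5 463 591) (node 594 (merge (leaf 0 559 595) (node 530 (merge (leaf 2 527 531) (node 465 (merge (leaf 6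 432 433) (node 463 (merge (leaf 7 431 431) (node 498 (merge (leaf 7 465 497) (node 499 (merge (leaf 0 463 466) (leaf 6 466 467)))))))))))))))))))))))))) (merge (node 560 (merge (node 592 (merge (node 593 (merge (leaf 4 496 625) (node 464 (merge (leaf 4 464 561) (node 591 (merge (leaf 5 463 559) (leaf 5 495 623))))))) (merge (node 625 (merge (leaf 4 496 593) (node 624 (merge (leaf 4 528 657) (node 495 (merge (leaf 7 463 463) (leaf 7 495 527))))))) (node 623 (merge (leaf 5 495 591) (node 495 (merge (leaf 7 463 463) (node 624 (merge (leaf 7 495 527) (leaf 5 527 655)))))))))) (merge (node 592 (merge (node 625 (merge (leaf 4 496 593) (node 624 (merge (leaf 4 528 657) (node 623 (merge (leaf 5 495 591) (leaf 5 527 655))))))) (node 497 (merge (leaf 6 464 465) (node 526 (merge (leaf 2 493 525) (node 495 (merge (leaf 7 463 463) (leaf 1 494 498))))))))) (merge (node 526 (merge (node 525 (merge (leaf 2 493 497) (leaf 0 525 561))) (merge (node 525 (merge (leaf 2 493 497) (node 524 (merge (leaf 2 492 495) (leaf 0 524 559))))) (merge (node 561 (merge (leaf 0 525 525) (node 562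 (merge (leaf 3 526 559) (leaf 3 527 563))))) (node 592 (merge (node 497 (merge (leaf 6 464 465) (node 495 (merge (leaf 7 463 463) (leaf 1 494 498))))) (merge (node 623 (merge (leaf 5 495 591) (node 624 (merge (leaf 7 495 495) (leaf 5 527 655))))) (node 623 (merge (leaf 5 495 591) (node 624 (merge (leaf 5 527 655) (node 559 (merge (leaf 7 527 656) (node 561 (merge (leaf 3 526 562) (node 464 (merge (leaf 5 431 432) (leaf 4 464 593)))))))))))))))))) (merge (node 592 (merge (node 623 (merge (leaf 5 495 591) (node 624 (merge (leaf 7 495 495) (leaf 5 527 655))))) (merge (node 497 (merge (leaf 6 464 465) (node 526 (merge (leaf 2 493 525) (node 495 (merge (leaf 7 463 463) (leaf 1 494 498))))))) (node 623 (merge (leaf 5 495 591) (node 624 (merge (leaf 5 527 655) (node 656 (merge (leaf 7 527 559) (node 657 (merge (leaf 4 528 625) (leaf 4 560 689)))))))))))) (merge (node 526 (merge (node 525 (merge (leaf 2 493 497) (leaf 0 525 561))) (merge (node 525 (merge (leaf 2 493 497) (node 524 (merge (leaf 0 524 559) (node 556 (merge (leaf 1 523 555) (leaf 1 524 557))))))) (node 561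 (merge (node 562 (merge (leaf 3 526 559) (leaf 3 527 563))) (node 593 (merge (leaf 4 464 464) (node 625 (merge (leaf 4 496 592) (leaf 7 528 657)))))))))) (node 498 (merge (node 497 (merge (leaf 1 495 499) (node 526 (merge (leaf 1 494 495) (leaf 2 493 525))))) (merge (node 561 (merge (node 464 (merge (leaf 4 464 593) (node 559 (merge (leaf 5 431 432) (leaf 5 463 591))))) (merge (node 562 (merge (leaf 3 527 563) (node 559 (merge (leaf 3 526 526) (node 591 (merge (leaf 5 463 464) (leaf 1 558 590))))))) (merge (node 562 (merge (leaf 3 527 563) (node 593 (merge (leaf 4 464 464) (node 625 (merge (leaf 7 528 657) (node 530 (merge (leaf 5 465 466) (leaf 5 497 594))))))))) (node 562 (merge (leaf 3 527 563) (node 559 (merge (leaf 3 526 526) (node 591 (merge (leaf 1 558 590) (leaf 6 495 623))))))))))) (node 464 (merge (node 559 (merge (leaf 5 431 432) (leaf 5 463 591))) (node 499 (merge (leaf 1 495 497) (node 561 (merge (leaf 4 464 593) (node 563 (merge (leaf 3 527 562) (node 463 (merge (leaf 7 431 431) (node 466 (merge (leaf 0 463 465) (node 531 (merge (leaf 7 466 595)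 (node 434 (merge (leaf 4 402 402) (leaf 4 434 530)))))))))))))))))))))))))) (merge (node 526 (merge (node 525 (merge (leaf 2 493 497) (node 524 (merge (leaf 2 492 495) (node 492 (merge (leaf 3 491 491) (leaf 3 492 493))))))) (merge (node 525 (merge (leaf 2 493 497) (node 560 (merge (leaf 0 525 561) (node 524 (merge (leaf 0 524 559) (node 492 (merge (leaf 3 491 491) (leaf 3 492 493))))))))) (merge (node 560 (merge (node 561 (merge (leaf 0 525 525) (node 562 (merge (leaf 3 526 559) (leaf 3 527 563))))) (merge (node 525 (merge (leaf 0 525 561) (node 524 (merge (leaf 2 492 495) (node 556 (merge (leaf 1 523 555) (leaf 1 524 557))))))) (node 591 (merge (node 623 (merge (leaf 6 495 559) (leaf 5 495 592))) (merge (node 592 (merge (leaf 5 495 623) (node 495 (merge (leaf 7 463 463) (leaf 7 495 624))))) (node 464 (merge (leaf 5 463 559) (node 431 (merge (leaf 7 431 463) (node 432 (merge (leaf 7 399 399) (node 400 (merge (leaf 5 399 495) (node 401 (merge (leaf 6 368 369) (leaf 6 400 433))))))))))))))))) (node 464 (merge (node 559 (merge (leaf 5 431 432) (node 591 (merge (leaf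 5 463 560) (leaf 6 495 623))))) (merge (node 432 (merge (leaf 5 431 559) (node 401 (merge (leaf 6 400 433) (node 400 (merge (leaf 6 368 369) (leaf 5 399 495))))))) (merge (node 432 (merge (node 401 (merge (leaf 6 400 433) (node 400 (merge (leaf 6 368 369) (leaf 5 399 495))))) (merge (node 400 (merge (leaf 5 399 495) (node 399 (merge (leaf 7 367 367) (leaf 7 399 431))))) (node 433 (merge (leaf 6 400 401) (node 431 (merge (leaf 7 399 399) (node 463 (merge (leaf 7 431 560) (node 462 (merge (leaf 1 430 434) (leaf 2 429 461)))))))))))) (node 463 (merge (node 431 (merge (leaf 7 431 560) (node 495 (merge (leaf 4 399 399) (leaf 5 430 558))))) (merge (node 560 (merge (leaf 7 431 431) (node 591 (merge (leaf 5 463 559) (node 592 (merge (leaf 5 495 623) (node 465 (merge (leaf 6 432 433) (leaf 6 464 497))))))))) (merge (node 495 (merge (node 431 (merge (leaf 4 399 399) (leaf 5 430 558))) (node 559 (merge (node 591 (merge (leaf 6 463 464) (leaf 6 495 623))) (merge (node 591 (merge (leaf 6 495 623) (node 462 (merge (leaf 7 430 430) (leaf 7 462 494))))) (node 462 (merge (leaf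 7 430 430) (node 497 (merge (leaf 3 462 498) (node 461 (merge (leaf 0 461 464) (leaf 3 461 494)))))))))))) (node 465 (merge (node 560 (merge (leaf 6 432 433) (node 591 (merge (leaf 5 463 559) (node 592 (merge (leaf 7 463 495) (leaf 5 495 623))))))) (merge (node 462 (merge (node 433 (merge (leaf 2 430 434) (node 401 (merge (leaf 5 368 369) (leaf 5 400 497))))) (node 493 (merge (leaf 1 461 494) (node 461 (merge (leaf 1 460 492) (node 429 (merge (leaf 3 428 428) (leaf 3 429 430))))))))) (node 466 (merge (node 499 (merge (leaf 0 463 498) (node 467 (merge (leaf 0 464 500) (node 435 (merge (leaf 2 431 434) (leaf 2 432 436))))))) (merge (node 498 (merge (leaf 0 463 499) (node 462 (merge (leaf 0 462 497) (node 493 (merge (leaf 1 461 494) (node 461 (merge (leaf 1 460 492) (node 429 (merge (leaf 3 428 428) (leaf 3 429 430))))))))))) (merge (node 435 (merge (leaf 2 431 434) (node 467 (merge (leaf 2 432 436) (node 500 (merge (leaf 0 464 499) (node 468 (merge (leaf 1 464 497) (leaf 0 465 501))))))))) (node 435 (merge (leaf 2 431 434) (node 467 (merge (leaf 2 432 436) (node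 497 (merge (leaf 1 464 468) (node 462 (merge (leaf 0 461 461) (leaf 0 462 498)))))))))))))))))))))))))))) (merge (node 560 (merge (node 592 (merge (node 593 (merge (leaf 4 496 625) (node 464 (merge (leaf 4 464 561) (node 591 (merge (leaf 5 463 559) (leaf 5 495 623))))))) (merge (node 625 (merge (leaf 4 496 593) (node 624 (merge (leaf 4 528 657) (node 495 (merge (leaf 7 463 463) (leaf 7 495 527))))))) (node 623 (merge (leaf 5 495 591) (node 495 (merge (leaf 7 463 463) (node 624 (merge (leaf 7 495 527) (leaf 5 527 655)))))))))) (merge (node 592 (merge (node 625 (merge (leaf 4 496 593) (node 624 (merge (leaf 4 528 657) (node 623 (merge (leaf 5 495 591) (leaf 5 527 655))))))) (node 497 (merge (leaf 6 464 465) (node 526 (merge (leaf 2 493 525) (node 495 (merge (leaf 7 463 463) (leaf 1 494 498))))))))) (merge (node 526 (merge (node 525 (merge (leaf 2 493 497) (leaf 0 525 561))) (merge (node 525 (merge (leaf 2 493 497) (node 524 (merge (leaf 2 492 495) (leaf 0 524 559))))) (merge (node 561 (merge (leaf 0 525 525) (node 562 (merge (leaf 3 526 559) (leaf 3 527 563)))))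 (node 561 (merge (node 562 (merge (leaf 3 526 559) (leaf 3 527 563))) (node 464 (merge (leaf 4 464 593) (node 465 (merge (leaf 6 432 433) (node 497 (merge (leaf 6 464 592) (node 498 (merge (leaf 1 495 499) (node 463 (merge (leaf 7 431 431) (leaf 0 462 462))))))))))))))))) (merge (node 592 (merge (node 623 (merge (leaf 5 495 591) (node 624 (merge (leaf 7 495 495) (leaf 5 527 655))))) (merge (node 497 (merge (leaf 6 464 465) (node 526 (merge (leaf 2 493 525) (node 495 (merge (leaf 7 463 463) (leaf 1 494 498))))))) (node 623 (merge (leaf 5 495 591) (node 624 (merge (leaf 5 527 655) (node 656 (merge (leaf 7 527 559) (node 657 (merge (leaf 4 528 625) (leaf 4 560 689)))))))))))) (merge (node 526 (merge (node 525 (merge (leaf 2 493 497) (leaf 0 525 561))) (merge (node 525 (merge (leaf 2 493 497) (node 524 (merge (leaf 0 524 559) (node 556 (merge (leaf 1 523 555) (leaf 1 524 557))))))) (node 561 (merge (node 562 (merge (leaf 3 526 559) (leaf 3 527 563))) (node 593 (merge (leaf 4 464 464) (node 625 (merge (leaf 4 496 592) (leaf 7 528 657)))))))))) (node 559 (merge (node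 591 (merge (leaf 5 463 464) (leaf 6 495 623))) (merge (node 526 (merge (node 525 (merge (leaf 2 493 497) (leaf 0 524 524))) (node 561 (merge (leaf 3 526 562) (node 593 (merge (leaf 4 464 464) (node 558 (merge (leaf 0 558 594) (node 590 (merge (leaf 1 557 589) (node 622 (merge (leaf 6 494 495) (leaf 6 526 654))))))))))))) (node 591 (merge (leaf 6 495 623) (node 590 (merge (node 589 (merge (leaf 2 556 588) (node 561 (merge (leaf 1 557 558) (leaf 1 558 562))))) (merge (node 495 (merge (leaf 5 494 622) (node 494 (merge (leaf 7 462 462) (node 493 (merge (leaf 0 492 492) (node 525 (merge (leaf 1 492 524) (node 526 (merge (leaf 1 493 497) (leaf 0 525 561))))))))))) (node 589 (merge (leaf 2 556 588) (node 495 (merge (leaf 5 494 622) (node 558 (merge (leaf 5 462 463) (node 494 (merge (leaf 7 462 462) (node 526 (merge (leaf 5 493 621) (node 525 (merge (leaf 1 493 497) (leaf 0 524 524))))))))))))))))))))))))))) (merge (hyp 0) (merge (hyp 1) (hyp 2)))))))))))))) nG_22 cG_22 13 (by decide +kernel)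
def nG_23 : ℕ := 0x1000000000000000000000000000000000000000000000000000000000000000000000000000000000000000000000000000000000000000000000000000000000000
def cG_23 : ℕ := 0x10000000320000007e000000ff000001ff000001ffc00001ffe00000efc00003ffe00001ffc00001ffc00001ff8000007f0000003e00000038000000000000000000000000000000000000000000000000000000000000000000000000000
theorem lG_23 : S nG_23 cG_23 14 := S_of_chk [(nG_0, cG_0, 13), (nG_1, cG_1, 10), (nG_2, cG_2, 13), (nG_3, cG_3, 11), (nG_4, cG_4, 11), (nG_5, cG_5, 12), (nG_6, cG_6, 11), (nG_7, cG_7, 13), (nG_8, cG_8, 13), (nG_9, cG_9, 11), (nG_10, cG_10, 13), (nG_11, cG_11, 13), (nG_12, cG_12, 11), (nG_13, cG_13, 11), (nG_14, cG_14, 12), (nG_18, cG_18, 13), (nG_22, cG_22, 13)] ⟨lG_0, lG_1, lG_2, lG_3, lG_4, lG_5, lG_6, lG_7, lG_8, lG_9, lG_10, lG_11, lG_12, lG_13, lG_14, lG_18, lG_22, trivial⟩ (node 527 (merge (node 529 (merge (node 530 (merge (node 563 (merge (leaf 0 527 562) (node 531 (merge (leaf 0 528 564) (node 559 (merge (leaf 1 526 558) (leaf 1 527 560))))))) (merge (node 563 (merge (leaf 0 527 562) (node 531 (merge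 (leaf 0 528 564) (node 499 (merge (leaf 2 495 498) (leaf 2 496 500))))))) (node 498 (merge (leaf 2 495 499) (node 526 (merge (leaf 2 494 497) (node 558 (merge (leaf 1 525 557) (leaf 1 526 559)))))))))) (merge (node 494 (merge (node 495 (merge (leaf 3 494 530) (node 493 (merge (leaf 0 492 492) (leaf 0 493 496))))) (merge (node 493 (merge (leaf 3 493 526) (node 495 (merge (leaf 0 492 492) (leaf 0 493 496))))) (merge (node 530 (merge (leaf 3 494 495) (node 562 (merge (leaf 0 527 563) (node 526 (merge (leaf 0 526 561) (node 558 (merge (leaf 1 525 557) (leaf 1 526 559))))))))) (node 526 (merge (leaf 3 493 493) (node 558 (merge (leaf 1 525 557) (node 559 (merge (leaf 1 526 530) (node 591 (merge (leaf 4 462 462) (leaf 7 494 623))))))))))))) (merge (node 494 (merge (node 495 (merge (leaf 3 494 530) (node 493 (merge (leaf 0 492 492) (leaf 0 493 496))))) (merge (node 493 (merge (leaf 3 493 526) (node 495 (merge (leaf 0 492 492) (leaf 0 493 496))))) (merge (node 530 (merge (leaf 3 494 495) (node 498 (merge (leaf 2 495 499) (node 526 (merge (leaf 2 494 497) (node 558 (merge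 (leaf 1 525 557) (leaf 1 526 559))))))))) (node 526 (merge (leaf 3 493 493) (node 558 (merge (leaf 1 525 557) (node 559 (merge (leaf 1 526 530) (node 591 (merge (leaf 4 462 462) (leaf 7 494 623))))))))))))) (merge (node 559 (merge (node 530 (merge (leaf 1 526 558) (node 563 (merge (leaf 0 527 562) (node 531 (merge (leaf 0 528 564) (node 499 (merge (leaf 2 495 498) (leaf 2 496 500))))))))) (merge (node 495 (merge (node 530 (merge (leaf 3 494 494) (node 563 (merge (leaf 0 527 562) (node 531 (merge (leaf 0 528 564) (node 499 (merge (leaf 2 495 498) (leaf 2 496 500))))))))) (merge (node 591 (merge (node 494 (merge (leaf 7 462 462) (node 493 (merge (leaf 0 492 492) (leaf 0 493 496))))) (merge (node 624 (merge (leaf 4 495 592) (node 623 (merge (leaf 6 495 496) (leaf 4 527 656))))) (node 624 (merge (leaf 4 495 592) (node 623 (merge (leaf 4 527 656) (node 622 (merge (leaf 5 494 590) (leaf 5 526 654)))))))))) (node 592 (merge (node 560 (merge (leaf 4 463 463) (leaf 7 495 624))) (merge (node 591 (merge (leaf 4 495 624) (node 496 (merge (leaf 6 463 464) (leaf 6 495 623)))))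 (node 463 (merge (leaf 4 463 560) (node 464 (merge (leaf 6 431 432) (node 496 (merge (leaf 6 463 591) (node 462 (merge (leaf 7 430 430) (node 497 (merge (leaf 0 461 461) (leaf 3 462 498))))))))))))))))) (node 591 (merge (node 496 (merge (leaf 6 495 623) (node 464 (merge (leaf 5 431 432) (leaf 5 463 560))))) (merge (node 496 (merge (leaf 6 495 623) (node 495 (merge (leaf 6 463 464) (node 494 (merge (leaf 7 462 462) (leaf 0 493 493))))))) (merge (node 623 (merge (node 656 (merge (leaf 4 527 624) (node 655 (merge (leaf 6 527 560) (leaf 4 559 688))))) (merge (node 655 (merge (leaf 6 527 560) (node 654 (merge (leaf 5 526 622) (leaf 5 558 686))))) (node 624 (merge (leaf 4 527 656) (node 495 (merge (leaf 4 495 592) (node 622 (merge (leaf 5 494 590) (leaf 5 526 654)))))))))) (node 495 (merge (node 494 (merge (leaf 7 462 462) (node 493 (merge (leaf 0 492 492) (leaf 0 493 496))))) (merge (node 592 (merge (leaf 4 495 624) (node 463 (merge (leaf 4 463 560) (node 590 (merge (leaf 5 462 558) (leaf 5 494 622))))))) (node 592 (merge (node 560 (merge (leaf 4 463 463) (leaf 7 495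 624))) (merge (node 624 (merge (leaf 7 495 560) (leaf 4 495 591))) (merge (node 463 (merge (leaf 4 463 560) (node 590 (merge (leaf 5 462 558) (node 591 (merge (leaf 5 494 622) (node 462 (merge (leaf 7 430 430) (leaf 7 462 494))))))))) (node 591 (merge (leaf 4 495 624) (node 590 (merge (leaf 5 494 622) (node 463 (merge (leaf 5 462 558) (node 462 (merge (leaf 7 430 430) (leaf 7 462 494))))))))))))))))))))))) (node 561 (merge (node 562 (merge (leaf 0 526 526) (node 563 (merge (leaf 3 527 560) (leaf 3 528 564))))) (merge (node 526 (merge (leaf 0 526 562) (node 497 (merge (leaf 2 494 498) (node 496 (merge (leaf 2 493 525) (node 593 (merge (leaf 7 464 464) (leaf 7 496 625))))))))) (merge (node 593 (merge (node 496 (merge (leaf 7 496 625) (node 464 (merge (leaf 4 432 432) (leaf 4 464 560))))) (merge (node 625 (merge (leaf 7 496 496) (node 624 (merge (leaf 5 528 656) (node 497 (merge (leaf 5 496 592) (node 498 (merge (leaf 6 465 466) (leaf 2 494 526))))))))) (merge (node 497 (merge (node 498 (merge (leaf 6 465 466) (node 496 (merge (leaf 7 464 464) (leaf 1 495 499)))))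 (merge (node 526 (merge (leaf 2 494 498) (node 525 (merge (leaf 2 493 496) (leaf 0 525 560))))) (node 592 (merge (leaf 5 496 624) (node 465 (merge (leaf 5 464 560) (node 434 (merge (leaf 6 433 466) (node 433 (merge (leaf 6 401 402) (node 432 (merge (leaf 7 400 400) (leaf 7 432 464)))))))))))))) (node 625 (merge (node 657 (merge (leaf 7 528 560) (node 658 (merge (leaf 4 529 626) (leaf 4 561 690))))) (merge (node 657 (merge (leaf 7 528 560) (node 656 (merge (leaf 5 528 624) (leaf 5 560 688))))) (node 626 (merge (leaf 4 529 658) (node 497 (merge (leaf 4 497 594) (node 624 (merge (leaf 5 496 592) (leaf 5 528 656)))))))))))))) (node 593 (merge (node 496 (merge (leaf 7 496 625) (node 497 (merge (leaf 7 464 464) (node 498 (merge (leaf 6 465 466) (leaf 1 495 499))))))) (merge (node 625 (merge (leaf 7 496 496) (node 657 (merge (leaf 7 528 560) (node 658 (merge (leaf 4 529 626) (leaf 4 561 690))))))) (merge (node 625 (merge (node 657 (merge (leaf 7 528 560) (node 658 (merge (leaf 4 529 626) (leaf 4 561 690))))) (merge (node 657 (merge (leaf 7 528 560) (node 656 (merge (leaf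 5 528 624) (leaf 5 560 688))))) (node 626 (merge (leaf 4 529 658) (node 497 (merge (leaf 4 497 594) (node 624 (merge (leaf 5 496 592) (leaf 5 528 656)))))))))) (node 497 (merge (node 498 (merge (leaf 6 465 466) (node 496 (merge (leaf 7 464 464) (leaf 1 495 499))))) (merge (node 592 (merge (leaf 5 496 624) (node 465 (merge (leaf 5 464 560) (node 434 (merge (leaf 6 433 466) (node 433 (merge (leaf 6 401 402) (node 432 (merge (leaf 7 400 400) (leaf 7 432 464))))))))))) (merge (node 594 (merge (leaf 4 497 626) (node 465 (merge (leaf 4 465 562) (node 592 (merge (leaf 5 464 560) (leaf 5 496 624))))))) (node 592 (merge (leaf 5 496 624) (node 560 (merge (leaf 5 464 465) (node 496 (merge (leaf 4 464 464) (node 591 (merge (leaf 5 495 623) (node 590 (merge (leaf 2 558 562) (leaf 2 557 589)))))))))))))))))))))))))))) (merge (node 529 (merge (node 558 (merge (node 557 (merge (leaf 1 525 526) (node 559 (merge (leaf 2 524 556) (leaf 2 525 560))))) (merge (node 559 (merge (leaf 1 526 530) (node 557 (merge (leaf 2 524 556) (leaf 2 525 560))))) (merge (node 530 (merge (leaf 1 526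 559) (node 498 (merge (leaf 2 495 499) (node 526 (merge (leaf 2 494 497) (node 494 (merge (leaf 3 493 493) (leaf 3 494 495))))))))) (node 526 (merge (leaf 1 525 557) (node 498 (merge (leaf 2 494 497) (node 530 (merge (leaf 2 495 499) (node 494 (merge (leaf 3 493 493) (leaf 3 494 495))))))))))))) (merge (node 494 (merge (node 493 (merge (leaf 3 493 526) (node 495 (merge (leaf 0 492 492) (leaf 0 493 496))))) (merge (node 526 (merge (leaf 3 493 493) (node 562 (merge (leaf 0 526 561) (node 530 (merge (leaf 0 527 563) (node 498 (merge (leaf 2 494 497) (leaf 2 495 499))))))))) (node 530 (merge (leaf 3 494 495) (node 563 (merge (leaf 0 527 562) (node 531 (merge (leaf 0 528 564) (node 499 (merge (leaf 2 495 498) (leaf 2 496 500)))))))))))) (merge (node 526 (merge (node 561 (merge (leaf 0 526 562) (node 525 (merge (leaf 0 525 560) (node 493 (merge (leaf 3 492 492) (leaf 3 493 494))))))) (merge (node 562 (merge (leaf 0 526 561) (node 530 (merge (leaf 0 527 563) (node 558 (merge (leaf 1 525 557) (leaf 1 526 559))))))) (node 557 (merge (leaf 1 525 558) (node 525 (merge (leaf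 1 524 556) (node 493 (merge (leaf 3 492 492) (leaf 3 493 494)))))))))) (merge (node 561 (merge (node 526 (merge (leaf 0 526 562) (node 525 (merge (leaf 0 525 560) (node 557 (merge (leaf 1 524 556) (leaf 1 525 558))))))) (merge (node 526 (merge (leaf 0 526 562) (node 497 (merge (leaf 2 494 498) (node 525 (merge (leaf 2 493 496) (node 557 (merge (leaf 1 524 556) (leaf 1 525 558))))))))) (merge (node 593 (merge (node 496 (merge (leaf 7 496 625) (node 464 (merge (leaf 4 432 432) (leaf 4 464 560))))) (merge (node 625 (merge (leaf 7 496 496) (node 624 (merge (leaf 5 528 656) (node 497 (merge (leaf 5 496 592) (node 498 (merge (leaf 6 465 466) (leaf 2 494 526))))))))) (merge (node 497 (merge (node 498 (merge (leaf 6 465 466) (node 496 (merge (leaf 7 464 464) (leaf 1 495 499))))) (merge (node 526 (merge (leaf 2 494 498) (node 525 (merge (leaf 2 493 496) (leaf 0 525 560))))) (node 592 (merge (leaf 5 496 624) (node 465 (merge (leaf 5 464 560) (node 434 (merge (leaf 6 433 466) (node 433 (merge (leaf 6 401 402) (node 432 (merge (leaf 7 400 400) (leaf 7 432 464))))))))))))))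 (node 625 (merge (node 657 (merge (leaf 7 528 560) (node 658 (merge (leaf 4 529 626) (leaf 4 561 690))))) (merge (node 657 (merge (leaf 7 528 560) (node 656 (merge (leaf 5 528 624) (leaf 5 560 688))))) (node 626 (merge (leaf 4 529 658) (node 497 (merge (leaf 4 497 594) (node 624 (merge (leaf 5 496 592) (leaf 5 528 656)))))))))))))) (node 593 (merge (node 496 (merge (leaf 7 496 625) (node 497 (merge (leaf 7 464 464) (node 498 (merge (leaf 6 465 466) (leaf 1 495 499))))))) (merge (node 625 (merge (leaf 7 496 496) (node 657 (merge (leaf 7 528 560) (node 658 (merge (leaf 4 529 626) (leaf 4 561 690))))))) (merge (node 625 (merge (node 657 (merge (leaf 7 528 560) (node 658 (merge (leaf 4 529 626) (leaf 4 561 690))))) (merge (node 657 (merge (leaf 7 528 560) (node 656 (merge (leaf 5 528 624) (leaf 5 560 688))))) (node 626 (merge (leaf 4 529 658) (node 497 (merge (leaf 4 497 594) (node 624 (merge (leaf 5 496 592) (leaf 5 528 656)))))))))) (node 497 (merge (node 498 (merge (leaf 6 465 466) (node 496 (merge (leaf 7 464 464) (leaf 1 495 499))))) (merge (node 592 (merge (leaf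 5 496 624) (node 465 (merge (leaf 5 464 560) (node 434 (merge (leaf 6 433 466) (node 433 (merge (leaf 6 401 402) (node 432 (merge (leaf 7 400 400) (leaf 7 432 464))))))))))) (merge (node 594 (merge (leaf 4 497 626) (node 465 (merge (leaf 4 465 562) (node 592 (merge (leaf 5 464 560) (leaf 5 496 624))))))) (node 592 (merge (leaf 5 496 624) (node 560 (merge (leaf 5 464 465) (node 496 (merge (leaf 4 464 464) (node 591 (merge (leaf 5 495 623) (node 590 (merge (leaf 2 558 562) (leaf 2 557 589))))))))))))))))))))))) (node 559 (merge (node 558 (merge (leaf 1 526 530) (node 557 (merge (leaf 2 524 556) (leaf 2 525 560))))) (merge (node 495 (merge (node 530 (merge (leaf 3 494 494) (node 563 (merge (leaf 0 527 562) (node 531 (merge (leaf 0 528 564) (node 499 (merge (leaf 2 495 498) (leaf 2 496 500))))))))) (merge (node 591 (merge (node 494 (merge (leaf 7 462 462) (node 493 (merge (leaf 0 492 492) (leaf 0 493 496))))) (merge (node 624 (merge (leaf 4 495 592) (node 623 (merge (leaf 6 495 496) (leaf 4 527 656))))) (node 624 (merge (leaf 4 495 592) (node 623 (merge (leaf 4 527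 656) (node 622 (merge (leaf 5 494 590) (leaf 5 526 654)))))))))) (node 591 (merge (node 624 (merge (leaf 4 495 592) (node 623 (merge (leaf 6 495 496) (leaf 4 527 656))))) (merge (node 623 (merge (leaf 6 495 496) (node 622 (merge (leaf 5 494 590) (leaf 5 526 654))))) (merge (node 624 (merge (leaf 4 495 592) (node 623 (merge (leaf 4 527 656) (node 622 (merge (leaf 5 494 590) (leaf 5 526 654))))))) (node 592 (merge (leaf 4 495 624) (node 590 (merge (leaf 5 494 622) (node 496 (merge (leaf 6 463 464) (node 530 (merge (leaf 3 495 531) (node 562 (merge (leaf 0 527 563) (node 498 (merge (leaf 2 495 499) (node 593 (merge (leaf 2 558 561) (node 625 (merge (leaf 5 497 594) (leaf 0 590 626)))))))))))))))))))))))) (node 591 (merge (node 496 (merge (leaf 6 495 623) (node 464 (merge (leaf 5 431 432) (leaf 5 463 560))))) (merge (node 496 (merge (leaf 6 495 623) (node 495 (merge (leaf 6 463 464) (node 494 (merge (leaf 7 462 462) (leaf 0 493 493))))))) (merge (node 623 (merge (node 656 (merge (leaf 4 527 624) (node 655 (merge (leaf 6 527 560) (leaf 4 559 688))))) (merge (node 655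 (merge (leaf 6 527 560) (node 654 (merge (leaf 5 526 622) (leaf 5 558 686))))) (node 624 (merge (leaf 4 527 656) (node 495 (merge (leaf 4 495 592) (node 622 (merge (leaf 5 494 590) (leaf 5 526 654)))))))))) (node 592 (merge (node 495 (merge (leaf 4 495 624) (node 494 (merge (leaf 7 462 462) (node 493 (merge (leaf 0 492 492) (leaf 0 493 496))))))) (merge (node 624 (merge (leaf 4 495 495) (node 656 (merge (leaf 7 527 560) (leaf 7 559 688))))) (merge (node 590 (merge (node 622 (merge (leaf 5 494 495) (node 654 (merge (leaf 6 526 558) (leaf 6 558 686))))) (merge (node 495 (merge (leaf 5 494 622) (node 494 (merge (leaf 7 462 462) (node 493 (merge (leaf 0 492 492) (leaf 0 493 496))))))) (node 558 (merge (node 557 (merge (leaf 0 556 556) (leaf 2 525 560))) (node 593 (merge (leaf 3 558 594) (node 625 (merge (leaf 0 590 626) (node 561 (merge (leaf 7 496 496) (leaf 2 558 562)))))))))))) (node 560 (merge (node 624 (merge (leaf 6 496 497) (leaf 7 527 656))) (merge (node 496 (merge (leaf 5 463 464) (node 593 (merge (leaf 4 496 625) (node 594 (merge (leaf 3 558 558) (leaf 3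 559 595))))))) (node 624 (merge (leaf 7 527 656) (node 558 (merge (leaf 2 525 557) (node 593 (merge (leaf 3 558 594) (node 625 (merge (leaf 4 496 496) (leaf 4 528 657)))))))))))))))))))))))))))) (merge (hyp 0) (merge (hyp 1) (merge (node 529 (merge (node 526 (merge (node 561 (merge (leaf 0 526 562) (node 525 (merge (leaf 0 525 560) (node 493 (merge (leaf 3 492 492) (leaf 3 493 494))))))) (merge (node 562 (merge (leaf 0 526 561) (node 530 (merge (leaf 0 527 563) (node 558 (merge (leaf 1 525 557) (leaf 1 526 559))))))) (node 557 (merge (leaf 1 525 558) (node 525 (merge (leaf 1 524 556) (node 493 (merge (leaf 3 492 492) (leaf 3 493 494)))))))))) (merge (node 530 (merge (node 563 (merge (leaf 0 527 562) (node 531 (merge (leaf 0 528 564) (node 559 (merge (leaf 1 526 558) (leaf 1 527 560))))))) (merge (node 563 (merge (leaf 0 527 562) (node 531 (merge (leaf 0 528 564) (node 499 (merge (leaf 2 495 498) (leaf 2 496 500))))))) (node 498 (merge (leaf 2 495 499) (node 526 (merge (leaf 2 494 497) (node 558 (merge (leaf 1 525 557) (leaf 1 526 559)))))))))) (merge (node 526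 (merge (node 557 (merge (leaf 1 525 558) (node 525 (merge (leaf 1 524 556) (node 493 (merge (leaf 3 492 492) (leaf 3 493 494))))))) (merge (node 498 (merge (leaf 2 494 497) (node 530 (merge (leaf 2 495 499) (node 494 (merge (leaf 3 493 493) (leaf 3 494 495))))))) (node 497 (merge (leaf 2 494 498) (node 525 (merge (leaf 2 493 496) (node 557 (merge (leaf 1 524 556) (leaf 1 525 558)))))))))) (merge (node 561 (merge (node 562 (merge (leaf 0 526 526) (node 563 (merge (leaf 3 527 560) (leaf 3 528 564))))) (merge (node 526 (merge (leaf 0 526 562) (node 497 (merge (leaf 2 494 498) (node 496 (merge (leaf 2 493 525) (node 593 (merge (leaf 7 464 464) (leaf 7 496 625))))))))) (merge (node 593 (merge (node 496 (merge (leaf 7 496 625) (node 464 (merge (leaf 4 432 432) (leaf 4 464 560))))) (merge (node 625 (merge (leaf 7 496 496) (node 624 (merge (leaf 5 528 656) (node 497 (merge (leaf 5 496 592) (node 498 (merge (leaf 6 465 466) (leaf 2 494 526))))))))) (merge (node 497 (merge (node 498 (merge (leaf 6 465 466) (node 496 (merge (leaf 7 464 464) (leaf 1 495 499))))) (merge (node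 526 (merge (leaf 2 494 498) (node 525 (merge (leaf 2 493 496) (leaf 0 525 560))))) (node 592 (merge (leaf 5 496 624) (node 465 (merge (leaf 5 464 560) (node 434 (merge (leaf 6 433 466) (node 433 (merge (leaf 6 401 402) (node 432 (merge (leaf 7 400 400) (leaf 7 432 464)))))))))))))) (node 625 (merge (node 657 (merge (leaf 7 528 560) (node 658 (merge (leaf 4 529 626) (leaf 4 561 690))))) (merge (node 657 (merge (leaf 7 528 560) (node 656 (merge (leaf 5 528 624) (leaf 5 560 688))))) (node 626 (merge (leaf 4 529 658) (node 497 (merge (leaf 4 497 594) (node 624 (merge (leaf 5 496 592) (leaf 5 528 656)))))))))))))) (node 593 (merge (node 496 (merge (leaf 7 496 625) (node 497 (merge (leaf 7 464 464) (node 498 (merge (leaf 6 465 466) (leaf 1 495 499))))))) (merge (node 625 (merge (leaf 7 496 496) (node 657 (merge (leaf 7 528 560) (node 658 (merge (leaf 4 529 626) (leaf 4 561 690))))))) (merge (node 625 (merge (node 657 (merge (leaf 7 528 560) (node 658 (merge (leaf 4 529 626) (leaf 4 561 690))))) (merge (node 657 (merge (leaf 7 528 560) (node 656 (merge (leaf 5 528 624)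 (leaf 5 560 688))))) (node 626 (merge (leaf 4 529 658) (node 497 (merge (leaf 4 497 594) (node 624 (merge (leaf 5 496 592) (leaf 5 528 656)))))))))) (node 497 (merge (node 498 (merge (leaf 6 465 466) (node 496 (merge (leaf 7 464 464) (leaf 1 495 499))))) (merge (node 592 (merge (leaf 5 496 624) (node 465 (merge (leaf 5 464 560) (node 434 (merge (leaf 6 433 466) (node 433 (merge (leaf 6 401 402) (node 432 (merge (leaf 7 400 400) (leaf 7 432 464))))))))))) (merge (node 594 (merge (leaf 4 497 626) (node 465 (merge (leaf 4 465 562) (node 592 (merge (leaf 5 464 560) (leaf 5 496 624))))))) (node 592 (merge (leaf 5 496 624) (node 560 (merge (leaf 5 464 465) (node 496 (merge (leaf 4 464 464) (node 591 (merge (leaf 5 495 623) (node 590 (merge (leaf 2 558 562) (leaf 2 557 589))))))))))))))))))))))) (node 559 (merge (node 558 (merge (leaf 1 526 530) (node 557 (merge (leaf 2 524 556) (leaf 2 525 560))))) (merge (node 530 (merge (leaf 1 526 558) (node 563 (merge (leaf 0 527 562) (node 531 (merge (leaf 0 528 564) (node 499 (merge (leaf 2 495 498) (leaf 2 496 500))))))))) (merge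 (node 495 (merge (node 530 (merge (leaf 3 494 494) (node 563 (merge (leaf 0 527 562) (node 531 (merge (leaf 0 528 564) (node 499 (merge (leaf 2 495 498) (leaf 2 496 500))))))))) (merge (node 463 (merge (node 560 (merge (leaf 4 431 431) (leaf 4 463 592))) (merge (node 464 (merge (leaf 6 431 432) (node 591 (merge (leaf 6 463 496) (node 624 (merge (leaf 4 495 592) (node 623 (merge (leaf 4 527 656) (node 622 (merge (leaf 5 494 590) (leaf 5 526 654))))))))))) (node 560 (merge (leaf 4 431 431) (node 530 (merge (leaf 1 527 531) (node 562 (merge (leaf 0 527 563) (node 464 (merge (leaf 6 431 432) (node 591 (merge (leaf 5 463 496) (node 590 (merge (leaf 1 558 561) (leaf 5 494 622)))))))))))))))) (node 591 (merge (node 624 (merge (leaf 4 495 592) (node 623 (merge (leaf 6 495 496) (leaf 4 527 656))))) (merge (node 623 (merge (leaf 6 495 496) (node 622 (merge (leaf 5 494 590) (leaf 5 526 654))))) (merge (node 622 (merge (leaf 5 494 590) (node 623 (merge (leaf 5 526 654) (node 656 (merge (leaf 4 527 624) (node 655 (merge (leaf 6 527 560) (leaf 4 559 688))))))))) (node 592 (merge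 (leaf 4 495 624) (node 560 (merge (leaf 4 463 463) (node 590 (merge (leaf 5 494 622) (node 589 (merge (leaf 2 557 561) (leaf 2 556 588)))))))))))))))) (node 591 (merge (node 496 (merge (leaf 6 495 623) (node 464 (merge (leaf 5 431 432) (leaf 5 463 560))))) (merge (node 623 (merge (leaf 6 495 496) (node 656 (merge (leaf 4 527 624) (node 655 (merge (leaf 4 559 688) (node 654 (merge (leaf 5 526 622) (leaf 5 558 686))))))))) (merge (node 623 (merge (node 656 (merge (leaf 4 527 624) (node 655 (merge (leaf 6 527 560) (leaf 4 559 688))))) (merge (node 655 (merge (leaf 6 527 560) (node 654 (merge (leaf 5 526 622) (leaf 5 558 686))))) (node 624 (merge (leaf 4 527 656) (node 495 (merge (leaf 4 495 592) (node 622 (merge (leaf 5 494 590) (leaf 5 526 654)))))))))) (node 592 (merge (node 495 (merge (leaf 4 495 624) (node 463 (merge (leaf 4 463 560) (node 590 (merge (leaf 5 462 558) (leaf 5 494 622))))))) (merge (node 560 (merge (node 624 (merge (leaf 6 496 497) (leaf 7 527 656))) (merge (node 496 (merge (leaf 5 463 464) (node 593 (merge (leaf 4 496 625) (node 594 (merge (leaf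 3 558 558) (leaf 3 559 595))))))) (node 624 (merge (leaf 7 527 656) (node 558 (merge (leaf 2 525 557) (node 593 (merge (leaf 3 558 594) (node 625 (merge (leaf 4 496 496) (leaf 4 528 657)))))))))))) (merge (node 560 (merge (node 495 (merge (leaf 4 463 463) (node 590 (merge (leaf 5 494 622) (node 589 (merge (leaf 2 557 561) (leaf 2 556 588))))))) (node 496 (merge (leaf 5 463 464) (node 593 (merge (leaf 4 496 625) (node 594 (merge (leaf 3 558 558) (leaf 3 559 595))))))))) (merge (node 495 (merge (leaf 4 495 624) (node 590 (merge (leaf 5 494 622) (node 558 (merge (leaf 5 462 463) (node 593 (merge (leaf 3 557 557) (leaf 3 558 594))))))))) (node 495 (merge (leaf 4 495 624) (node 560 (merge (leaf 4 463 463) (node 496 (merge (leaf 5 463 464) (node 593 (merge (leaf 4 496 625) (node 497 (merge (leaf 6 464 465) (node 498 (merge (leaf 1 495 499) (node 466 (merge (leaf 2 463 467) (leaf 6 465 561))))))))))))))))))))))))))))))))) (merge (node 526 (merge (node 529 (merge (node 562 (merge (leaf 0 526 561) (node 530 (merge (leaf 0 527 563) (node 498 (merge (leaf 2 494 497) (leaf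 2 495 499))))))) (merge (node 562 (merge (leaf 0 526 561) (node 530 (merge (leaf 0 527 563) (node 558 (merge (leaf 1 525 557) (leaf 1 526 559))))))) (node 497 (merge (leaf 2 494 498) (node 525 (merge (leaf 2 493 496) (node 557 (merge (leaf 1 524 556) (leaf 1 525 558)))))))))) (merge (node 529 (merge (node 497 (merge (leaf 2 494 498) (node 525 (merge (leaf 2 493 496) (node 493 (merge (leaf 3 492 492) (leaf 3 493 494))))))) (merge (node 562 (merge (leaf 0 526 561) (node 530 (merge (leaf 0 527 563) (node 498 (merge (leaf 2 494 497) (leaf 2 495 499))))))) (node 562 (merge (leaf 0 526 561) (node 530 (merge (leaf 0 527 563) (node 494 (merge (leaf 3 493 493) (leaf 3 494 495)))))))))) (merge (node 525 (merge (node 497 (merge (leaf 2 493 496) (node 529 (merge (leaf 2 494 498) (node 557 (merge (leaf 1 524 556) (leaf 1 525 558))))))) (merge (node 556 (merge (leaf 1 524 557) (node 524 (merge (leaf 1 523 555) (node 492 (merge (leaf 3 491 491) (leaf 3 492 493))))))) (node 497 (merge (leaf 2 493 496) (node 529 (merge (leaf 2 494 498) (node 493 (merge (leaf 3 492 492) (leaf 3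 493 494)))))))))) (merge (node 558 (merge (node 529 (merge (leaf 1 525 557) (node 562 (merge (leaf 0 526 561) (node 530 (merge (leaf 1 526 559) (leaf 0 527 563))))))) (merge (node 529 (merge (leaf 1 525 557) (node 562 (merge (leaf 0 526 561) (node 530 (merge (leaf 0 527 563) (node 494 (merge (leaf 3 493 493) (leaf 3 494 495))))))))) (merge (node 590 (merge (node 495 (merge (leaf 6 494 622) (node 494 (merge (leaf 6 462 463) (node 493 (merge (leaf 7 461 461) (leaf 0 492 492))))))) (merge (node 622 (merge (leaf 6 494 495) (node 655 (merge (leaf 4 526 623) (node 654 (merge (leaf 6 526 559) (leaf 4 558 687))))))) (merge (node 622 (merge (node 655 (merge (leaf 4 526 623) (node 654 (merge (leaf 6 526 559) (leaf 4 558 687))))) (merge (node 654 (merge (leaf 6 526 559) (node 653 (merge (leaf 5 525 621) (leaf 5 557 685))))) (node 623 (merge (leaf 4 526 655) (node 494 (merge (leaf 4 494 591) (node 621 (merge (leaf 5 493 589) (leaf 5 525 653)))))))))) (node 494 (merge (node 493 (merge (leaf 7 461 461) (node 492 (merge (leaf 0 491 491) (leaf 0 492 495))))) (node 589 (merge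 (leaf 5 493 621) (node 462 (merge (leaf 5 461 557) (node 559 (merge (leaf 4 430 430) (leaf 4 462 591))))))))))))) (node 590 (merge (node 495 (merge (leaf 6 494 622) (node 463 (merge (leaf 5 430 431) (leaf 5 462 559))))) (merge (node 622 (merge (leaf 6 494 495) (node 621 (merge (leaf 5 525 653) (node 494 (merge (leaf 5 493 589) (node 493 (merge (leaf 7 461 461) (leaf 3 493 529))))))))) (merge (node 622 (merge (node 655 (merge (leaf 4 526 623) (node 654 (merge (leaf 6 526 559) (leaf 4 558 687))))) (merge (node 654 (merge (leaf 6 526 559) (node 653 (merge (leaf 5 525 621) (leaf 5 557 685))))) (node 623 (merge (leaf 4 526 655) (node 494 (merge (leaf 4 494 591) (node 621 (merge (leaf 5 493 589) (leaf 5 525 653)))))))))) (node 494 (merge (node 493 (merge (leaf 7 461 461) (node 492 (merge (leaf 0 491 491) (leaf 0 492 495))))) (merge (node 529 (merge (leaf 3 493 493) (node 562 (merge (leaf 0 526 561) (node 530 (merge (leaf 1 526 559) (leaf 0 527 563))))))) (node 591 (merge (leaf 4 494 623) (node 462 (merge (leaf 4 462 559) (node 431 (merge (leaf 6 430 463) (node 430 (merge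 (leaf 6 398 399) (node 429 (merge (leaf 7 397 397) (leaf 7 429 461)))))))))))))))))))))) (node 496 (merge (node 497 (merge (leaf 2 493 525) (node 498 (merge (leaf 1 494 495) (leaf 1 495 499))))) (merge (node 525 (merge (leaf 2 493 497) (node 560 (merge (leaf 0 525 561) (node 524 (merge (leaf 0 524 559) (node 492 (merge (leaf 3 491 491) (leaf 3 492 493))))))))) (merge (node 464 (merge (node 559 (merge (leaf 5 431 432) (node 591 (merge (leaf 6 463 495) (leaf 6 495 623))))) (merge (node 560 (merge (node 561 (merge (leaf 0 525 525) (leaf 4 464 593))) (node 433 (merge (leaf 6 432 465) (node 432 (merge (leaf 6 400 401) (node 431 (merge (leaf 7 399 399) (leaf 7 431 463))))))))) (node 525 (merge (node 524 (merge (leaf 2 492 495) (node 492 (merge (leaf 3 491 491) (leaf 3 492 493))))) (merge (node 524 (merge (leaf 2 492 495) (node 556 (merge (leaf 1 523 555) (leaf 1 524 557))))) (node 560 (merge (leaf 0 525 561) (node 557 (merge (leaf 1 524 556) (node 493 (merge (leaf 3 492 492) (node 465 (merge (leaf 6 432 433) (node 463 (merge (leaf 7 431 431) (node 462 (merge (leaf 1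 461 494) (node 430 (merge (leaf 3 429 429) (leaf 6 429 461))))))))))))))))))))) (node 464 (merge (node 559 (merge (leaf 5 431 432) (node 591 (merge (leaf 5 463 560) (leaf 6 495 623))))) (merge (node 432 (merge (leaf 5 431 559) (node 401 (merge (leaf 6 400 433) (node 400 (merge (leaf 6 368 369) (leaf 5 399 495))))))) (merge (node 432 (merge (node 401 (merge (leaf 6 400 433) (node 400 (merge (leaf 6 368 369) (leaf 5 399 495))))) (merge (node 400 (merge (leaf 5 399 495) (node 399 (merge (leaf 7 367 367) (leaf 7 399 431))))) (node 433 (merge (leaf 6 400 401) (node 431 (merge (leaf 7 399 399) (node 463 (merge (leaf 7 431 560) (node 462 (merge (leaf 1 430 434) (leaf 2 429 461)))))))))))) (node 463 (merge (node 431 (merge (leaf 7 431 560) (node 495 (merge (leaf 4 399 399) (leaf 5 430 558))))) (merge (node 560 (merge (leaf 7 431 431) (node 561 (merge (leaf 4 464 593) (node 559 (merge (leaf 3 526 562) (leaf 5 463 591))))))) (merge (node 495 (merge (node 431 (merge (leaf 4 399 399) (leaf 5 430 558))) (merge (node 497 (merge (leaf 1 494 498) (node 462 (merge (leaf 0 461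 461) (node 559 (merge (leaf 7 430 430) (leaf 6 463 591))))))) (node 431 (merge (leaf 4 399 399) (node 430 (merge (leaf 7 398 398) (node 465 (merge (leaf 3 430 466) (node 462 (merge (leaf 3 429 429) (leaf 7 430 559)))))))))))) (node 465 (merge (node 433 (merge (leaf 6 432 560) (node 401 (merge (leaf 5 368 369) (leaf 5 400 497))))) (merge (node 560 (merge (leaf 6 432 433) (node 561 (merge (leaf 4 464 593) (node 559 (merge (leaf 3 526 562) (leaf 5 463 591))))))) (node 495 (merge (node 466 (merge (leaf 1 463 467) (leaf 1 462 494))) (merge (node 497 (merge (leaf 1 494 498) (node 462 (merge (leaf 0 461 461) (node 430 (merge (leaf 3 429 429) (leaf 7 430 559))))))) (node 466 (merge (leaf 1 463 467) (node 498 (merge (leaf 0 463 499) (node 462 (merge (leaf 0 462 497) (node 461 (merge (leaf 0 460 460) (node 429 (merge (leaf 3 428 428) (leaf 3 429 430)))))))))))))))))))))))))))))))))) (merge (hyp 2) (merge (hyp 3) (merge (node 529 (merge (node 530 (merge (node 563 (merge (leaf 0 527 562) (node 531 (merge (leaf 0 528 564) (node 499 (merge (leaf 2 495 498) (leaf 2 496 500)))))))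 (merge (node 563 (merge (leaf 0 527 562) (node 531 (merge (leaf 0 528 564) (node 495 (merge (leaf 3 494 494) (leaf 3 495 496))))))) (merge (node 499 (merge (leaf 2 495 498) (node 531 (merge (leaf 2 496 500) (node 495 (merge (leaf 3 494 494) (leaf 3 495 496))))))) (node 562 (merge (leaf 0 527 563) (node 498 (merge (leaf 2 495 499) (node 497 (merge (leaf 2 494 526) (node 594 (merge (leaf 7 465 465) (leaf 7 497 626))))))))))))) (merge (node 558 (merge (node 557 (merge (leaf 1 525 526) (node 559 (merge (leaf 2 524 556) (leaf 2 525 560))))) (merge (node 530 (merge (leaf 1 526 559) (node 499 (merge (leaf 2 495 498) (node 531 (merge (leaf 2 496 500) (node 495 (merge (leaf 3 494 494) (leaf 3 495 496))))))))) (node 526 (merge (leaf 1 525 557) (node 498 (merge (leaf 2 494 497) (node 530 (merge (leaf 2 495 499) (node 495 (merge (leaf 3 494 494) (node 496 (merge (leaf 3 495 531) (node 525 (merge (leaf 2 492 524) (node 560 (merge (leaf 0 525 561) (node 463 (merge (leaf 4 431 431) (leaf 7 463 592)))))))))))))))))))) (merge (node 530 (merge (node 499 (merge (leaf 2 495 498)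 (node 531 (merge (leaf 2 496 500) (node 559 (merge (leaf 1 526 558) (leaf 1 527 560))))))) (merge (node 563 (merge (leaf 0 527 562) (node 531 (merge (leaf 0 528 564) (node 559 (merge (leaf 1 526 558) (leaf 1 527 560))))))) (merge (node 563 (merge (leaf 0 527 562) (node 531 (merge (leaf 0 528 564) (node 499 (merge (leaf 2 495 498) (leaf 2 496 500))))))) (node 562 (merge (leaf 0 527 563) (node 561 (merge (leaf 0 526 526) (node 498 (merge (leaf 2 495 499) (node 593 (merge (leaf 5 465 466) (leaf 6 497 625))))))))))))) (merge (node 558 (merge (node 559 (merge (leaf 1 526 530) (node 557 (merge (leaf 2 524 556) (leaf 2 525 560))))) (merge (node 530 (merge (leaf 1 526 559) (node 563 (merge (leaf 0 527 562) (node 531 (merge (leaf 0 528 564) (node 495 (merge (leaf 3 494 494) (leaf 3 495 496))))))))) (node 526 (merge (leaf 1 525 557) (node 561 (merge (leaf 0 526 562) (node 525 (merge (leaf 0 525 560) (node 496 (merge (leaf 2 493 497) (node 524 (merge (leaf 2 492 495) (node 555 (merge (leaf 1 523 556) (node 523 (merge (leaf 1 522 554) (node 491 (merge (leaf 3 490 490) (leaf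 3 491 492)))))))))))))))))))) (merge (node 495 (merge (node 530 (merge (leaf 3 494 494) (node 563 (merge (leaf 0 527 562) (node 531 (merge (leaf 0 528 564) (node 499 (merge (leaf 2 495 498) (leaf 2 496 500))))))))) (merge (node 559 (merge (node 530 (merge (leaf 1 526 558) (node 499 (merge (leaf 2 495 498) (node 531 (merge (leaf 3 495 496) (leaf 2 496 500))))))) (merge (node 463 (merge (node 560 (merge (leaf 4 431 431) (leaf 4 463 592))) (merge (node 432 (merge (leaf 6 431 464) (node 431 (merge (leaf 6 399 400) (node 430 (merge (leaf 7 398 398) (leaf 7 430 462))))))) (node 558 (merge (leaf 5 462 590) (node 557 (merge (leaf 2 524 556) (leaf 2 525 560)))))))) (node 463 (merge (node 560 (merge (leaf 4 431 431) (leaf 4 463 592))) (merge (node 432 (merge (leaf 6 431 464) (node 431 (merge (leaf 6 399 400) (node 430 (merge (leaf 7 398 398) (leaf 7 430 462))))))) (node 560 (merge (leaf 4 463 592) (node 530 (merge (leaf 1 527 531) (node 498 (merge (leaf 2 495 499) (node 464 (merge (leaf 6 431 432) (node 462 (merge (leaf 7 430 430) (node 497 (merge (leaf 0 462 465) (leaf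 3 462 496))))))))))))))))))) (node 463 (merge (node 560 (merge (leaf 4 431 431) (node 592 (merge (leaf 7 463 496) (leaf 7 495 624))))) (merge (node 559 (merge (node 558 (merge (leaf 5 462 590) (node 557 (merge (leaf 2 524 556) (leaf 2 525 560))))) (merge (node 592 (merge (leaf 4 463 560) (node 591 (merge (leaf 4 495 624) (node 462 (merge (leaf 7 430 430) (leaf 7 462 494))))))) (node 590 (merge (leaf 5 462 558) (node 591 (merge (leaf 5 494 622) (node 462 (merge (leaf 7 430 430) (leaf 7 462 494)))))))))) (node 559 (merge (node 590 (merge (leaf 5 462 558) (node 591 (merge (leaf 5 494 622) (node 462 (merge (leaf 7 430 430) (leaf 7 462 494))))))) (merge (node 464 (merge (leaf 6 431 432) (node 591 (merge (leaf 6 463 496) (node 590 (merge (leaf 5 462 558) (leaf 5 494 622))))))) (node 432 (merge (leaf 6 431 464) (node 431 (merge (leaf 6 399 400) (node 430 (merge (leaf 7 398 398) (leaf 7 430 462)))))))))))))))) (node 561 (merge (node 526 (merge (leaf 0 526 562) (node 525 (merge (leaf 0 525 560) (node 557 (merge (leaf 1 524 556) (leaf 1 525 558))))))) (merge (node 526 (merge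 (leaf 0 526 562) (node 497 (merge (leaf 2 494 498) (node 525 (merge (leaf 2 493 496) (node 557 (merge (leaf 1 524 556) (leaf 1 525 558))))))))) (merge (node 593 (merge (node 496 (merge (leaf 7 496 625) (node 464 (merge (leaf 4 432 432) (leaf 4 464 560))))) (merge (node 625 (merge (leaf 7 496 496) (node 624 (merge (leaf 5 528 656) (node 497 (merge (leaf 5 496 592) (node 498 (merge (leaf 6 465 466) (leaf 2 494 526))))))))) (merge (node 497 (merge (node 498 (merge (leaf 6 465 466) (node 496 (merge (leaf 7 464 464) (leaf 1 495 499))))) (merge (node 526 (merge (leaf 2 494 498) (node 525 (merge (leaf 2 493 496) (leaf 0 525 560))))) (node 592 (merge (leaf 5 496 624) (node 465 (merge (leaf 5 464 560) (node 434 (merge (leaf 6 433 466) (node 433 (merge (leaf 6 401 402) (node 432 (merge (leaf 7 400 400) (leaf 7 432 464)))))))))))))) (node 625 (merge (node 657 (merge (leaf 7 528 560) (node 658 (merge (leaf 4 529 626) (leaf 4 561 690))))) (merge (node 657 (merge (leaf 7 528 560) (node 656 (merge (leaf 5 528 624) (leaf 5 560 688))))) (node 626 (merge (leaf 4 529 658) (node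 497 (merge (leaf 4 497 594) (node 624 (merge (leaf 5 496 592) (leaf 5 528 656)))))))))))))) (node 593 (merge (node 496 (merge (leaf 7 496 625) (node 497 (merge (leaf 7 464 464) (node 498 (merge (leaf 6 465 466) (leaf 1 495 499))))))) (merge (node 625 (merge (leaf 7 496 496) (node 657 (merge (leaf 7 528 560) (node 658 (merge (leaf 4 529 626) (leaf 4 561 690))))))) (merge (node 625 (merge (node 657 (merge (leaf 7 528 560) (node 658 (merge (leaf 4 529 626) (leaf 4 561 690))))) (merge (node 657 (merge (leaf 7 528 560) (node 656 (merge (leaf 5 528 624) (leaf 5 560 688))))) (node 626 (merge (leaf 4 529 658) (node 497 (merge (leaf 4 497 594) (node 624 (merge (leaf 5 496 592) (leaf 5 528 656)))))))))) (node 497 (merge (node 498 (merge (leaf 6 465 466) (node 496 (merge (leaf 7 464 464) (leaf 1 495 499))))) (merge (node 592 (merge (leaf 5 496 624) (node 465 (merge (leaf 5 464 560) (node 434 (merge (leaf 6 433 466) (node 433 (merge (leaf 6 401 402) (node 432 (merge (leaf 7 400 400) (leaf 7 432 464))))))))))) (merge (node 594 (merge (leaf 4 497 626) (node 465 (merge (leaf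 4 465 562) (node 592 (merge (leaf 5 464 560) (leaf 5 496 624))))))) (node 592 (merge (leaf 5 496 624) (node 560 (merge (leaf 5 464 465) (node 496 (merge (leaf 4 464 464) (node 591 (merge (leaf 5 495 623) (node 590 (merge (leaf 2 558 562) (leaf 2 557 589))))))))))))))))))))))))))))) (merge (node 529 (merge (node 530 (merge (node 563 (merge (leaf 0 527 562) (node 531 (merge (leaf 0 528 564) (node 499 (merge (leaf 2 495 498) (leaf 2 496 500))))))) (merge (node 563 (merge (leaf 0 527 562) (node 531 (merge (leaf 0 528 564) (node 495 (merge (leaf 3 494 494) (leaf 3 495 496))))))) (merge (node 499 (merge (leaf 2 495 498) (node 531 (merge (leaf 2 496 500) (node 495 (merge (leaf 3 494 494) (leaf 3 495 496))))))) (node 562 (merge (leaf 0 527 563) (node 498 (merge (leaf 2 495 499) (node 497 (merge (leaf 2 494 526) (node 594 (merge (leaf 7 465 465) (leaf 7 497 626))))))))))))) (merge (node 530 (merge (node 499 (merge (leaf 2 495 498) (node 531 (merge (leaf 2 496 500) (node 559 (merge (leaf 1 526 558) (leaf 1 527 560))))))) (merge (node 563 (merge (leaf 0 527 562) (node 531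 (merge (leaf 0 528 564) (node 559 (merge (leaf 1 526 558) (leaf 1 527 560))))))) (merge (node 563 (merge (leaf 0 527 562) (node 531 (merge (leaf 0 528 564) (node 499 (merge (leaf 2 495 498) (leaf 2 496 500))))))) (node 562 (merge (leaf 0 527 563) (node 561 (merge (leaf 0 526 526) (node 498 (merge (leaf 2 495 499) (node 593 (merge (leaf 5 465 466) (leaf 6 497 625))))))))))))) (merge (node 494 (merge (node 493 (merge (leaf 3 493 526) (node 495 (merge (leaf 0 492 492) (leaf 0 493 496))))) (merge (node 530 (merge (leaf 3 494 495) (node 563 (merge (leaf 0 527 562) (node 531 (merge (leaf 0 528 564) (node 559 (merge (leaf 1 526 558) (leaf 1 527 560))))))))) (node 526 (merge (leaf 3 493 493) (node 562 (merge (leaf 0 526 561) (node 530 (merge (leaf 0 527 563) (node 559 (merge (leaf 1 526 558) (node 560 (merge (leaf 1 527 531) (node 525 (merge (leaf 0 524 524) (node 496 (merge (leaf 2 493 497) (node 591 (merge (leaf 5 463 464) (leaf 6 495 623)))))))))))))))))))) (merge (node 494 (merge (node 493 (merge (leaf 3 493 526) (node 495 (merge (leaf 0 492 492) (leaf 0 493 496)))))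 (merge (node 530 (merge (leaf 3 494 495) (node 499 (merge (leaf 2 495 498) (node 531 (merge (leaf 2 496 500) (node 559 (merge (leaf 1 526 558) (leaf 1 527 560))))))))) (node 526 (merge (leaf 3 493 493) (node 497 (merge (leaf 2 494 498) (node 525 (merge (leaf 2 493 496) (node 560 (merge (leaf 0 525 561) (node 524 (merge (leaf 0 524 559) (node 555 (merge (leaf 1 523 556) (node 523 (merge (leaf 1 522 554) (node 491 (merge (leaf 3 490 490) (leaf 3 491 492)))))))))))))))))))) (merge (node 559 (merge (node 530 (merge (leaf 1 526 558) (node 563 (merge (leaf 0 527 562) (node 531 (merge (leaf 0 528 564) (node 499 (merge (leaf 2 495 498) (leaf 2 496 500))))))))) (merge (node 495 (merge (node 530 (merge (leaf 3 494 494) (node 563 (merge (leaf 0 527 562) (node 531 (merge (leaf 0 528 564) (node 499 (merge (leaf 2 495 498) (leaf 2 496 500))))))))) (merge (node 591 (merge (node 494 (merge (leaf 7 462 462) (node 493 (merge (leaf 0 492 492) (leaf 0 493 496))))) (merge (node 624 (merge (leaf 4 495 592) (node 623 (merge (leaf 6 495 496) (leaf 4 527 656))))) (node 624 (merge (leaf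 4 495 592) (node 623 (merge (leaf 4 527 656) (node 622 (merge (leaf 5 494 590) (leaf 5 526 654)))))))))) (node 592 (merge (node 560 (merge (leaf 4 463 463) (leaf 7 495 624))) (merge (node 591 (merge (leaf 4 495 624) (node 496 (merge (leaf 6 463 464) (leaf 6 495 623))))) (node 463 (merge (leaf 4 463 560) (node 464 (merge (leaf 6 431 432) (node 496 (merge (leaf 6 463 591) (node 462 (merge (leaf 7 430 430) (node 497 (merge (leaf 0 461 461) (leaf 3 462 498))))))))))))))))) (node 591 (merge (node 496 (merge (leaf 6 495 623) (node 464 (merge (leaf 5 431 432) (leaf 5 463 560))))) (merge (node 496 (merge (leaf 6 495 623) (node 495 (merge (leaf 6 463 464) (node 494 (merge (leaf 7 462 462) (leaf 0 493 493))))))) (merge (node 623 (merge (node 656 (merge (leaf 4 527 624) (node 655 (merge (leaf 6 527 560) (leaf 4 559 688))))) (merge (node 655 (merge (leaf 6 527 560) (node 654 (merge (leaf 5 526 622) (leaf 5 558 686))))) (node 624 (merge (leaf 4 527 656) (node 495 (merge (leaf 4 495 592) (node 622 (merge (leaf 5 494 590) (leaf 5 526 654)))))))))) (node 495 (merge (node 494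 (merge (leaf 7 462 462) (node 493 (merge (leaf 0 492 492) (leaf 0 493 496))))) (merge (node 592 (merge (leaf 4 495 624) (node 463 (merge (leaf 4 463 560) (node 590 (merge (leaf 5 462 558) (leaf 5 494 622))))))) (node 592 (merge (node 560 (merge (leaf 4 463 463) (leaf 7 495 624))) (merge (node 624 (merge (leaf 7 495 560) (leaf 4 495 591))) (merge (node 463 (merge (leaf 4 463 560) (node 590 (merge (leaf 5 462 558) (node 591 (merge (leaf 5 494 622) (node 462 (merge (leaf 7 430 430) (leaf 7 462 494))))))))) (node 591 (merge (leaf 4 495 624) (node 590 (merge (leaf 5 494 622) (node 463 (merge (leaf 5 462 558) (node 462 (merge (leaf 7 430 430) (leaf 7 462 494))))))))))))))))))))))) (node 561 (merge (node 562 (merge (leaf 0 526 526) (node 563 (merge (leaf 3 527 560) (leaf 3 528 564))))) (merge (node 526 (merge (leaf 0 526 562) (node 497 (merge (leaf 2 494 498) (node 496 (merge (leaf 2 493 525) (node 593 (merge (leaf 7 464 464) (leaf 7 496 625))))))))) (merge (node 593 (merge (node 496 (merge (leaf 7 496 625) (node 464 (merge (leaf 4 432 432) (leaf 4 464 560))))) (merge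 (node 625 (merge (leaf 7 496 496) (node 624 (merge (leaf 5 528 656) (node 497 (merge (leaf 5 496 592) (node 498 (merge (leaf 6 465 466) (leaf 2 494 526))))))))) (merge (node 497 (merge (node 498 (merge (leaf 6 465 466) (node 496 (merge (leaf 7 464 464) (leaf 1 495 499))))) (merge (node 526 (merge (leaf 2 494 498) (node 525 (merge (leaf 2 493 496) (leaf 0 525 560))))) (node 592 (merge (leaf 5 496 624) (node 465 (merge (leaf 5 464 560) (node 434 (merge (leaf 6 433 466) (node 433 (merge (leaf 6 401 402) (node 432 (merge (leaf 7 400 400) (leaf 7 432 464)))))))))))))) (node 625 (merge (node 657 (merge (leaf 7 528 560) (node 658 (merge (leaf 4 529 626) (leaf 4 561 690))))) (merge (node 657 (merge (leaf 7 528 560) (node 656 (merge (leaf 5 528 624) (leaf 5 560 688))))) (node 626 (merge (leaf 4 529 658) (node 497 (merge (leaf 4 497 594) (node 624 (merge (leaf 5 496 592) (leaf 5 528 656)))))))))))))) (node 593 (merge (node 496 (merge (leaf 7 496 625) (node 497 (merge (leaf 7 464 464) (node 498 (merge (leaf 6 465 466) (leaf 1 495 499))))))) (merge (node 625 (merge (leaf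 7 496 496) (node 657 (merge (leaf 7 528 560) (node 658 (merge (leaf 4 529 626) (leaf 4 561 690))))))) (merge (node 625 (merge (node 657 (merge (leaf 7 528 560) (node 658 (merge (leaf 4 529 626) (leaf 4 561 690))))) (merge (node 657 (merge (leaf 7 528 560) (node 656 (merge (leaf 5 528 624) (leaf 5 560 688))))) (node 626 (merge (leaf 4 529 658) (node 497 (merge (leaf 4 497 594) (node 624 (merge (leaf 5 496 592) (leaf 5 528 656)))))))))) (node 497 (merge (node 498 (merge (leaf 6 465 466) (node 496 (merge (leaf 7 464 464) (leaf 1 495 499))))) (merge (node 592 (merge (leaf 5 496 624) (node 465 (merge (leaf 5 464 560) (node 434 (merge (leaf 6 433 466) (node 433 (merge (leaf 6 401 402) (node 432 (merge (leaf 7 400 400) (leaf 7 432 464))))))))))) (merge (node 594 (merge (leaf 4 497 626) (node 465 (merge (leaf 4 465 562) (node 592 (merge (leaf 5 464 560) (leaf 5 496 624))))))) (node 592 (merge (leaf 5 496 624) (node 560 (merge (leaf 5 464 465) (node 496 (merge (leaf 4 464 464) (node 591 (merge (leaf 5 495 623) (node 590 (merge (leaf 2 558 562) (leaf 2 557 589)))))))))))))))))))))))))))))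 (merge (hyp 4) (merge (node 529 (merge (node 530 (merge (node 563 (merge (leaf 0 527 562) (node 531 (merge (leaf 0 528 564) (node 559 (merge (leaf 1 526 558) (leaf 1 527 560))))))) (merge (node 563 (merge (leaf 0 527 562) (node 531 (merge (leaf 0 528 564) (node 499 (merge (leaf 2 495 498) (leaf 2 496 500))))))) (node 498 (merge (leaf 2 495 499) (node 526 (merge (leaf 2 494 497) (node 558 (merge (leaf 1 525 557) (leaf 1 526 559)))))))))) (merge (node 530 (merge (node 563 (merge (leaf 0 527 562) (node 531 (merge (leaf 0 528 564) (node 499 (merge (leaf 2 495 498) (leaf 2 496 500))))))) (merge (node 563 (merge (leaf 0 527 562) (node 531 (merge (leaf 0 528 564) (node 495 (merge (leaf 3 494 494) (leaf 3 495 496))))))) (merge (node 499 (merge (leaf 2 495 498) (node 531 (merge (leaf 2 496 500) (node 495 (merge (leaf 3 494 494) (leaf 3 495 496))))))) (node 562 (merge (leaf 0 527 563) (node 498 (merge (leaf 2 495 499) (node 497 (merge (leaf 2 494 526) (node 594 (merge (leaf 7 465 465) (leaf 7 497 626))))))))))))) (merge (node 494 (merge (node 493 (merge (leaf 3 493 526)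 (node 495 (merge (leaf 0 492 492) (leaf 0 493 496))))) (merge (node 526 (merge (leaf 3 493 493) (node 558 (merge (leaf 1 525 557) (node 559 (merge (leaf 1 526 530) (node 591 (merge (leaf 4 462 462) (leaf 7 494 623))))))))) (node 530 (merge (leaf 3 494 495) (node 563 (merge (leaf 0 527 562) (node 531 (merge (leaf 0 528 564) (node 559 (merge (leaf 1 526 558) (leaf 1 527 560)))))))))))) (merge (node 559 (merge (node 530 (merge (leaf 1 526 558) (node 563 (merge (leaf 0 527 562) (node 531 (merge (leaf 0 528 564) (node 499 (merge (leaf 2 495 498) (leaf 2 496 500))))))))) (merge (node 495 (merge (node 530 (merge (leaf 3 494 494) (node 563 (merge (leaf 0 527 562) (node 531 (merge (leaf 0 528 564) (node 499 (merge (leaf 2 495 498) (leaf 2 496 500))))))))) (merge (node 591 (merge (node 494 (merge (leaf 7 462 462) (node 493 (merge (leaf 0 492 492) (leaf 0 493 496))))) (merge (node 624 (merge (leaf 4 495 592) (node 623 (merge (leaf 6 495 496) (leaf 4 527 656))))) (node 624 (merge (leaf 4 495 592) (node 623 (merge (leaf 4 527 656) (node 622 (merge (leaf 5 494 590) (leaf 5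 526 654)))))))))) (node 592 (merge (node 560 (merge (leaf 4 463 463) (leaf 7 495 624))) (merge (node 591 (merge (leaf 4 495 624) (node 496 (merge (leaf 6 463 464) (leaf 6 495 623))))) (node 463 (merge (leaf 4 463 560) (node 464 (merge (leaf 6 431 432) (node 496 (merge (leaf 6 463 591) (node 462 (merge (leaf 7 430 430) (node 497 (merge (leaf 0 461 461) (leaf 3 462 498))))))))))))))))) (node 591 (merge (node 496 (merge (leaf 6 495 623) (node 464 (merge (leaf 5 431 432) (leaf 5 463 560))))) (merge (node 496 (merge (leaf 6 495 623) (node 495 (merge (leaf 6 463 464) (node 494 (merge (leaf 7 462 462) (leaf 0 493 493))))))) (merge (node 623 (merge (node 656 (merge (leaf 4 527 624) (node 655 (merge (leaf 6 527 560) (leaf 4 559 688))))) (merge (node 655 (merge (leaf 6 527 560) (node 654 (merge (leaf 5 526 622) (leaf 5 558 686))))) (node 624 (merge (leaf 4 527 656) (node 495 (merge (leaf 4 495 592) (node 622 (merge (leaf 5 494 590) (leaf 5 526 654)))))))))) (node 495 (merge (node 494 (merge (leaf 7 462 462) (node 493 (merge (leaf 0 492 492) (leaf 0 493 496))))) (merge (node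 592 (merge (leaf 4 495 624) (node 463 (merge (leaf 4 463 560) (node 590 (merge (leaf 5 462 558) (leaf 5 494 622))))))) (node 592 (merge (node 560 (merge (leaf 4 463 463) (leaf 7 495 624))) (merge (node 624 (merge (leaf 7 495 560) (leaf 4 495 591))) (merge (node 463 (merge (leaf 4 463 560) (node 590 (merge (leaf 5 462 558) (node 591 (merge (leaf 5 494 622) (node 462 (merge (leaf 7 430 430) (leaf 7 462 494))))))))) (node 591 (merge (leaf 4 495 624) (node 590 (merge (leaf 5 494 622) (node 463 (merge (leaf 5 462 558) (node 462 (merge (leaf 7 430 430) (leaf 7 462 494))))))))))))))))))))))) (hyp 5)))))) (merge (hyp 6) (merge (hyp 7) (merge (hyp 8) (merge (node 526 (merge (node 529 (merge (node 562 (merge (leaf 0 526 561) (node 530 (merge (leaf 0 527 563) (node 498 (merge (leaf 2 494 497) (leaf 2 495 499))))))) (merge (node 562 (merge (leaf 0 526 561) (node 530 (merge (leaf 0 527 563) (node 558 (merge (leaf 1 525 557) (leaf 1 526 559))))))) (node 497 (merge (leaf 2 494 498) (node 525 (merge (leaf 2 493 496) (node 557 (merge (leaf 1 524 556) (leaf 1 525 558))))))))))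 (merge (node 529 (merge (node 497 (merge (leaf 2 494 498) (node 525 (merge (leaf 2 493 496) (node 493 (merge (leaf 3 492 492) (leaf 3 493 494))))))) (merge (node 562 (merge (leaf 0 526 561) (node 530 (merge (leaf 0 527 563) (node 498 (merge (leaf 2 494 497) (leaf 2 495 499))))))) (node 562 (merge (leaf 0 526 561) (node 530 (merge (leaf 0 527 563) (node 494 (merge (leaf 3 493 493) (leaf 3 494 495)))))))))) (merge (node 525 (merge (node 497 (merge (leaf 2 493 496) (node 529 (merge (leaf 2 494 498) (node 557 (merge (leaf 1 524 556) (leaf 1 525 558))))))) (merge (node 556 (merge (leaf 1 524 557) (node 524 (merge (leaf 1 523 555) (node 492 (merge (leaf 3 491 491) (leaf 3 492 493))))))) (node 497 (merge (leaf 2 493 496) (node 529 (merge (leaf 2 494 498) (node 493 (merge (leaf 3 492 492) (leaf 3 493 494)))))))))) (merge (node 558 (merge (node 529 (merge (leaf 1 525 557) (node 562 (merge (leaf 0 526 561) (node 530 (merge (leaf 1 526 559) (leaf 0 527 563))))))) (merge (node 529 (merge (leaf 1 525 557) (node 562 (merge (leaf 0 526 561) (node 530 (merge (leaf 0 527 563)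 (node 494 (merge (leaf 3 493 493) (leaf 3 494 495))))))))) (merge (node 590 (merge (node 495 (merge (leaf 6 494 622) (node 494 (merge (leaf 6 462 463) (node 493 (merge (leaf 7 461 461) (leaf 0 492 492))))))) (merge (node 622 (merge (leaf 6 494 495) (node 655 (merge (leaf 4 526 623) (node 654 (merge (leaf 6 526 559) (leaf 4 558 687))))))) (merge (node 622 (merge (node 655 (merge (leaf 4 526 623) (node 654 (merge (leaf 6 526 559) (leaf 4 558 687))))) (merge (node 654 (merge (leaf 6 526 559) (node 653 (merge (leaf 5 525 621) (leaf 5 557 685))))) (node 623 (merge (leaf 4 526 655) (node 494 (merge (leaf 4 494 591) (node 621 (merge (leaf 5 493 589) (leaf 5 525 653)))))))))) (node 494 (merge (node 493 (merge (leaf 7 461 461) (node 492 (merge (leaf 0 491 491) (leaf 0 492 495))))) (node 589 (merge (leaf 5 493 621) (node 462 (merge (leaf 5 461 557) (node 559 (merge (leaf 4 430 430) (leaf 4 462 591))))))))))))) (node 590 (merge (node 495 (merge (leaf 6 494 622) (node 463 (merge (leaf 5 430 431) (leaf 5 462 559))))) (merge (node 622 (merge (leaf 6 494 495) (node 621 (merge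 (leaf 5 525 653) (node 494 (merge (leaf 5 493 589) (node 493 (merge (leaf 7 461 461) (leaf 3 493 529))))))))) (merge (node 622 (merge (node 655 (merge (leaf 4 526 623) (node 654 (merge (leaf 6 526 559) (leaf 4 558 687))))) (merge (node 654 (merge (leaf 6 526 559) (node 653 (merge (leaf 5 525 621) (leaf 5 557 685))))) (node 623 (merge (leaf 4 526 655) (node 494 (merge (leaf 4 494 591) (node 621 (merge (leaf 5 493 589) (leaf 5 525 653)))))))))) (node 494 (merge (node 493 (merge (leaf 7 461 461) (node 492 (merge (leaf 0 491 491) (leaf 0 492 495))))) (merge (node 529 (merge (leaf 3 493 493) (node 562 (merge (leaf 0 526 561) (node 530 (merge (leaf 1 526 559) (leaf 0 527 563))))))) (node 591 (merge (leaf 4 494 623) (node 462 (merge (leaf 4 462 559) (node 431 (merge (leaf 6 430 463) (node 430 (merge (leaf 6 398 399) (node 429 (merge (leaf 7 397 397) (leaf 7 429 461)))))))))))))))))))))) (node 496 (merge (node 525 (merge (leaf 2 493 497) (node 524 (merge (leaf 2 492 495) (node 492 (merge (leaf 3 491 491) (leaf 3 492 493))))))) (merge (node 525 (merge (leaf 2 493 497)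 (node 560 (merge (leaf 0 525 561) (node 524 (merge (leaf 0 524 559) (node 492 (merge (leaf 3 491 491) (leaf 3 492 493))))))))) (merge (node 560 (merge (node 561 (merge (leaf 0 525 525) (node 562 (merge (leaf 3 526 559) (leaf 3 527 563))))) (merge (node 525 (merge (leaf 0 525 561) (node 524 (merge (leaf 2 492 495) (node 556 (merge (leaf 1 523 555) (leaf 1 524 557))))))) (node 591 (merge (node 623 (merge (leaf 6 495 559) (leaf 5 495 592))) (merge (node 592 (merge (leaf 5 495 623) (node 495 (merge (leaf 7 463 463) (leaf 7 495 624))))) (node 464 (merge (leaf 5 463 559) (node 431 (merge (leaf 7 431 463) (node 432 (merge (leaf 7 399 399) (node 400 (merge (leaf 5 399 495) (node 401 (merge (leaf 6 368 369) (leaf 6 400 433))))))))))))))))) (node 464 (merge (node 559 (merge (leaf 5 431 432) (node 591 (merge (leaf 5 463 560) (leaf 6 495 623))))) (merge (node 432 (merge (leaf 5 431 559) (node 401 (merge (leaf 6 400 433) (node 400 (merge (leaf 6 368 369) (leaf 5 399 495))))))) (merge (node 432 (merge (node 401 (merge (leaf 6 400 433) (node 400 (merge (leaf 6 368 369) (leaf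 5 399 495))))) (merge (node 400 (merge (leaf 5 399 495) (node 399 (merge (leaf 7 367 367) (leaf 7 399 431))))) (node 433 (merge (leaf 6 400 401) (node 431 (merge (leaf 7 399 399) (node 463 (merge (leaf 7 431 560) (node 462 (merge (leaf 1 430 434) (leaf 2 429 461)))))))))))) (node 463 (merge (node 431 (merge (leaf 7 431 560) (node 495 (merge (leaf 4 399 399) (leaf 5 430 558))))) (merge (node 560 (merge (leaf 7 431 431) (node 591 (merge (leaf 5 463 559) (node 592 (merge (leaf 5 495 623) (node 465 (merge (leaf 6 432 433) (leaf 6 464 497))))))))) (merge (node 495 (merge (node 431 (merge (leaf 4 399 399) (leaf 5 430 558))) (node 559 (merge (node 591 (merge (leaf 6 463 464) (leaf 6 495 623))) (merge (node 591 (merge (leaf 6 495 623) (node 462 (merge (leaf 7 430 430) (leaf 7 462 494))))) (node 462 (merge (leaf 7 430 430) (node 497 (merge (leaf 3 462 498) (node 461 (merge (leaf 0 461 464) (leaf 3 461 494)))))))))))) (node 465 (merge (node 560 (merge (leaf 6 432 433) (node 591 (merge (leaf 5 463 559) (node 592 (merge (leaf 7 463 495) (leaf 5 495 623))))))) (merge (node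 462 (merge (node 433 (merge (leaf 2 430 434) (node 401 (merge (leaf 5 368 369) (leaf 5 400 497))))) (node 493 (merge (leaf 1 461 494) (node 461 (merge (leaf 1 460 492) (node 429 (merge (leaf 3 428 428) (leaf 3 429 430))))))))) (node 466 (merge (node 499 (merge (leaf 0 463 498) (node 467 (merge (leaf 0 464 500) (node 435 (merge (leaf 2 431 434) (leaf 2 432 436))))))) (merge (node 498 (merge (leaf 0 463 499) (node 462 (merge (leaf 0 462 497) (node 493 (merge (leaf 1 461 494) (node 461 (merge (leaf 1 460 492) (node 429 (merge (leaf 3 428 428) (leaf 3 429 430))))))))))) (merge (node 435 (merge (leaf 2 431 434) (node 467 (merge (leaf 2 432 436) (node 500 (merge (leaf 0 464 499) (node 468 (merge (leaf 1 464 497) (leaf 0 465 501))))))))) (node 435 (merge (leaf 2 431 434) (node 467 (merge (leaf 2 432 436) (node 497 (merge (leaf 1 464 468) (node 462 (merge (leaf 0 461 461) (leaf 0 462 498))))))))))))))))))))))))))))))))) (merge (hyp 9) (merge (hyp 10) (merge (hyp 11) (merge (hyp 12) (merge (node 529 (merge (node 526 (merge (node 557 (merge (leaf 1 525 558) (node 525 (merge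 (leaf 1 524 556) (node 493 (merge (leaf 3 492 492) (leaf 3 493 494))))))) (merge (node 498 (merge (leaf 2 494 497) (node 530 (merge (leaf 2 495 499) (node 494 (merge (leaf 3 493 493) (leaf 3 494 495))))))) (node 497 (merge (leaf 2 494 498) (node 525 (merge (leaf 2 493 496) (node 557 (merge (leaf 1 524 556) (leaf 1 525 558)))))))))) (merge (node 526 (merge (node 557 (merge (leaf 1 525 558) (node 525 (merge (leaf 1 524 556) (node 493 (merge (leaf 3 492 492) (leaf 3 493 494))))))) (merge (node 562 (merge (leaf 0 526 561) (node 530 (merge (leaf 0 527 563) (node 494 (merge (leaf 3 493 493) (leaf 3 494 495))))))) (merge (node 561 (merge (leaf 0 526 562) (node 525 (merge (leaf 0 525 560) (node 556 (merge (leaf 1 524 557) (node 524 (merge (leaf 1 523 555) (node 492 (merge (leaf 3 491 491) (leaf 3 492 493))))))))))) (node 561 (merge (leaf 0 526 562) (node 525 (merge (leaf 0 525 560) (node 556 (merge (leaf 1 524 557) (node 524 (merge (leaf 1 523 555) (node 495 (merge (leaf 2 492 496) (node 494 (merge (leaf 2 491 523) (leaf 3 494 530))))))))))))))))) (merge (node 494 (merge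 (node 493 (merge (leaf 3 493 526) (node 495 (merge (leaf 0 492 492) (leaf 3 494 530))))) (merge (node 530 (merge (leaf 3 494 495) (node 563 (merge (leaf 0 527 562) (node 531 (merge (leaf 0 528 564) (node 499 (merge (leaf 2 495 498) (leaf 2 496 500))))))))) (node 526 (merge (leaf 3 493 493) (node 561 (merge (leaf 0 526 562) (node 560 (merge (leaf 0 525 525) (node 497 (merge (leaf 2 494 498) (node 592 (merge (leaf 5 464 465) (leaf 6 496 624)))))))))))))) (merge (node 561 (merge (node 526 (merge (leaf 0 526 562) (node 525 (merge (leaf 0 525 560) (node 557 (merge (leaf 1 524 556) (leaf 1 525 558))))))) (merge (node 526 (merge (leaf 0 526 562) (node 497 (merge (leaf 2 494 498) (node 525 (merge (leaf 2 493 496) (node 557 (merge (leaf 1 524 556) (leaf 1 525 558))))))))) (merge (node 593 (merge (node 496 (merge (leaf 7 496 625) (node 464 (merge (leaf 4 432 432) (leaf 4 464 560))))) (merge (node 625 (merge (leaf 7 496 496) (node 624 (merge (leaf 5 528 656) (node 497 (merge (leaf 5 496 592) (node 498 (merge (leaf 6 465 466) (leaf 2 494 526))))))))) (merge (node 497 (merge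 (node 498 (merge (leaf 6 465 466) (node 496 (merge (leaf 7 464 464) (leaf 1 495 499))))) (merge (node 526 (merge (leaf 2 494 498) (node 525 (merge (leaf 2 493 496) (leaf 0 525 560))))) (node 592 (merge (leaf 5 496 624) (node 465 (merge (leaf 5 464 560) (node 434 (merge (leaf 6 433 466) (node 433 (merge (leaf 6 401 402) (node 432 (merge (leaf 7 400 400) (leaf 7 432 464)))))))))))))) (node 625 (merge (node 657 (merge (leaf 7 528 560) (node 658 (merge (leaf 4 529 626) (leaf 4 561 690))))) (merge (node 657 (merge (leaf 7 528 560) (node 656 (merge (leaf 5 528 624) (leaf 5 560 688))))) (node 626 (merge (leaf 4 529 658) (node 497 (merge (leaf 4 497 594) (node 624 (merge (leaf 5 496 592) (leaf 5 528 656)))))))))))))) (node 593 (merge (node 496 (merge (leaf 7 496 625) (node 497 (merge (leaf 7 464 464) (node 498 (merge (leaf 6 465 466) (leaf 1 495 499))))))) (merge (node 625 (merge (leaf 7 496 496) (node 657 (merge (leaf 7 528 560) (node 658 (merge (leaf 4 529 626) (leaf 4 561 690))))))) (merge (node 625 (merge (node 657 (merge (leaf 7 528 560) (node 658 (merge (leaf 4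 529 626) (leaf 4 561 690))))) (merge (node 657 (merge (leaf 7 528 560) (node 656 (merge (leaf 5 528 624) (leaf 5 560 688))))) (node 626 (merge (leaf 4 529 658) (node 497 (merge (leaf 4 497 594) (node 624 (merge (leaf 5 496 592) (leaf 5 528 656)))))))))) (node 497 (merge (node 498 (merge (leaf 6 465 466) (node 496 (merge (leaf 7 464 464) (leaf 1 495 499))))) (merge (node 592 (merge (leaf 5 496 624) (node 465 (merge (leaf 5 464 560) (node 434 (merge (leaf 6 433 466) (node 433 (merge (leaf 6 401 402) (node 432 (merge (leaf 7 400 400) (leaf 7 432 464))))))))))) (merge (node 594 (merge (leaf 4 497 626) (node 465 (merge (leaf 4 465 562) (node 592 (merge (leaf 5 464 560) (leaf 5 496 624))))))) (node 592 (merge (leaf 5 496 624) (node 560 (merge (leaf 5 464 465) (node 496 (merge (leaf 4 464 464) (node 591 (merge (leaf 5 495 623) (node 590 (merge (leaf 2 558 562) (leaf 2 557 589))))))))))))))))))))))) (hyp 13)))))) (merge (hyp 14) (merge (hyp 15) (hyp 16))))))))))))))))))))))))) nG_23 cG_23 14 (by decide +kernel)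

end Crest.Agent.H26Snaky
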