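import Crest.Agent.H26SnakyTree

/-! certificate data for S0047, part H 0 (computer generated) -/

set_option autoImplicit false
set_option maxRecDepth 100000

namespace Crest.Agent.H26Snaky

open T

def nH_0 : ℕ := 0x1800000000000000000000000000000000000000000000000000000000000000000000000000000000000000000000000000000000000000000000000000000000000
def cH_0 : ℕ := 0x40000000c0000006c0000007c000000ff000000e6000001ff000001fe000000fe0000007c000000540000000000000000000000000000000000000000000000000000000000000000000000000000000000000000000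
theorem lH_0 : S nH_0 cH_0 12 := S_of_chk [] trivial (node 529 (merge (node 558 (merge (node 557 (merge (leaf 1 525 526) (node 559 (merge (leaf 2 524 556) (leaf 2 525 560))))) (merge (node 559 (merge (leaf 1 526 530) (node 557 (merge (leaf 2 524 556) (leaf 2 525 560))))) (merge (node 530 (merge (leaf 1 526 559) (node 562 (merge (leaf 0 527 563) (node 526 (merge (leaf 0 526 561) (node 494 (merge (leaf 3 493 493) (leaf 3 494 495))))))))) (node 526 (merge (leaf 1 525 557) (node 562 (merge (leaf 0 526 561) (node 530 (merge (leaf 0 527 563) (node 494 (merge (leaf 3 493 493) (leaf 3 494 495))))))))))))) (merge (node 526 (merge (node 562 (merge (leaf 0 526 561) (node 530 (merge (leaf 0 527 563) (node 498 (merge (leaf 2 494 497) (leaf 2 495 499))))))) (merge (node 562 (merge (leaf 0 526 561) (node 530 (merge (leaf 0 527 563) (node 558 (merge (leaf 1 525 557) (leaf 1 526 559))))))) (node 497 (merge (leaf 2 494 498) (node 525 (merge (leaf 2 493 496) (node 557 (merge (leaf 1 524 556) (leaf 1 525 558)))))))))) (merge (node 526 (merge (node 562 (merge (leaf 0 526 561) (node 530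 (merge (leaf 0 527 563) (node 498 (merge (leaf 2 494 497) (leaf 2 495 499))))))) (merge (node 498 (merge (leaf 2 494 497) (node 530 (merge (leaf 2 495 499) (node 494 (merge (leaf 3 493 493) (leaf 3 494 495))))))) (node 561 (merge (leaf 0 526 562) (node 525 (merge (leaf 0 525 560) (node 493 (merge (leaf 3 492 492) (leaf 3 493 494)))))))))) (merge (node 530 (merge (node 559 (merge (leaf 1 526 558) (node 531 (merge (leaf 1 527 560) (node 495 (merge (leaf 3 494 494) (leaf 3 495 496))))))) (node 562 (merge (leaf 0 527 563) (node 498 (merge (leaf 2 495 499) (node 497 (merge (leaf 2 494 526) (node 594 (merge (leaf 7 465 465) (leaf 7 497 626))))))))))) (merge (node 495 (merge (node 530 (merge (leaf 3 494 494) (node 499 (merge (leaf 2 495 498) (node 531 (merge (leaf 3 495 496) (leaf 2 496 500))))))) (merge (node 530 (merge (leaf 3 494 494) (node 499 (merge (leaf 2 495 498) (node 531 (merge (leaf 2 496 500) (node 559 (merge (leaf 1 526 558) (leaf 1 527 560))))))))) (merge (node 559 (merge (node 530 (merge (leaf 1 526 558) (node 499 (merge (leaf 2 495 498) (node 531 (merge (leaf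 3 495 496) (leaf 2 496 500))))))) (merge (node 463 (merge (node 560 (merge (leaf 4 431 431) (leaf 4 463 592))) (merge (node 560 (merge (leaf 4 431 431) (leaf 4 463 592))) (merge (node 432 (merge (leaf 6 431 464) (node 431 (merge (leaf 6 399 400) (node 430 (merge (leaf 7 398 398) (leaf 7 430 462))))))) (node 560 (merge (leaf 4 463 592) (node 558 (merge (leaf 5 462 590) (node 557 (merge (leaf 2 525 529) (leaf 2 524 556))))))))))) (node 463 (merge (node 560 (merge (leaf 4 431 431) (leaf 4 463 592))) (merge (node 560 (merge (leaf 4 431 431) (leaf 4 463 592))) (merge (node 430 (merge (leaf 7 430 462) (node 431 (merge (leaf 7 398 398) (node 399 (merge (leaf 4 399 496) (node 400 (merge (leaf 6 367 368) (leaf 6 399 432))))))))) (node 560 (merge (leaf 4 463 592) (node 530 (merge (leaf 1 527 531) (node 498 (merge (leaf 2 495 499) (node 464 (merge (leaf 6 431 432) (node 462 (merge (leaf 7 430 430) (node 497 (merge (leaf 0 462 465) (leaf 3 462 496)))))))))))))))))))) (node 463 (merge (node 431 (merge (leaf 4 431 560) (node 400 (merge (leaf 6 399 432) (node 399 (merge (leaf 6 367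 368) (node 398 (merge (leaf 7 366 366) (leaf 7 398 430))))))))) (merge (node 559 (merge (node 558 (merge (leaf 5 462 590) (node 557 (merge (leaf 2 524 556) (leaf 2 525 560))))) (merge (node 590 (merge (leaf 5 462 558) (node 591 (merge (leaf 5 494 622) (node 462 (merge (leaf 7 430 430) (leaf 7 462 494))))))) (node 462 (merge (leaf 7 430 430) (node 591 (merge (leaf 7 462 494) (node 623 (merge (leaf 6 495 496) (node 654 (merge (leaf 5 526 622) (node 655 (merge (leaf 6 527 560) (leaf 5 558 686)))))))))))))) (merge (node 432 (merge (node 400 (merge (leaf 6 399 431) (node 464 (merge (leaf 5 367 368) (leaf 6 431 559))))) (merge (node 431 (merge (leaf 6 399 400) (node 399 (merge (leaf 4 399 496) (node 398 (merge (leaf 7 366 366) (leaf 7 398 430))))))) (node 559 (merge (leaf 6 431 464) (node 462 (merge (leaf 7 430 430) (node 591 (merge (leaf 7 462 494) (node 622 (merge (leaf 5 494 590) (node 623 (merge (leaf 6 495 496) (leaf 5 526 654)))))))))))))) (node 431 (merge (leaf 4 431 560) (node 496 (merge (leaf 4 399 399) (node 494 (merge (leaf 0 493 493) (node 432 (merge (leaf 6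 399 400) (node 559 (merge (leaf 5 431 464) (node 591 (merge (leaf 7 462 462) (leaf 6 495 623))))))))))))))))))))) (node 497 (merge (node 526 (merge (leaf 2 494 498) (node 557 (merge (leaf 1 525 558) (node 525 (merge (leaf 1 524 556) (node 493 (merge (leaf 3 492 492) (leaf 3 493 494))))))))) (merge (node 496 (merge (node 526 (merge (leaf 2 493 525) (node 561 (merge (leaf 0 526 562) (node 593 (merge (leaf 7 464 464) (leaf 7 496 625))))))) (merge (node 559 (merge (node 591 (merge (leaf 6 495 623) (node 464 (merge (leaf 5 431 432) (leaf 5 463 560))))) (merge (node 591 (merge (leaf 6 495 623) (node 495 (merge (leaf 6 463 464) (node 494 (merge (leaf 7 462 462) (leaf 0 493 493))))))) (merge (node 526 (merge (leaf 2 493 525) (node 494 (merge (leaf 3 493 493) (node 462 (merge (leaf 4 430 430) (node 495 (merge (leaf 3 461 461) (node 465 (merge (leaf 2 462 466) (node 433 (merge (leaf 5 400 401) (leaf 5 432 560))))))))))))) (node 526 (merge (leaf 2 493 525) (node 494 (merge (leaf 3 493 493) (node 462 (merge (leaf 4 430 430) (node 495 (merge (leaf 3 461 461) (leaf 7 462 591)))))))))))))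 (merge (node 560 (merge (node 465 (merge (leaf 5 432 433) (leaf 6 464 592))) (merge (node 464 (merge (node 432 (merge (leaf 4 400 400) (leaf 5 431 559))) (node 593 (merge (leaf 4 464 561) (node 592 (merge (leaf 4 496 625) (node 463 (merge (leaf 7 431 431) (leaf 7 463 495))))))))) (node 464 (merge (node 432 (merge (leaf 4 400 400) (leaf 5 431 559))) (merge (node 465 (merge (leaf 5 432 433) (node 559 (merge (leaf 5 463 591) (node 463 (merge (leaf 7 431 431) (node 462 (merge (leaf 0 461 461) (node 430 (merge (leaf 3 429 429) (leaf 7 430 495))))))))))) (node 432 (merge (leaf 4 400 400) (leaf 4 432 561))))))))) (node 526 (merge (leaf 2 493 525) (node 561 (merge (leaf 0 526 562) (node 558 (merge (leaf 1 525 557) (node 593 (merge (leaf 7 496 625) (node 594 (merge (leaf 4 497 626) (node 559 (merge (leaf 0 558 560) (node 591 (merge (leaf 3 558 592) (leaf 6 495 623))))))))))))))))))) (node 465 (merge (node 433 (merge (leaf 5 432 560) (node 402 (merge (leaf 6 401 434) (node 401 (merge (leaf 6 369 370) (leaf 5 400 496))))))) (merge (node 433 (merge (leaf 5 432 560) (node 434 (merge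 (leaf 6 401 402) (node 561 (merge (leaf 6 433 466) (node 432 (merge (leaf 7 400 400) (leaf 7 432 464))))))))) (merge (node 433 (merge (leaf 5 432 560) (node 496 (merge (leaf 5 400 401) (node 498 (merge (leaf 1 495 499) (node 432 (merge (leaf 7 400 400) (node 561 (merge (leaf 4 432 464) (node 593 (merge (leaf 6 465 466) (leaf 7 496 625))))))))))))) (merge (node 561 (merge (node 594 (merge (leaf 4 465 562) (node 593 (merge (leaf 4 497 626) (node 464 (merge (leaf 7 432 432) (leaf 7 464 496))))))) (merge (node 562 (merge (leaf 4 465 594) (node 560 (merge (leaf 3 527 563) (leaf 5 464 592))))) (node 466 (merge (leaf 6 433 434) (node 498 (merge (leaf 6 465 593) (node 499 (merge (leaf 1 496 500) (node 464 (merge (leaf 7 432 432) (leaf 0 463 463)))))))))))) (node 434 (merge (node 433 (merge (leaf 6 401 402) (node 561 (merge (leaf 6 433 466) (node 432 (merge (leaf 7 400 400) (leaf 7 432 464))))))) (merge (node 561 (merge (leaf 6 433 466) (node 594 (merge (leaf 4 465 562) (node 593 (merge (leaf 4 497 626) (node 464 (merge (leaf 7 432 432) (leaf 7 464 496))))))))) (merge (node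 433 (merge (leaf 6 401 402) (node 496 (merge (leaf 5 400 401) (node 432 (merge (leaf 7 400 400) (node 561 (merge (leaf 4 432 464) (node 594 (merge (leaf 4 465 562) (node 593 (merge (leaf 7 496 625) (leaf 4 497 626))))))))))))) (merge (node 433 (merge (leaf 6 401 402) (node 496 (merge (leaf 5 400 401) (node 561 (merge (leaf 6 433 466) (node 593 (merge (leaf 7 464 464) (leaf 7 496 625))))))))) (merge (node 433 (merge (leaf 6 401 402) (node 401 (merge (leaf 5 400 496) (node 400 (merge (leaf 7 368 368) (leaf 7 400 432))))))) (node 433 (merge (leaf 6 401 402) (node 496 (merge (leaf 5 400 401) (node 432 (merge (leaf 7 400 400) (node 464 (merge (leaf 5 431 559) (node 435 (merge (leaf 1 431 463) (node 467 (merge (leaf 0 432 468) (node 431 (merge (leaf 7 399 399) (leaf 0 431 466))))))))))))))))))))))))))))))))))) nH_0 cH_0 12 (by decide +kernel)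
def nH_1 : ℕ := 0x1800000000000000000000000000000000000000000000000000000000000000000000000000000000000000000000000000000000000000000000000000000000000
def cH_1 : ℕ := 0x540000007c0000007c000000ec000000ff000000e6000001ff0000007c0000007c0000007c000000140000000000000000000000000000000000000000000000000000000000000000000000000000000000000000000
theorem lH_1 : S nH_1 cH_1 12 := S_of_chk [] trivial (node 529 (merge (node 558 (merge (node 557 (merge (leaf 1 525 526) (node 559 (merge (leaf 2 524 556) (leaf 2 525 560))))) (merge (node 559 (merge (leaf 1 526 530) (node 557 (merge (leaf 2 524 556) (leaf 2 525 560))))) (merge (node 530 (merge (leaf 1 526 559) (node 498 (merge (leaf 2 495 499) (node 526 (merge (leaf 2 494 497) (node 494 (merge (leaf 3 493 493) (leaf 3 494 495))))))))) (node 526 (merge (leaf 1 525 557) (node 498 (merge (leaf 2 494 497) (node 530 (merge (leaf 2 495 499) (node 494 (merge (leaf 3 493 493) (leaf 3 494 495))))))))))))) (merge (node 558 (merge (node 557 (merge (leaf 1 525 526) (node 559 (merge (leaf 2 524 556) (leaf 2 525 560))))) (merge (node 559 (merge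 (leaf 1 526 530) (node 557 (merge (leaf 2 524 556) (leaf 2 525 560))))) (merge (node 530 (merge (leaf 1 526 559) (node 562 (merge (leaf 0 527 563) (node 526 (merge (leaf 0 526 561) (node 494 (merge (leaf 3 493 493) (leaf 3 494 495))))))))) (node 526 (merge (leaf 1 525 557) (node 562 (merge (leaf 0 526 561) (node 530 (merge (leaf 0 527 563) (node 494 (merge (leaf 3 493 493) (leaf 3 494 495))))))))))))) (merge (node 526 (merge (node 562 (merge (leaf 0 526 561) (node 530 (merge (leaf 0 527 563) (node 498 (merge (leaf 2 494 497) (leaf 2 495 499))))))) (merge (node 562 (merge (leaf 0 526 561) (node 530 (merge (leaf 0 527 563) (node 558 (merge (leaf 1 525 557) (leaf 1 526 559))))))) (node 497 (merge (leaf 2 494 498) (node 525 (merge (leaf 2 493 496) (node 557 (merge (leaf 1 524 556) (leaf 1 525 558)))))))))) (merge (node 526 (merge (node 562 (merge (leaf 0 526 561) (node 530 (merge (leaf 0 527 563) (node 498 (merge (leaf 2 494 497) (leaf 2 495 499))))))) (merge (node 498 (merge (leaf 2 494 497) (node 530 (merge (leaf 2 495 499) (node 494 (merge (leaf 3 493 493) (leaf 3 494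 495))))))) (node 561 (merge (leaf 0 526 562) (node 525 (merge (leaf 0 525 560) (node 493 (merge (leaf 3 492 492) (leaf 3 493 494)))))))))) (merge (node 530 (merge (node 559 (merge (leaf 1 526 558) (node 531 (merge (leaf 1 527 560) (node 495 (merge (leaf 3 494 494) (leaf 3 495 496))))))) (node 562 (merge (leaf 0 527 563) (node 498 (merge (leaf 2 495 499) (node 497 (merge (leaf 2 494 526) (node 594 (merge (leaf 7 465 465) (leaf 7 497 626))))))))))) (merge (node 561 (merge (node 526 (merge (leaf 0 526 562) (node 557 (merge (leaf 1 525 558) (node 525 (merge (leaf 1 524 556) (node 493 (merge (leaf 3 492 492) (leaf 3 493 494))))))))) (merge (node 593 (merge (node 496 (merge (leaf 7 496 625) (node 497 (merge (leaf 7 464 464) (node 498 (merge (leaf 6 465 466) (leaf 1 495 499))))))) (merge (node 625 (merge (leaf 7 496 496) (node 657 (merge (leaf 7 528 560) (node 658 (merge (leaf 4 529 626) (leaf 4 561 690))))))) (merge (node 625 (merge (node 657 (merge (leaf 7 528 560) (node 658 (merge (leaf 4 529 626) (leaf 4 561 690))))) (merge (node 657 (merge (leaf 7 528 560) (node 656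 (merge (leaf 5 528 624) (leaf 5 560 688))))) (node 626 (merge (leaf 4 529 658) (node 594 (merge (leaf 4 497 497) (node 624 (merge (leaf 5 528 656) (node 623 (merge (leaf 2 591 595) (leaf 2 590 622)))))))))))) (node 497 (merge (node 498 (merge (leaf 6 465 466) (node 499 (merge (leaf 1 495 496) (leaf 1 496 500))))) (merge (node 594 (merge (leaf 4 497 626) (node 465 (merge (leaf 4 465 562) (node 434 (merge (leaf 6 433 466) (node 433 (merge (leaf 6 401 402) (node 432 (merge (leaf 7 400 400) (leaf 7 432 464))))))))))) (node 594 (merge (leaf 4 497 626) (node 465 (merge (leaf 4 465 562) (node 433 (merge (leaf 5 432 560) (node 496 (merge (leaf 5 400 401) (leaf 7 464 464)))))))))))))))) (node 497 (merge (node 526 (merge (leaf 2 494 498) (node 557 (merge (leaf 1 525 558) (node 525 (merge (leaf 1 524 556) (node 493 (merge (leaf 3 492 492) (leaf 3 493 494))))))))) (merge (node 464 (merge (node 432 (merge (leaf 7 432 465) (leaf 4 432 496))) (merge (node 465 (merge (leaf 7 432 432) (node 466 (merge (leaf 6 433 434) (node 498 (merge (leaf 6 465 593) (node 499 (merge (leaf 0 463 463)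 (leaf 1 496 500))))))))) (node 593 (merge (leaf 7 464 496) (node 626 (merge (leaf 4 497 594) (node 625 (merge (leaf 4 529 658) (node 657 (merge (leaf 7 528 560) (node 656 (merge (leaf 5 528 624) (leaf 5 560 688)))))))))))))) (node 593 (merge (node 625 (merge (leaf 7 496 496) (node 657 (merge (leaf 7 528 560) (node 656 (merge (leaf 5 528 624) (leaf 5 560 688))))))) (merge (node 626 (merge (leaf 4 497 594) (node 625 (merge (leaf 7 496 496) (leaf 4 529 658))))) (merge (node 625 (merge (node 657 (merge (leaf 7 528 560) (node 658 (merge (leaf 4 529 626) (leaf 4 561 690))))) (merge (node 657 (merge (leaf 7 528 560) (node 656 (merge (leaf 5 528 624) (leaf 5 560 688))))) (node 626 (merge (leaf 4 529 658) (node 594 (merge (leaf 4 497 497) (node 624 (merge (leaf 5 528 656) (node 623 (merge (leaf 2 591 595) (leaf 2 590 622)))))))))))) (node 594 (merge (leaf 4 497 626) (node 496 (merge (leaf 7 464 464) (node 526 (merge (leaf 2 493 525) (node 558 (merge (leaf 1 525 557) (node 559 (merge (leaf 0 558 560) (node 494 (merge (leaf 3 493 493) (node 591 (merge (leaf 4 462 462) (leaf 6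 495 623))))))))))))))))))))))))) (node 495 (merge (node 530 (merge (leaf 3 494 494) (node 499 (merge (leaf 2 495 498) (node 531 (merge (leaf 3 495 496) (leaf 2 496 500))))))) (merge (node 530 (merge (leaf 3 494 494) (node 499 (merge (leaf 2 495 498) (node 531 (merge (leaf 2 496 500) (node 559 (merge (leaf 1 526 558) (leaf 1 527 560))))))))) (merge (node 463 (merge (node 431 (merge (leaf 4 431 560) (node 400 (merge (leaf 6 399 432) (node 399 (merge (leaf 6 367 368) (node 398 (merge (leaf 7 366 366) (leaf 7 398 430))))))))) (merge (node 559 (merge (node 558 (merge (leaf 5 462 590) (node 557 (merge (leaf 2 524 556) (leaf 2 525 560))))) (merge (node 590 (merge (leaf 5 462 558) (node 591 (merge (leaf 5 494 622) (node 462 (merge (leaf 7 430 430) (leaf 7 462 494))))))) (node 462 (merge (leaf 7 430 430) (node 591 (merge (leaf 7 462 494) (node 623 (merge (leaf 6 495 496) (node 654 (merge (leaf 5 526 622) (node 655 (merge (leaf 6 527 560) (leaf 5 558 686)))))))))))))) (merge (node 432 (merge (node 400 (merge (leaf 6 399 431) (node 464 (merge (leaf 5 367 368) (leaf 6 431 559)))))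 (merge (node 431 (merge (leaf 6 399 400) (node 399 (merge (leaf 4 399 496) (node 398 (merge (leaf 7 366 366) (leaf 7 398 430))))))) (node 559 (merge (leaf 6 431 464) (node 462 (merge (leaf 7 430 430) (node 591 (merge (leaf 7 462 494) (node 622 (merge (leaf 5 494 590) (node 623 (merge (leaf 6 495 496) (leaf 5 526 654)))))))))))))) (node 431 (merge (leaf 4 431 560) (node 496 (merge (leaf 4 399 399) (node 494 (merge (leaf 0 493 493) (node 432 (merge (leaf 6 399 400) (node 559 (merge (leaf 5 431 464) (node 591 (merge (leaf 7 462 462) (leaf 6 495 623))))))))))))))))) (node 559 (merge (node 558 (merge (leaf 1 526 530) (node 557 (merge (leaf 2 524 556) (leaf 2 525 560))))) (merge (node 530 (merge (leaf 1 526 558) (node 499 (merge (leaf 2 495 498) (node 531 (merge (leaf 3 495 496) (leaf 2 496 500))))))) (merge (node 591 (merge (node 623 (merge (leaf 6 495 496) (node 622 (merge (leaf 5 494 590) (leaf 5 526 654))))) (merge (node 590 (merge (leaf 5 494 622) (node 463 (merge (leaf 5 462 558) (node 431 (merge (leaf 4 431 560) (node 432 (merge (leaf 6 399 400) (leaf 6 431 464)))))))))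 (node 623 (merge (leaf 6 495 496) (node 656 (merge (leaf 4 527 624) (node 655 (merge (leaf 6 527 560) (leaf 4 559 688)))))))))) (node 591 (merge (node 623 (merge (leaf 6 495 496) (node 622 (merge (leaf 5 494 590) (leaf 5 526 654))))) (merge (node 623 (merge (leaf 6 495 496) (node 656 (merge (leaf 4 527 624) (node 655 (merge (leaf 6 527 560) (leaf 4 559 688))))))) (merge (node 622 (merge (leaf 5 494 590) (node 623 (merge (leaf 5 526 654) (node 656 (merge (leaf 4 527 624) (node 655 (merge (leaf 6 527 560) (leaf 4 559 688))))))))) (node 590 (merge (leaf 5 494 622) (node 496 (merge (leaf 6 463 464) (node 530 (merge (leaf 3 495 531) (node 562 (merge (leaf 0 527 563) (node 561 (merge (leaf 1 558 560) (node 498 (merge (leaf 2 495 499) (node 593 (merge (leaf 5 465 466) (leaf 6 497 625)))))))))))))))))))))))))))))))))) nH_1 cH_1 12 (by decide +kernel)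
def nH_2 : ℕ := 0x1800000000000000000000000000000000000000000000000000000000000000000000000000000000000000000000000000000000000000000000000000000000000
def cH_2 : ℕ := 0x140000007c000001fc000000ff000000e4000001ff000001fe000000fc00000078000000100000000000000000000000000000000000000000000000000000000000000000000000000000000000000000000
theorem lH_2 : S nH_2 cH_2 12 := S_of_chk [] trivial (node 529 (merge (node 558 (merge (node 557 (merge (leaf 1 525 526) (node 559 (merge (leaf 2 524 556) (leaf 2 525 560))))) (merge (node 559 (merge (leaf 1 526 530) (node 557 (merge (leaf 2 524 556) (leaf 2 525 560))))) (merge (node 530 (merge (leaf 1 526 559) (node 498 (merge (leaf 2 495 499) (node 526 (merge (leaf 2 494 497) (node 494 (merge (leaf 3 493 493) (leaf 3 494 495))))))))) (node 526 (merge (leaf 1 525 557) (node 498 (merge (leaf 2 494 497) (node 530 (merge (leaf 2 495 499) (node 494 (merge (leaf 3 493 493) (leaf 3 494 495))))))))))))) (merge (node 558 (merge (node 557 (merge (leaf 1 525 526) (node 559 (merge (leaf 2 524 556) (leaf 2 525 560))))) (merge (node 559 (merge (leaf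 1 526 530) (node 557 (merge (leaf 2 524 556) (leaf 2 525 560))))) (merge (node 530 (merge (leaf 1 526 559) (node 562 (merge (leaf 0 527 563) (node 526 (merge (leaf 0 526 561) (node 494 (merge (leaf 3 493 493) (leaf 3 494 495))))))))) (node 526 (merge (leaf 1 525 557) (node 562 (merge (leaf 0 526 561) (node 530 (merge (leaf 0 527 563) (node 494 (merge (leaf 3 493 493) (leaf 3 494 495))))))))))))) (merge (node 558 (merge (node 557 (merge (leaf 1 525 526) (node 559 (merge (leaf 2 524 556) (leaf 2 525 560))))) (merge (node 559 (merge (leaf 1 526 530) (node 557 (merge (leaf 2 524 556) (leaf 2 525 560))))) (merge (node 526 (merge (leaf 1 525 557) (node 562 (merge (leaf 0 526 561) (node 530 (merge (leaf 0 527 563) (node 498 (merge (leaf 2 494 497) (leaf 2 495 499))))))))) (node 530 (merge (leaf 1 526 559) (node 562 (merge (leaf 0 527 563) (node 498 (merge (leaf 2 495 499) (node 497 (merge (leaf 2 494 526) (node 594 (merge (leaf 7 465 465) (leaf 7 497 626))))))))))))))) (merge (node 530 (merge (node 562 (merge (leaf 0 527 563) (node 526 (merge (leaf 0 526 561) (node 494 (merge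 (leaf 3 493 493) (leaf 3 494 495))))))) (merge (node 499 (merge (leaf 2 495 498) (node 531 (merge (leaf 2 496 500) (node 495 (merge (leaf 3 494 494) (leaf 3 495 496))))))) (node 562 (merge (leaf 0 527 563) (node 561 (merge (leaf 0 526 526) (node 498 (merge (leaf 2 495 499) (node 593 (merge (leaf 5 465 466) (leaf 6 497 625)))))))))))) (merge (node 559 (merge (node 558 (merge (leaf 1 526 530) (node 557 (merge (leaf 2 524 556) (leaf 2 525 560))))) (merge (node 530 (merge (leaf 1 526 558) (node 499 (merge (leaf 2 495 498) (node 531 (merge (leaf 2 496 500) (node 495 (merge (leaf 3 494 494) (leaf 3 495 496))))))))) (merge (node 495 (merge (node 494 (merge (leaf 3 494 530) (node 493 (merge (leaf 0 492 492) (leaf 0 493 496))))) (merge (node 530 (merge (leaf 3 494 494) (node 560 (merge (leaf 1 527 531) (node 592 (merge (leaf 4 463 463) (leaf 7 495 624))))))) (merge (node 592 (merge (node 560 (merge (leaf 4 463 463) (leaf 7 495 624))) (merge (node 591 (merge (leaf 4 495 624) (node 623 (merge (leaf 6 495 496) (node 622 (merge (leaf 5 494 590) (leaf 5 526 654))))))) (node 463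 (merge (leaf 4 463 560) (node 462 (merge (leaf 7 430 430) (node 591 (merge (leaf 7 462 494) (node 622 (merge (leaf 5 494 590) (node 623 (merge (leaf 6 495 496) (leaf 5 526 654)))))))))))))) (node 592 (merge (node 560 (merge (leaf 4 463 463) (leaf 7 495 624))) (merge (node 591 (merge (leaf 4 495 624) (node 623 (merge (leaf 6 495 496) (node 622 (merge (leaf 5 494 590) (leaf 5 526 654))))))) (node 463 (merge (leaf 4 463 560) (node 464 (merge (leaf 6 431 432) (node 496 (merge (leaf 6 463 591) (node 462 (merge (leaf 7 430 430) (node 497 (merge (leaf 0 461 461) (leaf 3 462 498)))))))))))))))))) (node 496 (merge (node 591 (merge (leaf 6 495 623) (node 464 (merge (leaf 5 431 432) (leaf 5 463 560))))) (merge (node 591 (merge (leaf 6 495 623) (node 495 (merge (leaf 6 463 464) (node 494 (merge (leaf 7 462 462) (leaf 0 493 493))))))) (merge (node 591 (merge (leaf 6 495 623) (node 495 (merge (node 494 (merge (leaf 7 462 462) (leaf 0 493 493))) (node 592 (merge (leaf 4 495 624) (node 560 (merge (leaf 4 463 463) (node 593 (merge (leaf 4 496 625) (node 594 (merge (leaf 3 558 558)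 (leaf 3 559 595))))))))))))) (node 560 (merge (node 464 (merge (leaf 5 431 432) (node 465 (merge (leaf 6 432 433) (node 592 (merge (leaf 6 464 497) (node 624 (merge (leaf 7 495 495) (leaf 7 527 656))))))))) (merge (node 464 (merge (leaf 5 431 432) (node 593 (merge (leaf 4 464 561) (node 465 (merge (leaf 6 432 433) (node 592 (merge (leaf 6 464 497) (leaf 4 496 625))))))))) (merge (node 464 (merge (leaf 5 431 432) (node 593 (merge (leaf 4 464 561) (node 592 (merge (leaf 4 496 625) (node 624 (merge (leaf 7 495 495) (leaf 6 496 497))))))))) (merge (node 464 (merge (leaf 5 431 432) (node 593 (merge (leaf 4 464 561) (node 592 (merge (leaf 4 496 625) (node 624 (merge (leaf 7 495 495) (leaf 7 527 656))))))))) (merge (node 592 (merge (node 624 (merge (leaf 7 495 495) (leaf 7 527 656))) (merge (node 624 (merge (leaf 6 496 497) (leaf 7 527 656))) (node 495 (merge (leaf 4 463 463) (node 593 (merge (leaf 4 496 625) (node 497 (merge (leaf 6 464 465) (node 498 (merge (leaf 1 495 499) (node 466 (merge (leaf 2 463 467) (leaf 6 465 561)))))))))))))) (node 464 (merge (leaf 5 431 432)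 (node 561 (merge (leaf 4 464 593) (node 562 (merge (leaf 3 527 563) (node 465 (merge (leaf 6 432 433) (node 497 (merge (leaf 4 465 594) (node 466 (merge (leaf 6 433 434) (node 495 (merge (leaf 1 463 467) (leaf 2 462 494))))))))))))))))))))))))))))) (node 497 (merge (node 498 (merge (leaf 2 494 526) (node 499 (merge (leaf 1 495 496) (leaf 1 496 500))))) (merge (node 561 (merge (node 526 (merge (leaf 2 494 498) (leaf 0 526 562))) (merge (node 562 (merge (leaf 0 526 526) (node 560 (merge (leaf 3 527 563) (node 465 (merge (leaf 5 432 433) (leaf 4 465 594))))))) (merge (node 592 (merge (node 560 (merge (leaf 5 464 465) (leaf 6 496 624))) (merge (node 624 (merge (leaf 6 496 560) (leaf 5 496 593))) (merge (node 593 (merge (leaf 5 496 624) (node 594 (merge (leaf 4 497 626) (node 562 (merge (leaf 4 465 465) (node 591 (merge (leaf 2 559 563) (leaf 2 558 590))))))))) (node 465 (merge (leaf 5 464 560) (node 594 (merge (leaf 4 465 562) (node 593 (merge (leaf 4 497 626) (node 466 (merge (leaf 6 433 434) (leaf 6 465 498))))))))))))) (node 498 (merge (leaf 2 494 526) (node 593 (merge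 (leaf 6 465 466) (node 594 (merge (leaf 4 497 626) (node 592 (merge (leaf 5 496 624) (node 560 (merge (leaf 5 464 465) (node 595 (merge (leaf 3 559 559) (leaf 3 560 596))))))))))))))))) (merge (node 561 (merge (node 562 (merge (leaf 0 526 526) (node 560 (merge (leaf 3 527 563) (node 465 (merge (leaf 5 432 433) (leaf 4 465 594))))))) (merge (node 592 (merge (node 560 (merge (leaf 5 464 465) (leaf 6 496 624))) (merge (node 593 (merge (leaf 5 496 624) (node 496 (merge (leaf 7 464 464) (leaf 7 496 625))))) (node 465 (merge (leaf 5 464 560) (node 466 (merge (leaf 6 433 434) (node 464 (merge (leaf 7 432 432) (node 496 (merge (leaf 7 464 593) (node 495 (merge (leaf 1 463 467) (leaf 2 462 494)))))))))))))) (merge (node 562 (merge (leaf 0 526 526) (node 465 (merge (leaf 4 465 594) (node 466 (merge (leaf 6 433 434) (node 464 (merge (leaf 7 432 432) (node 496 (merge (leaf 7 464 593) (node 495 (merge (leaf 1 463 467) (leaf 2 462 494))))))))))))) (node 496 (merge (node 593 (merge (leaf 7 464 464) (leaf 7 496 625))) (merge (node 562 (merge (leaf 0 526 526) (node 560 (merge (leaf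 3 527 563) (node 464 (merge (leaf 4 432 432) (node 591 (merge (leaf 5 463 559) (node 592 (merge (leaf 5 495 623) (leaf 6 496 624))))))))))) (node 562 (merge (leaf 0 526 526) (node 560 (merge (leaf 3 527 563) (node 592 (merge (leaf 6 496 624) (node 593 (merge (leaf 4 496 625) (node 591 (merge (leaf 2 558 590) (leaf 5 495 623)))))))))))))))))) (node 465 (merge (node 560 (merge (leaf 5 432 433) (node 592 (merge (leaf 6 464 496) (leaf 6 496 624))))) (merge (node 433 (merge (leaf 5 432 560) (node 434 (merge (leaf 6 401 402) (node 561 (merge (leaf 6 433 466) (node 432 (merge (leaf 7 400 400) (leaf 7 432 464))))))))) (merge (node 561 (merge (node 592 (merge (leaf 5 464 560) (node 464 (merge (leaf 7 432 432) (node 593 (merge (leaf 7 464 496) (leaf 5 496 624))))))) (merge (node 562 (merge (leaf 4 465 594) (node 560 (merge (leaf 3 527 563) (leaf 5 464 592))))) (merge (node 594 (merge (leaf 4 465 562) (node 593 (merge (leaf 4 497 626) (node 592 (merge (leaf 5 464 560) (leaf 5 496 624))))))) (node 594 (merge (leaf 4 465 562) (node 593 (merge (leaf 4 497 626) (node 464 (merge (leaf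 7 432 432) (leaf 7 464 496))))))))))) (node 434 (merge (node 433 (merge (leaf 6 401 402) (node 561 (merge (leaf 6 433 466) (node 432 (merge (leaf 7 400 400) (leaf 7 432 464))))))) (merge (node 561 (merge (leaf 6 433 466) (node 594 (merge (leaf 4 465 562) (node 593 (merge (leaf 4 497 626) (node 464 (merge (leaf 7 432 432) (leaf 7 464 496))))))))) (merge (node 433 (merge (leaf 6 401 402) (node 496 (merge (leaf 5 400 401) (node 432 (merge (leaf 7 400 400) (node 561 (merge (leaf 4 432 464) (node 594 (merge (leaf 4 465 562) (node 593 (merge (leaf 7 496 625) (leaf 4 497 626))))))))))))) (merge (node 433 (merge (leaf 6 401 402) (node 496 (merge (leaf 5 400 401) (node 561 (merge (leaf 6 433 466) (node 593 (merge (leaf 7 464 464) (leaf 7 496 625))))))))) (merge (node 433 (merge (leaf 6 401 402) (node 401 (merge (leaf 5 400 496) (node 400 (merge (leaf 7 368 368) (leaf 7 400 432))))))) (node 433 (merge (leaf 6 401 402) (node 496 (merge (leaf 5 400 401) (node 432 (merge (leaf 7 400 400) (node 464 (merge (leaf 5 431 559) (node 435 (merge (leaf 1 431 463) (node 467 (merge (leaf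 0 432 468) (node 431 (merge (leaf 7 399 399) (leaf 0 431 466))))))))))))))))))))))))))))))))))) nH_2 cH_2 12 (by decide +kernel)
def nH_3 : ℕ := 0x1c00000000000000000000000000000000000000000000000000000000000000000000000000000000000000000000000000000000000000000000000000000000000
def cH_3 : ℕ := 0x110000001f0000001f0000000fc00000038000007f8000007f8000001f0000001d000000140000000000000000000000000000000000000000000000000000000000000000000000000000000000000000000
theorem lH_3 : S nH_3 cH_3 12 := S_of_chk [] trivial (node 495 (merge (node 496 (merge (node 525 (merge (leaf 2 493 497) (leaf 2 492 524))) (merge (node 497 (merge (leaf 1 494 498) (node 494 (merge (node 493 (merge (leaf 0 492 492) (node 465 (merge (leaf 2 461 464) (leaf 2 462 466))))) (node 462 (merge (leaf 3 461 461) (node 430 (merge (leaf 4 398 398) (node 559 (merge (leaf 4 430 526) (leaf 7 462 591))))))))))) (node 464 (merge (node 559 (merge (leaf 5 431 432) (leaf 6 463 591))) (node 525 (merge (leaf 2 492 524) (node 557 (merge (leaf 1 524 556) (node 493 (merge (leaf 3 492 492) (node 494 (merge (leaf 2 461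 465) (node 589 (merge (leaf 6 461 462) (leaf 6 493 621)))))))))))))))) (merge (node 590 (merge (node 558 (merge (leaf 6 494 622) (node 463 (merge (leaf 5 430 431) (leaf 6 462 494))))) (merge (node 525 (merge (node 496 (merge (leaf 2 493 497) (leaf 2 492 524))) (node 622 (merge (leaf 6 494 558) (node 557 (merge (leaf 1 524 556) (node 493 (merge (leaf 3 492 492) (leaf 4 493 589))))))))) (merge (node 525 (merge (node 496 (merge (leaf 2 493 497) (leaf 2 492 524))) (merge (node 492 (merge (leaf 3 492 493) (node 524 (merge (leaf 3 491 491) (node 523 (merge (leaf 2 491 494) (node 555 (merge (leaf 1 522 554) (leaf 1 523 556))))))))) (node 557 (merge (leaf 1 524 556) (node 496 (merge (leaf 2 493 497) (node 493 (merge (leaf 3 492 492) (node 461 (merge (leaf 4 461 558) (node 460 (merge (leaf 7 428 428) (leaf 3 460 494)))))))))))))) (node 525 (merge (node 496 (merge (leaf 2 493 497) (leaf 2 492 524))) (merge (node 492 (merge (leaf 3 492 493) (node 524 (merge (leaf 3 491 491) (node 523 (merge (leaf 2 491 494) (node 555 (merge (leaf 1 522 554) (leaf 1 523 556))))))))) (node 557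 (merge (leaf 1 524 556) (node 493 (merge (leaf 3 492 492) (node 589 (merge (leaf 4 493 622) (node 620 (merge (leaf 5 492 588) (node 621 (merge (leaf 6 493 494) (leaf 5 524 652)))))))))))))))))) (merge (node 463 (merge (node 558 (merge (leaf 5 430 431) (node 590 (merge (leaf 6 462 494) (leaf 6 494 622))))) (merge (node 431 (merge (leaf 5 430 558) (node 496 (merge (leaf 4 399 399) (node 525 (merge (leaf 2 493 497) (leaf 2 492 524))))))) (merge (node 431 (merge (node 399 (merge (leaf 4 399 496) (node 398 (merge (leaf 7 366 366) (leaf 7 398 430))))) (merge (node 399 (merge (leaf 5 398 494) (leaf 4 399 496))) (node 432 (merge (leaf 6 399 400) (node 559 (merge (leaf 6 431 464) (node 430 (merge (leaf 7 398 398) (leaf 7 430 462)))))))))) (node 462 (merge (node 430 (merge (leaf 7 430 559) (node 398 (merge (leaf 4 366 366) (leaf 4 398 494))))) (merge (node 559 (merge (leaf 7 430 430) (node 590 (merge (leaf 5 462 558) (node 591 (merge (leaf 5 494 622) (node 464 (merge (leaf 6 431 432) (leaf 6 463 496))))))))) (node 496 (merge (node 497 (merge (leaf 1 494 498) (leaf 2 493 525)))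 (merge (node 461 (merge (leaf 0 460 460) (node 497 (merge (leaf 0 461 464) (leaf 3 461 494))))) (node 461 (merge (leaf 0 460 460) (node 525 (merge (leaf 2 492 524) (node 493 (merge (leaf 3 492 492) (node 429 (merge (leaf 4 429 558) (node 428 (merge (leaf 7 396 396) (leaf 3 428 464))))))))))))))))))))) (merge (node 463 (merge (node 558 (merge (leaf 5 430 431) (node 590 (merge (leaf 6 462 494) (leaf 6 494 622))))) (merge (node 431 (merge (leaf 5 430 558) (node 496 (merge (leaf 4 399 399) (node 525 (merge (leaf 2 493 497) (leaf 2 492 524))))))) (merge (node 431 (merge (node 399 (merge (leaf 4 399 496) (node 398 (merge (leaf 7 366 366) (leaf 7 398 430))))) (merge (node 399 (merge (leaf 5 398 494) (leaf 4 399 496))) (node 432 (merge (leaf 6 399 400) (node 559 (merge (leaf 6 431 464) (node 430 (merge (leaf 7 398 398) (leaf 7 430 462)))))))))) (node 590 (merge (node 558 (merge (leaf 6 462 494) (leaf 5 462 559))) (merge (node 558 (merge (leaf 5 462 559) (leaf 6 494 622))) (node 525 (merge (node 496 (merge (leaf 2 493 497) (leaf 2 492 524))) (merge (node 492 (merge (leaf 3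 492 493) (node 524 (merge (leaf 3 491 491) (node 523 (merge (leaf 2 491 494) (node 555 (merge (leaf 1 522 554) (leaf 1 523 556))))))))) (node 557 (merge (leaf 1 524 556) (node 493 (merge (leaf 3 492 492) (node 589 (merge (leaf 4 493 622) (node 620 (merge (leaf 5 492 588) (node 621 (merge (leaf 6 493 494) (leaf 5 524 652))))))))))))))))))))) (merge (node 463 (merge (node 558 (merge (leaf 5 430 431) (node 590 (merge (leaf 6 462 494) (leaf 6 494 622))))) (merge (node 431 (merge (leaf 5 430 558) (node 432 (merge (leaf 6 399 400) (node 559 (merge (leaf 6 431 464) (node 430 (merge (leaf 7 398 398) (leaf 7 430 462))))))))) (merge (node 431 (merge (node 399 (merge (leaf 4 399 496) (node 398 (merge (leaf 7 366 366) (leaf 7 398 430))))) (merge (node 399 (merge (leaf 5 398 494) (leaf 4 399 496))) (node 432 (merge (leaf 6 399 400) (node 559 (merge (leaf 6 431 464) (node 430 (merge (leaf 7 398 398) (leaf 7 430 462)))))))))) (node 559 (merge (node 590 (merge (leaf 5 462 558) (node 462 (merge (leaf 7 430 430) (node 591 (merge (leaf 7 462 494) (leaf 5 494 622))))))) (merge (node 590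 (merge (leaf 5 462 558) (node 591 (merge (leaf 5 494 622) (node 624 (merge (leaf 4 495 592) (node 623 (merge (leaf 6 495 496) (leaf 4 527 656))))))))) (merge (node 462 (merge (leaf 7 430 430) (node 591 (merge (leaf 7 462 494) (node 624 (merge (leaf 4 495 592) (node 623 (merge (leaf 6 495 496) (leaf 4 527 656))))))))) (node 558 (merge (leaf 5 462 590) (node 557 (merge (leaf 2 524 556) (node 464 (merge (leaf 6 431 432) (node 462 (merge (leaf 7 430 430) (node 494 (merge (leaf 5 461 589) (node 465 (merge (leaf 1 462 466) (node 497 (merge (leaf 0 462 498) (node 461 (merge (leaf 7 429 429) (leaf 0 461 496))))))))))))))))))))))))) (merge (node 590 (merge (node 558 (merge (leaf 6 494 622) (node 463 (merge (leaf 5 430 431) (leaf 5 462 559))))) (merge (node 525 (merge (node 496 (merge (leaf 2 493 497) (leaf 2 492 524))) (node 557 (merge (leaf 1 524 556) (node 493 (merge (leaf 3 492 492) (node 461 (merge (leaf 4 461 558) (node 430 (merge (leaf 6 429 462) (node 429 (merge (leaf 6 397 398) (node 428 (merge (leaf 7 396 396) (leaf 7 428 460))))))))))))))) (node 525 (merge (node 496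 (merge (leaf 2 493 497) (leaf 2 492 524))) (merge (node 556 (merge (leaf 1 524 557) (node 524 (merge (leaf 1 523 555) (node 492 (merge (leaf 3 491 491) (leaf 3 492 493))))))) (node 557 (merge (leaf 1 524 556) (node 496 (merge (leaf 2 493 497) (node 493 (merge (leaf 3 492 492) (node 589 (merge (leaf 4 493 622) (node 620 (merge (leaf 5 492 588) (node 621 (merge (leaf 5 524 652) (node 591 (merge (leaf 1 588 592) (node 559 (merge (leaf 6 463 464) (leaf 6 495 623))))))))))))))))))))))) (node 463 (merge (node 558 (merge (leaf 5 430 431) (node 590 (merge (leaf 6 462 494) (leaf 6 494 622))))) (merge (node 431 (merge (leaf 5 430 558) (node 432 (merge (leaf 6 399 400) (node 559 (merge (leaf 6 431 464) (node 430 (merge (leaf 7 398 398) (leaf 7 430 462))))))))) (merge (node 431 (merge (node 432 (merge (leaf 6 399 400) (node 559 (merge (leaf 6 431 464) (node 430 (merge (leaf 7 398 398) (leaf 7 430 462))))))) (merge (node 400 (merge (leaf 6 399 432) (node 399 (merge (leaf 6 367 368) (leaf 5 398 494))))) (merge (node 494 (merge (leaf 5 398 399) (node 432 (merge (leaf 6 399 400) (node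 559 (merge (leaf 6 431 464) (node 591 (merge (leaf 7 462 462) (leaf 7 494 623))))))))) (node 494 (merge (leaf 5 398 399) (node 492 (merge (leaf 0 492 493) (node 430 (merge (leaf 7 398 398) (node 462 (merge (leaf 4 430 559) (node 525 (merge (leaf 5 429 557) (node 524 (merge (leaf 3 491 491) (leaf 2 491 523))))))))))))))))) (node 558 (merge (node 590 (merge (leaf 5 462 559) (leaf 6 494 622))) (merge (node 590 (merge (leaf 6 462 494) (leaf 6 494 622))) (node 525 (merge (node 492 (merge (leaf 3 492 493) (node 524 (merge (leaf 3 491 491) (node 523 (merge (leaf 2 491 494) (leaf 0 523 559))))))) (merge (node 556 (merge (leaf 1 524 557) (node 524 (merge (leaf 1 523 555) (node 523 (merge (leaf 2 491 494) (leaf 0 523 559))))))) (merge (node 556 (merge (leaf 1 524 557) (node 524 (merge (leaf 1 523 555) (node 492 (merge (leaf 3 491 491) (leaf 3 492 493))))))) (node 557 (merge (leaf 1 524 556) (node 493 (merge (leaf 3 492 492) (node 461 (merge (leaf 4 429 429) (node 462 (merge (leaf 6 429 430) (node 494 (merge (leaf 5 461 589) (node 460 (merge (leaf 7 428 428) (leaf 0 459 459)))))))))))))))))))))))))))))))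 nH_3 cH_3 12 (by decide +kernel)
def nH_4 : ℕ := 0x1800000000000000000000000000000000000000000000000000000000000000000000000000000000000000000000000000000000000000000000000000000000000
def cH_4 : ℕ := 0x2a0000003e0000003e000000ff000000ffc00000e78000003f8000003e0000003c00000038000000080000000000000000000000000000000000000000000000000000000000000000000000000000000000000000000
theorem lH_4 : S nH_4 cH_4 13 := S_of_chk [] trivial (node 526 (merge (node 493 (merge (node 494 (merge (leaf 3 493 529) (node 492 (merge (leaf 0 491 491) (leaf 0 492 495))))) (merge (node 492 (merge (leaf 3 492 525) (node 494 (merge (leaf 0 491 491) (leaf 0 492 495))))) (merge (node 529 (merge (leaf 3 493 494) (node 561 (merge (leaf 0 526 562) (node 525 (merge (leaf 0 525 560) (node 557 (merge (leaf 1 524 556) (leaf 1 525 558))))))))) (node 525 (merge (leaf 3 492 492) (node 561 (merge (leaf 0 525 560) (node 529 (merge (leaf 0 526 562) (node 557 (merge (leaf 1 524 556) (leaf 1 525 558))))))))))))) (merge (node 557 (merge (node 556 (merge (leaf 1 524 525) (node 558 (merge (leaf 2 523 555) (leaf 2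 524 559))))) (merge (node 558 (merge (leaf 1 525 529) (node 556 (merge (leaf 2 523 555) (leaf 2 524 559))))) (merge (node 529 (merge (leaf 1 525 558) (node 561 (merge (leaf 0 526 562) (node 525 (merge (leaf 0 525 560) (node 493 (merge (leaf 3 492 492) (leaf 3 493 494))))))))) (node 525 (merge (leaf 1 524 556) (node 561 (merge (leaf 0 525 560) (node 529 (merge (leaf 0 526 562) (node 493 (merge (leaf 3 492 492) (leaf 3 493 494))))))))))))) (merge (node 529 (merge (node 557 (merge (leaf 1 525 558) (node 525 (merge (leaf 1 524 556) (node 493 (merge (leaf 3 492 492) (leaf 3 493 494))))))) (merge (node 562 (merge (leaf 0 526 561) (node 530 (merge (leaf 0 527 563) (node 494 (merge (leaf 3 493 493) (leaf 3 494 495))))))) (node 562 (merge (leaf 0 526 561) (node 530 (merge (leaf 0 527 563) (node 558 (merge (leaf 1 525 557) (leaf 1 526 559)))))))))) (merge (node 561 (merge (node 562 (merge (leaf 0 526 529) (node 560 (merge (leaf 3 526 559) (leaf 3 527 563))))) (merge (node 525 (merge (leaf 0 525 560) (node 496 (merge (leaf 2 493 497) (node 524 (merge (leaf 2 492 495) (node 556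 (merge (leaf 1 523 555) (leaf 1 524 557))))))))) (node 529 (merge (leaf 0 526 562) (node 558 (merge (leaf 1 525 557) (node 530 (merge (leaf 1 526 559) (node 495 (merge (leaf 3 494 494) (node 496 (merge (leaf 3 495 531) (node 525 (merge (leaf 2 493 497) (leaf 2 492 524)))))))))))))))) (merge (node 561 (merge (node 562 (merge (leaf 0 526 529) (node 560 (merge (leaf 3 526 559) (leaf 3 527 563))))) (merge (node 525 (merge (leaf 0 525 560) (node 492 (merge (leaf 3 492 493) (node 524 (merge (leaf 3 491 491) (node 555 (merge (leaf 1 523 556) (node 523 (merge (leaf 1 522 554) (node 495 (merge (leaf 2 491 494) (leaf 2 492 496))))))))))))) (node 529 (merge (leaf 0 526 562) (node 493 (merge (leaf 3 493 494) (node 525 (merge (leaf 3 492 492) (node 496 (merge (leaf 2 493 497) (node 495 (merge (leaf 2 492 524) (node 530 (merge (leaf 3 495 531) (node 559 (merge (leaf 1 526 558) (node 464 (merge (leaf 4 432 432) (leaf 6 463 591)))))))))))))))))))) (merge (node 493 (merge (node 492 (merge (leaf 3 492 525) (node 494 (merge (leaf 0 491 491) (leaf 0 492 495))))) (merge (node 529 (merge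 (leaf 3 493 494) (node 562 (merge (leaf 0 526 561) (node 530 (merge (leaf 0 527 563) (node 558 (merge (leaf 1 525 557) (leaf 1 526 559))))))))) (node 525 (merge (leaf 3 492 492) (node 561 (merge (leaf 0 525 560) (node 529 (merge (leaf 0 526 562) (node 558 (merge (leaf 1 525 557) (node 559 (merge (leaf 1 526 530) (node 524 (merge (leaf 0 523 523) (node 495 (merge (leaf 2 492 496) (node 590 (merge (leaf 5 462 463) (leaf 6 494 622)))))))))))))))))))) (merge (node 525 (merge (node 496 (merge (leaf 2 493 497) (node 524 (merge (leaf 2 492 495) (node 556 (merge (leaf 1 523 555) (leaf 1 524 557))))))) (merge (node 557 (merge (leaf 1 524 556) (node 493 (merge (leaf 3 492 492) (node 494 (merge (leaf 3 493 529) (node 589 (merge (leaf 6 461 462) (leaf 6 493 621))))))))) (node 496 (merge (leaf 2 493 497) (node 524 (merge (leaf 2 492 495) (node 492 (merge (leaf 3 491 491) (leaf 3 492 493)))))))))) (merge (node 525 (merge (node 561 (merge (leaf 0 525 560) (node 529 (merge (leaf 0 526 562) (node 493 (merge (leaf 3 492 492) (leaf 3 493 494))))))) (merge (node 556 (merge (leaf 1 524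 557) (node 524 (merge (leaf 1 523 555) (node 492 (merge (leaf 3 491 491) (leaf 3 492 493))))))) (node 560 (merge (leaf 0 525 561) (node 524 (merge (leaf 0 524 559) (node 555 (merge (leaf 1 523 556) (node 523 (merge (leaf 1 522 554) (node 495 (merge (leaf 2 491 494) (leaf 2 492 496)))))))))))))) (merge (node 529 (merge (node 562 (merge (leaf 0 526 561) (node 530 (merge (leaf 0 527 563) (node 558 (merge (leaf 1 525 557) (leaf 1 526 559))))))) (merge (node 557 (merge (leaf 1 525 558) (node 525 (merge (leaf 1 524 556) (node 496 (merge (leaf 2 493 497) (node 524 (merge (leaf 2 492 495) (node 492 (merge (leaf 3 491 491) (leaf 3 492 493))))))))))) (merge (node 561 (merge (leaf 0 526 562) (node 525 (merge (leaf 0 525 560) (node 556 (merge (leaf 1 524 557) (node 524 (merge (leaf 1 523 555) (node 496 (merge (leaf 2 492 495) (leaf 2 493 497))))))))))) (node 561 (merge (leaf 0 526 562) (node 525 (merge (leaf 0 525 560) (node 496 (merge (leaf 2 493 497) (node 495 (merge (leaf 2 492 524) (node 530 (merge (leaf 3 495 531) (node 559 (merge (leaf 1 526 558) (node 464 (merge (leaf 4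 432 432) (leaf 6 463 591))))))))))))))))))) (merge (node 558 (merge (node 557 (merge (leaf 1 525 529) (node 556 (merge (leaf 2 523 555) (leaf 2 524 559))))) (merge (node 529 (merge (leaf 1 525 557) (node 494 (merge (leaf 3 493 493) (node 495 (merge (leaf 3 494 530) (node 590 (merge (leaf 6 462 463) (leaf 6 494 622))))))))) (merge (node 590 (merge (node 495 (merge (leaf 6 494 622) (node 463 (merge (leaf 5 430 431) (leaf 5 462 559))))) (merge (node 622 (merge (leaf 6 494 495) (node 655 (merge (leaf 4 526 623) (node 654 (merge (leaf 4 558 687) (node 653 (merge (leaf 5 525 621) (leaf 5 557 685))))))))) (merge (node 622 (merge (node 655 (merge (leaf 4 526 623) (node 654 (merge (leaf 6 526 559) (leaf 4 558 687))))) (merge (node 654 (merge (leaf 6 526 559) (node 653 (merge (leaf 5 525 621) (leaf 5 557 685))))) (node 623 (merge (leaf 4 526 655) (node 494 (merge (leaf 4 494 591) (node 621 (merge (leaf 5 493 589) (leaf 5 525 653)))))))))) (node 494 (merge (node 493 (merge (leaf 7 461 461) (node 492 (merge (leaf 0 491 491) (leaf 0 492 495))))) (merge (node 591 (merge (leaf 4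 494 623) (node 462 (merge (leaf 4 462 559) (node 589 (merge (leaf 5 461 557) (leaf 5 493 621))))))) (node 589 (merge (leaf 5 493 621) (node 462 (merge (leaf 5 461 557) (node 559 (merge (leaf 4 430 430) (leaf 4 462 591)))))))))))))) (node 590 (merge (node 495 (merge (leaf 6 494 622) (node 463 (merge (leaf 5 430 431) (leaf 5 462 559))))) (merge (node 622 (merge (leaf 6 494 495) (node 655 (merge (leaf 4 526 623) (node 654 (merge (leaf 4 558 687) (node 653 (merge (leaf 5 525 621) (leaf 5 557 685))))))))) (merge (node 622 (merge (node 655 (merge (leaf 4 526 623) (node 654 (merge (leaf 6 526 559) (leaf 4 558 687))))) (merge (node 654 (merge (leaf 6 526 559) (node 653 (merge (leaf 5 525 621) (leaf 5 557 685))))) (node 623 (merge (leaf 4 526 655) (node 494 (merge (leaf 4 494 591) (node 621 (merge (leaf 5 493 589) (leaf 5 525 653)))))))))) (node 494 (merge (node 493 (merge (leaf 7 461 461) (leaf 3 493 529))) (merge (node 493 (merge (leaf 7 461 461) (node 492 (merge (leaf 0 491 491) (leaf 0 492 495))))) (node 591 (merge (leaf 4 494 623) (node 559 (merge (leaf 4 462 462) (node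 589 (merge (leaf 5 493 621) (node 560 (merge (leaf 1 557 561) (leaf 2 556 588)))))))))))))))))))) (node 560 (merge (node 561 (merge (leaf 0 525 525) (node 562 (merge (leaf 3 526 559) (leaf 3 527 563))))) (merge (node 525 (merge (leaf 0 525 561) (node 556 (merge (leaf 1 524 557) (node 524 (merge (leaf 1 523 555) (node 492 (merge (leaf 3 491 491) (leaf 3 492 493))))))))) (merge (node 592 (merge (node 495 (merge (leaf 7 495 624) (node 463 (merge (leaf 4 431 431) (leaf 4 463 559))))) (merge (node 624 (merge (leaf 7 495 495) (node 657 (merge (leaf 4 528 625) (node 656 (merge (leaf 4 560 689) (node 655 (merge (leaf 5 527 623) (leaf 5 559 687))))))))) (merge (node 624 (merge (node 656 (merge (leaf 7 527 559) (node 657 (merge (leaf 4 528 625) (leaf 4 560 689))))) (merge (node 656 (merge (leaf 7 527 559) (node 655 (merge (leaf 5 527 623) (leaf 5 559 687))))) (node 625 (merge (leaf 4 528 657) (node 496 (merge (leaf 4 496 593) (node 623 (merge (leaf 5 495 591) (leaf 5 527 655)))))))))) (node 496 (merge (node 591 (merge (leaf 5 495 623) (node 464 (merge (leaf 5 463 559) (node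 433 (merge (leaf 6 432 465) (node 432 (merge (leaf 6 400 401) (node 431 (merge (leaf 7 399 399) (leaf 7 431 463))))))))))) (merge (node 593 (merge (leaf 4 496 625) (node 495 (merge (leaf 7 463 463) (node 525 (merge (leaf 2 492 524) (node 557 (merge (leaf 1 524 556) (node 558 (merge (leaf 0 557 559) (node 493 (merge (leaf 3 492 492) (node 590 (merge (leaf 4 461 461) (leaf 6 494 622))))))))))))))) (merge (node 593 (merge (leaf 4 496 625) (node 591 (merge (leaf 5 495 623) (node 495 (merge (leaf 7 463 463) (node 525 (merge (leaf 2 492 524) (node 557 (merge (leaf 1 524 556) (node 493 (merge (leaf 3 492 492) (node 590 (merge (leaf 3 557 558) (node 622 (merge (leaf 4 493 589) (leaf 1 589 621))))))))))))))))) (node 591 (merge (leaf 5 495 623) (node 464 (merge (leaf 5 463 559) (node 433 (merge (leaf 6 432 465) (node 432 (merge (leaf 6 400 401) (node 400 (merge (leaf 5 399 495) (node 399 (merge (leaf 7 367 367) (leaf 7 399 431))))))))))))))))))))) (node 592 (merge (node 495 (merge (leaf 7 495 624) (node 463 (merge (leaf 4 431 431) (leaf 4 463 559))))) (merge (node 624 (merge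 (leaf 7 495 495) (node 657 (merge (leaf 4 528 625) (node 656 (merge (leaf 4 560 689) (node 655 (merge (leaf 5 527 623) (leaf 5 559 687))))))))) (merge (node 624 (merge (node 656 (merge (leaf 7 527 559) (node 657 (merge (leaf 4 528 625) (leaf 4 560 689))))) (merge (node 656 (merge (leaf 7 527 559) (node 655 (merge (leaf 5 527 623) (leaf 5 559 687))))) (node 625 (merge (leaf 4 528 657) (node 496 (merge (leaf 4 496 593) (node 623 (merge (leaf 5 495 591) (leaf 5 527 655)))))))))) (node 591 (merge (node 623 (merge (leaf 5 495 496) (node 559 (merge (leaf 7 494 494) (leaf 6 527 655))))) (merge (node 496 (merge (leaf 5 495 623) (node 593 (merge (leaf 4 496 625) (node 464 (merge (leaf 4 464 561) (node 433 (merge (leaf 6 432 465) (node 432 (merge (leaf 6 400 401) (node 495 (merge (leaf 5 399 400) (leaf 7 463 463))))))))))))) (merge (node 559 (merge (node 623 (merge (leaf 7 494 494) (leaf 6 527 655))) (merge (node 495 (merge (leaf 4 463 463) (node 590 (merge (leaf 5 494 622) (node 589 (merge (leaf 2 557 561) (leaf 2 556 588))))))) (node 495 (merge (leaf 4 463 463) (node 590 (merge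 (leaf 5 494 622) (node 589 (merge (leaf 2 557 561) (leaf 2 556 588)))))))))) (node 559 (merge (node 496 (merge (leaf 5 463 464) (node 593 (merge (leaf 4 496 625) (node 594 (merge (leaf 3 558 558) (leaf 3 559 595))))))) (merge (node 495 (merge (leaf 4 463 463) (node 590 (merge (leaf 5 494 622) (node 589 (merge (leaf 2 557 561) (leaf 2 556 588))))))) (node 496 (merge (leaf 5 463 464) (node 593 (merge (leaf 4 496 625) (node 558 (merge (leaf 0 557 557) (leaf 3 558 594))))))))))))))))))))))))))))))))) nH_4 cH_4 13 (by decide +kernel)
def nH_5 : ℕ := 0x1800000000000000000000000000000000000000000000000000000000000000000000000000000000000000000000000000000000000000000000000000000000000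
def cH_5 : ℕ := 0x540000007c000000fc000000ff000000ff000000e6000001ff000000740000007000000050000000000000000000000000000000000000000000000000000000000000000000000000000000000000000000000000000
theorem lH_5 : S nH_5 cH_5 12 := S_of_chk [] trivial (node 529 (merge (node 558 (merge (node 557 (merge (leaf 1 525 526) (node 559 (merge (leaf 2 524 556) (leaf 2 525 560))))) (merge (node 559 (merge (leaf 1 526 530) (node 557 (merge (leaf 2 524 556) (leaf 2 525 560))))) (merge (node 530 (merge (leaf 1 526 559) (node 498 (merge (leaf 2 495 499) (node 526 (merge (leaf 2 494 497) (node 494 (merge (leaf 3 493 493) (leaf 3 494 495))))))))) (node 526 (merge (leaf 1 525 557) (node 498 (merge (leaf 2 494 497) (node 530 (merge (leaf 2 495 499) (node 494 (merge (leaf 3 493 493) (leaf 3 494 495))))))))))))) (merge (node 558 (merge (node 557 (merge (leaf 1 525 526) (node 559 (merge (leaf 2 524 556) (leaf 2 525 560))))) (merge (node 559 (merge (leaf 1 526 530) (node 557 (merge (leaf 2 524 556) (leaf 2 525 560))))) (merge (node 530 (merge (leaf 1 526 559) (node 562 (merge (leaf 0 527 563)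 (node 526 (merge (leaf 0 526 561) (node 494 (merge (leaf 3 493 493) (leaf 3 494 495))))))))) (node 526 (merge (leaf 1 525 557) (node 562 (merge (leaf 0 526 561) (node 530 (merge (leaf 0 527 563) (node 494 (merge (leaf 3 493 493) (leaf 3 494 495))))))))))))) (merge (node 526 (merge (node 562 (merge (leaf 0 526 561) (node 530 (merge (leaf 0 527 563) (node 498 (merge (leaf 2 494 497) (leaf 2 495 499))))))) (merge (node 562 (merge (leaf 0 526 561) (node 530 (merge (leaf 0 527 563) (node 558 (merge (leaf 1 525 557) (leaf 1 526 559))))))) (node 497 (merge (leaf 2 494 498) (node 525 (merge (leaf 2 493 496) (node 557 (merge (leaf 1 524 556) (leaf 1 525 558)))))))))) (merge (node 526 (merge (node 561 (merge (leaf 0 526 562) (node 525 (merge (leaf 0 525 560) (node 493 (merge (leaf 3 492 492) (leaf 3 493 494))))))) (merge (node 498 (merge (leaf 2 494 497) (node 530 (merge (leaf 2 495 499) (node 494 (merge (leaf 3 493 493) (leaf 3 494 495))))))) (node 561 (merge (leaf 0 526 562) (node 560 (merge (leaf 0 525 525) (node 497 (merge (leaf 2 494 498) (node 592 (merge (leaf 5 464 465)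 (leaf 6 496 624)))))))))))) (merge (node 561 (merge (node 526 (merge (leaf 0 526 562) (node 525 (merge (leaf 0 525 560) (node 557 (merge (leaf 1 524 556) (leaf 1 525 558))))))) (merge (node 526 (merge (leaf 0 526 562) (node 497 (merge (leaf 2 494 498) (node 525 (merge (leaf 2 493 496) (node 557 (merge (leaf 1 524 556) (leaf 1 525 558))))))))) (merge (node 593 (merge (node 496 (merge (leaf 7 496 625) (node 497 (merge (leaf 7 464 464) (node 498 (merge (leaf 6 465 466) (leaf 1 495 499))))))) (merge (node 625 (merge (leaf 7 496 496) (node 657 (merge (leaf 7 528 560) (node 658 (merge (leaf 4 529 626) (leaf 4 561 690))))))) (merge (node 625 (merge (node 657 (merge (leaf 7 528 560) (node 658 (merge (leaf 4 529 626) (leaf 4 561 690))))) (merge (node 657 (merge (leaf 7 528 560) (node 656 (merge (leaf 5 528 624) (leaf 5 560 688))))) (node 626 (merge (leaf 4 529 658) (node 497 (merge (leaf 4 497 594) (node 624 (merge (leaf 5 496 592) (leaf 5 528 656)))))))))) (node 497 (merge (node 498 (merge (leaf 6 465 466) (node 496 (merge (leaf 7 464 464) (leaf 1 495 499))))) (merge (node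 592 (merge (leaf 5 496 624) (node 465 (merge (leaf 5 464 560) (node 434 (merge (leaf 6 433 466) (node 433 (merge (leaf 6 401 402) (node 432 (merge (leaf 7 400 400) (leaf 7 432 464))))))))))) (merge (node 594 (merge (leaf 4 497 626) (node 465 (merge (leaf 4 465 562) (node 592 (merge (leaf 5 464 560) (leaf 5 496 624))))))) (node 594 (merge (leaf 4 497 626) (node 562 (merge (leaf 4 465 465) (node 592 (merge (leaf 5 496 624) (node 591 (merge (leaf 2 559 563) (leaf 2 558 590))))))))))))))))) (node 593 (merge (node 496 (merge (leaf 7 496 625) (node 464 (merge (leaf 4 432 432) (leaf 4 464 560))))) (merge (node 625 (merge (leaf 7 496 496) (node 624 (merge (leaf 5 528 656) (node 497 (merge (leaf 5 496 592) (node 498 (merge (leaf 6 465 466) (leaf 2 494 526))))))))) (merge (node 497 (merge (node 498 (merge (leaf 6 465 466) (leaf 2 494 526))) (merge (node 526 (merge (leaf 2 494 498) (node 496 (merge (leaf 7 464 464) (leaf 2 493 525))))) (node 592 (merge (leaf 5 496 624) (node 465 (merge (leaf 5 464 560) (node 434 (merge (leaf 6 433 466) (node 433 (merge (leaf 6 401 402) (node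 432 (merge (leaf 7 400 400) (leaf 7 432 464)))))))))))))) (node 625 (merge (node 657 (merge (leaf 7 528 560) (node 658 (merge (leaf 4 529 626) (leaf 4 561 690))))) (merge (node 657 (merge (leaf 7 528 560) (node 656 (merge (leaf 5 528 624) (leaf 5 560 688))))) (node 626 (merge (leaf 4 529 658) (node 497 (merge (leaf 4 497 594) (node 624 (merge (leaf 5 496 592) (leaf 5 528 656)))))))))))))))))) (node 559 (merge (node 558 (merge (leaf 1 526 530) (node 557 (merge (leaf 2 524 556) (leaf 2 525 560))))) (merge (node 530 (merge (leaf 1 526 558) (node 499 (merge (leaf 2 495 498) (node 531 (merge (leaf 2 496 500) (node 495 (merge (leaf 3 494 494) (leaf 3 495 496))))))))) (merge (node 591 (merge (node 496 (merge (leaf 6 495 623) (node 464 (merge (leaf 5 431 432) (leaf 6 463 495))))) (merge (node 623 (merge (leaf 6 495 496) (node 656 (merge (leaf 4 527 624) (node 655 (merge (leaf 6 527 560) (leaf 4 559 688))))))) (merge (node 623 (merge (node 656 (merge (leaf 4 527 624) (node 655 (merge (leaf 6 527 560) (leaf 4 559 688))))) (merge (node 655 (merge (leaf 6 527 560) (node 654 (merge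 (leaf 5 526 622) (leaf 5 558 686))))) (node 624 (merge (leaf 4 527 656) (node 495 (merge (leaf 4 495 592) (node 622 (merge (leaf 5 494 590) (leaf 5 526 654)))))))))) (node 495 (merge (node 494 (merge (leaf 7 462 462) (leaf 3 494 530))) (merge (node 494 (merge (leaf 7 462 462) (node 493 (merge (leaf 0 492 492) (leaf 0 493 496))))) (node 590 (merge (leaf 5 494 622) (node 496 (merge (leaf 6 463 464) (node 530 (merge (leaf 3 495 531) (node 562 (merge (leaf 0 527 563) (node 561 (merge (leaf 1 558 560) (node 498 (merge (leaf 2 495 499) (node 593 (merge (leaf 5 465 466) (leaf 6 497 625)))))))))))))))))))))) (node 591 (merge (node 496 (merge (leaf 6 495 623) (node 464 (merge (leaf 5 431 432) (leaf 6 463 495))))) (merge (node 623 (merge (leaf 6 495 496) (node 656 (merge (leaf 4 527 624) (node 655 (merge (leaf 6 527 560) (leaf 4 559 688))))))) (merge (node 623 (merge (node 656 (merge (leaf 4 527 624) (node 655 (merge (leaf 6 527 560) (leaf 4 559 688))))) (merge (node 655 (merge (leaf 6 527 560) (node 654 (merge (leaf 5 526 622) (leaf 5 558 686))))) (node 624 (merge (leaf 4 527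 656) (node 495 (merge (leaf 4 495 592) (node 622 (merge (leaf 5 494 590) (leaf 5 526 654)))))))))) (node 592 (merge (node 495 (merge (leaf 4 495 624) (node 494 (merge (leaf 7 462 462) (node 493 (merge (leaf 0 492 492) (leaf 0 493 496))))))) (merge (node 624 (merge (leaf 4 495 495) (node 656 (merge (leaf 7 527 560) (leaf 7 559 688))))) (merge (node 560 (merge (node 624 (merge (leaf 6 496 497) (leaf 7 527 656))) (merge (node 496 (merge (leaf 5 463 464) (node 593 (merge (leaf 4 496 625) (node 594 (merge (leaf 3 558 558) (leaf 3 559 595))))))) (node 624 (merge (leaf 7 527 656) (node 625 (merge (leaf 4 528 657) (node 590 (merge (leaf 0 589 589) (node 626 (merge (leaf 0 590 593) (leaf 3 591 627)))))))))))) (node 590 (merge (node 495 (merge (leaf 5 494 622) (node 496 (merge (leaf 6 463 464) (node 494 (merge (leaf 7 462 462) (leaf 0 493 493))))))) (node 557 (merge (node 589 (merge (leaf 3 556 556) (node 560 (merge (leaf 2 557 561) (leaf 2 556 588))))) (merge (node 558 (merge (leaf 0 556 556) (node 593 (merge (leaf 3 557 590) (leaf 3 558 594))))) (node 593 (merge (leaf 3 557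 558) (node 625 (merge (leaf 0 590 626) (node 561 (merge (leaf 2 558 562) (node 560 (merge (leaf 2 557 589) (leaf 7 528 657)))))))))))))))))))))))))))))))) nH_5 cH_5 12 (by decide +kernel)
def nH_6 : ℕ := 0x1800000000000000000000000000000000000000000000000000000000000000000000000000000000000000000000000000000000000000000000000000000000000
def cH_6 : ℕ := 0x3c0000003c0000007c0000007e000000ff800000e7000001ff8000005e0000007c0000003c0000003c0000000000000000000000000000000000000000000000000000000000000000000000000000000000000000000
theorem lH_6 : S nH_6 cH_6 13 := S_of_chk [] trivial (node 529 (merge (node 558 (merge (node 557 (merge (leaf 1 525 526) (node 559 (merge (leaf 2 524 556) (leaf 2 525 560))))) (merge (node 559 (merge (leaf 1 526 530) (node 557 (merge (leaf 2 524 556) (leaf 2 525 560))))) (merge (node 530 (merge (leaf 1 526 559) (node 498 (merge (leaf 2 495 499) (node 526 (merge (leaf 2 494 497) (node 494 (merge (leaf 3 493 493) (leaf 3 494 495))))))))) (node 526 (merge (leaf 1 525 557) (node 498 (merge (leaf 2 494 497) (node 530 (merge (leaf 2 495 499) (node 494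 (merge (leaf 3 493 493) (leaf 3 494 495))))))))))))) (merge (node 558 (merge (node 557 (merge (leaf 1 525 526) (node 559 (merge (leaf 2 524 556) (leaf 2 525 560))))) (merge (node 559 (merge (leaf 1 526 530) (node 557 (merge (leaf 2 524 556) (leaf 2 525 560))))) (merge (node 530 (merge (leaf 1 526 559) (node 562 (merge (leaf 0 527 563) (node 526 (merge (leaf 0 526 561) (node 494 (merge (leaf 3 493 493) (leaf 3 494 495))))))))) (node 526 (merge (leaf 1 525 557) (node 562 (merge (leaf 0 526 561) (node 530 (merge (leaf 0 527 563) (node 494 (merge (leaf 3 493 493) (leaf 3 494 495))))))))))))) (merge (node 526 (merge (node 562 (merge (leaf 0 526 561) (node 530 (merge (leaf 0 527 563) (node 498 (merge (leaf 2 494 497) (leaf 2 495 499))))))) (merge (node 562 (merge (leaf 0 526 561) (node 530 (merge (leaf 0 527 563) (node 558 (merge (leaf 1 525 557) (leaf 1 526 559))))))) (node 497 (merge (leaf 2 494 498) (node 525 (merge (leaf 2 493 496) (node 557 (merge (leaf 1 524 556) (leaf 1 525 558)))))))))) (merge (node 498 (merge (node 499 (merge (leaf 2 495 530) (node 497 (merge (leaf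 1 495 496) (leaf 1 496 500))))) (merge (node 530 (merge (leaf 2 495 499) (node 562 (merge (leaf 0 527 563) (node 561 (merge (leaf 0 526 526) (node 593 (merge (leaf 5 465 466) (leaf 6 497 625))))))))) (node 526 (merge (leaf 2 494 497) (node 561 (merge (leaf 0 526 562) (node 525 (merge (leaf 0 525 560) (node 493 (merge (leaf 3 492 492) (leaf 3 493 494)))))))))))) (merge (node 495 (merge (node 530 (merge (leaf 3 494 494) (node 499 (merge (leaf 2 495 498) (node 531 (merge (leaf 3 495 496) (leaf 2 496 500))))))) (merge (node 530 (merge (leaf 3 494 494) (node 499 (merge (leaf 2 495 498) (node 531 (merge (leaf 2 496 500) (node 559 (merge (leaf 1 526 558) (leaf 1 527 560))))))))) (merge (node 463 (merge (node 431 (merge (leaf 4 431 560) (node 400 (merge (leaf 6 399 432) (node 399 (merge (leaf 6 367 368) (node 398 (merge (leaf 7 366 366) (leaf 7 398 430))))))))) (merge (node 559 (merge (node 558 (merge (leaf 5 462 590) (node 557 (merge (leaf 2 524 556) (leaf 2 525 560))))) (merge (node 590 (merge (leaf 5 462 558) (node 591 (merge (leaf 5 494 622) (node 462 (merge (leaf 7 430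 430) (leaf 7 462 494))))))) (node 462 (merge (leaf 7 430 430) (node 591 (merge (leaf 7 462 494) (node 623 (merge (leaf 6 495 496) (node 654 (merge (leaf 5 526 622) (node 655 (merge (leaf 6 527 560) (leaf 5 558 686)))))))))))))) (merge (node 432 (merge (node 400 (merge (leaf 6 399 431) (node 464 (merge (leaf 5 367 368) (leaf 6 431 559))))) (merge (node 431 (merge (leaf 6 399 400) (node 399 (merge (leaf 4 399 496) (node 398 (merge (leaf 7 366 366) (leaf 7 398 430))))))) (node 559 (merge (leaf 6 431 464) (node 462 (merge (leaf 7 430 430) (node 591 (merge (leaf 7 462 494) (node 622 (merge (leaf 5 494 590) (node 623 (merge (leaf 6 495 496) (leaf 5 526 654)))))))))))))) (node 431 (merge (leaf 4 431 560) (node 496 (merge (leaf 4 399 399) (node 494 (merge (leaf 0 493 493) (node 432 (merge (leaf 6 399 400) (node 559 (merge (leaf 5 431 464) (node 591 (merge (leaf 7 462 462) (leaf 6 495 623))))))))))))))))) (node 559 (merge (node 558 (merge (leaf 1 526 530) (node 557 (merge (leaf 2 524 556) (leaf 2 525 560))))) (merge (node 530 (merge (leaf 1 526 558) (node 499 (merge (leaf 2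 495 498) (node 531 (merge (leaf 3 495 496) (leaf 2 496 500))))))) (merge (node 591 (merge (node 623 (merge (leaf 6 495 496) (node 622 (merge (leaf 5 494 590) (leaf 5 526 654))))) (merge (node 590 (merge (leaf 5 494 622) (node 463 (merge (leaf 5 462 558) (node 431 (merge (leaf 4 431 560) (node 432 (merge (leaf 6 399 400) (leaf 6 431 464))))))))) (node 623 (merge (leaf 6 495 496) (node 656 (merge (leaf 4 527 624) (node 655 (merge (leaf 6 527 560) (leaf 4 559 688)))))))))) (node 591 (merge (node 623 (merge (leaf 6 495 496) (node 622 (merge (leaf 5 494 590) (leaf 5 526 654))))) (merge (node 623 (merge (leaf 6 495 496) (node 656 (merge (leaf 4 527 624) (node 655 (merge (leaf 6 527 560) (leaf 4 559 688))))))) (merge (node 622 (merge (leaf 5 494 590) (node 623 (merge (leaf 5 526 654) (node 656 (merge (leaf 4 527 624) (node 655 (merge (leaf 6 527 560) (leaf 4 559 688))))))))) (node 590 (merge (leaf 5 494 622) (node 496 (merge (leaf 6 463 464) (node 530 (merge (leaf 3 495 531) (node 562 (merge (leaf 0 527 563) (node 561 (merge (leaf 1 558 560) (node 498 (merge (leaf 2 495 499)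 (node 593 (merge (leaf 5 465 466) (leaf 6 497 625))))))))))))))))))))))))))) (node 496 (merge (node 561 (merge (node 526 (merge (leaf 0 526 562) (node 497 (merge (leaf 2 494 498) (leaf 2 493 525))))) (merge (node 464 (merge (leaf 4 432 432) (node 593 (merge (leaf 7 464 497) (leaf 4 464 560))))) (node 526 (merge (leaf 0 526 562) (node 525 (merge (leaf 0 525 560) (node 493 (merge (leaf 3 492 492) (leaf 3 493 494)))))))))) (merge (node 464 (merge (node 561 (merge (leaf 4 432 432) (node 593 (merge (leaf 7 464 497) (leaf 7 496 625))))) (merge (node 559 (merge (leaf 5 431 432) (node 591 (merge (leaf 5 463 560) (leaf 6 495 623))))) (node 560 (merge (node 593 (merge (leaf 4 464 561) (node 592 (merge (leaf 4 496 625) (node 623 (merge (leaf 5 495 591) (node 624 (merge (leaf 7 495 495) (leaf 5 527 655))))))))) (merge (node 593 (merge (leaf 4 464 561) (node 592 (merge (leaf 4 496 625) (node 623 (merge (leaf 5 495 591) (node 624 (merge (leaf 6 496 497) (leaf 5 527 655))))))))) (merge (node 463 (merge (leaf 7 431 431) (node 592 (merge (leaf 7 463 495) (node 625 (merge (leaf 4 496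 593) (node 624 (merge (leaf 6 496 497) (leaf 4 528 657))))))))) (node 559 (merge (leaf 5 463 591) (node 558 (merge (leaf 2 525 557) (node 463 (merge (leaf 7 431 431) (node 495 (merge (leaf 5 462 590) (node 462 (merge (leaf 7 430 430) (node 497 (merge (leaf 0 461 461) (leaf 3 462 498)))))))))))))))))))) (merge (node 526 (merge (node 497 (merge (leaf 2 494 498) (leaf 2 493 525))) (merge (node 561 (merge (leaf 0 526 562) (node 525 (merge (leaf 0 525 560) (node 493 (merge (leaf 3 492 492) (leaf 3 493 494))))))) (node 561 (merge (leaf 0 526 562) (node 558 (merge (leaf 1 525 557) (node 497 (merge (leaf 2 494 498) (node 494 (merge (leaf 3 493 493) (node 593 (merge (leaf 7 496 625) (node 594 (merge (leaf 4 497 626) (node 592 (merge (leaf 5 496 624) (node 591 (merge (leaf 3 558 559) (node 623 (merge (leaf 4 494 590) (leaf 1 590 622)))))))))))))))))))))) (merge (node 561 (merge (node 526 (merge (leaf 0 526 562) (node 497 (merge (leaf 2 494 498) (leaf 2 493 525))))) (merge (node 593 (merge (leaf 7 496 625) (node 497 (merge (leaf 7 464 464) (node 498 (merge (leaf 6 465 466) (leaf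 1 495 499))))))) (node 526 (merge (leaf 0 526 562) (node 558 (merge (leaf 1 525 557) (node 493 (merge (leaf 3 493 494) (node 525 (merge (leaf 3 492 492) (node 495 (merge (leaf 2 492 524) (node 463 (merge (leaf 5 430 431) (node 590 (merge (leaf 5 462 559) (leaf 6 494 622)))))))))))))))))) (merge (node 464 (merge (node 559 (merge (leaf 5 431 432) (node 591 (merge (leaf 6 463 495) (leaf 6 495 623))))) (merge (node 432 (merge (leaf 5 431 559) (node 401 (merge (leaf 6 400 433) (node 400 (merge (leaf 6 368 369) (node 399 (merge (leaf 7 367 367) (leaf 7 399 431))))))))) (merge (node 432 (merge (node 401 (merge (leaf 6 400 433) (node 400 (merge (leaf 6 368 369) (leaf 5 399 495))))) (merge (node 431 (merge (leaf 7 399 399) (node 560 (merge (leaf 7 431 463) (node 593 (merge (leaf 4 464 561) (node 592 (merge (leaf 4 496 625) (node 623 (merge (leaf 5 495 591) (node 624 (merge (leaf 7 495 495) (leaf 5 527 655))))))))))))) (node 401 (merge (leaf 6 400 433) (node 400 (merge (leaf 6 368 369) (node 399 (merge (leaf 7 367 367) (leaf 7 399 431)))))))))) (node 560 (merge (node 561 (merge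 (leaf 4 464 593) (node 562 (merge (leaf 3 527 563) (node 559 (merge (leaf 3 526 526) (leaf 5 463 591))))))) (merge (node 593 (merge (leaf 4 464 561) (node 592 (merge (leaf 4 496 625) (node 463 (merge (leaf 7 431 431) (leaf 7 463 495))))))) (node 591 (merge (leaf 5 463 559) (node 463 (merge (leaf 7 431 431) (node 592 (merge (leaf 7 463 495) (leaf 5 495 623)))))))))))))) (merge (node 464 (merge (node 559 (merge (leaf 5 431 432) (node 591 (merge (leaf 5 463 560) (leaf 6 495 623))))) (merge (node 432 (merge (leaf 5 431 559) (node 400 (merge (leaf 4 400 497) (node 401 (merge (leaf 6 368 369) (leaf 6 400 433))))))) (merge (node 497 (merge (node 526 (merge (leaf 2 494 498) (leaf 2 493 525))) (merge (node 432 (merge (leaf 4 400 400) (node 433 (merge (leaf 6 400 401) (node 431 (merge (leaf 7 399 399) (node 463 (merge (leaf 7 431 560) (node 462 (merge (leaf 1 430 434) (leaf 0 461 461))))))))))) (node 526 (merge (leaf 2 493 525) (node 558 (merge (leaf 1 525 557) (node 432 (merge (leaf 4 400 400) (node 431 (merge (leaf 7 399 399) (node 463 (merge (leaf 5 430 495) (leaf 7 431 560))))))))))))))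 (node 560 (merge (node 591 (merge (leaf 5 463 559) (node 592 (merge (leaf 5 495 623) (node 624 (merge (leaf 7 495 495) (leaf 6 496 497))))))) (merge (node 559 (merge (leaf 5 463 591) (node 558 (merge (leaf 2 525 557) (node 463 (merge (leaf 7 431 431) (node 495 (merge (leaf 5 462 590) (node 462 (merge (leaf 7 430 430) (node 497 (merge (leaf 0 461 461) (leaf 3 462 498))))))))))))) (merge (node 463 (merge (leaf 7 431 431) (node 592 (merge (leaf 7 463 495) (node 623 (merge (leaf 5 495 591) (node 624 (merge (leaf 6 496 497) (leaf 5 527 655))))))))) (merge (node 591 (merge (leaf 5 463 559) (node 592 (merge (leaf 5 495 623) (node 625 (merge (leaf 4 496 593) (node 624 (merge (leaf 6 496 497) (leaf 4 528 657))))))))) (node 463 (merge (leaf 7 431 431) (node 592 (merge (leaf 7 463 495) (node 625 (merge (leaf 4 496 593) (node 624 (merge (leaf 4 528 657) (node 656 (merge (leaf 7 527 559) (node 655 (merge (leaf 5 527 623) (leaf 5 559 687)))))))))))))))))))))) (node 464 (merge (node 559 (merge (leaf 5 431 432) (node 591 (merge (leaf 5 463 560) (leaf 6 495 623))))) (merge (node 432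 (merge (leaf 4 432 561) (node 400 (merge (leaf 4 400 497) (node 401 (merge (leaf 6 368 369) (leaf 6 400 433))))))) (node 463 (merge (node 560 (merge (leaf 7 431 431) (node 591 (merge (leaf 5 463 559) (node 592 (merge (leaf 7 463 495) (leaf 5 495 623))))))) (merge (node 560 (merge (leaf 7 431 431) (node 592 (merge (leaf 7 463 495) (node 624 (merge (leaf 6 496 497) (node 656 (merge (leaf 7 527 559) (leaf 6 528 561))))))))) (merge (node 560 (merge (leaf 7 431 431) (node 592 (merge (leaf 7 463 495) (node 623 (merge (leaf 5 495 591) (node 624 (merge (leaf 6 496 497) (leaf 5 527 655))))))))) (merge (node 560 (merge (leaf 7 431 431) (node 591 (merge (leaf 5 463 559) (node 592 (merge (leaf 5 495 623) (node 624 (merge (leaf 6 496 497) (node 657 (merge (leaf 4 528 625) (node 656 (merge (leaf 6 528 561) (leaf 4 560 689))))))))))))) (merge (node 526 (merge (node 497 (merge (leaf 2 493 525) (node 498 (merge (leaf 1 494 495) (leaf 1 495 499))))) (merge (node 525 (merge (leaf 2 493 497) (node 556 (merge (leaf 1 524 557) (node 524 (merge (leaf 1 523 555) (node 492 (merge (leaf 3 491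 491) (leaf 3 492 493))))))))) (node 558 (merge (leaf 1 525 557) (node 494 (merge (leaf 3 493 493) (node 495 (merge (leaf 5 430 431) (leaf 6 462 590)))))))))) (node 526 (merge (node 497 (merge (leaf 2 493 525) (node 498 (merge (leaf 1 494 495) (leaf 1 495 499))))) (merge (node 525 (merge (leaf 2 493 497) (node 556 (merge (leaf 1 524 557) (node 524 (merge (leaf 1 523 555) (node 492 (merge (leaf 3 491 491) (leaf 3 492 493))))))))) (merge (node 558 (merge (leaf 1 525 557) (node 497 (merge (leaf 2 494 498) (node 462 (merge (leaf 0 461 461) (node 494 (merge (leaf 3 493 493) (node 430 (merge (leaf 4 430 559) (node 495 (merge (leaf 4 398 398) (leaf 6 462 590))))))))))))) (node 561 (merge (leaf 0 526 562) (node 560 (merge (leaf 0 525 525) (node 558 (merge (leaf 1 525 557) (node 559 (merge (leaf 5 463 591) (node 590 (merge (leaf 5 462 495) (leaf 1 557 589))))))))))))))))))))))))))))))))))))) nH_6 cH_6 13 (by decide +kernel)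
def nH_7 : ℕ := 0x1800000000000000000000000000000000000000000000000000000000000000000000000000000000000000000000000000000000000000000000000000000000000
def cH_7 : ℕ := 0x1c0000007e0000007e000000ff8000003f800000e7000001ff000001ff000000fe0000007c000000300000002000000000000000000000000000000000000000000000000000000000000000000000000000000000000
theorem lH_7 : S nH_7 cH_7 13 := S_of_chk [] trivial (node 559 (merge (node 591 (merge (node 496 (merge (leaf 6 495 623) (node 464 (merge (leaf 5 431 432) (leaf 6 463 495))))) (merge (node 623 (merge (leaf 6 495 496) (node 655 (merge (leaf 6 527 560) (node 654 (merge (leaf 5 526 622) (leaf 5 558 686))))))) (merge (node 495 (merge (node 462 (merge (leaf 7 462 494) (node 463 (merge (leaf 7 430 430) (node 560 (merge (leaf 4 431 431) (leaf 4 463 592))))))) (merge (node 622 (merge (leaf 5 494 590) (node 494 (merge (leaf 7 462 462) (node 623 (merge (leaf 7 494 526) (leaf 5 526 654))))))) (node 590 (merge (leaf 5 494 622) (node 463 (merge (leaf 5 462 558) (node 560 (merge (leaf 4 431 431) (leaf 4 463 592)))))))))) (node 495 (merge (node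 496 (merge (leaf 6 463 464) (node 494 (merge (leaf 7 462 462) (node 529 (merge (leaf 0 493 493) (leaf 3 494 530))))))) (node 590 (merge (leaf 5 494 622) (node 463 (merge (leaf 5 462 558) (node 560 (merge (leaf 4 431 431) (leaf 4 463 592))))))))))))) (merge (node 591 (merge (node 623 (merge (leaf 6 495 496) (node 656 (merge (leaf 4 527 624) (node 655 (merge (leaf 6 527 560) (leaf 4 559 688))))))) (merge (node 623 (merge (leaf 6 495 496) (node 656 (merge (leaf 4 527 624) (node 655 (merge (leaf 4 559 688) (node 654 (merge (leaf 5 526 622) (leaf 5 558 686))))))))) (merge (node 622 (merge (node 590 (merge (leaf 5 494 495) (node 654 (merge (leaf 6 526 558) (leaf 6 558 686))))) (merge (node 623 (merge (leaf 5 526 654) (node 656 (merge (leaf 4 527 624) (node 655 (merge (leaf 6 527 560) (leaf 4 559 688))))))) (node 495 (merge (leaf 5 494 590) (node 462 (merge (leaf 7 462 494) (node 463 (merge (leaf 7 430 430) (node 431 (merge (leaf 4 431 560) (node 432 (merge (leaf 6 399 400) (leaf 6 431 464)))))))))))))) (node 495 (merge (node 494 (merge (leaf 7 462 462) (node 493 (merge (leaf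 0 492 492) (node 529 (merge (leaf 0 493 496) (leaf 3 494 530))))))) (node 590 (merge (leaf 5 494 622) (node 463 (merge (leaf 5 462 558) (node 431 (merge (leaf 4 431 560) (node 432 (merge (leaf 6 399 400) (leaf 6 431 464))))))))))))))) (merge (node 591 (merge (node 496 (merge (leaf 6 495 623) (node 464 (merge (leaf 5 431 432) (leaf 5 463 560))))) (merge (node 623 (merge (node 656 (merge (leaf 4 527 624) (node 655 (merge (leaf 4 559 688) (node 526 (merge (leaf 7 494 494) (leaf 7 526 558))))))) (merge (node 624 (merge (leaf 4 527 656) (node 495 (merge (leaf 4 495 592) (node 622 (merge (leaf 5 494 590) (leaf 5 526 654))))))) (node 654 (merge (leaf 5 526 622) (node 655 (merge (leaf 5 558 686) (node 526 (merge (leaf 7 494 494) (leaf 7 526 558)))))))))) (node 495 (merge (node 592 (merge (leaf 4 495 624) (node 463 (merge (leaf 4 463 560) (node 590 (merge (leaf 5 462 558) (leaf 5 494 622))))))) (merge (node 592 (merge (leaf 4 495 624) (node 463 (merge (leaf 4 463 560) (node 432 (merge (leaf 6 431 464) (node 431 (merge (leaf 6 399 400) (node 430 (merge (leaf 7 398 398) (leaf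 7 430 462))))))))))) (merge (node 590 (merge (leaf 5 494 622) (node 496 (merge (leaf 6 463 464) (node 494 (merge (leaf 7 462 462) (node 493 (merge (leaf 0 492 492) (node 525 (merge (leaf 1 492 524) (node 461 (merge (leaf 3 460 460) (node 558 (merge (leaf 7 461 526) (leaf 4 461 557))))))))))))))) (node 592 (merge (leaf 4 495 624) (node 560 (merge (leaf 4 463 463) (node 496 (merge (leaf 5 463 464) (node 593 (merge (leaf 4 496 625) (node 594 (merge (leaf 3 558 558) (leaf 3 559 595)))))))))))))))))) (merge (node 591 (merge (node 496 (merge (leaf 6 495 623) (node 464 (merge (leaf 5 431 432) (leaf 6 463 495))))) (merge (node 623 (merge (leaf 6 495 496) (node 656 (merge (leaf 4 527 624) (node 655 (merge (leaf 4 559 688) (node 654 (merge (leaf 5 526 622) (leaf 5 558 686))))))))) (merge (node 623 (merge (node 656 (merge (leaf 4 527 624) (node 655 (merge (leaf 4 559 688) (node 526 (merge (leaf 7 494 494) (leaf 7 526 558))))))) (merge (node 624 (merge (leaf 4 527 656) (node 495 (merge (leaf 4 495 592) (node 622 (merge (leaf 5 494 590) (leaf 5 526 654))))))) (node 654 (merge (leaf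 5 526 622) (node 655 (merge (leaf 5 558 686) (node 526 (merge (leaf 7 494 494) (leaf 7 526 558)))))))))) (node 495 (merge (node 494 (merge (leaf 7 462 462) (node 493 (merge (leaf 0 492 492) (node 529 (merge (leaf 0 493 496) (leaf 3 494 530))))))) (merge (node 590 (merge (leaf 5 494 622) (node 463 (merge (leaf 5 462 558) (node 432 (merge (leaf 6 431 464) (node 431 (merge (leaf 6 399 400) (node 430 (merge (leaf 7 398 398) (leaf 7 430 462))))))))))) (node 592 (merge (leaf 4 495 624) (node 590 (merge (leaf 5 494 622) (node 558 (merge (leaf 5 462 463) (node 557 (merge (leaf 0 556 556) (leaf 3 557 593)))))))))))))))) (merge (node 591 (merge (node 496 (merge (leaf 6 495 623) (node 464 (merge (leaf 5 431 432) (leaf 6 463 495))))) (merge (node 623 (merge (leaf 6 495 496) (node 656 (merge (leaf 4 527 624) (node 655 (merge (leaf 6 527 560) (leaf 4 559 688))))))) (merge (node 623 (merge (node 656 (merge (leaf 4 527 624) (node 655 (merge (leaf 6 527 560) (leaf 4 559 688))))) (merge (node 655 (merge (leaf 6 527 560) (node 654 (merge (leaf 5 526 622) (leaf 5 558 686))))) (node 624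 (merge (leaf 4 527 656) (node 495 (merge (leaf 4 495 592) (node 622 (merge (leaf 5 494 590) (leaf 5 526 654)))))))))) (node 495 (merge (node 462 (merge (leaf 7 462 494) (node 463 (merge (leaf 7 430 430) (node 560 (merge (leaf 4 431 431) (leaf 4 463 592))))))) (merge (node 496 (merge (leaf 6 463 464) (node 494 (merge (leaf 7 462 462) (node 529 (merge (leaf 0 493 493) (leaf 3 494 530))))))) (node 592 (merge (leaf 4 495 624) (node 560 (merge (leaf 4 463 463) (node 590 (merge (leaf 5 494 622) (node 589 (merge (leaf 2 557 561) (leaf 2 556 588)))))))))))))))) (merge (node 529 (merge (node 558 (merge (leaf 1 526 530) (node 557 (merge (leaf 1 525 526) (leaf 2 524 556))))) (merge (node 530 (merge (leaf 1 526 558) (node 499 (merge (leaf 2 495 498) (node 531 (merge (leaf 2 496 500) (leaf 1 527 560))))))) (merge (node 591 (merge (node 496 (merge (leaf 6 495 623) (node 464 (merge (leaf 5 431 432) (leaf 6 463 495))))) (merge (node 623 (merge (leaf 6 495 496) (node 656 (merge (leaf 4 527 624) (node 655 (merge (leaf 6 527 560) (leaf 4 559 688))))))) (merge (node 623 (merge (node 656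 (merge (leaf 4 527 624) (node 655 (merge (leaf 6 527 560) (leaf 4 559 688))))) (merge (node 655 (merge (leaf 6 527 560) (node 654 (merge (leaf 5 526 622) (leaf 5 558 686))))) (node 624 (merge (leaf 4 527 656) (node 495 (merge (leaf 4 495 592) (node 622 (merge (leaf 5 494 590) (leaf 5 526 654)))))))))) (node 497 (merge (node 498 (merge (leaf 2 494 526) (node 499 (merge (leaf 1 495 496) (leaf 1 496 500))))) (merge (node 526 (merge (leaf 2 494 498) (node 557 (merge (leaf 1 525 558) (node 525 (merge (leaf 1 524 556) (node 560 (merge (leaf 0 524 524) (leaf 0 525 561))))))))) (node 560 (merge (node 592 (merge (leaf 6 496 624) (node 465 (merge (leaf 5 432 433) (leaf 5 464 561))))) (merge (node 496 (merge (leaf 5 463 464) (node 592 (merge (leaf 6 496 624) (node 593 (merge (leaf 4 496 625) (node 594 (merge (leaf 3 558 558) (leaf 3 559 595))))))))) (node 558 (merge (leaf 2 525 557) (node 465 (merge (leaf 5 432 433) (node 464 (merge (leaf 5 463 496) (node 561 (merge (leaf 7 432 432) (node 590 (merge (leaf 1 557 589) (node 622 (merge (leaf 5 494 495) (leaf 6 526 654)))))))))))))))))))))))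 (node 591 (merge (node 496 (merge (leaf 6 495 623) (node 464 (merge (leaf 5 431 432) (leaf 6 463 495))))) (merge (node 623 (merge (leaf 6 495 496) (node 656 (merge (leaf 4 527 624) (node 655 (merge (leaf 6 527 560) (leaf 4 559 688))))))) (merge (node 623 (merge (node 656 (merge (leaf 4 527 624) (node 655 (merge (leaf 6 527 560) (leaf 4 559 688))))) (merge (node 655 (merge (leaf 6 527 560) (node 654 (merge (leaf 5 526 622) (leaf 5 558 686))))) (node 624 (merge (leaf 4 527 656) (node 495 (merge (leaf 4 495 592) (node 622 (merge (leaf 5 494 590) (leaf 5 526 654)))))))))) (node 495 (merge (node 592 (merge (leaf 4 495 624) (node 463 (merge (leaf 4 463 560) (node 432 (merge (leaf 6 431 464) (node 431 (merge (leaf 6 399 400) (node 430 (merge (leaf 7 398 398) (leaf 7 430 462))))))))))) (merge (node 592 (merge (leaf 4 495 624) (node 463 (merge (leaf 4 463 560) (node 430 (merge (leaf 7 430 462) (node 431 (merge (leaf 7 398 398) (node 399 (merge (leaf 4 399 496) (node 400 (merge (leaf 6 367 368) (leaf 6 399 432))))))))))))) (merge (node 496 (merge (leaf 6 463 464) (node 530 (merge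 (leaf 3 495 531) (node 498 (merge (leaf 2 495 499) (node 497 (merge (leaf 1 494 526) (node 466 (merge (leaf 2 463 467) (node 561 (merge (leaf 5 433 434) (leaf 6 465 593))))))))))))) (node 592 (merge (leaf 4 495 624) (node 496 (merge (leaf 6 463 464) (node 530 (merge (leaf 3 495 531) (node 498 (merge (leaf 2 495 499) (node 497 (merge (leaf 1 494 526) (node 466 (merge (leaf 2 463 467) (node 560 (merge (leaf 6 464 465) (node 593 (merge (leaf 6 465 561) (leaf 4 496 625))))))))))))))))))))))))))))) (merge (node 529 (merge (node 558 (merge (leaf 1 526 530) (node 557 (merge (leaf 1 525 526) (leaf 2 524 556))))) (merge (node 530 (merge (leaf 1 526 558) (node 499 (merge (leaf 2 495 498) (node 531 (merge (leaf 2 496 500) (leaf 1 527 560))))))) (merge (node 530 (merge (node 499 (merge (leaf 2 495 498) (node 531 (merge (leaf 2 496 500) (leaf 1 527 560))))) (merge (node 560 (merge (leaf 1 527 531) (node 495 (merge (leaf 3 494 494) (node 592 (merge (leaf 4 463 463) (leaf 7 495 624))))))) (merge (node 499 (merge (leaf 2 495 498) (node 531 (merge (leaf 2 496 500) (node 495 (merge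 (leaf 3 494 494) (leaf 3 495 496))))))) (node 498 (merge (leaf 2 495 499) (node 526 (merge (leaf 2 494 497) (node 493 (merge (leaf 3 493 494) (node 525 (merge (leaf 3 492 492) (node 560 (merge (leaf 0 524 524) (leaf 0 525 561))))))))))))))) (node 497 (merge (node 526 (merge (leaf 2 494 498) (node 525 (merge (leaf 2 493 496) (node 557 (merge (leaf 1 524 556) (leaf 1 525 558))))))) (merge (node 526 (merge (leaf 2 494 498) (node 557 (merge (leaf 1 525 558) (node 525 (merge (leaf 1 524 556) (node 560 (merge (leaf 0 524 524) (leaf 0 525 561))))))))) (merge (node 496 (merge (node 464 (merge (leaf 5 431 432) (node 591 (merge (leaf 6 463 495) (leaf 5 463 560))))) (merge (node 526 (merge (leaf 2 493 525) (node 494 (merge (leaf 3 493 493) (node 462 (merge (leaf 4 430 430) (node 495 (merge (leaf 3 461 461) (node 465 (merge (leaf 2 462 466) (node 433 (merge (leaf 5 400 401) (leaf 5 432 560))))))))))))) (node 526 (merge (leaf 2 493 525) (node 558 (merge (leaf 1 525 557) (node 494 (merge (leaf 3 493 493) (node 462 (merge (leaf 4 430 430) (leaf 4 462 591)))))))))))) (node 496 (merge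 (node 464 (merge (leaf 5 431 432) (node 591 (merge (leaf 6 463 495) (leaf 5 463 560))))) (merge (node 495 (merge (node 494 (merge (leaf 0 493 493) (node 465 (merge (leaf 2 462 466) (node 433 (merge (leaf 5 400 401) (leaf 5 432 560))))))) (merge (node 498 (merge (leaf 1 495 499) (node 463 (merge (leaf 3 462 462) (node 560 (merge (leaf 4 431 431) (leaf 7 463 592))))))) (node 494 (merge (leaf 0 493 493) (node 466 (merge (leaf 2 462 465) (node 498 (merge (leaf 2 463 467) (node 462 (merge (leaf 3 461 461) (leaf 3 462 463)))))))))))) (merge (node 464 (merge (leaf 5 431 432) (node 495 (merge (leaf 6 463 591) (node 494 (merge (leaf 0 493 493) (node 462 (merge (leaf 3 461 461) (node 463 (merge (leaf 7 430 430) (leaf 3 462 498))))))))))) (node 464 (merge (leaf 5 431 432) (node 560 (merge (leaf 5 463 591) (node 593 (merge (leaf 4 464 561) (node 592 (merge (leaf 6 464 465) (leaf 4 496 625))))))))))))))))))))) (merge (node 496 (merge (node 591 (merge (leaf 6 495 623) (node 464 (merge (leaf 5 431 432) (leaf 6 463 495))))) (merge (node 464 (merge (leaf 5 431 432) (node 591 (merge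 (leaf 6 463 495) (leaf 5 463 560))))) (merge (node 591 (merge (leaf 6 495 623) (node 464 (merge (leaf 5 431 432) (leaf 5 463 560))))) (merge (node 591 (merge (leaf 6 495 623) (node 592 (merge (node 495 (merge (leaf 4 495 624) (node 560 (merge (leaf 4 463 463) (node 497 (merge (leaf 6 464 465) (node 526 (merge (leaf 1 494 498) (leaf 2 493 525))))))))) (merge (node 558 (merge (node 557 (merge (leaf 0 556 556) (node 593 (merge (leaf 3 557 590) (leaf 3 558 594))))) (merge (node 557 (merge (leaf 2 524 556) (node 529 (merge (leaf 1 526 530) (leaf 2 525 560))))) (node 529 (merge (leaf 1 526 530) (node 593 (merge (leaf 3 558 594) (node 560 (merge (leaf 4 496 625) (node 624 (merge (leaf 6 496 497) (leaf 7 527 656)))))))))))) (merge (node 495 (merge (leaf 4 495 624) (node 590 (merge (leaf 5 494 622) (node 558 (merge (leaf 5 462 463) (node 557 (merge (leaf 0 556 556) (leaf 3 557 593))))))))) (node 560 (merge (node 495 (merge (leaf 4 463 463) (node 590 (merge (leaf 5 494 622) (node 589 (merge (leaf 2 557 561) (leaf 2 556 588))))))) (node 593 (merge (leaf 4 496 625) (node 594 (merge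 (leaf 3 558 558) (leaf 3 559 595))))))))))))) (node 560 (merge (node 464 (merge (leaf 5 431 432) (node 465 (merge (leaf 6 432 433) (node 592 (merge (leaf 6 464 497) (node 624 (merge (leaf 7 495 495) (leaf 7 527 656))))))))) (merge (node 464 (merge (leaf 5 431 432) (node 593 (merge (leaf 4 464 561) (node 465 (merge (leaf 6 432 433) (node 592 (merge (leaf 6 464 497) (leaf 4 496 625))))))))) (merge (node 464 (merge (leaf 5 431 432) (node 593 (merge (leaf 4 464 561) (node 592 (merge (leaf 4 496 625) (node 624 (merge (leaf 7 495 495) (leaf 7 527 656))))))))) (merge (node 592 (merge (node 495 (merge (leaf 7 495 624) (node 463 (merge (leaf 4 431 431) (leaf 4 463 559))))) (merge (node 497 (merge (leaf 6 464 465) (node 498 (merge (leaf 1 495 499) (node 495 (merge (leaf 7 463 463) (leaf 1 494 526))))))) (node 625 (merge (leaf 4 496 593) (node 624 (merge (leaf 4 528 657) (node 656 (merge (leaf 7 527 559) (node 655 (merge (leaf 5 527 623) (leaf 5 559 687)))))))))))) (node 529 (merge (node 558 (merge (leaf 1 526 530) (leaf 2 525 557))) (merge (node 530 (merge (leaf 1 527 531) (node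 498 (merge (leaf 2 495 499) (node 526 (merge (leaf 2 494 497) (node 525 (merge (leaf 0 524 524) (leaf 0 525 561))))))))) (node 464 (merge (leaf 5 431 432) (node 561 (merge (leaf 4 464 593) (node 526 (merge (leaf 0 525 525) (node 497 (merge (leaf 2 494 498) (node 494 (merge (leaf 3 493 493) (node 465 (merge (leaf 5 432 433) (node 466 (merge (leaf 6 433 434) (leaf 2 462 495)))))))))))))))))))))))))))) (merge (node 558 (merge (node 557 (merge (leaf 2 524 556) (node 529 (merge (leaf 1 525 526) (leaf 1 526 530))))) (merge (node 557 (merge (leaf 2 524 556) (node 560 (merge (leaf 2 525 529) (node 593 (merge (leaf 0 557 592) (node 561 (merge (leaf 0 558 594) (node 589 (merge (leaf 1 556 588) (leaf 1 557 590))))))))))) (merge (node 557 (merge (leaf 2 524 556) (node 560 (merge (node 589 (merge (leaf 1 556 588) (node 561 (merge (leaf 1 557 590) (node 525 (merge (leaf 3 524 524) (leaf 0 525 526))))))) (merge (node 593 (merge (leaf 0 557 592) (node 561 (merge (leaf 0 558 594) (node 589 (merge (leaf 1 556 588) (leaf 1 557 590))))))) (merge (node 593 (merge (leaf 0 557 592) (node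 561 (merge (leaf 0 558 594) (node 525 (merge (leaf 3 524 524) (leaf 0 525 526))))))) (node 592 (merge (leaf 0 557 593) (node 624 (merge (leaf 7 527 656) (node 589 (merge (leaf 1 556 588) (node 625 (merge (leaf 4 528 657) (node 591 (merge (leaf 0 589 590) (node 623 (merge (leaf 5 495 496) (leaf 5 527 655))))))))))))))))))) (node 526 (merge (node 529 (merge (leaf 1 526 530) (node 494 (merge (leaf 3 493 493) (node 591 (merge (leaf 4 462 462) (leaf 7 494 623))))))) (merge (node 529 (merge (leaf 1 526 530) (node 497 (merge (leaf 2 494 498) (node 525 (merge (leaf 2 493 496) (node 560 (merge (leaf 0 524 524) (leaf 0 525 561))))))))) (node 590 (merge (node 622 (merge (leaf 6 526 654) (node 623 (merge (leaf 4 526 655) (node 496 (merge (leaf 6 495 591) (node 525 (merge (leaf 7 493 493) (leaf 2 493 497))))))))) (merge (node 622 (merge (leaf 6 526 654) (node 623 (merge (leaf 4 526 655) (node 494 (merge (leaf 4 494 591) (node 621 (merge (leaf 5 493 589) (leaf 5 525 653))))))))) (merge (node 622 (merge (leaf 6 526 654) (node 621 (merge (leaf 5 525 653) (node 494 (merge (leaf 5 493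 589) (node 462 (merge (leaf 4 430 430) (leaf 4 462 591))))))))) (merge (node 622 (merge (leaf 6 526 654) (node 623 (merge (leaf 4 526 655) (node 621 (merge (leaf 5 525 653) (node 589 (merge (leaf 5 493 494) (node 588 (merge (leaf 0 587 587) (leaf 3 588 624))))))))))) (node 560 (merge (node 525 (merge (leaf 0 524 524) (node 493 (merge (leaf 3 492 492) (node 494 (merge (leaf 7 461 461) (node 591 (merge (leaf 4 462 462) (leaf 4 494 623))))))))) (node 561 (merge (leaf 1 557 589) (node 593 (merge (leaf 0 558 594) (node 625 (merge (leaf 7 528 657) (node 496 (merge (leaf 4 464 464) (leaf 4 496 592))))))))))))))))))))))) (merge (node 529 (merge (node 558 (merge (leaf 1 526 530) (node 557 (merge (leaf 1 525 526) (leaf 2 524 556))))) (merge (node 530 (merge (leaf 1 526 558) (node 499 (merge (leaf 2 495 498) (node 531 (merge (leaf 2 496 500) (leaf 1 527 560))))))) (merge (node 530 (merge (node 499 (merge (leaf 2 495 498) (node 531 (merge (leaf 2 496 500) (leaf 1 527 560))))) (merge (node 560 (merge (leaf 1 527 531) (node 495 (merge (leaf 3 494 494) (node 592 (merge (leaf 4 463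 463) (leaf 7 495 624))))))) (node 498 (merge (leaf 2 495 499) (node 526 (merge (leaf 2 494 497) (node 494 (merge (leaf 3 493 493) (leaf 3 494 495)))))))))) (node 526 (merge (node 557 (merge (leaf 1 525 558) (node 525 (merge (leaf 1 524 556) (node 560 (merge (leaf 0 524 524) (leaf 0 525 561))))))) (merge (node 557 (merge (leaf 1 525 558) (node 525 (merge (leaf 1 524 556) (node 493 (merge (leaf 3 492 492) (leaf 3 493 494))))))) (merge (node 494 (merge (leaf 3 493 493) (node 591 (merge (leaf 7 494 623) (node 462 (merge (leaf 7 462 495) (leaf 4 462 558))))))) (node 493 (merge (leaf 3 493 494) (node 525 (merge (leaf 3 492 492) (node 560 (merge (leaf 0 525 561) (node 524 (merge (leaf 0 524 559) (node 556 (merge (leaf 1 523 555) (leaf 1 524 557))))))))))))))))))) (node 529 (merge (node 558 (merge (leaf 1 526 530) (node 557 (merge (leaf 1 525 526) (leaf 2 524 556))))) (merge (node 530 (merge (leaf 1 526 558) (node 499 (merge (leaf 2 495 498) (node 531 (merge (leaf 2 496 500) (leaf 1 527 560))))))) (merge (node 530 (merge (node 499 (merge (leaf 2 495 498) (node 531 (merge (leaf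 2 496 500) (leaf 1 527 560))))) (merge (node 560 (merge (leaf 1 527 531) (node 495 (merge (leaf 3 494 494) (node 592 (merge (leaf 4 463 463) (leaf 7 495 624))))))) (merge (node 499 (merge (leaf 2 495 498) (node 531 (merge (leaf 2 496 500) (node 495 (merge (leaf 3 494 494) (leaf 3 495 496))))))) (node 498 (merge (leaf 2 495 499) (node 526 (merge (leaf 2 494 497) (node 493 (merge (leaf 3 493 494) (node 525 (merge (leaf 3 492 492) (node 560 (merge (leaf 0 524 524) (leaf 0 525 561))))))))))))))) (node 497 (merge (node 498 (merge (leaf 2 494 526) (node 499 (merge (leaf 1 495 496) (leaf 1 496 500))))) (merge (node 526 (merge (leaf 2 494 498) (node 557 (merge (leaf 1 525 558) (node 525 (merge (leaf 1 524 556) (node 560 (merge (leaf 0 524 524) (leaf 0 525 561))))))))) (merge (node 432 (merge (node 464 (merge (leaf 5 431 496) (node 465 (merge (leaf 7 432 561) (node 433 (merge (leaf 7 400 400) (leaf 5 432 560))))))) (merge (node 496 (merge (leaf 5 431 464) (node 526 (merge (leaf 2 493 525) (node 558 (merge (leaf 1 525 557) (node 494 (merge (leaf 3 493 493) (node 462 (merge (leaf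 4 430 430) (node 495 (merge (leaf 3 461 461) (node 590 (merge (leaf 5 462 463) (leaf 6 494 622))))))))))))))) (merge (node 526 (merge (node 525 (merge (leaf 2 493 496) (node 557 (merge (leaf 1 524 556) (leaf 1 525 558))))) (merge (node 525 (merge (leaf 2 493 496) (node 560 (merge (leaf 0 524 524) (leaf 0 525 561))))) (merge (node 557 (merge (leaf 1 525 558) (node 525 (merge (leaf 1 524 556) (node 560 (merge (leaf 0 524 524) (leaf 0 525 561))))))) (node 558 (merge (leaf 1 525 557) (node 494 (merge (leaf 3 493 493) (node 462 (merge (leaf 4 430 430) (node 461 (merge (leaf 7 429 429) (node 495 (merge (leaf 3 461 496) (node 590 (merge (leaf 5 462 463) (leaf 6 494 622))))))))))))))))) (node 465 (merge (node 433 (merge (leaf 7 400 400) (leaf 5 432 560))) (merge (node 433 (merge (leaf 7 400 400) (node 434 (merge (leaf 6 401 402) (node 561 (merge (leaf 7 432 464) (leaf 6 433 466))))))) (node 561 (merge (leaf 7 432 464) (node 560 (merge (leaf 5 464 592) (node 526 (merge (leaf 0 525 525) (node 558 (merge (leaf 1 525 557) (node 590 (merge (leaf 1 557 589) (node 622 (merge (leaf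 6 494 495) (leaf 6 526 654)))))))))))))))))))) (node 465 (merge (node 433 (merge (leaf 5 432 560) (node 496 (merge (leaf 5 400 401) (node 432 (merge (leaf 7 400 400) (leaf 5 431 464))))))) (merge (node 433 (merge (leaf 5 432 560) (node 496 (merge (leaf 5 400 401) (node 434 (merge (leaf 6 401 402) (node 561 (merge (leaf 6 433 466) (node 593 (merge (leaf 7 464 464) (leaf 7 496 625))))))))))) (merge (node 433 (merge (leaf 5 432 560) (node 496 (merge (leaf 5 400 401) (node 498 (merge (leaf 1 495 499) (node 432 (merge (leaf 7 400 400) (node 561 (merge (leaf 4 432 464) (node 593 (merge (leaf 6 465 466) (leaf 7 496 625))))))))))))) (merge (node 560 (merge (leaf 5 432 433) (node 592 (merge (leaf 5 464 561) (leaf 6 496 624))))) (merge (node 433 (merge (leaf 5 432 560) (node 401 (merge (leaf 5 400 496) (node 434 (merge (leaf 6 401 402) (node 466 (merge (leaf 6 433 561) (node 369 (merge (leaf 4 337 337) (leaf 4 369 498))))))))))) (merge (node 432 (merge (node 464 (merge (leaf 7 432 561) (node 496 (merge (leaf 4 400 400) (leaf 5 431 559))))) (merge (node 561 (merge (leaf 7 432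 464) (node 466 (merge (leaf 6 433 434) (node 593 (merge (leaf 6 465 498) (node 626 (merge (leaf 4 497 594) (node 625 (merge (leaf 4 529 658) (node 624 (merge (leaf 5 496 592) (leaf 5 528 656))))))))))))) (merge (node 433 (merge (leaf 7 400 400) (node 434 (merge (leaf 6 401 402) (node 466 (merge (leaf 6 433 561) (node 431 (merge (leaf 0 430 430) (leaf 0 431 467))))))))) (node 433 (merge (leaf 7 400 400) (node 496 (merge (leaf 5 400 401) (node 464 (merge (leaf 5 431 559) (node 434 (merge (leaf 6 401 402) (node 435 (merge (leaf 1 431 463) (node 467 (merge (leaf 0 432 468) (node 431 (merge (leaf 7 399 399) (leaf 0 431 466))))))))))))))))))) (merge (node 433 (merge (leaf 5 432 560) (node 496 (merge (leaf 5 400 401) (node 434 (merge (leaf 6 401 402) (node 432 (merge (leaf 7 400 400) (node 464 (merge (leaf 5 431 559) (node 435 (merge (leaf 1 431 463) (node 467 (merge (leaf 0 432 468) (node 431 (merge (leaf 7 399 399) (leaf 0 431 466))))))))))))))))) (node 561 (merge (node 466 (merge (leaf 6 433 434) (node 593 (merge (leaf 6 465 498) (node 625 (merge (leaf 7 496 496) (node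 657 (merge (leaf 7 528 560) (node 656 (merge (leaf 5 528 624) (leaf 5 560 688))))))))))) (merge (node 592 (merge (leaf 5 464 560) (node 593 (merge (leaf 5 496 624) (node 466 (merge (leaf 6 433 434) (leaf 6 465 498))))))) (merge (node 464 (merge (leaf 7 432 432) (node 593 (merge (leaf 7 464 496) (node 626 (merge (leaf 4 497 594) (node 625 (merge (leaf 4 529 658) (node 624 (merge (leaf 5 496 592) (leaf 5 528 656))))))))))) (node 560 (merge (leaf 5 464 592) (node 558 (merge (leaf 2 525 557) (node 590 (merge (leaf 1 557 589) (node 463 (merge (leaf 5 462 495) (node 466 (merge (leaf 6 433 434) (node 464 (merge (leaf 7 432 432) (node 431 (merge (leaf 3 430 430) (leaf 7 431 496)))))))))))))))))))))))))))))))))))))))))))))) nH_7 cH_7 13 (by decide +kernel)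
def nH_8 : ℕ := 0x1800000000000000000000000000000000000000000000000000000000000000000000000000000000000000000000000000000000000000000000000000000000000
def cH_8 : ℕ := 0x2a0000003e0000003e000000ff800000ffe00000e7c00001dfe000003e0000003c00000038000000080000000000000000000000000000000000000000000000000000000000000000000000000000000000000000000
theorem lH_8 : S nH_8 cH_8 13 := S_of_chk [] trivial (node 526 (merge (node 493 (merge (node 494 (merge (leaf 3 493 529) (node 492 (merge (leaf 0 491 491) (leaf 0 492 495))))) (merge (node 492 (merge (leaf 3 492 525) (node 494 (merge (leaf 0 491 491) (leaf 0 492 495))))) (merge (node 529 (merge (leaf 3 493 494) (node 561 (merge (leaf 0 526 562) (node 525 (merge (leaf 0 525 560) (node 557 (merge (leaf 1 524 556) (leaf 1 525 558))))))))) (node 525 (merge (leaf 3 492 492) (node 561 (merge (leaf 0 525 560) (node 529 (merge (leaf 0 526 562) (node 557 (merge (leaf 1 524 556) (leaf 1 525 558))))))))))))) (merge (node 557 (merge (node 556 (merge (leaf 1 524 525) (node 558 (merge (leaf 2 523 555) (leaf 2 524 559))))) (merge (node 558 (merge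 (leaf 1 525 529) (node 556 (merge (leaf 2 523 555) (leaf 2 524 559))))) (merge (node 529 (merge (leaf 1 525 558) (node 561 (merge (leaf 0 526 562) (node 525 (merge (leaf 0 525 560) (node 493 (merge (leaf 3 492 492) (leaf 3 493 494))))))))) (node 525 (merge (leaf 1 524 556) (node 561 (merge (leaf 0 525 560) (node 529 (merge (leaf 0 526 562) (node 493 (merge (leaf 3 492 492) (leaf 3 493 494))))))))))))) (merge (node 529 (merge (node 557 (merge (leaf 1 525 558) (node 525 (merge (leaf 1 524 556) (node 493 (merge (leaf 3 492 492) (leaf 3 493 494))))))) (merge (node 562 (merge (leaf 0 526 561) (node 530 (merge (leaf 0 527 563) (node 494 (merge (leaf 3 493 493) (leaf 3 494 495))))))) (node 562 (merge (leaf 0 526 561) (node 530 (merge (leaf 0 527 563) (node 558 (merge (leaf 1 525 557) (leaf 1 526 559)))))))))) (merge (node 529 (merge (node 561 (merge (leaf 0 526 562) (node 525 (merge (leaf 0 525 560) (node 493 (merge (leaf 3 492 492) (leaf 3 493 494))))))) (merge (node 562 (merge (leaf 0 526 561) (node 530 (merge (leaf 0 527 563) (node 494 (merge (leaf 3 493 493) (leaf 3 494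 495))))))) (merge (node 494 (merge (leaf 3 493 493) (node 530 (merge (leaf 3 494 495) (node 499 (merge (leaf 2 495 498) (node 531 (merge (leaf 2 496 500) (node 559 (merge (leaf 1 526 558) (leaf 1 527 560))))))))))) (node 562 (merge (leaf 0 526 561) (node 530 (merge (leaf 0 527 563) (node 559 (merge (leaf 1 526 558) (node 531 (merge (leaf 1 527 560) (node 499 (merge (leaf 2 495 498) (leaf 2 496 500))))))))))))))) (merge (node 557 (merge (node 558 (merge (leaf 1 525 529) (node 556 (merge (leaf 2 523 555) (leaf 2 524 559))))) (merge (node 529 (merge (leaf 1 525 558) (node 562 (merge (leaf 0 526 561) (node 530 (merge (leaf 0 527 563) (node 499 (merge (leaf 2 495 498) (node 531 (merge (leaf 2 496 500) (node 495 (merge (leaf 3 494 494) (leaf 3 495 496))))))))))))) (node 525 (merge (leaf 1 524 556) (node 560 (merge (leaf 0 525 561) (node 524 (merge (leaf 0 524 559) (node 495 (merge (leaf 2 492 496) (node 523 (merge (leaf 2 491 494) (node 554 (merge (leaf 1 522 555) (node 522 (merge (leaf 1 521 553) (node 490 (merge (leaf 3 489 489) (leaf 3 490 491)))))))))))))))))))) (merge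 (node 525 (merge (node 561 (merge (leaf 0 525 560) (node 529 (merge (leaf 0 526 562) (node 493 (merge (leaf 3 492 492) (leaf 3 493 494))))))) (merge (node 556 (merge (leaf 1 524 557) (node 524 (merge (leaf 1 523 555) (node 492 (merge (leaf 3 491 491) (leaf 3 492 493))))))) (node 560 (merge (leaf 0 525 561) (node 524 (merge (leaf 0 524 559) (node 555 (merge (leaf 1 523 556) (node 523 (merge (leaf 1 522 554) (node 495 (merge (leaf 2 491 494) (leaf 2 492 496)))))))))))))) (merge (node 529 (merge (node 562 (merge (leaf 0 526 561) (node 530 (merge (leaf 0 527 563) (node 558 (merge (leaf 1 525 557) (leaf 1 526 559))))))) (merge (node 561 (merge (leaf 0 526 562) (node 525 (merge (leaf 0 525 560) (node 556 (merge (leaf 1 524 557) (node 524 (merge (leaf 1 523 555) (node 492 (merge (leaf 3 491 491) (leaf 3 492 493))))))))))) (merge (node 525 (merge (node 557 (merge (leaf 1 524 556) (leaf 1 525 558))) (merge (node 556 (merge (leaf 1 524 557) (node 524 (merge (leaf 1 523 555) (node 492 (merge (leaf 3 491 491) (leaf 3 492 493))))))) (merge (node 492 (merge (leaf 3 492 493) (node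 524 (merge (leaf 3 491 491) (node 559 (merge (leaf 0 524 560) (node 558 (merge (leaf 0 523 523) (leaf 1 526 530))))))))) (node 558 (merge (leaf 1 525 557) (node 559 (merge (leaf 1 526 530) (node 524 (merge (leaf 0 523 523) (leaf 0 524 560))))))))))) (node 562 (merge (leaf 0 526 561) (node 530 (merge (leaf 0 527 563) (node 559 (merge (leaf 1 526 558) (node 531 (merge (leaf 1 527 560) (node 499 (merge (leaf 2 495 498) (leaf 2 496 500))))))))))))))) (merge (node 558 (merge (node 557 (merge (leaf 1 525 529) (node 556 (merge (leaf 2 523 555) (leaf 2 524 559))))) (merge (node 529 (merge (leaf 1 525 557) (node 494 (merge (leaf 3 493 493) (node 495 (merge (leaf 3 494 530) (node 590 (merge (leaf 6 462 463) (leaf 6 494 622))))))))) (merge (node 590 (merge (node 495 (merge (leaf 6 494 622) (node 463 (merge (leaf 5 430 431) (leaf 5 462 559))))) (merge (node 622 (merge (leaf 6 494 495) (node 655 (merge (leaf 4 526 623) (node 654 (merge (leaf 4 558 687) (node 653 (merge (leaf 5 525 621) (leaf 5 557 685))))))))) (merge (node 622 (merge (node 655 (merge (leaf 4 526 623) (node 654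 (merge (leaf 6 526 559) (leaf 4 558 687))))) (merge (node 654 (merge (leaf 6 526 559) (node 653 (merge (leaf 5 525 621) (leaf 5 557 685))))) (node 623 (merge (leaf 4 526 655) (node 494 (merge (leaf 4 494 591) (node 621 (merge (leaf 5 493 589) (leaf 5 525 653)))))))))) (node 494 (merge (node 493 (merge (leaf 7 461 461) (node 492 (merge (leaf 0 491 491) (leaf 0 492 495))))) (merge (node 591 (merge (leaf 4 494 623) (node 462 (merge (leaf 4 462 559) (node 589 (merge (leaf 5 461 557) (leaf 5 493 621))))))) (node 589 (merge (leaf 5 493 621) (node 462 (merge (leaf 5 461 557) (node 559 (merge (leaf 4 430 430) (leaf 4 462 591)))))))))))))) (node 590 (merge (node 495 (merge (leaf 6 494 622) (node 463 (merge (leaf 5 430 431) (leaf 5 462 559))))) (merge (node 622 (merge (leaf 6 494 495) (node 655 (merge (leaf 4 526 623) (node 654 (merge (leaf 4 558 687) (node 653 (merge (leaf 5 525 621) (leaf 5 557 685))))))))) (merge (node 622 (merge (node 655 (merge (leaf 4 526 623) (node 654 (merge (leaf 6 526 559) (leaf 4 558 687))))) (merge (node 654 (merge (leaf 6 526 559) (node 653 (merge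 (leaf 5 525 621) (leaf 5 557 685))))) (node 623 (merge (leaf 4 526 655) (node 494 (merge (leaf 4 494 591) (node 621 (merge (leaf 5 493 589) (leaf 5 525 653)))))))))) (node 494 (merge (node 493 (merge (leaf 7 461 461) (leaf 3 493 529))) (merge (node 493 (merge (leaf 7 461 461) (node 492 (merge (leaf 0 491 491) (leaf 0 492 495))))) (node 591 (merge (leaf 4 494 623) (node 559 (merge (leaf 4 462 462) (node 589 (merge (leaf 5 493 621) (node 560 (merge (leaf 1 557 561) (leaf 2 556 588)))))))))))))))))))) (merge (node 558 (merge (node 557 (merge (leaf 1 525 529) (node 556 (merge (leaf 2 523 555) (leaf 2 524 559))))) (merge (node 529 (merge (leaf 1 525 557) (node 494 (merge (leaf 3 493 493) (node 495 (merge (leaf 3 494 530) (node 590 (merge (leaf 6 462 463) (leaf 6 494 622))))))))) (merge (node 590 (merge (node 495 (merge (leaf 6 494 622) (node 463 (merge (leaf 5 430 431) (leaf 5 462 559))))) (merge (node 622 (merge (leaf 6 494 495) (node 655 (merge (leaf 4 526 623) (node 654 (merge (leaf 4 558 687) (node 525 (merge (leaf 7 493 493) (leaf 7 525 557))))))))) (merge (node 622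 (merge (node 655 (merge (leaf 4 526 623) (node 654 (merge (leaf 6 526 559) (leaf 4 558 687))))) (merge (node 654 (merge (leaf 6 526 559) (node 653 (merge (leaf 5 525 621) (leaf 5 557 685))))) (node 623 (merge (leaf 4 526 655) (node 494 (merge (leaf 4 494 591) (node 621 (merge (leaf 5 493 589) (leaf 5 525 653)))))))))) (node 557 (merge (node 556 (merge (leaf 1 524 525) (leaf 2 523 555))) (node 494 (merge (node 589 (merge (leaf 5 461 462) (leaf 5 493 621))) (merge (node 591 (merge (leaf 4 494 623) (node 462 (merge (leaf 4 462 559) (node 589 (merge (leaf 5 461 557) (leaf 5 493 621))))))) (merge (node 591 (merge (leaf 4 494 623) (node 592 (merge (leaf 3 557 593) (node 559 (merge (leaf 4 462 462) (node 495 (merge (leaf 5 462 463) (leaf 4 495 624))))))))) (node 591 (merge (leaf 4 494 623) (node 592 (merge (leaf 3 557 593) (node 589 (merge (leaf 5 493 621) (node 624 (merge (leaf 0 589 625) (node 495 (merge (leaf 6 462 463) (leaf 4 495 559))))))))))))))))))))) (node 590 (merge (node 495 (merge (leaf 6 494 622) (node 463 (merge (leaf 5 430 431) (leaf 5 462 559))))) (merge (node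 495 (merge (leaf 6 494 622) (node 494 (merge (leaf 6 462 463) (node 493 (merge (leaf 7 461 461) (leaf 0 492 492))))))) (merge (node 622 (merge (node 655 (merge (leaf 4 526 623) (node 654 (merge (leaf 6 526 559) (leaf 4 558 687))))) (merge (node 654 (merge (leaf 6 526 559) (node 653 (merge (leaf 5 525 621) (leaf 5 557 685))))) (node 623 (merge (leaf 4 526 655) (node 494 (merge (leaf 4 494 591) (node 621 (merge (leaf 5 493 589) (leaf 5 525 653)))))))))) (node 494 (merge (node 493 (merge (leaf 7 461 461) (leaf 3 493 529))) (merge (node 493 (merge (leaf 7 461 461) (node 492 (merge (leaf 0 491 491) (leaf 0 492 495))))) (node 591 (merge (leaf 4 494 623) (node 559 (merge (leaf 4 462 462) (node 589 (merge (leaf 5 493 621) (node 588 (merge (leaf 2 556 560) (leaf 2 555 587)))))))))))))))))))) (node 560 (merge (node 561 (merge (leaf 0 525 525) (node 562 (merge (leaf 3 526 559) (leaf 3 527 563))))) (merge (node 525 (merge (leaf 0 525 561) (node 556 (merge (leaf 1 524 557) (node 524 (merge (leaf 1 523 555) (node 492 (merge (leaf 3 491 491) (leaf 3 492 493))))))))) (merge (node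 592 (merge (node 495 (merge (leaf 7 495 624) (node 463 (merge (leaf 4 431 431) (leaf 4 463 559))))) (merge (node 624 (merge (leaf 7 495 495) (node 657 (merge (leaf 4 528 625) (node 656 (merge (leaf 4 560 689) (node 655 (merge (leaf 5 527 623) (leaf 5 559 687))))))))) (merge (node 624 (merge (node 656 (merge (leaf 7 527 559) (node 657 (merge (leaf 4 528 625) (leaf 4 560 689))))) (merge (node 656 (merge (leaf 7 527 559) (node 655 (merge (leaf 5 527 623) (leaf 5 559 687))))) (node 625 (merge (leaf 4 528 657) (node 496 (merge (leaf 4 496 593) (node 623 (merge (leaf 5 495 591) (leaf 5 527 655)))))))))) (node 496 (merge (node 591 (merge (leaf 5 495 623) (node 464 (merge (leaf 5 463 559) (node 433 (merge (leaf 6 432 465) (node 432 (merge (leaf 6 400 401) (node 431 (merge (leaf 7 399 399) (leaf 7 431 463))))))))))) (merge (node 593 (merge (leaf 4 496 625) (node 495 (merge (leaf 7 463 463) (node 525 (merge (leaf 2 492 524) (node 557 (merge (leaf 1 524 556) (node 558 (merge (leaf 0 557 559) (node 493 (merge (leaf 3 492 492) (node 590 (merge (leaf 4 461 461) (leaf 6 494 622)))))))))))))))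 (merge (node 593 (merge (leaf 4 496 625) (node 591 (merge (leaf 5 495 623) (node 495 (merge (leaf 7 463 463) (node 525 (merge (leaf 2 492 524) (node 557 (merge (leaf 1 524 556) (node 493 (merge (leaf 3 492 492) (node 590 (merge (leaf 3 557 558) (node 622 (merge (leaf 4 493 589) (leaf 1 589 621))))))))))))))))) (node 591 (merge (leaf 5 495 623) (node 464 (merge (leaf 5 463 559) (node 433 (merge (leaf 6 432 465) (node 432 (merge (leaf 6 400 401) (node 400 (merge (leaf 5 399 495) (node 399 (merge (leaf 7 367 367) (leaf 7 399 431))))))))))))))))))))) (node 592 (merge (node 495 (merge (leaf 7 495 624) (node 463 (merge (leaf 4 431 431) (leaf 4 463 559))))) (merge (node 624 (merge (leaf 7 495 495) (node 657 (merge (leaf 4 528 625) (node 656 (merge (leaf 4 560 689) (node 655 (merge (leaf 5 527 623) (leaf 5 559 687))))))))) (merge (node 624 (merge (node 656 (merge (leaf 7 527 559) (node 657 (merge (leaf 4 528 625) (leaf 4 560 689))))) (merge (node 656 (merge (leaf 7 527 559) (node 655 (merge (leaf 5 527 623) (leaf 5 559 687))))) (node 625 (merge (leaf 4 528 657) (node 496 (merge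 (leaf 4 496 593) (node 623 (merge (leaf 5 495 591) (leaf 5 527 655)))))))))) (node 591 (merge (node 623 (merge (leaf 5 495 496) (node 559 (merge (leaf 7 494 494) (leaf 6 527 655))))) (merge (node 496 (merge (leaf 5 495 623) (node 593 (merge (leaf 4 496 625) (node 464 (merge (leaf 4 464 561) (node 433 (merge (leaf 6 432 465) (node 432 (merge (leaf 6 400 401) (node 495 (merge (leaf 5 399 400) (leaf 7 463 463))))))))))))) (merge (node 559 (merge (node 623 (merge (leaf 7 494 494) (leaf 6 527 655))) (merge (node 495 (merge (leaf 4 463 463) (node 590 (merge (leaf 5 494 622) (node 589 (merge (leaf 2 557 561) (leaf 2 556 588))))))) (node 495 (merge (leaf 4 463 463) (node 590 (merge (leaf 5 494 622) (node 589 (merge (leaf 2 557 561) (leaf 2 556 588)))))))))) (node 559 (merge (node 496 (merge (leaf 5 463 464) (node 593 (merge (leaf 4 496 625) (node 594 (merge (leaf 3 558 558) (leaf 3 559 595))))))) (merge (node 495 (merge (leaf 4 463 463) (node 590 (merge (leaf 5 494 622) (node 589 (merge (leaf 2 557 561) (leaf 2 556 588))))))) (node 496 (merge (leaf 5 463 464) (node 593 (merge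 (leaf 4 496 625) (node 558 (merge (leaf 0 557 557) (leaf 3 558 594)))))))))))))))))))))))))))))))) nH_8 cH_8 13 (by decide +kernel)
def nH_9 : ℕ := 0x1800000000000000000000000000000000000000000000000000000000000000000000000000000000000000000000000000000000000000000000000000000000000
def cH_9 : ℕ := 0x50000000740000007c000001fe000000ff000000e6000001fe0000007e0000003f0000001c000000100000000000000000000000000000000000000000000000000000000000000000000000000000000000000000000
theorem lH_9 : S nH_9 cH_9 11 := S_of_chk [] trivial (node 529 (merge (node 558 (merge (node 557 (merge (leaf 1 525 526) (node 559 (merge (leaf 2 524 556) (leaf 2 525 560))))) (merge (node 559 (merge (leaf 1 526 530) (node 557 (merge (leaf 2 524 556) (leaf 2 525 560))))) (merge (node 530 (merge (leaf 1 526 559) (node 498 (merge (leaf 2 495 499) (node 526 (merge (leaf 2 494 497) (node 494 (merge (leaf 3 493 493) (leaf 3 494 495))))))))) (node 526 (merge (leaf 1 525 557) (node 498 (merge (leaf 2 494 497) (node 530 (merge (leaf 2 495 499) (node 494 (merge (leaf 3 493 493) (leaf 3 494 495)))))))))))))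 (merge (node 558 (merge (node 557 (merge (leaf 1 525 526) (node 559 (merge (leaf 2 524 556) (leaf 2 525 560))))) (merge (node 559 (merge (leaf 1 526 530) (node 557 (merge (leaf 2 524 556) (leaf 2 525 560))))) (merge (node 530 (merge (leaf 1 526 559) (node 562 (merge (leaf 0 527 563) (node 526 (merge (leaf 0 526 561) (node 494 (merge (leaf 3 493 493) (leaf 3 494 495))))))))) (node 526 (merge (leaf 1 525 557) (node 562 (merge (leaf 0 526 561) (node 530 (merge (leaf 0 527 563) (node 494 (merge (leaf 3 493 493) (leaf 3 494 495))))))))))))) (merge (node 526 (merge (node 562 (merge (leaf 0 526 561) (node 530 (merge (leaf 0 527 563) (node 498 (merge (leaf 2 494 497) (leaf 2 495 499))))))) (merge (node 562 (merge (leaf 0 526 561) (node 530 (merge (leaf 0 527 563) (node 558 (merge (leaf 1 525 557) (leaf 1 526 559))))))) (node 497 (merge (leaf 2 494 498) (node 525 (merge (leaf 2 493 496) (node 557 (merge (leaf 1 524 556) (leaf 1 525 558)))))))))) (merge (node 530 (merge (node 562 (merge (leaf 0 527 563) (node 526 (merge (leaf 0 526 561) (node 494 (merge (leaf 3 493 493) (leaf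 3 494 495))))))) (merge (node 499 (merge (leaf 2 495 498) (node 531 (merge (leaf 2 496 500) (node 495 (merge (leaf 3 494 494) (leaf 3 495 496))))))) (node 562 (merge (leaf 0 527 563) (node 561 (merge (leaf 0 526 526) (node 498 (merge (leaf 2 495 499) (node 593 (merge (leaf 5 465 466) (leaf 6 497 625)))))))))))) (merge (node 561 (merge (node 526 (merge (leaf 0 526 562) (node 525 (merge (leaf 0 525 560) (node 497 (merge (leaf 2 493 496) (leaf 2 494 498))))))) (merge (node 526 (merge (leaf 0 526 562) (node 525 (merge (leaf 0 525 560) (node 557 (merge (leaf 1 524 556) (leaf 1 525 558))))))) (merge (node 526 (merge (leaf 0 526 562) (node 557 (merge (leaf 1 525 558) (node 525 (merge (leaf 1 524 556) (node 497 (merge (leaf 2 493 496) (leaf 2 494 498))))))))) (merge (node 593 (merge (node 625 (merge (leaf 7 496 496) (node 657 (merge (leaf 7 528 560) (node 658 (merge (leaf 4 529 626) (leaf 4 561 690))))))) (merge (node 625 (merge (leaf 7 496 496) (node 657 (merge (leaf 7 528 560) (node 656 (merge (leaf 5 528 624) (leaf 5 560 688))))))) (merge (node 625 (merge (leaf 7 496 496)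 (node 626 (merge (leaf 4 529 658) (node 497 (merge (leaf 4 497 594) (node 624 (merge (leaf 5 496 592) (leaf 5 528 656))))))))) (merge (node 625 (merge (node 657 (merge (leaf 7 528 560) (node 658 (merge (leaf 4 529 626) (leaf 4 561 690))))) (merge (node 657 (merge (leaf 7 528 560) (node 656 (merge (leaf 5 528 624) (leaf 5 560 688))))) (node 626 (merge (leaf 4 529 658) (node 497 (merge (leaf 4 497 594) (node 624 (merge (leaf 5 496 592) (leaf 5 528 656)))))))))) (node 497 (merge (node 498 (merge (leaf 6 465 466) (node 496 (merge (leaf 7 464 464) (leaf 1 495 499))))) (merge (node 594 (merge (leaf 4 497 626) (node 465 (merge (leaf 4 465 562) (node 592 (merge (leaf 5 464 560) (leaf 5 496 624))))))) (node 592 (merge (leaf 5 496 624) (node 560 (merge (leaf 5 464 465) (node 496 (merge (leaf 4 464 464) (node 591 (merge (leaf 5 495 623) (node 590 (merge (leaf 2 558 562) (leaf 2 557 589))))))))))))))))))) (node 497 (merge (node 526 (merge (leaf 2 494 498) (node 525 (merge (leaf 2 493 496) (node 557 (merge (leaf 1 524 556) (leaf 1 525 558))))))) (merge (node 526 (merge (leaf 2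 494 498) (node 560 (merge (leaf 0 525 525) (node 592 (merge (leaf 5 464 465) (leaf 6 496 624))))))) (merge (node 498 (merge (node 499 (merge (leaf 1 495 496) (leaf 1 496 500))) (node 593 (merge (leaf 6 465 466) (node 594 (merge (leaf 4 497 626) (node 592 (merge (leaf 5 496 624) (node 560 (merge (leaf 5 464 465) (node 595 (merge (leaf 3 559 559) (leaf 3 560 596))))))))))))) (node 465 (merge (node 560 (merge (leaf 5 432 433) (leaf 5 464 592))) (merge (node 464 (merge (leaf 7 432 432) (node 593 (merge (leaf 7 464 496) (node 626 (merge (leaf 4 497 594) (node 625 (merge (leaf 4 529 658) (node 624 (merge (leaf 5 496 592) (leaf 5 528 656))))))))))) (node 560 (merge (leaf 5 432 433) (node 526 (merge (leaf 0 525 525) (node 558 (merge (leaf 1 525 557) (node 464 (merge (leaf 7 432 432) (node 593 (merge (leaf 4 464 496) (node 594 (merge (leaf 0 558 559) (leaf 4 497 626))))))))))))))))))))))))) (node 495 (merge (node 530 (merge (leaf 3 494 494) (node 499 (merge (leaf 2 495 498) (node 531 (merge (leaf 3 495 496) (leaf 2 496 500))))))) (merge (node 530 (merge (leaf 3 494 494) (node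 559 (merge (leaf 1 526 558) (node 560 (merge (leaf 1 527 531) (node 592 (merge (leaf 4 463 463) (leaf 7 495 624))))))))) (merge (node 559 (merge (node 558 (merge (leaf 1 526 530) (node 557 (merge (leaf 2 524 556) (leaf 2 525 560))))) (merge (node 530 (merge (leaf 1 526 558) (node 499 (merge (leaf 2 495 498) (node 531 (merge (leaf 3 495 496) (leaf 2 496 500))))))) (merge (node 592 (merge (node 560 (merge (leaf 4 463 463) (leaf 7 495 624))) (merge (node 591 (merge (leaf 4 495 624) (node 623 (merge (leaf 6 495 496) (node 622 (merge (leaf 5 494 590) (leaf 5 526 654))))))) (node 463 (merge (leaf 4 463 560) (node 590 (merge (leaf 5 462 558) (node 591 (merge (leaf 5 494 622) (node 464 (merge (leaf 6 431 432) (leaf 6 463 496)))))))))))) (node 592 (merge (node 560 (merge (leaf 4 463 463) (leaf 7 495 624))) (merge (node 591 (merge (leaf 4 495 624) (node 623 (merge (leaf 6 495 496) (node 622 (merge (leaf 5 494 590) (leaf 5 526 654))))))) (node 463 (merge (leaf 4 463 560) (node 464 (merge (leaf 6 431 432) (node 496 (merge (leaf 6 463 591) (node 462 (merge (leaf 7 430 430) (node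 497 (merge (leaf 0 461 461) (leaf 3 462 498)))))))))))))))))) (node 463 (merge (node 431 (merge (leaf 4 431 560) (node 432 (merge (leaf 6 399 400) (node 559 (merge (leaf 6 431 464) (node 430 (merge (leaf 7 398 398) (leaf 7 430 462))))))))) (merge (node 431 (merge (leaf 4 431 560) (node 496 (merge (leaf 4 399 399) (node 430 (merge (leaf 7 398 398) (node 559 (merge (leaf 7 430 462) (node 591 (merge (leaf 6 463 464) (leaf 6 495 623))))))))))) (merge (node 431 (merge (leaf 4 431 560) (node 496 (merge (leaf 4 399 399) (node 494 (merge (leaf 0 493 493) (node 432 (merge (leaf 6 399 400) (node 559 (merge (leaf 5 431 464) (node 591 (merge (leaf 7 462 462) (leaf 6 495 623))))))))))))) (merge (node 431 (merge (leaf 4 431 560) (node 399 (merge (leaf 4 399 496) (node 400 (merge (leaf 6 367 368) (leaf 6 399 432))))))) (merge (node 559 (merge (node 590 (merge (leaf 5 462 558) (node 591 (merge (leaf 5 494 622) (node 462 (merge (leaf 7 430 430) (leaf 7 462 494))))))) (merge (node 464 (merge (leaf 6 431 432) (node 591 (merge (leaf 6 463 496) (node 590 (merge (leaf 5 462 558) (leaf 5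 494 622))))))) (node 432 (merge (leaf 6 431 464) (node 431 (merge (leaf 6 399 400) (node 430 (merge (leaf 7 398 398) (leaf 7 430 462)))))))))) (merge (node 560 (merge (leaf 4 431 431) (node 592 (merge (leaf 7 463 496) (leaf 4 463 559))))) (merge (node 559 (merge (node 464 (merge (leaf 6 431 432) (node 591 (merge (leaf 6 463 496) (node 590 (merge (leaf 5 462 558) (leaf 5 494 622))))))) (merge (node 558 (merge (leaf 5 462 590) (node 557 (merge (leaf 2 524 556) (leaf 2 525 560))))) (node 462 (merge (leaf 7 430 430) (node 591 (merge (leaf 7 462 494) (node 624 (merge (leaf 4 495 592) (node 623 (merge (leaf 6 495 496) (leaf 4 527 656)))))))))))) (node 431 (merge (leaf 4 431 560) (node 496 (merge (leaf 4 399 399) (node 432 (merge (leaf 6 399 400) (node 464 (merge (leaf 4 432 561) (node 430 (merge (leaf 7 398 398) (node 429 (merge (leaf 0 428 428) (leaf 0 429 465))))))))))))))))))))))))))))))) nH_9 cH_9 11 (by decide +kernel)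
def nH_10 : ℕ := 0x1800000000000000000000000000000000000000000000000000000000000000000000000000000000000000000000000000000000000000000000000000000000000
def cH_10 : ℕ := 0x50000000700000007c000000fe000000ffc00003e7800001fdc00000780000007c0000005c000000140000000000000000000000000000000000000000000000000000000000000000000000000000000000000000000
theorem lH_10 : S nH_10 cH_10 11 := S_of_chk [] trivial (node 529 (merge (node 526 (merge (node 562 (merge (leaf 0 526 561) (node 530 (merge (leaf 0 527 563) (node 498 (merge (leaf 2 494 497) (leaf 2 495 499))))))) (merge (node 562 (merge (leaf 0 526 561) (node 530 (merge (leaf 0 527 563) (node 558 (merge (leaf 1 525 557) (leaf 1 526 559))))))) (node 497 (merge (leaf 2 494 498) (node 525 (merge (leaf 2 493 496) (node 557 (merge (leaf 1 524 556) (leaf 1 525 558)))))))))) (merge (node 530 (merge (node 499 (merge (leaf 2 495 498) (node 531 (merge (leaf 2 496 500) (node 495 (merge (leaf 3 494 494) (leaf 3 495 496))))))) (merge (node 562 (merge (leaf 0 527 563) (node 561 (merge (leaf 0 526 526) (node 498 (merge (leaf 2 495 499) (node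 593 (merge (leaf 5 465 466) (leaf 6 497 625))))))))) (node 562 (merge (leaf 0 527 563) (node 561 (merge (leaf 0 526 526) (node 495 (merge (leaf 3 494 494) (node 531 (merge (leaf 3 495 496) (node 532 (merge (leaf 1 529 533) (leaf 1 528 560)))))))))))))) (merge (node 558 (merge (node 557 (merge (leaf 1 525 526) (node 559 (merge (leaf 2 524 556) (leaf 2 525 560))))) (merge (node 559 (merge (leaf 1 526 530) (node 557 (merge (leaf 2 524 556) (leaf 2 525 560))))) (merge (node 526 (merge (leaf 1 525 557) (node 562 (merge (leaf 0 526 561) (node 530 (merge (leaf 0 527 563) (node 498 (merge (leaf 2 494 497) (leaf 2 495 499))))))))) (node 530 (merge (leaf 1 526 559) (node 562 (merge (leaf 0 527 563) (node 498 (merge (leaf 2 495 499) (node 497 (merge (leaf 2 494 526) (node 594 (merge (leaf 7 465 465) (leaf 7 497 626))))))))))))))) (merge (node 558 (merge (node 559 (merge (leaf 1 526 530) (node 557 (merge (leaf 2 524 556) (leaf 2 525 560))))) (merge (node 530 (merge (leaf 1 526 559) (node 562 (merge (leaf 0 527 563) (node 561 (merge (leaf 0 526 526) (node 495 (merge (leaf 3 494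 494) (node 531 (merge (leaf 3 495 496) (node 532 (merge (leaf 1 529 533) (leaf 1 528 560))))))))))))) (merge (node 526 (merge (leaf 1 525 557) (node 562 (merge (leaf 0 526 561) (node 530 (merge (leaf 1 526 559) (leaf 0 527 563))))))) (node 526 (merge (leaf 1 525 557) (node 561 (merge (leaf 0 526 562) (node 525 (merge (leaf 0 525 560) (node 496 (merge (leaf 2 493 497) (node 524 (merge (leaf 2 492 495) (node 555 (merge (leaf 1 523 556) (node 523 (merge (leaf 1 522 554) (node 491 (merge (leaf 3 490 490) (leaf 3 491 492))))))))))))))))))))) (merge (node 495 (merge (node 530 (merge (leaf 3 494 494) (node 499 (merge (leaf 2 495 498) (node 531 (merge (leaf 3 495 496) (leaf 2 496 500))))))) (merge (node 530 (merge (leaf 3 494 494) (node 499 (merge (leaf 2 495 498) (node 531 (merge (leaf 2 496 500) (node 559 (merge (leaf 1 526 558) (leaf 1 527 560))))))))) (node 463 (merge (node 560 (merge (leaf 4 431 431) (node 592 (merge (leaf 4 463 559) (leaf 7 495 624))))) (merge (node 431 (merge (leaf 4 431 560) (node 399 (merge (leaf 4 399 496) (node 400 (merge (leaf 6 367 368) (leaf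 6 399 432))))))) (merge (node 559 (merge (node 558 (merge (leaf 5 462 590) (node 557 (merge (leaf 2 524 556) (leaf 2 525 560))))) (merge (node 592 (merge (leaf 4 463 560) (node 464 (merge (leaf 6 431 432) (node 591 (merge (leaf 6 463 496) (leaf 4 495 624))))))) (node 464 (merge (leaf 6 431 432) (node 591 (merge (leaf 6 463 496) (node 590 (merge (leaf 5 462 558) (leaf 5 494 622)))))))))) (node 432 (merge (node 400 (merge (leaf 6 399 431) (node 464 (merge (leaf 5 367 368) (leaf 6 431 559))))) (merge (node 431 (merge (leaf 6 399 400) (node 399 (merge (leaf 4 399 496) (node 398 (merge (leaf 7 366 366) (leaf 7 398 430))))))) (node 559 (merge (leaf 6 431 464) (node 590 (merge (leaf 5 462 558) (node 591 (merge (leaf 5 494 622) (node 624 (merge (leaf 4 495 592) (node 623 (merge (leaf 6 495 496) (leaf 4 527 656))))))))))))))))))))) (merge (node 561 (merge (node 526 (merge (leaf 0 526 562) (node 525 (merge (leaf 0 525 560) (node 557 (merge (leaf 1 524 556) (leaf 1 525 558))))))) (merge (node 526 (merge (leaf 0 526 562) (node 497 (merge (leaf 2 494 498) (node 525 (merge (leaf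 2 493 496) (node 557 (merge (leaf 1 524 556) (leaf 1 525 558))))))))) (merge (node 593 (merge (node 496 (merge (leaf 7 496 625) (node 497 (merge (leaf 7 464 464) (node 498 (merge (leaf 6 465 466) (leaf 1 495 499))))))) (merge (node 625 (merge (leaf 7 496 496) (node 657 (merge (leaf 7 528 560) (node 658 (merge (leaf 4 529 626) (leaf 4 561 690))))))) (merge (node 625 (merge (node 657 (merge (leaf 7 528 560) (node 658 (merge (leaf 4 529 626) (leaf 4 561 690))))) (merge (node 657 (merge (leaf 7 528 560) (node 656 (merge (leaf 5 528 624) (leaf 5 560 688))))) (node 626 (merge (leaf 4 529 658) (node 497 (merge (leaf 4 497 594) (node 624 (merge (leaf 5 496 592) (leaf 5 528 656)))))))))) (node 497 (merge (node 498 (merge (leaf 6 465 466) (node 496 (merge (leaf 7 464 464) (leaf 1 495 499))))) (merge (node 592 (merge (leaf 5 496 624) (node 465 (merge (leaf 5 464 560) (node 434 (merge (leaf 6 433 466) (node 433 (merge (leaf 6 401 402) (node 432 (merge (leaf 7 400 400) (leaf 7 432 464))))))))))) (merge (node 594 (merge (leaf 4 497 626) (node 465 (merge (leaf 4 465 562) (node 592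 (merge (leaf 5 464 560) (leaf 5 496 624))))))) (node 594 (merge (leaf 4 497 626) (node 562 (merge (leaf 4 465 465) (node 592 (merge (leaf 5 496 624) (node 591 (merge (leaf 2 559 563) (leaf 2 558 590))))))))))))))))) (node 593 (merge (node 496 (merge (leaf 7 496 625) (node 464 (merge (leaf 4 432 432) (leaf 4 464 560))))) (merge (node 625 (merge (leaf 7 496 496) (node 624 (merge (leaf 5 528 656) (node 497 (merge (leaf 5 496 592) (node 498 (merge (leaf 6 465 466) (leaf 2 494 526))))))))) (merge (node 497 (merge (node 498 (merge (leaf 6 465 466) (leaf 2 494 526))) (merge (node 526 (merge (leaf 2 494 498) (node 496 (merge (leaf 7 464 464) (leaf 2 493 525))))) (node 592 (merge (leaf 5 496 624) (node 465 (merge (leaf 5 464 560) (node 434 (merge (leaf 6 433 466) (node 433 (merge (leaf 6 401 402) (node 432 (merge (leaf 7 400 400) (leaf 7 432 464)))))))))))))) (node 625 (merge (node 657 (merge (leaf 7 528 560) (node 658 (merge (leaf 4 529 626) (leaf 4 561 690))))) (merge (node 657 (merge (leaf 7 528 560) (node 656 (merge (leaf 5 528 624) (leaf 5 560 688))))) (node 626 (merge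 (leaf 4 529 658) (node 497 (merge (leaf 4 497 594) (node 624 (merge (leaf 5 496 592) (leaf 5 528 656)))))))))))))))))) (node 561 (merge (node 562 (merge (leaf 0 526 526) (node 563 (merge (leaf 0 527 530) (leaf 3 527 560))))) (merge (node 526 (merge (leaf 0 526 562) (node 497 (merge (leaf 2 494 498) (node 525 (merge (leaf 2 493 496) (node 557 (merge (leaf 1 524 556) (leaf 1 525 558))))))))) (merge (node 526 (merge (node 560 (merge (leaf 0 525 525) (node 497 (merge (leaf 2 494 498) (node 592 (merge (leaf 5 464 465) (leaf 6 496 624))))))) (merge (node 497 (merge (leaf 2 494 498) (node 525 (merge (leaf 2 493 496) (node 557 (merge (leaf 1 524 556) (leaf 1 525 558))))))) (merge (node 558 (merge (leaf 1 525 557) (node 530 (merge (leaf 1 526 559) (node 497 (merge (leaf 2 494 498) (node 495 (merge (leaf 3 494 494) (node 531 (merge (leaf 3 495 496) (node 560 (merge (leaf 1 528 532) (node 592 (merge (leaf 5 464 465) (leaf 6 496 624))))))))))))))) (node 560 (merge (leaf 0 525 525) (node 558 (merge (leaf 1 525 557) (node 530 (merge (leaf 1 526 559) (node 531 (merge (leaf 1 528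 532) (node 495 (merge (leaf 3 494 494) (leaf 3 495 496))))))))))))))) (node 593 (merge (node 496 (merge (leaf 7 496 625) (node 464 (merge (leaf 4 432 432) (leaf 4 464 560))))) (merge (node 625 (merge (leaf 7 496 496) (node 658 (merge (leaf 4 529 626) (node 657 (merge (leaf 4 561 690) (node 656 (merge (leaf 5 528 624) (leaf 5 560 688))))))))) (merge (node 625 (merge (node 657 (merge (leaf 7 528 560) (node 658 (merge (leaf 4 529 626) (leaf 4 561 690))))) (merge (node 657 (merge (leaf 7 528 560) (node 656 (merge (leaf 5 528 624) (leaf 5 560 688))))) (node 626 (merge (leaf 4 529 658) (node 594 (merge (leaf 4 497 497) (node 624 (merge (leaf 5 528 656) (node 623 (merge (leaf 2 591 595) (leaf 2 590 622)))))))))))) (node 559 (merge (node 558 (merge (leaf 1 526 530) (node 557 (merge (leaf 2 524 556) (leaf 2 525 560))))) (merge (node 530 (merge (leaf 1 526 558) (node 562 (merge (leaf 0 527 563) (node 495 (merge (leaf 3 494 494) (node 496 (merge (leaf 3 495 531) (node 497 (merge (leaf 7 464 464) (node 594 (merge (leaf 4 465 465) (leaf 4 497 626))))))))))))) (merge (node 560 (merge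 (node 562 (merge (leaf 3 527 563) (node 594 (merge (leaf 0 559 595) (node 626 (merge (leaf 7 529 658) (node 497 (merge (leaf 4 465 465) (leaf 4 497 593))))))))) (node 530 (merge (leaf 1 527 531) (node 495 (merge (leaf 3 494 494) (node 463 (merge (leaf 4 431 431) (leaf 4 463 592))))))))) (node 560 (merge (node 558 (merge (leaf 0 558 594) (node 557 (merge (leaf 2 524 556) (leaf 0 557 592))))) (merge (node 562 (merge (leaf 3 527 563) (node 594 (merge (leaf 0 559 595) (node 626 (merge (leaf 7 529 658) (node 497 (merge (leaf 4 465 465) (leaf 4 497 593))))))))) (node 558 (merge (leaf 2 525 557) (node 590 (merge (leaf 1 557 589) (node 562 (merge (leaf 3 527 563) (leaf 1 558 591))))))))))))))))))))))))))))) nH_10 cH_10 11 (by decide +kernel)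
def nH_11 : ℕ := 0x1800000000000000000000000000000000000000000000000000000000000000000000000000000000000000000000000000000000000000000000000000000000000
def cH_11 : ℕ := 0x100000001c0000007c000001fc000000fdc00001e7800003ffc00001ff000000fe0000007c000000340000000000000000000000000000000000000000000000000000000000000000000000000000000000000000000
theorem lH_11 : S nH_11 cH_11 13 := S_of_chk [] trivial (node 529 (merge (node 526 (merge (node 561 (merge (leaf 0 526 562) (node 525 (merge (leaf 0 525 560) (node 493 (merge (leaf 3 492 492) (leaf 3 493 494))))))) (merge (node 498 (merge (leaf 2 494 497) (node 530 (merge (leaf 2 495 499) (node 494 (merge (leaf 3 493 493) (leaf 3 494 495))))))) (node 561 (merge (leaf 0 526 562) (node 560 (merge (leaf 0 525 525) (node 497 (merge (leaf 2 494 498) (node 592 (merge (leaf 5 464 465) (leaf 6 496 624)))))))))))) (merge (node 530 (merge (node 562 (merge (leaf 0 527 563) (node 526 (merge (leaf 0 526 561) (node 494 (merge (leaf 3 493 493) (leaf 3 494 495))))))) (merge (node 499 (merge (leaf 2 495 498) (node 531 (merge (leaf 2 496 500)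 (node 495 (merge (leaf 3 494 494) (leaf 3 495 496))))))) (node 562 (merge (leaf 0 527 563) (node 561 (merge (leaf 0 526 526) (node 498 (merge (leaf 2 495 499) (node 593 (merge (leaf 5 465 466) (leaf 6 497 625)))))))))))) (merge (node 530 (merge (node 559 (merge (leaf 1 526 558) (node 531 (merge (leaf 1 527 560) (node 495 (merge (leaf 3 494 494) (leaf 3 495 496))))))) (node 562 (merge (leaf 0 527 563) (node 498 (merge (leaf 2 495 499) (node 497 (merge (leaf 2 494 526) (node 594 (merge (leaf 7 465 465) (leaf 7 497 626))))))))))) (merge (node 494 (merge (node 495 (merge (leaf 3 494 530) (node 493 (merge (leaf 0 492 492) (leaf 0 493 496))))) (merge (node 530 (merge (leaf 3 494 495) (node 499 (merge (leaf 2 495 498) (node 531 (merge (leaf 2 496 500) (node 559 (merge (leaf 1 526 558) (leaf 1 527 560))))))))) (node 526 (merge (leaf 3 493 493) (node 497 (merge (leaf 2 494 498) (node 525 (merge (leaf 2 493 496) (node 560 (merge (leaf 0 525 561) (node 524 (merge (leaf 0 524 559) (node 555 (merge (leaf 1 523 556) (node 523 (merge (leaf 1 522 554) (node 491 (merge (leaf 3 490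 490) (leaf 3 491 492)))))))))))))))))))) (merge (node 526 (merge (node 562 (merge (leaf 0 526 561) (node 530 (merge (leaf 0 527 563) (node 494 (merge (leaf 3 493 493) (leaf 3 494 495))))))) (merge (node 497 (merge (leaf 2 494 498) (node 525 (merge (leaf 2 493 496) (node 560 (merge (leaf 0 525 561) (node 559 (merge (leaf 0 524 524) (node 530 (merge (leaf 1 527 531) (leaf 1 526 558))))))))))) (merge (node 497 (merge (leaf 2 494 498) (node 525 (merge (leaf 2 493 496) (node 560 (merge (leaf 0 525 561) (node 524 (merge (leaf 0 524 559) (node 555 (merge (leaf 1 523 556) (node 523 (merge (leaf 1 522 554) (node 491 (merge (leaf 3 490 490) (leaf 3 491 492))))))))))))))) (node 497 (merge (leaf 2 494 498) (node 496 (merge (leaf 2 493 525) (node 494 (merge (leaf 3 493 493) (node 530 (merge (leaf 0 494 495) (node 559 (merge (leaf 1 526 558) (node 531 (merge (leaf 3 496 532) (leaf 1 527 560))))))))))))))))) (merge (node 494 (merge (node 493 (merge (leaf 3 493 526) (node 495 (merge (leaf 0 492 492) (leaf 0 493 496))))) (merge (node 526 (merge (leaf 3 493 493) (node 562 (merge (leaf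 0 526 561) (node 530 (merge (leaf 3 494 495) (leaf 0 527 563))))))) (merge (node 526 (merge (leaf 3 493 493) (node 562 (merge (leaf 0 526 561) (node 530 (merge (leaf 0 527 563) (node 559 (merge (leaf 1 526 558) (node 560 (merge (leaf 1 527 531) (node 525 (merge (leaf 0 524 524) (node 496 (merge (leaf 2 493 497) (node 591 (merge (leaf 5 463 464) (leaf 6 495 623))))))))))))))))) (node 530 (merge (leaf 3 494 495) (node 562 (merge (leaf 0 527 563) (node 559 (merge (leaf 1 526 558) (node 531 (merge (leaf 1 527 560) (node 500 (merge (leaf 2 496 499) (node 532 (merge (leaf 2 497 501) (node 497 (merge (leaf 3 496 496) (node 465 (merge (leaf 4 433 433) (node 594 (merge (leaf 4 465 561) (leaf 7 497 626))))))))))))))))))))))) (merge (node 530 (merge (node 499 (merge (leaf 2 495 498) (node 531 (merge (leaf 2 496 500) (node 559 (merge (leaf 1 526 558) (leaf 1 527 560))))))) (merge (node 562 (merge (leaf 0 527 563) (node 561 (merge (leaf 0 526 526) (node 498 (merge (leaf 2 495 499) (node 593 (merge (leaf 5 465 466) (leaf 6 497 625))))))))) (node 562 (merge (leaf 0 527 563) (node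 561 (merge (leaf 0 526 526) (node 559 (merge (leaf 1 526 558) (node 560 (merge (leaf 1 527 531) (node 591 (merge (leaf 1 558 590) (node 496 (merge (leaf 5 463 464) (leaf 6 495 623)))))))))))))))) (merge (node 497 (merge (node 498 (merge (leaf 2 494 526) (node 499 (merge (leaf 1 495 496) (leaf 1 496 500))))) (merge (node 561 (merge (node 526 (merge (leaf 2 494 498) (leaf 0 526 562))) (merge (node 562 (merge (leaf 0 526 526) (node 560 (merge (leaf 3 527 563) (node 465 (merge (leaf 5 432 433) (leaf 4 465 594))))))) (merge (node 592 (merge (node 560 (merge (leaf 5 464 465) (leaf 6 496 624))) (merge (node 624 (merge (leaf 6 496 560) (leaf 5 496 593))) (merge (node 593 (merge (leaf 5 496 624) (node 594 (merge (leaf 4 497 626) (node 562 (merge (leaf 4 465 465) (node 591 (merge (leaf 2 559 563) (leaf 2 558 590))))))))) (node 465 (merge (leaf 5 464 560) (node 594 (merge (leaf 4 465 562) (node 593 (merge (leaf 4 497 626) (node 466 (merge (leaf 6 433 434) (leaf 6 465 498))))))))))))) (node 498 (merge (leaf 2 494 526) (node 593 (merge (leaf 6 465 466) (node 594 (merge (leaf 4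 497 626) (node 592 (merge (leaf 5 496 624) (node 560 (merge (leaf 5 464 465) (node 595 (merge (leaf 3 559 559) (leaf 3 560 596))))))))))))))))) (merge (node 561 (merge (node 562 (merge (leaf 0 526 526) (node 560 (merge (leaf 3 527 563) (node 465 (merge (leaf 5 432 433) (leaf 4 465 594))))))) (merge (node 592 (merge (node 560 (merge (leaf 5 464 465) (leaf 6 496 624))) (merge (node 593 (merge (leaf 5 496 624) (node 496 (merge (leaf 7 464 464) (leaf 7 496 625))))) (node 465 (merge (leaf 5 464 560) (node 466 (merge (leaf 6 433 434) (node 464 (merge (leaf 7 432 432) (node 496 (merge (leaf 7 464 593) (node 495 (merge (leaf 1 463 467) (leaf 2 462 494)))))))))))))) (merge (node 562 (merge (leaf 0 526 526) (node 465 (merge (leaf 4 465 594) (node 466 (merge (leaf 6 433 434) (node 464 (merge (leaf 7 432 432) (node 496 (merge (leaf 7 464 593) (node 495 (merge (leaf 1 463 467) (leaf 2 462 494))))))))))))) (node 496 (merge (node 593 (merge (leaf 7 464 464) (leaf 7 496 625))) (merge (node 562 (merge (leaf 0 526 526) (node 560 (merge (leaf 3 527 563) (node 464 (merge (leaf 4 432 432)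 (node 591 (merge (leaf 5 463 559) (node 592 (merge (leaf 5 495 623) (leaf 6 496 624))))))))))) (node 562 (merge (leaf 0 526 526) (node 560 (merge (leaf 3 527 563) (node 592 (merge (leaf 6 496 624) (node 593 (merge (leaf 4 496 625) (node 591 (merge (leaf 2 558 590) (leaf 5 495 623)))))))))))))))))) (node 465 (merge (node 560 (merge (leaf 5 432 433) (node 592 (merge (leaf 6 464 496) (leaf 6 496 624))))) (merge (node 433 (merge (leaf 5 432 560) (node 434 (merge (leaf 6 401 402) (node 561 (merge (leaf 6 433 466) (node 432 (merge (leaf 7 400 400) (leaf 7 432 464))))))))) (merge (node 561 (merge (node 592 (merge (leaf 5 464 560) (node 464 (merge (leaf 7 432 432) (node 593 (merge (leaf 7 464 496) (leaf 5 496 624))))))) (merge (node 562 (merge (leaf 4 465 594) (node 560 (merge (leaf 3 527 563) (leaf 5 464 592))))) (merge (node 594 (merge (leaf 4 465 562) (node 593 (merge (leaf 4 497 626) (node 592 (merge (leaf 5 464 560) (leaf 5 496 624))))))) (node 594 (merge (leaf 4 465 562) (node 593 (merge (leaf 4 497 626) (node 464 (merge (leaf 7 432 432) (leaf 7 464 496))))))))))) (node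 434 (merge (node 433 (merge (leaf 6 401 402) (node 561 (merge (leaf 6 433 466) (node 432 (merge (leaf 7 400 400) (leaf 7 432 464))))))) (merge (node 561 (merge (leaf 6 433 466) (node 594 (merge (leaf 4 465 562) (node 593 (merge (leaf 4 497 626) (node 464 (merge (leaf 7 432 432) (leaf 7 464 496))))))))) (merge (node 433 (merge (leaf 6 401 402) (node 496 (merge (leaf 5 400 401) (node 432 (merge (leaf 7 400 400) (node 561 (merge (leaf 4 432 464) (node 594 (merge (leaf 4 465 562) (node 593 (merge (leaf 7 496 625) (leaf 4 497 626))))))))))))) (merge (node 433 (merge (leaf 6 401 402) (node 496 (merge (leaf 5 400 401) (node 561 (merge (leaf 6 433 466) (node 593 (merge (leaf 7 464 464) (leaf 7 496 625))))))))) (merge (node 433 (merge (leaf 6 401 402) (node 401 (merge (leaf 5 400 496) (node 400 (merge (leaf 7 368 368) (leaf 7 400 432))))))) (node 433 (merge (leaf 6 401 402) (node 496 (merge (leaf 5 400 401) (node 432 (merge (leaf 7 400 400) (node 464 (merge (leaf 5 431 559) (node 435 (merge (leaf 1 431 463) (node 467 (merge (leaf 0 432 468) (node 431 (merge (leaf 7 399 399)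 (leaf 0 431 466))))))))))))))))))))))))))))) (node 495 (merge (node 494 (merge (leaf 3 494 530) (node 493 (merge (leaf 0 492 492) (leaf 0 493 496))))) (merge (node 559 (merge (node 530 (merge (leaf 3 494 494) (node 499 (merge (leaf 2 495 498) (node 531 (merge (leaf 2 496 500) (leaf 1 527 560))))))) (merge (node 494 (merge (leaf 3 494 530) (node 591 (merge (leaf 7 462 462) (node 624 (merge (leaf 4 495 592) (node 623 (merge (leaf 4 527 656) (node 622 (merge (leaf 5 494 590) (leaf 5 526 654))))))))))) (merge (node 462 (merge (node 430 (merge (leaf 7 430 463) (node 494 (merge (leaf 4 398 398) (leaf 7 462 591))))) (merge (node 463 (merge (leaf 7 430 430) (node 560 (merge (leaf 4 431 431) (leaf 4 463 592))))) (node 591 (merge (leaf 7 462 494) (node 624 (merge (leaf 4 495 592) (node 623 (merge (leaf 4 527 656) (node 622 (merge (leaf 5 494 590) (leaf 5 526 654)))))))))))) (node 560 (merge (node 592 (merge (leaf 4 463 463) (leaf 7 495 624))) (merge (node 530 (merge (leaf 1 527 531) (node 562 (merge (leaf 0 527 563) (node 498 (merge (leaf 2 495 499) (node 463 (merge (leaf 4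 431 431) (node 464 (merge (leaf 6 431 432) (node 462 (merge (leaf 7 430 430) (node 465 (merge (leaf 0 462 497) (node 433 (merge (leaf 2 430 434) (leaf 7 433 466))))))))))))))))) (node 497 (merge (node 592 (merge (leaf 6 496 624) (node 465 (merge (leaf 5 432 433) (leaf 5 464 561))))) (merge (node 530 (merge (leaf 1 527 531) (node 562 (merge (leaf 0 527 563) (node 592 (merge (leaf 6 496 624) (node 594 (merge (leaf 7 497 626) (node 595 (merge (leaf 0 559 561) (leaf 3 559 593))))))))))) (merge (node 530 (merge (leaf 1 527 531) (node 562 (merge (leaf 0 527 563) (node 498 (merge (leaf 2 495 499) (node 465 (merge (leaf 4 433 433) (leaf 7 465 594))))))))) (node 530 (merge (leaf 1 527 531) (node 562 (merge (leaf 0 527 563) (node 498 (merge (leaf 2 495 499) (node 465 (merge (leaf 4 433 433) (leaf 7 465 594)))))))))))))))))))) (merge (node 463 (merge (node 560 (merge (leaf 4 431 431) (node 592 (merge (leaf 4 463 559) (leaf 7 495 624))))) (merge (node 431 (merge (leaf 4 431 560) (node 399 (merge (leaf 4 399 496) (node 400 (merge (leaf 6 367 368) (leaf 6 399 432))))))) (merge (node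 432 (merge (node 400 (merge (leaf 6 399 431) (node 464 (merge (leaf 5 367 368) (leaf 6 431 559))))) (merge (node 431 (merge (leaf 6 399 400) (node 399 (merge (leaf 4 399 496) (node 398 (merge (leaf 7 366 366) (leaf 7 398 430))))))) (node 559 (merge (leaf 6 431 464) (node 462 (merge (leaf 7 430 430) (node 591 (merge (leaf 7 462 494) (node 622 (merge (leaf 5 494 590) (node 623 (merge (leaf 6 495 496) (leaf 5 526 654)))))))))))))) (node 464 (merge (node 432 (merge (leaf 6 431 559) (node 400 (merge (leaf 5 367 368) (leaf 5 399 496))))) (merge (node 559 (merge (leaf 6 431 432) (node 462 (merge (leaf 7 430 430) (node 494 (merge (leaf 7 462 591) (node 493 (merge (leaf 1 461 465) (leaf 0 492 492))))))))) (merge (node 496 (merge (node 432 (merge (leaf 5 399 400) (leaf 4 432 561))) (merge (node 465 (merge (node 494 (merge (leaf 1 462 466) (leaf 2 461 493))) (node 433 (merge (leaf 6 432 560) (node 401 (merge (leaf 5 368 369) (leaf 5 400 497))))))) (node 432 (merge (leaf 5 399 400) (node 433 (merge (leaf 6 400 401) (node 434 (merge (leaf 1 431 435) (node 465 (merge (leaf 2 430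 462) (node 494 (merge (leaf 1 462 466) (leaf 2 461 493)))))))))))))) (node 496 (merge (node 559 (merge (leaf 6 463 591) (node 462 (merge (leaf 7 430 430) (node 497 (merge (leaf 0 461 461) (leaf 3 462 498))))))) (merge (node 465 (merge (node 494 (merge (leaf 1 462 466) (leaf 2 461 493))) (node 433 (merge (leaf 6 432 560) (node 401 (merge (leaf 5 368 369) (leaf 5 400 497))))))) (merge (node 559 (merge (leaf 6 463 591) (node 462 (merge (leaf 7 430 430) (node 461 (merge (leaf 0 460 460) (leaf 0 461 497))))))) (node 493 (merge (leaf 0 493 494) (node 559 (merge (leaf 6 463 591) (node 462 (merge (leaf 7 430 430) (node 461 (merge (leaf 0 460 460) (leaf 1 460 492))))))))))))))))))))) (node 463 (merge (node 560 (merge (leaf 4 431 431) (node 592 (merge (leaf 4 463 559) (leaf 7 495 624))))) (merge (node 431 (merge (leaf 4 431 560) (node 399 (merge (leaf 4 399 496) (node 400 (merge (leaf 6 367 368) (leaf 6 399 432))))))) (merge (node 559 (merge (node 592 (merge (leaf 4 463 560) (node 591 (merge (leaf 4 495 624) (node 464 (merge (leaf 6 431 432) (leaf 6 463 496))))))) (merge (node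 560 (merge (leaf 4 463 592) (node 530 (merge (leaf 1 527 531) (node 562 (merge (leaf 0 527 563) (node 498 (merge (leaf 2 495 499) (node 462 (merge (leaf 7 430 430) (node 497 (merge (leaf 3 462 496) (node 465 (merge (leaf 4 433 433) (leaf 7 465 594))))))))))))))) (merge (node 560 (merge (leaf 4 463 592) (node 530 (merge (leaf 1 527 531) (node 562 (merge (leaf 0 527 563) (node 498 (merge (leaf 2 495 499) (node 464 (merge (leaf 6 431 432) (node 462 (merge (leaf 7 430 430) (node 465 (merge (leaf 0 462 497) (node 433 (merge (leaf 2 430 434) (leaf 7 433 466))))))))))))))))) (merge (node 464 (merge (leaf 6 431 432) (node 591 (merge (leaf 6 463 496) (node 624 (merge (leaf 4 495 592) (node 623 (merge (leaf 4 527 656) (node 622 (merge (leaf 5 494 590) (leaf 5 526 654))))))))))) (node 464 (merge (leaf 6 431 432) (node 591 (merge (leaf 6 463 496) (node 622 (merge (leaf 5 494 590) (node 623 (merge (leaf 5 526 654) (node 656 (merge (leaf 4 527 624) (node 655 (merge (leaf 6 527 560) (leaf 4 559 688)))))))))))))))))) (node 496 (merge (node 431 (merge (leaf 4 399 399) (node 432 (merge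 (leaf 6 399 400) (node 430 (merge (leaf 7 398 398) (node 462 (merge (leaf 7 430 559) (node 461 (merge (leaf 1 429 433) (leaf 0 460 460))))))))))) (merge (node 431 (merge (leaf 4 399 399) (node 432 (merge (leaf 6 399 400) (node 464 (merge (leaf 5 431 559) (node 430 (merge (leaf 7 398 398) (node 465 (merge (leaf 0 429 429) (leaf 3 430 466))))))))))) (node 530 (merge (leaf 3 495 531) (node 498 (merge (leaf 2 495 499) (node 497 (merge (leaf 3 462 462) (node 466 (merge (leaf 2 463 467) (node 434 (merge (leaf 5 401 402) (leaf 5 433 561))))))))))))))))))))))))))))))) nH_11 cH_11 13 (by decide +kernel)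
def nH_12 : ℕ := 0x1800000000000000000000000000000000000000000000000000000000000000000000000000000000000000000000000000000000000000000000000000000000000
def cH_12 : ℕ := 0x140000005c0000007c000001fc000000fb800003e7800003ff800001ff000000fe0000007c000000340000000000000000000000000000000000000000000000000000000000000000000000000000000000000000000
theorem lH_12 : S nH_12 cH_12 13 := S_of_chk [] trivial (node 529 (merge (node 526 (merge (node 561 (merge (leaf 0 526 562) (node 525 (merge (leaf 0 525 560) (node 493 (merge (leaf 3 492 492) (leaf 3 493 494))))))) (merge (node 498 (merge (leaf 2 494 497) (node 530 (merge (leaf 2 495 499) (node 494 (merge (leaf 3 493 493) (leaf 3 494 495))))))) (node 561 (merge (leaf 0 526 562) (node 560 (merge (leaf 0 525 525) (node 497 (merge (leaf 2 494 498) (node 592 (merge (leaf 5 464 465) (leaf 6 496 624)))))))))))) (merge (node 530 (merge (node 562 (merge (leaf 0 527 563) (node 526 (merge (leaf 0 526 561) (node 494 (merge (leaf 3 493 493) (leaf 3 494 495))))))) (merge (node 499 (merge (leaf 2 495 498) (node 531 (merge (leaf 2 496 500)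 (node 495 (merge (leaf 3 494 494) (leaf 3 495 496))))))) (node 562 (merge (leaf 0 527 563) (node 561 (merge (leaf 0 526 526) (node 498 (merge (leaf 2 495 499) (node 593 (merge (leaf 5 465 466) (leaf 6 497 625)))))))))))) (merge (node 498 (merge (node 499 (merge (leaf 2 495 530) (node 497 (merge (leaf 1 495 496) (leaf 1 496 500))))) (merge (node 530 (merge (leaf 2 495 499) (node 562 (merge (leaf 0 527 563) (node 561 (merge (leaf 0 526 526) (node 593 (merge (leaf 5 465 466) (leaf 6 497 625))))))))) (node 526 (merge (leaf 2 494 497) (node 561 (merge (leaf 0 526 562) (node 525 (merge (leaf 0 525 560) (node 493 (merge (leaf 3 492 492) (leaf 3 493 494)))))))))))) (merge (node 530 (merge (node 499 (merge (leaf 2 495 498) (node 531 (merge (leaf 2 496 500) (node 495 (merge (leaf 3 494 494) (leaf 3 495 496))))))) (merge (node 562 (merge (leaf 0 527 563) (node 561 (merge (leaf 0 526 526) (node 498 (merge (leaf 2 495 499) (node 593 (merge (leaf 5 465 466) (leaf 6 497 625))))))))) (node 562 (merge (leaf 0 527 563) (node 561 (merge (leaf 0 526 526) (node 495 (merge (leaf 3 494 494)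 (node 531 (merge (leaf 3 495 496) (node 532 (merge (leaf 1 529 533) (leaf 1 528 560)))))))))))))) (merge (node 498 (merge (node 499 (merge (leaf 2 495 530) (node 497 (merge (leaf 1 495 496) (leaf 1 496 500))))) (merge (node 530 (merge (leaf 2 495 499) (node 562 (merge (leaf 0 527 563) (node 561 (merge (leaf 0 526 526) (node 593 (merge (leaf 5 465 466) (leaf 6 497 625))))))))) (node 526 (merge (leaf 2 494 497) (node 561 (merge (leaf 0 526 562) (node 525 (merge (leaf 0 525 560) (node 556 (merge (leaf 1 524 557) (node 524 (merge (leaf 1 523 555) (node 492 (merge (leaf 3 491 491) (leaf 3 492 493)))))))))))))))) (merge (node 526 (merge (node 498 (merge (leaf 2 494 497) (node 530 (merge (leaf 2 495 499) (node 494 (merge (leaf 3 493 493) (leaf 3 494 495))))))) (merge (node 497 (merge (leaf 2 494 498) (node 525 (merge (leaf 2 493 496) (node 556 (merge (leaf 1 524 557) (node 524 (merge (leaf 1 523 555) (node 492 (merge (leaf 3 491 491) (leaf 3 492 493))))))))))) (merge (node 525 (merge (node 493 (merge (leaf 3 492 492) (leaf 3 493 494))) (merge (node 556 (merge (leaf 1 524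 557) (node 524 (merge (leaf 1 523 555) (node 492 (merge (leaf 3 491 491) (leaf 3 492 493))))))) (merge (node 556 (merge (leaf 1 524 557) (node 524 (merge (leaf 1 523 555) (node 495 (merge (leaf 2 492 496) (node 494 (merge (leaf 2 491 523) (leaf 3 494 530))))))))) (node 494 (merge (leaf 3 493 493) (node 495 (merge (leaf 3 494 530) (node 524 (merge (leaf 2 492 496) (leaf 2 491 523))))))))))) (node 560 (merge (node 497 (merge (leaf 2 494 498) (node 496 (merge (leaf 2 493 525) (node 592 (merge (leaf 6 464 465) (leaf 6 496 624))))))) (merge (node 498 (merge (leaf 2 494 497) (node 530 (merge (leaf 2 495 499) (node 495 (merge (leaf 3 494 494) (node 463 (merge (leaf 4 431 431) (node 592 (merge (leaf 4 463 559) (leaf 7 495 624))))))))))) (merge (node 495 (merge (node 463 (merge (leaf 4 431 431) (node 592 (merge (leaf 4 463 559) (leaf 7 495 624))))) (merge (node 530 (merge (leaf 3 494 494) (node 531 (merge (leaf 3 495 496) (leaf 1 527 559))))) (node 592 (merge (leaf 7 495 624) (node 496 (merge (leaf 7 463 463) (node 497 (merge (leaf 6 464 465) (leaf 2 493 525)))))))))) (merge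 (node 530 (merge (node 499 (merge (leaf 2 495 498) (node 531 (merge (leaf 2 496 500) (leaf 1 527 559))))) (merge (node 495 (merge (leaf 3 494 494) (node 463 (merge (leaf 4 431 431) (node 592 (merge (leaf 4 463 559) (leaf 7 495 624))))))) (node 499 (merge (leaf 2 495 498) (node 531 (merge (leaf 2 496 500) (node 495 (merge (leaf 3 494 494) (leaf 3 495 496)))))))))) (node 497 (merge (leaf 2 494 498) (node 525 (merge (leaf 2 493 496) (node 524 (merge (leaf 0 524 559) (node 556 (merge (leaf 1 523 555) (leaf 1 524 557)))))))))))))))))) (merge (node 526 (merge (node 562 (merge (leaf 0 526 561) (node 530 (merge (leaf 0 527 563) (node 494 (merge (leaf 3 493 493) (leaf 3 494 495))))))) (merge (node 561 (merge (leaf 0 526 562) (node 525 (merge (leaf 0 525 560) (node 497 (merge (leaf 2 493 496) (leaf 2 494 498))))))) (merge (node 497 (merge (leaf 2 494 498) (node 525 (merge (leaf 2 493 496) (node 560 (merge (leaf 0 525 561) (node 559 (merge (leaf 0 524 524) (node 530 (merge (leaf 1 527 531) (node 495 (merge (leaf 3 494 494) (node 592 (merge (leaf 4 463 463) (leaf 6 496 624)))))))))))))))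 (node 497 (merge (leaf 2 494 498) (node 496 (merge (leaf 2 493 525) (node 494 (merge (leaf 3 493 493) (node 530 (merge (leaf 0 494 495) (node 531 (merge (leaf 3 496 532) (node 560 (merge (leaf 1 527 559) (node 465 (merge (leaf 5 432 433) (leaf 6 464 592))))))))))))))))))) (merge (node 497 (merge (node 498 (merge (leaf 2 494 526) (node 499 (merge (leaf 1 495 496) (leaf 1 496 500))))) (merge (node 561 (merge (node 526 (merge (leaf 2 494 498) (leaf 0 526 562))) (merge (node 562 (merge (leaf 0 526 526) (node 560 (merge (leaf 3 527 563) (node 465 (merge (leaf 5 432 433) (leaf 4 465 594))))))) (merge (node 592 (merge (node 560 (merge (leaf 5 464 465) (leaf 6 496 624))) (merge (node 624 (merge (leaf 6 496 560) (leaf 5 496 593))) (merge (node 593 (merge (leaf 5 496 624) (node 594 (merge (leaf 4 497 626) (node 562 (merge (leaf 4 465 465) (node 591 (merge (leaf 2 559 563) (leaf 2 558 590))))))))) (node 465 (merge (leaf 5 464 560) (node 594 (merge (leaf 4 465 562) (node 593 (merge (leaf 4 497 626) (node 466 (merge (leaf 6 433 434) (leaf 6 465 498))))))))))))) (node 498 (merge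 (leaf 2 494 526) (node 593 (merge (leaf 6 465 466) (node 594 (merge (leaf 4 497 626) (node 592 (merge (leaf 5 496 624) (node 560 (merge (leaf 5 464 465) (node 595 (merge (leaf 3 559 559) (leaf 3 560 596))))))))))))))))) (merge (node 561 (merge (node 562 (merge (leaf 0 526 526) (node 560 (merge (leaf 3 527 563) (node 465 (merge (leaf 5 432 433) (leaf 4 465 594))))))) (merge (node 592 (merge (node 560 (merge (leaf 5 464 465) (leaf 6 496 624))) (merge (node 593 (merge (leaf 5 496 624) (node 496 (merge (leaf 7 464 464) (leaf 7 496 625))))) (node 465 (merge (leaf 5 464 560) (node 466 (merge (leaf 6 433 434) (node 464 (merge (leaf 7 432 432) (node 496 (merge (leaf 7 464 593) (node 495 (merge (leaf 1 463 467) (leaf 2 462 494)))))))))))))) (merge (node 562 (merge (leaf 0 526 526) (node 465 (merge (leaf 4 465 594) (node 466 (merge (leaf 6 433 434) (node 464 (merge (leaf 7 432 432) (node 496 (merge (leaf 7 464 593) (node 495 (merge (leaf 1 463 467) (leaf 2 462 494))))))))))))) (node 496 (merge (node 593 (merge (leaf 7 464 464) (leaf 7 496 625))) (merge (node 562 (merge (leaf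 0 526 526) (node 560 (merge (leaf 3 527 563) (node 464 (merge (leaf 4 432 432) (node 591 (merge (leaf 5 463 559) (node 592 (merge (leaf 5 495 623) (leaf 6 496 624))))))))))) (node 562 (merge (leaf 0 526 526) (node 560 (merge (leaf 3 527 563) (node 592 (merge (leaf 6 496 624) (node 593 (merge (leaf 4 496 625) (node 591 (merge (leaf 2 558 590) (leaf 5 495 623)))))))))))))))))) (node 465 (merge (node 560 (merge (leaf 5 432 433) (node 592 (merge (leaf 6 464 496) (leaf 6 496 624))))) (merge (node 433 (merge (leaf 5 432 560) (node 434 (merge (leaf 6 401 402) (node 561 (merge (leaf 6 433 466) (node 432 (merge (leaf 7 400 400) (leaf 7 432 464))))))))) (merge (node 561 (merge (node 592 (merge (leaf 5 464 560) (node 464 (merge (leaf 7 432 432) (node 593 (merge (leaf 7 464 496) (leaf 5 496 624))))))) (merge (node 562 (merge (leaf 4 465 594) (node 560 (merge (leaf 3 527 563) (leaf 5 464 592))))) (merge (node 594 (merge (leaf 4 465 562) (node 593 (merge (leaf 4 497 626) (node 592 (merge (leaf 5 464 560) (leaf 5 496 624))))))) (node 594 (merge (leaf 4 465 562) (node 593 (merge (leaf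 4 497 626) (node 464 (merge (leaf 7 432 432) (leaf 7 464 496))))))))))) (node 434 (merge (node 433 (merge (leaf 6 401 402) (node 561 (merge (leaf 6 433 466) (node 432 (merge (leaf 7 400 400) (leaf 7 432 464))))))) (merge (node 561 (merge (leaf 6 433 466) (node 594 (merge (leaf 4 465 562) (node 593 (merge (leaf 4 497 626) (node 464 (merge (leaf 7 432 432) (leaf 7 464 496))))))))) (merge (node 433 (merge (leaf 6 401 402) (node 496 (merge (leaf 5 400 401) (node 432 (merge (leaf 7 400 400) (node 561 (merge (leaf 4 432 464) (node 594 (merge (leaf 4 465 562) (node 593 (merge (leaf 7 496 625) (leaf 4 497 626))))))))))))) (merge (node 433 (merge (leaf 6 401 402) (node 496 (merge (leaf 5 400 401) (node 561 (merge (leaf 6 433 466) (node 593 (merge (leaf 7 464 464) (leaf 7 496 625))))))))) (merge (node 433 (merge (leaf 6 401 402) (node 401 (merge (leaf 5 400 496) (node 400 (merge (leaf 7 368 368) (leaf 7 400 432))))))) (node 433 (merge (leaf 6 401 402) (node 496 (merge (leaf 5 400 401) (node 432 (merge (leaf 7 400 400) (node 464 (merge (leaf 5 431 559) (node 435 (merge (leaf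 1 431 463) (node 467 (merge (leaf 0 432 468) (node 431 (merge (leaf 7 399 399) (leaf 0 431 466))))))))))))))))))))))))))))) (merge (node 495 (merge (node 494 (merge (leaf 3 494 530) (node 493 (merge (leaf 0 492 492) (leaf 3 493 526))))) (merge (node 494 (merge (leaf 3 494 530) (node 493 (merge (leaf 0 492 492) (leaf 0 493 496))))) (merge (node 560 (merge (node 463 (merge (leaf 4 431 431) (node 592 (merge (leaf 4 463 559) (leaf 7 495 624))))) (merge (node 592 (merge (leaf 7 495 624) (node 496 (merge (leaf 7 463 463) (node 465 (merge (leaf 6 464 497) (node 464 (merge (leaf 6 432 433) (node 432 (merge (leaf 5 399 400) (leaf 4 432 561))))))))))) (merge (node 530 (merge (node 531 (merge (leaf 3 495 496) (leaf 1 527 559))) (merge (node 531 (merge (leaf 3 495 496) (node 500 (merge (leaf 2 496 499) (node 532 (merge (leaf 2 497 501) (leaf 1 528 561))))))) (merge (node 562 (merge (leaf 0 527 563) (node 561 (merge (leaf 0 526 526) (node 531 (merge (leaf 1 528 532) (leaf 2 527 559))))))) (node 562 (merge (leaf 0 527 563) (node 561 (merge (leaf 0 526 526) (node 592 (merge (leaf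 7 495 624) (node 497 (merge (leaf 5 464 465) (node 594 (merge (leaf 7 497 626) (node 559 (merge (leaf 0 559 595) (node 591 (merge (leaf 1 558 590) (node 623 (merge (leaf 5 495 496) (leaf 6 527 655))))))))))))))))))))) (node 559 (merge (node 530 (merge (leaf 1 527 531) (node 562 (merge (leaf 0 527 563) (node 561 (merge (leaf 0 526 526) (node 594 (merge (leaf 0 559 595) (node 626 (merge (leaf 7 497 497) (leaf 7 529 658))))))))))) (node 463 (merge (leaf 4 431 431) (node 464 (merge (leaf 6 431 432) (node 591 (merge (leaf 5 463 496) (node 622 (merge (leaf 5 494 590) (node 623 (merge (leaf 5 526 654) (leaf 6 527 655))))))))))))))))) (node 560 (merge (node 463 (merge (leaf 4 431 431) (node 592 (merge (leaf 4 463 559) (leaf 7 495 624))))) (merge (node 592 (merge (leaf 7 495 624) (node 496 (merge (leaf 7 463 463) (node 465 (merge (leaf 6 464 497) (node 464 (merge (leaf 6 432 433) (node 432 (merge (leaf 5 399 400) (leaf 4 432 561))))))))))) (merge (node 592 (merge (leaf 7 495 624) (node 496 (merge (node 494 (merge (leaf 0 493 493) (node 591 (merge (leaf 5 495 623) (node 559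 (merge (leaf 7 462 462) (leaf 5 463 464))))))) (merge (node 593 (merge (leaf 4 496 625) (node 561 (merge (leaf 4 464 464) (node 497 (merge (leaf 5 464 465) (node 594 (merge (leaf 4 497 626) (node 595 (merge (leaf 3 559 559) (leaf 3 560 596))))))))))) (merge (node 494 (merge (leaf 0 493 493) (node 591 (merge (leaf 5 495 623) (node 497 (merge (leaf 6 464 465) (node 462 (merge (leaf 3 461 461) (leaf 7 462 559))))))))) (node 593 (merge (leaf 4 496 625) (node 561 (merge (leaf 4 464 464) (node 526 (merge (leaf 0 525 525) (leaf 0 526 562))))))))))))) (node 559 (merge (node 591 (merge (node 623 (merge (leaf 6 527 655) (node 494 (merge (leaf 7 462 462) (leaf 7 494 526))))) (merge (node 496 (merge (leaf 6 463 464) (node 494 (merge (leaf 7 462 462) (leaf 0 493 493))))) (node 623 (merge (leaf 6 495 496) (node 655 (merge (leaf 6 527 560) (node 654 (merge (leaf 5 526 622) (leaf 5 558 686)))))))))) (merge (node 463 (merge (leaf 4 431 431) (node 462 (merge (leaf 7 430 430) (node 591 (merge (leaf 7 462 494) (node 622 (merge (leaf 5 494 590) (node 623 (merge (leaf 5 526 654) (leaf 6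 527 655))))))))))) (merge (node 463 (merge (leaf 4 431 431) (node 464 (merge (leaf 6 431 432) (node 591 (merge (leaf 5 463 496) (node 622 (merge (leaf 5 494 590) (node 623 (merge (leaf 5 526 654) (leaf 6 527 655))))))))))) (merge (node 463 (merge (leaf 4 431 431) (node 464 (merge (leaf 6 431 432) (node 591 (merge (leaf 5 463 496) (node 622 (merge (leaf 5 494 590) (node 623 (merge (leaf 5 526 654) (leaf 6 527 655))))))))))) (node 493 (merge (node 526 (merge (leaf 3 493 494) (node 561 (merge (leaf 0 525 525) (leaf 0 526 562))))) (node 463 (merge (leaf 4 431 431) (node 464 (merge (leaf 6 431 432) (node 462 (merge (leaf 7 430 430) (node 461 (merge (leaf 1 460 492) (node 496 (merge (leaf 0 460 460) (leaf 0 461 497)))))))))))))))))))))))))) (node 495 (merge (node 494 (merge (leaf 3 494 530) (node 493 (merge (leaf 0 492 492) (leaf 0 493 496))))) (merge (node 559 (merge (node 530 (merge (leaf 3 494 494) (node 499 (merge (leaf 2 495 498) (node 531 (merge (leaf 2 496 500) (leaf 1 527 560))))))) (merge (node 494 (merge (leaf 3 494 530) (node 591 (merge (leaf 7 462 462) (node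 624 (merge (leaf 4 495 592) (node 623 (merge (leaf 4 527 656) (node 622 (merge (leaf 5 494 590) (leaf 5 526 654))))))))))) (merge (node 462 (merge (node 430 (merge (leaf 7 430 463) (node 494 (merge (leaf 4 398 398) (leaf 7 462 591))))) (merge (node 463 (merge (leaf 7 430 430) (node 560 (merge (leaf 4 431 431) (leaf 4 463 592))))) (node 591 (merge (leaf 7 462 494) (node 624 (merge (leaf 4 495 592) (node 623 (merge (leaf 4 527 656) (node 622 (merge (leaf 5 494 590) (leaf 5 526 654)))))))))))) (node 560 (merge (node 592 (merge (leaf 4 463 463) (leaf 7 495 624))) (merge (node 530 (merge (leaf 1 527 531) (node 562 (merge (leaf 0 527 563) (node 498 (merge (leaf 2 495 499) (node 463 (merge (leaf 4 431 431) (node 464 (merge (leaf 6 431 432) (node 462 (merge (leaf 7 430 430) (node 465 (merge (leaf 0 462 497) (node 433 (merge (leaf 2 430 434) (leaf 7 433 466))))))))))))))))) (node 497 (merge (node 592 (merge (leaf 6 496 624) (node 465 (merge (leaf 5 432 433) (leaf 5 464 561))))) (merge (node 530 (merge (leaf 1 527 531) (node 562 (merge (leaf 0 527 563) (node 592 (merge (leaf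 6 496 624) (node 594 (merge (leaf 7 497 626) (node 595 (merge (leaf 0 559 561) (leaf 3 559 593))))))))))) (merge (node 530 (merge (leaf 1 527 531) (node 562 (merge (leaf 0 527 563) (node 498 (merge (leaf 2 495 499) (node 465 (merge (leaf 4 433 433) (leaf 7 465 594))))))))) (node 530 (merge (leaf 1 527 531) (node 562 (merge (leaf 0 527 563) (node 498 (merge (leaf 2 495 499) (node 465 (merge (leaf 4 433 433) (leaf 7 465 594)))))))))))))))))))) (merge (node 463 (merge (node 560 (merge (leaf 4 431 431) (node 592 (merge (leaf 4 463 559) (leaf 7 495 624))))) (merge (node 431 (merge (leaf 4 431 560) (node 399 (merge (leaf 4 399 496) (node 400 (merge (leaf 6 367 368) (leaf 6 399 432))))))) (merge (node 432 (merge (node 400 (merge (leaf 6 399 431) (node 464 (merge (leaf 5 367 368) (leaf 6 431 559))))) (merge (node 431 (merge (leaf 6 399 400) (node 399 (merge (leaf 4 399 496) (node 398 (merge (leaf 7 366 366) (leaf 7 398 430))))))) (node 559 (merge (leaf 6 431 464) (node 462 (merge (leaf 7 430 430) (node 591 (merge (leaf 7 462 494) (node 622 (merge (leaf 5 494 590) (node 623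 (merge (leaf 6 495 496) (leaf 5 526 654)))))))))))))) (node 464 (merge (node 432 (merge (leaf 6 431 559) (node 400 (merge (leaf 5 367 368) (leaf 5 399 496))))) (merge (node 559 (merge (leaf 6 431 432) (node 462 (merge (leaf 7 430 430) (node 494 (merge (leaf 7 462 591) (node 493 (merge (leaf 1 461 465) (leaf 0 492 492))))))))) (merge (node 496 (merge (node 432 (merge (leaf 5 399 400) (leaf 4 432 561))) (merge (node 465 (merge (node 494 (merge (leaf 1 462 466) (leaf 2 461 493))) (node 433 (merge (leaf 6 432 560) (node 401 (merge (leaf 5 368 369) (leaf 5 400 497))))))) (node 432 (merge (leaf 5 399 400) (node 433 (merge (leaf 6 400 401) (node 434 (merge (leaf 1 431 435) (node 465 (merge (leaf 2 430 462) (node 494 (merge (leaf 1 462 466) (leaf 2 461 493)))))))))))))) (node 496 (merge (node 559 (merge (leaf 6 463 591) (node 462 (merge (leaf 7 430 430) (node 497 (merge (leaf 0 461 461) (leaf 3 462 498))))))) (merge (node 465 (merge (node 494 (merge (leaf 1 462 466) (leaf 2 461 493))) (node 433 (merge (leaf 6 432 560) (node 401 (merge (leaf 5 368 369) (leaf 5 400 497)))))))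 (merge (node 559 (merge (leaf 6 463 591) (node 462 (merge (leaf 7 430 430) (node 461 (merge (leaf 0 460 460) (leaf 0 461 497))))))) (node 493 (merge (leaf 0 493 494) (node 559 (merge (leaf 6 463 591) (node 462 (merge (leaf 7 430 430) (node 461 (merge (leaf 0 460 460) (leaf 1 460 492))))))))))))))))))))) (node 463 (merge (node 560 (merge (leaf 4 431 431) (node 592 (merge (leaf 4 463 559) (leaf 7 495 624))))) (merge (node 431 (merge (leaf 4 431 560) (node 399 (merge (leaf 4 399 496) (node 400 (merge (leaf 6 367 368) (leaf 6 399 432))))))) (merge (node 559 (merge (node 592 (merge (leaf 4 463 560) (node 591 (merge (leaf 4 495 624) (node 464 (merge (leaf 6 431 432) (leaf 6 463 496))))))) (merge (node 560 (merge (leaf 4 463 592) (node 530 (merge (leaf 1 527 531) (node 562 (merge (leaf 0 527 563) (node 498 (merge (leaf 2 495 499) (node 462 (merge (leaf 7 430 430) (node 497 (merge (leaf 3 462 496) (node 465 (merge (leaf 4 433 433) (leaf 7 465 594))))))))))))))) (merge (node 560 (merge (leaf 4 463 592) (node 530 (merge (leaf 1 527 531) (node 562 (merge (leaf 0 527 563) (node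 498 (merge (leaf 2 495 499) (node 464 (merge (leaf 6 431 432) (node 462 (merge (leaf 7 430 430) (node 465 (merge (leaf 0 462 497) (node 433 (merge (leaf 2 430 434) (leaf 7 433 466))))))))))))))))) (merge (node 464 (merge (leaf 6 431 432) (node 591 (merge (leaf 6 463 496) (node 624 (merge (leaf 4 495 592) (node 623 (merge (leaf 4 527 656) (node 622 (merge (leaf 5 494 590) (leaf 5 526 654))))))))))) (node 464 (merge (leaf 6 431 432) (node 591 (merge (leaf 6 463 496) (node 622 (merge (leaf 5 494 590) (node 623 (merge (leaf 5 526 654) (node 656 (merge (leaf 4 527 624) (node 655 (merge (leaf 6 527 560) (leaf 4 559 688)))))))))))))))))) (node 496 (merge (node 431 (merge (leaf 4 399 399) (node 432 (merge (leaf 6 399 400) (node 430 (merge (leaf 7 398 398) (node 462 (merge (leaf 7 430 559) (node 461 (merge (leaf 1 429 433) (leaf 0 460 460))))))))))) (merge (node 431 (merge (leaf 4 399 399) (node 432 (merge (leaf 6 399 400) (node 464 (merge (leaf 5 431 559) (node 430 (merge (leaf 7 398 398) (node 465 (merge (leaf 0 429 429) (leaf 3 430 466))))))))))) (node 530 (merge (leaf 3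 495 531) (node 498 (merge (leaf 2 495 499) (node 497 (merge (leaf 3 462 462) (node 466 (merge (leaf 2 463 467) (node 434 (merge (leaf 5 401 402) (leaf 5 433 561)))))))))))))))))))))))))))))))) nH_12 cH_12 13 (by decide +kernel)
def nH_13 : ℕ := 0x1800000000000000000000000000000000000000000000000000000000000000000000000000000000000000000000000000000000000000000000000000000000000
def cH_13 : ℕ := 0x2c0000003c0000007c0000007c000000fee00001e7c00003ffe00000fe0000003c0000003c000000100000000000000000000000000000000000000000000000000000000000000000000000000000000000000000000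
theorem lH_13 : S nH_13 cH_13 12 := S_of_chk [] trivial (node 529 (merge (node 526 (merge (node 561 (merge (leaf 0 526 562) (node 525 (merge (leaf 0 525 560) (node 493 (merge (leaf 3 492 492) (leaf 3 493 494))))))) (merge (node 498 (merge (leaf 2 494 497) (node 530 (merge (leaf 2 495 499) (node 494 (merge (leaf 3 493 493) (leaf 3 494 495))))))) (node 561 (merge (leaf 0 526 562) (node 560 (merge (leaf 0 525 525) (node 497 (merge (leaf 2 494 498) (node 592 (merge (leaf 5 464 465) (leaf 6 496 624)))))))))))) (merge (node 530 (merge (node 562 (merge (leaf 0 527 563) (node 526 (merge (leaf 0 526 561) (node 494 (merge (leaf 3 493 493) (leaf 3 494 495))))))) (merge (node 499 (merge (leaf 2 495 498) (node 531 (merge (leaf 2 496 500) (node 495 (merge (leaf 3 494 494) (leaf 3 495 496))))))) (node 562 (merge (leaf 0 527 563) (node 561 (merge (leaf 0 526 526) (node 498 (merge (leaf 2 495 499) (node 593 (merge (leaf 5 465 466) (leaf 6 497 625)))))))))))) (merge (node 494 (merge (node 493 (merge (leaf 3 493 526) (node 495 (merge (leaf 0 492 492) (leaf 0 493 496))))) (merge (node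 495 (merge (leaf 3 494 530) (node 493 (merge (leaf 0 492 492) (leaf 0 493 496))))) (merge (node 526 (merge (leaf 3 493 493) (node 558 (merge (leaf 1 525 557) (node 559 (merge (leaf 1 526 530) (node 591 (merge (leaf 4 462 462) (leaf 7 494 623))))))))) (node 530 (merge (leaf 3 494 495) (node 562 (merge (leaf 0 527 563) (node 526 (merge (leaf 0 526 561) (node 559 (merge (leaf 1 526 558) (node 531 (merge (leaf 1 527 560) (node 497 (merge (leaf 2 494 498) (node 496 (merge (leaf 2 493 525) (leaf 3 496 532))))))))))))))))))) (merge (node 494 (merge (node 493 (merge (leaf 3 493 526) (node 495 (merge (leaf 0 492 492) (leaf 0 493 496))))) (merge (node 526 (merge (leaf 3 493 493) (node 562 (merge (leaf 0 526 561) (node 530 (merge (leaf 3 494 495) (leaf 0 527 563))))))) (merge (node 526 (merge (leaf 3 493 493) (node 562 (merge (leaf 0 526 561) (node 530 (merge (leaf 0 527 563) (node 559 (merge (leaf 1 526 558) (node 560 (merge (leaf 1 527 531) (node 525 (merge (leaf 0 524 524) (node 496 (merge (leaf 2 493 497) (node 591 (merge (leaf 5 463 464) (leaf 6 495 623)))))))))))))))))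 (node 530 (merge (leaf 3 494 495) (node 562 (merge (leaf 0 527 563) (node 559 (merge (leaf 1 526 558) (node 531 (merge (leaf 1 527 560) (node 500 (merge (leaf 2 496 499) (node 532 (merge (leaf 2 497 501) (node 497 (merge (leaf 3 496 496) (node 465 (merge (leaf 4 433 433) (node 594 (merge (leaf 4 465 561) (leaf 7 497 626))))))))))))))))))))))) (merge (node 530 (merge (node 499 (merge (leaf 2 495 498) (node 531 (merge (leaf 2 496 500) (node 559 (merge (leaf 1 526 558) (leaf 1 527 560))))))) (merge (node 562 (merge (leaf 0 527 563) (node 561 (merge (leaf 0 526 526) (node 498 (merge (leaf 2 495 499) (node 593 (merge (leaf 5 465 466) (leaf 6 497 625))))))))) (node 562 (merge (leaf 0 527 563) (node 561 (merge (leaf 0 526 526) (node 559 (merge (leaf 1 526 558) (node 560 (merge (leaf 1 527 531) (node 591 (merge (leaf 1 558 590) (node 496 (merge (leaf 5 463 464) (leaf 6 495 623)))))))))))))))) (merge (node 495 (merge (node 530 (merge (leaf 3 494 494) (node 499 (merge (leaf 2 495 498) (node 531 (merge (leaf 3 495 496) (leaf 2 496 500))))))) (merge (node 530 (merge (leaf 3 494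 494) (node 499 (merge (leaf 2 495 498) (node 531 (merge (leaf 2 496 500) (node 559 (merge (leaf 1 526 558) (leaf 1 527 560))))))))) (merge (node 463 (merge (node 560 (merge (leaf 4 431 431) (node 592 (merge (leaf 7 463 496) (leaf 7 495 624))))) (merge (node 431 (merge (leaf 4 431 560) (node 432 (merge (leaf 6 399 400) (node 559 (merge (leaf 6 431 464) (node 558 (merge (leaf 1 526 530) (leaf 5 462 590))))))))) (merge (node 530 (merge (node 499 (merge (leaf 2 495 498) (node 531 (merge (leaf 3 495 496) (leaf 2 496 500))))) (merge (node 559 (merge (leaf 1 526 558) (node 560 (merge (leaf 1 527 531) (node 592 (merge (leaf 4 463 463) (leaf 7 495 624))))))) (node 559 (merge (leaf 1 526 558) (node 498 (merge (leaf 2 495 499) (node 464 (merge (leaf 6 431 432) (node 462 (merge (leaf 7 430 430) (node 497 (merge (leaf 0 462 465) (leaf 3 462 496)))))))))))))) (node 559 (merge (node 530 (merge (leaf 1 526 558) (node 499 (merge (leaf 2 495 498) (node 531 (merge (leaf 3 495 496) (leaf 2 496 500))))))) (merge (node 558 (merge (leaf 1 526 530) (node 463 (merge (leaf 5 462 590) (node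 432 (merge (leaf 6 431 464) (node 431 (merge (leaf 6 399 400) (node 430 (merge (leaf 7 398 398) (leaf 7 430 462))))))))))) (node 430 (merge (leaf 7 430 462) (node 431 (merge (leaf 7 398 398) (node 399 (merge (leaf 4 399 496) (node 400 (merge (leaf 6 367 368) (leaf 6 399 432)))))))))))))))) (node 559 (merge (node 592 (merge (node 560 (merge (leaf 4 463 463) (leaf 7 495 624))) (merge (node 591 (merge (leaf 4 495 624) (node 623 (merge (leaf 6 495 496) (node 622 (merge (leaf 5 494 590) (leaf 5 526 654))))))) (node 463 (merge (leaf 4 463 560) (node 590 (merge (leaf 5 462 558) (node 591 (merge (leaf 5 494 622) (node 464 (merge (leaf 6 431 432) (leaf 6 463 496)))))))))))) (merge (node 591 (merge (node 494 (merge (leaf 7 462 462) (node 493 (merge (leaf 0 492 492) (leaf 0 493 496))))) (node 624 (merge (leaf 4 495 592) (node 623 (merge (leaf 4 527 656) (node 655 (merge (leaf 6 527 560) (node 654 (merge (leaf 5 526 622) (leaf 5 558 686))))))))))) (merge (node 462 (merge (node 463 (merge (leaf 7 430 430) (node 560 (merge (leaf 4 431 431) (leaf 4 463 592))))) (merge (node 463 (merge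 (leaf 7 430 430) (node 590 (merge (leaf 5 462 558) (node 591 (merge (leaf 7 462 494) (leaf 5 494 622))))))) (node 591 (merge (leaf 7 462 494) (node 624 (merge (leaf 4 495 592) (node 623 (merge (leaf 4 527 656) (node 654 (merge (leaf 5 526 622) (node 655 (merge (leaf 6 527 560) (leaf 5 558 686)))))))))))))) (merge (node 463 (merge (node 590 (merge (leaf 5 462 558) (node 591 (merge (leaf 5 494 622) (node 462 (merge (leaf 7 430 430) (leaf 7 462 494))))))) (merge (node 464 (merge (leaf 6 431 432) (node 591 (merge (leaf 6 463 496) (node 590 (merge (leaf 5 462 558) (leaf 5 494 622))))))) (node 430 (merge (leaf 7 430 462) (node 431 (merge (leaf 7 398 398) (node 399 (merge (leaf 4 399 496) (node 400 (merge (leaf 6 367 368) (leaf 6 399 432)))))))))))) (node 463 (merge (node 560 (merge (leaf 4 431 431) (leaf 4 463 592))) (merge (node 430 (merge (leaf 7 430 462) (node 431 (merge (leaf 7 398 398) (node 399 (merge (leaf 4 399 496) (node 400 (merge (leaf 6 367 368) (leaf 6 399 432))))))))) (node 560 (merge (leaf 4 463 592) (node 558 (merge (leaf 2 525 557) (leaf 5 462 590)))))))))))))))))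 (node 496 (merge (node 561 (merge (node 526 (merge (leaf 0 526 562) (node 497 (merge (leaf 2 494 498) (leaf 2 493 525))))) (merge (node 464 (merge (leaf 4 432 432) (node 593 (merge (leaf 7 464 497) (leaf 4 464 560))))) (node 526 (merge (leaf 0 526 562) (node 525 (merge (leaf 0 525 560) (node 493 (merge (leaf 3 492 492) (leaf 3 493 494)))))))))) (merge (node 526 (merge (node 497 (merge (leaf 2 494 498) (leaf 2 493 525))) (merge (node 561 (merge (leaf 0 526 562) (node 525 (merge (leaf 0 525 560) (node 493 (merge (leaf 3 492 492) (leaf 3 493 494))))))) (node 561 (merge (leaf 0 526 562) (node 558 (merge (leaf 1 525 557) (node 497 (merge (leaf 2 494 498) (node 593 (merge (leaf 7 496 625) (node 594 (merge (leaf 4 497 626) (node 560 (merge (leaf 0 558 559) (node 592 (merge (leaf 5 464 465) (leaf 5 496 624)))))))))))))))))) (merge (node 497 (merge (node 526 (merge (leaf 2 494 498) (leaf 2 493 525))) (merge (node 495 (merge (node 494 (merge (leaf 0 493 493) (node 465 (merge (leaf 2 462 466) (node 433 (merge (leaf 5 400 401) (leaf 5 432 560))))))) (merge (node 498 (merge (leaf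 1 495 499) (node 463 (merge (leaf 3 462 462) (node 560 (merge (leaf 4 431 431) (leaf 7 463 592))))))) (node 494 (merge (leaf 0 493 493) (node 466 (merge (leaf 2 462 465) (node 498 (merge (leaf 2 463 467) (node 462 (merge (leaf 3 461 461) (leaf 3 462 463)))))))))))) (node 559 (merge (node 591 (merge (leaf 6 495 623) (node 464 (merge (leaf 5 431 432) (leaf 5 463 560))))) (merge (node 591 (merge (leaf 6 495 623) (node 495 (merge (leaf 6 463 464) (node 494 (merge (leaf 7 462 462) (leaf 0 493 493))))))) (merge (node 526 (merge (leaf 2 493 525) (node 494 (merge (leaf 3 493 493) (node 462 (merge (leaf 4 430 430) (node 495 (merge (leaf 3 461 461) (node 465 (merge (leaf 2 462 466) (node 433 (merge (leaf 5 400 401) (leaf 5 432 560))))))))))))) (node 526 (merge (leaf 2 493 525) (node 494 (merge (leaf 3 493 493) (node 462 (merge (leaf 4 430 430) (node 495 (merge (leaf 3 461 461) (leaf 7 462 591)))))))))))))))) (merge (node 561 (merge (node 526 (merge (leaf 0 526 562) (node 497 (merge (leaf 2 494 498) (leaf 2 493 525))))) (merge (node 593 (merge (leaf 7 496 625) (node 497 (merge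 (leaf 7 464 464) (node 498 (merge (leaf 6 465 466) (leaf 1 495 499))))))) (node 526 (merge (leaf 0 526 562) (node 558 (merge (leaf 1 525 557) (node 493 (merge (leaf 3 493 494) (node 525 (merge (leaf 3 492 492) (node 495 (merge (leaf 2 492 524) (node 463 (merge (leaf 5 430 431) (node 590 (merge (leaf 5 462 559) (leaf 6 494 622)))))))))))))))))) (merge (node 526 (merge (node 561 (merge (leaf 0 526 562) (node 525 (merge (leaf 0 525 560) (node 493 (merge (leaf 3 492 492) (leaf 3 493 494))))))) (merge (node 561 (merge (leaf 0 526 562) (node 464 (merge (leaf 4 432 432) (node 593 (merge (leaf 4 464 560) (leaf 7 496 625))))))) (merge (node 561 (merge (leaf 0 526 562) (node 560 (merge (leaf 0 525 525) (node 464 (merge (leaf 4 432 432) (leaf 4 464 593))))))) (node 558 (merge (leaf 1 525 557) (node 493 (merge (leaf 3 493 494) (node 525 (merge (leaf 3 492 492) (node 524 (merge (leaf 2 492 495) (node 523 (merge (leaf 0 523 559) (node 554 (merge (leaf 1 522 555) (node 522 (merge (leaf 1 521 553) (node 490 (merge (leaf 3 489 489) (leaf 3 490 491))))))))))))))))))))) (node 464 (merge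 (node 432 (merge (leaf 5 431 559) (leaf 4 432 561))) (merge (node 561 (merge (leaf 4 432 432) (node 593 (merge (leaf 7 464 497) (leaf 7 496 625))))) (merge (node 432 (merge (leaf 5 431 559) (node 400 (merge (leaf 5 399 495) (leaf 4 400 497))))) (node 560 (merge (node 465 (merge (leaf 6 432 433) (node 592 (merge (leaf 6 464 497) (node 624 (merge (leaf 7 495 495) (node 655 (merge (leaf 5 527 623) (node 656 (merge (leaf 6 528 561) (leaf 5 559 687))))))))))) (merge (node 559 (merge (leaf 5 463 591) (node 558 (merge (leaf 2 525 557) (node 463 (merge (leaf 7 431 431) (node 495 (merge (leaf 5 462 590) (node 462 (merge (leaf 7 430 430) (node 497 (merge (leaf 0 461 461) (leaf 3 462 498))))))))))))) (merge (node 591 (merge (leaf 5 463 559) (node 592 (merge (leaf 5 495 623) (node 624 (merge (leaf 6 496 497) (node 657 (merge (leaf 4 528 625) (node 656 (merge (leaf 6 528 561) (leaf 4 560 689))))))))))) (node 463 (merge (leaf 7 431 431) (node 592 (merge (leaf 7 463 495) (node 625 (merge (leaf 4 496 593) (node 624 (merge (leaf 4 528 657) (node 656 (merge (leaf 7 527 559) (node 655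 (merge (leaf 5 527 623) (leaf 5 559 687)))))))))))))))))))))))))))))))))) nH_13 cH_13 12 (by decide +kernel)
def nH_14 : ℕ := 0x3800000000000000000000000000000000000000000000000000000000000000000000000000000000000000000000000000000000000000000000000000000000000
def cH_14 : ℕ := 0x1000000070000000f0000003f000000ef0000007c000000ffc000003fc000000fc00000070000000500000000000000000000000000000000000000000000000000000000000000000000000000000000000000000000
theorem lH_14 : S nH_14 cH_14 12 := S_of_chk [] trivial (node 497 (merge (node 498 (merge (node 499 (merge (leaf 1 495 496) (leaf 1 496 500))) (merge (node 530 (merge (leaf 2 495 499) (node 562 (merge (leaf 0 527 563) (node 594 (merge (leaf 7 465 465) (leaf 7 497 626))))))) (node 530 (merge (node 562 (merge (leaf 0 527 563) (node 594 (merge (leaf 7 465 465) (leaf 7 497 626))))) (node 495 (merge (leaf 3 494 494) (node 496 (merge (leaf 0 495 531) (node 463 (merge (leaf 3 462 462) (node 560 (merge (leaf 4 431 431) (leaf 7 463 592)))))))))))))) (merge (node 465 (merge (node 560 (merge (leaf 5 432 433) (node 592 (merge (leaf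 5 464 561) (leaf 6 496 624))))) (merge (node 433 (merge (leaf 5 432 560) (node 402 (merge (leaf 6 401 434) (node 401 (merge (leaf 6 369 370) (leaf 5 400 496))))))) (merge (node 561 (merge (node 594 (merge (leaf 4 465 562) (node 593 (merge (leaf 4 497 626) (node 464 (merge (leaf 7 432 432) (leaf 7 464 496))))))) (merge (node 562 (merge (leaf 4 465 594) (node 560 (merge (leaf 3 527 563) (leaf 5 464 592))))) (node 592 (merge (leaf 5 464 560) (node 464 (merge (leaf 7 432 432) (node 593 (merge (leaf 7 464 496) (leaf 5 496 624)))))))))) (node 433 (merge (node 562 (merge (leaf 4 433 530) (node 561 (merge (leaf 4 465 594) (node 432 (merge (leaf 7 400 400) (leaf 7 432 464))))))) (merge (node 402 (merge (leaf 6 401 434) (node 401 (merge (leaf 6 369 370) (node 400 (merge (leaf 7 368 368) (leaf 7 400 432))))))) (node 562 (merge (leaf 4 433 530) (node 561 (merge (leaf 4 465 594) (node 434 (merge (leaf 6 401 402) (leaf 6 433 466)))))))))))))) (merge (node 465 (merge (node 560 (merge (leaf 5 432 433) (node 592 (merge (leaf 5 464 561) (leaf 6 496 624))))) (merge (node 433 (merge (leaf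 5 432 560) (node 402 (merge (leaf 6 401 434) (node 401 (merge (leaf 6 369 370) (node 400 (merge (leaf 7 368 368) (leaf 7 400 432))))))))) (merge (node 433 (merge (node 562 (merge (leaf 4 433 530) (node 561 (merge (leaf 4 465 594) (node 432 (merge (leaf 7 400 400) (leaf 7 432 464))))))) (merge (node 402 (merge (leaf 6 401 434) (node 401 (merge (leaf 6 369 370) (node 400 (merge (leaf 7 368 368) (leaf 7 400 432))))))) (node 562 (merge (leaf 4 433 530) (node 561 (merge (leaf 4 465 594) (node 434 (merge (leaf 6 401 402) (leaf 6 433 466)))))))))) (node 561 (merge (node 562 (merge (leaf 4 465 594) (node 560 (merge (leaf 3 527 563) (leaf 5 464 592))))) (merge (node 466 (merge (leaf 6 433 434) (node 593 (merge (leaf 6 465 498) (node 592 (merge (leaf 5 464 560) (leaf 5 496 624))))))) (node 466 (merge (leaf 6 433 434) (node 498 (merge (leaf 6 465 593) (node 499 (merge (leaf 1 496 500) (node 464 (merge (leaf 7 432 432) (leaf 0 463 463)))))))))))))))) (merge (node 498 (merge (node 499 (merge (leaf 1 496 500) (leaf 2 495 530))) (merge (node 499 (merge (leaf 1 495 496) (leaf 1 496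 500))) (node 561 (merge (node 466 (merge (leaf 6 465 593) (node 434 (merge (leaf 5 401 402) (leaf 5 433 530))))) (merge (node 592 (merge (node 560 (merge (leaf 5 464 465) (leaf 6 496 624))) (merge (node 593 (merge (leaf 5 496 624) (node 625 (merge (leaf 7 496 496) (leaf 6 497 530))))) (node 465 (merge (leaf 5 464 560) (node 464 (merge (leaf 7 432 432) (node 593 (merge (leaf 7 464 496) (node 626 (merge (leaf 4 497 594) (node 625 (merge (leaf 6 497 530) (leaf 4 529 658)))))))))))))) (node 465 (merge (node 560 (merge (leaf 5 432 433) (leaf 5 464 592))) (merge (node 560 (merge (leaf 5 432 433) (leaf 5 464 592))) (merge (node 434 (merge (leaf 6 433 466) (node 433 (merge (leaf 6 401 402) (node 432 (merge (leaf 7 400 400) (leaf 7 432 464))))))) (node 560 (merge (leaf 5 464 592) (node 466 (merge (leaf 6 433 434) (node 464 (merge (leaf 7 432 432) (node 463 (merge (leaf 0 462 462) (node 431 (merge (leaf 3 430 430) (leaf 7 431 496))))))))))))))))))))) (merge (node 498 (merge (node 499 (merge (leaf 1 495 496) (leaf 1 496 500))) (merge (node 530 (merge (leaf 2 495 499) (node 562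 (merge (leaf 0 527 563) (node 594 (merge (leaf 7 465 465) (leaf 7 497 626))))))) (node 530 (merge (node 562 (merge (leaf 0 527 563) (node 594 (merge (leaf 7 465 465) (leaf 7 497 626))))) (node 495 (merge (leaf 3 494 494) (node 531 (merge (leaf 0 495 496) (node 532 (merge (leaf 3 497 533) (node 561 (merge (leaf 1 528 560) (node 593 (merge (leaf 6 465 466) (leaf 6 497 625)))))))))))))))) (merge (node 561 (merge (node 592 (merge (node 560 (merge (leaf 5 464 465) (leaf 6 496 624))) (merge (node 593 (merge (leaf 5 496 624) (node 496 (merge (leaf 7 464 464) (leaf 7 496 625))))) (node 465 (merge (leaf 5 464 560) (node 594 (merge (leaf 4 465 562) (node 593 (merge (leaf 4 497 626) (node 464 (merge (leaf 7 432 432) (leaf 7 464 496)))))))))))) (merge (node 465 (merge (node 560 (merge (leaf 5 432 433) (leaf 5 464 592))) (merge (node 434 (merge (leaf 6 433 466) (node 433 (merge (leaf 6 401 402) (node 432 (merge (leaf 7 400 400) (leaf 7 432 464))))))) (node 562 (merge (leaf 4 465 594) (node 560 (merge (leaf 3 527 563) (leaf 5 464 592)))))))) (merge (node 593 (merge (node 498 (merge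 (leaf 6 465 466) (node 499 (merge (leaf 1 495 496) (leaf 1 496 500))))) (node 626 (merge (leaf 4 497 594) (node 625 (merge (leaf 4 529 658) (node 624 (merge (leaf 5 496 592) (leaf 5 528 656))))))))) (merge (node 593 (merge (node 625 (merge (leaf 7 496 496) (node 657 (merge (leaf 7 528 560) (node 656 (merge (leaf 5 528 624) (leaf 5 560 688))))))) (node 594 (merge (leaf 4 497 626) (node 465 (merge (leaf 4 465 562) (node 434 (merge (leaf 6 433 466) (node 433 (merge (leaf 6 401 402) (node 432 (merge (leaf 7 400 400) (leaf 7 432 464))))))))))))) (node 592 (merge (node 560 (merge (leaf 5 464 465) (leaf 6 496 624))) (merge (node 593 (merge (leaf 5 496 624) (node 496 (merge (leaf 7 464 464) (leaf 7 496 625))))) (node 465 (merge (leaf 5 464 560) (node 466 (merge (leaf 6 433 434) (node 464 (merge (leaf 7 432 432) (node 496 (merge (leaf 7 464 593) (node 495 (merge (leaf 1 463 467) (leaf 2 462 494))))))))))))))))))) (merge (node 561 (merge (node 593 (merge (node 498 (merge (leaf 6 465 466) (node 499 (merge (leaf 1 495 496) (leaf 1 496 500))))) (merge (node 624 (merge (leaf 5 496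 592) (node 625 (merge (leaf 7 496 496) (leaf 5 528 656))))) (node 498 (merge (leaf 6 465 466) (node 625 (merge (leaf 6 497 530) (node 624 (merge (leaf 5 496 592) (leaf 5 528 656)))))))))) (merge (node 498 (merge (node 499 (merge (leaf 1 496 500) (leaf 2 495 530))) (merge (node 466 (merge (leaf 6 465 593) (node 434 (merge (leaf 5 401 402) (leaf 5 433 530))))) (node 499 (merge (leaf 1 496 500) (node 466 (merge (leaf 6 465 593) (node 465 (merge (leaf 6 433 434) (node 464 (merge (leaf 7 432 432) (leaf 0 463 463)))))))))))) (merge (node 592 (merge (node 560 (merge (leaf 5 464 465) (leaf 6 496 624))) (merge (node 593 (merge (leaf 5 496 624) (node 496 (merge (leaf 7 464 464) (leaf 7 496 625))))) (node 465 (merge (leaf 5 464 560) (node 466 (merge (leaf 6 433 434) (node 464 (merge (leaf 7 432 432) (node 496 (merge (leaf 7 464 593) (node 495 (merge (leaf 1 463 467) (leaf 2 462 494)))))))))))))) (merge (node 592 (merge (node 560 (merge (leaf 5 464 465) (leaf 6 496 624))) (merge (node 593 (merge (leaf 5 496 624) (node 496 (merge (leaf 7 464 464) (leaf 7 496 625))))) (node 465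 (merge (leaf 5 464 560) (node 464 (merge (leaf 7 432 432) (node 496 (merge (leaf 7 464 593) (node 433 (merge (leaf 5 400 401) (node 530 (merge (leaf 4 433 562) (node 531 (merge (leaf 3 495 495) (leaf 3 496 532)))))))))))))))) (node 530 (merge (node 499 (merge (leaf 2 495 498) (node 531 (merge (leaf 2 496 500) (node 496 (merge (leaf 3 495 495) (leaf 3 496 532))))))) (merge (node 495 (merge (leaf 3 494 494) (node 531 (merge (leaf 3 495 496) (node 532 (merge (leaf 1 528 560) (node 533 (merge (leaf 3 497 498) (leaf 1 529 562))))))))) (merge (node 562 (merge (leaf 0 527 563) (node 495 (merge (leaf 3 494 494) (node 531 (merge (leaf 3 495 496) (node 532 (merge (leaf 1 529 533) (node 500 (merge (leaf 2 496 499) (leaf 2 497 501))))))))))) (merge (node 562 (merge (leaf 0 527 563) (node 498 (merge (leaf 2 495 499) (node 495 (merge (leaf 3 494 494) (node 465 (merge (leaf 4 433 433) (node 560 (merge (leaf 5 464 592) (node 463 (merge (leaf 4 431 431) (node 464 (merge (leaf 7 432 432) (leaf 0 462 462))))))))))))))) (node 499 (merge (leaf 2 495 498) (node 531 (merge (leaf 2 496 500)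 (node 532 (merge (leaf 3 496 496) (node 561 (merge (leaf 1 528 560) (node 533 (merge (leaf 1 529 562) (node 566 (merge (leaf 0 530 565) (node 534 (merge (leaf 0 531 567) (node 502 (merge (leaf 2 498 501) (leaf 2 499 503))))))))))))))))))))))))))) (merge (node 561 (merge (node 593 (merge (node 498 (merge (leaf 6 465 466) (node 499 (merge (leaf 1 495 496) (leaf 1 496 500))))) (merge (node 624 (merge (leaf 5 496 592) (node 625 (merge (leaf 7 496 496) (leaf 5 528 656))))) (node 498 (merge (leaf 6 465 466) (node 625 (merge (leaf 6 497 530) (node 624 (merge (leaf 5 496 592) (leaf 5 528 656)))))))))) (merge (node 498 (merge (node 499 (merge (leaf 1 496 500) (leaf 2 495 530))) (merge (node 466 (merge (leaf 6 465 593) (node 434 (merge (leaf 5 401 402) (leaf 5 433 530))))) (node 499 (merge (leaf 1 496 500) (node 466 (merge (leaf 6 465 593) (node 465 (merge (leaf 6 433 434) (node 464 (merge (leaf 7 432 432) (leaf 0 463 463)))))))))))) (merge (node 594 (merge (node 593 (merge (leaf 4 497 626) (node 624 (merge (leaf 5 496 592) (node 625 (merge (leaf 7 496 496) (leaf 5 528 656)))))))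 (node 465 (merge (leaf 4 465 562) (node 434 (merge (leaf 6 433 466) (node 433 (merge (leaf 6 401 402) (node 432 (merge (leaf 7 400 400) (leaf 7 432 464))))))))))) (merge (node 465 (merge (node 562 (merge (leaf 4 465 594) (node 530 (merge (leaf 4 433 433) (leaf 0 527 563))))) (merge (node 434 (merge (leaf 6 433 466) (node 433 (merge (leaf 6 401 402) (node 432 (merge (leaf 7 400 400) (leaf 7 432 464))))))) (node 562 (merge (leaf 4 465 594) (node 530 (merge (leaf 0 527 563) (node 498 (merge (leaf 2 495 499) (node 466 (merge (leaf 5 433 434) (node 467 (merge (leaf 6 434 435) (node 468 (merge (leaf 1 465 469) (leaf 1 464 496)))))))))))))))) (node 562 (merge (node 594 (merge (leaf 4 465 465) (node 626 (merge (leaf 4 497 593) (leaf 7 529 658))))) (node 530 (merge (leaf 0 527 563) (node 499 (merge (leaf 2 495 498) (node 531 (merge (leaf 2 496 500) (node 532 (merge (leaf 3 496 496) (node 533 (merge (leaf 1 529 561) (node 566 (merge (leaf 0 530 565) (node 534 (merge (leaf 0 531 567) (node 502 (merge (leaf 2 498 501) (leaf 2 499 503)))))))))))))))))))))))) (node 498 (merge (node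 499 (merge (leaf 1 496 500) (leaf 2 495 530))) (merge (node 499 (merge (leaf 1 495 496) (leaf 1 496 500))) (node 530 (merge (node 495 (merge (leaf 3 494 494) (node 496 (merge (leaf 0 495 531) (node 463 (merge (leaf 3 462 462) (node 560 (merge (leaf 4 431 431) (leaf 7 463 592))))))))) (merge (node 562 (merge (leaf 0 527 563) (node 594 (merge (leaf 7 497 626) (node 595 (merge (leaf 4 498 627) (node 593 (merge (leaf 5 497 625) (node 561 (merge (leaf 5 465 466) (node 596 (merge (leaf 3 560 560) (leaf 3 561 597))))))))))))) (merge (node 562 (merge (leaf 0 527 563) (node 594 (merge (leaf 7 497 626) (node 595 (merge (leaf 4 498 627) (node 593 (merge (leaf 5 497 625) (node 561 (merge (leaf 5 465 466) (node 596 (merge (leaf 3 560 560) (leaf 3 561 597))))))))))))) (node 495 (merge (leaf 3 494 494) (node 496 (merge (leaf 0 495 531) (node 466 (merge (leaf 2 463 467) (node 434 (merge (leaf 5 401 402) (leaf 5 433 561))))))))))))))))))))))))) nH_14 cH_14 12 (by decide +kernel)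
def nH_15 : ℕ := 0x3800000000000000000000000000000000000000000000000000000000000000000000000000000000000000000000000000000000000000000000000000000000000
def cH_15 : ℕ := 0x1000000070000000f8000003f800000eff000007c000000ff0000003fc000000fc00000078000000500000000000000000000000000000000000000000000000000000000000000000000000000000000000000000000
theorem lH_15 : S nH_15 cH_15 12 := S_of_chk [] trivial (node 497 (merge (node 530 (merge (node 562 (merge (leaf 0 527 563) (node 465 (merge (leaf 4 433 433) (node 594 (merge (leaf 4 465 561) (leaf 7 497 626))))))) (node 499 (merge (leaf 2 495 498) (node 531 (merge (leaf 2 496 500) (node 559 (merge (leaf 1 526 558) (leaf 1 527 560))))))))) (merge (node 530 (merge (node 562 (merge (leaf 0 527 563) (node 498 (merge (leaf 2 495 499) (node 594 (merge (leaf 7 465 465) (leaf 7 497 626))))))) (merge (node 559 (merge (leaf 1 526 558) (node 531 (merge (leaf 1 527 560) (node 500 (merge (leaf 2 496 499) (node 532 (merge (leaf 3 496 496) (leaf 2 497 501))))))))) (node 559 (merge (leaf 1 526 558) (node 531 (merge (leaf 1 527 560) (node 532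 (merge (leaf 3 496 496) (node 501 (merge (leaf 2 497 500) (node 533 (merge (leaf 3 497 498) (leaf 2 498 502)))))))))))))) (merge (node 530 (merge (node 562 (merge (leaf 0 527 563) (node 465 (merge (leaf 4 433 433) (node 594 (merge (leaf 4 465 561) (leaf 7 497 626))))))) (node 559 (merge (leaf 1 526 558) (node 531 (merge (leaf 1 527 560) (node 500 (merge (leaf 2 496 499) (node 532 (merge (leaf 3 496 496) (leaf 2 497 501))))))))))) (merge (node 498 (merge (node 499 (merge (leaf 1 496 500) (leaf 2 495 530))) (merge (node 499 (merge (leaf 1 495 496) (leaf 1 496 500))) (node 561 (merge (node 466 (merge (leaf 6 465 593) (node 434 (merge (leaf 5 401 402) (leaf 5 433 530))))) (merge (node 592 (merge (node 560 (merge (leaf 5 464 465) (leaf 6 496 624))) (merge (node 593 (merge (leaf 5 496 624) (node 625 (merge (leaf 7 496 496) (leaf 6 497 530))))) (node 465 (merge (leaf 5 464 560) (node 464 (merge (leaf 7 432 432) (node 593 (merge (leaf 7 464 496) (node 626 (merge (leaf 4 497 594) (node 625 (merge (leaf 6 497 530) (leaf 4 529 658)))))))))))))) (node 465 (merge (node 560 (merge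 (leaf 5 432 433) (leaf 5 464 592))) (merge (node 560 (merge (leaf 5 432 433) (leaf 5 464 592))) (merge (node 434 (merge (leaf 6 433 466) (node 433 (merge (leaf 6 401 402) (node 432 (merge (leaf 7 400 400) (leaf 7 432 464))))))) (node 560 (merge (leaf 5 464 592) (node 466 (merge (leaf 6 433 434) (node 464 (merge (leaf 7 432 432) (node 463 (merge (leaf 0 462 462) (node 431 (merge (leaf 3 430 430) (leaf 7 431 496))))))))))))))))))))) (merge (node 465 (merge (node 560 (merge (leaf 5 432 433) (node 592 (merge (leaf 5 464 561) (leaf 6 496 624))))) (merge (node 433 (merge (leaf 5 432 560) (node 402 (merge (leaf 6 401 434) (node 401 (merge (leaf 6 369 370) (leaf 5 400 496))))))) (merge (node 561 (merge (node 592 (merge (leaf 5 464 560) (node 464 (merge (leaf 7 432 432) (node 593 (merge (leaf 7 464 496) (leaf 5 496 624))))))) (merge (node 562 (merge (leaf 4 465 594) (node 560 (merge (leaf 3 527 563) (leaf 5 464 592))))) (merge (node 466 (merge (leaf 6 433 434) (node 593 (merge (leaf 6 465 498) (node 624 (merge (leaf 5 496 592) (node 625 (merge (leaf 7 496 496) (leaf 5 528 656)))))))))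 (node 466 (merge (leaf 6 433 434) (node 593 (merge (leaf 6 465 498) (node 625 (merge (leaf 7 496 496) (node 657 (merge (leaf 7 528 560) (node 656 (merge (leaf 5 528 624) (leaf 5 560 688))))))))))))))) (node 434 (merge (node 433 (merge (leaf 6 401 402) (node 561 (merge (leaf 6 433 466) (node 432 (merge (leaf 7 400 400) (leaf 7 432 464))))))) (merge (node 561 (merge (leaf 6 433 466) (node 594 (merge (leaf 4 465 562) (node 593 (merge (leaf 4 497 626) (node 464 (merge (leaf 7 432 432) (leaf 7 464 496))))))))) (merge (node 433 (merge (leaf 6 401 402) (node 496 (merge (leaf 5 400 401) (node 432 (merge (leaf 7 400 400) (node 561 (merge (leaf 4 432 464) (node 594 (merge (leaf 4 465 562) (node 593 (merge (leaf 7 496 625) (leaf 4 497 626))))))))))))) (merge (node 433 (merge (leaf 6 401 402) (node 496 (merge (leaf 5 400 401) (node 561 (merge (leaf 6 433 466) (node 593 (merge (leaf 7 464 464) (leaf 7 496 625))))))))) (merge (node 433 (merge (leaf 6 401 402) (node 401 (merge (leaf 5 400 496) (node 400 (merge (leaf 7 368 368) (leaf 7 400 432))))))) (node 433 (merge (leaf 6 401 402)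 (node 496 (merge (leaf 5 400 401) (node 432 (merge (leaf 7 400 400) (node 464 (merge (leaf 5 431 559) (node 435 (merge (leaf 1 431 463) (node 467 (merge (leaf 0 432 468) (node 431 (merge (leaf 7 399 399) (leaf 0 431 466))))))))))))))))))))))))) (merge (node 465 (merge (node 560 (merge (leaf 5 432 433) (node 592 (merge (leaf 5 464 561) (leaf 6 496 624))))) (merge (node 433 (merge (leaf 5 432 560) (node 402 (merge (leaf 6 401 434) (node 401 (merge (leaf 6 369 370) (leaf 5 400 496))))))) (merge (node 433 (merge (node 402 (merge (leaf 6 401 434) (node 401 (merge (leaf 6 369 370) (node 400 (merge (leaf 7 368 368) (leaf 7 400 432))))))) (merge (node 496 (merge (leaf 5 400 401) (node 432 (merge (leaf 7 400 400) (node 464 (merge (leaf 5 431 559) (node 431 (merge (leaf 7 399 399) (node 466 (merge (leaf 0 430 430) (leaf 3 431 467))))))))))) (merge (node 530 (merge (leaf 4 433 562) (node 401 (merge (leaf 5 400 496) (leaf 4 401 498))))) (merge (node 432 (merge (leaf 7 400 400) (node 561 (merge (leaf 7 432 464) (node 466 (merge (leaf 6 433 434) (node 593 (merge (leaf 6 465 498)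 (node 624 (merge (leaf 5 496 592) (node 625 (merge (leaf 7 496 496) (leaf 5 528 656))))))))))))) (node 530 (merge (leaf 4 433 562) (node 498 (merge (leaf 4 401 401) (leaf 2 495 499)))))))))) (node 464 (merge (node 432 (merge (leaf 7 432 561) (node 496 (merge (leaf 4 400 400) (leaf 5 431 559))))) (merge (node 561 (merge (leaf 7 432 432) (node 592 (merge (leaf 5 464 560) (node 593 (merge (leaf 5 496 624) (node 466 (merge (leaf 6 433 434) (leaf 6 465 498))))))))) (merge (node 559 (merge (node 496 (merge (leaf 5 431 432) (node 591 (merge (leaf 5 463 560) (leaf 6 495 623))))) (merge (node 558 (merge (leaf 1 526 530) (node 557 (merge (leaf 2 524 556) (leaf 2 525 560))))) (node 530 (merge (leaf 1 526 558) (node 499 (merge (leaf 2 495 498) (node 531 (merge (leaf 2 496 500) (node 496 (merge (leaf 5 431 432) (leaf 3 496 532)))))))))))) (node 496 (merge (node 498 (merge (leaf 1 495 499) (node 463 (merge (leaf 0 462 462) (node 560 (merge (leaf 7 431 431) (leaf 6 464 592))))))) (merge (node 560 (merge (leaf 6 464 592) (node 559 (merge (leaf 5 463 591) (node 558 (merge (leaf 1 526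 530) (leaf 2 525 557))))))) (node 499 (merge (leaf 1 495 498) (node 561 (merge (leaf 7 464 593) (node 466 (merge (leaf 6 433 434) (node 467 (merge (leaf 1 464 468) (leaf 0 464 500)))))))))))))))))))) (merge (node 561 (merge (node 593 (merge (node 498 (merge (leaf 6 465 466) (node 499 (merge (leaf 1 495 496) (leaf 1 496 500))))) (merge (node 624 (merge (leaf 5 496 592) (node 625 (merge (leaf 7 496 496) (leaf 5 528 656))))) (node 498 (merge (leaf 6 465 466) (node 625 (merge (leaf 6 497 530) (node 624 (merge (leaf 5 496 592) (leaf 5 528 656)))))))))) (merge (node 498 (merge (node 499 (merge (leaf 1 496 500) (leaf 2 495 530))) (merge (node 466 (merge (leaf 6 465 593) (node 434 (merge (leaf 5 401 402) (leaf 5 433 530))))) (node 499 (merge (leaf 1 496 500) (node 466 (merge (leaf 6 465 593) (node 465 (merge (leaf 6 433 434) (node 464 (merge (leaf 7 432 432) (leaf 0 463 463)))))))))))) (merge (node 594 (merge (node 593 (merge (leaf 4 497 626) (node 624 (merge (leaf 5 496 592) (node 625 (merge (leaf 7 496 496) (leaf 5 528 656))))))) (node 465 (merge (leaf 4 465 562) (node 434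 (merge (leaf 6 433 466) (node 433 (merge (leaf 6 401 402) (node 432 (merge (leaf 7 400 400) (leaf 7 432 464))))))))))) (merge (node 465 (merge (node 562 (merge (leaf 4 465 594) (node 530 (merge (leaf 4 433 433) (leaf 0 527 563))))) (merge (node 434 (merge (leaf 6 433 466) (node 433 (merge (leaf 6 401 402) (node 432 (merge (leaf 7 400 400) (leaf 7 432 464))))))) (node 562 (merge (leaf 4 465 594) (node 530 (merge (leaf 0 527 563) (node 498 (merge (leaf 2 495 499) (node 466 (merge (leaf 5 433 434) (node 467 (merge (leaf 6 434 435) (node 468 (merge (leaf 1 465 469) (leaf 1 464 496)))))))))))))))) (node 562 (merge (node 594 (merge (leaf 4 465 465) (node 626 (merge (leaf 4 497 593) (leaf 7 529 658))))) (node 530 (merge (leaf 0 527 563) (node 499 (merge (leaf 2 495 498) (node 531 (merge (leaf 2 496 500) (node 532 (merge (leaf 3 496 496) (node 533 (merge (leaf 1 529 561) (node 566 (merge (leaf 0 530 565) (node 534 (merge (leaf 0 531 567) (node 502 (merge (leaf 2 498 501) (leaf 2 499 503)))))))))))))))))))))))) (node 530 (merge (node 562 (merge (leaf 0 527 563) (node 498 (merge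 (leaf 2 495 499) (node 594 (merge (leaf 7 497 626) (node 595 (merge (leaf 4 498 627) (node 593 (merge (leaf 5 497 625) (node 561 (merge (leaf 5 465 466) (node 596 (merge (leaf 3 560 560) (leaf 3 561 597))))))))))))))) (merge (node 559 (merge (leaf 1 526 558) (node 531 (merge (leaf 1 527 560) (node 500 (merge (leaf 2 496 499) (node 532 (merge (leaf 3 496 496) (leaf 2 497 501))))))))) (merge (node 559 (merge (leaf 1 526 558) (node 531 (merge (leaf 1 527 560) (node 532 (merge (leaf 3 496 496) (node 501 (merge (leaf 2 497 500) (node 533 (merge (leaf 3 497 498) (leaf 2 498 502))))))))))) (node 562 (merge (leaf 0 527 563) (node 499 (merge (leaf 2 495 498) (node 531 (merge (leaf 2 496 500) (node 532 (merge (leaf 3 496 496) (node 533 (merge (leaf 1 529 561) (node 566 (merge (leaf 0 530 565) (node 534 (merge (leaf 0 531 567) (node 502 (merge (leaf 2 498 501) (leaf 2 499 503))))))))))))))))))))))))))))) nH_15 cH_15 12 (by decide +kernel)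
def nH_16 : ℕ := 0x3800000000000000000000000000000000000000000000000000000000000000000000000000000000000000000000000000000000000000000000000000000000000
def cH_16 : ℕ := 0x40000001c0000001e0000001f8000001f800000078000007fc000007f0000007c0000007c0000003c0000001000000000000000000000000000000000000000000000000000000000000000000000000000000000000
theorem lH_16 : S nH_16 cH_16 11 := S_of_chk [] trivial (node 495 (merge (node 526 (merge (node 493 (merge (leaf 3 493 494) (node 525 (merge (leaf 3 492 492) (node 496 (merge (leaf 2 493 497) (leaf 2 492 524))))))) (merge (node 497 (merge (leaf 2 494 498) (node 525 (merge (leaf 2 493 496) (node 557 (merge (leaf 1 524 556) (leaf 1 525 558))))))) (merge (node 557 (merge (leaf 1 525 558) (node 525 (merge (leaf 1 524 556) (node 493 (merge (leaf 3 492 492) (leaf 3 493 494))))))) (node 558 (merge (leaf 1 525 557) (node 494 (merge (leaf 3 493 493) (node 590 (merge (leaf 6 462 463) (leaf 6 494 622))))))))))) (merge (node 463 (merge (node 560 (merge (leaf 4 431 431) (node 592 (merge (leaf 4 463 559) (leaf 7 495 624))))) (merge (node 431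 (merge (leaf 4 431 560) (node 400 (merge (leaf 6 399 432) (node 399 (merge (leaf 6 367 368) (node 398 (merge (leaf 7 366 366) (leaf 7 398 430))))))))) (merge (node 559 (merge (node 558 (merge (leaf 5 462 590) (node 557 (merge (leaf 2 524 556) (leaf 2 525 560))))) (merge (node 592 (merge (leaf 4 463 560) (node 591 (merge (leaf 4 495 624) (node 462 (merge (leaf 7 430 430) (leaf 7 462 494))))))) (node 590 (merge (leaf 5 462 558) (node 591 (merge (leaf 5 494 622) (node 462 (merge (leaf 7 430 430) (leaf 7 462 494)))))))))) (node 559 (merge (node 558 (merge (leaf 5 462 590) (node 526 (merge (leaf 5 430 431) (leaf 1 525 557))))) (merge (node 590 (merge (leaf 5 462 558) (node 591 (merge (leaf 5 494 622) (node 462 (merge (leaf 7 430 430) (leaf 7 462 494))))))) (node 432 (merge (leaf 6 431 464) (node 431 (merge (leaf 6 399 400) (node 430 (merge (leaf 7 398 398) (leaf 7 430 462)))))))))))))) (merge (node 559 (merge (node 592 (merge (node 560 (merge (leaf 4 463 463) (leaf 7 495 624))) (merge (node 591 (merge (leaf 4 495 624) (node 623 (merge (leaf 6 495 496) (node 622 (merge (leaf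 5 494 590) (leaf 5 526 654))))))) (node 463 (merge (leaf 4 463 560) (node 590 (merge (leaf 5 462 558) (node 591 (merge (leaf 5 494 622) (node 464 (merge (leaf 6 431 432) (leaf 6 463 496)))))))))))) (merge (node 591 (merge (node 494 (merge (leaf 7 462 462) (node 493 (merge (leaf 0 492 492) (leaf 0 493 496))))) (node 624 (merge (leaf 4 495 592) (node 623 (merge (leaf 4 527 656) (node 655 (merge (leaf 6 527 560) (node 654 (merge (leaf 5 526 622) (leaf 5 558 686))))))))))) (merge (node 462 (merge (node 463 (merge (leaf 7 430 430) (node 560 (merge (leaf 4 431 431) (leaf 4 463 592))))) (merge (node 463 (merge (leaf 7 430 430) (node 590 (merge (leaf 5 462 558) (node 591 (merge (leaf 7 462 494) (leaf 5 494 622))))))) (node 591 (merge (leaf 7 462 494) (node 624 (merge (leaf 4 495 592) (node 623 (merge (leaf 4 527 656) (node 654 (merge (leaf 5 526 622) (node 655 (merge (leaf 6 527 560) (leaf 5 558 686)))))))))))))) (merge (node 463 (merge (node 590 (merge (leaf 5 462 558) (node 591 (merge (leaf 5 494 622) (node 462 (merge (leaf 7 430 430) (leaf 7 462 494))))))) (merge (node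 464 (merge (leaf 6 431 432) (node 591 (merge (leaf 6 463 496) (node 590 (merge (leaf 5 462 558) (leaf 5 494 622))))))) (node 430 (merge (leaf 7 430 462) (node 431 (merge (leaf 7 398 398) (node 399 (merge (leaf 4 399 496) (node 400 (merge (leaf 6 367 368) (leaf 6 399 432)))))))))))) (node 463 (merge (node 560 (merge (leaf 4 431 431) (leaf 4 463 592))) (merge (node 430 (merge (leaf 7 430 462) (node 431 (merge (leaf 7 398 398) (node 399 (merge (leaf 4 399 496) (node 400 (merge (leaf 6 367 368) (leaf 6 399 432))))))))) (node 560 (merge (leaf 4 463 592) (node 558 (merge (leaf 2 525 557) (leaf 5 462 590))))))))))))) (merge (node 526 (merge (node 558 (merge (leaf 1 525 557) (node 590 (merge (leaf 6 494 622) (node 463 (merge (leaf 5 430 431) (leaf 5 462 559))))))) (merge (node 497 (merge (leaf 2 494 498) (node 525 (merge (leaf 2 493 496) (node 556 (merge (leaf 1 524 557) (node 524 (merge (leaf 1 523 555) (node 492 (merge (leaf 3 491 491) (leaf 3 492 493))))))))))) (node 497 (merge (leaf 2 494 498) (node 525 (merge (leaf 2 493 496) (node 492 (merge (leaf 3 492 493) (node 524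 (merge (leaf 3 491 491) (node 559 (merge (leaf 0 524 560) (node 558 (merge (leaf 0 523 523) (node 590 (merge (leaf 5 462 463) (leaf 6 494 622)))))))))))))))))) (merge (node 526 (merge (node 493 (merge (leaf 3 493 494) (node 525 (merge (leaf 3 492 492) (node 496 (merge (leaf 2 493 497) (leaf 2 492 524))))))) (merge (node 497 (merge (leaf 2 494 498) (node 525 (merge (leaf 2 493 496) (node 557 (merge (leaf 1 524 556) (leaf 1 525 558))))))) (merge (node 557 (merge (leaf 1 525 558) (node 525 (merge (leaf 1 524 556) (node 493 (merge (leaf 3 492 492) (leaf 3 493 494))))))) (node 558 (merge (leaf 1 525 557) (node 494 (merge (leaf 3 493 493) (node 590 (merge (leaf 6 462 463) (node 591 (merge (leaf 4 494 623) (node 559 (merge (leaf 4 462 462) (node 589 (merge (leaf 5 493 621) (node 588 (merge (leaf 2 556 560) (leaf 2 555 587))))))))))))))))))) (merge (node 526 (merge (node 493 (merge (leaf 3 493 494) (node 525 (merge (leaf 3 492 492) (node 496 (merge (leaf 2 493 497) (leaf 2 492 524))))))) (merge (node 497 (merge (leaf 2 494 498) (node 525 (merge (leaf 2 493 496) (node 557 (merge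 (leaf 1 524 556) (leaf 1 525 558))))))) (merge (node 557 (merge (leaf 1 525 558) (node 525 (merge (leaf 1 524 556) (node 493 (merge (leaf 3 492 492) (leaf 3 493 494))))))) (node 558 (merge (leaf 1 525 557) (node 494 (merge (leaf 3 493 493) (node 590 (merge (leaf 6 494 622) (node 591 (merge (leaf 4 494 623) (node 559 (merge (leaf 4 462 462) (node 589 (merge (leaf 5 493 621) (node 588 (merge (leaf 2 556 560) (leaf 2 555 587))))))))))))))))))) (merge (node 463 (merge (node 560 (merge (leaf 4 431 431) (node 592 (merge (leaf 4 463 559) (leaf 7 495 624))))) (merge (node 431 (merge (leaf 4 431 560) (node 399 (merge (leaf 4 399 496) (node 400 (merge (leaf 6 367 368) (leaf 6 399 432))))))) (merge (node 432 (merge (node 400 (merge (leaf 6 399 431) (node 464 (merge (leaf 5 367 368) (leaf 6 431 559))))) (merge (node 431 (merge (leaf 6 399 400) (node 399 (merge (leaf 4 399 496) (node 398 (merge (leaf 7 366 366) (leaf 7 398 430))))))) (node 559 (merge (leaf 6 431 464) (node 462 (merge (leaf 7 430 430) (node 591 (merge (leaf 7 462 494) (node 624 (merge (leaf 4 495 592) (node 623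 (merge (leaf 6 495 496) (leaf 4 527 656)))))))))))))) (node 464 (merge (node 432 (merge (leaf 6 431 559) (node 400 (merge (leaf 5 367 368) (leaf 5 399 496))))) (merge (node 559 (merge (leaf 6 431 432) (node 462 (merge (leaf 7 430 430) (node 494 (merge (leaf 7 462 591) (node 493 (merge (leaf 1 461 465) (leaf 0 492 492))))))))) (merge (node 496 (merge (node 559 (merge (leaf 6 463 591) (node 462 (merge (leaf 7 430 430) (node 497 (merge (leaf 0 461 461) (leaf 3 462 498))))))) (merge (node 465 (merge (node 494 (merge (leaf 1 462 466) (leaf 2 461 493))) (node 433 (merge (leaf 6 432 560) (node 401 (merge (leaf 5 368 369) (leaf 5 400 497))))))) (merge (node 559 (merge (leaf 6 463 591) (node 462 (merge (leaf 7 430 430) (node 461 (merge (leaf 0 460 460) (leaf 0 461 497))))))) (node 493 (merge (leaf 0 493 494) (node 559 (merge (leaf 6 463 591) (node 462 (merge (leaf 7 430 430) (node 461 (merge (leaf 0 460 460) (leaf 1 460 492))))))))))))) (node 526 (merge (node 493 (merge (leaf 3 493 494) (node 525 (merge (leaf 3 492 492) (node 556 (merge (leaf 1 524 557) (node 524 (merge (leaf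 2 492 496) (leaf 1 523 555))))))))) (merge (node 497 (merge (leaf 2 494 498) (node 494 (merge (leaf 3 493 493) (node 465 (merge (leaf 1 462 466) (node 433 (merge (leaf 5 432 560) (node 434 (merge (leaf 6 401 402) (leaf 2 430 462))))))))))) (merge (node 497 (merge (leaf 2 494 498) (node 525 (merge (leaf 2 493 496) (node 556 (merge (leaf 1 524 557) (node 524 (merge (leaf 1 523 555) (node 492 (merge (leaf 3 491 491) (leaf 3 492 493))))))))))) (node 497 (merge (leaf 2 494 498) (node 525 (merge (leaf 2 493 496) (node 556 (merge (leaf 1 524 557) (node 524 (merge (leaf 1 523 555) (node 523 (merge (leaf 2 491 494) (node 491 (merge (leaf 3 490 490) (leaf 3 491 492))))))))))))))))))))))))) (node 494 (merge (node 493 (merge (leaf 0 492 492) (leaf 3 493 526))) (merge (node 493 (merge (leaf 0 492 492) (leaf 0 493 496))) (node 463 (merge (node 431 (merge (leaf 4 431 560) (node 526 (merge (leaf 5 398 399) (leaf 5 430 558))))) (merge (node 431 (merge (leaf 4 431 560) (node 432 (merge (leaf 6 399 400) (node 559 (merge (leaf 6 431 464) (node 590 (merge (leaf 5 462 558) (node 591 (merge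 (leaf 7 462 462) (leaf 5 494 622))))))))))) (merge (node 431 (merge (leaf 4 431 560) (node 398 (merge (leaf 7 398 430) (node 399 (merge (leaf 7 366 366) (node 367 (merge (leaf 5 366 462) (node 368 (merge (leaf 6 335 336) (leaf 6 367 400))))))))))) (merge (node 559 (merge (node 590 (merge (leaf 5 462 558) (node 591 (merge (leaf 7 462 462) (leaf 5 494 622))))) (merge (node 464 (merge (leaf 6 431 432) (node 591 (merge (leaf 6 463 496) (node 590 (merge (leaf 5 462 558) (leaf 5 494 622))))))) (node 432 (merge (leaf 6 431 464) (node 431 (merge (leaf 6 399 400) (node 430 (merge (leaf 7 398 398) (leaf 7 430 462)))))))))) (node 559 (merge (node 464 (merge (leaf 6 431 432) (node 591 (merge (leaf 6 463 496) (node 590 (merge (leaf 5 462 558) (leaf 5 494 622))))))) (merge (node 592 (merge (leaf 4 463 560) (node 591 (merge (leaf 4 495 624) (node 462 (merge (leaf 7 430 430) (leaf 7 462 494))))))) (node 560 (merge (leaf 4 463 592) (node 464 (merge (leaf 6 431 432) (node 465 (merge (leaf 1 462 466) (node 433 (merge (leaf 5 432 497) (node 462 (merge (leaf 7 430 430) (leaf 2 430 434))))))))))))))))))))))))))))))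 nH_16 cH_16 11 (by decide +kernel)
def nH_17 : ℕ := 0x1800000000000000000000000000000000000000000000000000000000000000000000000000000000000000000000000000000000000000000000000000000000000
def cH_17 : ℕ := 0x40000001c0000005e0000005f800000df800003e7800007ffc000007f0000007c0000007c0000003c0000001000000000000000000000000000000000000000000000000000000000000000000000000000000000000
theorem lH_17 : S nH_17 cH_17 12 := S_of_chk [(nH_16, cH_16, 11)] ⟨lH_16, trivial⟩ (node 529 (merge (node 558 (merge (node 557 (merge (leaf 1 525 526) (node 559 (merge (leaf 2 524 556) (leaf 2 525 560))))) (merge (node 559 (merge (leaf 1 526 530) (node 557 (merge (leaf 2 524 556) (leaf 2 525 560))))) (merge (node 530 (merge (leaf 1 526 559) (node 498 (merge (leaf 2 495 499) (node 526 (merge (leaf 2 494 497) (node 494 (merge (leaf 3 493 493) (leaf 3 494 495))))))))) (node 526 (merge (leaf 1 525 557) (node 498 (merge (leaf 2 494 497) (node 530 (merge (leaf 2 495 499) (node 494 (merge (leaf 3 493 493) (leaf 3 494 495))))))))))))) (merge (node 530 (merge (node 558 (merge (leaf 1 526 559) (node 526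 (merge (leaf 1 525 557) (node 494 (merge (leaf 3 493 493) (leaf 3 494 495))))))) (merge (node 499 (merge (leaf 2 495 498) (node 531 (merge (leaf 2 496 500) (node 559 (merge (leaf 1 526 558) (leaf 1 527 560))))))) (node 499 (merge (leaf 2 495 498) (node 531 (merge (leaf 2 496 500) (node 495 (merge (leaf 3 494 494) (leaf 3 495 496)))))))))) (merge (node 526 (merge (node 557 (merge (leaf 1 525 558) (node 525 (merge (leaf 1 524 556) (node 493 (merge (leaf 3 492 492) (leaf 3 493 494))))))) (merge (node 498 (merge (leaf 2 494 497) (node 530 (merge (leaf 2 495 499) (node 494 (merge (leaf 3 493 493) (leaf 3 494 495))))))) (node 497 (merge (leaf 2 494 498) (node 525 (merge (leaf 2 493 496) (node 557 (merge (leaf 1 524 556) (leaf 1 525 558)))))))))) (merge (node 530 (merge (node 559 (merge (leaf 1 526 558) (node 531 (merge (leaf 1 527 560) (node 495 (merge (leaf 3 494 494) (leaf 3 495 496))))))) (node 562 (merge (leaf 0 527 563) (node 498 (merge (leaf 2 495 499) (node 497 (merge (leaf 2 494 526) (node 594 (merge (leaf 7 465 465) (leaf 7 497 626))))))))))) (merge (node 497 (merge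 (node 498 (merge (leaf 2 494 526) (node 499 (merge (leaf 1 495 496) (leaf 1 496 500))))) (merge (node 526 (merge (leaf 2 494 498) (node 557 (merge (leaf 1 525 558) (node 525 (merge (leaf 1 524 556) (node 493 (merge (leaf 3 492 492) (leaf 3 493 494))))))))) (merge (node 526 (merge (node 525 (merge (leaf 2 493 496) (node 493 (merge (leaf 3 492 492) (leaf 3 493 494))))) (merge (node 525 (merge (leaf 2 493 496) (node 557 (merge (leaf 1 524 556) (leaf 1 525 558))))) (node 558 (merge (leaf 1 525 557) (node 559 (merge (leaf 1 526 530) (node 494 (merge (leaf 3 493 493) (node 591 (merge (leaf 4 462 462) (leaf 7 494 623)))))))))))) (node 530 (merge (node 562 (merge (leaf 0 527 563) (node 498 (merge (leaf 2 495 499) (node 594 (merge (leaf 7 465 465) (leaf 7 497 626))))))) (merge (node 559 (merge (leaf 1 526 558) (node 531 (merge (leaf 1 527 560) (node 500 (merge (leaf 2 496 499) (node 532 (merge (leaf 3 496 496) (leaf 2 497 501))))))))) (node 559 (merge (leaf 1 526 558) (node 531 (merge (leaf 1 527 560) (node 532 (merge (leaf 3 496 496) (node 501 (merge (leaf 2 497 500) (node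 533 (merge (leaf 3 497 498) (leaf 2 498 502)))))))))))))))))) (merge (node 526 (merge (node 498 (merge (leaf 2 494 497) (node 530 (merge (leaf 2 495 499) (node 558 (merge (leaf 1 525 557) (leaf 1 526 559))))))) (merge (node 497 (merge (leaf 2 494 498) (node 525 (merge (leaf 2 493 496) (node 556 (merge (leaf 1 524 557) (node 524 (merge (leaf 1 523 555) (node 492 (merge (leaf 3 491 491) (leaf 3 492 493))))))))))) (merge (node 497 (merge (leaf 2 494 498) (node 525 (merge (leaf 2 493 496) (node 492 (merge (leaf 3 492 493) (node 524 (merge (leaf 3 491 491) (node 559 (merge (leaf 0 524 560) (node 558 (merge (leaf 0 523 523) (leaf 1 526 530))))))))))))) (node 525 (merge (node 557 (merge (leaf 1 524 556) (leaf 1 525 558))) (merge (node 556 (merge (leaf 1 524 557) (node 524 (merge (leaf 1 523 555) (node 492 (merge (leaf 3 491 491) (leaf 3 492 493))))))) (merge (node 492 (merge (leaf 3 492 493) (node 524 (merge (leaf 3 491 491) (node 559 (merge (leaf 0 524 560) (node 558 (merge (leaf 0 523 523) (leaf 1 526 530))))))))) (node 558 (merge (leaf 1 525 557) (node 559 (merge (leaf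 1 526 530) (node 524 (merge (leaf 0 523 523) (leaf 0 524 560))))))))))))))) (merge (node 526 (merge (node 498 (merge (leaf 2 494 497) (node 530 (merge (leaf 2 495 499) (node 494 (merge (leaf 3 493 493) (leaf 3 494 495))))))) (merge (node 497 (merge (leaf 2 494 498) (node 525 (merge (leaf 2 493 496) (node 556 (merge (leaf 1 524 557) (node 524 (merge (leaf 1 523 555) (node 492 (merge (leaf 3 491 491) (leaf 3 492 493))))))))))) (merge (node 525 (merge (node 493 (merge (leaf 3 492 492) (leaf 3 493 494))) (merge (node 556 (merge (leaf 1 524 557) (node 524 (merge (leaf 1 523 555) (node 492 (merge (leaf 3 491 491) (leaf 3 492 493))))))) (merge (node 556 (merge (leaf 1 524 557) (node 524 (merge (leaf 1 523 555) (node 495 (merge (leaf 2 492 496) (node 494 (merge (leaf 2 491 523) (leaf 3 494 530))))))))) (node 494 (merge (leaf 3 493 493) (node 495 (merge (leaf 3 494 530) (node 524 (merge (leaf 2 492 496) (leaf 2 491 523))))))))))) (node 560 (merge (node 497 (merge (leaf 2 494 498) (node 496 (merge (leaf 2 493 525) (node 592 (merge (leaf 6 464 465) (leaf 6 496 624))))))) (merge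 (node 498 (merge (leaf 2 494 497) (node 530 (merge (leaf 2 495 499) (node 495 (merge (leaf 3 494 494) (node 463 (merge (leaf 4 431 431) (node 592 (merge (leaf 4 463 559) (leaf 7 495 624))))))))))) (merge (node 495 (merge (node 463 (merge (leaf 4 431 431) (node 592 (merge (leaf 4 463 559) (leaf 7 495 624))))) (merge (node 530 (merge (leaf 3 494 494) (node 531 (merge (leaf 3 495 496) (leaf 1 527 559))))) (node 592 (merge (leaf 7 495 624) (node 496 (merge (leaf 7 463 463) (node 497 (merge (leaf 6 464 465) (leaf 2 493 525)))))))))) (merge (node 530 (merge (node 499 (merge (leaf 2 495 498) (node 531 (merge (leaf 2 496 500) (leaf 1 527 559))))) (merge (node 495 (merge (leaf 3 494 494) (node 463 (merge (leaf 4 431 431) (node 592 (merge (leaf 4 463 559) (leaf 7 495 624))))))) (node 499 (merge (leaf 2 495 498) (node 531 (merge (leaf 2 496 500) (node 495 (merge (leaf 3 494 494) (leaf 3 495 496)))))))))) (node 497 (merge (leaf 2 494 498) (node 525 (merge (leaf 2 493 496) (node 524 (merge (leaf 0 524 559) (node 556 (merge (leaf 1 523 555) (leaf 1 524 557)))))))))))))))))) (merge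 (node 526 (merge (node 557 (merge (leaf 1 525 558) (node 525 (merge (leaf 1 524 556) (node 493 (merge (leaf 3 492 492) (leaf 3 493 494))))))) (merge (node 558 (merge (leaf 1 525 557) (node 530 (merge (leaf 1 526 559) (node 494 (merge (leaf 3 493 493) (leaf 3 494 495))))))) (merge (node 493 (merge (leaf 3 493 494) (node 525 (merge (leaf 3 492 492) (node 556 (merge (leaf 1 524 557) (node 524 (merge (leaf 1 523 555) (node 496 (merge (leaf 2 492 495) (leaf 2 493 497))))))))))) (merge (node 557 (merge (leaf 1 525 558) (node 525 (merge (leaf 1 524 556) (node 496 (merge (leaf 2 493 497) (node 524 (merge (leaf 2 492 495) (node 492 (merge (leaf 3 491 491) (leaf 3 492 493))))))))))) (merge (node 558 (merge (leaf 1 525 557) (node 530 (merge (leaf 1 526 559) (node 495 (merge (leaf 3 494 494) (node 496 (merge (leaf 3 495 531) (node 525 (merge (leaf 2 493 497) (leaf 2 492 524))))))))))) (node 493 (merge (leaf 3 493 494) (node 525 (merge (leaf 3 492 492) (node 496 (merge (leaf 2 493 497) (node 524 (merge (leaf 2 492 495) (node 559 (merge (leaf 0 524 560) (node 558 (merge (leaf 0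 523 523) (leaf 1 526 530))))))))))))))))))) (merge (node 495 (merge (node 530 (merge (leaf 3 494 494) (node 499 (merge (leaf 2 495 498) (node 531 (merge (leaf 3 495 496) (leaf 2 496 500))))))) (merge (node 530 (merge (leaf 3 494 494) (node 499 (merge (leaf 2 495 498) (node 531 (merge (leaf 2 496 500) (node 559 (merge (leaf 1 526 558) (leaf 1 527 560))))))))) (merge (node 463 (merge (node 560 (merge (leaf 4 431 431) (node 592 (merge (leaf 7 463 496) (leaf 7 495 624))))) (merge (node 431 (merge (leaf 4 431 560) (node 432 (merge (leaf 6 399 400) (node 559 (merge (leaf 6 431 464) (node 558 (merge (leaf 1 526 530) (leaf 5 462 590))))))))) (merge (node 530 (merge (node 499 (merge (leaf 2 495 498) (node 531 (merge (leaf 3 495 496) (leaf 2 496 500))))) (merge (node 559 (merge (leaf 1 526 558) (node 560 (merge (leaf 1 527 531) (node 592 (merge (leaf 4 463 463) (leaf 7 495 624))))))) (node 559 (merge (leaf 1 526 558) (node 498 (merge (leaf 2 495 499) (node 464 (merge (leaf 6 431 432) (node 462 (merge (leaf 7 430 430) (node 497 (merge (leaf 0 462 465) (leaf 3 462 496))))))))))))))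 (node 559 (merge (node 530 (merge (leaf 1 526 558) (node 499 (merge (leaf 2 495 498) (node 531 (merge (leaf 3 495 496) (leaf 2 496 500))))))) (merge (node 558 (merge (leaf 1 526 530) (node 463 (merge (leaf 5 462 590) (node 432 (merge (leaf 6 431 464) (node 431 (merge (leaf 6 399 400) (node 430 (merge (leaf 7 398 398) (leaf 7 430 462))))))))))) (node 430 (merge (leaf 7 430 462) (node 431 (merge (leaf 7 398 398) (node 399 (merge (leaf 4 399 496) (node 400 (merge (leaf 6 367 368) (leaf 6 399 432)))))))))))))))) (node 463 (merge (node 560 (merge (leaf 4 431 431) (node 592 (merge (leaf 4 463 559) (leaf 7 495 624))))) (merge (node 431 (merge (leaf 4 431 560) (node 399 (merge (leaf 4 399 496) (node 400 (merge (leaf 6 367 368) (leaf 6 399 432))))))) (merge (node 432 (merge (node 464 (merge (leaf 6 431 559) (node 400 (merge (leaf 5 367 368) (leaf 5 399 496))))) (merge (node 431 (merge (leaf 6 399 400) (node 399 (merge (leaf 4 399 496) (node 398 (merge (leaf 7 366 366) (leaf 7 398 430))))))) (node 559 (merge (leaf 6 431 464) (node 590 (merge (leaf 5 462 558) (node 462 (merge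 (leaf 7 430 430) (node 591 (merge (leaf 7 462 494) (leaf 5 494 622)))))))))))) (node 559 (merge (node 558 (merge (leaf 5 462 590) (node 557 (merge (leaf 2 524 556) (leaf 2 525 560))))) (merge (node 590 (merge (leaf 5 462 558) (node 591 (merge (leaf 5 494 622) (node 462 (merge (leaf 7 430 430) (leaf 7 462 494))))))) (node 462 (merge (leaf 7 430 430) (node 591 (merge (leaf 7 462 494) (node 623 (merge (leaf 6 495 496) (node 654 (merge (leaf 5 526 622) (node 655 (merge (leaf 6 527 560) (leaf 5 558 686)))))))))))))))))))))) (hyp 0))))))))))) nH_17 cH_17 12 (by decide +kernel)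
def nH_18 : ℕ := 0x1800000010000000000000000000000000000000000000000000000000000000000000000000000000000000000000000000000000000000000000000000000000000
def cH_18 : ℕ := 0x3e000000ff000000ff000000c7000000ef000000ef0000003f0000003c000000000000000000000000000000000000000000000000000000000000000000000000000000000000000000000000000
theorem lH_18 : S nH_18 cH_18 12 := S_of_chk [] trivial (node 495 (merge (node 463 (merge (node 560 (merge (leaf 4 431 431) (leaf 7 463 592))) (node 462 (merge (node 461 (merge (leaf 0 460 460) (node 497 (merge (leaf 3 461 494) (leaf 3 462 498))))) (node 559 (merge (leaf 7 430 430) (node 591 (merge (leaf 6 495 623) (node 590 (merge (leaf 5 462 558) (leaf 5 494 622))))))))))) (merge (node 431 (merge (node 463 (merge (leaf 4 399 399) (leaf 4 431 560))) (merge (node 463 (merge (leaf 4 431 560) (node 432 (merge (leaf 6 399 400) (node 430 (merge (leaf 7 398 398) (node 462 (merge (leaf 7 430 559) (node 461 (merge (leaf 1 429 433) (leaf 0 460 460))))))))))) (node 497 (merge (node 526 (merge (leaf 1 494 498) (leaf 2 493 525))) (merge (node 498 (merge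 (leaf 1 495 499) (node 530 (merge (leaf 0 495 531) (node 466 (merge (leaf 2 463 467) (node 465 (merge (leaf 2 462 494) (node 433 (merge (leaf 4 401 401) (leaf 7 433 562))))))))))) (node 494 (merge (node 493 (merge (leaf 0 492 492) (node 525 (merge (leaf 1 492 524) (leaf 2 493 526))))) (merge (node 493 (merge (leaf 0 492 492) (node 461 (merge (leaf 3 460 460) (leaf 3 461 462))))) (node 526 (merge (leaf 1 493 525) (node 462 (merge (leaf 3 461 461) (node 430 (merge (leaf 4 398 398) (leaf 6 398 399)))))))))))))))) (merge (node 497 (merge (node 526 (merge (leaf 1 494 498) (leaf 2 493 525))) (merge (node 498 (merge (leaf 1 495 499) (node 530 (merge (leaf 0 495 531) (node 466 (merge (leaf 2 463 467) (node 465 (merge (leaf 2 462 494) (node 433 (merge (leaf 4 401 401) (leaf 7 433 562))))))))))) (node 559 (merge (node 591 (merge (leaf 6 495 623) (node 592 (merge (leaf 4 495 624) (node 560 (merge (leaf 4 463 463) (leaf 6 464 465))))))) (merge (node 591 (merge (leaf 6 495 623) (node 590 (merge (leaf 5 494 622) (node 463 (merge (leaf 5 462 558) (node 431 (merge (leaf 4 399 399)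 (leaf 4 431 560))))))))) (merge (node 560 (merge (node 592 (merge (leaf 6 464 465) (leaf 7 495 624))) (node 525 (merge (leaf 2 493 526) (node 463 (merge (leaf 4 431 431) (node 558 (merge (leaf 5 462 590) (node 557 (merge (leaf 3 524 524) (leaf 2 524 556))))))))))) (merge (node 591 (merge (leaf 6 495 623) (node 592 (merge (leaf 4 495 624) (node 590 (merge (leaf 5 494 622) (node 558 (merge (leaf 5 462 463) (node 557 (merge (leaf 0 556 556) (leaf 3 557 593))))))))))) (node 591 (merge (leaf 6 495 623) (node 592 (merge (leaf 4 495 624) (node 560 (merge (leaf 6 464 465) (node 593 (merge (leaf 4 496 625) (node 594 (merge (leaf 3 558 558) (leaf 3 559 595))))))))))))))))))) (merge (node 560 (merge (node 592 (merge (leaf 7 495 624) (node 497 (merge (leaf 6 464 465) (node 526 (merge (leaf 1 494 498) (leaf 2 493 525))))))) (merge (node 559 (merge (node 592 (merge (leaf 7 495 624) (node 593 (merge (leaf 4 496 625) (node 558 (merge (leaf 0 557 557) (node 594 (merge (leaf 0 558 561) (leaf 3 559 595))))))))) (merge (node 591 (merge (leaf 6 495 623) (node 592 (merge (leaf 4 495 624)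 (node 590 (merge (leaf 5 494 622) (node 589 (merge (leaf 2 557 561) (leaf 2 556 588))))))))) (node 591 (merge (leaf 6 495 623) (node 590 (merge (leaf 5 494 622) (node 494 (merge (leaf 7 462 462) (node 493 (merge (leaf 0 492 492) (node 525 (merge (leaf 1 492 524) (node 461 (merge (leaf 3 460 460) (node 558 (merge (leaf 7 461 526) (leaf 4 461 557)))))))))))))))))) (merge (node 494 (merge (node 493 (merge (leaf 0 492 492) (node 525 (merge (leaf 1 492 524) (node 526 (merge (leaf 2 493 497) (leaf 0 525 561))))))) (merge (node 497 (merge (node 466 (merge (leaf 2 462 465) (node 498 (merge (leaf 2 463 467) (leaf 1 495 499))))) (node 462 (merge (leaf 3 461 461) (node 430 (merge (leaf 4 398 398) (node 559 (merge (leaf 4 430 526) (leaf 7 462 591))))))))) (merge (node 493 (merge (leaf 0 492 492) (node 461 (merge (leaf 3 460 460) (node 497 (merge (leaf 3 461 462) (node 498 (merge (leaf 1 495 499) (node 466 (merge (leaf 2 462 465) (leaf 2 463 467))))))))))) (node 493 (merge (leaf 0 492 492) (node 525 (merge (leaf 1 492 524) (node 526 (merge (leaf 0 525 561) (node 557 (merge (leaf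 1 524 556) (node 461 (merge (leaf 3 460 460) (node 590 (merge (leaf 4 461 558) (node 589 (merge (leaf 6 461 462) (leaf 4 493 622))))))))))))))))))) (node 592 (merge (leaf 7 495 624) (node 593 (merge (leaf 4 496 625) (node 591 (merge (leaf 5 495 623) (node 497 (merge (leaf 6 464 465) (node 498 (merge (leaf 1 495 499) (node 530 (merge (leaf 0 495 531) (node 466 (merge (leaf 2 463 467) (node 562 (merge (leaf 5 465 561) (node 563 (merge (leaf 2 559 594) (leaf 4 466 595))))))))))))))))))))))) (merge (node 463 (merge (node 560 (merge (leaf 4 431 431) (leaf 7 463 592))) (merge (node 431 (merge (leaf 4 399 399) (node 526 (merge (leaf 5 430 558) (node 525 (merge (leaf 2 493 497) (leaf 2 492 524))))))) (node 559 (merge (node 591 (merge (leaf 6 495 623) (node 590 (merge (leaf 5 462 558) (leaf 5 494 622))))) (merge (node 560 (merge (leaf 4 463 592) (node 558 (merge (leaf 5 462 590) (node 557 (merge (leaf 2 524 556) (node 525 (merge (leaf 3 524 524) (node 497 (merge (leaf 2 493 526) (node 462 (merge (leaf 7 430 430) (leaf 3 462 498))))))))))))) (merge (node 591 (merge (leaf 6 495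 623) (node 592 (merge (leaf 4 495 624) (node 560 (merge (leaf 4 463 463) (node 593 (merge (leaf 4 496 625) (node 594 (merge (leaf 3 558 558) (leaf 3 559 595))))))))))) (node 591 (merge (leaf 6 495 623) (node 592 (merge (leaf 4 495 624) (node 560 (merge (leaf 4 463 463) (node 590 (merge (leaf 5 494 622) (node 561 (merge (leaf 1 558 562) (leaf 2 557 589)))))))))))))))))) (merge (node 526 (merge (node 525 (merge (leaf 2 492 524) (node 560 (merge (leaf 0 525 561) (node 592 (merge (leaf 7 463 463) (leaf 7 495 624))))))) (merge (node 558 (merge (node 590 (merge (leaf 6 494 622) (node 463 (merge (leaf 5 430 431) (leaf 5 462 559))))) (merge (node 525 (merge (leaf 2 492 524) (node 493 (merge (leaf 3 492 492) (node 461 (merge (leaf 4 429 429) (node 590 (merge (leaf 4 461 557) (leaf 6 494 622))))))))) (node 525 (merge (leaf 2 492 524) (node 557 (merge (leaf 1 524 556) (node 493 (merge (leaf 3 492 492) (node 461 (merge (leaf 4 429 429) (node 463 (merge (leaf 5 430 431) (node 460 (merge (leaf 7 428 428) (leaf 0 460 462)))))))))))))))) (merge (node 525 (merge (leaf 2 492 524) (node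 560 (merge (leaf 0 525 561) (node 557 (merge (leaf 1 524 556) (node 493 (merge (leaf 3 492 492) (node 592 (merge (leaf 7 495 624) (node 593 (merge (leaf 4 496 625) (node 558 (merge (leaf 0 557 559) (node 590 (merge (leaf 4 461 461) (leaf 6 494 622))))))))))))))))) (node 559 (merge (node 591 (merge (leaf 6 495 623) (node 592 (merge (leaf 4 495 624) (node 463 (merge (leaf 4 463 560) (node 590 (merge (leaf 5 462 558) (leaf 5 494 622))))))))) (merge (node 591 (merge (leaf 6 495 623) (node 590 (merge (leaf 5 494 622) (node 494 (merge (leaf 7 462 462) (node 493 (merge (leaf 0 492 492) (node 461 (merge (leaf 3 460 460) (leaf 7 461 558))))))))))) (merge (node 463 (merge (node 431 (merge (leaf 4 399 399) (leaf 5 430 558))) (merge (node 431 (merge (leaf 4 399 399) (leaf 4 431 560))) (node 558 (merge (leaf 5 462 590) (node 557 (merge (leaf 2 524 556) (node 462 (merge (leaf 7 430 430) (node 461 (merge (leaf 0 460 460) (node 494 (merge (leaf 7 429 429) (leaf 5 461 589)))))))))))))) (merge (node 591 (merge (leaf 6 495 623) (node 592 (merge (leaf 4 495 624) (node 560 (merge (leaf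 4 463 463) (node 590 (merge (leaf 5 494 622) (node 561 (merge (leaf 1 558 562) (leaf 2 557 589))))))))))) (node 591 (merge (leaf 6 495 623) (node 592 (merge (leaf 4 495 624) (node 560 (merge (leaf 4 463 463) (node 593 (merge (leaf 4 496 625) (node 594 (merge (leaf 3 558 558) (leaf 3 559 595)))))))))))))))))))) (node 497 (merge (node 526 (merge (leaf 1 494 498) (leaf 2 493 525))) (merge (node 498 (merge (leaf 1 495 499) (node 530 (merge (leaf 0 495 531) (node 466 (merge (leaf 2 463 467) (node 465 (merge (leaf 2 462 494) (node 433 (merge (leaf 4 401 401) (leaf 7 433 562))))))))))) (node 494 (merge (node 493 (merge (leaf 0 492 492) (node 525 (merge (leaf 1 492 524) (leaf 2 493 526))))) (merge (node 493 (merge (leaf 0 492 492) (node 461 (merge (leaf 3 460 460) (leaf 3 461 462))))) (node 526 (merge (leaf 1 493 525) (node 462 (merge (leaf 3 461 461) (node 430 (merge (leaf 4 398 398) (node 431 (merge (leaf 6 398 399) (node 558 (merge (leaf 5 430 463) (node 589 (merge (leaf 5 461 557) (node 590 (merge (leaf 5 493 621) (leaf 6 494 622)))))))))))))))))))))))))))) nH_18 cH_18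 12 (by decide +kernel)
def nH_19 : ℕ := 0x1800000010000000000000000000000000000000000000000000000000000000000000000000000000000000000000000000000000000000000000000000000000000
def cH_19 : ℕ := 0x50000001f0000003f8000004f800000c7000000ef000000ff000000ff0000003f000000100000000000000000000000000000000000000000000000000000000000000000000000000000000000000000000
theorem lH_19 : S nH_19 cH_19 12 := S_of_chk [] trivial (node 495 (merge (node 463 (merge (node 431 (merge (leaf 4 399 399) (node 526 (merge (leaf 5 430 558) (node 525 (merge (leaf 2 493 497) (leaf 2 492 524))))))) (merge (node 431 (merge (leaf 4 399 399) (node 432 (merge (leaf 6 399 400) (node 559 (merge (leaf 5 431 464) (node 430 (merge (leaf 7 398 398) (leaf 7 430 462))))))))) (node 559 (merge (node 591 (merge (leaf 6 495 623) (node 590 (merge (leaf 5 462 558) (leaf 5 494 622))))) (node 462 (merge (leaf 7 430 430) (node 461 (merge (leaf 0 460 460) (node 497 (merge (leaf 0 461 464) (leaf 3 462 498)))))))))))) (merge (node 497 (merge (node 526 (merge (leaf 1 494 498) (leaf 2 493 525))) (merge (node 498 (merge (leaf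 1 495 499) (node 530 (merge (leaf 0 495 531) (node 466 (merge (leaf 2 463 467) (node 465 (merge (leaf 2 462 494) (node 433 (merge (leaf 4 401 401) (leaf 7 433 562))))))))))) (node 494 (merge (node 493 (merge (leaf 0 492 492) (node 465 (merge (leaf 2 461 464) (leaf 2 462 466))))) (node 462 (merge (leaf 3 461 461) (node 430 (merge (leaf 4 398 398) (node 559 (merge (leaf 4 430 526) (leaf 7 462 591)))))))))))) (merge (node 463 (merge (node 431 (merge (leaf 4 399 399) (node 432 (merge (leaf 6 399 400) (node 430 (merge (leaf 7 398 398) (node 462 (merge (leaf 7 430 559) (node 461 (merge (leaf 1 429 433) (leaf 0 460 460))))))))))) (merge (node 526 (merge (node 497 (merge (leaf 1 494 498) (leaf 2 493 525))) (node 558 (merge (leaf 5 430 431) (node 590 (merge (leaf 6 462 494) (leaf 6 494 622))))))) (node 462 (merge (node 559 (merge (leaf 7 430 430) (node 591 (merge (leaf 6 495 623) (node 590 (merge (leaf 5 462 558) (leaf 5 494 622))))))) (merge (node 497 (merge (leaf 3 462 498) (node 525 (merge (leaf 2 493 526) (node 494 (merge (leaf 3 461 461) (node 493 (merge (leaf 0 492 492)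 (leaf 1 492 524))))))))) (node 497 (merge (leaf 3 462 498) (node 525 (merge (leaf 2 493 526) (node 494 (merge (leaf 3 461 461) (node 493 (merge (leaf 0 492 492) (leaf 1 492 524))))))))))))))) (merge (node 497 (merge (node 526 (merge (leaf 1 494 498) (leaf 2 493 525))) (merge (node 498 (merge (leaf 1 495 499) (node 530 (merge (leaf 0 495 531) (node 466 (merge (leaf 2 463 467) (node 465 (merge (leaf 2 462 494) (node 433 (merge (leaf 4 401 401) (leaf 7 433 562))))))))))) (node 494 (merge (node 493 (merge (leaf 0 492 492) (node 465 (merge (leaf 2 461 464) (leaf 2 462 466))))) (merge (node 493 (merge (leaf 0 492 492) (node 525 (merge (leaf 1 492 524) (leaf 2 493 526))))) (node 526 (merge (leaf 1 493 525) (node 465 (merge (leaf 2 462 466) (node 462 (merge (leaf 3 461 461) (node 430 (merge (leaf 4 398 398) (node 431 (merge (leaf 6 398 399) (node 463 (merge (leaf 5 430 558) (node 429 (merge (leaf 7 397 397) (leaf 3 429 464))))))))))))))))))))) (merge (node 559 (merge (node 591 (merge (leaf 6 463 464) (leaf 6 495 623))) (merge (node 463 (merge (node 431 (merge (leaf 4 399 399)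 (node 558 (merge (leaf 5 430 526) (leaf 5 462 590))))) (merge (node 431 (merge (leaf 4 399 399) (node 558 (merge (leaf 5 430 526) (leaf 5 462 590))))) (merge (node 431 (merge (leaf 4 399 399) (node 432 (merge (leaf 6 399 400) (leaf 5 431 464))))) (node 464 (merge (leaf 5 431 432) (node 558 (merge (leaf 5 462 590) (node 462 (merge (leaf 7 430 430) (node 461 (merge (leaf 0 460 460) (node 493 (merge (leaf 1 460 492) (node 494 (merge (leaf 1 461 465) (node 429 (merge (leaf 3 428 428) (leaf 7 429 526))))))))))))))))))) (node 591 (merge (leaf 6 495 623) (node 590 (merge (leaf 5 494 622) (node 494 (merge (leaf 7 462 462) (node 493 (merge (leaf 0 492 492) (node 525 (merge (leaf 1 492 524) (node 461 (merge (leaf 3 460 460) (node 558 (merge (leaf 7 461 526) (leaf 4 461 557)))))))))))))))))) (merge (node 559 (merge (node 591 (merge (leaf 6 463 464) (leaf 6 495 623))) (merge (node 591 (merge (leaf 6 495 623) (node 592 (merge (leaf 4 495 624) (node 590 (merge (leaf 5 494 622) (node 558 (merge (leaf 5 462 463) (node 557 (merge (leaf 0 556 556) (leaf 3 557 593))))))))))) (node 463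 (merge (node 431 (merge (leaf 4 399 399) (node 432 (merge (leaf 6 399 400) (leaf 6 431 464))))) (merge (node 462 (merge (leaf 7 430 430) (node 497 (merge (leaf 3 462 498) (node 461 (merge (leaf 0 461 464) (leaf 3 461 494))))))) (node 430 (merge (leaf 7 430 462) (node 431 (merge (leaf 7 398 398) (node 399 (merge (leaf 4 399 496) (node 400 (merge (leaf 6 367 368) (leaf 6 399 432))))))))))))))) (merge (node 463 (merge (node 431 (merge (leaf 4 399 399) (node 430 (merge (leaf 7 398 398) (node 559 (merge (leaf 7 430 462) (node 591 (merge (leaf 6 463 464) (leaf 6 495 623))))))))) (merge (node 526 (merge (node 497 (merge (leaf 1 494 498) (leaf 2 493 525))) (node 558 (merge (leaf 5 430 431) (node 590 (merge (leaf 6 462 494) (leaf 6 494 622))))))) (node 464 (merge (node 559 (merge (leaf 5 431 432) (leaf 6 463 591))) (merge (node 432 (merge (leaf 5 399 400) (node 433 (merge (leaf 6 400 401) (node 434 (merge (leaf 1 431 435) (node 465 (merge (leaf 2 430 462) (node 494 (merge (leaf 1 462 466) (leaf 2 461 493))))))))))) (node 559 (merge (leaf 6 463 591) (node 558 (merge (leaf 5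 462 590) (node 557 (merge (leaf 2 524 556) (node 462 (merge (leaf 7 430 430) (node 497 (merge (leaf 3 462 498) (node 526 (merge (leaf 2 493 525) (node 494 (merge (leaf 5 461 589) (node 465 (merge (leaf 1 462 466) (leaf 1 461 493))))))))))))))))))))))) (node 493 (merge (node 494 (merge (leaf 0 492 492) (node 464 (merge (leaf 2 461 465) (node 432 (merge (leaf 5 399 400) (leaf 5 431 559))))))) (merge (node 494 (merge (leaf 0 492 492) (node 525 (merge (leaf 1 492 524) (node 526 (merge (leaf 1 493 497) (node 461 (merge (leaf 3 460 460) (node 429 (merge (leaf 4 397 397) (leaf 4 429 558))))))))))) (merge (node 497 (merge (node 526 (merge (leaf 1 494 498) (leaf 2 493 525))) (merge (node 525 (merge (leaf 2 493 526) (node 494 (merge (leaf 1 492 524) (node 465 (merge (leaf 2 461 464) (leaf 2 462 466))))))) (node 498 (merge (leaf 1 495 499) (node 530 (merge (leaf 0 495 531) (node 466 (merge (leaf 2 463 467) (node 465 (merge (leaf 2 462 494) (node 433 (merge (leaf 4 401 401) (leaf 7 433 562)))))))))))))) (node 557 (merge (node 559 (merge (node 591 (merge (leaf 6 463 464) (leaf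 6 495 623))) (node 558 (merge (leaf 2 524 556) (node 463 (merge (leaf 5 462 590) (node 431 (merge (leaf 4 399 399) (leaf 5 430 526))))))))) (merge (node 559 (merge (node 591 (merge (leaf 6 463 464) (leaf 6 495 623))) (node 558 (merge (leaf 2 524 556) (node 590 (merge (leaf 5 462 463) (node 525 (merge (leaf 4 461 461) (node 622 (merge (leaf 4 493 589) (leaf 7 525 654))))))))))) (merge (node 525 (merge (node 526 (merge (leaf 3 492 492) (leaf 2 493 497))) (merge (node 526 (merge (leaf 2 493 497) (leaf 2 492 524))) (node 589 (merge (node 622 (merge (leaf 4 493 590) (node 621 (merge (leaf 4 525 654) (node 492 (merge (leaf 7 460 460) (leaf 7 492 524))))))) (merge (node 620 (merge (leaf 5 492 588) (node 621 (merge (leaf 5 524 652) (node 492 (merge (leaf 7 460 460) (leaf 7 492 524))))))) (node 590 (merge (leaf 4 493 622) (node 558 (merge (leaf 4 461 461) (node 559 (merge (leaf 5 462 463) (node 588 (merge (leaf 2 555 587) (leaf 5 492 620))))))))))))))) (merge (node 525 (merge (node 526 (merge (leaf 3 492 492) (leaf 2 493 497))) (merge (node 526 (merge (leaf 2 492 524) (leaf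 1 524 556))) (node 589 (merge (node 622 (merge (leaf 4 493 590) (node 621 (merge (leaf 4 525 654) (node 492 (merge (leaf 7 460 460) (leaf 7 492 524))))))) (merge (node 620 (merge (leaf 5 492 588) (node 621 (merge (leaf 5 524 652) (node 492 (merge (leaf 7 460 460) (leaf 7 492 524))))))) (node 590 (merge (leaf 4 493 622) (node 588 (merge (leaf 5 492 620) (node 556 (merge (leaf 5 460 461) (node 591 (merge (leaf 3 555 555) (leaf 3 556 592))))))))))))))) (node 559 (merge (node 591 (merge (leaf 6 463 464) (leaf 6 495 623))) (node 556 (merge (leaf 2 524 558) (node 525 (merge (leaf 1 524 526) (node 461 (merge (leaf 5 460 588) (node 429 (merge (leaf 5 428 524) (node 428 (merge (leaf 7 396 396) (leaf 7 428 460)))))))))))))))))))))))))))))) nH_19 cH_19 12 (by decide +kernel)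
def nH_20 : ℕ := 0x1800000000000000000000000000000000000000000000000000000000000000000000000000000000000000000000000000000000000000000000000000000000000
def cH_20 : ℕ := 0x28000000380000003d0000003f000000ff800000ff800000c7000003ff800001ff000001ff8000003f000000380000000000000000000000000000000000000000000000000000000000000000000000000000000000000000000
theorem lH_20 : S nH_20 cH_20 13 := S_of_chk [(nH_18, cH_18, 12), (nH_19, cH_19, 12)] ⟨lH_18, lH_19, trivial⟩ (node 496 (merge (node 464 (merge (node 559 (merge (leaf 5 431 432) (node 591 (merge (leaf 6 463 495) (leaf 6 495 623))))) (merge (node 432 (merge (leaf 5 431 559) (node 401 (merge (leaf 6 400 433) (node 400 (merge (leaf 6 368 369) (node 399 (merge (leaf 7 367 367) (leaf 7 399 431))))))))) (merge (node 432 (merge (node 401 (merge (leaf 6 400 433) (node 400 (merge (leaf 6 368 369) (leaf 5 399 495))))) (merge (node 431 (merge (leaf 7 399 399) (node 560 (merge (leaf 7 431 463) (node 593 (merge (leaf 4 464 561) (node 592 (merge (leaf 4 496 625) (node 623 (merge (leaf 5 495 591) (node 624 (merge (leaf 7 495 495) (leaf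 5 527 655))))))))))))) (node 401 (merge (leaf 6 400 433) (node 400 (merge (leaf 6 368 369) (node 399 (merge (leaf 7 367 367) (leaf 7 399 431)))))))))) (node 560 (merge (node 561 (merge (leaf 4 464 593) (node 562 (merge (leaf 3 527 563) (node 559 (merge (leaf 3 526 526) (leaf 5 463 591))))))) (merge (node 593 (merge (leaf 4 464 561) (node 592 (merge (leaf 4 496 625) (node 463 (merge (leaf 7 431 431) (leaf 7 463 495))))))) (node 591 (merge (leaf 5 463 559) (node 463 (merge (leaf 7 431 431) (node 592 (merge (leaf 7 463 495) (leaf 5 495 623)))))))))))))) (merge (node 559 (merge (node 591 (merge (leaf 6 495 623) (node 464 (merge (leaf 5 431 432) (leaf 6 463 495))))) (merge (node 591 (merge (leaf 6 495 623) (node 464 (merge (leaf 5 431 432) (leaf 5 463 560))))) (merge (node 591 (merge (leaf 6 495 623) (node 495 (merge (node 462 (merge (leaf 7 462 494) (node 463 (merge (leaf 7 430 430) (node 560 (merge (leaf 4 431 431) (leaf 4 463 592))))))) (merge (node 590 (merge (leaf 5 494 622) (node 463 (merge (leaf 5 462 558) (node 560 (merge (leaf 4 431 431) (leaf 4 463 592)))))))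 (node 590 (merge (leaf 5 494 622) (node 494 (merge (leaf 7 462 462) (node 493 (merge (leaf 0 492 492) (node 525 (merge (leaf 1 492 524) (node 526 (merge (leaf 1 493 497) (node 461 (merge (leaf 3 460 460) (leaf 7 461 558)))))))))))))))))) (node 464 (merge (leaf 5 431 432) (node 463 (merge (node 431 (merge (leaf 7 431 560) (node 399 (merge (leaf 4 367 367) (leaf 4 399 495))))) (merge (node 560 (merge (leaf 7 431 431) (node 465 (merge (leaf 6 432 433) (node 497 (merge (leaf 6 464 592) (node 498 (merge (leaf 0 462 462) (leaf 1 495 499))))))))) (node 497 (merge (node 526 (merge (leaf 2 493 525) (node 498 (merge (leaf 1 494 495) (leaf 1 495 499))))) (merge (node 462 (merge (leaf 0 461 461) (node 498 (merge (leaf 0 462 465) (leaf 1 495 499))))) (node 462 (merge (leaf 0 461 461) (node 430 (merge (leaf 7 430 495) (node 465 (merge (leaf 3 429 429) (node 433 (merge (leaf 5 400 401) (leaf 2 430 434))))))))))))))))))))) (merge (node 464 (merge (node 432 (merge (leaf 5 431 559) (node 400 (merge (leaf 5 399 495) (node 399 (merge (leaf 7 367 367) (leaf 7 399 431))))))) (merge (node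 433 (merge (node 432 (merge (leaf 6 400 401) (node 400 (merge (leaf 5 399 495) (node 399 (merge (leaf 7 367 367) (leaf 7 399 431))))))) (merge (node 465 (merge (leaf 6 432 560) (node 401 (merge (leaf 5 368 369) (leaf 5 400 497))))) (node 560 (merge (leaf 6 432 465) (node 593 (merge (leaf 4 464 561) (node 592 (merge (leaf 4 496 625) (node 623 (merge (leaf 5 495 591) (node 624 (merge (leaf 7 495 495) (leaf 5 527 655)))))))))))))) (node 560 (merge (node 561 (merge (leaf 4 464 593) (node 562 (merge (leaf 3 527 563) (node 559 (merge (leaf 3 526 526) (leaf 5 463 591))))))) (merge (node 593 (merge (leaf 4 464 561) (node 465 (merge (leaf 6 432 433) (node 592 (merge (leaf 6 464 497) (leaf 4 496 625))))))) (node 465 (merge (leaf 6 432 433) (node 592 (merge (leaf 6 464 497) (node 591 (merge (leaf 5 463 559) (leaf 5 495 623))))))))))))) (merge (node 559 (merge (node 591 (merge (leaf 6 495 623) (node 464 (merge (leaf 5 431 432) (leaf 6 463 495))))) (merge (node 464 (merge (leaf 5 431 432) (node 591 (merge (leaf 6 463 495) (leaf 5 463 560))))) (merge (node 591 (merge (leaf 6 495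 623) (node 464 (merge (leaf 5 431 432) (leaf 5 463 560))))) (merge (node 591 (merge (leaf 6 495 623) (node 495 (merge (node 462 (merge (leaf 7 462 494) (node 463 (merge (leaf 7 430 430) (node 560 (merge (leaf 4 431 431) (leaf 4 463 592))))))) (merge (node 590 (merge (leaf 5 494 622) (node 463 (merge (leaf 5 462 558) (node 560 (merge (leaf 4 431 431) (leaf 4 463 592))))))) (node 590 (merge (leaf 5 494 622) (node 494 (merge (leaf 7 462 462) (node 493 (merge (leaf 0 492 492) (node 525 (merge (leaf 1 492 524) (node 526 (merge (leaf 1 493 497) (node 461 (merge (leaf 3 460 460) (leaf 7 461 558)))))))))))))))))) (node 560 (merge (node 464 (merge (leaf 5 431 432) (node 561 (merge (leaf 4 464 593) (node 562 (merge (leaf 3 526 526) (leaf 3 527 563))))))) (merge (node 464 (merge (leaf 5 431 432) (node 463 (merge (leaf 7 431 431) (node 495 (merge (leaf 4 463 592) (node 462 (merge (leaf 7 430 430) (node 497 (merge (leaf 0 461 461) (leaf 3 462 498))))))))))) (node 592 (merge (node 495 (merge (leaf 7 495 624) (node 463 (merge (leaf 4 431 431) (leaf 4 463 559))))) (merge (node 497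 (merge (leaf 6 464 465) (node 498 (merge (leaf 1 495 499) (node 495 (merge (leaf 7 463 463) (leaf 1 494 526))))))) (node 625 (merge (leaf 4 496 593) (node 624 (merge (leaf 4 528 657) (node 656 (merge (leaf 7 527 559) (node 655 (merge (leaf 5 527 623) (leaf 5 559 687)))))))))))))))))))) (merge (node 526 (merge (node 525 (merge (leaf 2 493 497) (node 556 (merge (leaf 1 524 557) (node 524 (merge (leaf 1 523 555) (node 492 (merge (leaf 3 491 491) (leaf 3 492 493))))))))) (merge (node 464 (merge (node 432 (merge (leaf 5 431 559) (node 400 (merge (leaf 5 399 495) (node 399 (merge (leaf 7 367 367) (leaf 7 399 431))))))) (merge (node 432 (merge (leaf 5 431 559) (node 401 (merge (leaf 6 400 433) (node 400 (merge (leaf 6 368 369) (leaf 5 399 495))))))) (merge (node 432 (merge (node 400 (merge (leaf 5 399 495) (node 399 (merge (leaf 7 367 367) (leaf 7 399 431))))) (merge (node 401 (merge (leaf 6 400 433) (node 400 (merge (leaf 6 368 369) (leaf 5 399 495))))) (node 433 (merge (leaf 6 400 401) (node 560 (merge (leaf 6 432 465) (node 431 (merge (leaf 7 399 399) (leaf 7 431 463))))))))))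 (merge (node 432 (merge (leaf 5 431 559) (node 433 (merge (leaf 6 400 401) (node 560 (merge (leaf 6 432 465) (node 431 (merge (leaf 7 399 399) (leaf 7 431 463))))))))) (node 560 (merge (node 561 (merge (leaf 4 464 593) (node 562 (merge (leaf 3 526 559) (leaf 3 527 563))))) (merge (node 465 (merge (leaf 6 432 433) (node 592 (merge (leaf 6 464 497) (node 625 (merge (leaf 4 496 593) (node 624 (merge (leaf 7 495 495) (leaf 4 528 657))))))))) (merge (node 463 (merge (leaf 7 431 431) (node 592 (merge (leaf 7 463 495) (node 625 (merge (leaf 4 496 593) (node 624 (merge (leaf 4 528 657) (node 656 (merge (leaf 7 527 559) (node 655 (merge (leaf 5 527 623) (leaf 5 559 687))))))))))))) (node 465 (merge (leaf 6 432 433) (node 592 (merge (leaf 6 464 497) (node 624 (merge (leaf 7 495 495) (node 656 (merge (leaf 7 527 559) (node 655 (merge (leaf 5 527 623) (leaf 5 559 687)))))))))))))))))))) (node 560 (merge (node 561 (merge (leaf 0 525 525) (node 562 (merge (leaf 3 526 559) (leaf 3 527 563))))) (merge (node 525 (merge (leaf 0 525 561) (node 524 (merge (leaf 2 492 495) (node 556 (merge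 (leaf 1 523 555) (leaf 1 524 557))))))) (merge (node 463 (merge (node 495 (merge (leaf 4 431 431) (leaf 7 463 592))) (merge (node 464 (merge (leaf 7 431 431) (node 561 (merge (leaf 4 464 593) (node 559 (merge (leaf 5 431 432) (leaf 3 526 562))))))) (node 592 (merge (leaf 7 463 495) (node 593 (merge (leaf 4 496 625) (node 464 (merge (leaf 4 464 561) (node 432 (merge (leaf 5 431 559) (node 433 (merge (leaf 6 400 401) (leaf 6 432 465)))))))))))))) (node 463 (merge (node 495 (merge (leaf 4 431 431) (leaf 7 463 592))) (merge (node 592 (merge (leaf 7 463 495) (node 625 (merge (leaf 4 496 593) (node 624 (merge (leaf 4 528 657) (node 656 (merge (leaf 7 527 559) (node 655 (merge (leaf 5 527 623) (leaf 5 559 687))))))))))) (node 464 (merge (leaf 7 431 431) (node 559 (merge (leaf 5 431 432) (node 525 (merge (leaf 0 524 524) (node 557 (merge (leaf 1 524 556) (node 493 (merge (leaf 3 492 492) (node 465 (merge (leaf 6 432 433) (node 462 (merge (leaf 1 461 494) (node 430 (merge (leaf 3 429 429) (leaf 6 429 461))))))))))))))))))))))))))) (merge (node 559 (merge (node 591 (merge (leaf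 6 495 623) (node 464 (merge (leaf 5 431 432) (leaf 6 463 495))))) (merge (node 591 (merge (leaf 6 495 623) (node 464 (merge (leaf 5 431 432) (leaf 5 463 560))))) (merge (node 560 (merge (node 464 (merge (leaf 5 431 432) (node 561 (merge (leaf 4 464 593) (node 562 (merge (leaf 3 526 526) (leaf 3 527 563))))))) (merge (node 464 (merge (leaf 5 431 432) (node 465 (merge (leaf 6 432 433) (node 592 (merge (leaf 6 464 497) (node 624 (merge (leaf 7 495 495) (leaf 7 527 656))))))))) (node 497 (merge (node 526 (merge (leaf 2 493 525) (node 498 (merge (leaf 1 494 495) (leaf 1 495 499))))) (node 592 (merge (leaf 6 464 465) (node 624 (merge (leaf 7 527 656) (node 625 (merge (leaf 4 496 593) (leaf 4 528 657)))))))))))) (node 591 (merge (leaf 6 495 623) (node 495 (merge (node 592 (merge (leaf 4 495 624) (node 560 (merge (leaf 4 463 463) (node 497 (merge (leaf 6 464 465) (node 526 (merge (leaf 1 494 498) (leaf 2 493 525))))))))) (merge (node 590 (merge (leaf 5 494 622) (node 494 (merge (leaf 7 462 462) (node 493 (merge (leaf 0 492 492) (node 525 (merge (leaf 1 492 524) (node 526 (merge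 (leaf 1 493 497) (node 461 (merge (leaf 3 460 460) (leaf 7 461 558))))))))))))) (merge (node 592 (merge (leaf 4 495 624) (node 590 (merge (leaf 5 494 622) (node 558 (merge (leaf 5 462 463) (node 557 (merge (leaf 0 556 556) (leaf 3 557 593))))))))) (node 592 (merge (leaf 4 495 624) (node 560 (merge (leaf 4 463 463) (node 593 (merge (leaf 4 496 625) (node 594 (merge (leaf 3 558 558) (leaf 3 559 595))))))))))))))))))) (merge (node 526 (merge (node 525 (merge (leaf 2 493 497) (node 556 (merge (leaf 1 524 557) (node 524 (merge (leaf 1 523 555) (node 492 (merge (leaf 3 491 491) (leaf 3 492 493))))))))) (merge (node 464 (merge (node 432 (merge (leaf 5 431 559) (node 400 (merge (leaf 5 399 495) (node 399 (merge (leaf 7 367 367) (leaf 7 399 431))))))) (merge (node 432 (merge (leaf 5 431 559) (node 401 (merge (leaf 6 400 433) (node 400 (merge (leaf 6 368 369) (leaf 5 399 495))))))) (merge (node 432 (merge (node 400 (merge (leaf 5 399 495) (node 399 (merge (leaf 7 367 367) (leaf 7 399 431))))) (merge (node 401 (merge (leaf 6 400 433) (node 400 (merge (leaf 6 368 369) (leaf 5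 399 495))))) (node 433 (merge (leaf 6 400 401) (node 560 (merge (leaf 6 432 465) (node 431 (merge (leaf 7 399 399) (leaf 7 431 463)))))))))) (node 560 (merge (node 561 (merge (leaf 4 464 593) (node 562 (merge (leaf 3 527 563) (node 559 (merge (leaf 3 526 526) (leaf 5 463 591))))))) (node 465 (merge (leaf 6 432 433) (node 497 (merge (leaf 6 464 592) (node 498 (merge (leaf 1 495 499) (node 463 (merge (leaf 7 431 431) (leaf 0 462 462))))))))))))))) (node 560 (merge (node 561 (merge (leaf 0 525 525) (node 562 (merge (leaf 3 526 559) (leaf 3 527 563))))) (merge (node 525 (merge (leaf 0 525 561) (node 524 (merge (leaf 2 492 495) (node 556 (merge (leaf 1 523 555) (leaf 1 524 557))))))) (merge (node 463 (merge (node 495 (merge (leaf 4 431 431) (leaf 7 463 592))) (merge (node 464 (merge (leaf 7 431 431) (node 561 (merge (leaf 4 464 593) (node 559 (merge (leaf 5 431 432) (leaf 3 526 562))))))) (node 592 (merge (leaf 7 463 495) (node 593 (merge (leaf 4 496 625) (node 464 (merge (leaf 4 464 561) (node 432 (merge (leaf 5 431 559) (node 433 (merge (leaf 6 400 401) (leaf 6 432 465))))))))))))))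 (node 592 (merge (node 625 (merge (leaf 4 496 593) (node 624 (merge (leaf 7 495 495) (leaf 4 528 657))))) (merge (node 624 (merge (leaf 7 495 495) (node 656 (merge (leaf 7 527 559) (node 689 (merge (leaf 4 560 657) (node 688 (merge (leaf 4 592 721) (node 687 (merge (leaf 5 559 655) (leaf 5 591 719))))))))))) (merge (node 625 (merge (leaf 4 496 593) (node 624 (merge (leaf 4 528 657) (node 559 (merge (leaf 7 527 656) (node 464 (merge (leaf 5 431 432) (leaf 5 463 591))))))))) (node 593 (merge (leaf 4 496 625) (node 495 (merge (leaf 7 463 463) (node 525 (merge (leaf 2 492 524) (node 557 (merge (leaf 1 524 556) (node 558 (merge (leaf 0 557 559) (node 493 (merge (leaf 3 492 492) (node 590 (merge (leaf 4 461 461) (leaf 3 557 591)))))))))))))))))))))))))) (merge (node 464 (merge (node 559 (merge (leaf 5 431 432) (node 591 (merge (leaf 6 463 495) (leaf 6 495 623))))) (merge (node 432 (merge (leaf 5 431 559) (node 401 (merge (leaf 6 400 433) (node 400 (merge (leaf 6 368 369) (node 399 (merge (leaf 7 367 367) (leaf 7 399 431))))))))) (merge (node 431 (merge (node 399 (merge (leaf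 7 399 432) (node 463 (merge (leaf 4 367 367) (leaf 4 399 495))))) (merge (node 432 (merge (leaf 7 399 399) (node 433 (merge (leaf 6 400 401) (node 465 (merge (leaf 6 432 560) (node 466 (merge (leaf 0 430 430) (leaf 3 431 467))))))))) (node 560 (merge (leaf 7 431 463) (node 593 (merge (leaf 4 464 561) (node 592 (merge (leaf 4 496 625) (node 623 (merge (leaf 5 495 591) (node 624 (merge (leaf 7 495 495) (leaf 5 527 655)))))))))))))) (node 560 (merge (node 593 (merge (leaf 4 464 561) (node 592 (merge (leaf 4 496 625) (node 591 (merge (leaf 5 463 559) (leaf 5 495 623))))))) (merge (node 593 (merge (leaf 4 464 561) (node 465 (merge (leaf 6 432 433) (node 592 (merge (leaf 6 464 497) (leaf 4 496 625))))))) (merge (node 465 (merge (leaf 6 432 433) (node 592 (merge (leaf 6 464 497) (node 591 (merge (leaf 5 463 559) (leaf 5 495 623))))))) (node 561 (merge (leaf 4 464 593) (node 562 (merge (leaf 3 527 563) (node 559 (merge (leaf 5 463 591) (node 594 (merge (leaf 0 559 595) (node 530 (merge (leaf 2 527 531) (node 465 (merge (leaf 6 432 433) (node 463 (merge (leaf 7 431 431) (node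 498 (merge (leaf 7 465 497) (node 499 (merge (leaf 0 463 466) (leaf 6 466 467))))))))))))))))))))))))))) (merge (node 559 (merge (node 591 (merge (leaf 6 495 623) (node 464 (merge (leaf 6 463 495) (leaf 5 463 560))))) (merge (node 591 (merge (leaf 6 495 623) (node 495 (merge (node 462 (merge (leaf 7 462 494) (node 463 (merge (leaf 7 430 430) (node 560 (merge (leaf 4 431 431) (leaf 4 463 592))))))) (merge (node 590 (merge (leaf 5 494 622) (node 463 (merge (leaf 5 462 558) (node 560 (merge (leaf 4 431 431) (leaf 4 463 592))))))) (node 590 (merge (leaf 5 494 622) (node 494 (merge (leaf 7 462 462) (node 493 (merge (leaf 0 492 492) (node 525 (merge (leaf 1 492 524) (node 526 (merge (leaf 1 493 497) (node 461 (merge (leaf 3 460 460) (leaf 7 461 558)))))))))))))))))) (merge (node 591 (merge (leaf 6 495 623) (node 495 (merge (leaf 6 463 464) (node 590 (merge (leaf 5 494 622) (node 494 (merge (leaf 7 462 462) (node 493 (merge (leaf 0 492 492) (node 525 (merge (leaf 1 492 524) (node 526 (merge (leaf 1 493 497) (node 461 (merge (leaf 3 460 460) (leaf 7 461 558)))))))))))))))))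 (merge (node 560 (merge (node 464 (merge (leaf 5 463 591) (node 465 (merge (leaf 6 432 433) (node 592 (merge (leaf 6 464 497) (node 463 (merge (leaf 7 431 431) (leaf 7 463 495))))))))) (merge (node 464 (merge (leaf 5 463 591) (node 593 (merge (leaf 4 464 561) (node 592 (merge (leaf 4 496 625) (node 463 (merge (leaf 7 431 431) (leaf 7 463 495))))))))) (merge (node 464 (merge (leaf 5 463 591) (node 593 (merge (leaf 4 464 561) (node 465 (merge (leaf 6 432 433) (node 592 (merge (leaf 6 464 497) (leaf 4 496 625))))))))) (merge (node 464 (merge (leaf 5 463 591) (node 561 (merge (leaf 4 464 593) (node 562 (merge (leaf 3 526 526) (leaf 3 527 563))))))) (node 497 (merge (node 526 (merge (leaf 2 493 525) (node 495 (merge (leaf 1 494 498) (node 592 (merge (leaf 7 463 463) (leaf 7 495 624))))))) (merge (node 592 (merge (leaf 6 464 465) (node 624 (merge (leaf 7 527 656) (node 625 (merge (leaf 4 496 593) (leaf 4 528 657))))))) (node 498 (merge (leaf 1 495 499) (node 495 (merge (leaf 1 494 526) (node 463 (merge (leaf 4 431 431) (leaf 3 462 462))))))))))))))) (merge (node 560 (merge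 (node 591 (merge (leaf 5 463 464) (leaf 6 495 623))) (merge (node 526 (merge (node 525 (merge (leaf 2 493 497) (leaf 0 524 524))) (merge (node 561 (merge (leaf 0 525 525) (leaf 3 526 562))) (node 561 (merge (leaf 3 526 562) (node 464 (merge (leaf 4 464 593) (node 465 (merge (leaf 6 432 433) (node 497 (merge (leaf 6 464 592) (node 498 (merge (leaf 1 495 499) (node 463 (merge (leaf 7 431 431) (leaf 0 462 462)))))))))))))))) (node 591 (merge (leaf 6 495 623) (node 558 (merge (node 557 (merge (leaf 2 524 556) (node 593 (merge (leaf 0 557 592) (node 561 (merge (leaf 0 558 594) (node 525 (merge (leaf 3 524 524) (leaf 0 525 526))))))))) (merge (node 557 (merge (leaf 2 524 556) (node 589 (merge (leaf 1 556 588) (node 590 (merge (leaf 1 557 561) (node 525 (merge (leaf 3 524 524) (node 622 (merge (leaf 4 493 493) (leaf 7 525 654))))))))))) (merge (node 557 (merge (leaf 2 524 556) (node 593 (merge (leaf 0 557 592) (node 561 (merge (leaf 0 558 594) (node 589 (merge (leaf 1 556 588) (leaf 1 557 590))))))))) (merge (node 561 (merge (node 562 (merge (leaf 3 526 526) (leaf 3 527 563)))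 (merge (node 593 (merge (leaf 0 558 594) (node 625 (merge (leaf 4 496 592) (leaf 7 528 657))))) (node 593 (merge (leaf 0 558 594) (node 625 (merge (leaf 4 496 592) (leaf 7 528 657)))))))) (node 557 (merge (leaf 2 524 556) (node 592 (merge (leaf 0 557 593) (node 624 (merge (leaf 7 527 656) (node 589 (merge (leaf 1 556 588) (node 625 (merge (leaf 0 589 590) (leaf 4 528 657))))))))))))))))))))) (node 526 (merge (node 497 (merge (leaf 2 493 525) (node 498 (merge (leaf 1 494 495) (leaf 1 495 499))))) (merge (node 525 (merge (leaf 2 493 497) (node 560 (merge (leaf 0 524 524) (leaf 0 525 561))))) (merge (node 560 (merge (node 561 (merge (leaf 0 525 525) (leaf 3 526 562))) (merge (node 561 (merge (leaf 3 526 562) (node 593 (merge (leaf 4 464 464) (node 558 (merge (leaf 0 558 594) (node 590 (merge (leaf 1 557 589) (node 622 (merge (leaf 6 494 495) (leaf 6 526 654))))))))))) (node 592 (merge (node 624 (merge (leaf 7 527 656) (node 625 (merge (leaf 4 496 593) (leaf 4 528 657))))) (merge (node 624 (merge (leaf 7 495 495) (node 656 (merge (leaf 7 527 559) (node 657 (merge (leaf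 4 528 625) (leaf 4 560 689))))))) (node 525 (merge (leaf 0 524 524) (node 557 (merge (leaf 1 524 556) (node 558 (merge (leaf 0 557 593) (node 493 (merge (leaf 3 492 492) (node 590 (merge (leaf 4 461 461) (leaf 7 493 622))))))))))))))))) (node 560 (merge (node 592 (merge (node 497 (merge (leaf 6 464 465) (node 495 (merge (leaf 7 463 463) (leaf 1 494 498))))) (node 624 (merge (leaf 7 527 656) (node 625 (merge (leaf 4 496 593) (leaf 4 528 657))))))) (merge (node 497 (merge (node 498 (merge (leaf 1 494 495) (leaf 1 495 499))) (merge (node 592 (merge (leaf 6 464 465) (node 624 (merge (leaf 7 495 495) (leaf 7 527 656))))) (node 498 (merge (leaf 1 495 499) (node 465 (merge (leaf 6 464 592) (node 464 (merge (leaf 6 432 433) (node 463 (merge (leaf 7 431 431) (leaf 0 462 462)))))))))))) (merge (node 561 (merge (leaf 3 526 562) (node 464 (merge (leaf 4 464 593) (node 465 (merge (leaf 6 432 433) (node 497 (merge (leaf 6 464 592) (node 498 (merge (leaf 1 495 499) (node 463 (merge (leaf 7 431 431) (leaf 0 462 462))))))))))))) (node 561 (merge (leaf 3 526 562) (node 593 (merge (leaf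 4 464 464) (node 558 (merge (leaf 0 558 594) (node 590 (merge (leaf 1 557 589) (node 622 (merge (leaf 6 494 495) (leaf 6 526 654))))))))))))))))))))))))) (merge (node 495 (merge (node 560 (merge (node 592 (merge (leaf 7 463 463) (leaf 7 495 624))) (merge (node 464 (merge (node 431 (merge (leaf 4 431 463) (node 432 (merge (leaf 7 399 399) (leaf 5 399 400))))) (merge (node 433 (merge (leaf 6 432 465) (node 432 (merge (leaf 5 399 400) (leaf 6 400 401))))) (node 465 (merge (leaf 6 432 433) (node 494 (merge (leaf 2 461 493) (node 463 (merge (leaf 7 431 431) (leaf 1 462 466)))))))))) (node 592 (merge (leaf 7 495 624) (node 593 (merge (leaf 4 496 625) (node 464 (merge (leaf 4 464 561) (node 432 (merge (leaf 5 399 400) (node 433 (merge (leaf 6 400 401) (leaf 6 432 465)))))))))))))) (merge (node 497 (merge (node 526 (merge (leaf 1 494 498) (leaf 2 493 525))) (merge (node 498 (merge (leaf 1 495 499) (node 530 (merge (leaf 0 495 531) (node 466 (merge (leaf 2 463 467) (node 465 (merge (leaf 2 462 494) (node 433 (merge (leaf 4 401 401) (leaf 7 433 562))))))))))) (node 494 (merge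 (node 493 (merge (leaf 0 492 492) (node 525 (merge (leaf 1 492 524) (leaf 2 493 526))))) (node 465 (merge (leaf 2 462 466) (node 433 (merge (leaf 5 400 401) (node 560 (merge (leaf 6 432 464) (leaf 6 464 592)))))))))))) (merge (node 431 (merge (node 463 (merge (leaf 4 399 399) (leaf 4 431 560))) (merge (node 463 (merge (leaf 4 431 560) (node 526 (merge (leaf 5 430 558) (node 525 (merge (leaf 2 493 497) (leaf 2 492 524))))))) (node 494 (merge (node 493 (merge (leaf 0 492 492) (node 461 (merge (leaf 3 460 460) (node 497 (merge (leaf 3 461 462) (node 498 (merge (leaf 1 495 499) (leaf 1 494 526))))))))) (merge (node 493 (merge (leaf 0 492 492) (node 525 (merge (leaf 1 492 524) (node 526 (merge (leaf 1 493 497) (node 557 (merge (leaf 1 524 556) (node 589 (merge (leaf 6 461 462) (leaf 6 493 621))))))))))) (merge (node 526 (merge (node 525 (merge (leaf 2 493 497) (leaf 2 492 524))) (merge (node 497 (merge (leaf 1 494 498) (node 462 (merge (leaf 3 461 461) (node 430 (merge (leaf 4 398 398) (leaf 6 398 399))))))) (node 525 (merge (leaf 2 492 524) (node 557 (merge (leaf 1 524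 556) (node 462 (merge (leaf 5 429 430) (node 589 (merge (leaf 5 461 558) (leaf 6 493 621)))))))))))) (merge (node 493 (merge (leaf 0 492 492) (node 525 (merge (leaf 1 492 524) (node 461 (merge (leaf 3 460 460) (node 462 (merge (leaf 3 461 497) (node 430 (merge (leaf 4 398 398) (leaf 6 429 557))))))))))) (merge (node 493 (merge (leaf 0 492 492) (node 525 (merge (leaf 1 492 524) (node 526 (merge (leaf 1 493 497) (node 461 (merge (leaf 3 460 460) (node 558 (merge (leaf 4 429 429) (leaf 7 461 590))))))))))) (node 526 (merge (node 525 (merge (leaf 2 492 524) (node 557 (merge (leaf 1 524 556) (node 462 (merge (leaf 5 429 430) (node 589 (merge (leaf 5 461 558) (leaf 6 493 621))))))))) (merge (node 493 (merge (leaf 0 492 492) (node 461 (merge (leaf 3 460 460) (node 558 (merge (leaf 7 461 590) (node 462 (merge (leaf 7 429 429) (node 430 (merge (leaf 4 398 398) (leaf 6 398 399))))))))))) (merge (node 493 (merge (leaf 0 492 492) (node 525 (merge (leaf 1 492 524) (node 557 (merge (leaf 1 524 556) (node 589 (merge (leaf 6 461 462) (leaf 6 493 621))))))))) (node 493 (merge (leaf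 0 492 492) (node 525 (merge (leaf 1 492 524) (node 461 (merge (leaf 3 460 460) (node 429 (merge (leaf 4 397 397) (leaf 4 429 558)))))))))))))))))))))) (merge (node 497 (merge (node 526 (merge (leaf 1 494 498) (leaf 2 493 525))) (merge (node 498 (merge (leaf 1 495 499) (node 530 (merge (leaf 0 495 531) (node 466 (merge (leaf 2 463 467) (node 465 (merge (leaf 2 462 494) (node 433 (merge (leaf 4 401 401) (leaf 7 433 562))))))))))) (node 494 (merge (node 493 (merge (leaf 0 492 492) (node 525 (merge (leaf 1 492 524) (leaf 2 493 526))))) (merge (node 493 (merge (leaf 0 492 492) (node 461 (merge (leaf 3 460 460) (leaf 3 461 462))))) (node 526 (merge (leaf 1 493 525) (node 462 (merge (leaf 3 461 461) (node 430 (merge (leaf 4 398 398) (node 431 (merge (leaf 6 398 399) (node 558 (merge (leaf 5 430 463) (node 589 (merge (leaf 5 461 557) (node 590 (merge (leaf 5 493 621) (leaf 6 494 622))))))))))))))))))))) (node 464 (merge (node 432 (merge (leaf 5 399 400) (node 431 (merge (leaf 7 399 399) (node 560 (merge (leaf 4 431 463) (node 593 (merge (leaf 4 464 561) (node 592 (merge (leaf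 7 495 624) (leaf 4 496 625))))))))))) (merge (node 432 (merge (leaf 5 399 400) (node 433 (merge (leaf 6 400 401) (node 560 (merge (leaf 6 432 465) (node 593 (merge (leaf 4 464 561) (node 592 (merge (leaf 7 495 624) (leaf 4 496 625))))))))))) (merge (node 560 (merge (node 593 (merge (leaf 4 464 561) (node 592 (merge (leaf 7 495 624) (leaf 4 496 625))))) (node 463 (merge (leaf 4 431 431) (node 465 (merge (leaf 6 432 433) (node 466 (merge (leaf 1 463 467) (node 498 (merge (leaf 0 463 499) (node 497 (merge (leaf 0 462 462) (leaf 1 494 526))))))))))))) (node 526 (merge (node 525 (merge (leaf 2 493 497) (leaf 2 492 524))) (node 432 (merge (leaf 5 399 400) (node 433 (merge (leaf 6 400 401) (node 431 (merge (leaf 7 399 399) (node 463 (merge (leaf 5 430 558) (node 462 (merge (leaf 1 430 434) (leaf 2 429 461)))))))))))))))))))))) (merge (hyp 0) (merge (node 464 (merge (node 559 (merge (leaf 5 431 432) (node 591 (merge (leaf 5 463 560) (leaf 6 495 623))))) (merge (node 432 (merge (leaf 5 431 559) (node 401 (merge (leaf 6 400 433) (node 400 (merge (leaf 6 368 369) (node 399 (merge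 (leaf 7 367 367) (leaf 7 399 431))))))))) (merge (node 560 (merge (node 561 (merge (leaf 4 464 593) (node 562 (merge (leaf 3 527 563) (node 559 (merge (leaf 3 526 526) (leaf 5 463 591))))))) (merge (node 593 (merge (leaf 4 464 561) (node 465 (merge (leaf 6 432 433) (node 592 (merge (leaf 6 464 497) (leaf 4 496 625))))))) (node 465 (merge (leaf 6 432 433) (node 592 (merge (leaf 6 464 497) (node 591 (merge (leaf 5 463 559) (leaf 5 495 623)))))))))) (node 463 (merge (node 431 (merge (leaf 7 431 560) (node 399 (merge (leaf 4 367 367) (leaf 7 399 432))))) (merge (node 560 (merge (leaf 7 431 431) (node 465 (merge (leaf 6 432 433) (node 497 (merge (leaf 6 464 592) (node 498 (merge (leaf 0 462 462) (leaf 1 495 499))))))))) (merge (node 462 (merge (node 461 (merge (leaf 0 461 497) (node 432 (merge (leaf 2 429 433) (node 431 (merge (leaf 7 399 399) (leaf 2 428 460))))))) (merge (node 461 (merge (leaf 0 461 497) (node 493 (merge (leaf 1 460 492) (node 465 (merge (leaf 1 461 494) (node 429 (merge (leaf 3 428 428) (leaf 3 429 430))))))))) (merge (node 432 (merge (node 433 (merge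 (leaf 6 400 401) (leaf 2 429 461))) (merge (node 433 (merge (leaf 6 400 401) (node 431 (merge (leaf 7 399 399) (leaf 1 430 434))))) (node 431 (merge (leaf 7 399 399) (node 461 (merge (leaf 2 428 460) (node 493 (merge (leaf 1 460 492) (node 465 (merge (leaf 1 461 494) (node 429 (merge (leaf 3 428 428) (leaf 0 429 430)))))))))))))) (node 465 (merge (node 433 (merge (leaf 2 430 434) (node 401 (merge (leaf 5 368 369) (leaf 5 400 497))))) (merge (node 498 (merge (leaf 0 462 497) (node 466 (merge (leaf 0 463 499) (node 430 (merge (leaf 3 429 429) (leaf 3 430 431))))))) (node 434 (merge (leaf 2 430 433) (node 466 (merge (leaf 2 431 435) (node 430 (merge (leaf 3 429 429) (leaf 3 430 431)))))))))))))) (node 465 (merge (node 433 (merge (leaf 6 432 560) (node 401 (merge (leaf 5 368 369) (leaf 5 400 497))))) (merge (node 433 (merge (leaf 6 432 560) (node 462 (merge (leaf 2 430 434) (node 432 (merge (leaf 6 400 401) (leaf 2 429 461))))))) (merge (node 462 (merge (node 433 (merge (leaf 2 430 434) (node 401 (merge (leaf 5 368 369) (leaf 5 400 497))))) (node 493 (merge (leaf 1 461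 494) (node 461 (merge (leaf 1 460 492) (node 429 (merge (leaf 3 428 428) (leaf 3 429 430))))))))) (node 466 (merge (node 499 (merge (leaf 0 463 498) (node 467 (merge (leaf 0 464 500) (node 435 (merge (leaf 2 431 434) (leaf 2 432 436))))))) (merge (node 498 (merge (leaf 0 463 499) (node 462 (merge (leaf 0 462 497) (node 493 (merge (leaf 1 461 494) (node 461 (merge (leaf 1 460 492) (node 429 (merge (leaf 3 428 428) (leaf 3 429 430))))))))))) (merge (node 435 (merge (leaf 2 431 434) (node 467 (merge (leaf 2 432 436) (node 500 (merge (leaf 0 464 499) (node 468 (merge (leaf 1 464 497) (leaf 0 465 501))))))))) (node 435 (merge (leaf 2 431 434) (node 467 (merge (leaf 2 432 436) (node 497 (merge (leaf 1 464 468) (node 462 (merge (leaf 0 461 461) (leaf 0 462 498))))))))))))))))))))))))) (merge (node 464 (merge (node 559 (merge (leaf 5 431 432) (node 591 (merge (leaf 5 463 560) (leaf 6 495 623))))) (merge (node 432 (merge (leaf 5 431 559) (node 400 (merge (leaf 5 399 495) (node 399 (merge (leaf 7 367 367) (leaf 7 399 431))))))) (merge (node 432 (merge (node 400 (merge (leaf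 5 399 495) (node 399 (merge (leaf 7 367 367) (leaf 7 399 431))))) (merge (node 401 (merge (leaf 6 400 433) (node 400 (merge (leaf 6 368 369) (leaf 5 399 495))))) (node 433 (merge (leaf 6 400 401) (node 560 (merge (leaf 6 432 465) (node 431 (merge (leaf 7 399 399) (leaf 7 431 463)))))))))) (node 463 (merge (node 431 (merge (leaf 7 431 560) (node 399 (merge (leaf 4 367 367) (leaf 4 399 495))))) (merge (node 560 (merge (leaf 7 431 431) (node 561 (merge (leaf 4 464 593) (node 562 (merge (leaf 3 527 563) (node 559 (merge (leaf 3 526 526) (leaf 5 463 591))))))))) (merge (node 495 (merge (node 559 (merge (leaf 6 463 591) (node 462 (merge (leaf 7 430 430) (node 497 (merge (leaf 0 461 461) (leaf 3 462 498))))))) (merge (node 465 (merge (node 494 (merge (leaf 1 462 466) (leaf 2 461 493))) (node 433 (merge (leaf 6 432 560) (node 401 (merge (leaf 5 368 369) (leaf 5 400 497))))))) (node 559 (merge (leaf 6 463 591) (node 558 (merge (leaf 5 462 590) (node 462 (merge (leaf 7 430 430) (node 461 (merge (leaf 0 460 460) (node 493 (merge (leaf 1 460 492) (node 494 (merge (leaf 1 461 465)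 (node 429 (merge (leaf 3 428 428) (leaf 7 429 526)))))))))))))))))) (node 462 (merge (node 461 (merge (leaf 0 461 497) (node 493 (merge (leaf 1 460 492) (node 465 (merge (leaf 1 461 494) (node 429 (merge (leaf 3 428 428) (leaf 3 429 430))))))))) (merge (node 461 (merge (leaf 0 461 497) (node 495 (merge (leaf 0 460 460) (node 559 (merge (leaf 7 430 430) (leaf 6 463 591))))))) (merge (node 465 (merge (node 433 (merge (leaf 2 430 434) (node 401 (merge (leaf 5 368 369) (leaf 5 400 497))))) (merge (node 434 (merge (leaf 2 430 433) (node 466 (merge (leaf 2 431 435) (node 430 (merge (leaf 3 429 429) (leaf 3 430 431))))))) (node 430 (merge (leaf 3 429 429) (node 466 (merge (leaf 3 430 431) (node 467 (merge (leaf 1 463 495) (node 500 (merge (leaf 0 464 499) (node 468 (merge (leaf 1 464 497) (leaf 0 465 501)))))))))))))) (merge (node 461 (merge (leaf 0 461 497) (node 495 (merge (leaf 0 460 460) (node 493 (merge (leaf 1 460 492) (node 465 (merge (leaf 1 461 494) (node 466 (merge (leaf 1 463 467) (node 431 (merge (leaf 4 399 399) (leaf 3 430 430))))))))))))) (merge (node 465 (merge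 (node 434 (merge (leaf 2 430 433) (node 466 (merge (leaf 2 431 435) (node 430 (merge (leaf 3 429 429) (leaf 3 430 431))))))) (merge (node 493 (merge (leaf 1 461 494) (node 461 (merge (leaf 1 460 492) (node 460 (merge (leaf 0 460 495) (node 428 (merge (leaf 3 427 427) (leaf 3 428 429))))))))) (merge (node 493 (merge (leaf 1 461 494) (node 461 (merge (leaf 1 460 492) (node 495 (merge (leaf 0 460 460) (node 466 (merge (leaf 1 463 467) (node 431 (merge (leaf 4 399 399) (leaf 3 430 430))))))))))) (node 430 (merge (leaf 3 429 429) (node 466 (merge (leaf 3 430 431) (node 499 (merge (leaf 0 463 498) (node 467 (merge (leaf 1 463 495) (leaf 0 464 500))))))))))))) (node 461 (merge (leaf 0 461 497) (node 495 (merge (leaf 0 460 460) (node 493 (merge (leaf 1 460 492) (node 494 (merge (leaf 1 461 465) (node 525 (merge (leaf 1 492 524) (node 429 (merge (leaf 3 428 428) (node 558 (merge (leaf 4 429 526) (node 557 (merge (leaf 6 461 589) (leaf 4 461 590))))))))))))))))))))))))))))))) (hyp 1))))))))))))))) nH_20 cH_20 13 (by decide +kernel)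

end Crest.Agent.H26Snaky
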