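import Crest.Agent.H26SnH00

/-! certificate data for S0047, part H 1 (computer generated) -/

set_option autoImplicit false
set_option maxRecDepth 100000

namespace Crest.Agent.H26Snaky

open T

def nH_21 : ℕ := 0x1800000000000000000000000000000000000000000000000000000000000000000000000000000000000000000000000000000000000000000000000000000000000
def cH_21 : ℕ := 0x2800000038000000380000007e000000fe000000ff80000027000003ff800001ff000001ff8000003c000000280000000000000000000000000000000000000000000000000000000000000000000000000000000000000000000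
theorem lH_21 : S nH_21 cH_21 13 := S_of_chk [] trivial (node 496 (merge (node 464 (merge (node 559 (merge (leaf 5 431 432) (node 591 (merge (leaf 6 463 495) (leaf 6 495 623))))) (merge (node 432 (merge (leaf 5 431 559) (node 401 (merge (leaf 6 400 433) (node 400 (merge (leaf 6 368 369) (node 399 (merge (leaf 7 367 367) (leaf 7 399 431))))))))) (merge (node 432 (merge (node 401 (merge (leaf 6 400 433) (node 400 (merge (leaf 6 368 369) (leaf 5 399 495))))) (merge (node 431 (merge (leaf 7 399 399) (node 560 (merge (leaf 7 431 463) (node 593 (merge (leaf 4 464 561) (node 592 (merge (leaf 4 496 625) (node 623 (merge (leaf 5 495 591) (node 624 (merge (leaf 7 495 495) (leaf 5 527 655))))))))))))) (node 401 (merge (leaf 6 400 433) (node 400 (merge (leaf 6 368 369) (node 399 (merge (leaf 7 367 367) (leaf 7 399 431)))))))))) (node 560 (merge (node 561 (merge (leaf 4 464 593) (node 562 (merge (leaf 3 527 563) (node 559 (merge (leaf 3 526 526) (leaf 5 463 591))))))) (merge (node 593 (merge (leaf 4 464 561) (node 592 (merge (leaf 4 496 625) (node 463 (merge (leaf 7 431 431)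 (leaf 7 463 495))))))) (node 591 (merge (leaf 5 463 559) (node 463 (merge (leaf 7 431 431) (node 592 (merge (leaf 7 463 495) (leaf 5 495 623)))))))))))))) (merge (node 559 (merge (node 591 (merge (leaf 6 495 623) (node 464 (merge (leaf 5 431 432) (leaf 6 463 495))))) (merge (node 591 (merge (leaf 6 495 623) (node 464 (merge (leaf 5 431 432) (leaf 5 463 560))))) (merge (node 591 (merge (leaf 6 495 623) (node 495 (merge (node 462 (merge (leaf 7 462 494) (node 463 (merge (leaf 7 430 430) (node 560 (merge (leaf 4 431 431) (leaf 4 463 592))))))) (merge (node 590 (merge (leaf 5 494 622) (node 463 (merge (leaf 5 462 558) (node 560 (merge (leaf 4 431 431) (leaf 4 463 592))))))) (node 590 (merge (leaf 5 494 622) (node 494 (merge (leaf 7 462 462) (node 493 (merge (leaf 0 492 492) (node 525 (merge (leaf 1 492 524) (node 526 (merge (leaf 1 493 497) (node 461 (merge (leaf 3 460 460) (leaf 7 461 558)))))))))))))))))) (node 464 (merge (leaf 5 431 432) (node 463 (merge (node 431 (merge (leaf 7 431 560) (node 399 (merge (leaf 4 367 367) (leaf 4 399 495))))) (merge (node 560 (merge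 (leaf 7 431 431) (node 465 (merge (leaf 6 432 433) (node 497 (merge (leaf 6 464 592) (node 498 (merge (leaf 0 462 462) (leaf 1 495 499))))))))) (node 497 (merge (node 526 (merge (leaf 2 493 525) (node 498 (merge (leaf 1 494 495) (leaf 1 495 499))))) (merge (node 462 (merge (leaf 0 461 461) (node 498 (merge (leaf 0 462 465) (leaf 1 495 499))))) (node 462 (merge (leaf 0 461 461) (node 430 (merge (leaf 7 430 495) (node 465 (merge (leaf 3 429 429) (node 433 (merge (leaf 5 400 401) (leaf 2 430 434))))))))))))))))))))) (merge (node 464 (merge (node 432 (merge (leaf 5 431 559) (node 400 (merge (leaf 5 399 495) (node 399 (merge (leaf 7 367 367) (leaf 7 399 431))))))) (merge (node 433 (merge (node 432 (merge (leaf 6 400 401) (node 400 (merge (leaf 5 399 495) (node 399 (merge (leaf 7 367 367) (leaf 7 399 431))))))) (merge (node 465 (merge (leaf 6 432 560) (node 401 (merge (leaf 5 368 369) (leaf 5 400 497))))) (node 560 (merge (leaf 6 432 465) (node 593 (merge (leaf 4 464 561) (node 592 (merge (leaf 4 496 625) (node 623 (merge (leaf 5 495 591) (node 624 (merge (leaf 7 495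 495) (leaf 5 527 655)))))))))))))) (node 560 (merge (node 561 (merge (leaf 4 464 593) (node 562 (merge (leaf 3 527 563) (node 559 (merge (leaf 3 526 526) (leaf 5 463 591))))))) (merge (node 593 (merge (leaf 4 464 561) (node 465 (merge (leaf 6 432 433) (node 592 (merge (leaf 6 464 497) (leaf 4 496 625))))))) (node 465 (merge (leaf 6 432 433) (node 592 (merge (leaf 6 464 497) (node 591 (merge (leaf 5 463 559) (leaf 5 495 623))))))))))))) (merge (node 559 (merge (node 591 (merge (leaf 6 495 623) (node 464 (merge (leaf 5 431 432) (leaf 6 463 495))))) (merge (node 464 (merge (leaf 5 431 432) (node 591 (merge (leaf 6 463 495) (leaf 5 463 560))))) (merge (node 591 (merge (leaf 6 495 623) (node 464 (merge (leaf 5 431 432) (leaf 5 463 560))))) (merge (node 591 (merge (leaf 6 495 623) (node 495 (merge (node 462 (merge (leaf 7 462 494) (node 463 (merge (leaf 7 430 430) (node 560 (merge (leaf 4 431 431) (leaf 4 463 592))))))) (merge (node 590 (merge (leaf 5 494 622) (node 463 (merge (leaf 5 462 558) (node 560 (merge (leaf 4 431 431) (leaf 4 463 592))))))) (node 590 (merge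 (leaf 5 494 622) (node 494 (merge (leaf 7 462 462) (node 493 (merge (leaf 0 492 492) (node 525 (merge (leaf 1 492 524) (node 526 (merge (leaf 1 493 497) (node 461 (merge (leaf 3 460 460) (leaf 7 461 558)))))))))))))))))) (node 560 (merge (node 464 (merge (leaf 5 431 432) (node 561 (merge (leaf 4 464 593) (node 562 (merge (leaf 3 526 526) (leaf 3 527 563))))))) (merge (node 464 (merge (leaf 5 431 432) (node 463 (merge (leaf 7 431 431) (node 495 (merge (leaf 4 463 592) (node 462 (merge (leaf 7 430 430) (node 497 (merge (leaf 0 461 461) (leaf 3 462 498))))))))))) (node 592 (merge (node 495 (merge (leaf 7 495 624) (node 463 (merge (leaf 4 431 431) (leaf 4 463 559))))) (merge (node 497 (merge (leaf 6 464 465) (node 498 (merge (leaf 1 495 499) (node 495 (merge (leaf 7 463 463) (leaf 1 494 526))))))) (node 625 (merge (leaf 4 496 593) (node 624 (merge (leaf 4 528 657) (node 656 (merge (leaf 7 527 559) (node 655 (merge (leaf 5 527 623) (leaf 5 559 687)))))))))))))))))))) (merge (node 497 (merge (node 526 (merge (leaf 2 493 525) (node 498 (merge (leaf 1 494 495) (leaf 1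 495 499))))) (merge (node 526 (merge (leaf 2 493 525) (node 529 (merge (leaf 2 494 498) (node 561 (merge (leaf 0 526 562) (node 558 (merge (leaf 1 525 557) (node 593 (merge (leaf 7 496 625) (node 594 (merge (leaf 4 497 626) (node 559 (merge (leaf 0 558 560) (node 592 (merge (leaf 3 558 591) (leaf 5 496 624))))))))))))))))) (merge (node 495 (merge (node 498 (merge (leaf 1 495 499) (node 463 (merge (leaf 3 462 462) (node 560 (merge (leaf 4 431 431) (leaf 7 463 592))))))) (merge (node 498 (merge (leaf 1 495 499) (node 466 (merge (leaf 2 463 467) (node 494 (merge (leaf 2 462 465) (node 493 (merge (leaf 0 492 492) (leaf 0 493 529))))))))) (node 494 (merge (node 493 (merge (leaf 0 492 492) (node 461 (merge (leaf 3 460 460) (leaf 3 461 462))))) (merge (node 493 (merge (leaf 0 492 492) (leaf 0 493 529))) (node 465 (merge (leaf 2 462 466) (node 433 (merge (leaf 5 400 401) (node 560 (merge (leaf 5 432 529) (leaf 6 464 592))))))))))))) (node 526 (merge (leaf 2 493 525) (node 560 (merge (node 465 (merge (leaf 6 464 592) (node 433 (merge (leaf 5 400 401) (leaf 5 432 529)))))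 (merge (node 592 (merge (leaf 6 464 465) (node 623 (merge (leaf 5 495 591) (node 624 (merge (leaf 7 495 495) (leaf 5 527 655))))))) (merge (node 529 (merge (node 561 (merge (leaf 0 526 562) (node 558 (merge (leaf 1 525 557) (node 593 (merge (leaf 7 496 625) (node 594 (merge (leaf 0 558 559) (leaf 4 497 626))))))))) (merge (node 592 (merge (leaf 6 496 624) (node 591 (merge (leaf 5 495 623) (node 495 (merge (leaf 7 463 463) (node 494 (merge (leaf 0 493 493) (node 462 (merge (leaf 3 461 461) (leaf 7 462 559))))))))))) (merge (node 561 (merge (leaf 0 526 562) (node 558 (merge (leaf 1 525 557) (node 593 (merge (leaf 7 496 625) (node 594 (merge (leaf 0 558 559) (leaf 4 497 626))))))))) (node 561 (merge (leaf 0 526 562) (node 558 (merge (leaf 1 525 557) (node 592 (merge (leaf 6 496 624) (node 591 (merge (leaf 5 495 623) (node 590 (merge (leaf 2 557 589) (node 495 (merge (leaf 7 463 463) (leaf 6 494 622))))))))))))))))) (node 529 (merge (node 561 (merge (leaf 0 526 562) (node 558 (merge (leaf 1 525 557) (node 593 (merge (leaf 7 496 625) (node 594 (merge (leaf 0 558 559)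 (leaf 4 497 626))))))))) (merge (node 494 (merge (leaf 3 493 493) (node 465 (merge (leaf 5 432 433) (node 495 (merge (leaf 2 462 466) (node 462 (merge (leaf 3 461 461) (node 430 (merge (leaf 4 398 398) (node 431 (merge (leaf 6 398 399) (leaf 4 431 463))))))))))))) (node 561 (merge (leaf 0 526 562) (node 558 (merge (leaf 1 525 557) (node 593 (merge (leaf 7 496 625) (node 594 (merge (leaf 0 558 559) (leaf 4 497 626)))))))))))))))))))))) (merge (node 559 (merge (node 591 (merge (leaf 6 495 623) (node 464 (merge (leaf 5 431 432) (leaf 6 463 495))))) (merge (node 591 (merge (leaf 6 495 623) (node 464 (merge (leaf 5 431 432) (leaf 5 463 560))))) (merge (node 560 (merge (node 464 (merge (leaf 5 431 432) (node 561 (merge (leaf 4 464 593) (node 562 (merge (leaf 3 526 526) (leaf 3 527 563))))))) (merge (node 464 (merge (leaf 5 431 432) (node 465 (merge (leaf 6 432 433) (node 592 (merge (leaf 6 464 497) (node 624 (merge (leaf 7 495 495) (leaf 7 527 656))))))))) (node 497 (merge (node 526 (merge (leaf 2 493 525) (node 498 (merge (leaf 1 494 495) (leaf 1 495 499))))) (node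 592 (merge (leaf 6 464 465) (node 624 (merge (leaf 7 527 656) (node 625 (merge (leaf 4 496 593) (leaf 4 528 657)))))))))))) (node 591 (merge (leaf 6 495 623) (node 495 (merge (node 592 (merge (leaf 4 495 624) (node 560 (merge (leaf 4 463 463) (node 497 (merge (leaf 6 464 465) (node 526 (merge (leaf 1 494 498) (leaf 2 493 525))))))))) (merge (node 590 (merge (leaf 5 494 622) (node 494 (merge (leaf 7 462 462) (node 493 (merge (leaf 0 492 492) (node 525 (merge (leaf 1 492 524) (node 526 (merge (leaf 1 493 497) (node 461 (merge (leaf 3 460 460) (leaf 7 461 558))))))))))))) (merge (node 592 (merge (leaf 4 495 624) (node 590 (merge (leaf 5 494 622) (node 558 (merge (leaf 5 462 463) (node 557 (merge (leaf 0 556 556) (leaf 3 557 593))))))))) (node 592 (merge (leaf 4 495 624) (node 560 (merge (leaf 4 463 463) (node 593 (merge (leaf 4 496 625) (node 594 (merge (leaf 3 558 558) (leaf 3 559 595))))))))))))))))))) (merge (node 526 (merge (node 525 (merge (leaf 2 493 497) (node 556 (merge (leaf 1 524 557) (node 524 (merge (leaf 1 523 555) (node 492 (merge (leaf 3 491 491) (leaf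 3 492 493))))))))) (merge (node 464 (merge (node 432 (merge (leaf 5 431 559) (node 400 (merge (leaf 5 399 495) (node 399 (merge (leaf 7 367 367) (leaf 7 399 431))))))) (merge (node 432 (merge (leaf 5 431 559) (node 401 (merge (leaf 6 400 433) (node 400 (merge (leaf 6 368 369) (leaf 5 399 495))))))) (merge (node 432 (merge (node 400 (merge (leaf 5 399 495) (node 399 (merge (leaf 7 367 367) (leaf 7 399 431))))) (merge (node 401 (merge (leaf 6 400 433) (node 400 (merge (leaf 6 368 369) (leaf 5 399 495))))) (node 433 (merge (leaf 6 400 401) (node 560 (merge (leaf 6 432 465) (node 431 (merge (leaf 7 399 399) (leaf 7 431 463)))))))))) (merge (node 432 (merge (leaf 5 431 559) (node 433 (merge (leaf 6 400 401) (node 560 (merge (leaf 6 432 465) (node 431 (merge (leaf 7 399 399) (leaf 7 431 463))))))))) (node 560 (merge (node 561 (merge (leaf 4 464 593) (node 562 (merge (leaf 3 526 559) (leaf 3 527 563))))) (merge (node 465 (merge (leaf 6 432 433) (node 592 (merge (leaf 6 464 497) (node 625 (merge (leaf 4 496 593) (node 624 (merge (leaf 7 495 495) (leaf 4 528 657)))))))))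 (merge (node 463 (merge (leaf 7 431 431) (node 592 (merge (leaf 7 463 495) (node 625 (merge (leaf 4 496 593) (node 624 (merge (leaf 4 528 657) (node 656 (merge (leaf 7 527 559) (node 655 (merge (leaf 5 527 623) (leaf 5 559 687))))))))))))) (node 465 (merge (leaf 6 432 433) (node 592 (merge (leaf 6 464 497) (node 624 (merge (leaf 7 495 495) (node 656 (merge (leaf 7 527 559) (node 655 (merge (leaf 5 527 623) (leaf 5 559 687)))))))))))))))))))) (node 560 (merge (node 561 (merge (leaf 0 525 525) (node 562 (merge (leaf 3 526 559) (leaf 3 527 563))))) (merge (node 525 (merge (leaf 0 525 561) (node 524 (merge (leaf 2 492 495) (node 556 (merge (leaf 1 523 555) (leaf 1 524 557))))))) (merge (node 463 (merge (node 495 (merge (leaf 4 431 431) (leaf 7 463 592))) (merge (node 464 (merge (leaf 7 431 431) (node 561 (merge (leaf 4 464 593) (node 559 (merge (leaf 5 431 432) (leaf 3 526 562))))))) (node 592 (merge (leaf 7 463 495) (node 593 (merge (leaf 4 496 625) (node 464 (merge (leaf 4 464 561) (node 432 (merge (leaf 5 431 559) (node 433 (merge (leaf 6 400 401) (leaf 6 432 465))))))))))))))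 (node 463 (merge (node 495 (merge (leaf 4 431 431) (leaf 7 463 592))) (merge (node 592 (merge (leaf 7 463 495) (node 625 (merge (leaf 4 496 593) (node 624 (merge (leaf 4 528 657) (node 656 (merge (leaf 7 527 559) (node 655 (merge (leaf 5 527 623) (leaf 5 559 687))))))))))) (node 464 (merge (leaf 7 431 431) (node 559 (merge (leaf 5 431 432) (node 525 (merge (leaf 0 524 524) (node 557 (merge (leaf 1 524 556) (node 493 (merge (leaf 3 492 492) (node 465 (merge (leaf 6 432 433) (node 462 (merge (leaf 1 461 494) (node 430 (merge (leaf 3 429 429) (leaf 6 429 461))))))))))))))))))))))))))) (merge (node 497 (merge (node 526 (merge (leaf 2 493 525) (node 498 (merge (leaf 1 494 495) (leaf 1 495 499))))) (merge (node 526 (merge (leaf 2 493 525) (node 529 (merge (leaf 2 494 498) (node 561 (merge (leaf 0 526 562) (node 593 (merge (leaf 7 464 464) (leaf 7 496 625))))))))) (merge (node 526 (merge (leaf 2 493 525) (node 494 (merge (node 493 (merge (leaf 3 493 529) (node 492 (merge (leaf 0 491 491) (leaf 0 492 495))))) (merge (node 529 (merge (leaf 3 493 493) (node 561 (merge (leaf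 0 526 562) (node 593 (merge (leaf 7 464 464) (leaf 7 496 625))))))) (merge (node 559 (merge (node 462 (merge (leaf 4 430 430) (node 591 (merge (leaf 4 462 558) (leaf 7 494 623))))) (merge (node 462 (merge (leaf 4 430 430) (node 495 (merge (leaf 3 461 461) (leaf 7 462 591))))) (merge (node 591 (merge (leaf 6 495 623) (node 495 (merge (leaf 6 463 464) (node 592 (merge (leaf 4 495 624) (node 590 (merge (leaf 5 494 622) (node 558 (merge (leaf 5 462 463) (node 557 (merge (leaf 0 556 556) (leaf 3 557 593))))))))))))) (node 462 (merge (leaf 4 430 430) (node 461 (merge (leaf 3 461 495) (node 464 (merge (leaf 5 431 432) (leaf 0 461 463))))))))))) (node 559 (merge (node 462 (merge (leaf 4 430 430) (node 591 (merge (leaf 4 462 558) (leaf 7 494 623))))) (merge (node 462 (merge (leaf 4 430 430) (node 495 (merge (leaf 3 461 461) (leaf 7 462 591))))) (merge (node 591 (merge (leaf 6 495 623) (node 495 (merge (leaf 6 463 464) (node 592 (merge (leaf 4 495 624) (node 590 (merge (leaf 5 494 622) (node 558 (merge (leaf 5 462 463) (node 557 (merge (leaf 0 556 556) (leaf 3 557 593)))))))))))))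 (node 462 (merge (leaf 4 430 430) (node 461 (merge (leaf 3 461 495) (node 558 (merge (leaf 7 429 429) (node 589 (merge (leaf 5 461 557) (node 590 (merge (leaf 7 461 493) (leaf 5 493 621))))))))))))))))))))) (node 495 (merge (node 498 (merge (leaf 1 495 499) (node 466 (merge (leaf 2 463 467) (node 494 (merge (leaf 2 462 465) (node 493 (merge (leaf 0 492 492) (leaf 0 493 529))))))))) (merge (node 498 (merge (leaf 1 495 499) (node 463 (merge (leaf 3 462 462) (node 431 (merge (leaf 4 399 399) (node 432 (merge (leaf 6 399 400) (node 559 (merge (leaf 5 431 464) (node 590 (merge (leaf 5 462 558) (node 591 (merge (leaf 5 494 622) (leaf 6 495 623))))))))))))))) (node 494 (merge (node 493 (merge (leaf 0 492 492) (node 465 (merge (leaf 2 461 464) (leaf 2 462 466))))) (merge (node 493 (merge (leaf 0 492 492) (node 461 (merge (leaf 3 460 460) (leaf 3 461 462))))) (node 465 (merge (leaf 2 462 466) (node 462 (merge (leaf 3 461 461) (node 433 (merge (leaf 5 400 401) (node 559 (merge (leaf 7 462 591) (node 464 (merge (leaf 5 431 432) (node 463 (merge (leaf 7 430 430) (leaf 2 430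 434))))))))))))))))))))))) (merge (node 560 (merge (node 497 (merge (node 465 (merge (leaf 6 464 592) (node 433 (merge (leaf 5 400 401) (leaf 6 432 464))))) (node 526 (merge (leaf 2 493 525) (node 498 (merge (leaf 1 495 499) (leaf 2 494 529))))))) (merge (node 592 (merge (node 623 (merge (leaf 5 495 591) (node 624 (merge (leaf 7 495 495) (leaf 5 527 655))))) (merge (node 625 (merge (leaf 4 496 593) (node 624 (merge (leaf 4 528 657) (node 623 (merge (leaf 5 495 591) (leaf 5 527 655))))))) (node 593 (merge (leaf 4 496 625) (node 464 (merge (leaf 4 464 561) (node 463 (merge (leaf 7 431 431) (leaf 7 463 495)))))))))) (merge (node 592 (merge (node 625 (merge (leaf 4 496 593) (node 624 (merge (leaf 4 528 657) (node 623 (merge (leaf 5 495 591) (leaf 5 527 655))))))) (node 497 (merge (leaf 6 464 465) (node 498 (merge (leaf 1 495 499) (node 495 (merge (leaf 7 463 463) (leaf 1 494 526))))))))) (node 526 (merge (node 525 (merge (leaf 2 493 497) (leaf 0 525 561))) (merge (node 497 (merge (leaf 2 493 525) (node 498 (merge (leaf 1 494 495) (leaf 1 495 499))))) (merge (node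 525 (merge (leaf 0 525 561) (node 524 (merge (leaf 2 492 495) (node 556 (merge (leaf 1 523 555) (leaf 1 524 557))))))) (node 464 (merge (node 433 (merge (leaf 6 432 465) (node 432 (merge (leaf 6 400 401) (node 431 (merge (leaf 7 399 399) (leaf 7 431 463))))))) (merge (node 561 (merge (leaf 4 464 593) (node 562 (merge (leaf 0 526 529) (leaf 3 527 563))))) (merge (node 561 (merge (leaf 4 464 593) (node 432 (merge (leaf 4 432 529) (node 431 (merge (leaf 7 399 399) (leaf 7 431 463))))))) (node 561 (merge (leaf 4 464 593) (node 432 (merge (leaf 4 432 529) (node 433 (merge (leaf 6 400 401) (leaf 6 432 465))))))))))))))))))) (merge (node 560 (merge (node 592 (merge (node 623 (merge (leaf 5 495 591) (node 624 (merge (leaf 7 495 495) (leaf 5 527 655))))) (merge (node 625 (merge (leaf 4 496 593) (node 624 (merge (leaf 4 528 657) (node 623 (merge (leaf 5 495 591) (leaf 5 527 655))))))) (node 593 (merge (leaf 4 496 625) (node 464 (merge (leaf 4 464 561) (node 463 (merge (leaf 7 431 431) (leaf 7 463 495)))))))))) (merge (node 464 (merge (node 593 (merge (leaf 4 464 561) (node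 465 (merge (leaf 6 432 433) (node 592 (merge (leaf 6 464 497) (leaf 4 496 625))))))) (merge (node 561 (merge (leaf 4 464 593) (node 432 (merge (leaf 4 432 529) (node 559 (merge (leaf 5 431 527) (leaf 5 463 591))))))) (node 465 (merge (leaf 6 432 433) (node 592 (merge (leaf 6 464 497) (node 591 (merge (leaf 5 463 559) (leaf 5 495 623)))))))))) (merge (node 592 (merge (node 623 (merge (leaf 5 495 591) (node 624 (merge (leaf 7 495 495) (leaf 5 527 655))))) (merge (node 495 (merge (leaf 7 495 624) (node 463 (merge (leaf 4 431 431) (leaf 4 463 559))))) (node 591 (merge (leaf 5 495 623) (node 464 (merge (leaf 5 463 559) (node 433 (merge (leaf 6 432 465) (node 432 (merge (leaf 6 400 401) (node 431 (merge (leaf 7 399 399) (leaf 7 431 463)))))))))))))) (merge (node 592 (merge (node 625 (merge (leaf 4 496 593) (node 624 (merge (leaf 7 495 495) (leaf 4 528 657))))) (merge (node 623 (merge (leaf 5 495 591) (node 624 (merge (leaf 7 495 495) (leaf 5 527 655))))) (merge (node 625 (merge (leaf 4 496 593) (node 624 (merge (leaf 4 528 657) (node 623 (merge (leaf 5 495 591) (leaf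 5 527 655))))))) (node 593 (merge (leaf 4 496 625) (node 591 (merge (leaf 5 495 623) (node 497 (merge (leaf 6 464 465) (node 498 (merge (leaf 1 495 499) (node 495 (merge (leaf 7 463 463) (node 466 (merge (leaf 2 463 467) (node 561 (merge (leaf 6 465 529) (node 562 (merge (leaf 1 559 563) (leaf 2 558 590))))))))))))))))))))) (merge (node 464 (merge (node 559 (merge (leaf 5 431 432) (node 591 (merge (leaf 5 463 560) (leaf 6 495 623))))) (merge (node 433 (merge (leaf 6 432 465) (node 432 (merge (leaf 6 400 401) (node 431 (merge (leaf 7 399 399) (leaf 7 431 463))))))) (node 561 (merge (leaf 4 464 593) (node 562 (merge (leaf 3 527 563) (node 559 (merge (leaf 5 463 591) (node 594 (merge (leaf 0 559 595) (node 465 (merge (leaf 6 432 433) (node 497 (merge (leaf 4 465 529) (node 498 (merge (leaf 1 495 499) (node 463 (merge (leaf 7 431 431) (leaf 0 462 462)))))))))))))))))))) (merge (node 592 (merge (node 625 (merge (leaf 4 496 593) (node 624 (merge (leaf 4 528 657) (node 495 (merge (leaf 7 463 463) (leaf 7 495 527))))))) (merge (node 625 (merge (leaf 4 496 593) (node 497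 (merge (leaf 6 464 465) (node 624 (merge (leaf 6 496 529) (leaf 4 528 657))))))) (merge (node 497 (merge (leaf 6 464 465) (node 624 (merge (leaf 6 496 529) (node 655 (merge (leaf 5 527 623) (node 656 (merge (leaf 5 559 687) (node 527 (merge (leaf 7 495 495) (leaf 7 527 559))))))))))) (node 465 (merge (leaf 6 464 497) (node 464 (merge (leaf 6 432 433) (node 463 (merge (leaf 7 431 431) (leaf 7 463 495))))))))))) (node 464 (merge (node 593 (merge (leaf 4 464 561) (node 465 (merge (leaf 6 432 433) (node 592 (merge (leaf 6 464 497) (leaf 4 496 625))))))) (merge (node 561 (merge (leaf 4 464 593) (node 432 (merge (leaf 4 432 529) (node 559 (merge (leaf 5 431 527) (leaf 5 463 591))))))) (merge (node 463 (merge (leaf 7 431 431) (node 592 (merge (leaf 7 463 495) (node 625 (merge (leaf 4 496 593) (node 624 (merge (leaf 4 528 657) (node 497 (merge (leaf 6 464 465) (leaf 6 496 529))))))))))) (node 433 (merge (leaf 6 432 465) (node 432 (merge (leaf 6 400 401) (node 431 (merge (leaf 7 399 399) (leaf 7 431 463)))))))))))))))))) (merge (node 526 (merge (node 525 (merge (leaf 2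 493 497) (node 556 (merge (leaf 1 524 557) (node 524 (merge (leaf 1 523 555) (node 492 (merge (leaf 3 491 491) (leaf 3 492 493))))))))) (merge (node 464 (merge (node 432 (merge (leaf 5 431 559) (node 400 (merge (leaf 5 399 495) (node 399 (merge (leaf 7 367 367) (leaf 7 399 431))))))) (merge (node 432 (merge (leaf 5 431 559) (node 401 (merge (leaf 6 400 433) (node 400 (merge (leaf 6 368 369) (leaf 5 399 495))))))) (merge (node 432 (merge (node 400 (merge (leaf 5 399 495) (node 399 (merge (leaf 7 367 367) (leaf 7 399 431))))) (merge (node 401 (merge (leaf 6 400 433) (node 400 (merge (leaf 6 368 369) (leaf 5 399 495))))) (node 433 (merge (leaf 6 400 401) (node 560 (merge (leaf 6 432 465) (node 431 (merge (leaf 7 399 399) (leaf 7 431 463)))))))))) (node 560 (merge (node 561 (merge (leaf 4 464 593) (node 562 (merge (leaf 3 527 563) (node 559 (merge (leaf 3 526 526) (leaf 5 463 591))))))) (node 465 (merge (leaf 6 432 433) (node 497 (merge (leaf 6 464 592) (node 498 (merge (leaf 1 495 499) (node 463 (merge (leaf 7 431 431) (leaf 0 462 462))))))))))))))) (node 560 (merge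 (node 561 (merge (leaf 0 525 525) (node 562 (merge (leaf 3 526 559) (leaf 3 527 563))))) (merge (node 525 (merge (leaf 0 525 561) (node 524 (merge (leaf 2 492 495) (node 556 (merge (leaf 1 523 555) (leaf 1 524 557))))))) (merge (node 463 (merge (node 495 (merge (leaf 4 431 431) (leaf 7 463 592))) (merge (node 464 (merge (leaf 7 431 431) (node 561 (merge (leaf 4 464 593) (node 559 (merge (leaf 5 431 432) (leaf 3 526 562))))))) (node 592 (merge (leaf 7 463 495) (node 593 (merge (leaf 4 496 625) (node 464 (merge (leaf 4 464 561) (node 432 (merge (leaf 5 431 559) (node 433 (merge (leaf 6 400 401) (leaf 6 432 465)))))))))))))) (node 592 (merge (node 625 (merge (leaf 4 496 593) (node 624 (merge (leaf 7 495 495) (leaf 4 528 657))))) (merge (node 624 (merge (leaf 7 495 495) (node 656 (merge (leaf 7 527 559) (node 689 (merge (leaf 4 560 657) (node 688 (merge (leaf 4 592 721) (node 687 (merge (leaf 5 559 655) (leaf 5 591 719))))))))))) (merge (node 625 (merge (leaf 4 496 593) (node 624 (merge (leaf 4 528 657) (node 559 (merge (leaf 7 527 656) (node 464 (merge (leaf 5 431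 432) (leaf 5 463 591))))))))) (node 593 (merge (leaf 4 496 625) (node 495 (merge (leaf 7 463 463) (node 525 (merge (leaf 2 492 524) (node 557 (merge (leaf 1 524 556) (node 558 (merge (leaf 0 557 559) (node 493 (merge (leaf 3 492 492) (node 590 (merge (leaf 4 461 461) (leaf 3 557 591)))))))))))))))))))))))))) (merge (node 464 (merge (node 559 (merge (leaf 5 431 432) (node 591 (merge (leaf 5 463 560) (leaf 6 495 623))))) (merge (node 432 (merge (leaf 5 431 559) (node 401 (merge (leaf 6 400 433) (node 400 (merge (leaf 6 368 369) (node 399 (merge (leaf 7 367 367) (leaf 7 399 431))))))))) (merge (node 560 (merge (node 561 (merge (leaf 4 464 593) (node 562 (merge (leaf 3 527 563) (node 559 (merge (leaf 3 526 526) (leaf 5 463 591))))))) (merge (node 593 (merge (leaf 4 464 561) (node 465 (merge (leaf 6 432 433) (node 592 (merge (leaf 6 464 497) (leaf 4 496 625))))))) (node 465 (merge (leaf 6 432 433) (node 592 (merge (leaf 6 464 497) (node 591 (merge (leaf 5 463 559) (leaf 5 495 623)))))))))) (node 463 (merge (node 431 (merge (leaf 7 431 560) (node 399 (merge (leaf 4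 367 367) (leaf 7 399 432))))) (merge (node 560 (merge (leaf 7 431 431) (node 465 (merge (leaf 6 432 433) (node 497 (merge (leaf 6 464 592) (node 498 (merge (leaf 0 462 462) (leaf 1 495 499))))))))) (merge (node 462 (merge (node 461 (merge (leaf 0 461 497) (node 432 (merge (leaf 2 429 433) (node 431 (merge (leaf 7 399 399) (leaf 2 428 460))))))) (merge (node 461 (merge (leaf 0 461 497) (node 493 (merge (leaf 1 460 492) (node 465 (merge (leaf 1 461 494) (node 429 (merge (leaf 3 428 428) (leaf 3 429 430))))))))) (merge (node 432 (merge (node 433 (merge (leaf 6 400 401) (leaf 2 429 461))) (merge (node 433 (merge (leaf 6 400 401) (node 431 (merge (leaf 7 399 399) (leaf 1 430 434))))) (node 431 (merge (leaf 7 399 399) (node 461 (merge (leaf 2 428 460) (node 493 (merge (leaf 1 460 492) (node 465 (merge (leaf 1 461 494) (node 429 (merge (leaf 3 428 428) (leaf 0 429 430)))))))))))))) (node 465 (merge (node 433 (merge (leaf 2 430 434) (node 401 (merge (leaf 5 368 369) (leaf 5 400 497))))) (merge (node 498 (merge (leaf 0 462 497) (node 466 (merge (leaf 0 463 499) (node 430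 (merge (leaf 3 429 429) (leaf 3 430 431))))))) (node 434 (merge (leaf 2 430 433) (node 466 (merge (leaf 2 431 435) (node 430 (merge (leaf 3 429 429) (leaf 3 430 431)))))))))))))) (node 465 (merge (node 433 (merge (leaf 6 432 560) (node 401 (merge (leaf 5 368 369) (leaf 5 400 497))))) (merge (node 433 (merge (leaf 6 432 560) (node 462 (merge (leaf 2 430 434) (node 432 (merge (leaf 6 400 401) (leaf 2 429 461))))))) (merge (node 462 (merge (node 433 (merge (leaf 2 430 434) (node 401 (merge (leaf 5 368 369) (leaf 5 400 497))))) (node 493 (merge (leaf 1 461 494) (node 461 (merge (leaf 1 460 492) (node 429 (merge (leaf 3 428 428) (leaf 3 429 430))))))))) (node 466 (merge (node 499 (merge (leaf 0 463 498) (node 467 (merge (leaf 0 464 500) (node 435 (merge (leaf 2 431 434) (leaf 2 432 436))))))) (merge (node 498 (merge (leaf 0 463 499) (node 462 (merge (leaf 0 462 497) (node 493 (merge (leaf 1 461 494) (node 461 (merge (leaf 1 460 492) (node 429 (merge (leaf 3 428 428) (leaf 3 429 430))))))))))) (merge (node 435 (merge (leaf 2 431 434) (node 467 (merge (leaf 2 432 436)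 (node 500 (merge (leaf 0 464 499) (node 468 (merge (leaf 1 464 497) (leaf 0 465 501))))))))) (node 435 (merge (leaf 2 431 434) (node 467 (merge (leaf 2 432 436) (node 497 (merge (leaf 1 464 468) (node 462 (merge (leaf 0 461 461) (leaf 0 462 498))))))))))))))))))))))))) (node 464 (merge (node 559 (merge (leaf 5 431 432) (node 591 (merge (leaf 5 463 560) (leaf 6 495 623))))) (merge (node 432 (merge (leaf 5 431 559) (node 400 (merge (leaf 5 399 495) (node 399 (merge (leaf 7 367 367) (leaf 7 399 431))))))) (merge (node 432 (merge (node 400 (merge (leaf 5 399 495) (node 399 (merge (leaf 7 367 367) (leaf 7 399 431))))) (merge (node 401 (merge (leaf 6 400 433) (node 400 (merge (leaf 6 368 369) (leaf 5 399 495))))) (node 433 (merge (leaf 6 400 401) (node 560 (merge (leaf 6 432 465) (node 431 (merge (leaf 7 399 399) (leaf 7 431 463)))))))))) (node 463 (merge (node 431 (merge (leaf 7 431 560) (node 399 (merge (leaf 4 367 367) (leaf 4 399 495))))) (merge (node 560 (merge (leaf 7 431 431) (node 561 (merge (leaf 4 464 593) (node 562 (merge (leaf 3 527 563) (node 559 (merge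 (leaf 3 526 526) (leaf 5 463 591))))))))) (merge (node 495 (merge (node 559 (merge (leaf 6 463 591) (node 462 (merge (leaf 7 430 430) (node 497 (merge (leaf 0 461 461) (leaf 3 462 498))))))) (merge (node 465 (merge (node 494 (merge (leaf 1 462 466) (leaf 2 461 493))) (node 433 (merge (leaf 6 432 560) (node 401 (merge (leaf 5 368 369) (leaf 5 400 497))))))) (node 559 (merge (leaf 6 463 591) (node 558 (merge (leaf 5 462 590) (node 462 (merge (leaf 7 430 430) (node 461 (merge (leaf 0 460 460) (node 493 (merge (leaf 1 460 492) (node 494 (merge (leaf 1 461 465) (node 429 (merge (leaf 3 428 428) (leaf 7 429 526)))))))))))))))))) (node 462 (merge (node 461 (merge (leaf 0 461 497) (node 493 (merge (leaf 1 460 492) (node 465 (merge (leaf 1 461 494) (node 429 (merge (leaf 3 428 428) (leaf 3 429 430))))))))) (merge (node 461 (merge (leaf 0 461 497) (node 495 (merge (leaf 0 460 460) (node 559 (merge (leaf 7 430 430) (leaf 6 463 591))))))) (merge (node 465 (merge (node 433 (merge (leaf 2 430 434) (node 401 (merge (leaf 5 368 369) (leaf 5 400 497))))) (merge (node 434 (merge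 (leaf 2 430 433) (node 466 (merge (leaf 2 431 435) (node 430 (merge (leaf 3 429 429) (leaf 3 430 431))))))) (node 430 (merge (leaf 3 429 429) (node 466 (merge (leaf 3 430 431) (node 467 (merge (leaf 1 463 495) (node 500 (merge (leaf 0 464 499) (node 468 (merge (leaf 1 464 497) (leaf 0 465 501)))))))))))))) (merge (node 461 (merge (leaf 0 461 497) (node 495 (merge (leaf 0 460 460) (node 493 (merge (leaf 1 460 492) (node 465 (merge (leaf 1 461 494) (node 466 (merge (leaf 1 463 467) (node 431 (merge (leaf 4 399 399) (leaf 3 430 430))))))))))))) (merge (node 465 (merge (node 434 (merge (leaf 2 430 433) (node 466 (merge (leaf 2 431 435) (node 430 (merge (leaf 3 429 429) (leaf 3 430 431))))))) (merge (node 493 (merge (leaf 1 461 494) (node 461 (merge (leaf 1 460 492) (node 460 (merge (leaf 0 460 495) (node 428 (merge (leaf 3 427 427) (leaf 3 428 429))))))))) (merge (node 493 (merge (leaf 1 461 494) (node 461 (merge (leaf 1 460 492) (node 495 (merge (leaf 0 460 460) (node 466 (merge (leaf 1 463 467) (node 431 (merge (leaf 4 399 399) (leaf 3 430 430))))))))))) (node 430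 (merge (leaf 3 429 429) (node 466 (merge (leaf 3 430 431) (node 499 (merge (leaf 0 463 498) (node 467 (merge (leaf 1 463 495) (leaf 0 464 500))))))))))))) (node 461 (merge (leaf 0 461 497) (node 495 (merge (leaf 0 460 460) (node 493 (merge (leaf 1 460 492) (node 494 (merge (leaf 1 461 465) (node 525 (merge (leaf 1 492 524) (node 429 (merge (leaf 3 428 428) (node 558 (merge (leaf 4 429 526) (node 557 (merge (leaf 6 461 589) (leaf 4 461 590)))))))))))))))))))))))))))))))))))))))))))) nH_21 cH_21 13 (by decide +kernel)
def nH_22 : ℕ := 0x80000001800000000000000000000000000000000000000000000000000000000000000000000000000000000000000000000000000000000000000000000000000000000000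
def cH_22 : ℕ := 0x400000006000000ff800000ff000001ff000000f7000000e3000000f20000007c0000003800000000000000000000000000000000000000000000000000000000000000000000000000000000000000000000000000000000000
theorem lH_22 : S nH_22 cH_22 12 := S_of_chk [] trivial (node 560 (merge (node 496 (merge (node 591 (merge (leaf 5 463 464) (leaf 6 495 623))) (merge (node 464 (merge (leaf 5 431 432) (node 593 (merge (leaf 4 464 561) (node 465 (merge (leaf 6 432 433) (node 592 (merge (leaf 6 464 497) (leaf 4 496 625))))))))) (node 592 (merge (node 624 (merge (leaf 7 527 656) (node 623 (merge (leaf 6 495 591) (leaf 5 527 655))))) (merge (node 497 (merge (leaf 6 464 465) (node 529 (merge (leaf 6 496 624) (node 558 (merge (leaf 1 526 530) (leaf 2 525 557))))))) (node 593 (merge (leaf 4 496 625) (node 594 (merge (leaf 3 559 595) (node 591 (merge (leaf 3 558 558) (leaf 5 495 623))))))))))))) (merge (node 561 (merge (node 562 (merge (leaf 3 527 563) (node 594 (merge (leaf 0 559 595) (node 558 (merge (leaf 0 558 593) (node 557 (merge (leaf 2 525 529) (leaf 2 524 556))))))))) (merge (node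 591 (merge (node 496 (merge (leaf 5 463 464) (leaf 6 495 623))) (node 590 (merge (leaf 1 558 562) (node 589 (merge (leaf 2 556 588) (leaf 2 557 592))))))) (node 558 (merge (node 557 (merge (leaf 2 524 556) (node 589 (merge (leaf 1 556 588) (leaf 1 557 590))))) (merge (node 593 (merge (leaf 0 558 594) (node 557 (merge (leaf 2 524 556) (leaf 0 557 592))))) (node 593 (merge (leaf 0 558 594) (node 625 (merge (leaf 7 528 657) (node 496 (merge (leaf 4 464 464) (leaf 4 496 592))))))))))))) (merge (node 558 (merge (node 529 (merge (leaf 1 526 530) (leaf 2 525 557))) (merge (node 557 (merge (leaf 2 524 556) (node 589 (merge (leaf 1 556 588) (node 590 (merge (leaf 1 557 561) (node 525 (merge (leaf 3 524 524) (node 622 (merge (leaf 4 493 493) (leaf 7 525 654))))))))))) (node 561 (merge (node 594 (merge (leaf 0 558 593) (node 562 (merge (leaf 3 527 563) (leaf 0 559 595))))) (merge (node 593 (merge (leaf 0 558 594) (node 625 (merge (leaf 7 528 657) (node 529 (merge (leaf 7 496 496) (leaf 2 526 530))))))) (merge (node 562 (merge (leaf 3 527 563) (node 530 (merge (leaf 2 527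 531) (node 529 (merge (leaf 1 526 558) (node 498 (merge (leaf 2 495 499) (node 593 (merge (leaf 5 465 466) (leaf 6 497 625))))))))))) (node 562 (merge (leaf 3 527 563) (node 594 (merge (leaf 0 559 595) (node 530 (merge (leaf 2 527 531) (node 529 (merge (leaf 1 526 558) (node 626 (merge (leaf 7 497 497) (leaf 7 529 658)))))))))))))))))) (merge (node 561 (merge (node 562 (merge (leaf 3 527 563) (node 530 (merge (leaf 2 527 531) (node 529 (merge (leaf 1 526 558) (node 498 (merge (leaf 2 495 499) (node 593 (merge (leaf 5 465 466) (leaf 6 497 625))))))))))) (merge (node 591 (merge (node 496 (merge (leaf 5 463 464) (leaf 6 495 623))) (node 590 (merge (leaf 1 558 562) (node 589 (merge (leaf 2 556 588) (leaf 2 557 592))))))) (node 496 (merge (node 464 (merge (leaf 5 431 432) (leaf 4 464 593))) (merge (node 591 (merge (leaf 5 463 464) (leaf 6 495 623))) (node 558 (merge (node 529 (merge (leaf 2 526 530) (leaf 2 525 557))) (merge (node 557 (merge (leaf 2 524 556) (node 589 (merge (leaf 1 556 588) (leaf 1 557 590))))) (node 529 (merge (leaf 1 526 530) (node 590 (merge (leaf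 1 557 589) (node 591 (merge (leaf 6 495 623) (node 622 (merge (leaf 6 526 654) (node 593 (merge (leaf 7 496 625) (node 592 (merge (leaf 1 589 621) (node 624 (merge (leaf 5 496 497) (leaf 7 527 656)))))))))))))))))))))))) (merge (node 561 (merge (node 562 (merge (leaf 3 527 563) (node 594 (merge (leaf 0 559 595) (node 558 (merge (leaf 0 558 593) (node 557 (merge (leaf 2 525 529) (leaf 2 524 556))))))))) (merge (node 591 (merge (node 496 (merge (leaf 5 463 464) (leaf 6 495 623))) (node 590 (merge (leaf 1 558 562) (node 589 (merge (leaf 2 556 588) (leaf 2 557 592))))))) (node 558 (merge (node 557 (merge (leaf 2 525 529) (leaf 2 524 556))) (merge (node 557 (merge (leaf 2 524 556) (node 589 (merge (leaf 1 556 588) (leaf 1 557 590))))) (node 593 (merge (leaf 0 558 594) (node 529 (merge (leaf 1 526 530) (node 590 (merge (leaf 1 557 589) (node 496 (merge (leaf 4 464 464) (node 591 (merge (leaf 6 495 623) (node 622 (merge (leaf 6 526 654) (node 592 (merge (leaf 1 589 621) (node 624 (merge (leaf 5 496 497) (leaf 7 527 656))))))))))))))))))))))) (merge (node 561 (merge (node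 562 (merge (leaf 3 527 563) (node 594 (merge (leaf 0 559 595) (node 593 (merge (leaf 0 558 558) (node 625 (merge (leaf 7 528 657) (node 530 (merge (leaf 5 497 498) (leaf 2 527 531))))))))))) (merge (node 591 (merge (node 496 (merge (leaf 5 463 464) (leaf 6 495 623))) (node 590 (merge (leaf 1 558 562) (node 589 (merge (leaf 2 556 588) (leaf 2 557 592))))))) (node 558 (merge (node 557 (merge (leaf 2 524 556) (node 589 (merge (leaf 1 556 588) (leaf 1 557 590))))) (merge (node 593 (merge (leaf 0 558 594) (node 557 (merge (leaf 2 524 556) (leaf 0 557 592))))) (node 593 (merge (leaf 0 558 594) (node 625 (merge (leaf 7 528 657) (node 496 (merge (leaf 4 464 464) (leaf 4 496 592))))))))))))) (merge (node 561 (merge (node 562 (merge (leaf 3 527 563) (node 591 (merge (leaf 1 558 590) (node 623 (merge (leaf 6 495 496) (leaf 6 527 655))))))) (merge (node 593 (merge (node 625 (merge (leaf 7 528 657) (node 496 (merge (leaf 4 464 464) (leaf 4 496 592))))) (merge (node 562 (merge (leaf 3 527 563) (node 530 (merge (leaf 2 527 531) (node 496 (merge (leaf 4 464 464) (node 498 (merge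 (leaf 5 465 466) (node 499 (merge (leaf 1 495 497) (leaf 2 495 529))))))))))) (node 625 (merge (leaf 7 528 657) (node 562 (merge (leaf 3 527 563) (node 594 (merge (leaf 0 559 595) (node 530 (merge (leaf 5 497 498) (leaf 2 527 531)))))))))))) (merge (node 562 (merge (leaf 3 527 563) (node 594 (merge (leaf 0 559 595) (node 591 (merge (leaf 1 558 590) (node 623 (merge (leaf 6 527 655) (node 624 (merge (leaf 4 527 656) (node 622 (merge (leaf 5 526 654) (node 593 (merge (leaf 1 590 592) (leaf 2 590 625))))))))))))))) (node 592 (merge (node 624 (merge (leaf 7 527 656) (node 625 (merge (leaf 4 528 657) (node 496 (merge (leaf 4 496 593) (node 464 (merge (leaf 5 431 432) (leaf 5 463 591))))))))) (merge (node 624 (merge (leaf 7 527 656) (node 623 (merge (leaf 5 527 655) (node 591 (merge (leaf 5 495 496) (node 622 (merge (leaf 5 526 654) (node 621 (merge (leaf 2 589 593) (leaf 2 588 620))))))))))) (merge (node 624 (merge (leaf 7 527 656) (node 623 (merge (leaf 5 527 655) (node 591 (merge (leaf 5 495 496) (node 622 (merge (leaf 5 526 654) (node 621 (merge (leaf 2 588 620)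 (node 589 (merge (leaf 3 588 588) (node 590 (merge (leaf 2 557 561) (leaf 0 589 625))))))))))))))) (merge (node 624 (merge (leaf 7 527 656) (node 625 (merge (leaf 4 528 657) (node 496 (merge (leaf 4 496 593) (node 464 (merge (leaf 5 431 432) (node 465 (merge (leaf 6 432 433) (leaf 6 464 497))))))))))) (merge (node 496 (merge (node 464 (merge (leaf 5 431 432) (leaf 4 464 593))) (merge (node 465 (merge (leaf 6 464 497) (node 464 (merge (leaf 5 431 432) (leaf 6 432 433))))) (node 593 (merge (leaf 4 496 625) (node 594 (merge (leaf 3 559 595) (node 497 (merge (leaf 6 464 465) (node 498 (merge (leaf 1 495 499) (node 529 (merge (leaf 6 465 466) (leaf 4 497 626)))))))))))))) (node 591 (merge (node 624 (merge (leaf 7 527 656) (node 625 (merge (leaf 4 528 657) (node 590 (merge (leaf 0 589 589) (node 626 (merge (leaf 0 590 593) (leaf 3 591 627))))))))) (merge (node 623 (merge (leaf 6 527 655) (node 622 (merge (leaf 5 526 654) (node 593 (merge (leaf 1 590 594) (node 621 (merge (leaf 1 589 590) (leaf 2 588 620))))))))) (merge (node 624 (merge (leaf 7 527 656) (node 625 (merge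 (leaf 4 528 657) (node 626 (merge (leaf 3 591 627) (node 623 (merge (leaf 3 590 590) (leaf 5 527 655))))))))) (node 624 (merge (leaf 7 527 656) (node 623 (merge (leaf 5 527 655) (node 622 (merge (leaf 5 526 654) (node 593 (merge (leaf 1 590 594) (leaf 2 589 621))))))))))))))))))))))) (merge (node 592 (merge (node 624 (merge (leaf 7 527 656) (node 529 (merge (leaf 6 496 497) (node 558 (merge (leaf 1 526 530) (leaf 2 525 557))))))) (merge (node 591 (merge (node 624 (merge (leaf 7 527 656) (node 625 (merge (leaf 4 528 657) (node 590 (merge (leaf 0 589 589) (node 626 (merge (leaf 0 590 593) (leaf 3 591 627))))))))) (merge (node 623 (merge (leaf 6 527 655) (node 622 (merge (leaf 5 526 654) (node 593 (merge (leaf 1 590 594) (node 621 (merge (leaf 1 589 590) (leaf 2 588 620))))))))) (merge (node 624 (merge (leaf 7 527 656) (node 625 (merge (leaf 4 528 657) (node 626 (merge (leaf 3 591 627) (node 623 (merge (leaf 3 590 590) (leaf 5 527 655))))))))) (node 624 (merge (leaf 7 527 656) (node 623 (merge (leaf 5 527 655) (node 622 (merge (leaf 5 526 654) (node 593 (merge (leaf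 1 590 594) (leaf 2 589 621))))))))))))) (node 561 (merge (node 562 (merge (leaf 3 527 563) (node 594 (merge (leaf 0 559 595) (node 558 (merge (leaf 0 558 593) (node 557 (merge (leaf 2 525 529) (leaf 2 524 556))))))))) (merge (node 562 (merge (leaf 3 527 563) (node 590 (merge (leaf 1 558 591) (node 558 (merge (leaf 1 557 589) (node 529 (merge (leaf 1 526 530) (leaf 2 525 557))))))))) (merge (node 562 (merge (leaf 3 527 563) (node 594 (merge (leaf 0 559 595) (node 591 (merge (leaf 1 558 590) (node 623 (merge (leaf 6 527 655) (node 622 (merge (leaf 1 590 593) (leaf 5 526 654))))))))))) (node 558 (merge (node 529 (merge (leaf 2 526 530) (leaf 2 525 557))) (merge (node 557 (merge (leaf 2 524 556) (leaf 0 557 593))) (node 593 (merge (leaf 0 558 594) (node 625 (merge (leaf 7 528 657) (node 529 (merge (leaf 1 526 530) (node 590 (merge (leaf 1 557 589) (node 626 (merge (leaf 0 590 591) (leaf 4 529 658))))))))))))))))))))) (merge (node 496 (merge (node 591 (merge (leaf 5 463 464) (leaf 6 495 623))) (merge (node 464 (merge (leaf 5 431 432) (node 465 (merge (leaf 6 432 433)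 (node 497 (merge (leaf 6 464 592) (node 498 (merge (leaf 1 495 499) (node 463 (merge (leaf 7 431 431) (leaf 0 462 462))))))))))) (node 592 (merge (node 624 (merge (leaf 7 527 656) (node 529 (merge (leaf 6 496 497) (node 530 (merge (leaf 1 527 531) (leaf 1 526 558))))))) (merge (node 593 (merge (leaf 4 496 625) (node 594 (merge (leaf 3 559 595) (node 591 (merge (leaf 3 558 558) (leaf 5 495 623))))))) (node 624 (merge (leaf 7 527 656) (node 623 (merge (leaf 5 527 655) (node 591 (merge (leaf 5 495 496) (node 622 (merge (leaf 5 526 654) (node 621 (merge (leaf 2 589 593) (leaf 2 588 620))))))))))))))))) (node 624 (merge (node 592 (merge (leaf 7 527 656) (node 529 (merge (leaf 6 496 497) (node 530 (merge (leaf 1 527 531) (leaf 1 526 558))))))) (merge (node 592 (merge (leaf 7 527 656) (node 625 (merge (leaf 4 528 657) (node 623 (merge (leaf 5 527 655) (node 591 (merge (leaf 5 495 496) (node 626 (merge (leaf 3 590 590) (leaf 3 591 627))))))))))) (merge (node 623 (merge (node 591 (merge (leaf 6 495 496) (leaf 6 527 655))) (merge (node 592 (merge (leaf 5 527 655) (node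 529 (merge (leaf 6 496 497) (node 558 (merge (leaf 1 526 530) (leaf 2 525 557))))))) (node 496 (merge (leaf 6 495 591) (node 464 (merge (leaf 5 431 432) (node 465 (merge (leaf 6 432 433) (node 497 (merge (leaf 6 464 592) (node 498 (merge (leaf 1 495 499) (node 463 (merge (leaf 7 431 431) (leaf 0 462 462)))))))))))))))) (node 622 (merge (node 558 (merge (node 557 (merge (leaf 2 525 529) (leaf 2 524 556))) (node 590 (merge (leaf 6 526 654) (node 561 (merge (leaf 1 557 589) (node 562 (merge (leaf 3 527 563) (leaf 1 558 591))))))))) (merge (node 654 (merge (node 558 (merge (leaf 6 526 590) (node 557 (merge (leaf 2 525 529) (leaf 2 524 556))))) (node 623 (merge (leaf 5 526 591) (node 625 (merge (leaf 1 621 653) (node 658 (merge (leaf 0 622 657) (node 626 (merge (leaf 1 622 655) (leaf 0 623 659))))))))))) (merge (node 558 (merge (node 557 (merge (leaf 2 525 529) (leaf 2 524 556))) (node 590 (merge (leaf 6 526 654) (node 589 (merge (leaf 1 557 561) (node 623 (merge (leaf 3 589 625) (node 621 (merge (leaf 3 588 588) (node 653 (merge (leaf 1 620 652) (leaf 6 557 685)))))))))))))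 (merge (node 623 (merge (node 591 (merge (leaf 6 495 496) (leaf 6 527 655))) (merge (node 591 (merge (leaf 5 526 654) (leaf 4 527 656))) (node 625 (merge (node 653 (merge (leaf 1 621 654) (node 621 (merge (leaf 1 620 652) (node 589 (merge (leaf 3 588 588) (leaf 3 589 590))))))) (merge (node 658 (merge (leaf 0 622 657) (node 626 (merge (leaf 0 623 659) (node 654 (merge (leaf 1 621 653) (leaf 1 622 655))))))) (merge (node 657 (merge (leaf 0 622 658) (node 621 (merge (leaf 0 621 656) (node 589 (merge (leaf 3 588 588) (leaf 3 589 590))))))) (node 658 (merge (leaf 0 622 657) (node 626 (merge (leaf 0 623 659) (node 655 (merge (leaf 1 622 654) (node 627 (merge (leaf 1 623 656) (node 595 (merge (leaf 2 591 594) (leaf 2 592 596)))))))))))))))))) (merge (node 623 (merge (node 591 (merge (leaf 6 495 496) (leaf 6 527 655))) (merge (node 591 (merge (leaf 6 495 496) (leaf 4 527 656))) (node 621 (merge (node 656 (merge (leaf 0 621 657) (node 620 (merge (leaf 0 620 655) (node 652 (merge (leaf 1 619 651) (leaf 1 620 653))))))) (merge (node 657 (merge (leaf 0 621 656) (node 625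 (merge (leaf 0 622 658) (node 589 (merge (leaf 3 588 588) (leaf 3 589 590))))))) (node 652 (merge (leaf 1 620 653) (node 620 (merge (leaf 1 619 651) (node 589 (merge (leaf 3 588 588) (node 557 (merge (leaf 5 524 525) (node 558 (merge (leaf 2 525 529) (leaf 2 524 556))))))))))))))))) (node 623 (merge (node 591 (merge (leaf 6 495 496) (leaf 6 527 655))) (merge (node 591 (merge (leaf 5 526 654) (leaf 4 527 656))) (node 621 (merge (node 656 (merge (leaf 0 621 657) (node 620 (merge (leaf 0 620 655) (node 652 (merge (leaf 1 619 651) (leaf 1 620 653))))))) (merge (node 653 (merge (leaf 1 620 652) (node 654 (merge (leaf 1 621 625) (node 589 (merge (leaf 3 588 588) (node 686 (merge (leaf 4 557 557) (leaf 7 589 718))))))))) (merge (node 656 (merge (leaf 0 621 657) (node 620 (merge (leaf 0 620 655) (node 652 (merge (leaf 1 619 651) (node 589 (merge (leaf 3 588 588) (node 557 (merge (leaf 5 524 525) (node 558 (merge (leaf 2 525 529) (leaf 2 524 556))))))))))))) (node 657 (merge (leaf 0 621 656) (node 625 (merge (leaf 0 622 658) (node 654 (merge (leaf 1 621 653) (node 589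 (merge (leaf 3 588 588) (node 557 (merge (leaf 4 525 525) (node 558 (merge (leaf 2 525 529) (leaf 2 524 556)))))))))))))))))))))))))))))))))))))))) nH_22 cH_22 12 (by decide +kernel)
def nH_23 : ℕ := 0x1800000000000000000000000000000000000000000000000000000000000000000000000000000000000000000000000000000000000000000000000000000000000
def cH_23 : ℕ := 0x40000001e000000ff800000ff800001ff800000ffc00001e3000001ff000000ff0000007c0000001c000000100000000000000000000000000000000000000000000000000000000000000000000000000000000000000000000
theorem lH_23 : S nH_23 cH_23 13 := S_of_chk [(nH_22, cH_22, 12)] ⟨lH_22, trivial⟩ (node 559 (merge (node 591 (merge (node 623 (merge (leaf 6 495 496) (node 656 (merge (leaf 4 527 624) (node 655 (merge (leaf 6 527 560) (leaf 4 559 688))))))) (merge (node 623 (merge (node 656 (merge (leaf 4 527 624) (node 655 (merge (leaf 6 527 560) (leaf 4 559 688))))) (merge (node 655 (merge (leaf 6 527 560) (node 654 (merge (leaf 5 526 622) (leaf 5 558 686))))) (node 624 (merge (leaf 4 527 656) (node 495 (merge (leaf 4 495 592) (node 622 (merge (leaf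 5 494 590) (leaf 5 526 654)))))))))) (merge (node 623 (merge (leaf 6 495 496) (node 624 (merge (leaf 4 527 656) (node 495 (merge (leaf 4 495 592) (node 622 (merge (leaf 5 494 590) (leaf 5 526 654))))))))) (node 495 (merge (node 494 (merge (leaf 7 462 462) (node 493 (merge (leaf 0 492 492) (node 529 (merge (leaf 0 493 496) (leaf 3 494 530))))))) (node 590 (merge (leaf 5 494 622) (node 463 (merge (leaf 5 462 558) (node 560 (merge (leaf 4 431 431) (leaf 4 463 592))))))))))))) (merge (node 496 (merge (node 464 (merge (leaf 5 431 432) (node 591 (merge (leaf 6 463 495) (leaf 5 463 560))))) (merge (node 591 (merge (leaf 6 495 623) (node 464 (merge (leaf 5 431 432) (leaf 5 463 560))))) (merge (node 591 (merge (leaf 6 495 623) (node 495 (merge (leaf 6 463 464) (node 494 (merge (leaf 7 462 462) (node 493 (merge (leaf 0 492 492) (leaf 0 493 529))))))))) (merge (node 591 (merge (leaf 6 495 623) (node 495 (merge (node 494 (merge (leaf 7 462 462) (node 493 (merge (leaf 0 492 492) (node 529 (merge (leaf 0 493 496) (leaf 3 494 530))))))) (node 592 (merge (leaf 4 495 624) (node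 560 (merge (leaf 4 463 463) (node 593 (merge (leaf 4 496 625) (node 594 (merge (leaf 3 558 558) (leaf 3 559 595))))))))))))) (node 464 (merge (leaf 5 431 432) (node 560 (merge (node 593 (merge (leaf 4 464 561) (node 592 (merge (leaf 4 496 625) (node 463 (merge (leaf 7 431 431) (leaf 4 463 495))))))) (merge (node 465 (merge (leaf 6 432 433) (node 592 (merge (leaf 6 464 497) (node 624 (merge (leaf 7 495 495) (node 656 (merge (leaf 7 527 559) (node 655 (merge (leaf 5 527 623) (leaf 5 559 687))))))))))) (node 561 (merge (leaf 4 464 593) (node 562 (merge (leaf 3 527 563) (node 530 (merge (leaf 2 527 531) (node 529 (merge (leaf 1 526 558) (node 498 (merge (leaf 2 495 499) (node 465 (merge (leaf 6 432 433) (node 497 (merge (leaf 4 465 594) (node 463 (merge (leaf 7 431 431) (leaf 0 462 462))))))))))))))))))))))))))) (merge (node 591 (merge (node 623 (merge (leaf 6 495 496) (node 656 (merge (leaf 4 527 624) (node 655 (merge (leaf 6 527 560) (leaf 4 559 688))))))) (merge (node 623 (merge (leaf 6 495 496) (node 656 (merge (leaf 4 527 624) (node 655 (merge (leaf 4 559 688)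 (node 654 (merge (leaf 5 526 622) (leaf 5 558 686))))))))) (merge (node 622 (merge (node 590 (merge (leaf 5 494 495) (node 654 (merge (leaf 6 526 558) (leaf 6 558 686))))) (merge (node 623 (merge (leaf 5 526 654) (node 656 (merge (leaf 4 527 624) (node 655 (merge (leaf 6 527 560) (leaf 4 559 688))))))) (node 495 (merge (leaf 5 494 590) (node 462 (merge (leaf 7 462 494) (node 463 (merge (leaf 7 430 430) (node 431 (merge (leaf 4 431 560) (node 432 (merge (leaf 6 399 400) (leaf 6 431 464)))))))))))))) (node 495 (merge (node 494 (merge (leaf 7 462 462) (node 493 (merge (leaf 0 492 492) (node 529 (merge (leaf 0 493 496) (leaf 3 494 530))))))) (node 590 (merge (leaf 5 494 622) (node 463 (merge (leaf 5 462 558) (node 431 (merge (leaf 4 431 560) (node 432 (merge (leaf 6 399 400) (leaf 6 431 464))))))))))))))) (merge (node 591 (merge (node 496 (merge (leaf 6 495 623) (node 464 (merge (leaf 5 431 432) (leaf 5 463 560))))) (merge (node 623 (merge (leaf 6 495 496) (node 656 (merge (leaf 4 527 624) (node 655 (merge (leaf 4 559 688) (node 654 (merge (leaf 5 526 622) (leaf 5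 558 686))))))))) (merge (node 623 (merge (node 656 (merge (leaf 4 527 624) (node 655 (merge (leaf 6 527 560) (leaf 4 559 688))))) (merge (node 655 (merge (leaf 6 527 560) (node 654 (merge (leaf 5 526 622) (leaf 5 558 686))))) (node 624 (merge (leaf 4 527 656) (node 495 (merge (leaf 4 495 592) (node 622 (merge (leaf 5 494 590) (leaf 5 526 654)))))))))) (node 495 (merge (node 494 (merge (leaf 7 462 462) (node 493 (merge (leaf 0 492 492) (node 529 (merge (leaf 0 493 496) (leaf 3 494 530))))))) (merge (node 592 (merge (leaf 4 495 624) (node 463 (merge (leaf 4 463 560) (node 432 (merge (leaf 6 431 464) (node 431 (merge (leaf 6 399 400) (node 430 (merge (leaf 7 398 398) (leaf 7 430 462))))))))))) (node 592 (merge (leaf 4 495 624) (node 560 (merge (leaf 4 463 463) (node 590 (merge (leaf 5 494 622) (node 561 (merge (leaf 1 558 562) (leaf 2 557 589)))))))))))))))) (merge (node 591 (merge (node 496 (merge (leaf 6 495 623) (node 464 (merge (leaf 5 431 432) (leaf 5 463 560))))) (merge (node 623 (merge (leaf 6 495 496) (node 656 (merge (leaf 4 527 624) (node 655 (merge (leaf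 4 559 688) (node 654 (merge (leaf 5 526 622) (leaf 5 558 686))))))))) (merge (node 623 (merge (node 656 (merge (leaf 4 527 624) (node 655 (merge (leaf 6 527 560) (leaf 4 559 688))))) (merge (node 655 (merge (leaf 6 527 560) (node 654 (merge (leaf 5 526 622) (leaf 5 558 686))))) (node 624 (merge (leaf 4 527 656) (node 495 (merge (leaf 4 495 592) (node 622 (merge (leaf 5 494 590) (leaf 5 526 654)))))))))) (node 495 (merge (node 592 (merge (leaf 4 495 624) (node 463 (merge (leaf 4 463 560) (node 590 (merge (leaf 5 462 558) (leaf 5 494 622))))))) (merge (node 590 (merge (leaf 5 494 622) (node 463 (merge (leaf 5 462 558) (node 431 (merge (leaf 4 431 560) (node 432 (merge (leaf 6 399 400) (leaf 6 431 464))))))))) (merge (node 592 (merge (leaf 4 495 624) (node 463 (merge (leaf 4 463 560) (node 432 (merge (leaf 6 431 464) (node 431 (merge (leaf 6 399 400) (node 430 (merge (leaf 7 398 398) (leaf 7 430 462))))))))))) (merge (node 592 (merge (leaf 4 495 624) (node 560 (merge (leaf 4 463 463) (node 496 (merge (leaf 5 463 464) (node 593 (merge (leaf 4 496 625) (node 594 (merge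 (leaf 3 558 558) (leaf 3 559 595))))))))))) (node 592 (merge (leaf 4 495 624) (node 590 (merge (leaf 5 494 622) (node 496 (merge (leaf 6 463 464) (node 494 (merge (leaf 7 462 462) (node 493 (merge (leaf 0 492 492) (node 525 (merge (leaf 1 492 524) (node 461 (merge (leaf 3 460 460) (node 557 (merge (leaf 4 461 558) (node 556 (merge (leaf 5 460 588) (leaf 3 556 589)))))))))))))))))))))))))))) (merge (node 496 (merge (node 591 (merge (leaf 6 495 623) (node 464 (merge (leaf 5 431 432) (leaf 5 463 560))))) (merge (node 591 (merge (leaf 6 495 623) (node 495 (merge (leaf 6 463 464) (node 494 (merge (leaf 7 462 462) (node 493 (merge (leaf 0 492 492) (leaf 0 493 529))))))))) (merge (node 591 (merge (leaf 6 495 623) (node 495 (merge (node 494 (merge (leaf 7 462 462) (node 493 (merge (leaf 0 492 492) (node 529 (merge (leaf 0 493 496) (leaf 3 494 530))))))) (node 590 (merge (leaf 5 494 622) (node 463 (merge (leaf 5 462 558) (node 560 (merge (leaf 4 431 431) (leaf 4 463 592))))))))))) (node 560 (merge (node 464 (merge (leaf 5 431 432) (node 463 (merge (leaf 7 431 431) (node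 495 (merge (leaf 4 463 592) (node 462 (merge (leaf 7 430 430) (node 497 (merge (leaf 0 461 461) (leaf 3 462 498))))))))))) (merge (node 464 (merge (leaf 5 431 432) (node 561 (merge (leaf 4 464 593) (node 562 (merge (leaf 3 527 563) (node 530 (merge (leaf 2 527 531) (node 558 (merge (leaf 1 526 529) (node 590 (merge (leaf 1 557 589) (node 463 (merge (leaf 7 431 431) (leaf 5 462 495))))))))))))))) (node 558 (merge (node 529 (merge (leaf 1 526 530) (leaf 2 525 557))) (merge (node 557 (merge (leaf 2 524 556) (node 589 (merge (leaf 1 556 588) (node 590 (merge (leaf 1 557 561) (node 525 (merge (leaf 3 524 524) (node 622 (merge (leaf 4 493 493) (leaf 7 525 654))))))))))) (node 561 (merge (node 594 (merge (leaf 0 558 593) (node 562 (merge (leaf 3 527 563) (leaf 0 559 595))))) (merge (node 593 (merge (leaf 0 558 594) (node 625 (merge (leaf 7 528 657) (node 529 (merge (leaf 7 496 496) (leaf 2 526 530))))))) (merge (node 562 (merge (leaf 3 527 563) (node 530 (merge (leaf 2 527 531) (node 529 (merge (leaf 1 526 558) (node 498 (merge (leaf 2 495 499) (node 593 (merge (leaf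 5 465 466) (leaf 6 497 625))))))))))) (node 562 (merge (leaf 3 527 563) (node 594 (merge (leaf 0 559 595) (node 530 (merge (leaf 2 527 531) (node 529 (merge (leaf 1 526 558) (node 626 (merge (leaf 7 497 497) (leaf 7 529 658))))))))))))))))))))))))) (merge (node 560 (merge (node 592 (merge (node 624 (merge (leaf 7 495 495) (leaf 7 527 656))) (node 593 (merge (node 558 (merge (leaf 0 557 557) (node 594 (merge (leaf 0 558 561) (leaf 3 559 595))))) (node 496 (merge (leaf 4 496 625) (node 465 (merge (leaf 6 464 497) (node 464 (merge (leaf 5 431 432) (leaf 6 432 433))))))))))) (merge (node 558 (merge (node 529 (merge (leaf 1 526 530) (leaf 2 525 557))) (merge (node 557 (merge (leaf 2 524 556) (node 592 (merge (leaf 0 557 593) (node 624 (merge (leaf 7 495 495) (leaf 7 527 656))))))) (node 561 (merge (node 530 (merge (leaf 2 526 529) (node 562 (merge (leaf 2 527 531) (leaf 3 527 563))))) (merge (node 594 (merge (leaf 0 558 593) (node 562 (merge (leaf 3 527 563) (leaf 0 559 595))))) (node 593 (merge (leaf 0 558 594) (node 625 (merge (leaf 7 528 657) (node 529 (merge (leaf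 1 526 530) (node 624 (merge (leaf 5 528 656) (node 592 (merge (leaf 7 495 495) (leaf 5 496 497))))))))))))))))) (merge (node 530 (merge (node 529 (merge (leaf 1 527 531) (leaf 1 526 558))) (merge (node 529 (merge (leaf 1 526 558) (node 495 (merge (leaf 3 494 494) (node 592 (merge (leaf 4 463 463) (leaf 7 495 624))))))) (node 592 (merge (node 624 (merge (leaf 7 495 495) (leaf 7 527 656))) (merge (node 496 (merge (node 465 (merge (leaf 6 464 497) (node 464 (merge (leaf 5 431 432) (leaf 6 432 433))))) (merge (node 463 (merge (leaf 4 463 495) (node 464 (merge (leaf 7 431 431) (leaf 5 431 432))))) (node 495 (merge (leaf 4 463 463) (node 497 (merge (leaf 6 464 465) (node 498 (merge (leaf 1 495 499) (leaf 0 495 531)))))))))) (node 624 (merge (leaf 7 527 656) (node 625 (merge (leaf 4 528 657) (node 496 (merge (leaf 4 496 593) (node 464 (merge (leaf 5 431 432) (node 465 (merge (leaf 6 432 433) (leaf 6 464 497))))))))))))))))) (merge (node 558 (merge (node 529 (merge (leaf 1 526 530) (leaf 2 525 557))) (merge (node 557 (merge (leaf 2 524 556) (node 589 (merge (leaf 1 556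 588) (node 590 (merge (leaf 1 557 561) (node 525 (merge (leaf 3 524 524) (node 622 (merge (leaf 4 493 493) (leaf 7 525 654))))))))))) (node 561 (merge (node 594 (merge (leaf 0 558 593) (node 562 (merge (leaf 3 527 563) (leaf 0 559 595))))) (merge (node 593 (merge (leaf 0 558 594) (node 625 (merge (leaf 7 528 657) (node 529 (merge (leaf 7 496 496) (leaf 2 526 530))))))) (merge (node 562 (merge (leaf 3 527 563) (node 530 (merge (leaf 2 527 531) (node 529 (merge (leaf 1 526 558) (node 498 (merge (leaf 2 495 499) (node 593 (merge (leaf 5 465 466) (leaf 6 497 625))))))))))) (node 562 (merge (leaf 3 527 563) (node 594 (merge (leaf 0 559 595) (node 530 (merge (leaf 2 527 531) (node 529 (merge (leaf 1 526 558) (node 626 (merge (leaf 7 497 497) (leaf 7 529 658)))))))))))))))))) (merge (node 530 (merge (node 529 (merge (leaf 1 527 531) (leaf 1 526 558))) (merge (node 529 (merge (leaf 1 527 531) (node 495 (merge (leaf 3 494 494) (node 592 (merge (leaf 4 463 463) (leaf 7 495 624))))))) (merge (node 529 (merge (leaf 1 526 558) (node 495 (merge (leaf 3 494 494) (node 592 (merge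 (leaf 4 463 463) (leaf 7 495 624))))))) (node 561 (merge (node 562 (merge (leaf 2 527 531) (leaf 3 527 563))) (node 558 (merge (node 557 (merge (leaf 2 524 556) (node 589 (merge (leaf 1 556 588) (leaf 1 557 590))))) (merge (node 593 (merge (leaf 0 558 594) (node 557 (merge (leaf 2 524 556) (leaf 0 557 592))))) (node 593 (merge (leaf 0 558 594) (node 625 (merge (leaf 7 528 657) (node 496 (merge (leaf 4 464 464) (leaf 4 496 592)))))))))))))))) (merge (node 558 (merge (node 529 (merge (leaf 1 526 530) (leaf 2 525 557))) (merge (node 557 (merge (leaf 2 524 556) (node 589 (merge (leaf 1 556 588) (node 590 (merge (leaf 1 557 561) (node 525 (merge (leaf 3 524 524) (node 622 (merge (leaf 4 493 493) (leaf 7 525 654))))))))))) (node 530 (merge (leaf 1 526 529) (node 496 (merge (node 464 (merge (leaf 5 431 432) (node 463 (merge (leaf 7 431 431) (node 495 (merge (leaf 5 462 590) (leaf 4 463 592))))))) (merge (node 464 (merge (leaf 5 431 432) (node 465 (merge (leaf 6 432 433) (node 592 (merge (leaf 6 464 497) (node 624 (merge (leaf 7 495 495) (leaf 7 527 656))))))))) (merge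 (node 495 (merge (node 463 (merge (leaf 4 431 431) (leaf 5 462 590))) (node 592 (merge (leaf 7 495 624) (node 497 (merge (leaf 6 464 465) (node 498 (merge (leaf 1 495 499) (leaf 0 495 531))))))))) (merge (node 464 (merge (leaf 5 431 432) (node 465 (merge (leaf 6 432 433) (node 497 (merge (leaf 6 464 592) (node 498 (merge (leaf 1 495 499) (node 463 (merge (leaf 7 431 431) (leaf 0 462 462))))))))))) (node 464 (merge (leaf 5 431 432) (node 465 (merge (leaf 6 432 433) (node 463 (merge (leaf 7 431 431) (node 495 (merge (leaf 5 462 590) (node 494 (merge (leaf 1 462 466) (leaf 2 461 493))))))))))))))))))))) (node 529 (merge (node 530 (merge (leaf 1 527 531) (node 495 (merge (leaf 3 494 494) (node 592 (merge (leaf 4 463 463) (leaf 7 495 624))))))) (merge (node 497 (merge (node 592 (merge (leaf 6 496 624) (node 465 (merge (leaf 5 432 433) (leaf 5 464 561))))) (merge (node 530 (merge (leaf 1 527 531) (node 562 (merge (leaf 0 527 563) (node 592 (merge (leaf 6 496 624) (node 594 (merge (leaf 7 497 626) (node 595 (merge (leaf 0 559 561) (leaf 3 559 593))))))))))) (merge (node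 530 (merge (leaf 1 527 531) (node 562 (merge (leaf 0 527 563) (node 498 (merge (leaf 2 495 499) (node 465 (merge (leaf 4 433 433) (leaf 7 465 594))))))))) (node 530 (merge (leaf 1 527 531) (node 562 (merge (leaf 0 527 563) (node 498 (merge (leaf 2 495 499) (node 465 (merge (leaf 4 433 433) (leaf 7 465 594))))))))))))) (merge (node 530 (merge (leaf 1 527 531) (node 498 (merge (leaf 2 495 499) (node 495 (merge (leaf 3 494 494) (node 463 (merge (leaf 4 431 431) (node 464 (merge (leaf 6 431 432) (node 462 (merge (leaf 7 430 430) (node 497 (merge (leaf 0 462 465) (leaf 3 462 496))))))))))))))) (node 496 (merge (node 464 (merge (leaf 5 431 432) (node 593 (merge (leaf 4 464 561) (node 465 (merge (leaf 6 432 433) (node 592 (merge (leaf 6 464 497) (leaf 4 496 625))))))))) (merge (node 464 (merge (leaf 5 431 432) (node 593 (merge (leaf 4 464 561) (node 592 (merge (leaf 4 496 625) (node 624 (merge (leaf 7 495 495) (leaf 7 527 656))))))))) (merge (node 464 (merge (leaf 5 431 432) (node 465 (merge (leaf 6 432 433) (node 592 (merge (leaf 6 464 497) (node 624 (merge (leaf 7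 495 495) (leaf 7 527 656))))))))) (merge (node 592 (merge (node 624 (merge (leaf 7 495 495) (leaf 7 527 656))) (merge (node 624 (merge (leaf 6 496 497) (leaf 7 527 656))) (node 495 (merge (leaf 4 463 463) (node 593 (merge (leaf 4 496 625) (node 497 (merge (leaf 6 464 465) (node 498 (merge (leaf 1 495 499) (node 466 (merge (leaf 2 463 467) (leaf 6 465 561)))))))))))))) (node 464 (merge (leaf 5 431 432) (node 561 (merge (leaf 4 464 593) (node 562 (merge (leaf 3 527 563) (node 465 (merge (leaf 6 432 433) (node 497 (merge (leaf 4 465 594) (node 466 (merge (leaf 6 433 434) (node 495 (merge (leaf 1 463 467) (leaf 2 462 494))))))))))))))))))))))))))))))) (merge (node 496 (merge (node 464 (merge (leaf 5 431 432) (node 591 (merge (leaf 6 463 495) (leaf 5 463 560))))) (merge (node 464 (merge (leaf 5 431 432) (node 560 (merge (leaf 5 463 591) (node 465 (merge (leaf 6 432 433) (node 592 (merge (leaf 6 464 497) (node 624 (merge (leaf 7 527 656) (node 625 (merge (leaf 4 496 593) (leaf 4 528 657))))))))))))) (merge (node 560 (merge (node 464 (merge (leaf 5 431 432) (node 465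 (merge (leaf 6 432 433) (node 592 (merge (leaf 6 464 497) (node 624 (merge (leaf 7 495 495) (leaf 7 527 656))))))))) (merge (node 464 (merge (leaf 5 431 432) (node 593 (merge (leaf 4 464 561) (node 592 (merge (leaf 4 496 625) (node 465 (merge (leaf 6 432 433) (leaf 6 464 497))))))))) (merge (node 464 (merge (leaf 5 431 432) (node 561 (merge (leaf 4 464 593) (node 562 (merge (leaf 3 527 563) (node 530 (merge (leaf 2 527 531) (node 558 (merge (leaf 1 526 529) (node 590 (merge (leaf 1 557 589) (node 463 (merge (leaf 7 431 431) (leaf 5 462 495))))))))))))))) (node 495 (merge (node 592 (merge (leaf 7 463 463) (leaf 7 495 624))) (merge (node 463 (merge (leaf 4 431 431) (node 558 (merge (leaf 5 462 590) (node 557 (merge (leaf 2 525 529) (leaf 2 524 556))))))) (node 592 (merge (leaf 7 495 624) (node 593 (merge (leaf 4 496 625) (node 558 (merge (leaf 0 557 557) (node 594 (merge (leaf 0 558 561) (leaf 3 559 595)))))))))))))))) (merge (node 560 (merge (node 464 (merge (leaf 5 463 591) (node 465 (merge (leaf 6 432 433) (node 592 (merge (leaf 6 464 497) (node 463 (merge (leaf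 7 431 431) (leaf 7 463 495))))))))) (merge (node 464 (merge (leaf 5 463 591) (node 593 (merge (leaf 4 464 561) (node 592 (merge (leaf 4 496 625) (node 463 (merge (leaf 7 431 431) (leaf 7 463 495))))))))) (merge (node 464 (merge (leaf 5 463 591) (node 593 (merge (leaf 4 464 561) (node 465 (merge (leaf 6 432 433) (node 592 (merge (leaf 6 464 497) (leaf 4 496 625))))))))) (merge (node 495 (merge (node 592 (merge (leaf 7 463 463) (leaf 7 495 624))) (merge (node 463 (merge (leaf 4 431 431) (node 558 (merge (leaf 5 462 590) (node 557 (merge (leaf 2 525 529) (leaf 2 524 556))))))) (node 592 (merge (leaf 7 495 624) (node 593 (merge (leaf 4 496 625) (node 558 (merge (leaf 0 557 557) (node 594 (merge (leaf 0 558 561) (leaf 3 559 595)))))))))))) (node 464 (merge (leaf 5 463 591) (node 561 (merge (leaf 4 464 593) (node 562 (merge (leaf 3 527 563) (node 530 (merge (leaf 2 527 531) (node 558 (merge (leaf 1 526 529) (node 465 (merge (leaf 6 432 433) (node 463 (merge (leaf 7 431 431) (node 495 (merge (leaf 5 462 590) (node 494 (merge (leaf 1 462 466) (leaf 2 461 493))))))))))))))))))))))))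 (merge (node 529 (merge (node 558 (merge (leaf 1 526 530) (node 557 (merge (leaf 2 524 556) (leaf 2 525 560))))) (merge (node 530 (merge (leaf 1 526 558) (node 499 (merge (leaf 2 495 498) (node 531 (merge (leaf 2 496 500) (node 495 (merge (leaf 3 494 494) (leaf 3 495 496))))))))) (merge (node 495 (merge (node 530 (merge (leaf 3 494 494) (leaf 3 495 531))) (merge (node 494 (merge (leaf 0 493 493) (node 462 (merge (leaf 7 462 591) (node 497 (merge (leaf 3 461 461) (node 465 (merge (leaf 2 462 466) (node 560 (merge (leaf 5 432 433) (leaf 6 464 592))))))))))) (node 592 (merge (node 624 (merge (leaf 7 495 560) (leaf 4 495 591))) (merge (node 530 (merge (leaf 3 495 531) (node 560 (merge (leaf 4 463 463) (node 593 (merge (leaf 4 496 625) (node 594 (merge (leaf 3 559 595) (node 497 (merge (leaf 6 464 465) (node 626 (merge (leaf 4 497 561) (leaf 7 497 562))))))))))))) (node 530 (merge (leaf 3 495 531) (node 562 (merge (leaf 0 527 563) (node 498 (merge (leaf 2 495 499) (node 591 (merge (leaf 4 495 624) (node 590 (merge (leaf 5 494 622) (node 593 (merge (leaf 2 558 561)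 (node 625 (merge (leaf 5 497 594) (leaf 0 590 626))))))))))))))))))))) (node 495 (merge (node 494 (merge (leaf 0 493 493) (node 591 (merge (leaf 7 462 462) (node 590 (merge (leaf 5 494 622) (node 463 (merge (leaf 5 462 558) (node 431 (merge (leaf 4 399 399) (leaf 4 431 560))))))))))) (merge (node 494 (merge (leaf 0 493 493) (node 462 (merge (leaf 7 462 591) (node 497 (merge (leaf 3 461 461) (node 465 (merge (leaf 2 462 466) (node 560 (merge (leaf 5 432 433) (leaf 6 464 592))))))))))) (merge (node 558 (merge (node 463 (merge (leaf 5 462 590) (node 430 (merge (leaf 7 430 462) (node 431 (merge (leaf 7 398 398) (node 399 (merge (leaf 4 399 496) (node 400 (merge (leaf 6 367 368) (leaf 6 399 432))))))))))) (node 557 (merge (leaf 2 524 556) (node 560 (merge (leaf 2 525 529) (node 592 (merge (leaf 0 557 593) (leaf 7 495 624))))))))) (merge (node 494 (merge (leaf 0 493 493) (node 591 (merge (leaf 7 462 462) (node 592 (merge (leaf 4 495 624) (node 590 (merge (leaf 5 494 622) (node 558 (merge (leaf 5 462 463) (node 557 (merge (leaf 0 556 556) (leaf 3 557 593)))))))))))))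 (node 590 (merge (node 558 (merge (leaf 5 462 463) (node 557 (merge (leaf 2 524 556) (leaf 2 525 560))))) (merge (node 558 (merge (leaf 5 462 463) (node 591 (merge (leaf 5 494 622) (node 592 (merge (leaf 4 495 624) (node 593 (merge (leaf 3 557 557) (leaf 3 558 594))))))))) (merge (node 622 (merge (leaf 5 494 591) (node 558 (merge (leaf 6 526 654) (node 557 (merge (leaf 2 524 556) (leaf 2 525 560))))))) (node 591 (merge (leaf 5 494 622) (node 592 (merge (leaf 4 495 624) (node 560 (merge (leaf 4 463 463) (node 561 (merge (leaf 1 558 562) (leaf 2 557 589)))))))))))))))))))))) (node 495 (merge (node 464 (merge (leaf 5 431 432) (leaf 6 463 591))) (merge (node 463 (merge (node 431 (merge (leaf 4 399 399) (node 432 (merge (leaf 6 399 400) (leaf 6 431 464))))) (merge (node 462 (merge (leaf 7 430 430) (node 497 (merge (leaf 3 462 498) (node 461 (merge (leaf 0 461 464) (leaf 3 461 494))))))) (node 430 (merge (leaf 7 430 462) (node 431 (merge (leaf 7 398 398) (node 399 (merge (leaf 4 399 496) (node 400 (merge (leaf 6 367 368) (leaf 6 399 432)))))))))))) (node 529 (merge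 (node 530 (merge (leaf 3 494 494) (leaf 3 495 531))) (merge (node 530 (merge (leaf 1 526 558) (node 499 (merge (leaf 2 495 498) (node 531 (merge (leaf 3 495 496) (leaf 2 496 500))))))) (node 494 (merge (leaf 0 493 493) (node 591 (merge (leaf 7 462 462) (node 592 (merge (leaf 4 495 624) (node 590 (merge (leaf 5 494 622) (node 558 (merge (leaf 5 462 463) (node 557 (merge (leaf 0 556 556) (leaf 3 557 593))))))))))))))))))))))))) (merge (node 560 (merge (node 558 (merge (node 557 (merge (leaf 2 525 529) (leaf 2 524 556))) (node 590 (merge (node 622 (merge (leaf 6 526 654) (node 495 (merge (leaf 5 462 463) (leaf 5 494 591))))) (merge (node 561 (merge (leaf 1 557 589) (node 562 (merge (leaf 1 558 591) (node 531 (merge (leaf 2 527 530) (node 563 (merge (leaf 3 527 527) (leaf 2 528 532))))))))) (node 561 (merge (leaf 1 557 589) (node 594 (merge (leaf 0 558 593) (node 562 (merge (leaf 3 527 563) (leaf 0 559 595)))))))))))) (merge (node 558 (merge (node 529 (merge (leaf 1 526 530) (leaf 2 525 557))) (merge (node 557 (merge (leaf 2 524 556) (node 592 (merge (leaf 0 557 593)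 (node 624 (merge (leaf 7 495 495) (leaf 7 527 656))))))) (node 561 (merge (node 530 (merge (leaf 2 526 529) (node 562 (merge (leaf 2 527 531) (leaf 3 527 563))))) (merge (node 594 (merge (leaf 0 558 593) (node 562 (merge (leaf 3 527 563) (leaf 0 559 595))))) (node 593 (merge (leaf 0 558 594) (node 625 (merge (leaf 7 528 657) (node 529 (merge (leaf 1 526 530) (node 624 (merge (leaf 5 528 656) (node 592 (merge (leaf 7 495 495) (leaf 5 496 497))))))))))))))))) (merge (node 495 (merge (node 592 (merge (leaf 4 463 463) (leaf 7 495 624))) (merge (node 463 (merge (leaf 4 431 431) (node 558 (merge (leaf 5 462 590) (node 557 (merge (leaf 2 525 529) (leaf 2 524 556))))))) (node 591 (merge (node 624 (merge (leaf 4 495 592) (node 623 (merge (leaf 6 527 655) (leaf 4 527 656))))) (merge (node 622 (merge (leaf 5 494 590) (node 623 (merge (leaf 5 526 654) (leaf 6 527 655))))) (node 592 (merge (leaf 4 495 624) (node 590 (merge (leaf 5 494 622) (node 589 (merge (leaf 2 556 588) (node 557 (merge (leaf 3 556 556) (node 529 (merge (leaf 2 525 558) (node 494 (merge (leaf 7 462 462)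 (leaf 3 494 530))))))))))))))))))) (merge (node 558 (merge (node 557 (merge (leaf 2 524 556) (node 592 (merge (leaf 0 557 593) (node 624 (merge (leaf 7 495 495) (leaf 7 527 656))))))) (merge (node 557 (merge (leaf 2 524 556) (node 589 (merge (leaf 1 556 588) (node 590 (merge (leaf 1 557 561) (node 525 (merge (leaf 3 524 524) (node 622 (merge (leaf 4 493 493) (leaf 7 525 654))))))))))) (node 590 (merge (node 622 (merge (leaf 6 526 654) (node 495 (merge (leaf 5 462 463) (leaf 5 494 591))))) (merge (node 561 (merge (leaf 1 557 589) (node 562 (merge (leaf 1 558 591) (node 531 (merge (leaf 2 527 530) (node 563 (merge (leaf 3 527 527) (leaf 2 528 532))))))))) (node 561 (merge (leaf 1 557 589) (node 594 (merge (leaf 0 558 593) (node 562 (merge (leaf 3 527 563) (leaf 0 559 595))))))))))))) (merge (node 561 (merge (node 562 (merge (leaf 3 527 563) (node 594 (merge (leaf 0 559 595) (node 558 (merge (leaf 0 558 593) (node 557 (merge (leaf 2 525 529) (leaf 2 524 556))))))))) (merge (node 558 (merge (node 557 (merge (leaf 2 525 529) (leaf 2 524 556))) (node 590 (merge (leaf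 1 557 589) (node 622 (merge (leaf 6 526 654) (node 495 (merge (leaf 5 462 463) (leaf 5 494 591))))))))) (node 562 (merge (leaf 3 527 563) (node 591 (merge (leaf 1 558 590) (node 623 (merge (leaf 6 527 655) (node 624 (merge (leaf 4 527 656) (node 495 (merge (leaf 4 495 592) (node 463 (merge (leaf 4 431 431) (node 462 (merge (leaf 7 430 430) (leaf 7 462 494)))))))))))))))))) (merge (node 529 (merge (node 530 (merge (leaf 1 527 531) (node 495 (merge (leaf 3 494 494) (node 592 (merge (leaf 4 463 463) (leaf 7 495 624))))))) (merge (node 497 (merge (node 592 (merge (leaf 6 496 624) (node 465 (merge (leaf 5 432 433) (leaf 5 464 561))))) (merge (node 530 (merge (leaf 1 527 531) (node 562 (merge (leaf 0 527 563) (node 592 (merge (leaf 6 496 624) (node 594 (merge (leaf 7 497 626) (node 595 (merge (leaf 0 559 561) (leaf 3 559 593))))))))))) (merge (node 530 (merge (leaf 1 527 531) (node 562 (merge (leaf 0 527 563) (node 498 (merge (leaf 2 495 499) (node 465 (merge (leaf 4 433 433) (leaf 7 465 594))))))))) (node 530 (merge (leaf 1 527 531) (node 562 (merge (leaf 0 527 563)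 (node 498 (merge (leaf 2 495 499) (node 465 (merge (leaf 4 433 433) (leaf 7 465 594))))))))))))) (merge (node 530 (merge (leaf 1 527 531) (node 562 (merge (leaf 0 527 563) (node 498 (merge (leaf 2 495 499) (node 495 (merge (leaf 3 494 494) (node 463 (merge (leaf 4 431 431) (node 464 (merge (leaf 6 431 432) (node 462 (merge (leaf 7 430 430) (node 465 (merge (leaf 0 462 497) (node 433 (merge (leaf 2 430 434) (leaf 7 433 466))))))))))))))))))) (node 591 (merge (node 623 (merge (leaf 6 527 655) (node 624 (merge (leaf 4 527 656) (node 495 (merge (leaf 4 495 592) (node 463 (merge (leaf 4 431 431) (node 462 (merge (leaf 7 430 430) (leaf 7 462 494))))))))))) (merge (node 623 (merge (leaf 6 527 655) (node 622 (merge (leaf 5 526 654) (node 495 (merge (leaf 5 494 590) (node 463 (merge (leaf 4 431 431) (node 462 (merge (leaf 7 430 430) (leaf 7 462 494))))))))))) (merge (node 495 (merge (node 592 (merge (leaf 4 463 463) (leaf 4 495 624))) (merge (node 463 (merge (leaf 4 431 431) (node 462 (merge (leaf 7 430 430) (leaf 7 462 494))))) (node 592 (merge (leaf 4 495 624) (node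 590 (merge (leaf 5 494 622) (node 589 (merge (leaf 2 557 561) (leaf 2 556 588)))))))))) (node 623 (merge (leaf 6 527 655) (node 624 (merge (leaf 4 527 656) (node 622 (merge (leaf 5 526 654) (node 592 (merge (leaf 6 496 497) (node 621 (merge (leaf 2 589 593) (leaf 2 588 620))))))))))))))))))) (node 592 (merge (node 624 (merge (leaf 7 527 656) (node 529 (merge (leaf 6 496 497) (node 558 (merge (leaf 1 526 530) (leaf 2 525 557))))))) (merge (node 591 (merge (node 624 (merge (leaf 7 527 656) (node 625 (merge (leaf 4 528 657) (node 590 (merge (leaf 0 589 589) (node 626 (merge (leaf 0 590 593) (leaf 3 591 627))))))))) (merge (node 623 (merge (leaf 6 527 655) (node 622 (merge (leaf 5 526 654) (node 593 (merge (leaf 1 590 594) (node 621 (merge (leaf 1 589 590) (leaf 2 588 620))))))))) (merge (node 624 (merge (leaf 7 527 656) (node 625 (merge (leaf 4 528 657) (node 626 (merge (leaf 3 591 627) (node 623 (merge (leaf 3 590 590) (leaf 5 527 655))))))))) (node 624 (merge (leaf 7 527 656) (node 623 (merge (leaf 5 527 655) (node 622 (merge (leaf 5 526 654) (node 593 (merge (leaf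 1 590 594) (leaf 2 589 621))))))))))))) (node 561 (merge (node 562 (merge (leaf 3 527 563) (node 594 (merge (leaf 0 559 595) (node 558 (merge (leaf 0 558 593) (node 557 (merge (leaf 2 525 529) (leaf 2 524 556))))))))) (merge (node 562 (merge (leaf 3 527 563) (node 590 (merge (leaf 1 558 591) (node 558 (merge (leaf 1 557 589) (node 529 (merge (leaf 1 526 530) (leaf 2 525 557))))))))) (merge (node 562 (merge (leaf 3 527 563) (node 594 (merge (leaf 0 559 595) (node 591 (merge (leaf 1 558 590) (node 623 (merge (leaf 6 527 655) (node 622 (merge (leaf 1 590 593) (leaf 5 526 654))))))))))) (node 558 (merge (node 529 (merge (leaf 2 526 530) (leaf 2 525 557))) (merge (node 557 (merge (leaf 2 524 556) (leaf 0 557 593))) (node 593 (merge (leaf 0 558 594) (node 625 (merge (leaf 7 528 657) (node 529 (merge (leaf 1 526 530) (node 590 (merge (leaf 1 557 589) (node 626 (merge (leaf 0 590 591) (leaf 4 529 658)))))))))))))))))))))))))))) (merge (node 591 (merge (node 496 (merge (leaf 6 495 623) (node 464 (merge (leaf 5 431 432) (leaf 6 463 495))))) (merge (node 623 (merge (leaf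 6 495 496) (node 656 (merge (leaf 4 527 624) (node 655 (merge (leaf 6 527 560) (leaf 4 559 688))))))) (merge (node 623 (merge (node 656 (merge (leaf 4 527 624) (node 655 (merge (leaf 6 527 560) (leaf 4 559 688))))) (merge (node 655 (merge (leaf 6 527 560) (node 654 (merge (leaf 5 526 622) (leaf 5 558 686))))) (node 624 (merge (leaf 4 527 656) (node 495 (merge (leaf 4 495 592) (node 622 (merge (leaf 5 494 590) (leaf 5 526 654)))))))))) (node 592 (merge (node 624 (merge (leaf 4 495 495) (node 656 (merge (leaf 7 527 560) (leaf 7 559 688))))) (merge (node 495 (merge (leaf 4 495 624) (node 494 (merge (leaf 7 462 462) (node 493 (merge (leaf 0 492 492) (node 529 (merge (leaf 0 493 496) (leaf 3 494 530))))))))) (merge (node 560 (merge (node 496 (merge (leaf 5 463 464) (node 593 (merge (leaf 4 496 625) (node 594 (merge (leaf 3 558 558) (leaf 3 559 595))))))) (merge (node 624 (merge (leaf 7 527 656) (node 529 (merge (leaf 6 496 497) (node 530 (merge (leaf 1 527 531) (leaf 1 526 558))))))) (node 624 (merge (leaf 7 527 656) (node 496 (merge (leaf 5 463 464) (node 497 (merge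 (leaf 6 464 465) (leaf 6 496 529)))))))))) (node 560 (merge (node 496 (merge (leaf 5 463 464) (node 593 (merge (leaf 4 496 625) (node 594 (merge (leaf 3 558 558) (leaf 3 559 595))))))) (merge (node 558 (merge (node 557 (merge (leaf 2 525 529) (leaf 0 556 556))) (merge (node 530 (merge (leaf 1 526 529) (node 496 (merge (leaf 5 463 464) (node 497 (merge (leaf 6 464 465) (node 498 (merge (leaf 1 495 499) (node 495 (merge (leaf 0 495 531) (node 590 (merge (leaf 5 494 622) (node 589 (merge (leaf 1 557 561) (leaf 2 556 588))))))))))))))) (node 557 (merge (leaf 0 556 556) (node 589 (merge (leaf 1 556 588) (node 590 (merge (leaf 1 557 561) (node 621 (merge (leaf 1 588 620) (node 654 (merge (leaf 6 526 622) (node 653 (merge (leaf 6 557 685) (leaf 4 557 686)))))))))))))))) (merge (node 496 (merge (leaf 5 463 464) (node 593 (merge (leaf 4 496 625) (node 594 (merge (leaf 3 559 595) (node 562 (merge (leaf 2 559 563) (node 590 (merge (leaf 1 558 561) (node 622 (merge (leaf 5 494 495) (leaf 1 589 621))))))))))))) (node 561 (merge (node 590 (merge (leaf 1 558 562) (node 589 (merge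 (leaf 2 556 588) (leaf 2 557 592))))) (merge (node 562 (merge (leaf 1 559 563) (node 594 (merge (leaf 0 559 595) (node 558 (merge (leaf 0 558 593) (node 530 (merge (leaf 2 526 529) (leaf 2 527 531))))))))) (node 590 (merge (leaf 2 557 589) (node 495 (merge (leaf 5 494 622) (node 494 (merge (leaf 7 462 462) (node 529 (merge (leaf 3 494 530) (node 558 (merge (leaf 2 525 557) (node 593 (merge (leaf 0 558 594) (node 625 (merge (leaf 0 590 626) (leaf 7 528 657)))))))))))))))))))))))))))))) (merge (node 591 (merge (node 496 (merge (leaf 6 495 623) (node 464 (merge (leaf 5 431 432) (leaf 6 463 495))))) (merge (node 623 (merge (leaf 6 495 496) (node 656 (merge (leaf 4 527 624) (node 655 (merge (leaf 6 527 560) (leaf 4 559 688))))))) (merge (node 623 (merge (node 656 (merge (leaf 4 527 624) (node 655 (merge (leaf 6 527 560) (leaf 4 559 688))))) (merge (node 655 (merge (leaf 6 527 560) (node 654 (merge (leaf 5 526 622) (leaf 5 558 686))))) (node 624 (merge (leaf 4 527 656) (node 495 (merge (leaf 4 495 592) (node 622 (merge (leaf 5 494 590) (leaf 5 526 654)))))))))) (node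 592 (merge (node 624 (merge (leaf 4 495 495) (node 656 (merge (leaf 7 527 560) (leaf 7 559 688))))) (merge (node 495 (merge (leaf 4 495 624) (node 590 (merge (leaf 5 494 622) (node 558 (merge (leaf 5 462 463) (node 593 (merge (leaf 3 557 557) (leaf 3 558 594))))))))) (merge (node 560 (merge (node 496 (merge (leaf 5 463 464) (node 593 (merge (leaf 4 496 625) (node 594 (merge (leaf 3 558 558) (leaf 3 559 595))))))) (merge (node 624 (merge (leaf 7 527 656) (node 529 (merge (leaf 6 496 497) (node 530 (merge (leaf 1 527 531) (leaf 1 526 558))))))) (node 624 (merge (leaf 7 527 656) (node 496 (merge (leaf 5 463 464) (node 497 (merge (leaf 6 464 465) (leaf 6 496 529)))))))))) (node 590 (merge (node 495 (merge (leaf 5 494 622) (node 463 (merge (leaf 5 462 558) (node 560 (merge (leaf 4 431 431) (leaf 4 463 592))))))) (merge (node 593 (merge (node 622 (merge (leaf 1 589 621) (node 558 (merge (leaf 3 557 557) (leaf 6 526 654))))) (node 626 (merge (leaf 0 590 625) (node 594 (merge (leaf 0 591 627) (node 562 (merge (leaf 2 558 561) (leaf 2 559 563))))))))) (merge (node 495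 (merge (leaf 5 494 622) (node 560 (merge (leaf 4 463 463) (node 561 (merge (leaf 1 558 562) (leaf 2 557 589))))))) (node 589 (merge (node 620 (merge (leaf 1 588 621) (node 588 (merge (leaf 1 587 619) (node 556 (merge (leaf 3 555 555) (leaf 3 556 557))))))) (merge (node 557 (merge (leaf 3 556 556) (node 593 (merge (leaf 3 557 558) (node 626 (merge (leaf 0 590 625) (node 594 (merge (leaf 0 591 627) (node 562 (merge (leaf 2 558 561) (leaf 2 559 563))))))))))) (merge (node 620 (merge (leaf 1 588 621) (node 588 (merge (leaf 1 587 619) (node 587 (merge (leaf 2 555 558) (node 555 (merge (leaf 3 554 554) (leaf 3 555 556))))))))) (node 620 (merge (leaf 1 588 621) (node 588 (merge (leaf 1 587 619) (node 558 (merge (leaf 2 555 587) (node 593 (merge (leaf 3 557 557) (leaf 3 558 594))))))))))))))))))))))))) (merge (node 591 (merge (node 496 (merge (leaf 6 495 623) (node 464 (merge (leaf 5 431 432) (leaf 6 463 495))))) (merge (node 623 (merge (leaf 6 495 496) (node 656 (merge (leaf 4 527 624) (node 655 (merge (leaf 4 559 688) (node 654 (merge (leaf 5 526 622) (leaf 5 558 686)))))))))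 (merge (node 495 (merge (node 494 (merge (leaf 7 462 462) (node 493 (merge (leaf 0 492 492) (node 529 (merge (leaf 0 493 496) (leaf 3 494 530))))))) (merge (node 590 (merge (leaf 5 494 622) (node 463 (merge (leaf 5 462 558) (node 432 (merge (leaf 6 431 464) (node 431 (merge (leaf 6 399 400) (node 430 (merge (leaf 7 398 398) (leaf 7 430 462))))))))))) (node 592 (merge (leaf 4 495 624) (node 590 (merge (leaf 5 494 622) (node 558 (merge (leaf 5 462 463) (node 557 (merge (leaf 0 556 556) (leaf 3 557 593)))))))))))) (node 592 (merge (node 624 (merge (leaf 4 495 495) (node 656 (merge (leaf 4 527 623) (leaf 7 559 688))))) (merge (node 495 (merge (leaf 4 495 624) (node 590 (merge (leaf 5 494 622) (node 558 (merge (leaf 5 462 463) (node 593 (merge (leaf 3 557 557) (leaf 3 558 594))))))))) (merge (node 593 (merge (node 594 (merge (leaf 3 558 558) (node 623 (merge (leaf 1 590 622) (node 624 (merge (leaf 1 591 595) (leaf 4 527 656))))))) (merge (node 594 (merge (leaf 3 558 558) (node 626 (merge (leaf 0 591 627) (node 590 (merge (leaf 0 590 625) (node 562 (merge (leaf 2 558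 561) (leaf 2 559 563))))))))) (merge (node 622 (merge (node 623 (merge (leaf 1 590 594) (leaf 5 526 654))) (merge (node 590 (merge (leaf 1 589 621) (node 594 (merge (leaf 1 590 623) (node 562 (merge (leaf 2 558 561) (leaf 2 559 563))))))) (node 590 (merge (leaf 1 589 621) (node 625 (merge (leaf 0 590 626) (node 624 (merge (leaf 0 589 589) (node 656 (merge (leaf 7 559 688) (node 561 (merge (leaf 5 528 529) (leaf 2 558 562)))))))))))))) (node 622 (merge (node 623 (merge (leaf 5 526 654) (node 624 (merge (leaf 2 589 621) (leaf 4 527 656))))) (merge (node 654 (merge (leaf 5 526 623) (node 590 (merge (leaf 6 526 558) (leaf 6 558 686))))) (merge (node 590 (merge (leaf 1 589 621) (node 625 (merge (leaf 0 590 626) (node 624 (merge (leaf 0 589 589) (node 656 (merge (leaf 7 559 688) (node 561 (merge (leaf 5 528 529) (leaf 2 558 562))))))))))) (node 590 (merge (leaf 1 589 621) (node 625 (merge (leaf 0 590 626) (node 624 (merge (leaf 0 589 589) (node 656 (merge (leaf 4 527 623) (leaf 7 559 688))))))))))))))))) (node 590 (merge (node 495 (merge (leaf 5 494 622) (node 463 (merge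 (leaf 5 462 558) (node 462 (merge (leaf 7 430 430) (leaf 7 462 494))))))) (merge (node 622 (merge (leaf 5 494 495) (node 654 (merge (leaf 5 526 623) (leaf 6 558 686))))) (merge (node 593 (merge (node 562 (merge (leaf 2 558 561) (node 594 (merge (leaf 3 558 558) (leaf 2 559 563))))) (merge (node 622 (merge (leaf 1 589 621) (node 558 (merge (leaf 3 557 557) (leaf 6 526 654))))) (node 622 (merge (leaf 1 589 621) (node 623 (merge (leaf 1 590 594) (leaf 5 526 654)))))))) (node 589 (merge (node 620 (merge (leaf 1 588 621) (node 588 (merge (leaf 1 587 619) (node 556 (merge (leaf 3 555 555) (leaf 3 556 557))))))) (merge (node 557 (merge (leaf 3 556 556) (node 593 (merge (leaf 3 557 558) (node 626 (merge (leaf 0 590 625) (node 594 (merge (leaf 0 591 627) (node 562 (merge (leaf 2 558 561) (leaf 2 559 563))))))))))) (merge (node 620 (merge (leaf 1 588 621) (node 588 (merge (leaf 1 587 619) (node 587 (merge (leaf 2 555 558) (node 555 (merge (leaf 3 554 554) (leaf 3 555 556))))))))) (node 620 (merge (leaf 1 588 621) (node 588 (merge (leaf 1 587 619) (node 558 (merge (leaf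 2 555 587) (node 593 (merge (leaf 3 557 557) (leaf 3 558 594))))))))))))))))))))))))) (hyp 0)))))))))))))) nH_23 cH_23 13 (by decide +kernel)
def nH_24 : ℕ := 0x1c00000000000000000000000000000000000000000000000000000000000000000000000000000000000000000000000000000000000000000000000000000000000
def cH_24 : ℕ := 0x80000000c0000002e0000003e0000007f0000007f0000003fe0000003c000000fc000000e0000000e00000006000000000000000000000000000000000000000000000000000000000000000000000000000000000000000000000000000
theorem lH_24 : S nH_24 cH_24 11 := S_of_chk [] trivial (node 558 (merge (node 525 (merge (node 493 (merge (leaf 3 492 492) (node 461 (merge (leaf 4 429 429) (node 590 (merge (leaf 4 461 557) (leaf 7 493 622))))))) (merge (node 560 (merge (leaf 0 525 561) (node 524 (merge (leaf 0 524 559) (node 556 (merge (leaf 1 523 555) (leaf 1 524 557))))))) (node 560 (merge (leaf 0 525 561) (node 524 (merge (leaf 0 524 559) (node 492 (merge (leaf 3 491 491) (leaf 3 492 493)))))))))) (merge (node 590 (merge (node 495 (merge (leaf 6 494 622) (node 463 (merge (leaf 5 430 431) (leaf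 5 462 559))))) (merge (node 622 (merge (leaf 6 494 495) (node 655 (merge (leaf 4 526 623) (node 654 (merge (leaf 4 558 687) (node 653 (merge (leaf 5 525 621) (leaf 5 557 685))))))))) (merge (node 622 (merge (node 655 (merge (leaf 4 526 623) (node 654 (merge (leaf 6 526 559) (leaf 4 558 687))))) (merge (node 654 (merge (leaf 6 526 559) (node 653 (merge (leaf 5 525 621) (leaf 5 557 685))))) (node 623 (merge (leaf 4 526 655) (node 494 (merge (leaf 4 494 591) (node 621 (merge (leaf 5 493 589) (leaf 5 525 653)))))))))) (node 494 (merge (node 493 (merge (leaf 7 461 461) (node 492 (merge (leaf 0 491 491) (leaf 0 492 495))))) (merge (node 591 (merge (leaf 4 494 623) (node 462 (merge (leaf 4 462 559) (node 589 (merge (leaf 5 461 557) (leaf 5 493 621))))))) (node 589 (merge (leaf 5 493 621) (node 462 (merge (leaf 5 461 557) (node 559 (merge (leaf 4 430 430) (leaf 4 462 591)))))))))))))) (merge (node 590 (merge (node 495 (merge (leaf 6 494 622) (node 463 (merge (leaf 5 430 431) (leaf 5 462 559))))) (merge (node 622 (merge (leaf 6 494 495) (node 655 (merge (leaf 4 526 623)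 (node 654 (merge (leaf 4 558 687) (node 525 (merge (leaf 7 493 493) (leaf 7 525 557))))))))) (merge (node 622 (merge (node 655 (merge (leaf 4 526 623) (node 654 (merge (leaf 6 526 559) (leaf 4 558 687))))) (merge (node 654 (merge (leaf 6 526 559) (node 653 (merge (leaf 5 525 621) (leaf 5 557 685))))) (node 623 (merge (leaf 4 526 655) (node 494 (merge (leaf 4 494 591) (node 621 (merge (leaf 5 493 589) (leaf 5 525 653)))))))))) (node 557 (merge (node 556 (merge (leaf 1 524 525) (leaf 2 523 555))) (node 494 (merge (node 589 (merge (leaf 5 461 462) (leaf 5 493 621))) (merge (node 591 (merge (leaf 4 494 623) (node 462 (merge (leaf 4 462 559) (node 589 (merge (leaf 5 461 557) (leaf 5 493 621))))))) (merge (node 591 (merge (leaf 4 494 623) (node 592 (merge (leaf 3 557 593) (node 559 (merge (leaf 4 462 462) (node 495 (merge (leaf 5 462 463) (leaf 4 495 624))))))))) (node 591 (merge (leaf 4 494 623) (node 592 (merge (leaf 3 557 593) (node 589 (merge (leaf 5 493 621) (node 624 (merge (leaf 0 589 625) (node 495 (merge (leaf 6 462 463) (leaf 4 495 559)))))))))))))))))))))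 (merge (node 525 (merge (node 560 (merge (leaf 0 525 561) (node 524 (merge (leaf 0 524 559) (node 556 (merge (leaf 1 523 555) (leaf 1 524 557))))))) (merge (node 560 (merge (leaf 0 525 561) (node 524 (merge (leaf 0 524 559) (node 492 (merge (leaf 3 491 491) (leaf 3 492 493))))))) (merge (node 556 (merge (leaf 1 524 557) (node 524 (merge (leaf 1 523 555) (node 492 (merge (leaf 3 491 491) (leaf 3 492 493))))))) (node 560 (merge (leaf 0 525 561) (node 557 (merge (leaf 1 524 556) (node 493 (merge (leaf 3 492 492) (node 461 (merge (leaf 4 429 429) (node 462 (merge (leaf 6 429 430) (node 589 (merge (leaf 5 461 494) (node 588 (merge (leaf 1 556 559) (leaf 5 492 620))))))))))))))))))) (merge (node 590 (merge (node 495 (merge (leaf 6 494 622) (node 463 (merge (leaf 5 430 431) (leaf 5 462 559))))) (merge (node 495 (merge (leaf 6 494 622) (node 494 (merge (leaf 6 462 463) (node 493 (merge (leaf 7 461 461) (leaf 0 492 492))))))) (merge (node 622 (merge (node 655 (merge (leaf 4 526 623) (node 654 (merge (leaf 6 526 559) (leaf 4 558 687))))) (merge (node 654 (merge (leaf 6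 526 559) (node 653 (merge (leaf 5 525 621) (leaf 5 557 685))))) (node 623 (merge (leaf 4 526 655) (node 494 (merge (leaf 4 494 591) (node 621 (merge (leaf 5 493 589) (leaf 5 525 653)))))))))) (node 494 (merge (node 493 (merge (leaf 7 461 461) (node 492 (merge (leaf 0 491 491) (leaf 0 492 495))))) (merge (node 591 (merge (leaf 4 494 623) (node 559 (merge (leaf 4 462 462) (node 589 (merge (leaf 5 493 621) (node 560 (merge (leaf 1 557 561) (leaf 2 556 588))))))))) (node 493 (merge (leaf 7 461 461) (node 492 (merge (leaf 0 491 491) (leaf 3 492 525)))))))))))) (merge (node 590 (merge (node 495 (merge (leaf 6 494 622) (node 463 (merge (leaf 5 430 431) (leaf 5 462 559))))) (merge (node 622 (merge (leaf 6 494 495) (node 655 (merge (leaf 4 526 623) (node 654 (merge (leaf 4 558 687) (node 653 (merge (leaf 5 525 621) (leaf 5 557 685))))))))) (merge (node 622 (merge (node 655 (merge (leaf 4 526 623) (node 654 (merge (leaf 6 526 559) (leaf 4 558 687))))) (merge (node 654 (merge (leaf 6 526 559) (node 653 (merge (leaf 5 525 621) (leaf 5 557 685))))) (node 623 (merge (leaf 4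 526 655) (node 494 (merge (leaf 4 494 591) (node 621 (merge (leaf 5 493 589) (leaf 5 525 653)))))))))) (node 591 (merge (node 623 (merge (leaf 4 494 494) (node 655 (merge (leaf 7 526 559) (leaf 7 558 687))))) (merge (node 494 (merge (leaf 4 494 623) (node 589 (merge (leaf 5 493 621) (node 462 (merge (leaf 5 461 557) (node 495 (merge (leaf 6 462 463) (node 430 (merge (leaf 4 398 398) (node 429 (merge (leaf 7 397 397) (leaf 7 429 461))))))))))))) (merge (node 589 (merge (node 621 (merge (leaf 5 493 494) (node 653 (merge (leaf 6 525 557) (leaf 6 557 685))))) (merge (node 557 (merge (node 556 (merge (leaf 1 524 525) (leaf 0 555 555))) (node 592 (merge (leaf 3 557 593) (node 624 (merge (leaf 0 589 625) (node 560 (merge (leaf 7 495 495) (leaf 2 557 561))))))))) (merge (node 557 (merge (node 556 (merge (leaf 1 524 525) (leaf 0 555 555))) (node 592 (merge (leaf 3 557 593) (node 624 (merge (leaf 0 589 625) (node 560 (merge (leaf 7 495 495) (leaf 2 557 561))))))))) (node 494 (merge (leaf 5 493 621) (node 559 (merge (leaf 4 462 462) (node 560 (merge (leaf 1 557 561) (leaf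 2 556 588))))))))))) (node 560 (merge (node 525 (merge (leaf 0 525 561) (node 524 (merge (leaf 0 524 559) (node 555 (merge (leaf 1 523 556) (node 523 (merge (leaf 1 522 554) (node 491 (merge (leaf 3 490 490) (leaf 3 491 492))))))))))) (merge (node 557 (merge (node 556 (merge (leaf 1 524 525) (leaf 2 523 555))) (node 592 (merge (leaf 3 557 593) (node 624 (merge (leaf 7 495 495) (node 656 (merge (leaf 7 527 559) (node 655 (merge (leaf 5 527 623) (leaf 5 559 687))))))))))) (merge (node 525 (merge (leaf 0 525 561) (node 524 (merge (leaf 0 524 559) (node 491 (merge (leaf 3 491 492) (node 523 (merge (leaf 3 490 490) (node 522 (merge (leaf 0 522 557) (node 554 (merge (leaf 1 521 553) (leaf 1 522 555))))))))))))) (merge (node 525 (merge (leaf 0 525 561) (node 557 (merge (leaf 1 524 556) (node 592 (merge (leaf 3 557 593) (node 624 (merge (leaf 7 495 495) (node 625 (merge (leaf 0 589 589) (node 623 (merge (leaf 3 590 626) (leaf 5 527 655))))))))))))) (node 557 (merge (node 556 (merge (leaf 2 523 555) (leaf 2 524 559))) (node 592 (merge (leaf 3 557 593) (node 589 (merge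 (leaf 2 557 561) (node 624 (merge (leaf 7 495 495) (leaf 0 589 625)))))))))))))))))))))) (merge (node 560 (merge (node 525 (merge (leaf 0 525 561) (node 524 (merge (leaf 0 524 559) (node 492 (merge (leaf 3 491 491) (leaf 3 492 493))))))) (merge (node 525 (merge (leaf 0 525 561) (node 556 (merge (leaf 1 524 557) (node 524 (merge (leaf 1 523 555) (node 492 (merge (leaf 3 491 491) (leaf 3 492 493))))))))) (merge (node 590 (merge (node 622 (merge (leaf 6 494 495) (node 655 (merge (leaf 4 526 623) (node 654 (merge (leaf 6 526 559) (leaf 4 558 687))))))) (merge (node 622 (merge (leaf 6 494 495) (node 654 (merge (leaf 6 526 559) (node 653 (merge (leaf 5 525 621) (leaf 5 557 685))))))) (merge (node 622 (merge (leaf 6 494 495) (node 623 (merge (leaf 4 526 655) (node 494 (merge (leaf 4 494 591) (node 621 (merge (leaf 5 493 589) (leaf 5 525 653))))))))) (merge (node 622 (merge (node 655 (merge (leaf 4 526 623) (node 654 (merge (leaf 6 526 559) (leaf 4 558 687))))) (merge (node 654 (merge (leaf 6 526 559) (node 653 (merge (leaf 5 525 621) (leaf 5 557 685))))) (node 623 (merge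 (leaf 4 526 655) (node 494 (merge (leaf 4 494 591) (node 621 (merge (leaf 5 493 589) (leaf 5 525 653)))))))))) (node 589 (merge (node 621 (merge (leaf 5 493 494) (node 653 (merge (leaf 6 525 557) (leaf 6 557 685))))) (node 561 (merge (leaf 1 557 559) (node 592 (merge (leaf 2 557 591) (node 624 (merge (leaf 7 495 495) (node 657 (merge (leaf 4 528 625) (node 656 (merge (leaf 4 560 689) (node 655 (merge (leaf 5 527 623) (leaf 5 559 687)))))))))))))))))))) (node 590 (merge (node 622 (merge (leaf 6 494 495) (node 654 (merge (leaf 6 526 559) (node 525 (merge (leaf 7 493 493) (leaf 7 525 557))))))) (merge (node 622 (merge (leaf 6 494 495) (node 623 (merge (leaf 4 526 655) (node 494 (merge (leaf 4 494 591) (node 621 (merge (leaf 5 493 589) (leaf 5 525 653))))))))) (merge (node 622 (merge (node 655 (merge (leaf 4 526 623) (node 654 (merge (leaf 6 526 559) (leaf 4 558 687))))) (merge (node 654 (merge (leaf 6 526 559) (node 653 (merge (leaf 5 525 621) (leaf 5 557 685))))) (node 623 (merge (leaf 4 526 655) (node 494 (merge (leaf 4 494 591) (node 621 (merge (leaf 5 493 589)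 (leaf 5 525 653)))))))))) (node 494 (merge (node 589 (merge (leaf 5 493 621) (node 462 (merge (leaf 5 461 557) (node 559 (merge (leaf 4 430 430) (leaf 4 462 591))))))) (merge (node 591 (merge (leaf 4 494 623) (node 559 (merge (leaf 4 462 462) (node 495 (merge (leaf 5 462 463) (node 592 (merge (leaf 4 495 624) (node 593 (merge (leaf 0 557 557) (leaf 3 558 594))))))))))) (merge (node 589 (merge (leaf 5 493 621) (node 557 (merge (leaf 5 461 462) (node 556 (merge (leaf 1 524 525) (leaf 2 523 555))))))) (merge (node 591 (merge (leaf 4 494 623) (node 559 (merge (leaf 4 462 462) (node 589 (merge (leaf 2 556 588) (leaf 5 493 621))))))) (node 591 (merge (leaf 4 494 623) (node 589 (merge (leaf 5 493 621) (node 559 (merge (leaf 2 556 588) (node 495 (merge (leaf 5 462 463) (node 592 (merge (leaf 4 495 624) (node 593 (merge (leaf 0 557 557) (leaf 3 558 594)))))))))))))))))))))))))) (node 557 (merge (node 556 (merge (leaf 1 524 525) (leaf 2 523 555))) (node 590 (merge (node 495 (merge (leaf 6 494 622) (node 494 (merge (leaf 6 462 463) (node 493 (merge (leaf 7 461 461) (leaf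 0 492 492))))))) (merge (node 494 (merge (node 589 (merge (leaf 5 461 462) (leaf 5 493 621))) (node 493 (merge (leaf 7 461 461) (node 492 (merge (leaf 0 491 491) (leaf 0 492 495))))))) (merge (node 622 (merge (leaf 6 494 495) (node 653 (merge (leaf 5 525 621) (node 654 (merge (leaf 5 557 685) (node 686 (merge (leaf 7 557 589) (node 687 (merge (leaf 4 558 655) (leaf 4 590 719))))))))))) (node 623 (merge (node 494 (merge (leaf 4 494 591) (node 589 (merge (leaf 5 461 462) (leaf 5 493 621))))) (merge (node 494 (merge (leaf 4 494 591) (node 462 (merge (leaf 5 461 589) (node 461 (merge (leaf 7 429 429) (leaf 7 461 493))))))) (merge (node 591 (merge (leaf 4 494 494) (node 592 (merge (leaf 3 557 593) (node 622 (merge (leaf 4 526 655) (node 621 (merge (leaf 2 588 620) (leaf 5 525 653))))))))) (merge (node 622 (merge (leaf 4 526 655) (node 621 (merge (leaf 5 525 653) (node 589 (merge (leaf 5 493 494) (node 624 (merge (leaf 3 588 588) (leaf 3 589 625))))))))) (node 622 (merge (leaf 4 526 655) (node 653 (merge (leaf 5 525 621) (node 654 (merge (leaf 5 557 685) (node 686 (merge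 (leaf 7 557 589) (node 719 (merge (leaf 4 590 687) (node 718 (merge (leaf 6 590 591) (leaf 4 622 751)))))))))))))))))))))))))))))))) nH_24 cH_24 11 (by decide +kernel)
def nH_25 : ℕ := 0x1000000000000000000000000000000000000000000000000000000000000000000000000000000000000000000000000000000000000000000000000000000000000
def cH_25 : ℕ := 0x80000002c0000007e000000ff800000ff800003ff80000effe00007efc0000fffe00003ff800001ff8000007f0000007c0000003000000000000000000000000000000000000000000000000000000000000000000000000000000000000
theorem lH_25 : S nH_25 cH_25 14 := S_of_chk [(nH_0, cH_0, 12), (nH_1, cH_1, 12), (nH_2, cH_2, 12), (nH_3, cH_3, 12), (nH_4, cH_4, 13), (nH_5, cH_5, 12), (nH_6, cH_6, 13), (nH_7, cH_7, 13), (nH_8, cH_8, 13), (nH_9, cH_9, 11), (nH_10, cH_10, 11), (nH_11, cH_11, 13), (nH_12, cH_12, 13), (nH_13, cH_13, 12), (nH_14, cH_14, 12), (nH_15, cH_15, 12), (nH_17, cH_17, 12), (nH_20, cH_20, 13), (nH_21, cH_21, 13), (nH_23, cH_23, 13), (nH_24, cH_24, 11)] ⟨lH_0, lH_1, lH_2, lH_3, lH_4, lH_5, lH_6, lH_7, lH_8, lH_9, lH_10, lH_11, lH_12, lH_13, lH_14, lH_15,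 lH_17, lH_20, lH_21, lH_23, lH_24, trivial⟩ (node 527 (merge (node 529 (merge (node 558 (merge (node 557 (merge (leaf 1 525 526) (node 559 (merge (leaf 2 524 556) (leaf 2 525 560))))) (merge (node 559 (merge (leaf 1 526 530) (node 557 (merge (leaf 2 524 556) (leaf 2 525 560))))) (merge (node 530 (merge (leaf 1 526 559) (node 562 (merge (leaf 0 527 563) (node 526 (merge (leaf 0 526 561) (node 494 (merge (leaf 3 493 493) (leaf 3 494 495))))))))) (node 526 (merge (leaf 1 525 557) (node 562 (merge (leaf 0 526 561) (node 530 (merge (leaf 0 527 563) (node 494 (merge (leaf 3 493 493) (leaf 3 494 495))))))))))))) (merge (node 526 (merge (node 562 (merge (leaf 0 526 561) (node 530 (merge (leaf 0 527 563) (node 498 (merge (leaf 2 494 497) (leaf 2 495 499))))))) (merge (node 562 (merge (leaf 0 526 561) (node 530 (merge (leaf 0 527 563) (node 558 (merge (leaf 1 525 557) (leaf 1 526 559))))))) (node 497 (merge (leaf 2 494 498) (node 525 (merge (leaf 2 493 496) (node 557 (merge (leaf 1 524 556) (leaf 1 525 558)))))))))) (merge (node 526 (merge (node 561 (merge (leaf 0 526 562)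 (node 525 (merge (leaf 0 525 560) (node 493 (merge (leaf 3 492 492) (leaf 3 493 494))))))) (merge (node 498 (merge (leaf 2 494 497) (node 530 (merge (leaf 2 495 499) (node 494 (merge (leaf 3 493 493) (leaf 3 494 495))))))) (node 561 (merge (leaf 0 526 562) (node 560 (merge (leaf 0 525 525) (node 497 (merge (leaf 2 494 498) (node 592 (merge (leaf 5 464 465) (leaf 6 496 624)))))))))))) (merge (node 495 (merge (node 530 (merge (leaf 3 494 494) (node 499 (merge (leaf 2 495 498) (node 531 (merge (leaf 3 495 496) (leaf 2 496 500))))))) (merge (node 530 (merge (leaf 3 494 494) (node 499 (merge (leaf 2 495 498) (node 531 (merge (leaf 2 496 500) (node 559 (merge (leaf 1 526 558) (leaf 1 527 560))))))))) (node 463 (merge (node 560 (merge (leaf 4 431 431) (node 592 (merge (leaf 4 463 559) (leaf 7 495 624))))) (merge (node 431 (merge (leaf 4 431 560) (node 399 (merge (leaf 4 399 496) (node 400 (merge (leaf 6 367 368) (leaf 6 399 432))))))) (merge (node 559 (merge (node 558 (merge (leaf 5 462 590) (node 557 (merge (leaf 2 524 556) (leaf 2 525 560))))) (merge (node 592 (merge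 (leaf 4 463 560) (node 464 (merge (leaf 6 431 432) (node 591 (merge (leaf 6 463 496) (leaf 4 495 624))))))) (node 464 (merge (leaf 6 431 432) (node 591 (merge (leaf 6 463 496) (node 590 (merge (leaf 5 462 558) (leaf 5 494 622)))))))))) (node 432 (merge (node 400 (merge (leaf 6 399 431) (node 464 (merge (leaf 5 367 368) (leaf 6 431 559))))) (merge (node 431 (merge (leaf 6 399 400) (node 399 (merge (leaf 4 399 496) (node 398 (merge (leaf 7 366 366) (leaf 7 398 430))))))) (node 559 (merge (leaf 6 431 464) (node 590 (merge (leaf 5 462 558) (node 591 (merge (leaf 5 494 622) (node 624 (merge (leaf 4 495 592) (node 623 (merge (leaf 6 495 496) (leaf 4 527 656))))))))))))))))))))) (node 561 (merge (node 526 (merge (leaf 0 526 562) (node 525 (merge (leaf 0 525 560) (node 557 (merge (leaf 1 524 556) (leaf 1 525 558))))))) (merge (node 526 (merge (leaf 0 526 562) (node 497 (merge (leaf 2 494 498) (node 525 (merge (leaf 2 493 496) (node 557 (merge (leaf 1 524 556) (leaf 1 525 558))))))))) (merge (node 593 (merge (node 496 (merge (leaf 7 496 625) (node 497 (merge (leaf 7 464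 464) (node 498 (merge (leaf 6 465 466) (leaf 1 495 499))))))) (merge (node 625 (merge (leaf 7 496 496) (node 657 (merge (leaf 7 528 560) (node 658 (merge (leaf 4 529 626) (leaf 4 561 690))))))) (merge (node 625 (merge (node 657 (merge (leaf 7 528 560) (node 658 (merge (leaf 4 529 626) (leaf 4 561 690))))) (merge (node 657 (merge (leaf 7 528 560) (node 656 (merge (leaf 5 528 624) (leaf 5 560 688))))) (node 626 (merge (leaf 4 529 658) (node 497 (merge (leaf 4 497 594) (node 624 (merge (leaf 5 496 592) (leaf 5 528 656)))))))))) (node 497 (merge (node 498 (merge (leaf 6 465 466) (node 496 (merge (leaf 7 464 464) (leaf 1 495 499))))) (merge (node 592 (merge (leaf 5 496 624) (node 465 (merge (leaf 5 464 560) (node 434 (merge (leaf 6 433 466) (node 433 (merge (leaf 6 401 402) (node 432 (merge (leaf 7 400 400) (leaf 7 432 464))))))))))) (merge (node 594 (merge (leaf 4 497 626) (node 465 (merge (leaf 4 465 562) (node 592 (merge (leaf 5 464 560) (leaf 5 496 624))))))) (node 594 (merge (leaf 4 497 626) (node 562 (merge (leaf 4 465 465) (node 592 (merge (leaf 5 496 624) (node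 591 (merge (leaf 2 559 563) (leaf 2 558 590))))))))))))))))) (node 593 (merge (node 496 (merge (leaf 7 496 625) (node 464 (merge (leaf 4 432 432) (leaf 4 464 560))))) (merge (node 625 (merge (leaf 7 496 496) (node 624 (merge (leaf 5 528 656) (node 497 (merge (leaf 5 496 592) (node 498 (merge (leaf 6 465 466) (leaf 2 494 526))))))))) (merge (node 497 (merge (node 498 (merge (leaf 6 465 466) (leaf 2 494 526))) (merge (node 526 (merge (leaf 2 494 498) (node 496 (merge (leaf 7 464 464) (leaf 2 493 525))))) (node 592 (merge (leaf 5 496 624) (node 465 (merge (leaf 5 464 560) (node 434 (merge (leaf 6 433 466) (node 433 (merge (leaf 6 401 402) (node 432 (merge (leaf 7 400 400) (leaf 7 432 464)))))))))))))) (node 625 (merge (node 657 (merge (leaf 7 528 560) (node 658 (merge (leaf 4 529 626) (leaf 4 561 690))))) (merge (node 657 (merge (leaf 7 528 560) (node 656 (merge (leaf 5 528 624) (leaf 5 560 688))))) (node 626 (merge (leaf 4 529 658) (node 497 (merge (leaf 4 497 594) (node 624 (merge (leaf 5 496 592) (leaf 5 528 656))))))))))))))))))))))) (merge (node 529 (merge (node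 558 (merge (node 557 (merge (leaf 1 525 526) (node 559 (merge (leaf 2 524 556) (leaf 2 525 560))))) (merge (node 559 (merge (leaf 1 526 530) (node 557 (merge (leaf 2 524 556) (leaf 2 525 560))))) (merge (node 530 (merge (leaf 1 526 559) (node 498 (merge (leaf 2 495 499) (node 526 (merge (leaf 2 494 497) (node 494 (merge (leaf 3 493 493) (leaf 3 494 495))))))))) (node 526 (merge (leaf 1 525 557) (node 498 (merge (leaf 2 494 497) (node 530 (merge (leaf 2 495 499) (node 494 (merge (leaf 3 493 493) (leaf 3 494 495))))))))))))) (merge (node 558 (merge (node 557 (merge (leaf 1 525 526) (node 559 (merge (leaf 2 524 556) (leaf 2 525 560))))) (merge (node 559 (merge (leaf 1 526 530) (node 557 (merge (leaf 2 524 556) (leaf 2 525 560))))) (merge (node 530 (merge (leaf 1 526 559) (node 562 (merge (leaf 0 527 563) (node 526 (merge (leaf 0 526 561) (node 494 (merge (leaf 3 493 493) (leaf 3 494 495))))))))) (node 526 (merge (leaf 1 525 557) (node 562 (merge (leaf 0 526 561) (node 530 (merge (leaf 0 527 563) (node 494 (merge (leaf 3 493 493) (leaf 3 494 495))))))))))))) (merge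 (node 526 (merge (node 562 (merge (leaf 0 526 561) (node 530 (merge (leaf 0 527 563) (node 498 (merge (leaf 2 494 497) (leaf 2 495 499))))))) (merge (node 562 (merge (leaf 0 526 561) (node 530 (merge (leaf 0 527 563) (node 558 (merge (leaf 1 525 557) (leaf 1 526 559))))))) (node 497 (merge (leaf 2 494 498) (node 525 (merge (leaf 2 493 496) (node 557 (merge (leaf 1 524 556) (leaf 1 525 558)))))))))) (merge (node 526 (merge (node 561 (merge (leaf 0 526 562) (node 525 (merge (leaf 0 525 560) (node 493 (merge (leaf 3 492 492) (leaf 3 493 494))))))) (merge (node 498 (merge (leaf 2 494 497) (node 530 (merge (leaf 2 495 499) (node 494 (merge (leaf 3 493 493) (leaf 3 494 495))))))) (node 561 (merge (leaf 0 526 562) (node 560 (merge (leaf 0 525 525) (node 497 (merge (leaf 2 494 498) (node 592 (merge (leaf 5 464 465) (leaf 6 496 624)))))))))))) (merge (node 559 (merge (node 530 (merge (leaf 1 526 558) (node 499 (merge (leaf 2 495 498) (node 531 (merge (leaf 2 496 500) (leaf 1 527 560))))))) (merge (node 530 (merge (leaf 1 526 558) (node 499 (merge (leaf 2 495 498) (node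 531 (merge (leaf 2 496 500) (node 495 (merge (leaf 3 494 494) (leaf 3 495 496))))))))) (merge (node 591 (merge (node 496 (merge (leaf 6 495 623) (node 495 (merge (leaf 6 463 464) (node 494 (merge (leaf 7 462 462) (leaf 0 493 493))))))) (merge (node 623 (merge (leaf 6 495 496) (node 656 (merge (leaf 4 527 624) (node 655 (merge (leaf 6 527 560) (leaf 4 559 688))))))) (merge (node 623 (merge (node 656 (merge (leaf 4 527 624) (node 655 (merge (leaf 6 527 560) (leaf 4 559 688))))) (merge (node 655 (merge (leaf 6 527 560) (node 654 (merge (leaf 5 526 622) (leaf 5 558 686))))) (node 624 (merge (leaf 4 527 656) (node 495 (merge (leaf 4 495 592) (node 622 (merge (leaf 5 494 590) (leaf 5 526 654)))))))))) (node 495 (merge (node 494 (merge (leaf 7 462 462) (node 493 (merge (leaf 0 492 492) (leaf 0 493 496))))) (node 590 (merge (leaf 5 494 622) (node 463 (merge (leaf 5 462 558) (node 560 (merge (leaf 4 431 431) (leaf 4 463 592))))))))))))) (node 495 (merge (node 494 (merge (leaf 3 494 530) (node 493 (merge (leaf 0 492 492) (leaf 0 493 496))))) (merge (node 530 (merge (leaf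 3 494 494) (node 560 (merge (leaf 1 527 531) (node 592 (merge (leaf 4 463 463) (leaf 7 495 624))))))) (merge (node 591 (merge (node 496 (merge (leaf 6 463 464) (node 494 (merge (leaf 7 462 462) (leaf 0 493 493))))) (merge (node 624 (merge (leaf 4 495 592) (node 623 (merge (leaf 6 495 496) (leaf 4 527 656))))) (node 462 (merge (leaf 7 462 494) (node 463 (merge (leaf 7 430 430) (node 560 (merge (leaf 4 431 431) (leaf 4 463 592)))))))))) (node 591 (merge (node 623 (merge (leaf 6 495 496) (node 622 (merge (leaf 5 494 590) (leaf 5 526 654))))) (merge (node 623 (merge (leaf 6 495 496) (node 656 (merge (leaf 4 527 624) (node 655 (merge (leaf 6 527 560) (leaf 4 559 688))))))) (merge (node 622 (merge (leaf 5 494 590) (node 623 (merge (leaf 5 526 654) (node 656 (merge (leaf 4 527 624) (node 655 (merge (leaf 6 527 560) (leaf 4 559 688))))))))) (node 590 (merge (leaf 5 494 622) (node 496 (merge (leaf 6 463 464) (node 530 (merge (leaf 3 495 531) (node 562 (merge (leaf 0 527 563) (node 561 (merge (leaf 1 558 560) (node 498 (merge (leaf 2 495 499) (node 593 (merge (leaf 5 465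 466) (leaf 6 497 625))))))))))))))))))))))))))) (node 561 (merge (node 526 (merge (leaf 0 526 562) (node 557 (merge (leaf 1 525 558) (node 525 (merge (leaf 1 524 556) (node 493 (merge (leaf 3 492 492) (leaf 3 493 494))))))))) (merge (node 593 (merge (node 625 (merge (leaf 7 496 496) (node 657 (merge (leaf 7 528 560) (node 658 (merge (leaf 4 529 626) (leaf 4 561 690))))))) (merge (node 625 (merge (leaf 7 496 496) (node 657 (merge (leaf 7 528 560) (node 656 (merge (leaf 5 528 624) (leaf 5 560 688))))))) (merge (node 625 (merge (node 657 (merge (leaf 7 528 560) (node 658 (merge (leaf 4 529 626) (leaf 4 561 690))))) (merge (node 657 (merge (leaf 7 528 560) (node 656 (merge (leaf 5 528 624) (leaf 5 560 688))))) (node 626 (merge (leaf 4 529 658) (node 497 (merge (leaf 4 497 594) (node 624 (merge (leaf 5 496 592) (leaf 5 528 656)))))))))) (node 497 (merge (node 498 (merge (leaf 6 465 466) (node 499 (merge (leaf 1 495 496) (leaf 1 496 500))))) (node 594 (merge (leaf 4 497 626) (node 562 (merge (leaf 4 465 465) (node 592 (merge (leaf 5 496 624) (node 591 (merge (leaf 2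 559 563) (leaf 2 558 590))))))))))))))) (node 496 (merge (node 593 (merge (leaf 7 496 625) (node 497 (merge (leaf 7 464 464) (node 498 (merge (leaf 6 465 466) (leaf 1 495 499))))))) (merge (node 497 (merge (node 526 (merge (leaf 2 494 498) (leaf 2 493 525))) (merge (node 495 (merge (node 494 (merge (leaf 0 493 493) (node 465 (merge (leaf 2 462 466) (node 433 (merge (leaf 5 400 401) (leaf 5 432 560))))))) (merge (node 498 (merge (leaf 1 495 499) (node 463 (merge (leaf 3 462 462) (node 560 (merge (leaf 4 431 431) (leaf 7 463 592))))))) (node 494 (merge (leaf 0 493 493) (node 466 (merge (leaf 2 462 465) (node 498 (merge (leaf 2 463 467) (node 462 (merge (leaf 3 461 461) (leaf 3 462 463)))))))))))) (node 465 (merge (node 560 (merge (leaf 5 432 433) (leaf 6 464 592))) (node 526 (merge (leaf 2 493 525) (node 558 (merge (leaf 1 525 557) (node 494 (merge (leaf 3 493 493) (node 495 (merge (leaf 2 462 466) (node 462 (merge (leaf 3 461 461) (node 591 (merge (leaf 4 462 559) (node 590 (merge (leaf 6 462 463) (leaf 4 494 623)))))))))))))))))))) (node 593 (merge (leaf 7 496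 625) (node 560 (merge (leaf 4 464 464) (node 526 (merge (leaf 0 525 525) (node 558 (merge (leaf 1 525 557) (node 559 (merge (leaf 0 558 594) (node 590 (merge (leaf 1 557 589) (node 622 (merge (leaf 6 494 495) (node 623 (merge (leaf 6 495 591) (leaf 4 526 655))))))))))))))))))))))))))))) (merge (hyp 0) (merge (hyp 1) (merge (node 529 (merge (node 558 (merge (node 557 (merge (leaf 1 525 526) (node 559 (merge (leaf 2 524 556) (leaf 2 525 560))))) (merge (node 559 (merge (leaf 1 526 530) (node 557 (merge (leaf 2 524 556) (leaf 2 525 560))))) (merge (node 530 (merge (leaf 1 526 559) (node 498 (merge (leaf 2 495 499) (node 526 (merge (leaf 2 494 497) (node 494 (merge (leaf 3 493 493) (leaf 3 494 495))))))))) (node 526 (merge (leaf 1 525 557) (node 498 (merge (leaf 2 494 497) (node 530 (merge (leaf 2 495 499) (node 494 (merge (leaf 3 493 493) (leaf 3 494 495))))))))))))) (merge (node 558 (merge (node 557 (merge (leaf 1 525 526) (node 559 (merge (leaf 2 524 556) (leaf 2 525 560))))) (merge (node 559 (merge (leaf 1 526 530) (node 557 (merge (leaf 2 524 556) (leaf 2 525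 560))))) (merge (node 530 (merge (leaf 1 526 559) (node 562 (merge (leaf 0 527 563) (node 526 (merge (leaf 0 526 561) (node 494 (merge (leaf 3 493 493) (leaf 3 494 495))))))))) (node 526 (merge (leaf 1 525 557) (node 562 (merge (leaf 0 526 561) (node 530 (merge (leaf 0 527 563) (node 494 (merge (leaf 3 493 493) (leaf 3 494 495))))))))))))) (merge (node 526 (merge (node 562 (merge (leaf 0 526 561) (node 530 (merge (leaf 0 527 563) (node 498 (merge (leaf 2 494 497) (leaf 2 495 499))))))) (merge (node 562 (merge (leaf 0 526 561) (node 530 (merge (leaf 0 527 563) (node 558 (merge (leaf 1 525 557) (leaf 1 526 559))))))) (node 497 (merge (leaf 2 494 498) (node 525 (merge (leaf 2 493 496) (node 557 (merge (leaf 1 524 556) (leaf 1 525 558)))))))))) (merge (node 526 (merge (node 561 (merge (leaf 0 526 562) (node 525 (merge (leaf 0 525 560) (node 493 (merge (leaf 3 492 492) (leaf 3 493 494))))))) (merge (node 498 (merge (leaf 2 494 497) (node 530 (merge (leaf 2 495 499) (node 494 (merge (leaf 3 493 493) (leaf 3 494 495))))))) (node 561 (merge (leaf 0 526 562) (node 560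 (merge (leaf 0 525 525) (node 497 (merge (leaf 2 494 498) (node 592 (merge (leaf 5 464 465) (leaf 6 496 624)))))))))))) (merge (node 561 (merge (node 526 (merge (leaf 0 526 562) (node 557 (merge (leaf 1 525 558) (node 525 (merge (leaf 1 524 556) (node 493 (merge (leaf 3 492 492) (leaf 3 493 494))))))))) (merge (node 593 (merge (node 625 (merge (leaf 7 496 496) (node 657 (merge (leaf 7 528 560) (node 658 (merge (leaf 4 529 626) (leaf 4 561 690))))))) (merge (node 625 (merge (leaf 7 496 496) (node 657 (merge (leaf 7 528 560) (node 656 (merge (leaf 5 528 624) (leaf 5 560 688))))))) (merge (node 625 (merge (node 657 (merge (leaf 7 528 560) (node 658 (merge (leaf 4 529 626) (leaf 4 561 690))))) (merge (node 657 (merge (leaf 7 528 560) (node 656 (merge (leaf 5 528 624) (leaf 5 560 688))))) (node 626 (merge (leaf 4 529 658) (node 497 (merge (leaf 4 497 594) (node 624 (merge (leaf 5 496 592) (leaf 5 528 656)))))))))) (node 497 (merge (node 498 (merge (leaf 6 465 466) (node 499 (merge (leaf 1 495 496) (leaf 1 496 500))))) (node 594 (merge (leaf 4 497 626) (node 562 (merge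 (leaf 4 465 465) (node 592 (merge (leaf 5 496 624) (node 591 (merge (leaf 2 559 563) (leaf 2 558 590))))))))))))))) (node 593 (merge (node 625 (merge (leaf 7 496 496) (node 657 (merge (leaf 7 528 560) (node 658 (merge (leaf 4 529 626) (leaf 4 561 690))))))) (merge (node 625 (merge (leaf 7 496 496) (node 626 (merge (leaf 4 529 658) (node 497 (merge (leaf 4 497 594) (node 624 (merge (leaf 5 496 592) (leaf 5 528 656))))))))) (merge (node 625 (merge (node 657 (merge (leaf 7 528 560) (node 658 (merge (leaf 4 529 626) (leaf 4 561 690))))) (merge (node 657 (merge (leaf 7 528 560) (node 656 (merge (leaf 5 528 624) (leaf 5 560 688))))) (node 626 (merge (leaf 4 529 658) (node 497 (merge (leaf 4 497 594) (node 624 (merge (leaf 5 496 592) (leaf 5 528 656)))))))))) (node 497 (merge (node 498 (merge (leaf 6 465 466) (leaf 2 494 526))) (merge (node 526 (merge (leaf 2 494 498) (node 525 (merge (leaf 2 493 496) (leaf 0 525 560))))) (node 592 (merge (leaf 5 496 624) (node 465 (merge (leaf 5 464 560) (node 434 (merge (leaf 6 433 466) (node 433 (merge (leaf 6 401 402) (node 401 (merge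 (leaf 5 400 496) (node 400 (merge (leaf 7 368 368) (leaf 7 400 432))))))))))))))))))))))) (node 495 (merge (node 530 (merge (leaf 3 494 494) (node 499 (merge (leaf 2 495 498) (node 531 (merge (leaf 3 495 496) (leaf 2 496 500))))))) (merge (node 530 (merge (leaf 3 494 494) (node 499 (merge (leaf 2 495 498) (node 531 (merge (leaf 2 496 500) (node 559 (merge (leaf 1 526 558) (leaf 1 527 560))))))))) (merge (node 463 (merge (node 560 (merge (leaf 4 431 431) (node 592 (merge (leaf 4 463 559) (leaf 7 495 624))))) (merge (node 431 (merge (leaf 4 431 560) (node 399 (merge (leaf 4 399 496) (node 400 (merge (leaf 6 367 368) (leaf 6 399 432))))))) (merge (node 559 (merge (node 590 (merge (leaf 5 462 558) (node 591 (merge (leaf 5 494 622) (node 462 (merge (leaf 7 430 430) (leaf 7 462 494))))))) (merge (node 430 (merge (leaf 7 430 462) (node 431 (merge (leaf 7 398 398) (node 399 (merge (leaf 4 399 496) (node 400 (merge (leaf 6 367 368) (leaf 6 399 432))))))))) (node 590 (merge (leaf 5 462 558) (node 591 (merge (leaf 5 494 622) (node 624 (merge (leaf 4 495 592) (node 623 (merge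 (leaf 6 495 496) (leaf 4 527 656)))))))))))) (node 559 (merge (node 558 (merge (leaf 5 462 590) (node 557 (merge (leaf 2 524 556) (leaf 2 525 560))))) (merge (node 592 (merge (leaf 4 463 560) (node 591 (merge (leaf 4 495 624) (node 462 (merge (leaf 7 430 430) (leaf 7 462 494))))))) (node 590 (merge (leaf 5 462 558) (node 591 (merge (leaf 5 494 622) (node 462 (merge (leaf 7 430 430) (leaf 7 462 494)))))))))))))) (node 559 (merge (node 558 (merge (leaf 1 526 530) (node 557 (merge (leaf 2 524 556) (leaf 2 525 560))))) (merge (node 530 (merge (leaf 1 526 558) (node 499 (merge (leaf 2 495 498) (node 531 (merge (leaf 3 495 496) (leaf 2 496 500))))))) (merge (node 463 (merge (node 560 (merge (leaf 4 431 431) (node 592 (merge (leaf 4 463 559) (leaf 7 495 624))))) (merge (node 430 (merge (leaf 7 430 462) (node 431 (merge (leaf 7 398 398) (node 399 (merge (leaf 4 399 496) (node 400 (merge (leaf 6 367 368) (leaf 6 399 432))))))))) (node 560 (merge (leaf 4 463 592) (node 558 (merge (leaf 5 462 590) (node 557 (merge (leaf 2 525 529) (leaf 2 524 556)))))))))) (node 560 (merge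 (node 592 (merge (leaf 4 463 463) (leaf 7 495 624))) (merge (node 530 (merge (leaf 1 527 531) (node 562 (merge (leaf 0 527 563) (node 498 (merge (leaf 2 495 499) (node 463 (merge (leaf 4 431 431) (node 462 (merge (leaf 7 430 430) (node 497 (merge (leaf 3 462 496) (node 465 (merge (leaf 4 433 433) (leaf 7 465 594))))))))))))))) (node 497 (merge (node 592 (merge (leaf 6 496 624) (node 465 (merge (leaf 5 432 433) (leaf 5 464 561))))) (merge (node 530 (merge (leaf 1 527 531) (node 562 (merge (leaf 0 527 563) (node 592 (merge (leaf 6 496 624) (node 594 (merge (leaf 7 497 626) (node 595 (merge (leaf 0 559 561) (leaf 3 559 593))))))))))) (merge (node 530 (merge (leaf 1 527 531) (node 562 (merge (leaf 0 527 563) (node 498 (merge (leaf 2 495 499) (node 465 (merge (leaf 4 433 433) (leaf 7 465 594))))))))) (node 530 (merge (leaf 1 527 531) (node 562 (merge (leaf 0 527 563) (node 498 (merge (leaf 2 495 499) (node 465 (merge (leaf 4 433 433) (leaf 7 465 594)))))))))))))))))))))))))))))) (merge (hyp 2) (merge (node 526 (merge (node 529 (merge (node 497 (merge (leaf 2 494 498)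 (node 525 (merge (leaf 2 493 496) (node 493 (merge (leaf 3 492 492) (leaf 3 493 494))))))) (merge (node 562 (merge (leaf 0 526 561) (node 530 (merge (leaf 0 527 563) (node 498 (merge (leaf 2 494 497) (leaf 2 495 499))))))) (node 562 (merge (leaf 0 526 561) (node 530 (merge (leaf 0 527 563) (node 494 (merge (leaf 3 493 493) (leaf 3 494 495)))))))))) (merge (node 529 (merge (node 562 (merge (leaf 0 526 561) (node 530 (merge (leaf 0 527 563) (node 498 (merge (leaf 2 494 497) (leaf 2 495 499))))))) (merge (node 562 (merge (leaf 0 526 561) (node 530 (merge (leaf 0 527 563) (node 558 (merge (leaf 1 525 557) (leaf 1 526 559))))))) (node 497 (merge (leaf 2 494 498) (node 525 (merge (leaf 2 493 496) (node 557 (merge (leaf 1 524 556) (leaf 1 525 558)))))))))) (merge (node 529 (merge (node 557 (merge (leaf 1 525 558) (node 525 (merge (leaf 1 524 556) (node 493 (merge (leaf 3 492 492) (leaf 3 493 494))))))) (merge (node 562 (merge (leaf 0 526 561) (node 530 (merge (leaf 0 527 563) (node 494 (merge (leaf 3 493 493) (leaf 3 494 495))))))) (node 562 (merge (leaf 0 526 561) (node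 530 (merge (leaf 0 527 563) (node 558 (merge (leaf 1 525 557) (leaf 1 526 559)))))))))) (merge (node 558 (merge (node 529 (merge (leaf 1 525 557) (node 562 (merge (leaf 0 526 561) (node 530 (merge (leaf 1 526 559) (leaf 0 527 563))))))) (merge (node 529 (merge (leaf 1 525 557) (node 562 (merge (leaf 0 526 561) (node 530 (merge (leaf 0 527 563) (node 494 (merge (leaf 3 493 493) (leaf 3 494 495))))))))) (merge (node 590 (merge (node 495 (merge (leaf 6 494 622) (node 463 (merge (leaf 5 430 431) (leaf 5 462 559))))) (merge (node 622 (merge (leaf 6 494 495) (node 655 (merge (leaf 4 526 623) (node 654 (merge (leaf 4 558 687) (node 653 (merge (leaf 5 525 621) (leaf 5 557 685))))))))) (merge (node 622 (merge (node 655 (merge (leaf 4 526 623) (node 654 (merge (leaf 6 526 559) (leaf 4 558 687))))) (merge (node 654 (merge (leaf 6 526 559) (node 653 (merge (leaf 5 525 621) (leaf 5 557 685))))) (node 623 (merge (leaf 4 526 655) (node 494 (merge (leaf 4 494 591) (node 621 (merge (leaf 5 493 589) (leaf 5 525 653)))))))))) (node 494 (merge (node 493 (merge (leaf 7 461 461) (node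 492 (merge (leaf 0 491 491) (leaf 0 492 495))))) (merge (node 591 (merge (leaf 4 494 623) (node 462 (merge (leaf 4 462 559) (node 589 (merge (leaf 5 461 557) (leaf 5 493 621))))))) (node 589 (merge (leaf 5 493 621) (node 462 (merge (leaf 5 461 557) (node 559 (merge (leaf 4 430 430) (leaf 4 462 591)))))))))))))) (node 494 (merge (node 529 (merge (leaf 3 493 493) (node 562 (merge (leaf 0 526 561) (node 530 (merge (leaf 0 527 563) (node 498 (merge (leaf 2 494 497) (leaf 2 495 499))))))))) (merge (node 590 (merge (node 493 (merge (leaf 7 461 461) (node 492 (merge (leaf 0 491 491) (leaf 0 492 495))))) (merge (node 622 (merge (leaf 6 494 495) (node 654 (merge (leaf 6 526 559) (node 653 (merge (leaf 5 525 621) (leaf 5 557 685))))))) (node 621 (merge (leaf 5 493 589) (node 622 (merge (leaf 5 525 653) (node 655 (merge (leaf 4 526 623) (node 654 (merge (leaf 6 526 559) (leaf 4 558 687)))))))))))) (node 591 (merge (node 559 (merge (leaf 4 462 462) (leaf 7 494 623))) (merge (node 590 (merge (leaf 4 494 623) (node 622 (merge (leaf 6 494 495) (node 621 (merge (leaf 5 493 589)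 (leaf 5 525 653))))))) (node 462 (merge (leaf 4 462 559) (node 463 (merge (leaf 6 430 431) (node 495 (merge (leaf 6 462 590) (node 461 (merge (leaf 7 429 429) (node 496 (merge (leaf 0 460 460) (leaf 3 461 497))))))))))))))))))))) (hyp 3)))))) (merge (hyp 4) (merge (hyp 5) (merge (hyp 6) (merge (hyp 7) (merge (hyp 8) (merge (hyp 9) (merge (hyp 10) (merge (hyp 11) (merge (hyp 12) (merge (hyp 13) (merge (node 529 (merge (node 558 (merge (node 557 (merge (leaf 1 525 526) (node 559 (merge (leaf 2 524 556) (leaf 2 525 560))))) (merge (node 559 (merge (leaf 1 526 530) (node 557 (merge (leaf 2 524 556) (leaf 2 525 560))))) (merge (node 530 (merge (leaf 1 526 559) (node 498 (merge (leaf 2 495 499) (node 526 (merge (leaf 2 494 497) (node 494 (merge (leaf 3 493 493) (leaf 3 494 495))))))))) (node 526 (merge (leaf 1 525 557) (node 498 (merge (leaf 2 494 497) (node 530 (merge (leaf 2 495 499) (node 494 (merge (leaf 3 493 493) (leaf 3 494 495))))))))))))) (merge (node 558 (merge (node 557 (merge (leaf 1 525 526) (node 559 (merge (leaf 2 524 556) (leaf 2 525 560))))) (merge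 (node 559 (merge (leaf 1 526 530) (node 557 (merge (leaf 2 524 556) (leaf 2 525 560))))) (merge (node 530 (merge (leaf 1 526 559) (node 562 (merge (leaf 0 527 563) (node 526 (merge (leaf 0 526 561) (node 494 (merge (leaf 3 493 493) (leaf 3 494 495))))))))) (node 526 (merge (leaf 1 525 557) (node 562 (merge (leaf 0 526 561) (node 530 (merge (leaf 0 527 563) (node 494 (merge (leaf 3 493 493) (leaf 3 494 495))))))))))))) (merge (node 526 (merge (node 562 (merge (leaf 0 526 561) (node 530 (merge (leaf 0 527 563) (node 498 (merge (leaf 2 494 497) (leaf 2 495 499))))))) (merge (node 562 (merge (leaf 0 526 561) (node 530 (merge (leaf 0 527 563) (node 558 (merge (leaf 1 525 557) (leaf 1 526 559))))))) (node 497 (merge (leaf 2 494 498) (node 525 (merge (leaf 2 493 496) (node 557 (merge (leaf 1 524 556) (leaf 1 525 558)))))))))) (merge (node 561 (merge (node 526 (merge (leaf 0 526 562) (node 557 (merge (leaf 1 525 558) (node 525 (merge (leaf 1 524 556) (node 493 (merge (leaf 3 492 492) (leaf 3 493 494))))))))) (merge (node 593 (merge (node 496 (merge (leaf 7 496 625) (node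 497 (merge (leaf 7 464 464) (node 498 (merge (leaf 6 465 466) (leaf 1 495 499))))))) (merge (node 625 (merge (leaf 7 496 496) (node 657 (merge (leaf 7 528 560) (node 658 (merge (leaf 4 529 626) (leaf 4 561 690))))))) (merge (node 625 (merge (node 657 (merge (leaf 7 528 560) (node 658 (merge (leaf 4 529 626) (leaf 4 561 690))))) (merge (node 657 (merge (leaf 7 528 560) (node 656 (merge (leaf 5 528 624) (leaf 5 560 688))))) (node 626 (merge (leaf 4 529 658) (node 497 (merge (leaf 4 497 594) (node 624 (merge (leaf 5 496 592) (leaf 5 528 656)))))))))) (node 497 (merge (node 498 (merge (leaf 6 465 466) (node 499 (merge (leaf 1 495 496) (leaf 1 496 500))))) (merge (node 594 (merge (leaf 4 497 626) (node 465 (merge (leaf 4 465 562) (node 434 (merge (leaf 6 433 466) (node 433 (merge (leaf 6 401 402) (node 432 (merge (leaf 7 400 400) (leaf 7 432 464))))))))))) (node 594 (merge (leaf 4 497 626) (node 592 (merge (leaf 5 496 624) (node 560 (merge (leaf 5 464 465) (node 595 (merge (leaf 3 559 559) (leaf 3 560 596)))))))))))))))) (node 593 (merge (node 496 (merge (leaf 7 496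 625) (node 464 (merge (leaf 4 432 432) (leaf 4 464 560))))) (merge (node 625 (merge (leaf 7 496 496) (node 624 (merge (leaf 5 528 656) (node 497 (merge (leaf 5 496 592) (node 498 (merge (leaf 6 465 466) (leaf 2 494 526))))))))) (merge (node 497 (merge (node 498 (merge (leaf 6 465 466) (leaf 2 494 526))) (merge (node 526 (merge (leaf 2 494 498) (node 496 (merge (leaf 7 464 464) (leaf 2 493 525))))) (node 592 (merge (leaf 5 496 624) (node 465 (merge (leaf 5 464 560) (node 434 (merge (leaf 6 433 466) (node 433 (merge (leaf 6 401 402) (node 432 (merge (leaf 7 400 400) (leaf 7 432 464)))))))))))))) (node 625 (merge (node 657 (merge (leaf 7 528 560) (node 658 (merge (leaf 4 529 626) (leaf 4 561 690))))) (merge (node 657 (merge (leaf 7 528 560) (node 656 (merge (leaf 5 528 624) (leaf 5 560 688))))) (node 626 (merge (leaf 4 529 658) (node 497 (merge (leaf 4 497 594) (node 624 (merge (leaf 5 496 592) (leaf 5 528 656))))))))))))))))) (hyp 14)))))) (merge (node 529 (merge (node 526 (merge (node 557 (merge (leaf 1 525 558) (node 525 (merge (leaf 1 524 556) (node 493 (merge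 (leaf 3 492 492) (leaf 3 493 494))))))) (merge (node 498 (merge (leaf 2 494 497) (node 530 (merge (leaf 2 495 499) (node 494 (merge (leaf 3 493 493) (leaf 3 494 495))))))) (node 497 (merge (leaf 2 494 498) (node 525 (merge (leaf 2 493 496) (node 557 (merge (leaf 1 524 556) (leaf 1 525 558)))))))))) (merge (node 530 (merge (node 562 (merge (leaf 0 527 563) (node 526 (merge (leaf 0 526 561) (node 494 (merge (leaf 3 493 493) (leaf 3 494 495))))))) (merge (node 499 (merge (leaf 2 495 498) (node 531 (merge (leaf 2 496 500) (node 495 (merge (leaf 3 494 494) (leaf 3 495 496))))))) (node 562 (merge (leaf 0 527 563) (node 561 (merge (leaf 0 526 526) (node 498 (merge (leaf 2 495 499) (node 593 (merge (leaf 5 465 466) (leaf 6 497 625)))))))))))) (merge (node 526 (merge (node 557 (merge (leaf 1 525 558) (node 525 (merge (leaf 1 524 556) (node 493 (merge (leaf 3 492 492) (leaf 3 493 494))))))) (node 562 (merge (leaf 0 526 561) (node 530 (merge (leaf 0 527 563) (node 498 (merge (leaf 2 494 497) (leaf 2 495 499))))))))) (merge (node 526 (merge (node 557 (merge (leaf 1 525 558)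 (node 525 (merge (leaf 1 524 556) (node 493 (merge (leaf 3 492 492) (leaf 3 493 494))))))) (merge (node 562 (merge (leaf 0 526 561) (node 530 (merge (leaf 0 527 563) (node 494 (merge (leaf 3 493 493) (leaf 3 494 495))))))) (node 561 (merge (leaf 0 526 562) (node 525 (merge (leaf 0 525 560) (node 557 (merge (leaf 1 524 556) (leaf 1 525 558)))))))))) (merge (node 561 (merge (node 526 (merge (leaf 0 526 562) (node 525 (merge (leaf 0 525 560) (node 557 (merge (leaf 1 524 556) (leaf 1 525 558))))))) (merge (node 526 (merge (leaf 0 526 562) (node 497 (merge (leaf 2 494 498) (node 525 (merge (leaf 2 493 496) (node 557 (merge (leaf 1 524 556) (leaf 1 525 558))))))))) (merge (node 593 (merge (node 496 (merge (leaf 7 496 625) (node 497 (merge (leaf 7 464 464) (node 498 (merge (leaf 6 465 466) (leaf 1 495 499))))))) (merge (node 625 (merge (leaf 7 496 496) (node 657 (merge (leaf 7 528 560) (node 658 (merge (leaf 4 529 626) (leaf 4 561 690))))))) (merge (node 625 (merge (node 657 (merge (leaf 7 528 560) (node 658 (merge (leaf 4 529 626) (leaf 4 561 690))))) (merge (node 657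 (merge (leaf 7 528 560) (node 656 (merge (leaf 5 528 624) (leaf 5 560 688))))) (node 626 (merge (leaf 4 529 658) (node 497 (merge (leaf 4 497 594) (node 624 (merge (leaf 5 496 592) (leaf 5 528 656)))))))))) (node 497 (merge (node 498 (merge (leaf 6 465 466) (node 496 (merge (leaf 7 464 464) (leaf 1 495 499))))) (merge (node 592 (merge (leaf 5 496 624) (node 465 (merge (leaf 5 464 560) (node 434 (merge (leaf 6 433 466) (node 433 (merge (leaf 6 401 402) (node 432 (merge (leaf 7 400 400) (leaf 7 432 464))))))))))) (merge (node 594 (merge (leaf 4 497 626) (node 465 (merge (leaf 4 465 562) (node 592 (merge (leaf 5 464 560) (leaf 5 496 624))))))) (node 594 (merge (leaf 4 497 626) (node 562 (merge (leaf 4 465 465) (node 592 (merge (leaf 5 496 624) (node 591 (merge (leaf 2 559 563) (leaf 2 558 590))))))))))))))))) (node 593 (merge (node 496 (merge (leaf 7 496 625) (node 464 (merge (leaf 4 432 432) (leaf 4 464 560))))) (merge (node 625 (merge (leaf 7 496 496) (node 624 (merge (leaf 5 528 656) (node 497 (merge (leaf 5 496 592) (node 498 (merge (leaf 6 465 466) (leaf 2 494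 526))))))))) (merge (node 497 (merge (node 498 (merge (leaf 6 465 466) (leaf 2 494 526))) (merge (node 526 (merge (leaf 2 494 498) (node 496 (merge (leaf 7 464 464) (leaf 2 493 525))))) (node 592 (merge (leaf 5 496 624) (node 465 (merge (leaf 5 464 560) (node 434 (merge (leaf 6 433 466) (node 433 (merge (leaf 6 401 402) (node 432 (merge (leaf 7 400 400) (leaf 7 432 464)))))))))))))) (node 625 (merge (node 657 (merge (leaf 7 528 560) (node 658 (merge (leaf 4 529 626) (leaf 4 561 690))))) (merge (node 657 (merge (leaf 7 528 560) (node 656 (merge (leaf 5 528 624) (leaf 5 560 688))))) (node 626 (merge (leaf 4 529 658) (node 497 (merge (leaf 4 497 594) (node 624 (merge (leaf 5 496 592) (leaf 5 528 656)))))))))))))))))) (hyp 14))))))) (merge (node 529 (merge (node 526 (merge (node 562 (merge (leaf 0 526 561) (node 530 (merge (leaf 0 527 563) (node 498 (merge (leaf 2 494 497) (leaf 2 495 499))))))) (merge (node 562 (merge (leaf 0 526 561) (node 530 (merge (leaf 0 527 563) (node 558 (merge (leaf 1 525 557) (leaf 1 526 559))))))) (node 497 (merge (leaf 2 494 498) (node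 525 (merge (leaf 2 493 496) (node 557 (merge (leaf 1 524 556) (leaf 1 525 558)))))))))) (merge (node 558 (merge (node 557 (merge (leaf 1 525 526) (node 559 (merge (leaf 2 524 556) (leaf 2 525 560))))) (merge (node 559 (merge (leaf 1 526 530) (node 557 (merge (leaf 2 524 556) (leaf 2 525 560))))) (merge (node 526 (merge (leaf 1 525 557) (node 562 (merge (leaf 0 526 561) (node 530 (merge (leaf 0 527 563) (node 498 (merge (leaf 2 494 497) (leaf 2 495 499))))))))) (node 530 (merge (leaf 1 526 559) (node 562 (merge (leaf 0 527 563) (node 498 (merge (leaf 2 495 499) (node 497 (merge (leaf 2 494 526) (node 594 (merge (leaf 7 465 465) (leaf 7 497 626))))))))))))))) (merge (node 526 (merge (node 498 (merge (leaf 2 494 497) (node 530 (merge (leaf 2 495 499) (node 558 (merge (leaf 1 525 557) (leaf 1 526 559))))))) (merge (node 497 (merge (leaf 2 494 498) (node 525 (merge (leaf 2 493 496) (node 556 (merge (leaf 1 524 557) (node 524 (merge (leaf 1 523 555) (node 492 (merge (leaf 3 491 491) (leaf 3 492 493))))))))))) (merge (node 497 (merge (leaf 2 494 498) (node 525 (merge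 (leaf 2 493 496) (node 492 (merge (leaf 3 492 493) (node 524 (merge (leaf 3 491 491) (node 559 (merge (leaf 0 524 560) (node 558 (merge (leaf 0 523 523) (leaf 1 526 530))))))))))))) (node 525 (merge (node 557 (merge (leaf 1 524 556) (leaf 1 525 558))) (merge (node 556 (merge (leaf 1 524 557) (node 524 (merge (leaf 1 523 555) (node 492 (merge (leaf 3 491 491) (leaf 3 492 493))))))) (merge (node 492 (merge (leaf 3 492 493) (node 524 (merge (leaf 3 491 491) (node 559 (merge (leaf 0 524 560) (node 558 (merge (leaf 0 523 523) (leaf 1 526 530))))))))) (node 558 (merge (leaf 1 525 557) (node 559 (merge (leaf 1 526 530) (node 524 (merge (leaf 0 523 523) (leaf 0 524 560))))))))))))))) (merge (node 498 (merge (node 499 (merge (leaf 2 495 530) (node 497 (merge (leaf 1 495 496) (leaf 1 496 500))))) (merge (node 530 (merge (leaf 2 495 499) (node 562 (merge (leaf 0 527 563) (node 561 (merge (leaf 0 526 526) (node 593 (merge (leaf 5 465 466) (leaf 6 497 625))))))))) (node 526 (merge (leaf 2 494 497) (node 561 (merge (leaf 0 526 562) (node 525 (merge (leaf 0 525 560) (node 556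 (merge (leaf 1 524 557) (node 524 (merge (leaf 1 523 555) (node 492 (merge (leaf 3 491 491) (leaf 3 492 493)))))))))))))))) (merge (node 530 (merge (node 499 (merge (leaf 2 495 498) (node 531 (merge (leaf 2 496 500) (node 559 (merge (leaf 1 526 558) (leaf 1 527 560))))))) (merge (node 562 (merge (leaf 0 527 563) (node 561 (merge (leaf 0 526 526) (node 498 (merge (leaf 2 495 499) (node 593 (merge (leaf 5 465 466) (leaf 6 497 625))))))))) (node 562 (merge (leaf 0 527 563) (node 561 (merge (leaf 0 526 526) (node 559 (merge (leaf 1 526 558) (node 560 (merge (leaf 1 527 531) (node 591 (merge (leaf 1 558 590) (node 496 (merge (leaf 5 463 464) (leaf 6 495 623)))))))))))))))) (merge (node 526 (merge (node 562 (merge (leaf 0 526 561) (node 530 (merge (leaf 0 527 563) (node 558 (merge (leaf 1 525 557) (leaf 1 526 559))))))) (merge (node 557 (merge (leaf 1 525 558) (node 525 (merge (leaf 1 524 556) (node 496 (merge (leaf 2 493 497) (node 524 (merge (leaf 2 492 495) (node 492 (merge (leaf 3 491 491) (leaf 3 492 493))))))))))) (merge (node 561 (merge (leaf 0 526 562) (node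 525 (merge (leaf 0 525 560) (node 556 (merge (leaf 1 524 557) (node 524 (merge (leaf 1 523 555) (node 496 (merge (leaf 2 492 495) (leaf 2 493 497))))))))))) (node 561 (merge (leaf 0 526 562) (node 525 (merge (leaf 0 525 560) (node 496 (merge (leaf 2 493 497) (node 495 (merge (leaf 2 492 524) (node 530 (merge (leaf 3 495 531) (node 559 (merge (leaf 1 526 558) (node 464 (merge (leaf 4 432 432) (leaf 6 463 591))))))))))))))))))) (merge (node 561 (merge (node 526 (merge (leaf 0 526 562) (node 525 (merge (leaf 0 525 560) (node 557 (merge (leaf 1 524 556) (leaf 1 525 558))))))) (merge (node 526 (merge (leaf 0 526 562) (node 497 (merge (leaf 2 494 498) (node 525 (merge (leaf 2 493 496) (node 557 (merge (leaf 1 524 556) (leaf 1 525 558))))))))) (merge (node 593 (merge (node 496 (merge (leaf 7 496 625) (node 497 (merge (leaf 7 464 464) (node 498 (merge (leaf 6 465 466) (leaf 1 495 499))))))) (merge (node 625 (merge (leaf 7 496 496) (node 657 (merge (leaf 7 528 560) (node 658 (merge (leaf 4 529 626) (leaf 4 561 690))))))) (merge (node 625 (merge (node 657 (merge (leaf 7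 528 560) (node 658 (merge (leaf 4 529 626) (leaf 4 561 690))))) (merge (node 657 (merge (leaf 7 528 560) (node 656 (merge (leaf 5 528 624) (leaf 5 560 688))))) (node 626 (merge (leaf 4 529 658) (node 497 (merge (leaf 4 497 594) (node 624 (merge (leaf 5 496 592) (leaf 5 528 656)))))))))) (node 497 (merge (node 498 (merge (leaf 6 465 466) (node 496 (merge (leaf 7 464 464) (leaf 1 495 499))))) (merge (node 592 (merge (leaf 5 496 624) (node 465 (merge (leaf 5 464 560) (node 434 (merge (leaf 6 433 466) (node 433 (merge (leaf 6 401 402) (node 432 (merge (leaf 7 400 400) (leaf 7 432 464))))))))))) (merge (node 594 (merge (leaf 4 497 626) (node 465 (merge (leaf 4 465 562) (node 592 (merge (leaf 5 464 560) (leaf 5 496 624))))))) (node 594 (merge (leaf 4 497 626) (node 562 (merge (leaf 4 465 465) (node 592 (merge (leaf 5 496 624) (node 591 (merge (leaf 2 559 563) (leaf 2 558 590))))))))))))))))) (node 593 (merge (node 496 (merge (leaf 7 496 625) (node 464 (merge (leaf 4 432 432) (leaf 4 464 560))))) (merge (node 625 (merge (leaf 7 496 496) (node 624 (merge (leaf 5 528 656)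 (node 497 (merge (leaf 5 496 592) (node 498 (merge (leaf 6 465 466) (leaf 2 494 526))))))))) (merge (node 497 (merge (node 498 (merge (leaf 6 465 466) (leaf 2 494 526))) (merge (node 526 (merge (leaf 2 494 498) (node 496 (merge (leaf 7 464 464) (leaf 2 493 525))))) (node 592 (merge (leaf 5 496 624) (node 465 (merge (leaf 5 464 560) (node 434 (merge (leaf 6 433 466) (node 433 (merge (leaf 6 401 402) (node 432 (merge (leaf 7 400 400) (leaf 7 432 464)))))))))))))) (node 625 (merge (node 657 (merge (leaf 7 528 560) (node 658 (merge (leaf 4 529 626) (leaf 4 561 690))))) (merge (node 657 (merge (leaf 7 528 560) (node 656 (merge (leaf 5 528 624) (leaf 5 560 688))))) (node 626 (merge (leaf 4 529 658) (node 497 (merge (leaf 4 497 594) (node 624 (merge (leaf 5 496 592) (leaf 5 528 656)))))))))))))))))) (hyp 15))))))))) (merge (node 529 (merge (node 526 (merge (node 497 (merge (leaf 2 494 498) (node 525 (merge (leaf 2 493 496) (node 493 (merge (leaf 3 492 492) (leaf 3 493 494))))))) (merge (node 498 (merge (leaf 2 494 497) (node 530 (merge (leaf 2 495 499) (node 558 (merge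 (leaf 1 525 557) (leaf 1 526 559))))))) (node 557 (merge (leaf 1 525 558) (node 525 (merge (leaf 1 524 556) (node 493 (merge (leaf 3 492 492) (leaf 3 493 494)))))))))) (merge (node 498 (merge (node 499 (merge (leaf 2 495 530) (node 497 (merge (leaf 1 495 496) (leaf 1 496 500))))) (merge (node 530 (merge (leaf 2 495 499) (node 562 (merge (leaf 0 527 563) (node 561 (merge (leaf 0 526 526) (node 593 (merge (leaf 5 465 466) (leaf 6 497 625))))))))) (node 526 (merge (leaf 2 494 497) (node 561 (merge (leaf 0 526 562) (node 525 (merge (leaf 0 525 560) (node 493 (merge (leaf 3 492 492) (leaf 3 493 494)))))))))))) (merge (node 558 (merge (node 557 (merge (leaf 1 525 526) (node 559 (merge (leaf 2 524 556) (leaf 2 525 560))))) (merge (node 559 (merge (leaf 1 526 530) (node 557 (merge (leaf 2 524 556) (leaf 2 525 560))))) (merge (node 526 (merge (leaf 1 525 557) (node 562 (merge (leaf 0 526 561) (node 530 (merge (leaf 0 527 563) (node 498 (merge (leaf 2 494 497) (leaf 2 495 499))))))))) (node 530 (merge (leaf 1 526 559) (node 562 (merge (leaf 0 527 563) (node 498 (merge (leaf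 2 495 499) (node 497 (merge (leaf 2 494 526) (node 594 (merge (leaf 7 465 465) (leaf 7 497 626))))))))))))))) (merge (node 526 (merge (node 557 (merge (leaf 1 525 558) (node 525 (merge (leaf 1 524 556) (node 493 (merge (leaf 3 492 492) (leaf 3 493 494))))))) (merge (node 562 (merge (leaf 0 526 561) (node 530 (merge (leaf 0 527 563) (node 558 (merge (leaf 1 525 557) (leaf 1 526 559))))))) (merge (node 561 (merge (leaf 0 526 562) (node 525 (merge (leaf 0 525 560) (node 493 (merge (leaf 3 492 492) (leaf 3 493 494))))))) (node 562 (merge (leaf 0 526 561) (node 530 (merge (leaf 0 527 563) (node 559 (merge (leaf 1 526 558) (node 560 (merge (leaf 1 527 531) (node 525 (merge (leaf 0 524 524) (node 496 (merge (leaf 2 493 497) (node 591 (merge (leaf 5 463 464) (leaf 6 495 623))))))))))))))))))) (merge (node 530 (merge (node 499 (merge (leaf 2 495 498) (node 531 (merge (leaf 2 496 500) (node 559 (merge (leaf 1 526 558) (leaf 1 527 560))))))) (merge (node 562 (merge (leaf 0 527 563) (node 561 (merge (leaf 0 526 526) (node 498 (merge (leaf 2 495 499) (node 593 (merge (leaf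 5 465 466) (leaf 6 497 625))))))))) (node 562 (merge (leaf 0 527 563) (node 561 (merge (leaf 0 526 526) (node 559 (merge (leaf 1 526 558) (node 560 (merge (leaf 1 527 531) (node 591 (merge (leaf 1 558 590) (node 496 (merge (leaf 5 463 464) (leaf 6 495 623)))))))))))))))) (merge (node 561 (merge (node 526 (merge (leaf 0 526 562) (node 525 (merge (leaf 0 525 560) (node 557 (merge (leaf 1 524 556) (leaf 1 525 558))))))) (merge (node 526 (merge (leaf 0 526 562) (node 497 (merge (leaf 2 494 498) (node 525 (merge (leaf 2 493 496) (node 557 (merge (leaf 1 524 556) (leaf 1 525 558))))))))) (merge (node 593 (merge (node 496 (merge (leaf 7 496 625) (node 497 (merge (leaf 7 464 464) (node 498 (merge (leaf 6 465 466) (leaf 1 495 499))))))) (merge (node 625 (merge (leaf 7 496 496) (node 657 (merge (leaf 7 528 560) (node 658 (merge (leaf 4 529 626) (leaf 4 561 690))))))) (merge (node 625 (merge (node 657 (merge (leaf 7 528 560) (node 658 (merge (leaf 4 529 626) (leaf 4 561 690))))) (merge (node 657 (merge (leaf 7 528 560) (node 656 (merge (leaf 5 528 624) (leaf 5 560 688)))))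 (node 626 (merge (leaf 4 529 658) (node 497 (merge (leaf 4 497 594) (node 624 (merge (leaf 5 496 592) (leaf 5 528 656)))))))))) (node 497 (merge (node 498 (merge (leaf 6 465 466) (node 496 (merge (leaf 7 464 464) (leaf 1 495 499))))) (merge (node 592 (merge (leaf 5 496 624) (node 465 (merge (leaf 5 464 560) (node 434 (merge (leaf 6 433 466) (node 433 (merge (leaf 6 401 402) (node 432 (merge (leaf 7 400 400) (leaf 7 432 464))))))))))) (merge (node 594 (merge (leaf 4 497 626) (node 465 (merge (leaf 4 465 562) (node 592 (merge (leaf 5 464 560) (leaf 5 496 624))))))) (node 594 (merge (leaf 4 497 626) (node 562 (merge (leaf 4 465 465) (node 592 (merge (leaf 5 496 624) (node 591 (merge (leaf 2 559 563) (leaf 2 558 590))))))))))))))))) (node 593 (merge (node 496 (merge (leaf 7 496 625) (node 464 (merge (leaf 4 432 432) (leaf 4 464 560))))) (merge (node 625 (merge (leaf 7 496 496) (node 624 (merge (leaf 5 528 656) (node 497 (merge (leaf 5 496 592) (node 498 (merge (leaf 6 465 466) (leaf 2 494 526))))))))) (merge (node 497 (merge (node 498 (merge (leaf 6 465 466) (leaf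 2 494 526))) (merge (node 526 (merge (leaf 2 494 498) (node 496 (merge (leaf 7 464 464) (leaf 2 493 525))))) (node 592 (merge (leaf 5 496 624) (node 465 (merge (leaf 5 464 560) (node 434 (merge (leaf 6 433 466) (node 433 (merge (leaf 6 401 402) (node 432 (merge (leaf 7 400 400) (leaf 7 432 464)))))))))))))) (node 625 (merge (node 657 (merge (leaf 7 528 560) (node 658 (merge (leaf 4 529 626) (leaf 4 561 690))))) (merge (node 657 (merge (leaf 7 528 560) (node 656 (merge (leaf 5 528 624) (leaf 5 560 688))))) (node 626 (merge (leaf 4 529 658) (node 497 (merge (leaf 4 497 594) (node 624 (merge (leaf 5 496 592) (leaf 5 528 656)))))))))))))))))) (hyp 15)))))))) (merge (hyp 16) (merge (hyp 17) (merge (hyp 18) (merge (hyp 19) (node 526 (merge (node 529 (merge (node 561 (merge (leaf 0 526 562) (node 525 (merge (leaf 0 525 560) (node 493 (merge (leaf 3 492 492) (leaf 3 493 494))))))) (merge (node 562 (merge (leaf 0 526 561) (node 530 (merge (leaf 0 527 563) (node 498 (merge (leaf 2 494 497) (leaf 2 495 499))))))) (node 498 (merge (leaf 2 494 497) (node 530 (merge (leaf 2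 495 499) (node 494 (merge (leaf 3 493 493) (leaf 3 494 495)))))))))) (merge (node 529 (merge (node 557 (merge (leaf 1 525 558) (node 525 (merge (leaf 1 524 556) (node 493 (merge (leaf 3 492 492) (leaf 3 493 494))))))) (merge (node 498 (merge (leaf 2 494 497) (node 530 (merge (leaf 2 495 499) (node 558 (merge (leaf 1 525 557) (leaf 1 526 559))))))) (node 498 (merge (leaf 2 494 497) (node 530 (merge (leaf 2 495 499) (node 494 (merge (leaf 3 493 493) (leaf 3 494 495)))))))))) (merge (node 561 (merge (node 560 (merge (leaf 0 525 525) (node 562 (merge (leaf 3 526 559) (leaf 3 527 563))))) (merge (node 525 (merge (leaf 0 525 560) (node 556 (merge (leaf 1 524 557) (node 524 (merge (leaf 1 523 555) (node 492 (merge (leaf 3 491 491) (leaf 3 492 493))))))))) (node 529 (merge (leaf 0 526 562) (node 558 (merge (leaf 1 525 557) (node 530 (merge (leaf 1 526 559) (node 498 (merge (leaf 2 494 497) (leaf 2 495 499)))))))))))) (merge (node 525 (merge (node 561 (merge (leaf 0 525 560) (node 529 (merge (leaf 0 526 562) (node 557 (merge (leaf 1 524 556) (leaf 1 525 558))))))) (merge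 (node 560 (merge (leaf 0 525 561) (node 524 (merge (leaf 0 524 559) (node 555 (merge (leaf 1 523 556) (node 523 (merge (leaf 1 522 554) (node 491 (merge (leaf 3 490 490) (leaf 3 491 492))))))))))) (merge (node 556 (merge (leaf 1 524 557) (node 524 (merge (leaf 1 523 555) (node 559 (merge (leaf 0 524 560) (node 523 (merge (leaf 0 523 558) (node 491 (merge (leaf 3 490 490) (leaf 3 491 492))))))))))) (merge (node 557 (merge (leaf 1 524 556) (node 529 (merge (leaf 1 525 558) (node 562 (merge (leaf 0 526 561) (node 530 (merge (leaf 0 527 563) (node 498 (merge (leaf 2 494 497) (leaf 2 495 499))))))))))) (node 561 (merge (leaf 0 525 560) (node 529 (merge (leaf 0 526 562) (node 558 (merge (leaf 1 525 557) (node 530 (merge (leaf 1 526 559) (node 498 (merge (leaf 2 494 497) (leaf 2 495 499)))))))))))))))) (merge (node 560 (merge (node 561 (merge (leaf 0 525 525) (node 562 (merge (leaf 0 526 529) (leaf 3 527 563))))) (merge (node 525 (merge (leaf 0 525 561) (node 524 (merge (leaf 0 524 559) (node 556 (merge (leaf 1 523 555) (leaf 1 524 557))))))) (merge (node 529 (merge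 (node 498 (merge (leaf 2 494 497) (node 530 (merge (leaf 2 495 499) (node 558 (merge (leaf 1 525 557) (leaf 1 526 559))))))) (merge (node 562 (merge (leaf 0 526 561) (node 530 (merge (leaf 0 527 563) (node 494 (merge (leaf 3 493 493) (leaf 3 494 495))))))) (node 497 (merge (leaf 2 494 498) (node 465 (merge (leaf 5 432 433) (node 592 (merge (leaf 5 464 561) (leaf 6 496 624)))))))))) (node 529 (merge (node 498 (merge (leaf 2 494 497) (node 530 (merge (leaf 2 495 499) (node 558 (merge (leaf 1 525 557) (leaf 1 526 559))))))) (merge (node 558 (merge (leaf 1 525 557) (node 530 (merge (leaf 1 526 559) (node 494 (merge (leaf 3 493 493) (leaf 3 494 495))))))) (merge (node 498 (merge (leaf 2 494 497) (node 530 (merge (leaf 2 495 499) (node 494 (merge (leaf 3 493 493) (leaf 3 494 495))))))) (node 557 (merge (leaf 1 525 558) (node 525 (merge (leaf 1 524 556) (node 559 (merge (leaf 0 524 524) (node 494 (merge (leaf 3 493 493) (node 462 (merge (leaf 4 430 430) (node 591 (merge (leaf 7 462 495) (leaf 7 494 623))))))))))))))))))))) (merge (node 494 (merge (node 529 (merge (leaf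 3 493 493) (node 562 (merge (leaf 0 526 561) (node 530 (merge (leaf 0 527 563) (node 498 (merge (leaf 2 494 497) (leaf 2 495 499))))))))) (merge (node 559 (merge (node 462 (merge (leaf 4 430 430) (node 591 (merge (leaf 4 462 558) (leaf 7 494 623))))) (merge (node 591 (merge (leaf 7 494 623) (node 495 (merge (leaf 7 462 462) (node 592 (merge (leaf 4 495 624) (node 463 (merge (leaf 4 463 560) (node 431 (merge (leaf 5 398 399) (node 432 (merge (leaf 6 399 400) (leaf 6 431 464))))))))))))) (merge (node 558 (merge (node 557 (merge (leaf 1 525 529) (leaf 2 524 556))) (merge (node 462 (merge (leaf 4 430 430) (node 463 (merge (leaf 6 430 431) (node 590 (merge (leaf 5 462 495) (node 621 (merge (leaf 5 493 589) (node 622 (merge (leaf 5 525 653) (leaf 6 526 654))))))))))) (node 557 (merge (leaf 2 524 556) (node 462 (merge (leaf 4 430 430) (leaf 5 461 589)))))))) (node 495 (merge (node 529 (merge (leaf 3 494 530) (node 558 (merge (leaf 1 525 557) (node 590 (merge (leaf 6 462 463) (leaf 6 494 622))))))) (merge (node 591 (merge (leaf 7 494 623) (node 590 (merge (leaf 5 494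 622) (node 558 (merge (leaf 5 462 463) (node 589 (merge (leaf 5 493 621) (node 588 (merge (leaf 2 556 560) (leaf 2 555 587))))))))))) (merge (node 591 (merge (leaf 7 494 623) (node 592 (merge (leaf 4 495 624) (node 463 (merge (leaf 4 463 560) (node 431 (merge (leaf 5 398 399) (leaf 5 430 558))))))))) (merge (node 591 (merge (leaf 7 494 623) (node 592 (merge (leaf 4 495 624) (node 463 (merge (leaf 4 463 560) (node 431 (merge (leaf 5 398 399) (node 432 (merge (leaf 6 399 400) (leaf 6 431 464))))))))))) (node 529 (merge (leaf 3 494 530) (node 561 (merge (leaf 0 526 562) (node 558 (merge (leaf 1 525 557) (node 590 (merge (leaf 6 494 622) (node 589 (merge (leaf 1 557 560) (leaf 5 493 621)))))))))))))))))))) (node 462 (merge (node 430 (merge (leaf 4 430 559) (node 431 (merge (leaf 6 398 399) (node 558 (merge (leaf 6 430 463) (node 429 (merge (leaf 7 397 397) (leaf 7 429 461))))))))) (merge (node 558 (merge (node 463 (merge (leaf 6 430 431) (node 590 (merge (leaf 6 462 495) (node 589 (merge (leaf 5 461 557) (leaf 5 493 621))))))) (merge (node 557 (merge (leaf 5 461 589)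 (node 556 (merge (leaf 2 523 555) (leaf 2 524 559))))) (node 461 (merge (leaf 7 429 429) (node 590 (merge (leaf 7 461 493) (node 622 (merge (leaf 6 494 495) (node 653 (merge (leaf 5 525 621) (node 654 (merge (leaf 6 526 559) (leaf 5 557 685)))))))))))))) (merge (node 430 (merge (leaf 4 430 559) (node 495 (merge (leaf 4 398 398) (node 429 (merge (leaf 7 397 397) (node 558 (merge (leaf 7 429 461) (node 590 (merge (leaf 6 462 463) (leaf 6 494 622))))))))))) (merge (node 430 (merge (leaf 4 430 559) (node 495 (merge (leaf 4 398 398) (node 493 (merge (leaf 0 492 492) (node 431 (merge (leaf 6 398 399) (node 558 (merge (leaf 5 430 463) (node 590 (merge (leaf 7 461 461) (leaf 6 494 622))))))))))))) (merge (node 430 (merge (leaf 4 430 559) (node 398 (merge (leaf 4 398 495) (node 399 (merge (leaf 6 366 367) (leaf 6 398 431))))))) (merge (node 558 (merge (node 589 (merge (leaf 5 461 557) (node 590 (merge (leaf 5 493 621) (node 461 (merge (leaf 7 429 429) (leaf 7 461 493))))))) (merge (node 463 (merge (leaf 6 430 431) (node 590 (merge (leaf 6 462 495) (node 589 (merge (leaf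 5 461 557) (leaf 5 493 621))))))) (node 431 (merge (leaf 6 430 463) (node 430 (merge (leaf 6 398 399) (node 429 (merge (leaf 7 397 397) (leaf 7 429 461)))))))))) (merge (node 559 (merge (leaf 4 430 430) (node 591 (merge (leaf 7 462 495) (leaf 4 462 558))))) (node 430 (merge (leaf 4 430 559) (node 495 (merge (leaf 4 398 398) (node 431 (merge (leaf 6 398 399) (node 463 (merge (leaf 4 431 560) (node 429 (merge (leaf 7 397 397) (node 428 (merge (leaf 0 427 427) (leaf 0 428 464)))))))))))))))))))))))) (hyp 20)))))))))))))))))))))))))))))))))) nH_25 cH_25 14 (by decide +kernel)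

end Crest.Agent.H26Snaky
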