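import Crest.Agent.H26SnakyTree

/-! certificate data for S0047, part J 0 (computer generated) -/

set_option autoImplicit false
set_option maxRecDepth 100000

namespace Crest.Agent.H26Snaky

open T

def nJ_0 : ℕ := 0x1000000010000000100000000000000000000000000000000000000000000000000000000000000000000000000000000000000000000000000000000000000000000
def cJ_0 : ℕ := 0x20000000280000002a000003eb000001ef000003ef000000ff000000fc0000003c0000000000000000000000000000000000000000000000000000000000000000000000000000000000000000000
theorem lJ_0 : S nJ_0 cJ_0 11 := S_of_chk [] trivial (node 495 (merge (node 529 (merge (node 561 (merge (leaf 4 432 432) (node 593 (merge (leaf 7 464 497) (leaf 7 496 625))))) (node 494 (merge (leaf 0 493 493) (node 530 (merge (leaf 3 494 527) (leaf 3 495 531))))))) (merge (node 432 (merge (node 527 (merge (leaf 5 399 400) (leaf 5 431 559))) (merge (node 529 (merge (leaf 4 432 561) (node 400 (merge (leaf 4 400 497) (node 401 (merge (leaf 6 368 369) (leaf 6 400 433))))))) (node 529 (merge (leaf 4 432 561) (node 494 (merge (leaf 0 493 493) (node 527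 (merge (leaf 3 494 530) (leaf 5 431 559)))))))))) (merge (node 432 (merge (node 529 (merge (leaf 4 432 561) (node 400 (merge (leaf 4 400 497) (node 401 (merge (leaf 6 368 369) (leaf 6 400 433))))))) (merge (node 529 (merge (leaf 4 432 561) (node 400 (merge (leaf 4 400 497) (node 399 (merge (leaf 7 367 367) (leaf 7 399 431))))))) (merge (node 401 (merge (leaf 6 400 433) (node 400 (merge (leaf 6 368 369) (node 399 (merge (leaf 7 367 367) (leaf 7 399 431))))))) (node 529 (merge (leaf 4 432 561) (node 494 (merge (leaf 0 493 493) (node 530 (merge (leaf 0 494 497) (leaf 3 495 531))))))))))) (merge (node 432 (merge (node 400 (merge (leaf 5 399 527) (node 399 (merge (leaf 7 367 367) (leaf 7 399 431))))) (merge (node 529 (merge (leaf 4 432 561) (node 527 (merge (leaf 5 431 559) (node 495 (merge (leaf 5 399 400) (node 530 (merge (leaf 3 494 494) (leaf 3 495 531))))))))) (merge (node 529 (merge (leaf 4 432 561) (node 530 (merge (leaf 3 495 531) (node 527 (merge (leaf 3 494 494) (leaf 5 431 559))))))) (node 401 (merge (leaf 6 400 433) (node 400 (merge (leaf 6 368 369) (node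 399 (merge (leaf 7 367 367) (leaf 7 399 431))))))))))) (merge (node 494 (merge (node 493 (merge (leaf 2 461 465) (leaf 0 493 529))) (merge (node 493 (merge (leaf 0 493 529) (node 492 (merge (leaf 2 460 463) (leaf 0 492 527))))) (merge (node 493 (merge (leaf 2 461 465) (node 492 (merge (leaf 2 460 463) (leaf 0 492 527))))) (node 497 (merge (node 530 (merge (leaf 0 494 529) (node 498 (merge (leaf 0 495 531) (node 462 (merge (leaf 3 461 461) (leaf 3 462 463))))))) (merge (node 466 (merge (leaf 2 462 465) (node 498 (merge (leaf 2 463 467) (node 531 (merge (leaf 0 495 530) (node 499 (merge (leaf 1 495 527) (leaf 0 496 532))))))))) (node 465 (merge (leaf 2 462 466) (node 462 (merge (leaf 3 461 461) (node 433 (merge (leaf 5 400 401) (node 463 (merge (leaf 2 430 434) (node 430 (merge (leaf 3 429 429) (node 398 (merge (leaf 4 366 366) (leaf 4 398 527)))))))))))))))))))) (merge (node 463 (merge (node 432 (merge (node 527 (merge (leaf 5 399 400) (leaf 5 431 559))) (node 433 (merge (leaf 6 400 401) (node 462 (merge (leaf 2 429 461) (node 434 (merge (leaf 1 431 435) (leaf 2 430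 465))))))))) (merge (node 432 (merge (node 433 (merge (leaf 6 400 401) (node 462 (merge (leaf 2 429 461) (node 431 (merge (leaf 7 399 399) (leaf 1 430 434))))))) (merge (node 529 (merge (leaf 4 432 561) (node 400 (merge (leaf 4 400 497) (node 401 (merge (leaf 6 368 369) (leaf 6 400 433))))))) (node 529 (merge (leaf 4 432 561) (node 400 (merge (leaf 4 400 497) (node 399 (merge (leaf 7 367 367) (leaf 7 399 431)))))))))) (merge (node 432 (merge (node 527 (merge (leaf 5 399 400) (leaf 5 431 559))) (merge (node 400 (merge (leaf 5 367 368) (node 497 (merge (leaf 4 400 529) (node 498 (merge (leaf 3 462 462) (leaf 3 463 499))))))) (node 431 (merge (leaf 4 399 399) (node 527 (merge (leaf 5 431 559) (node 430 (merge (leaf 7 398 398) (node 429 (merge (leaf 0 428 428) (leaf 0 429 465)))))))))))) (merge (node 431 (merge (leaf 4 399 399) (node 462 (merge (node 497 (merge (leaf 0 461 461) (leaf 3 462 498))) (merge (node 461 (merge (leaf 0 460 460) (node 429 (merge (leaf 3 428 428) (node 465 (merge (leaf 3 429 430) (node 466 (merge (leaf 1 463 467) (node 434 (merge (leaf 2 430 433)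 (leaf 2 431 435))))))))))) (node 465 (merge (node 498 (merge (leaf 0 462 497) (node 466 (merge (leaf 3 430 430) (leaf 0 463 499))))) (merge (node 433 (merge (leaf 2 430 434) (node 401 (merge (leaf 5 368 369) (leaf 5 400 497))))) (node 434 (merge (leaf 2 430 433) (node 466 (merge (leaf 3 430 430) (leaf 2 431 435))))))))))))) (node 432 (merge (node 529 (merge (leaf 4 432 561) (node 400 (merge (leaf 4 400 497) (node 401 (merge (leaf 6 368 369) (leaf 6 400 433))))))) (merge (node 529 (merge (leaf 4 432 561) (node 400 (merge (leaf 4 400 497) (node 399 (merge (leaf 7 367 367) (leaf 7 399 431))))))) (merge (node 401 (merge (leaf 6 400 433) (node 400 (merge (leaf 6 368 369) (node 399 (merge (leaf 7 367 367) (leaf 7 399 431))))))) (node 529 (merge (leaf 4 432 561) (node 433 (merge (leaf 6 400 401) (node 434 (merge (leaf 1 431 435) (node 431 (merge (leaf 7 399 399) (node 466 (merge (leaf 0 431 467) (node 465 (merge (leaf 0 430 430) (node 402 (merge (leaf 2 399 403) (leaf 6 401 497)))))))))))))))))))))))) (merge (node 494 (merge (node 493 (merge (leaf 2 461 465) (leaf 0 493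 529))) (merge (node 493 (merge (leaf 0 493 529) (node 492 (merge (leaf 2 460 463) (leaf 0 492 527))))) (merge (node 493 (merge (leaf 2 461 465) (node 492 (merge (leaf 2 460 463) (leaf 0 492 527))))) (node 462 (merge (node 497 (merge (leaf 3 461 461) (node 466 (merge (leaf 2 462 465) (node 498 (merge (leaf 3 462 463) (leaf 2 463 467))))))) (merge (node 432 (merge (node 527 (merge (leaf 5 399 400) (leaf 5 431 559))) (merge (node 433 (merge (leaf 6 400 401) (node 461 (merge (leaf 2 429 463) (node 431 (merge (leaf 7 399 399) (leaf 1 429 430))))))) (node 527 (merge (leaf 5 399 400) (leaf 5 431 559)))))) (merge (node 497 (merge (leaf 3 461 461) (node 466 (merge (leaf 2 462 465) (node 498 (merge (leaf 2 463 467) (node 499 (merge (leaf 1 495 527) (node 532 (merge (leaf 0 496 531) (node 500 (merge (leaf 1 496 529) (leaf 0 497 533))))))))))))) (node 497 (merge (node 466 (merge (leaf 2 462 465) (node 498 (merge (leaf 3 462 463) (leaf 2 463 467))))) (merge (node 498 (merge (leaf 3 462 463) (node 499 (merge (leaf 1 495 527) (node 500 (merge (leaf 3 464 465) (leaf 1 496 529)))))))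 (merge (node 498 (merge (leaf 3 462 463) (node 499 (merge (leaf 1 495 527) (node 467 (merge (leaf 2 463 466) (leaf 2 464 468))))))) (merge (node 466 (merge (leaf 2 462 465) (node 498 (merge (leaf 2 463 467) (node 499 (merge (leaf 1 495 527) (node 532 (merge (leaf 0 496 531) (node 500 (merge (leaf 1 496 529) (leaf 0 497 533))))))))))) (node 465 (merge (leaf 2 462 466) (node 433 (merge (leaf 5 400 401) (node 463 (merge (leaf 2 430 434) (node 430 (merge (leaf 3 429 429) (node 398 (merge (leaf 4 366 366) (leaf 4 398 527)))))))))))))))))))))))) (node 494 (merge (node 465 (merge (leaf 2 461 493) (node 466 (merge (leaf 1 462 463) (leaf 1 463 467))))) (merge (node 527 (merge (node 559 (merge (leaf 5 431 432) (leaf 6 463 591))) (merge (node 493 (merge (leaf 0 492 492) (node 525 (merge (leaf 1 492 524) (node 461 (merge (leaf 3 460 460) (node 462 (merge (leaf 3 461 497) (node 430 (merge (leaf 4 398 398) (leaf 6 429 557))))))))))) (node 493 (merge (leaf 0 492 492) (node 525 (merge (leaf 1 492 524) (node 461 (merge (leaf 3 460 460) (node 462 (merge (leaf 3 461 497) (node 430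 (merge (leaf 4 398 398) (leaf 6 429 557)))))))))))))) (node 462 (merge (node 497 (merge (leaf 3 461 461) (node 466 (merge (leaf 2 462 465) (node 498 (merge (leaf 3 462 463) (leaf 2 463 467))))))) (merge (node 497 (merge (leaf 3 461 461) (node 466 (merge (leaf 2 462 465) (node 498 (merge (leaf 2 463 467) (node 531 (merge (leaf 0 495 530) (node 499 (merge (leaf 1 495 527) (leaf 0 496 532))))))))))) (merge (node 432 (merge (node 527 (merge (leaf 5 399 400) (leaf 5 431 559))) (merge (node 433 (merge (leaf 6 400 401) (node 461 (merge (leaf 2 429 463) (node 431 (merge (leaf 7 399 399) (leaf 1 429 430))))))) (node 527 (merge (leaf 5 399 400) (leaf 5 431 559)))))) (node 497 (merge (node 466 (merge (leaf 2 462 465) (node 498 (merge (leaf 3 462 463) (leaf 2 463 467))))) (merge (node 498 (merge (leaf 3 462 463) (node 531 (merge (leaf 0 495 530) (node 499 (merge (leaf 1 495 527) (leaf 0 496 532))))))) (merge (node 466 (merge (leaf 2 462 465) (node 498 (merge (leaf 2 463 467) (node 531 (merge (leaf 0 495 530) (node 499 (merge (leaf 1 495 527) (leaf 0 496 532))))))))) (merge (node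 498 (merge (leaf 3 462 463) (node 499 (merge (leaf 1 495 527) (node 468 (merge (leaf 2 464 467) (node 500 (merge (leaf 3 464 465) (leaf 2 465 469))))))))) (node 465 (merge (leaf 2 462 466) (node 433 (merge (leaf 5 400 401) (node 463 (merge (leaf 2 430 434) (node 430 (merge (leaf 3 429 429) (node 398 (merge (leaf 4 366 366) (leaf 4 398 527))))))))))))))))))))))))))))))) nJ_0 cJ_0 11 (by decide +kernel)
def nJ_1 : ℕ := 0x1000000010000000000000000000000000000000000000000000000000000000000000000000000000000000000000000000000000000000000000000000000000000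
def cJ_1 : ℕ := 0xac000000bc000003bf000001ec000003ef000001fe000001ff00000078000000280000000000000000000000000000000000000000000000000000000000000000000000000000000000000000000
theorem lJ_1 : S nJ_1 cJ_1 13 := S_of_chk [] trivial (node 464 (merge (node 431 (merge (node 463 (merge (leaf 7 431 560) (node 399 (merge (leaf 4 367 367) (leaf 4 399 495))))) (merge (node 399 (merge (leaf 7 399 432) (node 463 (merge (leaf 4 367 367) (leaf 4 399 495))))) (merge (node 560 (merge (leaf 7 431 463) (node 433 (merge (leaf 6 432 465) (node 432 (merge (leaf 6 400 401) (node 559 (merge (leaf 5 431 527) (leaf 5 463 591))))))))) (node 432 (merge (leaf 7 399 399) (node 433 (merge (leaf 6 400 401) (node 560 (merge (leaf 6 432 465) (node 559 (merge (leaf 5 431 527) (leaf 5 463 591))))))))))))) (merge (node 560 (merge (node 561 (merge (leaf 4 464 593) (node 432 (merge (leaf 4 432 529) (node 433 (merge (leaf 6 400 401) (leaf 6 432 465))))))) (merge (node 593 (merge (leaf 4 464 561) (node 592 (merge (leaf 4 496 625) (node 591 (merge (leaf 5 463 559) (leaf 5 495 623))))))) (node 465 (merge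 (leaf 6 432 433) (node 592 (merge (leaf 6 464 497) (node 591 (merge (leaf 5 463 559) (leaf 5 495 623)))))))))) (merge (node 560 (merge (node 561 (merge (leaf 4 464 593) (node 432 (merge (leaf 4 432 529) (node 431 (merge (leaf 7 399 399) (leaf 7 431 463))))))) (merge (node 593 (merge (leaf 4 464 561) (node 592 (merge (leaf 4 496 625) (node 591 (merge (leaf 5 463 559) (leaf 5 495 623))))))) (node 591 (merge (leaf 5 463 559) (node 463 (merge (leaf 7 431 431) (node 592 (merge (leaf 7 463 495) (leaf 5 495 623)))))))))) (merge (node 431 (merge (node 399 (merge (leaf 7 399 432) (node 463 (merge (leaf 4 367 367) (leaf 4 399 495))))) (merge (node 432 (merge (leaf 7 399 399) (node 561 (merge (leaf 4 432 529) (node 433 (merge (leaf 6 400 401) (node 560 (merge (leaf 6 432 465) (leaf 4 464 593))))))))) (node 560 (merge (leaf 7 431 463) (node 593 (merge (leaf 4 464 561) (node 465 (merge (leaf 6 432 433) (node 592 (merge (leaf 6 464 497) (leaf 4 496 625)))))))))))) (merge (node 465 (merge (node 560 (merge (leaf 6 432 433) (node 593 (merge (leaf 4 464 561) (node 592 (merge (leaf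 4 496 625) (node 591 (merge (leaf 5 463 559) (leaf 5 495 623))))))))) (merge (node 463 (merge (node 431 (merge (leaf 7 431 560) (node 399 (merge (leaf 4 367 367) (leaf 4 399 495))))) (merge (node 560 (merge (leaf 7 431 431) (node 497 (merge (leaf 6 464 592) (node 498 (merge (leaf 0 462 462) (leaf 3 463 499))))))) (merge (node 498 (merge (node 497 (merge (leaf 0 462 462) (leaf 3 463 499))) (merge (node 466 (merge (leaf 0 463 499) (node 495 (merge (leaf 1 463 467) (leaf 1 462 494))))) (node 462 (merge (leaf 0 462 497) (node 430 (merge (leaf 3 429 429) (node 466 (merge (leaf 3 430 431) (node 495 (merge (leaf 1 463 467) (leaf 1 462 494)))))))))))) (node 494 (merge (node 495 (merge (leaf 1 462 466) (leaf 2 461 493))) (merge (node 462 (merge (leaf 1 461 493) (node 497 (merge (leaf 0 461 461) (leaf 0 462 498))))) (node 466 (merge (leaf 1 462 495) (node 498 (merge (leaf 0 463 499) (node 497 (merge (leaf 0 462 462) (node 434 (merge (leaf 2 431 435) (node 529 (merge (leaf 5 401 402) (leaf 6 433 561)))))))))))))))))) (node 463 (merge (node 462 (merge (node 433 (merge (leaf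 2 430 434) (node 401 (merge (leaf 5 368 369) (leaf 5 400 497))))) (node 493 (merge (leaf 1 461 494) (node 461 (merge (leaf 1 460 492) (node 429 (merge (leaf 3 428 428) (leaf 3 429 430))))))))) (merge (node 466 (merge (node 431 (merge (leaf 3 430 430) (node 399 (merge (leaf 4 367 367) (leaf 4 399 495))))) (node 499 (merge (leaf 0 463 498) (node 467 (merge (leaf 0 464 500) (node 435 (merge (leaf 2 431 434) (leaf 2 432 436))))))))) (merge (node 466 (merge (node 499 (merge (leaf 0 463 498) (node 467 (merge (leaf 1 463 495) (leaf 0 464 500))))) (merge (node 499 (merge (leaf 0 463 498) (node 467 (merge (leaf 0 464 500) (node 435 (merge (leaf 2 431 434) (leaf 2 432 436))))))) (node 434 (merge (leaf 2 431 435) (node 462 (merge (leaf 2 430 433) (node 494 (merge (leaf 1 461 493) (leaf 1 462 495)))))))))) (node 498 (merge (node 497 (merge (leaf 0 462 462) (leaf 3 463 499))) (merge (node 466 (merge (leaf 0 463 499) (node 431 (merge (leaf 3 430 430) (node 399 (merge (leaf 4 367 367) (leaf 4 399 495))))))) (node 462 (merge (leaf 0 462 497) (node 494 (merge (leaf 1 461 493) (node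 466 (merge (leaf 1 462 495) (node 430 (merge (leaf 3 429 429) (leaf 3 430 431))))))))))))))))))) (node 529 (merge (node 561 (merge (leaf 4 432 432) (node 593 (merge (leaf 7 464 497) (leaf 7 496 625))))) (merge (node 432 (merge (leaf 4 432 561) (node 401 (merge (leaf 6 400 433) (node 400 (merge (leaf 6 368 369) (node 527 (merge (leaf 5 399 495) (leaf 5 431 559))))))))) (merge (node 527 (merge (node 432 (merge (leaf 5 431 559) (node 401 (merge (leaf 6 400 433) (node 400 (merge (leaf 6 368 369) (node 399 (merge (leaf 7 367 367) (leaf 7 399 431))))))))) (merge (node 559 (merge (node 591 (merge (leaf 6 463 495) (leaf 6 495 623))) (merge (node 530 (merge (leaf 1 526 558) (node 499 (merge (leaf 2 495 498) (node 531 (merge (leaf 3 495 495) (leaf 2 496 500))))))) (node 558 (merge (leaf 1 526 530) (node 557 (merge (leaf 1 525 526) (leaf 2 524 556)))))))) (node 526 (merge (node 498 (merge (leaf 2 494 497) (node 530 (merge (leaf 2 495 499) (node 494 (merge (leaf 3 493 493) (leaf 3 494 495))))))) (merge (node 558 (merge (leaf 1 525 557) (node 494 (merge (leaf 3 493 493) (node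 495 (merge (leaf 3 494 530) (node 590 (merge (leaf 6 462 463) (leaf 6 494 622))))))))) (merge (node 558 (merge (leaf 1 525 557) (node 497 (merge (leaf 2 494 498) (node 432 (merge (leaf 4 400 400) (node 433 (merge (leaf 6 400 401) (node 431 (merge (leaf 7 399 399) (node 463 (merge (leaf 5 430 495) (node 462 (merge (leaf 1 430 434) (leaf 0 461 461))))))))))))))) (node 558 (merge (leaf 1 525 557) (node 497 (merge (leaf 2 494 498) (node 494 (merge (leaf 3 493 493) (node 432 (merge (leaf 4 400 400) (node 433 (merge (leaf 6 400 401) (node 431 (merge (leaf 7 399 399) (node 462 (merge (leaf 6 430 463) (node 461 (merge (leaf 7 429 429) (leaf 1 429 430)))))))))))))))))))))))) (node 530 (merge (node 495 (merge (leaf 3 495 531) (node 494 (merge (leaf 0 493 493) (leaf 3 494 527))))) (merge (node 531 (merge (leaf 3 495 495) (node 564 (merge (leaf 0 528 563) (node 532 (merge (leaf 3 496 497) (leaf 0 529 565))))))) (merge (node 531 (merge (node 564 (merge (leaf 0 528 563) (node 532 (merge (leaf 3 496 497) (leaf 0 529 565))))) (merge (node 500 (merge (leaf 2 496 499) (node 532 (merge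 (leaf 3 496 497) (leaf 2 497 501))))) (node 563 (merge (leaf 0 528 564) (node 499 (merge (leaf 2 496 500) (node 498 (merge (leaf 2 495 527) (node 595 (merge (leaf 7 466 466) (leaf 7 498 627)))))))))))) (node 498 (merge (node 499 (merge (leaf 2 495 527) (node 497 (merge (leaf 3 463 463) (leaf 1 496 500))))) (merge (node 527 (merge (leaf 2 495 499) (node 559 (merge (leaf 1 526 558) (node 495 (merge (leaf 3 494 494) (leaf 6 463 591))))))) (merge (node 497 (merge (node 499 (merge (leaf 3 463 463) (leaf 1 496 500))) (merge (node 495 (merge (leaf 0 494 494) (node 466 (merge (leaf 2 463 467) (node 434 (merge (leaf 5 401 402) (leaf 5 433 561))))))) (node 495 (merge (leaf 0 494 494) (node 499 (merge (leaf 1 496 500) (node 467 (merge (leaf 2 463 466) (leaf 2 464 468)))))))))) (node 527 (merge (node 526 (merge (leaf 2 494 497) (node 558 (merge (leaf 1 525 557) (leaf 1 526 559))))) (merge (node 559 (merge (leaf 1 526 558) (node 495 (merge (leaf 3 494 494) (leaf 6 463 591))))) (node 497 (merge (leaf 2 494 526) (node 495 (merge (leaf 0 494 494) (node 466 (merge (leaf 2 463 467)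 (node 434 (merge (leaf 5 401 402) (leaf 5 433 561)))))))))))))))))))))))))))))) nJ_1 cJ_1 13 (by decide +kernel)
def nJ_2 : ℕ := 0x100000001000000010000000000000000000000000000000000000000000000000000000000000000000000000000000000000000000000000000000000000000000000000000
def cJ_2 : ℕ := 0x200000003e0000003e0000003e000000ffc000002f800000ef8000000f0000000f8000000800000008000000000000000000000000000000000000000000000000000000000000000000000000000000000000000000000000000
theorem lJ_2 : S nJ_2 cJ_2 12 := S_of_chk [] trivial (node 559 (merge (node 592 (merge (node 625 (merge (leaf 4 496 593) (node 624 (merge (leaf 4 528 657) (node 623 (merge (leaf 5 495 591) (leaf 5 527 655))))))) (merge (node 625 (merge (leaf 4 496 593) (node 624 (merge (leaf 4 528 657) (node 495 (merge (leaf 7 463 463) (leaf 7 495 527))))))) (merge (node 623 (merge (leaf 5 495 591) (node 495 (merge (leaf 7 463 463) (node 624 (merge (leaf 7 495 527) (leaf 5 527 655))))))) (node 593 (merge (leaf 4 496 625) (node 594 (merge (leaf 3 559 595) (node 591 (merge (leaf 3 558 558) (leaf 5 495 623))))))))))) (merge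 (node 558 (merge (node 529 (merge (leaf 2 525 557) (node 561 (merge (leaf 2 526 530) (node 593 (merge (leaf 0 558 594) (leaf 7 496 625))))))) (merge (node 557 (merge (leaf 2 525 529) (node 556 (merge (leaf 2 524 527) (node 588 (merge (leaf 1 555 587) (leaf 1 556 589))))))) (merge (node 593 (merge (node 625 (merge (leaf 4 496 592) (node 561 (merge (leaf 7 496 529) (leaf 7 528 657))))) (merge (node 594 (merge (leaf 0 558 561) (node 592 (merge (leaf 3 558 591) (leaf 3 559 595))))) (merge (node 561 (merge (leaf 0 558 594) (node 625 (merge (leaf 7 496 529) (leaf 7 528 657))))) (node 592 (merge (leaf 4 496 625) (node 594 (merge (leaf 3 558 591) (leaf 3 559 595))))))))) (node 525 (merge (node 526 (merge (leaf 3 525 561) (node 524 (merge (leaf 0 523 523) (leaf 0 524 527))))) (merge (node 557 (merge (leaf 3 524 524) (node 556 (merge (leaf 2 524 527) (node 588 (merge (leaf 1 555 587) (leaf 1 556 589))))))) (merge (node 557 (merge (leaf 3 524 524) (node 589 (merge (leaf 1 556 588) (node 561 (merge (leaf 3 525 526) (leaf 1 557 590))))))) (node 561 (merge (leaf 3 525 526) (node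 593 (merge (leaf 0 558 594) (node 625 (merge (leaf 4 496 592) (leaf 7 528 657))))))))))))))) (merge (node 558 (merge (node 529 (merge (leaf 2 525 557) (node 561 (merge (leaf 2 526 530) (node 593 (merge (leaf 0 558 594) (leaf 7 496 625))))))) (merge (node 557 (merge (leaf 2 525 529) (node 556 (merge (leaf 2 524 527) (node 588 (merge (leaf 1 555 587) (leaf 1 556 589))))))) (merge (node 525 (merge (node 526 (merge (leaf 3 525 561) (node 524 (merge (leaf 0 523 523) (leaf 0 524 527))))) (merge (node 557 (merge (leaf 3 524 524) (node 556 (merge (leaf 2 524 527) (node 588 (merge (leaf 1 555 587) (leaf 1 556 589))))))) (merge (node 557 (merge (leaf 3 524 524) (node 589 (merge (leaf 1 556 588) (node 561 (merge (leaf 3 525 526) (leaf 1 557 590))))))) (node 561 (merge (leaf 3 525 526) (node 593 (merge (leaf 0 558 594) (node 625 (merge (leaf 4 496 592) (leaf 7 528 657))))))))))) (node 592 (merge (node 593 (merge (leaf 4 496 625) (node 594 (merge (leaf 0 558 561) (leaf 3 559 595))))) (merge (node 625 (merge (leaf 4 496 593) (node 624 (merge (leaf 4 528 657) (node 495 (merge (leaf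 7 463 463) (leaf 7 495 527))))))) (merge (node 495 (merge (leaf 7 463 463) (node 624 (merge (leaf 7 495 527) (node 655 (merge (leaf 5 527 623) (node 656 (merge (leaf 5 559 687) (node 689 (merge (leaf 4 560 657) (node 688 (merge (leaf 4 592 721) (node 561 (merge (leaf 6 528 529) (leaf 6 560 593))))))))))))))) (node 495 (merge (leaf 7 463 463) (node 624 (merge (leaf 7 495 527) (node 657 (merge (leaf 4 528 625) (node 656 (merge (leaf 4 560 689) (node 655 (merge (leaf 5 527 623) (leaf 5 559 687))))))))))))))))))) (merge (node 558 (merge (node 557 (merge (leaf 2 525 529) (node 588 (merge (leaf 1 556 589) (node 556 (merge (leaf 1 555 587) (node 524 (merge (leaf 3 523 523) (leaf 3 524 525))))))))) (merge (node 593 (merge (node 625 (merge (leaf 4 496 592) (node 561 (merge (leaf 7 496 529) (leaf 7 528 657))))) (merge (node 594 (merge (leaf 0 558 561) (node 592 (merge (leaf 3 558 591) (leaf 3 559 595))))) (merge (node 561 (merge (leaf 0 558 594) (node 625 (merge (leaf 7 496 529) (leaf 7 528 657))))) (node 592 (merge (leaf 4 496 625) (node 594 (merge (leaf 3 559 595) (node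 591 (merge (leaf 3 558 558) (leaf 5 495 623))))))))))) (node 589 (merge (node 590 (merge (leaf 1 557 561) (node 588 (merge (leaf 2 555 587) (leaf 2 556 591))))) (merge (node 557 (merge (leaf 1 556 588) (node 561 (merge (leaf 1 557 590) (node 525 (merge (leaf 3 524 524) (leaf 3 525 526))))))) (merge (node 557 (merge (leaf 1 556 588) (node 592 (merge (leaf 0 557 593) (node 591 (merge (leaf 0 556 556) (leaf 5 495 623))))))) (node 561 (merge (leaf 1 557 590) (node 593 (merge (leaf 0 558 594) (node 625 (merge (leaf 4 496 592) (leaf 7 528 657)))))))))))))) (merge (node 592 (merge (node 625 (merge (leaf 4 496 593) (node 624 (merge (leaf 4 528 657) (node 623 (merge (leaf 5 495 591) (leaf 5 527 655))))))) (merge (node 625 (merge (leaf 4 496 593) (node 624 (merge (leaf 4 528 657) (node 495 (merge (leaf 7 463 463) (leaf 7 495 527))))))) (node 495 (merge (leaf 7 463 463) (node 494 (merge (node 591 (merge (leaf 5 495 623) (node 527 (merge (leaf 7 462 462) (node 590 (merge (leaf 5 494 622) (node 589 (merge (leaf 2 557 561) (leaf 2 556 588))))))))) (node 493 (merge (leaf 0 493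 529) (node 524 (merge (leaf 1 492 525) (node 492 (merge (leaf 1 491 523) (node 460 (merge (leaf 3 459 459) (leaf 3 460 461)))))))))))))))) (merge (node 558 (merge (node 529 (merge (leaf 2 525 557) (node 530 (merge (leaf 1 527 531) (leaf 2 526 561))))) (merge (node 557 (merge (leaf 2 525 529) (node 556 (merge (leaf 2 524 527) (node 588 (merge (leaf 1 555 587) (leaf 1 556 589))))))) (merge (node 525 (merge (node 526 (merge (leaf 3 525 561) (node 524 (merge (leaf 0 523 523) (leaf 0 524 527))))) (merge (node 557 (merge (leaf 3 524 524) (node 556 (merge (leaf 2 524 527) (node 588 (merge (leaf 1 555 587) (leaf 1 556 589))))))) (merge (node 557 (merge (leaf 3 524 524) (node 589 (merge (leaf 1 556 588) (node 561 (merge (leaf 3 525 526) (leaf 1 557 590))))))) (node 561 (merge (leaf 3 525 526) (node 593 (merge (leaf 0 558 594) (node 557 (merge (leaf 0 557 592) (node 589 (merge (leaf 1 556 588) (leaf 1 557 590))))))))))))) (node 495 (merge (node 463 (merge (leaf 7 463 592) (node 527 (merge (leaf 4 431 431) (leaf 5 462 590))))) (merge (node 592 (merge (leaf 7 463 463) (node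 623 (merge (leaf 5 495 591) (node 624 (merge (leaf 7 495 527) (leaf 5 527 655))))))) (merge (node 590 (merge (node 527 (merge (leaf 5 462 463) (node 622 (merge (leaf 6 494 526) (leaf 6 526 654))))) (node 589 (merge (leaf 1 557 561) (node 588 (merge (leaf 2 555 587) (leaf 2 556 591))))))) (merge (node 591 (merge (node 623 (merge (leaf 6 495 527) (leaf 6 527 655))) (merge (node 623 (merge (leaf 5 495 592) (leaf 6 527 655))) (node 529 (merge (node 530 (merge (leaf 1 526 527) (leaf 1 527 531))) (merge (node 530 (merge (leaf 1 527 531) (leaf 2 526 561))) (node 494 (merge (leaf 0 493 493) (node 527 (merge (leaf 7 462 462) (node 590 (merge (leaf 5 494 622) (node 589 (merge (leaf 1 557 561) (leaf 2 556 588))))))))))))))) (node 561 (merge (node 590 (merge (leaf 1 557 589) (node 529 (merge (leaf 2 526 530) (node 494 (merge (leaf 0 493 493) (node 526 (merge (leaf 6 462 463) (leaf 3 525 525))))))))) (merge (node 529 (merge (leaf 2 526 530) (node 494 (merge (leaf 0 493 493) (node 526 (merge (leaf 3 525 525) (node 591 (merge (leaf 4 462 462) (node 623 (merge (leaf 4 494 590) (leaf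 5 495 592))))))))))) (merge (node 590 (merge (leaf 1 557 589) (node 526 (merge (leaf 3 525 525) (node 494 (merge (leaf 6 462 463) (node 591 (merge (leaf 4 462 462) (leaf 4 494 623))))))))) (merge (node 529 (merge (leaf 2 526 530) (node 592 (merge (leaf 7 463 463) (node 623 (merge (leaf 5 495 591) (node 624 (merge (leaf 5 527 655) (leaf 6 528 656))))))))) (merge (node 529 (merge (leaf 2 526 530) (node 592 (merge (leaf 7 463 463) (node 623 (merge (leaf 5 495 591) (node 624 (merge (leaf 5 527 655) (leaf 6 528 656))))))))) (node 529 (merge (leaf 2 526 530) (node 592 (merge (leaf 7 463 463) (node 623 (merge (leaf 5 495 591) (node 624 (merge (leaf 5 527 655) (leaf 6 528 656)))))))))))))))))))))))) (merge (node 558 (merge (node 529 (merge (leaf 2 525 557) (node 530 (merge (leaf 1 526 527) (leaf 1 527 531))))) (merge (node 593 (merge (node 625 (merge (leaf 4 496 592) (node 561 (merge (leaf 7 496 529) (leaf 7 528 657))))) (merge (node 594 (merge (leaf 0 558 561) (node 592 (merge (leaf 3 558 591) (leaf 3 559 595))))) (merge (node 561 (merge (leaf 0 558 594) (node 625 (merge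 (leaf 7 496 529) (leaf 7 528 657))))) (node 592 (merge (leaf 4 496 625) (node 594 (merge (leaf 3 559 595) (node 591 (merge (leaf 3 558 558) (leaf 5 495 623))))))))))) (node 525 (merge (node 526 (merge (leaf 3 525 561) (node 524 (merge (leaf 0 523 523) (leaf 0 524 527))))) (merge (node 557 (merge (leaf 3 524 524) (node 556 (merge (leaf 2 524 527) (node 588 (merge (leaf 1 555 587) (leaf 1 556 589))))))) (merge (node 557 (merge (leaf 3 524 524) (node 589 (merge (leaf 1 556 588) (node 561 (merge (leaf 3 525 526) (leaf 1 557 590))))))) (node 561 (merge (leaf 3 525 526) (node 593 (merge (leaf 0 558 594) (node 557 (merge (leaf 0 557 592) (node 589 (merge (leaf 1 556 588) (leaf 1 557 590)))))))))))))))) (merge (node 495 (merge (node 463 (merge (leaf 7 463 592) (node 431 (merge (leaf 4 399 399) (leaf 4 431 527))))) (merge (node 558 (merge (node 557 (merge (leaf 2 525 529) (node 556 (merge (leaf 2 524 527) (node 588 (merge (leaf 1 555 587) (leaf 1 556 589))))))) (merge (node 557 (merge (leaf 2 525 529) (node 589 (merge (leaf 1 556 588) (node 561 (merge (leaf 1 557 590) (node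 525 (merge (leaf 3 524 524) (leaf 3 525 526))))))))) (merge (node 590 (merge (node 527 (merge (leaf 5 462 463) (node 622 (merge (leaf 6 494 526) (leaf 6 526 654))))) (node 589 (merge (leaf 1 557 561) (node 588 (merge (leaf 2 555 587) (leaf 2 556 591))))))) (node 557 (merge (leaf 2 525 529) (node 527 (merge (leaf 2 524 556) (node 463 (merge (leaf 4 431 431) (leaf 5 462 590))))))))))) (merge (node 529 (merge (node 558 (merge (leaf 2 525 557) (node 530 (merge (leaf 1 527 531) (leaf 2 526 561))))) (merge (node 592 (merge (leaf 7 463 463) (node 623 (merge (leaf 5 495 591) (node 624 (merge (leaf 5 527 655) (node 657 (merge (leaf 4 528 625) (node 656 (merge (leaf 6 528 561) (leaf 4 560 689))))))))))) (node 494 (merge (leaf 0 493 493) (node 558 (merge (leaf 2 525 557) (node 463 (merge (leaf 7 463 592) (node 526 (merge (leaf 6 462 590) (node 462 (merge (leaf 6 430 431) (leaf 4 462 591)))))))))))))) (node 494 (merge (node 529 (merge (leaf 0 493 493) (node 530 (merge (leaf 3 494 527) (leaf 1 527 531))))) (merge (node 493 (merge (leaf 0 493 529) (node 524 (merge (leaf 1 492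 525) (node 492 (merge (leaf 1 491 523) (node 460 (merge (leaf 3 459 459) (leaf 3 460 461))))))))) (merge (node 591 (merge (node 623 (merge (leaf 5 495 592) (leaf 6 527 655))) (merge (node 527 (merge (leaf 7 462 462) (leaf 6 495 623))) (node 527 (merge (leaf 7 462 462) (node 493 (merge (leaf 0 492 492) (node 525 (merge (leaf 1 492 524) (node 461 (merge (leaf 3 460 460) (node 590 (merge (leaf 5 494 622) (node 558 (merge (leaf 7 461 526) (leaf 4 461 557)))))))))))))))) (node 591 (merge (node 623 (merge (leaf 5 495 592) (leaf 6 527 655))) (merge (node 527 (merge (leaf 7 462 462) (leaf 6 495 623))) (node 527 (merge (leaf 7 462 462) (node 592 (merge (leaf 4 495 624) (node 590 (merge (leaf 5 494 622) (node 589 (merge (leaf 2 557 561) (leaf 2 556 588)))))))))))))))))))) (node 591 (merge (node 623 (merge (leaf 6 495 527) (leaf 6 527 655))) (merge (node 558 (merge (node 529 (merge (leaf 2 525 557) (node 561 (merge (leaf 2 526 530) (node 593 (merge (leaf 0 558 594) (leaf 7 496 625))))))) (merge (node 557 (merge (leaf 2 525 529) (node 588 (merge (leaf 1 556 589) (node 556 (merge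 (leaf 2 524 527) (leaf 1 555 587))))))) (merge (node 557 (merge (node 556 (merge (leaf 2 524 527) (node 588 (merge (leaf 1 555 587) (leaf 1 556 589))))) (merge (node 589 (merge (leaf 1 556 588) (node 561 (merge (leaf 1 557 590) (node 525 (merge (leaf 3 524 524) (leaf 3 525 526))))))) (merge (node 556 (merge (leaf 2 524 527) (node 590 (merge (leaf 0 555 555) (node 561 (merge (leaf 1 557 589) (node 525 (merge (leaf 3 524 524) (leaf 3 525 526))))))))) (node 556 (merge (leaf 2 524 527) (node 555 (merge (leaf 0 555 590) (node 587 (merge (leaf 1 554 586) (leaf 1 555 588))))))))))) (node 561 (merge (node 593 (merge (leaf 0 558 594) (node 529 (merge (leaf 2 526 530) (leaf 7 496 625))))) (node 590 (merge (leaf 1 557 589) (node 526 (merge (leaf 3 525 525) (node 494 (merge (leaf 4 462 462) (node 495 (merge (leaf 6 462 463) (node 622 (merge (leaf 5 494 527) (node 653 (merge (leaf 5 525 621) (node 654 (merge (leaf 5 557 685) (leaf 6 558 686))))))))))))))))))))) (node 558 (merge (node 529 (merge (leaf 2 525 557) (node 561 (merge (leaf 2 526 530) (node 593 (merge (leaf 0 558 594)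 (leaf 7 496 625))))))) (merge (node 526 (merge (node 623 (merge (leaf 7 526 655) (node 494 (merge (leaf 4 462 462) (leaf 4 494 590))))) (node 525 (merge (leaf 3 525 561) (node 524 (merge (leaf 0 523 523) (leaf 3 524 557))))))) (merge (node 526 (merge (node 623 (merge (leaf 7 526 655) (node 494 (merge (leaf 4 462 462) (leaf 4 494 590))))) (node 561 (merge (leaf 3 525 525) (node 593 (merge (leaf 0 558 594) (node 529 (merge (leaf 2 526 530) (leaf 7 496 625))))))))) (node 557 (merge (leaf 2 525 529) (node 588 (merge (leaf 1 556 589) (node 556 (merge (leaf 1 555 587) (node 524 (merge (leaf 3 523 523) (leaf 3 524 525))))))))))))))))))))))))) nJ_2 cJ_2 12 (by decide +kernel)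
def nJ_3 : ℕ := 0x1000000010000000000000000000000000000000000000000000000000000000000000000000000000000000000000000000000000000000000000000000000000000
def cJ_3 : ℕ := 0x60000002e0000003e0000007fc000003f800003ef800001ef000003ff0000002f00000008000000000000000000000000000000000000000000000000000000000000000000000000000000000000000000000000000
theorem lJ_3 : S nJ_3 cJ_3 14 := S_of_chk [] trivial (node 560 (merge (node 591 (merge (node 559 (merge (leaf 5 463 464) (node 623 (merge (leaf 6 495 527) (leaf 6 527 655))))) (merge (node 623 (merge (leaf 5 495 592) (node 559 (merge (leaf 6 495 527) (leaf 6 527 655))))) (merge (node 592 (merge (leaf 5 495 623) (node 593 (merge (leaf 4 496 625) (node 464 (merge (leaf 4 464 561) (node 465 (merge (leaf 6 432 433) (leaf 6 464 497))))))))) (node 464 (merge (leaf 5 463 559) (node 593 (merge (leaf 4 464 561) (node 465 (merge (leaf 6 432 433) (node 592 (merge (leaf 6 464 497) (leaf 4 496 625))))))))))))) (merge (node 463 (merge (node 495 (merge (leaf 7 463 592) (node 431 (merge (leaf 4 399 399) (leaf 4 431 527))))) (merge (node 431 (merge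 (leaf 7 431 464) (node 495 (merge (leaf 4 399 399) (leaf 4 431 527))))) (merge (node 592 (merge (leaf 7 463 495) (node 465 (merge (leaf 6 464 497) (node 464 (merge (leaf 6 432 433) (node 591 (merge (leaf 5 463 559) (leaf 5 495 623))))))))) (node 464 (merge (leaf 7 431 431) (node 465 (merge (leaf 6 432 433) (node 592 (merge (leaf 6 464 497) (node 591 (merge (leaf 5 463 559) (leaf 5 495 623))))))))))))) (merge (node 592 (merge (node 593 (merge (leaf 4 496 625) (node 464 (merge (leaf 4 464 561) (node 463 (merge (leaf 7 431 431) (leaf 7 463 495))))))) (merge (node 625 (merge (leaf 4 496 593) (node 624 (merge (leaf 4 528 657) (node 623 (merge (leaf 5 495 591) (leaf 5 527 655))))))) (node 623 (merge (leaf 5 495 591) (node 495 (merge (leaf 7 463 463) (node 624 (merge (leaf 7 495 527) (leaf 5 527 655)))))))))) (merge (node 592 (merge (node 625 (merge (leaf 4 496 593) (node 497 (merge (leaf 6 464 465) (node 624 (merge (leaf 6 496 529) (leaf 4 528 657))))))) (merge (node 497 (merge (leaf 6 464 465) (node 624 (merge (leaf 6 496 529) (node 623 (merge (leaf 5 495 591) (leaf 5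 527 655))))))) (node 593 (merge (leaf 4 496 625) (node 464 (merge (leaf 4 464 561) (node 591 (merge (leaf 5 463 559) (leaf 5 495 623)))))))))) (merge (node 497 (merge (node 592 (merge (leaf 6 464 465) (node 625 (merge (leaf 4 496 593) (node 624 (merge (leaf 6 496 529) (leaf 4 528 657))))))) (merge (node 592 (merge (leaf 6 464 465) (node 625 (merge (leaf 4 496 593) (node 624 (merge (leaf 4 528 657) (node 495 (merge (leaf 7 463 463) (leaf 7 495 527))))))))) (merge (node 495 (merge (node 592 (merge (leaf 7 463 463) (node 625 (merge (leaf 4 496 593) (node 624 (merge (leaf 6 496 529) (leaf 4 528 657))))))) (merge (node 498 (merge (node 527 (merge (leaf 1 495 499) (leaf 1 494 526))) (merge (node 463 (merge (leaf 3 462 462) (node 431 (merge (leaf 4 399 399) (leaf 4 431 527))))) (node 531 (merge (leaf 0 495 530) (node 499 (merge (leaf 0 496 532) (node 467 (merge (leaf 2 463 466) (leaf 2 464 468)))))))))) (node 526 (merge (node 527 (merge (leaf 1 494 498) (leaf 2 493 525))) (merge (node 494 (merge (leaf 1 493 525) (node 529 (merge (leaf 0 493 493) (leaf 0 494 530))))) (node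 498 (merge (leaf 1 494 527) (node 531 (merge (leaf 0 495 530) (node 499 (merge (leaf 0 496 532) (node 467 (merge (leaf 2 463 466) (leaf 2 464 468))))))))))))))) (node 498 (merge (node 527 (merge (leaf 1 495 499) (node 526 (merge (leaf 1 494 495) (leaf 2 493 525))))) (merge (node 499 (merge (leaf 1 495 527) (node 468 (merge (leaf 2 464 467) (node 500 (merge (leaf 2 465 469) (leaf 1 496 529))))))) (merge (node 495 (merge (node 463 (merge (leaf 3 462 462) (node 431 (merge (leaf 4 399 399) (leaf 4 431 527))))) (merge (node 466 (merge (leaf 2 463 467) (node 494 (merge (leaf 2 462 465) (node 526 (merge (leaf 1 493 525) (leaf 1 494 527))))))) (node 466 (merge (leaf 2 463 467) (node 494 (merge (leaf 2 462 465) (node 493 (merge (leaf 0 493 529) (node 525 (merge (leaf 1 492 524) (leaf 1 493 526)))))))))))) (node 499 (merge (node 532 (merge (leaf 0 496 531) (node 500 (merge (leaf 1 496 529) (leaf 0 497 533))))) (merge (node 467 (merge (leaf 2 464 468) (node 495 (merge (leaf 2 463 466) (node 462 (merge (leaf 3 462 463) (node 494 (merge (leaf 3 461 461) (node 493 (merge (leaf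 0 493 529) (node 525 (merge (leaf 1 492 524) (leaf 1 493 526))))))))))))) (node 532 (merge (leaf 0 496 531) (node 500 (merge (leaf 0 497 533) (node 468 (merge (leaf 2 464 467) (leaf 2 465 469)))))))))))))))))) (node 559 (merge (node 591 (merge (leaf 5 463 464) (node 623 (merge (leaf 6 495 527) (leaf 6 527 655))))) (merge (node 558 (merge (node 557 (merge (leaf 2 525 529) (node 525 (merge (leaf 3 524 524) (node 561 (merge (leaf 3 525 526) (node 464 (merge (leaf 5 463 591) (leaf 4 464 593))))))))) (merge (node 557 (merge (leaf 2 525 529) (node 589 (merge (leaf 1 556 588) (node 561 (merge (leaf 1 557 590) (node 464 (merge (leaf 5 463 591) (leaf 4 464 593))))))))) (merge (node 557 (merge (leaf 2 525 529) (node 589 (merge (leaf 1 556 588) (node 561 (merge (leaf 1 557 590) (node 525 (merge (leaf 3 524 524) (leaf 3 525 526))))))))) (merge (node 464 (merge (leaf 5 463 591) (node 561 (merge (leaf 4 464 593) (node 590 (merge (leaf 1 557 589) (node 526 (merge (leaf 3 525 525) (node 465 (merge (leaf 6 432 433) (node 463 (merge (leaf 7 431 431) (node 494 (merge (leaf 6 462 495)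 (node 493 (merge (leaf 7 461 461) (leaf 1 461 462))))))))))))))))) (node 557 (merge (leaf 2 525 529) (node 588 (merge (leaf 1 556 589) (node 556 (merge (leaf 1 555 587) (node 525 (merge (leaf 3 524 524) (node 461 (merge (leaf 5 460 493) (node 464 (merge (leaf 5 463 591) (node 465 (merge (leaf 6 432 433) (node 463 (merge (leaf 7 431 431) (node 462 (merge (leaf 0 461 497) (node 429 (merge (leaf 3 428 428) (leaf 3 429 430)))))))))))))))))))))))))) (merge (node 558 (merge (node 529 (merge (leaf 2 525 557) (node 530 (merge (leaf 1 526 527) (leaf 1 527 531))))) (merge (node 561 (merge (node 593 (merge (leaf 4 464 464) (leaf 0 558 594))) (node 589 (merge (leaf 1 557 590) (node 557 (merge (leaf 1 556 588) (node 525 (merge (leaf 3 524 524) (leaf 3 525 526))))))))) (node 526 (merge (node 561 (merge (leaf 3 525 525) (node 593 (merge (leaf 4 464 464) (leaf 0 558 594))))) (merge (node 525 (merge (leaf 3 525 561) (node 524 (merge (leaf 0 523 523) (leaf 0 524 527))))) (merge (node 527 (merge (node 525 (merge (leaf 2 493 497) (leaf 0 524 524))) (merge (node 529 (merge (leaf 1 526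 530) (node 497 (merge (leaf 2 494 498) (node 494 (merge (leaf 3 493 493) (node 462 (merge (leaf 4 430 430) (node 461 (merge (leaf 7 429 429) (leaf 3 461 495))))))))))) (node 525 (merge (leaf 0 524 524) (node 529 (merge (leaf 1 526 530) (node 493 (merge (leaf 3 492 492) (leaf 3 493 494)))))))))) (node 527 (merge (node 529 (merge (leaf 1 526 530) (node 497 (merge (leaf 2 494 498) (node 494 (merge (leaf 3 493 493) (node 462 (merge (leaf 4 430 430) (node 461 (merge (leaf 7 429 429) (leaf 3 461 495))))))))))) (merge (node 529 (merge (leaf 1 526 530) (node 497 (merge (leaf 2 494 498) (node 494 (merge (leaf 3 493 493) (node 465 (merge (leaf 5 432 433) (node 495 (merge (leaf 2 462 466) (node 590 (merge (leaf 5 462 463) (leaf 6 494 622))))))))))))) (merge (node 529 (merge (leaf 1 526 530) (node 494 (merge (leaf 3 493 493) (node 462 (merge (leaf 4 430 430) (node 463 (merge (leaf 6 430 431) (node 590 (merge (leaf 5 462 495) (node 589 (merge (leaf 1 557 561) (leaf 5 493 621))))))))))))) (merge (node 495 (merge (node 590 (merge (leaf 5 462 463) (leaf 6 494 622))) (merge (node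 497 (merge (leaf 1 494 498) (node 463 (merge (leaf 4 431 431) (node 462 (merge (leaf 7 430 430) (node 461 (merge (leaf 0 460 460) (leaf 0 461 464))))))))) (node 497 (merge (leaf 1 494 498) (node 590 (merge (leaf 6 494 622) (node 561 (merge (leaf 1 557 589) (node 464 (merge (leaf 4 464 593) (node 465 (merge (leaf 6 432 433) (node 494 (merge (leaf 2 462 466) (leaf 2 461 493)))))))))))))))) (merge (node 529 (merge (leaf 1 526 530) (node 497 (merge (leaf 2 494 498) (node 494 (merge (leaf 3 493 493) (node 462 (merge (leaf 4 430 430) (node 463 (merge (leaf 6 430 431) (node 461 (merge (leaf 7 429 429) (leaf 0 461 464))))))))))))) (node 495 (merge (node 529 (merge (leaf 1 526 530) (node 590 (merge (leaf 6 494 622) (node 561 (merge (leaf 1 557 589) (node 593 (merge (leaf 0 558 594) (leaf 7 496 625))))))))) (node 497 (merge (leaf 1 494 498) (node 463 (merge (leaf 4 431 431) (node 462 (merge (leaf 7 430 430) (node 461 (merge (leaf 0 460 460) (leaf 0 461 464)))))))))))))))))))))))) (node 591 (merge (node 623 (merge (leaf 6 495 527) (leaf 6 527 655))) (merge (node 558 (merge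 (node 529 (merge (leaf 2 525 557) (node 561 (merge (leaf 2 526 530) (node 593 (merge (leaf 0 558 594) (leaf 7 496 625))))))) (merge (node 557 (merge (leaf 2 525 529) (node 588 (merge (leaf 1 556 589) (node 556 (merge (leaf 2 524 527) (leaf 1 555 587))))))) (merge (node 557 (merge (node 556 (merge (leaf 2 524 527) (node 588 (merge (leaf 1 555 587) (leaf 1 556 589))))) (merge (node 589 (merge (leaf 1 556 588) (node 561 (merge (leaf 1 557 590) (node 525 (merge (leaf 3 524 524) (leaf 3 525 526))))))) (merge (node 556 (merge (leaf 2 524 527) (node 590 (merge (leaf 0 555 555) (node 561 (merge (leaf 1 557 589) (node 525 (merge (leaf 3 524 524) (leaf 3 525 526))))))))) (node 556 (merge (leaf 2 524 527) (node 555 (merge (leaf 0 555 590) (node 587 (merge (leaf 1 554 586) (leaf 1 555 588))))))))))) (node 561 (merge (node 593 (merge (leaf 0 558 594) (node 529 (merge (leaf 2 526 530) (leaf 7 496 625))))) (node 590 (merge (leaf 1 557 589) (node 526 (merge (leaf 3 525 525) (node 494 (merge (leaf 4 462 462) (node 495 (merge (leaf 6 462 463) (node 622 (merge (leaf 5 494 527) (node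 653 (merge (leaf 5 525 621) (node 654 (merge (leaf 5 557 685) (leaf 6 558 686))))))))))))))))))))) (node 558 (merge (node 529 (merge (leaf 2 525 557) (node 561 (merge (leaf 2 526 530) (node 593 (merge (leaf 0 558 594) (leaf 7 496 625))))))) (merge (node 526 (merge (node 623 (merge (leaf 7 526 655) (node 494 (merge (leaf 4 462 462) (leaf 4 494 590))))) (node 525 (merge (leaf 3 525 561) (node 524 (merge (leaf 0 523 523) (leaf 3 524 557))))))) (merge (node 526 (merge (node 623 (merge (leaf 7 526 655) (node 494 (merge (leaf 4 462 462) (leaf 4 494 590))))) (node 561 (merge (leaf 3 525 525) (node 593 (merge (leaf 0 558 594) (node 529 (merge (leaf 2 526 530) (leaf 7 496 625))))))))) (node 557 (merge (leaf 2 525 529) (node 588 (merge (leaf 1 556 589) (node 556 (merge (leaf 1 555 587) (node 524 (merge (leaf 3 523 523) (leaf 3 524 525)))))))))))))))))))))))))) nJ_3 cJ_3 14 (by decide +kernel)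
def nJ_4 : ℕ := 0x1000000010000000000000000000000000000000000000000000000000000000000000000000000000000000000000000000000000000000000000000000000000000
def cJ_4 : ℕ := 0x60000002e0000003e0000007fc000003f800001ef800000ef000001ff8000003f00000020000000000000000000000000000000000000000000000000000000000000000000000000000000000000000000000000000
theorem lJ_4 : S nJ_4 cJ_4 14 := S_of_chk [] trivial (node 560 (merge (node 591 (merge (node 559 (merge (leaf 5 463 464) (node 623 (merge (leaf 6 495 527) (leaf 6 527 655))))) (merge (node 623 (merge (leaf 5 495 592) (node 559 (merge (leaf 6 495 527) (leaf 6 527 655))))) (merge (node 592 (merge (leaf 5 495 623) (node 593 (merge (leaf 4 496 625) (node 464 (merge (leaf 4 464 561) (node 465 (merge (leaf 6 432 433) (leaf 6 464 497))))))))) (node 464 (merge (leaf 5 463 559) (node 593 (merge (leaf 4 464 561) (node 465 (merge (leaf 6 432 433) (node 592 (merge (leaf 6 464 497) (leaf 4 496 625))))))))))))) (merge (node 465 (merge (node 433 (merge (leaf 6 432 464) (node 497 (merge (leaf 5 400 401) (leaf 5 432 529))))) (merge (node 497 (merge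 (leaf 6 464 592) (node 433 (merge (leaf 5 400 401) (leaf 5 432 529))))) (merge (node 592 (merge (leaf 6 464 497) (node 591 (merge (leaf 5 495 623) (node 464 (merge (leaf 5 463 559) (node 463 (merge (leaf 7 431 431) (leaf 7 463 495))))))))) (node 464 (merge (leaf 6 432 433) (node 591 (merge (leaf 5 463 559) (node 463 (merge (leaf 7 431 431) (node 592 (merge (leaf 7 463 495) (leaf 5 495 623))))))))))))) (merge (node 465 (merge (node 433 (merge (leaf 6 432 464) (node 497 (merge (leaf 5 400 401) (leaf 5 432 529))))) (merge (node 497 (merge (leaf 6 464 592) (node 433 (merge (leaf 5 400 401) (leaf 5 432 529))))) (merge (node 464 (merge (leaf 6 432 433) (node 593 (merge (leaf 4 464 561) (node 592 (merge (leaf 4 496 625) (node 463 (merge (leaf 7 431 431) (leaf 7 463 495))))))))) (node 592 (merge (leaf 6 464 497) (node 593 (merge (leaf 4 496 625) (node 464 (merge (leaf 4 464 561) (node 463 (merge (leaf 7 431 431) (leaf 7 463 495))))))))))))) (merge (node 464 (merge (node 593 (merge (leaf 4 464 561) (node 592 (merge (leaf 4 496 625) (node 463 (merge (leaf 7 431 431) (leaf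 7 463 495))))))) (merge (node 561 (merge (leaf 4 464 593) (node 432 (merge (leaf 4 432 529) (node 559 (merge (leaf 5 431 527) (leaf 5 463 591))))))) (node 591 (merge (leaf 5 463 559) (node 463 (merge (leaf 7 431 431) (node 592 (merge (leaf 7 463 495) (leaf 5 495 623)))))))))) (merge (node 495 (merge (node 592 (merge (leaf 7 463 463) (node 625 (merge (leaf 4 496 593) (node 624 (merge (leaf 4 528 657) (node 623 (merge (leaf 5 495 591) (leaf 5 527 655))))))))) (merge (node 494 (merge (node 529 (merge (leaf 0 493 493) (node 530 (merge (leaf 0 494 497) (leaf 3 495 531))))) (merge (node 493 (merge (leaf 0 493 529) (node 492 (merge (leaf 0 492 527) (node 524 (merge (leaf 1 491 523) (leaf 1 492 525))))))) (node 592 (merge (node 623 (merge (leaf 5 495 591) (node 624 (merge (leaf 7 495 527) (leaf 5 527 655))))) (merge (node 625 (merge (leaf 4 496 593) (node 624 (merge (leaf 4 528 657) (node 623 (merge (leaf 5 495 591) (leaf 5 527 655))))))) (node 497 (merge (leaf 6 464 465) (node 526 (merge (leaf 1 493 525) (node 498 (merge (leaf 1 494 527) (node 531 (merge (leaf 0 495 530)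 (node 499 (merge (leaf 0 496 532) (node 467 (merge (leaf 2 463 466) (leaf 2 464 468))))))))))))))))))) (node 494 (merge (node 529 (merge (leaf 0 493 493) (node 530 (merge (leaf 0 494 497) (leaf 3 495 531))))) (merge (node 493 (merge (leaf 0 493 529) (node 492 (merge (leaf 0 492 527) (node 524 (merge (leaf 1 491 523) (leaf 1 492 525))))))) (merge (node 461 (merge (node 462 (merge (leaf 3 461 497) (node 460 (merge (leaf 0 459 459) (leaf 0 460 463))))) (merge (node 493 (merge (leaf 3 460 460) (node 492 (merge (leaf 0 492 527) (node 524 (merge (leaf 1 491 523) (leaf 1 492 525))))))) (node 497 (merge (leaf 3 461 462) (node 526 (merge (leaf 1 493 525) (node 498 (merge (leaf 1 494 527) (node 531 (merge (leaf 0 495 530) (node 499 (merge (leaf 0 496 532) (node 467 (merge (leaf 2 463 466) (leaf 2 464 468)))))))))))))))) (node 497 (merge (node 466 (merge (leaf 2 462 465) (node 498 (merge (leaf 2 463 467) (node 462 (merge (leaf 3 461 461) (leaf 3 462 463))))))) (merge (node 529 (merge (leaf 0 494 530) (node 465 (merge (leaf 2 462 466) (node 433 (merge (leaf 5 400 401) (leaf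 5 432 560))))))) (merge (node 530 (merge (leaf 0 494 529) (node 498 (merge (leaf 0 495 531) (node 526 (merge (leaf 1 493 525) (leaf 1 494 527))))))) (node 462 (merge (leaf 3 461 461) (node 498 (merge (leaf 3 462 463) (node 531 (merge (leaf 0 495 530) (node 499 (merge (leaf 1 495 527) (leaf 0 496 532)))))))))))))))))))) (node 559 (merge (node 591 (merge (leaf 5 463 464) (node 623 (merge (leaf 6 495 527) (leaf 6 527 655))))) (merge (node 558 (merge (node 557 (merge (leaf 2 525 529) (node 525 (merge (leaf 3 524 524) (node 561 (merge (leaf 3 525 526) (node 464 (merge (leaf 5 463 591) (leaf 4 464 593))))))))) (merge (node 557 (merge (leaf 2 525 529) (node 589 (merge (leaf 1 556 588) (node 561 (merge (leaf 1 557 590) (node 464 (merge (leaf 5 463 591) (leaf 4 464 593))))))))) (merge (node 557 (merge (leaf 2 525 529) (node 589 (merge (leaf 1 556 588) (node 561 (merge (leaf 1 557 590) (node 525 (merge (leaf 3 524 524) (leaf 3 525 526))))))))) (merge (node 464 (merge (leaf 5 463 591) (node 561 (merge (leaf 4 464 593) (node 590 (merge (leaf 1 557 589) (node 526 (merge (leaf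 3 525 525) (node 465 (merge (leaf 6 432 433) (node 463 (merge (leaf 7 431 431) (node 494 (merge (leaf 6 462 495) (node 493 (merge (leaf 7 461 461) (leaf 1 461 462))))))))))))))))) (node 557 (merge (leaf 2 525 529) (node 588 (merge (leaf 1 556 589) (node 556 (merge (leaf 1 555 587) (node 525 (merge (leaf 3 524 524) (node 461 (merge (leaf 5 460 493) (node 464 (merge (leaf 5 463 591) (node 465 (merge (leaf 6 432 433) (node 463 (merge (leaf 7 431 431) (node 462 (merge (leaf 0 461 497) (node 429 (merge (leaf 3 428 428) (leaf 3 429 430)))))))))))))))))))))))))) (merge (node 558 (merge (node 529 (merge (leaf 2 525 557) (node 530 (merge (leaf 1 526 527) (leaf 1 527 531))))) (merge (node 561 (merge (node 593 (merge (leaf 4 464 464) (leaf 0 558 594))) (node 589 (merge (leaf 1 557 590) (node 557 (merge (leaf 1 556 588) (node 525 (merge (leaf 3 524 524) (leaf 3 525 526))))))))) (node 526 (merge (node 561 (merge (leaf 3 525 525) (node 593 (merge (leaf 4 464 464) (leaf 0 558 594))))) (merge (node 525 (merge (leaf 3 525 561) (node 524 (merge (leaf 0 523 523) (leaf 0 524 527)))))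 (merge (node 527 (merge (node 525 (merge (leaf 2 493 497) (leaf 0 524 524))) (merge (node 529 (merge (leaf 1 526 530) (node 497 (merge (leaf 2 494 498) (node 494 (merge (leaf 3 493 493) (node 462 (merge (leaf 4 430 430) (node 461 (merge (leaf 7 429 429) (leaf 3 461 495))))))))))) (node 525 (merge (leaf 0 524 524) (node 529 (merge (leaf 1 526 530) (node 493 (merge (leaf 3 492 492) (leaf 3 493 494)))))))))) (node 527 (merge (node 529 (merge (leaf 1 526 530) (node 497 (merge (leaf 2 494 498) (node 494 (merge (leaf 3 493 493) (node 462 (merge (leaf 4 430 430) (node 461 (merge (leaf 7 429 429) (leaf 3 461 495))))))))))) (merge (node 529 (merge (leaf 1 526 530) (node 497 (merge (leaf 2 494 498) (node 494 (merge (leaf 3 493 493) (node 465 (merge (leaf 5 432 433) (node 495 (merge (leaf 2 462 466) (node 590 (merge (leaf 5 462 463) (leaf 6 494 622))))))))))))) (merge (node 529 (merge (leaf 1 526 530) (node 494 (merge (leaf 3 493 493) (node 462 (merge (leaf 4 430 430) (node 463 (merge (leaf 6 430 431) (node 590 (merge (leaf 5 462 495) (node 589 (merge (leaf 1 557 561) (leaf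 5 493 621))))))))))))) (merge (node 495 (merge (node 590 (merge (leaf 5 462 463) (leaf 6 494 622))) (merge (node 497 (merge (leaf 1 494 498) (node 463 (merge (leaf 4 431 431) (node 462 (merge (leaf 7 430 430) (node 461 (merge (leaf 0 460 460) (leaf 0 461 464))))))))) (node 497 (merge (leaf 1 494 498) (node 590 (merge (leaf 6 494 622) (node 561 (merge (leaf 1 557 589) (node 464 (merge (leaf 4 464 593) (node 465 (merge (leaf 6 432 433) (node 494 (merge (leaf 2 462 466) (leaf 2 461 493)))))))))))))))) (merge (node 529 (merge (leaf 1 526 530) (node 497 (merge (leaf 2 494 498) (node 494 (merge (leaf 3 493 493) (node 462 (merge (leaf 4 430 430) (node 463 (merge (leaf 6 430 431) (node 461 (merge (leaf 7 429 429) (leaf 0 461 464))))))))))))) (node 495 (merge (node 529 (merge (leaf 1 526 530) (node 590 (merge (leaf 6 494 622) (node 561 (merge (leaf 1 557 589) (node 593 (merge (leaf 0 558 594) (leaf 7 496 625))))))))) (node 497 (merge (leaf 1 494 498) (node 463 (merge (leaf 4 431 431) (node 462 (merge (leaf 7 430 430) (node 461 (merge (leaf 0 460 460) (leaf 0 461 464))))))))))))))))))))))))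 (node 591 (merge (node 623 (merge (leaf 6 495 527) (leaf 6 527 655))) (merge (node 558 (merge (node 529 (merge (leaf 2 525 557) (node 561 (merge (leaf 2 526 530) (node 593 (merge (leaf 0 558 594) (leaf 7 496 625))))))) (merge (node 557 (merge (leaf 2 525 529) (node 588 (merge (leaf 1 556 589) (node 556 (merge (leaf 2 524 527) (leaf 1 555 587))))))) (merge (node 557 (merge (node 556 (merge (leaf 2 524 527) (node 588 (merge (leaf 1 555 587) (leaf 1 556 589))))) (merge (node 589 (merge (leaf 1 556 588) (node 561 (merge (leaf 1 557 590) (node 525 (merge (leaf 3 524 524) (leaf 3 525 526))))))) (merge (node 556 (merge (leaf 2 524 527) (node 590 (merge (leaf 0 555 555) (node 561 (merge (leaf 1 557 589) (node 525 (merge (leaf 3 524 524) (leaf 3 525 526))))))))) (node 556 (merge (leaf 2 524 527) (node 555 (merge (leaf 0 555 590) (node 587 (merge (leaf 1 554 586) (leaf 1 555 588))))))))))) (node 561 (merge (node 593 (merge (leaf 0 558 594) (node 529 (merge (leaf 2 526 530) (leaf 7 496 625))))) (node 590 (merge (leaf 1 557 589) (node 526 (merge (leaf 3 525 525) (node 494 (merge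 (leaf 4 462 462) (node 495 (merge (leaf 6 462 463) (node 622 (merge (leaf 5 494 527) (node 653 (merge (leaf 5 525 621) (node 654 (merge (leaf 5 557 685) (leaf 6 558 686))))))))))))))))))))) (node 558 (merge (node 529 (merge (leaf 2 525 557) (node 561 (merge (leaf 2 526 530) (node 593 (merge (leaf 0 558 594) (leaf 7 496 625))))))) (merge (node 526 (merge (node 623 (merge (leaf 7 526 655) (node 494 (merge (leaf 4 462 462) (leaf 4 494 590))))) (node 525 (merge (leaf 3 525 561) (node 524 (merge (leaf 0 523 523) (leaf 3 524 557))))))) (merge (node 526 (merge (node 623 (merge (leaf 7 526 655) (node 494 (merge (leaf 4 462 462) (leaf 4 494 590))))) (node 561 (merge (leaf 3 525 525) (node 593 (merge (leaf 0 558 594) (node 529 (merge (leaf 2 526 530) (leaf 7 496 625))))))))) (node 557 (merge (leaf 2 525 529) (node 588 (merge (leaf 1 556 589) (node 556 (merge (leaf 1 555 587) (node 524 (merge (leaf 3 523 523) (leaf 3 524 525)))))))))))))))))))))))))) nJ_4 cJ_4 14 (by decide +kernel)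
def nJ_5 : ℕ := 0x100000001000000010000000000000000000000000000000000000000000000000000000000000000000000000000000000000000000000000000000000000000000000000000
def cJ_5 : ℕ := 0x2600000026000003ef800001ef000001ff800000fe0000003c0000002c0000000000000000000000000000000000000000000000000000000000000000000000000000000000000000000
theorem lJ_5 : S nJ_5 cJ_5 11 := S_of_chk [] trivial (node 495 (merge (node 464 (merge (node 465 (merge (leaf 6 432 433) (node 494 (merge (leaf 2 461 493) (node 463 (merge (leaf 7 431 431) (leaf 1 462 466))))))) (merge (node 561 (merge (leaf 4 464 593) (node 432 (merge (leaf 4 432 529) (node 433 (merge (leaf 6 400 401) (leaf 6 432 465))))))) (node 561 (merge (leaf 4 464 593) (node 432 (merge (leaf 4 432 529) (node 431 (merge (leaf 7 399 399) (leaf 7 431 463)))))))))) (merge (node 494 (merge (node 529 (merge (leaf 0 493 493) (node 530 (merge (leaf 0 494 497) (leaf 3 495 531))))) (merge (node 493 (merge (leaf 0 493 529) (node 492 (merge (leaf 0 492 527) (node 464 (merge (leaf 2 460 463) (leaf 2 461 465))))))) (merge (node 493 (merge (node 492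 (merge (leaf 0 492 527) (node 464 (merge (leaf 2 460 463) (leaf 2 461 465))))) (merge (node 465 (merge (leaf 2 461 464) (node 497 (merge (leaf 2 462 466) (node 461 (merge (leaf 3 460 460) (leaf 3 461 462))))))) (node 527 (merge (leaf 0 492 492) (node 461 (merge (leaf 3 460 460) (node 497 (merge (leaf 3 461 462) (node 498 (merge (leaf 1 495 499) (leaf 1 494 526)))))))))))) (node 497 (merge (node 465 (merge (leaf 2 462 466) (node 433 (merge (leaf 5 400 401) (node 560 (merge (leaf 6 432 464) (leaf 5 432 529))))))) (node 462 (merge (leaf 3 461 461) (node 498 (merge (leaf 3 462 463) (node 531 (merge (leaf 0 495 530) (node 499 (merge (leaf 1 495 527) (leaf 0 496 532))))))))))))))) (merge (node 464 (merge (node 465 (merge (leaf 6 432 433) (node 494 (merge (leaf 2 461 493) (node 466 (merge (leaf 1 463 467) (leaf 2 462 497))))))) (node 561 (merge (leaf 4 464 593) (node 432 (merge (leaf 4 432 529) (node 400 (merge (leaf 5 399 527) (node 399 (merge (leaf 7 367 367) (leaf 7 399 431))))))))))) (merge (node 464 (merge (node 561 (merge (leaf 4 464 593) (node 432 (merge (leaf 4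 432 529) (node 433 (merge (leaf 6 400 401) (leaf 6 432 465))))))) (merge (node 561 (merge (leaf 4 464 593) (node 432 (merge (leaf 4 432 529) (node 431 (merge (leaf 7 399 399) (leaf 7 431 463))))))) (merge (node 433 (merge (leaf 6 432 465) (node 432 (merge (leaf 6 400 401) (node 431 (merge (leaf 7 399 399) (leaf 7 431 463))))))) (node 561 (merge (leaf 4 464 593) (node 465 (merge (leaf 6 432 433) (node 466 (merge (leaf 1 463 467) (node 463 (merge (leaf 7 431 431) (node 498 (merge (leaf 0 463 499) (node 497 (merge (leaf 0 462 462) (node 434 (merge (leaf 2 431 435) (leaf 6 433 529))))))))))))))))))) (merge (node 494 (merge (node 529 (merge (leaf 0 493 493) (node 530 (merge (leaf 0 494 497) (leaf 3 495 531))))) (merge (node 493 (merge (leaf 0 493 529) (node 492 (merge (leaf 0 492 527) (node 460 (merge (leaf 3 459 459) (leaf 3 460 461))))))) (merge (node 493 (merge (node 492 (merge (leaf 0 492 527) (node 524 (merge (leaf 1 491 523) (leaf 1 492 525))))) (merge (node 492 (merge (leaf 0 492 527) (node 460 (merge (leaf 3 459 459) (leaf 3 460 461))))) (node 525 (merge (leaf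 1 492 524) (node 497 (merge (leaf 1 493 526) (node 461 (merge (leaf 3 460 460) (leaf 3 461 462)))))))))) (node 526 (merge (node 525 (merge (leaf 1 493 497) (node 524 (merge (leaf 2 491 523) (leaf 2 492 527))))) (merge (node 497 (merge (leaf 1 493 525) (node 530 (merge (leaf 0 494 529) (node 498 (merge (leaf 0 495 531) (node 462 (merge (leaf 3 461 461) (leaf 3 462 463))))))))) (merge (node 527 (merge (node 525 (merge (leaf 2 492 524) (leaf 0 525 561))) (node 529 (merge (leaf 3 494 530) (node 558 (merge (leaf 1 525 557) (node 463 (merge (leaf 4 431 431) (leaf 6 462 590))))))))) (node 462 (merge (node 461 (merge (leaf 3 461 497) (node 460 (merge (leaf 0 459 459) (leaf 0 460 463))))) (merge (node 463 (merge (node 431 (merge (leaf 4 399 399) (leaf 4 431 527))) (node 461 (merge (leaf 0 460 460) (node 558 (merge (leaf 7 429 429) (leaf 6 462 590))))))) (merge (node 463 (merge (node 558 (merge (leaf 6 430 431) (leaf 6 462 590))) (merge (node 431 (merge (leaf 4 399 399) (leaf 4 431 527))) (node 558 (merge (leaf 6 462 590) (node 557 (merge (leaf 5 461 589) (node 529 (merge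 (leaf 1 525 527) (node 530 (merge (leaf 0 494 497) (leaf 3 495 531)))))))))))) (node 497 (merge (leaf 3 461 461) (node 530 (merge (leaf 0 494 529) (node 498 (merge (leaf 1 494 527) (leaf 0 495 531))))))))))))))))))) (merge (node 463 (merge (node 431 (merge (leaf 4 399 399) (leaf 4 431 527))) (merge (node 464 (merge (leaf 7 431 431) (node 561 (merge (leaf 4 464 593) (node 432 (merge (leaf 4 432 529) (node 433 (merge (leaf 6 400 401) (leaf 6 432 465))))))))) (node 497 (merge (node 498 (merge (leaf 3 462 462) (node 499 (merge (leaf 3 463 464) (leaf 1 495 527))))) (merge (node 498 (merge (leaf 3 462 462) (node 526 (merge (leaf 1 494 527) (node 494 (merge (leaf 1 493 525) (node 529 (merge (leaf 0 493 493) (leaf 0 494 530))))))))) (merge (node 498 (merge (node 499 (merge (leaf 3 463 464) (leaf 1 495 527))) (merge (node 526 (merge (leaf 1 494 527) (node 494 (merge (leaf 1 493 525) (node 529 (merge (leaf 0 493 493) (leaf 0 494 530))))))) (node 499 (merge (leaf 3 463 464) (node 532 (merge (leaf 0 496 531) (node 500 (merge (leaf 1 496 529) (leaf 0 497 533)))))))))) (merge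 (node 498 (merge (leaf 3 462 462) (node 499 (merge (leaf 3 463 464) (node 532 (merge (leaf 0 496 531) (node 500 (merge (leaf 1 496 529) (leaf 0 497 533))))))))) (node 494 (merge (node 529 (merge (leaf 0 493 493) (leaf 0 494 530))) (merge (node 529 (merge (leaf 0 493 493) (leaf 0 494 530))) (merge (node 529 (merge (leaf 0 494 530) (node 526 (merge (leaf 1 493 525) (node 462 (merge (leaf 3 461 461) (node 558 (merge (leaf 6 462 590) (node 557 (merge (leaf 1 525 527) (leaf 5 461 589))))))))))) (node 525 (merge (leaf 1 493 526) (node 493 (merge (leaf 1 492 524) (node 464 (merge (leaf 2 461 465) (leaf 2 460 492))))))))))))))))))) (node 494 (merge (node 464 (merge (node 465 (merge (leaf 2 461 493) (node 463 (merge (leaf 7 431 431) (leaf 1 462 466))))) (merge (node 465 (merge (leaf 6 432 433) (node 466 (merge (leaf 1 462 463) (leaf 1 463 467))))) (merge (node 433 (merge (leaf 6 432 465) (node 432 (merge (leaf 6 400 401) (node 400 (merge (leaf 5 399 527) (node 399 (merge (leaf 7 367 367) (leaf 7 399 431))))))))) (node 431 (merge (leaf 7 431 463) (node 432 (merge (leaf 7 399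 399) (node 401 (merge (leaf 6 400 433) (node 400 (merge (leaf 6 368 369) (leaf 5 399 527))))))))))))) (merge (node 461 (merge (node 462 (merge (leaf 3 461 497) (node 460 (merge (leaf 0 459 459) (leaf 0 460 463))))) (merge (node 493 (merge (leaf 3 460 460) (node 464 (merge (leaf 2 461 465) (node 492 (merge (leaf 2 460 463) (node 524 (merge (leaf 1 491 523) (leaf 1 492 525))))))))) (node 497 (merge (leaf 3 461 462) (node 525 (merge (leaf 1 493 526) (node 493 (merge (leaf 1 492 524) (node 465 (merge (leaf 2 461 464) (leaf 2 462 466)))))))))))) (merge (node 461 (merge (node 462 (merge (leaf 3 461 497) (node 460 (merge (leaf 0 459 459) (leaf 0 460 463))))) (merge (node 493 (merge (leaf 3 460 460) (node 492 (merge (leaf 0 492 527) (node 524 (merge (leaf 1 491 523) (leaf 1 492 525))))))) (node 497 (merge (leaf 3 461 462) (node 526 (merge (leaf 1 493 525) (node 498 (merge (leaf 1 494 527) (node 531 (merge (leaf 0 495 530) (node 499 (merge (leaf 0 496 532) (node 467 (merge (leaf 2 463 466) (leaf 2 464 468)))))))))))))))) (merge (node 461 (merge (node 493 (merge (leaf 3 460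 460) (node 492 (merge (leaf 0 492 527) (node 524 (merge (leaf 1 491 523) (leaf 1 492 525))))))) (merge (node 493 (merge (leaf 3 460 460) (node 465 (merge (leaf 2 461 464) (node 497 (merge (leaf 3 461 462) (leaf 2 462 466))))))) (node 497 (merge (leaf 3 461 462) (node 526 (merge (leaf 1 493 525) (node 498 (merge (leaf 1 494 527) (node 531 (merge (leaf 0 495 530) (node 499 (merge (leaf 0 496 532) (node 467 (merge (leaf 2 463 466) (leaf 2 464 468)))))))))))))))) (merge (node 493 (merge (node 492 (merge (leaf 0 492 527) (node 464 (merge (leaf 2 460 463) (leaf 2 461 465))))) (merge (node 492 (merge (leaf 0 492 527) (node 524 (merge (leaf 1 491 523) (leaf 1 492 525))))) (merge (node 464 (merge (leaf 2 461 465) (node 492 (merge (leaf 2 460 463) (node 524 (merge (leaf 1 491 523) (leaf 1 492 525))))))) (node 464 (merge (leaf 2 461 465) (node 461 (merge (leaf 3 460 460) (node 497 (merge (leaf 3 461 462) (node 526 (merge (leaf 1 493 525) (node 498 (merge (leaf 1 494 527) (node 463 (merge (leaf 3 463 499) (node 431 (merge (leaf 4 399 399) (leaf 7 431 560))))))))))))))))))) (node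 497 (merge (node 466 (merge (leaf 2 462 465) (node 498 (merge (leaf 2 463 467) (node 462 (merge (leaf 3 461 461) (leaf 3 462 463))))))) (merge (node 462 (merge (leaf 3 461 461) (node 498 (merge (leaf 3 462 463) (node 531 (merge (leaf 0 495 530) (node 499 (merge (leaf 1 495 527) (leaf 0 496 532))))))))) (merge (node 526 (merge (leaf 1 493 525) (node 498 (merge (leaf 1 494 527) (node 466 (merge (leaf 2 462 465) (leaf 2 463 467))))))) (node 465 (merge (leaf 2 462 466) (node 462 (merge (leaf 3 461 461) (node 464 (merge (leaf 6 432 433) (node 463 (merge (leaf 7 431 431) (node 430 (merge (leaf 3 429 429) (node 398 (merge (leaf 4 366 366) (leaf 4 398 527)))))))))))))))))))))))))))))) nJ_5 cJ_5 11 (by decide +kernel)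
def nJ_6 : ℕ := 0x1000000010000000100000000000000000000000000000000000000000000000000000000000000000000000000000000000000000000000000000000000000000000
def cJ_6 : ℕ := 0xa0000000e000000ae000000be000003bf800001ef000003ef800003e0000001e0000000e0000000200000000000000000000000000000000000000000000000000000000000000000000000000000000000000000000
theorem lJ_6 : S nJ_6 cJ_6 13 := S_of_chk [] trivial (node 529 (merge (node 560 (merge (node 561 (merge (leaf 4 464 593) (node 559 (merge (leaf 5 463 591) (node 558 (merge (leaf 2 526 530) (leaf 2 525 557))))))) (merge (node 593 (merge (leaf 4 464 561) (node 465 (merge (leaf 6 432 433) (node 592 (merge (leaf 6 464 497) (leaf 4 496 625))))))) (node 465 (merge (leaf 6 432 433) (node 592 (merge (leaf 6 464 497) (node 591 (merge (leaf 5 463 559) (leaf 5 495 623)))))))))) (merge (node 530 (merge (node 495 (merge (leaf 3 495 531) (node 494 (merge (leaf 0 493 493) (leaf 3 494 527))))) (merge (node 531 (merge (leaf 3 495 495) (node 564 (merge (leaf 0 528 563) (node 532 (merge (leaf 3 496 497) (leaf 0 529 565))))))) (merge (node 527 (merge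 (node 559 (merge (leaf 1 526 558) (node 495 (merge (leaf 3 494 494) (leaf 6 463 591))))) (merge (node 498 (merge (leaf 2 495 499) (node 526 (merge (leaf 2 494 497) (node 558 (merge (leaf 1 525 557) (leaf 1 526 559))))))) (node 494 (merge (leaf 3 494 495) (node 526 (merge (leaf 3 493 493) (node 497 (merge (leaf 2 494 498) (leaf 2 493 525)))))))))) (node 531 (merge (node 564 (merge (leaf 0 528 563) (node 532 (merge (leaf 3 496 497) (leaf 0 529 565))))) (merge (node 564 (merge (leaf 0 528 563) (node 532 (merge (leaf 0 529 565) (node 500 (merge (leaf 2 496 499) (leaf 2 497 501))))))) (node 499 (merge (leaf 2 496 500) (node 527 (merge (leaf 2 495 498) (node 558 (merge (leaf 1 526 559) (node 526 (merge (leaf 1 525 557) (node 525 (merge (leaf 2 493 497) (node 493 (merge (leaf 3 492 492) (leaf 3 493 494)))))))))))))))))))) (merge (node 560 (merge (node 593 (merge (leaf 4 464 561) (node 465 (merge (leaf 6 432 433) (node 592 (merge (leaf 6 464 497) (leaf 4 496 625))))))) (merge (node 593 (merge (leaf 4 464 561) (node 592 (merge (leaf 4 496 625) (node 591 (merge (leaf 5 463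 559) (leaf 5 495 623))))))) (merge (node 465 (merge (leaf 6 432 433) (node 592 (merge (leaf 6 464 497) (node 591 (merge (leaf 5 463 559) (leaf 5 495 623))))))) (node 559 (merge (leaf 5 463 591) (node 530 (merge (leaf 1 527 531) (node 558 (merge (leaf 1 526 527) (leaf 2 526 561))))))))))) (merge (node 530 (merge (node 495 (merge (leaf 3 495 531) (node 494 (merge (leaf 0 493 493) (leaf 3 494 527))))) (merge (node 531 (merge (leaf 3 495 495) (node 560 (merge (leaf 1 527 559) (node 561 (merge (leaf 1 528 532) (leaf 4 464 593))))))) (merge (node 559 (merge (node 591 (merge (leaf 5 463 560) (node 527 (merge (leaf 6 463 495) (leaf 6 495 623))))) (merge (node 558 (merge (leaf 1 526 527) (node 560 (merge (leaf 2 525 557) (leaf 2 526 561))))) (merge (node 527 (merge (leaf 1 526 558) (node 591 (merge (leaf 6 463 495) (leaf 6 495 623))))) (node 560 (merge (leaf 5 463 591) (node 558 (merge (leaf 2 525 557) (node 561 (merge (leaf 2 526 530) (leaf 4 464 593))))))))))) (node 560 (merge (node 559 (merge (leaf 1 527 531) (leaf 5 463 591))) (merge (node 559 (merge (leaf 5 463 591)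 (node 558 (merge (leaf 1 526 527) (leaf 2 525 557))))) (node 561 (merge (leaf 4 464 593) (node 531 (merge (leaf 1 528 532) (node 563 (merge (leaf 0 528 564) (node 499 (merge (leaf 2 496 500) (node 498 (merge (leaf 2 495 527) (node 466 (merge (leaf 4 434 434) (leaf 7 466 595)))))))))))))))))))) (merge (node 561 (merge (node 593 (merge (leaf 4 464 560) (leaf 7 496 625))) (merge (node 593 (merge (leaf 7 464 497) (leaf 7 496 625))) (node 530 (merge (node 531 (merge (leaf 3 495 495) (node 532 (merge (leaf 3 496 497) (leaf 1 528 560))))) (merge (node 531 (merge (leaf 3 495 495) (node 563 (merge (leaf 0 528 564) (node 499 (merge (leaf 2 496 500) (node 498 (merge (leaf 2 495 527) (node 466 (merge (leaf 4 434 434) (leaf 7 466 595))))))))))) (merge (node 531 (merge (node 532 (merge (leaf 3 496 497) (leaf 1 528 560))) (node 563 (merge (leaf 0 528 564) (node 499 (merge (leaf 2 496 500) (node 498 (merge (leaf 2 495 527) (node 595 (merge (leaf 7 466 466) (leaf 7 498 627))))))))))) (node 527 (merge (node 498 (merge (leaf 2 495 499) (node 495 (merge (leaf 3 494 494) (node 466 (merge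 (leaf 5 433 434) (node 467 (merge (leaf 1 463 465) (leaf 2 463 497))))))))) (merge (node 494 (merge (leaf 3 494 495) (node 526 (merge (leaf 3 493 493) (node 525 (merge (leaf 0 525 560) (node 557 (merge (leaf 1 524 556) (leaf 1 525 558))))))))) (merge (node 498 (merge (leaf 2 495 499) (node 526 (merge (leaf 2 494 497) (node 557 (merge (leaf 1 525 558) (node 525 (merge (leaf 1 524 556) (node 493 (merge (leaf 3 492 492) (leaf 3 493 494))))))))))) (node 498 (merge (leaf 2 495 499) (node 526 (merge (leaf 2 494 497) (node 525 (merge (leaf 0 525 560) (node 524 (merge (leaf 2 492 495) (node 492 (merge (leaf 3 491 491) (leaf 3 492 493)))))))))))))))))))))) (merge (node 530 (merge (node 495 (merge (leaf 3 495 531) (node 494 (merge (leaf 0 493 493) (leaf 3 494 527))))) (merge (node 531 (merge (leaf 3 495 495) (node 564 (merge (leaf 0 528 563) (node 532 (merge (leaf 3 496 497) (leaf 0 529 565))))))) (merge (node 531 (merge (node 564 (merge (leaf 0 528 563) (node 532 (merge (leaf 3 496 497) (leaf 0 529 565))))) (merge (node 500 (merge (leaf 2 496 499) (node 532 (merge (leaf 3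 496 497) (leaf 2 497 501))))) (node 563 (merge (leaf 0 528 564) (node 499 (merge (leaf 2 496 500) (node 498 (merge (leaf 2 495 527) (node 595 (merge (leaf 7 466 466) (leaf 7 498 627)))))))))))) (node 465 (merge (node 433 (merge (leaf 6 432 560) (node 401 (merge (leaf 5 368 369) (leaf 5 400 497))))) (merge (node 560 (merge (leaf 6 432 433) (node 593 (merge (leaf 4 464 561) (node 592 (merge (leaf 4 496 625) (node 591 (merge (leaf 5 463 559) (leaf 5 495 623))))))))) (merge (node 527 (merge (node 498 (merge (leaf 2 495 499) (node 526 (merge (leaf 2 494 497) (node 493 (merge (leaf 3 493 494) (node 525 (merge (leaf 3 492 492) (node 560 (merge (leaf 0 525 561) (node 559 (merge (leaf 0 524 524) (leaf 5 463 591))))))))))))) (merge (node 498 (merge (leaf 2 495 499) (node 495 (merge (leaf 3 494 494) (node 466 (merge (leaf 1 463 467) (node 561 (merge (leaf 5 433 434) (node 593 (merge (leaf 4 464 560) (leaf 6 497 625))))))))))) (merge (node 526 (merge (node 525 (merge (leaf 2 493 497) (node 524 (merge (leaf 2 492 495) (node 556 (merge (leaf 1 523 555) (leaf 1 524 557))))))) (merge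 (node 493 (merge (leaf 3 493 494) (node 525 (merge (leaf 3 492 492) (node 556 (merge (leaf 1 524 557) (node 524 (merge (leaf 2 492 495) (leaf 1 523 555))))))))) (merge (node 525 (merge (leaf 2 493 497) (node 556 (merge (leaf 1 524 557) (node 524 (merge (leaf 1 523 555) (node 492 (merge (leaf 3 491 491) (leaf 3 492 493))))))))) (node 494 (merge (leaf 3 493 493) (node 495 (merge (leaf 3 494 530) (node 466 (merge (leaf 1 463 467) (leaf 2 462 497))))))))))) (node 498 (merge (leaf 2 495 499) (node 497 (merge (leaf 2 494 526) (node 561 (merge (leaf 7 464 593) (node 466 (merge (leaf 5 433 434) (node 467 (merge (leaf 2 463 495) (node 468 (merge (leaf 1 464 465) (leaf 1 465 469))))))))))))))))) (node 527 (merge (node 494 (merge (leaf 3 494 495) (node 526 (merge (leaf 3 493 493) (node 497 (merge (leaf 2 494 498) (leaf 2 493 525))))))) (merge (node 497 (merge (node 526 (merge (leaf 2 494 498) (leaf 2 493 525))) (node 433 (merge (leaf 5 400 401) (node 434 (merge (leaf 6 401 402) (node 561 (merge (leaf 6 433 466) (leaf 7 464 593))))))))) (merge (node 498 (merge (leaf 2 495 499)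 (node 495 (merge (leaf 3 494 494) (node 466 (merge (leaf 1 463 467) (node 434 (merge (leaf 5 433 561) (node 435 (merge (leaf 6 402 403) (node 433 (merge (leaf 7 401 401) (leaf 1 432 436))))))))))))) (node 526 (merge (node 525 (merge (leaf 2 493 497) (node 524 (merge (leaf 2 492 495) (node 556 (merge (leaf 1 523 555) (leaf 1 524 557))))))) (merge (node 493 (merge (leaf 3 493 494) (node 525 (merge (leaf 3 492 492) (node 556 (merge (leaf 1 524 557) (node 524 (merge (leaf 2 492 495) (leaf 1 523 555))))))))) (merge (node 525 (merge (leaf 2 493 497) (node 556 (merge (leaf 1 524 557) (node 524 (merge (leaf 1 523 555) (node 492 (merge (leaf 3 491 491) (leaf 3 492 493))))))))) (node 494 (merge (leaf 3 493 493) (node 495 (merge (leaf 3 494 530) (node 466 (merge (leaf 1 463 467) (leaf 2 462 497))))))))))))))))))))))) (node 560 (merge (node 593 (merge (leaf 4 464 561) (node 465 (merge (leaf 6 432 433) (node 592 (merge (leaf 6 464 497) (leaf 4 496 625))))))) (merge (node 593 (merge (leaf 4 464 561) (node 592 (merge (leaf 4 496 625) (node 591 (merge (leaf 5 463 559) (leaf 5 495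 623))))))) (merge (node 465 (merge (leaf 6 432 433) (node 592 (merge (leaf 6 464 497) (node 591 (merge (leaf 5 463 559) (leaf 5 495 623))))))) (node 495 (merge (node 465 (merge (leaf 6 432 433) (node 494 (merge (leaf 2 461 493) (node 466 (merge (leaf 1 463 467) (leaf 2 462 497))))))) (node 561 (merge (leaf 4 464 593) (node 559 (merge (leaf 5 463 591) (node 558 (merge (leaf 2 525 557) (node 590 (merge (leaf 1 557 589) (node 526 (merge (leaf 3 525 525) (node 622 (merge (leaf 6 494 527) (node 655 (merge (leaf 4 526 623) (node 654 (merge (leaf 4 558 687) (node 653 (merge (leaf 5 525 621) (leaf 5 557 685)))))))))))))))))))))))))))))))) nJ_6 cJ_6 13 (by decide +kernel)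
def nJ_7 : ℕ := 0x1000000010000000000000000000000000000000000000000000000000000000000000000000000000000000000000000000000000000000000000000000000000000
def cJ_7 : ℕ := 0x2a0000003e0000003e000000ff8000003f000001ef800000ef000001ff8000003600000038000000380000002800000000000000000000000000000000000000000000000000000000000000000000000000000000000
theorem lJ_7 : S nJ_7 cJ_7 12 := S_of_chk [] trivial (node 560 (merge (node 464 (merge (node 561 (merge (leaf 4 464 593) (node 432 (merge (leaf 4 432 529) (node 433 (merge (leaf 6 400 401) (leaf 6 432 465))))))) (merge (node 593 (merge (leaf 4 464 561) (node 592 (merge (leaf 4 496 625) (node 591 (merge (leaf 5 463 559) (leaf 5 495 623))))))) (node 433 (merge (leaf 6 432 465) (node 432 (merge (leaf 6 400 401) (node 559 (merge (leaf 5 431 527) (leaf 5 463 591)))))))))) (merge (node 592 (merge (node 625 (merge (leaf 4 496 593) (node 497 (merge (leaf 6 464 465) (node 624 (merge (leaf 6 496 529) (leaf 4 528 657))))))) (merge (node 625 (merge (leaf 4 496 593) (node 624 (merge (leaf 4 528 657) (node 623 (merge (leaf 5 495 591) (leaf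 5 527 655))))))) (merge (node 497 (merge (leaf 6 464 465) (node 624 (merge (leaf 6 496 529) (node 623 (merge (leaf 5 495 591) (leaf 5 527 655))))))) (node 593 (merge (leaf 4 496 625) (node 591 (merge (leaf 5 495 623) (node 559 (merge (leaf 5 463 464) (node 594 (merge (leaf 3 558 558) (leaf 3 559 595))))))))))))) (merge (node 592 (merge (node 625 (merge (leaf 4 496 593) (node 624 (merge (leaf 4 528 657) (node 623 (merge (leaf 5 495 591) (leaf 5 527 655))))))) (merge (node 625 (merge (leaf 4 496 593) (node 624 (merge (leaf 4 528 657) (node 495 (merge (leaf 7 463 463) (leaf 7 495 527))))))) (merge (node 623 (merge (leaf 5 495 591) (node 495 (merge (leaf 7 463 463) (node 624 (merge (leaf 7 495 527) (leaf 5 527 655))))))) (node 593 (merge (leaf 4 496 625) (node 591 (merge (leaf 5 495 623) (node 559 (merge (leaf 5 463 464) (node 594 (merge (leaf 3 558 558) (leaf 3 559 595))))))))))))) (merge (node 465 (merge (node 497 (merge (leaf 6 464 592) (node 433 (merge (leaf 5 400 401) (leaf 5 432 529))))) (merge (node 464 (merge (leaf 6 432 433) (node 561 (merge (leaf 4 464 593)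 (node 432 (merge (leaf 4 432 529) (node 559 (merge (leaf 5 431 527) (leaf 5 463 591))))))))) (node 592 (merge (leaf 6 464 497) (node 623 (merge (leaf 5 495 591) (node 495 (merge (leaf 7 463 463) (node 624 (merge (leaf 7 495 527) (leaf 5 527 655)))))))))))) (merge (node 592 (merge (node 623 (merge (leaf 5 495 591) (node 495 (merge (leaf 7 463 463) (node 624 (merge (leaf 7 495 527) (leaf 5 527 655))))))) (merge (node 497 (merge (leaf 6 464 465) (node 624 (merge (leaf 6 496 529) (node 623 (merge (leaf 5 495 591) (leaf 5 527 655))))))) (merge (node 465 (merge (leaf 6 464 497) (node 464 (merge (leaf 6 432 433) (node 591 (merge (leaf 5 463 559) (leaf 5 495 623))))))) (node 497 (merge (leaf 6 464 465) (node 624 (merge (leaf 6 496 529) (node 657 (merge (leaf 4 528 625) (node 656 (merge (leaf 4 560 689) (node 527 (merge (leaf 7 495 495) (leaf 7 527 559))))))))))))))) (merge (node 465 (merge (node 497 (merge (leaf 6 464 592) (node 433 (merge (leaf 5 400 401) (leaf 5 432 529))))) (merge (node 592 (merge (leaf 6 464 497) (node 625 (merge (leaf 4 496 593) (node 624 (merge (leaf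 4 528 657) (node 495 (merge (leaf 7 463 463) (leaf 7 495 527))))))))) (node 464 (merge (leaf 6 432 433) (node 561 (merge (leaf 4 464 593) (node 432 (merge (leaf 4 432 529) (node 527 (merge (leaf 5 431 559) (node 400 (merge (leaf 5 399 495) (node 369 (merge (leaf 6 368 401) (node 368 (merge (leaf 6 336 337) (node 367 (merge (leaf 7 335 335) (leaf 7 367 399)))))))))))))))))))) (merge (node 495 (merge (node 592 (merge (leaf 7 463 463) (node 625 (merge (leaf 4 496 593) (node 624 (merge (leaf 4 528 657) (node 623 (merge (leaf 5 495 591) (leaf 5 527 655))))))))) (merge (node 494 (merge (node 529 (merge (leaf 0 493 493) (node 530 (merge (leaf 0 494 497) (leaf 3 495 531))))) (merge (node 493 (merge (leaf 0 493 529) (node 492 (merge (leaf 0 492 527) (node 524 (merge (leaf 1 491 523) (leaf 1 492 525))))))) (node 592 (merge (node 623 (merge (leaf 5 495 591) (node 624 (merge (leaf 7 495 527) (leaf 5 527 655))))) (merge (node 625 (merge (leaf 4 496 593) (node 624 (merge (leaf 4 528 657) (node 623 (merge (leaf 5 495 591) (leaf 5 527 655))))))) (node 497 (merge (leaf 6 464 465)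 (node 526 (merge (leaf 1 493 525) (node 498 (merge (leaf 1 494 527) (node 531 (merge (leaf 0 495 530) (node 499 (merge (leaf 0 496 532) (node 467 (merge (leaf 2 463 466) (leaf 2 464 468))))))))))))))))))) (node 494 (merge (node 529 (merge (leaf 0 493 493) (node 530 (merge (leaf 0 494 497) (leaf 3 495 531))))) (merge (node 493 (merge (leaf 0 493 529) (node 492 (merge (leaf 0 492 527) (node 524 (merge (leaf 1 491 523) (leaf 1 492 525))))))) (merge (node 461 (merge (node 462 (merge (leaf 3 461 497) (node 460 (merge (leaf 0 459 459) (leaf 0 460 463))))) (merge (node 493 (merge (leaf 3 460 460) (node 492 (merge (leaf 0 492 527) (node 524 (merge (leaf 1 491 523) (leaf 1 492 525))))))) (node 497 (merge (leaf 3 461 462) (node 526 (merge (leaf 1 493 525) (node 498 (merge (leaf 1 494 527) (node 531 (merge (leaf 0 495 530) (node 499 (merge (leaf 0 496 532) (node 467 (merge (leaf 2 463 466) (leaf 2 464 468)))))))))))))))) (node 497 (merge (node 466 (merge (leaf 2 462 465) (node 498 (merge (leaf 2 463 467) (node 462 (merge (leaf 3 461 461) (leaf 3 462 463))))))) (merge (node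 529 (merge (leaf 0 494 530) (node 465 (merge (leaf 2 462 466) (node 433 (merge (leaf 5 400 401) (leaf 5 432 560))))))) (merge (node 530 (merge (leaf 0 494 529) (node 498 (merge (leaf 0 495 531) (node 526 (merge (leaf 1 493 525) (leaf 1 494 527))))))) (node 462 (merge (leaf 3 461 461) (node 498 (merge (leaf 3 462 463) (node 531 (merge (leaf 0 495 530) (node 499 (merge (leaf 1 495 527) (leaf 0 496 532)))))))))))))))))))) (node 559 (merge (node 464 (merge (leaf 5 463 591) (node 433 (merge (leaf 6 432 465) (node 432 (merge (leaf 6 400 401) (leaf 5 431 527))))))) (merge (node 464 (merge (leaf 5 463 591) (node 561 (merge (leaf 4 464 593) (node 529 (merge (leaf 4 432 432) (node 558 (merge (leaf 2 526 530) (leaf 2 525 557))))))))) (merge (node 558 (merge (node 529 (merge (leaf 2 525 557) (node 530 (merge (leaf 1 527 531) (leaf 2 526 561))))) (merge (node 557 (merge (leaf 2 525 529) (node 556 (merge (leaf 2 524 527) (node 588 (merge (leaf 1 555 587) (leaf 1 556 589))))))) (merge (node 525 (merge (node 526 (merge (leaf 3 525 561) (node 527 (merge (leaf 2 493 497) (leaf 0 524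 524))))) (merge (node 557 (merge (leaf 3 524 524) (node 556 (merge (leaf 2 524 527) (node 588 (merge (leaf 1 555 587) (leaf 1 556 589))))))) (merge (node 557 (merge (leaf 3 524 524) (node 589 (merge (leaf 1 556 588) (node 561 (merge (leaf 3 525 526) (leaf 1 557 590))))))) (node 526 (merge (leaf 3 525 561) (node 527 (merge (leaf 2 493 497) (node 557 (merge (leaf 1 524 556) (node 493 (merge (leaf 3 492 492) (node 461 (merge (leaf 4 429 429) (leaf 4 461 590))))))))))))))) (node 526 (merge (node 525 (merge (leaf 3 525 561) (node 527 (merge (leaf 2 493 497) (leaf 0 524 524))))) (merge (node 561 (merge (leaf 3 525 525) (node 593 (merge (leaf 0 558 594) (node 529 (merge (leaf 2 526 530) (leaf 7 496 625))))))) (merge (node 527 (merge (node 525 (merge (leaf 2 493 497) (leaf 0 524 524))) (node 529 (merge (leaf 1 526 530) (node 494 (merge (leaf 3 493 493) (node 591 (merge (leaf 4 462 462) (leaf 6 495 623))))))))) (node 590 (merge (node 561 (merge (leaf 1 557 589) (node 593 (merge (leaf 0 558 594) (node 529 (merge (leaf 2 526 530) (leaf 7 496 625))))))) (merge (node 591 (merge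 (node 623 (merge (leaf 4 494 494) (leaf 7 526 655))) (merge (node 623 (merge (leaf 6 495 527) (leaf 6 527 655))) (node 494 (merge (leaf 4 462 462) (node 493 (merge (leaf 7 461 461) (node 529 (merge (leaf 3 493 527) (node 561 (merge (leaf 2 526 530) (node 593 (merge (leaf 0 558 594) (leaf 7 496 625)))))))))))))) (node 622 (merge (node 655 (merge (leaf 4 526 623) (node 654 (merge (leaf 6 526 527) (leaf 4 558 687))))) (merge (node 654 (merge (leaf 6 526 527) (node 653 (merge (leaf 5 525 621) (leaf 5 557 685))))) (node 623 (merge (leaf 4 526 655) (node 621 (merge (leaf 5 525 653) (node 589 (merge (leaf 5 493 494) (node 588 (merge (leaf 0 587 587) (leaf 3 588 624))))))))))))))))))))))) (node 558 (merge (node 529 (merge (leaf 2 525 557) (node 530 (merge (leaf 1 526 527) (leaf 1 527 531))))) (merge (node 561 (merge (node 593 (merge (leaf 4 464 464) (leaf 0 558 594))) (node 589 (merge (leaf 1 557 590) (node 557 (merge (leaf 1 556 588) (node 525 (merge (leaf 3 524 524) (leaf 3 525 526))))))))) (node 526 (merge (node 561 (merge (leaf 3 525 525) (node 593 (merge (leaf 4 464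 464) (leaf 0 558 594))))) (merge (node 525 (merge (leaf 3 525 561) (node 524 (merge (leaf 0 523 523) (leaf 0 524 527))))) (merge (node 527 (merge (node 525 (merge (leaf 2 493 497) (leaf 0 524 524))) (merge (node 529 (merge (leaf 1 526 530) (node 497 (merge (leaf 2 494 498) (node 494 (merge (leaf 3 493 493) (node 462 (merge (leaf 4 430 430) (node 461 (merge (leaf 7 429 429) (leaf 3 461 495))))))))))) (node 525 (merge (leaf 0 524 524) (node 529 (merge (leaf 1 526 530) (node 493 (merge (leaf 3 492 492) (leaf 3 493 494)))))))))) (node 590 (merge (node 561 (merge (leaf 1 557 589) (node 593 (merge (leaf 4 464 464) (leaf 0 558 594))))) (merge (node 494 (merge (node 495 (merge (leaf 6 462 463) (node 622 (merge (leaf 6 494 527) (node 655 (merge (leaf 4 526 623) (node 654 (merge (leaf 4 558 687) (node 653 (merge (leaf 5 525 621) (leaf 5 557 685))))))))))) (merge (node 493 (merge (leaf 7 461 461) (node 529 (merge (leaf 3 493 527) (node 561 (merge (leaf 2 526 530) (node 593 (merge (leaf 0 558 594) (leaf 7 496 625))))))))) (node 493 (merge (leaf 7 461 461) (node 529 (merge (leaf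 0 493 495) (node 561 (merge (leaf 2 526 530) (node 593 (merge (leaf 4 464 464) (leaf 0 558 594)))))))))))) (node 622 (merge (node 655 (merge (leaf 4 526 623) (node 654 (merge (leaf 6 526 527) (leaf 4 558 687))))) (merge (node 654 (merge (leaf 6 526 527) (node 653 (merge (leaf 5 525 621) (leaf 5 557 685))))) (node 623 (merge (leaf 4 526 655) (node 621 (merge (leaf 5 525 653) (node 589 (merge (leaf 5 493 494) (node 588 (merge (leaf 0 587 587) (leaf 3 588 624)))))))))))))))))))))))))))))))))) nJ_7 cJ_7 12 (by decide +kernel)
def nJ_8 : ℕ := 0x1000000010000000000000000000000000000000000000000000000000000000000000000000000000000000000000000000000000000000000000000000000000000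
def cJ_8 : ℕ := 0x1800000018000003be000001ee000003ef800001ff000001ff00000078000000380000003800000028000000000000000000000000000000000000000000000000000000000000000000000000000
theorem lJ_8 : S nJ_8 cJ_8 11 := S_of_chk [] trivial (node 464 (merge (node 432 (merge (node 401 (merge (leaf 6 400 433) (node 400 (merge (leaf 6 368 369) (node 399 (merge (leaf 7 367 367) (leaf 7 399 431))))))) (merge (node 559 (merge (leaf 5 431 527) (node 431 (merge (leaf 7 399 399) (node 560 (merge (leaf 7 431 463) (leaf 5 463 591))))))) (node 433 (merge (leaf 6 400 401) (node 560 (merge (leaf 6 432 465) (node 559 (merge (leaf 5 431 527) (leaf 5 463 591)))))))))) (merge (node 431 (merge (node 399 (merge (leaf 7 399 432) (node 463 (merge (leaf 4 367 367) (leaf 4 399 495))))) (merge (node 432 (merge (leaf 7 399 399) (node 433 (merge (leaf 6 400 401) (node 465 (merge (leaf 6 432 560) (node 466 (merge (leaf 0 430 430) (leaf 3 431 467))))))))) (node 560 (merge (leaf 7 431 463) (node 465 (merge (leaf 6 432 433) (node 592 (merge (leaf 6 464 497) (node 591 (merge (leaf 5 463 559) (leaf 5 495 623))))))))))))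 (merge (node 431 (merge (node 463 (merge (leaf 7 431 560) (node 399 (merge (leaf 4 367 367) (leaf 4 399 495))))) (merge (node 560 (merge (leaf 7 431 463) (node 559 (merge (leaf 5 463 591) (node 432 (merge (leaf 5 431 527) (node 529 (merge (leaf 4 432 561) (node 497 (merge (leaf 4 400 400) (node 592 (merge (leaf 6 464 465) (leaf 6 496 624))))))))))))) (node 432 (merge (leaf 7 399 399) (node 527 (merge (leaf 5 431 559) (node 400 (merge (leaf 5 399 495) (node 497 (merge (leaf 4 400 529) (node 368 (merge (leaf 4 368 465) (node 337 (merge (leaf 6 336 369) (node 336 (merge (leaf 6 304 305) (node 335 (merge (leaf 7 303 303) (leaf 7 335 367)))))))))))))))))))) (merge (node 529 (merge (node 432 (merge (leaf 4 432 561) (node 400 (merge (leaf 4 400 497) (node 401 (merge (leaf 6 368 369) (leaf 6 400 433))))))) (merge (node 432 (merge (leaf 4 432 561) (node 401 (merge (leaf 6 400 433) (node 400 (merge (leaf 6 368 369) (node 527 (merge (leaf 5 399 495) (leaf 5 431 559))))))))) (node 530 (merge (node 495 (merge (leaf 3 495 531) (node 494 (merge (leaf 0 493 493) (leaf 3 494 527)))))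 (merge (node 531 (merge (leaf 3 495 495) (node 564 (merge (leaf 0 528 563) (node 532 (merge (leaf 3 496 497) (leaf 0 529 565))))))) (merge (node 527 (merge (node 559 (merge (leaf 1 526 558) (node 495 (merge (leaf 3 494 494) (leaf 6 463 591))))) (merge (node 498 (merge (leaf 2 495 499) (node 526 (merge (leaf 2 494 497) (node 558 (merge (leaf 1 525 557) (leaf 1 526 559))))))) (node 494 (merge (leaf 3 494 495) (node 526 (merge (leaf 3 493 493) (node 497 (merge (leaf 2 494 498) (leaf 2 493 525)))))))))) (node 531 (merge (node 564 (merge (leaf 0 528 563) (node 532 (merge (leaf 3 496 497) (leaf 0 529 565))))) (merge (node 564 (merge (leaf 0 528 563) (node 532 (merge (leaf 0 529 565) (node 500 (merge (leaf 2 496 499) (leaf 2 497 501))))))) (node 499 (merge (leaf 2 496 500) (node 527 (merge (leaf 2 495 498) (node 558 (merge (leaf 1 526 559) (node 526 (merge (leaf 1 525 557) (node 525 (merge (leaf 2 493 497) (node 493 (merge (leaf 3 492 492) (leaf 3 493 494))))))))))))))))))))))) (merge (node 465 (merge (node 560 (merge (leaf 6 432 433) (node 592 (merge (leaf 6 464 497) (node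 591 (merge (leaf 5 463 559) (leaf 5 495 623))))))) (merge (node 560 (merge (leaf 6 432 433) (node 591 (merge (leaf 5 463 559) (node 463 (merge (leaf 7 431 431) (node 592 (merge (leaf 7 463 495) (leaf 5 495 623))))))))) (merge (node 463 (merge (node 462 (merge (node 433 (merge (leaf 2 430 434) (node 401 (merge (leaf 5 368 369) (leaf 5 400 497))))) (node 493 (merge (leaf 1 461 494) (node 461 (merge (leaf 1 460 492) (node 429 (merge (leaf 3 428 428) (leaf 3 429 430))))))))) (merge (node 466 (merge (node 431 (merge (leaf 3 430 430) (node 399 (merge (leaf 4 367 367) (leaf 4 399 495))))) (node 499 (merge (leaf 0 463 498) (node 467 (merge (leaf 0 464 500) (node 435 (merge (leaf 2 431 434) (leaf 2 432 436))))))))) (merge (node 466 (merge (node 499 (merge (leaf 0 463 498) (node 467 (merge (leaf 1 463 495) (leaf 0 464 500))))) (merge (node 499 (merge (leaf 0 463 498) (node 467 (merge (leaf 0 464 500) (node 435 (merge (leaf 2 431 434) (leaf 2 432 436))))))) (node 434 (merge (leaf 2 431 435) (node 462 (merge (leaf 2 430 433) (node 494 (merge (leaf 1 461 493) (leaf 1 462 495))))))))))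 (node 498 (merge (node 497 (merge (leaf 0 462 462) (leaf 3 463 499))) (merge (node 466 (merge (leaf 0 463 499) (node 431 (merge (leaf 3 430 430) (node 399 (merge (leaf 4 367 367) (leaf 4 399 495))))))) (node 462 (merge (leaf 0 462 497) (node 494 (merge (leaf 1 461 493) (node 466 (merge (leaf 1 462 495) (node 430 (merge (leaf 3 429 429) (leaf 3 430 431)))))))))))))))) (node 463 (merge (node 431 (merge (leaf 7 431 560) (node 399 (merge (leaf 4 367 367) (leaf 4 399 495))))) (merge (node 560 (merge (leaf 7 431 431) (node 497 (merge (leaf 6 464 592) (node 498 (merge (leaf 0 462 462) (leaf 3 463 499))))))) (node 462 (merge (node 493 (merge (leaf 1 461 494) (node 461 (merge (leaf 1 460 492) (node 429 (merge (leaf 3 428 428) (leaf 3 429 430))))))) (merge (node 494 (merge (leaf 1 461 493) (node 466 (merge (leaf 1 462 495) (node 499 (merge (leaf 0 463 498) (node 467 (merge (leaf 0 464 500) (node 435 (merge (leaf 2 431 434) (leaf 2 432 436))))))))))) (merge (node 429 (merge (leaf 3 429 430) (node 461 (merge (leaf 3 428 428) (node 495 (merge (leaf 0 460 460) (node 466 (merge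 (leaf 1 463 467) (leaf 1 462 494))))))))) (node 429 (merge (leaf 3 429 430) (node 461 (merge (leaf 3 428 428) (node 460 (merge (leaf 0 460 495) (node 492 (merge (leaf 1 459 491) (leaf 1 460 493)))))))))))))))))))) (node 465 (merge (node 433 (merge (leaf 6 432 560) (node 401 (merge (leaf 5 368 369) (leaf 5 400 497))))) (merge (node 560 (merge (leaf 6 432 433) (node 463 (merge (leaf 7 431 431) (node 495 (merge (leaf 7 463 592) (node 494 (merge (leaf 1 462 466) (leaf 2 461 493))))))))) (merge (node 463 (merge (node 431 (merge (leaf 7 431 560) (node 399 (merge (leaf 4 367 367) (leaf 4 399 495))))) (merge (node 560 (merge (leaf 7 431 431) (node 497 (merge (leaf 6 464 592) (node 498 (merge (leaf 0 462 462) (leaf 3 463 499))))))) (merge (node 498 (merge (node 497 (merge (leaf 0 462 462) (leaf 3 463 499))) (merge (node 466 (merge (leaf 0 463 499) (node 495 (merge (leaf 1 463 467) (leaf 1 462 494))))) (node 462 (merge (leaf 0 462 497) (node 430 (merge (leaf 3 429 429) (node 466 (merge (leaf 3 430 431) (node 495 (merge (leaf 1 463 467) (leaf 1 462 494)))))))))))) (node 494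 (merge (node 495 (merge (leaf 1 462 466) (leaf 2 461 493))) (merge (node 462 (merge (leaf 1 461 493) (node 497 (merge (leaf 0 461 461) (leaf 0 462 498))))) (node 466 (merge (leaf 1 462 495) (node 498 (merge (leaf 0 463 499) (node 497 (merge (leaf 0 462 462) (node 434 (merge (leaf 2 431 435) (node 529 (merge (leaf 5 401 402) (leaf 6 433 561)))))))))))))))))) (node 466 (merge (node 495 (merge (leaf 1 463 467) (node 494 (merge (leaf 1 462 463) (leaf 2 461 493))))) (merge (node 467 (merge (leaf 1 463 495) (node 432 (merge (leaf 3 431 431) (node 433 (merge (leaf 6 400 401) (leaf 3 432 468))))))) (merge (node 432 (merge (node 431 (merge (leaf 7 399 399) (leaf 3 431 467))) (merge (node 529 (merge (leaf 4 432 561) (node 497 (merge (leaf 4 400 400) (node 433 (merge (leaf 5 400 401) (node 434 (merge (leaf 6 401 402) (node 463 (merge (leaf 1 431 435) (leaf 2 430 462))))))))))) (node 431 (merge (leaf 7 399 399) (node 430 (merge (leaf 0 430 433) (leaf 3 430 463)))))))) (node 431 (merge (node 432 (merge (leaf 7 399 399) (node 433 (merge (leaf 6 400 401) (leaf 0 430 430))))) (merge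 (node 463 (merge (leaf 3 430 430) (node 494 (merge (leaf 1 462 495) (node 462 (merge (leaf 1 461 493) (node 434 (merge (leaf 2 430 433) (leaf 2 431 435))))))))) (merge (node 432 (merge (leaf 7 399 399) (node 529 (merge (leaf 4 432 561) (node 497 (merge (leaf 4 400 400) (node 433 (merge (leaf 5 400 401) (node 434 (merge (leaf 6 401 402) (node 463 (merge (leaf 1 431 435) (leaf 1 430 462))))))))))))) (node 430 (merge (leaf 3 430 463) (node 432 (merge (leaf 7 399 399) (leaf 0 429 429))))))))))))))))))))))) nJ_8 cJ_8 11 (by decide +kernel)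
def nJ_9 : ℕ := 0x1000000010000000000000000000000000000000000000000000000000000000000000000000000000000000000000000000000000000000000000000000000000000
def cJ_9 : ℕ := 0x280000003e0000003e0000003e000000ffc000003f800000ef8000002f0000001f8000003a00000038000000380000002800000000000000000000000000000000000000000000000000000000000000000000000000000000000
theorem lJ_9 : S nJ_9 cJ_9 13 := S_of_chk [(nJ_2, cJ_2, 12)] ⟨lJ_2, trivial⟩ (node 560 (merge (node 592 (merge (node 625 (merge (leaf 4 496 593) (node 624 (merge (leaf 4 528 657) (node 623 (merge (leaf 5 495 591) (leaf 5 527 655))))))) (merge (node 625 (merge (leaf 4 496 593) (node 624 (merge (leaf 4 528 657) (node 495 (merge (leaf 7 463 463) (leaf 7 495 527))))))) (merge (node 623 (merge (leaf 5 495 591) (node 495 (merge (leaf 7 463 463) (node 624 (merge (leaf 7 495 527) (leaf 5 527 655))))))) (node 593 (merge (leaf 4 496 625) (node 591 (merge (leaf 5 495 623) (node 559 (merge (leaf 5 463 464) (node 594 (merge (leaf 3 558 558) (leaf 3 559 595))))))))))))) (merge (node 464 (merge (node 593 (merge (leaf 4 464 561) (node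 592 (merge (leaf 4 496 625) (node 591 (merge (leaf 5 463 559) (leaf 5 495 623))))))) (merge (node 593 (merge (leaf 4 464 561) (node 592 (merge (leaf 4 496 625) (node 463 (merge (leaf 7 431 431) (leaf 7 463 495))))))) (merge (node 591 (merge (leaf 5 463 559) (node 463 (merge (leaf 7 431 431) (node 592 (merge (leaf 7 463 495) (leaf 5 495 623))))))) (node 561 (merge (leaf 4 464 593) (node 529 (merge (leaf 4 432 432) (node 559 (merge (leaf 5 463 591) (node 558 (merge (leaf 2 526 530) (leaf 2 525 557))))))))))))) (merge (node 464 (merge (node 593 (merge (leaf 4 464 561) (node 592 (merge (leaf 4 496 625) (node 591 (merge (leaf 5 463 559) (leaf 5 495 623))))))) (merge (node 559 (merge (leaf 5 463 591) (node 432 (merge (leaf 5 431 527) (node 401 (merge (leaf 6 400 433) (node 400 (merge (leaf 6 368 369) (node 399 (merge (leaf 7 367 367) (leaf 7 399 431))))))))))) (node 561 (merge (leaf 4 464 593) (node 432 (merge (leaf 4 432 529) (node 401 (merge (leaf 6 400 433) (node 400 (merge (leaf 6 368 369) (node 399 (merge (leaf 7 367 367) (leaf 7 399 431)))))))))))))) (merge (node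 464 (merge (node 593 (merge (leaf 4 464 561) (node 592 (merge (leaf 4 496 625) (node 463 (merge (leaf 7 431 431) (leaf 7 463 495))))))) (merge (node 561 (merge (leaf 4 464 593) (node 432 (merge (leaf 4 432 529) (node 559 (merge (leaf 5 431 527) (leaf 5 463 591))))))) (node 559 (merge (leaf 5 463 591) (node 432 (merge (leaf 5 431 527) (node 401 (merge (leaf 6 400 433) (node 400 (merge (leaf 6 368 369) (node 399 (merge (leaf 7 367 367) (leaf 7 399 431)))))))))))))) (merge (node 592 (merge (node 593 (merge (leaf 4 496 625) (node 464 (merge (leaf 4 464 561) (node 463 (merge (leaf 7 431 431) (leaf 7 463 495))))))) (merge (node 625 (merge (leaf 4 496 593) (node 624 (merge (leaf 4 528 657) (node 495 (merge (leaf 7 463 463) (leaf 7 495 527))))))) (merge (node 625 (merge (leaf 4 496 593) (node 624 (merge (leaf 4 528 657) (node 655 (merge (leaf 5 527 623) (node 656 (merge (leaf 5 559 687) (node 529 (merge (leaf 6 496 497) (leaf 6 528 561))))))))))) (node 495 (merge (leaf 7 463 463) (node 624 (merge (leaf 7 495 527) (node 655 (merge (leaf 5 527 623) (node 656 (merge (leaf 5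 559 687) (node 529 (merge (leaf 6 496 497) (leaf 6 528 561))))))))))))))) (merge (node 591 (merge (node 623 (merge (leaf 5 495 592) (node 559 (merge (leaf 6 495 527) (leaf 6 527 655))))) (merge (node 464 (merge (leaf 5 463 559) (node 561 (merge (leaf 4 464 593) (node 432 (merge (leaf 4 432 529) (node 431 (merge (leaf 7 399 399) (leaf 7 431 463))))))))) (node 592 (merge (leaf 5 495 623) (node 495 (merge (leaf 7 463 463) (node 624 (merge (leaf 7 495 527) (node 529 (merge (leaf 6 496 497) (node 656 (merge (leaf 6 528 561) (node 689 (merge (leaf 4 560 657) (node 688 (merge (leaf 4 592 721) (node 687 (merge (leaf 5 559 655) (leaf 5 591 719)))))))))))))))))))) (merge (node 463 (merge (node 431 (merge (leaf 7 431 464) (node 495 (merge (leaf 4 399 399) (leaf 4 431 527))))) (merge (node 464 (merge (leaf 7 431 431) (node 591 (merge (leaf 5 463 559) (node 592 (merge (leaf 7 463 495) (leaf 5 495 623))))))) (merge (node 464 (merge (leaf 7 431 431) (node 559 (merge (leaf 5 463 591) (node 432 (merge (leaf 5 431 527) (node 529 (merge (leaf 4 432 561) (node 400 (merge (leaf 4 400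 497) (node 369 (merge (leaf 6 368 401) (node 368 (merge (leaf 6 336 337) (node 367 (merge (leaf 7 335 335) (leaf 7 367 399))))))))))))))))) (node 592 (merge (leaf 7 463 495) (node 623 (merge (leaf 5 495 591) (node 624 (merge (leaf 5 527 655) (node 657 (merge (leaf 4 528 625) (node 656 (merge (leaf 4 560 689) (node 529 (merge (leaf 6 496 497) (leaf 6 528 561))))))))))))))))) (merge (node 559 (merge (node 464 (merge (leaf 5 463 591) (node 432 (merge (leaf 5 431 527) (node 431 (merge (leaf 7 399 399) (leaf 7 431 463))))))) (merge (node 464 (merge (leaf 5 463 591) (node 561 (merge (leaf 4 464 593) (node 529 (merge (leaf 4 432 432) (node 558 (merge (leaf 2 526 530) (leaf 2 525 557))))))))) (merge (node 558 (merge (node 557 (merge (leaf 2 525 529) (node 556 (merge (leaf 2 524 527) (node 588 (merge (leaf 1 555 587) (leaf 1 556 589))))))) (merge (node 557 (merge (leaf 2 525 529) (node 527 (merge (leaf 2 524 556) (node 525 (merge (leaf 3 524 524) (node 526 (merge (leaf 2 493 497) (leaf 0 525 561))))))))) (merge (node 561 (merge (node 593 (merge (leaf 4 464 464) (leaf 0 558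 594))) (node 589 (merge (leaf 1 557 590) (node 557 (merge (leaf 1 556 588) (node 525 (merge (leaf 3 524 524) (leaf 3 525 526))))))))) (node 464 (merge (node 432 (merge (leaf 5 431 527) (node 431 (merge (leaf 7 399 399) (leaf 7 431 463))))) (merge (node 561 (merge (leaf 4 464 593) (node 590 (merge (leaf 1 557 589) (node 526 (merge (leaf 3 525 525) (node 463 (merge (leaf 7 431 431) (node 494 (merge (leaf 6 462 495) (node 461 (merge (leaf 7 461 493) (node 462 (merge (leaf 7 429 429) (leaf 0 461 497))))))))))))))) (node 432 (merge (leaf 5 431 527) (node 529 (merge (leaf 4 432 561) (node 400 (merge (leaf 4 400 497) (node 369 (merge (leaf 6 368 401) (node 368 (merge (leaf 6 336 337) (node 367 (merge (leaf 7 335 335) (leaf 7 367 399)))))))))))))))))))) (node 558 (merge (node 529 (merge (leaf 2 525 557) (node 530 (merge (leaf 1 527 531) (leaf 2 526 561))))) (merge (node 557 (merge (leaf 2 525 529) (node 556 (merge (leaf 2 524 527) (node 588 (merge (leaf 1 555 587) (leaf 1 556 589))))))) (merge (node 525 (merge (node 526 (merge (leaf 3 525 561) (node 527 (merge (leaf 2 493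 497) (leaf 0 524 524))))) (merge (node 557 (merge (leaf 3 524 524) (node 556 (merge (leaf 2 524 527) (node 588 (merge (leaf 1 555 587) (leaf 1 556 589))))))) (merge (node 557 (merge (leaf 3 524 524) (node 589 (merge (leaf 1 556 588) (node 561 (merge (leaf 3 525 526) (leaf 1 557 590))))))) (node 526 (merge (leaf 3 525 561) (node 527 (merge (leaf 2 493 497) (node 557 (merge (leaf 1 524 556) (node 493 (merge (leaf 3 492 492) (node 461 (merge (leaf 4 429 429) (leaf 4 461 590))))))))))))))) (node 526 (merge (node 525 (merge (leaf 3 525 561) (node 527 (merge (leaf 2 493 497) (leaf 0 524 524))))) (merge (node 561 (merge (leaf 3 525 525) (node 593 (merge (leaf 0 558 594) (node 529 (merge (leaf 2 526 530) (leaf 7 496 625))))))) (merge (node 527 (merge (node 525 (merge (leaf 2 493 497) (leaf 0 524 524))) (node 529 (merge (leaf 1 526 530) (node 494 (merge (leaf 3 493 493) (node 591 (merge (leaf 4 462 462) (leaf 6 495 623))))))))) (node 590 (merge (node 561 (merge (leaf 1 557 589) (node 593 (merge (leaf 0 558 594) (node 529 (merge (leaf 2 526 530) (leaf 7 496 625))))))) (merge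 (node 591 (merge (node 623 (merge (leaf 4 494 494) (leaf 7 526 655))) (merge (node 623 (merge (leaf 6 495 527) (leaf 6 527 655))) (node 494 (merge (leaf 4 462 462) (node 493 (merge (leaf 7 461 461) (node 529 (merge (leaf 3 493 527) (node 561 (merge (leaf 2 526 530) (node 593 (merge (leaf 0 558 594) (leaf 7 496 625)))))))))))))) (node 622 (merge (node 655 (merge (leaf 4 526 623) (node 654 (merge (leaf 6 526 527) (leaf 4 558 687))))) (merge (node 654 (merge (leaf 6 526 527) (node 653 (merge (leaf 5 525 621) (leaf 5 557 685))))) (node 623 (merge (leaf 4 526 655) (node 621 (merge (leaf 5 525 653) (node 589 (merge (leaf 5 493 494) (node 588 (merge (leaf 0 587 587) (leaf 3 588 624))))))))))))))))))))))))))) (hyp 0)))))))))) nJ_9 cJ_9 13 (by decide +kernel)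
def nJ_10 : ℕ := 0x1000000010000000000000000000000000000000000000000000000000000000000000000000000000000000000000000000000000000000000000000000000000000
def cJ_10 : ℕ := 0x280000003a0000003e0000003e000000ff8000003f000003ef000001ef000003fe0000001a00000038000000380000002800000000000000000000000000000000000000000000000000000000000000000000000000000000000
theorem lJ_10 : S nJ_10 cJ_10 12 := S_of_chk [] trivial (node 560 (merge (node 592 (merge (node 593 (merge (leaf 4 496 625) (node 464 (merge (leaf 4 464 561) (node 463 (merge (leaf 7 431 431) (leaf 7 463 495))))))) (merge (node 625 (merge (leaf 4 496 593) (node 624 (merge (leaf 4 528 657) (node 623 (merge (leaf 5 495 591) (leaf 5 527 655))))))) (node 623 (merge (leaf 5 495 591) (node 495 (merge (leaf 7 463 463) (node 624 (merge (leaf 7 495 527) (leaf 5 527 655)))))))))) (merge (node 464 (merge (node 593 (merge (leaf 4 464 561) (node 592 (merge (leaf 4 496 625) (node 463 (merge (leaf 7 431 431) (leaf 7 463 495))))))) (merge (node 561 (merge (leaf 4 464 593) (node 432 (merge (leaf 4 432 529) (node 559 (merge (leaf 5 431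 527) (leaf 5 463 591))))))) (node 591 (merge (leaf 5 463 559) (node 463 (merge (leaf 7 431 431) (node 592 (merge (leaf 7 463 495) (leaf 5 495 623)))))))))) (merge (node 592 (merge (node 625 (merge (leaf 4 496 593) (node 497 (merge (leaf 6 464 465) (node 624 (merge (leaf 6 496 529) (leaf 4 528 657))))))) (merge (node 625 (merge (leaf 4 496 593) (node 624 (merge (leaf 4 528 657) (node 623 (merge (leaf 5 495 591) (leaf 5 527 655))))))) (merge (node 497 (merge (leaf 6 464 465) (node 624 (merge (leaf 6 496 529) (node 623 (merge (leaf 5 495 591) (leaf 5 527 655))))))) (node 593 (merge (leaf 4 496 625) (node 591 (merge (leaf 5 495 623) (node 559 (merge (leaf 5 463 464) (node 594 (merge (leaf 3 558 558) (leaf 3 559 595))))))))))))) (merge (node 591 (merge (node 559 (merge (leaf 5 463 464) (node 623 (merge (leaf 6 495 527) (leaf 6 527 655))))) (merge (node 464 (merge (leaf 5 463 559) (node 463 (merge (leaf 7 431 431) (node 592 (merge (leaf 7 463 495) (node 497 (merge (leaf 6 464 465) (node 529 (merge (leaf 6 496 624) (node 432 (merge (leaf 4 400 400) (leaf 4 432 561)))))))))))))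 (node 592 (merge (leaf 5 495 623) (node 495 (merge (leaf 7 463 463) (node 624 (merge (leaf 7 495 527) (node 657 (merge (leaf 4 528 625) (node 656 (merge (leaf 4 560 689) (node 529 (merge (leaf 6 496 497) (leaf 6 528 561)))))))))))))))) (merge (node 591 (merge (node 623 (merge (leaf 5 495 592) (node 559 (merge (leaf 6 495 527) (leaf 6 527 655))))) (merge (node 464 (merge (leaf 5 463 559) (node 561 (merge (leaf 4 464 593) (node 432 (merge (leaf 4 432 529) (node 431 (merge (leaf 7 399 399) (leaf 7 431 463))))))))) (node 592 (merge (leaf 5 495 623) (node 495 (merge (leaf 7 463 463) (node 624 (merge (leaf 7 495 527) (node 529 (merge (leaf 6 496 497) (node 656 (merge (leaf 6 528 561) (node 689 (merge (leaf 4 560 657) (node 688 (merge (leaf 4 592 721) (node 687 (merge (leaf 5 559 655) (leaf 5 591 719)))))))))))))))))))) (merge (node 497 (merge (node 592 (merge (leaf 6 464 465) (node 625 (merge (leaf 4 496 593) (node 624 (merge (leaf 6 496 529) (leaf 4 528 657))))))) (merge (node 592 (merge (leaf 6 464 465) (node 625 (merge (leaf 4 496 593) (node 624 (merge (leaf 4 528 657)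 (node 495 (merge (leaf 7 463 463) (leaf 7 495 527))))))))) (merge (node 495 (merge (node 592 (merge (leaf 7 463 463) (node 625 (merge (leaf 4 496 593) (node 624 (merge (leaf 6 496 529) (leaf 4 528 657))))))) (merge (node 498 (merge (node 527 (merge (leaf 1 495 499) (leaf 1 494 526))) (merge (node 463 (merge (leaf 3 462 462) (node 431 (merge (leaf 4 399 399) (leaf 4 431 527))))) (node 531 (merge (leaf 0 495 530) (node 499 (merge (leaf 0 496 532) (node 467 (merge (leaf 2 463 466) (leaf 2 464 468)))))))))) (node 526 (merge (node 527 (merge (leaf 1 494 498) (leaf 2 493 525))) (merge (node 494 (merge (leaf 1 493 525) (node 529 (merge (leaf 0 493 493) (leaf 0 494 530))))) (node 498 (merge (leaf 1 494 527) (node 531 (merge (leaf 0 495 530) (node 499 (merge (leaf 0 496 532) (node 467 (merge (leaf 2 463 466) (leaf 2 464 468))))))))))))))) (node 498 (merge (node 527 (merge (leaf 1 495 499) (node 526 (merge (leaf 1 494 495) (leaf 2 493 525))))) (merge (node 499 (merge (leaf 1 495 527) (node 468 (merge (leaf 2 464 467) (node 500 (merge (leaf 2 465 469) (leaf 1 496 529)))))))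 (merge (node 495 (merge (node 463 (merge (leaf 3 462 462) (node 431 (merge (leaf 4 399 399) (leaf 4 431 527))))) (merge (node 466 (merge (leaf 2 463 467) (node 494 (merge (leaf 2 462 465) (node 526 (merge (leaf 1 493 525) (leaf 1 494 527))))))) (node 466 (merge (leaf 2 463 467) (node 494 (merge (leaf 2 462 465) (node 493 (merge (leaf 0 493 529) (node 525 (merge (leaf 1 492 524) (leaf 1 493 526)))))))))))) (node 499 (merge (node 532 (merge (leaf 0 496 531) (node 500 (merge (leaf 1 496 529) (leaf 0 497 533))))) (merge (node 467 (merge (leaf 2 464 468) (node 495 (merge (leaf 2 463 466) (node 462 (merge (leaf 3 462 463) (node 494 (merge (leaf 3 461 461) (node 493 (merge (leaf 0 493 529) (node 525 (merge (leaf 1 492 524) (leaf 1 493 526))))))))))))) (node 532 (merge (leaf 0 496 531) (node 500 (merge (leaf 0 497 533) (node 468 (merge (leaf 2 464 467) (leaf 2 465 469)))))))))))))))))) (node 559 (merge (node 464 (merge (leaf 5 463 591) (node 432 (merge (leaf 5 431 527) (node 431 (merge (leaf 7 399 399) (leaf 7 431 463))))))) (merge (node 464 (merge (leaf 5 463 591) (node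 561 (merge (leaf 4 464 593) (node 529 (merge (leaf 4 432 432) (node 558 (merge (leaf 2 526 530) (leaf 2 525 557))))))))) (merge (node 558 (merge (node 557 (merge (leaf 2 525 529) (node 556 (merge (leaf 2 524 527) (node 588 (merge (leaf 1 555 587) (leaf 1 556 589))))))) (merge (node 557 (merge (leaf 2 525 529) (node 527 (merge (leaf 2 524 556) (node 525 (merge (leaf 3 524 524) (node 526 (merge (leaf 2 493 497) (leaf 0 525 561))))))))) (merge (node 561 (merge (node 593 (merge (leaf 4 464 464) (leaf 0 558 594))) (node 589 (merge (leaf 1 557 590) (node 557 (merge (leaf 1 556 588) (node 525 (merge (leaf 3 524 524) (leaf 3 525 526))))))))) (node 464 (merge (node 432 (merge (leaf 5 431 527) (node 431 (merge (leaf 7 399 399) (leaf 7 431 463))))) (merge (node 561 (merge (leaf 4 464 593) (node 590 (merge (leaf 1 557 589) (node 526 (merge (leaf 3 525 525) (node 463 (merge (leaf 7 431 431) (node 494 (merge (leaf 6 462 495) (node 461 (merge (leaf 7 461 493) (node 462 (merge (leaf 7 429 429) (leaf 0 461 497))))))))))))))) (node 432 (merge (leaf 5 431 527) (node 529 (merge (leaf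 4 432 561) (node 400 (merge (leaf 4 400 497) (node 369 (merge (leaf 6 368 401) (node 368 (merge (leaf 6 336 337) (node 367 (merge (leaf 7 335 335) (leaf 7 367 399)))))))))))))))))))) (node 558 (merge (node 529 (merge (leaf 2 525 557) (node 530 (merge (leaf 1 527 531) (leaf 2 526 561))))) (merge (node 557 (merge (leaf 2 525 529) (node 556 (merge (leaf 2 524 527) (node 588 (merge (leaf 1 555 587) (leaf 1 556 589))))))) (merge (node 525 (merge (node 526 (merge (leaf 3 525 561) (node 527 (merge (leaf 2 493 497) (leaf 0 524 524))))) (merge (node 557 (merge (leaf 3 524 524) (node 556 (merge (leaf 2 524 527) (node 588 (merge (leaf 1 555 587) (leaf 1 556 589))))))) (merge (node 557 (merge (leaf 3 524 524) (node 589 (merge (leaf 1 556 588) (node 561 (merge (leaf 3 525 526) (leaf 1 557 590))))))) (node 526 (merge (leaf 3 525 561) (node 527 (merge (leaf 2 493 497) (node 557 (merge (leaf 1 524 556) (node 493 (merge (leaf 3 492 492) (node 461 (merge (leaf 4 429 429) (leaf 4 461 590))))))))))))))) (node 526 (merge (node 525 (merge (leaf 3 525 561) (node 527 (merge (leaf 2 493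 497) (leaf 0 524 524))))) (merge (node 561 (merge (leaf 3 525 525) (node 593 (merge (leaf 0 558 594) (node 529 (merge (leaf 2 526 530) (leaf 7 496 625))))))) (merge (node 527 (merge (node 525 (merge (leaf 2 493 497) (leaf 0 524 524))) (node 529 (merge (leaf 1 526 530) (node 494 (merge (leaf 3 493 493) (node 591 (merge (leaf 4 462 462) (leaf 6 495 623))))))))) (node 590 (merge (node 561 (merge (leaf 1 557 589) (node 593 (merge (leaf 0 558 594) (node 529 (merge (leaf 2 526 530) (leaf 7 496 625))))))) (merge (node 591 (merge (node 623 (merge (leaf 4 494 494) (leaf 7 526 655))) (merge (node 623 (merge (leaf 6 495 527) (leaf 6 527 655))) (node 494 (merge (leaf 4 462 462) (node 493 (merge (leaf 7 461 461) (node 529 (merge (leaf 3 493 527) (node 561 (merge (leaf 2 526 530) (node 593 (merge (leaf 0 558 594) (leaf 7 496 625)))))))))))))) (node 622 (merge (node 655 (merge (leaf 4 526 623) (node 654 (merge (leaf 6 526 527) (leaf 4 558 687))))) (merge (node 654 (merge (leaf 6 526 527) (node 653 (merge (leaf 5 525 621) (leaf 5 557 685))))) (node 623 (merge (leaf 4 526 655) (node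 621 (merge (leaf 5 525 653) (node 589 (merge (leaf 5 493 494) (node 588 (merge (leaf 0 587 587) (leaf 3 588 624)))))))))))))))))))))))))))))))))) nJ_10 cJ_10 12 (by decide +kernel)
def nJ_11 : ℕ := 0x1000000010000000100000000000000000000000000000000000000000000000000000000000000000000000000000000000000000000000000000000000000000000
def cJ_11 : ℕ := 0xc0000000f000003ef800007ef000003ff800000fe0000007c0000005c00000000000000000000000000000000000000000000000000000000000000000000000000000000000
theorem lJ_11 : S nJ_11 cJ_11 11 := S_of_chk [] trivial (node 433 (merge (node 401 (merge (leaf 6 400 432) (node 465 (merge (leaf 5 368 369) (leaf 5 400 497))))) (merge (node 432 (merge (leaf 6 400 401) (node 527 (merge (leaf 5 431 559) (node 400 (merge (leaf 5 399 495) (node 399 (merge (leaf 7 367 367) (leaf 7 399 431))))))))) (merge (node 465 (merge (node 401 (merge (leaf 5 368 369) (leaf 5 400 497))) (merge (node 466 (merge (node 467 (merge (leaf 1 463 495) (node 500 (merge (leaf 0 464 499) (node 468 (merge (leaf 1 464 497) (leaf 0 465 501))))))) (merge (node 467 (merge (leaf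 1 463 495) (node 499 (merge (leaf 0 464 500) (node 463 (merge (leaf 0 463 498) (node 435 (merge (leaf 2 431 434) (leaf 2 432 436))))))))) (merge (node 467 (merge (node 500 (merge (leaf 0 464 499) (node 468 (merge (leaf 1 464 497) (leaf 0 465 501))))) (merge (node 499 (merge (leaf 0 464 500) (node 463 (merge (leaf 0 463 498) (node 435 (merge (leaf 2 431 434) (leaf 2 432 436))))))) (node 468 (merge (leaf 1 464 497) (node 435 (merge (leaf 2 432 436) (node 434 (merge (leaf 2 431 463) (node 469 (merge (leaf 3 433 433) (leaf 3 434 470)))))))))))) (node 463 (merge (node 495 (merge (leaf 1 462 494) (node 431 (merge (leaf 4 399 399) (leaf 3 430 430))))) (node 434 (merge (leaf 2 431 435) (node 462 (merge (leaf 2 430 433) (node 497 (merge (leaf 0 461 461) (leaf 0 462 498))))))))))))) (node 463 (merge (node 434 (merge (leaf 2 430 462) (node 435 (merge (leaf 1 432 436) (leaf 2 431 466))))) (merge (node 462 (merge (leaf 2 430 434) (node 493 (merge (leaf 1 461 494) (node 461 (merge (leaf 1 460 492) (node 429 (merge (leaf 3 428 428) (leaf 3 429 430))))))))) (merge (node 431 (merge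 (node 399 (merge (leaf 4 367 367) (leaf 4 399 495))) (merge (node 430 (merge (leaf 3 430 466) (node 429 (merge (leaf 0 428 428) (leaf 3 429 462))))) (node 466 (merge (leaf 3 430 430) (node 499 (merge (leaf 0 463 498) (node 467 (merge (leaf 1 463 495) (leaf 0 464 500)))))))))) (node 466 (merge (node 431 (merge (leaf 3 430 430) (node 399 (merge (leaf 4 367 367) (leaf 4 399 495))))) (node 499 (merge (leaf 0 463 498) (node 467 (merge (leaf 0 464 500) (node 435 (merge (leaf 2 431 434) (leaf 2 432 436)))))))))))))))) (node 463 (merge (node 432 (merge (node 434 (merge (leaf 1 431 435) (node 431 (merge (leaf 7 399 399) (leaf 1 430 462))))) (merge (node 527 (merge (leaf 5 431 559) (node 400 (merge (leaf 5 399 495) (node 367 (merge (leaf 7 367 399) (node 368 (merge (leaf 7 335 335) (node 465 (merge (leaf 4 336 336) (leaf 4 368 497))))))))))) (node 434 (merge (leaf 1 431 435) (node 462 (merge (leaf 1 430 431) (leaf 2 430 465)))))))) (merge (node 462 (merge (node 461 (merge (leaf 2 429 432) (leaf 0 461 497))) (merge (node 465 (merge (leaf 2 430 434) (node 498 (merge (leaf 0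 462 497) (node 466 (merge (leaf 0 463 499) (node 494 (merge (leaf 1 461 493) (leaf 1 462 495))))))))) (node 465 (merge (leaf 2 430 434) (node 493 (merge (leaf 1 461 494) (node 461 (merge (leaf 1 460 492) (node 460 (merge (leaf 0 460 495) (node 428 (merge (leaf 3 427 427) (leaf 3 428 429)))))))))))))) (merge (node 434 (merge (node 432 (merge (leaf 1 431 435) (node 431 (merge (leaf 7 399 399) (leaf 1 430 462))))) (merge (node 435 (merge (leaf 1 431 432) (node 465 (merge (leaf 1 432 436) (leaf 2 431 466))))) (node 462 (merge (leaf 2 430 465) (node 461 (merge (leaf 0 461 497) (node 492 (merge (leaf 1 460 493) (node 460 (merge (leaf 1 459 491) (node 428 (merge (leaf 3 427 427) (leaf 3 428 429)))))))))))))) (merge (node 462 (merge (node 461 (merge (leaf 0 461 497) (node 460 (merge (leaf 0 460 495) (node 492 (merge (leaf 1 459 491) (leaf 1 460 493))))))) (merge (node 465 (merge (leaf 2 430 434) (node 494 (merge (leaf 1 461 493) (node 430 (merge (leaf 3 429 429) (node 431 (merge (leaf 3 430 466) (node 399 (merge (leaf 4 367 367) (leaf 6 398 526))))))))))) (merge (node 465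 (merge (leaf 2 430 434) (node 493 (merge (leaf 1 461 494) (node 461 (merge (leaf 1 460 492) (node 495 (merge (leaf 0 460 460) (node 466 (merge (leaf 1 463 467) (node 431 (merge (leaf 4 399 399) (leaf 3 430 430))))))))))))) (node 461 (merge (leaf 0 461 497) (node 495 (merge (leaf 0 460 460) (node 429 (merge (leaf 3 428 428) (node 465 (merge (leaf 3 429 430) (node 466 (merge (leaf 1 463 467) (leaf 1 462 494))))))))))))))) (merge (node 432 (merge (node 434 (merge (leaf 1 431 435) (node 431 (merge (leaf 7 399 399) (leaf 1 430 462))))) (merge (node 434 (merge (leaf 1 431 435) (node 462 (merge (leaf 1 430 431) (leaf 2 430 465))))) (merge (node 434 (merge (leaf 1 431 435) (node 462 (merge (leaf 2 429 461) (leaf 2 430 465))))) (merge (node 434 (merge (leaf 1 431 435) (node 527 (merge (leaf 5 431 559) (node 495 (merge (leaf 5 399 400) (node 431 (merge (leaf 4 399 399) (node 466 (merge (leaf 0 431 467) (node 430 (merge (leaf 7 398 398) (leaf 0 430 465))))))))))))) (node 527 (merge (leaf 5 431 559) (node 495 (merge (leaf 5 399 400) (node 431 (merge (leaf 4 399 399) (node 430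 (merge (leaf 7 398 398) (node 429 (merge (leaf 0 428 428) (leaf 0 429 465)))))))))))))))) (merge (node 431 (merge (node 399 (merge (leaf 4 367 367) (leaf 7 399 432))) (merge (node 399 (merge (leaf 4 367 367) (leaf 4 399 495))) (node 432 (merge (node 434 (merge (leaf 1 430 462) (node 467 (merge (leaf 0 431 466) (node 435 (merge (leaf 1 431 464) (leaf 0 432 468))))))) (node 527 (merge (leaf 5 431 559) (node 495 (merge (leaf 5 399 400) (node 526 (merge (leaf 5 430 558) (node 525 (merge (leaf 2 493 497) (leaf 2 492 524)))))))))))))) (merge (node 431 (merge (node 399 (merge (leaf 4 367 367) (leaf 7 399 432))) (merge (node 399 (merge (leaf 4 367 367) (leaf 4 399 495))) (node 432 (merge (node 527 (merge (leaf 5 431 559) (node 495 (merge (leaf 5 399 400) (node 526 (merge (leaf 5 430 558) (node 525 (merge (leaf 2 493 497) (leaf 2 492 524))))))))) (merge (node 434 (merge (leaf 1 431 435) (node 466 (merge (leaf 0 431 467) (node 465 (merge (leaf 0 430 430) (node 402 (merge (leaf 2 399 403) (node 370 (merge (leaf 5 337 338) (leaf 5 369 497))))))))))) (node 434 (merge (leaf 1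 431 435) (node 466 (merge (leaf 0 431 467) (node 430 (merge (leaf 0 430 465) (node 527 (merge (leaf 5 431 559) (node 495 (merge (leaf 7 398 398) (leaf 5 399 400))))))))))))))))) (node 465 (merge (node 466 (merge (node 431 (merge (leaf 3 430 430) (node 399 (merge (leaf 4 367 367) (leaf 7 399 432))))) (node 495 (merge (leaf 1 463 467) (node 494 (merge (leaf 2 461 493) (leaf 2 462 497))))))) (merge (node 462 (merge (node 497 (merge (leaf 0 461 461) (leaf 0 462 498))) (merge (node 497 (merge (leaf 0 461 461) (leaf 0 462 498))) (node 494 (merge (leaf 1 461 493) (node 495 (merge (leaf 1 462 466) (node 430 (merge (leaf 3 429 429) (node 527 (merge (leaf 4 398 398) (leaf 7 430 559)))))))))))) (merge (node 498 (merge (node 497 (merge (leaf 0 462 462) (leaf 3 463 499))) (merge (node 466 (merge (leaf 0 463 499) (node 431 (merge (leaf 3 430 430) (node 399 (merge (leaf 4 367 367) (leaf 7 399 432))))))) (node 462 (merge (leaf 0 462 497) (node 430 (merge (leaf 3 429 429) (node 466 (merge (leaf 3 430 431) (node 467 (merge (leaf 1 463 495) (node 436 (merge (leaf 2 432 435) (node 468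 (merge (leaf 3 432 432) (leaf 2 433 437)))))))))))))))) (merge (node 498 (merge (node 497 (merge (leaf 0 462 462) (leaf 3 463 499))) (merge (node 466 (merge (leaf 0 463 499) (node 431 (merge (leaf 3 430 430) (node 399 (merge (leaf 4 367 367) (leaf 7 399 432))))))) (node 462 (merge (leaf 0 462 497) (node 493 (merge (leaf 1 461 494) (node 461 (merge (leaf 2 429 432) (leaf 1 460 492)))))))))) (merge (node 498 (merge (node 497 (merge (leaf 0 462 462) (leaf 3 463 499))) (merge (node 462 (merge (leaf 0 462 497) (node 493 (merge (leaf 1 461 494) (node 461 (merge (leaf 2 429 432) (leaf 1 460 492))))))) (node 466 (merge (leaf 0 463 499) (node 467 (merge (leaf 1 463 495) (node 436 (merge (leaf 2 432 435) (node 468 (merge (leaf 3 432 432) (leaf 2 433 437)))))))))))) (merge (node 462 (merge (node 493 (merge (leaf 1 461 494) (node 461 (merge (leaf 1 460 492) (node 429 (merge (leaf 3 428 428) (leaf 3 429 430))))))) (merge (node 494 (merge (leaf 1 461 493) (node 495 (merge (leaf 1 462 466) (node 430 (merge (leaf 3 429 429) (node 527 (merge (leaf 4 398 398) (leaf 7 430 559)))))))))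 (merge (node 494 (merge (leaf 1 461 493) (node 495 (merge (leaf 1 462 466) (node 461 (merge (leaf 0 460 460) (node 432 (merge (leaf 2 429 433) (node 527 (merge (leaf 5 399 400) (leaf 5 431 559))))))))))) (merge (node 429 (merge (leaf 3 429 430) (node 461 (merge (leaf 3 428 428) (node 460 (merge (leaf 0 460 495) (node 492 (merge (leaf 1 459 491) (leaf 1 460 493))))))))) (node 429 (merge (leaf 3 429 430) (node 461 (merge (leaf 3 428 428) (node 495 (merge (leaf 0 460 460) (node 466 (merge (leaf 1 463 467) (leaf 1 462 494)))))))))))))) (node 432 (merge (node 527 (merge (leaf 5 431 559) (node 400 (merge (leaf 5 399 495) (node 368 (merge (leaf 4 336 336) (leaf 4 368 497))))))) (merge (node 462 (merge (leaf 2 429 461) (node 497 (merge (leaf 0 462 498) (node 494 (merge (leaf 1 461 493) (node 527 (merge (leaf 5 431 559) (node 526 (merge (leaf 2 493 525) (node 431 (merge (leaf 7 399 399) (leaf 6 430 558))))))))))))) (merge (node 462 (merge (leaf 2 429 461) (node 430 (merge (leaf 3 429 429) (node 431 (merge (leaf 7 399 399) (node 398 (merge (leaf 3 397 397) (node 366 (merge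 (leaf 4 334 334) (leaf 4 366 495))))))))))) (node 527 (merge (leaf 5 431 559) (node 400 (merge (leaf 5 399 495) (node 368 (merge (leaf 4 336 336) (node 367 (merge (leaf 7 335 335) (leaf 7 367 399)))))))))))))))))))))))))))))))) nJ_11 cJ_11 11 (by decide +kernel)
def nJ_12 : ℕ := 0x1000000010000000000000000000000000000000000000000000000000000000000000000000000000000000000000000000000000000000000000000000000000000
def cJ_12 : ℕ := 0x30000000300000003e000000ee000003ef000001fe000001fe000000f8000000f80000003800000028000000000000000000000000000000000000000000000000000000000000000000000000000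
theorem lJ_12 : S nJ_12 cJ_12 13 := S_of_chk [] trivial (node 464 (merge (node 432 (merge (node 401 (merge (leaf 6 400 433) (node 400 (merge (leaf 6 368 369) (node 399 (merge (leaf 7 367 367) (leaf 7 399 431))))))) (merge (node 561 (merge (leaf 4 432 529) (node 560 (merge (leaf 4 464 593) (node 431 (merge (leaf 7 399 399) (leaf 7 431 463))))))) (node 561 (merge (leaf 4 432 529) (node 433 (merge (leaf 6 400 401) (node 560 (merge (leaf 6 432 465) (leaf 4 464 593)))))))))) (merge (node 433 (merge (node 465 (merge (leaf 6 432 560) (node 401 (merge (leaf 5 368 369) (leaf 5 400 497))))) (merge (node 432 (merge (leaf 6 400 401) (node 529 (merge (leaf 4 432 561) (node 527 (merge (leaf 5 431 559) (node 495 (merge (leaf 5 399 400) (node 530 (merge (leaf 3 494 494) (leaf 3 495 531))))))))))) (node 560 (merge (leaf 6 432 465) (node 561 (merge (leaf 4 464 593) (node 432 (merge (leaf 4 432 529) (node 527 (merge (leaf 5 431 559) (node 495 (merge (leaf 5 399 400) (node 592 (merge (leaf 7 463 463) (leaf 7 495 624)))))))))))))))) (merge (node 433 (merge (node 465 (merge (leaf 6 432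 560) (node 401 (merge (leaf 5 368 369) (leaf 5 400 497))))) (merge (node 432 (merge (leaf 6 400 401) (node 527 (merge (leaf 5 431 559) (node 400 (merge (leaf 5 399 495) (node 399 (merge (leaf 7 367 367) (leaf 7 399 431))))))))) (node 560 (merge (leaf 6 432 465) (node 561 (merge (leaf 4 464 593) (node 432 (merge (leaf 4 432 529) (node 527 (merge (leaf 5 431 559) (node 400 (merge (leaf 5 399 495) (node 399 (merge (leaf 7 367 367) (leaf 7 399 431)))))))))))))))) (merge (node 432 (merge (node 561 (merge (leaf 4 432 529) (node 560 (merge (leaf 4 464 593) (node 431 (merge (leaf 7 399 399) (leaf 7 431 463))))))) (merge (node 527 (merge (leaf 5 431 559) (node 400 (merge (leaf 5 399 495) (node 369 (merge (leaf 6 368 401) (node 368 (merge (leaf 6 336 337) (node 367 (merge (leaf 7 335 335) (leaf 7 367 399))))))))))) (node 529 (merge (leaf 4 432 561) (node 400 (merge (leaf 4 400 497) (node 495 (merge (leaf 5 399 527) (node 463 (merge (leaf 5 367 368) (node 560 (merge (leaf 7 431 431) (leaf 7 463 592)))))))))))))) (merge (node 431 (merge (node 432 (merge (leaf 7 399 399) (node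 561 (merge (leaf 4 432 529) (node 560 (merge (leaf 7 431 463) (leaf 4 464 593))))))) (merge (node 560 (merge (leaf 7 431 463) (node 593 (merge (leaf 4 464 561) (node 465 (merge (leaf 6 432 433) (node 592 (merge (leaf 6 464 497) (leaf 4 496 625))))))))) (node 432 (merge (leaf 7 399 399) (node 527 (merge (leaf 5 431 559) (node 400 (merge (leaf 5 399 495) (node 497 (merge (leaf 4 400 529) (node 368 (merge (leaf 4 368 465) (node 337 (merge (leaf 6 336 369) (node 336 (merge (leaf 6 304 305) (node 335 (merge (leaf 7 303 303) (leaf 7 335 367)))))))))))))))))))) (merge (node 431 (merge (node 399 (merge (leaf 7 399 432) (node 463 (merge (leaf 4 367 367) (leaf 4 399 495))))) (merge (node 432 (merge (leaf 7 399 399) (node 433 (merge (leaf 6 400 401) (node 465 (merge (leaf 6 432 560) (node 466 (merge (leaf 0 430 430) (leaf 3 431 467))))))))) (node 560 (merge (leaf 7 431 463) (node 593 (merge (leaf 4 464 561) (node 465 (merge (leaf 6 432 433) (node 592 (merge (leaf 6 464 497) (leaf 4 496 625)))))))))))) (merge (node 465 (merge (node 433 (merge (leaf 6 432 560) (node 401 (merge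 (leaf 5 368 369) (leaf 5 400 497))))) (merge (node 560 (merge (leaf 6 432 433) (node 463 (merge (leaf 7 431 431) (node 495 (merge (leaf 7 463 592) (node 494 (merge (leaf 1 462 466) (leaf 2 461 493))))))))) (merge (node 431 (merge (node 399 (merge (leaf 7 399 432) (node 463 (merge (leaf 4 367 367) (leaf 7 431 560))))) (merge (node 463 (merge (leaf 7 431 560) (node 399 (merge (leaf 4 367 367) (leaf 4 399 495))))) (merge (node 463 (merge (leaf 7 431 560) (node 466 (merge (leaf 3 430 430) (node 467 (merge (leaf 3 431 432) (leaf 1 463 495))))))) (node 432 (merge (leaf 7 399 399) (node 527 (merge (leaf 5 431 559) (node 400 (merge (leaf 5 399 495) (node 497 (merge (leaf 4 368 368) (leaf 4 400 529))))))))))))) (node 431 (merge (node 432 (merge (leaf 7 399 399) (node 430 (merge (leaf 0 429 429) (node 433 (merge (leaf 6 400 401) (leaf 0 430 466))))))) (merge (node 399 (merge (leaf 7 399 432) (node 463 (merge (leaf 4 367 367) (leaf 4 399 495))))) (merge (node 432 (merge (node 430 (merge (leaf 0 429 429) (node 433 (merge (leaf 6 400 401) (leaf 0 430 466))))) (merge (node 527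 (merge (leaf 5 431 559) (node 400 (merge (leaf 5 399 495) (node 368 (merge (leaf 4 368 497) (node 336 (merge (leaf 4 336 433) (leaf 5 335 463))))))))) (node 527 (merge (leaf 5 431 559) (node 400 (merge (leaf 5 399 495) (node 368 (merge (leaf 4 368 497) (node 336 (merge (leaf 5 335 463) (node 335 (merge (leaf 7 303 303) (leaf 7 335 367)))))))))))))) (merge (node 399 (merge (leaf 7 399 432) (node 463 (merge (leaf 4 367 367) (leaf 4 399 495))))) (node 463 (merge (node 399 (merge (leaf 4 367 367) (leaf 4 399 495))) (merge (node 466 (merge (leaf 3 430 430) (node 494 (merge (leaf 1 462 495) (node 462 (merge (leaf 1 461 493) (node 434 (merge (leaf 2 430 433) (leaf 2 431 435))))))))) (node 466 (merge (leaf 3 430 430) (node 434 (merge (leaf 2 431 435) (node 462 (merge (leaf 2 430 433) (node 497 (merge (leaf 0 461 461) (leaf 0 462 498))))))))))))))))))))) (merge (node 497 (merge (node 432 (merge (node 529 (merge (leaf 4 400 400) (leaf 4 432 561))) (merge (node 401 (merge (leaf 6 400 433) (node 400 (merge (leaf 6 368 369) (node 527 (merge (leaf 5 399 495) (leaf 5 431 559)))))))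 (node 529 (merge (leaf 4 432 561) (node 527 (merge (leaf 5 431 559) (node 498 (merge (leaf 1 495 499) (leaf 2 494 526)))))))))) (merge (node 432 (merge (node 529 (merge (leaf 4 400 400) (leaf 4 432 561))) (node 527 (merge (leaf 5 431 559) (node 498 (merge (leaf 1 495 499) (node 526 (merge (leaf 1 494 495) (leaf 2 493 525))))))))) (merge (node 498 (merge (node 463 (merge (leaf 3 463 499) (node 462 (merge (leaf 0 461 461) (leaf 0 462 465))))) (merge (node 527 (merge (leaf 1 495 499) (node 526 (merge (leaf 1 494 495) (leaf 2 493 525))))) (node 527 (merge (node 526 (merge (leaf 1 494 495) (leaf 2 493 525))) (node 432 (merge (leaf 5 431 559) (node 399 (merge (leaf 7 399 431) (node 400 (merge (leaf 7 367 367) (node 368 (merge (leaf 4 368 465) (node 369 (merge (leaf 6 336 337) (leaf 6 368 401)))))))))))))))) (merge (node 463 (merge (node 462 (merge (leaf 0 461 461) (node 498 (merge (leaf 0 462 465) (leaf 3 463 499))))) (merge (node 432 (merge (node 433 (merge (leaf 6 400 401) (node 434 (merge (leaf 1 431 435) (node 431 (merge (leaf 7 399 399) (leaf 1 430 462))))))) (merge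 (node 529 (merge (leaf 4 432 561) (node 400 (merge (leaf 4 400 497) (node 401 (merge (leaf 6 368 369) (leaf 6 400 433))))))) (node 529 (merge (leaf 4 432 561) (node 400 (merge (leaf 4 400 497) (node 399 (merge (leaf 7 367 367) (leaf 7 399 431)))))))))) (node 432 (merge (node 529 (merge (leaf 4 432 561) (node 400 (merge (leaf 4 400 497) (node 401 (merge (leaf 6 368 369) (leaf 6 400 433))))))) (merge (node 529 (merge (leaf 4 432 561) (node 400 (merge (leaf 4 400 497) (node 399 (merge (leaf 7 367 367) (leaf 7 399 431))))))) (merge (node 401 (merge (leaf 6 400 433) (node 400 (merge (leaf 6 368 369) (node 399 (merge (leaf 7 367 367) (leaf 7 399 431))))))) (node 529 (merge (leaf 4 432 561) (node 433 (merge (leaf 6 400 401) (node 434 (merge (leaf 1 431 435) (node 431 (merge (leaf 7 399 399) (node 466 (merge (leaf 0 431 467) (node 465 (merge (leaf 0 430 430) (node 402 (merge (leaf 2 399 403) (leaf 6 401 497)))))))))))))))))))))) (merge (node 498 (merge (node 499 (merge (leaf 3 463 463) (leaf 1 495 527))) (merge (node 499 (merge (leaf 1 495 527) (node 500 (merge (leaf 3 464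 465) (leaf 1 496 529))))) (merge (node 499 (merge (leaf 3 463 463) (node 500 (merge (leaf 3 464 465) (leaf 1 496 529))))) (node 495 (merge (node 462 (merge (leaf 3 462 463) (node 494 (merge (leaf 3 461 461) (node 529 (merge (leaf 0 493 493) (leaf 0 494 530))))))) (merge (node 466 (merge (leaf 2 463 467) (node 494 (merge (leaf 2 462 465) (node 529 (merge (leaf 0 493 493) (leaf 0 494 530))))))) (merge (node 526 (merge (leaf 1 494 527) (node 494 (merge (leaf 1 493 525) (node 466 (merge (leaf 2 462 465) (leaf 2 463 467))))))) (node 466 (merge (leaf 2 463 467) (node 463 (merge (leaf 3 462 462) (node 431 (merge (leaf 4 399 399) (node 465 (merge (leaf 3 430 430) (node 434 (merge (leaf 2 431 435) (node 402 (merge (leaf 5 369 370) (leaf 5 401 529))))))))))))))))))))) (node 432 (merge (node 529 (merge (leaf 4 400 400) (leaf 4 432 561))) (merge (node 529 (merge (leaf 4 400 400) (leaf 4 432 561))) (merge (node 401 (merge (leaf 6 400 433) (node 400 (merge (leaf 6 368 369) (node 399 (merge (leaf 7 367 367) (leaf 7 399 431))))))) (node 529 (merge (leaf 4 432 561) (node 527 (merge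 (leaf 5 431 559) (node 526 (merge (leaf 2 493 525) (node 558 (merge (leaf 1 525 557) (node 494 (merge (leaf 3 493 493) (node 433 (merge (leaf 6 400 401) (node 431 (merge (leaf 7 399 399) (node 462 (merge (leaf 6 430 463) (node 461 (merge (leaf 7 429 429) (leaf 1 429 430))))))))))))))))))))))))))))) (node 465 (merge (node 560 (merge (leaf 6 432 433) (node 593 (merge (leaf 4 464 561) (node 592 (merge (leaf 6 464 497) (leaf 4 496 625))))))) (merge (node 560 (merge (leaf 6 432 433) (node 593 (merge (leaf 4 464 561) (node 592 (merge (leaf 4 496 625) (node 463 (merge (leaf 7 431 431) (leaf 7 463 495))))))))) (merge (node 463 (merge (node 431 (merge (leaf 7 431 560) (node 399 (merge (leaf 4 367 367) (leaf 4 399 495))))) (merge (node 560 (merge (leaf 7 431 431) (node 497 (merge (leaf 6 464 592) (node 498 (merge (leaf 0 462 462) (leaf 3 463 499))))))) (merge (node 498 (merge (node 497 (merge (leaf 0 462 462) (leaf 3 463 499))) (merge (node 466 (merge (leaf 0 463 499) (node 495 (merge (leaf 1 463 467) (leaf 1 462 494))))) (node 462 (merge (leaf 0 462 497) (node 430 (merge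 (leaf 3 429 429) (node 466 (merge (leaf 3 430 431) (node 495 (merge (leaf 1 463 467) (leaf 1 462 494)))))))))))) (node 494 (merge (node 495 (merge (leaf 1 462 466) (leaf 2 461 493))) (merge (node 462 (merge (leaf 1 461 493) (node 497 (merge (leaf 0 461 461) (leaf 0 462 498))))) (node 466 (merge (leaf 1 462 495) (node 498 (merge (leaf 0 463 499) (node 497 (merge (leaf 0 462 462) (node 434 (merge (leaf 2 431 435) (node 529 (merge (leaf 5 401 402) (leaf 6 433 561)))))))))))))))))) (node 466 (merge (node 495 (merge (leaf 1 463 467) (node 494 (merge (leaf 1 462 463) (leaf 2 461 493))))) (merge (node 467 (merge (leaf 1 463 495) (node 500 (merge (leaf 0 464 499) (node 468 (merge (leaf 1 464 497) (leaf 0 465 501))))))) (merge (node 463 (merge (node 431 (merge (leaf 3 430 430) (node 399 (merge (leaf 4 367 367) (leaf 4 399 495))))) (merge (node 434 (merge (leaf 2 431 435) (node 462 (merge (leaf 2 430 433) (node 494 (merge (leaf 1 461 493) (leaf 1 462 495))))))) (node 434 (merge (leaf 2 431 435) (node 462 (merge (leaf 2 430 433) (node 461 (merge (leaf 0 461 497) (node 493 (merge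 (leaf 1 460 492) (leaf 1 461 494)))))))))))) (node 499 (merge (node 463 (merge (leaf 0 463 498) (node 467 (merge (leaf 0 464 500) (node 435 (merge (leaf 2 431 434) (leaf 2 432 436))))))) (merge (node 463 (merge (leaf 0 463 498) (node 434 (merge (leaf 2 431 435) (node 462 (merge (leaf 2 430 433) (node 461 (merge (leaf 0 461 497) (node 493 (merge (leaf 1 460 492) (leaf 1 461 494))))))))))) (merge (node 467 (merge (leaf 0 464 500) (node 497 (merge (leaf 1 464 468) (node 435 (merge (leaf 2 432 436) (node 463 (merge (leaf 2 431 434) (node 462 (merge (leaf 0 461 461) (node 430 (merge (leaf 3 429 429) (leaf 3 430 431))))))))))))) (merge (node 467 (merge (leaf 0 464 500) (node 497 (merge (leaf 1 464 468) (node 498 (merge (leaf 1 495 527) (node 435 (merge (leaf 2 432 436) (node 403 (merge (leaf 5 370 371) (leaf 5 402 530))))))))))) (node 498 (merge (leaf 0 463 463) (node 500 (merge (leaf 0 464 467) (leaf 3 464 497))))))))))))))))))))))))))) nJ_12 cJ_12 13 (by decide +kernel)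
def nJ_13 : ℕ := 0x1000000010000000000000000000000000000000000000000000000000000000000000000000000000000000000000000000000000000000000000000000000000000
def cJ_13 : ℕ := 0xc0000002e0000003f000003ef800001ef800001ff800000ff0000007c000000280000000000000000000000000000000000000000000000000000000000000000000000000000000000000000000
theorem lJ_13 : S nJ_13 cJ_13 14 := S_of_chk [] trivial (node 495 (merge (node 494 (merge (node 529 (merge (leaf 0 493 493) (node 530 (merge (leaf 0 494 497) (leaf 3 495 531))))) (merge (node 493 (merge (leaf 0 493 529) (node 492 (merge (leaf 0 492 527) (node 464 (merge (leaf 2 460 463) (leaf 2 461 465))))))) (merge (node 493 (merge (node 492 (merge (leaf 0 492 527) (node 464 (merge (leaf 2 460 463) (leaf 2 461 465))))) (merge (node 465 (merge (leaf 2 461 464) (node 497 (merge (leaf 2 462 466) (node 461 (merge (leaf 3 460 460) (leaf 3 461 462))))))) (node 527 (merge (leaf 0 492 492) (node 461 (merge (leaf 3 460 460) (node 497 (merge (leaf 3 461 462) (node 498 (merge (leaf 1 495 499) (leaf 1 494 526)))))))))))) (node 497 (merge (node 465 (merge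 (leaf 2 462 466) (node 433 (merge (leaf 5 400 401) (node 560 (merge (leaf 6 432 464) (leaf 5 432 529))))))) (node 462 (merge (leaf 3 461 461) (node 498 (merge (leaf 3 462 463) (node 531 (merge (leaf 0 495 530) (node 499 (merge (leaf 1 495 527) (leaf 0 496 532))))))))))))))) (merge (node 494 (merge (node 529 (merge (leaf 0 493 493) (node 530 (merge (leaf 0 494 497) (leaf 3 495 531))))) (merge (node 493 (merge (leaf 0 493 529) (node 524 (merge (leaf 1 492 525) (node 492 (merge (leaf 1 491 523) (node 460 (merge (leaf 3 459 459) (leaf 3 460 461))))))))) (merge (node 461 (merge (node 462 (merge (leaf 3 461 497) (node 460 (merge (leaf 0 459 459) (leaf 0 460 463))))) (merge (node 493 (merge (leaf 3 460 460) (node 464 (merge (leaf 2 461 465) (node 492 (merge (leaf 2 460 463) (node 524 (merge (leaf 1 491 523) (leaf 1 492 525))))))))) (node 497 (merge (leaf 3 461 462) (node 525 (merge (leaf 1 493 526) (node 493 (merge (leaf 1 492 524) (node 465 (merge (leaf 2 461 464) (leaf 2 462 466)))))))))))) (node 497 (merge (node 465 (merge (leaf 2 462 466) (node 433 (merge (leaf 5 400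 401) (node 560 (merge (leaf 6 432 464) (leaf 5 432 529))))))) (merge (node 530 (merge (leaf 0 494 529) (node 498 (merge (leaf 0 495 531) (node 462 (merge (leaf 3 461 461) (leaf 3 462 463))))))) (node 466 (merge (leaf 2 462 465) (node 498 (merge (leaf 2 463 467) (node 462 (merge (leaf 3 461 461) (leaf 3 462 463)))))))))))))) (merge (node 494 (merge (node 529 (merge (leaf 0 493 493) (node 530 (merge (leaf 0 494 497) (leaf 3 495 531))))) (merge (node 493 (merge (leaf 0 493 529) (node 492 (merge (leaf 0 492 527) (node 524 (merge (leaf 1 491 523) (leaf 1 492 525))))))) (merge (node 461 (merge (node 462 (merge (leaf 3 461 497) (node 460 (merge (leaf 0 459 459) (leaf 0 460 463))))) (merge (node 493 (merge (leaf 3 460 460) (node 492 (merge (leaf 0 492 527) (node 524 (merge (leaf 1 491 523) (leaf 1 492 525))))))) (node 497 (merge (leaf 3 461 462) (node 526 (merge (leaf 1 493 525) (node 498 (merge (leaf 1 494 527) (node 531 (merge (leaf 0 495 530) (node 499 (merge (leaf 0 496 532) (node 467 (merge (leaf 2 463 466) (leaf 2 464 468)))))))))))))))) (node 497 (merge (node 466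 (merge (leaf 2 462 465) (node 498 (merge (leaf 2 463 467) (node 462 (merge (leaf 3 461 461) (leaf 3 462 463))))))) (merge (node 529 (merge (leaf 0 494 530) (node 465 (merge (leaf 2 462 466) (node 433 (merge (leaf 5 400 401) (leaf 5 432 560))))))) (merge (node 530 (merge (leaf 0 494 529) (node 498 (merge (leaf 0 495 531) (node 526 (merge (leaf 1 493 525) (leaf 1 494 527))))))) (node 462 (merge (leaf 3 461 461) (node 498 (merge (leaf 3 462 463) (node 531 (merge (leaf 0 495 530) (node 499 (merge (leaf 1 495 527) (leaf 0 496 532))))))))))))))))) (merge (node 494 (merge (node 529 (merge (leaf 0 493 493) (node 530 (merge (leaf 0 494 497) (leaf 3 495 531))))) (merge (node 493 (merge (leaf 0 493 529) (node 492 (merge (leaf 0 492 527) (node 524 (merge (leaf 1 491 523) (leaf 1 492 525))))))) (merge (node 461 (merge (node 493 (merge (leaf 3 460 460) (node 492 (merge (leaf 0 492 527) (node 524 (merge (leaf 1 491 523) (leaf 1 492 525))))))) (merge (node 493 (merge (leaf 3 460 460) (node 465 (merge (leaf 2 461 464) (node 497 (merge (leaf 3 461 462) (leaf 2 462 466))))))) (node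 497 (merge (leaf 3 461 462) (node 526 (merge (leaf 1 493 525) (node 498 (merge (leaf 1 494 527) (node 531 (merge (leaf 0 495 530) (node 499 (merge (leaf 0 496 532) (node 467 (merge (leaf 2 463 466) (leaf 2 464 468)))))))))))))))) (node 497 (merge (node 465 (merge (leaf 2 462 466) (node 433 (merge (leaf 5 400 401) (node 560 (merge (leaf 6 432 464) (leaf 5 432 529))))))) (merge (node 530 (merge (leaf 0 494 529) (node 498 (merge (leaf 0 495 531) (node 526 (merge (leaf 1 493 525) (leaf 1 494 527))))))) (node 526 (merge (leaf 1 493 525) (node 498 (merge (leaf 1 494 527) (node 531 (merge (leaf 0 495 530) (node 499 (merge (leaf 0 496 532) (node 467 (merge (leaf 2 463 466) (leaf 2 464 468)))))))))))))))))) (merge (node 529 (merge (node 494 (merge (leaf 0 493 493) (node 530 (merge (leaf 0 494 497) (leaf 3 495 531))))) (merge (node 530 (merge (leaf 3 495 531) (node 527 (merge (leaf 3 494 494) (node 559 (merge (leaf 1 526 558) (node 591 (merge (leaf 6 463 464) (leaf 6 495 623))))))))) (merge (node 527 (merge (node 530 (merge (leaf 3 495 531) (node 559 (merge (leaf 1 526 558)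 (node 591 (merge (leaf 6 463 464) (leaf 6 495 623))))))) (merge (node 530 (merge (leaf 3 495 531) (node 498 (merge (leaf 2 495 499) (node 497 (merge (leaf 1 494 526) (node 463 (merge (leaf 3 462 462) (node 431 (merge (leaf 4 399 399) (leaf 4 431 560))))))))))) (node 526 (merge (node 525 (merge (leaf 2 493 497) (leaf 2 492 524))) (merge (node 558 (merge (leaf 1 525 557) (node 463 (merge (leaf 5 430 431) (node 590 (merge (leaf 5 462 559) (leaf 6 494 622))))))) (node 558 (merge (leaf 1 525 557) (node 463 (merge (leaf 5 430 431) (node 590 (merge (leaf 5 462 559) (leaf 6 494 622))))))))))))) (node 497 (merge (node 494 (merge (leaf 0 493 493) (node 462 (merge (leaf 3 461 461) (node 498 (merge (leaf 3 462 463) (node 499 (merge (leaf 1 496 500) (leaf 1 495 527))))))))) (merge (node 494 (merge (leaf 0 493 493) (node 526 (merge (leaf 1 493 525) (node 527 (merge (leaf 1 494 498) (node 558 (merge (leaf 1 525 557) (node 590 (merge (leaf 6 462 463) (leaf 6 494 622))))))))))) (merge (node 527 (merge (node 498 (merge (leaf 1 495 499) (leaf 1 494 526))) (merge (node 498 (merge (leaf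 1 495 499) (node 463 (merge (leaf 3 462 462) (node 431 (merge (leaf 4 399 399) (leaf 4 431 560))))))) (node 526 (merge (leaf 2 493 525) (node 558 (merge (leaf 1 525 557) (node 463 (merge (leaf 5 430 431) (node 590 (merge (leaf 5 462 559) (leaf 6 494 622)))))))))))) (merge (node 463 (merge (node 431 (merge (leaf 4 399 399) (node 560 (merge (leaf 7 431 464) (leaf 4 431 527))))) (merge (node 494 (merge (leaf 0 493 493) (node 526 (merge (leaf 1 493 525) (node 462 (merge (leaf 3 461 461) (node 558 (merge (leaf 6 430 431) (leaf 6 462 590))))))))) (node 494 (merge (leaf 0 493 493) (node 526 (merge (leaf 1 493 525) (node 462 (merge (leaf 3 461 461) (node 558 (merge (leaf 6 462 590) (node 557 (merge (leaf 1 525 527) (leaf 5 461 589)))))))))))))) (merge (node 494 (merge (leaf 0 493 493) (node 526 (merge (leaf 1 493 525) (node 462 (merge (leaf 3 461 461) (node 463 (merge (leaf 3 462 498) (node 431 (merge (leaf 4 399 399) (leaf 6 430 558))))))))))) (node 494 (merge (leaf 0 493 493) (node 526 (merge (leaf 1 493 525) (node 527 (merge (leaf 1 494 498) (node 462 (merge (leaf 3 461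 461) (node 430 (merge (leaf 4 398 398) (leaf 4 430 559))))))))))))))))))))) (merge (node 494 (merge (node 493 (merge (leaf 0 493 529) (node 492 (merge (leaf 0 492 527) (node 524 (merge (leaf 1 491 523) (leaf 1 492 525))))))) (merge (node 493 (merge (leaf 0 493 529) (node 465 (merge (leaf 2 461 464) (node 497 (merge (leaf 2 462 466) (node 461 (merge (leaf 3 460 460) (leaf 3 461 462))))))))) (merge (node 493 (merge (node 492 (merge (leaf 0 492 527) (node 464 (merge (leaf 2 460 463) (leaf 2 461 465))))) (merge (node 492 (merge (leaf 0 492 527) (node 524 (merge (leaf 1 491 523) (leaf 1 492 525))))) (node 465 (merge (leaf 2 461 464) (node 497 (merge (leaf 2 462 466) (node 461 (merge (leaf 3 460 460) (leaf 3 461 462)))))))))) (node 497 (merge (node 465 (merge (leaf 2 462 466) (node 433 (merge (leaf 5 400 401) (node 560 (merge (leaf 6 432 464) (leaf 5 432 529))))))) (merge (node 466 (merge (leaf 2 462 465) (node 498 (merge (leaf 2 463 467) (node 462 (merge (leaf 3 461 461) (leaf 3 462 463))))))) (node 462 (merge (leaf 3 461 461) (node 498 (merge (leaf 3 462 463) (node 499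 (merge (leaf 1 495 527) (node 532 (merge (leaf 0 496 531) (node 500 (merge (leaf 1 496 529) (leaf 0 497 533)))))))))))))))))) (merge (node 494 (merge (node 529 (merge (leaf 0 493 493) (node 530 (merge (leaf 0 494 497) (leaf 3 495 531))))) (merge (node 493 (merge (leaf 0 493 529) (node 492 (merge (leaf 0 492 527) (node 524 (merge (leaf 1 491 523) (leaf 1 492 525))))))) (merge (node 493 (merge (node 492 (merge (leaf 0 492 527) (node 464 (merge (leaf 2 460 463) (leaf 2 461 465))))) (merge (node 492 (merge (leaf 0 492 527) (node 524 (merge (leaf 1 491 523) (leaf 1 492 525))))) (node 525 (merge (leaf 1 492 524) (node 497 (merge (leaf 1 493 526) (node 465 (merge (leaf 2 461 464) (leaf 2 462 466)))))))))) (node 497 (merge (node 465 (merge (leaf 2 462 466) (node 433 (merge (leaf 5 400 401) (node 560 (merge (leaf 6 432 464) (leaf 5 432 529))))))) (merge (node 530 (merge (leaf 0 494 529) (node 498 (merge (leaf 0 495 531) (node 526 (merge (leaf 1 493 525) (leaf 1 494 527))))))) (node 526 (merge (leaf 1 493 525) (node 498 (merge (leaf 1 494 527) (node 466 (merge (leaf 2 462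 465) (leaf 2 463 467)))))))))))))) (merge (node 494 (merge (node 529 (merge (leaf 0 493 493) (node 530 (merge (leaf 0 494 497) (leaf 3 495 531))))) (merge (node 493 (merge (leaf 0 493 529) (node 492 (merge (leaf 0 492 527) (node 524 (merge (leaf 1 491 523) (leaf 1 492 525))))))) (merge (node 497 (merge (node 465 (merge (leaf 2 462 466) (node 433 (merge (leaf 5 400 401) (node 560 (merge (leaf 6 432 464) (leaf 5 432 529))))))) (merge (node 530 (merge (leaf 0 494 529) (node 498 (merge (leaf 0 495 531) (node 526 (merge (leaf 1 493 525) (leaf 1 494 527))))))) (merge (node 526 (merge (leaf 1 493 525) (node 498 (merge (leaf 1 494 527) (node 467 (merge (leaf 2 463 466) (node 499 (merge (leaf 2 464 468) (node 463 (merge (leaf 3 462 462) (leaf 3 463 464))))))))))) (node 526 (merge (leaf 1 493 525) (node 498 (merge (leaf 1 494 527) (node 463 (merge (leaf 3 462 462) (node 499 (merge (leaf 3 463 464) (node 532 (merge (leaf 0 496 531) (node 500 (merge (leaf 1 496 529) (leaf 0 497 533))))))))))))))))) (node 493 (merge (node 492 (merge (leaf 0 492 527) (node 464 (merge (leaf 2 460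 463) (leaf 2 461 465))))) (merge (node 525 (merge (leaf 1 492 524) (node 497 (merge (leaf 1 493 526) (node 465 (merge (leaf 2 461 464) (leaf 2 462 466))))))) (merge (node 527 (merge (leaf 0 492 492) (node 525 (merge (leaf 1 492 524) (node 497 (merge (leaf 1 493 526) (node 498 (merge (leaf 1 495 499) (node 463 (merge (leaf 3 462 462) (node 431 (merge (leaf 4 399 399) (leaf 4 431 560))))))))))))) (node 492 (merge (leaf 0 492 527) (node 525 (merge (leaf 1 492 524) (node 497 (merge (leaf 1 493 526) (node 463 (merge (leaf 2 460 464) (node 462 (merge (leaf 2 459 491) (leaf 3 462 498))))))))))))))))))) (merge (node 463 (merge (node 431 (merge (leaf 4 399 399) (node 560 (merge (leaf 7 431 464) (leaf 4 431 527))))) (merge (node 497 (merge (node 462 (merge (leaf 3 462 498) (node 461 (merge (leaf 0 460 460) (leaf 0 461 464))))) (merge (node 498 (merge (leaf 3 462 462) (node 466 (merge (leaf 2 463 467) (node 494 (merge (leaf 2 462 465) (node 526 (merge (leaf 1 493 525) (leaf 1 494 527))))))))) (merge (node 498 (merge (node 499 (merge (leaf 3 463 464) (leaf 1 495 527))) (merge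 (node 466 (merge (leaf 2 463 467) (node 494 (merge (leaf 2 462 465) (node 526 (merge (leaf 1 493 525) (leaf 1 494 527))))))) (node 467 (merge (leaf 2 463 466) (node 499 (merge (leaf 3 463 464) (leaf 2 464 468)))))))) (node 494 (merge (node 525 (merge (leaf 1 493 526) (node 493 (merge (leaf 1 492 524) (node 465 (merge (leaf 2 461 464) (leaf 2 462 466))))))) (merge (node 526 (merge (leaf 1 493 525) (node 462 (merge (leaf 3 461 461) (node 558 (merge (leaf 6 462 590) (node 559 (merge (leaf 4 462 591) (node 527 (merge (leaf 4 430 430) (node 557 (merge (leaf 2 524 556) (leaf 5 461 589))))))))))))) (node 465 (merge (leaf 2 462 466) (node 493 (merge (leaf 2 461 464) (node 492 (merge (leaf 0 492 527) (node 462 (merge (leaf 3 461 461) (leaf 2 459 491)))))))))))))))) (merge (node 431 (merge (leaf 4 399 399) (node 527 (merge (leaf 4 431 560) (node 558 (merge (leaf 5 430 526) (node 559 (merge (leaf 5 462 590) (node 430 (merge (leaf 7 398 398) (leaf 7 430 462))))))))))) (node 464 (merge (node 431 (merge (leaf 4 399 399) (leaf 7 431 560))) (merge (node 465 (merge (node 431 (merge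 (leaf 4 399 399) (node 466 (merge (leaf 3 430 430) (leaf 1 463 467))))) (merge (node 494 (merge (leaf 1 462 466) (leaf 2 461 493))) (node 462 (merge (node 433 (merge (leaf 2 430 434) (node 401 (merge (leaf 5 368 369) (leaf 5 400 497))))) (merge (node 461 (merge (leaf 0 460 460) (leaf 0 461 497))) (node 433 (merge (leaf 2 430 434) (node 432 (merge (leaf 6 400 401) (leaf 2 429 461))))))))))) (node 494 (merge (node 493 (merge (leaf 2 461 465) (leaf 2 460 492))) (merge (node 465 (merge (leaf 1 462 466) (node 433 (merge (leaf 6 432 560) (node 462 (merge (leaf 2 430 434) (node 432 (merge (leaf 6 400 401) (leaf 2 429 461))))))))) (node 493 (merge (leaf 2 460 492) (node 525 (merge (leaf 1 492 524) (node 497 (merge (leaf 1 493 526) (node 461 (merge (leaf 3 460 460) (leaf 0 461 462))))))))))))))))))) (merge (node 464 (merge (node 431 (merge (node 463 (merge (leaf 7 431 560) (node 399 (merge (leaf 4 367 367) (leaf 4 399 495))))) (merge (node 399 (merge (leaf 7 399 432) (node 463 (merge (leaf 4 367 367) (leaf 4 399 495))))) (merge (node 560 (merge (leaf 7 431 463) (node 433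 (merge (leaf 6 432 465) (node 432 (merge (leaf 6 400 401) (node 559 (merge (leaf 5 431 527) (leaf 5 463 591))))))))) (node 432 (merge (leaf 7 399 399) (node 433 (merge (leaf 6 400 401) (node 560 (merge (leaf 6 432 465) (node 559 (merge (leaf 5 431 527) (leaf 5 463 591))))))))))))) (merge (node 559 (merge (node 591 (merge (leaf 6 463 527) (leaf 5 463 560))) (merge (node 527 (merge (leaf 5 431 432) (leaf 6 463 591))) (merge (node 560 (merge (leaf 5 463 591) (node 561 (merge (leaf 4 464 593) (node 529 (merge (leaf 4 432 432) (node 558 (merge (leaf 2 526 530) (leaf 2 525 557))))))))) (node 432 (merge (leaf 5 431 527) (node 561 (merge (leaf 4 432 529) (node 560 (merge (leaf 4 464 593) (node 431 (merge (leaf 7 399 399) (leaf 7 431 463))))))))))))) (merge (node 559 (merge (node 527 (merge (leaf 5 431 432) (node 591 (merge (leaf 6 463 495) (leaf 6 495 623))))) (merge (node 591 (merge (leaf 5 463 560) (node 527 (merge (leaf 6 463 495) (leaf 6 495 623))))) (merge (node 432 (merge (leaf 5 431 527) (node 561 (merge (leaf 4 432 529) (node 433 (merge (leaf 6 400 401) (node 560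 (merge (leaf 6 432 465) (leaf 4 464 593))))))))) (node 560 (merge (leaf 5 463 591) (node 561 (merge (leaf 4 464 593) (node 529 (merge (leaf 4 432 432) (node 558 (merge (leaf 2 526 530) (leaf 2 525 557))))))))))))) (merge (node 432 (merge (node 401 (merge (leaf 6 400 433) (node 400 (merge (leaf 6 368 369) (node 399 (merge (leaf 7 367 367) (leaf 7 399 431))))))) (merge (node 561 (merge (leaf 4 432 529) (node 560 (merge (leaf 4 464 593) (node 431 (merge (leaf 7 399 399) (leaf 7 431 463))))))) (node 561 (merge (leaf 4 432 529) (node 433 (merge (leaf 6 400 401) (node 560 (merge (leaf 6 432 465) (leaf 4 464 593)))))))))) (merge (node 432 (merge (node 400 (merge (leaf 5 399 527) (node 399 (merge (leaf 7 367 367) (leaf 7 399 431))))) (merge (node 529 (merge (leaf 4 432 561) (node 527 (merge (leaf 5 431 559) (node 495 (merge (leaf 5 399 400) (node 530 (merge (leaf 3 494 494) (leaf 3 495 531))))))))) (merge (node 529 (merge (leaf 4 432 561) (node 530 (merge (leaf 3 495 531) (node 527 (merge (leaf 3 494 494) (leaf 5 431 559))))))) (node 401 (merge (leaf 6 400 433) (node 400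 (merge (leaf 6 368 369) (node 399 (merge (leaf 7 367 367) (leaf 7 399 431))))))))))) (node 463 (merge (node 431 (merge (leaf 4 399 399) (leaf 7 431 560))) (merge (node 494 (merge (node 493 (merge (leaf 2 460 492) (leaf 0 493 529))) (node 465 (merge (leaf 1 462 466) (node 433 (merge (leaf 6 432 560) (node 462 (merge (leaf 2 430 434) (node 430 (merge (leaf 3 429 429) (node 527 (merge (leaf 4 398 398) (leaf 7 430 559))))))))))))) (node 431 (merge (leaf 4 399 399) (node 527 (merge (node 559 (merge (leaf 6 463 591) (node 430 (merge (leaf 7 398 398) (leaf 7 430 462))))) (merge (node 526 (merge (leaf 5 430 558) (node 525 (merge (leaf 2 492 524) (node 493 (merge (leaf 3 492 492) (node 494 (merge (leaf 2 461 465) (leaf 0 493 529))))))))) (node 430 (merge (leaf 7 398 398) (node 429 (merge (leaf 0 428 428) (node 465 (merge (leaf 3 429 462) (leaf 3 430 466))))))))))))))))))))) (merge (node 464 (merge (node 431 (merge (node 463 (merge (leaf 7 431 560) (node 399 (merge (leaf 4 367 367) (leaf 4 399 495))))) (merge (node 399 (merge (leaf 7 399 432) (node 463 (merge (leaf 4 367 367)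 (leaf 4 399 495))))) (merge (node 560 (merge (leaf 7 431 463) (node 433 (merge (leaf 6 432 465) (node 432 (merge (leaf 6 400 401) (node 559 (merge (leaf 5 431 527) (leaf 5 463 591))))))))) (node 432 (merge (leaf 7 399 399) (node 433 (merge (leaf 6 400 401) (node 560 (merge (leaf 6 432 465) (node 559 (merge (leaf 5 431 527) (leaf 5 463 591))))))))))))) (merge (node 559 (merge (node 591 (merge (leaf 6 463 527) (leaf 5 463 560))) (merge (node 527 (merge (leaf 5 431 432) (leaf 6 463 591))) (merge (node 560 (merge (leaf 5 463 591) (node 561 (merge (leaf 4 464 593) (node 529 (merge (leaf 4 432 432) (node 558 (merge (leaf 2 526 530) (leaf 2 525 557))))))))) (node 432 (merge (leaf 5 431 527) (node 561 (merge (leaf 4 432 529) (node 560 (merge (leaf 4 464 593) (node 431 (merge (leaf 7 399 399) (leaf 7 431 463))))))))))))) (merge (node 559 (merge (node 527 (merge (leaf 5 431 432) (node 591 (merge (leaf 6 463 495) (leaf 6 495 623))))) (merge (node 591 (merge (leaf 5 463 560) (node 527 (merge (leaf 6 463 495) (leaf 6 495 623))))) (merge (node 432 (merge (leaf 5 431 527) (node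 561 (merge (leaf 4 432 529) (node 433 (merge (leaf 6 400 401) (node 560 (merge (leaf 6 432 465) (leaf 4 464 593))))))))) (node 560 (merge (leaf 5 463 591) (node 561 (merge (leaf 4 464 593) (node 529 (merge (leaf 4 432 432) (node 558 (merge (leaf 2 526 530) (leaf 2 525 557))))))))))))) (merge (node 432 (merge (node 401 (merge (leaf 6 400 433) (node 400 (merge (leaf 6 368 369) (node 399 (merge (leaf 7 367 367) (leaf 7 399 431))))))) (merge (node 561 (merge (leaf 4 432 529) (node 560 (merge (leaf 4 464 593) (node 431 (merge (leaf 7 399 399) (leaf 7 431 463))))))) (node 561 (merge (leaf 4 432 529) (node 433 (merge (leaf 6 400 401) (node 560 (merge (leaf 6 432 465) (leaf 4 464 593)))))))))) (merge (node 432 (merge (node 400 (merge (leaf 5 399 527) (node 399 (merge (leaf 7 367 367) (leaf 7 399 431))))) (merge (node 529 (merge (leaf 4 432 561) (node 400 (merge (leaf 4 400 497) (node 527 (merge (leaf 5 399 495) (leaf 5 431 559))))))) (merge (node 401 (merge (leaf 6 400 433) (node 400 (merge (leaf 6 368 369) (node 399 (merge (leaf 7 367 367) (leaf 7 399 431))))))) (node 529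 (merge (leaf 4 432 561) (node 530 (merge (leaf 3 495 531) (node 527 (merge (leaf 5 431 559) (node 498 (merge (leaf 2 495 499) (node 497 (merge (leaf 1 494 526) (node 466 (merge (leaf 2 463 467) (node 463 (merge (leaf 3 462 462) (node 431 (merge (leaf 4 399 399) (node 430 (merge (leaf 7 398 398) (leaf 3 430 465))))))))))))))))))))))) (node 463 (merge (node 431 (merge (leaf 4 399 399) (leaf 7 431 560))) (merge (node 465 (merge (node 433 (merge (leaf 6 432 560) (node 401 (merge (leaf 5 368 369) (leaf 5 400 497))))) (merge (node 466 (merge (leaf 1 463 467) (node 498 (merge (leaf 0 463 499) (node 497 (merge (leaf 0 462 462) (node 434 (merge (leaf 2 431 435) (node 529 (merge (leaf 5 401 402) (leaf 6 433 561))))))))))) (node 466 (merge (leaf 1 463 467) (node 498 (merge (leaf 0 463 499) (node 434 (merge (leaf 2 431 435) (node 560 (merge (leaf 6 432 433) (node 561 (merge (leaf 4 464 593) (node 529 (merge (leaf 5 433 530) (node 559 (merge (leaf 5 463 591) (node 558 (merge (leaf 2 525 557) (node 590 (merge (leaf 5 462 527) (leaf 1 557 589)))))))))))))))))))))) (node 527 (merge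 (node 431 (merge (leaf 4 399 399) (node 526 (merge (leaf 5 430 558) (node 525 (merge (leaf 2 493 497) (leaf 2 492 524))))))) (merge (node 431 (merge (leaf 4 399 399) (node 558 (merge (leaf 5 430 526) (node 559 (merge (leaf 5 462 590) (node 430 (merge (leaf 7 398 398) (leaf 7 430 462))))))))) (merge (node 431 (merge (leaf 4 399 399) (node 526 (merge (leaf 5 430 558) (node 525 (merge (leaf 2 493 497) (leaf 2 492 524))))))) (merge (node 431 (merge (leaf 4 399 399) (node 559 (merge (leaf 6 463 591) (node 430 (merge (leaf 7 398 398) (leaf 7 430 462))))))) (node 559 (merge (leaf 6 463 591) (node 462 (merge (leaf 7 430 430) (node 461 (merge (leaf 0 460 460) (leaf 0 461 497))))))))))))))))))))) (node 494 (merge (node 529 (merge (leaf 0 493 493) (node 530 (merge (leaf 0 494 497) (leaf 3 495 531))))) (merge (node 493 (merge (leaf 0 493 529) (node 492 (merge (leaf 0 492 527) (node 524 (merge (leaf 1 491 523) (leaf 1 492 525))))))) (merge (node 493 (merge (node 492 (merge (leaf 0 492 527) (node 464 (merge (leaf 2 460 463) (leaf 2 461 465))))) (merge (node 465 (merge (leaf 2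 461 464) (node 497 (merge (leaf 2 462 466) (node 461 (merge (leaf 3 460 460) (leaf 3 461 462))))))) (merge (node 527 (merge (leaf 0 492 492) (node 461 (merge (leaf 3 460 460) (node 497 (merge (leaf 3 461 462) (node 526 (merge (leaf 1 494 498) (leaf 1 493 525))))))))) (node 461 (merge (leaf 3 460 460) (node 497 (merge (leaf 3 461 462) (node 526 (merge (leaf 1 493 525) (node 498 (merge (leaf 1 494 527) (node 531 (merge (leaf 0 495 530) (node 499 (merge (leaf 0 496 532) (node 467 (merge (leaf 2 463 466) (leaf 2 464 468))))))))))))))))))) (node 497 (merge (node 466 (merge (leaf 2 462 465) (node 498 (merge (leaf 2 463 467) (node 462 (merge (leaf 3 461 461) (leaf 3 462 463))))))) (merge (node 530 (merge (leaf 0 494 529) (node 498 (merge (leaf 0 495 531) (node 526 (merge (leaf 1 493 525) (leaf 1 494 527))))))) (merge (node 462 (merge (leaf 3 461 461) (node 498 (merge (leaf 3 462 463) (node 531 (merge (leaf 0 495 530) (node 499 (merge (leaf 1 495 527) (leaf 0 496 532))))))))) (node 529 (merge (leaf 0 494 530) (node 465 (merge (leaf 2 462 466) (node 462 (merge (leaf 3 461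 461) (node 433 (merge (leaf 5 400 401) (node 434 (merge (leaf 6 401 402) (node 463 (merge (leaf 2 430 464) (node 431 (merge (leaf 4 399 399) (leaf 1 430 432))))))))))))))))))))))))))))))))))) nJ_13 cJ_13 14 (by decide +kernel)
def nJ_14 : ℕ := 0x1000000010000000000000000000000000000000000000000000000000000000000000000000000000000000000000000000000000000000000000000000000000000
def cJ_14 : ℕ := 0x28000000380000003c0000001f0000006f000007ef800007ff000007ff800000fe0000007c0000007c00000028000000000000000000000000000000000000000000000000000000000000000000000000000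
theorem lJ_14 : S nJ_14 cJ_14 12 := S_of_chk [(nJ_11, cJ_11, 11)] ⟨lJ_11, trivial⟩ (node 464 (merge (node 432 (merge (node 527 (merge (leaf 5 431 559) (node 400 (merge (leaf 5 399 495) (node 399 (merge (leaf 7 367 367) (leaf 7 399 431))))))) (merge (node 401 (merge (leaf 6 400 433) (node 400 (merge (leaf 6 368 369) (node 527 (merge (leaf 5 399 495) (leaf 5 431 559))))))) (node 433 (merge (leaf 6 400 401) (node 465 (merge (leaf 6 432 560) (node 431 (merge (leaf 7 399 399) (node 466 (merge (leaf 0 430 430) (leaf 3 431 467)))))))))))) (merge (node 432 (merge (node 401 (merge (leaf 6 400 433) (node 400 (merge (leaf 6 368 369) (node 399 (merge (leaf 7 367 367) (leaf 7 399 431))))))) (merge (node 559 (merge (leaf 5 431 527) (node 431 (merge (leaf 7 399 399) (node 560 (merge (leaf 7 431 463) (leaf 5 463 591))))))) (node 433 (merge (leaf 6 400 401) (node 560 (merge (leaf 6 432 465) (node 559 (merge (leaf 5 431 527) (leaf 5 463 591)))))))))) (merge (node 560 (merge (node 432 (merge (node 431 (merge (leaf 7 399 399) (leaf 7 431 463))) (node 401 (merge (leaf 6 400 433) (node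 400 (merge (leaf 6 368 369) (node 527 (merge (leaf 5 399 495) (leaf 5 431 559))))))))) (merge (node 559 (merge (leaf 5 463 591) (node 432 (merge (leaf 5 431 527) (node 401 (merge (leaf 6 400 433) (node 400 (merge (leaf 6 368 369) (node 399 (merge (leaf 7 367 367) (leaf 7 399 431))))))))))) (merge (node 591 (merge (leaf 5 463 559) (node 592 (merge (leaf 5 495 623) (node 625 (merge (leaf 4 496 593) (node 624 (merge (leaf 4 528 657) (node 495 (merge (leaf 7 463 463) (leaf 7 495 527))))))))))) (node 463 (merge (leaf 7 431 431) (node 592 (merge (leaf 7 463 495) (node 625 (merge (leaf 4 496 593) (node 624 (merge (leaf 4 528 657) (node 623 (merge (leaf 5 495 591) (leaf 5 527 655))))))))))))))) (merge (node 431 (merge (node 399 (merge (leaf 7 399 432) (node 463 (merge (leaf 4 367 367) (leaf 4 399 495))))) (merge (node 432 (merge (leaf 7 399 399) (node 433 (merge (leaf 6 400 401) (node 465 (merge (leaf 6 432 560) (node 466 (merge (leaf 0 430 430) (leaf 3 431 467))))))))) (node 560 (merge (leaf 7 431 463) (node 465 (merge (leaf 6 432 433) (node 592 (merge (leaf 6 464 497)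 (node 625 (merge (leaf 4 496 593) (node 624 (merge (leaf 4 528 657) (node 623 (merge (leaf 5 495 591) (leaf 5 527 655)))))))))))))))) (merge (node 431 (merge (node 399 (merge (leaf 7 399 432) (node 463 (merge (leaf 4 367 367) (leaf 4 399 495))))) (merge (node 432 (merge (leaf 7 399 399) (node 559 (merge (leaf 5 431 527) (node 560 (merge (leaf 7 431 463) (leaf 5 463 591))))))) (merge (node 432 (merge (leaf 7 399 399) (node 527 (merge (leaf 5 431 559) (node 400 (merge (leaf 5 399 495) (node 497 (merge (leaf 4 400 529) (node 368 (merge (leaf 4 368 465) (node 337 (merge (leaf 6 336 369) (node 336 (merge (leaf 6 304 305) (node 335 (merge (leaf 7 303 303) (leaf 7 335 367))))))))))))))))) (node 560 (merge (leaf 7 431 463) (node 591 (merge (leaf 5 463 559) (node 592 (merge (leaf 5 495 623) (node 625 (merge (leaf 4 496 593) (node 624 (merge (leaf 4 528 657) (node 497 (merge (leaf 6 464 465) (leaf 6 496 529))))))))))))))))) (merge (node 465 (merge (node 560 (merge (leaf 6 432 433) (node 592 (merge (leaf 6 464 497) (node 591 (merge (leaf 5 463 559) (leaf 5 495 623))))))) (merge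 (node 560 (merge (leaf 6 432 433) (node 591 (merge (leaf 5 463 559) (node 463 (merge (leaf 7 431 431) (node 592 (merge (leaf 7 463 495) (leaf 5 495 623))))))))) (merge (node 463 (merge (node 462 (merge (node 433 (merge (leaf 2 430 434) (node 401 (merge (leaf 5 368 369) (leaf 5 400 497))))) (node 493 (merge (leaf 1 461 494) (node 461 (merge (leaf 1 460 492) (node 429 (merge (leaf 3 428 428) (leaf 3 429 430))))))))) (merge (node 466 (merge (node 431 (merge (leaf 3 430 430) (node 399 (merge (leaf 4 367 367) (leaf 4 399 495))))) (node 499 (merge (leaf 0 463 498) (node 467 (merge (leaf 0 464 500) (node 435 (merge (leaf 2 431 434) (leaf 2 432 436))))))))) (merge (node 466 (merge (node 499 (merge (leaf 0 463 498) (node 467 (merge (leaf 1 463 495) (leaf 0 464 500))))) (merge (node 499 (merge (leaf 0 463 498) (node 467 (merge (leaf 0 464 500) (node 435 (merge (leaf 2 431 434) (leaf 2 432 436))))))) (node 434 (merge (leaf 2 431 435) (node 462 (merge (leaf 2 430 433) (node 494 (merge (leaf 1 461 493) (leaf 1 462 495)))))))))) (node 498 (merge (node 497 (merge (leaf 0 462 462)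 (leaf 3 463 499))) (merge (node 466 (merge (leaf 0 463 499) (node 431 (merge (leaf 3 430 430) (node 399 (merge (leaf 4 367 367) (leaf 4 399 495))))))) (node 462 (merge (leaf 0 462 497) (node 494 (merge (leaf 1 461 493) (node 466 (merge (leaf 1 462 495) (node 430 (merge (leaf 3 429 429) (leaf 3 430 431)))))))))))))))) (node 463 (merge (node 431 (merge (leaf 7 431 560) (node 399 (merge (leaf 4 367 367) (leaf 4 399 495))))) (merge (node 560 (merge (leaf 7 431 431) (node 497 (merge (leaf 6 464 592) (node 498 (merge (leaf 0 462 462) (leaf 3 463 499))))))) (node 462 (merge (node 493 (merge (leaf 1 461 494) (node 461 (merge (leaf 1 460 492) (node 429 (merge (leaf 3 428 428) (leaf 3 429 430))))))) (merge (node 494 (merge (leaf 1 461 493) (node 466 (merge (leaf 1 462 495) (node 499 (merge (leaf 0 463 498) (node 467 (merge (leaf 0 464 500) (node 435 (merge (leaf 2 431 434) (leaf 2 432 436))))))))))) (merge (node 429 (merge (leaf 3 429 430) (node 461 (merge (leaf 3 428 428) (node 495 (merge (leaf 0 460 460) (node 466 (merge (leaf 1 463 467) (leaf 1 462 494))))))))) (node 429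 (merge (leaf 3 429 430) (node 461 (merge (leaf 3 428 428) (node 460 (merge (leaf 0 460 495) (node 492 (merge (leaf 1 459 491) (leaf 1 460 493)))))))))))))))))))) (merge (node 465 (merge (node 433 (merge (leaf 6 432 560) (node 401 (merge (leaf 5 368 369) (leaf 5 400 497))))) (merge (node 560 (merge (leaf 6 432 433) (node 591 (merge (leaf 5 463 559) (node 592 (merge (leaf 5 495 623) (node 625 (merge (leaf 4 496 593) (node 624 (merge (leaf 4 528 657) (node 495 (merge (leaf 7 463 463) (leaf 7 495 527))))))))))))) (merge (node 466 (merge (node 495 (merge (leaf 1 463 467) (node 494 (merge (leaf 1 462 463) (leaf 2 461 493))))) (merge (node 467 (merge (leaf 1 463 495) (node 500 (merge (leaf 0 464 499) (node 468 (merge (leaf 1 464 497) (leaf 0 465 501))))))) (merge (node 467 (merge (node 500 (merge (leaf 0 464 499) (node 468 (merge (leaf 1 464 497) (leaf 0 465 501))))) (merge (node 499 (merge (leaf 0 464 500) (node 463 (merge (leaf 0 463 498) (node 435 (merge (leaf 2 431 434) (leaf 2 432 436))))))) (node 497 (merge (leaf 1 464 468) (node 435 (merge (leaf 2 432 436) (node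 463 (merge (leaf 2 431 434) (node 462 (merge (leaf 0 461 461) (leaf 0 462 498)))))))))))) (node 463 (merge (node 498 (merge (leaf 0 463 499) (node 462 (merge (leaf 0 462 497) (node 493 (merge (leaf 1 461 494) (node 461 (merge (leaf 1 460 492) (node 429 (merge (leaf 3 428 428) (leaf 3 429 430))))))))))) (merge (node 498 (merge (leaf 0 463 499) (node 497 (merge (leaf 0 462 462) (node 495 (merge (leaf 1 462 494) (node 527 (merge (leaf 1 494 526) (node 559 (merge (leaf 5 431 432) (leaf 6 463 591))))))))))) (merge (node 495 (merge (leaf 1 462 494) (node 560 (merge (leaf 7 463 592) (node 559 (merge (leaf 5 463 591) (node 527 (merge (leaf 5 431 432) (node 558 (merge (leaf 5 462 590) (node 557 (merge (leaf 2 525 529) (leaf 2 524 556))))))))))))) (node 498 (merge (leaf 0 463 499) (node 462 (merge (leaf 0 462 497) (node 429 (merge (leaf 3 429 430) (node 461 (merge (leaf 3 428 428) (node 460 (merge (leaf 0 460 495) (node 492 (merge (leaf 1 459 491) (leaf 1 460 493))))))))))))))))))))) (node 466 (merge (node 495 (merge (leaf 1 463 467) (node 494 (merge (leaf 2 461 493) (leaf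 2 462 497))))) (merge (node 467 (merge (leaf 1 463 495) (node 500 (merge (leaf 0 464 499) (node 468 (merge (leaf 1 464 497) (leaf 0 465 501))))))) (merge (node 527 (merge (node 559 (merge (leaf 5 431 432) (node 591 (merge (leaf 6 463 495) (leaf 6 495 623))))) (merge (node 432 (merge (leaf 5 431 559) (node 401 (merge (leaf 6 400 433) (node 400 (merge (leaf 6 368 369) (node 497 (merge (leaf 4 368 368) (leaf 4 400 529))))))))) (merge (node 463 (merge (node 434 (merge (leaf 2 431 435) (node 462 (merge (leaf 2 430 433) (node 494 (merge (leaf 1 461 493) (leaf 1 462 495))))))) (merge (node 498 (merge (leaf 0 463 499) (node 497 (merge (leaf 0 462 462) (node 495 (merge (leaf 1 462 494) (leaf 1 494 526))))))) (merge (node 434 (merge (leaf 2 431 435) (node 462 (merge (leaf 2 430 433) (node 497 (merge (leaf 0 461 461) (leaf 0 462 498))))))) (node 498 (merge (leaf 0 463 499) (node 495 (merge (leaf 1 462 494) (node 497 (merge (leaf 1 494 526) (node 434 (merge (leaf 2 431 435) (node 402 (merge (leaf 5 369 370) (leaf 5 401 529))))))))))))))) (node 463 (merge (node 434 (merge (leaf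 2 431 435) (node 462 (merge (leaf 2 430 433) (node 494 (merge (leaf 1 461 493) (leaf 1 462 495))))))) (merge (node 498 (merge (leaf 0 463 499) (node 497 (merge (leaf 0 462 462) (node 495 (merge (leaf 1 462 494) (leaf 1 494 526))))))) (merge (node 498 (merge (leaf 0 463 499) (node 495 (merge (leaf 1 462 494) (node 497 (merge (leaf 1 494 526) (node 434 (merge (leaf 2 431 435) (node 402 (merge (leaf 5 369 370) (leaf 5 401 529))))))))))) (merge (node 434 (merge (leaf 2 431 435) (node 462 (merge (leaf 2 430 433) (node 497 (merge (leaf 0 461 461) (leaf 0 462 498))))))) (node 498 (merge (leaf 0 463 499) (node 462 (merge (leaf 0 462 497) (node 493 (merge (leaf 1 461 494) (node 461 (merge (leaf 1 460 492) (node 429 (merge (leaf 3 428 428) (leaf 3 429 430)))))))))))))))))))) (node 467 (merge (node 500 (merge (leaf 0 464 499) (node 468 (merge (leaf 0 465 501) (node 436 (merge (leaf 2 432 435) (leaf 2 433 437))))))) (merge (node 436 (merge (leaf 2 432 435) (node 468 (merge (leaf 2 433 437) (node 501 (merge (leaf 0 465 500) (node 469 (merge (leaf 0 466 502) (node 433 (merge (leaf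 3 432 432) (leaf 3 433 434))))))))))) (merge (node 500 (merge (leaf 0 464 499) (node 468 (merge (leaf 0 465 501) (node 437 (merge (leaf 2 433 436) (node 469 (merge (leaf 2 434 438) (node 433 (merge (leaf 3 432 432) (leaf 3 433 434))))))))))) (merge (node 436 (merge (leaf 2 432 435) (node 468 (merge (leaf 2 433 437) (node 433 (merge (leaf 3 432 432) (node 434 (merge (leaf 3 433 469) (node 463 (merge (leaf 2 430 462) (node 498 (merge (leaf 0 463 499) (node 401 (merge (leaf 4 369 369) (leaf 7 401 530))))))))))))))) (node 499 (merge (leaf 0 464 500) (node 463 (merge (leaf 0 463 498) (node 434 (merge (leaf 2 431 435) (node 462 (merge (leaf 2 430 433) (node 493 (merge (leaf 1 461 494) (node 461 (merge (leaf 1 460 492) (node 429 (merge (leaf 3 428 428) (leaf 3 429 430)))))))))))))))))))))))))))) (hyp 0))))))))) nJ_14 cJ_14 12 (by decide +kernel)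
def nJ_15 : ℕ := 0x1000000010000000000000000000000000000000000000000000000000000000000000000000000000000000000000000000000000000000000000000000000000000
def cJ_15 : ℕ := 0x20000002e0000003e0000003c000001ef000001efc00003ff800001ff8000007e000000280000000000000000000000000000000000000000000000000000000000000000000000000000000000000000000
theorem lJ_15 : S nJ_15 cJ_15 14 := S_of_chk [] trivial (node 464 (merge (node 431 (merge (node 463 (merge (leaf 7 431 560) (node 399 (merge (leaf 4 367 367) (leaf 4 399 495))))) (merge (node 399 (merge (leaf 7 399 432) (node 463 (merge (leaf 4 367 367) (leaf 4 399 495))))) (merge (node 560 (merge (leaf 7 431 463) (node 433 (merge (leaf 6 432 465) (node 432 (merge (leaf 6 400 401) (node 559 (merge (leaf 5 431 527) (leaf 5 463 591))))))))) (node 432 (merge (leaf 7 399 399) (node 433 (merge (leaf 6 400 401) (node 560 (merge (leaf 6 432 465) (node 559 (merge (leaf 5 431 527) (leaf 5 463 591))))))))))))) (merge (node 560 (merge (node 561 (merge (leaf 4 464 593) (node 432 (merge (leaf 4 432 529) (node 433 (merge (leaf 6 400 401) (leaf 6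 432 465))))))) (merge (node 593 (merge (leaf 4 464 561) (node 592 (merge (leaf 4 496 625) (node 591 (merge (leaf 5 463 559) (leaf 5 495 623))))))) (node 465 (merge (leaf 6 432 433) (node 592 (merge (leaf 6 464 497) (node 591 (merge (leaf 5 463 559) (leaf 5 495 623)))))))))) (merge (node 560 (merge (node 561 (merge (leaf 4 464 593) (node 432 (merge (leaf 4 432 529) (node 431 (merge (leaf 7 399 399) (leaf 7 431 463))))))) (merge (node 593 (merge (leaf 4 464 561) (node 592 (merge (leaf 4 496 625) (node 591 (merge (leaf 5 463 559) (leaf 5 495 623))))))) (node 591 (merge (leaf 5 463 559) (node 463 (merge (leaf 7 431 431) (node 592 (merge (leaf 7 463 495) (leaf 5 495 623)))))))))) (merge (node 431 (merge (node 399 (merge (leaf 7 399 432) (node 463 (merge (leaf 4 367 367) (leaf 4 399 495))))) (merge (node 432 (merge (leaf 7 399 399) (node 561 (merge (leaf 4 432 529) (node 433 (merge (leaf 6 400 401) (node 560 (merge (leaf 6 432 465) (leaf 4 464 593))))))))) (node 560 (merge (leaf 7 431 463) (node 593 (merge (leaf 4 464 561) (node 465 (merge (leaf 6 432 433) (node 592 (merge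 (leaf 6 464 497) (leaf 4 496 625)))))))))))) (merge (node 465 (merge (node 560 (merge (leaf 6 432 433) (node 593 (merge (leaf 4 464 561) (node 592 (merge (leaf 4 496 625) (node 591 (merge (leaf 5 463 559) (leaf 5 495 623))))))))) (merge (node 463 (merge (node 431 (merge (leaf 7 431 560) (node 399 (merge (leaf 4 367 367) (leaf 4 399 495))))) (merge (node 560 (merge (leaf 7 431 431) (node 497 (merge (leaf 6 464 592) (node 498 (merge (leaf 0 462 462) (leaf 3 463 499))))))) (merge (node 498 (merge (node 497 (merge (leaf 0 462 462) (leaf 3 463 499))) (merge (node 466 (merge (leaf 0 463 499) (node 495 (merge (leaf 1 463 467) (leaf 1 462 494))))) (node 462 (merge (leaf 0 462 497) (node 430 (merge (leaf 3 429 429) (node 466 (merge (leaf 3 430 431) (node 495 (merge (leaf 1 463 467) (leaf 1 462 494)))))))))))) (node 494 (merge (node 495 (merge (leaf 1 462 466) (leaf 2 461 493))) (merge (node 462 (merge (leaf 1 461 493) (node 497 (merge (leaf 0 461 461) (leaf 0 462 498))))) (node 466 (merge (leaf 1 462 495) (node 498 (merge (leaf 0 463 499) (node 497 (merge (leaf 0 462 462)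 (node 434 (merge (leaf 2 431 435) (node 529 (merge (leaf 5 401 402) (leaf 6 433 561)))))))))))))))))) (node 463 (merge (node 462 (merge (node 433 (merge (leaf 2 430 434) (node 401 (merge (leaf 5 368 369) (leaf 5 400 497))))) (node 493 (merge (leaf 1 461 494) (node 461 (merge (leaf 1 460 492) (node 429 (merge (leaf 3 428 428) (leaf 3 429 430))))))))) (merge (node 466 (merge (node 431 (merge (leaf 3 430 430) (node 399 (merge (leaf 4 367 367) (leaf 4 399 495))))) (node 499 (merge (leaf 0 463 498) (node 467 (merge (leaf 0 464 500) (node 435 (merge (leaf 2 431 434) (leaf 2 432 436))))))))) (merge (node 466 (merge (node 499 (merge (leaf 0 463 498) (node 467 (merge (leaf 1 463 495) (leaf 0 464 500))))) (merge (node 499 (merge (leaf 0 463 498) (node 467 (merge (leaf 0 464 500) (node 435 (merge (leaf 2 431 434) (leaf 2 432 436))))))) (node 434 (merge (leaf 2 431 435) (node 462 (merge (leaf 2 430 433) (node 494 (merge (leaf 1 461 493) (leaf 1 462 495)))))))))) (node 498 (merge (node 497 (merge (leaf 0 462 462) (leaf 3 463 499))) (merge (node 466 (merge (leaf 0 463 499) (node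 431 (merge (leaf 3 430 430) (node 399 (merge (leaf 4 367 367) (leaf 4 399 495))))))) (node 462 (merge (leaf 0 462 497) (node 494 (merge (leaf 1 461 493) (node 466 (merge (leaf 1 462 495) (node 430 (merge (leaf 3 429 429) (leaf 3 430 431))))))))))))))))))) (node 431 (merge (node 399 (merge (leaf 7 399 432) (node 463 (merge (leaf 4 367 367) (leaf 4 399 495))))) (merge (node 432 (merge (leaf 7 399 399) (node 529 (merge (leaf 4 432 561) (node 400 (merge (leaf 4 400 497) (node 401 (merge (leaf 6 368 369) (leaf 6 400 433))))))))) (merge (node 463 (merge (node 399 (merge (leaf 4 367 367) (leaf 4 399 495))) (merge (node 465 (merge (node 466 (merge (leaf 3 430 430) (node 499 (merge (leaf 0 463 498) (node 467 (merge (leaf 1 463 495) (leaf 0 464 500))))))) (merge (node 466 (merge (node 499 (merge (leaf 0 463 498) (node 467 (merge (leaf 1 463 495) (leaf 0 464 500))))) (merge (node 499 (merge (leaf 0 463 498) (node 467 (merge (leaf 0 464 500) (node 435 (merge (leaf 2 431 434) (leaf 2 432 436))))))) (node 434 (merge (leaf 2 431 435) (node 462 (merge (leaf 2 430 433) (node 494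 (merge (leaf 1 461 493) (leaf 1 462 495)))))))))) (node 462 (merge (node 433 (merge (leaf 2 430 434) (node 401 (merge (leaf 5 368 369) (leaf 5 400 497))))) (node 493 (merge (leaf 1 461 494) (node 461 (merge (leaf 1 460 492) (node 429 (merge (leaf 3 428 428) (leaf 3 429 430)))))))))))) (node 462 (merge (node 465 (merge (node 498 (merge (leaf 0 462 497) (node 466 (merge (leaf 3 430 430) (leaf 0 463 499))))) (merge (node 433 (merge (leaf 2 430 434) (node 401 (merge (leaf 5 368 369) (leaf 5 400 497))))) (node 434 (merge (leaf 2 430 433) (node 466 (merge (leaf 3 430 430) (leaf 2 431 435)))))))) (merge (node 461 (merge (leaf 0 461 497) (node 428 (merge (leaf 3 428 429) (node 460 (merge (leaf 3 427 427) (node 491 (merge (leaf 1 459 492) (node 459 (merge (leaf 2 427 430) (leaf 1 458 490))))))))))) (merge (node 461 (merge (leaf 0 461 497) (node 493 (merge (leaf 1 460 492) (node 494 (merge (leaf 1 461 465) (node 429 (merge (leaf 3 428 428) (node 526 (merge (leaf 4 397 397) (leaf 6 430 558))))))))))) (node 494 (merge (node 526 (merge (leaf 6 430 558) (node 430 (merge (leaf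 6 398 399) (node 429 (merge (leaf 7 397 397) (leaf 0 428 428))))))) (merge (node 465 (merge (leaf 1 461 493) (node 434 (merge (leaf 2 430 433) (node 466 (merge (leaf 3 430 430) (leaf 2 431 435))))))) (merge (node 465 (merge (leaf 1 461 493) (node 434 (merge (leaf 2 430 433) (node 466 (merge (leaf 3 430 430) (leaf 2 431 435))))))) (node 493 (merge (leaf 1 461 465) (node 492 (merge (leaf 1 460 461) (leaf 2 459 491)))))))))))))))) (node 495 (merge (node 432 (merge (node 527 (merge (leaf 5 399 400) (leaf 5 431 559))) (merge (node 529 (merge (leaf 4 432 561) (node 400 (merge (leaf 4 400 497) (node 401 (merge (leaf 6 368 369) (leaf 6 400 433))))))) (node 529 (merge (leaf 4 432 561) (node 530 (merge (leaf 3 495 531) (node 527 (merge (leaf 3 494 494) (leaf 5 431 559)))))))))) (merge (node 527 (merge (node 559 (merge (leaf 5 431 432) (leaf 6 463 591))) (node 497 (merge (node 498 (merge (leaf 1 495 499) (leaf 1 494 526))) (merge (node 526 (merge (leaf 2 493 525) (node 463 (merge (leaf 5 430 558) (node 462 (merge (leaf 0 461 461) (node 430 (merge (leaf 7 398 398) (node 465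 (merge (leaf 3 429 429) (leaf 3 430 466))))))))))) (node 498 (merge (leaf 1 495 499) (node 466 (merge (leaf 2 463 467) (node 463 (merge (leaf 3 462 462) (node 430 (merge (leaf 7 398 398) (leaf 3 430 465)))))))))))))) (merge (node 494 (merge (node 465 (merge (leaf 2 461 493) (node 466 (merge (leaf 1 462 463) (leaf 1 463 467))))) (merge (node 529 (merge (leaf 0 493 493) (node 530 (merge (leaf 0 494 497) (leaf 3 495 531))))) (node 497 (merge (node 466 (merge (leaf 2 462 465) (node 498 (merge (leaf 2 463 467) (node 462 (merge (leaf 3 461 461) (leaf 3 462 463))))))) (node 529 (merge (node 530 (merge (leaf 0 494 494) (leaf 3 495 531))) (node 432 (merge (leaf 4 400 400) (leaf 4 432 561)))))))))) (merge (node 463 (merge (node 432 (merge (node 527 (merge (leaf 5 399 400) (leaf 5 431 559))) (node 433 (merge (leaf 6 400 401) (node 462 (merge (leaf 2 429 461) (node 434 (merge (leaf 1 431 435) (leaf 2 430 465))))))))) (merge (node 527 (merge (node 559 (merge (leaf 6 431 432) (leaf 6 463 591))) (node 526 (merge (leaf 5 430 558) (node 525 (merge (leaf 2 492 524) (node 493 (merge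 (leaf 3 492 492) (node 494 (merge (leaf 2 461 465) (leaf 0 493 529))))))))))) (merge (node 527 (merge (node 559 (merge (leaf 6 463 591) (node 430 (merge (leaf 7 398 398) (leaf 7 430 462))))) (node 526 (merge (leaf 5 430 558) (node 525 (merge (leaf 2 492 524) (node 493 (merge (leaf 3 492 492) (node 494 (merge (leaf 2 461 465) (leaf 0 493 529))))))))))) (merge (node 465 (merge (node 466 (merge (leaf 1 463 467) (leaf 1 462 494))) (merge (node 466 (merge (leaf 1 463 467) (node 434 (merge (leaf 2 431 435) (node 433 (merge (leaf 2 430 462) (node 401 (merge (leaf 5 368 369) (leaf 6 400 432))))))))) (node 433 (merge (node 401 (merge (leaf 5 368 369) (leaf 6 400 432))) (merge (node 462 (merge (leaf 2 430 434) (node 493 (merge (leaf 1 461 494) (node 461 (merge (leaf 2 429 432) (leaf 1 460 492))))))) (node 462 (merge (leaf 2 430 434) (node 493 (merge (leaf 1 461 494) (node 461 (merge (leaf 1 460 492) (node 429 (merge (leaf 3 428 428) (leaf 3 429 430))))))))))))))) (node 527 (merge (node 559 (merge (leaf 6 463 591) (node 430 (merge (leaf 7 398 398) (leaf 7 430 462))))) (node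 432 (merge (leaf 5 399 400) (node 529 (merge (leaf 4 432 561) (node 530 (merge (leaf 3 494 494) (leaf 3 495 531)))))))))))))) (node 497 (merge (node 530 (merge (node 529 (merge (leaf 0 494 494) (leaf 3 495 531))) (merge (node 531 (merge (leaf 0 495 498) (leaf 3 495 529))) (merge (node 494 (merge (leaf 0 494 529) (node 466 (merge (leaf 2 462 465) (node 498 (merge (leaf 2 463 467) (node 462 (merge (leaf 3 461 461) (leaf 3 462 463))))))))) (node 498 (merge (leaf 0 495 531) (node 466 (merge (leaf 2 463 467) (node 494 (merge (leaf 2 462 465) (node 462 (merge (leaf 3 461 461) (leaf 3 462 463))))))))))))) (merge (node 527 (merge (node 498 (merge (leaf 1 495 499) (leaf 1 494 526))) (merge (node 498 (merge (leaf 1 495 499) (node 462 (merge (leaf 3 462 463) (node 494 (merge (leaf 3 461 461) (node 493 (merge (leaf 2 461 465) (leaf 0 492 492))))))))) (node 526 (merge (leaf 2 493 525) (node 463 (merge (leaf 5 430 558) (node 462 (merge (leaf 0 461 461) (node 559 (merge (leaf 7 430 430) (leaf 6 463 591)))))))))))) (merge (node 498 (merge (node 531 (merge (leaf 0 495 530) (node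 499 (merge (leaf 1 495 527) (leaf 0 496 532))))) (merge (node 530 (merge (leaf 0 495 531) (node 527 (merge (leaf 1 494 526) (node 466 (merge (leaf 2 463 467) (node 559 (merge (leaf 6 463 591) (node 529 (merge (leaf 1 526 558) (node 561 (merge (leaf 5 433 434) (leaf 6 465 593))))))))))))) (merge (node 499 (merge (leaf 1 495 527) (node 467 (merge (leaf 2 463 466) (leaf 2 464 468))))) (node 531 (merge (leaf 0 495 530) (node 499 (merge (leaf 0 496 532) (node 468 (merge (leaf 2 464 467) (node 500 (merge (leaf 2 465 469) (leaf 1 496 529))))))))))))) (node 465 (merge (node 494 (merge (leaf 2 461 493) (node 466 (merge (leaf 1 463 467) (leaf 2 462 497))))) (merge (node 466 (merge (leaf 1 463 467) (node 463 (merge (leaf 3 430 430) (node 434 (merge (leaf 2 431 435) (node 433 (merge (leaf 5 400 401) (leaf 2 430 462))))))))) (node 494 (merge (leaf 2 461 493) (node 526 (merge (leaf 1 493 525) (node 462 (merge (leaf 3 461 461) (node 558 (merge (leaf 6 430 463) (node 591 (merge (leaf 4 462 559) (node 590 (merge (leaf 4 494 623) (node 621 (merge (leaf 5 493 589) (node 622 (merge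 (leaf 6 494 527) (leaf 5 525 653))))))))))))))))))))))))))))))))))))))) nJ_15 cJ_15 14 (by decide +kernel)
def nJ_16 : ℕ := 0x1000000010000000100000000000000000000000000000000000000000000000000000000000000000000000000000000000000000000000000000000000000000000
def cJ_16 : ℕ := 0x26000000a6000001e7000001ef000001ef000001ff0000007e0000007e0000003e0000002a000000000000000000000000000000000000000000000000000000000000000000000000000
theorem lJ_16 : S nJ_16 cJ_16 13 := S_of_chk [] trivial (node 495 (merge (node 432 (merge (node 529 (merge (leaf 4 432 561) (node 400 (merge (leaf 4 400 497) (node 401 (merge (leaf 6 368 369) (leaf 6 400 433))))))) (merge (node 529 (merge (leaf 4 432 561) (node 400 (merge (leaf 4 400 497) (node 399 (merge (leaf 7 367 367) (leaf 7 399 431))))))) (merge (node 401 (merge (leaf 6 400 433) (node 400 (merge (leaf 6 368 369) (node 399 (merge (leaf 7 367 367) (leaf 7 399 431))))))) (node 529 (merge (leaf 4 432 561) (node 494 (merge (leaf 0 493 493) (node 530 (merge (leaf 0 494 497) (leaf 3 495 531))))))))))) (merge (node 494 (merge (node 465 (merge (leaf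 2 461 493) (node 466 (merge (leaf 1 462 463) (leaf 1 463 467))))) (merge (node 529 (merge (leaf 0 493 493) (node 530 (merge (leaf 0 494 497) (leaf 3 495 531))))) (node 497 (merge (node 466 (merge (leaf 2 462 465) (node 498 (merge (leaf 2 463 467) (node 462 (merge (leaf 3 461 461) (leaf 3 462 463))))))) (node 529 (merge (node 530 (merge (leaf 0 494 494) (leaf 3 495 531))) (node 432 (merge (leaf 4 400 400) (leaf 4 432 561)))))))))) (merge (node 465 (merge (node 494 (merge (leaf 2 461 493) (node 466 (merge (leaf 1 463 467) (leaf 2 462 497))))) (merge (node 494 (merge (leaf 2 461 493) (node 466 (merge (leaf 1 462 463) (leaf 1 463 467))))) (node 432 (merge (node 399 (merge (leaf 7 399 431) (node 400 (merge (leaf 7 367 367) (node 368 (merge (leaf 5 367 463) (leaf 4 368 497))))))) (merge (node 401 (merge (leaf 6 400 433) (node 400 (merge (leaf 6 368 369) (node 368 (merge (leaf 5 367 463) (leaf 4 368 497))))))) (merge (node 401 (merge (leaf 6 400 433) (node 400 (merge (leaf 6 368 369) (node 368 (merge (leaf 4 368 497) (node 367 (merge (leaf 7 335 335) (leaf 7 367 399)))))))))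 (node 433 (merge (leaf 6 400 401) (node 431 (merge (leaf 7 399 399) (node 430 (merge (leaf 0 429 429) (node 462 (merge (leaf 1 429 461) (node 398 (merge (leaf 3 397 397) (node 366 (merge (leaf 4 366 463) (node 335 (merge (leaf 6 334 367) (node 334 (merge (leaf 6 302 303) (node 333 (merge (leaf 7 301 301) (leaf 7 333 365)))))))))))))))))))))))))) (merge (node 465 (merge (node 431 (merge (node 399 (merge (leaf 7 399 432) (leaf 4 399 463))) (merge (node 463 (merge (leaf 4 399 399) (node 466 (merge (leaf 3 430 430) (leaf 1 463 467))))) (merge (node 466 (merge (leaf 1 463 467) (node 430 (merge (leaf 3 430 463) (node 432 (merge (leaf 0 429 429) (leaf 0 430 433))))))) (node 432 (merge (leaf 7 399 399) (node 430 (merge (leaf 0 429 429) (node 433 (merge (leaf 6 400 401) (leaf 0 430 466))))))))))) (merge (node 432 (merge (node 433 (merge (leaf 6 400 401) (node 431 (merge (leaf 7 399 399) (node 466 (merge (leaf 0 430 430) (leaf 3 431 467))))))) (merge (node 401 (merge (leaf 6 400 433) (node 400 (merge (leaf 6 368 369) (node 497 (merge (leaf 4 368 368) (leaf 4 400 529)))))))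 (node 529 (merge (leaf 4 432 561) (node 400 (merge (leaf 4 400 497) (node 399 (merge (leaf 7 367 367) (leaf 7 399 431)))))))))) (merge (node 432 (merge (node 431 (merge (leaf 7 399 399) (node 430 (merge (leaf 0 429 429) (node 466 (merge (leaf 3 430 463) (leaf 3 431 467))))))) (merge (node 399 (merge (leaf 7 399 431) (node 400 (merge (leaf 7 367 367) (node 497 (merge (leaf 4 368 368) (leaf 4 400 529))))))) (node 529 (merge (leaf 4 432 561) (node 400 (merge (leaf 4 400 497) (node 368 (merge (leaf 5 367 463) (node 337 (merge (leaf 6 336 369) (node 336 (merge (leaf 6 304 305) (node 335 (merge (leaf 7 303 303) (leaf 7 335 367)))))))))))))))) (merge (node 432 (merge (node 399 (merge (leaf 7 399 431) (node 400 (merge (leaf 7 367 367) (node 368 (merge (leaf 5 367 463) (leaf 4 368 497))))))) (merge (node 401 (merge (leaf 6 400 433) (node 400 (merge (leaf 6 368 369) (node 368 (merge (leaf 5 367 463) (leaf 4 368 497))))))) (merge (node 401 (merge (leaf 6 400 433) (node 400 (merge (leaf 6 368 369) (node 368 (merge (leaf 4 368 497) (node 367 (merge (leaf 7 335 335) (leaf 7 367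 399))))))))) (node 433 (merge (leaf 6 400 401) (node 431 (merge (leaf 7 399 399) (node 430 (merge (leaf 0 429 429) (node 462 (merge (leaf 1 429 461) (node 398 (merge (leaf 3 397 397) (node 366 (merge (leaf 4 366 463) (node 335 (merge (leaf 6 334 367) (node 334 (merge (leaf 6 302 303) (node 333 (merge (leaf 7 301 301) (leaf 7 333 365))))))))))))))))))))))) (merge (node 463 (merge (node 431 (merge (leaf 4 399 399) (node 466 (merge (leaf 3 430 430) (leaf 1 463 467))))) (merge (node 466 (merge (leaf 1 463 467) (node 498 (merge (leaf 0 463 499) (node 462 (merge (leaf 0 462 497) (node 434 (merge (leaf 2 430 433) (leaf 2 431 435))))))))) (node 462 (merge (node 461 (merge (leaf 0 460 460) (node 429 (merge (leaf 3 428 428) (leaf 3 429 430))))) (node 433 (merge (leaf 2 430 434) (node 401 (merge (leaf 5 368 369) (leaf 5 400 497)))))))))) (merge (node 463 (merge (node 431 (merge (leaf 4 399 399) (node 466 (merge (leaf 3 430 430) (leaf 1 463 467))))) (merge (node 466 (merge (leaf 1 463 467) (node 498 (merge (leaf 0 463 499) (node 462 (merge (leaf 0 462 497) (node 434 (merge (leaf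 2 430 433) (leaf 2 431 435))))))))) (node 462 (merge (node 461 (merge (leaf 0 460 460) (leaf 0 461 497))) (merge (node 461 (merge (leaf 0 460 460) (node 432 (merge (leaf 2 429 433) (node 399 (merge (leaf 4 399 431) (node 400 (merge (leaf 7 367 367) (leaf 5 367 368))))))))) (node 497 (merge (leaf 0 462 498) (node 433 (merge (leaf 2 430 434) (node 430 (merge (leaf 3 429 429) (node 398 (merge (leaf 4 366 366) (node 431 (merge (leaf 4 399 399) (node 432 (merge (leaf 3 397 397) (node 529 (merge (leaf 4 400 400) (leaf 4 432 561))))))))))))))))))))) (merge (node 463 (merge (node 466 (merge (leaf 1 463 467) (node 434 (merge (leaf 2 431 435) (node 433 (merge (leaf 2 430 462) (node 401 (merge (leaf 5 368 369) (leaf 6 400 432))))))))) (merge (node 462 (merge (node 461 (merge (leaf 0 460 460) (node 429 (merge (leaf 3 428 428) (leaf 3 429 430))))) (node 433 (merge (leaf 2 430 434) (node 401 (merge (leaf 5 368 369) (leaf 5 400 497))))))) (merge (node 466 (merge (leaf 1 463 467) (node 498 (merge (leaf 0 463 499) (node 462 (merge (leaf 0 462 497) (node 461 (merge (leaf 0 460 460)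 (node 429 (merge (leaf 3 428 428) (leaf 3 429 430))))))))))) (node 401 (merge (node 432 (merge (leaf 6 400 433) (node 400 (merge (leaf 5 367 368) (leaf 6 368 369))))) (merge (node 432 (merge (leaf 6 400 433) (node 529 (merge (leaf 4 432 561) (node 400 (merge (leaf 5 367 368) (leaf 4 400 497))))))) (node 466 (merge (leaf 1 463 467) (node 498 (merge (leaf 0 463 499) (node 434 (merge (leaf 2 431 435) (node 402 (merge (leaf 7 369 369) (node 497 (merge (leaf 5 369 370) (leaf 5 401 529)))))))))))))))))) (merge (node 463 (merge (node 432 (merge (node 399 (merge (leaf 4 399 431) (node 400 (merge (leaf 7 367 367) (leaf 5 367 368))))) (node 433 (merge (leaf 6 400 401) (node 462 (merge (leaf 2 429 461) (node 434 (merge (leaf 1 431 435) (leaf 2 430 465))))))))) (merge (node 466 (merge (leaf 1 463 467) (node 498 (merge (leaf 0 463 499) (node 462 (merge (leaf 0 462 497) (node 461 (merge (leaf 0 460 460) (node 432 (merge (leaf 2 429 433) (node 399 (merge (leaf 4 399 431) (node 400 (merge (leaf 7 367 367) (leaf 5 367 368))))))))))))))) (merge (node 466 (merge (leaf 1 463 467) (node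 498 (merge (leaf 0 463 499) (node 497 (merge (leaf 0 462 462) (node 434 (merge (leaf 2 431 435) (node 402 (merge (leaf 5 369 370) (leaf 5 401 529))))))))))) (node 401 (merge (node 433 (merge (leaf 5 368 369) (leaf 5 400 497))) (merge (node 399 (merge (leaf 4 399 431) (node 432 (merge (leaf 6 400 433) (node 400 (merge (leaf 7 367 367) (leaf 5 367 368))))))) (node 466 (merge (leaf 1 463 467) (node 498 (merge (leaf 0 463 499) (node 434 (merge (leaf 2 431 435) (node 402 (merge (leaf 7 369 369) (node 497 (merge (leaf 5 369 370) (leaf 5 401 529)))))))))))))))))) (node 463 (merge (node 466 (merge (leaf 1 463 467) (node 434 (merge (leaf 2 431 435) (node 433 (merge (leaf 2 430 462) (node 401 (merge (leaf 5 368 369) (leaf 6 400 432))))))))) (merge (node 462 (merge (node 461 (merge (leaf 0 460 460) (node 429 (merge (leaf 3 428 428) (leaf 3 429 430))))) (node 433 (merge (leaf 2 430 434) (node 401 (merge (leaf 5 368 369) (leaf 5 400 497))))))) (merge (node 466 (merge (leaf 1 463 467) (node 498 (merge (leaf 0 463 499) (node 462 (merge (leaf 0 462 497) (node 461 (merge (leaf 0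 460 460) (node 429 (merge (leaf 3 428 428) (leaf 3 429 430))))))))))) (node 401 (merge (node 433 (merge (leaf 5 368 369) (leaf 5 400 497))) (merge (node 432 (merge (leaf 6 400 433) (node 400 (merge (leaf 5 367 368) (leaf 6 368 369))))) (merge (node 433 (merge (leaf 6 400 432) (leaf 5 400 497))) (node 466 (merge (leaf 1 463 467) (node 498 (merge (leaf 0 463 499) (node 434 (merge (leaf 2 431 435) (node 402 (merge (leaf 7 369 369) (node 497 (merge (leaf 5 369 370) (leaf 5 401 529)))))))))))))))))))))))))))) (merge (node 497 (merge (node 494 (merge (node 465 (merge (leaf 2 462 466) (leaf 2 461 493))) (merge (node 529 (merge (leaf 0 493 493) (leaf 0 494 530))) (node 530 (merge (leaf 0 494 529) (node 498 (merge (leaf 0 495 531) (node 466 (merge (leaf 2 462 465) (leaf 2 463 467)))))))))) (merge (node 494 (merge (node 493 (merge (leaf 2 461 465) (leaf 0 493 529))) (merge (node 530 (merge (leaf 0 494 529) (node 498 (merge (leaf 0 495 531) (node 462 (merge (leaf 3 461 461) (leaf 3 462 463))))))) (node 525 (merge (leaf 1 493 526) (node 493 (merge (leaf 2 461 465) (leaf 1 492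 524)))))))) (merge (node 494 (merge (node 465 (merge (leaf 2 462 466) (leaf 2 461 493))) (merge (node 529 (merge (leaf 0 493 493) (leaf 0 494 530))) (node 530 (merge (leaf 0 494 529) (node 498 (merge (leaf 0 495 531) (node 465 (merge (leaf 2 462 466) (node 499 (merge (leaf 3 463 463) (leaf 3 464 500)))))))))))) (merge (node 498 (merge (node 499 (merge (leaf 3 463 463) (node 500 (merge (leaf 3 464 465) (leaf 1 496 529))))) (merge (node 467 (merge (leaf 2 463 466) (node 499 (merge (leaf 2 464 468) (node 463 (merge (leaf 3 462 462) (leaf 3 463 464))))))) (merge (node 467 (merge (leaf 2 463 466) (node 499 (merge (leaf 2 464 468) (node 500 (merge (leaf 3 464 465) (leaf 1 496 529))))))) (node 466 (merge (leaf 2 463 467) (node 463 (merge (leaf 3 462 462) (node 431 (merge (leaf 4 399 399) (node 465 (merge (leaf 3 430 430) (node 434 (merge (leaf 2 431 435) (node 402 (merge (leaf 5 369 370) (leaf 5 401 529))))))))))))))))) (merge (node 466 (merge (node 465 (merge (leaf 1 463 467) (leaf 2 462 494))) (merge (node 498 (merge (leaf 2 463 467) (node 531 (merge (leaf 0 495 530)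 (node 499 (merge (leaf 3 463 463) (leaf 0 496 532))))))) (node 494 (merge (leaf 2 462 465) (node 526 (merge (leaf 1 493 525) (node 462 (merge (leaf 3 461 461) (node 463 (merge (leaf 3 462 498) (node 431 (merge (leaf 4 399 399) (leaf 6 430 558)))))))))))))) (merge (node 529 (merge (node 530 (merge (leaf 0 494 494) (leaf 3 495 531))) (merge (node 494 (merge (leaf 0 493 493) (node 462 (merge (leaf 3 461 461) (node 498 (merge (leaf 3 462 463) (node 499 (merge (leaf 1 496 500) (node 467 (merge (leaf 2 463 466) (leaf 2 464 468))))))))))) (node 498 (merge (node 531 (merge (leaf 0 495 530) (node 499 (merge (leaf 1 496 500) (leaf 0 496 532))))) (merge (node 466 (merge (leaf 2 463 467) (node 434 (merge (leaf 5 401 402) (node 561 (merge (leaf 5 433 530) (leaf 6 465 593))))))) (node 499 (merge (leaf 1 496 500) (node 531 (merge (leaf 0 496 532) (node 467 (merge (leaf 2 464 468) (node 466 (merge (leaf 2 463 495) (node 434 (merge (leaf 4 402 402) (leaf 7 434 563))))))))))))))))) (node 494 (merge (node 529 (merge (leaf 0 493 493) (leaf 0 494 530))) (node 465 (merge (leaf 2 462 466)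 (node 462 (merge (leaf 3 461 461) (node 433 (merge (leaf 5 400 401) (node 463 (merge (leaf 2 430 434) (node 430 (merge (leaf 3 429 429) (node 398 (merge (leaf 4 366 366) (node 399 (merge (leaf 6 366 367) (leaf 4 399 431)))))))))))))))))))))))) (node 463 (merge (node 432 (merge (node 399 (merge (leaf 4 399 431) (node 400 (merge (leaf 7 367 367) (leaf 5 367 368))))) (node 433 (merge (leaf 6 400 401) (node 462 (merge (leaf 2 429 461) (node 434 (merge (leaf 1 431 435) (leaf 2 430 465))))))))) (merge (node 465 (merge (node 466 (merge (leaf 1 463 467) (leaf 1 462 494))) (merge (node 466 (merge (leaf 1 463 467) (node 434 (merge (leaf 2 431 435) (node 433 (merge (leaf 2 430 462) (node 401 (merge (leaf 5 368 369) (leaf 6 400 432))))))))) (node 433 (merge (node 401 (merge (leaf 5 368 369) (leaf 6 400 432))) (merge (node 462 (merge (leaf 2 430 434) (node 493 (merge (leaf 1 461 494) (node 461 (merge (leaf 2 429 432) (leaf 1 460 492))))))) (node 462 (merge (leaf 2 430 434) (node 493 (merge (leaf 1 461 494) (node 461 (merge (leaf 1 460 492) (node 429 (merge (leaf 3 428 428) (leaf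 3 429 430))))))))))))))) (merge (node 462 (merge (node 461 (merge (leaf 0 460 460) (node 493 (merge (leaf 1 460 492) (node 494 (merge (leaf 2 461 465) (leaf 0 493 529))))))) (merge (node 461 (merge (leaf 0 460 460) (node 429 (merge (leaf 3 428 428) (node 465 (merge (leaf 3 429 430) (node 466 (merge (leaf 1 463 467) (leaf 1 462 494))))))))) (merge (node 461 (merge (leaf 0 460 460) (node 493 (merge (leaf 1 460 492) (node 494 (merge (leaf 0 493 529) (node 429 (merge (leaf 3 428 428) (node 397 (merge (leaf 4 365 365) (leaf 4 397 526))))))))))) (merge (node 461 (merge (leaf 0 460 460) (node 493 (merge (leaf 1 460 492) (node 429 (merge (leaf 3 428 428) (node 430 (merge (leaf 3 429 465) (node 398 (merge (leaf 4 366 366) (leaf 6 397 525))))))))))) (node 465 (merge (node 431 (merge (leaf 4 399 399) (node 466 (merge (leaf 3 430 430) (leaf 1 463 467))))) (merge (node 494 (merge (leaf 1 461 493) (node 466 (merge (leaf 1 462 495) (node 499 (merge (leaf 0 463 498) (node 467 (merge (leaf 0 464 500) (node 435 (merge (leaf 2 431 434) (leaf 2 432 436))))))))))) (node 494 (merge (leaf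 1 461 493) (node 430 (merge (leaf 3 429 429) (node 398 (merge (leaf 4 366 366) (node 399 (merge (leaf 6 366 367) (leaf 4 399 431))))))))))))))))) (merge (node 494 (merge (node 493 (merge (leaf 2 460 492) (leaf 0 493 529))) (node 462 (merge (node 461 (merge (leaf 0 460 460) (node 432 (merge (leaf 2 429 433) (node 399 (merge (leaf 4 399 431) (node 400 (merge (leaf 7 367 367) (leaf 5 367 368))))))))) (merge (node 430 (merge (node 398 (merge (leaf 4 366 366) (node 399 (merge (leaf 6 366 367) (leaf 4 399 431))))) (merge (node 431 (merge (leaf 4 399 399) (node 429 (merge (leaf 0 428 428) (node 526 (merge (leaf 7 397 397) (leaf 6 430 558))))))) (node 398 (merge (leaf 4 366 366) (node 397 (merge (leaf 7 365 365) (node 526 (merge (leaf 7 397 429) (node 557 (merge (leaf 5 429 525) (node 558 (merge (leaf 5 461 589) (leaf 6 462 590)))))))))))))) (merge (node 461 (merge (leaf 0 460 460) (node 432 (merge (leaf 2 429 433) (node 429 (merge (leaf 3 428 428) (node 400 (merge (leaf 5 367 368) (node 401 (merge (leaf 6 368 369) (node 430 (merge (leaf 2 397 431) (node 526 (merge (leaf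 7 397 397) (leaf 7 429 558))))))))))))))) (node 461 (merge (leaf 0 460 460) (node 429 (merge (leaf 3 428 428) (node 397 (merge (leaf 4 365 365) (node 526 (merge (leaf 7 397 430) (leaf 7 429 558))))))))))))))) (node 432 (merge (node 399 (merge (leaf 4 399 431) (node 400 (merge (leaf 7 367 367) (leaf 5 367 368))))) (merge (node 431 (merge (leaf 4 399 399) (node 433 (merge (leaf 6 400 401) (node 434 (merge (leaf 1 431 435) (node 466 (merge (leaf 0 431 467) (node 465 (merge (leaf 0 430 430) (leaf 1 462 494))))))))))) (merge (node 401 (merge (leaf 6 400 433) (node 400 (merge (leaf 6 368 369) (node 368 (merge (leaf 5 367 463) (node 367 (merge (leaf 7 335 335) (leaf 7 367 399))))))))) (node 529 (merge (leaf 4 432 561) (node 494 (merge (leaf 0 493 493) (node 466 (merge (leaf 1 462 465) (node 531 (merge (leaf 3 495 530) (node 433 (merge (leaf 6 400 401) (node 434 (merge (leaf 1 431 435) (node 467 (merge (leaf 0 431 431) (node 499 (merge (leaf 7 434 563) (node 402 (merge (leaf 4 370 370) (leaf 4 402 498)))))))))))))))))))))))))))))))))) nJ_16 cJ_16 13 (by decide +kernel)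
def nJ_17 : ℕ := 0x1800000010000000000000000000000000000000000000000000000000000000000000000000000000000000000000000000000000000000000000000000000000000
def cJ_17 : ℕ := 0x1e0000003e0000002f000000e70000000f0000007f000000ff0000003e000000000000000000000000000000000000000000000000000000000000000000000000000000000000000000000000000
theorem lJ_17 : S nJ_17 cJ_17 11 := S_of_chk [] trivial (node 495 (merge (node 559 (merge (node 591 (merge (leaf 6 463 464) (leaf 6 495 623))) (node 463 (merge (node 431 (merge (leaf 4 399 399) (node 430 (merge (leaf 7 398 398) (leaf 7 430 462))))) (merge (node 431 (merge (leaf 4 399 399) (node 558 (merge (leaf 5 430 526) (leaf 5 462 590))))) (node 558 (merge (leaf 5 462 590) (node 529 (merge (leaf 1 526 530) (node 557 (merge (leaf 1 525 526) (leaf 2 524 556)))))))))))) (merge (node 559 (merge (node 591 (merge (leaf 6 463 464) (leaf 6 495 623))) (merge (node 591 (merge (leaf 6 495 623) (node 494 (merge (leaf 7 462 462) (node 493 (merge (leaf 0 492 492) (leaf 0 493 529))))))) (node 463 (merge (node 431 (merge (leaf 4 399 399) (node 432 (merge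 (leaf 6 399 400) (leaf 6 431 464))))) (merge (node 431 (merge (leaf 4 399 399) (node 430 (merge (leaf 7 398 398) (leaf 7 430 462))))) (node 464 (merge (leaf 5 431 432) (node 462 (merge (leaf 7 430 430) (node 461 (merge (leaf 0 460 460) (node 493 (merge (leaf 1 460 492) (node 494 (merge (leaf 1 461 465) (leaf 0 493 529))))))))))))))))) (merge (node 559 (merge (node 591 (merge (leaf 6 463 464) (leaf 6 495 623))) (merge (node 591 (merge (leaf 6 495 623) (node 494 (merge (leaf 7 462 462) (node 493 (merge (leaf 0 492 492) (leaf 0 493 529))))))) (node 463 (merge (node 432 (merge (leaf 6 431 464) (node 431 (merge (leaf 6 399 400) (node 430 (merge (leaf 7 398 398) (leaf 7 430 462))))))) (node 558 (merge (leaf 5 462 590) (node 557 (merge (leaf 2 524 556) (node 529 (merge (leaf 1 525 526) (leaf 1 526 530)))))))))))) (merge (node 526 (merge (node 525 (merge (leaf 2 492 524) (node 557 (merge (leaf 1 524 556) (node 529 (merge (leaf 1 525 558) (node 530 (merge (leaf 3 494 494) (leaf 3 495 531))))))))) (merge (node 525 (merge (leaf 2 492 524) (node 493 (merge (leaf 3 492 492) (node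 494 (merge (leaf 0 493 529) (node 461 (merge (leaf 3 460 460) (node 558 (merge (leaf 4 429 429) (leaf 7 461 590))))))))))) (merge (node 529 (merge (node 530 (merge (leaf 3 494 494) (leaf 3 495 531))) (merge (node 558 (merge (leaf 1 525 557) (node 530 (merge (leaf 3 495 531) (leaf 1 526 559))))) (node 494 (merge (leaf 0 493 493) (node 558 (merge (leaf 1 525 557) (node 590 (merge (leaf 6 462 463) (leaf 6 494 622)))))))))) (merge (node 525 (merge (leaf 2 492 524) (node 557 (merge (leaf 1 524 556) (node 493 (merge (leaf 3 492 492) (node 494 (merge (leaf 0 493 529) (node 589 (merge (leaf 6 461 462) (leaf 6 493 621))))))))))) (node 558 (merge (node 590 (merge (leaf 6 494 622) (node 463 (merge (leaf 5 430 431) (leaf 5 462 559))))) (merge (node 525 (merge (leaf 2 492 524) (node 493 (merge (leaf 3 492 492) (node 461 (merge (leaf 4 429 429) (node 590 (merge (leaf 4 461 557) (leaf 6 494 622))))))))) (node 525 (merge (leaf 2 492 524) (node 557 (merge (leaf 1 524 556) (node 493 (merge (leaf 3 492 492) (node 461 (merge (leaf 4 429 429) (node 463 (merge (leaf 5 430 431) (node 460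 (merge (leaf 7 428 428) (leaf 0 460 462))))))))))))))))))))) (merge (node 464 (merge (node 559 (merge (leaf 5 431 432) (leaf 6 463 591))) (merge (node 432 (merge (leaf 5 399 400) (node 529 (merge (leaf 4 432 561) (node 530 (merge (leaf 3 494 494) (leaf 3 495 531))))))) (node 591 (merge (leaf 6 463 559) (node 526 (merge (node 525 (merge (leaf 2 492 524) (node 493 (merge (leaf 3 492 492) (node 494 (merge (leaf 2 461 465) (leaf 0 493 529))))))) (merge (node 525 (merge (leaf 2 492 524) (node 557 (merge (leaf 1 524 556) (node 529 (merge (leaf 1 525 558) (node 530 (merge (leaf 3 494 494) (leaf 3 495 531))))))))) (merge (node 494 (merge (node 493 (merge (leaf 2 461 465) (leaf 0 492 492))) (node 529 (merge (leaf 3 494 530) (node 558 (merge (leaf 1 525 557) (node 590 (merge (leaf 6 494 622) (leaf 4 494 623))))))))) (merge (node 525 (merge (leaf 2 492 524) (node 557 (merge (leaf 1 524 556) (node 558 (merge (leaf 1 525 529) (node 493 (merge (leaf 3 492 492) (node 590 (merge (leaf 4 461 461) (leaf 6 494 622))))))))))) (node 525 (merge (leaf 2 492 524) (node 493 (merge (leaf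 3 492 492) (node 494 (merge (leaf 2 461 465) (node 461 (merge (leaf 3 460 460) (node 429 (merge (leaf 4 397 397) (leaf 4 429 558))))))))))))))))))))) (merge (node 559 (merge (node 591 (merge (leaf 6 463 464) (leaf 6 495 623))) (merge (node 591 (merge (leaf 6 495 623) (node 592 (merge (leaf 4 495 624) (node 590 (merge (leaf 5 494 622) (node 558 (merge (leaf 5 462 463) (node 557 (merge (leaf 0 556 556) (leaf 3 557 593))))))))))) (node 463 (merge (node 431 (merge (leaf 4 399 399) (node 432 (merge (leaf 6 399 400) (leaf 6 431 464))))) (merge (node 431 (merge (leaf 4 399 399) (node 430 (merge (leaf 7 398 398) (leaf 7 430 462))))) (node 464 (merge (leaf 5 431 432) (node 558 (merge (leaf 5 462 590) (node 462 (merge (leaf 7 430 430) (node 461 (merge (leaf 0 460 460) (node 493 (merge (leaf 1 460 492) (node 494 (merge (leaf 1 461 465) (node 429 (merge (leaf 3 428 428) (leaf 7 429 526))))))))))))))))))))) (node 464 (merge (node 432 (merge (leaf 5 399 400) (node 529 (merge (leaf 4 432 561) (node 530 (merge (leaf 3 494 494) (leaf 3 495 531))))))) (merge (node 463 (merge (node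 432 (merge (leaf 5 399 400) (node 433 (merge (leaf 6 400 401) (node 434 (merge (leaf 1 431 435) (node 462 (merge (leaf 2 429 461) (leaf 2 430 465))))))))) (merge (node 431 (merge (leaf 4 399 399) (node 430 (merge (leaf 7 398 398) (node 429 (merge (leaf 0 428 428) (node 465 (merge (leaf 3 429 462) (leaf 3 430 466))))))))) (merge (node 431 (merge (leaf 4 399 399) (node 432 (merge (leaf 5 399 400) (node 433 (merge (leaf 6 400 401) (node 461 (merge (leaf 2 429 462) (node 430 (merge (leaf 7 398 398) (node 429 (merge (leaf 0 428 428) (leaf 1 428 460))))))))))))) (node 431 (merge (leaf 4 399 399) (node 432 (merge (leaf 5 399 400) (node 430 (merge (leaf 7 398 398) (node 429 (merge (leaf 0 428 428) (leaf 0 429 465))))))))))))) (node 463 (merge (node 431 (merge (leaf 4 399 399) (node 430 (merge (leaf 7 398 398) (node 429 (merge (leaf 0 428 428) (node 465 (merge (leaf 3 429 462) (leaf 3 430 466))))))))) (merge (node 431 (merge (leaf 4 399 399) (node 526 (merge (leaf 5 430 558) (node 525 (merge (leaf 2 492 524) (node 493 (merge (leaf 3 492 492) (node 494 (merge (leaf 2 461 465)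 (leaf 0 493 529))))))))))) (merge (node 431 (merge (leaf 4 399 399) (node 526 (merge (leaf 5 430 558) (node 525 (merge (leaf 2 492 524) (node 557 (merge (leaf 1 524 556) (node 493 (merge (leaf 3 492 492) (node 494 (merge (leaf 0 493 529) (node 430 (merge (leaf 7 398 398) (leaf 5 429 462))))))))))))))) (node 526 (merge (node 525 (merge (leaf 2 492 524) (node 493 (merge (leaf 3 492 492) (node 494 (merge (leaf 2 461 465) (leaf 0 493 529))))))) (merge (node 525 (merge (leaf 2 492 524) (node 557 (merge (leaf 1 524 556) (node 529 (merge (leaf 1 525 558) (node 530 (merge (leaf 3 494 494) (leaf 3 495 531))))))))) (merge (node 494 (merge (node 493 (merge (leaf 2 461 465) (leaf 0 492 492))) (merge (node 558 (merge (leaf 6 462 590) (node 529 (merge (leaf 3 494 530) (leaf 1 525 557))))) (node 529 (merge (leaf 0 493 493) (leaf 3 494 530)))))) (merge (node 525 (merge (leaf 2 492 524) (node 557 (merge (leaf 1 524 556) (node 558 (merge (leaf 1 525 529) (node 493 (merge (leaf 3 492 492) (node 461 (merge (leaf 4 429 429) (node 460 (merge (leaf 7 428 428) (leaf 0 460 462)))))))))))))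 (node 525 (merge (leaf 2 492 524) (node 493 (merge (leaf 3 492 492) (node 494 (merge (leaf 2 461 465) (node 461 (merge (leaf 3 460 460) (node 429 (merge (leaf 4 397 397) (leaf 4 429 558)))))))))))))))))))))))))))))) nJ_17 cJ_17 11 (by decide +kernel)
def nJ_18 : ℕ := 0x1c00000010000000000000000000000000000000000000000000000000000000000000000000000000000000000000000000000000000000000000000000000000000
def cJ_18 : ℕ := 0xa0000003e0000002f80000060000000e78000007f8000007f0000003e0000002e0000000200000000000000000000000000000000000000000000000000000000000000000000000000000000000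
theorem lJ_18 : S nJ_18 cJ_18 12 := S_of_chk [] trivial (node 494 (merge (node 529 (merge (leaf 3 493 493) (node 558 (merge (leaf 1 525 557) (node 559 (merge (leaf 1 526 530) (node 591 (merge (leaf 4 462 462) (leaf 6 495 623))))))))) (merge (node 529 (merge (leaf 3 493 493) (node 498 (merge (leaf 2 494 497) (node 530 (merge (leaf 2 495 499) (node 558 (merge (leaf 1 525 557) (leaf 1 526 559))))))))) (merge (node 464 (merge (node 432 (merge (leaf 5 431 559) (node 401 (merge (leaf 6 400 433) (node 400 (merge (leaf 6 368 369) (node 399 (merge (leaf 7 367 367) (leaf 7 399 431))))))))) (merge (node 432 (merge (leaf 5 431 559) (node 529 (merge (leaf 4 432 561) (node 497 (merge (leaf 4 400 400) (leaf 2 494 498))))))) (merge (node 529 (merge (leaf 3 493 493) (node 497 (merge (leaf 2 494 498) (node 432 (merge (leaf 4 400 400) (leaf 4 432 561))))))) (node 462 (merge (node 430 (merge (leaf 4 430 559) (node 399 (merge (leaf 6 398 431) (node 398 (merge (leaf 6 366 367) (node 397 (merge (leaf 7 365 365) (leaf 7 397 429))))))))) (merge (node 493 (merge (leaf 3 493 529) (node 492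 (merge (leaf 0 491 491) (node 463 (merge (leaf 1 460 461) (leaf 1 461 465))))))) (node 529 (merge (leaf 3 493 493) (node 497 (merge (leaf 2 494 498) (node 463 (merge (leaf 0 461 461) (node 430 (merge (leaf 4 430 559) (node 431 (merge (leaf 6 398 399) (node 465 (merge (leaf 3 430 466) (node 433 (merge (leaf 5 400 401) (leaf 2 430 434)))))))))))))))))))))) (merge (node 558 (merge (node 529 (merge (leaf 1 525 557) (node 498 (merge (leaf 2 494 497) (node 530 (merge (leaf 2 495 499) (leaf 1 526 559))))))) (merge (node 462 (merge (node 559 (merge (leaf 4 430 430) (node 591 (merge (leaf 4 462 558) (leaf 6 495 623))))) (node 463 (merge (leaf 6 430 431) (node 461 (merge (leaf 7 429 429) (node 497 (merge (leaf 0 461 464) (node 498 (merge (leaf 1 495 499) (leaf 2 494 529))))))))))) (merge (node 557 (merge (leaf 1 525 529) (node 462 (merge (leaf 5 461 589) (node 431 (merge (leaf 6 430 463) (node 430 (merge (leaf 6 398 399) (node 429 (merge (leaf 7 397 397) (leaf 7 429 461))))))))))) (node 591 (merge (node 623 (merge (leaf 6 495 559) (leaf 4 494 590))) (merge (node 590 (merge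 (leaf 4 494 623) (node 589 (merge (leaf 5 493 621) (node 557 (merge (leaf 5 461 462) (node 592 (merge (leaf 3 556 556) (leaf 3 557 593))))))))) (node 462 (merge (leaf 4 462 559) (node 431 (merge (leaf 6 430 463) (node 430 (merge (leaf 6 398 399) (node 429 (merge (leaf 7 397 397) (leaf 7 429 461)))))))))))))))) (merge (node 462 (merge (node 559 (merge (leaf 4 430 430) (node 591 (merge (leaf 4 462 558) (leaf 6 495 623))))) (merge (node 430 (merge (leaf 4 430 559) (node 399 (merge (leaf 6 398 431) (node 398 (merge (leaf 6 366 367) (node 397 (merge (leaf 7 365 365) (leaf 7 397 429))))))))) (merge (node 558 (merge (node 591 (merge (leaf 4 462 559) (node 590 (merge (leaf 4 494 623) (node 461 (merge (leaf 7 429 429) (leaf 7 461 493))))))) (merge (node 557 (merge (leaf 5 461 589) (node 556 (merge (leaf 2 523 555) (leaf 2 524 559))))) (node 589 (merge (leaf 5 461 557) (node 590 (merge (leaf 5 493 621) (node 461 (merge (leaf 7 429 429) (leaf 7 461 493)))))))))) (node 431 (merge (node 430 (merge (leaf 6 398 399) (node 429 (merge (leaf 7 397 397) (node 461 (merge (leaf 7 429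 558) (node 460 (merge (leaf 1 428 432) (leaf 2 427 459))))))))) (merge (node 558 (merge (leaf 6 430 463) (node 589 (merge (leaf 5 461 557) (node 590 (merge (leaf 5 493 621) (node 461 (merge (leaf 7 429 429) (leaf 7 461 493))))))))) (node 399 (merge (leaf 6 398 430) (node 463 (merge (leaf 5 366 367) (node 464 (merge (leaf 7 399 432) (node 465 (merge (leaf 1 461 493) (node 433 (merge (leaf 2 430 434) (node 401 (merge (leaf 5 368 369) (leaf 5 400 497)))))))))))))))))))) (node 462 (merge (node 529 (merge (leaf 3 493 493) (node 558 (merge (leaf 1 525 557) (node 497 (merge (leaf 2 494 498) (node 461 (merge (leaf 7 429 429) (node 464 (merge (leaf 0 461 463) (node 561 (merge (leaf 4 432 432) (leaf 7 464 593))))))))))))) (merge (node 430 (merge (node 399 (merge (leaf 6 398 431) (node 398 (merge (leaf 6 366 367) (node 397 (merge (leaf 7 365 365) (leaf 7 397 429))))))) (merge (node 431 (merge (leaf 6 398 399) (node 558 (merge (leaf 6 430 463) (node 557 (merge (leaf 1 525 529) (leaf 5 461 589))))))) (node 429 (merge (leaf 7 397 397) (node 558 (merge (leaf 7 429 461) (node 557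 (merge (leaf 1 525 529) (leaf 5 461 589)))))))))) (merge (node 529 (merge (leaf 3 493 493) (node 558 (merge (leaf 1 525 557) (node 497 (merge (leaf 2 494 498) (node 431 (merge (leaf 6 430 463) (node 430 (merge (leaf 6 398 399) (node 397 (merge (leaf 7 397 429) (node 398 (merge (leaf 7 365 365) (node 432 (merge (leaf 3 397 433) (node 464 (merge (leaf 4 400 400) (leaf 4 432 561))))))))))))))))))) (merge (node 464 (merge (node 529 (merge (leaf 3 493 493) (node 497 (merge (leaf 2 494 498) (node 432 (merge (leaf 4 400 400) (leaf 4 432 561))))))) (merge (node 493 (merge (leaf 3 493 529) (node 492 (merge (leaf 0 491 491) (node 463 (merge (leaf 1 460 461) (leaf 1 461 465))))))) (merge (node 529 (merge (leaf 3 493 493) (node 432 (merge (leaf 4 432 561) (node 433 (merge (leaf 6 400 401) (node 461 (merge (leaf 2 429 463) (node 431 (merge (leaf 7 399 399) (leaf 1 429 430))))))))))) (merge (node 432 (merge (node 433 (merge (leaf 6 400 401) (node 461 (merge (leaf 2 429 463) (node 431 (merge (leaf 7 399 399) (leaf 1 429 430))))))) (merge (node 529 (merge (leaf 4 432 561) (node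 497 (merge (leaf 4 400 400) (leaf 2 494 498))))) (node 529 (merge (leaf 4 432 561) (node 497 (merge (leaf 4 400 400) (leaf 2 494 498)))))))) (node 463 (merge (node 465 (merge (leaf 1 461 493) (node 433 (merge (leaf 2 430 434) (node 432 (merge (leaf 6 400 401) (leaf 2 429 461))))))) (merge (node 465 (merge (leaf 1 461 493) (node 430 (merge (leaf 3 429 429) (node 431 (merge (leaf 6 398 399) (leaf 3 430 466))))))) (node 461 (merge (leaf 0 461 497) (node 429 (merge (leaf 3 428 428) (node 430 (merge (leaf 7 397 397) (node 431 (merge (leaf 6 398 399) (node 460 (merge (leaf 1 428 432) (leaf 2 427 459))))))))))))))))))) (merge (node 529 (merge (leaf 3 493 493) (node 558 (merge (leaf 1 525 557) (node 497 (merge (leaf 2 494 498) (node 463 (merge (leaf 6 430 431) (node 464 (merge (leaf 0 461 461) (node 432 (merge (leaf 4 400 400) (leaf 4 432 561))))))))))))) (merge (node 430 (merge (node 399 (merge (leaf 6 398 431) (node 398 (merge (leaf 6 366 367) (node 397 (merge (leaf 7 365 365) (leaf 7 397 429))))))) (merge (node 429 (merge (leaf 7 397 397) (node 558 (merge (leaf 7 429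 461) (node 557 (merge (leaf 1 525 529) (leaf 5 461 589))))))) (merge (node 493 (merge (leaf 3 493 529) (node 399 (merge (leaf 6 398 431) (node 398 (merge (leaf 6 366 367) (node 366 (merge (leaf 5 365 461) (node 365 (merge (leaf 7 333 333) (leaf 7 365 397))))))))))) (node 529 (merge (leaf 3 493 493) (node 558 (merge (leaf 1 525 557) (node 497 (merge (leaf 2 494 498) (node 431 (merge (leaf 6 398 399) (node 461 (merge (leaf 7 429 429) (node 432 (merge (leaf 1 429 433) (node 464 (merge (leaf 4 400 400) (leaf 4 432 561))))))))))))))))))) (node 431 (merge (node 430 (merge (leaf 6 398 399) (node 429 (merge (leaf 7 397 397) (node 461 (merge (leaf 7 429 558) (node 460 (merge (leaf 1 428 432) (leaf 2 427 459))))))))) (merge (node 558 (merge (leaf 6 430 463) (node 589 (merge (leaf 5 461 557) (node 590 (merge (leaf 5 493 621) (node 461 (merge (leaf 7 429 429) (leaf 7 461 493))))))))) (node 399 (merge (leaf 6 398 430) (node 463 (merge (leaf 5 366 367) (node 464 (merge (leaf 7 399 432) (node 465 (merge (leaf 1 461 493) (node 433 (merge (leaf 2 430 434) (node 401 (merge (leaf 5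 368 369) (leaf 5 400 497))))))))))))))))))))))))))))) nJ_18 cJ_18 12 (by decide +kernel)
def nJ_19 : ℕ := 0x1800000010000000000000000000000000000000000000000000000000000000000000000000000000000000000000000000000000000000000000000000000000000
def cJ_19 : ℕ := 0x50000001f0000003f8000000f80000007000000ef000000ff0000007f0000003f000000060000000000000000000000000000000000000000000000000000000000000000000000000000000000000000000
theorem lJ_19 : S nJ_19 cJ_19 13 := S_of_chk [] trivial (node 495 (merge (node 494 (merge (node 493 (merge (leaf 0 492 492) (node 464 (merge (leaf 2 461 465) (node 559 (merge (leaf 5 431 432) (leaf 6 463 591))))))) (merge (node 493 (merge (leaf 0 492 492) (node 461 (merge (leaf 3 460 460) (node 497 (merge (leaf 3 461 462) (node 498 (merge (leaf 1 495 499) (leaf 1 494 526))))))))) (node 497 (merge (node 466 (merge (leaf 2 462 465) (node 498 (merge (leaf 2 463 467) (leaf 1 495 499))))) (node 462 (merge (leaf 3 461 461) (node 430 (merge (leaf 4 398 398) (node 559 (merge (leaf 4 430 526) (leaf 7 462 591)))))))))))) (merge (node 559 (merge (node 591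 (merge (leaf 6 463 464) (leaf 6 495 623))) (merge (node 591 (merge (leaf 6 495 623) (node 592 (merge (leaf 4 495 624) (node 590 (merge (leaf 5 494 622) (node 558 (merge (leaf 5 462 463) (node 557 (merge (leaf 0 556 556) (leaf 3 557 593))))))))))) (node 463 (merge (node 431 (merge (leaf 4 399 399) (node 432 (merge (leaf 6 399 400) (leaf 6 431 464))))) (merge (node 431 (merge (leaf 4 399 399) (node 430 (merge (leaf 7 398 398) (leaf 7 430 462))))) (node 462 (merge (leaf 7 430 430) (node 461 (merge (leaf 0 460 460) (node 497 (merge (leaf 0 461 464) (leaf 3 462 498))))))))))))) (merge (node 559 (merge (node 591 (merge (leaf 6 463 464) (leaf 6 495 623))) (merge (node 591 (merge (leaf 6 495 623) (node 592 (merge (leaf 4 495 624) (node 590 (merge (leaf 5 494 622) (node 558 (merge (leaf 5 462 463) (node 557 (merge (leaf 0 556 556) (leaf 3 557 593))))))))))) (node 463 (merge (node 431 (merge (leaf 4 399 399) (node 432 (merge (leaf 6 399 400) (leaf 6 431 464))))) (merge (node 431 (merge (leaf 4 399 399) (node 430 (merge (leaf 7 398 398) (leaf 7 430 462))))) (node 464 (merge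 (leaf 5 431 432) (node 558 (merge (leaf 5 462 590) (node 462 (merge (leaf 7 430 430) (node 461 (merge (leaf 0 460 460) (node 493 (merge (leaf 1 460 492) (node 494 (merge (leaf 1 461 465) (node 429 (merge (leaf 3 428 428) (leaf 7 429 526))))))))))))))))))))) (merge (node 494 (merge (node 493 (merge (leaf 0 492 492) (node 464 (merge (leaf 2 461 465) (node 559 (merge (leaf 5 431 432) (leaf 6 463 591))))))) (merge (node 493 (merge (leaf 0 492 492) (node 461 (merge (leaf 3 460 460) (node 497 (merge (leaf 3 461 462) (node 498 (merge (leaf 1 495 499) (leaf 1 494 526))))))))) (node 497 (merge (node 526 (merge (leaf 1 494 498) (leaf 2 493 525))) (merge (node 466 (merge (leaf 2 462 465) (node 498 (merge (leaf 2 463 467) (leaf 1 495 499))))) (node 526 (merge (leaf 1 493 525) (node 465 (merge (leaf 2 462 466) (node 462 (merge (leaf 3 461 461) (node 433 (merge (leaf 5 400 401) (node 559 (merge (leaf 7 462 591) (node 464 (merge (leaf 5 431 432) (node 463 (merge (leaf 2 430 434) (node 558 (merge (leaf 5 430 431) (leaf 5 462 590))))))))))))))))))))))) (merge (node 497 (merge (node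 526 (merge (leaf 1 494 498) (leaf 2 493 525))) (merge (node 498 (merge (leaf 1 495 499) (node 466 (merge (leaf 2 463 467) (node 494 (merge (leaf 2 462 465) (node 493 (merge (leaf 0 492 492) (node 461 (merge (leaf 3 460 460) (leaf 3 461 462))))))))))) (node 494 (merge (node 493 (merge (leaf 0 492 492) (node 461 (merge (leaf 3 460 460) (leaf 3 461 462))))) (merge (node 525 (merge (leaf 1 493 526) (node 493 (merge (leaf 1 492 524) (node 465 (merge (leaf 2 461 464) (leaf 2 462 466))))))) (node 526 (merge (leaf 1 493 525) (node 465 (merge (leaf 2 462 466) (node 462 (merge (leaf 3 461 461) (node 430 (merge (leaf 4 398 398) (node 429 (merge (leaf 7 397 397) (node 464 (merge (leaf 3 429 463) (node 432 (merge (leaf 5 399 400) (leaf 0 429 431))))))))))))))))))))) (merge (node 494 (merge (node 493 (merge (leaf 0 492 492) (node 464 (merge (leaf 2 461 465) (node 559 (merge (leaf 5 431 432) (leaf 6 463 591))))))) (merge (node 493 (merge (leaf 0 492 492) (node 525 (merge (leaf 1 492 524) (node 526 (merge (leaf 1 493 497) (node 557 (merge (leaf 1 524 556) (node 589 (merge (leaf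 6 461 462) (leaf 6 493 621))))))))))) (node 463 (merge (node 431 (merge (leaf 4 399 399) (node 526 (merge (leaf 5 430 558) (node 525 (merge (leaf 1 493 497) (leaf 2 492 524))))))) (merge (node 431 (merge (leaf 4 399 399) (node 432 (merge (leaf 6 399 400) (node 559 (merge (leaf 5 431 464) (node 591 (merge (leaf 7 462 462) (leaf 6 495 623))))))))) (node 559 (merge (node 591 (merge (leaf 6 495 623) (node 590 (merge (leaf 5 462 558) (leaf 5 494 622))))) (node 464 (merge (leaf 5 431 432) (node 465 (merge (leaf 1 462 466) (node 462 (merge (leaf 7 430 430) (node 497 (merge (leaf 0 462 498) (node 433 (merge (leaf 5 400 401) (leaf 2 430 434))))))))))))))))))) (merge (node 463 (merge (node 431 (merge (leaf 4 399 399) (node 526 (merge (leaf 5 430 558) (node 525 (merge (leaf 2 493 497) (leaf 2 492 524))))))) (merge (node 431 (merge (leaf 4 399 399) (node 432 (merge (leaf 6 399 400) (node 430 (merge (leaf 7 398 398) (node 462 (merge (leaf 7 430 559) (node 461 (merge (leaf 1 429 433) (leaf 0 460 460))))))))))) (node 559 (merge (node 591 (merge (leaf 6 495 623) (node 590 (merge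 (leaf 5 462 558) (leaf 5 494 622))))) (merge (node 591 (merge (leaf 6 495 623) (node 462 (merge (leaf 7 430 430) (leaf 7 462 494))))) (node 558 (merge (leaf 5 462 590) (node 557 (merge (leaf 2 524 556) (node 462 (merge (leaf 7 430 430) (node 497 (merge (leaf 3 462 498) (node 526 (merge (leaf 2 493 525) (node 494 (merge (leaf 3 461 461) (leaf 5 461 589))))))))))))))))))) (merge (node 494 (merge (node 493 (merge (leaf 0 492 492) (node 465 (merge (leaf 2 461 464) (node 497 (merge (leaf 2 462 466) (node 461 (merge (leaf 3 460 460) (leaf 3 461 462))))))))) (merge (node 493 (merge (leaf 0 492 492) (node 525 (merge (leaf 1 492 524) (node 497 (merge (leaf 1 493 526) (node 498 (merge (leaf 1 495 499) (node 466 (merge (leaf 2 462 465) (leaf 2 463 467))))))))))) (merge (node 497 (merge (node 466 (merge (leaf 2 462 465) (node 498 (merge (leaf 2 463 467) (leaf 1 495 499))))) (node 462 (merge (leaf 3 461 461) (node 430 (merge (leaf 4 398 398) (node 559 (merge (leaf 4 430 526) (leaf 7 462 591))))))))) (node 430 (merge (node 462 (merge (leaf 4 398 398) (node 559 (merge (leaf 7 430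 463) (leaf 7 462 591))))) (merge (node 493 (merge (leaf 0 492 492) (node 525 (merge (leaf 1 492 524) (node 461 (merge (leaf 3 460 460) (node 557 (merge (leaf 6 429 462) (node 556 (merge (leaf 1 524 526) (leaf 5 460 588))))))))))) (node 493 (merge (leaf 0 492 492) (node 525 (merge (leaf 1 492 524) (node 461 (merge (leaf 3 460 460) (node 429 (merge (leaf 6 397 398) (node 526 (merge (leaf 4 397 397) (leaf 4 429 558)))))))))))))))))) (node 525 (merge (node 526 (merge (leaf 2 493 497) (leaf 2 492 524))) (merge (node 497 (merge (leaf 2 493 526) (node 432 (merge (node 464 (merge (leaf 5 399 400) (leaf 5 431 559))) (merge (node 498 (merge (leaf 1 495 499) (node 466 (merge (leaf 2 463 467) (node 465 (merge (leaf 2 462 494) (node 433 (merge (leaf 5 400 401) (node 431 (merge (leaf 0 430 430) (node 464 (merge (leaf 7 399 399) (leaf 5 431 559))))))))))))) (node 498 (merge (leaf 1 495 499) (node 466 (merge (leaf 2 463 467) (node 465 (merge (leaf 2 462 494) (node 433 (merge (leaf 5 400 401) (node 431 (merge (leaf 0 430 430) (node 463 (merge (leaf 4 399 399) (leaf 6 399 400))))))))))))))))))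 (node 557 (merge (node 493 (merge (node 494 (merge (leaf 0 492 492) (leaf 1 492 524))) (merge (node 494 (merge (leaf 1 492 524) (node 461 (merge (leaf 3 460 460) (node 590 (merge (leaf 4 461 558) (node 589 (merge (leaf 4 493 622) (node 588 (merge (leaf 5 460 556) (leaf 5 492 620))))))))))) (merge (node 492 (merge (leaf 0 492 494) (node 589 (merge (leaf 7 460 460) (node 590 (merge (leaf 4 493 622) (node 461 (merge (leaf 4 461 558) (node 588 (merge (leaf 5 460 556) (leaf 5 492 620))))))))))) (node 588 (merge (node 556 (merge (leaf 5 460 461) (node 620 (merge (leaf 6 492 524) (leaf 6 524 652))))) (merge (node 461 (merge (leaf 5 460 556) (node 590 (merge (leaf 4 461 558) (node 589 (merge (leaf 4 493 622) (node 460 (merge (leaf 7 428 428) (leaf 7 460 492))))))))) (node 589 (merge (leaf 5 492 620) (node 622 (merge (leaf 4 493 590) (node 621 (merge (leaf 4 525 654) (node 492 (merge (leaf 7 460 460) (leaf 7 492 524)))))))))))))))) (merge (node 493 (merge (node 494 (merge (leaf 0 492 492) (leaf 1 492 524))) (merge (node 494 (merge (leaf 1 492 524) (node 464 (merge (leaf 2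 461 465) (node 559 (merge (leaf 5 431 432) (leaf 6 463 591))))))) (merge (node 492 (merge (leaf 0 492 494) (node 589 (merge (leaf 7 460 460) (node 590 (merge (leaf 4 493 622) (node 558 (merge (leaf 4 461 461) (node 559 (merge (leaf 5 462 463) (node 588 (merge (leaf 2 555 587) (leaf 5 492 620))))))))))))) (node 460 (merge (node 428 (merge (leaf 7 428 461) (node 492 (merge (leaf 4 396 396) (leaf 4 428 524))))) (merge (node 589 (merge (leaf 7 460 492) (node 622 (merge (leaf 4 493 590) (node 621 (merge (leaf 4 525 654) (node 620 (merge (leaf 5 492 588) (leaf 5 524 652))))))))) (node 461 (merge (leaf 7 428 428) (node 590 (merge (leaf 4 461 558) (node 589 (merge (leaf 4 493 622) (node 620 (merge (leaf 5 492 588) (node 621 (merge (leaf 5 524 652) (node 591 (merge (leaf 1 588 592) (node 559 (merge (leaf 6 463 464) (leaf 6 495 623)))))))))))))))))))))) (merge (node 559 (merge (node 591 (merge (leaf 6 463 464) (leaf 6 495 623))) (merge (node 558 (merge (leaf 2 524 556) (node 432 (merge (leaf 5 431 464) (node 463 (merge (leaf 5 462 590) (node 431 (merge (leaf 4 399 399) (leaf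 6 399 400))))))))) (node 558 (merge (leaf 2 524 556) (node 591 (merge (leaf 6 495 623) (node 592 (merge (leaf 4 495 624) (node 590 (merge (leaf 3 557 593) (leaf 5 494 622)))))))))))) (merge (node 493 (merge (node 494 (merge (leaf 0 492 492) (leaf 1 492 524))) (merge (node 494 (merge (leaf 1 492 524) (node 464 (merge (leaf 2 461 465) (node 559 (merge (leaf 5 431 432) (leaf 6 463 591))))))) (merge (node 494 (merge (leaf 0 492 492) (node 461 (merge (leaf 3 460 460) (node 556 (merge (leaf 5 460 588) (node 559 (merge (leaf 2 524 558) (node 591 (merge (leaf 6 463 464) (leaf 6 495 623))))))))))) (node 559 (merge (node 464 (merge (leaf 5 431 432) (leaf 6 463 591))) (merge (node 556 (merge (leaf 2 524 558) (node 432 (merge (leaf 5 431 464) (node 461 (merge (leaf 5 460 588) (node 429 (merge (leaf 5 428 524) (node 430 (merge (leaf 6 397 398) (node 460 (merge (leaf 7 428 428) (leaf 1 428 431))))))))))))) (node 556 (merge (leaf 2 524 558) (node 461 (merge (leaf 5 460 588) (node 429 (merge (leaf 5 428 524) (node 398 (merge (leaf 6 397 430) (node 397 (merge (leaf 6 365 366) (node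 460 (merge (leaf 7 428 428) (node 492 (merge (leaf 5 364 365) (leaf 7 460 589)))))))))))))))))))))) (node 493 (merge (node 494 (merge (leaf 0 492 492) (leaf 1 492 524))) (merge (node 494 (merge (leaf 1 492 524) (node 464 (merge (leaf 2 461 465) (node 559 (merge (leaf 5 431 432) (leaf 6 463 591))))))) (merge (node 492 (merge (leaf 0 492 494) (node 589 (merge (leaf 7 460 460) (node 590 (merge (leaf 4 493 622) (node 588 (merge (leaf 5 492 620) (node 556 (merge (leaf 5 460 461) (node 591 (merge (leaf 3 555 555) (leaf 3 556 592))))))))))))) (node 460 (merge (node 492 (merge (leaf 7 460 589) (node 428 (merge (leaf 4 396 396) (leaf 4 428 524))))) (merge (node 589 (merge (leaf 7 460 492) (node 622 (merge (leaf 4 493 590) (node 621 (merge (leaf 4 525 654) (node 620 (merge (leaf 5 492 588) (leaf 5 524 652))))))))) (node 461 (merge (leaf 7 428 428) (node 556 (merge (leaf 5 460 588) (node 429 (merge (leaf 5 428 524) (node 430 (merge (leaf 6 397 398) (node 432 (merge (leaf 1 428 431) (node 464 (merge (leaf 5 399 400) (leaf 5 431 559))))))))))))))))))))))))))))))))))))) nJ_19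 cJ_19 13 (by decide +kernel)
def nJ_20 : ℕ := 0x1000000010000000000000000000000000000000000000000000000000000000000000000000000000000000000000000000000000000000000000000000000000000
def cJ_20 : ℕ := 0xa0000000f0000003f0000007f800003af800001ef800003ef800001ff800000ff0000007f0000002e0000000200000000000000000000000000000000000000000000000000000000000000000000000000000000000
theorem lJ_20 : S nJ_20 cJ_20 15 := S_of_chk [(nJ_17, cJ_17, 11), (nJ_18, cJ_18, 12), (nJ_19, cJ_19, 13)] ⟨lJ_17, lJ_18, lJ_19, trivial⟩ (node 527 (merge (node 526 (merge (node 497 (merge (leaf 2 493 525) (node 498 (merge (leaf 1 495 499) (leaf 2 494 529))))) (merge (node 525 (merge (leaf 2 493 497) (node 524 (merge (leaf 2 492 495) (node 556 (merge (leaf 1 523 555) (leaf 1 524 557))))))) (merge (node 525 (merge (node 524 (merge (leaf 2 492 495) (node 492 (merge (leaf 3 491 491) (leaf 3 492 493))))) (merge (node 524 (merge (leaf 2 492 495) (node 556 (merge (leaf 1 523 555) (leaf 1 524 557))))) (node 557 (merge (leaf 1 524 556) (node 493 (merge (leaf 3 492 492) (node 494 (merge (leaf 3 493 529) (node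 589 (merge (leaf 6 461 462) (leaf 6 493 621)))))))))))) (node 494 (merge (node 493 (merge (leaf 3 493 529) (node 492 (merge (leaf 0 491 491) (leaf 0 492 495))))) (merge (node 529 (merge (leaf 3 493 493) (node 558 (merge (leaf 1 525 557) (node 559 (merge (leaf 1 526 530) (node 591 (merge (leaf 4 462 462) (leaf 6 495 623))))))))) (merge (node 495 (merge (node 497 (merge (leaf 1 494 498) (node 462 (merge (leaf 3 461 461) (node 559 (merge (leaf 4 430 430) (leaf 7 462 591))))))) (merge (node 493 (merge (leaf 0 492 492) (node 464 (merge (leaf 2 461 465) (node 559 (merge (leaf 5 431 432) (leaf 6 463 591))))))) (merge (node 493 (merge (leaf 0 492 492) (node 465 (merge (leaf 2 461 464) (node 497 (merge (leaf 2 462 466) (node 461 (merge (leaf 3 460 460) (leaf 3 461 462))))))))) (node 493 (merge (leaf 0 492 492) (node 464 (merge (leaf 2 461 465) (node 559 (merge (leaf 5 431 432) (leaf 6 463 591))))))))))) (node 558 (merge (node 529 (merge (leaf 1 525 557) (node 530 (merge (leaf 3 494 495) (leaf 1 526 559))))) (merge (node 529 (merge (leaf 1 525 557) (node 498 (merge (leaf 2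 494 497) (node 530 (merge (leaf 2 495 499) (leaf 1 526 559))))))) (merge (node 529 (merge (leaf 1 525 557) (node 498 (merge (leaf 2 494 497) (node 530 (merge (leaf 3 494 495) (leaf 2 495 499))))))) (merge (node 559 (merge (node 591 (merge (leaf 4 462 462) (leaf 6 495 623))) (merge (node 591 (merge (leaf 6 495 623) (node 464 (merge (leaf 5 431 432) (leaf 6 463 495))))) (node 557 (merge (leaf 2 524 556) (node 462 (merge (leaf 4 430 430) (leaf 5 461 589)))))))) (node 591 (merge (node 623 (merge (leaf 6 495 559) (leaf 4 494 590))) (merge (node 590 (merge (leaf 4 494 623) (node 622 (merge (leaf 6 494 495) (node 621 (merge (leaf 5 493 589) (leaf 5 525 653))))))) (node 462 (merge (leaf 4 462 559) (node 461 (merge (leaf 7 429 429) (node 497 (merge (leaf 3 461 495) (node 498 (merge (leaf 1 495 499) (leaf 2 494 529))))))))))))))))))))))))) (merge (node 497 (merge (node 526 (merge (leaf 2 493 525) (node 498 (merge (leaf 1 495 499) (leaf 2 494 529))))) (merge (node 526 (merge (leaf 2 493 525) (node 498 (merge (leaf 1 494 495) (leaf 1 495 499))))) (merge (node 498 (merge (leaf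 1 495 499) (node 495 (merge (node 462 (merge (leaf 3 462 463) (node 494 (merge (leaf 3 461 461) (node 529 (merge (leaf 0 493 493) (leaf 0 494 530))))))) (merge (node 466 (merge (leaf 2 463 467) (node 494 (merge (leaf 2 462 465) (node 529 (merge (leaf 0 493 493) (leaf 0 494 530))))))) (merge (node 466 (merge (leaf 2 463 467) (node 494 (merge (leaf 2 462 465) (node 493 (merge (leaf 0 492 492) (node 461 (merge (leaf 3 460 460) (leaf 3 461 462))))))))) (node 530 (merge (leaf 0 495 531) (node 466 (merge (leaf 2 463 467) (node 463 (merge (leaf 3 462 462) (node 431 (merge (leaf 4 399 399) (node 432 (merge (leaf 6 399 400) (node 430 (merge (leaf 7 398 398) (node 433 (merge (leaf 0 430 465) (node 401 (merge (leaf 2 398 402) (leaf 7 401 434))))))))))))))))))))))) (node 495 (merge (node 526 (merge (leaf 2 493 525) (node 494 (merge (node 462 (merge (leaf 3 461 461) (node 559 (merge (leaf 4 430 430) (leaf 7 462 591))))) (node 493 (merge (leaf 3 493 529) (node 492 (merge (leaf 0 491 491) (leaf 0 492 495))))))))) (merge (node 526 (merge (leaf 2 493 525) (node 494 (merge (node 493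 (merge (leaf 3 493 529) (node 492 (merge (leaf 0 491 491) (leaf 0 492 495))))) (merge (node 493 (merge (leaf 0 492 492) (node 465 (merge (leaf 2 461 464) (leaf 2 462 466))))) (node 529 (merge (leaf 0 494 530) (node 465 (merge (leaf 2 462 466) (node 433 (merge (leaf 5 400 401) (node 432 (merge (leaf 7 400 400) (node 464 (merge (leaf 5 431 559) (leaf 4 432 561)))))))))))))))) (merge (node 526 (merge (leaf 2 493 525) (node 494 (merge (node 462 (merge (leaf 3 461 461) (node 559 (merge (leaf 4 430 430) (leaf 7 462 591))))) (node 493 (merge (leaf 0 492 492) (node 465 (merge (leaf 2 461 464) (leaf 2 462 466))))))))) (merge (node 463 (merge (node 431 (merge (leaf 4 399 399) (node 430 (merge (leaf 7 398 398) (node 559 (merge (leaf 7 430 462) (node 591 (merge (leaf 6 463 464) (leaf 6 495 623))))))))) (merge (node 431 (merge (leaf 4 399 399) (node 432 (merge (leaf 6 399 400) (node 430 (merge (leaf 7 398 398) (node 462 (merge (leaf 7 430 559) (node 461 (merge (leaf 1 429 433) (leaf 0 460 460))))))))))) (merge (node 464 (merge (node 559 (merge (leaf 6 431 432) (leaf 6 463 591)))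 (merge (node 462 (merge (leaf 0 461 461) (node 559 (merge (leaf 7 430 430) (leaf 6 463 591))))) (node 432 (merge (leaf 5 399 400) (node 433 (merge (leaf 6 400 401) (node 434 (merge (leaf 1 431 435) (node 462 (merge (leaf 2 429 461) (leaf 2 430 465)))))))))))) (merge (node 431 (merge (leaf 4 399 399) (node 432 (merge (leaf 6 399 400) (node 464 (merge (leaf 5 431 559) (node 430 (merge (leaf 7 398 398) (node 465 (merge (leaf 0 429 429) (leaf 3 430 466))))))))))) (merge (node 464 (merge (node 431 (merge (leaf 4 399 399) (node 430 (merge (leaf 7 398 398) (node 429 (merge (leaf 0 428 428) (node 465 (merge (leaf 3 429 462) (leaf 3 430 466))))))))) (merge (node 432 (merge (leaf 5 399 400) (node 433 (merge (leaf 6 400 401) (node 434 (merge (leaf 1 431 435) (node 462 (merge (leaf 2 429 461) (leaf 2 430 465))))))))) (merge (node 431 (merge (leaf 4 399 399) (node 432 (merge (leaf 5 399 400) (node 433 (merge (leaf 6 400 401) (node 462 (merge (leaf 1 430 434) (leaf 2 429 461))))))))) (node 431 (merge (leaf 4 399 399) (node 432 (merge (leaf 5 399 400) (node 430 (merge (leaf 7 398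 398) (node 429 (merge (leaf 0 428 428) (leaf 0 429 465))))))))))))) (node 431 (merge (leaf 4 399 399) (node 432 (merge (leaf 6 399 400) (node 464 (merge (leaf 5 431 559) (node 462 (merge (leaf 0 461 461) (node 433 (merge (leaf 6 400 401) (leaf 1 430 434))))))))))))))))) (node 494 (merge (node 529 (merge (leaf 0 493 493) (leaf 0 494 530))) (merge (node 461 (merge (leaf 3 461 462) (node 493 (merge (leaf 3 460 460) (node 492 (merge (leaf 0 492 527) (node 524 (merge (leaf 1 491 523) (leaf 1 492 525))))))))) (node 529 (merge (leaf 0 494 530) (node 526 (merge (leaf 1 493 525) (node 465 (merge (leaf 2 462 466) (node 462 (merge (leaf 3 461 461) (node 433 (merge (leaf 5 400 401) (node 434 (merge (leaf 6 401 402) (node 432 (merge (leaf 7 400 400) (node 431 (merge (leaf 1 430 463) (node 399 (merge (leaf 3 398 398) (leaf 6 398 430))))))))))))))))))))))))))))))) (merge (node 497 (merge (node 526 (merge (leaf 2 493 525) (node 498 (merge (leaf 1 495 499) (leaf 2 494 529))))) (merge (node 526 (merge (leaf 2 493 525) (node 498 (merge (leaf 1 494 495) (leaf 1 495 499))))) (merge (node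 498 (merge (leaf 1 495 499) (node 495 (merge (node 530 (merge (leaf 0 495 531) (node 494 (merge (leaf 0 494 529) (node 466 (merge (leaf 2 462 465) (leaf 2 463 467))))))) (merge (node 530 (merge (leaf 0 495 531) (node 529 (merge (leaf 0 494 494) (node 559 (merge (leaf 1 526 558) (node 591 (merge (leaf 6 463 464) (leaf 6 495 623))))))))) (merge (node 530 (merge (leaf 0 495 531) (node 466 (merge (leaf 2 463 467) (node 463 (merge (leaf 3 462 462) (node 431 (merge (leaf 4 399 399) (node 432 (merge (leaf 6 399 400) (node 430 (merge (leaf 7 398 398) (node 433 (merge (leaf 0 430 465) (node 401 (merge (leaf 2 398 402) (leaf 7 401 434))))))))))))))))) (node 463 (merge (node 431 (merge (leaf 4 399 399) (node 430 (merge (leaf 7 398 398) (node 559 (merge (leaf 7 430 462) (node 591 (merge (leaf 6 463 464) (leaf 6 495 623))))))))) (merge (node 431 (merge (leaf 4 399 399) (node 432 (merge (leaf 6 399 400) (node 430 (merge (leaf 7 398 398) (node 462 (merge (leaf 7 430 559) (node 461 (merge (leaf 1 429 433) (leaf 0 460 460))))))))))) (merge (node 464 (merge (node 559 (merge (leaf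 6 431 432) (leaf 6 463 591))) (merge (node 462 (merge (leaf 0 461 461) (node 559 (merge (leaf 7 430 430) (leaf 6 463 591))))) (node 432 (merge (leaf 5 399 400) (node 433 (merge (leaf 6 400 401) (node 434 (merge (leaf 1 431 435) (node 462 (merge (leaf 2 429 461) (leaf 2 430 465)))))))))))) (merge (node 431 (merge (leaf 4 399 399) (node 432 (merge (leaf 6 399 400) (node 464 (merge (leaf 5 431 559) (node 430 (merge (leaf 7 398 398) (node 465 (merge (leaf 0 429 429) (leaf 3 430 466))))))))))) (merge (node 464 (merge (node 431 (merge (leaf 4 399 399) (node 430 (merge (leaf 7 398 398) (node 429 (merge (leaf 0 428 428) (node 465 (merge (leaf 3 429 462) (leaf 3 430 466))))))))) (merge (node 432 (merge (leaf 5 399 400) (node 433 (merge (leaf 6 400 401) (node 434 (merge (leaf 1 431 435) (node 462 (merge (leaf 2 429 461) (leaf 2 430 465))))))))) (merge (node 431 (merge (leaf 4 399 399) (node 432 (merge (leaf 5 399 400) (node 433 (merge (leaf 6 400 401) (node 462 (merge (leaf 1 430 434) (leaf 2 429 461))))))))) (node 431 (merge (leaf 4 399 399) (node 432 (merge (leaf 5 399 400)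 (node 430 (merge (leaf 7 398 398) (node 429 (merge (leaf 0 428 428) (leaf 0 429 465))))))))))))) (node 431 (merge (leaf 4 399 399) (node 432 (merge (leaf 6 399 400) (node 464 (merge (leaf 5 431 559) (node 462 (merge (leaf 0 461 461) (node 433 (merge (leaf 6 400 401) (leaf 1 430 434))))))))))))))))))))))) (node 526 (merge (leaf 2 493 525) (node 495 (merge (node 558 (merge (node 590 (merge (leaf 6 494 622) (node 463 (merge (leaf 5 430 431) (leaf 6 462 494))))) (node 557 (merge (leaf 1 525 529) (node 556 (merge (leaf 2 523 555) (leaf 2 524 559))))))) (merge (node 463 (merge (node 431 (merge (leaf 4 399 399) (leaf 5 430 558))) (node 464 (merge (node 559 (merge (leaf 6 431 432) (leaf 6 463 591))) (merge (node 462 (merge (leaf 0 461 461) (node 559 (merge (leaf 7 430 430) (leaf 6 463 591))))) (node 432 (merge (leaf 5 399 400) (node 433 (merge (leaf 6 400 401) (node 434 (merge (leaf 1 431 435) (node 462 (merge (leaf 2 429 461) (leaf 2 430 465)))))))))))))) (merge (node 494 (merge (node 462 (merge (leaf 3 461 461) (node 559 (merge (leaf 4 430 430) (leaf 7 462 591))))) (merge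 (node 529 (merge (leaf 0 494 530) (node 465 (merge (leaf 2 462 466) (node 433 (merge (leaf 5 400 401) (node 432 (merge (leaf 7 400 400) (node 464 (merge (leaf 5 431 559) (leaf 4 432 561))))))))))) (node 465 (merge (leaf 2 462 466) (node 462 (merge (leaf 3 461 461) (node 430 (merge (leaf 4 398 398) (node 401 (merge (leaf 5 400 433) (node 431 (merge (leaf 6 398 399) (node 429 (merge (leaf 7 397 397) (node 432 (merge (leaf 2 397 400) (leaf 0 429 464)))))))))))))))))) (merge (node 494 (merge (node 529 (merge (leaf 0 494 530) (node 558 (merge (leaf 1 525 557) (node 590 (merge (leaf 6 462 463) (leaf 6 494 622))))))) (merge (node 465 (merge (leaf 2 462 466) (node 462 (merge (leaf 3 461 461) (node 430 (merge (leaf 4 398 398) (node 401 (merge (leaf 5 400 433) (node 431 (merge (leaf 6 398 399) (node 429 (merge (leaf 7 397 397) (node 432 (merge (leaf 2 397 400) (leaf 0 429 464))))))))))))))) (node 465 (merge (leaf 2 462 466) (node 462 (merge (leaf 3 461 461) (node 430 (merge (leaf 4 398 398) (node 431 (merge (leaf 6 398 399) (node 463 (merge (leaf 5 430 558) (node 429 (merge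 (leaf 7 397 397) (leaf 3 429 464)))))))))))))))) (node 529 (merge (node 530 (merge (leaf 0 494 494) (leaf 3 495 531))) (merge (node 558 (merge (leaf 1 525 557) (node 530 (merge (leaf 3 495 531) (leaf 1 526 559))))) (node 558 (merge (leaf 1 525 557) (node 590 (merge (leaf 6 494 622) (node 463 (merge (leaf 6 462 494) (leaf 5 462 559))))))))))))))))))))) (merge (node 526 (merge (node 497 (merge (leaf 2 493 525) (node 498 (merge (leaf 1 495 499) (leaf 2 494 529))))) (merge (node 525 (merge (leaf 2 493 497) (node 524 (merge (leaf 2 492 495) (node 556 (merge (leaf 1 523 555) (leaf 1 524 557))))))) (merge (node 525 (merge (node 524 (merge (leaf 2 492 495) (node 492 (merge (leaf 3 491 491) (leaf 3 492 493))))) (merge (node 524 (merge (leaf 2 492 495) (node 556 (merge (leaf 1 523 555) (leaf 1 524 557))))) (node 557 (merge (leaf 1 524 556) (node 558 (merge (leaf 1 525 529) (node 493 (merge (leaf 3 492 492) (node 590 (merge (leaf 4 461 461) (leaf 7 493 622)))))))))))) (node 494 (merge (node 493 (merge (leaf 3 493 529) (node 492 (merge (leaf 0 491 491) (leaf 0 492 495))))) (merge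 (node 529 (merge (leaf 3 493 493) (node 498 (merge (leaf 2 494 497) (node 530 (merge (leaf 2 495 499) (node 558 (merge (leaf 1 525 557) (leaf 1 526 559))))))))) (merge (node 495 (merge (node 493 (merge (leaf 0 492 492) (node 464 (merge (leaf 2 461 465) (node 432 (merge (leaf 5 399 400) (leaf 5 431 559))))))) (merge (node 497 (merge (leaf 1 494 498) (node 462 (merge (leaf 3 461 461) (node 430 (merge (leaf 4 398 398) (node 431 (merge (leaf 6 398 399) (node 558 (merge (leaf 5 430 463) (node 589 (merge (leaf 5 461 557) (node 590 (merge (leaf 5 493 621) (leaf 6 494 622))))))))))))))) (node 493 (merge (leaf 0 492 492) (node 461 (merge (leaf 3 460 460) (node 558 (merge (leaf 7 461 590) (node 431 (merge (leaf 5 430 463) (node 462 (merge (leaf 7 429 429) (node 430 (merge (leaf 4 398 398) (leaf 6 398 399)))))))))))))))) (node 495 (merge (node 529 (merge (leaf 3 494 530) (node 558 (merge (leaf 1 525 557) (node 590 (merge (leaf 6 462 463) (leaf 6 494 622))))))) (merge (node 497 (merge (leaf 1 494 498) (node 529 (merge (leaf 0 494 530) (node 465 (merge (leaf 2 462 466) (node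 433 (merge (leaf 5 400 401) (node 432 (merge (leaf 7 400 400) (node 464 (merge (leaf 5 431 559) (leaf 4 432 561))))))))))))) (node 497 (merge (leaf 1 494 498) (node 462 (merge (leaf 3 461 461) (node 430 (merge (leaf 4 398 398) (node 431 (merge (leaf 6 398 399) (node 558 (merge (leaf 5 430 463) (node 589 (merge (leaf 5 461 557) (node 590 (merge (leaf 5 493 621) (leaf 6 494 622)))))))))))))))))))))))))) (merge (node 526 (merge (node 497 (merge (leaf 2 493 525) (node 498 (merge (leaf 1 495 499) (leaf 2 494 529))))) (merge (node 525 (merge (leaf 2 493 497) (node 524 (merge (leaf 2 492 495) (node 556 (merge (leaf 1 523 555) (leaf 1 524 557))))))) (merge (node 525 (merge (node 524 (merge (leaf 2 492 495) (node 492 (merge (leaf 3 491 491) (leaf 3 492 493))))) (merge (node 524 (merge (leaf 2 492 495) (node 556 (merge (leaf 1 523 555) (leaf 1 524 557))))) (node 557 (merge (leaf 1 524 556) (node 493 (merge (leaf 3 492 492) (node 494 (merge (leaf 3 493 529) (node 589 (merge (leaf 6 461 462) (leaf 6 493 621)))))))))))) (node 558 (merge (node 529 (merge (leaf 1 525 557) (node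 498 (merge (leaf 2 494 497) (node 530 (merge (leaf 2 495 499) (leaf 1 526 559))))))) (merge (node 529 (merge (leaf 1 525 557) (node 498 (merge (leaf 2 494 497) (node 530 (merge (leaf 2 495 499) (node 495 (merge (leaf 3 494 494) (leaf 3 495 531))))))))) (merge (node 590 (merge (node 622 (merge (leaf 6 494 495) (node 655 (merge (leaf 4 526 623) (node 654 (merge (leaf 6 526 559) (leaf 4 558 687))))))) (merge (node 622 (merge (leaf 6 494 495) (node 654 (merge (leaf 6 526 559) (node 653 (merge (leaf 5 525 621) (leaf 5 557 685))))))) (merge (node 623 (merge (node 591 (merge (leaf 4 494 494) (leaf 6 495 559))) (merge (node 622 (merge (leaf 4 526 655) (node 653 (merge (leaf 5 525 621) (node 654 (merge (leaf 6 526 559) (leaf 5 557 685))))))) (node 494 (merge (leaf 4 494 591) (node 622 (merge (leaf 4 526 655) (node 621 (merge (leaf 5 493 589) (leaf 5 525 653)))))))))) (node 494 (merge (node 493 (merge (leaf 7 461 461) (node 492 (merge (leaf 0 491 491) (leaf 0 492 495))))) (node 591 (merge (leaf 4 494 623) (node 589 (merge (leaf 5 493 621) (node 557 (merge (leaf 5 461 462)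 (node 556 (merge (leaf 0 555 555) (leaf 3 556 592))))))))))))))) (node 590 (merge (node 622 (merge (leaf 6 494 495) (node 654 (merge (leaf 6 526 559) (node 653 (merge (leaf 5 525 621) (leaf 5 557 685))))))) (merge (node 622 (merge (leaf 6 494 495) (node 623 (merge (leaf 4 526 655) (node 494 (merge (leaf 4 494 591) (node 621 (merge (leaf 5 493 589) (leaf 5 525 653))))))))) (merge (node 623 (merge (node 591 (merge (leaf 4 494 494) (leaf 6 495 559))) (merge (node 622 (merge (leaf 4 526 655) (node 653 (merge (leaf 5 525 621) (node 654 (merge (leaf 6 526 559) (leaf 5 557 685))))))) (node 494 (merge (leaf 4 494 591) (node 622 (merge (leaf 4 526 655) (node 621 (merge (leaf 5 493 589) (leaf 5 525 653)))))))))) (node 494 (merge (node 493 (merge (leaf 7 461 461) (node 529 (merge (leaf 0 493 495) (leaf 3 493 527))))) (merge (node 529 (merge (leaf 3 493 493) (node 559 (merge (leaf 1 526 530) (node 591 (merge (leaf 4 462 462) (leaf 6 495 623))))))) (node 591 (merge (leaf 4 494 623) (node 462 (merge (leaf 4 462 559) (node 431 (merge (leaf 6 430 463) (node 430 (merge (leaf 6 398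 399) (node 429 (merge (leaf 7 397 397) (leaf 7 429 461)))))))))))))))))))))))))) (merge (hyp 0) (merge (node 526 (merge (node 497 (merge (leaf 2 493 525) (node 498 (merge (leaf 1 495 499) (leaf 2 494 529))))) (merge (node 525 (merge (leaf 2 493 497) (node 524 (merge (leaf 2 492 495) (node 556 (merge (leaf 1 523 555) (leaf 1 524 557))))))) (merge (node 525 (merge (node 524 (merge (leaf 2 492 495) (node 492 (merge (leaf 3 491 491) (leaf 3 492 493))))) (merge (node 524 (merge (leaf 2 492 495) (node 556 (merge (leaf 1 523 555) (leaf 1 524 557))))) (node 557 (merge (leaf 1 524 556) (node 558 (merge (leaf 1 525 529) (node 493 (merge (leaf 3 492 492) (node 590 (merge (leaf 4 461 461) (leaf 7 493 622)))))))))))) (node 558 (merge (node 529 (merge (leaf 1 525 557) (node 498 (merge (leaf 2 494 497) (node 530 (merge (leaf 2 495 499) (leaf 1 526 559))))))) (merge (node 529 (merge (leaf 1 525 557) (node 498 (merge (leaf 2 494 497) (node 530 (merge (leaf 2 495 499) (node 495 (merge (leaf 3 494 494) (leaf 3 495 531))))))))) (merge (node 590 (merge (node 622 (merge (leaf 6 494 495)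 (node 654 (merge (leaf 6 526 559) (node 653 (merge (leaf 5 525 621) (leaf 5 557 685))))))) (merge (node 622 (merge (leaf 6 494 495) (node 623 (merge (leaf 4 526 655) (node 494 (merge (leaf 4 494 591) (node 621 (merge (leaf 5 493 589) (leaf 5 525 653))))))))) (merge (node 623 (merge (node 591 (merge (leaf 4 494 494) (leaf 6 495 559))) (merge (node 622 (merge (leaf 4 526 655) (node 653 (merge (leaf 5 525 621) (node 654 (merge (leaf 6 526 559) (leaf 5 557 685))))))) (node 494 (merge (leaf 4 494 591) (node 622 (merge (leaf 4 526 655) (node 621 (merge (leaf 5 493 589) (leaf 5 525 653)))))))))) (node 591 (merge (node 623 (merge (leaf 4 494 494) (leaf 6 495 559))) (merge (node 559 (merge (leaf 6 495 623) (node 495 (merge (leaf 5 462 463) (leaf 6 463 464))))) (merge (node 494 (merge (leaf 4 494 623) (node 493 (merge (leaf 7 461 461) (node 492 (merge (leaf 0 491 491) (leaf 0 492 495))))))) (node 495 (merge (node 494 (merge (leaf 6 462 463) (node 493 (merge (leaf 7 461 461) (leaf 0 492 492))))) (node 559 (merge (leaf 6 463 464) (node 592 (merge (leaf 4 495 624) (node 593 (merge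 (leaf 3 557 557) (leaf 3 558 594))))))))))))))))) (node 494 (merge (node 529 (merge (leaf 3 493 493) (node 530 (merge (leaf 3 494 495) (leaf 1 526 559))))) (merge (node 493 (merge (leaf 3 493 529) (node 590 (merge (leaf 7 461 461) (node 623 (merge (leaf 4 494 591) (node 622 (merge (leaf 4 526 655) (node 621 (merge (leaf 5 493 589) (leaf 5 525 653))))))))))) (merge (node 495 (merge (node 590 (merge (leaf 6 494 622) (node 463 (merge (leaf 5 430 431) (leaf 6 462 494))))) (node 493 (merge (leaf 0 492 492) (node 464 (merge (leaf 2 461 465) (node 432 (merge (leaf 5 399 400) (leaf 5 431 559))))))))) (node 495 (merge (node 590 (merge (leaf 6 462 463) (node 623 (merge (leaf 4 494 591) (node 622 (merge (leaf 6 494 527) (leaf 4 526 655))))))) (node 497 (merge (leaf 1 494 498) (node 529 (merge (leaf 0 494 530) (node 465 (merge (leaf 2 462 466) (node 433 (merge (leaf 5 400 401) (node 432 (merge (leaf 7 400 400) (node 464 (merge (leaf 5 431 559) (leaf 4 432 561))))))))))))))))))))))))))) (merge (node 495 (merge (node 559 (merge (node 591 (merge (leaf 6 463 464) (leaf 6 495 623)))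 (merge (node 591 (merge (leaf 6 495 623) (node 494 (merge (leaf 7 462 462) (node 493 (merge (leaf 0 492 492) (leaf 0 493 529))))))) (node 463 (merge (node 431 (merge (leaf 4 399 399) (node 432 (merge (leaf 6 399 400) (leaf 6 431 464))))) (merge (node 431 (merge (leaf 4 399 399) (node 430 (merge (leaf 7 398 398) (leaf 7 430 462))))) (node 464 (merge (leaf 5 431 432) (node 462 (merge (leaf 7 430 430) (node 461 (merge (leaf 0 460 460) (node 493 (merge (leaf 1 460 492) (node 494 (merge (leaf 1 461 465) (leaf 0 493 529))))))))))))))))) (merge (node 494 (merge (node 529 (merge (leaf 0 493 493) (leaf 3 494 530))) (merge (node 493 (merge (leaf 0 492 492) (node 464 (merge (leaf 2 461 465) (node 559 (merge (leaf 5 431 432) (leaf 6 463 591))))))) (node 497 (merge (node 466 (merge (leaf 2 462 465) (node 498 (merge (leaf 2 463 467) (leaf 1 495 499))))) (merge (node 498 (merge (leaf 1 495 499) (node 530 (merge (leaf 0 495 531) (node 529 (merge (leaf 0 494 494) (node 559 (merge (leaf 1 526 558) (node 591 (merge (leaf 6 463 464) (leaf 6 495 623))))))))))) (node 529 (merge (leaf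 0 494 530) (node 465 (merge (leaf 2 462 466) (node 433 (merge (leaf 5 400 401) (node 432 (merge (leaf 7 400 400) (node 464 (merge (leaf 5 431 559) (leaf 4 432 561))))))))))))))))) (merge (node 559 (merge (node 591 (merge (leaf 6 463 464) (leaf 6 495 623))) (merge (node 591 (merge (leaf 6 495 623) (node 592 (merge (leaf 4 495 624) (node 590 (merge (leaf 5 494 622) (node 558 (merge (leaf 5 462 463) (node 557 (merge (leaf 0 556 556) (leaf 3 557 593))))))))))) (node 463 (merge (node 431 (merge (leaf 4 399 399) (node 432 (merge (leaf 6 399 400) (leaf 6 431 464))))) (merge (node 431 (merge (leaf 4 399 399) (node 430 (merge (leaf 7 398 398) (leaf 7 430 462))))) (node 462 (merge (leaf 7 430 430) (node 461 (merge (leaf 0 460 460) (node 497 (merge (leaf 0 461 464) (leaf 3 462 498))))))))))))) (merge (node 494 (merge (node 529 (merge (leaf 0 493 493) (leaf 3 494 530))) (merge (node 493 (merge (leaf 0 492 492) (node 465 (merge (leaf 2 461 464) (node 497 (merge (leaf 2 462 466) (node 461 (merge (leaf 3 460 460) (leaf 3 461 462))))))))) (node 497 (merge (node 466 (merge (leaf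 2 462 465) (node 498 (merge (leaf 2 463 467) (leaf 1 495 499))))) (merge (node 462 (merge (leaf 3 461 461) (node 498 (merge (leaf 3 462 463) (node 531 (merge (leaf 0 495 530) (node 499 (merge (leaf 1 495 527) (leaf 0 496 532))))))))) (node 529 (merge (leaf 0 494 530) (node 465 (merge (leaf 2 462 466) (node 462 (merge (leaf 3 461 461) (node 433 (merge (leaf 5 400 401) (node 434 (merge (leaf 6 401 402) (node 463 (merge (leaf 2 430 464) (node 559 (merge (leaf 7 430 430) (leaf 7 462 591))))))))))))))))))))) (merge (node 529 (merge (node 530 (merge (leaf 3 494 494) (leaf 3 495 531))) (merge (node 497 (merge (node 498 (merge (leaf 1 495 499) (node 466 (merge (leaf 2 463 467) (node 434 (merge (leaf 5 401 402) (node 561 (merge (leaf 6 433 465) (leaf 6 465 593))))))))) (merge (node 494 (merge (leaf 0 493 493) (node 462 (merge (leaf 3 461 461) (node 498 (merge (leaf 3 462 463) (node 499 (merge (leaf 1 496 500) (leaf 1 495 527))))))))) (node 494 (merge (leaf 0 493 493) (node 465 (merge (leaf 2 462 466) (node 462 (merge (leaf 3 461 461) (node 433 (merge (leaf 5 400 401) (node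 434 (merge (leaf 6 401 402) (node 432 (merge (leaf 7 400 400) (node 431 (merge (leaf 1 430 463) (node 398 (merge (leaf 3 398 399) (node 430 (merge (leaf 3 397 397) (leaf 4 398 527)))))))))))))))))))))) (node 463 (merge (node 530 (merge (leaf 3 495 531) (node 498 (merge (leaf 2 495 499) (node 497 (merge (leaf 3 462 462) (node 466 (merge (leaf 2 463 467) (node 434 (merge (leaf 5 401 402) (leaf 5 433 561))))))))))) (merge (node 431 (merge (leaf 4 399 399) (node 432 (merge (leaf 6 399 400) (node 464 (merge (leaf 4 432 561) (node 430 (merge (leaf 7 398 398) (node 465 (merge (leaf 0 429 429) (leaf 3 430 466))))))))))) (node 530 (merge (leaf 3 495 531) (node 498 (merge (leaf 2 495 499) (node 462 (merge (leaf 3 462 497) (node 461 (merge (leaf 0 460 460) (node 431 (merge (leaf 4 399 399) (node 432 (merge (leaf 6 399 400) (node 430 (merge (leaf 7 398 398) (leaf 1 429 433))))))))))))))))))))) (node 559 (merge (node 591 (merge (leaf 6 495 623) (node 494 (merge (leaf 7 462 462) (node 493 (merge (leaf 0 492 492) (leaf 0 493 529))))))) (merge (node 591 (merge (leaf 6 495 623) (node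 592 (merge (leaf 4 495 624) (node 590 (merge (leaf 5 494 622) (node 558 (merge (leaf 5 462 463) (node 557 (merge (leaf 0 556 556) (leaf 3 557 593))))))))))) (node 529 (merge (node 530 (merge (leaf 3 495 531) (leaf 1 526 558))) (node 497 (merge (node 498 (merge (leaf 1 495 499) (node 466 (merge (leaf 2 463 467) (node 434 (merge (leaf 5 401 402) (node 561 (merge (leaf 6 433 465) (leaf 6 465 593))))))))) (merge (node 494 (merge (leaf 0 493 493) (node 462 (merge (leaf 3 461 461) (node 498 (merge (leaf 3 462 463) (node 499 (merge (leaf 1 496 500) (leaf 1 495 527))))))))) (node 494 (merge (leaf 0 493 493) (node 465 (merge (leaf 2 462 466) (node 462 (merge (leaf 3 461 461) (node 433 (merge (leaf 5 400 401) (node 434 (merge (leaf 6 401 402) (node 432 (merge (leaf 7 400 400) (node 431 (merge (leaf 1 430 463) (node 398 (merge (leaf 3 398 399) (node 430 (merge (leaf 3 397 397) (leaf 4 398 527))))))))))))))))))))))))))))))))) (merge (node 526 (merge (node 497 (merge (leaf 2 493 525) (node 498 (merge (leaf 1 495 499) (leaf 2 494 529))))) (merge (node 525 (merge (leaf 2 493 497)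 (node 524 (merge (leaf 2 492 495) (node 556 (merge (leaf 1 523 555) (leaf 1 524 557))))))) (merge (node 525 (merge (node 524 (merge (leaf 2 492 495) (node 492 (merge (leaf 3 491 491) (leaf 3 492 493))))) (merge (node 524 (merge (leaf 2 492 495) (node 556 (merge (leaf 1 523 555) (leaf 1 524 557))))) (node 557 (merge (leaf 1 524 556) (node 493 (merge (leaf 3 492 492) (node 494 (merge (leaf 3 493 529) (node 589 (merge (leaf 6 461 462) (leaf 6 493 621)))))))))))) (node 494 (merge (node 493 (merge (leaf 3 493 529) (node 492 (merge (leaf 0 491 491) (leaf 0 492 495))))) (merge (node 558 (merge (node 529 (merge (leaf 1 525 557) (node 498 (merge (leaf 2 494 497) (node 530 (merge (leaf 3 494 495) (leaf 2 495 499))))))) (merge (node 557 (merge (leaf 1 525 529) (node 462 (merge (leaf 5 461 589) (node 431 (merge (leaf 6 430 463) (node 430 (merge (leaf 6 398 399) (node 429 (merge (leaf 7 397 397) (leaf 7 429 461))))))))))) (node 495 (merge (node 497 (merge (leaf 1 494 498) (node 462 (merge (leaf 3 461 461) (node 430 (merge (leaf 4 398 398) (node 431 (merge (leaf 6 398 399) (leaf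 5 430 463))))))))) (merge (node 590 (merge (leaf 6 462 463) (node 623 (merge (leaf 4 494 591) (node 622 (merge (leaf 6 494 527) (leaf 4 526 655))))))) (node 497 (merge (leaf 1 494 498) (node 465 (merge (leaf 2 462 466) (node 462 (merge (leaf 3 461 461) (node 430 (merge (leaf 4 398 398) (node 401 (merge (leaf 5 400 433) (node 431 (merge (leaf 6 398 399) (node 429 (merge (leaf 7 397 397) (node 432 (merge (leaf 2 397 400) (leaf 0 429 464))))))))))))))))))))))) (merge (node 495 (merge (node 493 (merge (leaf 0 492 492) (node 461 (merge (leaf 3 460 460) (node 497 (merge (leaf 3 461 462) (node 498 (merge (leaf 1 495 499) (leaf 1 494 526))))))))) (merge (node 497 (merge (leaf 1 494 498) (node 462 (merge (leaf 3 461 461) (node 430 (merge (leaf 4 398 398) (node 431 (merge (leaf 6 398 399) (node 558 (merge (leaf 5 430 463) (node 589 (merge (leaf 5 461 557) (node 590 (merge (leaf 5 493 621) (leaf 6 494 622))))))))))))))) (merge (node 493 (merge (leaf 0 492 492) (node 461 (merge (leaf 3 460 460) (node 558 (merge (leaf 7 461 590) (node 431 (merge (leaf 5 430 463) (node 462 (merge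 (leaf 7 429 429) (node 430 (merge (leaf 4 398 398) (leaf 6 398 399))))))))))))) (merge (node 493 (merge (leaf 0 492 492) (node 464 (merge (leaf 2 461 465) (node 461 (merge (leaf 3 460 460) (node 432 (merge (leaf 5 399 400) (node 431 (merge (leaf 7 399 399) (node 558 (merge (leaf 5 430 463) (leaf 7 461 590))))))))))))) (node 493 (merge (leaf 0 492 492) (node 464 (merge (leaf 2 461 465) (node 432 (merge (leaf 5 399 400) (node 433 (merge (leaf 6 400 401) (node 431 (merge (leaf 7 399 399) (node 463 (merge (leaf 5 430 558) (node 434 (merge (leaf 1 431 435) (leaf 1 430 462)))))))))))))))))))) (node 462 (merge (node 529 (merge (leaf 3 493 493) (node 558 (merge (leaf 1 525 557) (node 497 (merge (leaf 2 494 498) (node 461 (merge (leaf 7 429 429) (node 464 (merge (leaf 0 461 463) (node 561 (merge (leaf 4 432 432) (leaf 7 464 593))))))))))))) (merge (node 430 (merge (node 399 (merge (leaf 6 398 431) (node 398 (merge (leaf 6 366 367) (node 397 (merge (leaf 7 365 365) (leaf 7 397 429))))))) (merge (node 431 (merge (leaf 6 398 399) (node 558 (merge (leaf 6 430 463) (node 557 (merge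 (leaf 1 525 529) (leaf 5 461 589))))))) (node 429 (merge (leaf 7 397 397) (node 558 (merge (leaf 7 429 461) (node 557 (merge (leaf 1 525 529) (leaf 5 461 589)))))))))) (merge (node 529 (merge (leaf 3 493 493) (node 558 (merge (leaf 1 525 557) (node 497 (merge (leaf 2 494 498) (node 431 (merge (leaf 6 430 463) (node 430 (merge (leaf 6 398 399) (node 397 (merge (leaf 7 397 429) (node 398 (merge (leaf 7 365 365) (node 432 (merge (leaf 3 397 433) (node 464 (merge (leaf 4 400 400) (leaf 4 432 561))))))))))))))))))) (merge (node 464 (merge (node 529 (merge (leaf 3 493 493) (node 497 (merge (leaf 2 494 498) (node 432 (merge (leaf 4 400 400) (leaf 4 432 561))))))) (merge (node 493 (merge (leaf 3 493 529) (node 492 (merge (leaf 0 491 491) (node 463 (merge (leaf 1 460 461) (leaf 1 461 465))))))) (merge (node 529 (merge (leaf 3 493 493) (node 432 (merge (leaf 4 432 561) (node 433 (merge (leaf 6 400 401) (node 461 (merge (leaf 2 429 463) (node 431 (merge (leaf 7 399 399) (leaf 1 429 430))))))))))) (merge (node 432 (merge (node 433 (merge (leaf 6 400 401) (node 461 (merge (leaf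 2 429 463) (node 431 (merge (leaf 7 399 399) (leaf 1 429 430))))))) (merge (node 529 (merge (leaf 4 432 561) (node 497 (merge (leaf 4 400 400) (leaf 2 494 498))))) (node 529 (merge (leaf 4 432 561) (node 497 (merge (leaf 4 400 400) (leaf 2 494 498)))))))) (node 463 (merge (node 465 (merge (leaf 1 461 493) (node 433 (merge (leaf 2 430 434) (node 432 (merge (leaf 6 400 401) (leaf 2 429 461))))))) (merge (node 465 (merge (leaf 1 461 493) (node 430 (merge (leaf 3 429 429) (node 431 (merge (leaf 6 398 399) (leaf 3 430 466))))))) (node 461 (merge (leaf 0 461 497) (node 429 (merge (leaf 3 428 428) (node 430 (merge (leaf 7 397 397) (node 431 (merge (leaf 6 398 399) (node 460 (merge (leaf 1 428 432) (leaf 2 427 459))))))))))))))))))) (merge (node 529 (merge (leaf 3 493 493) (node 558 (merge (leaf 1 525 557) (node 497 (merge (leaf 2 494 498) (node 463 (merge (leaf 6 430 431) (node 464 (merge (leaf 0 461 461) (node 432 (merge (leaf 4 400 400) (leaf 4 432 561))))))))))))) (merge (node 430 (merge (node 399 (merge (leaf 6 398 431) (node 398 (merge (leaf 6 366 367) (node 397 (merge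 (leaf 7 365 365) (leaf 7 397 429))))))) (merge (node 429 (merge (leaf 7 397 397) (node 558 (merge (leaf 7 429 461) (node 557 (merge (leaf 1 525 529) (leaf 5 461 589))))))) (merge (node 493 (merge (leaf 3 493 529) (node 399 (merge (leaf 6 398 431) (node 398 (merge (leaf 6 366 367) (node 366 (merge (leaf 5 365 461) (node 365 (merge (leaf 7 333 333) (leaf 7 365 397))))))))))) (node 529 (merge (leaf 3 493 493) (node 558 (merge (leaf 1 525 557) (node 497 (merge (leaf 2 494 498) (node 431 (merge (leaf 6 398 399) (node 461 (merge (leaf 7 429 429) (node 432 (merge (leaf 1 429 433) (node 464 (merge (leaf 4 400 400) (leaf 4 432 561))))))))))))))))))) (node 431 (merge (node 430 (merge (leaf 6 398 399) (node 429 (merge (leaf 7 397 397) (node 461 (merge (leaf 7 429 558) (node 460 (merge (leaf 1 428 432) (leaf 2 427 459))))))))) (merge (node 558 (merge (leaf 6 430 463) (node 589 (merge (leaf 5 461 557) (node 590 (merge (leaf 5 493 621) (node 461 (merge (leaf 7 429 429) (leaf 7 461 493))))))))) (node 399 (merge (leaf 6 398 430) (node 463 (merge (leaf 5 366 367) (node 464 (merge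 (leaf 7 399 432) (node 465 (merge (leaf 1 461 493) (node 433 (merge (leaf 2 430 434) (node 401 (merge (leaf 5 368 369) (leaf 5 400 497))))))))))))))))))))))))))))))) (merge (node 526 (merge (node 497 (merge (leaf 2 493 525) (node 498 (merge (leaf 1 495 499) (leaf 2 494 529))))) (merge (node 525 (merge (leaf 2 493 497) (node 556 (merge (leaf 1 524 557) (node 524 (merge (leaf 1 523 555) (node 492 (merge (leaf 3 491 491) (leaf 3 492 493))))))))) (merge (node 494 (merge (node 493 (merge (leaf 3 493 529) (node 492 (merge (leaf 0 491 491) (leaf 3 492 525))))) (merge (node 529 (merge (leaf 3 493 493) (node 558 (merge (leaf 1 525 557) (node 559 (merge (leaf 1 526 530) (node 591 (merge (leaf 4 462 462) (leaf 6 495 623))))))))) (merge (node 462 (merge (node 559 (merge (leaf 4 430 430) (node 591 (merge (leaf 4 462 558) (leaf 6 495 623))))) (merge (node 430 (merge (leaf 4 430 559) (node 399 (merge (leaf 6 398 431) (node 398 (merge (leaf 6 366 367) (node 397 (merge (leaf 7 365 365) (leaf 7 397 429))))))))) (merge (node 558 (merge (node 591 (merge (leaf 4 462 559) (node 590 (merge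 (leaf 4 494 623) (node 461 (merge (leaf 7 429 429) (leaf 7 461 493))))))) (merge (node 557 (merge (leaf 5 461 589) (node 556 (merge (leaf 2 523 555) (leaf 2 524 559))))) (node 589 (merge (leaf 5 461 557) (node 590 (merge (leaf 5 493 621) (node 461 (merge (leaf 7 429 429) (leaf 7 461 493)))))))))) (node 429 (merge (node 397 (merge (leaf 7 397 430) (node 461 (merge (leaf 4 365 365) (leaf 4 397 493))))) (merge (node 461 (merge (leaf 7 429 558) (node 397 (merge (leaf 4 365 365) (leaf 4 397 493))))) (merge (node 430 (merge (leaf 7 397 397) (node 431 (merge (leaf 6 398 399) (node 463 (merge (leaf 6 430 558) (node 464 (merge (leaf 0 428 428) (leaf 3 429 465))))))))) (node 558 (merge (leaf 7 429 461) (node 557 (merge (leaf 5 461 589) (node 525 (merge (leaf 5 429 430) (leaf 1 524 556))))))))))))))) (node 558 (merge (node 557 (merge (leaf 1 525 529) (node 556 (merge (leaf 1 524 525) (leaf 2 523 555))))) (node 590 (merge (node 623 (merge (leaf 4 494 591) (node 622 (merge (leaf 4 526 655) (node 621 (merge (leaf 5 493 589) (leaf 5 525 653))))))) (merge (node 591 (merge (leaf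 4 494 623) (node 462 (merge (leaf 4 462 559) (node 431 (merge (leaf 6 430 463) (node 430 (merge (leaf 6 398 399) (node 429 (merge (leaf 7 397 397) (leaf 7 429 461))))))))))) (merge (node 621 (merge (leaf 5 493 589) (node 622 (merge (leaf 5 525 653) (node 655 (merge (leaf 4 526 623) (node 654 (merge (leaf 6 526 559) (leaf 4 558 687))))))))) (node 621 (merge (leaf 5 493 589) (node 622 (merge (leaf 5 525 653) (node 559 (merge (leaf 6 526 654) (node 462 (merge (leaf 4 430 430) (leaf 4 462 591))))))))))))))))))) (hyp 1))))) (merge (node 526 (merge (node 497 (merge (leaf 2 493 525) (node 498 (merge (leaf 1 495 499) (leaf 2 494 529))))) (merge (node 525 (merge (leaf 2 493 497) (node 524 (merge (leaf 2 492 495) (node 556 (merge (leaf 1 523 555) (leaf 1 524 557))))))) (merge (node 525 (merge (node 524 (merge (leaf 2 492 495) (node 492 (merge (leaf 3 491 491) (leaf 3 492 493))))) (merge (node 524 (merge (leaf 2 492 495) (node 556 (merge (leaf 1 523 555) (leaf 1 524 557))))) (node 557 (merge (leaf 1 524 556) (node 493 (merge (leaf 3 492 492) (node 494 (merge (leaf 3 493 529)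 (node 589 (merge (leaf 6 461 462) (leaf 6 493 621)))))))))))) (node 529 (merge (node 498 (merge (leaf 2 494 497) (node 530 (merge (leaf 2 495 499) (node 558 (merge (leaf 1 525 557) (leaf 1 526 559))))))) (merge (node 558 (merge (leaf 1 525 557) (node 559 (merge (leaf 1 526 530) (node 591 (merge (leaf 6 495 623) (node 495 (merge (leaf 6 463 464) (node 590 (merge (leaf 5 462 463) (leaf 5 494 622))))))))))) (merge (node 497 (merge (leaf 2 494 498) (node 465 (merge (node 433 (merge (leaf 5 400 401) (node 432 (merge (leaf 7 400 400) (node 464 (merge (leaf 5 431 559) (leaf 4 432 561))))))) (merge (node 433 (merge (leaf 5 400 401) (node 434 (merge (leaf 6 401 402) (node 561 (merge (leaf 6 433 466) (node 593 (merge (leaf 7 464 464) (leaf 7 496 625))))))))) (merge (node 464 (merge (node 432 (merge (leaf 4 400 400) (leaf 5 431 559))) (node 561 (merge (leaf 7 464 593) (node 466 (merge (leaf 6 433 434) (node 467 (merge (leaf 1 464 468) (leaf 1 463 495))))))))) (merge (node 433 (merge (leaf 5 400 401) (node 434 (merge (leaf 6 401 402) (node 466 (merge (leaf 6 433 561) (node 467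 (merge (leaf 1 464 468) (node 432 (merge (leaf 7 400 400) (leaf 0 431 431))))))))))) (node 433 (merge (leaf 5 400 401) (node 434 (merge (leaf 6 401 402) (node 432 (merge (leaf 7 400 400) (node 464 (merge (leaf 5 431 559) (node 463 (merge (leaf 1 431 435) (leaf 2 430 462)))))))))))))))))) (node 558 (merge (leaf 1 525 557) (node 530 (merge (node 498 (merge (leaf 2 494 497) (leaf 2 495 499))) (merge (node 531 (merge (leaf 3 495 495) (node 564 (merge (leaf 0 528 563) (node 532 (merge (leaf 3 496 497) (leaf 0 529 565))))))) (node 531 (merge (leaf 3 495 495) (node 564 (merge (leaf 0 528 563) (node 532 (merge (leaf 0 529 565) (node 500 (merge (leaf 2 496 499) (leaf 2 497 501)))))))))))))))))))))) (merge (node 526 (merge (node 497 (merge (leaf 2 493 525) (node 498 (merge (leaf 1 495 499) (leaf 2 494 529))))) (merge (node 525 (merge (leaf 2 493 497) (node 524 (merge (leaf 2 492 495) (node 556 (merge (leaf 1 523 555) (leaf 1 524 557))))))) (merge (node 525 (merge (node 524 (merge (leaf 2 492 495) (node 492 (merge (leaf 3 491 491) (leaf 3 492 493))))) (merge (node 524 (merge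 (leaf 2 492 495) (node 556 (merge (leaf 1 523 555) (leaf 1 524 557))))) (node 557 (merge (leaf 1 524 556) (node 558 (merge (leaf 1 525 529) (node 493 (merge (leaf 3 492 492) (node 590 (merge (leaf 4 461 461) (leaf 7 493 622)))))))))))) (node 529 (merge (node 498 (merge (leaf 2 494 497) (node 530 (merge (leaf 2 495 499) (node 558 (merge (leaf 1 525 557) (leaf 1 526 559))))))) (merge (node 558 (merge (leaf 1 525 557) (node 559 (merge (leaf 1 526 530) (node 591 (merge (leaf 6 495 623) (node 495 (merge (leaf 6 463 464) (node 590 (merge (leaf 5 462 463) (leaf 5 494 622))))))))))) (merge (node 497 (merge (leaf 2 494 498) (node 465 (merge (node 433 (merge (leaf 5 400 401) (node 432 (merge (leaf 7 400 400) (node 464 (merge (leaf 5 431 559) (leaf 4 432 561))))))) (merge (node 433 (merge (leaf 5 400 401) (node 434 (merge (leaf 6 401 402) (node 561 (merge (leaf 6 433 466) (node 593 (merge (leaf 7 464 464) (leaf 7 496 625))))))))) (merge (node 464 (merge (node 432 (merge (leaf 4 400 400) (leaf 5 431 559))) (node 561 (merge (leaf 7 464 593) (node 466 (merge (leaf 6 433 434) (node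 467 (merge (leaf 1 464 468) (leaf 1 463 495))))))))) (merge (node 433 (merge (leaf 5 400 401) (node 434 (merge (leaf 6 401 402) (node 466 (merge (leaf 6 433 561) (node 467 (merge (leaf 1 464 468) (node 432 (merge (leaf 7 400 400) (leaf 0 431 431))))))))))) (node 433 (merge (leaf 5 400 401) (node 434 (merge (leaf 6 401 402) (node 432 (merge (leaf 7 400 400) (node 464 (merge (leaf 5 431 559) (node 463 (merge (leaf 1 431 435) (leaf 2 430 462)))))))))))))))))) (node 558 (merge (leaf 1 525 557) (node 530 (merge (node 498 (merge (leaf 2 494 497) (leaf 2 495 499))) (merge (node 531 (merge (leaf 3 495 495) (node 564 (merge (leaf 0 528 563) (node 532 (merge (leaf 3 496 497) (leaf 0 529 565))))))) (node 531 (merge (leaf 3 495 495) (node 564 (merge (leaf 0 528 563) (node 532 (merge (leaf 0 529 565) (node 500 (merge (leaf 2 496 499) (leaf 2 497 501)))))))))))))))))))))) (hyp 2)))))))))))))) nJ_20 cJ_20 15 (by decide +kernel)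

end Crest.Agent.H26Snaky
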