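import Crest.Agent.H26SnJ00

/-! certificate data for S0047, part J 1 (computer generated) -/

set_option autoImplicit false
set_option maxRecDepth 100000

namespace Crest.Agent.H26Snaky

open T

def nJ_21 : ℕ := 0x100000001000000010000000000000000000000000000000000000000000000000000000000000000000000000000000000000000000000000000000000000000000000000000
def cJ_21 : ℕ := 0x280000003a0000003e000001ff000001ff800003af000000ef800000e7000000260000002200000020000000000000000000000000000000000000000000000000000000000000000000000000000000000000000000000000000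
theorem lJ_21 : S nJ_21 cJ_21 13 := S_of_chk [] trivial (node 558 (merge (node 592 (merge (node 625 (merge (leaf 4 496 593) (node 497 (merge (leaf 6 464 465) (node 624 (merge (leaf 6 496 529) (leaf 4 528 657))))))) (merge (node 625 (merge (leaf 4 496 593) (node 624 (merge (leaf 4 528 657) (node 623 (merge (leaf 5 495 591) (leaf 5 527 655))))))) (merge (node 497 (merge (leaf 6 464 465) (node 624 (merge (leaf 6 496 529) (node 623 (merge (leaf 5 495 591) (leaf 5 527 655))))))) (node 593 (merge (leaf 4 496 625) (node 591 (merge (leaf 5 495 623) (node 590 (merge (leaf 3 557 557) (node 621 (merge (leaf 1 589 622) (node 589 (merge (leaf 2 557 561) (leaf 1 588 620))))))))))))))) (merge (node 559 (merge (node 529 (merge (leaf 2 525 557) (node 530 (merge (leaf 1 526 527) (leaf 1 527 531))))) (merge (node 593 (merge (node 625 (merge (leaf 4 496 592) (node 561 (merge (leaf 7 496 529) (leaf 7 528 657))))) (merge (node 594 (merge (leaf 0 558 561) (node 592 (merge (leaf 3 558 591) (leaf 3 559 595))))) (merge (node 561 (merge (leaf 0 558 594) (node 625 (merge (leaf 7 496 529)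 (leaf 7 528 657))))) (node 592 (merge (leaf 4 496 625) (node 594 (merge (leaf 3 559 595) (node 591 (merge (leaf 3 558 558) (leaf 5 495 623))))))))))) (node 525 (merge (node 526 (merge (leaf 3 525 561) (node 524 (merge (leaf 0 523 523) (leaf 0 524 527))))) (merge (node 557 (merge (leaf 3 524 524) (node 556 (merge (leaf 2 524 527) (node 588 (merge (leaf 1 555 587) (leaf 1 556 589))))))) (merge (node 557 (merge (leaf 3 524 524) (node 589 (merge (leaf 1 556 588) (node 561 (merge (leaf 3 525 526) (leaf 1 557 590))))))) (node 561 (merge (leaf 3 525 526) (node 593 (merge (leaf 0 558 594) (node 557 (merge (leaf 0 557 592) (node 589 (merge (leaf 1 556 588) (leaf 1 557 590)))))))))))))))) (merge (node 592 (merge (node 593 (merge (leaf 4 496 625) (node 559 (merge (leaf 0 557 557) (node 594 (merge (leaf 0 558 561) (leaf 3 559 595))))))) (merge (node 625 (merge (leaf 4 496 593) (node 497 (merge (leaf 6 464 465) (node 624 (merge (leaf 6 496 529) (leaf 4 528 657))))))) (merge (node 497 (merge (leaf 6 464 465) (node 624 (merge (leaf 6 496 529) (node 657 (merge (leaf 4 528 625)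 (node 656 (merge (leaf 4 560 689) (node 655 (merge (leaf 5 527 623) (leaf 5 559 687))))))))))) (node 497 (merge (leaf 6 464 465) (node 624 (merge (leaf 6 496 529) (node 655 (merge (leaf 5 527 623) (node 656 (merge (leaf 5 559 687) (node 559 (merge (leaf 7 527 527) (node 557 (merge (leaf 0 557 593) (node 589 (merge (leaf 1 556 588) (node 561 (merge (leaf 1 557 590) (node 525 (merge (leaf 3 524 524) (leaf 3 525 526))))))))))))))))))))))) (merge (node 592 (merge (node 593 (merge (leaf 4 496 625) (node 559 (merge (leaf 0 557 557) (node 594 (merge (leaf 0 558 561) (leaf 3 559 595))))))) (merge (node 625 (merge (leaf 4 496 593) (node 497 (merge (leaf 6 464 465) (node 624 (merge (leaf 6 496 529) (leaf 4 528 657))))))) (node 497 (merge (leaf 6 464 465) (node 529 (merge (leaf 6 496 624) (node 559 (merge (leaf 2 525 557) (node 530 (merge (leaf 1 526 527) (leaf 2 526 561)))))))))))) (merge (node 559 (merge (node 529 (merge (leaf 2 525 557) (node 530 (merge (leaf 1 527 531) (leaf 2 526 561))))) (merge (node 557 (merge (leaf 2 525 529) (node 556 (merge (leaf 2 524 527) (node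 588 (merge (leaf 1 555 587) (leaf 1 556 589))))))) (merge (node 525 (merge (node 526 (merge (leaf 3 525 561) (node 524 (merge (leaf 0 523 523) (leaf 0 524 527))))) (merge (node 557 (merge (leaf 3 524 524) (node 556 (merge (leaf 2 524 527) (node 588 (merge (leaf 1 555 587) (leaf 1 556 589))))))) (merge (node 557 (merge (leaf 3 524 524) (node 589 (merge (leaf 1 556 588) (node 561 (merge (leaf 3 525 526) (leaf 1 557 590))))))) (node 561 (merge (leaf 3 525 526) (node 593 (merge (leaf 0 558 594) (node 557 (merge (leaf 0 557 592) (node 589 (merge (leaf 1 556 588) (leaf 1 557 590))))))))))))) (node 526 (merge (node 525 (merge (leaf 3 525 561) (node 524 (merge (leaf 0 523 523) (leaf 0 524 527))))) (merge (node 529 (merge (node 530 (merge (leaf 1 527 531) (leaf 2 526 561))) (node 591 (merge (node 623 (merge (leaf 6 495 527) (leaf 6 527 655))) (merge (node 623 (merge (leaf 5 495 592) (leaf 6 527 655))) (node 494 (merge (leaf 4 462 462) (node 527 (merge (leaf 3 493 493) (node 497 (merge (leaf 2 494 498) (node 592 (merge (leaf 6 464 465) (leaf 6 496 624)))))))))))))) (merge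 (node 527 (merge (node 525 (merge (leaf 2 493 497) (leaf 0 524 524))) (node 529 (merge (leaf 1 526 530) (node 494 (merge (leaf 3 493 493) (node 591 (merge (leaf 4 462 462) (leaf 6 495 623))))))))) (node 590 (merge (node 561 (merge (leaf 3 525 525) (leaf 1 557 589))) (merge (node 589 (merge (leaf 1 557 561) (node 588 (merge (leaf 2 555 587) (leaf 2 556 591))))) (merge (node 591 (merge (node 623 (merge (leaf 5 495 592) (leaf 7 526 655))) (node 494 (merge (leaf 4 462 462) (node 621 (merge (leaf 5 493 589) (node 622 (merge (leaf 5 525 653) (node 493 (merge (leaf 7 461 461) (leaf 7 493 525))))))))))) (node 525 (merge (leaf 3 525 561) (node 622 (merge (leaf 7 493 493) (node 623 (merge (leaf 4 526 655) (node 592 (merge (leaf 5 495 591) (node 621 (merge (leaf 5 525 653) (node 624 (merge (leaf 2 589 593) (node 497 (merge (leaf 6 464 465) (leaf 6 496 529))))))))))))))))))))))))))) (merge (node 559 (merge (node 529 (merge (leaf 2 525 557) (node 530 (merge (leaf 1 527 531) (leaf 2 526 561))))) (merge (node 557 (merge (leaf 2 525 529) (node 556 (merge (leaf 2 524 527) (node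 588 (merge (leaf 1 555 587) (leaf 1 556 589))))))) (merge (node 525 (merge (node 526 (merge (leaf 3 525 561) (node 527 (merge (leaf 2 493 497) (leaf 0 524 524))))) (merge (node 557 (merge (leaf 3 524 524) (node 556 (merge (leaf 2 524 527) (node 588 (merge (leaf 1 555 587) (leaf 1 556 589))))))) (merge (node 557 (merge (leaf 3 524 524) (node 589 (merge (leaf 1 556 588) (node 561 (merge (leaf 3 525 526) (leaf 1 557 590))))))) (node 526 (merge (leaf 3 525 561) (node 527 (merge (leaf 2 493 497) (node 557 (merge (leaf 1 524 556) (node 493 (merge (leaf 3 492 492) (node 461 (merge (leaf 4 429 429) (leaf 4 461 590))))))))))))))) (node 526 (merge (node 525 (merge (leaf 3 525 561) (node 527 (merge (leaf 2 493 497) (leaf 0 524 524))))) (merge (node 561 (merge (leaf 3 525 525) (node 593 (merge (leaf 0 558 594) (node 529 (merge (leaf 2 526 530) (leaf 7 496 625))))))) (merge (node 527 (merge (node 525 (merge (leaf 2 493 497) (leaf 0 524 524))) (node 529 (merge (leaf 1 526 530) (node 494 (merge (leaf 3 493 493) (node 591 (merge (leaf 4 462 462) (leaf 6 495 623))))))))) (node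 590 (merge (node 561 (merge (leaf 1 557 589) (node 593 (merge (leaf 0 558 594) (node 529 (merge (leaf 2 526 530) (leaf 7 496 625))))))) (merge (node 591 (merge (node 623 (merge (leaf 4 494 494) (leaf 7 526 655))) (merge (node 623 (merge (leaf 6 495 527) (leaf 6 527 655))) (node 494 (merge (leaf 4 462 462) (node 493 (merge (leaf 7 461 461) (node 529 (merge (leaf 3 493 527) (node 561 (merge (leaf 2 526 530) (node 593 (merge (leaf 0 558 594) (leaf 7 496 625)))))))))))))) (node 622 (merge (node 655 (merge (leaf 4 526 623) (node 654 (merge (leaf 6 526 527) (leaf 4 558 687))))) (merge (node 654 (merge (leaf 6 526 527) (node 653 (merge (leaf 5 525 621) (leaf 5 557 685))))) (node 623 (merge (leaf 4 526 655) (node 621 (merge (leaf 5 525 653) (node 589 (merge (leaf 5 493 494) (node 588 (merge (leaf 0 587 587) (leaf 3 588 624))))))))))))))))))))))) (merge (node 592 (merge (node 625 (merge (leaf 4 496 593) (node 497 (merge (leaf 6 464 465) (node 624 (merge (leaf 6 496 529) (leaf 4 528 657))))))) (merge (node 625 (merge (leaf 4 496 593) (node 624 (merge (leaf 4 528 657) (node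 623 (merge (leaf 5 495 591) (leaf 5 527 655))))))) (merge (node 497 (merge (leaf 6 464 465) (node 624 (merge (leaf 6 496 529) (node 623 (merge (leaf 5 495 591) (leaf 5 527 655))))))) (node 593 (merge (leaf 4 496 625) (node 557 (merge (leaf 0 557 559) (node 591 (merge (leaf 3 557 590) (leaf 5 495 623))))))))))) (merge (node 559 (merge (node 529 (merge (leaf 2 525 557) (node 530 (merge (leaf 1 527 531) (leaf 2 526 561))))) (merge (node 557 (merge (leaf 2 525 529) (node 556 (merge (leaf 2 524 527) (node 588 (merge (leaf 1 555 587) (leaf 1 556 589))))))) (merge (node 525 (merge (node 526 (merge (leaf 3 525 561) (node 527 (merge (leaf 2 493 497) (leaf 0 524 524))))) (merge (node 557 (merge (leaf 3 524 524) (node 556 (merge (leaf 2 524 527) (node 588 (merge (leaf 1 555 587) (leaf 1 556 589))))))) (merge (node 557 (merge (leaf 3 524 524) (node 589 (merge (leaf 1 556 588) (node 561 (merge (leaf 3 525 526) (leaf 1 557 590))))))) (node 526 (merge (leaf 3 525 561) (node 527 (merge (leaf 2 493 497) (node 557 (merge (leaf 1 524 556) (node 493 (merge (leaf 3 492 492) (node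 461 (merge (leaf 4 429 429) (leaf 4 461 590))))))))))))))) (node 526 (merge (node 525 (merge (leaf 3 525 561) (node 524 (merge (leaf 0 523 523) (leaf 0 524 527))))) (merge (node 497 (merge (node 527 (merge (leaf 2 493 525) (node 498 (merge (leaf 1 495 499) (leaf 2 494 529))))) (merge (node 592 (merge (leaf 6 464 465) (node 624 (merge (leaf 6 496 529) (node 623 (merge (leaf 5 495 591) (leaf 5 527 655))))))) (node 592 (merge (leaf 6 464 465) (node 623 (merge (leaf 5 495 591) (node 624 (merge (leaf 5 527 655) (node 656 (merge (leaf 7 527 527) (node 657 (merge (leaf 4 528 625) (leaf 4 560 689)))))))))))))) (merge (node 497 (merge (node 465 (merge (leaf 6 464 592) (node 433 (merge (leaf 5 400 401) (leaf 5 432 529))))) (merge (node 592 (merge (leaf 6 464 465) (node 623 (merge (leaf 5 495 591) (node 624 (merge (leaf 5 527 655) (node 656 (merge (leaf 7 527 527) (node 657 (merge (leaf 4 528 625) (leaf 4 560 689))))))))))) (merge (node 529 (merge (node 530 (merge (leaf 1 527 531) (leaf 2 526 561))) (node 527 (merge (leaf 2 494 498) (node 494 (merge (leaf 3 493 493) (node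 591 (merge (leaf 4 462 462) (leaf 6 495 623))))))))) (node 529 (merge (node 530 (merge (leaf 1 527 531) (leaf 2 526 561))) (node 527 (merge (leaf 2 494 498) (node 494 (merge (leaf 3 493 493) (node 591 (merge (leaf 4 462 462) (leaf 6 495 623))))))))))))) (node 623 (merge (node 591 (merge (leaf 7 526 655) (node 494 (merge (leaf 4 462 462) (leaf 4 494 590))))) (merge (node 561 (merge (leaf 3 525 525) (node 529 (merge (leaf 2 526 530) (node 592 (merge (leaf 5 495 591) (node 497 (merge (leaf 5 464 465) (leaf 6 496 624))))))))) (node 561 (merge (leaf 3 525 525) (node 590 (merge (leaf 1 557 589) (node 529 (merge (leaf 2 526 530) (node 622 (merge (leaf 4 526 655) (node 653 (merge (leaf 5 525 621) (node 654 (merge (leaf 5 557 685) (node 624 (merge (leaf 1 621 625) (node 592 (merge (leaf 6 496 497) (leaf 6 528 656)))))))))))))))))))))))))))) (merge (node 559 (merge (node 593 (merge (node 592 (merge (leaf 0 557 557) (leaf 4 496 625))) (merge (node 594 (merge (leaf 0 558 561) (node 592 (merge (leaf 3 558 591) (leaf 3 559 595))))) (node 561 (merge (leaf 0 558 594) (node 589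 (merge (leaf 1 557 590) (node 557 (merge (leaf 1 556 588) (node 525 (merge (leaf 3 524 524) (leaf 3 525 526)))))))))))) (merge (node 592 (merge (node 593 (merge (leaf 4 496 625) (node 558 (merge (leaf 0 557 557) (node 594 (merge (leaf 0 558 561) (leaf 3 559 595))))))) (merge (node 623 (merge (leaf 5 495 591) (node 624 (merge (leaf 5 527 655) (node 656 (merge (leaf 7 527 527) (node 657 (merge (leaf 4 528 625) (leaf 4 560 689))))))))) (node 593 (merge (node 558 (merge (leaf 0 557 557) (node 594 (merge (leaf 0 558 561) (leaf 3 559 595))))) (merge (node 594 (merge (leaf 3 559 595) (node 591 (merge (leaf 3 558 558) (leaf 5 495 623))))) (node 623 (merge (leaf 5 495 591) (node 624 (merge (leaf 5 527 655) (node 656 (merge (leaf 7 527 527) (node 689 (merge (leaf 4 560 657) (node 688 (merge (leaf 6 560 561) (leaf 4 592 721))))))))))))))))) (merge (node 525 (merge (node 526 (merge (leaf 3 525 561) (node 527 (merge (leaf 2 493 497) (leaf 0 524 524))))) (merge (node 557 (merge (leaf 3 524 524) (node 556 (merge (leaf 2 524 527) (node 588 (merge (leaf 1 555 587) (leaf 1 556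 589))))))) (node 561 (merge (leaf 3 525 526) (node 593 (merge (leaf 0 558 594) (node 625 (merge (leaf 4 496 592) (leaf 7 528 657)))))))))) (merge (node 525 (merge (node 526 (merge (leaf 3 525 561) (node 527 (merge (leaf 2 493 497) (leaf 0 524 524))))) (merge (node 557 (merge (leaf 3 524 524) (node 556 (merge (leaf 2 524 527) (node 588 (merge (leaf 1 555 587) (leaf 1 556 589))))))) (merge (node 557 (merge (leaf 3 524 524) (node 589 (merge (leaf 1 556 588) (node 561 (merge (leaf 3 525 526) (leaf 1 557 590))))))) (node 526 (merge (leaf 3 525 561) (node 527 (merge (leaf 2 493 497) (node 557 (merge (leaf 1 524 556) (node 493 (merge (leaf 3 492 492) (node 461 (merge (leaf 4 429 429) (leaf 4 461 590))))))))))))))) (merge (node 526 (merge (node 525 (merge (leaf 3 525 561) (node 527 (merge (leaf 2 493 497) (leaf 0 524 524))))) (merge (node 561 (merge (leaf 3 525 525) (node 593 (merge (leaf 0 558 594) (node 625 (merge (leaf 4 496 592) (leaf 7 528 657))))))) (merge (node 592 (merge (node 593 (merge (leaf 4 496 625) (node 591 (merge (leaf 3 558 594) (leaf 5 495 623))))) (merge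 (node 623 (merge (leaf 5 495 591) (node 624 (merge (leaf 5 527 655) (node 527 (merge (leaf 7 527 656) (node 497 (merge (leaf 6 464 465) (leaf 2 493 525))))))))) (merge (node 625 (merge (leaf 4 496 593) (node 624 (merge (leaf 4 528 657) (node 527 (merge (leaf 7 527 656) (node 497 (merge (leaf 6 464 465) (leaf 2 493 525))))))))) (node 593 (merge (leaf 4 496 625) (node 594 (merge (leaf 3 558 591) (leaf 3 559 595))))))))) (node 590 (merge (node 589 (merge (leaf 1 557 561) (node 588 (merge (leaf 2 555 587) (leaf 2 556 591))))) (merge (node 561 (merge (leaf 1 557 589) (node 593 (merge (leaf 0 558 594) (node 625 (merge (leaf 4 496 592) (leaf 7 528 657))))))) (node 623 (merge (node 591 (merge (leaf 4 494 494) (leaf 5 495 592))) (node 622 (merge (leaf 4 526 655) (node 653 (merge (leaf 5 525 621) (node 654 (merge (leaf 6 526 527) (leaf 5 557 685)))))))))))))))) (node 592 (merge (node 593 (merge (leaf 4 496 625) (node 558 (merge (leaf 0 557 557) (node 591 (merge (leaf 3 558 594) (leaf 5 495 623))))))) (merge (node 623 (merge (leaf 5 495 591) (node 624 (merge (leaf 5 527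 655) (node 656 (merge (leaf 7 527 527) (node 657 (merge (leaf 4 528 625) (leaf 4 560 689))))))))) (merge (node 625 (merge (leaf 4 496 593) (node 624 (merge (leaf 4 528 657) (node 656 (merge (leaf 7 527 527) (node 655 (merge (leaf 5 527 623) (leaf 5 559 687))))))))) (merge (node 625 (merge (leaf 4 496 593) (node 624 (merge (leaf 4 528 657) (node 656 (merge (leaf 7 527 527) (node 688 (merge (leaf 7 559 591) (node 687 (merge (leaf 5 559 655) (leaf 5 591 719))))))))))) (node 593 (merge (leaf 0 557 557) (node 591 (merge (leaf 3 558 594) (leaf 5 495 623)))))))))))))))) (node 592 (merge (node 625 (merge (leaf 4 496 593) (node 497 (merge (leaf 6 464 465) (node 624 (merge (leaf 6 496 529) (leaf 4 528 657))))))) (merge (node 625 (merge (leaf 4 496 593) (node 624 (merge (leaf 4 528 657) (node 623 (merge (leaf 5 495 591) (leaf 5 527 655))))))) (merge (node 497 (merge (leaf 6 464 465) (node 624 (merge (leaf 6 496 529) (node 623 (merge (leaf 5 495 591) (leaf 5 527 655))))))) (node 593 (merge (leaf 4 496 625) (node 591 (merge (leaf 5 495 623) (node 594 (merge (leaf 3 558 559)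 (node 627 (merge (leaf 0 591 626) (node 595 (merge (leaf 0 592 628) (node 564 (merge (leaf 2 560 563) (node 596 (merge (leaf 3 560 561) (leaf 2 561 565))))))))))))))))))))))))))))) nJ_21 cJ_21 13 (by decide +kernel)
def nJ_22 : ℕ := 0x1000000010000000000000000000000000000000000000000000000000000000000000000000000000000000000000000000000000000000000000000000000000000
def cJ_22 : ℕ := 0x280000003a0000003e000001ff000001ff800003bf000000ef800000e70000003e0000003e0000003e0000003a0000000000000000000000000000000000000000000000000000000000000000000000000000000000000000000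
theorem lJ_22 : S nJ_22 cJ_22 15 := S_of_chk [(nJ_21, cJ_21, 13)] ⟨lJ_21, trivial⟩ (node 560 (merge (node 591 (merge (node 559 (merge (leaf 5 463 464) (node 623 (merge (leaf 6 495 527) (leaf 6 527 655))))) (merge (node 623 (merge (leaf 5 495 592) (node 559 (merge (leaf 6 495 527) (leaf 6 527 655))))) (merge (node 592 (merge (leaf 5 495 623) (node 593 (merge (leaf 4 496 625) (node 464 (merge (leaf 4 464 561) (node 465 (merge (leaf 6 432 433) (leaf 6 464 497))))))))) (node 464 (merge (leaf 5 463 559) (node 593 (merge (leaf 4 464 561) (node 465 (merge (leaf 6 432 433) (node 592 (merge (leaf 6 464 497) (leaf 4 496 625))))))))))))) (merge (node 464 (merge (node 561 (merge (leaf 4 464 593) (node 432 (merge (leaf 4 432 529) (node 431 (merge (leaf 7 399 399) (leaf 7 431 463))))))) (merge (node 593 (merge (leaf 4 464 561) (node 465 (merge (leaf 6 432 433) (node 592 (merge (leaf 6 464 497) (leaf 4 496 625))))))) (node 433 (merge (leaf 6 432 465) (node 432 (merge (leaf 6 400 401) (node 431 (merge (leaf 7 399 399) (leaf 7 431 463)))))))))) (merge (node 464 (merge (node 433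 (merge (leaf 6 432 465) (node 432 (merge (leaf 6 400 401) (node 431 (merge (leaf 7 399 399) (leaf 7 431 463))))))) (merge (node 465 (merge (leaf 6 432 433) (node 592 (merge (leaf 6 464 497) (node 591 (merge (leaf 5 463 559) (leaf 5 495 623))))))) (merge (node 559 (merge (leaf 5 463 591) (node 432 (merge (leaf 5 431 527) (node 401 (merge (leaf 6 400 433) (node 400 (merge (leaf 6 368 369) (node 399 (merge (leaf 7 367 367) (leaf 7 399 431))))))))))) (node 559 (merge (leaf 5 463 591) (node 432 (merge (leaf 5 431 527) (node 399 (merge (leaf 7 399 431) (node 400 (merge (leaf 7 367 367) (node 497 (merge (leaf 4 400 529) (node 465 (merge (leaf 4 368 368) (leaf 6 464 592))))))))))))))))) (merge (node 464 (merge (node 593 (merge (leaf 4 464 561) (node 592 (merge (leaf 4 496 625) (node 591 (merge (leaf 5 463 559) (leaf 5 495 623))))))) (merge (node 559 (merge (leaf 5 463 591) (node 432 (merge (leaf 5 431 527) (node 401 (merge (leaf 6 400 433) (node 400 (merge (leaf 6 368 369) (node 399 (merge (leaf 7 367 367) (leaf 7 399 431))))))))))) (node 561 (merge (leaf 4 464 593) (node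 432 (merge (leaf 4 432 529) (node 401 (merge (leaf 6 400 433) (node 400 (merge (leaf 6 368 369) (node 399 (merge (leaf 7 367 367) (leaf 7 399 431)))))))))))))) (merge (node 592 (merge (node 625 (merge (leaf 4 496 593) (node 497 (merge (leaf 6 464 465) (node 624 (merge (leaf 6 496 529) (leaf 4 528 657))))))) (merge (node 497 (merge (leaf 6 464 465) (node 624 (merge (leaf 6 496 529) (node 623 (merge (leaf 5 495 591) (leaf 5 527 655))))))) (node 593 (merge (leaf 4 496 625) (node 464 (merge (leaf 4 464 561) (node 591 (merge (leaf 5 463 559) (leaf 5 495 623)))))))))) (merge (node 559 (merge (node 464 (merge (leaf 5 463 591) (node 433 (merge (leaf 6 432 465) (node 432 (merge (leaf 6 400 401) (node 431 (merge (leaf 7 399 399) (leaf 7 431 463))))))))) (merge (node 558 (merge (node 529 (merge (leaf 2 525 557) (node 530 (merge (leaf 1 527 531) (leaf 2 526 561))))) (merge (node 557 (merge (leaf 2 525 529) (node 556 (merge (leaf 2 524 527) (node 588 (merge (leaf 1 555 587) (leaf 1 556 589))))))) (merge (node 525 (merge (node 526 (merge (leaf 3 525 561) (node 527 (merge (leaf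 2 493 497) (leaf 0 524 524))))) (merge (node 557 (merge (leaf 3 524 524) (node 556 (merge (leaf 2 524 527) (node 588 (merge (leaf 1 555 587) (leaf 1 556 589))))))) (merge (node 557 (merge (leaf 3 524 524) (node 589 (merge (leaf 1 556 588) (node 561 (merge (leaf 3 525 526) (leaf 1 557 590))))))) (node 526 (merge (leaf 3 525 561) (node 527 (merge (leaf 2 493 497) (node 557 (merge (leaf 1 524 556) (node 493 (merge (leaf 3 492 492) (node 461 (merge (leaf 4 429 429) (leaf 4 461 590))))))))))))))) (node 526 (merge (node 525 (merge (leaf 3 525 561) (node 527 (merge (leaf 2 493 497) (leaf 0 524 524))))) (merge (node 561 (merge (leaf 3 525 525) (node 593 (merge (leaf 0 558 594) (node 529 (merge (leaf 2 526 530) (leaf 7 496 625))))))) (merge (node 527 (merge (node 525 (merge (leaf 2 493 497) (leaf 0 524 524))) (node 529 (merge (leaf 1 526 530) (node 494 (merge (leaf 3 493 493) (node 591 (merge (leaf 4 462 462) (leaf 6 495 623))))))))) (node 590 (merge (node 561 (merge (leaf 1 557 589) (node 593 (merge (leaf 0 558 594) (node 529 (merge (leaf 2 526 530) (leaf 7 496 625)))))))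 (merge (node 591 (merge (node 623 (merge (leaf 4 494 494) (leaf 7 526 655))) (merge (node 623 (merge (leaf 6 495 527) (leaf 6 527 655))) (node 494 (merge (leaf 4 462 462) (node 493 (merge (leaf 7 461 461) (node 529 (merge (leaf 3 493 527) (node 561 (merge (leaf 2 526 530) (node 593 (merge (leaf 0 558 594) (leaf 7 496 625)))))))))))))) (node 622 (merge (node 655 (merge (leaf 4 526 623) (node 654 (merge (leaf 6 526 527) (leaf 4 558 687))))) (merge (node 654 (merge (leaf 6 526 527) (node 653 (merge (leaf 5 525 621) (leaf 5 557 685))))) (node 623 (merge (leaf 4 526 655) (node 621 (merge (leaf 5 525 653) (node 589 (merge (leaf 5 493 494) (node 588 (merge (leaf 0 587 587) (leaf 3 588 624))))))))))))))))))))))) (node 558 (merge (node 529 (merge (leaf 2 525 557) (node 530 (merge (leaf 1 526 527) (leaf 1 527 531))))) (merge (node 561 (merge (node 593 (merge (leaf 4 464 464) (leaf 0 558 594))) (node 589 (merge (leaf 1 557 590) (node 557 (merge (leaf 1 556 588) (node 525 (merge (leaf 3 524 524) (leaf 3 525 526))))))))) (node 526 (merge (node 561 (merge (leaf 3 525 525) (node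 593 (merge (leaf 4 464 464) (leaf 0 558 594))))) (merge (node 525 (merge (leaf 3 525 561) (node 524 (merge (leaf 0 523 523) (leaf 0 524 527))))) (merge (node 527 (merge (node 525 (merge (leaf 2 493 497) (leaf 0 524 524))) (merge (node 529 (merge (leaf 1 526 530) (node 497 (merge (leaf 2 494 498) (node 494 (merge (leaf 3 493 493) (node 462 (merge (leaf 4 430 430) (node 463 (merge (leaf 6 430 431) (node 461 (merge (leaf 7 429 429) (leaf 0 461 464))))))))))))) (node 525 (merge (leaf 0 524 524) (node 529 (merge (leaf 1 526 530) (node 493 (merge (leaf 3 492 492) (leaf 3 493 494)))))))))) (node 590 (merge (node 561 (merge (leaf 1 557 589) (node 593 (merge (leaf 4 464 464) (leaf 0 558 594))))) (merge (node 622 (merge (node 655 (merge (leaf 4 526 623) (node 654 (merge (leaf 6 526 527) (leaf 4 558 687))))) (merge (node 654 (merge (leaf 6 526 527) (node 653 (merge (leaf 5 525 621) (leaf 5 557 685))))) (node 623 (merge (leaf 4 526 655) (node 621 (merge (leaf 5 525 653) (node 589 (merge (leaf 5 493 494) (node 588 (merge (leaf 0 587 587) (leaf 3 588 624)))))))))))) (node 494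 (merge (node 493 (merge (leaf 7 461 461) (node 529 (merge (leaf 3 493 527) (node 561 (merge (leaf 2 526 530) (node 593 (merge (leaf 0 558 594) (leaf 7 496 625))))))))) (merge (node 461 (merge (leaf 7 461 493) (node 462 (merge (leaf 7 429 429) (node 527 (merge (leaf 4 430 430) (node 464 (merge (leaf 5 431 432) (node 463 (merge (leaf 6 430 431) (leaf 0 461 497))))))))))) (merge (node 461 (merge (leaf 7 461 493) (node 462 (merge (leaf 7 429 429) (node 463 (merge (leaf 6 430 431) (node 464 (merge (leaf 0 461 497) (node 433 (merge (leaf 2 429 432) (leaf 6 432 465))))))))))) (merge (node 464 (merge (node 561 (merge (leaf 4 464 593) (node 432 (merge (leaf 5 431 527) (leaf 4 432 529))))) (merge (node 465 (merge (leaf 6 432 433) (node 463 (merge (leaf 7 431 431) (node 462 (merge (leaf 1 461 493) (node 430 (merge (leaf 3 429 429) (leaf 4 430 527))))))))) (merge (node 432 (merge (leaf 5 431 527) (node 431 (merge (leaf 7 399 399) (leaf 7 431 463))))) (node 561 (merge (leaf 4 464 593) (node 432 (merge (leaf 4 432 529) (node 433 (merge (leaf 6 400 401) (leaf 6 432 465)))))))))))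 (node 462 (merge (node 430 (merge (leaf 4 430 527) (node 399 (merge (leaf 6 398 431) (node 398 (merge (leaf 6 366 367) (node 397 (merge (leaf 7 365 365) (leaf 7 397 429))))))))) (merge (node 527 (merge (leaf 4 430 430) (node 464 (merge (leaf 5 431 432) (node 463 (merge (leaf 6 430 431) (node 497 (merge (leaf 0 461 461) (node 465 (merge (leaf 6 432 433) (leaf 0 462 498))))))))))) (merge (node 527 (merge (leaf 4 430 430) (node 529 (merge (leaf 1 526 530) (node 497 (merge (leaf 2 494 498) (node 464 (merge (leaf 5 431 432) (node 461 (merge (leaf 7 429 429) (leaf 0 461 463))))))))))) (merge (node 431 (merge (leaf 6 430 463) (node 430 (merge (leaf 6 398 399) (node 397 (merge (leaf 7 397 429) (node 398 (merge (leaf 7 365 365) (node 433 (merge (leaf 3 397 432) (node 465 (merge (leaf 6 432 464) (node 497 (merge (leaf 5 400 401) (leaf 5 432 529))))))))))))))) (node 463 (merge (leaf 6 430 431) (node 461 (merge (leaf 7 429 429) (node 464 (merge (leaf 0 461 497) (node 432 (merge (leaf 2 429 433) (leaf 5 431 527)))))))))))))))))))))))))))))))) (hyp 0)))))))) nJ_22 cJ_22 15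 (by decide +kernel)
def nJ_23 : ℕ := 0x1800000010000000000000000000000000000000000000000000000000000000000000000000000000000000000000000000000000000000000000000000000000000
def cJ_23 : ℕ := 0x28000001ff000001ff000003bf00000007000000ef000000ef0000003e0000001e000000000000000000000000000000000000000000000000000000000000000000000000000000000000000000000000000
theorem lJ_23 : S nJ_23 cJ_23 12 := S_of_chk [] trivial (node 495 (merge (node 560 (merge (node 592 (merge (leaf 7 463 463) (leaf 7 495 624))) (merge (node 592 (merge (leaf 7 495 624) (node 497 (merge (leaf 6 464 465) (node 498 (merge (leaf 1 495 499) (leaf 1 494 526))))))) (node 559 (merge (node 463 (merge (leaf 4 431 431) (node 591 (merge (leaf 6 495 623) (node 590 (merge (leaf 5 462 558) (leaf 5 494 622))))))) (merge (node 591 (merge (leaf 6 495 623) (node 590 (merge (leaf 5 494 622) (node 494 (merge (leaf 7 462 462) (node 493 (merge (leaf 0 492 492) (node 525 (merge (leaf 1 492 524) (node 526 (merge (leaf 0 525 561) (node 461 (merge (leaf 3 460 460) (leaf 7 461 558))))))))))))))) (node 463 (merge (leaf 4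 431 431) (node 462 (merge (leaf 7 430 430) (node 497 (merge (leaf 3 462 498) (node 525 (merge (leaf 2 493 526) (node 494 (merge (leaf 3 461 461) (node 493 (merge (leaf 0 492 492) (leaf 1 492 524))))))))))))))))))) (merge (node 560 (merge (node 592 (merge (leaf 7 463 463) (leaf 7 495 624))) (merge (node 592 (merge (leaf 7 495 624) (node 497 (merge (leaf 6 464 465) (node 498 (merge (leaf 1 495 499) (leaf 1 494 526))))))) (node 494 (merge (node 493 (merge (leaf 0 492 492) (node 525 (merge (leaf 1 492 524) (node 526 (merge (leaf 1 493 497) (leaf 0 525 561))))))) (merge (node 497 (merge (node 466 (merge (leaf 2 462 465) (node 498 (merge (leaf 2 463 467) (leaf 1 495 499))))) (node 525 (merge (leaf 1 493 526) (node 493 (merge (leaf 1 492 524) (node 461 (merge (leaf 3 460 460) (leaf 3 461 462))))))))) (merge (node 493 (merge (leaf 0 492 492) (node 461 (merge (leaf 3 460 460) (node 497 (merge (leaf 3 461 462) (node 498 (merge (leaf 1 495 499) (node 466 (merge (leaf 2 462 465) (leaf 2 463 467))))))))))) (merge (node 493 (merge (leaf 0 492 492) (node 525 (merge (leaf 1 492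 524) (node 526 (merge (leaf 0 525 561) (node 557 (merge (leaf 1 524 556) (node 589 (merge (leaf 6 461 462) (leaf 6 493 621))))))))))) (node 497 (merge (node 466 (merge (leaf 2 462 465) (node 498 (merge (leaf 2 463 467) (leaf 1 495 499))))) (node 526 (merge (leaf 1 493 525) (node 462 (merge (leaf 3 461 461) (node 430 (merge (leaf 4 398 398) (node 431 (merge (leaf 6 398 399) (leaf 4 431 463))))))))))))))))))) (merge (node 463 (merge (node 431 (merge (leaf 4 399 399) (node 526 (merge (leaf 5 430 558) (node 525 (merge (leaf 2 493 497) (leaf 2 492 524))))))) (merge (node 431 (merge (leaf 4 399 399) (node 432 (merge (leaf 6 399 400) (node 430 (merge (leaf 7 398 398) (node 462 (merge (leaf 7 430 559) (node 461 (merge (leaf 1 429 433) (leaf 0 460 460))))))))))) (node 559 (merge (node 591 (merge (leaf 6 495 623) (node 590 (merge (leaf 5 462 558) (leaf 5 494 622))))) (merge (node 591 (merge (leaf 6 495 623) (node 462 (merge (leaf 7 430 430) (leaf 7 462 494))))) (node 558 (merge (leaf 5 462 590) (node 557 (merge (leaf 2 524 556) (node 462 (merge (leaf 7 430 430) (node 497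 (merge (leaf 3 462 498) (node 526 (merge (leaf 2 493 525) (node 494 (merge (leaf 3 461 461) (leaf 5 461 589))))))))))))))))))) (merge (node 560 (merge (node 592 (merge (leaf 7 463 463) (leaf 7 495 624))) (merge (node 592 (merge (leaf 7 495 624) (node 497 (merge (leaf 6 464 465) (node 498 (merge (leaf 1 495 499) (leaf 1 494 526))))))) (node 559 (merge (node 463 (merge (leaf 4 431 431) (node 591 (merge (leaf 6 495 623) (node 590 (merge (leaf 5 462 558) (leaf 5 494 622))))))) (merge (node 463 (merge (leaf 4 431 431) (node 591 (merge (leaf 6 495 623) (node 462 (merge (leaf 7 430 430) (leaf 7 462 494))))))) (merge (node 591 (merge (leaf 6 495 623) (node 590 (merge (leaf 5 494 622) (node 589 (merge (leaf 2 556 588) (node 558 (merge (leaf 1 557 561) (node 494 (merge (leaf 7 462 462) (node 493 (merge (leaf 0 492 492) (node 461 (merge (leaf 3 460 460) (leaf 7 461 526))))))))))))))) (node 463 (merge (leaf 4 431 431) (node 558 (merge (leaf 5 462 590) (node 557 (merge (leaf 2 524 556) (node 589 (merge (leaf 1 556 588) (node 462 (merge (leaf 7 430 430) (node 497 (merge (leaf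 3 462 498) (node 494 (merge (leaf 3 461 461) (leaf 5 461 526)))))))))))))))))))))) (merge (node 463 (merge (node 560 (merge (leaf 4 431 431) (leaf 7 463 592))) (merge (node 431 (merge (leaf 4 399 399) (node 558 (merge (leaf 5 430 526) (node 430 (merge (leaf 7 398 398) (node 559 (merge (leaf 7 430 462) (leaf 5 462 590))))))))) (node 559 (merge (node 591 (merge (leaf 6 495 623) (node 462 (merge (leaf 7 430 430) (leaf 7 462 494))))) (merge (node 591 (merge (leaf 6 495 623) (node 592 (merge (leaf 4 495 624) (node 463 (merge (leaf 4 463 560) (node 590 (merge (leaf 5 462 558) (leaf 5 494 622))))))))) (node 560 (merge (leaf 4 463 592) (node 558 (merge (leaf 5 462 590) (node 557 (merge (leaf 2 524 556) (node 589 (merge (leaf 1 556 588) (node 525 (merge (leaf 3 524 524) (node 526 (merge (leaf 0 525 561) (node 462 (merge (leaf 7 430 430) (leaf 5 461 494))))))))))))))))))))) (merge (node 559 (merge (node 591 (merge (leaf 6 495 623) (node 590 (merge (leaf 5 494 622) (node 463 (merge (leaf 5 462 558) (node 431 (merge (leaf 4 399 399) (leaf 4 431 560))))))))) (merge (node 591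 (merge (leaf 6 495 623) (node 592 (merge (leaf 4 495 624) (node 560 (merge (leaf 4 463 463) (node 497 (merge (leaf 6 464 465) (node 526 (merge (leaf 1 494 498) (leaf 2 493 525))))))))))) (merge (node 591 (merge (leaf 6 495 623) (node 592 (merge (leaf 4 495 624) (node 590 (merge (leaf 5 494 622) (node 558 (merge (leaf 5 462 463) (node 557 (merge (leaf 0 556 556) (leaf 3 557 593))))))))))) (merge (node 463 (merge (node 431 (merge (leaf 4 399 399) (leaf 4 431 560))) (merge (node 431 (merge (leaf 4 399 399) (node 558 (merge (leaf 5 430 526) (leaf 5 462 590))))) (node 560 (merge (leaf 4 463 592) (node 558 (merge (leaf 5 462 590) (node 557 (merge (leaf 2 524 556) (node 525 (merge (leaf 3 524 524) (node 526 (merge (leaf 2 493 497) (leaf 0 525 561)))))))))))))) (node 497 (merge (node 526 (merge (leaf 1 494 498) (leaf 2 493 525))) (merge (node 591 (merge (leaf 6 495 623) (node 592 (merge (leaf 4 495 624) (node 560 (merge (leaf 6 464 465) (node 593 (merge (leaf 4 496 625) (node 558 (merge (leaf 0 557 557) (leaf 3 558 594))))))))))) (node 591 (merge (leaf 6 495 623) (node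 592 (merge (leaf 4 495 624) (node 560 (merge (leaf 6 464 465) (node 593 (merge (leaf 4 496 625) (node 558 (merge (leaf 0 557 557) (leaf 3 558 594))))))))))))))))))) (merge (node 560 (merge (node 592 (merge (leaf 7 495 624) (node 497 (merge (leaf 6 464 465) (node 526 (merge (leaf 1 494 498) (leaf 2 493 525))))))) (merge (node 592 (merge (node 625 (merge (leaf 4 496 593) (node 624 (merge (leaf 7 495 527) (leaf 4 528 657))))) (merge (node 623 (merge (leaf 5 495 591) (node 624 (merge (leaf 7 495 527) (leaf 5 527 655))))) (node 593 (merge (leaf 4 496 625) (node 558 (merge (node 559 (merge (leaf 0 557 557) (node 594 (merge (leaf 0 558 561) (leaf 3 559 595))))) (merge (node 557 (merge (leaf 0 557 559) (node 591 (merge (leaf 3 557 590) (leaf 5 495 623))))) (merge (node 591 (merge (leaf 5 495 623) (node 590 (merge (leaf 3 557 557) (node 621 (merge (leaf 1 589 622) (node 589 (merge (leaf 2 557 561) (leaf 1 588 620))))))))) (node 591 (merge (leaf 5 495 623) (node 594 (merge (leaf 3 558 559) (node 627 (merge (leaf 0 591 626) (node 595 (merge (leaf 0 592 628) (node 564 (merge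 (leaf 2 560 563) (node 596 (merge (leaf 3 560 561) (leaf 2 561 565)))))))))))))))))))))) (node 494 (merge (node 493 (merge (leaf 0 492 492) (node 525 (merge (leaf 1 492 524) (node 497 (merge (leaf 1 493 526) (node 498 (merge (leaf 1 495 499) (node 466 (merge (leaf 2 462 465) (leaf 2 463 467))))))))))) (merge (node 493 (merge (leaf 0 492 492) (node 461 (merge (leaf 3 460 460) (node 497 (merge (leaf 3 461 462) (node 498 (merge (leaf 1 495 499) (node 466 (merge (leaf 2 462 465) (leaf 2 463 467))))))))))) (merge (node 497 (merge (node 466 (merge (leaf 2 462 465) (node 498 (merge (leaf 2 463 467) (leaf 1 495 499))))) (node 462 (merge (leaf 3 461 461) (node 430 (merge (leaf 4 398 398) (node 559 (merge (leaf 4 430 526) (leaf 7 462 591))))))))) (node 493 (merge (leaf 0 492 492) (node 525 (merge (leaf 1 492 524) (node 526 (merge (leaf 0 525 561) (node 461 (merge (leaf 3 460 460) (node 429 (merge (leaf 4 397 397) (leaf 4 429 558)))))))))))))))))) (node 560 (merge (node 592 (merge (leaf 7 463 463) (leaf 7 495 624))) (merge (node 559 (merge (node 463 (merge (leaf 4 431 431)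 (node 591 (merge (leaf 6 495 623) (node 590 (merge (leaf 5 462 558) (leaf 5 494 622))))))) (merge (node 463 (merge (leaf 4 431 431) (node 591 (merge (leaf 6 495 623) (node 462 (merge (leaf 7 430 430) (leaf 7 462 494))))))) (merge (node 591 (merge (leaf 6 495 623) (node 590 (merge (leaf 5 494 622) (node 588 (merge (leaf 2 556 589) (node 494 (merge (leaf 7 462 462) (node 493 (merge (leaf 0 492 492) (node 525 (merge (leaf 1 492 524) (node 461 (merge (leaf 3 460 460) (node 557 (merge (leaf 5 460 556) (leaf 4 461 558))))))))))))))))) (node 463 (merge (leaf 4 431 431) (node 462 (merge (leaf 7 430 430) (node 461 (merge (leaf 0 460 460) (node 497 (merge (leaf 3 461 494) (leaf 3 462 498))))))))))))) (node 592 (merge (node 625 (merge (leaf 4 496 593) (node 624 (merge (leaf 7 495 527) (leaf 4 528 657))))) (merge (node 623 (merge (leaf 5 495 591) (node 624 (merge (leaf 7 495 527) (leaf 5 527 655))))) (node 593 (merge (leaf 4 496 625) (node 558 (merge (node 559 (merge (leaf 0 557 557) (node 594 (merge (leaf 0 558 561) (leaf 3 559 595))))) (merge (node 557 (merge (leaf 0 557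 559) (node 591 (merge (leaf 3 557 590) (leaf 5 495 623))))) (merge (node 591 (merge (leaf 5 495 623) (node 590 (merge (leaf 3 557 557) (node 621 (merge (leaf 1 589 622) (node 589 (merge (leaf 2 557 561) (leaf 1 588 620))))))))) (node 591 (merge (leaf 5 495 623) (node 594 (merge (leaf 3 558 559) (node 627 (merge (leaf 0 591 626) (node 595 (merge (leaf 0 592 628) (node 564 (merge (leaf 2 560 563) (node 596 (merge (leaf 3 560 561) (leaf 2 561 565))))))))))))))))))))))))))))))))) nJ_23 cJ_23 12 (by decide +kernel)
def nJ_24 : ℕ := 0x1800000010000000000000000000000000000000000000000000000000000000000000000000000000000000000000000000000000000000000000000000000000000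
def cJ_24 : ℕ := 0x28000001ff000001ff000003bf000001e3800001ef000000ef8000007c0000007e000000000000000000000000000000000000000000000000000000000000000000000000000000000000000000000000000
theorem lJ_24 : S nJ_24 cJ_24 14 := S_of_chk [] trivial (node 495 (merge (node 494 (merge (node 493 (merge (leaf 0 493 529) (node 492 (merge (leaf 0 492 527) (node 524 (merge (leaf 1 491 523) (leaf 1 492 525))))))) (merge (node 497 (merge (node 529 (merge (leaf 0 494 530) (node 465 (merge (leaf 2 462 466) (node 433 (merge (leaf 5 400 401) (leaf 5 432 560))))))) (merge (node 530 (merge (leaf 0 494 529) (node 498 (merge (leaf 0 495 531) (node 462 (merge (leaf 3 461 461) (leaf 3 462 463))))))) (node 466 (merge (leaf 2 462 465) (node 498 (merge (leaf 2 463 467) (node 462 (merge (leaf 3 461 461) (leaf 3 462 463)))))))))) (node 493 (merge (node 492 (merge (leaf 0 492 527) (node 524 (merge (leaf 1 491 523) (leaf 1 492 525))))) (merge (node 524 (merge (leaf 1 492 525) (node 492 (merge (leaf 1 491 523) (node 460 (merge (leaf 3 459 459) (leaf 3 460 461))))))) (node 461 (merge (leaf 3 460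 460) (node 497 (merge (leaf 3 461 462) (node 466 (merge (leaf 2 462 465) (node 498 (merge (leaf 2 463 467) (node 531 (merge (leaf 0 495 530) (node 499 (merge (leaf 1 495 527) (leaf 0 496 532))))))))))))))))))) (merge (node 559 (merge (node 591 (merge (leaf 6 495 623) (node 494 (merge (leaf 7 462 462) (node 493 (merge (leaf 0 492 492) (leaf 0 493 529))))))) (merge (node 591 (merge (leaf 6 495 623) (node 592 (merge (leaf 4 495 624) (node 463 (merge (leaf 4 463 560) (node 590 (merge (leaf 5 462 558) (leaf 5 494 622))))))))) (node 463 (merge (node 560 (merge (leaf 4 431 431) (leaf 7 463 592))) (merge (node 431 (merge (leaf 4 399 399) (node 430 (merge (leaf 7 398 398) (leaf 7 430 462))))) (node 560 (merge (leaf 4 463 592) (node 558 (merge (leaf 5 462 590) (node 557 (merge (leaf 2 525 529) (leaf 2 524 556))))))))))))) (merge (node 559 (merge (node 591 (merge (leaf 6 495 623) (node 590 (merge (leaf 5 494 622) (node 463 (merge (leaf 5 462 558) (node 431 (merge (leaf 4 399 399) (leaf 4 431 560))))))))) (merge (node 591 (merge (leaf 6 495 623) (node 592 (merge (leaf 4 495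 624) (node 560 (merge (leaf 4 463 463) (node 593 (merge (leaf 4 496 625) (node 594 (merge (leaf 3 558 558) (leaf 3 559 595))))))))))) (merge (node 560 (merge (node 592 (merge (leaf 4 463 463) (leaf 7 495 624))) (merge (node 463 (merge (leaf 4 431 431) (node 558 (merge (leaf 5 462 590) (node 557 (merge (leaf 2 525 529) (leaf 2 524 556))))))) (node 592 (merge (leaf 7 495 624) (node 593 (merge (leaf 4 496 625) (node 558 (merge (leaf 0 557 557) (node 594 (merge (leaf 0 558 561) (leaf 3 559 595)))))))))))) (merge (node 591 (merge (leaf 6 495 623) (node 592 (merge (leaf 4 495 624) (node 590 (merge (leaf 5 494 622) (node 558 (merge (leaf 5 462 463) (node 557 (merge (leaf 0 556 556) (leaf 3 557 593))))))))))) (merge (node 591 (merge (leaf 6 495 623) (node 592 (merge (leaf 4 495 624) (node 560 (merge (leaf 4 463 463) (node 590 (merge (leaf 5 494 622) (node 589 (merge (leaf 2 557 561) (leaf 2 556 588))))))))))) (node 497 (merge (node 591 (merge (leaf 6 495 623) (node 592 (merge (leaf 4 495 624) (node 590 (merge (leaf 5 494 622) (node 560 (merge (leaf 6 464 465) (node 589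 (merge (leaf 2 557 561) (leaf 2 556 588))))))))))) (merge (node 498 (merge (leaf 1 495 499) (node 530 (merge (leaf 0 495 531) (node 529 (merge (leaf 1 526 558) (node 466 (merge (leaf 2 463 467) (node 561 (merge (leaf 5 433 434) (leaf 6 465 593))))))))))) (node 591 (merge (leaf 6 495 623) (node 592 (merge (leaf 4 495 624) (node 560 (merge (leaf 6 464 465) (node 593 (merge (leaf 4 496 625) (node 594 (merge (leaf 3 558 558) (leaf 3 559 595)))))))))))))))))))) (merge (node 497 (merge (node 498 (merge (leaf 1 495 499) (node 530 (merge (leaf 0 495 531) (node 494 (merge (leaf 0 494 529) (node 493 (merge (leaf 0 492 492) (node 461 (merge (leaf 3 460 460) (leaf 3 461 462))))))))))) (merge (node 498 (merge (leaf 1 495 499) (node 466 (merge (leaf 2 463 467) (node 494 (merge (leaf 2 462 465) (node 493 (merge (leaf 0 492 492) (node 461 (merge (leaf 3 460 460) (leaf 3 461 462))))))))))) (merge (node 494 (merge (node 529 (merge (leaf 0 493 493) (node 530 (merge (leaf 0 494 497) (leaf 3 495 531))))) (merge (node 461 (merge (leaf 3 461 462) (node 493 (merge (leaf 3 460 460) (node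 492 (merge (leaf 0 492 527) (node 524 (merge (leaf 1 491 523) (leaf 1 492 525))))))))) (node 529 (merge (leaf 0 494 530) (node 465 (merge (leaf 2 462 466) (node 560 (merge (leaf 5 432 433) (leaf 6 464 592)))))))))) (node 559 (merge (node 498 (merge (leaf 1 495 499) (node 530 (merge (leaf 0 495 531) (node 529 (merge (leaf 1 526 558) (node 466 (merge (leaf 2 463 467) (node 561 (merge (leaf 5 433 434) (leaf 6 465 593))))))))))) (merge (node 591 (merge (leaf 6 495 623) (node 592 (merge (leaf 4 495 624) (node 590 (merge (leaf 5 494 622) (node 560 (merge (leaf 6 464 465) (node 589 (merge (leaf 2 557 561) (leaf 2 556 588))))))))))) (merge (node 591 (merge (leaf 6 495 623) (node 592 (merge (leaf 4 495 624) (node 590 (merge (leaf 5 494 622) (node 560 (merge (leaf 6 464 465) (node 589 (merge (leaf 2 557 561) (leaf 2 556 588))))))))))) (merge (node 498 (merge (leaf 1 495 499) (node 530 (merge (leaf 0 495 531) (node 529 (merge (leaf 1 526 558) (node 466 (merge (leaf 2 463 467) (node 434 (merge (leaf 5 401 402) (leaf 5 433 561))))))))))) (node 591 (merge (leaf 6 495 623) (node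 592 (merge (leaf 4 495 624) (node 560 (merge (leaf 6 464 465) (node 593 (merge (leaf 4 496 625) (node 558 (merge (leaf 0 557 557) (leaf 3 558 594)))))))))))))))))))) (merge (node 559 (merge (node 591 (merge (leaf 6 495 623) (node 494 (merge (leaf 7 462 462) (node 493 (merge (leaf 0 492 492) (leaf 0 493 529))))))) (merge (node 591 (merge (leaf 6 495 623) (node 592 (merge (leaf 4 495 624) (node 590 (merge (leaf 5 494 622) (node 558 (merge (leaf 5 462 463) (node 557 (merge (leaf 0 556 556) (leaf 3 557 593))))))))))) (node 529 (merge (node 530 (merge (leaf 3 495 531) (leaf 1 526 558))) (node 497 (merge (node 498 (merge (leaf 1 495 499) (node 466 (merge (leaf 2 463 467) (node 434 (merge (leaf 5 401 402) (node 561 (merge (leaf 6 433 465) (leaf 6 465 593))))))))) (merge (node 494 (merge (leaf 0 493 493) (node 462 (merge (leaf 3 461 461) (node 498 (merge (leaf 3 462 463) (node 499 (merge (leaf 1 496 500) (leaf 1 495 527))))))))) (node 494 (merge (leaf 0 493 493) (node 465 (merge (leaf 2 462 466) (node 462 (merge (leaf 3 461 461) (node 433 (merge (leaf 5 400 401) (node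 434 (merge (leaf 6 401 402) (node 432 (merge (leaf 7 400 400) (node 431 (merge (leaf 1 430 463) (node 398 (merge (leaf 3 398 399) (node 430 (merge (leaf 3 397 397) (leaf 4 398 527))))))))))))))))))))))))))) (node 560 (merge (node 592 (merge (leaf 7 463 463) (leaf 7 495 624))) (merge (node 559 (merge (node 463 (merge (leaf 4 431 431) (node 591 (merge (leaf 6 495 623) (node 590 (merge (leaf 5 462 558) (leaf 5 494 622))))))) (merge (node 463 (merge (leaf 4 431 431) (node 591 (merge (leaf 6 495 623) (node 462 (merge (leaf 7 430 430) (leaf 7 462 494))))))) (merge (node 591 (merge (leaf 6 495 623) (node 590 (merge (leaf 5 494 622) (node 588 (merge (leaf 2 556 589) (node 494 (merge (leaf 7 462 462) (node 493 (merge (leaf 0 492 492) (node 525 (merge (leaf 1 492 524) (node 461 (merge (leaf 3 460 460) (node 557 (merge (leaf 5 460 556) (leaf 4 461 558))))))))))))))))) (node 463 (merge (leaf 4 431 431) (node 462 (merge (leaf 7 430 430) (node 461 (merge (leaf 0 460 460) (node 497 (merge (leaf 3 461 494) (leaf 3 462 498))))))))))))) (node 592 (merge (node 625 (merge (leaf 4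 496 593) (node 624 (merge (leaf 7 495 527) (leaf 4 528 657))))) (merge (node 623 (merge (leaf 5 495 591) (node 624 (merge (leaf 7 495 527) (leaf 5 527 655))))) (node 593 (merge (leaf 4 496 625) (node 558 (merge (node 559 (merge (leaf 0 557 557) (node 594 (merge (leaf 0 558 561) (leaf 3 559 595))))) (merge (node 557 (merge (leaf 0 557 559) (node 591 (merge (leaf 3 557 590) (leaf 5 495 623))))) (merge (node 591 (merge (leaf 5 495 623) (node 590 (merge (leaf 3 557 557) (node 621 (merge (leaf 1 589 622) (node 589 (merge (leaf 2 557 561) (leaf 1 588 620))))))))) (node 591 (merge (leaf 5 495 623) (node 594 (merge (leaf 3 558 559) (node 627 (merge (leaf 0 591 626) (node 595 (merge (leaf 0 592 628) (node 564 (merge (leaf 2 560 563) (node 596 (merge (leaf 3 560 561) (leaf 2 561 565))))))))))))))))))))))))))))))) nJ_24 cJ_24 14 (by decide +kernel)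
def nJ_25 : ℕ := 0x1800000010000000000000000000000000000000000000000000000000000000000000000000000000000000000000000000000000000000000000000000000000000
def cJ_25 : ℕ := 0x250000003f000000ff0000003f000000e7000001cf0000000fc000001f8000001f000000010000000000000000000000000000000000000000000000000000000000000000000000000000000000000000000
theorem lJ_25 : S nJ_25 cJ_25 13 := S_of_chk [] trivial (node 495 (merge (node 526 (merge (node 525 (merge (leaf 2 492 524) (node 560 (merge (leaf 0 525 561) (node 592 (merge (leaf 7 463 463) (leaf 7 495 624))))))) (merge (node 558 (merge (node 590 (merge (leaf 6 494 622) (node 463 (merge (leaf 5 430 431) (leaf 5 462 559))))) (merge (node 529 (merge (leaf 1 525 557) (node 530 (merge (leaf 3 494 494) (leaf 3 495 531))))) (node 529 (merge (leaf 1 525 557) (node 530 (merge (leaf 1 526 559) (node 499 (merge (leaf 2 495 498) (node 531 (merge (leaf 3 495 495) (leaf 2 496 500)))))))))))) (node 525 (merge (leaf 2 492 524) (node 493 (merge (leaf 3 492 492) (node 529 (merge (leaf 0 493 494) (node 558 (merge (leaf 1 525 557) (node 530 (merge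 (leaf 3 495 531) (leaf 1 526 559)))))))))))))) (merge (node 559 (merge (node 591 (merge (leaf 6 495 623) (node 494 (merge (leaf 7 462 462) (node 493 (merge (leaf 0 492 492) (leaf 0 493 529))))))) (merge (node 591 (merge (leaf 6 495 623) (node 592 (merge (leaf 4 495 624) (node 463 (merge (leaf 4 463 560) (node 590 (merge (leaf 5 462 558) (leaf 5 494 622))))))))) (node 463 (merge (node 560 (merge (leaf 4 431 431) (leaf 7 463 592))) (merge (node 431 (merge (leaf 4 399 399) (node 430 (merge (leaf 7 398 398) (leaf 7 430 462))))) (node 560 (merge (leaf 4 463 592) (node 558 (merge (leaf 5 462 590) (node 557 (merge (leaf 2 525 529) (leaf 2 524 556))))))))))))) (merge (node 526 (merge (node 525 (merge (leaf 2 492 524) (node 560 (merge (leaf 0 525 561) (node 592 (merge (leaf 7 463 463) (leaf 7 495 624))))))) (merge (node 525 (merge (leaf 2 492 524) (node 557 (merge (leaf 1 524 556) (node 529 (merge (leaf 1 525 558) (node 530 (merge (leaf 3 494 494) (leaf 3 495 531))))))))) (node 494 (merge (node 529 (merge (leaf 0 493 493) (leaf 3 494 530))) (merge (node 529 (merge (leaf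 3 494 530) (node 558 (merge (leaf 1 525 557) (node 590 (merge (leaf 6 462 463) (leaf 6 494 622))))))) (node 493 (merge (leaf 0 492 492) (node 461 (merge (leaf 3 460 460) (node 558 (merge (leaf 7 461 590) (node 431 (merge (leaf 5 430 463) (node 462 (merge (leaf 7 429 429) (node 430 (merge (leaf 4 398 398) (leaf 6 398 399))))))))))))))))))) (merge (node 463 (merge (node 560 (merge (leaf 4 431 431) (leaf 7 463 592))) (merge (node 431 (merge (leaf 4 399 399) (node 558 (merge (leaf 5 430 526) (node 430 (merge (leaf 7 398 398) (node 559 (merge (leaf 7 430 462) (leaf 5 462 590))))))))) (node 559 (merge (node 591 (merge (leaf 6 495 623) (node 462 (merge (leaf 7 430 430) (leaf 7 462 494))))) (merge (node 591 (merge (leaf 6 495 623) (node 592 (merge (leaf 4 495 624) (node 463 (merge (leaf 4 463 560) (node 590 (merge (leaf 5 462 558) (leaf 5 494 622))))))))) (node 560 (merge (leaf 4 463 592) (node 558 (merge (leaf 5 462 590) (node 529 (merge (leaf 1 526 530) (node 494 (merge (leaf 0 493 493) (node 462 (merge (leaf 7 430 430) (node 461 (merge (leaf 0 460 460) (node 526 (merge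 (leaf 7 429 429) (node 525 (merge (leaf 0 524 524) (leaf 0 525 561))))))))))))))))))))))) (merge (node 526 (merge (node 525 (merge (leaf 2 492 524) (node 557 (merge (leaf 1 524 556) (node 529 (merge (leaf 1 525 558) (node 530 (merge (leaf 3 494 494) (leaf 3 495 531))))))))) (merge (node 525 (merge (leaf 2 492 524) (node 493 (merge (leaf 3 492 492) (node 494 (merge (leaf 0 493 529) (node 461 (merge (leaf 3 460 460) (node 558 (merge (leaf 4 429 429) (leaf 7 461 590))))))))))) (merge (node 529 (merge (node 530 (merge (leaf 3 494 494) (leaf 3 495 531))) (merge (node 558 (merge (leaf 1 525 557) (node 530 (merge (leaf 3 495 531) (leaf 1 526 559))))) (node 494 (merge (leaf 0 493 493) (node 558 (merge (leaf 1 525 557) (node 590 (merge (leaf 6 462 463) (leaf 6 494 622)))))))))) (merge (node 525 (merge (leaf 2 492 524) (node 557 (merge (leaf 1 524 556) (node 493 (merge (leaf 3 492 492) (node 494 (merge (leaf 0 493 529) (node 589 (merge (leaf 6 461 462) (leaf 6 493 621))))))))))) (node 558 (merge (node 590 (merge (leaf 6 494 622) (node 463 (merge (leaf 5 430 431) (leaf 5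 462 559))))) (merge (node 525 (merge (leaf 2 492 524) (node 493 (merge (leaf 3 492 492) (node 461 (merge (leaf 4 429 429) (node 590 (merge (leaf 4 461 557) (leaf 6 494 622))))))))) (node 525 (merge (leaf 2 492 524) (node 557 (merge (leaf 1 524 556) (node 493 (merge (leaf 3 492 492) (node 461 (merge (leaf 4 429 429) (node 463 (merge (leaf 5 430 431) (node 460 (merge (leaf 7 428 428) (leaf 0 460 462))))))))))))))))))))) (merge (node 494 (merge (node 529 (merge (leaf 0 493 493) (leaf 3 494 530))) (merge (node 526 (merge (node 525 (merge (leaf 2 492 524) (node 557 (merge (leaf 1 524 556) (node 529 (merge (leaf 1 525 558) (node 530 (merge (leaf 3 494 494) (leaf 3 495 531))))))))) (merge (node 529 (merge (leaf 3 494 530) (node 558 (merge (leaf 1 525 557) (node 590 (merge (leaf 6 494 622) (node 591 (merge (leaf 4 494 623) (node 559 (merge (leaf 4 462 462) (node 589 (merge (leaf 5 493 621) (node 560 (merge (leaf 1 557 561) (leaf 2 556 588))))))))))))))) (merge (node 525 (merge (leaf 2 492 524) (node 560 (merge (leaf 0 525 561) (node 557 (merge (leaf 1 524 556) (node 462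 (merge (leaf 5 429 430) (node 591 (merge (leaf 7 462 559) (node 592 (merge (leaf 5 495 623) (leaf 7 495 624))))))))))))) (node 525 (merge (leaf 2 492 524) (node 560 (merge (leaf 0 525 561) (node 592 (merge (leaf 7 495 624) (node 593 (merge (leaf 4 496 625) (node 591 (merge (leaf 5 495 623) (node 559 (merge (leaf 7 462 462) (node 594 (merge (leaf 3 558 558) (leaf 3 559 595))))))))))))))))))) (node 560 (merge (node 592 (merge (leaf 7 495 624) (node 593 (merge (leaf 4 496 625) (node 591 (merge (leaf 5 495 623) (node 559 (merge (leaf 7 462 462) (node 594 (merge (leaf 3 558 558) (leaf 3 559 595))))))))))) (merge (node 592 (merge (leaf 7 495 624) (node 591 (merge (leaf 5 495 623) (node 559 (merge (leaf 7 462 462) (node 590 (merge (leaf 5 494 622) (node 589 (merge (leaf 2 557 561) (leaf 2 556 588))))))))))) (merge (node 493 (merge (leaf 0 492 492) (node 525 (merge (leaf 1 492 524) (node 526 (merge (leaf 0 525 561) (node 461 (merge (leaf 3 460 460) (node 429 (merge (leaf 4 397 397) (leaf 4 429 558))))))))))) (node 493 (merge (leaf 0 492 492) (node 525 (merge (leaf 1 492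 524) (node 526 (merge (leaf 0 525 561) (node 461 (merge (leaf 3 460 460) (node 429 (merge (leaf 4 397 397) (leaf 4 429 558)))))))))))))))))) (merge (node 529 (merge (node 530 (merge (leaf 3 494 494) (leaf 3 495 531))) (merge (node 530 (merge (leaf 3 495 531) (node 559 (merge (leaf 1 526 558) (node 591 (merge (leaf 6 495 623) (node 592 (merge (leaf 4 495 624) (node 463 (merge (leaf 4 463 560) (node 431 (merge (leaf 4 399 399) (node 430 (merge (leaf 7 398 398) (leaf 7 430 462))))))))))))))) (node 559 (merge (node 591 (merge (leaf 6 495 623) (node 592 (merge (leaf 4 495 624) (node 560 (merge (leaf 4 463 463) (node 593 (merge (leaf 4 496 625) (node 594 (merge (leaf 3 558 558) (leaf 3 559 595))))))))))) (merge (node 494 (merge (leaf 0 493 493) (node 462 (merge (leaf 7 462 591) (node 430 (merge (leaf 4 398 398) (leaf 4 430 526))))))) (node 560 (merge (node 592 (merge (leaf 4 463 463) (leaf 7 495 624))) (merge (node 592 (merge (leaf 7 495 624) (node 593 (merge (leaf 4 496 625) (node 558 (merge (leaf 0 557 557) (node 594 (merge (leaf 0 558 561) (leaf 3 559 595)))))))))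 (node 494 (merge (leaf 0 493 493) (node 558 (merge (leaf 2 525 557) (node 463 (merge (leaf 4 431 431) (node 462 (merge (leaf 7 430 430) (node 461 (merge (leaf 0 460 460) (node 526 (merge (leaf 7 429 429) (node 561 (merge (leaf 0 525 525) (node 593 (merge (leaf 0 558 594) (leaf 7 496 625)))))))))))))))))))))))))) (merge (node 463 (merge (node 560 (merge (leaf 4 431 431) (leaf 7 463 592))) (merge (node 431 (merge (leaf 4 399 399) (node 558 (merge (leaf 5 430 526) (node 430 (merge (leaf 7 398 398) (node 559 (merge (leaf 7 430 462) (leaf 5 462 590))))))))) (node 559 (merge (node 591 (merge (leaf 6 495 623) (node 462 (merge (leaf 7 430 430) (leaf 7 462 494))))) (merge (node 591 (merge (leaf 6 495 623) (node 592 (merge (leaf 4 495 624) (node 463 (merge (leaf 4 463 560) (node 590 (merge (leaf 5 462 558) (leaf 5 494 622))))))))) (node 560 (merge (leaf 4 463 592) (node 558 (merge (leaf 5 462 590) (node 557 (merge (leaf 2 524 556) (node 589 (merge (leaf 1 556 588) (node 525 (merge (leaf 3 524 524) (node 526 (merge (leaf 0 525 561) (node 462 (merge (leaf 7 430 430) (leaf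 5 461 494))))))))))))))))))))) (merge (node 592 (merge (node 560 (merge (leaf 7 463 463) (leaf 7 495 624))) (merge (node 591 (merge (node 559 (merge (leaf 6 495 623) (leaf 4 495 624))) (merge (node 624 (merge (leaf 4 495 559) (leaf 7 495 560))) (merge (node 623 (merge (leaf 6 495 559) (leaf 5 495 560))) (node 560 (merge (leaf 5 495 623) (node 625 (merge (leaf 4 496 593) (node 624 (merge (leaf 7 495 527) (leaf 4 528 657))))))))))) (merge (node 463 (merge (leaf 7 463 560) (node 431 (merge (leaf 4 399 399) (node 430 (merge (leaf 7 398 398) (node 559 (merge (leaf 7 430 462) (node 590 (merge (leaf 5 462 558) (node 591 (merge (leaf 5 494 622) (leaf 6 495 623))))))))))))) (node 559 (merge (node 591 (merge (leaf 6 495 623) (leaf 4 495 624))) (node 463 (merge (node 431 (merge (leaf 4 399 399) (node 430 (merge (leaf 7 398 398) (leaf 7 430 462))))) (merge (node 431 (merge (leaf 4 399 399) (node 558 (merge (leaf 5 430 526) (leaf 5 462 590))))) (node 558 (merge (leaf 5 462 590) (node 529 (merge (leaf 1 526 530) (node 557 (merge (leaf 1 525 526) (leaf 2 524 556))))))))))))))))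 (node 493 (merge (node 494 (merge (leaf 0 492 492) (leaf 0 493 529))) (merge (node 525 (merge (node 526 (merge (leaf 3 492 492) (leaf 2 492 524))) (merge (node 526 (merge (leaf 3 492 492) (node 560 (merge (leaf 0 525 561) (node 592 (merge (leaf 7 463 463) (leaf 7 495 624))))))) (merge (node 526 (merge (leaf 2 492 524) (node 560 (merge (leaf 0 525 561) (node 592 (merge (leaf 7 463 463) (leaf 7 495 624))))))) (node 461 (merge (node 463 (merge (node 560 (merge (leaf 4 431 431) (leaf 7 463 592))) (merge (node 462 (merge (leaf 0 460 460) (node 430 (merge (leaf 6 429 557) (leaf 7 430 559))))) (node 462 (merge (leaf 0 460 460) (node 559 (merge (leaf 7 430 430) (node 592 (merge (leaf 4 463 560) (node 591 (merge (leaf 6 495 623) (leaf 4 495 624)))))))))))) (merge (node 463 (merge (node 560 (merge (leaf 4 431 431) (leaf 7 463 592))) (merge (node 460 (merge (leaf 0 460 462) (node 557 (merge (leaf 7 428 428) (node 588 (merge (leaf 5 460 556) (node 589 (merge (leaf 7 460 492) (leaf 5 492 620))))))))) (node 460 (merge (leaf 0 460 462) (node 557 (merge (leaf 7 428 428) (node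 588 (merge (leaf 5 460 556) (node 589 (merge (leaf 7 460 492) (leaf 5 492 620)))))))))))) (merge (node 429 (merge (node 524 (merge (leaf 5 428 556) (node 397 (merge (leaf 5 396 492) (node 396 (merge (leaf 7 364 364) (leaf 7 396 428))))))) (merge (node 556 (merge (leaf 5 428 524) (node 557 (merge (leaf 5 460 588) (node 430 (merge (leaf 6 397 398) (leaf 6 429 462))))))) (node 430 (merge (leaf 6 397 398) (node 462 (merge (leaf 6 429 557) (node 428 (merge (leaf 7 396 396) (node 463 (merge (leaf 0 427 427) (leaf 7 430 559)))))))))))) (merge (node 463 (merge (node 560 (merge (leaf 4 431 431) (leaf 7 463 592))) (merge (node 462 (merge (leaf 0 460 460) (node 559 (merge (leaf 7 430 430) (node 592 (merge (leaf 4 463 560) (node 591 (merge (leaf 6 495 623) (leaf 4 495 624))))))))) (node 431 (merge (leaf 4 399 399) (node 432 (merge (leaf 6 399 400) (node 430 (merge (leaf 7 398 398) (node 429 (merge (leaf 1 428 460) (node 396 (merge (leaf 3 396 397) (leaf 7 396 428)))))))))))))) (merge (node 429 (merge (node 556 (merge (leaf 5 428 524) (node 557 (merge (leaf 5 460 588) (node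 428 (merge (leaf 7 396 396) (leaf 7 428 460))))))) (merge (node 430 (merge (leaf 6 397 398) (node 428 (merge (leaf 7 396 396) (node 460 (merge (leaf 7 428 557) (node 459 (merge (leaf 1 427 431) (leaf 2 426 458))))))))) (merge (node 524 (merge (leaf 5 428 556) (node 397 (merge (leaf 5 396 492) (node 430 (merge (leaf 6 397 398) (node 396 (merge (leaf 7 364 364) (node 431 (merge (leaf 3 396 432) (node 463 (merge (leaf 4 399 399) (leaf 4 431 560))))))))))))) (node 556 (merge (leaf 5 428 524) (node 557 (merge (leaf 5 460 588) (node 460 (merge (leaf 7 428 428) (node 589 (merge (leaf 7 460 492) (node 590 (merge (leaf 4 493 622) (node 592 (merge (leaf 3 556 591) (node 560 (merge (leaf 7 463 463) (leaf 7 495 624))))))))))))))))))) (node 557 (merge (node 556 (merge (leaf 5 460 588) (node 429 (merge (leaf 5 428 524) (node 430 (merge (leaf 6 397 398) (leaf 6 429 462))))))) (merge (node 430 (merge (leaf 6 429 462) (node 429 (merge (leaf 6 397 398) (node 524 (merge (leaf 5 428 556) (node 492 (merge (leaf 5 396 397) (node 460 (merge (leaf 4 428 428) (leaf 7 460 589)))))))))))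 (merge (node 588 (merge (leaf 5 460 556) (node 589 (merge (leaf 5 492 620) (node 622 (merge (leaf 4 493 590) (node 621 (merge (leaf 4 525 654) (node 492 (merge (leaf 7 460 460) (leaf 7 492 524))))))))))) (node 460 (merge (leaf 7 428 428) (node 589 (merge (leaf 7 460 492) (node 622 (merge (leaf 4 493 590) (node 621 (merge (leaf 4 525 654) (node 620 (merge (leaf 5 492 588) (leaf 5 524 652))))))))))))))))))))))))) (node 462 (merge (node 494 (merge (leaf 0 493 529) (node 525 (merge (leaf 1 492 524) (node 430 (merge (leaf 5 397 398) (node 557 (merge (leaf 5 429 526) (leaf 6 461 589))))))))) (merge (node 463 (merge (node 560 (merge (leaf 4 431 431) (leaf 7 463 592))) (merge (node 431 (merge (leaf 4 399 399) (node 430 (merge (leaf 7 398 398) (leaf 7 430 559))))) (node 559 (merge (leaf 7 430 430) (node 592 (merge (leaf 4 463 560) (node 591 (merge (leaf 6 495 623) (leaf 4 495 624)))))))))) (node 494 (merge (leaf 0 493 529) (node 525 (merge (leaf 1 492 524) (node 461 (merge (leaf 3 460 460) (node 557 (merge (leaf 6 461 589) (node 556 (merge (leaf 1 524 526) (leaf 5 460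 588))))))))))))))))))))))))))) nJ_25 cJ_25 13 (by decide +kernel)
def nJ_26 : ℕ := 0x1800000010000000000000000000000000000000000000000000000000000000000000000000000000000000000000000000000000000000000000000000000000000
def cJ_26 : ℕ := 0xa0000007e0000007f0000007f000003b7800001e7000003ef8000002e0000000e0000000a000000000000000000000000000000000000000000000000000000000000000000000000000000000000000000000000000
theorem lJ_26 : S nJ_26 cJ_26 13 := S_of_chk [] trivial (node 526 (merge (node 497 (merge (leaf 2 493 525) (node 498 (merge (leaf 1 495 499) (leaf 2 494 529))))) (merge (node 525 (merge (leaf 2 493 497) (node 524 (merge (leaf 2 492 495) (node 556 (merge (leaf 1 523 555) (leaf 1 524 557))))))) (merge (node 525 (merge (node 524 (merge (leaf 2 492 495) (node 492 (merge (leaf 3 491 491) (leaf 3 492 493))))) (merge (node 524 (merge (leaf 2 492 495) (node 556 (merge (leaf 1 523 555) (leaf 1 524 557))))) (node 557 (merge (leaf 1 524 556) (node 493 (merge (leaf 3 492 492) (node 494 (merge (leaf 3 493 529) (node 589 (merge (leaf 6 461 462) (leaf 6 493 621))))))))))))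 (node 558 (merge (node 529 (merge (leaf 1 525 557) (node 530 (merge (node 498 (merge (leaf 2 494 497) (leaf 2 495 499))) (merge (node 531 (merge (leaf 3 495 495) (node 564 (merge (leaf 0 528 563) (node 532 (merge (leaf 3 496 497) (leaf 0 529 565))))))) (node 531 (merge (leaf 3 495 495) (node 564 (merge (leaf 0 528 563) (node 532 (merge (leaf 0 529 565) (node 500 (merge (leaf 2 496 499) (leaf 2 497 501)))))))))))))) (merge (node 590 (merge (node 495 (merge (leaf 6 494 622) (node 494 (merge (leaf 6 462 463) (node 493 (merge (leaf 7 461 461) (leaf 0 492 492))))))) (merge (node 622 (merge (leaf 6 494 495) (node 655 (merge (leaf 4 526 623) (node 654 (merge (leaf 4 558 687) (node 653 (merge (leaf 5 525 621) (leaf 5 557 685))))))))) (merge (node 494 (merge (node 493 (merge (leaf 7 461 461) (node 492 (merge (leaf 0 491 491) (leaf 0 492 495))))) (node 591 (merge (leaf 4 494 623) (node 589 (merge (leaf 5 493 621) (node 557 (merge (leaf 5 461 462) (node 556 (merge (leaf 0 555 555) (leaf 3 556 592))))))))))) (node 623 (merge (node 591 (merge (leaf 4 494 494) (node 655 (merge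 (leaf 4 526 622) (leaf 7 558 687))))) (merge (node 494 (merge (leaf 4 494 591) (node 589 (merge (leaf 5 493 621) (node 462 (merge (leaf 5 461 557) (node 461 (merge (leaf 7 429 429) (leaf 7 461 493))))))))) (merge (node 622 (merge (leaf 4 526 655) (node 621 (merge (leaf 5 525 653) (node 589 (merge (leaf 5 493 494) (node 624 (merge (leaf 3 588 588) (leaf 3 589 625))))))))) (node 655 (merge (leaf 4 526 622) (node 591 (merge (leaf 7 558 687) (node 592 (merge (leaf 5 495 560) (node 557 (merge (leaf 3 557 593) (node 589 (merge (leaf 3 556 556) (node 624 (merge (leaf 0 588 588) (leaf 0 589 625))))))))))))))))))))) (merge (node 494 (merge (node 529 (merge (leaf 3 493 493) (node 498 (merge (leaf 2 494 497) (node 530 (merge (leaf 3 494 495) (leaf 2 495 499))))))) (merge (node 493 (merge (leaf 3 493 529) (node 590 (merge (leaf 7 461 461) (node 623 (merge (leaf 4 494 591) (node 622 (merge (leaf 4 526 655) (node 621 (merge (leaf 5 493 589) (leaf 5 525 653))))))))))) (merge (node 462 (merge (node 461 (merge (leaf 7 429 429) (node 497 (merge (leaf 3 461 495) (node 498 (merge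 (leaf 1 495 499) (leaf 2 494 529))))))) (merge (node 431 (merge (leaf 6 430 463) (node 430 (merge (leaf 6 398 399) (node 429 (merge (leaf 7 397 397) (leaf 7 429 461))))))) (node 463 (merge (leaf 6 430 431) (node 590 (merge (leaf 6 462 495) (node 623 (merge (leaf 4 494 591) (node 622 (merge (leaf 4 526 655) (node 621 (merge (leaf 5 493 589) (leaf 5 525 653)))))))))))))) (node 463 (merge (node 495 (merge (leaf 5 430 431) (leaf 6 462 590))) (merge (node 431 (merge (leaf 6 430 462) (leaf 5 430 495))) (merge (node 462 (merge (leaf 6 430 431) (node 461 (merge (leaf 7 429 429) (node 590 (merge (leaf 7 461 493) (node 623 (merge (leaf 4 494 591) (node 622 (merge (leaf 4 526 655) (node 621 (merge (leaf 5 493 589) (leaf 5 525 653))))))))))))) (node 590 (merge (leaf 6 462 495) (node 623 (merge (leaf 4 494 591) (node 622 (merge (leaf 4 526 655) (node 621 (merge (leaf 5 493 589) (leaf 5 525 653))))))))))))))))) (node 590 (merge (node 494 (merge (node 493 (merge (leaf 7 461 461) (leaf 3 493 529))) (merge (node 557 (merge (leaf 1 525 529) (node 589 (merge (leaf 5 461 462) (leaf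 5 493 621))))) (node 589 (merge (leaf 5 493 621) (node 462 (merge (leaf 5 461 557) (node 461 (merge (leaf 7 429 429) (leaf 7 461 493)))))))))) (merge (node 494 (merge (node 493 (merge (leaf 7 461 461) (leaf 3 493 529))) (node 623 (merge (leaf 4 494 591) (node 622 (merge (leaf 4 526 655) (node 621 (merge (leaf 5 493 589) (leaf 5 525 653))))))))) (merge (node 591 (merge (node 623 (merge (leaf 4 494 494) (node 655 (merge (leaf 4 526 622) (leaf 7 558 687))))) (node 557 (merge (leaf 1 525 529) (node 556 (merge (leaf 0 555 555) (node 592 (merge (leaf 3 556 589) (leaf 3 557 593))))))))) (merge (node 623 (merge (node 591 (merge (leaf 4 494 494) (node 655 (merge (leaf 4 526 622) (leaf 7 558 687))))) (merge (node 494 (merge (leaf 4 494 591) (node 589 (merge (leaf 5 493 621) (node 462 (merge (leaf 5 461 557) (node 461 (merge (leaf 7 429 429) (leaf 7 461 493))))))))) (merge (node 622 (merge (leaf 4 526 655) (node 621 (merge (leaf 5 525 653) (node 589 (merge (leaf 5 493 494) (node 624 (merge (leaf 3 588 588) (leaf 3 589 625))))))))) (node 655 (merge (leaf 4 526 622) (node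 591 (merge (leaf 7 558 687) (node 592 (merge (leaf 5 495 560) (node 557 (merge (leaf 3 557 593) (node 589 (merge (leaf 3 556 556) (node 624 (merge (leaf 0 588 588) (leaf 0 589 625))))))))))))))))) (merge (node 592 (merge (node 529 (merge (leaf 1 525 557) (node 497 (merge (leaf 2 494 498) (node 560 (merge (leaf 6 464 465) (leaf 6 496 624))))))) (merge (node 557 (merge (leaf 1 525 529) (node 591 (merge (leaf 3 557 593) (node 623 (merge (leaf 4 494 494) (node 655 (merge (leaf 4 526 622) (leaf 7 558 687))))))))) (merge (node 591 (merge (node 593 (merge (leaf 3 557 557) (node 625 (merge (leaf 4 496 560) (leaf 0 590 626))))) (node 623 (merge (leaf 4 494 494) (node 655 (merge (leaf 4 526 622) (leaf 7 558 687))))))) (node 494 (merge (node 493 (merge (leaf 7 461 461) (leaf 3 493 529))) (merge (node 623 (merge (leaf 4 494 591) (node 622 (merge (leaf 4 526 655) (node 621 (merge (leaf 5 525 653) (node 624 (merge (leaf 2 589 593) (node 657 (merge (leaf 0 621 656) (node 560 (merge (leaf 4 528 625) (node 497 (merge (leaf 6 464 465) (leaf 6 496 529))))))))))))))) (node 623 (merge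 (leaf 4 494 591) (node 622 (merge (leaf 4 526 655) (node 621 (merge (leaf 5 525 653) (node 624 (merge (leaf 2 589 593) (node 657 (merge (leaf 0 621 656) (node 625 (merge (leaf 4 528 560) (leaf 0 622 658)))))))))))))))))))) (node 592 (merge (node 529 (merge (leaf 1 525 557) (node 497 (merge (leaf 2 494 498) (node 560 (merge (leaf 6 464 465) (leaf 6 496 624))))))) (merge (node 497 (merge (node 498 (merge (leaf 1 495 499) (leaf 2 494 529))) (node 560 (merge (leaf 6 464 465) (node 593 (merge (leaf 4 496 625) (node 591 (merge (leaf 5 495 623) (node 621 (merge (leaf 1 589 622) (node 589 (merge (leaf 2 557 561) (leaf 1 588 620))))))))))))) (merge (node 591 (merge (node 593 (merge (leaf 3 557 557) (node 622 (merge (leaf 1 589 621) (node 623 (merge (leaf 1 590 594) (leaf 4 526 655))))))) (merge (node 593 (merge (leaf 3 557 557) (node 560 (merge (leaf 5 495 623) (leaf 4 496 625))))) (merge (node 560 (merge (leaf 5 495 623) (node 589 (merge (leaf 2 557 561) (node 621 (merge (leaf 1 588 620) (node 593 (merge (leaf 1 589 622) (leaf 4 496 625))))))))) (merge (node 593 (merge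 (leaf 3 557 557) (node 621 (merge (leaf 1 589 622) (node 589 (merge (leaf 1 588 620) (node 560 (merge (leaf 2 557 561) (leaf 4 496 625))))))))) (node 560 (merge (leaf 5 495 623) (node 589 (merge (leaf 2 557 561) (node 621 (merge (leaf 1 588 620) (node 557 (merge (leaf 3 556 556) (leaf 6 525 653)))))))))))))) (node 557 (merge (leaf 1 525 529) (node 556 (merge (leaf 2 523 555) (node 591 (merge (leaf 3 556 589) (leaf 3 557 593))))))))))))))))))))))))) nJ_26 cJ_26 13 (by decide +kernel)
def nJ_27 : ℕ := 0x10000000000000001c00000010000000000000000000000000000000000000000000000000000000000000000000000000000000000000000000000000000000000000000000000000000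
def cJ_27 : ℕ := 0xa0000000e000000ffc000006f8000002fc00001e0000000e80000000c0000000c0000000c000000000000000000000000000000000000000000000000000000000000000000000000000000000000000000000000000
theorem lJ_27 : S nJ_27 cJ_27 10 := S_of_chk [] trivial (node 590 (merge (node 558 (merge (node 557 (merge (leaf 1 525 529) (node 556 (merge (leaf 2 523 555) (leaf 2 524 559))))) (node 622 (merge (leaf 6 494 495) (node 655 (merge (leaf 4 526 623) (node 654 (merge (leaf 4 558 687) (node 653 (merge (leaf 5 525 621) (leaf 5 557 685))))))))))) (merge (node 622 (merge (node 558 (merge (leaf 6 494 495) (node 655 (merge (leaf 4 526 623) (node 654 (merge (leaf 6 526 559) (leaf 4 558 687))))))) (merge (node 558 (merge (leaf 6 494 495) (node 654 (merge (leaf 6 526 559) (node 653 (merge (leaf 5 525 621) (leaf 5 557 685))))))) (merge (node 558 (merge (leaf 6 494 495) (node 623 (merge (leaf 4 526 655) (node 621 (merge (leaf 5 525 653) (node 593 (merge (leaf 1 589 591) (leaf 2 589 624))))))))) (merge (node 558 (merge (node 655 (merge (leaf 4 526 623) (node 654 (merge (leaf 6 526 559) (leaf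 4 558 687))))) (merge (node 654 (merge (leaf 6 526 559) (node 653 (merge (leaf 5 525 621) (leaf 5 557 685))))) (merge (node 655 (merge (leaf 4 526 623) (node 654 (merge (leaf 4 558 687) (node 653 (merge (leaf 5 525 621) (leaf 5 557 685))))))) (node 623 (merge (leaf 4 526 655) (node 621 (merge (leaf 5 525 653) (node 591 (merge (leaf 6 495 559) (node 592 (merge (leaf 1 589 593) (leaf 2 588 620))))))))))))) (node 591 (merge (node 559 (merge (leaf 5 494 495) (leaf 6 495 623))) (node 621 (merge (leaf 1 589 593) (node 620 (merge (leaf 1 588 589) (leaf 2 587 619)))))))))))) (merge (node 558 (merge (node 557 (merge (leaf 1 525 529) (node 556 (merge (leaf 2 523 555) (leaf 2 524 559))))) (merge (node 622 (merge (leaf 6 494 495) (node 655 (merge (leaf 4 526 623) (node 654 (merge (leaf 6 526 559) (leaf 4 558 687))))))) (node 557 (merge (leaf 1 525 529) (node 591 (merge (leaf 3 557 593) (node 589 (merge (leaf 3 556 556) (node 624 (merge (leaf 0 589 625) (node 623 (merge (leaf 0 588 588) (node 622 (merge (leaf 6 494 495) (leaf 4 526 655)))))))))))))))) (merge (node 558 (merge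 (node 557 (merge (leaf 1 525 529) (node 556 (merge (leaf 2 523 555) (leaf 2 524 559))))) (merge (node 622 (merge (leaf 6 494 495) (node 654 (merge (leaf 6 526 559) (node 653 (merge (leaf 5 525 621) (leaf 5 557 685))))))) (node 529 (merge (leaf 1 525 557) (node 497 (merge (leaf 2 494 498) (node 622 (merge (leaf 6 494 495) (node 621 (merge (leaf 5 525 653) (node 593 (merge (leaf 1 589 591) (node 561 (merge (leaf 5 496 624) (leaf 7 496 625)))))))))))))))) (merge (node 558 (merge (node 622 (merge (leaf 6 494 495) (node 655 (merge (leaf 4 526 623) (node 654 (merge (leaf 4 558 687) (node 653 (merge (leaf 5 525 621) (leaf 5 557 685))))))))) (merge (node 529 (merge (leaf 1 525 557) (node 497 (merge (leaf 2 494 498) (node 622 (merge (leaf 6 494 495) (node 621 (merge (leaf 5 525 653) (node 593 (merge (leaf 1 589 591) (node 561 (merge (leaf 5 496 624) (leaf 7 496 625))))))))))))) (merge (node 557 (merge (leaf 1 525 529) (node 591 (merge (leaf 3 557 593) (node 589 (merge (leaf 3 556 556) (node 624 (merge (leaf 0 589 625) (node 623 (merge (leaf 0 588 588) (node 622 (merge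 (leaf 6 494 495) (leaf 4 526 655))))))))))))) (node 557 (merge (leaf 1 525 529) (node 556 (merge (leaf 2 523 555) (node 591 (merge (leaf 3 556 589) (leaf 3 557 593))))))))))) (merge (node 558 (merge (node 557 (merge (leaf 1 525 529) (node 556 (merge (leaf 2 523 555) (leaf 2 524 559))))) (merge (node 622 (merge (node 655 (merge (leaf 4 526 623) (node 654 (merge (leaf 6 526 559) (leaf 4 558 687))))) (merge (node 654 (merge (leaf 6 526 559) (node 653 (merge (leaf 5 525 621) (leaf 5 557 685))))) (merge (node 655 (merge (leaf 4 526 623) (node 654 (merge (leaf 4 558 687) (node 653 (merge (leaf 5 525 621) (leaf 5 557 685))))))) (node 623 (merge (leaf 4 526 655) (node 621 (merge (leaf 5 525 653) (node 591 (merge (leaf 6 495 559) (node 592 (merge (leaf 1 589 593) (leaf 2 588 620))))))))))))) (node 557 (merge (leaf 1 525 529) (node 556 (merge (leaf 2 523 555) (node 591 (merge (leaf 3 556 589) (leaf 3 557 593)))))))))) (merge (node 591 (merge (node 559 (merge (leaf 6 495 623) (node 495 (merge (leaf 5 494 622) (leaf 4 495 624))))) (merge (node 589 (merge (node 625 (merge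 (leaf 0 589 624) (node 593 (merge (leaf 0 590 626) (node 621 (merge (leaf 1 588 620) (leaf 1 589 622))))))) (merge (node 620 (merge (leaf 1 588 621) (node 588 (merge (leaf 1 587 619) (node 556 (merge (leaf 3 555 555) (leaf 3 556 557))))))) (merge (node 556 (merge (leaf 3 556 557) (node 588 (merge (leaf 3 555 555) (node 623 (merge (leaf 0 588 624) (node 622 (merge (leaf 0 587 587) (node 593 (merge (leaf 1 590 594) (leaf 1 589 621))))))))))) (node 624 (merge (leaf 0 589 625) (node 588 (merge (leaf 0 588 623) (node 619 (merge (leaf 1 587 620) (node 587 (merge (leaf 1 586 618) (node 555 (merge (leaf 3 554 554) (leaf 3 555 556))))))))))))))) (merge (node 559 (merge (leaf 6 495 623) (node 622 (merge (leaf 5 494 495) (node 621 (merge (leaf 1 589 593) (node 620 (merge (leaf 1 588 589) (leaf 2 587 619))))))))) (merge (node 559 (merge (leaf 6 495 623) (node 624 (merge (leaf 4 495 495) (node 589 (merge (leaf 0 589 625) (node 620 (merge (leaf 1 588 621) (node 588 (merge (leaf 1 587 619) (node 556 (merge (leaf 3 555 555) (leaf 3 556 557))))))))))))) (node 625 (merge (node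 624 (merge (leaf 0 589 589) (node 626 (merge (leaf 0 590 593) (leaf 3 591 627))))) (merge (node 589 (merge (leaf 0 589 624) (node 620 (merge (leaf 1 588 621) (node 588 (merge (leaf 1 587 619) (node 556 (merge (leaf 3 555 555) (leaf 3 556 557))))))))) (node 593 (merge (leaf 0 590 626) (node 622 (merge (leaf 1 589 621) (node 495 (merge (leaf 5 494 559) (node 498 (merge (leaf 1 494 497) (node 529 (merge (leaf 7 496 561) (node 530 (merge (leaf 2 495 499) (leaf 3 495 531))))))))))))))))))))) (node 591 (merge (node 559 (merge (leaf 6 495 623) (node 624 (merge (leaf 4 495 495) (node 625 (merge (leaf 0 589 589) (node 626 (merge (leaf 0 590 593) (leaf 3 591 627))))))))) (merge (node 559 (merge (leaf 6 495 623) (node 495 (merge (leaf 4 495 624) (node 463 (merge (leaf 5 462 558) (node 431 (merge (leaf 4 399 399) (node 430 (merge (leaf 7 398 398) (leaf 7 430 462))))))))))) (merge (node 589 (merge (node 624 (merge (leaf 0 589 625) (node 588 (merge (leaf 0 588 623) (node 620 (merge (leaf 1 587 619) (leaf 1 588 621))))))) (merge (node 625 (merge (leaf 0 589 624) (node 593 (merge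 (leaf 0 590 626) (node 557 (merge (leaf 3 556 556) (leaf 3 557 558))))))) (node 620 (merge (leaf 1 588 621) (node 588 (merge (leaf 1 587 619) (node 556 (merge (leaf 3 555 555) (leaf 3 556 557)))))))))) (merge (node 593 (merge (node 558 (merge (leaf 3 557 557) (node 559 (merge (leaf 3 558 594) (node 495 (merge (leaf 5 462 463) (leaf 4 495 624))))))) (merge (node 626 (merge (leaf 0 590 625) (node 594 (merge (leaf 0 591 627) (node 558 (merge (leaf 3 557 557) (leaf 3 558 559))))))) (merge (node 625 (merge (leaf 0 590 626) (node 624 (merge (leaf 0 589 589) (node 559 (merge (leaf 4 495 495) (node 558 (merge (leaf 3 558 594) (node 529 (merge (leaf 1 526 530) (leaf 7 496 561))))))))))) (node 625 (merge (leaf 0 590 626) (node 589 (merge (leaf 0 589 624) (node 620 (merge (leaf 1 588 621) (node 588 (merge (leaf 1 587 619) (node 556 (merge (leaf 3 555 555) (leaf 3 556 557))))))))))))))) (node 558 (merge (node 557 (merge (leaf 1 525 529) (leaf 3 557 593))) (merge (node 593 (merge (leaf 3 557 557) (node 626 (merge (leaf 0 590 625) (node 594 (merge (leaf 3 558 559) (leaf 0 591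 627))))))) (merge (node 559 (merge (leaf 6 495 623) (node 529 (merge (leaf 1 526 530) (node 593 (merge (leaf 3 558 594) (node 625 (merge (leaf 7 496 561) (leaf 0 590 626))))))))) (node 529 (merge (leaf 1 525 557) (node 530 (merge (leaf 1 526 559) (node 497 (merge (leaf 2 494 498) (node 531 (merge (leaf 3 495 495) (leaf 3 496 532)))))))))))))))))))))))))) nJ_27 cJ_27 10 (by decide +kernel)
def nJ_28 : ℕ := 0x10000000000000001800000010000000000000000000000000000000000000000000000000000000000000000000000000000000000000000000000000000000000000000000000000000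
def cJ_28 : ℕ := 0x80000001c000001ff800000ef800001bfc0000087000000e7800000230000000300000000000000000000000000000000000000000000000000000000000000000000000000000000000000000000000000000000000
theorem lJ_28 : S nJ_28 cJ_28 13 := S_of_chk [] trivial (node 591 (merge (node 623 (merge (leaf 6 495 559) (leaf 5 495 560))) (merge (node 593 (merge (node 560 (merge (leaf 5 495 623) (leaf 4 496 625))) (merge (node 623 (merge (leaf 5 495 560) (node 622 (merge (leaf 1 590 594) (node 621 (merge (leaf 1 589 590) (leaf 2 588 620))))))) (merge (node 625 (merge (leaf 4 496 560) (node 590 (merge (leaf 0 590 626) (node 589 (merge (leaf 0 589 624) (node 621 (merge (leaf 1 588 620) (leaf 1 589 622))))))))) (node 590 (merge (node 626 (merge (leaf 0 590 625) (node 594 (merge (leaf 0 591 627) (node 622 (merge (leaf 1 589 621) (leaf 1 590 623))))))) (merge (node 622 (merge (leaf 1 589 621) (node 623 (merge (leaf 1 590 594) (node 558 (merge (leaf 3 557 557) (node 655 (merge (leaf 4 526 526) (leaf 7 558 687))))))))) (merge (node 625 (merge (leaf 0 590 626) (node 589 (merge (leaf 0 589 624)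 (node 557 (merge (leaf 3 556 556) (leaf 3 557 558))))))) (node 626 (merge (leaf 0 590 625) (node 594 (merge (leaf 0 591 627) (node 623 (merge (leaf 1 590 622) (node 595 (merge (leaf 1 591 624) (node 563 (merge (leaf 2 560 564) (node 558 (merge (leaf 3 557 557) (node 526 (merge (leaf 4 494 494) (node 497 (merge (leaf 2 493 525) (node 499 (merge (leaf 1 495 498) (leaf 5 498 531))))))))))))))))))))))))))) (merge (node 623 (merge (leaf 6 495 559) (node 590 (merge (node 589 (merge (node 624 (merge (leaf 0 588 588) (leaf 0 589 625))) (merge (node 620 (merge (leaf 1 588 621) (node 588 (merge (leaf 1 587 619) (node 556 (merge (leaf 3 555 555) (leaf 3 556 557))))))) (node 625 (merge (leaf 0 589 624) (node 593 (merge (leaf 0 590 626) (node 557 (merge (leaf 3 556 556) (leaf 3 557 558)))))))))) (merge (node 526 (merge (node 558 (merge (leaf 4 494 494) (node 655 (merge (leaf 4 526 622) (leaf 7 558 687))))) (merge (node 525 (merge (leaf 2 493 497) (node 557 (merge (leaf 1 524 556) (node 493 (merge (leaf 3 492 492) (node 622 (merge (leaf 7 493 558) (leaf 4 493 589))))))))) (merge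 (node 525 (merge (leaf 2 493 497) (node 557 (merge (leaf 1 524 556) (node 493 (merge (leaf 3 492 492) (node 589 (merge (leaf 4 493 622) (node 621 (merge (leaf 6 493 494) (leaf 1 588 620))))))))))) (node 525 (merge (leaf 2 493 497) (node 556 (merge (leaf 1 524 557) (node 524 (merge (leaf 1 523 555) (node 492 (merge (leaf 3 491 491) (leaf 3 492 493))))))))))))) (merge (node 625 (merge (node 626 (merge (leaf 0 590 593) (leaf 3 590 624))) (merge (node 593 (merge (leaf 0 590 626) (node 622 (merge (leaf 1 590 594) (leaf 1 589 621))))) (node 589 (merge (leaf 0 589 624) (node 620 (merge (leaf 1 588 621) (node 588 (merge (leaf 1 587 619) (node 587 (merge (leaf 0 587 622) (node 555 (merge (leaf 3 554 554) (leaf 3 555 556)))))))))))))) (merge (node 557 (merge (node 589 (merge (leaf 3 556 556) (node 624 (merge (leaf 0 588 588) (leaf 0 589 625))))) (merge (node 593 (merge (leaf 3 557 558) (node 626 (merge (leaf 0 590 625) (node 594 (merge (leaf 1 590 622) (leaf 0 591 627))))))) (node 593 (merge (leaf 3 557 558) (node 594 (merge (leaf 1 590 622) (node 627 (merge (leaf 0 591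 626) (node 595 (merge (leaf 1 591 624) (leaf 0 592 628)))))))))))) (node 558 (merge (node 593 (merge (leaf 3 557 557) (node 626 (merge (leaf 0 590 625) (node 594 (merge (leaf 0 591 627) (node 622 (merge (leaf 1 589 621) (leaf 1 590 623))))))))) (merge (node 526 (merge (leaf 4 494 494) (node 525 (merge (leaf 2 493 497) (node 493 (merge (leaf 3 492 492) (node 461 (merge (leaf 4 429 429) (leaf 4 461 557))))))))) (node 655 (merge (leaf 7 558 687) (node 526 (merge (leaf 4 494 494) (leaf 4 526 622))))))))))))))) (node 590 (merge (node 593 (merge (node 625 (merge (leaf 4 496 560) (leaf 0 590 626))) (node 622 (merge (leaf 1 589 621) (node 558 (merge (leaf 3 557 557) (node 559 (merge (leaf 3 558 594) (leaf 6 526 654))))))))) (merge (node 589 (merge (node 625 (merge (leaf 0 589 624) (node 593 (merge (leaf 0 590 626) (node 621 (merge (leaf 1 588 620) (leaf 1 589 622))))))) (merge (node 624 (merge (leaf 0 589 625) (node 560 (merge (leaf 2 557 561) (node 559 (merge (leaf 2 556 588) (leaf 7 527 656))))))) (node 620 (merge (leaf 1 588 621) (node 588 (merge (leaf 1 587 619) (node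 560 (merge (leaf 2 556 559) (leaf 2 557 561)))))))))) (merge (node 593 (merge (node 625 (merge (leaf 0 590 626) (node 589 (merge (leaf 0 589 624) (node 621 (merge (leaf 1 588 620) (leaf 1 589 622))))))) (merge (node 622 (merge (leaf 1 589 621) (node 558 (merge (leaf 3 557 557) (node 559 (merge (leaf 3 558 594) (leaf 6 526 654))))))) (node 626 (merge (leaf 0 590 625) (node 594 (merge (leaf 0 591 627) (node 558 (merge (leaf 3 557 557) (leaf 3 558 559)))))))))) (merge (node 589 (merge (node 620 (merge (leaf 1 588 621) (node 588 (merge (leaf 1 587 619) (node 556 (merge (leaf 3 555 555) (leaf 3 556 557))))))) (merge (node 624 (merge (leaf 0 589 625) (node 560 (merge (leaf 2 557 561) (node 559 (merge (leaf 2 556 588) (leaf 7 527 656))))))) (node 621 (merge (leaf 1 588 620) (node 560 (merge (leaf 2 557 561) (node 557 (merge (leaf 3 556 556) (node 497 (merge (leaf 6 464 465) (node 525 (merge (leaf 2 493 526) (node 493 (merge (leaf 4 493 622) (node 492 (merge (leaf 7 460 460) (leaf 7 492 524)))))))))))))))))) (merge (node 557 (merge (node 593 (merge (leaf 3 557 558) (node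 625 (merge (leaf 4 496 560) (leaf 0 590 626))))) (merge (node 589 (merge (leaf 3 556 556) (node 621 (merge (leaf 1 588 620) (node 560 (merge (leaf 2 557 561) (node 497 (merge (leaf 6 464 465) (node 525 (merge (leaf 2 493 526) (node 493 (merge (leaf 4 493 622) (node 492 (merge (leaf 7 460 460) (leaf 7 492 524))))))))))))))) (node 589 (merge (leaf 3 556 556) (node 625 (merge (leaf 0 589 624) (node 593 (merge (leaf 3 557 558) (leaf 0 590 626)))))))))) (merge (node 557 (merge (node 558 (merge (leaf 3 557 593) (node 556 (merge (leaf 0 555 555) (leaf 0 556 559))))) (merge (node 593 (merge (leaf 3 557 558) (node 625 (merge (leaf 4 496 560) (leaf 0 590 626))))) (merge (node 589 (merge (leaf 3 556 556) (node 620 (merge (leaf 1 588 621) (node 588 (merge (leaf 1 587 619) (node 560 (merge (leaf 2 556 559) (leaf 2 557 561))))))))) (node 589 (merge (leaf 3 556 556) (node 560 (merge (leaf 2 557 561) (node 588 (merge (leaf 2 556 559) (node 497 (merge (leaf 6 464 465) (node 525 (merge (leaf 2 493 526) (node 493 (merge (leaf 5 492 620) (node 461 (merge (leaf 4 461 558) (node 460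 (merge (leaf 7 428 428) (leaf 7 460 492))))))))))))))))))))) (merge (node 557 (merge (node 558 (merge (leaf 3 557 593) (node 556 (merge (leaf 0 555 555) (leaf 0 556 559))))) (merge (node 593 (merge (leaf 3 557 558) (node 625 (merge (leaf 4 496 560) (leaf 0 590 626))))) (node 589 (merge (leaf 3 556 556) (node 560 (merge (leaf 2 557 561) (node 588 (merge (leaf 2 556 559) (node 497 (merge (leaf 6 464 465) (node 525 (merge (leaf 2 493 526) (node 493 (merge (leaf 5 492 620) (leaf 4 493 622)))))))))))))))) (node 589 (merge (node 620 (merge (leaf 1 588 621) (node 588 (merge (leaf 1 587 619) (node 556 (merge (leaf 3 555 555) (leaf 3 556 557))))))) (merge (node 620 (merge (leaf 1 588 621) (node 588 (merge (leaf 1 587 619) (node 560 (merge (leaf 2 556 559) (leaf 2 557 561))))))) (merge (node 621 (merge (leaf 1 588 620) (node 560 (merge (leaf 2 557 561) (node 557 (merge (leaf 3 556 556) (node 497 (merge (leaf 6 464 465) (node 525 (merge (leaf 2 493 526) (node 493 (merge (leaf 4 493 622) (node 492 (merge (leaf 7 460 460) (leaf 7 492 524))))))))))))))) (merge (node 560 (merge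 (leaf 2 557 561) (node 588 (merge (leaf 2 556 559) (node 557 (merge (leaf 3 556 556) (node 497 (merge (leaf 6 464 465) (node 525 (merge (leaf 2 493 526) (node 493 (merge (leaf 5 492 620) (leaf 4 493 622))))))))))))) (node 560 (merge (leaf 2 557 561) (node 559 (merge (leaf 2 556 588) (node 557 (merge (leaf 3 556 556) (node 558 (merge (leaf 0 557 593) (node 525 (merge (leaf 3 524 524) (node 622 (merge (leaf 4 493 493) (leaf 7 525 654)))))))))))))))))))))))))))))) nJ_28 cJ_28 13 (by decide +kernel)
def nJ_29 : ℕ := 0x10000000000000001800000010000000000000000000000000000000000000000000000000000000000000000000000000000000000000000000000000000000000000000000000000000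
def cJ_29 : ℕ := 0x20000000e0000000e0000000e000000ef0000006e0000000f80000067000000e78000000e0000000e0000000e0000000a0000000000000000000000000000000000000000000000000000000000000000000000000000000000000000000
theorem lJ_29 : S nJ_29 cJ_29 11 := S_of_chk [] trivial (node 526 (merge (node 497 (merge (leaf 2 493 525) (node 498 (merge (leaf 1 495 499) (leaf 2 494 529))))) (merge (node 525 (merge (leaf 2 493 497) (node 556 (merge (leaf 1 524 557) (node 524 (merge (leaf 1 523 555) (node 492 (merge (leaf 3 491 491) (leaf 3 492 493))))))))) (merge (node 494 (merge (node 493 (merge (leaf 3 493 529) (node 492 (merge (leaf 0 491 491) (leaf 3 492 525))))) (merge (node 529 (merge (leaf 3 493 493) (node 558 (merge (leaf 1 525 557) (node 559 (merge (leaf 1 526 530) (node 462 (merge (leaf 4 430 430) (leaf 4 462 591))))))))) (merge (node 462 (merge (node 559 (merge (leaf 4 430 430) (node 591 (merge (leaf 4 462 558) (leaf 6 495 623))))) (merge (node 430 (merge (leaf 4 430 559) (node 399 (merge (leaf 6 398 431) (node 398 (merge (leaf 6 366 367) (node 397 (merge (leaf 7 365 365) (leaf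 7 397 429))))))))) (merge (node 429 (merge (node 397 (merge (leaf 7 397 430) (node 461 (merge (leaf 4 365 365) (leaf 4 397 493))))) (merge (node 461 (merge (leaf 7 429 558) (node 397 (merge (leaf 4 365 365) (leaf 4 397 493))))) (merge (node 430 (merge (leaf 7 397 397) (node 557 (merge (leaf 5 429 525) (node 558 (merge (leaf 5 461 589) (node 431 (merge (leaf 6 398 399) (leaf 6 430 463))))))))) (node 558 (merge (leaf 7 429 461) (node 557 (merge (leaf 5 461 589) (node 525 (merge (leaf 5 429 430) (leaf 1 524 556))))))))))) (node 558 (merge (node 591 (merge (leaf 4 462 559) (node 590 (merge (leaf 4 494 623) (node 461 (merge (leaf 7 429 429) (leaf 7 461 493))))))) (merge (node 557 (merge (leaf 5 461 589) (node 556 (merge (leaf 2 523 555) (leaf 2 524 559))))) (node 589 (merge (leaf 5 461 557) (node 590 (merge (leaf 5 493 621) (node 461 (merge (leaf 7 429 429) (leaf 7 461 493)))))))))))))) (node 558 (merge (node 557 (merge (leaf 1 525 529) (node 556 (merge (leaf 1 524 525) (leaf 2 523 555))))) (node 590 (merge (node 623 (merge (leaf 4 494 591) (node 622 (merge (leaf 4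 526 655) (node 621 (merge (leaf 5 493 589) (leaf 5 525 653))))))) (merge (node 591 (merge (leaf 4 494 623) (node 462 (merge (leaf 4 462 559) (node 431 (merge (leaf 6 430 463) (node 430 (merge (leaf 6 398 399) (node 429 (merge (leaf 7 397 397) (leaf 7 429 461))))))))))) (merge (node 621 (merge (leaf 5 493 589) (node 622 (merge (leaf 5 525 653) (node 559 (merge (leaf 6 526 654) (node 462 (merge (leaf 4 430 430) (leaf 4 462 591))))))))) (node 621 (merge (leaf 5 493 589) (node 622 (merge (leaf 5 525 653) (node 655 (merge (leaf 4 526 623) (node 654 (merge (leaf 6 526 559) (leaf 4 558 687))))))))))))))))))) (node 558 (merge (node 557 (merge (leaf 1 525 529) (node 556 (merge (leaf 2 523 555) (leaf 2 524 559))))) (merge (node 494 (merge (node 529 (merge (leaf 3 493 493) (node 498 (merge (leaf 2 494 497) (node 530 (merge (leaf 2 495 499) (leaf 1 526 559))))))) (merge (node 493 (merge (leaf 3 493 529) (node 590 (merge (leaf 7 461 461) (node 623 (merge (leaf 4 494 591) (node 622 (merge (leaf 4 526 655) (node 621 (merge (leaf 5 493 589) (leaf 5 525 653))))))))))) (node 590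 (merge (node 623 (merge (leaf 4 494 591) (node 622 (merge (leaf 4 526 655) (node 621 (merge (leaf 5 493 589) (leaf 5 525 653))))))) (merge (node 591 (merge (leaf 4 494 623) (node 462 (merge (leaf 4 462 559) (node 431 (merge (leaf 6 430 463) (node 430 (merge (leaf 6 398 399) (node 429 (merge (leaf 7 397 397) (leaf 7 429 461))))))))))) (merge (node 621 (merge (leaf 5 493 589) (node 622 (merge (leaf 5 525 653) (node 559 (merge (leaf 6 526 654) (node 462 (merge (leaf 4 430 430) (leaf 4 462 591))))))))) (node 621 (merge (leaf 5 493 589) (node 622 (merge (leaf 5 525 653) (node 655 (merge (leaf 4 526 623) (node 654 (merge (leaf 6 526 559) (leaf 4 558 687)))))))))))))))) (merge (node 590 (merge (node 557 (merge (leaf 1 525 529) (node 591 (merge (leaf 3 557 593) (node 623 (merge (leaf 4 494 494) (node 655 (merge (leaf 4 526 622) (leaf 7 558 687))))))))) (merge (node 494 (merge (node 493 (merge (leaf 7 461 461) (leaf 3 493 529))) (merge (node 557 (merge (leaf 1 525 529) (node 589 (merge (leaf 5 461 462) (leaf 5 493 621))))) (node 589 (merge (leaf 5 493 621) (node 462 (merge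 (leaf 5 461 557) (node 461 (merge (leaf 7 429 429) (leaf 7 461 493)))))))))) (merge (node 494 (merge (node 493 (merge (leaf 7 461 461) (leaf 3 493 529))) (node 623 (merge (leaf 4 494 591) (node 622 (merge (leaf 4 526 655) (node 621 (merge (leaf 5 493 589) (leaf 5 525 653))))))))) (merge (node 591 (merge (node 623 (merge (leaf 4 494 494) (node 655 (merge (leaf 4 526 622) (leaf 7 558 687))))) (merge (node 593 (merge (leaf 3 557 557) (node 621 (merge (leaf 1 589 622) (node 589 (merge (leaf 5 493 494) (leaf 1 588 620))))))) (merge (node 593 (merge (leaf 3 557 557) (node 622 (merge (leaf 1 589 621) (node 623 (merge (leaf 1 590 594) (leaf 4 526 655))))))) (node 494 (merge (leaf 4 494 623) (node 589 (merge (leaf 5 493 621) (node 557 (merge (leaf 5 461 462) (node 592 (merge (leaf 3 556 556) (leaf 3 557 593))))))))))))) (node 557 (merge (leaf 1 525 529) (node 556 (merge (leaf 2 523 555) (node 591 (merge (leaf 3 556 589) (leaf 3 557 593)))))))))))) (node 590 (merge (node 591 (merge (node 593 (merge (leaf 3 557 557) (node 626 (merge (leaf 0 590 625) (node 594 (merge (leaf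 3 558 559) (leaf 0 591 627))))))) (node 623 (merge (leaf 4 494 494) (node 655 (merge (leaf 4 526 622) (leaf 7 558 687))))))) (merge (node 623 (merge (node 591 (merge (leaf 4 494 494) (leaf 6 495 559))) (merge (node 622 (merge (leaf 4 526 655) (node 653 (merge (leaf 5 525 621) (node 654 (merge (leaf 6 526 559) (leaf 5 557 685))))))) (node 494 (merge (leaf 4 494 591) (node 622 (merge (leaf 4 526 655) (node 621 (merge (leaf 5 493 589) (leaf 5 525 653)))))))))) (merge (node 591 (merge (node 623 (merge (leaf 4 494 494) (node 655 (merge (leaf 4 526 622) (leaf 7 558 687))))) (merge (node 593 (merge (leaf 3 557 557) (node 621 (merge (leaf 1 589 622) (node 589 (merge (leaf 5 493 494) (leaf 1 588 620))))))) (merge (node 593 (merge (leaf 3 557 557) (node 622 (merge (leaf 1 589 621) (node 623 (merge (leaf 1 590 594) (leaf 4 526 655))))))) (node 494 (merge (leaf 4 494 623) (node 589 (merge (leaf 5 493 621) (node 557 (merge (leaf 5 461 462) (node 592 (merge (leaf 3 556 556) (leaf 3 557 593))))))))))))) (merge (node 557 (merge (node 556 (merge (leaf 2 523 555) (leaf 2 524 559)))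 (merge (node 591 (merge (leaf 3 557 593) (node 623 (merge (leaf 4 494 494) (leaf 6 495 559))))) (node 556 (merge (leaf 2 523 555) (node 591 (merge (leaf 3 556 589) (leaf 3 557 593)))))))) (merge (node 557 (merge (node 556 (merge (leaf 2 523 555) (leaf 2 524 559))) (merge (node 591 (merge (leaf 3 557 593) (node 623 (merge (leaf 6 495 559) (node 655 (merge (leaf 4 526 622) (leaf 7 558 687))))))) (node 556 (merge (leaf 2 523 555) (node 591 (merge (leaf 3 556 589) (leaf 3 557 593)))))))) (merge (node 622 (merge (node 654 (merge (leaf 6 526 559) (node 653 (merge (leaf 5 525 621) (leaf 5 557 685))))) (merge (node 621 (merge (leaf 5 525 653) (node 591 (merge (leaf 1 589 593) (node 589 (merge (leaf 5 493 494) (leaf 1 588 620))))))) (merge (node 654 (merge (leaf 6 526 559) (node 687 (merge (leaf 4 558 655) (node 686 (merge (leaf 4 590 719) (node 685 (merge (leaf 5 557 653) (leaf 5 589 717))))))))) (node 654 (merge (leaf 6 526 559) (node 687 (merge (leaf 4 558 655) (node 686 (merge (leaf 4 590 719) (node 589 (merge (leaf 7 557 557) (node 718 (merge (leaf 7 589 621) (node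 717 (merge (leaf 5 589 685) (leaf 5 621 749))))))))))))))))) (node 621 (merge (node 589 (merge (leaf 5 493 494) (node 653 (merge (leaf 6 525 557) (leaf 6 557 685))))) (merge (node 622 (merge (leaf 5 525 653) (node 655 (merge (leaf 4 526 623) (node 654 (merge (leaf 6 526 559) (leaf 4 558 687))))))) (node 494 (merge (leaf 5 493 589) (node 461 (merge (leaf 7 461 493) (node 462 (merge (leaf 7 429 429) (node 430 (merge (leaf 4 430 559) (node 431 (merge (leaf 6 398 399) (leaf 6 430 463))))))))))))))))))))))))))))) nJ_29 cJ_29 11 (by decide +kernel)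
def nJ_30 : ℕ := 0x1000000010000000000000000000000000000000000000000000000000000000000000000000000000000000000000000000000000000000000000000000000000000
def cJ_30 : ℕ := 0x2a0000003e0000003e0000007f000001ffc00001ff800003bfc00003ef800003efc00001efc000007f8000007f0000000f0000000000000000000000000000000000000000000000000000000000000000000000000000000000000000000
theorem lJ_30 : S nJ_30 cJ_30 15 := S_of_chk [(nJ_23, cJ_23, 12), (nJ_24, cJ_24, 14), (nJ_25, cJ_25, 13), (nJ_26, cJ_26, 13), (nJ_27, cJ_27, 10), (nJ_28, cJ_28, 13), (nJ_29, cJ_29, 11)] ⟨lJ_23, lJ_24, lJ_25, lJ_26, lJ_27, lJ_28, lJ_29, trivial⟩ (node 527 (merge (node 526 (merge (node 497 (merge (leaf 2 493 525) (node 498 (merge (leaf 1 495 499) (leaf 2 494 529))))) (merge (node 525 (merge (leaf 2 493 497) (node 524 (merge (leaf 2 492 495) (node 556 (merge (leaf 1 523 555) (leaf 1 524 557))))))) (merge (node 525 (merge (node 524 (merge (leaf 2 492 495) (node 492 (merge (leaf 3 491 491) (leaf 3 492 493))))) (merge (node 524 (merge (leaf 2 492 495) (node 556 (merge (leaf 1 523 555) (leaf 1 524 557))))) (node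 557 (merge (leaf 1 524 556) (node 493 (merge (leaf 3 492 492) (node 494 (merge (leaf 3 493 529) (node 589 (merge (leaf 6 461 462) (leaf 6 493 621)))))))))))) (node 494 (merge (node 493 (merge (leaf 3 493 529) (node 492 (merge (leaf 0 491 491) (leaf 0 492 495))))) (merge (node 529 (merge (leaf 3 493 493) (node 558 (merge (leaf 1 525 557) (node 559 (merge (leaf 1 526 530) (node 591 (merge (leaf 4 462 462) (leaf 6 495 623))))))))) (merge (node 558 (merge (node 529 (merge (leaf 1 525 557) (node 498 (merge (leaf 2 494 497) (node 530 (merge (leaf 3 494 495) (leaf 2 495 499))))))) (merge (node 462 (merge (node 559 (merge (leaf 4 430 430) (node 591 (merge (leaf 4 462 558) (leaf 6 495 623))))) (node 461 (merge (leaf 7 429 429) (node 497 (merge (leaf 3 461 495) (node 498 (merge (leaf 1 495 499) (leaf 2 494 529))))))))) (node 462 (merge (node 559 (merge (leaf 4 430 430) (node 591 (merge (leaf 4 462 558) (leaf 6 495 623))))) (merge (node 431 (merge (leaf 6 430 463) (node 430 (merge (leaf 6 398 399) (node 429 (merge (leaf 7 397 397) (leaf 7 429 461))))))) (node 557 (merge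 (leaf 5 461 589) (node 556 (merge (leaf 2 523 555) (leaf 2 524 559))))))))))) (node 462 (merge (node 559 (merge (leaf 4 430 430) (node 591 (merge (leaf 7 462 495) (leaf 6 495 623))))) (merge (node 430 (merge (leaf 4 430 559) (node 431 (merge (leaf 6 398 399) (node 558 (merge (leaf 6 430 463) (node 429 (merge (leaf 7 397 397) (leaf 7 429 461))))))))) (merge (node 429 (merge (node 397 (merge (leaf 7 397 430) (node 461 (merge (leaf 4 365 365) (leaf 4 397 493))))) (merge (node 461 (merge (leaf 7 429 558) (node 397 (merge (leaf 4 365 365) (leaf 4 397 493))))) (merge (node 430 (merge (leaf 7 397 397) (node 495 (merge (leaf 4 398 398) (node 431 (merge (leaf 6 398 399) (node 463 (merge (leaf 5 430 558) (leaf 4 431 560))))))))) (node 461 (merge (leaf 7 429 558) (node 495 (merge (leaf 3 461 497) (node 493 (merge (leaf 3 460 460) (leaf 0 492 492))))))))))) (node 558 (merge (node 557 (merge (leaf 5 461 589) (node 556 (merge (leaf 2 523 555) (leaf 2 524 559))))) (merge (node 463 (merge (leaf 6 430 431) (node 461 (merge (leaf 7 429 429) (node 495 (merge (leaf 0 460 460) (leaf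 3 461 497))))))) (node 557 (merge (leaf 5 461 589) (node 556 (merge (leaf 2 523 555) (leaf 2 524 559)))))))))))))))))))) (merge (node 497 (merge (node 526 (merge (leaf 2 493 525) (node 498 (merge (leaf 1 495 499) (leaf 2 494 529))))) (merge (node 526 (merge (leaf 2 493 525) (node 498 (merge (leaf 1 494 495) (leaf 1 495 499))))) (merge (node 498 (merge (leaf 1 495 499) (node 495 (merge (node 463 (merge (leaf 3 462 462) (node 431 (merge (leaf 4 399 399) (node 560 (merge (leaf 4 431 527) (leaf 7 463 592))))))) (node 530 (merge (leaf 0 495 531) (node 529 (merge (leaf 0 494 494) (node 466 (merge (leaf 2 463 467) (node 561 (merge (leaf 5 433 434) (leaf 6 465 593))))))))))))) (node 526 (merge (leaf 2 493 525) (node 495 (merge (node 558 (merge (node 590 (merge (leaf 6 494 622) (node 463 (merge (leaf 5 430 431) (leaf 6 462 494))))) (node 557 (merge (leaf 1 525 529) (node 556 (merge (leaf 2 523 555) (leaf 2 524 559))))))) (merge (node 494 (merge (node 462 (merge (leaf 3 461 461) (node 559 (merge (leaf 4 430 430) (leaf 7 462 591))))) (node 529 (merge (leaf 0 494 530) (node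 465 (merge (leaf 2 462 466) (node 560 (merge (leaf 5 432 433) (leaf 6 464 592))))))))) (merge (node 558 (merge (node 590 (merge (leaf 6 494 622) (node 463 (merge (leaf 5 430 431) (leaf 5 462 559))))) (merge (node 557 (merge (leaf 1 525 529) (node 556 (merge (leaf 2 523 555) (leaf 2 524 559))))) (node 557 (merge (leaf 1 525 529) (node 556 (merge (leaf 2 523 555) (node 463 (merge (leaf 5 430 431) (node 590 (merge (leaf 6 494 622) (node 592 (merge (leaf 7 463 560) (node 591 (merge (leaf 3 556 589) (leaf 3 557 593)))))))))))))))) (merge (node 558 (merge (node 590 (merge (leaf 6 494 622) (node 463 (merge (leaf 5 430 431) (leaf 6 462 494))))) (merge (node 529 (merge (leaf 1 525 557) (node 530 (merge (leaf 3 494 494) (leaf 3 495 531))))) (node 557 (merge (leaf 1 525 529) (node 556 (merge (leaf 2 523 555) (node 463 (merge (leaf 5 430 431) (node 590 (merge (leaf 6 494 622) (node 592 (merge (leaf 7 463 560) (node 591 (merge (leaf 3 556 589) (leaf 3 557 593)))))))))))))))) (node 559 (merge (node 591 (merge (leaf 6 495 623) (node 462 (merge (leaf 7 462 494) (node 463 (merge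 (leaf 7 430 430) (node 431 (merge (leaf 4 399 399) (leaf 5 430 558))))))))) (merge (node 560 (merge (node 592 (merge (leaf 6 464 465) (leaf 7 495 624))) (node 463 (merge (leaf 4 431 431) (node 558 (merge (leaf 5 462 590) (node 557 (merge (leaf 2 524 556) (node 589 (merge (leaf 1 556 588) (node 462 (merge (leaf 7 430 430) (leaf 5 461 494))))))))))))) (node 591 (merge (leaf 6 495 623) (node 592 (merge (leaf 4 495 624) (node 590 (merge (leaf 5 494 622) (node 560 (merge (leaf 6 464 465) (node 589 (merge (leaf 2 557 561) (leaf 2 556 588))))))))))))))))))))))))) (merge (node 526 (merge (node 525 (merge (leaf 2 493 497) (node 524 (merge (leaf 2 492 495) (node 556 (merge (leaf 1 523 555) (leaf 1 524 557))))))) (merge (node 525 (merge (leaf 2 493 497) (node 560 (merge (leaf 0 525 561) (node 524 (merge (leaf 0 524 559) (node 492 (merge (leaf 3 491 491) (leaf 3 492 493))))))))) (merge (node 525 (merge (node 524 (merge (leaf 2 492 495) (node 492 (merge (leaf 3 491 491) (leaf 3 492 493))))) (merge (node 524 (merge (leaf 2 492 495) (node 556 (merge (leaf 1 523 555) (leaf 1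 524 557))))) (node 557 (merge (leaf 1 524 556) (node 493 (merge (leaf 3 492 492) (node 494 (merge (leaf 3 493 529) (node 589 (merge (leaf 6 461 462) (leaf 6 493 621)))))))))))) (node 495 (merge (node 529 (merge (node 530 (merge (leaf 3 494 494) (leaf 3 495 531))) (merge (node 558 (merge (leaf 1 525 557) (node 530 (merge (leaf 3 495 531) (leaf 1 526 559))))) (node 494 (merge (leaf 0 493 493) (node 558 (merge (leaf 1 525 557) (node 590 (merge (leaf 6 462 463) (leaf 6 494 622)))))))))) (merge (node 559 (merge (node 463 (merge (node 560 (merge (leaf 4 431 431) (leaf 4 463 592))) (merge (node 431 (merge (leaf 4 399 399) (leaf 5 430 558))) (node 592 (merge (leaf 4 463 560) (node 591 (merge (leaf 4 495 624) (node 590 (merge (leaf 5 462 558) (leaf 5 494 622)))))))))) (merge (node 591 (merge (leaf 6 495 623) (node 462 (merge (leaf 7 462 494) (node 463 (merge (leaf 7 430 430) (node 431 (merge (leaf 4 399 399) (leaf 4 431 560))))))))) (merge (node 463 (merge (node 560 (merge (leaf 4 431 431) (leaf 4 463 592))) (merge (node 431 (merge (leaf 4 399 399) (leaf 5 430 558))) (node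 558 (merge (leaf 5 462 590) (node 462 (merge (leaf 7 430 430) (node 461 (merge (leaf 0 460 460) (node 494 (merge (leaf 7 429 429) (leaf 3 461 497)))))))))))) (node 591 (merge (leaf 6 495 623) (node 592 (merge (leaf 4 495 624) (node 590 (merge (leaf 5 494 622) (node 494 (merge (leaf 7 462 462) (node 493 (merge (leaf 0 492 492) (node 461 (merge (leaf 3 460 460) (node 558 (merge (leaf 7 461 526) (node 557 (merge (leaf 0 556 556) (leaf 3 557 593))))))))))))))))))))) (merge (node 494 (merge (node 529 (merge (leaf 0 493 493) (leaf 3 494 530))) (merge (node 529 (merge (leaf 3 494 530) (node 558 (merge (leaf 1 525 557) (node 590 (merge (leaf 6 462 463) (leaf 6 494 622))))))) (node 493 (merge (leaf 0 492 492) (node 461 (merge (leaf 3 460 460) (node 558 (merge (leaf 7 461 590) (node 431 (merge (leaf 5 430 463) (node 462 (merge (leaf 7 429 429) (node 430 (merge (leaf 4 398 398) (leaf 6 398 399)))))))))))))))) (merge (node 592 (merge (node 560 (merge (leaf 7 463 463) (leaf 7 495 624))) (merge (node 591 (merge (node 559 (merge (leaf 6 495 623) (leaf 4 495 624))) (merge (node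 624 (merge (leaf 4 495 559) (leaf 7 495 560))) (merge (node 623 (merge (leaf 6 495 559) (leaf 5 495 560))) (node 560 (merge (leaf 5 495 623) (node 625 (merge (leaf 4 496 593) (node 624 (merge (leaf 7 495 527) (leaf 4 528 657))))))))))) (merge (node 463 (merge (leaf 7 463 560) (node 431 (merge (leaf 4 399 399) (node 430 (merge (leaf 7 398 398) (node 559 (merge (leaf 7 430 462) (node 590 (merge (leaf 5 462 558) (node 591 (merge (leaf 5 494 622) (leaf 6 495 623))))))))))))) (node 559 (merge (node 591 (merge (leaf 6 495 623) (leaf 4 495 624))) (node 463 (merge (node 431 (merge (leaf 4 399 399) (node 430 (merge (leaf 7 398 398) (leaf 7 430 462))))) (merge (node 431 (merge (leaf 4 399 399) (node 558 (merge (leaf 5 430 526) (leaf 5 462 590))))) (node 558 (merge (leaf 5 462 590) (node 529 (merge (leaf 1 526 530) (node 557 (merge (leaf 1 525 526) (leaf 2 524 556)))))))))))))))) (merge (node 494 (merge (node 529 (merge (leaf 0 493 493) (leaf 3 494 530))) (merge (node 497 (merge (node 462 (merge (leaf 3 461 461) (node 559 (merge (leaf 4 430 430) (leaf 7 462 591))))) (node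 529 (merge (leaf 0 494 530) (node 465 (merge (leaf 2 462 466) (node 560 (merge (leaf 5 432 433) (leaf 6 464 592))))))))) (node 493 (merge (leaf 0 492 492) (node 461 (merge (leaf 3 460 460) (node 462 (merge (leaf 3 461 497) (node 430 (merge (leaf 4 398 398) (leaf 4 430 559)))))))))))) (node 494 (merge (node 529 (merge (leaf 0 493 493) (leaf 3 494 530))) (merge (node 493 (merge (leaf 0 492 492) (node 461 (merge (leaf 3 460 460) (node 558 (merge (leaf 7 461 590) (node 462 (merge (leaf 7 429 429) (node 559 (merge (leaf 4 462 591) (node 557 (merge (leaf 2 524 556) (leaf 5 461 589))))))))))))) (node 529 (merge (leaf 3 494 530) (node 558 (merge (leaf 1 525 557) (node 590 (merge (leaf 6 494 622) (node 591 (merge (leaf 4 494 623) (node 559 (merge (leaf 4 462 462) (node 589 (merge (leaf 5 493 621) (node 560 (merge (leaf 1 557 561) (leaf 2 556 588)))))))))))))))))))))))))))) (merge (node 497 (merge (node 526 (merge (leaf 2 493 525) (node 498 (merge (leaf 1 495 499) (leaf 2 494 529))))) (merge (node 526 (merge (leaf 2 493 525) (node 498 (merge (leaf 1 494 495) (leaf 1 495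 499))))) (merge (node 498 (merge (leaf 1 495 499) (node 495 (merge (node 463 (merge (leaf 3 462 462) (node 431 (merge (leaf 4 399 399) (node 560 (merge (leaf 4 431 527) (leaf 7 463 592))))))) (node 530 (merge (leaf 0 495 531) (node 529 (merge (leaf 0 494 494) (node 466 (merge (leaf 2 463 467) (node 561 (merge (leaf 5 433 434) (leaf 6 465 593))))))))))))) (node 529 (merge (node 526 (merge (leaf 2 493 525) (node 558 (merge (leaf 1 525 557) (node 530 (merge (leaf 1 526 559) (node 531 (merge (leaf 3 495 495) (leaf 3 496 532))))))))) (merge (node 526 (merge (leaf 2 493 525) (node 494 (merge (leaf 3 493 493) (node 530 (merge (leaf 0 494 495) (node 531 (merge (leaf 3 496 532) (node 560 (merge (leaf 1 527 559) (node 592 (merge (leaf 6 464 465) (leaf 6 496 624))))))))))))) (merge (node 495 (merge (node 530 (merge (leaf 3 494 494) (leaf 3 495 531))) (merge (node 494 (merge (leaf 0 493 493) (node 465 (merge (leaf 2 462 466) (node 560 (merge (leaf 5 432 433) (leaf 6 464 592))))))) (node 530 (merge (leaf 3 495 531) (node 559 (merge (leaf 1 526 558) (node 591 (merge (leaf 6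 495 623) (node 592 (merge (leaf 4 495 624) (node 560 (merge (leaf 4 463 463) (leaf 6 464 465)))))))))))))) (merge (node 526 (merge (leaf 2 493 525) (node 558 (merge (leaf 1 525 557) (node 494 (merge (leaf 3 493 493) (node 495 (merge (leaf 0 494 530) (node 590 (merge (leaf 6 462 463) (leaf 6 494 622))))))))))) (merge (node 526 (merge (leaf 2 493 525) (node 558 (merge (leaf 1 525 557) (node 559 (merge (leaf 1 526 530) (node 494 (merge (leaf 3 493 493) (node 591 (merge (leaf 4 462 462) (leaf 6 495 623))))))))))) (node 495 (merge (node 526 (merge (leaf 2 493 525) (node 558 (merge (leaf 1 525 557) (node 463 (merge (leaf 5 430 431) (node 590 (merge (leaf 5 462 559) (leaf 6 494 622))))))))) (merge (node 465 (merge (node 433 (merge (leaf 5 400 401) (leaf 5 432 560))) (merge (node 466 (merge (leaf 2 462 494) (node 561 (merge (leaf 6 433 434) (node 592 (merge (leaf 5 464 560) (node 593 (merge (leaf 5 496 624) (leaf 7 496 625))))))))) (node 433 (merge (leaf 5 400 401) (node 434 (merge (leaf 6 401 402) (node 466 (merge (leaf 6 433 561) (node 467 (merge (leaf 1 464 468) (node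 432 (merge (leaf 7 400 400) (leaf 0 431 431)))))))))))))) (node 526 (merge (leaf 2 493 525) (node 558 (merge (leaf 1 525 557) (node 590 (merge (leaf 6 494 622) (node 559 (merge (leaf 5 462 463) (node 591 (merge (leaf 6 495 623) (node 592 (merge (leaf 4 495 624) (node 593 (merge (leaf 3 558 594) (node 560 (merge (leaf 6 464 465) (leaf 4 496 625)))))))))))))))))))))))))))))) (merge (node 494 (merge (node 493 (merge (node 495 (merge (leaf 0 492 492) (leaf 0 493 529))) (merge (node 529 (merge (leaf 0 493 495) (leaf 3 493 526))) (merge (node 526 (merge (leaf 3 493 529) (node 492 (merge (leaf 0 491 491) (leaf 3 492 525))))) (node 492 (merge (leaf 0 492 495) (node 526 (merge (leaf 0 491 491) (leaf 3 492 525))))))))) (merge (node 526 (merge (node 493 (merge (leaf 3 493 529) (node 492 (merge (leaf 0 491 491) (leaf 3 492 525))))) (merge (node 497 (merge (leaf 2 493 525) (node 498 (merge (leaf 1 495 499) (leaf 2 494 529))))) (merge (node 529 (merge (leaf 3 493 493) (node 498 (merge (leaf 2 494 497) (node 530 (merge (leaf 2 495 499) (node 558 (merge (leaf 1 525 557) (leaf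 1 526 559))))))))) (node 525 (merge (leaf 2 493 497) (node 560 (merge (leaf 0 525 561) (node 524 (merge (leaf 0 524 559) (node 492 (merge (leaf 3 491 491) (leaf 3 492 493))))))))))))) (merge (node 495 (merge (node 529 (merge (leaf 0 493 493) (leaf 3 494 530))) (merge (node 493 (merge (leaf 0 492 492) (node 461 (merge (leaf 3 460 460) (node 497 (merge (leaf 3 461 462) (node 498 (merge (leaf 1 495 499) (node 466 (merge (leaf 2 462 465) (leaf 2 463 467))))))))))) (node 497 (merge (node 466 (merge (leaf 2 462 465) (node 498 (merge (leaf 2 463 467) (leaf 1 495 499))))) (merge (node 529 (merge (leaf 0 494 530) (node 465 (merge (leaf 2 462 466) (node 433 (merge (leaf 5 400 401) (leaf 5 432 560))))))) (merge (node 530 (merge (leaf 0 494 529) (node 498 (merge (leaf 0 495 531) (node 499 (merge (leaf 1 495 527) (node 467 (merge (leaf 2 463 466) (leaf 2 464 468))))))))) (node 498 (merge (leaf 1 495 499) (node 530 (merge (leaf 0 495 531) (node 529 (merge (leaf 0 494 494) (node 559 (merge (leaf 1 526 558) (node 591 (merge (leaf 6 495 623) (node 592 (merge (leaf 4 495 624) (node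 590 (merge (leaf 5 494 622) (node 560 (merge (leaf 6 464 465) (node 589 (merge (leaf 2 557 561) (leaf 2 556 588)))))))))))))))))))))))))) (merge (node 495 (merge (node 493 (merge (leaf 0 492 492) (node 525 (merge (leaf 1 492 524) (node 497 (merge (leaf 1 493 526) (node 498 (merge (leaf 1 495 499) (node 466 (merge (leaf 2 462 465) (leaf 2 463 467))))))))))) (merge (node 493 (merge (leaf 0 492 492) (node 461 (merge (leaf 3 460 460) (node 497 (merge (leaf 3 461 462) (node 498 (merge (leaf 1 495 499) (node 466 (merge (leaf 2 462 465) (leaf 2 463 467))))))))))) (merge (node 497 (merge (node 466 (merge (leaf 2 462 465) (node 498 (merge (leaf 2 463 467) (leaf 1 495 499))))) (node 462 (merge (leaf 3 461 461) (node 430 (merge (leaf 4 398 398) (node 559 (merge (leaf 4 430 526) (leaf 7 462 591))))))))) (node 560 (merge (node 592 (merge (leaf 7 495 624) (node 593 (merge (leaf 4 496 625) (node 591 (merge (leaf 5 495 623) (node 559 (merge (leaf 7 462 462) (node 594 (merge (leaf 3 558 558) (leaf 3 559 595))))))))))) (merge (node 592 (merge (leaf 7 495 624) (node 591 (merge (leaf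 5 495 623) (node 559 (merge (leaf 7 462 462) (node 590 (merge (leaf 5 494 622) (node 589 (merge (leaf 2 557 561) (leaf 2 556 588))))))))))) (merge (node 493 (merge (leaf 0 492 492) (node 525 (merge (leaf 1 492 524) (node 526 (merge (leaf 0 525 561) (node 461 (merge (leaf 3 460 460) (node 429 (merge (leaf 4 397 397) (leaf 4 429 558))))))))))) (node 493 (merge (leaf 0 492 492) (node 525 (merge (leaf 1 492 524) (node 526 (merge (leaf 0 525 561) (node 461 (merge (leaf 3 460 460) (node 429 (merge (leaf 4 397 397) (leaf 4 429 558))))))))))))))))))) (node 529 (merge (node 530 (merge (leaf 3 494 495) (node 499 (merge (leaf 2 495 498) (node 531 (merge (leaf 2 496 500) (node 559 (merge (leaf 1 526 558) (leaf 1 527 560))))))))) (merge (node 526 (merge (node 497 (merge (leaf 2 494 498) (leaf 2 493 525))) (node 558 (merge (leaf 1 525 557) (node 559 (merge (leaf 1 526 530) (node 591 (merge (leaf 4 462 462) (leaf 6 495 623))))))))) (merge (node 530 (merge (leaf 3 494 495) (node 559 (merge (leaf 1 526 558) (node 531 (merge (leaf 1 527 560) (node 500 (merge (leaf 2 496 499) (node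 532 (merge (leaf 3 496 497) (leaf 2 497 501))))))))))) (node 497 (merge (node 526 (merge (leaf 2 494 498) (leaf 2 493 525))) (node 465 (merge (node 433 (merge (leaf 5 400 401) (leaf 5 432 560))) (merge (node 466 (merge (leaf 2 462 495) (node 561 (merge (leaf 6 433 434) (node 592 (merge (leaf 5 464 560) (node 593 (merge (leaf 5 496 624) (leaf 7 496 625))))))))) (node 433 (merge (leaf 5 400 401) (node 434 (merge (leaf 6 401 402) (node 466 (merge (leaf 6 433 561) (node 432 (merge (leaf 7 400 400) (node 431 (merge (leaf 0 430 430) (leaf 0 431 467))))))))))))))))))))))))) (merge (node 495 (merge (node 463 (merge (node 431 (merge (leaf 4 399 399) (leaf 4 431 560))) (node 559 (merge (node 591 (merge (leaf 6 495 623) (node 462 (merge (leaf 7 430 430) (leaf 7 462 494))))) (node 558 (merge (leaf 5 462 590) (node 557 (merge (leaf 2 524 556) (node 529 (merge (leaf 1 525 526) (leaf 1 526 530))))))))))) (merge (node 529 (merge (node 530 (merge (leaf 3 494 494) (leaf 3 495 531))) (merge (node 530 (merge (leaf 3 495 531) (node 498 (merge (leaf 2 495 499) (node 497 (merge (leaf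 1 494 526) (node 463 (merge (leaf 3 462 462) (node 560 (merge (leaf 4 431 431) (leaf 7 463 592))))))))))) (node 497 (merge (node 498 (merge (leaf 1 495 499) (node 463 (merge (leaf 3 462 462) (node 560 (merge (leaf 4 431 431) (leaf 7 463 592))))))) (merge (node 494 (merge (leaf 0 493 493) (node 465 (merge (leaf 2 462 466) (node 433 (merge (leaf 5 400 401) (leaf 5 432 560))))))) (node 498 (merge (leaf 1 495 499) (node 466 (merge (leaf 2 463 467) (node 494 (merge (leaf 2 462 465) (node 493 (merge (leaf 0 492 492) (leaf 0 493 529))))))))))))))) (merge (node 529 (merge (node 530 (merge (leaf 3 494 494) (leaf 3 495 531))) (merge (node 530 (merge (leaf 3 495 531) (node 498 (merge (leaf 2 495 499) (node 526 (merge (leaf 2 494 497) (node 558 (merge (leaf 1 525 557) (leaf 1 526 559))))))))) (node 494 (merge (leaf 0 493 493) (node 497 (merge (node 466 (merge (leaf 2 462 465) (node 498 (merge (leaf 2 463 467) (leaf 1 495 499))))) (node 462 (merge (leaf 3 461 461) (node 430 (merge (leaf 4 398 398) (node 559 (merge (leaf 4 430 526) (leaf 7 462 591)))))))))))))) (merge (node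 560 (merge (node 592 (merge (leaf 7 463 463) (leaf 7 495 624))) (merge (node 592 (merge (leaf 7 495 624) (node 497 (merge (leaf 6 464 465) (node 498 (merge (leaf 1 495 499) (leaf 1 494 526))))))) (node 559 (merge (node 463 (merge (leaf 4 431 431) (node 591 (merge (leaf 6 495 623) (node 590 (merge (leaf 5 462 558) (leaf 5 494 622))))))) (merge (node 463 (merge (leaf 4 431 431) (node 591 (merge (leaf 6 495 623) (node 462 (merge (leaf 7 430 430) (leaf 7 462 494))))))) (merge (node 591 (merge (leaf 6 495 623) (node 590 (merge (leaf 5 494 622) (node 589 (merge (leaf 2 556 588) (node 558 (merge (leaf 1 557 561) (node 494 (merge (leaf 7 462 462) (node 493 (merge (leaf 0 492 492) (node 461 (merge (leaf 3 460 460) (leaf 7 461 526))))))))))))))) (node 463 (merge (leaf 4 431 431) (node 558 (merge (leaf 5 462 590) (node 557 (merge (leaf 2 524 556) (node 589 (merge (leaf 1 556 588) (node 462 (merge (leaf 7 430 430) (node 497 (merge (leaf 3 462 498) (node 494 (merge (leaf 3 461 461) (leaf 5 461 526)))))))))))))))))))))) (node 559 (merge (node 591 (merge (leaf 6 495 623) (node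 590 (merge (leaf 5 494 622) (node 463 (merge (leaf 5 462 558) (node 431 (merge (leaf 4 399 399) (leaf 4 431 560))))))))) (merge (node 591 (merge (leaf 6 495 623) (node 592 (merge (leaf 4 495 624) (node 560 (merge (leaf 4 463 463) (node 593 (merge (leaf 4 496 625) (node 594 (merge (leaf 3 558 558) (leaf 3 559 595))))))))))) (merge (node 560 (merge (node 592 (merge (leaf 4 463 463) (leaf 7 495 624))) (merge (node 463 (merge (leaf 4 431 431) (node 558 (merge (leaf 5 462 590) (node 557 (merge (leaf 2 525 529) (leaf 2 524 556))))))) (node 592 (merge (leaf 7 495 624) (node 593 (merge (leaf 4 496 625) (node 558 (merge (leaf 0 557 557) (node 594 (merge (leaf 0 558 561) (leaf 3 559 595)))))))))))) (merge (node 591 (merge (leaf 6 495 623) (node 592 (merge (leaf 4 495 624) (node 590 (merge (leaf 5 494 622) (node 558 (merge (leaf 5 462 463) (node 557 (merge (leaf 0 556 556) (leaf 3 557 593))))))))))) (merge (node 591 (merge (leaf 6 495 623) (node 592 (merge (leaf 4 495 624) (node 560 (merge (leaf 4 463 463) (node 590 (merge (leaf 5 494 622) (node 589 (merge (leaf 2 557 561)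 (leaf 2 556 588))))))))))) (node 497 (merge (node 591 (merge (leaf 6 495 623) (node 592 (merge (leaf 4 495 624) (node 590 (merge (leaf 5 494 622) (node 560 (merge (leaf 6 464 465) (node 589 (merge (leaf 2 557 561) (leaf 2 556 588))))))))))) (merge (node 498 (merge (leaf 1 495 499) (node 530 (merge (leaf 0 495 531) (node 529 (merge (leaf 1 526 558) (node 466 (merge (leaf 2 463 467) (node 561 (merge (leaf 5 433 434) (leaf 6 465 593))))))))))) (node 591 (merge (leaf 6 495 623) (node 592 (merge (leaf 4 495 624) (node 560 (merge (leaf 6 464 465) (node 593 (merge (leaf 4 496 625) (node 594 (merge (leaf 3 558 558) (leaf 3 559 595))))))))))))))))))))))))) (merge (node 497 (merge (node 526 (merge (leaf 2 493 525) (node 498 (merge (leaf 1 495 499) (leaf 2 494 529))))) (merge (node 498 (merge (leaf 1 495 499) (node 526 (merge (leaf 1 494 495) (leaf 2 494 529))))) (merge (node 526 (merge (leaf 2 493 525) (node 498 (merge (leaf 1 494 495) (leaf 1 495 499))))) (merge (node 495 (merge (node 498 (merge (leaf 1 495 499) (node 530 (merge (leaf 0 495 531) (node 494 (merge (leaf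 0 494 529) (node 466 (merge (leaf 2 462 465) (leaf 2 463 467))))))))) (merge (node 498 (merge (leaf 1 495 499) (node 530 (merge (leaf 0 495 531) (node 494 (merge (leaf 0 494 529) (node 493 (merge (leaf 0 492 492) (node 461 (merge (leaf 3 460 460) (leaf 3 461 462))))))))))) (merge (node 498 (merge (leaf 1 495 499) (node 466 (merge (leaf 2 463 467) (node 494 (merge (leaf 2 462 465) (node 493 (merge (leaf 0 492 492) (node 461 (merge (leaf 3 460 460) (leaf 3 461 462))))))))))) (merge (node 494 (merge (node 529 (merge (leaf 0 493 493) (node 530 (merge (leaf 0 494 497) (leaf 3 495 531))))) (merge (node 461 (merge (leaf 3 461 462) (node 493 (merge (leaf 3 460 460) (node 492 (merge (leaf 0 492 527) (node 524 (merge (leaf 1 491 523) (leaf 1 492 525))))))))) (node 529 (merge (leaf 0 494 530) (node 465 (merge (leaf 2 462 466) (node 560 (merge (leaf 5 432 433) (leaf 6 464 592)))))))))) (node 433 (merge (node 465 (merge (leaf 5 400 401) (node 560 (merge (leaf 5 432 529) (leaf 6 464 592))))) (merge (node 498 (merge (leaf 1 495 499) (node 530 (merge (leaf 0 495 531) (node 466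 (merge (leaf 2 463 467) (node 401 (merge (leaf 7 401 434) (leaf 4 401 465))))))))) (merge (node 498 (merge (leaf 1 495 499) (node 530 (merge (leaf 0 495 531) (node 466 (merge (leaf 2 463 467) (node 463 (merge (leaf 3 462 462) (node 560 (merge (leaf 7 463 592) (node 529 (merge (leaf 5 432 465) (node 561 (merge (leaf 5 433 434) (leaf 6 465 593))))))))))))))) (node 498 (merge (leaf 1 495 499) (node 530 (merge (leaf 0 495 531) (node 466 (merge (leaf 2 463 467) (node 434 (merge (leaf 7 401 401) (node 529 (merge (leaf 5 401 402) (leaf 5 433 561)))))))))))))))))))) (node 529 (merge (node 526 (merge (leaf 2 493 525) (node 494 (merge (leaf 3 493 493) (node 495 (merge (leaf 0 494 530) (node 462 (merge (leaf 3 461 461) (node 430 (merge (leaf 4 398 398) (leaf 4 430 559))))))))))) (merge (node 526 (merge (leaf 2 493 525) (node 558 (merge (leaf 1 525 557) (node 559 (merge (leaf 1 526 530) (node 494 (merge (leaf 3 493 493) (node 462 (merge (leaf 4 430 430) (leaf 4 462 591))))))))))) (merge (node 526 (merge (leaf 2 493 525) (node 558 (merge (leaf 1 525 557) (node 530 (merge (leaf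 1 526 559) (node 531 (merge (leaf 3 495 495) (leaf 3 496 532))))))))) (merge (node 526 (merge (leaf 2 493 525) (node 558 (merge (leaf 1 525 557) (node 494 (merge (leaf 3 493 493) (node 495 (merge (leaf 0 494 530) (node 590 (merge (leaf 6 462 463) (leaf 6 494 622))))))))))) (merge (node 495 (merge (node 530 (merge (leaf 3 494 494) (leaf 3 495 531))) (merge (node 494 (merge (leaf 0 493 493) (node 465 (merge (leaf 2 462 466) (node 560 (merge (leaf 5 432 433) (leaf 6 464 592))))))) (node 530 (merge (leaf 3 495 531) (node 559 (merge (leaf 1 526 558) (node 591 (merge (leaf 6 495 623) (node 592 (merge (leaf 4 495 624) (node 560 (merge (leaf 4 463 463) (leaf 6 464 465)))))))))))))) (node 495 (merge (node 494 (merge (leaf 0 493 493) (node 465 (merge (leaf 2 462 466) (node 560 (merge (leaf 5 432 433) (leaf 6 464 592))))))) (merge (node 494 (merge (leaf 0 493 493) (node 462 (merge (leaf 3 461 461) (node 430 (merge (leaf 4 398 398) (node 559 (merge (leaf 7 430 463) (leaf 7 462 591))))))))) (node 526 (merge (leaf 2 493 525) (node 558 (merge (leaf 1 525 557) (node 590 (merge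 (leaf 6 494 622) (node 559 (merge (leaf 5 462 463) (node 591 (merge (leaf 6 495 623) (node 592 (merge (leaf 4 495 624) (node 593 (merge (leaf 3 558 594) (node 560 (merge (leaf 6 464 465) (leaf 4 496 625))))))))))))))))))))))))))))))) (merge (hyp 0) (merge (hyp 1) (merge (node 560 (merge (node 592 (merge (node 625 (merge (leaf 4 496 593) (node 624 (merge (leaf 7 495 495) (leaf 4 528 657))))) (merge (node 497 (merge (leaf 6 464 465) (node 526 (merge (leaf 2 493 525) (node 495 (merge (leaf 7 463 463) (leaf 1 494 498))))))) (node 625 (merge (leaf 4 496 593) (node 624 (merge (leaf 4 528 657) (node 656 (merge (leaf 7 527 559) (node 655 (merge (leaf 5 527 623) (leaf 5 559 687)))))))))))) (merge (node 526 (merge (node 525 (merge (leaf 0 525 561) (node 524 (merge (leaf 0 524 559) (node 556 (merge (leaf 1 523 555) (leaf 1 524 557))))))) (node 592 (merge (node 497 (merge (leaf 6 464 465) (node 498 (merge (leaf 1 495 499) (leaf 2 494 529))))) (node 625 (merge (leaf 4 496 593) (node 624 (merge (leaf 4 528 657) (node 623 (merge (leaf 5 495 591) (leaf 5 527 655))))))))))) (merge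 (node 592 (merge (node 495 (merge (leaf 7 463 463) (leaf 7 495 624))) (merge (node 625 (merge (leaf 4 496 593) (node 624 (merge (leaf 4 528 657) (node 623 (merge (leaf 5 495 591) (leaf 5 527 655))))))) (node 495 (merge (leaf 7 463 463) (node 494 (merge (node 591 (merge (leaf 5 495 623) (node 559 (merge (leaf 7 462 462) (node 590 (merge (leaf 5 494 622) (node 589 (merge (leaf 2 557 561) (leaf 2 556 588))))))))) (merge (node 493 (merge (leaf 0 492 492) (leaf 0 493 529))) (merge (node 493 (merge (leaf 0 492 492) (node 525 (merge (leaf 1 492 524) (node 526 (merge (leaf 0 525 561) (node 557 (merge (leaf 1 524 556) (node 589 (merge (leaf 6 461 462) (leaf 6 493 621))))))))))) (merge (node 493 (merge (leaf 0 492 492) (leaf 0 493 529))) (node 493 (merge (leaf 0 492 492) (leaf 0 493 529))))))))))))) (merge (node 497 (merge (node 465 (merge (leaf 6 464 592) (node 433 (merge (leaf 5 400 401) (leaf 5 432 529))))) (merge (node 592 (merge (leaf 6 464 465) (node 623 (merge (leaf 5 495 591) (node 624 (merge (leaf 7 495 495) (leaf 5 527 655))))))) (merge (node 498 (merge (leaf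 1 495 499) (node 495 (merge (node 463 (merge (leaf 3 462 462) (node 431 (merge (leaf 4 399 399) (node 560 (merge (leaf 4 431 527) (leaf 7 463 592))))))) (node 530 (merge (leaf 0 495 531) (node 529 (merge (leaf 0 494 494) (node 466 (merge (leaf 2 463 467) (node 561 (merge (leaf 5 433 434) (leaf 6 465 593))))))))))))) (node 498 (merge (leaf 1 495 499) (node 495 (merge (node 462 (merge (leaf 3 462 463) (node 494 (merge (leaf 3 461 461) (node 529 (merge (leaf 0 493 493) (leaf 0 494 530))))))) (merge (node 466 (merge (leaf 2 463 467) (node 494 (merge (leaf 2 462 465) (node 529 (merge (leaf 0 493 493) (leaf 0 494 530))))))) (merge (node 466 (merge (leaf 2 463 467) (node 494 (merge (leaf 2 462 465) (node 493 (merge (leaf 0 492 492) (node 461 (merge (leaf 3 460 460) (leaf 3 461 462))))))))) (node 530 (merge (leaf 0 495 531) (node 466 (merge (leaf 2 463 467) (node 463 (merge (leaf 3 462 462) (node 431 (merge (leaf 4 399 399) (node 432 (merge (leaf 6 399 400) (node 430 (merge (leaf 7 398 398) (node 433 (merge (leaf 0 430 465) (node 401 (merge (leaf 2 398 402) (leaf 7 401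 434))))))))))))))))))))))))))) (node 526 (merge (node 525 (merge (leaf 2 493 497) (leaf 0 525 561))) (merge (node 525 (merge (leaf 2 493 497) (node 524 (merge (leaf 2 492 495) (leaf 0 524 559))))) (merge (node 525 (merge (leaf 0 525 561) (node 524 (merge (leaf 2 492 495) (leaf 0 524 559))))) (node 529 (merge (node 498 (merge (leaf 2 494 497) (node 530 (merge (leaf 2 495 499) (node 531 (merge (leaf 3 495 495) (node 564 (merge (leaf 0 528 563) (node 532 (merge (leaf 1 528 561) (leaf 0 529 565))))))))))) (merge (node 498 (merge (leaf 2 494 497) (node 530 (merge (leaf 2 495 499) (node 531 (merge (leaf 1 527 559) (node 564 (merge (leaf 0 528 563) (node 532 (merge (leaf 1 528 561) (leaf 0 529 565))))))))))) (merge (node 494 (merge (leaf 3 493 493) (node 530 (merge (leaf 3 494 495) (node 531 (merge (leaf 1 527 559) (node 564 (merge (leaf 0 528 563) (node 532 (merge (leaf 1 528 561) (leaf 0 529 565))))))))))) (node 497 (merge (leaf 2 494 498) (node 494 (merge (leaf 3 493 493) (node 465 (merge (leaf 5 432 433) (node 495 (merge (leaf 2 462 466) (node 462 (merge (leaf 3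 461 461) (node 430 (merge (leaf 4 398 398) (node 431 (merge (leaf 6 398 399) (leaf 4 431 463)))))))))))))))))))))))))))) (merge (node 526 (merge (node 497 (merge (leaf 2 493 525) (node 498 (merge (leaf 1 495 499) (leaf 2 494 529))))) (merge (node 525 (merge (leaf 2 493 497) (node 524 (merge (leaf 2 492 495) (node 556 (merge (leaf 1 523 555) (leaf 1 524 557))))))) (merge (node 525 (merge (node 524 (merge (leaf 2 492 495) (node 492 (merge (leaf 3 491 491) (leaf 3 492 493))))) (merge (node 524 (merge (leaf 2 492 495) (node 556 (merge (leaf 1 523 555) (leaf 1 524 557))))) (node 557 (merge (leaf 1 524 556) (node 493 (merge (leaf 3 492 492) (node 494 (merge (leaf 3 493 529) (node 589 (merge (leaf 6 461 462) (leaf 6 493 621)))))))))))) (node 558 (merge (node 529 (merge (leaf 1 525 557) (node 498 (merge (leaf 2 494 497) (node 530 (merge (leaf 2 495 499) (leaf 1 526 559))))))) (merge (node 529 (merge (leaf 1 525 557) (node 498 (merge (leaf 2 494 497) (node 530 (merge (leaf 2 495 499) (node 495 (merge (leaf 3 494 494) (leaf 3 495 531))))))))) (merge (node 590 (merge (node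 622 (merge (leaf 6 494 495) (node 655 (merge (leaf 4 526 623) (node 654 (merge (leaf 6 526 559) (leaf 4 558 687))))))) (merge (node 622 (merge (leaf 6 494 495) (node 654 (merge (leaf 6 526 559) (node 653 (merge (leaf 5 525 621) (leaf 5 557 685))))))) (merge (node 623 (merge (node 591 (merge (leaf 4 494 494) (leaf 6 495 559))) (merge (node 622 (merge (leaf 4 526 655) (node 653 (merge (leaf 5 525 621) (node 654 (merge (leaf 6 526 559) (leaf 5 557 685))))))) (node 494 (merge (leaf 4 494 591) (node 622 (merge (leaf 4 526 655) (node 621 (merge (leaf 5 493 589) (leaf 5 525 653)))))))))) (node 494 (merge (node 493 (merge (leaf 7 461 461) (node 492 (merge (leaf 0 491 491) (leaf 0 492 495))))) (node 591 (merge (leaf 4 494 623) (node 589 (merge (leaf 5 493 621) (node 557 (merge (leaf 5 461 462) (node 556 (merge (leaf 0 555 555) (leaf 3 556 592))))))))))))))) (node 590 (merge (node 622 (merge (leaf 6 494 495) (node 654 (merge (leaf 6 526 559) (node 653 (merge (leaf 5 525 621) (leaf 5 557 685))))))) (merge (node 622 (merge (leaf 6 494 495) (node 623 (merge (leaf 4 526 655)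 (node 494 (merge (leaf 4 494 591) (node 621 (merge (leaf 5 493 589) (leaf 5 525 653))))))))) (merge (node 623 (merge (node 591 (merge (leaf 4 494 494) (leaf 6 495 559))) (merge (node 622 (merge (leaf 4 526 655) (node 653 (merge (leaf 5 525 621) (node 654 (merge (leaf 6 526 559) (leaf 5 557 685))))))) (node 494 (merge (leaf 4 494 591) (node 622 (merge (leaf 4 526 655) (node 621 (merge (leaf 5 493 589) (leaf 5 525 653)))))))))) (node 494 (merge (node 493 (merge (leaf 7 461 461) (node 529 (merge (leaf 0 493 495) (leaf 3 493 527))))) (merge (node 529 (merge (leaf 3 493 493) (node 559 (merge (leaf 1 526 530) (node 591 (merge (leaf 4 462 462) (leaf 6 495 623))))))) (node 591 (merge (leaf 4 494 623) (node 462 (merge (leaf 4 462 559) (node 431 (merge (leaf 6 430 463) (node 430 (merge (leaf 6 398 399) (node 429 (merge (leaf 7 397 397) (leaf 7 429 461)))))))))))))))))))))))))) (merge (node 558 (merge (node 526 (merge (node 497 (merge (leaf 2 493 525) (node 498 (merge (leaf 1 494 495) (leaf 1 495 499))))) (merge (node 557 (merge (leaf 1 525 529) (node 556 (merge (leaf 1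 524 525) (leaf 2 523 555))))) (node 529 (merge (leaf 1 525 557) (node 498 (merge (leaf 2 494 497) (node 530 (merge (leaf 2 495 499) (node 495 (merge (leaf 3 494 494) (leaf 3 495 531)))))))))))) (merge (node 529 (merge (node 530 (merge (leaf 1 526 559) (node 495 (merge (leaf 3 494 494) (leaf 3 495 531))))) (merge (node 557 (merge (leaf 1 525 526) (node 559 (merge (leaf 2 524 556) (leaf 2 525 560))))) (node 526 (merge (leaf 1 525 557) (node 494 (merge (leaf 3 493 493) (node 495 (merge (leaf 3 494 530) (node 463 (merge (leaf 5 430 431) (leaf 6 462 590)))))))))))) (merge (node 526 (merge (node 497 (merge (leaf 2 493 525) (node 498 (merge (leaf 1 495 499) (leaf 2 494 529))))) (merge (node 557 (merge (leaf 1 525 529) (node 556 (merge (leaf 2 523 555) (leaf 2 524 559))))) (node 525 (merge (leaf 2 493 497) (node 556 (merge (leaf 1 524 557) (node 524 (merge (leaf 1 523 555) (node 492 (merge (leaf 3 491 491) (leaf 3 492 493)))))))))))) (merge (node 529 (merge (node 530 (merge (leaf 1 526 559) (node 495 (merge (leaf 3 494 494) (leaf 3 495 531))))) (merge (node 526 (merge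 (node 497 (merge (leaf 2 494 498) (leaf 2 493 525))) (merge (node 498 (merge (leaf 2 494 497) (node 530 (merge (leaf 2 495 499) (node 494 (merge (leaf 3 493 493) (leaf 3 494 495))))))) (node 525 (merge (node 493 (merge (leaf 3 492 492) (leaf 3 493 494))) (merge (node 495 (merge (leaf 2 492 524) (node 530 (merge (leaf 3 494 494) (leaf 3 495 531))))) (node 524 (merge (leaf 2 492 495) (node 492 (merge (leaf 3 491 491) (leaf 3 492 493))))))))))) (merge (node 530 (merge (leaf 1 526 559) (node 499 (merge (leaf 2 495 498) (node 531 (merge (leaf 2 496 500) (node 564 (merge (leaf 0 528 563) (node 532 (merge (leaf 3 496 497) (leaf 0 529 565))))))))))) (node 497 (merge (node 526 (merge (leaf 2 494 498) (leaf 2 493 525))) (merge (node 561 (merge (node 498 (merge (leaf 1 495 499) (node 593 (merge (leaf 6 465 466) (leaf 7 496 625))))) (merge (node 593 (merge (leaf 7 496 625) (node 594 (merge (leaf 4 497 626) (node 592 (merge (leaf 5 496 624) (node 560 (merge (leaf 5 464 465) (node 595 (merge (leaf 3 559 559) (leaf 3 560 596))))))))))) (node 465 (merge (node 560 (merge (leaf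 5 432 433) (leaf 6 464 592))) (merge (node 434 (merge (leaf 6 433 466) (node 433 (merge (leaf 5 400 401) (leaf 6 401 402))))) (node 498 (merge (leaf 1 495 499) (node 466 (merge (leaf 6 433 434) (node 495 (merge (leaf 2 463 467) (leaf 2 462 494))))))))))))) (node 494 (merge (node 526 (merge (leaf 3 493 493) (leaf 2 493 525))) (node 465 (merge (node 433 (merge (leaf 5 400 401) (leaf 5 432 560))) (merge (node 466 (merge (leaf 2 462 495) (node 561 (merge (leaf 6 433 434) (node 592 (merge (leaf 5 464 560) (node 593 (merge (leaf 5 496 624) (leaf 7 496 625))))))))) (node 433 (merge (leaf 5 400 401) (node 434 (merge (leaf 6 401 402) (node 466 (merge (leaf 6 433 561) (node 432 (merge (leaf 7 400 400) (node 431 (merge (leaf 0 430 430) (leaf 0 431 467))))))))))))))))))))))) (merge (node 526 (merge (node 497 (merge (leaf 2 493 525) (node 498 (merge (leaf 1 494 495) (leaf 1 495 499))))) (merge (node 525 (merge (leaf 2 493 497) (node 560 (merge (leaf 0 525 561) (node 524 (merge (leaf 0 524 559) (node 556 (merge (leaf 1 523 555) (leaf 1 524 557))))))))) (node 590 (merge (node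 622 (merge (leaf 6 494 495) (node 655 (merge (leaf 4 526 623) (node 654 (merge (leaf 6 526 559) (leaf 4 558 687))))))) (merge (node 495 (merge (leaf 6 494 622) (node 494 (merge (leaf 6 462 463) (node 493 (merge (leaf 7 461 461) (leaf 0 492 492))))))) (merge (node 623 (merge (node 591 (merge (leaf 4 494 494) (leaf 6 495 559))) (merge (node 622 (merge (leaf 4 526 655) (node 653 (merge (leaf 5 525 621) (node 654 (merge (leaf 6 526 559) (leaf 5 557 685))))))) (node 591 (merge (leaf 4 494 494) (node 655 (merge (leaf 4 526 622) (leaf 7 558 687)))))))) (node 591 (merge (node 623 (merge (leaf 4 494 494) (leaf 6 495 559))) (merge (node 494 (merge (leaf 4 494 623) (node 493 (merge (leaf 7 461 461) (node 492 (merge (leaf 0 491 491) (leaf 0 492 495))))))) (merge (node 559 (merge (leaf 6 495 623) (node 495 (merge (leaf 5 462 463) (node 592 (merge (leaf 4 495 624) (node 593 (merge (leaf 3 557 557) (leaf 3 558 594))))))))) (node 589 (merge (node 621 (merge (leaf 5 493 494) (node 653 (merge (leaf 6 525 557) (leaf 6 557 685))))) (merge (node 494 (merge (leaf 5 493 621) (node 493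 (merge (leaf 7 461 461) (node 492 (merge (leaf 0 491 491) (leaf 0 492 495))))))) (node 559 (merge (node 588 (merge (leaf 2 556 560) (leaf 2 555 587))) (node 495 (merge (leaf 5 462 463) (node 592 (merge (leaf 4 495 624) (node 593 (merge (leaf 3 557 557) (leaf 3 558 594))))))))))))))))))))))) (node 560 (merge (node 592 (merge (node 495 (merge (leaf 7 463 463) (leaf 7 495 624))) (merge (node 497 (merge (leaf 6 464 465) (node 624 (merge (leaf 6 496 529) (node 623 (merge (leaf 5 495 591) (leaf 5 527 655))))))) (node 497 (merge (leaf 6 464 465) (node 498 (merge (leaf 1 495 499) (node 495 (merge (leaf 7 463 463) (node 530 (merge (leaf 0 495 531) (node 529 (merge (leaf 0 494 494) (leaf 1 526 559)))))))))))))) (merge (node 592 (merge (node 593 (merge (leaf 4 496 625) (node 559 (merge (leaf 0 557 557) (node 594 (merge (leaf 0 558 561) (leaf 3 559 595))))))) (merge (node 497 (merge (leaf 6 464 465) (node 624 (merge (leaf 6 496 529) (node 656 (merge (leaf 7 527 559) (node 655 (merge (leaf 5 527 623) (leaf 5 559 687))))))))) (node 625 (merge (leaf 4 496 593) (node 624 (merge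 (leaf 4 528 657) (node 497 (merge (leaf 6 464 465) (leaf 6 496 529)))))))))) (merge (node 592 (merge (node 593 (merge (leaf 4 496 625) (node 559 (merge (leaf 0 557 557) (node 594 (merge (leaf 0 558 561) (leaf 3 559 595))))))) (merge (node 623 (merge (leaf 5 495 591) (node 624 (merge (leaf 5 527 655) (node 656 (merge (leaf 7 527 559) (node 657 (merge (leaf 4 528 625) (leaf 4 560 689))))))))) (merge (node 623 (merge (leaf 5 495 591) (node 624 (merge (leaf 5 527 655) (node 559 (merge (leaf 7 527 656) (node 557 (merge (leaf 2 524 556) (leaf 0 557 593))))))))) (node 625 (merge (leaf 4 496 593) (node 624 (merge (leaf 4 528 657) (node 623 (merge (leaf 5 495 591) (leaf 5 527 655))))))))))) (merge (node 559 (merge (node 557 (merge (leaf 2 525 529) (leaf 2 524 556))) (merge (node 557 (merge (leaf 2 524 556) (node 589 (merge (leaf 1 556 588) (node 590 (merge (leaf 1 557 561) (node 525 (merge (leaf 3 524 524) (node 622 (merge (leaf 4 493 493) (leaf 7 525 654))))))))))) (node 561 (merge (node 593 (merge (leaf 0 558 594) (node 529 (merge (leaf 2 526 530) (leaf 7 496 625)))))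 (node 590 (merge (leaf 1 557 589) (node 495 (merge (leaf 5 462 463) (node 622 (merge (leaf 5 494 591) (leaf 6 526 654)))))))))))) (node 592 (merge (node 625 (merge (leaf 4 496 593) (node 497 (merge (leaf 6 464 465) (node 624 (merge (leaf 6 496 529) (leaf 4 528 657))))))) (merge (node 625 (merge (leaf 4 496 593) (node 624 (merge (leaf 4 528 657) (node 623 (merge (leaf 5 495 591) (leaf 5 527 655))))))) (merge (node 497 (merge (leaf 6 464 465) (node 624 (merge (leaf 6 496 529) (node 623 (merge (leaf 5 495 591) (leaf 5 527 655))))))) (node 593 (merge (leaf 4 496 625) (node 591 (merge (leaf 5 495 623) (node 590 (merge (leaf 3 557 557) (node 621 (merge (leaf 1 589 622) (node 589 (merge (leaf 2 557 561) (leaf 1 588 620)))))))))))))))))))))))))) (merge (node 526 (merge (node 497 (merge (leaf 2 493 525) (node 498 (merge (leaf 1 495 499) (leaf 2 494 529))))) (merge (node 525 (merge (leaf 2 493 497) (node 524 (merge (leaf 2 492 495) (node 492 (merge (leaf 3 491 491) (leaf 3 492 493))))))) (merge (node 495 (merge (node 525 (merge (leaf 2 492 524) (node 560 (merge (leaf 0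 525 561) (node 592 (merge (leaf 7 463 463) (leaf 7 495 624))))))) (merge (node 525 (merge (leaf 2 492 524) (node 493 (merge (leaf 3 492 492) (node 494 (merge (leaf 0 493 529) (node 461 (merge (leaf 3 460 460) (node 558 (merge (leaf 4 429 429) (leaf 7 461 590))))))))))) (node 559 (merge (node 591 (merge (leaf 6 495 623) (node 494 (merge (leaf 7 462 462) (node 493 (merge (leaf 0 492 492) (leaf 0 493 529))))))) (merge (node 463 (merge (node 560 (merge (leaf 4 431 431) (leaf 4 463 592))) (merge (node 431 (merge (leaf 4 399 399) (leaf 5 430 558))) (node 592 (merge (leaf 4 463 560) (node 591 (merge (leaf 4 495 624) (node 590 (merge (leaf 5 462 558) (leaf 5 494 622)))))))))) (node 463 (merge (node 560 (merge (leaf 4 431 431) (leaf 4 463 592))) (merge (node 431 (merge (leaf 4 399 399) (leaf 5 430 558))) (node 558 (merge (leaf 5 462 590) (node 529 (merge (leaf 1 526 530) (node 494 (merge (leaf 0 493 493) (node 462 (merge (leaf 4 430 430) (node 461 (merge (leaf 7 429 429) (leaf 0 460 460)))))))))))))))))))) (node 494 (merge (node 493 (merge (leaf 3 493 529) (node 492 (merge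 (leaf 0 491 491) (leaf 0 492 495))))) (merge (node 495 (merge (node 497 (merge (leaf 1 494 498) (node 462 (merge (leaf 3 461 461) (node 559 (merge (leaf 4 430 430) (leaf 7 462 591))))))) (merge (node 497 (merge (leaf 1 494 498) (node 529 (merge (leaf 0 494 530) (node 465 (merge (leaf 2 462 466) (node 560 (merge (leaf 5 432 433) (leaf 6 464 592))))))))) (node 462 (merge (node 559 (merge (leaf 4 430 430) (leaf 7 462 591))) (node 463 (merge (node 431 (merge (leaf 4 399 399) (node 560 (merge (leaf 4 431 527) (leaf 7 463 592))))) (merge (node 431 (merge (leaf 4 399 399) (node 558 (merge (leaf 6 430 462) (leaf 5 430 527))))) (node 461 (merge (leaf 0 460 460) (node 558 (merge (leaf 7 429 429) (leaf 6 462 590))))))))))))) (merge (node 558 (merge (node 529 (merge (leaf 3 493 493) (node 498 (merge (leaf 2 494 497) (node 530 (merge (leaf 2 495 499) (leaf 1 526 559))))))) (merge (node 493 (merge (leaf 3 493 529) (node 590 (merge (leaf 7 461 461) (node 623 (merge (leaf 4 494 591) (node 622 (merge (leaf 4 526 655) (node 621 (merge (leaf 5 493 589) (leaf 5 525 653)))))))))))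 (node 590 (merge (node 623 (merge (leaf 4 494 591) (node 622 (merge (leaf 4 526 655) (node 621 (merge (leaf 5 493 589) (leaf 5 525 653))))))) (merge (node 591 (merge (leaf 4 494 623) (node 462 (merge (leaf 4 462 559) (node 431 (merge (leaf 6 430 463) (node 430 (merge (leaf 6 398 399) (node 429 (merge (leaf 7 397 397) (leaf 7 429 461))))))))))) (merge (node 621 (merge (leaf 5 493 589) (node 622 (merge (leaf 5 525 653) (node 559 (merge (leaf 6 526 654) (node 462 (merge (leaf 4 430 430) (leaf 4 462 591))))))))) (node 621 (merge (leaf 5 493 589) (node 622 (merge (leaf 5 525 653) (node 655 (merge (leaf 4 526 623) (node 654 (merge (leaf 6 526 559) (leaf 4 558 687)))))))))))))))) (node 462 (merge (node 559 (merge (leaf 4 430 430) (node 591 (merge (leaf 4 462 558) (leaf 6 495 623))))) (merge (node 430 (merge (leaf 4 430 559) (node 399 (merge (leaf 6 398 431) (node 398 (merge (leaf 6 366 367) (node 397 (merge (leaf 7 365 365) (leaf 7 397 429))))))))) (merge (node 558 (merge (node 591 (merge (leaf 4 462 559) (node 590 (merge (leaf 4 494 623) (node 461 (merge (leaf 7 429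 429) (leaf 7 461 493))))))) (merge (node 461 (merge (leaf 7 429 429) (node 590 (merge (leaf 7 461 493) (node 621 (merge (leaf 5 493 589) (node 622 (merge (leaf 6 494 495) (leaf 5 525 653))))))))) (merge (node 463 (merge (leaf 6 430 431) (node 590 (merge (leaf 6 462 495) (node 623 (merge (leaf 4 494 591) (node 622 (merge (leaf 4 526 655) (node 621 (merge (leaf 5 493 589) (leaf 5 525 653))))))))))) (node 463 (merge (leaf 6 430 431) (node 461 (merge (leaf 7 429 429) (node 495 (merge (leaf 0 460 460) (leaf 3 461 497))))))))))) (node 431 (merge (node 399 (merge (leaf 6 398 430) (node 463 (merge (leaf 5 366 367) (leaf 6 430 558))))) (merge (node 558 (merge (leaf 6 430 463) (node 461 (merge (leaf 7 429 429) (node 590 (merge (leaf 7 461 493) (node 621 (merge (leaf 5 493 589) (node 622 (merge (leaf 6 494 495) (leaf 5 525 653))))))))))) (merge (node 430 (merge (leaf 6 398 399) (node 429 (merge (leaf 7 397 397) (node 461 (merge (leaf 7 429 558) (node 460 (merge (leaf 1 428 432) (leaf 2 427 459))))))))) (node 430 (merge (leaf 6 398 399) (node 495 (merge (leaf 4 398 398) (node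 463 (merge (leaf 4 431 560) (node 460 (merge (leaf 0 460 461) (node 429 (merge (leaf 7 397 397) (node 428 (merge (leaf 0 427 427) (leaf 1 427 459))))))))))))))))))))))))))))) (merge (node 494 (merge (node 493 (merge (node 495 (merge (leaf 0 492 492) (leaf 0 493 529))) (merge (node 529 (merge (leaf 0 493 495) (leaf 3 493 526))) (merge (node 526 (merge (leaf 3 493 529) (node 492 (merge (leaf 0 491 491) (leaf 3 492 525))))) (node 492 (merge (leaf 0 492 495) (node 526 (merge (leaf 0 491 491) (leaf 3 492 525))))))))) (merge (node 529 (merge (node 493 (merge (leaf 0 493 495) (leaf 3 493 526))) (merge (node 495 (merge (leaf 0 493 493) (leaf 3 494 530))) (merge (node 526 (merge (leaf 3 493 493) (node 498 (merge (leaf 2 494 497) (node 530 (merge (leaf 2 495 499) (node 558 (merge (leaf 1 525 557) (leaf 1 526 559))))))))) (node 530 (merge (leaf 3 494 495) (node 498 (merge (leaf 2 495 499) (node 526 (merge (leaf 2 494 497) (node 558 (merge (leaf 1 525 557) (leaf 1 526 559))))))))))))) (merge (node 526 (merge (node 493 (merge (leaf 3 493 529) (node 492 (merge (leaf 0 491 491)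 (leaf 3 492 525))))) (merge (node 497 (merge (leaf 2 493 525) (node 498 (merge (leaf 1 495 499) (leaf 2 494 529))))) (merge (node 529 (merge (leaf 3 493 493) (node 498 (merge (leaf 2 494 497) (node 530 (merge (leaf 2 495 499) (node 558 (merge (leaf 1 525 557) (leaf 1 526 559))))))))) (node 525 (merge (leaf 2 493 497) (node 560 (merge (leaf 0 525 561) (node 524 (merge (leaf 0 524 559) (node 492 (merge (leaf 3 491 491) (leaf 3 492 493))))))))))))) (merge (node 495 (merge (node 493 (merge (leaf 0 493 529) (node 492 (merge (leaf 0 492 527) (node 524 (merge (leaf 1 491 523) (leaf 1 492 525))))))) (merge (node 497 (merge (node 529 (merge (leaf 0 494 530) (node 465 (merge (leaf 2 462 466) (node 433 (merge (leaf 5 400 401) (leaf 5 432 560))))))) (merge (node 530 (merge (leaf 0 494 529) (node 498 (merge (leaf 0 495 531) (node 462 (merge (leaf 3 461 461) (leaf 3 462 463))))))) (node 466 (merge (leaf 2 462 465) (node 498 (merge (leaf 2 463 467) (node 462 (merge (leaf 3 461 461) (leaf 3 462 463)))))))))) (node 493 (merge (node 492 (merge (leaf 0 492 527) (node 524 (merge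 (leaf 1 491 523) (leaf 1 492 525))))) (merge (node 524 (merge (leaf 1 492 525) (node 492 (merge (leaf 1 491 523) (node 460 (merge (leaf 3 459 459) (leaf 3 460 461))))))) (node 461 (merge (leaf 3 460 460) (node 497 (merge (leaf 3 461 462) (node 466 (merge (leaf 2 462 465) (node 498 (merge (leaf 2 463 467) (node 531 (merge (leaf 0 495 530) (node 499 (merge (leaf 1 495 527) (leaf 0 496 532))))))))))))))))))) (merge (node 529 (merge (node 530 (merge (leaf 3 494 495) (node 499 (merge (leaf 2 495 498) (node 531 (merge (leaf 2 496 500) (node 559 (merge (leaf 1 526 558) (leaf 1 527 560))))))))) (merge (node 530 (merge (leaf 3 494 495) (node 498 (merge (leaf 2 495 499) (node 526 (merge (leaf 2 494 497) (node 558 (merge (leaf 1 525 557) (leaf 1 526 559))))))))) (merge (node 530 (merge (leaf 3 494 495) (node 499 (merge (leaf 2 495 498) (node 531 (merge (leaf 2 496 500) (node 564 (merge (leaf 0 528 563) (node 532 (merge (leaf 3 496 497) (leaf 0 529 565))))))))))) (merge (node 530 (merge (leaf 3 494 495) (node 559 (merge (leaf 1 526 558) (node 531 (merge (leaf 1 527 560) (node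 500 (merge (leaf 2 496 499) (node 532 (merge (leaf 3 496 497) (leaf 2 497 501))))))))))) (merge (node 558 (merge (node 526 (merge (leaf 1 525 557) (node 497 (merge (leaf 2 494 498) (leaf 2 493 525))))) (merge (node 559 (merge (leaf 1 526 530) (node 557 (merge (leaf 2 524 556) (leaf 2 525 560))))) (node 530 (merge (leaf 1 526 559) (node 499 (merge (leaf 2 495 498) (node 531 (merge (leaf 2 496 500) (node 564 (merge (leaf 0 528 563) (node 532 (merge (leaf 3 496 497) (leaf 0 529 565)))))))))))))) (merge (node 526 (merge (node 497 (merge (leaf 2 494 498) (leaf 2 493 525))) (merge (node 557 (merge (leaf 1 525 558) (node 525 (merge (leaf 1 524 556) (node 495 (merge (leaf 2 492 524) (node 530 (merge (leaf 3 494 494) (leaf 3 495 531))))))))) (node 558 (merge (leaf 1 525 557) (node 530 (merge (leaf 1 526 559) (node 497 (merge (leaf 2 494 498) (node 531 (merge (leaf 3 495 495) (leaf 3 496 532)))))))))))) (node 495 (merge (node 526 (merge (node 525 (merge (leaf 2 492 524) (node 557 (merge (leaf 1 524 556) (leaf 1 525 558))))) (node 497 (merge (leaf 1 494 498) (node 462 (merge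 (leaf 3 461 461) (node 430 (merge (leaf 4 398 398) (leaf 4 430 559))))))))) (merge (node 526 (merge (node 558 (merge (leaf 1 525 557) (node 590 (merge (leaf 6 462 463) (leaf 6 494 622))))) (merge (node 525 (merge (leaf 2 492 524) (node 557 (merge (leaf 1 524 556) (leaf 1 525 558))))) (node 525 (merge (leaf 2 492 524) (node 560 (merge (leaf 0 525 561) (node 592 (merge (leaf 7 463 463) (leaf 7 495 624)))))))))) (node 497 (merge (node 465 (merge (leaf 2 462 466) (node 560 (merge (leaf 5 432 433) (leaf 6 464 592))))) (node 462 (merge (leaf 3 461 461) (node 498 (merge (leaf 3 462 463) (node 499 (merge (leaf 1 495 527) (node 532 (merge (leaf 0 496 531) (node 500 (merge (leaf 1 496 529) (leaf 0 497 533))))))))))))))))))))))) (node 495 (merge (node 493 (merge (leaf 0 492 492) (node 525 (merge (leaf 1 492 524) (node 497 (merge (leaf 1 493 526) (node 498 (merge (leaf 1 495 499) (node 466 (merge (leaf 2 462 465) (leaf 2 463 467))))))))))) (merge (node 493 (merge (leaf 0 492 492) (node 461 (merge (leaf 3 460 460) (node 497 (merge (leaf 3 461 462) (node 498 (merge (leaf 1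 495 499) (node 466 (merge (leaf 2 462 465) (leaf 2 463 467))))))))))) (merge (node 497 (merge (node 498 (merge (leaf 1 495 499) (leaf 1 494 526))) (merge (node 466 (merge (leaf 2 462 465) (node 498 (merge (leaf 2 463 467) (leaf 1 495 499))))) (node 465 (merge (leaf 2 462 466) (node 462 (merge (leaf 3 461 461) (node 430 (merge (leaf 4 398 398) (node 401 (merge (leaf 5 400 433) (node 560 (merge (leaf 6 464 592) (node 431 (merge (leaf 4 431 463) (node 399 (merge (leaf 6 398 526) (node 400 (merge (leaf 1 398 402) (node 429 (merge (leaf 2 396 428) (leaf 2 397 432)))))))))))))))))))))) (node 558 (merge (node 493 (merge (leaf 0 492 492) (node 525 (merge (leaf 1 492 524) (node 461 (merge (leaf 3 460 460) (node 557 (merge (leaf 4 461 590) (node 556 (merge (leaf 2 524 559) (leaf 5 460 588))))))))))) (merge (node 590 (merge (node 463 (merge (leaf 5 462 559) (node 560 (merge (leaf 4 431 431) (leaf 7 463 592))))) (merge (node 622 (merge (leaf 6 494 526) (node 654 (merge (leaf 6 526 559) (node 687 (merge (leaf 4 558 655) (node 686 (merge (leaf 4 590 719) (node 685 (merge (leaf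 5 557 653) (leaf 5 589 717))))))))))) (node 526 (merge (leaf 6 494 622) (node 525 (merge (leaf 2 492 524) (node 560 (merge (leaf 0 525 561) (node 463 (merge (leaf 4 431 431) (leaf 7 463 592)))))))))))) (merge (node 493 (merge (leaf 0 492 492) (node 461 (merge (leaf 3 460 460) (node 590 (merge (leaf 7 461 526) (node 463 (merge (leaf 5 462 559) (node 560 (merge (leaf 4 431 431) (leaf 7 463 592))))))))))) (node 493 (merge (leaf 0 492 492) (node 525 (merge (leaf 1 492 524) (node 461 (merge (leaf 3 460 460) (node 429 (merge (leaf 4 429 526) (node 398 (merge (leaf 6 397 430) (node 397 (merge (leaf 6 365 366) (node 396 (merge (leaf 7 364 364) (leaf 7 396 428))))))))))))))))))))))))))))) (merge (hyp 2) (merge (hyp 3) (merge (node 526 (merge (node 497 (merge (leaf 2 493 525) (node 498 (merge (leaf 1 495 499) (leaf 2 494 529))))) (merge (node 525 (merge (leaf 2 493 497) (node 524 (merge (leaf 2 492 495) (node 492 (merge (leaf 3 491 491) (leaf 3 492 493))))))) (merge (node 525 (merge (node 524 (merge (leaf 2 492 495) (node 492 (merge (leaf 3 491 491) (leaf 3 492 493)))))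 (merge (node 524 (merge (leaf 2 492 495) (node 556 (merge (leaf 1 523 555) (leaf 1 524 557))))) (node 557 (merge (leaf 1 524 556) (node 558 (merge (leaf 1 525 529) (node 493 (merge (leaf 3 492 492) (node 590 (merge (leaf 4 461 461) (leaf 7 493 622)))))))))))) (node 592 (merge (node 560 (merge (node 495 (merge (leaf 7 463 463) (leaf 7 495 624))) (node 497 (merge (leaf 6 464 465) (node 498 (merge (leaf 1 495 499) (leaf 2 494 529))))))) (merge (node 560 (merge (node 495 (merge (leaf 7 463 463) (leaf 7 495 624))) (merge (node 497 (merge (leaf 6 464 465) (node 495 (merge (leaf 7 463 463) (leaf 1 494 498))))) (node 625 (merge (leaf 4 496 593) (node 624 (merge (leaf 4 528 657) (node 623 (merge (leaf 5 495 591) (leaf 5 527 655)))))))))) (merge (node 560 (merge (node 625 (merge (leaf 4 496 593) (node 624 (merge (leaf 4 528 657) (node 623 (merge (leaf 5 495 591) (leaf 5 527 655))))))) (merge (node 623 (merge (leaf 5 495 591) (node 624 (merge (leaf 5 527 655) (node 656 (merge (leaf 7 527 559) (node 657 (merge (leaf 4 528 625) (leaf 4 560 689))))))))) (merge (node 623 (merge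 (leaf 5 495 591) (node 624 (merge (leaf 5 527 655) (node 656 (merge (leaf 7 527 559) (node 561 (merge (leaf 6 528 529) (node 688 (merge (leaf 6 560 593) (node 721 (merge (leaf 4 592 689) (node 720 (merge (leaf 4 624 753) (node 719 (merge (leaf 5 591 687) (leaf 5 623 751))))))))))))))))) (merge (node 624 (merge (node 625 (merge (leaf 4 496 593) (leaf 4 528 657))) (merge (node 656 (merge (leaf 7 527 559) (node 657 (merge (leaf 4 528 625) (leaf 4 560 689))))) (node 656 (merge (leaf 7 527 559) (node 687 (merge (leaf 5 559 655) (node 688 (merge (leaf 5 591 719) (node 561 (merge (leaf 6 528 529) (leaf 6 560 593)))))))))))) (node 593 (merge (leaf 4 496 625) (node 558 (merge (node 559 (merge (leaf 0 557 557) (node 594 (merge (leaf 0 558 561) (leaf 3 559 595))))) (merge (node 557 (merge (leaf 0 557 559) (node 591 (merge (leaf 3 557 590) (leaf 5 495 623))))) (merge (node 591 (merge (leaf 5 495 623) (node 590 (merge (leaf 3 557 557) (node 621 (merge (leaf 1 589 622) (node 589 (merge (leaf 2 557 561) (leaf 1 588 620))))))))) (node 591 (merge (leaf 5 495 623) (node 594 (merge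 (leaf 3 558 559) (node 627 (merge (leaf 0 591 626) (node 595 (merge (leaf 0 592 628) (node 564 (merge (leaf 2 560 563) (node 596 (merge (leaf 3 560 561) (leaf 2 561 565)))))))))))))))))))))))) (merge (node 558 (merge (node 557 (merge (leaf 1 525 529) (node 556 (merge (leaf 2 523 555) (leaf 2 524 559))))) (merge (node 529 (merge (leaf 1 525 557) (node 530 (merge (node 498 (merge (leaf 2 494 497) (leaf 2 495 499))) (merge (node 531 (merge (leaf 3 495 495) (node 564 (merge (leaf 0 528 563) (node 532 (merge (leaf 3 496 497) (leaf 0 529 565))))))) (node 531 (merge (leaf 3 495 495) (node 564 (merge (leaf 0 528 563) (node 532 (merge (leaf 0 529 565) (node 500 (merge (leaf 2 496 499) (leaf 2 497 501)))))))))))))) (merge (node 560 (merge (node 497 (merge (leaf 6 464 465) (node 495 (merge (leaf 7 463 463) (leaf 1 494 498))))) (merge (node 593 (merge (leaf 4 496 625) (node 591 (merge (leaf 5 495 623) (node 590 (merge (leaf 3 557 557) (node 622 (merge (leaf 1 589 621) (node 495 (merge (leaf 7 463 463) (leaf 6 494 526))))))))))) (node 593 (merge (leaf 4 496 625) (node 559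 (merge (leaf 0 557 557) (node 591 (merge (leaf 3 558 594) (leaf 5 495 623)))))))))) (node 497 (merge (node 498 (merge (leaf 1 495 499) (leaf 2 494 529))) (node 560 (merge (leaf 6 464 465) (node 591 (merge (leaf 5 495 623) (node 495 (merge (leaf 7 463 463) (node 590 (merge (leaf 6 494 622) (node 589 (merge (leaf 2 557 561) (node 620 (merge (leaf 1 588 621) (node 588 (merge (leaf 2 556 559) (leaf 1 587 619))))))))))))))))))))) (hyp 4)))))))))) (node 592 (merge (node 560 (merge (node 497 (merge (leaf 6 464 465) (node 526 (merge (leaf 2 493 525) (node 498 (merge (leaf 1 495 499) (leaf 2 494 529))))))) (node 625 (merge (leaf 4 496 593) (node 624 (merge (leaf 4 528 657) (node 623 (merge (leaf 5 495 591) (leaf 5 527 655))))))))) (merge (node 497 (merge (node 526 (merge (leaf 2 493 525) (node 498 (merge (leaf 1 495 499) (leaf 2 494 529))))) (node 560 (merge (leaf 6 464 465) (node 625 (merge (leaf 4 496 593) (node 624 (merge (leaf 4 528 657) (node 656 (merge (leaf 7 527 559) (node 655 (merge (leaf 5 527 623) (leaf 5 559 687))))))))))))) (merge (node 560 (merge (node 625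 (merge (leaf 4 496 593) (node 624 (merge (leaf 4 528 657) (node 623 (merge (leaf 5 495 591) (leaf 5 527 655))))))) (merge (node 623 (merge (leaf 5 495 591) (node 624 (merge (leaf 5 527 655) (node 656 (merge (leaf 7 527 559) (node 657 (merge (leaf 4 528 625) (leaf 4 560 689))))))))) (merge (node 623 (merge (leaf 5 495 591) (node 624 (merge (leaf 5 527 655) (node 656 (merge (leaf 7 527 559) (node 561 (merge (leaf 6 528 529) (node 688 (merge (leaf 6 560 593) (node 721 (merge (leaf 4 592 689) (node 720 (merge (leaf 4 624 753) (node 719 (merge (leaf 5 591 687) (leaf 5 623 751))))))))))))))))) (merge (node 624 (merge (node 625 (merge (leaf 4 496 593) (leaf 4 528 657))) (merge (node 656 (merge (leaf 7 527 559) (node 657 (merge (leaf 4 528 625) (leaf 4 560 689))))) (node 656 (merge (leaf 7 527 559) (node 687 (merge (leaf 5 559 655) (node 688 (merge (leaf 5 591 719) (node 561 (merge (leaf 6 528 529) (leaf 6 560 593)))))))))))) (node 593 (merge (leaf 4 496 625) (node 558 (merge (node 559 (merge (leaf 0 557 557) (node 594 (merge (leaf 0 558 561) (leaf 3 559 595))))) (merge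 (node 557 (merge (leaf 0 557 559) (node 591 (merge (leaf 3 557 590) (leaf 5 495 623))))) (merge (node 591 (merge (leaf 5 495 623) (node 590 (merge (leaf 3 557 557) (node 621 (merge (leaf 1 589 622) (node 589 (merge (leaf 2 557 561) (leaf 1 588 620))))))))) (node 591 (merge (leaf 5 495 623) (node 594 (merge (leaf 3 558 559) (node 627 (merge (leaf 0 591 626) (node 595 (merge (leaf 0 592 628) (node 564 (merge (leaf 2 560 563) (node 596 (merge (leaf 3 560 561) (leaf 2 561 565)))))))))))))))))))))))) (merge (node 560 (merge (node 497 (merge (leaf 6 464 465) (node 526 (merge (leaf 2 493 525) (node 498 (merge (leaf 1 495 499) (leaf 2 494 529))))))) (node 593 (merge (leaf 4 496 625) (node 558 (merge (node 559 (merge (leaf 0 557 557) (node 594 (merge (leaf 0 558 561) (leaf 3 559 595))))) (merge (node 557 (merge (leaf 0 557 559) (node 591 (merge (leaf 3 557 590) (leaf 5 495 623))))) (merge (node 591 (merge (leaf 5 495 623) (node 590 (merge (leaf 3 557 557) (node 621 (merge (leaf 1 589 622) (node 589 (merge (leaf 2 557 561) (leaf 1 588 620))))))))) (node 591 (merge (leaf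 5 495 623) (node 594 (merge (leaf 3 558 559) (node 627 (merge (leaf 0 591 626) (node 595 (merge (leaf 0 592 628) (node 564 (merge (leaf 2 560 563) (node 596 (merge (leaf 3 560 561) (leaf 2 561 565))))))))))))))))))))) (merge (node 526 (merge (node 497 (merge (leaf 2 493 525) (node 498 (merge (leaf 1 495 499) (leaf 2 494 529))))) (merge (node 525 (merge (leaf 2 493 497) (node 560 (merge (leaf 0 525 561) (node 524 (merge (leaf 0 524 559) (node 492 (merge (leaf 3 491 491) (leaf 3 492 493))))))))) (merge (node 529 (merge (node 497 (merge (leaf 2 494 498) (node 560 (merge (leaf 6 464 465) (leaf 6 496 624))))) (node 558 (merge (leaf 1 525 557) (node 559 (merge (leaf 1 526 530) (node 494 (merge (leaf 3 493 493) (node 462 (merge (leaf 4 430 430) (leaf 4 462 591))))))))))) (node 529 (merge (node 557 (merge (leaf 1 525 558) (node 525 (merge (leaf 1 524 556) (node 493 (merge (leaf 3 492 492) (leaf 3 493 494))))))) (merge (node 558 (merge (leaf 1 525 557) (node 559 (merge (leaf 1 526 530) (node 494 (merge (leaf 3 493 493) (node 462 (merge (leaf 4 430 430) (leaf 4 462 591)))))))))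 (merge (node 557 (merge (leaf 1 525 558) (node 525 (merge (leaf 1 524 556) (node 560 (merge (leaf 0 525 561) (node 559 (merge (leaf 0 524 524) (node 624 (merge (leaf 7 527 656) (node 625 (merge (leaf 4 496 593) (leaf 4 528 657))))))))))))) (node 493 (merge (leaf 3 493 494) (node 525 (merge (leaf 3 492 492) (node 560 (merge (leaf 0 525 561) (node 559 (merge (leaf 0 524 524) (node 624 (merge (leaf 7 527 656) (node 625 (merge (leaf 4 496 593) (leaf 4 528 657))))))))))))))))))))) (merge (node 526 (merge (node 497 (merge (leaf 2 493 525) (node 498 (merge (leaf 1 495 499) (leaf 2 494 529))))) (merge (node 525 (merge (leaf 2 493 497) (node 560 (merge (leaf 0 525 561) (node 524 (merge (leaf 0 524 559) (node 492 (merge (leaf 3 491 491) (leaf 3 492 493))))))))) (merge (node 529 (merge (node 497 (merge (leaf 2 494 498) (node 560 (merge (leaf 6 464 465) (leaf 6 496 624))))) (node 558 (merge (leaf 1 525 557) (node 559 (merge (leaf 1 526 530) (node 494 (merge (leaf 3 493 493) (node 462 (merge (leaf 4 430 430) (leaf 4 462 591))))))))))) (node 529 (merge (node 557 (merge (leaf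 1 525 558) (node 525 (merge (leaf 1 524 556) (node 493 (merge (leaf 3 492 492) (leaf 3 493 494))))))) (merge (node 558 (merge (leaf 1 525 557) (node 559 (merge (leaf 1 526 530) (node 494 (merge (leaf 3 493 493) (node 591 (merge (leaf 4 462 462) (leaf 6 495 623))))))))) (merge (node 525 (merge (node 557 (merge (leaf 1 524 556) (leaf 1 525 558))) (merge (node 560 (merge (leaf 0 525 561) (node 524 (merge (leaf 0 524 559) (node 555 (merge (leaf 1 523 556) (node 523 (merge (leaf 1 522 554) (node 491 (merge (leaf 3 490 490) (leaf 3 491 492))))))))))) (node 560 (merge (leaf 0 525 561) (node 559 (merge (leaf 0 524 524) (node 558 (merge (leaf 1 526 530) (leaf 1 525 557)))))))))) (merge (node 493 (merge (leaf 3 493 494) (node 525 (merge (leaf 3 492 492) (node 560 (merge (leaf 0 525 561) (node 559 (merge (leaf 0 524 524) (node 530 (merge (leaf 1 527 531) (leaf 1 526 558))))))))))) (node 493 (merge (leaf 3 493 494) (node 525 (merge (leaf 3 492 492) (node 560 (merge (leaf 0 525 561) (node 524 (merge (leaf 0 524 559) (node 556 (merge (leaf 1 523 555) (leaf 1 524 557))))))))))))))))))))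 (merge (hyp 5) (hyp 6))))))))))))))))))))))))))) nJ_30 cJ_30 15 (by decide +kernel)
def nJ_31 : ℕ := 0x1000000000000000000000000000000000000000000000000000000000000000000000000000000000000000000000000000000000000000000000000000000000000
def cJ_31 : ℕ := 0x2a0000003e0000003e0000007f000001ffc00001ffc00003bfc00003ef800007ffc00007ffc00007ff800000ff000000ff0000007e0000002a000000000000000000000000000000000000000000000000000000000000000000000000000
theorem lJ_31 : S nJ_31 cJ_31 16 := S_of_chk [(nJ_0, cJ_0, 11), (nJ_1, cJ_1, 13), (nJ_2, cJ_2, 12), (nJ_3, cJ_3, 14), (nJ_4, cJ_4, 14), (nJ_5, cJ_5, 11), (nJ_6, cJ_6, 13), (nJ_7, cJ_7, 12), (nJ_8, cJ_8, 11), (nJ_9, cJ_9, 13), (nJ_10, cJ_10, 12), (nJ_11, cJ_11, 11), (nJ_12, cJ_12, 13), (nJ_13, cJ_13, 14), (nJ_14, cJ_14, 12), (nJ_15, cJ_15, 14), (nJ_16, cJ_16, 13), (nJ_20, cJ_20, 15), (nJ_22, cJ_22, 15), (nJ_30, cJ_30, 15)] ⟨lJ_0, lJ_1, lJ_2, lJ_3, lJ_4, lJ_5, lJ_6, lJ_7, lJ_8, lJ_9, lJ_10, lJ_11, lJ_12, lJ_13, lJ_14, lJ_15, lJ_16, lJ_20, lJ_22, lJ_30, trivial⟩ (node 496 (merge (node 464 (merge (node 431 (merge (node 463 (merge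 (leaf 7 431 560) (node 399 (merge (leaf 4 367 367) (leaf 4 399 495))))) (merge (node 399 (merge (leaf 7 399 432) (node 463 (merge (leaf 4 367 367) (leaf 4 399 495))))) (merge (node 560 (merge (leaf 7 431 463) (node 433 (merge (leaf 6 432 465) (node 432 (merge (leaf 6 400 401) (node 559 (merge (leaf 5 431 527) (leaf 5 463 591))))))))) (node 432 (merge (leaf 7 399 399) (node 433 (merge (leaf 6 400 401) (node 560 (merge (leaf 6 432 465) (node 559 (merge (leaf 5 431 527) (leaf 5 463 591))))))))))))) (merge (node 560 (merge (node 561 (merge (leaf 4 464 593) (node 432 (merge (leaf 4 432 529) (node 433 (merge (leaf 6 400 401) (leaf 6 432 465))))))) (merge (node 593 (merge (leaf 4 464 561) (node 592 (merge (leaf 4 496 625) (node 591 (merge (leaf 5 463 559) (leaf 5 495 623))))))) (node 465 (merge (leaf 6 432 433) (node 592 (merge (leaf 6 464 497) (node 591 (merge (leaf 5 463 559) (leaf 5 495 623)))))))))) (merge (node 560 (merge (node 561 (merge (leaf 4 464 593) (node 432 (merge (leaf 4 432 529) (node 431 (merge (leaf 7 399 399) (leaf 7 431 463))))))) (merge (node 593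 (merge (leaf 4 464 561) (node 592 (merge (leaf 4 496 625) (node 591 (merge (leaf 5 463 559) (leaf 5 495 623))))))) (node 591 (merge (leaf 5 463 559) (node 463 (merge (leaf 7 431 431) (node 592 (merge (leaf 7 463 495) (leaf 5 495 623)))))))))) (merge (node 431 (merge (node 399 (merge (leaf 7 399 432) (node 463 (merge (leaf 4 367 367) (leaf 4 399 495))))) (merge (node 432 (merge (leaf 7 399 399) (node 561 (merge (leaf 4 432 529) (node 433 (merge (leaf 6 400 401) (node 560 (merge (leaf 6 432 465) (leaf 4 464 593))))))))) (node 560 (merge (leaf 7 431 463) (node 593 (merge (leaf 4 464 561) (node 465 (merge (leaf 6 432 433) (node 592 (merge (leaf 6 464 497) (leaf 4 496 625)))))))))))) (merge (node 465 (merge (node 560 (merge (leaf 6 432 433) (node 593 (merge (leaf 4 464 561) (node 592 (merge (leaf 4 496 625) (node 591 (merge (leaf 5 463 559) (leaf 5 495 623))))))))) (merge (node 463 (merge (node 431 (merge (leaf 7 431 560) (node 399 (merge (leaf 4 367 367) (leaf 4 399 495))))) (merge (node 560 (merge (leaf 7 431 431) (node 497 (merge (leaf 6 464 592) (node 498 (merge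 (leaf 0 462 462) (leaf 3 463 499))))))) (merge (node 498 (merge (node 497 (merge (leaf 0 462 462) (leaf 3 463 499))) (merge (node 466 (merge (leaf 0 463 499) (node 495 (merge (leaf 1 463 467) (leaf 1 462 494))))) (node 462 (merge (leaf 0 462 497) (node 430 (merge (leaf 3 429 429) (node 466 (merge (leaf 3 430 431) (node 495 (merge (leaf 1 463 467) (leaf 1 462 494)))))))))))) (node 494 (merge (node 495 (merge (leaf 1 462 466) (leaf 2 461 493))) (merge (node 462 (merge (leaf 1 461 493) (node 497 (merge (leaf 0 461 461) (leaf 0 462 498))))) (node 466 (merge (leaf 1 462 495) (node 498 (merge (leaf 0 463 499) (node 497 (merge (leaf 0 462 462) (node 434 (merge (leaf 2 431 435) (node 529 (merge (leaf 5 401 402) (leaf 6 433 561)))))))))))))))))) (node 463 (merge (node 462 (merge (node 433 (merge (leaf 2 430 434) (node 401 (merge (leaf 5 368 369) (leaf 5 400 497))))) (node 493 (merge (leaf 1 461 494) (node 461 (merge (leaf 1 460 492) (node 429 (merge (leaf 3 428 428) (leaf 3 429 430))))))))) (merge (node 466 (merge (node 431 (merge (leaf 3 430 430) (node 399 (merge (leaf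 4 367 367) (leaf 4 399 495))))) (node 499 (merge (leaf 0 463 498) (node 467 (merge (leaf 0 464 500) (node 435 (merge (leaf 2 431 434) (leaf 2 432 436))))))))) (merge (node 466 (merge (node 499 (merge (leaf 0 463 498) (node 467 (merge (leaf 1 463 495) (leaf 0 464 500))))) (merge (node 499 (merge (leaf 0 463 498) (node 467 (merge (leaf 0 464 500) (node 435 (merge (leaf 2 431 434) (leaf 2 432 436))))))) (node 434 (merge (leaf 2 431 435) (node 462 (merge (leaf 2 430 433) (node 494 (merge (leaf 1 461 493) (leaf 1 462 495)))))))))) (node 498 (merge (node 497 (merge (leaf 0 462 462) (leaf 3 463 499))) (merge (node 466 (merge (leaf 0 463 499) (node 431 (merge (leaf 3 430 430) (node 399 (merge (leaf 4 367 367) (leaf 4 399 495))))))) (node 462 (merge (leaf 0 462 497) (node 494 (merge (leaf 1 461 493) (node 466 (merge (leaf 1 462 495) (node 430 (merge (leaf 3 429 429) (leaf 3 430 431))))))))))))))))))) (hyp 0))))))) (merge (hyp 1) (merge (node 464 (merge (node 431 (merge (node 463 (merge (leaf 7 431 560) (node 399 (merge (leaf 4 367 367) (leaf 4 399 495))))) (merge (node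 399 (merge (leaf 7 399 432) (node 463 (merge (leaf 4 367 367) (leaf 4 399 495))))) (merge (node 560 (merge (leaf 7 431 463) (node 433 (merge (leaf 6 432 465) (node 432 (merge (leaf 6 400 401) (node 559 (merge (leaf 5 431 527) (leaf 5 463 591))))))))) (node 432 (merge (leaf 7 399 399) (node 433 (merge (leaf 6 400 401) (node 560 (merge (leaf 6 432 465) (node 559 (merge (leaf 5 431 527) (leaf 5 463 591))))))))))))) (merge (node 560 (merge (node 561 (merge (leaf 4 464 593) (node 432 (merge (leaf 4 432 529) (node 433 (merge (leaf 6 400 401) (leaf 6 432 465))))))) (merge (node 593 (merge (leaf 4 464 561) (node 592 (merge (leaf 4 496 625) (node 591 (merge (leaf 5 463 559) (leaf 5 495 623))))))) (node 465 (merge (leaf 6 432 433) (node 592 (merge (leaf 6 464 497) (node 591 (merge (leaf 5 463 559) (leaf 5 495 623)))))))))) (merge (node 560 (merge (node 561 (merge (leaf 4 464 593) (node 432 (merge (leaf 4 432 529) (node 431 (merge (leaf 7 399 399) (leaf 7 431 463))))))) (merge (node 593 (merge (leaf 4 464 561) (node 592 (merge (leaf 4 496 625) (node 591 (merge (leaf 5 463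 559) (leaf 5 495 623))))))) (node 591 (merge (leaf 5 463 559) (node 463 (merge (leaf 7 431 431) (node 592 (merge (leaf 7 463 495) (leaf 5 495 623)))))))))) (merge (node 431 (merge (node 399 (merge (leaf 7 399 432) (node 463 (merge (leaf 4 367 367) (leaf 4 399 495))))) (merge (node 432 (merge (leaf 7 399 399) (node 561 (merge (leaf 4 432 529) (node 433 (merge (leaf 6 400 401) (node 560 (merge (leaf 6 432 465) (leaf 4 464 593))))))))) (node 560 (merge (leaf 7 431 463) (node 593 (merge (leaf 4 464 561) (node 465 (merge (leaf 6 432 433) (node 592 (merge (leaf 6 464 497) (leaf 4 496 625)))))))))))) (merge (node 465 (merge (node 560 (merge (leaf 6 432 433) (node 593 (merge (leaf 4 464 561) (node 592 (merge (leaf 4 496 625) (node 591 (merge (leaf 5 463 559) (leaf 5 495 623))))))))) (merge (node 466 (merge (node 467 (merge (leaf 1 463 495) (node 500 (merge (leaf 0 464 499) (node 468 (merge (leaf 1 464 497) (leaf 0 465 501))))))) (merge (node 467 (merge (leaf 1 463 495) (node 499 (merge (leaf 0 464 500) (node 463 (merge (leaf 0 463 498) (node 435 (merge (leaf 2 431 434)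 (leaf 2 432 436))))))))) (merge (node 467 (merge (node 500 (merge (leaf 0 464 499) (node 468 (merge (leaf 1 464 497) (leaf 0 465 501))))) (merge (node 499 (merge (leaf 0 464 500) (node 463 (merge (leaf 0 463 498) (node 435 (merge (leaf 2 431 434) (leaf 2 432 436))))))) (node 468 (merge (leaf 1 464 497) (node 435 (merge (leaf 2 432 436) (node 434 (merge (leaf 2 431 463) (node 469 (merge (leaf 3 433 433) (leaf 3 434 470)))))))))))) (node 463 (merge (node 495 (merge (leaf 1 462 494) (node 431 (merge (leaf 4 399 399) (leaf 3 430 430))))) (node 434 (merge (leaf 2 431 435) (node 462 (merge (leaf 2 430 433) (node 497 (merge (leaf 0 461 461) (leaf 0 462 498))))))))))))) (node 463 (merge (node 431 (merge (leaf 7 431 560) (node 399 (merge (leaf 4 367 367) (leaf 4 399 495))))) (merge (node 560 (merge (leaf 7 431 431) (node 497 (merge (leaf 6 464 592) (node 498 (merge (leaf 0 462 462) (leaf 3 463 499))))))) (merge (node 466 (merge (node 431 (merge (leaf 3 430 430) (node 399 (merge (leaf 4 367 367) (leaf 4 399 495))))) (node 499 (merge (leaf 0 463 498) (node 467 (merge (leaf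 0 464 500) (node 435 (merge (leaf 2 431 434) (leaf 2 432 436))))))))) (node 466 (merge (node 495 (merge (leaf 1 463 467) (leaf 1 462 494))) (merge (node 499 (merge (leaf 0 463 498) (node 467 (merge (leaf 1 463 495) (leaf 0 464 500))))) (merge (node 499 (merge (leaf 0 463 498) (node 467 (merge (leaf 0 464 500) (node 435 (merge (leaf 2 431 434) (leaf 2 432 436))))))) (node 498 (merge (leaf 0 463 499) (node 495 (merge (leaf 1 462 494) (node 434 (merge (leaf 2 431 435) (node 560 (merge (leaf 7 463 592) (node 561 (merge (leaf 4 464 593) (node 529 (merge (leaf 5 433 530) (node 559 (merge (leaf 5 463 591) (node 558 (merge (leaf 2 525 557) (node 590 (merge (leaf 5 462 527) (leaf 1 557 589)))))))))))))))))))))))))))))) (node 529 (merge (node 561 (merge (leaf 4 432 432) (node 593 (merge (leaf 7 464 497) (leaf 7 496 625))))) (merge (node 432 (merge (leaf 4 432 561) (node 401 (merge (leaf 6 400 433) (node 400 (merge (leaf 6 368 369) (node 527 (merge (leaf 5 399 495) (leaf 5 431 559))))))))) (merge (node 527 (merge (node 432 (merge (leaf 5 431 559) (node 400 (merge (leaf 4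 400 497) (node 401 (merge (leaf 6 368 369) (leaf 6 400 433))))))) (merge (node 559 (merge (node 591 (merge (leaf 6 463 495) (leaf 6 495 623))) (merge (node 530 (merge (leaf 1 526 558) (node 499 (merge (leaf 2 495 498) (node 531 (merge (leaf 3 495 495) (leaf 2 496 500))))))) (node 558 (merge (leaf 1 526 530) (node 557 (merge (leaf 1 525 526) (leaf 2 524 556)))))))) (node 526 (merge (node 497 (merge (leaf 2 494 498) (leaf 2 493 525))) (merge (node 557 (merge (leaf 1 525 558) (node 525 (merge (leaf 1 524 556) (node 495 (merge (leaf 2 492 524) (node 530 (merge (leaf 3 494 494) (leaf 3 495 531))))))))) (node 558 (merge (leaf 1 525 557) (node 497 (merge (leaf 2 494 498) (node 432 (merge (leaf 4 400 400) (node 433 (merge (leaf 6 400 401) (node 431 (merge (leaf 7 399 399) (node 463 (merge (leaf 5 430 495) (node 462 (merge (leaf 1 430 434) (leaf 6 430 494))))))))))))))))))))) (node 530 (merge (node 495 (merge (leaf 3 495 531) (node 527 (merge (leaf 3 494 494) (node 559 (merge (leaf 1 526 558) (leaf 6 463 591))))))) (merge (node 531 (merge (leaf 3 495 495) (node 564 (merge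 (leaf 0 528 563) (node 532 (merge (leaf 3 496 497) (leaf 0 529 565))))))) (merge (node 531 (merge (node 564 (merge (leaf 0 528 563) (node 532 (merge (leaf 3 496 497) (leaf 0 529 565))))) (merge (node 500 (merge (leaf 2 496 499) (node 532 (merge (leaf 3 496 497) (leaf 2 497 501))))) (node 563 (merge (leaf 0 528 564) (node 499 (merge (leaf 2 496 500) (node 498 (merge (leaf 2 495 527) (node 595 (merge (leaf 7 466 466) (leaf 7 498 627)))))))))))) (node 498 (merge (node 499 (merge (leaf 2 495 527) (node 497 (merge (leaf 3 463 463) (leaf 1 496 500))))) (merge (node 527 (merge (leaf 2 495 499) (node 559 (merge (leaf 1 526 558) (node 495 (merge (leaf 3 494 494) (leaf 6 463 591))))))) (merge (node 497 (merge (node 499 (merge (leaf 3 463 463) (leaf 1 496 500))) (merge (node 495 (merge (leaf 0 494 494) (node 466 (merge (leaf 2 463 467) (node 434 (merge (leaf 5 401 402) (leaf 5 433 561))))))) (node 495 (merge (leaf 0 494 494) (node 499 (merge (leaf 1 496 500) (node 467 (merge (leaf 2 463 466) (leaf 2 464 468)))))))))) (node 527 (merge (node 526 (merge (leaf 2 494 497) (node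 558 (merge (leaf 1 525 557) (leaf 1 526 559))))) (merge (node 559 (merge (leaf 1 526 558) (node 495 (merge (leaf 3 494 494) (leaf 6 463 591))))) (node 497 (merge (leaf 2 494 526) (node 495 (merge (leaf 0 494 494) (node 466 (merge (leaf 2 463 467) (node 434 (merge (leaf 5 401 402) (leaf 5 433 561)))))))))))))))))))))))))))))) (merge (node 560 (merge (node 464 (merge (node 561 (merge (leaf 4 464 593) (node 432 (merge (leaf 4 432 529) (node 433 (merge (leaf 6 400 401) (leaf 6 432 465))))))) (merge (node 593 (merge (leaf 4 464 561) (node 592 (merge (leaf 4 496 625) (node 591 (merge (leaf 5 463 559) (leaf 5 495 623))))))) (node 433 (merge (leaf 6 432 465) (node 432 (merge (leaf 6 400 401) (node 559 (merge (leaf 5 431 527) (leaf 5 463 591)))))))))) (merge (node 464 (merge (node 433 (merge (leaf 6 432 465) (node 432 (merge (leaf 6 400 401) (node 431 (merge (leaf 7 399 399) (leaf 7 431 463))))))) (merge (node 591 (merge (leaf 5 463 559) (node 463 (merge (leaf 7 431 431) (node 592 (merge (leaf 7 463 495) (leaf 5 495 623))))))) (node 433 (merge (leaf 6 432 465) (node 432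 (merge (leaf 6 400 401) (node 559 (merge (leaf 5 431 527) (leaf 5 463 591)))))))))) (merge (node 464 (merge (node 561 (merge (leaf 4 464 593) (node 432 (merge (leaf 4 432 529) (node 433 (merge (leaf 6 400 401) (leaf 6 432 465))))))) (merge (node 593 (merge (leaf 4 464 561) (node 592 (merge (leaf 4 496 625) (node 463 (merge (leaf 7 431 431) (leaf 7 463 495))))))) (node 433 (merge (leaf 6 432 465) (node 432 (merge (leaf 6 400 401) (node 431 (merge (leaf 7 399 399) (leaf 7 431 463)))))))))) (merge (node 559 (merge (node 464 (merge (leaf 5 463 591) (node 433 (merge (leaf 6 432 465) (node 432 (merge (leaf 6 400 401) (leaf 5 431 527))))))) (merge (node 464 (merge (leaf 5 463 591) (node 433 (merge (leaf 6 432 465) (node 432 (merge (leaf 6 400 401) (node 431 (merge (leaf 7 399 399) (leaf 7 431 463))))))))) (merge (node 561 (merge (node 593 (merge (leaf 4 464 464) (node 625 (merge (leaf 7 496 529) (leaf 7 528 657))))) (merge (node 464 (merge (leaf 4 464 593) (node 432 (merge (leaf 5 431 527) (node 433 (merge (leaf 6 400 401) (leaf 6 432 465))))))) (merge (node 593 (merge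 (node 625 (merge (leaf 7 496 529) (leaf 7 528 657))) (merge (node 558 (merge (leaf 0 558 594) (node 529 (merge (leaf 2 526 530) (leaf 2 525 557))))) (node 558 (merge (leaf 0 558 594) (node 525 (merge (leaf 3 525 526) (node 557 (merge (leaf 3 524 524) (node 588 (merge (leaf 1 556 589) (node 556 (merge (leaf 2 524 527) (leaf 1 555 587)))))))))))))) (node 558 (merge (node 529 (merge (leaf 2 526 530) (leaf 2 525 557))) (merge (node 589 (merge (leaf 1 557 590) (node 557 (merge (leaf 1 556 588) (node 525 (merge (leaf 3 524 524) (leaf 3 525 526))))))) (node 590 (merge (leaf 1 557 589) (node 529 (merge (leaf 2 526 530) (node 526 (merge (leaf 3 525 525) (node 464 (merge (leaf 4 432 432) (node 463 (merge (leaf 7 431 431) (node 495 (merge (leaf 6 462 494) (leaf 5 462 527)))))))))))))))))))) (node 591 (merge (node 623 (merge (leaf 6 495 527) (leaf 6 527 655))) (merge (node 558 (merge (node 529 (merge (leaf 2 525 557) (node 561 (merge (leaf 2 526 530) (node 593 (merge (leaf 0 558 594) (leaf 7 496 625))))))) (merge (node 557 (merge (leaf 2 525 529) (node 588 (merge (leaf 1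 556 589) (node 556 (merge (leaf 2 524 527) (leaf 1 555 587))))))) (merge (node 557 (merge (node 556 (merge (leaf 2 524 527) (node 588 (merge (leaf 1 555 587) (leaf 1 556 589))))) (merge (node 589 (merge (leaf 1 556 588) (node 561 (merge (leaf 1 557 590) (node 525 (merge (leaf 3 524 524) (leaf 3 525 526))))))) (merge (node 556 (merge (leaf 2 524 527) (node 590 (merge (leaf 0 555 555) (node 561 (merge (leaf 1 557 589) (node 525 (merge (leaf 3 524 524) (leaf 3 525 526))))))))) (node 556 (merge (leaf 2 524 527) (node 555 (merge (leaf 0 555 590) (node 587 (merge (leaf 1 554 586) (leaf 1 555 588))))))))))) (node 561 (merge (node 593 (merge (leaf 0 558 594) (node 529 (merge (leaf 2 526 530) (leaf 7 496 625))))) (node 590 (merge (leaf 1 557 589) (node 526 (merge (leaf 3 525 525) (node 494 (merge (leaf 4 462 462) (node 495 (merge (leaf 6 462 463) (node 622 (merge (leaf 5 494 527) (node 653 (merge (leaf 5 525 621) (node 654 (merge (leaf 5 557 685) (leaf 6 558 686))))))))))))))))))))) (node 558 (merge (node 529 (merge (leaf 2 525 557) (node 561 (merge (leaf 2 526 530) (node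 593 (merge (leaf 0 558 594) (leaf 7 496 625))))))) (merge (node 526 (merge (node 623 (merge (leaf 7 526 655) (node 494 (merge (leaf 4 462 462) (leaf 4 494 590))))) (node 525 (merge (leaf 3 525 561) (node 524 (merge (leaf 0 523 523) (leaf 3 524 557))))))) (merge (node 526 (merge (node 623 (merge (leaf 7 526 655) (node 494 (merge (leaf 4 462 462) (leaf 4 494 590))))) (node 561 (merge (leaf 3 525 525) (node 593 (merge (leaf 0 558 594) (node 529 (merge (leaf 2 526 530) (leaf 7 496 625))))))))) (node 557 (merge (leaf 2 525 529) (node 588 (merge (leaf 1 556 589) (node 556 (merge (leaf 1 555 587) (node 524 (merge (leaf 3 523 523) (leaf 3 524 525)))))))))))))))))))) (hyp 2)))))) (merge (hyp 3) (merge (hyp 4) (merge (node 560 (merge (node 592 (merge (node 593 (merge (leaf 4 496 625) (node 464 (merge (leaf 4 464 561) (node 463 (merge (leaf 7 431 431) (leaf 7 463 495))))))) (merge (node 625 (merge (leaf 4 496 593) (node 624 (merge (leaf 4 528 657) (node 623 (merge (leaf 5 495 591) (leaf 5 527 655))))))) (node 623 (merge (leaf 5 495 591) (node 495 (merge (leaf 7 463 463)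 (node 624 (merge (leaf 7 495 527) (leaf 5 527 655)))))))))) (merge (node 465 (merge (node 433 (merge (leaf 6 432 464) (node 497 (merge (leaf 5 400 401) (leaf 5 432 529))))) (merge (node 592 (merge (leaf 6 464 497) (node 625 (merge (leaf 4 496 593) (node 624 (merge (leaf 4 528 657) (node 495 (merge (leaf 7 463 463) (leaf 7 495 527))))))))) (node 464 (merge (leaf 6 432 433) (node 593 (merge (leaf 4 464 561) (node 592 (merge (leaf 4 496 625) (node 623 (merge (leaf 5 495 591) (node 624 (merge (leaf 5 527 655) (node 495 (merge (leaf 7 463 463) (leaf 7 495 527)))))))))))))))) (merge (node 463 (merge (node 431 (merge (leaf 7 431 464) (node 495 (merge (leaf 4 399 399) (leaf 4 431 527))))) (merge (node 464 (merge (leaf 7 431 431) (node 465 (merge (leaf 6 432 433) (node 497 (merge (leaf 6 464 592) (node 498 (merge (leaf 0 462 462) (leaf 3 463 499))))))))) (node 592 (merge (leaf 7 463 495) (node 497 (merge (leaf 6 464 465) (node 624 (merge (leaf 6 496 529) (node 623 (merge (leaf 5 495 591) (leaf 5 527 655)))))))))))) (merge (node 464 (merge (node 561 (merge (leaf 4 464 593)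 (node 432 (merge (leaf 4 432 529) (node 431 (merge (leaf 7 399 399) (leaf 7 431 463))))))) (merge (node 593 (merge (leaf 4 464 561) (node 465 (merge (leaf 6 432 433) (node 592 (merge (leaf 6 464 497) (leaf 4 496 625))))))) (node 433 (merge (leaf 6 432 465) (node 432 (merge (leaf 6 400 401) (node 431 (merge (leaf 7 399 399) (leaf 7 431 463)))))))))) (merge (node 464 (merge (node 592 (merge (node 593 (merge (leaf 4 464 561) (leaf 4 496 625))) (merge (node 625 (merge (leaf 4 496 593) (node 497 (merge (leaf 6 464 465) (node 624 (merge (leaf 6 496 529) (leaf 4 528 657))))))) (merge (node 625 (merge (leaf 4 496 593) (node 624 (merge (leaf 4 528 657) (node 623 (merge (leaf 5 495 591) (leaf 5 527 655))))))) (node 497 (merge (leaf 6 464 465) (node 624 (merge (leaf 6 496 529) (node 623 (merge (leaf 5 495 591) (leaf 5 527 655))))))))))) (merge (node 465 (merge (leaf 6 432 433) (node 592 (merge (leaf 6 464 497) (node 625 (merge (leaf 4 496 593) (node 624 (merge (leaf 4 528 657) (node 623 (merge (leaf 5 495 591) (leaf 5 527 655))))))))))) (merge (node 433 (merge (leaf 6 432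 465) (node 432 (merge (leaf 6 400 401) (node 529 (merge (leaf 4 432 561) (node 400 (merge (leaf 4 400 497) (node 399 (merge (leaf 7 367 367) (leaf 7 399 431))))))))))) (node 561 (merge (leaf 4 464 593) (node 432 (merge (leaf 4 432 529) (node 401 (merge (leaf 6 400 433) (node 400 (merge (leaf 6 368 369) (node 399 (merge (leaf 7 367 367) (leaf 7 399 431))))))))))))))) (merge (node 497 (merge (node 592 (merge (leaf 6 464 465) (node 625 (merge (leaf 4 496 593) (node 624 (merge (leaf 6 496 529) (leaf 4 528 657))))))) (merge (node 592 (merge (leaf 6 464 465) (node 625 (merge (leaf 4 496 593) (node 624 (merge (leaf 4 528 657) (node 495 (merge (leaf 7 463 463) (leaf 7 495 527))))))))) (merge (node 495 (merge (node 592 (merge (leaf 7 463 463) (node 625 (merge (leaf 4 496 593) (node 624 (merge (leaf 6 496 529) (leaf 4 528 657))))))) (merge (node 498 (merge (node 527 (merge (leaf 1 495 499) (leaf 1 494 526))) (merge (node 463 (merge (leaf 3 462 462) (node 431 (merge (leaf 4 399 399) (leaf 4 431 527))))) (node 531 (merge (leaf 0 495 530) (node 499 (merge (leaf 0 496 532)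 (node 467 (merge (leaf 2 463 466) (leaf 2 464 468)))))))))) (node 526 (merge (node 527 (merge (leaf 1 494 498) (leaf 2 493 525))) (merge (node 494 (merge (leaf 1 493 525) (node 529 (merge (leaf 0 493 493) (leaf 0 494 530))))) (node 498 (merge (leaf 1 494 527) (node 531 (merge (leaf 0 495 530) (node 499 (merge (leaf 0 496 532) (node 467 (merge (leaf 2 463 466) (leaf 2 464 468))))))))))))))) (node 498 (merge (node 527 (merge (leaf 1 495 499) (node 526 (merge (leaf 1 494 495) (leaf 2 493 525))))) (merge (node 499 (merge (leaf 1 495 527) (node 468 (merge (leaf 2 464 467) (node 500 (merge (leaf 2 465 469) (leaf 1 496 529))))))) (merge (node 495 (merge (node 463 (merge (leaf 3 462 462) (node 431 (merge (leaf 4 399 399) (leaf 4 431 527))))) (merge (node 466 (merge (leaf 2 463 467) (node 494 (merge (leaf 2 462 465) (node 526 (merge (leaf 1 493 525) (leaf 1 494 527))))))) (node 466 (merge (leaf 2 463 467) (node 494 (merge (leaf 2 462 465) (node 493 (merge (leaf 0 493 529) (node 525 (merge (leaf 1 492 524) (leaf 1 493 526)))))))))))) (node 499 (merge (node 532 (merge (leaf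 0 496 531) (node 500 (merge (leaf 1 496 529) (leaf 0 497 533))))) (merge (node 467 (merge (leaf 2 464 468) (node 495 (merge (leaf 2 463 466) (node 462 (merge (leaf 3 462 463) (node 494 (merge (leaf 3 461 461) (node 493 (merge (leaf 0 493 529) (node 525 (merge (leaf 1 492 524) (leaf 1 493 526))))))))))))) (node 532 (merge (leaf 0 496 531) (node 500 (merge (leaf 0 497 533) (node 468 (merge (leaf 2 464 467) (leaf 2 465 469)))))))))))))))))) (hyp 5)))))))) (merge (node 464 (merge (node 432 (merge (node 527 (merge (leaf 5 431 559) (node 400 (merge (leaf 5 399 495) (node 399 (merge (leaf 7 367 367) (leaf 7 399 431))))))) (merge (node 433 (merge (leaf 6 400 401) (node 560 (merge (leaf 6 432 465) (node 559 (merge (leaf 5 431 527) (leaf 5 463 591))))))) (node 401 (merge (leaf 6 400 433) (node 400 (merge (leaf 6 368 369) (node 399 (merge (leaf 7 367 367) (leaf 7 399 431)))))))))) (merge (node 560 (merge (node 561 (merge (leaf 4 464 593) (node 432 (merge (leaf 4 432 529) (node 433 (merge (leaf 6 400 401) (leaf 6 432 465))))))) (merge (node 593 (merge (leaf 4 464 561) (node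 592 (merge (leaf 4 496 625) (node 591 (merge (leaf 5 463 559) (leaf 5 495 623))))))) (node 465 (merge (leaf 6 432 433) (node 592 (merge (leaf 6 464 497) (node 591 (merge (leaf 5 463 559) (leaf 5 495 623)))))))))) (merge (node 433 (merge (node 465 (merge (leaf 6 432 560) (node 401 (merge (leaf 5 368 369) (leaf 5 400 497))))) (merge (node 432 (merge (leaf 6 400 401) (node 527 (merge (leaf 5 431 559) (node 400 (merge (leaf 5 399 495) (node 399 (merge (leaf 7 367 367) (leaf 7 399 431))))))))) (node 560 (merge (leaf 6 432 465) (node 561 (merge (leaf 4 464 593) (node 432 (merge (leaf 4 432 529) (node 527 (merge (leaf 5 431 559) (node 400 (merge (leaf 5 399 495) (node 399 (merge (leaf 7 367 367) (leaf 7 399 431)))))))))))))))) (merge (node 432 (merge (node 529 (merge (leaf 4 432 561) (node 400 (merge (leaf 4 400 497) (node 399 (merge (leaf 7 367 367) (leaf 7 399 431))))))) (merge (node 529 (merge (leaf 4 432 561) (node 527 (merge (leaf 5 431 559) (node 495 (merge (leaf 5 399 400) (node 530 (merge (leaf 3 494 494) (leaf 3 495 531))))))))) (merge (node 527 (merge (leaf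 5 431 559) (node 400 (merge (leaf 5 399 495) (node 369 (merge (leaf 6 368 401) (node 368 (merge (leaf 6 336 337) (node 367 (merge (leaf 7 335 335) (leaf 7 367 399))))))))))) (node 561 (merge (leaf 4 432 529) (node 560 (merge (leaf 4 464 593) (node 559 (merge (leaf 5 431 527) (leaf 5 463 591))))))))))) (merge (node 560 (merge (node 561 (merge (leaf 4 464 593) (node 432 (merge (leaf 4 432 529) (node 401 (merge (leaf 6 400 433) (node 400 (merge (leaf 6 368 369) (node 399 (merge (leaf 7 367 367) (leaf 7 399 431))))))))))) (merge (node 433 (merge (leaf 6 432 465) (node 432 (merge (leaf 6 400 401) (node 529 (merge (leaf 4 432 561) (node 400 (merge (leaf 4 400 497) (node 399 (merge (leaf 7 367 367) (leaf 7 399 431))))))))))) (merge (node 592 (merge (node 593 (merge (leaf 4 464 561) (leaf 4 496 625))) (merge (node 625 (merge (leaf 4 496 593) (node 497 (merge (leaf 6 464 465) (node 624 (merge (leaf 6 496 529) (leaf 4 528 657))))))) (merge (node 625 (merge (leaf 4 496 593) (node 624 (merge (leaf 4 528 657) (node 623 (merge (leaf 5 495 591) (leaf 5 527 655))))))) (node 497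 (merge (leaf 6 464 465) (node 624 (merge (leaf 6 496 529) (node 623 (merge (leaf 5 495 591) (leaf 5 527 655))))))))))) (node 465 (merge (leaf 6 432 433) (node 592 (merge (leaf 6 464 497) (node 625 (merge (leaf 4 496 593) (node 624 (merge (leaf 4 528 657) (node 623 (merge (leaf 5 495 591) (leaf 5 527 655))))))))))))))) (merge (node 465 (merge (node 560 (merge (leaf 6 432 433) (node 593 (merge (leaf 4 464 561) (node 592 (merge (leaf 6 464 497) (leaf 4 496 625))))))) (merge (node 560 (merge (leaf 6 432 433) (node 592 (merge (leaf 6 464 497) (node 591 (merge (leaf 5 463 559) (leaf 5 495 623))))))) (merge (node 560 (merge (node 593 (merge (leaf 4 464 561) (node 592 (merge (leaf 6 464 497) (leaf 4 496 625))))) (merge (node 592 (merge (leaf 6 464 497) (node 591 (merge (leaf 5 463 559) (leaf 5 495 623))))) (node 561 (merge (leaf 4 464 593) (node 432 (merge (leaf 4 432 529) (node 559 (merge (leaf 5 431 527) (leaf 5 463 591)))))))))) (node 432 (merge (node 431 (merge (leaf 7 399 399) (node 430 (merge (leaf 0 429 429) (node 466 (merge (leaf 0 430 433) (leaf 3 431 467)))))))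 (node 529 (merge (leaf 4 432 561) (node 527 (merge (leaf 5 431 559) (node 495 (merge (leaf 5 399 400) (node 530 (merge (leaf 3 494 494) (leaf 3 495 531))))))))))))))) (merge (node 529 (merge (node 432 (merge (leaf 4 432 561) (node 400 (merge (leaf 4 400 497) (node 401 (merge (leaf 6 368 369) (leaf 6 400 433))))))) (merge (node 432 (merge (leaf 4 432 561) (node 401 (merge (leaf 6 400 433) (node 400 (merge (leaf 6 368 369) (node 527 (merge (leaf 5 399 495) (leaf 5 431 559))))))))) (node 530 (merge (node 495 (merge (leaf 3 495 531) (node 494 (merge (leaf 0 493 493) (leaf 3 494 527))))) (merge (node 531 (merge (leaf 3 495 495) (node 564 (merge (leaf 0 528 563) (node 532 (merge (leaf 3 496 497) (leaf 0 529 565))))))) (merge (node 527 (merge (node 559 (merge (leaf 1 526 558) (node 495 (merge (leaf 3 494 494) (leaf 6 463 591))))) (merge (node 498 (merge (leaf 2 495 499) (node 526 (merge (leaf 2 494 497) (node 558 (merge (leaf 1 525 557) (leaf 1 526 559))))))) (node 494 (merge (leaf 3 494 495) (node 526 (merge (leaf 3 493 493) (node 497 (merge (leaf 2 494 498) (leaf 2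 493 525)))))))))) (node 531 (merge (node 564 (merge (leaf 0 528 563) (node 532 (merge (leaf 3 496 497) (leaf 0 529 565))))) (merge (node 564 (merge (leaf 0 528 563) (node 532 (merge (leaf 0 529 565) (node 500 (merge (leaf 2 496 499) (leaf 2 497 501))))))) (node 499 (merge (leaf 2 496 500) (node 527 (merge (leaf 2 495 498) (node 558 (merge (leaf 1 526 559) (node 526 (merge (leaf 1 525 557) (node 525 (merge (leaf 2 493 497) (node 493 (merge (leaf 3 492 492) (leaf 3 493 494))))))))))))))))))))))) (hyp 6))))))))) (merge (hyp 7) (merge (hyp 8) (merge (hyp 9) (merge (hyp 10) (merge (node 464 (merge (node 431 (merge (node 463 (merge (leaf 7 431 560) (node 399 (merge (leaf 4 367 367) (leaf 4 399 495))))) (merge (node 399 (merge (leaf 7 399 432) (node 463 (merge (leaf 4 367 367) (leaf 4 399 495))))) (merge (node 560 (merge (leaf 7 431 463) (node 433 (merge (leaf 6 432 465) (node 432 (merge (leaf 6 400 401) (node 559 (merge (leaf 5 431 527) (leaf 5 463 591))))))))) (node 432 (merge (leaf 7 399 399) (node 433 (merge (leaf 6 400 401) (node 560 (merge (leaf 6 432 465) (node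 559 (merge (leaf 5 431 527) (leaf 5 463 591))))))))))))) (merge (node 560 (merge (node 561 (merge (leaf 4 464 593) (node 432 (merge (leaf 4 432 529) (node 433 (merge (leaf 6 400 401) (leaf 6 432 465))))))) (merge (node 593 (merge (leaf 4 464 561) (node 592 (merge (leaf 4 496 625) (node 591 (merge (leaf 5 463 559) (leaf 5 495 623))))))) (node 465 (merge (leaf 6 432 433) (node 592 (merge (leaf 6 464 497) (node 591 (merge (leaf 5 463 559) (leaf 5 495 623)))))))))) (merge (node 560 (merge (node 561 (merge (leaf 4 464 593) (node 432 (merge (leaf 4 432 529) (node 431 (merge (leaf 7 399 399) (leaf 7 431 463))))))) (merge (node 593 (merge (leaf 4 464 561) (node 592 (merge (leaf 4 496 625) (node 591 (merge (leaf 5 463 559) (leaf 5 495 623))))))) (node 591 (merge (leaf 5 463 559) (node 463 (merge (leaf 7 431 431) (node 592 (merge (leaf 7 463 495) (leaf 5 495 623)))))))))) (merge (node 431 (merge (node 399 (merge (leaf 7 399 432) (node 463 (merge (leaf 4 367 367) (leaf 4 399 495))))) (merge (node 432 (merge (leaf 7 399 399) (node 561 (merge (leaf 4 432 529) (node 433 (merge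 (leaf 6 400 401) (node 560 (merge (leaf 6 432 465) (leaf 4 464 593))))))))) (node 560 (merge (leaf 7 431 463) (node 593 (merge (leaf 4 464 561) (node 465 (merge (leaf 6 432 433) (node 592 (merge (leaf 6 464 497) (leaf 4 496 625)))))))))))) (merge (node 463 (merge (node 560 (merge (leaf 7 431 431) (node 593 (merge (leaf 4 464 561) (node 592 (merge (leaf 4 496 625) (node 591 (merge (leaf 5 463 559) (leaf 5 495 623))))))))) (merge (node 465 (merge (node 433 (merge (leaf 6 432 560) (node 401 (merge (leaf 5 368 369) (leaf 5 400 497))))) (merge (node 560 (merge (leaf 6 432 433) (node 591 (merge (leaf 5 463 559) (node 592 (merge (leaf 7 463 495) (leaf 5 495 623))))))) (node 498 (merge (node 499 (merge (leaf 0 463 466) (leaf 3 463 497))) (merge (node 466 (merge (leaf 0 463 499) (node 435 (merge (leaf 2 431 434) (node 467 (merge (leaf 2 432 436) (leaf 1 463 495))))))) (node 462 (merge (leaf 0 462 497) (node 429 (merge (leaf 3 429 430) (node 461 (merge (leaf 3 428 428) (node 460 (merge (leaf 0 460 495) (node 492 (merge (leaf 1 459 491) (leaf 1 460 493))))))))))))))))) (node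 462 (merge (node 497 (merge (leaf 0 461 461) (node 498 (merge (leaf 0 462 465) (leaf 3 463 499))))) (merge (node 461 (merge (leaf 0 461 497) (node 460 (merge (leaf 0 460 495) (node 428 (merge (leaf 3 427 427) (leaf 3 428 429))))))) (merge (node 465 (merge (node 433 (merge (leaf 2 430 434) (node 401 (merge (leaf 5 368 369) (leaf 5 400 497))))) (node 430 (merge (leaf 3 429 429) (node 466 (merge (leaf 3 430 431) (node 499 (merge (leaf 0 463 498) (node 467 (merge (leaf 1 463 495) (leaf 0 464 500))))))))))) (node 429 (merge (node 430 (merge (leaf 3 429 465) (node 428 (merge (leaf 0 427 427) (leaf 0 428 431))))) (merge (node 461 (merge (leaf 3 428 428) (node 460 (merge (leaf 0 460 495) (node 492 (merge (leaf 1 459 491) (leaf 1 460 493))))))) (node 465 (merge (leaf 3 429 430) (node 434 (merge (leaf 2 430 433) (node 466 (merge (leaf 2 431 435) (node 499 (merge (leaf 0 463 498) (node 467 (merge (leaf 1 463 495) (leaf 0 464 500))))))))))))))))))))) (node 529 (merge (node 432 (merge (leaf 4 432 561) (node 400 (merge (leaf 4 400 497) (node 401 (merge (leaf 6 368 369) (leaf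 6 400 433))))))) (merge (node 432 (merge (leaf 4 432 561) (node 401 (merge (leaf 6 400 433) (node 400 (merge (leaf 6 368 369) (node 527 (merge (leaf 5 399 495) (leaf 5 431 559))))))))) (merge (node 527 (merge (node 432 (merge (leaf 5 431 559) (node 400 (merge (leaf 4 400 497) (node 401 (merge (leaf 6 368 369) (leaf 6 400 433))))))) (merge (node 559 (merge (node 591 (merge (leaf 6 463 495) (leaf 6 495 623))) (merge (node 530 (merge (leaf 1 526 558) (node 499 (merge (leaf 2 495 498) (node 531 (merge (leaf 3 495 495) (leaf 2 496 500))))))) (node 558 (merge (leaf 1 526 530) (node 557 (merge (leaf 1 525 526) (leaf 2 524 556)))))))) (node 526 (merge (node 497 (merge (leaf 2 494 498) (leaf 2 493 525))) (merge (node 557 (merge (leaf 1 525 558) (node 525 (merge (leaf 1 524 556) (node 524 (merge (leaf 2 492 495) (node 492 (merge (leaf 3 491 491) (leaf 3 492 493))))))))) (node 558 (merge (leaf 1 525 557) (node 497 (merge (leaf 2 494 498) (node 432 (merge (leaf 4 400 400) (node 433 (merge (leaf 6 400 401) (node 431 (merge (leaf 7 399 399) (node 463 (merge (leaf 5 430 495)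 (node 462 (merge (leaf 1 430 434) (leaf 0 461 461))))))))))))))))))))) (node 530 (merge (node 531 (merge (leaf 3 495 495) (node 564 (merge (leaf 0 528 563) (node 532 (merge (leaf 3 496 497) (leaf 0 529 565))))))) (merge (node 531 (merge (leaf 3 495 495) (node 563 (merge (leaf 0 528 564) (node 499 (merge (leaf 2 496 500) (node 498 (merge (leaf 2 495 527) (node 466 (merge (leaf 4 434 434) (leaf 7 466 595))))))))))) (merge (node 531 (merge (node 564 (merge (leaf 0 528 563) (node 532 (merge (leaf 3 496 497) (leaf 0 529 565))))) (merge (node 500 (merge (leaf 2 496 499) (node 532 (merge (leaf 3 496 497) (leaf 2 497 501))))) (node 563 (merge (leaf 0 528 564) (node 499 (merge (leaf 2 496 500) (node 498 (merge (leaf 2 495 527) (node 595 (merge (leaf 7 466 466) (leaf 7 498 627)))))))))))) (node 527 (merge (node 559 (merge (leaf 1 526 558) (node 591 (merge (leaf 6 463 495) (leaf 6 495 623))))) (merge (node 498 (merge (leaf 2 495 499) (node 526 (merge (leaf 2 494 497) (node 558 (merge (leaf 1 525 557) (leaf 1 526 559))))))) (merge (node 498 (merge (leaf 2 495 499) (node 526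 (merge (leaf 2 494 497) (node 557 (merge (leaf 1 525 558) (node 525 (merge (leaf 1 524 556) (node 524 (merge (leaf 2 492 495) (node 492 (merge (leaf 3 491 491) (leaf 3 492 493))))))))))))) (node 498 (merge (leaf 2 495 499) (node 497 (merge (leaf 2 494 526) (node 561 (merge (leaf 7 464 593) (node 466 (merge (leaf 5 433 434) (node 495 (merge (leaf 2 463 467) (node 463 (merge (leaf 3 462 462) (node 431 (merge (leaf 4 399 399) (node 430 (merge (leaf 7 398 398) (leaf 3 430 465))))))))))))))))))))))))))))))))))) (merge (node 464 (merge (node 560 (merge (node 433 (merge (leaf 6 432 465) (node 432 (merge (leaf 6 400 401) (node 559 (merge (leaf 5 431 527) (leaf 5 463 591))))))) (merge (node 593 (merge (leaf 4 464 561) (node 465 (merge (leaf 6 432 433) (node 592 (merge (leaf 6 464 497) (leaf 4 496 625))))))) (node 593 (merge (leaf 4 464 561) (node 592 (merge (leaf 4 496 625) (node 591 (merge (leaf 5 463 559) (leaf 5 495 623)))))))))) (merge (node 431 (merge (node 399 (merge (leaf 7 399 432) (node 463 (merge (leaf 4 367 367) (leaf 4 399 495))))) (merge (node 560 (merge (leaf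 7 431 463) (node 465 (merge (leaf 6 432 433) (node 592 (merge (leaf 6 464 497) (node 591 (merge (leaf 5 463 559) (leaf 5 495 623))))))))) (node 432 (merge (leaf 7 399 399) (node 559 (merge (leaf 5 431 527) (node 560 (merge (leaf 5 463 591) (node 593 (merge (leaf 4 464 561) (node 592 (merge (leaf 4 496 625) (node 465 (merge (leaf 6 432 433) (leaf 6 464 497)))))))))))))))) (merge (node 431 (merge (node 399 (merge (leaf 7 399 432) (node 463 (merge (leaf 4 367 367) (leaf 4 399 495))))) (merge (node 432 (merge (leaf 7 399 399) (node 433 (merge (leaf 6 400 401) (node 465 (merge (leaf 6 432 560) (node 466 (merge (leaf 0 430 430) (leaf 3 431 467))))))))) (node 560 (merge (leaf 7 431 463) (node 593 (merge (leaf 4 464 561) (node 465 (merge (leaf 6 432 433) (node 592 (merge (leaf 6 464 497) (leaf 4 496 625)))))))))))) (merge (node 431 (merge (node 463 (merge (leaf 7 431 560) (node 399 (merge (leaf 4 367 367) (leaf 4 399 495))))) (merge (node 432 (merge (leaf 7 399 399) (node 559 (merge (leaf 5 431 527) (node 560 (merge (leaf 7 431 463) (leaf 5 463 591))))))) (merge (node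 432 (merge (leaf 7 399 399) (node 401 (merge (leaf 6 400 433) (node 400 (merge (leaf 6 368 369) (node 527 (merge (leaf 5 399 495) (leaf 5 431 559))))))))) (node 560 (merge (leaf 7 431 463) (node 593 (merge (leaf 4 464 561) (node 592 (merge (leaf 4 496 625) (node 559 (merge (leaf 5 463 591) (node 527 (merge (leaf 5 431 432) (node 624 (merge (leaf 7 495 495) (leaf 7 527 656))))))))))))))))) (merge (node 432 (merge (node 527 (merge (leaf 5 431 559) (node 400 (merge (leaf 5 399 495) (node 369 (merge (leaf 6 368 401) (node 368 (merge (leaf 6 336 337) (node 367 (merge (leaf 7 335 335) (leaf 7 367 399))))))))))) (merge (node 400 (merge (node 399 (merge (leaf 7 367 367) (leaf 7 399 431))) (merge (node 495 (merge (leaf 5 399 527) (node 463 (merge (leaf 5 367 368) (node 560 (merge (leaf 7 431 431) (leaf 7 463 592))))))) (node 369 (merge (leaf 6 368 401) (node 368 (merge (leaf 6 336 337) (node 495 (merge (leaf 5 367 463) (leaf 5 399 527)))))))))) (merge (node 559 (merge (leaf 5 431 527) (node 560 (merge (leaf 5 463 591) (node 593 (merge (leaf 4 464 561) (node 592 (merge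 (leaf 4 496 625) (node 463 (merge (leaf 7 431 431) (leaf 7 463 495))))))))))) (node 431 (merge (leaf 7 399 399) (node 560 (merge (leaf 7 431 463) (node 593 (merge (leaf 4 464 561) (node 592 (merge (leaf 4 496 625) (node 591 (merge (leaf 5 463 559) (leaf 5 495 623))))))))))))))) (merge (node 463 (merge (node 560 (merge (leaf 7 431 431) (node 593 (merge (leaf 4 464 561) (node 592 (merge (leaf 4 496 625) (node 591 (merge (leaf 5 463 559) (leaf 5 495 623))))))))) (merge (node 465 (merge (node 433 (merge (leaf 6 432 560) (node 401 (merge (leaf 5 368 369) (leaf 5 400 497))))) (merge (node 560 (merge (leaf 6 432 433) (node 591 (merge (leaf 5 463 559) (node 592 (merge (leaf 7 463 495) (leaf 5 495 623))))))) (node 498 (merge (node 499 (merge (leaf 0 463 466) (leaf 3 463 497))) (merge (node 466 (merge (leaf 0 463 499) (node 435 (merge (leaf 2 431 434) (node 467 (merge (leaf 2 432 436) (leaf 1 463 495))))))) (node 462 (merge (leaf 0 462 497) (node 429 (merge (leaf 3 429 430) (node 461 (merge (leaf 3 428 428) (node 460 (merge (leaf 0 460 495) (node 492 (merge (leaf 1 459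 491) (leaf 1 460 493))))))))))))))))) (node 462 (merge (node 497 (merge (leaf 0 461 461) (node 498 (merge (leaf 0 462 465) (leaf 3 463 499))))) (merge (node 461 (merge (leaf 0 461 497) (node 460 (merge (leaf 0 460 495) (node 428 (merge (leaf 3 427 427) (leaf 3 428 429))))))) (merge (node 465 (merge (node 433 (merge (leaf 2 430 434) (node 401 (merge (leaf 5 368 369) (leaf 5 400 497))))) (node 430 (merge (leaf 3 429 429) (node 466 (merge (leaf 3 430 431) (node 499 (merge (leaf 0 463 498) (node 467 (merge (leaf 1 463 495) (leaf 0 464 500))))))))))) (node 429 (merge (node 430 (merge (leaf 3 429 465) (node 428 (merge (leaf 0 427 427) (leaf 0 428 431))))) (merge (node 461 (merge (leaf 3 428 428) (node 460 (merge (leaf 0 460 495) (node 492 (merge (leaf 1 459 491) (leaf 1 460 493))))))) (node 465 (merge (leaf 3 429 430) (node 434 (merge (leaf 2 430 433) (node 466 (merge (leaf 2 431 435) (node 499 (merge (leaf 0 463 498) (node 467 (merge (leaf 1 463 495) (leaf 0 464 500))))))))))))))))))))) (hyp 11)))))))) (merge (hyp 12) (merge (hyp 13) (merge (hyp 14) (merge (hyp 15)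 (merge (node 464 (merge (node 560 (merge (node 561 (merge (leaf 4 464 593) (node 432 (merge (leaf 4 432 529) (node 433 (merge (leaf 6 400 401) (leaf 6 432 465))))))) (merge (node 593 (merge (leaf 4 464 561) (node 592 (merge (leaf 4 496 625) (node 591 (merge (leaf 5 463 559) (leaf 5 495 623))))))) (node 465 (merge (leaf 6 432 433) (node 592 (merge (leaf 6 464 497) (node 591 (merge (leaf 5 463 559) (leaf 5 495 623)))))))))) (merge (node 560 (merge (node 561 (merge (leaf 4 464 593) (node 432 (merge (leaf 4 432 529) (node 431 (merge (leaf 7 399 399) (leaf 7 431 463))))))) (merge (node 593 (merge (leaf 4 464 561) (node 592 (merge (leaf 4 496 625) (node 591 (merge (leaf 5 463 559) (leaf 5 495 623))))))) (node 591 (merge (leaf 5 463 559) (node 463 (merge (leaf 7 431 431) (node 592 (merge (leaf 7 463 495) (leaf 5 495 623)))))))))) (merge (node 431 (merge (node 399 (merge (leaf 7 399 432) (node 463 (merge (leaf 4 367 367) (leaf 4 399 495))))) (merge (node 432 (merge (leaf 7 399 399) (node 433 (merge (leaf 6 400 401) (node 465 (merge (leaf 6 432 560) (node 466 (merge (leaf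 0 430 430) (leaf 3 431 467))))))))) (node 560 (merge (leaf 7 431 463) (node 465 (merge (leaf 6 432 433) (node 592 (merge (leaf 6 464 497) (node 591 (merge (leaf 5 463 559) (leaf 5 495 623)))))))))))) (merge (node 465 (merge (node 560 (merge (leaf 6 432 433) (node 593 (merge (leaf 4 464 561) (node 592 (merge (leaf 4 496 625) (node 591 (merge (leaf 5 463 559) (leaf 5 495 623))))))))) (merge (node 463 (merge (node 431 (merge (leaf 7 431 560) (node 399 (merge (leaf 4 367 367) (leaf 4 399 495))))) (merge (node 560 (merge (leaf 7 431 431) (node 497 (merge (leaf 6 464 592) (node 498 (merge (leaf 0 462 462) (leaf 3 463 499))))))) (merge (node 498 (merge (node 497 (merge (leaf 0 462 462) (leaf 3 463 499))) (merge (node 466 (merge (leaf 0 463 499) (node 495 (merge (leaf 1 463 467) (leaf 1 462 494))))) (node 462 (merge (leaf 0 462 497) (node 430 (merge (leaf 3 429 429) (node 466 (merge (leaf 3 430 431) (node 495 (merge (leaf 1 463 467) (leaf 1 462 494)))))))))))) (node 494 (merge (node 495 (merge (leaf 1 462 466) (leaf 2 461 493))) (merge (node 462 (merge (leaf 1 461 493)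 (node 497 (merge (leaf 0 461 461) (leaf 0 462 498))))) (node 466 (merge (leaf 1 462 495) (node 498 (merge (leaf 0 463 499) (node 497 (merge (leaf 0 462 462) (node 434 (merge (leaf 2 431 435) (node 529 (merge (leaf 5 401 402) (leaf 6 433 561)))))))))))))))))) (node 463 (merge (node 462 (merge (node 433 (merge (leaf 2 430 434) (node 401 (merge (leaf 5 368 369) (leaf 5 400 497))))) (node 493 (merge (leaf 1 461 494) (node 461 (merge (leaf 1 460 492) (node 429 (merge (leaf 3 428 428) (leaf 3 429 430))))))))) (merge (node 466 (merge (node 431 (merge (leaf 3 430 430) (node 399 (merge (leaf 4 367 367) (leaf 4 399 495))))) (node 499 (merge (leaf 0 463 498) (node 467 (merge (leaf 0 464 500) (node 435 (merge (leaf 2 431 434) (leaf 2 432 436))))))))) (merge (node 466 (merge (node 499 (merge (leaf 0 463 498) (node 467 (merge (leaf 1 463 495) (leaf 0 464 500))))) (merge (node 499 (merge (leaf 0 463 498) (node 467 (merge (leaf 0 464 500) (node 435 (merge (leaf 2 431 434) (leaf 2 432 436))))))) (node 434 (merge (leaf 2 431 435) (node 462 (merge (leaf 2 430 433) (node 494 (merge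 (leaf 1 461 493) (leaf 1 462 495)))))))))) (node 498 (merge (node 497 (merge (leaf 0 462 462) (leaf 3 463 499))) (merge (node 466 (merge (leaf 0 463 499) (node 431 (merge (leaf 3 430 430) (node 399 (merge (leaf 4 367 367) (leaf 4 399 495))))))) (node 462 (merge (leaf 0 462 497) (node 494 (merge (leaf 1 461 493) (node 466 (merge (leaf 1 462 495) (node 430 (merge (leaf 3 429 429) (leaf 3 430 431))))))))))))))))))) (hyp 16)))))) (merge (hyp 17) (merge (hyp 18) (hyp 19))))))))))))))))))))))) nJ_31 cJ_31 16 (by decide +kernel)

end Crest.Agent.H26Snaky
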