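import Crest.Agent.H26SnakyTree

/-! certificate data for S0047, part P 0 (computer generated) -/

set_option autoImplicit false
set_option maxRecDepth 100000

namespace Crest.Agent.H26Snaky

open T

def nP_0 : ℕ := 0x100000001000000000000000000000000000000000000000000000000000000000000000000000000000000000000000000000000000000000000000000000000000000000000
def cP_0 : ℕ := 0x280000003800000038000001ff800001ff8000007f000000ef8000000c0000003c000000380000003800000008000000000000000000000000000000000000000000000000000000000000000000000000000000000000000000000000000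
theorem lP_0 : S nP_0 cP_0 11 := S_of_chk [] trivial (node 592 (merge (node 496 (merge (node 593 (merge (leaf 4 496 625) (node 465 (merge (leaf 6 464 497) (node 464 (merge (leaf 6 432 433) (leaf 4 464 561))))))) (merge (node 625 (merge (leaf 4 496 593) (node 624 (merge (leaf 4 528 657) (node 495 (merge (leaf 7 463 463) (leaf 7 495 527))))))) (node 465 (merge (leaf 6 464 497) (node 464 (merge (leaf 6 432 433) (node 463 (merge (leaf 7 431 431) (leaf 7 463 495)))))))))) (merge (node 496 (merge (node 465 (merge (leaf 6 464 497) (node 464 (merge (leaf 6 432 433) (node 591 (merge (leaf 5 463 559) (leaf 5 495 623))))))) (merge (node 623 (merge (leaf 5 495 591) (node 624 (merge (leaf 5 527 655) (node 495 (merge (leaf 7 463 463) (leaf 7 495 527))))))) (node 465 (merge (leaf 6 464 497) (node 464 (merge (leaf 6 432 433) (node 463 (merge (leaf 7 431 431) (leaf 7 463 495)))))))))) (merge (node 624 (merge (node 657 (merge (leaf 4 528 625) (node 656 (merge (leaf 4 560 689) (node 655 (merge (leaf 5 527 623) (leaf 5 559 687))))))) (merge (node 625 (merge (leaf 4 528 657) (node 623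 (merge (leaf 5 527 655) (node 591 (merge (leaf 5 495 496) (node 626 (merge (leaf 3 590 590) (leaf 3 591 627))))))))) (merge (node 657 (merge (leaf 4 528 625) (node 656 (merge (leaf 4 560 689) (node 559 (merge (leaf 7 527 527) (node 591 (merge (leaf 7 559 688) (node 496 (merge (leaf 5 463 464) (leaf 5 495 623))))))))))) (merge (node 657 (merge (leaf 4 528 625) (node 656 (merge (leaf 4 560 689) (node 559 (merge (leaf 7 527 527) (node 688 (merge (leaf 7 559 591) (node 687 (merge (leaf 5 559 655) (leaf 5 591 719))))))))))) (node 559 (merge (node 656 (merge (leaf 7 527 527) (node 655 (merge (leaf 5 527 623) (leaf 5 559 687))))) (merge (node 623 (merge (leaf 5 527 655) (node 496 (merge (leaf 5 495 591) (node 465 (merge (leaf 6 464 497) (node 464 (merge (leaf 6 432 433) (node 431 (merge (leaf 7 431 463) (node 432 (merge (leaf 7 399 399) (leaf 5 431 527))))))))))))) (merge (node 656 (merge (node 655 (merge (leaf 5 527 623) (leaf 5 559 687))) (merge (node 591 (merge (leaf 7 559 688) (node 623 (merge (leaf 5 495 496) (leaf 6 527 655))))) (node 688 (merge (leaf 7 559 591) (node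 721 (merge (leaf 4 592 689) (node 720 (merge (leaf 4 624 753) (node 719 (merge (leaf 5 591 687) (leaf 5 623 751)))))))))))) (node 656 (merge (leaf 7 527 527) (node 688 (merge (leaf 7 559 591) (node 721 (merge (leaf 4 592 689) (node 720 (merge (leaf 4 624 753) (node 719 (merge (leaf 5 591 687) (leaf 5 623 751)))))))))))))))))))) (merge (node 591 (merge (node 496 (merge (leaf 5 495 623) (node 464 (merge (leaf 5 463 559) (node 463 (merge (leaf 7 431 431) (leaf 7 463 495))))))) (merge (node 496 (merge (leaf 5 495 623) (node 593 (merge (leaf 4 496 625) (node 463 (merge (leaf 7 463 495) (node 464 (merge (leaf 7 431 431) (leaf 4 464 561))))))))) (merge (node 593 (merge (node 625 (merge (leaf 4 496 496) (node 657 (merge (leaf 7 528 561) (leaf 7 560 689))))) (merge (node 496 (merge (leaf 4 496 625) (node 464 (merge (leaf 5 463 559) (node 463 (merge (leaf 7 431 431) (leaf 7 463 495))))))) (node 590 (merge (node 561 (merge (leaf 2 558 562) (leaf 2 557 589))) (merge (node 621 (merge (leaf 1 589 622) (node 589 (merge (leaf 1 588 620) (node 557 (merge (leaf 3 556 556) (leaf 3 557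 558))))))) (node 558 (merge (leaf 3 557 557) (node 594 (merge (leaf 3 558 559) (node 562 (merge (leaf 2 558 561) (leaf 2 559 563))))))))))))) (node 590 (merge (node 561 (merge (leaf 2 557 589) (node 562 (merge (leaf 1 559 563) (leaf 2 558 593))))) (merge (node 589 (merge (leaf 2 557 561) (node 620 (merge (leaf 1 588 621) (node 588 (merge (leaf 2 556 559) (leaf 1 587 619))))))) (merge (node 593 (merge (node 625 (merge (leaf 0 590 626) (node 561 (merge (leaf 2 558 562) (leaf 7 528 657))))) (merge (node 558 (merge (leaf 3 557 557) (node 594 (merge (leaf 3 558 559) (node 562 (merge (leaf 2 558 561) (leaf 2 559 563))))))) (node 626 (merge (leaf 0 590 625) (node 594 (merge (leaf 0 591 627) (node 622 (merge (leaf 1 589 621) (leaf 1 590 623)))))))))) (node 557 (merge (node 556 (merge (leaf 3 556 589) (node 558 (merge (leaf 0 555 555) (leaf 3 557 593))))) (merge (node 589 (merge (leaf 3 556 556) (node 620 (merge (leaf 1 588 621) (node 588 (merge (leaf 2 556 559) (leaf 1 587 619))))))) (node 593 (merge (leaf 3 557 558) (node 622 (merge (leaf 1 589 621) (node 623 (merge (leaf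 1 590 594) (node 655 (merge (leaf 6 527 559) (leaf 6 559 687)))))))))))))))))))) (node 623 (merge (node 655 (merge (leaf 5 527 624) (node 591 (merge (leaf 6 527 559) (leaf 6 559 687))))) (merge (node 624 (merge (leaf 5 527 655) (node 527 (merge (leaf 7 495 495) (node 656 (merge (leaf 7 527 559) (node 657 (merge (leaf 4 528 625) (leaf 4 560 689))))))))) (merge (node 624 (merge (leaf 5 527 655) (node 622 (merge (node 657 (merge (leaf 4 528 625) (node 656 (merge (leaf 0 621 621) (leaf 4 560 689))))) (merge (node 621 (merge (leaf 2 589 593) (node 652 (merge (leaf 1 620 653) (node 620 (merge (leaf 2 588 591) (leaf 1 619 651))))))) (node 625 (merge (leaf 4 528 657) (node 593 (merge (leaf 2 590 594) (node 590 (merge (leaf 3 589 589) (node 626 (merge (leaf 0 590 591) (node 659 (merge (leaf 0 623 658) (node 627 (merge (leaf 3 592 628) (leaf 0 624 660)))))))))))))))))) (merge (node 624 (merge (node 527 (merge (leaf 7 495 495) (node 656 (merge (leaf 7 527 559) (node 657 (merge (leaf 4 528 625) (leaf 4 560 689))))))) (merge (node 622 (merge (node 621 (merge (leaf 2 589 593) (node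 652 (merge (leaf 1 620 653) (node 620 (merge (leaf 2 588 591) (leaf 1 619 651))))))) (merge (node 625 (merge (leaf 4 528 657) (node 653 (merge (leaf 1 621 654) (node 621 (merge (leaf 1 620 652) (node 589 (merge (leaf 3 588 588) (leaf 3 589 590))))))))) (node 625 (merge (leaf 4 528 657) (node 593 (merge (leaf 2 590 594) (node 590 (merge (leaf 3 589 589) (node 626 (merge (leaf 0 590 591) (node 659 (merge (leaf 0 623 658) (node 627 (merge (leaf 3 592 628) (leaf 0 624 660)))))))))))))))) (merge (node 593 (merge (node 622 (merge (leaf 2 589 621) (node 594 (merge (leaf 1 590 591) (leaf 2 590 625))))) (merge (node 527 (merge (leaf 7 495 495) (node 656 (merge (leaf 7 527 559) (node 688 (merge (leaf 6 560 561) (node 720 (merge (leaf 6 592 625) (node 721 (merge (leaf 4 592 689) (leaf 4 624 753))))))))))) (node 527 (merge (leaf 7 495 495) (node 559 (merge (leaf 7 527 656) (node 622 (merge (leaf 2 589 621) (node 591 (merge (leaf 1 590 594) (leaf 5 526 654)))))))))))) (node 527 (merge (leaf 7 495 495) (node 656 (merge (leaf 7 527 559) (node 689 (merge (leaf 4 560 657) (node 688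 (merge (leaf 4 592 721) (node 720 (merge (leaf 7 591 591) (node 719 (merge (leaf 5 591 687) (leaf 5 623 751))))))))))))))))) (node 591 (merge (node 655 (merge (leaf 6 527 559) (leaf 6 559 687))) (merge (node 590 (merge (node 561 (merge (leaf 2 557 589) (node 562 (merge (leaf 1 558 559) (leaf 1 559 563))))) (merge (node 589 (merge (leaf 2 557 561) (node 620 (merge (leaf 1 588 621) (node 588 (merge (leaf 1 587 619) (node 556 (merge (leaf 3 555 555) (leaf 3 556 557))))))))) (merge (node 593 (merge (node 558 (merge (leaf 3 557 557) (node 594 (merge (leaf 3 558 559) (node 626 (merge (leaf 0 590 625) (leaf 0 591 627))))))) (merge (node 621 (merge (leaf 1 589 622) (node 589 (merge (leaf 1 588 620) (node 557 (merge (leaf 3 556 556) (leaf 3 557 558))))))) (node 626 (merge (leaf 0 590 625) (node 594 (merge (leaf 0 591 627) (node 622 (merge (leaf 1 589 621) (leaf 1 590 623)))))))))) (node 593 (merge (node 625 (merge (leaf 0 590 626) (node 561 (merge (leaf 2 558 562) (leaf 7 528 657))))) (merge (node 558 (merge (leaf 3 557 557) (node 594 (merge (leaf 3 558 559) (node 562 (merge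 (leaf 2 558 561) (leaf 2 559 563))))))) (node 626 (merge (leaf 0 590 625) (node 594 (merge (leaf 0 591 627) (node 622 (merge (leaf 1 589 621) (leaf 1 590 623)))))))))))))) (node 590 (merge (node 589 (merge (leaf 2 557 561) (node 620 (merge (leaf 1 588 621) (node 588 (merge (leaf 1 587 619) (node 556 (merge (leaf 3 555 555) (leaf 3 556 557))))))))) (merge (node 593 (merge (node 622 (merge (leaf 1 590 594) (node 621 (merge (leaf 1 589 590) (leaf 2 588 620))))) (node 625 (merge (leaf 0 590 626) (node 657 (merge (leaf 7 528 561) (leaf 7 560 689))))))) (node 558 (merge (node 526 (merge (leaf 4 494 494) (node 655 (merge (leaf 4 526 622) (leaf 7 558 687))))) (node 557 (merge (leaf 3 557 593) (node 556 (merge (leaf 0 555 555) (leaf 3 556 589))))))))))))))))))))))) nP_0 cP_0 11 (by decide +kernel)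
def nP_1 : ℕ := 0x180000001800000000000000000000000000000000000000000000000000000000000000000000000000000000000000000000000000000000000000000000000000000000000
def cP_1 : ℕ := 0x60000000600000007000000e7000000070000000f000000020000000200000000000000000000000000000000000000000000000000000000000000000000000000000000000000000000000000000000000
theorem lP_1 : S nP_1 cP_1 8 := S_of_chk [] trivial (node 558 (merge (node 557 (merge (leaf 2 524 556) (node 589 (merge (leaf 1 556 588) (node 561 (merge (leaf 1 557 590) (node 562 (merge (leaf 3 526 526) (leaf 3 527 563))))))))) (merge (node 557 (merge (leaf 2 524 556) (node 525 (merge (leaf 3 524 524) (node 526 (merge (leaf 0 525 561) (node 493 (merge (leaf 3 492 492) (node 590 (merge (leaf 4 461 461) (leaf 7 493 622))))))))))) (merge (node 557 (merge (leaf 2 524 556) (node 589 (merge (leaf 1 556 588) (node 590 (merge (leaf 1 557 561) (node 622 (merge (leaf 6 526 654) (node 525 (merge (leaf 4 493 493) (leaf 3 524 524))))))))))) (merge (node 526 (merge (node 561 (merge (leaf 0 525 525) (leaf 3 526 562))) (merge (node 561 (merge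 (leaf 3 526 562) (node 590 (merge (leaf 1 557 589) (node 622 (merge (leaf 6 494 495) (leaf 6 526 654))))))) (node 525 (merge (leaf 0 524 524) (node 493 (merge (leaf 3 492 492) (node 590 (merge (leaf 7 493 622) (node 461 (merge (leaf 4 429 429) (leaf 7 461 494)))))))))))) (merge (node 526 (merge (node 525 (merge (leaf 0 524 524) (node 493 (merge (leaf 3 492 492) (node 590 (merge (leaf 7 493 622) (node 461 (merge (leaf 4 429 429) (leaf 4 461 557))))))))) (merge (node 525 (merge (leaf 0 524 524) (node 557 (merge (leaf 1 524 556) (node 589 (merge (leaf 1 556 588) (node 621 (merge (leaf 6 493 494) (leaf 6 525 653))))))))) (merge (node 525 (merge (leaf 0 524 524) (node 493 (merge (leaf 3 492 492) (node 590 (merge (leaf 7 493 622) (node 461 (merge (leaf 4 429 429) (leaf 7 461 494))))))))) (node 557 (merge (leaf 2 524 556) (node 589 (merge (leaf 1 556 588) (node 621 (merge (leaf 6 525 653) (node 590 (merge (leaf 5 493 494) (node 622 (merge (leaf 6 494 495) (leaf 6 526 654))))))))))))))) (node 557 (merge (leaf 2 524 556) (node 589 (merge (leaf 1 556 588) (node 525 (merge (leaf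 3 524 524) (node 526 (merge (leaf 0 525 561) (node 621 (merge (leaf 6 493 494) (leaf 6 525 653))))))))))))))))) nP_1 cP_1 8 (by decide +kernel)
def nP_2 : ℕ := 0x100000001000000000000000000000000000000000000000000000000000000000000000000000000000000000000000000000000000000000000000000000000000000000000
def cP_2 : ℕ := 0x8000000380000003c000001ff000001ff000001ff800003ef000003cf000001ff000003b20000003200000000000000000000000000000000000000000000000000000000000000000000000000000000000000000000000000000000000
theorem lP_2 : S nP_2 cP_2 17 := S_of_chk [(nP_1, cP_1, 8)] ⟨lP_1, trivial⟩ (node 592 (merge (node 624 (merge (node 625 (merge (leaf 4 528 657) (node 496 (merge (leaf 4 496 593) (node 623 (merge (leaf 5 495 591) (leaf 5 527 655))))))) (merge (node 527 (merge (leaf 7 495 495) (node 656 (merge (leaf 7 527 559) (node 657 (merge (leaf 4 528 625) (leaf 4 560 689))))))) (node 527 (merge (leaf 7 495 495) (node 656 (merge (leaf 7 527 559) (node 655 (merge (leaf 5 527 623) (leaf 5 559 687)))))))))) (merge (node 496 (merge (node 593 (merge (leaf 4 496 625) (node 591 (merge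 (leaf 5 495 623) (node 464 (merge (leaf 5 463 559) (leaf 4 464 561))))))) (merge (node 465 (merge (leaf 6 464 497) (node 464 (merge (leaf 6 432 433) (node 591 (merge (leaf 5 463 559) (leaf 5 495 623))))))) (merge (node 593 (merge (leaf 4 496 625) (node 465 (merge (leaf 6 464 497) (node 464 (merge (leaf 6 432 433) (leaf 4 464 561))))))) (node 591 (merge (leaf 5 495 623) (node 562 (merge (node 561 (merge (leaf 1 559 563) (node 590 (merge (leaf 1 558 559) (leaf 2 557 589))))) (merge (node 593 (merge (leaf 4 496 625) (node 563 (merge (leaf 1 559 561) (leaf 2 559 594))))) (merge (node 593 (merge (leaf 4 496 625) (node 594 (merge (leaf 2 559 563) (node 627 (merge (leaf 0 591 626) (node 595 (merge (leaf 3 559 559) (leaf 0 592 628))))))))) (node 497 (merge (leaf 6 464 465) (node 593 (merge (leaf 4 496 625) (node 590 (merge (leaf 2 558 561) (node 558 (merge (leaf 3 557 557) (node 594 (merge (leaf 3 558 559) (node 627 (merge (leaf 0 591 626) (node 595 (merge (leaf 0 592 628) (node 498 (merge (leaf 4 498 530) (node 499 (merge (leaf 1 495 527) (node 532 (merge (leaf 0 496 531)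 (node 500 (merge (leaf 0 497 533) (node 468 (merge (leaf 2 464 467) (leaf 2 465 469))))))))))))))))))))))))))))))))))) (merge (node 527 (merge (node 624 (merge (leaf 7 495 495) (node 656 (merge (leaf 7 527 559) (node 655 (merge (leaf 5 527 623) (leaf 5 559 687))))))) (merge (node 624 (merge (leaf 7 495 495) (node 657 (merge (leaf 4 528 625) (node 656 (merge (leaf 4 560 689) (node 655 (merge (leaf 5 527 623) (leaf 5 559 687))))))))) (merge (node 624 (merge (node 656 (merge (leaf 7 527 559) (node 655 (merge (leaf 5 527 623) (leaf 5 559 687))))) (merge (node 656 (merge (leaf 7 527 559) (node 657 (merge (leaf 4 528 625) (leaf 4 560 689))))) (node 625 (merge (leaf 4 528 657) (node 593 (merge (leaf 4 496 496) (node 623 (merge (leaf 5 527 655) (node 622 (merge (leaf 2 590 594) (leaf 2 589 621)))))))))))) (node 496 (merge (node 497 (merge (leaf 6 464 465) (node 526 (merge (leaf 2 493 525) (node 498 (merge (leaf 1 494 495) (leaf 1 495 499))))))) (merge (node 593 (merge (leaf 4 496 625) (node 465 (merge (leaf 6 464 497) (node 464 (merge (leaf 6 432 433) (leaf 4 464 561)))))))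 (node 593 (merge (leaf 4 496 625) (node 561 (merge (leaf 4 464 464) (node 526 (merge (leaf 0 525 525) (node 562 (merge (leaf 3 526 559) (leaf 3 527 563)))))))))))))))) (merge (node 624 (merge (node 527 (merge (leaf 7 495 495) (node 656 (merge (leaf 7 527 559) (node 657 (merge (leaf 4 528 625) (leaf 4 560 689))))))) (merge (node 527 (merge (leaf 7 495 495) (node 656 (merge (leaf 7 527 559) (node 655 (merge (leaf 5 527 623) (leaf 5 559 687))))))) (node 625 (merge (leaf 4 528 657) (node 623 (merge (leaf 5 527 655) (node 622 (merge (node 653 (merge (leaf 1 621 654) (node 621 (merge (leaf 1 620 652) (node 589 (merge (leaf 3 588 588) (leaf 3 589 590))))))) (merge (node 590 (merge (leaf 3 589 589) (node 626 (merge (leaf 3 590 591) (node 659 (merge (leaf 0 623 658) (node 627 (merge (leaf 0 624 660) (node 595 (merge (leaf 2 591 594) (leaf 2 592 596))))))))))) (merge (node 653 (merge (leaf 1 621 654) (node 621 (merge (leaf 1 620 652) (node 591 (merge (leaf 2 588 620) (node 626 (merge (leaf 3 590 590) (leaf 3 591 627))))))))) (node 653 (merge (leaf 1 621 654) (node 621 (merge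 (leaf 1 620 652) (node 620 (merge (leaf 2 588 591) (node 588 (merge (leaf 3 587 587) (leaf 3 588 589)))))))))))))))))))) (merge (node 593 (merge (node 625 (merge (leaf 4 496 496) (node 657 (merge (leaf 4 528 624) (leaf 7 560 689))))) (merge (node 496 (merge (leaf 4 496 625) (node 465 (merge (leaf 6 464 497) (node 464 (merge (leaf 6 432 433) (leaf 4 464 561))))))) (merge (node 559 (merge (node 594 (merge (leaf 3 559 595) (node 558 (merge (leaf 0 557 557) (leaf 3 558 591))))) (merge (node 594 (merge (leaf 3 559 595) (node 558 (merge (leaf 0 557 557) (leaf 0 558 561))))) (merge (node 527 (merge (node 624 (merge (leaf 7 495 495) (leaf 7 527 656))) (node 526 (merge (node 561 (merge (leaf 0 525 525) (node 562 (merge (leaf 3 526 559) (leaf 3 527 563))))) (merge (node 525 (merge (leaf 0 524 524) (node 496 (merge (leaf 2 493 497) (node 464 (merge (leaf 5 431 432) (leaf 5 463 591))))))) (node 558 (merge (leaf 0 557 557) (node 561 (merge (leaf 3 526 562) (node 590 (merge (leaf 1 557 589) (node 622 (merge (leaf 6 526 654) (node 621 (merge (leaf 1 589 591) (leaf 5 525 653))))))))))))))))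 (node 527 (merge (node 624 (merge (leaf 7 495 495) (leaf 7 527 656))) (node 594 (merge (leaf 3 559 595) (node 496 (merge (node 464 (merge (leaf 5 431 432) (leaf 5 463 591))) (merge (node 465 (merge (leaf 6 464 497) (node 464 (merge (leaf 6 432 433) (leaf 4 464 561))))) (node 497 (merge (leaf 6 464 465) (node 499 (merge (leaf 1 495 498) (node 526 (merge (leaf 2 493 525) (node 562 (merge (leaf 3 526 561) (node 563 (merge (leaf 2 559 591) (node 531 (merge (leaf 5 466 467) (node 626 (merge (leaf 6 498 530) (leaf 6 530 658)))))))))))))))))))))))))) (node 625 (merge (node 657 (merge (leaf 4 528 624) (leaf 7 560 689))) (node 591 (merge (node 626 (merge (leaf 0 590 590) (node 627 (merge (leaf 0 591 594) (leaf 3 592 628))))) (merge (node 590 (merge (leaf 0 590 626) (node 561 (merge (leaf 2 558 562) (leaf 2 557 589))))) (merge (node 594 (merge (node 559 (merge (leaf 3 558 558) (leaf 3 559 595))) (merge (node 627 (merge (leaf 0 591 626) (node 595 (merge (leaf 0 592 628) (node 563 (merge (leaf 2 559 562) (leaf 2 560 564))))))) (node 626 (merge (leaf 0 591 627) (node 562 (merge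 (leaf 2 559 563) (node 559 (merge (leaf 3 558 558) (node 530 (merge (leaf 5 497 498) (node 531 (merge (leaf 6 498 499) (leaf 2 527 561)))))))))))))) (node 561 (merge (node 590 (merge (leaf 2 558 562) (leaf 2 557 589))) (merge (node 594 (merge (node 595 (merge (leaf 3 559 559) (leaf 3 560 596))) (merge (node 595 (merge (leaf 3 560 596) (node 563 (merge (leaf 2 560 564) (node 562 (merge (leaf 3 527 527) (leaf 1 559 591))))))) (node 562 (merge (node 563 (merge (leaf 3 527 527) (leaf 1 559 591))) (node 559 (merge (leaf 0 558 558) (node 530 (merge (leaf 5 497 498) (leaf 2 527 531)))))))))) (node 590 (merge (leaf 2 557 589) (node 622 (merge (leaf 1 589 621) (node 558 (merge (leaf 3 557 557) (node 559 (merge (leaf 0 558 594) (node 654 (merge (leaf 6 526 527) (leaf 6 558 686)))))))))))))))))))))))) (merge (node 593 (merge (node 625 (merge (leaf 4 496 496) (node 657 (merge (leaf 4 528 624) (leaf 7 560 689))))) (merge (node 496 (merge (leaf 4 496 625) (node 465 (merge (leaf 6 464 497) (node 464 (merge (leaf 6 432 433) (leaf 4 464 561))))))) (merge (node 624 (merge (node 623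 (merge (leaf 5 527 655) (node 594 (merge (leaf 1 591 595) (node 622 (merge (leaf 1 590 591) (leaf 2 589 621))))))) (merge (node 657 (merge (leaf 4 528 625) (node 656 (merge (leaf 4 560 689) (node 688 (merge (leaf 6 560 561) (node 687 (merge (leaf 5 559 655) (leaf 5 591 719))))))))) (node 623 (merge (node 594 (merge (leaf 1 591 595) (node 622 (merge (leaf 1 590 591) (leaf 2 589 621))))) (merge (node 625 (merge (leaf 4 528 657) (node 622 (merge (leaf 2 590 594) (leaf 2 589 621))))) (merge (node 657 (merge (leaf 4 528 625) (node 656 (merge (leaf 4 560 689) (node 688 (merge (leaf 6 560 561) (node 720 (merge (leaf 7 591 591) (node 719 (merge (leaf 5 591 687) (leaf 5 623 751))))))))))) (node 657 (merge (leaf 4 528 625) (node 656 (merge (leaf 4 560 689) (node 688 (merge (leaf 6 560 561) (node 720 (merge (leaf 7 591 591) (node 719 (merge (leaf 5 591 687) (leaf 5 623 751)))))))))))))))))) (node 591 (merge (node 623 (merge (leaf 5 495 496) (node 655 (merge (leaf 5 527 624) (leaf 6 559 687))))) (merge (node 562 (merge (node 561 (merge (leaf 1 559 563) (leaf 2 558 590))) (merge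 (node 590 (merge (leaf 2 558 561) (node 622 (merge (leaf 1 589 621) (node 623 (merge (leaf 1 590 594) (node 558 (merge (leaf 3 557 557) (node 655 (merge (leaf 4 526 526) (leaf 5 527 624))))))))))) (node 594 (merge (leaf 2 559 563) (node 627 (merge (leaf 0 591 626) (node 595 (merge (leaf 0 592 628) (node 623 (merge (leaf 1 590 622) (leaf 1 591 624)))))))))))) (node 594 (merge (node 627 (merge (leaf 0 591 626) (node 595 (merge (leaf 0 592 628) (node 563 (merge (leaf 2 559 562) (leaf 2 560 564))))))) (merge (node 562 (merge (leaf 2 559 563) (node 590 (merge (leaf 2 558 561) (node 621 (merge (leaf 1 589 622) (node 589 (merge (leaf 1 588 620) (node 557 (merge (leaf 3 556 556) (leaf 3 557 558))))))))))) (merge (node 627 (merge (leaf 0 591 626) (node 595 (merge (leaf 0 592 628) (node 596 (merge (leaf 3 560 561) (node 564 (merge (leaf 2 560 563) (leaf 2 561 565))))))))) (node 627 (merge (leaf 0 591 626) (node 595 (merge (leaf 0 592 628) (node 561 (merge (leaf 3 560 596) (node 590 (merge (leaf 2 558 562) (leaf 2 557 589)))))))))))))))))))) (node 527 (merge (node 623 (merge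 (node 624 (merge (leaf 7 495 495) (leaf 5 527 655))) (merge (node 591 (merge (leaf 5 495 496) (node 655 (merge (leaf 5 527 624) (leaf 6 559 687))))) (node 496 (merge (leaf 5 495 591) (node 497 (merge (leaf 6 464 465) (node 498 (merge (leaf 1 495 499) (node 526 (merge (leaf 1 494 495) (leaf 2 493 525)))))))))))) (merge (node 496 (merge (node 624 (merge (leaf 7 495 495) (node 559 (merge (leaf 7 527 656) (node 591 (merge (leaf 5 463 464) (leaf 6 495 623))))))) (merge (node 497 (merge (leaf 6 464 465) (node 526 (merge (leaf 2 493 525) (node 498 (merge (leaf 1 494 495) (leaf 1 495 499))))))) (node 465 (merge (leaf 6 464 497) (node 464 (merge (leaf 6 432 433) (node 591 (merge (leaf 5 463 559) (leaf 5 495 623)))))))))) (merge (node 624 (merge (leaf 7 495 495) (node 656 (merge (leaf 7 527 559) (node 689 (merge (leaf 4 560 657) (node 688 (merge (leaf 4 592 721) (node 687 (merge (leaf 5 559 655) (leaf 5 591 719))))))))))) (merge (node 559 (merge (node 624 (merge (leaf 7 527 656) (node 623 (merge (leaf 5 527 655) (node 496 (merge (leaf 6 495 591) (node 465 (merge (leaf 6 464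 497) (node 464 (merge (leaf 5 431 432) (leaf 6 432 433))))))))))) (merge (node 561 (merge (node 526 (merge (leaf 0 525 525) (leaf 3 526 562))) (merge (node 562 (merge (leaf 3 527 563) (node 590 (merge (leaf 1 558 591) (node 558 (merge (leaf 1 557 589) (node 557 (merge (leaf 2 524 556) (leaf 0 557 593))))))))) (node 558 (merge (node 593 (merge (leaf 0 557 557) (node 594 (merge (leaf 0 558 561) (leaf 3 559 595))))) (merge (node 525 (merge (leaf 3 525 526) (node 557 (merge (leaf 3 524 524) (leaf 2 524 556))))) (node 593 (merge (leaf 0 558 594) (node 590 (merge (leaf 1 557 589) (node 622 (merge (leaf 6 526 654) (node 621 (merge (leaf 1 589 591) (node 526 (merge (leaf 3 525 525) (leaf 5 525 653))))))))))))))))) (node 558 (merge (node 557 (merge (leaf 2 524 556) (leaf 0 557 593))) (merge (node 557 (merge (leaf 2 524 556) (node 589 (merge (leaf 1 556 588) (node 561 (merge (leaf 1 557 590) (node 525 (merge (leaf 3 524 524) (leaf 3 525 526))))))))) (node 561 (merge (node 562 (merge (leaf 3 526 526) (leaf 3 527 563))) (node 593 (merge (leaf 0 558 594) (node 590 (merge (leaf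 1 557 589) (node 622 (merge (leaf 6 526 654) (node 624 (merge (leaf 7 527 656) (node 623 (merge (leaf 2 589 621) (leaf 5 527 655))))))))))))))))))) (node 559 (merge (node 496 (merge (node 464 (merge (leaf 5 431 432) (leaf 5 463 591))) (node 497 (merge (leaf 6 464 465) (node 526 (merge (leaf 2 493 525) (node 498 (merge (leaf 1 494 495) (leaf 1 495 499))))))))) (merge (node 591 (merge (node 623 (merge (leaf 6 495 496) (leaf 6 527 655))) (node 590 (merge (node 622 (merge (leaf 5 494 495) (node 654 (merge (leaf 6 526 558) (leaf 6 558 686))))) (node 561 (merge (leaf 1 558 562) (node 589 (merge (leaf 2 556 588) (leaf 2 557 592))))))))) (merge (node 561 (merge (node 526 (merge (leaf 0 525 525) (leaf 3 526 562))) (merge (node 562 (merge (leaf 3 527 563) (node 590 (merge (leaf 1 558 591) (node 558 (merge (leaf 1 557 589) (node 557 (merge (leaf 2 524 556) (leaf 0 557 593))))))))) (node 558 (merge (node 593 (merge (leaf 0 557 557) (node 594 (merge (leaf 0 558 561) (leaf 3 559 595))))) (merge (node 525 (merge (leaf 3 525 526) (node 557 (merge (leaf 3 524 524) (leaf 2 524 556)))))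 (node 593 (merge (leaf 0 558 594) (node 590 (merge (leaf 1 557 589) (node 622 (merge (leaf 6 526 654) (node 621 (merge (leaf 1 589 591) (node 526 (merge (leaf 3 525 525) (leaf 5 525 653))))))))))))))))) (hyp 0))))))))))))))))) nP_2 cP_2 17 (by decide +kernel)
def nP_3 : ℕ := 0x180000001800000000000000000000000000000000000000000000000000000000000000000000000000000000000000000000000000000000000000000000000000000000000
def cP_3 : ℕ := 0xe0000000e0000000f000000e70000000700000007000000060000000600000000000000000000000000000000000000000000000000000000000000000000000000000000000000000000000000000000000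
theorem lP_3 : S nP_3 cP_3 10 := S_of_chk [] trivial (node 558 (merge (node 557 (merge (leaf 2 524 556) (node 589 (merge (leaf 1 556 588) (node 561 (merge (leaf 1 557 590) (node 562 (merge (leaf 3 526 526) (leaf 3 527 563))))))))) (merge (node 557 (merge (leaf 2 524 556) (node 525 (merge (leaf 3 524 524) (node 526 (merge (leaf 0 525 561) (node 493 (merge (leaf 3 492 492) (node 590 (merge (leaf 4 461 461) (leaf 7 493 622))))))))))) (merge (node 557 (merge (leaf 2 524 556) (node 589 (merge (leaf 1 556 588) (node 590 (merge (leaf 1 557 561) (node 622 (merge (leaf 6 526 654) (node 525 (merge (leaf 4 493 493) (leaf 3 524 524))))))))))) (merge (node 557 (merge (leaf 2 524 556) (node 589 (merge (leaf 1 556 588) (node 525 (merge (leaf 3 524 524) (node 526 (merge (leaf 0 525 561) (node 621 (merge (leaf 6 493 494) (leaf 6 525 653))))))))))) (merge (node 526 (merge (node 557 (merge (leaf 2 524 556) (node 589 (merge (leaf 1 556 588) (node 621 (merge (leaf 6 525 653) (node 494 (merge (leaf 5 461 462) (leaf 5 493 590))))))))) (merge (node 525 (merge (leaf 0 524 524) (node 493 (merge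 (leaf 3 492 492) (node 590 (merge (leaf 7 493 622) (node 461 (merge (leaf 4 429 429) (leaf 7 461 494))))))))) (merge (node 557 (merge (leaf 2 524 556) (node 589 (merge (leaf 1 556 588) (node 621 (merge (leaf 6 525 653) (node 494 (merge (leaf 5 461 462) (leaf 6 493 525))))))))) (node 525 (merge (leaf 0 524 524) (node 557 (merge (leaf 1 524 556) (node 493 (merge (leaf 3 492 492) (node 590 (merge (leaf 4 461 461) (leaf 7 493 622))))))))))))) (node 526 (merge (node 561 (merge (leaf 3 525 525) (leaf 3 526 562))) (merge (node 525 (merge (leaf 0 524 524) (node 493 (merge (leaf 3 492 492) (node 590 (merge (leaf 7 493 622) (node 461 (merge (leaf 4 429 429) (leaf 7 461 494))))))))) (node 561 (merge (leaf 3 526 562) (node 590 (merge (leaf 1 557 589) (node 622 (merge (leaf 6 526 654) (node 623 (merge (leaf 4 526 655) (node 494 (merge (leaf 7 494 591) (node 461 (merge (leaf 7 461 493) (node 462 (merge (leaf 7 429 429) (leaf 4 430 430)))))))))))))))))))))))) nP_3 cP_3 10 (by decide +kernel)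
def nP_4 : ℕ := 0x180000001800000000000000000000000000000000000000000000000000000000000000000000000000000000000000000000000000000000000000000000000000000000000
def cP_4 : ℕ := 0x60000000600000007000000e7000000070000000f0000000e0000000200000000000000000000000000000000000000000000000000000000000000000000000000000000000000000000000000000000000
theorem lP_4 : S nP_4 cP_4 7 := S_of_chk [] trivial (node 558 (merge (node 557 (merge (leaf 2 524 556) (node 589 (merge (leaf 1 556 588) (node 561 (merge (leaf 1 557 590) (node 562 (merge (leaf 3 526 526) (leaf 3 527 563))))))))) (merge (node 557 (merge (leaf 2 524 556) (node 525 (merge (leaf 3 524 524) (node 526 (merge (leaf 0 525 561) (node 493 (merge (leaf 3 492 492) (node 590 (merge (leaf 4 461 461) (leaf 7 493 622))))))))))) (merge (node 557 (merge (leaf 2 524 556) (node 589 (merge (leaf 1 556 588) (node 590 (merge (leaf 1 557 561) (node 622 (merge (leaf 6 526 654) (node 525 (merge (leaf 4 493 493) (leaf 3 524 524))))))))))) (merge (node 526 (merge (node 561 (merge (leaf 3 525 525) (leaf 3 526 562))) (merge (node 561 (merge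 (leaf 3 526 562) (node 590 (merge (leaf 1 557 589) (node 495 (merge (leaf 5 462 463) (leaf 6 494 622))))))) (node 525 (merge (leaf 0 524 524) (node 493 (merge (leaf 3 492 492) (node 590 (merge (leaf 7 493 622) (node 461 (merge (leaf 4 429 429) (leaf 7 461 494)))))))))))) (merge (node 557 (merge (leaf 2 524 556) (node 589 (merge (leaf 1 556 588) (node 525 (merge (leaf 3 524 524) (node 526 (merge (leaf 0 525 561) (node 621 (merge (leaf 6 493 494) (leaf 6 525 653))))))))))) (node 526 (merge (node 557 (merge (leaf 2 524 556) (node 589 (merge (leaf 1 556 588) (node 621 (merge (leaf 6 525 653) (node 494 (merge (leaf 5 461 462) (leaf 5 493 590))))))))) (merge (node 525 (merge (leaf 0 524 524) (node 493 (merge (leaf 3 492 492) (node 590 (merge (leaf 7 493 622) (node 461 (merge (leaf 4 429 429) (leaf 7 461 494))))))))) (merge (node 557 (merge (leaf 2 524 556) (node 589 (merge (leaf 1 556 588) (node 621 (merge (leaf 6 525 653) (node 494 (merge (leaf 5 461 462) (leaf 6 493 525))))))))) (node 525 (merge (leaf 0 524 524) (node 557 (merge (leaf 1 524 556) (node 493 (merge (leaf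 3 492 492) (node 590 (merge (leaf 4 461 461) (leaf 7 493 622))))))))))))))))))) nP_4 cP_4 7 (by decide +kernel)
def nP_5 : ℕ := 0x180000001800000000000000000000000000000000000000000000000000000000000000000000000000000000000000000000000000000000000000000000000000000000000
def cP_5 : ℕ := 0x1e0000001f0000003b00000027000000070000000f0000000f0000000700000005000000000000000000000000000000000000000000000000000000000000000000000000000000000000000000000000000
theorem lP_5 : S nP_5 cP_5 10 := S_of_chk [] trivial (node 557 (merge (node 558 (merge (leaf 2 524 556) (node 592 (merge (leaf 0 557 593) (node 624 (merge (leaf 7 495 495) (leaf 7 527 656))))))) (merge (node 558 (merge (leaf 2 524 556) (node 589 (merge (leaf 1 556 588) (node 525 (merge (leaf 3 524 524) (node 526 (merge (leaf 0 525 561) (node 621 (merge (leaf 6 493 494) (leaf 6 525 653))))))))))) (merge (node 592 (merge (node 624 (merge (leaf 7 495 495) (leaf 7 527 656))) (node 558 (merge (leaf 0 557 593) (node 589 (merge (leaf 1 556 588) (node 525 (merge (leaf 3 524 524) (node 526 (merge (leaf 0 525 561) (node 494 (merge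 (leaf 5 461 462) (leaf 6 493 621))))))))))))) (node 592 (merge (node 624 (merge (leaf 7 495 495) (leaf 7 527 656))) (merge (node 526 (merge (node 525 (merge (leaf 0 524 524) (leaf 1 524 556))) (node 624 (merge (leaf 7 527 656) (node 623 (merge (leaf 5 527 655) (node 591 (merge (leaf 7 494 494) (node 622 (merge (leaf 5 526 654) (node 621 (merge (leaf 2 589 593) (leaf 2 588 620))))))))))))) (node 493 (merge (node 495 (merge (leaf 4 463 463) (node 494 (merge (leaf 0 492 492) (node 591 (merge (leaf 7 462 462) (node 623 (merge (leaf 7 494 526) (leaf 6 527 655))))))))) (merge (node 525 (merge (node 526 (merge (leaf 3 492 492) (leaf 1 524 556))) (merge (node 526 (merge (leaf 0 524 524) (leaf 0 525 561))) (node 461 (merge (node 430 (merge (leaf 6 429 462) (node 429 (merge (leaf 6 397 398) (node 556 (merge (leaf 5 428 524) (leaf 5 460 588))))))) (merge (node 460 (merge (leaf 7 428 428) (node 589 (merge (leaf 7 460 492) (node 588 (merge (leaf 5 460 556) (leaf 5 492 620))))))) (node 430 (merge (leaf 6 429 462) (node 429 (merge (leaf 6 397 398) (node 428 (merge (leaf 7 396 396)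 (leaf 7 428 460))))))))))))) (merge (node 525 (merge (node 526 (merge (leaf 0 524 524) (leaf 0 525 561))) (merge (node 526 (merge (leaf 1 524 556) (leaf 0 525 561))) (node 462 (merge (node 494 (merge (leaf 6 461 589) (node 495 (merge (leaf 4 463 463) (leaf 7 462 591))))) (node 461 (merge (leaf 6 429 430) (node 428 (merge (leaf 7 428 460) (node 429 (merge (leaf 7 396 396) (node 556 (merge (leaf 5 428 524) (leaf 5 460 588)))))))))))))) (merge (node 495 (merge (leaf 4 463 463) (node 494 (merge (leaf 0 492 492) (node 462 (merge (leaf 7 462 591) (node 525 (merge (leaf 6 461 589) (node 430 (merge (leaf 4 398 398) (leaf 6 429 461))))))))))) (node 495 (merge (leaf 4 463 463) (node 492 (merge (leaf 0 492 494) (node 525 (merge (leaf 3 492 526) (node 460 (merge (leaf 7 460 589) (node 428 (merge (leaf 4 396 396) (leaf 4 428 524))))))))))))))))))))))) nP_5 cP_5 10 (by decide +kernel)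
def nP_6 : ℕ := 0x180000001000000000000000000000000000000000000000000000000000000000000000000000000000000000000000000000000000000000000000000000000000000000000
def cP_6 : ℕ := 0x80000000e0000001e0000001f800003ff800001e7000001c7800001ff800000ff000001fb00000028000000000000000000000000000000000000000000000000000000000000000000000000000000000000000000000000000
theorem lP_6 : S nP_6 cP_6 11 := S_of_chk [] trivial (node 558 (merge (node 557 (merge (node 588 (merge (leaf 1 556 589) (node 556 (merge (leaf 1 555 587) (node 524 (merge (leaf 3 523 523) (leaf 3 524 525))))))) (merge (node 589 (merge (leaf 1 556 588) (node 561 (merge (leaf 1 557 590) (node 593 (merge (leaf 0 557 592) (leaf 0 558 594))))))) (node 525 (merge (leaf 3 524 524) (node 561 (merge (leaf 3 525 526) (node 593 (merge (leaf 0 557 592) (leaf 0 558 594)))))))))) (merge (node 557 (merge (node 592 (merge (leaf 0 557 593) (node 591 (merge (leaf 0 556 556) (node 496 (merge (leaf 5 463 464) (leaf 5 495 623))))))) (merge (node 588 (merge (leaf 1 556 589) (node 556 (merge (leaf 1 555 587) (node 524 (merge (leaf 3 523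 523) (leaf 3 524 525))))))) (node 525 (merge (leaf 3 524 524) (node 561 (merge (leaf 3 525 526) (node 593 (merge (leaf 0 557 592) (leaf 0 558 594)))))))))) (merge (node 557 (merge (node 592 (merge (leaf 0 557 593) (node 591 (merge (leaf 0 556 556) (node 496 (merge (leaf 5 463 464) (leaf 5 495 623))))))) (merge (node 588 (merge (leaf 1 556 589) (node 556 (merge (leaf 1 555 587) (node 524 (merge (leaf 3 523 523) (leaf 3 524 525))))))) (node 589 (merge (leaf 1 556 588) (node 561 (merge (leaf 1 557 590) (node 593 (merge (leaf 0 557 592) (leaf 0 558 594)))))))))) (merge (node 525 (merge (node 524 (merge (leaf 3 524 557) (node 526 (merge (leaf 0 523 523) (leaf 3 525 561))))) (merge (node 557 (merge (leaf 3 524 524) (node 592 (merge (leaf 0 557 593) (node 591 (merge (leaf 0 556 556) (node 496 (merge (leaf 5 463 464) (leaf 5 495 623))))))))) (node 561 (merge (leaf 3 525 526) (node 594 (merge (leaf 0 558 593) (node 562 (merge (leaf 0 559 595) (node 591 (merge (leaf 1 558 590) (node 563 (merge (leaf 1 559 592) (node 531 (merge (leaf 2 527 530) (leaf 2 528 532))))))))))))))))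 (merge (node 589 (merge (node 590 (merge (leaf 1 557 561) (node 588 (merge (leaf 2 555 587) (leaf 2 556 591))))) (merge (node 588 (merge (leaf 1 556 557) (node 590 (merge (leaf 2 555 587) (leaf 2 556 591))))) (merge (node 557 (merge (leaf 1 556 588) (node 525 (merge (leaf 3 524 524) (node 526 (merge (leaf 3 525 561) (node 621 (merge (leaf 6 493 494) (leaf 6 525 653))))))))) (node 590 (merge (leaf 1 557 561) (node 526 (merge (node 621 (merge (leaf 5 493 494) (node 653 (merge (leaf 6 525 557) (leaf 6 557 685))))) (merge (node 621 (merge (leaf 5 493 494) (node 653 (merge (leaf 5 525 622) (leaf 6 557 685))))) (merge (node 623 (merge (node 591 (merge (leaf 4 494 494) (leaf 7 526 655))) (merge (node 622 (merge (leaf 4 526 655) (node 525 (merge (leaf 7 493 493) (node 524 (merge (leaf 0 523 523) (leaf 3 524 557))))))) (node 494 (merge (leaf 4 494 591) (node 493 (merge (leaf 7 461 461) (node 525 (merge (leaf 7 493 622) (node 524 (merge (leaf 0 523 523) (leaf 3 524 557)))))))))))) (node 525 (merge (node 524 (merge (leaf 0 523 523) (leaf 3 524 557))) (node 622 (merge (leaf 7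 493 493) (node 655 (merge (leaf 4 526 623) (node 654 (merge (leaf 4 558 687) (node 653 (merge (leaf 5 525 621) (leaf 5 557 685))))))))))))))))))))) (merge (node 557 (merge (node 592 (merge (leaf 0 557 593) (node 591 (merge (leaf 0 556 556) (node 496 (merge (leaf 5 463 464) (leaf 5 495 623))))))) (node 525 (merge (leaf 3 524 524) (node 622 (merge (node 590 (merge (leaf 7 525 654) (node 493 (merge (leaf 4 461 461) (leaf 7 493 526))))) (merge (node 589 (merge (leaf 1 556 588) (node 654 (merge (leaf 7 525 590) (leaf 4 525 621))))) (merge (node 589 (merge (leaf 1 556 588) (node 621 (merge (leaf 4 525 654) (node 526 (merge (leaf 6 493 494) (leaf 6 525 653))))))) (node 589 (merge (leaf 1 556 588) (node 493 (merge (leaf 4 493 590) (node 494 (merge (leaf 6 461 462) (node 526 (merge (leaf 6 493 621) (node 460 (merge (leaf 7 460 492) (node 461 (merge (leaf 7 428 428) (leaf 4 429 429))))))))))))))))))))) (merge (node 590 (merge (node 589 (merge (leaf 1 557 561) (node 588 (merge (leaf 1 556 557) (leaf 2 555 587))))) (merge (node 561 (merge (leaf 1 557 589) (node 562 (merge (leaf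 1 558 591) (node 594 (merge (leaf 0 558 593) (leaf 0 559 595))))))) (merge (node 591 (merge (node 623 (merge (leaf 6 527 655) (node 592 (merge (leaf 5 495 496) (node 557 (merge (leaf 0 556 556) (leaf 0 557 593))))))) (merge (node 622 (merge (node 655 (merge (leaf 6 527 623) (node 654 (merge (leaf 6 558 686) (leaf 4 558 687))))) (merge (node 623 (merge (leaf 6 527 655) (node 588 (merge (leaf 2 556 589) (node 526 (merge (leaf 4 494 494) (node 621 (merge (leaf 5 525 653) (node 620 (merge (leaf 3 587 587) (leaf 2 587 619))))))))))) (merge (node 654 (merge (leaf 6 558 686) (node 653 (merge (leaf 5 557 685) (node 526 (merge (leaf 5 525 621) (node 494 (merge (leaf 4 462 462) (leaf 4 494 623))))))))) (node 654 (merge (leaf 6 558 686) (node 655 (merge (leaf 4 558 687) (node 653 (merge (leaf 5 557 685) (node 621 (merge (leaf 5 525 526) (node 620 (merge (leaf 0 619 619) (leaf 3 620 656))))))))))))))) (node 592 (merge (node 593 (merge (leaf 3 557 557) (leaf 3 558 594))) (merge (node 593 (merge (leaf 3 558 594) (node 621 (merge (leaf 1 589 622) (node 589 (merge (leaf 2 556 588)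 (leaf 1 588 620))))))) (node 557 (merge (leaf 0 556 556) (node 589 (merge (leaf 1 556 588) (node 621 (merge (leaf 1 588 620) (node 526 (merge (leaf 5 493 494) (leaf 6 525 653))))))))))))))) (node 496 (merge (node 464 (merge (leaf 5 463 591) (node 433 (merge (leaf 6 432 465) (node 432 (merge (leaf 6 400 401) (node 431 (merge (leaf 7 399 399) (leaf 7 431 463))))))))) (merge (node 593 (merge (node 561 (merge (leaf 4 464 464) (leaf 0 558 594))) (merge (node 592 (merge (leaf 0 557 557) (node 594 (merge (leaf 0 558 561) (leaf 3 559 595))))) (node 592 (merge (leaf 0 557 557) (node 465 (merge (leaf 6 464 497) (node 464 (merge (leaf 6 432 433) (node 463 (merge (leaf 7 431 431) (leaf 7 463 495)))))))))))) (node 592 (merge (node 593 (merge (leaf 0 557 557) (node 594 (merge (leaf 0 558 561) (leaf 3 559 595))))) (node 623 (merge (leaf 5 495 591) (node 655 (merge (leaf 5 527 624) (node 622 (merge (leaf 4 526 526) (node 687 (merge (leaf 4 558 654) (leaf 7 590 719)))))))))))))))))) (node 526 (merge (node 561 (merge (leaf 3 525 525) (node 590 (merge (leaf 1 557 589) (node 562 (merge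 (leaf 1 558 591) (node 594 (merge (leaf 0 558 593) (leaf 0 559 595))))))))) (merge (node 561 (merge (leaf 3 525 525) (node 562 (merge (node 594 (merge (leaf 0 558 593) (leaf 0 559 595))) (merge (node 595 (merge (leaf 0 559 594) (node 563 (merge (leaf 0 560 596) (node 531 (merge (leaf 2 527 530) (leaf 2 528 532))))))) (merge (node 593 (merge (leaf 0 558 594) (node 531 (merge (leaf 2 527 530) (node 563 (merge (leaf 2 528 532) (node 592 (merge (leaf 1 560 564) (leaf 1 559 591))))))))) (node 531 (merge (leaf 2 527 530) (node 563 (merge (leaf 2 528 532) (node 596 (merge (leaf 0 560 595) (node 564 (merge (leaf 0 561 597) (node 592 (merge (leaf 1 559 591) (leaf 1 560 593))))))))))))))))) (merge (node 590 (merge (node 589 (merge (leaf 1 557 561) (node 588 (merge (leaf 2 555 587) (leaf 2 556 591))))) (merge (node 589 (merge (leaf 1 557 561) (node 621 (merge (leaf 5 493 494) (node 653 (merge (leaf 5 525 622) (leaf 6 557 685))))))) (node 622 (merge (node 623 (merge (leaf 4 526 655) (node 591 (merge (leaf 4 494 494) (node 496 (merge (leaf 5 463 464) (leaf 5 495 592))))))) (merge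 (node 655 (merge (leaf 4 526 623) (node 654 (merge (leaf 4 558 687) (node 653 (merge (leaf 5 525 621) (leaf 5 557 685))))))) (merge (node 653 (merge (leaf 5 525 621) (node 654 (merge (leaf 5 557 685) (node 591 (merge (leaf 6 558 686) (node 494 (merge (leaf 4 462 462) (leaf 4 494 623))))))))) (node 653 (merge (leaf 5 525 621) (node 654 (merge (leaf 5 557 685) (node 686 (merge (leaf 6 558 591) (node 687 (merge (leaf 4 558 655) (leaf 4 590 719)))))))))))))))) (merge (node 496 (merge (node 561 (merge (leaf 3 525 525) (node 593 (merge (leaf 4 464 464) (leaf 0 558 594))))) (merge (node 463 (merge (node 431 (merge (leaf 7 431 464) (node 495 (merge (leaf 4 399 399) (leaf 7 463 592))))) (merge (node 495 (merge (leaf 7 463 592) (node 494 (merge (leaf 6 462 590) (node 497 (merge (leaf 1 493 525) (node 462 (merge (leaf 3 461 461) (leaf 3 462 498))))))))) (merge (node 431 (merge (leaf 7 431 464) (node 494 (merge (leaf 6 430 462) (node 495 (merge (leaf 5 398 399) (leaf 6 462 590))))))) (node 464 (merge (leaf 7 431 431) (node 465 (merge (leaf 6 432 433) (node 497 (merge (leaf 6 464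 592) (node 462 (merge (leaf 0 461 461) (leaf 0 462 498))))))))))))) (merge (node 463 (merge (node 495 (merge (leaf 7 463 592) (node 590 (merge (leaf 6 462 494) (node 561 (merge (leaf 1 557 589) (node 593 (merge (leaf 4 464 464) (leaf 0 558 594))))))))) (merge (node 495 (merge (leaf 7 463 592) (node 494 (merge (leaf 6 462 590) (node 431 (merge (leaf 4 399 399) (leaf 6 430 462))))))) (merge (node 431 (merge (leaf 7 431 464) (node 494 (merge (leaf 6 430 462) (node 495 (merge (leaf 5 398 399) (leaf 6 462 590))))))) (node 464 (merge (leaf 7 431 431) (node 465 (merge (leaf 6 432 433) (node 497 (merge (leaf 6 464 592) (node 462 (merge (leaf 0 461 461) (leaf 0 462 498))))))))))))) (node 590 (merge (node 561 (merge (leaf 3 525 525) (leaf 1 557 589))) (merge (node 525 (merge (leaf 3 525 561) (node 493 (merge (leaf 7 493 622) (node 461 (merge (leaf 4 429 429) (leaf 7 461 494))))))) (merge (node 589 (merge (leaf 1 557 561) (node 621 (merge (leaf 5 493 494) (node 653 (merge (leaf 5 525 622) (leaf 6 557 685))))))) (node 494 (merge (node 495 (merge (leaf 6 462 463) (node 497 (merge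 (leaf 1 493 525) (node 465 (merge (leaf 2 462 466) (leaf 6 464 592))))))) (merge (node 493 (merge (leaf 7 461 461) (node 622 (merge (leaf 7 493 525) (node 621 (merge (leaf 5 493 589) (leaf 5 525 653))))))) (node 463 (merge (leaf 6 462 495) (node 462 (merge (leaf 6 430 431) (node 461 (merge (leaf 7 429 429) (leaf 7 461 493)))))))))))))))))) (node 494 (merge (node 591 (merge (leaf 4 462 462) (node 623 (merge (leaf 4 494 590) (leaf 7 526 655))))) (merge (node 463 (merge (node 590 (merge (leaf 6 462 495) (node 493 (merge (leaf 7 461 461) (node 622 (merge (leaf 7 493 525) (node 621 (merge (leaf 5 493 589) (leaf 5 525 653))))))))) (merge (node 431 (merge (leaf 6 430 462) (node 495 (merge (leaf 5 398 399) (node 496 (merge (leaf 7 431 464) (leaf 7 463 592))))))) (node 462 (merge (leaf 6 430 431) (node 461 (merge (leaf 7 429 429) (node 493 (merge (leaf 7 461 590) (node 464 (merge (leaf 1 461 465) (leaf 1 460 492)))))))))))) (merge (node 590 (merge (node 591 (merge (leaf 4 494 623) (node 589 (merge (leaf 2 556 588) (leaf 5 493 621))))) (merge (node 493 (merge (leaf 7 461 461)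 (node 622 (merge (leaf 7 493 525) (node 623 (merge (leaf 4 494 591) (leaf 4 526 655))))))) (node 493 (merge (leaf 7 461 461) (node 622 (merge (leaf 7 493 525) (node 621 (merge (leaf 5 493 589) (leaf 5 525 653)))))))))) (node 464 (merge (node 591 (merge (leaf 4 462 462) (leaf 5 463 496))) (merge (node 462 (merge (leaf 4 462 591) (node 463 (merge (leaf 6 430 431) (node 493 (merge (leaf 1 461 465) (node 492 (merge (leaf 2 459 491) (leaf 2 460 495))))))))) (merge (node 496 (merge (leaf 5 463 591) (node 465 (merge (leaf 6 432 433) (node 463 (merge (leaf 7 431 431) (node 495 (merge (leaf 1 462 466) (leaf 2 461 493))))))))) (node 463 (merge (node 431 (merge (leaf 6 430 462) (leaf 7 431 496))) (merge (node 462 (merge (leaf 6 430 431) (node 493 (merge (leaf 1 461 465) (node 492 (merge (leaf 2 459 491) (leaf 2 460 495))))))) (merge (node 496 (merge (leaf 7 431 431) (node 465 (merge (leaf 6 432 433) (node 495 (merge (leaf 1 462 466) (leaf 2 461 493))))))) (node 465 (merge (node 433 (merge (leaf 6 432 496) (node 462 (merge (leaf 2 430 434) (leaf 1 461 493))))) (merge (node 496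 (merge (leaf 6 432 433) (node 493 (merge (leaf 1 461 462) (leaf 2 461 495))))) (node 466 (merge (leaf 1 462 495) (node 499 (merge (leaf 0 463 498) (node 467 (merge (leaf 0 464 500) (node 435 (merge (leaf 2 431 434) (leaf 2 432 436))))))))))))))))))))))))))))))))))))) nP_6 cP_6 11 (by decide +kernel)
def nP_7 : ℕ := 0x100000001000000000000000000000000000000000000000000000000000000000000000000000000000000000000000000000000000000000000000000000000000000000000
def cP_7 : ℕ := 0x80000000f0000001f0000003f800003ff800001ef000001cf800001ff800000ff000001ff0000002d000000000000000000000000000000000000000000000000000000000000000000000000000000000000000000000000000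
theorem lP_7 : S nP_7 cP_7 14 := S_of_chk [(nP_3, cP_3, 10), (nP_4, cP_4, 7), (nP_5, cP_5, 10), (nP_1, cP_1, 8), (nP_6, cP_6, 11)] ⟨lP_3, lP_4, lP_5, lP_1, lP_6, trivial⟩ (node 559 (merge (node 496 (merge (node 464 (merge (leaf 5 463 591) (node 432 (merge (leaf 5 431 527) (node 431 (merge (leaf 7 399 399) (leaf 7 431 463))))))) (merge (node 464 (merge (leaf 5 463 591) (node 433 (merge (leaf 6 432 465) (node 432 (merge (leaf 6 400 401) (leaf 5 431 527))))))) (merge (node 464 (merge (node 433 (merge (leaf 6 432 465) (node 432 (merge (leaf 6 400 401) (leaf 5 431 527))))) (merge (node 432 (merge (leaf 5 431 527) (node 431 (merge (leaf 7 399 399) (leaf 7 431 463))))) (node 465 (merge (leaf 6 432 433) (node 592 (merge (leaf 6 464 497) (node 463 (merge (leaf 7 431 431) (leaf 7 463 495)))))))))) (merge (node 464 (merge (leaf 5 463 591) (node 465 (merge (leaf 6 432 433) (node 592 (merge (leaf 6 464 497) (node 463 (merge (leaf 7 431 431) (leaf 7 463 495))))))))) (node 592 (merge (node 593 (merge (leaf 4 496 625) (node 594 (merge (leaf 3 559 595) (node 558 (merge (leaf 0 557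 557) (leaf 3 558 591))))))) (node 497 (merge (leaf 6 464 465) (node 495 (merge (leaf 7 463 463) (node 527 (merge (leaf 7 495 624) (node 498 (merge (leaf 1 495 499) (leaf 1 494 526)))))))))))))))) (merge (node 496 (merge (node 591 (merge (leaf 5 463 464) (node 623 (merge (leaf 6 495 527) (leaf 6 527 655))))) (merge (node 591 (merge (leaf 5 463 464) (node 623 (merge (leaf 5 495 592) (leaf 6 527 655))))) (merge (node 464 (merge (node 433 (merge (leaf 6 432 465) (node 432 (merge (leaf 6 400 401) (leaf 5 431 527))))) (merge (node 432 (merge (leaf 5 431 527) (node 431 (merge (leaf 7 399 399) (leaf 7 431 463))))) (node 465 (merge (leaf 6 432 433) (node 592 (merge (leaf 6 464 497) (node 463 (merge (leaf 7 431 431) (leaf 7 463 495)))))))))) (node 592 (merge (node 593 (merge (leaf 4 496 625) (node 594 (merge (leaf 3 559 595) (node 558 (merge (leaf 0 557 557) (leaf 0 558 561))))))) (node 623 (merge (leaf 5 495 591) (node 624 (merge (leaf 5 527 655) (node 527 (merge (leaf 7 495 495) (leaf 7 527 656))))))))))))) (merge (node 527 (merge (node 558 (merge (node 557 (merge (leaf 2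 524 556) (node 592 (merge (leaf 0 557 593) (node 624 (merge (leaf 7 495 495) (leaf 7 527 656))))))) (merge (node 557 (merge (leaf 2 524 556) (node 589 (merge (leaf 1 556 588) (node 561 (merge (leaf 1 557 590) (node 562 (merge (leaf 3 526 526) (leaf 3 527 563))))))))) (node 561 (merge (node 562 (merge (leaf 3 526 526) (leaf 3 527 563))) (node 590 (merge (leaf 1 557 589) (node 622 (merge (leaf 6 526 654) (node 495 (merge (leaf 5 462 463) (leaf 5 494 591)))))))))))) (merge (node 495 (merge (node 592 (merge (leaf 4 463 463) (leaf 7 495 624))) (merge (node 463 (merge (leaf 4 431 431) (node 590 (merge (leaf 5 462 558) (node 591 (merge (leaf 5 494 622) (node 462 (merge (leaf 7 430 430) (leaf 7 462 494))))))))) (node 591 (merge (node 623 (merge (leaf 6 527 655) (node 622 (merge (leaf 5 494 590) (leaf 5 526 654))))) (merge (node 624 (merge (leaf 7 495 592) (node 623 (merge (leaf 6 527 655) (leaf 4 527 656))))) (node 592 (merge (leaf 4 495 624) (node 590 (merge (leaf 5 494 622) (node 589 (merge (leaf 2 557 561) (leaf 2 556 588))))))))))))) (merge (node 591 (merge (node 623 (merge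 (leaf 6 527 655) (node 526 (merge (leaf 7 494 494) (node 561 (merge (leaf 0 525 525) (leaf 3 526 562))))))) (merge (node 623 (merge (leaf 6 527 655) (node 622 (merge (leaf 5 526 654) (node 495 (merge (leaf 5 494 590) (node 463 (merge (leaf 4 431 431) (leaf 4 463 592))))))))) (node 495 (merge (node 592 (merge (leaf 4 463 463) (leaf 7 495 624))) (merge (node 463 (merge (leaf 4 431 431) (node 462 (merge (leaf 7 430 430) (leaf 7 462 494))))) (node 592 (merge (leaf 4 495 624) (node 590 (merge (leaf 5 494 622) (node 561 (merge (leaf 1 558 562) (leaf 2 557 589))))))))))))) (merge (hyp 0) (merge (hyp 1) (merge (node 591 (merge (node 623 (merge (leaf 6 527 655) (node 526 (merge (leaf 7 494 494) (node 561 (merge (leaf 0 525 525) (leaf 3 526 562))))))) (merge (node 623 (merge (leaf 6 527 655) (node 622 (merge (leaf 5 526 654) (node 495 (merge (leaf 5 494 590) (node 463 (merge (leaf 4 431 431) (leaf 4 463 592))))))))) (node 558 (merge (node 557 (merge (leaf 2 524 556) (node 592 (merge (leaf 0 557 593) (node 624 (merge (leaf 7 495 495) (leaf 7 527 656))))))) (merge (node 557 (merge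 (leaf 2 524 556) (node 525 (merge (leaf 3 524 524) (node 561 (merge (leaf 0 525 526) (node 562 (merge (leaf 3 527 563) (leaf 1 558 590))))))))) (node 495 (merge (node 590 (merge (leaf 5 462 463) (node 622 (merge (leaf 5 494 591) (leaf 6 526 654))))) (merge (node 463 (merge (leaf 4 431 431) (node 462 (merge (leaf 7 430 430) (leaf 7 462 494))))) (node 494 (merge (leaf 7 462 462) (node 493 (merge (leaf 0 492 492) (node 590 (merge (leaf 5 494 622) (node 526 (merge (leaf 7 461 461) (node 561 (merge (leaf 0 525 525) (leaf 1 558 562)))))))))))))))))))) (merge (node 558 (merge (node 557 (merge (leaf 2 524 556) (node 592 (merge (leaf 0 557 593) (node 495 (merge (leaf 4 463 463) (leaf 7 495 624))))))) (merge (node 526 (merge (node 557 (merge (leaf 2 524 556) (node 589 (merge (leaf 1 556 588) (node 621 (merge (leaf 6 525 653) (node 494 (merge (leaf 5 461 462) (leaf 5 493 590))))))))) (merge (node 525 (merge (leaf 0 524 524) (node 493 (merge (leaf 3 492 492) (node 590 (merge (leaf 7 493 622) (node 461 (merge (leaf 4 429 429) (leaf 7 461 494))))))))) (merge (node 557 (merge (leaf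 2 524 556) (node 589 (merge (leaf 1 556 588) (node 621 (merge (leaf 6 525 653) (node 494 (merge (leaf 5 461 462) (leaf 6 493 525))))))))) (node 525 (merge (leaf 0 524 524) (node 557 (merge (leaf 1 524 556) (node 493 (merge (leaf 3 492 492) (node 590 (merge (leaf 4 461 461) (leaf 7 493 622))))))))))))) (node 591 (merge (node 623 (merge (leaf 6 527 655) (node 622 (merge (leaf 5 526 654) (node 495 (merge (leaf 5 494 590) (node 463 (merge (leaf 4 431 431) (leaf 4 463 592))))))))) (merge (node 623 (merge (leaf 6 527 655) (node 494 (merge (leaf 7 494 526) (node 495 (merge (leaf 7 462 462) (node 463 (merge (leaf 4 431 431) (leaf 4 463 592))))))))) (merge (node 623 (merge (leaf 6 527 655) (node 526 (merge (leaf 7 494 494) (node 525 (merge (leaf 0 524 524) (node 493 (merge (leaf 3 492 492) (node 622 (merge (leaf 7 493 590) (leaf 5 526 654))))))))))) (node 495 (merge (node 592 (merge (leaf 4 463 463) (leaf 7 495 624))) (merge (node 463 (merge (leaf 4 431 431) (leaf 5 462 590))) (node 494 (merge (leaf 7 462 462) (node 592 (merge (leaf 7 495 624) (node 590 (merge (leaf 5 494 622)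 (node 589 (merge (leaf 2 556 588) (node 621 (merge (leaf 5 493 526) (leaf 1 588 620))))))))))))))))))))) (merge (node 558 (merge (node 557 (merge (leaf 2 524 556) (node 589 (merge (leaf 1 556 588) (node 561 (merge (leaf 1 557 590) (node 562 (merge (leaf 3 526 526) (leaf 3 527 563))))))))) (merge (node 557 (merge (leaf 2 524 556) (node 525 (merge (leaf 3 524 524) (node 526 (merge (leaf 0 525 561) (node 493 (merge (leaf 3 492 492) (node 461 (merge (leaf 4 429 429) (leaf 4 461 590))))))))))) (merge (node 526 (merge (node 561 (merge (leaf 0 525 525) (leaf 3 526 562))) (merge (node 525 (merge (leaf 0 524 524) (node 493 (merge (leaf 3 492 492) (node 461 (merge (leaf 4 429 429) (node 494 (merge (leaf 7 461 590) (node 591 (merge (leaf 4 462 462) (leaf 7 494 623))))))))))) (node 494 (merge (node 591 (merge (leaf 4 462 462) (leaf 7 494 623))) (node 561 (merge (leaf 3 526 562) (node 590 (merge (leaf 1 557 589) (node 493 (merge (leaf 7 461 461) (node 492 (merge (leaf 0 491 491) (leaf 0 492 495)))))))))))))) (merge (node 526 (merge (node 525 (merge (leaf 0 524 524) (node 557 (merge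 (leaf 1 524 556) (node 493 (merge (leaf 3 492 492) (node 461 (merge (leaf 4 429 429) (leaf 4 461 590))))))))) (merge (node 557 (merge (leaf 2 524 556) (node 589 (merge (leaf 1 556 588) (node 621 (merge (leaf 6 525 653) (node 494 (merge (leaf 5 461 462) (leaf 5 493 590))))))))) (merge (node 525 (merge (leaf 0 524 524) (node 557 (merge (leaf 1 524 556) (node 589 (merge (leaf 1 556 588) (node 621 (merge (leaf 6 493 494) (leaf 6 525 653))))))))) (node 525 (merge (leaf 0 524 524) (node 493 (merge (leaf 3 492 492) (node 461 (merge (leaf 4 429 429) (node 494 (merge (leaf 7 461 590) (node 591 (merge (leaf 4 462 462) (leaf 7 494 623))))))))))))))) (merge (node 557 (merge (leaf 2 524 556) (node 589 (merge (leaf 1 556 588) (node 525 (merge (leaf 3 524 524) (node 526 (merge (leaf 0 525 561) (node 621 (merge (leaf 6 493 494) (leaf 6 525 653))))))))))) (node 557 (merge (leaf 2 524 556) (node 589 (merge (leaf 1 556 588) (node 590 (merge (leaf 1 557 561) (node 525 (merge (leaf 3 524 524) (node 493 (merge (leaf 4 461 461) (node 492 (merge (leaf 7 460 460) (node 495 (merge (leaf 5 462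 463) (leaf 0 492 494))))))))))))))))))))) (hyp 2)))))))))) (merge (node 496 (merge (node 591 (merge (leaf 5 463 464) (node 623 (merge (leaf 6 495 527) (leaf 6 527 655))))) (merge (node 591 (merge (leaf 5 463 464) (node 623 (merge (leaf 5 495 592) (leaf 6 527 655))))) (merge (node 464 (merge (node 433 (merge (leaf 6 432 465) (node 432 (merge (leaf 6 400 401) (leaf 5 431 527))))) (merge (node 432 (merge (leaf 5 431 527) (node 431 (merge (leaf 7 399 399) (leaf 7 431 463))))) (node 465 (merge (leaf 6 432 433) (node 592 (merge (leaf 6 464 497) (node 463 (merge (leaf 7 431 431) (leaf 7 463 495)))))))))) (node 591 (merge (node 623 (merge (leaf 6 495 527) (leaf 6 527 655))) (merge (node 623 (merge (leaf 5 495 592) (leaf 6 527 655))) (node 592 (merge (node 497 (merge (leaf 6 464 465) (node 495 (merge (leaf 7 463 463) (node 527 (merge (leaf 7 495 624) (node 498 (merge (leaf 1 495 499) (leaf 1 494 526))))))))) (node 593 (merge (leaf 4 496 625) (node 594 (merge (leaf 3 559 595) (node 562 (merge (leaf 2 559 563) (node 590 (merge (leaf 1 558 561) (node 621 (merge (leaf 1 589 622)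 (node 589 (merge (leaf 2 556 588) (leaf 1 588 620)))))))))))))))))))))) (merge (node 496 (merge (node 591 (merge (leaf 5 463 464) (node 623 (merge (leaf 6 495 527) (leaf 6 527 655))))) (merge (node 591 (merge (leaf 5 463 464) (node 623 (merge (leaf 5 495 592) (leaf 6 527 655))))) (merge (node 464 (merge (node 433 (merge (leaf 6 432 465) (node 432 (merge (leaf 6 400 401) (leaf 5 431 527))))) (merge (node 432 (merge (leaf 5 431 527) (node 431 (merge (leaf 7 399 399) (leaf 7 431 463))))) (node 465 (merge (leaf 6 432 433) (node 592 (merge (leaf 6 464 497) (node 463 (merge (leaf 7 431 431) (leaf 7 463 495)))))))))) (node 527 (merge (node 591 (merge (node 623 (merge (leaf 6 495 496) (leaf 6 527 655))) (node 590 (merge (node 561 (merge (leaf 1 558 562) (node 589 (merge (leaf 1 557 558) (leaf 2 557 592))))) (merge (node 622 (merge (leaf 5 494 495) (node 654 (merge (leaf 6 526 558) (leaf 6 558 686))))) (node 561 (merge (leaf 1 558 562) (node 495 (merge (leaf 5 494 622) (node 592 (merge (leaf 2 557 589) (leaf 4 495 624)))))))))))) (merge (node 495 (merge (node 592 (merge (leaf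 7 463 463) (leaf 7 495 624))) (merge (node 592 (merge (leaf 7 495 624) (node 497 (merge (leaf 6 464 465) (node 526 (merge (leaf 1 494 498) (leaf 2 493 525))))))) (node 463 (merge (leaf 4 431 431) (node 462 (merge (leaf 7 430 430) (node 461 (merge (leaf 0 460 460) (node 497 (merge (leaf 3 461 494) (leaf 3 462 498)))))))))))) (hyp 0)))))))) (merge (node 527 (merge (node 496 (merge (node 464 (merge (leaf 5 431 432) (node 561 (merge (leaf 4 464 593) (node 562 (merge (leaf 3 526 526) (leaf 3 527 563))))))) (merge (node 464 (merge (leaf 5 431 432) (node 465 (merge (leaf 6 432 433) (node 592 (merge (leaf 6 464 497) (node 463 (merge (leaf 7 431 431) (leaf 4 463 495))))))))) (node 592 (merge (node 497 (merge (leaf 6 464 465) (node 495 (merge (leaf 7 463 463) (node 498 (merge (leaf 1 495 499) (leaf 1 494 526))))))) (node 593 (merge (leaf 4 496 625) (node 594 (merge (leaf 3 559 595) (node 558 (merge (leaf 0 557 557) (leaf 0 558 561)))))))))))) (merge (hyp 3) (merge (node 496 (merge (node 464 (merge (leaf 5 431 432) (node 561 (merge (leaf 4 464 593) (node 562 (merge (leaf 3 526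 526) (leaf 3 527 563))))))) (merge (node 464 (merge (leaf 5 431 432) (node 465 (merge (leaf 6 432 433) (node 592 (merge (leaf 6 464 497) (node 624 (merge (leaf 7 495 495) (leaf 7 527 656))))))))) (node 495 (merge (node 592 (merge (leaf 7 463 463) (leaf 7 495 624))) (merge (node 592 (merge (leaf 7 495 624) (node 497 (merge (leaf 6 464 465) (node 526 (merge (leaf 1 494 498) (leaf 2 493 525))))))) (node 463 (merge (leaf 4 431 431) (node 462 (merge (leaf 7 430 430) (node 461 (merge (leaf 0 460 460) (node 497 (merge (leaf 3 461 494) (leaf 3 462 498))))))))))))))) (merge (node 496 (merge (node 464 (merge (leaf 5 431 432) (node 465 (merge (leaf 6 432 433) (node 592 (merge (leaf 6 464 497) (node 624 (merge (leaf 7 495 495) (leaf 7 527 656))))))))) (merge (node 464 (merge (leaf 5 431 432) (node 465 (merge (leaf 6 432 433) (node 497 (merge (leaf 6 464 592) (node 463 (merge (leaf 7 431 431) (node 498 (merge (leaf 0 462 462) (leaf 1 495 499))))))))))) (merge (node 464 (merge (leaf 5 431 432) (node 465 (merge (leaf 6 432 433) (node 463 (merge (leaf 7 431 431) (node 495 (merge (leaf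 7 463 592) (node 466 (merge (leaf 1 463 467) (leaf 1 462 494))))))))))) (merge (node 495 (merge (node 463 (merge (leaf 4 431 431) (node 462 (merge (leaf 7 430 430) (node 461 (merge (leaf 0 460 460) (node 497 (merge (leaf 3 461 494) (leaf 3 462 498))))))))) (merge (node 463 (merge (leaf 4 431 431) (node 464 (merge (leaf 6 431 432) (node 465 (merge (leaf 6 432 433) (node 466 (merge (leaf 1 463 467) (leaf 1 462 494))))))))) (merge (node 463 (merge (leaf 4 431 431) (node 464 (merge (leaf 6 431 432) (node 462 (merge (leaf 7 430 430) (node 461 (merge (leaf 0 460 460) (leaf 0 461 497))))))))) (node 464 (merge (leaf 5 431 432) (node 465 (merge (leaf 6 432 433) (node 466 (merge (leaf 1 463 467) (node 494 (merge (leaf 2 461 493) (leaf 2 462 497))))))))))))) (node 495 (merge (node 592 (merge (leaf 7 495 624) (node 593 (merge (leaf 4 496 625) (node 558 (merge (leaf 0 557 557) (node 594 (merge (leaf 0 558 561) (leaf 3 559 595))))))))) (node 463 (merge (leaf 4 431 431) (node 462 (merge (leaf 7 430 430) (node 461 (merge (leaf 0 460 460) (node 497 (merge (leaf 3 461 494) (leaf 3 462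 498)))))))))))))))) (merge (node 558 (merge (node 557 (merge (leaf 2 524 556) (node 592 (merge (leaf 0 557 593) (node 495 (merge (leaf 4 463 463) (leaf 7 495 624))))))) (merge (node 557 (merge (node 588 (merge (leaf 1 556 589) (node 556 (merge (leaf 2 524 527) (leaf 1 555 587))))) (merge (node 524 (merge (leaf 3 524 525) (node 556 (merge (leaf 3 523 523) (leaf 2 524 527))))) (node 525 (merge (leaf 3 524 524) (node 622 (merge (node 590 (merge (leaf 7 525 654) (node 493 (merge (leaf 4 461 461) (leaf 7 493 526))))) (merge (node 589 (merge (leaf 1 556 588) (node 654 (merge (leaf 7 525 590) (leaf 4 525 621))))) (merge (node 589 (merge (leaf 1 556 588) (node 621 (merge (leaf 4 525 654) (node 526 (merge (leaf 6 493 494) (leaf 6 525 653))))))) (node 589 (merge (leaf 1 556 588) (node 493 (merge (leaf 4 493 590) (node 494 (merge (leaf 6 461 462) (node 526 (merge (leaf 6 493 621) (node 460 (merge (leaf 7 460 492) (node 461 (merge (leaf 7 428 428) (leaf 4 429 429)))))))))))))))))))))) (node 526 (merge (node 525 (merge (leaf 0 524 524) (node 493 (merge (leaf 3 492 492) (node 590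 (merge (leaf 7 493 622) (node 461 (merge (leaf 4 429 429) (leaf 7 461 494))))))))) (merge (node 525 (merge (leaf 0 524 524) (node 496 (merge (leaf 2 493 497) (node 464 (merge (leaf 5 431 432) (node 465 (merge (leaf 6 432 433) (node 463 (merge (leaf 7 431 431) (node 495 (merge (leaf 7 463 592) (node 466 (merge (leaf 1 463 467) (leaf 1 462 494))))))))))))))) (merge (node 494 (merge (node 462 (merge (leaf 4 430 430) (node 463 (merge (leaf 6 430 431) (node 495 (merge (leaf 6 462 590) (leaf 4 463 592))))))) (merge (node 495 (merge (node 590 (merge (leaf 5 462 463) (leaf 6 494 622))) (merge (node 463 (merge (leaf 5 430 431) (leaf 4 463 592))) (node 493 (merge (leaf 0 492 492) (node 590 (merge (leaf 7 461 461) (leaf 6 494 622)))))))) (merge (node 462 (merge (leaf 4 430 430) (node 461 (merge (leaf 7 429 429) (node 590 (merge (leaf 7 461 493) (node 622 (merge (leaf 6 526 654) (node 621 (merge (leaf 5 493 589) (leaf 5 525 653))))))))))) (node 462 (merge (leaf 4 430 430) (node 463 (merge (leaf 6 430 431) (node 495 (merge (leaf 4 463 592) (node 464 (merge (leaf 6 431 432) (node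 493 (merge (leaf 1 461 465) (leaf 0 492 492))))))))))))))) (node 525 (merge (leaf 0 524 524) (node 496 (merge (leaf 2 493 497) (node 493 (merge (leaf 3 492 492) (node 464 (merge (leaf 5 431 432) (node 463 (merge (leaf 7 431 431) (node 495 (merge (leaf 7 463 592) (node 462 (merge (leaf 7 430 430) (node 461 (merge (leaf 0 460 460) (node 558 (merge (leaf 4 429 429) (leaf 5 462 590)))))))))))))))))))))))))) (node 558 (merge (node 557 (merge (leaf 2 524 556) (node 589 (merge (leaf 1 556 588) (node 561 (merge (leaf 1 557 590) (node 593 (merge (leaf 0 557 592) (leaf 0 558 594))))))))) (merge (node 561 (merge (node 526 (merge (leaf 0 525 525) (leaf 3 526 562))) (merge (node 562 (merge (leaf 3 527 563) (node 594 (merge (leaf 0 558 593) (leaf 0 559 595))))) (node 525 (merge (leaf 3 525 526) (node 557 (merge (leaf 3 524 524) (node 593 (merge (leaf 0 557 592) (leaf 0 558 594)))))))))) (merge (node 557 (merge (node 588 (merge (leaf 1 556 589) (node 556 (merge (leaf 2 524 527) (leaf 1 555 587))))) (merge (node 524 (merge (leaf 3 524 525) (node 556 (merge (leaf 3 523 523) (leaf 2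 524 527))))) (node 525 (merge (leaf 3 524 524) (node 622 (merge (node 590 (merge (leaf 7 525 654) (node 493 (merge (leaf 4 461 461) (leaf 7 493 526))))) (merge (node 589 (merge (leaf 1 556 588) (node 654 (merge (leaf 7 525 590) (leaf 4 525 621))))) (merge (node 589 (merge (leaf 1 556 588) (node 621 (merge (leaf 4 525 654) (node 526 (merge (leaf 6 493 494) (leaf 6 525 653))))))) (node 589 (merge (leaf 1 556 588) (node 493 (merge (leaf 4 493 590) (node 494 (merge (leaf 6 461 462) (node 526 (merge (leaf 6 493 621) (node 460 (merge (leaf 7 460 492) (node 461 (merge (leaf 7 428 428) (leaf 4 429 429)))))))))))))))))))))) (node 526 (merge (node 525 (merge (leaf 0 524 524) (leaf 0 525 561))) (merge (node 525 (merge (leaf 0 524 524) (node 493 (merge (leaf 3 492 492) (node 590 (merge (leaf 7 493 622) (node 461 (merge (leaf 4 429 429) (leaf 7 461 494))))))))) (node 561 (merge (leaf 3 526 562) (node 593 (merge (leaf 0 558 594) (node 590 (merge (leaf 1 557 589) (node 622 (merge (leaf 6 526 654) (node 496 (merge (leaf 4 464 464) (node 592 (merge (leaf 4 496 625) (node 623 (merge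 (leaf 4 526 655) (node 621 (merge (leaf 2 589 624) (leaf 5 525 653)))))))))))))))))))))))))))))) (merge (node 527 (merge (node 561 (merge (node 562 (merge (leaf 3 526 526) (leaf 3 527 563))) (merge (node 562 (merge (leaf 3 527 563) (node 594 (merge (leaf 0 559 595) (node 558 (merge (leaf 0 558 593) (node 589 (merge (leaf 1 557 590) (node 557 (merge (leaf 2 524 556) (leaf 1 556 588))))))))))) (node 558 (merge (node 525 (merge (leaf 3 525 526) (node 557 (merge (leaf 3 524 524) (leaf 2 524 556))))) (merge (node 590 (merge (leaf 1 557 589) (node 622 (merge (leaf 6 526 654) (node 495 (merge (leaf 5 462 463) (leaf 6 494 526))))))) (node 557 (merge (leaf 2 524 556) (node 589 (merge (leaf 1 556 588) (node 590 (merge (leaf 1 557 561) (node 622 (merge (leaf 6 526 654) (node 525 (merge (leaf 4 493 493) (leaf 3 524 524))))))))))))))))) (merge (node 495 (merge (node 463 (merge (leaf 4 431 431) (node 462 (merge (leaf 7 430 430) (node 591 (merge (leaf 7 462 494) (node 623 (merge (leaf 6 495 496) (leaf 6 527 655))))))))) (merge (node 463 (merge (leaf 4 431 431) (node 464 (merge (leaf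 6 431 432) (node 496 (merge (leaf 6 463 591) (node 561 (merge (leaf 4 464 593) (node 526 (merge (leaf 0 525 525) (leaf 3 526 562))))))))))) (merge (node 496 (merge (node 464 (merge (leaf 5 431 432) (leaf 5 463 591))) (merge (node 464 (merge (leaf 5 431 432) (node 561 (merge (leaf 4 464 593) (node 562 (merge (leaf 3 526 526) (leaf 3 527 563))))))) (node 591 (merge (leaf 6 495 623) (node 494 (merge (leaf 7 462 462) (node 493 (merge (leaf 0 492 492) (node 525 (merge (leaf 1 492 524) (node 526 (merge (leaf 1 493 497) (leaf 0 525 561)))))))))))))) (merge (node 463 (merge (leaf 4 431 431) (node 464 (merge (leaf 6 431 432) (node 462 (merge (leaf 7 430 430) (node 494 (merge (leaf 7 462 591) (node 493 (merge (leaf 1 461 465) (leaf 0 492 492))))))))))) (node 561 (merge (node 526 (merge (leaf 0 525 525) (leaf 3 526 562))) (node 463 (merge (leaf 4 431 431) (node 464 (merge (leaf 6 431 432) (node 496 (merge (leaf 4 464 593) (node 465 (merge (leaf 6 432 433) (node 466 (merge (leaf 1 463 467) (leaf 1 462 494)))))))))))))))))) (merge (node 591 (merge (node 623 (merge (leaf 6 495 496)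 (leaf 6 527 655))) (merge (node 623 (merge (leaf 6 527 655) (node 622 (merge (leaf 5 526 654) (node 495 (merge (leaf 5 494 590) (node 462 (merge (leaf 7 462 494) (node 463 (merge (leaf 7 430 430) (leaf 4 431 431))))))))))) (node 590 (merge (node 561 (merge (leaf 1 558 562) (node 589 (merge (leaf 1 557 558) (leaf 2 556 588))))) (node 464 (merge (leaf 5 463 496) (node 495 (merge (leaf 5 494 622) (node 463 (merge (leaf 4 431 431) (leaf 6 431 432)))))))))))) (merge (hyp 0) (node 526 (merge (node 525 (merge (leaf 0 524 524) (node 496 (merge (leaf 2 493 497) (node 464 (merge (leaf 5 431 432) (leaf 5 463 591))))))) (merge (node 525 (merge (leaf 0 524 524) (node 557 (merge (leaf 1 524 556) (node 589 (merge (node 494 (merge (leaf 6 493 621) (node 462 (merge (leaf 5 429 430) (leaf 6 461 493))))) (merge (node 621 (merge (leaf 6 493 494) (node 653 (merge (leaf 6 525 558) (node 652 (merge (leaf 5 524 620) (leaf 5 556 684))))))) (merge (node 493 (merge (leaf 3 492 492) (node 462 (merge (leaf 6 461 494) (node 461 (merge (leaf 6 429 430) (node 590 (merge (leaf 4 461 558) (leaf 4 493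 622))))))))) (node 493 (merge (leaf 3 492 492) (node 590 (merge (leaf 4 493 622) (node 558 (merge (leaf 4 461 461) (node 621 (merge (leaf 6 525 653) (node 620 (merge (leaf 5 492 588) (leaf 5 524 652))))))))))))))))))) (node 495 (merge (node 591 (merge (node 623 (merge (leaf 6 495 496) (leaf 6 527 655))) (merge (node 494 (merge (leaf 7 462 462) (leaf 7 494 623))) (node 464 (merge (leaf 6 463 496) (node 463 (merge (leaf 6 431 432) (node 462 (merge (leaf 7 430 430) (leaf 7 462 494)))))))))) (merge (node 463 (merge (leaf 4 431 431) (node 462 (merge (leaf 7 430 430) (node 558 (merge (leaf 5 462 590) (node 557 (merge (leaf 2 524 556) (node 589 (merge (leaf 5 461 494) (leaf 1 556 588))))))))))) (merge (node 463 (merge (leaf 4 431 431) (node 464 (merge (leaf 6 431 432) (node 496 (merge (leaf 6 463 591) (node 465 (merge (leaf 6 432 433) (node 466 (merge (leaf 1 463 467) (leaf 1 462 494))))))))))) (merge (node 463 (merge (leaf 4 431 431) (node 464 (merge (leaf 6 431 432) (node 496 (merge (leaf 6 463 591) (node 462 (merge (leaf 7 430 430) (node 461 (merge (leaf 0 460 460) (leaf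 0 461 497))))))))))) (node 591 (merge (node 623 (merge (leaf 6 495 496) (leaf 6 527 655))) (merge (node 494 (merge (leaf 7 462 462) (leaf 7 494 623))) (node 496 (merge (leaf 6 463 464) (node 494 (merge (leaf 7 462 462) (node 493 (merge (leaf 0 492 492) (node 461 (merge (leaf 3 460 460) (node 590 (merge (leaf 7 461 558) (leaf 5 494 622))))))))))))))))))))))))))) (merge (node 591 (merge (node 623 (merge (leaf 6 527 655) (node 496 (merge (leaf 5 463 464) (leaf 6 495 527))))) (merge (node 561 (merge (node 562 (merge (leaf 1 558 590) (node 527 (merge (leaf 3 526 526) (leaf 3 527 563))))) (merge (node 590 (merge (leaf 1 558 562) (node 589 (merge (leaf 1 557 558) (leaf 2 557 592))))) (merge (node 562 (merge (node 527 (merge (leaf 3 526 526) (leaf 3 527 563))) (merge (node 595 (merge (leaf 0 559 594) (node 563 (merge (leaf 0 560 596) (node 531 (merge (leaf 2 527 530) (leaf 2 528 532))))))) (node 526 (merge (leaf 3 526 527) (node 558 (merge (leaf 3 525 525) (node 594 (merge (leaf 0 558 593) (leaf 0 559 595)))))))))) (node 558 (merge (node 589 (merge (leaf 1 557 590) (node 557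 (merge (leaf 1 556 588) (node 556 (merge (leaf 2 524 527) (leaf 0 556 592))))))) (merge (node 525 (merge (leaf 3 525 526) (node 557 (merge (leaf 3 524 524) (node 593 (merge (leaf 0 557 592) (leaf 0 558 594))))))) (merge (node 589 (merge (leaf 1 557 590) (node 557 (merge (leaf 1 556 588) (node 525 (merge (leaf 3 524 524) (leaf 3 525 526))))))) (node 593 (merge (leaf 0 558 594) (node 590 (merge (leaf 1 557 589) (node 496 (merge (leaf 4 464 464) (node 592 (merge (leaf 4 496 625) (node 622 (merge (leaf 1 589 621) (node 654 (merge (leaf 6 526 527) (leaf 6 558 686))))))))))))))))))))) (node 558 (merge (node 557 (merge (node 592 (merge (leaf 0 556 556) (leaf 0 557 593))) (node 589 (merge (leaf 1 556 588) (node 525 (merge (leaf 3 524 524) (node 526 (merge (leaf 3 525 561) (node 494 (merge (leaf 4 462 462) (leaf 6 493 621))))))))))) (merge (node 561 (merge (node 590 (merge (leaf 1 558 562) (leaf 1 557 589))) (merge (node 589 (merge (leaf 1 557 590) (node 557 (merge (leaf 1 556 588) (node 593 (merge (leaf 0 557 592) (leaf 0 558 594))))))) (node 594 (merge (leaf 0 558 593) (node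 562 (merge (leaf 0 559 595) (node 563 (merge (leaf 1 559 592) (node 531 (merge (leaf 2 527 530) (leaf 2 528 532)))))))))))) (merge (node 557 (merge (node 592 (merge (leaf 0 556 556) (leaf 0 557 593))) (merge (node 524 (merge (leaf 3 524 525) (node 556 (merge (leaf 3 523 523) (leaf 0 556 592))))) (node 525 (merge (leaf 3 524 524) (node 561 (merge (leaf 3 525 526) (node 594 (merge (leaf 0 558 593) (node 562 (merge (leaf 1 558 590) (leaf 0 559 595)))))))))))) (merge (node 561 (merge (node 562 (merge (leaf 1 558 590) (node 594 (merge (leaf 0 558 593) (leaf 0 559 595))))) (merge (node 590 (merge (leaf 1 557 589) (node 526 (merge (leaf 3 525 525) (node 494 (merge (leaf 4 462 462) (leaf 4 494 623))))))) (node 594 (merge (leaf 0 558 593) (node 562 (merge (leaf 0 559 595) (node 563 (merge (leaf 1 559 592) (node 531 (merge (leaf 2 527 530) (leaf 2 528 532)))))))))))) (merge (node 589 (merge (node 590 (merge (leaf 1 557 561) (node 588 (merge (leaf 2 555 587) (leaf 2 556 591))))) (merge (node 588 (merge (leaf 1 556 557) (node 590 (merge (leaf 2 555 587) (leaf 2 556 591))))) (merge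 (node 557 (merge (leaf 1 556 588) (node 525 (merge (leaf 3 524 524) (node 526 (merge (leaf 3 525 561) (node 621 (merge (leaf 6 493 494) (leaf 6 525 653))))))))) (node 590 (merge (leaf 1 557 561) (node 526 (merge (node 621 (merge (leaf 5 493 494) (node 653 (merge (leaf 6 525 557) (leaf 6 557 685))))) (merge (node 621 (merge (leaf 5 493 494) (node 653 (merge (leaf 5 525 622) (leaf 6 557 685))))) (merge (node 623 (merge (node 591 (merge (leaf 4 494 494) (leaf 7 526 655))) (merge (node 622 (merge (leaf 4 526 655) (node 525 (merge (leaf 7 493 493) (node 524 (merge (leaf 0 523 523) (leaf 3 524 557))))))) (node 494 (merge (leaf 4 494 591) (node 493 (merge (leaf 7 461 461) (node 525 (merge (leaf 7 493 622) (node 524 (merge (leaf 0 523 523) (leaf 3 524 557)))))))))))) (node 525 (merge (node 524 (merge (leaf 0 523 523) (leaf 3 524 557))) (node 622 (merge (leaf 7 493 493) (node 655 (merge (leaf 4 526 623) (node 654 (merge (leaf 4 558 687) (node 653 (merge (leaf 5 525 621) (leaf 5 557 685))))))))))))))))))))) (node 557 (merge (node 524 (merge (leaf 3 524 525) (node 556 (merge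 (leaf 3 523 523) (node 592 (merge (leaf 0 556 591) (leaf 0 557 593))))))) (merge (node 588 (merge (leaf 1 556 589) (node 556 (merge (leaf 1 555 587) (node 592 (merge (leaf 0 556 591) (leaf 0 557 593))))))) (node 525 (merge (leaf 3 524 524) (node 622 (merge (node 590 (merge (leaf 7 525 654) (node 493 (merge (leaf 4 461 461) (leaf 7 493 526))))) (merge (node 589 (merge (leaf 1 556 588) (node 654 (merge (leaf 7 525 590) (leaf 4 525 621))))) (merge (node 589 (merge (leaf 1 556 588) (node 621 (merge (leaf 4 525 654) (node 526 (merge (leaf 6 493 494) (leaf 6 525 653))))))) (node 589 (merge (leaf 1 556 588) (node 493 (merge (leaf 4 493 590) (node 494 (merge (leaf 6 461 462) (node 526 (merge (leaf 6 493 621) (node 460 (merge (leaf 7 460 492) (node 461 (merge (leaf 7 428 428) (leaf 4 429 429))))))))))))))))))))))))))))))) (hyp 4)))))))))) nP_7 cP_7 14 (by decide +kernel)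
def nP_8 : ℕ := 0x100000001000000000000000000000000000000000000000000000000000000000000000000000000000000000000000000000000000000000000000000000000000000000000
def cP_8 : ℕ := 0x220000003e0000003f000001ff000001ff800003ff800001ef800001cf8000001f0000001f0000001f00000000000000000000000000000000000000000000000000000000000000000000000000000000000000000000000000000000000
theorem lP_8 : S nP_8 cP_8 13 := S_of_chk [] trivial (node 592 (merge (node 624 (merge (node 657 (merge (leaf 4 528 625) (node 656 (merge (leaf 4 560 689) (node 655 (merge (leaf 5 527 623) (leaf 5 559 687))))))) (merge (node 495 (merge (leaf 7 495 527) (node 623 (merge (leaf 5 527 655) (node 496 (merge (leaf 7 463 463) (leaf 5 495 591))))))) (node 527 (merge (leaf 7 495 495) (node 656 (merge (leaf 7 527 559) (node 657 (merge (leaf 4 528 625) (leaf 4 560 689)))))))))) (merge (node 496 (merge (node 593 (merge (leaf 4 496 625) (node 591 (merge (leaf 5 495 623) (node 464 (merge (leaf 5 463 559) (leaf 4 464 561))))))) (merge (node 623 (merge (leaf 5 495 591) (node 624 (merge (leaf 5 527 655) (node 495 (merge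 (leaf 7 463 463) (leaf 7 495 527))))))) (merge (node 593 (merge (leaf 4 496 625) (node 495 (merge (leaf 7 463 463) (node 527 (merge (leaf 7 495 624) (node 464 (merge (leaf 4 464 561) (node 559 (merge (leaf 5 431 432) (leaf 6 463 591))))))))))) (node 495 (merge (leaf 7 463 463) (node 624 (merge (leaf 7 495 527) (node 593 (merge (leaf 4 496 625) (node 561 (merge (leaf 4 464 464) (node 656 (merge (leaf 6 560 688) (node 655 (merge (leaf 5 527 623) (leaf 5 559 687))))))))))))))))) (merge (node 591 (merge (node 623 (merge (leaf 5 495 496) (node 655 (merge (leaf 6 527 559) (leaf 6 559 687))))) (merge (node 593 (merge (node 625 (merge (leaf 4 496 496) (node 657 (merge (leaf 7 528 561) (leaf 7 560 689))))) (merge (node 623 (merge (leaf 5 495 496) (node 622 (merge (leaf 1 590 594) (node 621 (merge (leaf 1 589 590) (leaf 2 588 620))))))) (node 625 (merge (node 657 (merge (leaf 7 528 561) (leaf 7 560 689))) (node 590 (merge (leaf 0 590 626) (node 621 (merge (leaf 1 589 622) (node 589 (merge (leaf 1 588 620) (node 557 (merge (leaf 3 556 556) (leaf 3 557 558)))))))))))))) (merge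 (node 593 (merge (node 625 (merge (leaf 4 496 496) (node 657 (merge (leaf 7 528 561) (leaf 7 560 689))))) (merge (node 625 (merge (leaf 4 496 496) (node 626 (merge (leaf 0 590 590) (node 627 (merge (leaf 0 591 594) (leaf 3 592 628))))))) (node 590 (merge (node 561 (merge (leaf 2 558 562) (leaf 2 557 589))) (merge (node 621 (merge (leaf 1 589 622) (node 589 (merge (leaf 1 588 620) (node 557 (merge (leaf 3 556 556) (leaf 3 557 558))))))) (node 558 (merge (leaf 3 557 557) (node 594 (merge (leaf 3 558 559) (node 562 (merge (leaf 2 558 561) (leaf 2 559 563))))))))))))) (node 590 (merge (node 561 (merge (leaf 2 557 589) (node 562 (merge (leaf 1 559 563) (leaf 2 558 593))))) (merge (node 589 (merge (leaf 2 557 561) (node 620 (merge (leaf 1 588 621) (node 588 (merge (leaf 2 556 559) (leaf 1 587 619))))))) (merge (node 593 (merge (node 625 (merge (leaf 0 590 626) (node 561 (merge (leaf 2 558 562) (leaf 7 528 657))))) (merge (node 558 (merge (leaf 3 557 557) (node 594 (merge (leaf 3 558 559) (node 562 (merge (leaf 2 558 561) (leaf 2 559 563))))))) (node 626 (merge (leaf 0 590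 625) (node 594 (merge (leaf 0 591 627) (node 622 (merge (leaf 1 589 621) (leaf 1 590 623)))))))))) (node 557 (merge (node 556 (merge (leaf 3 556 589) (node 558 (merge (leaf 0 555 555) (leaf 3 557 593))))) (merge (node 589 (merge (leaf 3 556 556) (node 620 (merge (leaf 1 588 621) (node 588 (merge (leaf 2 556 559) (leaf 1 587 619))))))) (node 593 (merge (leaf 3 557 558) (node 622 (merge (leaf 1 589 621) (node 623 (merge (leaf 1 590 594) (node 655 (merge (leaf 6 527 559) (leaf 6 559 687)))))))))))))))))))) (merge (node 624 (merge (node 495 (merge (leaf 7 495 527) (node 625 (merge (leaf 4 528 657) (node 496 (merge (leaf 7 463 463) (leaf 4 496 593))))))) (merge (node 656 (merge (node 657 (merge (leaf 4 528 625) (leaf 4 560 689))) (merge (node 689 (merge (leaf 4 560 657) (node 688 (merge (leaf 4 592 721) (node 687 (merge (leaf 5 559 655) (leaf 5 591 719))))))) (merge (node 625 (merge (leaf 4 528 657) (node 687 (merge (leaf 5 559 655) (node 688 (merge (leaf 5 591 719) (node 593 (merge (leaf 6 560 561) (leaf 6 592 720))))))))) (node 687 (merge (leaf 5 559 655) (node 688 (merge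 (leaf 5 591 719) (node 593 (merge (leaf 6 560 561) (node 720 (merge (leaf 6 592 625) (node 721 (merge (leaf 4 592 689) (leaf 4 624 753))))))))))))))) (merge (node 527 (merge (leaf 7 495 495) (node 656 (merge (leaf 7 527 559) (node 687 (merge (leaf 5 559 655) (node 688 (merge (leaf 5 591 719) (node 593 (merge (leaf 6 560 561) (node 720 (merge (leaf 6 592 625) (node 721 (merge (leaf 4 592 689) (leaf 4 624 753))))))))))))))) (node 527 (merge (leaf 7 495 495) (node 656 (merge (leaf 7 527 559) (node 689 (merge (leaf 4 560 657) (node 688 (merge (leaf 4 592 721) (node 687 (merge (leaf 5 559 655) (leaf 5 591 719))))))))))))))) (merge (node 624 (merge (node 527 (merge (leaf 7 495 495) (node 656 (merge (leaf 7 527 559) (node 657 (merge (leaf 4 528 625) (leaf 4 560 689))))))) (merge (node 527 (merge (leaf 7 495 495) (node 656 (merge (leaf 7 527 559) (node 655 (merge (leaf 5 527 623) (leaf 5 559 687))))))) (node 625 (merge (leaf 4 528 657) (node 623 (merge (leaf 5 527 655) (node 622 (merge (node 653 (merge (leaf 1 621 654) (node 621 (merge (leaf 1 620 652) (node 593 (merge (leaf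 2 589 592) (leaf 2 590 594))))))) (merge (node 594 (merge (leaf 2 590 593) (node 626 (merge (leaf 2 591 595) (node 590 (merge (leaf 3 589 589) (leaf 3 590 591))))))) (node 653 (merge (leaf 1 621 654) (node 621 (merge (leaf 1 620 652) (node 589 (merge (leaf 3 588 588) (leaf 3 589 590))))))))))))))))) (merge (node 625 (merge (node 593 (merge (leaf 4 496 496) (node 657 (merge (leaf 7 528 561) (leaf 7 560 689))))) (merge (node 496 (merge (leaf 4 496 593) (node 623 (merge (leaf 5 495 591) (node 624 (merge (leaf 5 527 655) (node 495 (merge (leaf 7 463 463) (leaf 7 495 527))))))))) (node 624 (merge (leaf 4 528 657) (node 623 (merge (leaf 5 527 655) (node 622 (merge (node 653 (merge (leaf 1 621 654) (node 621 (merge (leaf 1 620 652) (node 589 (merge (leaf 3 588 588) (leaf 3 589 590))))))) (merge (node 590 (merge (leaf 3 589 589) (node 626 (merge (leaf 3 590 591) (node 659 (merge (leaf 0 623 658) (node 627 (merge (leaf 0 624 660) (node 595 (merge (leaf 2 591 594) (leaf 2 592 596))))))))))) (merge (node 653 (merge (leaf 1 621 654) (node 621 (merge (leaf 1 620 652) (node 591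 (merge (leaf 2 588 620) (node 626 (merge (leaf 3 590 590) (leaf 3 591 627))))))))) (node 653 (merge (leaf 1 621 654) (node 621 (merge (leaf 1 620 652) (node 620 (merge (leaf 2 588 591) (node 588 (merge (leaf 3 587 587) (leaf 3 588 589)))))))))))))))))))) (merge (node 559 (merge (node 495 (merge (node 463 (merge (leaf 7 463 496) (leaf 4 463 527))) (merge (node 496 (merge (leaf 7 463 463) (node 591 (merge (leaf 5 463 464) (leaf 5 495 623))))) (node 624 (merge (leaf 7 495 527) (node 655 (merge (leaf 5 527 623) (node 656 (merge (leaf 5 559 687) (node 688 (merge (leaf 7 559 591) (node 689 (merge (leaf 4 560 657) (leaf 4 592 721)))))))))))))) (merge (node 527 (merge (node 624 (merge (leaf 7 495 495) (leaf 7 527 656))) (node 561 (merge (node 526 (merge (leaf 0 525 525) (leaf 3 526 562))) (merge (node 562 (merge (leaf 3 527 563) (node 590 (merge (leaf 1 558 591) (node 558 (merge (leaf 1 557 589) (node 557 (merge (leaf 2 524 556) (leaf 0 557 593))))))))) (node 558 (merge (node 593 (merge (leaf 0 557 557) (node 594 (merge (leaf 0 558 561) (leaf 3 559 595))))) (merge (node 525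 (merge (leaf 3 525 526) (node 557 (merge (leaf 3 524 524) (leaf 2 524 556))))) (node 593 (merge (leaf 0 558 594) (node 590 (merge (leaf 1 557 589) (node 622 (merge (leaf 6 526 654) (node 621 (merge (leaf 1 589 591) (node 526 (merge (leaf 3 525 525) (leaf 5 525 653))))))))))))))))))) (merge (node 527 (merge (node 624 (merge (leaf 7 495 495) (leaf 7 527 656))) (merge (node 561 (merge (node 562 (merge (leaf 3 526 526) (leaf 3 527 563))) (merge (node 562 (merge (leaf 3 527 563) (node 594 (merge (leaf 0 559 595) (node 558 (merge (leaf 0 558 593) (node 589 (merge (leaf 1 557 590) (node 557 (merge (leaf 2 524 556) (leaf 1 556 588))))))))))) (node 558 (merge (node 525 (merge (leaf 3 525 526) (node 557 (merge (leaf 3 524 524) (leaf 2 524 556))))) (merge (node 590 (merge (leaf 1 557 589) (node 622 (merge (leaf 6 526 654) (node 495 (merge (leaf 5 462 463) (leaf 6 494 526))))))) (node 557 (merge (leaf 2 524 556) (node 589 (merge (leaf 1 556 588) (node 590 (merge (leaf 1 557 561) (node 622 (merge (leaf 6 526 654) (node 525 (merge (leaf 4 493 493) (leaf 3 524 524)))))))))))))))))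 (node 558 (merge (node 557 (merge (leaf 2 524 556) (leaf 0 557 593))) (merge (node 557 (merge (leaf 2 524 556) (node 589 (merge (leaf 1 556 588) (node 561 (merge (leaf 1 557 590) (node 525 (merge (leaf 3 524 524) (leaf 3 525 526))))))))) (node 561 (merge (node 562 (merge (leaf 3 526 526) (leaf 3 527 563))) (node 593 (merge (leaf 0 558 594) (node 590 (merge (leaf 1 557 589) (node 622 (merge (leaf 6 526 654) (node 624 (merge (leaf 7 527 656) (node 623 (merge (leaf 2 589 621) (leaf 5 527 655))))))))))))))))))) (merge (node 558 (merge (node 593 (merge (leaf 0 557 557) (node 594 (merge (leaf 0 558 561) (leaf 3 559 595))))) (merge (node 557 (merge (node 524 (merge (leaf 3 524 525) (node 556 (merge (leaf 3 523 523) (leaf 0 556 591))))) (merge (node 588 (merge (leaf 1 556 589) (node 556 (merge (leaf 2 524 527) (leaf 1 555 587))))) (node 589 (merge (leaf 1 556 588) (node 561 (merge (leaf 1 557 590) (node 525 (merge (leaf 3 524 524) (leaf 3 525 526)))))))))) (node 624 (merge (node 656 (merge (leaf 7 527 527) (node 655 (merge (leaf 5 527 623) (leaf 5 559 687))))) (merge (node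 656 (merge (leaf 7 527 527) (node 688 (merge (leaf 7 559 591) (node 689 (merge (leaf 4 560 657) (leaf 4 592 721))))))) (merge (node 655 (merge (leaf 5 527 623) (node 656 (merge (leaf 5 559 687) (node 688 (merge (leaf 7 559 591) (node 689 (merge (leaf 4 560 657) (leaf 4 592 721))))))))) (node 623 (merge (leaf 5 527 655) (node 591 (merge (leaf 5 495 496) (node 593 (merge (leaf 3 558 594) (node 622 (merge (leaf 2 589 621) (node 654 (merge (leaf 5 526 527) (node 686 (merge (leaf 6 558 590) (leaf 6 590 718)))))))))))))))))))) (node 561 (merge (node 591 (merge (node 590 (merge (leaf 1 558 562) (leaf 2 557 589))) (node 623 (merge (leaf 5 495 496) (leaf 6 527 655))))) (merge (node 562 (merge (node 595 (merge (leaf 0 559 594) (node 563 (merge (leaf 0 560 596) (node 531 (merge (leaf 2 527 530) (leaf 2 528 532))))))) (node 591 (merge (leaf 1 558 590) (node 623 (merge (leaf 5 495 496) (leaf 6 527 655))))))) (merge (node 562 (merge (node 595 (merge (leaf 0 559 594) (node 563 (merge (leaf 0 560 596) (node 531 (merge (leaf 2 527 530) (leaf 2 528 532))))))) (merge (node 594 (merge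 (leaf 0 559 595) (node 558 (merge (leaf 0 558 593) (node 589 (merge (leaf 1 557 590) (node 557 (merge (leaf 1 556 588) (node 525 (merge (leaf 3 524 524) (leaf 3 525 526))))))))))) (merge (node 531 (merge (leaf 2 527 530) (node 563 (merge (leaf 2 528 532) (node 593 (merge (leaf 1 560 564) (node 558 (merge (leaf 0 557 557) (leaf 0 558 594))))))))) (node 531 (merge (leaf 2 527 530) (node 563 (merge (leaf 2 528 532) (node 564 (merge (leaf 1 560 593) (node 596 (merge (leaf 0 560 595) (leaf 0 561 597))))))))))))) (merge (node 562 (merge (node 563 (merge (leaf 1 559 591) (node 531 (merge (leaf 2 527 530) (leaf 2 528 532))))) (merge (node 595 (merge (leaf 0 559 594) (node 563 (merge (leaf 0 560 596) (node 531 (merge (leaf 2 527 530) (leaf 2 528 532))))))) (node 594 (merge (leaf 0 559 595) (node 558 (merge (leaf 0 558 593) (node 525 (merge (leaf 3 525 526) (node 557 (merge (leaf 3 524 524) (node 556 (merge (leaf 0 556 591) (node 588 (merge (leaf 1 555 587) (leaf 1 556 589)))))))))))))))) (node 558 (merge (node 593 (merge (leaf 0 557 557) (leaf 0 558 594))) (node 590 (merge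 (leaf 1 557 589) (node 526 (merge (leaf 3 525 525) (node 622 (merge (node 655 (merge (leaf 4 526 623) (node 654 (merge (leaf 4 558 687) (node 653 (merge (leaf 5 525 621) (leaf 5 557 685))))))) (merge (node 623 (merge (leaf 4 526 655) (node 494 (merge (leaf 4 494 591) (node 463 (merge (leaf 6 462 495) (node 462 (merge (leaf 6 430 431) (node 461 (merge (leaf 7 429 429) (leaf 7 461 493))))))))))) (merge (node 653 (merge (leaf 5 525 621) (node 654 (merge (leaf 5 557 685) (node 591 (merge (leaf 6 558 686) (node 494 (merge (leaf 4 462 462) (leaf 4 494 623))))))))) (node 653 (merge (leaf 5 525 621) (node 654 (merge (leaf 5 557 685) (node 686 (merge (leaf 6 558 591) (node 687 (merge (leaf 4 558 655) (leaf 4 590 719))))))))))))))))))))))))))))) (node 625 (merge (node 593 (merge (leaf 4 496 496) (node 657 (merge (leaf 7 528 561) (leaf 4 528 624))))) (merge (node 496 (merge (leaf 4 496 593) (node 591 (merge (leaf 5 495 623) (node 464 (merge (leaf 5 463 559) (node 463 (merge (leaf 7 431 431) (leaf 7 463 495))))))))) (node 624 (merge (leaf 4 528 657) (node 527 (merge (leaf 7 495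 495) (node 589 (merge (node 590 (merge (leaf 0 589 591) (node 559 (merge (leaf 7 527 656) (node 561 (merge (leaf 1 557 558) (node 562 (merge (leaf 3 526 526) (leaf 3 527 563))))))))) (merge (node 559 (merge (leaf 7 527 656) (node 561 (merge (node 562 (merge (leaf 3 526 526) (leaf 3 527 563))) (merge (node 558 (merge (leaf 1 557 590) (node 557 (merge (leaf 2 524 556) (leaf 1 556 588))))) (node 558 (merge (leaf 1 557 590) (node 557 (merge (leaf 2 524 556) (leaf 1 556 588)))))))))) (merge (node 525 (merge (node 526 (merge (leaf 0 525 561) (node 590 (merge (leaf 0 589 591) (node 493 (merge (leaf 3 492 492) (node 622 (merge (leaf 4 493 557) (leaf 7 493 558))))))))) (merge (node 590 (merge (leaf 0 589 591) (node 622 (merge (leaf 3 589 623) (node 557 (merge (leaf 4 493 493) (node 654 (merge (leaf 7 525 558) (leaf 4 525 621))))))))) (merge (node 526 (merge (leaf 0 525 561) (node 557 (merge (leaf 1 524 556) (node 621 (merge (leaf 6 493 494) (node 493 (merge (leaf 3 492 492) (node 620 (merge (leaf 5 492 588) (leaf 5 524 652))))))))))) (merge (node 526 (merge (leaf 0 525 561)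 (node 590 (merge (leaf 0 589 591) (node 493 (merge (leaf 3 492 492) (node 558 (merge (leaf 7 493 622) (node 494 (merge (leaf 7 461 461) (leaf 5 493 621))))))))))) (node 526 (merge (leaf 0 525 561) (node 557 (merge (leaf 1 524 556) (node 621 (merge (leaf 6 493 494) (node 653 (merge (leaf 6 525 558) (node 652 (merge (leaf 5 524 620) (leaf 5 556 684)))))))))))))))) (merge (node 526 (merge (node 590 (merge (leaf 0 589 591) (node 559 (merge (leaf 7 527 656) (node 525 (merge (leaf 0 524 524) (node 557 (merge (leaf 1 524 556) (node 493 (merge (leaf 3 492 492) (leaf 4 493 622))))))))))) (merge (node 525 (merge (leaf 0 525 561) (node 557 (merge (leaf 1 524 556) (node 621 (merge (leaf 6 493 494) (node 493 (merge (leaf 3 492 492) (node 620 (merge (leaf 5 492 588) (leaf 5 524 652))))))))))) (node 591 (merge (leaf 0 589 590) (node 559 (merge (leaf 7 527 656) (node 623 (merge (leaf 7 494 494) (node 622 (merge (leaf 5 526 654) (node 621 (merge (leaf 3 588 588) (leaf 2 588 620)))))))))))))) (merge (node 590 (merge (leaf 0 589 591) (node 559 (merge (leaf 7 527 656) (node 622 (merge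 (leaf 3 589 623) (node 654 (merge (leaf 6 526 558) (node 686 (merge (leaf 7 557 557) (node 718 (merge (leaf 7 589 621) (node 717 (merge (leaf 5 589 685) (leaf 5 621 749))))))))))))))) (node 557 (merge (node 559 (merge (leaf 7 527 656) (node 558 (merge (leaf 2 524 556) (leaf 1 556 588))))) (merge (node 559 (merge (leaf 7 527 656) (node 525 (merge (node 558 (merge (leaf 3 524 524) (leaf 2 524 556))) (merge (node 526 (merge (leaf 0 524 524) (leaf 0 525 561))) (node 556 (merge (leaf 1 524 526) (leaf 2 524 558)))))))) (merge (node 525 (merge (node 526 (merge (leaf 1 524 556) (leaf 0 525 561))) (merge (node 526 (merge (leaf 0 525 561) (node 524 (merge (leaf 0 524 559) (node 621 (merge (leaf 7 492 492) (leaf 6 493 494))))))) (node 620 (merge (node 621 (merge (leaf 5 524 652) (node 622 (merge (leaf 4 525 654) (node 623 (merge (leaf 3 588 588) (leaf 2 588 591))))))) (merge (node 493 (merge (leaf 5 492 588) (node 462 (merge (leaf 6 461 494) (node 461 (merge (leaf 6 429 430) (node 460 (merge (leaf 7 428 428) (leaf 7 460 492))))))))) (node 621 (merge (leaf 5 524 652) (node 524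 (merge (leaf 7 492 492) (node 653 (merge (leaf 7 524 556) (node 654 (merge (leaf 4 525 622) (leaf 4 557 686))))))))))))))) (merge (node 525 (merge (node 526 (merge (leaf 1 524 556) (leaf 0 525 561))) (merge (node 526 (merge (leaf 0 525 561) (node 621 (merge (leaf 6 493 494) (node 653 (merge (leaf 6 525 558) (node 652 (merge (leaf 5 524 620) (leaf 5 556 684))))))))) (node 620 (merge (node 621 (merge (leaf 5 524 652) (node 622 (merge (leaf 4 525 654) (node 623 (merge (leaf 3 588 588) (leaf 2 588 591))))))) (merge (node 493 (merge (leaf 5 492 588) (node 462 (merge (leaf 6 461 494) (node 461 (merge (leaf 6 429 430) (node 460 (merge (leaf 7 428 428) (leaf 7 460 492))))))))) (node 621 (merge (leaf 5 524 652) (node 524 (merge (leaf 7 492 492) (node 653 (merge (leaf 7 524 556) (node 654 (merge (leaf 4 525 622) (leaf 4 557 686))))))))))))))) (node 559 (merge (leaf 7 527 656) (node 558 (merge (leaf 1 556 588) (node 525 (merge (leaf 3 524 524) (node 526 (merge (leaf 0 525 561) (node 621 (merge (leaf 6 493 494) (leaf 6 525 653))))))))))))))))))))))))))))))))))))) nP_8 cP_8 13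 (by decide +kernel)
def nP_9 : ℕ := 0x100000001000000010000000000000000000000000000000000000000000000000000000000000000000000000000000000000000000000000000000000000000000000000000
def cP_9 : ℕ := 0x200000003800000038000003b8000003f0000001ee00000fcf800007ef00000fef000000e8000000e8000000e00000002000000000000000000000000000000000000000000000000000000000000000000000000000000000000
theorem lP_9 : S nP_9 cP_9 14 := S_of_chk [] trivial (node 497 (merge (node 592 (merge (leaf 6 464 465) (node 625 (merge (leaf 4 496 593) (node 624 (merge (leaf 4 528 657) (node 527 (merge (leaf 7 495 495) (node 656 (merge (leaf 7 527 559) (node 655 (merge (leaf 5 527 623) (leaf 5 559 687))))))))))))) (merge (node 495 (merge (node 463 (merge (leaf 7 463 592) (node 431 (merge (leaf 4 399 399) (leaf 4 431 527))))) (merge (node 463 (merge (leaf 7 463 592) (node 462 (merge (leaf 3 462 498) (node 461 (merge (leaf 0 460 460) (leaf 3 461 494))))))) (node 494 (merge (node 461 (merge (leaf 3 461 462) (node 493 (merge (leaf 3 460 460) (node 525 (merge (leaf 1 492 524) (leaf 1 493 526))))))) (merge (node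 526 (merge (leaf 1 493 525) (node 498 (merge (leaf 1 494 527) (node 531 (merge (leaf 0 495 530) (node 499 (merge (leaf 0 496 532) (node 467 (merge (leaf 2 463 466) (leaf 2 464 468))))))))))) (merge (node 461 (merge (leaf 3 461 462) (node 493 (merge (leaf 3 460 460) (node 527 (merge (leaf 0 492 492) (node 498 (merge (leaf 1 495 499) (leaf 1 494 526))))))))) (node 461 (merge (leaf 3 461 462) (node 493 (merge (leaf 3 460 460) (node 492 (merge (leaf 0 492 527) (node 524 (merge (leaf 1 491 523) (leaf 1 492 525)))))))))))))))) (merge (node 498 (merge (node 527 (merge (leaf 1 495 499) (node 526 (merge (leaf 1 494 495) (leaf 2 493 525))))) (merge (node 499 (merge (leaf 1 495 527) (node 532 (merge (leaf 0 496 531) (node 500 (merge (leaf 0 497 533) (node 468 (merge (leaf 2 464 467) (leaf 2 465 469))))))))) (merge (node 495 (merge (node 463 (merge (leaf 3 462 462) (node 527 (merge (leaf 4 431 431) (leaf 1 494 526))))) (node 530 (merge (leaf 0 495 531) (node 466 (merge (leaf 2 463 467) (node 465 (merge (leaf 2 462 494) (node 433 (merge (leaf 4 401 401) (leaf 7 433 562)))))))))))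 (node 466 (merge (node 467 (merge (leaf 2 463 495) (node 468 (merge (leaf 1 465 469) (leaf 2 464 499))))) (merge (node 495 (merge (leaf 2 463 467) (node 494 (merge (leaf 2 462 465) (node 462 (merge (leaf 3 461 461) (leaf 3 462 463))))))) (merge (node 499 (merge (node 531 (merge (leaf 0 496 532) (node 563 (merge (leaf 7 466 595) (node 434 (merge (leaf 4 402 402) (leaf 4 434 530))))))) (node 500 (merge (node 468 (merge (leaf 2 464 467) (leaf 2 465 469))) (merge (node 501 (merge (leaf 3 465 465) (node 534 (merge (leaf 0 498 533) (node 502 (merge (leaf 3 466 467) (leaf 0 499 535))))))) (node 469 (merge (leaf 2 465 468) (node 501 (merge (leaf 3 465 465) (leaf 2 466 470)))))))))) (node 530 (merge (node 531 (merge (leaf 0 495 495) (node 532 (merge (leaf 0 496 499) (leaf 3 497 533))))) (node 434 (merge (node 403 (merge (leaf 6 402 435) (node 402 (merge (leaf 6 370 371) (node 401 (merge (leaf 7 369 369) (leaf 7 401 433))))))) (merge (node 433 (merge (leaf 7 401 401) (node 562 (merge (leaf 7 433 465) (node 595 (merge (leaf 4 466 563) (node 594 (merge (leaf 4 498 627) (node 561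 (merge (leaf 0 559 559) (leaf 5 465 593))))))))))) (merge (node 403 (merge (leaf 6 402 435) (node 402 (merge (leaf 6 370 371) (node 465 (merge (leaf 5 369 370) (node 562 (merge (leaf 7 433 433) (leaf 7 465 594))))))))) (node 403 (merge (leaf 6 402 435) (node 402 (merge (leaf 6 370 371) (node 369 (merge (leaf 7 369 401) (node 370 (merge (leaf 7 337 337) (leaf 5 369 465))))))))))))))))))))))) (merge (node 498 (merge (node 495 (merge (node 463 (merge (leaf 3 462 462) (leaf 7 463 592))) (merge (node 466 (merge (leaf 2 463 467) (node 494 (merge (leaf 2 462 465) (node 462 (merge (leaf 3 461 461) (leaf 3 462 463))))))) (node 465 (merge (leaf 6 464 592) (node 466 (merge (leaf 2 462 494) (node 467 (merge (leaf 1 464 468) (leaf 2 463 498)))))))))) (merge (node 530 (merge (node 531 (merge (leaf 0 495 495) (node 532 (merge (leaf 0 496 499) (leaf 3 497 533))))) (node 465 (merge (leaf 6 464 592) (node 562 (merge (leaf 7 465 594) (node 433 (merge (leaf 4 401 401) (leaf 7 433 466))))))))) (merge (node 495 (merge (node 531 (merge (leaf 0 495 530) (node 499 (merge (leaf 0 496 532) (node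 467 (merge (leaf 2 463 466) (leaf 2 464 468))))))) (node 463 (merge (leaf 7 463 592) (node 462 (merge (leaf 3 462 498) (node 461 (merge (leaf 0 460 460) (leaf 3 461 494))))))))) (merge (node 592 (merge (leaf 6 464 465) (node 593 (merge (leaf 4 496 625) (node 495 (merge (leaf 7 463 463) (node 531 (merge (leaf 0 495 530) (node 499 (merge (leaf 0 496 532) (node 468 (merge (leaf 2 464 467) (node 500 (merge (leaf 2 465 469) (node 595 (merge (leaf 6 467 563) (node 594 (merge (leaf 3 559 559) (node 628 (merge (leaf 0 592 627) (node 596 (merge (leaf 3 560 561) (leaf 0 593 629))))))))))))))))))))))) (merge (node 499 (merge (node 532 (merge (leaf 0 496 531) (node 500 (merge (leaf 0 497 533) (node 468 (merge (leaf 2 464 467) (leaf 2 465 469))))))) (merge (node 594 (merge (node 531 (merge (leaf 0 496 532) (node 467 (merge (leaf 2 464 468) (node 562 (merge (leaf 6 466 530) (leaf 5 466 563))))))) (merge (node 592 (merge (leaf 6 464 465) (node 593 (merge (leaf 4 496 625) (node 559 (merge (leaf 3 559 595) (node 558 (merge (leaf 0 557 557) (leaf 0 558 561))))))))) (node 592 (merge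 (leaf 6 464 465) (node 593 (merge (leaf 4 496 625) (node 559 (merge (leaf 3 559 595) (node 558 (merge (leaf 0 557 557) (leaf 0 558 561)))))))))))) (merge (node 500 (merge (node 532 (merge (leaf 0 496 531) (leaf 0 497 533))) (merge (node 465 (merge (leaf 6 464 592) (node 501 (merge (leaf 3 465 466) (node 534 (merge (leaf 0 498 533) (node 502 (merge (leaf 0 499 535) (node 470 (merge (leaf 2 466 469) (leaf 2 467 471))))))))))) (node 531 (merge (leaf 0 496 532) (node 465 (merge (leaf 6 464 592) (node 501 (merge (leaf 3 465 466) (node 502 (merge (leaf 1 498 530) (node 470 (merge (leaf 2 466 469) (leaf 2 467 471)))))))))))))) (merge (node 465 (merge (leaf 6 464 592) (node 468 (merge (leaf 2 464 467) (node 500 (merge (leaf 2 465 469) (node 533 (merge (leaf 0 497 532) (node 501 (merge (leaf 3 465 466) (leaf 0 498 534))))))))))) (node 530 (merge (node 467 (merge (leaf 2 464 468) (node 562 (merge (leaf 6 466 594) (node 435 (merge (leaf 5 402 403) (leaf 5 434 531))))))) (merge (node 465 (merge (leaf 6 464 592) (node 562 (merge (leaf 7 465 594) (node 433 (merge (leaf 4 401 401)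 (leaf 7 433 466))))))) (node 465 (merge (leaf 6 464 592) (node 468 (merge (leaf 2 464 467) (node 500 (merge (leaf 2 465 469) (node 501 (merge (leaf 3 465 466) (node 534 (merge (leaf 0 498 533) (node 502 (merge (leaf 1 498 531) (leaf 0 499 535))))))))))))))))))))) (node 466 (merge (node 467 (merge (leaf 2 463 495) (node 468 (merge (leaf 1 465 469) (leaf 2 464 499))))) (merge (node 495 (merge (leaf 2 463 467) (node 494 (merge (leaf 2 462 465) (node 462 (merge (leaf 3 461 461) (leaf 3 462 463))))))) (merge (node 499 (merge (node 531 (merge (leaf 0 496 532) (node 563 (merge (leaf 7 466 595) (node 434 (merge (leaf 4 402 402) (leaf 4 434 530))))))) (node 500 (merge (node 468 (merge (leaf 2 464 467) (leaf 2 465 469))) (merge (node 501 (merge (leaf 3 465 465) (node 534 (merge (leaf 0 498 533) (node 502 (merge (leaf 3 466 467) (leaf 0 499 535))))))) (node 469 (merge (leaf 2 465 468) (node 501 (merge (leaf 3 465 465) (leaf 2 466 470)))))))))) (node 530 (merge (node 531 (merge (leaf 0 495 495) (node 532 (merge (leaf 0 496 499) (leaf 3 497 533))))) (node 434 (merge (node 403 (merge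 (leaf 6 402 435) (node 402 (merge (leaf 6 370 371) (node 401 (merge (leaf 7 369 369) (leaf 7 401 433))))))) (merge (node 433 (merge (leaf 7 401 401) (node 562 (merge (leaf 7 433 465) (node 595 (merge (leaf 4 466 563) (node 594 (merge (leaf 4 498 627) (node 561 (merge (leaf 0 559 559) (leaf 5 465 593))))))))))) (merge (node 403 (merge (leaf 6 402 435) (node 402 (merge (leaf 6 370 371) (node 465 (merge (leaf 5 369 370) (node 562 (merge (leaf 7 433 433) (leaf 7 465 594))))))))) (node 403 (merge (leaf 6 402 435) (node 402 (merge (leaf 6 370 371) (node 369 (merge (leaf 7 369 401) (node 370 (merge (leaf 7 337 337) (leaf 5 369 465))))))))))))))))))))))))) (node 498 (merge (node 499 (merge (leaf 1 495 527) (node 532 (merge (leaf 0 496 531) (node 500 (merge (leaf 0 497 533) (node 468 (merge (leaf 2 464 467) (leaf 2 465 469))))))))) (merge (node 592 (merge (leaf 6 464 465) (node 527 (merge (leaf 1 495 499) (node 625 (merge (leaf 4 496 593) (node 624 (merge (leaf 4 528 657) (node 656 (merge (leaf 7 527 559) (node 655 (merge (leaf 5 527 623) (leaf 5 559 687))))))))))))) (merge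 (node 561 (merge (node 562 (merge (node 527 (merge (leaf 3 527 563) (node 526 (merge (leaf 0 525 525) (leaf 3 526 559))))) (node 465 (merge (leaf 6 464 592) (node 530 (merge (leaf 7 465 594) (node 433 (merge (leaf 4 401 401) (leaf 7 433 466))))))))) (merge (node 592 (merge (leaf 6 464 465) (node 624 (merge (node 625 (merge (leaf 4 496 593) (leaf 4 528 657))) (merge (node 593 (merge (leaf 4 496 625) (node 656 (merge (leaf 6 560 688) (node 655 (merge (leaf 5 527 623) (leaf 5 559 687))))))) (merge (node 657 (merge (leaf 4 528 625) (node 656 (merge (leaf 4 560 689) (node 655 (merge (leaf 5 527 623) (leaf 5 559 687))))))) (node 655 (merge (leaf 5 527 623) (node 656 (merge (leaf 5 559 687) (node 688 (merge (leaf 6 560 593) (node 689 (merge (leaf 4 560 657) (leaf 4 592 721))))))))))))))) (merge (node 562 (merge (node 527 (merge (leaf 3 527 563) (node 526 (merge (leaf 0 525 525) (leaf 3 526 559))))) (merge (node 563 (merge (leaf 3 527 527) (node 596 (merge (leaf 0 560 595) (node 564 (merge (leaf 0 561 597) (node 532 (merge (leaf 2 528 531) (leaf 2 529 533))))))))) (node 593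 (merge (node 625 (merge (leaf 4 496 592) (leaf 7 528 657))) (node 530 (merge (leaf 5 465 466) (node 559 (merge (leaf 2 527 531) (node 594 (merge (leaf 0 558 558) (leaf 0 559 595)))))))))))) (node 562 (merge (node 527 (merge (leaf 3 527 563) (node 526 (merge (leaf 0 525 525) (leaf 3 526 559))))) (merge (node 563 (merge (leaf 3 527 527) (node 596 (merge (leaf 0 560 595) (node 564 (merge (leaf 0 561 597) (node 532 (merge (leaf 2 528 531) (leaf 2 529 533))))))))) (node 530 (merge (node 465 (merge (leaf 7 465 594) (node 433 (merge (leaf 4 401 401) (leaf 7 433 466))))) (merge (node 559 (merge (leaf 2 527 531) (node 594 (merge (leaf 0 559 595) (node 593 (merge (leaf 0 558 558) (leaf 5 497 625))))))) (node 466 (merge (leaf 5 465 593) (node 467 (merge (leaf 6 434 435) (node 465 (merge (leaf 7 433 433) (leaf 1 464 468))))))))))))))))) (node 499 (merge (node 532 (merge (leaf 0 496 531) (node 500 (merge (leaf 0 497 533) (node 468 (merge (leaf 2 464 467) (leaf 2 465 469))))))) (merge (node 594 (merge (node 531 (merge (leaf 0 496 532) (node 467 (merge (leaf 2 464 468) (node 562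 (merge (leaf 6 466 530) (leaf 5 466 563))))))) (merge (node 592 (merge (leaf 6 464 465) (node 593 (merge (leaf 4 496 625) (node 559 (merge (leaf 3 559 595) (node 558 (merge (leaf 0 557 557) (leaf 0 558 561))))))))) (node 592 (merge (leaf 6 464 465) (node 593 (merge (leaf 4 496 625) (node 559 (merge (leaf 3 559 595) (node 558 (merge (leaf 0 557 557) (leaf 0 558 561)))))))))))) (merge (node 500 (merge (node 532 (merge (leaf 0 496 531) (leaf 0 497 533))) (merge (node 465 (merge (leaf 6 464 592) (node 501 (merge (leaf 3 465 466) (node 534 (merge (leaf 0 498 533) (node 502 (merge (leaf 0 499 535) (node 470 (merge (leaf 2 466 469) (leaf 2 467 471))))))))))) (node 531 (merge (leaf 0 496 532) (node 465 (merge (leaf 6 464 592) (node 501 (merge (leaf 3 465 466) (node 502 (merge (leaf 1 498 530) (node 470 (merge (leaf 2 466 469) (leaf 2 467 471)))))))))))))) (merge (node 465 (merge (leaf 6 464 592) (node 468 (merge (leaf 2 464 467) (node 500 (merge (leaf 2 465 469) (node 533 (merge (leaf 0 497 532) (node 501 (merge (leaf 3 465 466) (leaf 0 498 534))))))))))) (node 530 (merge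 (node 467 (merge (leaf 2 464 468) (node 562 (merge (leaf 6 466 594) (node 435 (merge (leaf 5 402 403) (leaf 5 434 531))))))) (merge (node 465 (merge (leaf 6 464 592) (node 562 (merge (leaf 7 465 594) (node 433 (merge (leaf 4 401 401) (leaf 7 433 466))))))) (node 465 (merge (leaf 6 464 592) (node 468 (merge (leaf 2 464 467) (node 500 (merge (leaf 2 465 469) (node 501 (merge (leaf 3 465 466) (node 534 (merge (leaf 0 498 533) (node 502 (merge (leaf 1 498 531) (leaf 0 499 535)))))))))))))))))))))))))))))) nP_9 cP_9 14 (by decide +kernel)
def nP_10 : ℕ := 0x180000001000000000000000000000000000000000000000000000000000000000000000000000000000000000000000000000000000000000000000000000000000000000000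
def cP_10 : ℕ := 0x80000002f000000ff00000007000001cfe00000ffc00001ffe000003fc000002f000000060000000000000000000000000000000000000000000000000000000000000000000000000000000000000000000
theorem lP_10 : S nP_10 cP_10 13 := S_of_chk [] trivial (node 496 (merge (node 591 (merge (leaf 5 463 464) (node 623 (merge (leaf 6 495 527) (leaf 6 527 655))))) (merge (node 591 (merge (leaf 5 463 464) (node 623 (merge (leaf 5 495 592) (leaf 6 527 655))))) (merge (node 464 (merge (node 433 (merge (leaf 6 432 465) (node 432 (merge (leaf 6 400 401) (leaf 5 431 527))))) (merge (node 432 (merge (leaf 5 431 527) (node 431 (merge (leaf 7 399 399) (leaf 7 431 463))))) (node 465 (merge (leaf 6 432 433) (node 592 (merge (leaf 6 464 497) (node 463 (merge (leaf 7 431 431) (leaf 7 463 495)))))))))) (node 495 (merge (node 463 (merge (leaf 7 463 592) (node 431 (merge (leaf 4 399 399) (leaf 4 431 527))))) (merge (node 592 (merge (leaf 7 463 463) (node 593 (merge (leaf 4 496 625) (node 558 (merge (leaf 0 557 557) (node 591 (merge (leaf 3 558 594) (leaf 5 495 623))))))))) (merge (node 497 (merge (node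 592 (merge (leaf 6 464 465) (node 593 (merge (leaf 4 496 625) (node 558 (merge (leaf 0 557 557) (node 594 (merge (leaf 3 558 591) (leaf 3 559 595))))))))) (merge (node 498 (merge (node 527 (merge (leaf 1 495 499) (leaf 1 494 526))) (merge (node 531 (merge (leaf 0 495 530) (node 499 (merge (leaf 0 496 532) (node 467 (merge (leaf 2 463 466) (leaf 2 464 468))))))) (node 526 (merge (leaf 1 494 527) (node 494 (merge (leaf 1 493 525) (node 466 (merge (leaf 2 462 465) (leaf 2 463 467)))))))))) (node 498 (merge (node 531 (merge (leaf 0 495 530) (node 499 (merge (leaf 0 496 532) (node 467 (merge (leaf 2 463 466) (leaf 2 464 468))))))) (node 526 (merge (leaf 1 494 527) (node 494 (merge (leaf 1 493 525) (node 462 (merge (leaf 3 461 461) (node 591 (merge (leaf 4 462 558) (node 623 (merge (leaf 5 495 592) (leaf 6 527 655)))))))))))))))) (node 494 (merge (node 461 (merge (node 462 (merge (leaf 3 461 497) (node 460 (merge (leaf 0 459 459) (leaf 0 460 463))))) (merge (node 460 (merge (leaf 3 460 493) (node 462 (merge (leaf 0 459 459) (leaf 0 460 463))))) (merge (node 493 (merge (leaf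 3 460 460) (node 525 (merge (leaf 1 492 524) (node 526 (merge (leaf 1 493 497) (node 558 (merge (leaf 4 429 429) (leaf 7 461 590))))))))) (node 526 (merge (node 525 (merge (leaf 1 493 497) (node 524 (merge (leaf 1 492 493) (leaf 2 491 523))))) (merge (node 462 (merge (leaf 3 461 497) (node 558 (merge (leaf 7 429 429) (node 590 (merge (leaf 6 462 463) (leaf 7 461 493))))))) (merge (node 497 (merge (leaf 1 493 525) (node 462 (merge (leaf 3 461 461) (node 463 (merge (leaf 3 462 498) (node 558 (merge (leaf 6 430 431) (leaf 6 462 590))))))))) (node 558 (merge (node 590 (merge (leaf 6 462 463) (leaf 7 461 493))) (merge (node 463 (merge (leaf 6 462 590) (node 462 (merge (leaf 7 429 429) (leaf 6 430 431))))) (merge (node 462 (merge (leaf 7 429 429) (node 590 (merge (leaf 7 461 493) (node 589 (merge (leaf 5 461 557) (leaf 5 493 621))))))) (node 462 (merge (leaf 7 429 429) (node 557 (merge (leaf 5 461 589) (node 525 (merge (leaf 5 429 430) (node 524 (merge (leaf 1 492 493) (leaf 2 491 523))))))))))))))))))))) (merge (node 463 (merge (node 431 (merge (leaf 4 399 399) (leaf 4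 431 527))) (merge (node 526 (merge (node 558 (merge (leaf 6 462 590) (node 431 (merge (leaf 5 398 399) (leaf 6 430 462))))) (merge (node 497 (merge (leaf 1 493 525) (node 466 (merge (leaf 2 462 465) (node 498 (merge (leaf 3 462 462) (leaf 2 463 467))))))) (node 525 (merge (leaf 1 493 497) (node 524 (merge (leaf 1 492 493) (leaf 2 491 523)))))))) (node 525 (merge (node 524 (merge (leaf 1 492 493) (node 526 (merge (leaf 2 491 523) (leaf 2 492 527))))) (merge (node 497 (merge (leaf 1 493 526) (node 466 (merge (leaf 2 462 465) (node 498 (merge (leaf 3 462 462) (leaf 2 463 467))))))) (node 493 (merge (leaf 1 492 524) (node 492 (merge (leaf 0 492 527) (node 491 (merge (leaf 2 459 462) (node 522 (merge (leaf 1 490 523) (node 490 (merge (leaf 1 489 521) (node 458 (merge (leaf 3 457 457) (leaf 3 458 459))))))))))))))))))) (merge (node 493 (merge (node 460 (merge (leaf 3 460 461) (node 492 (merge (leaf 3 459 459) (leaf 0 492 527))))) (merge (node 461 (merge (leaf 3 460 460) (node 497 (merge (leaf 3 461 462) (node 466 (merge (leaf 2 462 465) (node 498 (merge (leaf 2 463 467)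 (node 531 (merge (leaf 0 495 530) (node 499 (merge (leaf 1 495 527) (leaf 0 496 532))))))))))))) (merge (node 492 (merge (leaf 0 492 527) (node 523 (merge (leaf 1 491 524) (node 491 (merge (leaf 1 490 522) (node 459 (merge (leaf 3 458 458) (leaf 3 459 460))))))))) (merge (node 492 (merge (leaf 0 492 527) (node 523 (merge (leaf 1 491 524) (node 491 (merge (leaf 1 490 522) (node 462 (merge (leaf 2 459 463) (node 461 (merge (leaf 2 458 490) (leaf 3 461 497))))))))))) (node 492 (merge (node 460 (merge (leaf 3 459 459) (leaf 3 460 461))) (merge (node 523 (merge (leaf 1 491 524) (node 491 (merge (leaf 1 490 522) (node 459 (merge (leaf 3 458 458) (leaf 3 459 460))))))) (merge (node 523 (merge (leaf 1 491 524) (node 491 (merge (leaf 1 490 522) (node 462 (merge (leaf 2 459 463) (node 461 (merge (leaf 2 458 490) (leaf 3 461 497))))))))) (node 461 (merge (leaf 3 460 460) (node 462 (merge (leaf 3 461 497) (node 491 (merge (leaf 2 459 463) (leaf 2 458 490)))))))))))))))) (merge (node 493 (merge (node 460 (merge (leaf 3 460 461) (node 492 (merge (leaf 3 459 459) (leaf 0 492 527)))))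 (merge (node 492 (merge (leaf 0 492 527) (node 524 (merge (leaf 1 491 523) (leaf 1 492 525))))) (merge (node 460 (merge (leaf 3 460 461) (node 492 (merge (leaf 3 459 459) (node 524 (merge (leaf 1 491 523) (leaf 1 492 525))))))) (node 525 (merge (leaf 1 492 524) (node 497 (merge (leaf 1 493 526) (node 466 (merge (leaf 2 462 465) (node 498 (merge (leaf 2 463 467) (node 531 (merge (leaf 0 495 530) (node 499 (merge (leaf 1 495 527) (leaf 0 496 532))))))))))))))))) (merge (node 497 (merge (node 466 (merge (leaf 2 462 465) (node 498 (merge (leaf 2 463 467) (node 462 (merge (leaf 3 461 461) (leaf 3 462 463))))))) (merge (node 463 (merge (node 431 (merge (leaf 4 399 399) (leaf 4 431 527))) (node 462 (merge (leaf 3 462 498) (node 461 (merge (leaf 0 460 460) (leaf 3 461 494))))))) (merge (node 526 (merge (leaf 1 493 525) (node 498 (merge (leaf 1 494 527) (node 531 (merge (leaf 0 495 530) (node 499 (merge (leaf 0 496 532) (node 467 (merge (leaf 2 463 466) (leaf 2 464 468))))))))))) (node 431 (merge (node 463 (merge (leaf 4 399 399) (leaf 4 431 527))) (merge (node 526 (merge (leaf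 1 493 525) (node 465 (merge (leaf 2 462 466) (node 462 (merge (leaf 3 461 461) (node 430 (merge (leaf 6 398 399) (node 397 (merge (leaf 7 397 429) (node 398 (merge (leaf 7 365 365) (node 433 (merge (leaf 5 400 401) (leaf 3 397 432))))))))))))))) (node 526 (merge (leaf 1 493 525) (node 462 (merge (leaf 3 461 461) (node 558 (merge (leaf 6 430 463) (node 589 (merge (leaf 5 461 557) (node 590 (merge (leaf 5 493 621) (node 622 (merge (leaf 6 494 527) (node 623 (merge (leaf 4 494 591) (leaf 4 526 655)))))))))))))))))))))) (node 493 (merge (node 460 (merge (leaf 3 460 461) (node 492 (merge (leaf 3 459 459) (leaf 0 492 527))))) (merge (node 492 (merge (leaf 0 492 527) (node 524 (merge (leaf 1 491 523) (leaf 1 492 525))))) (merge (node 460 (merge (leaf 3 460 461) (node 492 (merge (leaf 3 459 459) (node 524 (merge (leaf 1 491 523) (leaf 1 492 525))))))) (node 461 (merge (leaf 3 460 460) (node 558 (merge (node 525 (merge (leaf 1 492 524) (node 590 (merge (leaf 7 461 526) (leaf 4 461 557))))) (merge (node 526 (merge (leaf 7 461 590) (node 462 (merge (leaf 7 429 429) (node 431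 (merge (leaf 6 430 463) (node 430 (merge (leaf 6 398 399) (node 398 (merge (leaf 5 365 366) (leaf 4 398 527))))))))))) (merge (node 525 (merge (leaf 1 492 524) (node 557 (merge (leaf 4 461 590) (node 589 (merge (leaf 6 461 462) (node 588 (merge (leaf 5 460 556) (leaf 5 492 620))))))))) (node 525 (merge (leaf 1 492 524) (node 429 (merge (leaf 4 429 526) (node 430 (merge (leaf 6 397 398) (node 462 (merge (leaf 6 429 557) (node 428 (merge (leaf 7 396 396) (node 427 (merge (leaf 0 426 426) (leaf 0 427 463))))))))))))))))))))))))))))))))))))) nP_10 cP_10 13 (by decide +kernel)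
def nP_11 : ℕ := 0x100000001000000000000000000000000000000000000000000000000000000000000000000000000000000000000000000000000000000000000000000000000000000000000
def cP_11 : ℕ := 0xc0000000f0000003f0000002f000003ff800001ef000003cfe00001ffc00003ffe00000ffc00000ef000000060000000000000000000000000000000000000000000000000000000000000000000000000000000000000000000
theorem lP_11 : S nP_11 cP_11 15 := S_of_chk [(nP_3, cP_3, 10), (nP_4, cP_4, 7), (nP_10, cP_10, 13)] ⟨lP_3, lP_4, lP_10, trivial⟩ (node 559 (merge (node 496 (merge (node 591 (merge (leaf 5 463 464) (node 623 (merge (leaf 6 495 527) (leaf 6 527 655))))) (merge (node 591 (merge (leaf 5 463 464) (node 623 (merge (leaf 5 495 592) (leaf 6 527 655))))) (merge (node 464 (merge (node 433 (merge (leaf 6 432 465) (node 432 (merge (leaf 6 400 401) (leaf 5 431 527))))) (merge (node 432 (merge (leaf 5 431 527) (node 431 (merge (leaf 7 399 399) (leaf 7 431 463))))) (node 465 (merge (leaf 6 432 433) (node 592 (merge (leaf 6 464 497) (node 463 (merge (leaf 7 431 431) (leaf 7 463 495)))))))))) (node 495 (merge (node 463 (merge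 (leaf 7 463 592) (node 431 (merge (leaf 4 399 399) (leaf 4 431 527))))) (merge (node 592 (merge (leaf 7 463 463) (node 593 (merge (leaf 4 496 625) (node 594 (merge (leaf 3 559 595) (node 591 (merge (leaf 3 558 558) (leaf 5 495 623))))))))) (merge (node 527 (merge (node 463 (merge (leaf 4 431 431) (node 462 (merge (leaf 7 430 430) (node 461 (merge (leaf 0 460 460) (node 497 (merge (leaf 3 461 494) (leaf 3 462 498))))))))) (node 591 (merge (leaf 6 495 623) (node 590 (merge (leaf 5 494 622) (node 561 (merge (leaf 1 558 562) (node 589 (merge (leaf 1 557 558) (leaf 2 556 588))))))))))) (node 591 (merge (node 623 (merge (leaf 6 495 527) (leaf 6 527 655))) (merge (node 623 (merge (leaf 5 495 592) (leaf 6 527 655))) (node 590 (merge (node 561 (merge (leaf 1 558 562) (node 589 (merge (leaf 2 556 588) (leaf 2 557 592))))) (merge (node 561 (merge (leaf 1 558 562) (node 589 (merge (leaf 1 557 558) (leaf 2 556 588))))) (node 527 (merge (leaf 5 494 622) (node 494 (merge (leaf 7 462 462) (node 493 (merge (leaf 0 492 492) (node 461 (merge (leaf 3 460 460) (node 526 (merge (leaf 7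 461 558) (node 497 (merge (leaf 1 494 498) (node 465 (merge (leaf 2 462 466) (leaf 6 464 592))))))))))))))))))))))))))))) (merge (node 496 (merge (node 591 (merge (leaf 5 463 464) (node 623 (merge (leaf 6 495 527) (leaf 6 527 655))))) (merge (node 591 (merge (leaf 5 463 464) (node 623 (merge (leaf 5 495 592) (leaf 6 527 655))))) (merge (node 464 (merge (node 433 (merge (leaf 6 432 465) (node 432 (merge (leaf 6 400 401) (leaf 5 431 527))))) (merge (node 432 (merge (leaf 5 431 527) (node 431 (merge (leaf 7 399 399) (leaf 7 431 463))))) (node 465 (merge (leaf 6 432 433) (node 592 (merge (leaf 6 464 497) (node 463 (merge (leaf 7 431 431) (leaf 7 463 495)))))))))) (node 497 (merge (node 592 (merge (leaf 6 464 465) (node 593 (merge (leaf 4 496 625) (node 558 (merge (leaf 0 557 557) (node 591 (merge (leaf 3 558 594) (leaf 5 495 623))))))))) (merge (node 495 (merge (node 463 (merge (leaf 7 463 592) (node 431 (merge (leaf 4 399 399) (leaf 4 431 527))))) (merge (node 463 (merge (leaf 7 463 592) (node 462 (merge (leaf 3 462 498) (node 461 (merge (leaf 0 460 460) (leaf 3 461 494)))))))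 (merge (node 527 (merge (node 526 (merge (leaf 1 494 498) (leaf 2 493 525))) (merge (node 463 (merge (leaf 4 431 431) (node 498 (merge (leaf 3 462 462) (leaf 1 495 499))))) (node 591 (merge (leaf 6 495 623) (node 494 (merge (leaf 7 462 462) (node 493 (merge (leaf 0 492 492) (node 525 (merge (leaf 1 492 524) (node 526 (merge (leaf 1 493 497) (leaf 0 525 561)))))))))))))) (node 498 (merge (node 531 (merge (leaf 0 495 530) (node 499 (merge (leaf 0 496 532) (node 467 (merge (leaf 2 463 466) (leaf 2 464 468))))))) (node 526 (merge (leaf 1 494 527) (node 494 (merge (leaf 1 493 525) (node 462 (merge (leaf 3 461 461) (node 591 (merge (leaf 4 462 558) (node 623 (merge (leaf 5 495 592) (leaf 6 527 655))))))))))))))))) (node 498 (merge (node 527 (merge (leaf 1 495 499) (node 526 (merge (leaf 1 494 495) (leaf 2 493 525))))) (merge (node 499 (merge (leaf 1 495 527) (node 532 (merge (leaf 0 496 531) (node 500 (merge (leaf 0 497 533) (node 468 (merge (leaf 2 464 467) (leaf 2 465 469))))))))) (merge (node 495 (merge (node 463 (merge (leaf 3 462 462) (node 527 (merge (leaf 4 431 431)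 (leaf 1 494 526))))) (merge (node 526 (merge (leaf 1 494 527) (node 494 (merge (leaf 1 493 525) (node 466 (merge (leaf 2 462 465) (leaf 2 463 467))))))) (node 466 (merge (leaf 2 463 467) (node 494 (merge (leaf 2 462 465) (node 462 (merge (leaf 3 461 461) (leaf 3 462 463)))))))))) (node 531 (merge (node 530 (merge (leaf 0 495 495) (node 532 (merge (leaf 0 496 499) (leaf 3 497 533))))) (merge (node 495 (merge (leaf 0 495 530) (node 466 (merge (leaf 2 463 467) (node 494 (merge (leaf 2 462 465) (node 462 (merge (leaf 3 461 461) (leaf 3 462 463))))))))) (merge (node 499 (merge (leaf 0 496 532) (node 467 (merge (leaf 2 464 468) (node 466 (merge (leaf 2 463 495) (node 434 (merge (leaf 4 402 402) (leaf 7 434 563))))))))) (node 532 (merge (leaf 0 496 499) (node 530 (merge (leaf 3 497 533) (node 562 (merge (leaf 2 527 561) (node 465 (merge (leaf 7 465 594) (node 433 (merge (leaf 4 401 401) (leaf 7 433 466)))))))))))))))))))))))))) (merge (node 561 (merge (node 593 (merge (node 625 (merge (leaf 7 528 657) (node 496 (merge (leaf 4 464 464) (leaf 4 496 592))))) (node 594 (merge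 (leaf 0 558 558) (node 595 (merge (leaf 0 559 562) (leaf 3 560 596))))))) (merge (node 562 (merge (node 527 (merge (leaf 3 526 526) (leaf 3 527 563))) (merge (node 591 (merge (leaf 1 558 590) (node 563 (merge (leaf 1 559 592) (node 531 (merge (leaf 2 527 530) (leaf 2 528 532))))))) (node 590 (merge (leaf 1 558 591) (node 558 (merge (leaf 1 557 589) (node 526 (merge (leaf 3 525 525) (leaf 3 526 527)))))))))) (merge (node 593 (merge (node 625 (merge (leaf 7 528 657) (node 496 (merge (leaf 4 464 464) (leaf 4 496 592))))) (node 558 (merge (leaf 0 558 594) (node 589 (merge (leaf 1 557 590) (node 557 (merge (leaf 1 556 588) (node 525 (merge (leaf 3 524 524) (leaf 3 525 526))))))))))) (node 562 (merge (node 527 (merge (leaf 3 526 526) (leaf 3 527 563))) (merge (node 595 (merge (leaf 0 559 594) (node 563 (merge (leaf 0 560 596) (node 531 (merge (leaf 2 527 530) (leaf 2 528 532))))))) (node 527 (merge (leaf 3 526 526) (node 530 (merge (leaf 2 527 531) (node 498 (merge (node 594 (merge (leaf 0 559 595) (node 593 (merge (leaf 5 465 466) (leaf 5 497 625))))) (merge (node 594 (merge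 (leaf 0 559 595) (node 499 (merge (leaf 6 466 467) (node 497 (merge (leaf 7 465 465) (leaf 1 495 496))))))) (node 466 (merge (leaf 5 465 593) (node 435 (merge (leaf 6 434 467) (node 434 (merge (leaf 6 402 403) (node 433 (merge (leaf 7 401 401) (leaf 7 433 465))))))))))))))))))))))) (merge (node 496 (merge (node 591 (merge (leaf 5 463 464) (node 623 (merge (leaf 6 495 527) (leaf 6 527 655))))) (merge (node 591 (merge (leaf 5 463 464) (node 623 (merge (leaf 5 495 592) (leaf 6 527 655))))) (merge (node 464 (merge (node 433 (merge (leaf 6 432 465) (node 432 (merge (leaf 6 400 401) (leaf 5 431 527))))) (merge (node 432 (merge (leaf 5 431 527) (node 431 (merge (leaf 7 399 399) (leaf 7 431 463))))) (node 465 (merge (leaf 6 432 433) (node 592 (merge (leaf 6 464 497) (node 463 (merge (leaf 7 431 431) (leaf 7 463 495)))))))))) (node 591 (merge (node 623 (merge (leaf 6 495 527) (leaf 6 527 655))) (merge (node 623 (merge (leaf 5 495 592) (leaf 6 527 655))) (node 561 (merge (node 562 (merge (leaf 1 558 590) (node 563 (merge (leaf 3 527 527) (leaf 1 559 592))))) (merge (node 590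 (merge (leaf 1 558 562) (node 589 (merge (leaf 1 557 558) (leaf 2 556 588))))) (merge (node 593 (merge (node 625 (merge (leaf 4 496 592) (leaf 7 528 657))) (node 594 (merge (leaf 0 558 558) (node 595 (merge (leaf 0 559 562) (leaf 3 560 596))))))) (node 558 (merge (node 593 (merge (leaf 0 558 594) (node 625 (merge (leaf 4 496 592) (leaf 7 528 657))))) (merge (node 589 (merge (leaf 1 557 590) (node 557 (merge (leaf 1 556 588) (node 556 (merge (leaf 2 524 527) (leaf 0 556 592))))))) (node 589 (merge (leaf 1 557 590) (node 557 (merge (leaf 1 556 588) (node 556 (merge (leaf 2 524 527) (node 524 (merge (leaf 3 523 523) (leaf 3 524 525))))))))))))))))))))))) (merge (node 496 (merge (node 464 (merge (node 433 (merge (leaf 6 432 465) (node 432 (merge (leaf 6 400 401) (leaf 5 431 527))))) (merge (node 432 (merge (leaf 5 431 527) (node 431 (merge (leaf 7 399 399) (leaf 7 431 463))))) (node 465 (merge (leaf 6 432 433) (node 592 (merge (leaf 6 464 497) (node 463 (merge (leaf 7 431 431) (leaf 7 463 495)))))))))) (merge (node 592 (merge (node 593 (merge (leaf 4 496 625) (node 594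 (merge (leaf 3 559 595) (node 558 (merge (leaf 0 557 557) (leaf 0 558 561))))))) (node 465 (merge (leaf 6 464 497) (node 464 (merge (leaf 6 432 433) (node 463 (merge (leaf 7 431 431) (leaf 7 463 495))))))))) (merge (node 561 (merge (node 464 (merge (leaf 4 464 593) (node 433 (merge (leaf 6 432 465) (node 432 (merge (leaf 6 400 401) (leaf 5 431 527))))))) (merge (node 593 (merge (leaf 4 464 464) (node 594 (merge (leaf 0 558 558) (node 595 (merge (leaf 0 559 562) (leaf 3 560 596))))))) (node 558 (merge (node 589 (merge (leaf 1 557 590) (node 557 (merge (leaf 1 556 588) (node 525 (merge (leaf 3 524 524) (leaf 3 525 526))))))) (merge (node 526 (merge (leaf 3 525 525) (node 562 (merge (leaf 3 526 527) (node 595 (merge (leaf 0 559 594) (node 563 (merge (leaf 0 560 596) (node 531 (merge (leaf 2 527 530) (leaf 2 528 532))))))))))) (merge (node 589 (merge (leaf 1 557 590) (node 557 (merge (leaf 1 556 588) (node 527 (merge (leaf 2 524 556) (node 562 (merge (leaf 3 526 526) (leaf 3 527 563))))))))) (node 589 (merge (leaf 1 557 590) (node 557 (merge (leaf 1 556 588) (node 524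 (merge (leaf 3 524 525) (node 556 (merge (leaf 3 523 523) (leaf 2 524 527)))))))))))))))) (merge (node 527 (merge (node 464 (merge (leaf 5 431 432) (node 561 (merge (leaf 4 464 593) (node 562 (merge (leaf 3 526 526) (leaf 3 527 563))))))) (merge (node 464 (merge (leaf 5 431 432) (node 463 (merge (leaf 7 431 431) (node 495 (merge (leaf 7 463 592) (node 462 (merge (leaf 7 430 430) (node 497 (merge (leaf 0 461 461) (leaf 3 462 498))))))))))) (node 561 (merge (node 562 (merge (leaf 3 526 526) (leaf 3 527 563))) (merge (node 562 (merge (leaf 3 527 563) (node 594 (merge (leaf 0 559 595) (node 558 (merge (leaf 0 558 593) (node 589 (merge (leaf 1 557 590) (node 557 (merge (leaf 2 524 556) (leaf 1 556 588))))))))))) (node 558 (merge (node 525 (merge (leaf 3 525 526) (node 557 (merge (leaf 3 524 524) (leaf 2 524 556))))) (merge (node 590 (merge (leaf 1 557 589) (node 622 (merge (leaf 6 526 654) (node 495 (merge (leaf 5 462 463) (leaf 6 494 526))))))) (node 557 (merge (leaf 2 524 556) (node 589 (merge (leaf 1 556 588) (node 590 (merge (leaf 1 557 561) (node 622 (merge (leaf 6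 526 654) (node 525 (merge (leaf 4 493 493) (leaf 3 524 524)))))))))))))))))))) (node 561 (merge (node 593 (merge (node 625 (merge (leaf 4 496 592) (leaf 7 528 657))) (node 594 (merge (leaf 0 558 558) (node 595 (merge (leaf 0 559 562) (leaf 3 560 596))))))) (merge (node 558 (merge (node 589 (merge (leaf 1 557 590) (node 557 (merge (leaf 1 556 588) (node 525 (merge (leaf 3 524 524) (leaf 3 525 526))))))) (merge (node 557 (merge (node 525 (merge (leaf 3 524 524) (leaf 3 525 526))) (merge (node 527 (merge (leaf 2 524 556) (node 562 (merge (leaf 3 526 526) (leaf 3 527 563))))) (node 524 (merge (leaf 3 524 525) (node 556 (merge (leaf 3 523 523) (leaf 2 524 527)))))))) (merge (node 589 (merge (leaf 1 557 590) (node 557 (merge (leaf 1 556 588) (node 527 (merge (leaf 2 524 556) (node 562 (merge (leaf 3 526 526) (leaf 3 527 563))))))))) (merge (node 589 (merge (leaf 1 557 590) (node 557 (merge (leaf 1 556 588) (node 524 (merge (leaf 3 524 525) (node 556 (merge (leaf 3 523 523) (leaf 2 524 527))))))))) (node 590 (merge (leaf 1 557 589) (node 526 (merge (leaf 3 525 525) (node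 527 (merge (leaf 3 526 562) (node 622 (merge (leaf 6 494 495) (leaf 6 526 654)))))))))))))) (merge (node 562 (merge (node 527 (merge (leaf 3 526 526) (leaf 3 527 563))) (merge (node 595 (merge (leaf 0 559 594) (node 563 (merge (leaf 0 560 596) (node 531 (merge (leaf 2 527 530) (leaf 2 528 532))))))) (node 527 (merge (leaf 3 526 526) (node 530 (merge (leaf 2 527 531) (node 498 (merge (node 594 (merge (leaf 0 559 595) (node 593 (merge (leaf 5 465 466) (leaf 5 497 625))))) (merge (node 594 (merge (leaf 0 559 595) (node 499 (merge (leaf 6 466 467) (node 497 (merge (leaf 7 465 465) (leaf 1 495 496))))))) (node 466 (merge (leaf 5 465 593) (node 435 (merge (leaf 6 434 467) (node 434 (merge (leaf 6 402 403) (node 433 (merge (leaf 7 401 401) (leaf 7 433 465))))))))))))))))))) (node 592 (merge (node 593 (merge (leaf 4 496 625) (node 558 (merge (leaf 0 557 557) (leaf 0 558 594))))) (node 497 (merge (leaf 6 464 465) (node 495 (merge (node 463 (merge (leaf 7 463 592) (node 431 (merge (leaf 4 399 399) (leaf 4 431 527))))) (merge (node 463 (merge (leaf 7 463 592) (node 462 (merge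 (leaf 3 462 498) (node 461 (merge (leaf 0 460 460) (leaf 3 461 494))))))) (node 494 (merge (node 461 (merge (leaf 3 461 462) (node 493 (merge (leaf 3 460 460) (node 525 (merge (leaf 1 492 524) (leaf 1 493 526))))))) (merge (node 526 (merge (leaf 1 493 525) (node 498 (merge (leaf 1 494 527) (node 531 (merge (leaf 0 495 530) (node 499 (merge (leaf 0 496 532) (node 467 (merge (leaf 2 463 466) (leaf 2 464 468))))))))))) (merge (node 461 (merge (leaf 3 461 462) (node 493 (merge (leaf 3 460 460) (node 527 (merge (leaf 0 492 492) (node 498 (merge (leaf 1 495 499) (leaf 1 494 526))))))))) (node 461 (merge (leaf 3 461 462) (node 493 (merge (leaf 3 460 460) (node 492 (merge (leaf 0 492 527) (node 524 (merge (leaf 1 491 523) (leaf 1 492 525))))))))))))))))))))))))))))) (merge (node 591 (merge (node 623 (merge (leaf 6 527 655) (node 496 (merge (leaf 5 463 464) (leaf 6 495 527))))) (merge (node 623 (merge (leaf 6 527 655) (node 496 (merge (leaf 5 463 464) (leaf 5 495 592))))) (merge (node 527 (merge (node 623 (merge (leaf 6 527 655) (node 526 (merge (leaf 7 494 494) (node 561 (merge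 (leaf 0 525 525) (leaf 3 526 562))))))) (merge (node 623 (merge (leaf 6 527 655) (node 622 (merge (leaf 5 526 654) (node 495 (merge (leaf 5 494 590) (node 463 (merge (leaf 4 431 431) (leaf 4 463 592))))))))) (node 590 (merge (node 561 (merge (leaf 1 558 562) (node 589 (merge (leaf 2 556 588) (leaf 2 557 592))))) (node 495 (merge (leaf 5 494 622) (node 463 (merge (leaf 4 431 431) (node 462 (merge (leaf 7 430 430) (leaf 7 462 494)))))))))))) (node 495 (merge (node 496 (merge (leaf 5 463 464) (node 463 (merge (leaf 7 463 592) (node 431 (merge (leaf 4 399 399) (leaf 4 431 527))))))) (merge (node 590 (merge (node 561 (merge (leaf 1 558 562) (node 589 (merge (leaf 2 556 588) (leaf 2 557 592))))) (node 527 (merge (leaf 5 494 622) (node 463 (merge (leaf 4 431 431) (node 462 (merge (leaf 7 430 430) (leaf 7 462 494))))))))) (merge (node 496 (merge (leaf 5 463 464) (node 592 (merge (leaf 7 463 463) (node 593 (merge (leaf 4 496 625) (node 594 (merge (leaf 3 559 595) (node 562 (merge (leaf 2 559 563) (node 590 (merge (leaf 1 558 561) (node 621 (merge (leaf 1 589 622) (node 589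 (merge (leaf 2 556 588) (leaf 1 588 620))))))))))))))))) (merge (node 527 (merge (node 463 (merge (leaf 4 431 431) (node 462 (merge (leaf 7 430 430) (leaf 7 462 494))))) (merge (node 463 (merge (leaf 4 431 431) (node 464 (merge (leaf 6 431 432) (node 496 (merge (leaf 6 463 591) (node 561 (merge (leaf 4 464 593) (node 526 (merge (leaf 0 525 525) (leaf 3 526 562))))))))))) (node 525 (merge (node 561 (merge (leaf 0 525 526) (node 562 (merge (leaf 3 527 563) (leaf 1 558 590))))) (node 496 (merge (leaf 6 463 464) (node 494 (merge (leaf 7 462 462) (node 493 (merge (leaf 0 492 492) (leaf 1 492 524)))))))))))) (node 496 (merge (leaf 5 463 464) (node 527 (merge (node 590 (merge (leaf 5 494 622) (node 561 (merge (leaf 1 558 562) (node 589 (merge (leaf 2 556 588) (leaf 2 557 592))))))) (merge (node 494 (merge (leaf 7 462 462) (node 493 (merge (leaf 0 492 492) (node 525 (merge (leaf 1 492 524) (node 526 (merge (leaf 1 493 497) (leaf 0 525 561))))))))) (node 494 (merge (leaf 7 462 462) (node 493 (merge (leaf 0 492 492) (node 525 (merge (leaf 1 492 524) (node 497 (merge (leaf 1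 493 526) (node 465 (merge (leaf 2 462 466) (leaf 6 464 592))))))))))))))))))))))))) (merge (node 527 (merge (node 561 (merge (node 562 (merge (leaf 3 526 526) (leaf 3 527 563))) (merge (node 562 (merge (leaf 3 527 563) (node 594 (merge (leaf 0 559 595) (node 558 (merge (leaf 0 558 593) (node 589 (merge (leaf 1 557 590) (node 557 (merge (leaf 2 524 556) (leaf 1 556 588))))))))))) (node 558 (merge (node 525 (merge (leaf 3 525 526) (node 557 (merge (leaf 3 524 524) (leaf 2 524 556))))) (merge (node 590 (merge (leaf 1 557 589) (node 622 (merge (leaf 6 526 654) (node 495 (merge (leaf 5 462 463) (leaf 6 494 526))))))) (node 557 (merge (leaf 2 524 556) (node 589 (merge (leaf 1 556 588) (node 590 (merge (leaf 1 557 561) (node 622 (merge (leaf 6 526 654) (node 525 (merge (leaf 4 493 493) (leaf 3 524 524))))))))))))))))) (merge (node 495 (merge (node 463 (merge (leaf 4 431 431) (node 462 (merge (leaf 7 430 430) (node 591 (merge (leaf 7 462 494) (node 623 (merge (leaf 6 495 496) (leaf 6 527 655))))))))) (merge (node 463 (merge (leaf 4 431 431) (node 464 (merge (leaf 6 431 432)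 (node 496 (merge (leaf 6 463 591) (node 561 (merge (leaf 4 464 593) (node 526 (merge (leaf 0 525 525) (leaf 3 526 562))))))))))) (merge (node 496 (merge (node 464 (merge (leaf 5 431 432) (leaf 5 463 591))) (merge (node 464 (merge (leaf 5 431 432) (node 561 (merge (leaf 4 464 593) (node 562 (merge (leaf 3 526 526) (leaf 3 527 563))))))) (node 591 (merge (leaf 6 495 623) (node 494 (merge (leaf 7 462 462) (node 493 (merge (leaf 0 492 492) (node 525 (merge (leaf 1 492 524) (node 526 (merge (leaf 1 493 497) (leaf 0 525 561)))))))))))))) (merge (node 463 (merge (leaf 4 431 431) (node 464 (merge (leaf 6 431 432) (node 462 (merge (leaf 7 430 430) (node 494 (merge (leaf 7 462 591) (node 493 (merge (leaf 1 461 465) (leaf 0 492 492))))))))))) (node 561 (merge (node 526 (merge (leaf 0 525 525) (leaf 3 526 562))) (node 463 (merge (leaf 4 431 431) (node 464 (merge (leaf 6 431 432) (node 496 (merge (leaf 4 464 593) (node 465 (merge (leaf 6 432 433) (node 466 (merge (leaf 1 463 467) (leaf 1 462 494)))))))))))))))))) (merge (node 591 (merge (node 623 (merge (leaf 6 495 496) (leaf 6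 527 655))) (merge (node 623 (merge (leaf 6 527 655) (node 622 (merge (leaf 5 526 654) (node 495 (merge (leaf 5 494 590) (node 462 (merge (leaf 7 462 494) (node 463 (merge (leaf 7 430 430) (leaf 4 431 431))))))))))) (node 590 (merge (node 561 (merge (leaf 1 558 562) (node 589 (merge (leaf 1 557 558) (leaf 2 556 588))))) (node 464 (merge (leaf 5 463 496) (node 495 (merge (leaf 5 494 622) (node 463 (merge (leaf 4 431 431) (leaf 6 431 432)))))))))))) (merge (hyp 0) (node 526 (merge (node 525 (merge (leaf 0 524 524) (node 496 (merge (leaf 2 493 497) (node 464 (merge (leaf 5 431 432) (leaf 5 463 591))))))) (merge (node 525 (merge (leaf 0 524 524) (node 557 (merge (leaf 1 524 556) (node 589 (merge (node 494 (merge (leaf 6 493 621) (node 462 (merge (leaf 5 429 430) (leaf 6 461 493))))) (merge (node 621 (merge (leaf 6 493 494) (node 653 (merge (leaf 6 525 558) (node 652 (merge (leaf 5 524 620) (leaf 5 556 684))))))) (merge (node 493 (merge (leaf 3 492 492) (node 462 (merge (leaf 6 461 494) (node 461 (merge (leaf 6 429 430) (node 590 (merge (leaf 4 461 558) (leaf 4 493 622)))))))))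 (node 493 (merge (leaf 3 492 492) (node 590 (merge (leaf 4 493 622) (node 558 (merge (leaf 4 461 461) (node 621 (merge (leaf 6 525 653) (node 620 (merge (leaf 5 492 588) (leaf 5 524 652))))))))))))))))))) (node 495 (merge (node 591 (merge (node 623 (merge (leaf 6 495 496) (leaf 6 527 655))) (merge (node 494 (merge (leaf 7 462 462) (leaf 7 494 623))) (node 464 (merge (leaf 6 463 496) (node 463 (merge (leaf 6 431 432) (node 462 (merge (leaf 7 430 430) (leaf 7 462 494)))))))))) (merge (node 463 (merge (leaf 4 431 431) (node 462 (merge (leaf 7 430 430) (node 558 (merge (leaf 5 462 590) (node 557 (merge (leaf 2 524 556) (node 589 (merge (leaf 5 461 494) (leaf 1 556 588))))))))))) (merge (node 463 (merge (leaf 4 431 431) (node 464 (merge (leaf 6 431 432) (node 496 (merge (leaf 6 463 591) (node 465 (merge (leaf 6 432 433) (node 466 (merge (leaf 1 463 467) (leaf 1 462 494))))))))))) (merge (node 463 (merge (leaf 4 431 431) (node 464 (merge (leaf 6 431 432) (node 496 (merge (leaf 6 463 591) (node 462 (merge (leaf 7 430 430) (node 461 (merge (leaf 0 460 460) (leaf 0 461 497)))))))))))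 (node 591 (merge (node 623 (merge (leaf 6 495 496) (leaf 6 527 655))) (merge (node 494 (merge (leaf 7 462 462) (leaf 7 494 623))) (node 496 (merge (leaf 6 463 464) (node 494 (merge (leaf 7 462 462) (node 493 (merge (leaf 0 492 492) (node 461 (merge (leaf 3 460 460) (node 590 (merge (leaf 7 461 558) (leaf 5 494 622))))))))))))))))))))))))))) (merge (node 496 (merge (node 591 (merge (leaf 5 463 464) (node 623 (merge (leaf 6 495 527) (leaf 6 527 655))))) (merge (node 591 (merge (leaf 5 463 464) (node 623 (merge (leaf 5 495 592) (leaf 6 527 655))))) (merge (node 464 (merge (node 433 (merge (leaf 6 432 465) (node 432 (merge (leaf 6 400 401) (leaf 5 431 527))))) (merge (node 432 (merge (leaf 5 431 527) (node 431 (merge (leaf 7 399 399) (leaf 7 431 463))))) (node 465 (merge (leaf 6 432 433) (node 592 (merge (leaf 6 464 497) (node 463 (merge (leaf 7 431 431) (leaf 7 463 495)))))))))) (node 527 (merge (node 495 (merge (node 463 (merge (leaf 4 431 431) (leaf 7 463 592))) (node 591 (merge (leaf 6 495 623) (node 494 (merge (leaf 7 462 462) (node 493 (merge (leaf 0 492 492) (node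 525 (merge (leaf 1 492 524) (node 526 (merge (leaf 1 493 497) (leaf 0 525 561))))))))))))) (merge (node 591 (merge (node 623 (merge (leaf 6 495 496) (leaf 6 527 655))) (node 590 (merge (node 622 (merge (leaf 5 494 495) (node 654 (merge (leaf 6 526 558) (leaf 6 558 686))))) (node 561 (merge (leaf 1 558 562) (node 589 (merge (leaf 2 556 588) (leaf 2 557 592))))))))) (merge (hyp 1) (merge (hyp 0) (node 591 (merge (leaf 6 495 623) (node 558 (merge (node 590 (merge (node 622 (merge (leaf 6 526 654) (node 495 (merge (leaf 5 462 463) (leaf 5 494 591))))) (merge (node 622 (merge (leaf 6 526 654) (node 557 (merge (leaf 2 524 556) (node 525 (merge (leaf 3 524 524) (node 493 (merge (leaf 4 461 461) (leaf 7 493 526))))))))) (node 557 (merge (leaf 2 524 556) (node 525 (merge (leaf 3 524 524) (node 493 (merge (leaf 4 461 461) (node 492 (merge (leaf 3 492 526) (node 495 (merge (leaf 5 462 463) (leaf 0 492 494)))))))))))))) (merge (node 495 (merge (node 590 (merge (leaf 5 462 463) (node 622 (merge (leaf 5 494 591) (leaf 6 526 654))))) (merge (node 463 (merge (leaf 4 431 431) (node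 462 (merge (leaf 7 430 430) (leaf 7 462 494))))) (node 494 (merge (leaf 7 462 462) (node 493 (merge (leaf 0 492 492) (node 590 (merge (leaf 5 494 622) (node 526 (merge (leaf 7 461 461) (node 589 (merge (leaf 2 556 588) (leaf 5 493 621)))))))))))))) (merge (node 495 (merge (node 590 (merge (leaf 5 462 463) (node 622 (merge (leaf 5 494 591) (leaf 6 526 654))))) (merge (node 463 (merge (leaf 4 431 431) (node 462 (merge (leaf 7 430 430) (leaf 7 462 494))))) (node 494 (merge (leaf 7 462 462) (node 493 (merge (leaf 0 492 492) (node 557 (merge (leaf 2 524 556) (node 525 (merge (leaf 3 524 524) (node 590 (merge (leaf 4 461 461) (leaf 5 494 622)))))))))))))) (merge (node 526 (merge (node 557 (merge (leaf 2 524 556) (node 589 (merge (leaf 1 556 588) (node 621 (merge (leaf 6 525 653) (node 494 (merge (leaf 5 461 462) (leaf 5 493 590))))))))) (merge (node 525 (merge (leaf 0 524 524) (node 493 (merge (leaf 3 492 492) (node 590 (merge (leaf 7 493 622) (node 461 (merge (leaf 4 429 429) (leaf 4 461 557))))))))) (merge (node 525 (merge (leaf 0 524 524) (node 557 (merge (leaf 1 524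 556) (node 589 (merge (leaf 1 556 588) (node 621 (merge (leaf 6 493 494) (leaf 6 525 653))))))))) (node 525 (merge (leaf 0 524 524) (node 493 (merge (leaf 3 492 492) (node 590 (merge (leaf 7 493 622) (node 461 (merge (leaf 4 429 429) (leaf 7 461 494))))))))))))) (merge (node 494 (merge (node 462 (merge (leaf 7 462 495) (leaf 4 462 526))) (merge (node 495 (merge (leaf 7 462 462) (node 463 (merge (leaf 4 431 431) (leaf 5 462 590))))) (node 557 (merge (leaf 2 524 556) (node 589 (merge (leaf 1 556 588) (node 525 (merge (leaf 3 524 524) (node 621 (merge (leaf 6 493 526) (node 652 (merge (leaf 5 524 620) (node 653 (merge (leaf 5 556 684) (node 685 (merge (leaf 6 557 590) (node 686 (merge (leaf 4 557 654) (leaf 4 589 718)))))))))))))))))))) (merge (node 494 (merge (node 462 (merge (leaf 7 462 495) (leaf 4 462 526))) (merge (node 557 (merge (leaf 2 524 556) (node 589 (merge (leaf 1 556 588) (node 525 (merge (leaf 3 524 524) (node 621 (merge (leaf 6 493 526) (node 654 (merge (leaf 4 525 622) (node 653 (merge (leaf 4 557 686) (node 652 (merge (leaf 5 524 620) (leaf 5 556 684)))))))))))))))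 (node 557 (merge (leaf 2 524 556) (node 589 (merge (leaf 1 556 588) (node 525 (merge (leaf 3 524 524) (node 493 (merge (leaf 6 461 462) (node 492 (merge (leaf 7 460 460) (leaf 0 492 495)))))))))))))) (node 622 (merge (node 590 (merge (leaf 6 526 654) (node 495 (merge (leaf 5 462 463) (leaf 5 494 591))))) (merge (node 557 (merge (leaf 2 524 556) (node 589 (merge (leaf 1 556 588) (node 525 (merge (leaf 3 524 524) (node 493 (merge (leaf 4 493 590) (node 492 (merge (leaf 7 460 460) (leaf 3 492 526))))))))))) (node 557 (merge (leaf 2 524 556) (node 589 (merge (leaf 1 556 588) (node 525 (merge (leaf 3 524 524) (node 621 (merge (leaf 4 525 654) (node 653 (merge (leaf 6 525 526) (node 652 (merge (leaf 5 524 620) (leaf 5 556 684)))))))))))))))))))))))))))))))))) (merge (node 561 (merge (node 562 (merge (node 527 (merge (leaf 3 526 526) (leaf 3 527 563))) (node 594 (merge (leaf 0 559 595) (node 593 (merge (leaf 0 558 558) (node 530 (merge (leaf 2 527 531) (node 625 (merge (leaf 5 497 498) (leaf 6 529 657))))))))))) (merge (node 562 (merge (node 591 (merge (leaf 1 558 590) (node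 563 (merge (leaf 1 559 592) (node 531 (merge (leaf 2 527 530) (leaf 2 528 532))))))) (merge (node 595 (merge (leaf 0 559 594) (node 563 (merge (leaf 0 560 596) (node 531 (merge (leaf 2 527 530) (leaf 2 528 532))))))) (merge (node 595 (merge (leaf 0 559 594) (node 563 (merge (leaf 0 560 596) (node 591 (merge (leaf 1 558 590) (leaf 1 559 592))))))) (node 594 (merge (leaf 0 559 595) (node 593 (merge (leaf 0 558 558) (node 625 (merge (leaf 7 528 657) (node 530 (merge (leaf 5 497 498) (leaf 2 527 531))))))))))))) (merge (node 590 (merge (node 589 (merge (leaf 1 557 558) (node 591 (merge (leaf 2 556 588) (leaf 2 557 592))))) (merge (node 562 (merge (leaf 1 558 591) (node 595 (merge (leaf 0 559 594) (node 563 (merge (leaf 0 560 596) (node 531 (merge (leaf 2 527 530) (leaf 2 528 532))))))))) (node 558 (merge (leaf 1 557 589) (node 526 (merge (leaf 3 525 525) (node 562 (merge (leaf 3 526 527) (node 595 (merge (leaf 0 559 594) (node 563 (merge (leaf 0 560 596) (node 531 (merge (leaf 2 527 530) (leaf 2 528 532)))))))))))))))) (merge (node 562 (merge (node 527 (merge (leaf 3 526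 526) (leaf 3 527 563))) (merge (node 591 (merge (leaf 1 558 590) (node 563 (merge (leaf 1 559 592) (node 595 (merge (leaf 0 559 594) (leaf 0 560 596))))))) (node 594 (merge (leaf 0 559 595) (node 591 (merge (leaf 1 558 590) (node 623 (merge (leaf 6 527 655) (node 530 (merge (leaf 2 527 531) (node 527 (merge (leaf 3 526 526) (node 622 (merge (leaf 5 526 654) (node 593 (merge (leaf 1 590 592) (node 625 (merge (leaf 5 497 498) (leaf 6 529 657)))))))))))))))))))) (merge (node 558 (merge (node 589 (merge (leaf 1 557 590) (node 557 (merge (leaf 1 556 588) (node 525 (merge (leaf 3 524 524) (leaf 3 525 526))))))) (merge (node 590 (merge (leaf 1 557 589) (node 562 (merge (leaf 1 558 591) (node 531 (merge (leaf 2 527 530) (node 563 (merge (leaf 3 527 527) (leaf 2 528 532))))))))) (node 526 (merge (leaf 3 525 525) (node 562 (merge (leaf 3 526 527) (node 531 (merge (leaf 2 527 530) (node 563 (merge (leaf 2 528 532) (node 596 (merge (leaf 0 560 595) (node 564 (merge (leaf 0 561 597) (node 592 (merge (leaf 1 559 591) (leaf 1 560 593)))))))))))))))))) (node 558 (merge (node 525 (merge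 (leaf 3 525 526) (node 557 (merge (leaf 3 524 524) (node 593 (merge (leaf 0 557 592) (leaf 0 558 594))))))) (merge (node 589 (merge (leaf 1 557 590) (node 557 (merge (leaf 1 556 588) (node 525 (merge (leaf 3 524 524) (leaf 3 525 526))))))) (merge (node 589 (merge (leaf 1 557 590) (node 557 (merge (leaf 1 556 588) (node 593 (merge (leaf 0 557 592) (leaf 0 558 594))))))) (node 590 (merge (leaf 1 557 589) (node 495 (merge (node 526 (merge (leaf 3 525 525) (node 463 (merge (leaf 6 462 494) (leaf 5 462 527))))) (merge (node 527 (merge (leaf 5 462 463) (node 622 (merge (leaf 5 494 591) (leaf 6 526 654))))) (merge (node 526 (merge (leaf 3 525 525) (node 494 (merge (leaf 6 462 463) (node 461 (merge (leaf 7 461 493) (node 462 (merge (leaf 7 429 429) (leaf 4 462 591))))))))) (node 593 (merge (leaf 0 558 594) (node 657 (merge (leaf 7 528 625) (node 526 (merge (leaf 3 525 525) (node 622 (merge (leaf 6 494 527) (node 621 (merge (leaf 5 525 653) (node 591 (merge (leaf 1 589 592) (node 654 (merge (leaf 6 558 686) (node 655 (merge (leaf 3 621 656) (leaf 4 558 687)))))))))))))))))))))))))))))))))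 (merge (node 558 (merge (node 525 (merge (node 524 (merge (leaf 3 524 557) (node 526 (merge (leaf 0 523 523) (leaf 3 525 561))))) (merge (node 557 (merge (leaf 3 524 524) (node 592 (merge (leaf 0 557 593) (node 591 (merge (leaf 0 556 556) (node 496 (merge (leaf 5 463 464) (leaf 5 495 623))))))))) (node 561 (merge (leaf 3 525 526) (node 593 (merge (leaf 0 558 594) (node 625 (merge (leaf 7 528 657) (node 496 (merge (leaf 4 464 464) (leaf 4 496 592)))))))))))) (merge (node 589 (merge (node 590 (merge (leaf 1 557 561) (node 588 (merge (leaf 2 555 587) (leaf 2 556 591))))) (merge (node 588 (merge (leaf 1 556 557) (node 590 (merge (leaf 2 555 587) (leaf 2 556 591))))) (merge (node 557 (merge (leaf 1 556 588) (node 525 (merge (leaf 3 524 524) (node 526 (merge (leaf 3 525 561) (node 621 (merge (leaf 6 493 494) (leaf 6 525 653))))))))) (node 590 (merge (leaf 1 557 561) (node 526 (merge (node 621 (merge (leaf 5 493 494) (node 653 (merge (leaf 6 525 557) (leaf 6 557 685))))) (merge (node 621 (merge (leaf 5 493 494) (node 653 (merge (leaf 5 525 622) (leaf 6 557 685))))) (merge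 (node 623 (merge (node 591 (merge (leaf 4 494 494) (leaf 7 526 655))) (merge (node 622 (merge (leaf 4 526 655) (node 525 (merge (leaf 7 493 493) (node 524 (merge (leaf 0 523 523) (leaf 3 524 557))))))) (node 494 (merge (leaf 4 494 591) (node 493 (merge (leaf 7 461 461) (node 525 (merge (leaf 7 493 622) (node 524 (merge (leaf 0 523 523) (leaf 3 524 557)))))))))))) (node 525 (merge (node 524 (merge (leaf 0 523 523) (leaf 3 524 557))) (node 622 (merge (leaf 7 493 493) (node 655 (merge (leaf 4 526 623) (node 654 (merge (leaf 4 558 687) (node 653 (merge (leaf 5 525 621) (leaf 5 557 685))))))))))))))))))))) (merge (node 593 (merge (node 561 (merge (leaf 0 558 594) (node 625 (merge (leaf 7 528 657) (node 496 (merge (leaf 4 464 464) (leaf 4 496 592))))))) (merge (node 557 (merge (leaf 0 557 592) (node 588 (merge (leaf 1 556 589) (node 556 (merge (leaf 1 555 587) (node 524 (merge (leaf 3 523 523) (leaf 3 524 525))))))))) (node 561 (merge (leaf 0 558 594) (node 589 (merge (leaf 1 557 590) (node 557 (merge (leaf 1 556 588) (node 525 (merge (leaf 3 524 524) (leaf 3 525 526))))))))))))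 (merge (node 561 (merge (node 593 (merge (leaf 0 558 594) (node 625 (merge (leaf 7 528 657) (node 496 (merge (leaf 4 464 464) (leaf 4 496 592))))))) (node 590 (merge (leaf 1 557 589) (node 526 (merge (leaf 3 525 525) (node 622 (merge (node 655 (merge (leaf 4 526 623) (node 654 (merge (leaf 4 558 687) (node 653 (merge (leaf 5 525 621) (leaf 5 557 685))))))) (merge (node 623 (merge (leaf 4 526 655) (node 494 (merge (leaf 4 494 591) (node 463 (merge (leaf 6 462 495) (node 462 (merge (leaf 6 430 431) (node 461 (merge (leaf 7 429 429) (leaf 7 461 493))))))))))) (merge (node 653 (merge (leaf 5 525 621) (node 654 (merge (leaf 5 557 685) (node 591 (merge (leaf 6 558 686) (node 494 (merge (leaf 4 462 462) (leaf 4 494 623))))))))) (node 653 (merge (leaf 5 525 621) (node 654 (merge (leaf 5 557 685) (node 686 (merge (leaf 6 558 591) (node 687 (merge (leaf 4 558 655) (leaf 4 590 719))))))))))))))))))) (merge (node 557 (merge (node 524 (merge (leaf 3 524 525) (node 556 (merge (leaf 3 523 523) (node 592 (merge (leaf 0 556 591) (leaf 0 557 593))))))) (merge (node 588 (merge (leaf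 1 556 589) (node 556 (merge (leaf 1 555 587) (node 592 (merge (leaf 0 556 591) (leaf 0 557 593))))))) (node 525 (merge (leaf 3 524 524) (node 622 (merge (node 590 (merge (leaf 7 525 654) (node 493 (merge (leaf 4 461 461) (leaf 7 493 526))))) (merge (node 589 (merge (leaf 1 556 588) (node 654 (merge (leaf 7 525 590) (leaf 4 525 621))))) (merge (node 589 (merge (leaf 1 556 588) (node 621 (merge (leaf 4 525 654) (node 526 (merge (leaf 6 493 494) (leaf 6 525 653))))))) (node 589 (merge (leaf 1 556 588) (node 493 (merge (leaf 4 493 590) (node 494 (merge (leaf 6 461 462) (node 526 (merge (leaf 6 493 621) (node 460 (merge (leaf 7 460 492) (node 461 (merge (leaf 7 428 428) (leaf 4 429 429)))))))))))))))))))))) (node 561 (merge (node 589 (merge (leaf 1 557 590) (node 557 (merge (leaf 1 556 588) (node 593 (merge (leaf 0 557 592) (leaf 0 558 594))))))) (merge (node 557 (merge (node 589 (merge (leaf 1 556 588) (leaf 1 557 590))) (merge (node 592 (merge (leaf 0 557 593) (node 591 (merge (leaf 0 556 556) (node 562 (merge (leaf 1 559 563) (leaf 1 558 590))))))) (node 588 (merge (leaf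 1 556 589) (node 556 (merge (leaf 1 555 587) (node 592 (merge (leaf 0 556 591) (leaf 0 557 593)))))))))) (merge (node 590 (merge (leaf 1 557 589) (node 562 (merge (leaf 1 558 591) (node 595 (merge (leaf 0 559 594) (node 563 (merge (leaf 0 560 596) (node 531 (merge (leaf 2 527 530) (leaf 2 528 532))))))))))) (node 562 (merge (node 595 (merge (leaf 0 559 594) (node 563 (merge (leaf 0 560 596) (node 531 (merge (leaf 2 527 530) (leaf 2 528 532))))))) (merge (node 594 (merge (leaf 0 559 595) (node 593 (merge (leaf 0 558 558) (node 625 (merge (leaf 7 528 657) (node 530 (merge (leaf 5 497 498) (leaf 2 527 531))))))))) (merge (node 563 (merge (node 595 (merge (leaf 0 559 594) (leaf 0 560 596))) (merge (node 592 (merge (leaf 1 559 591) (node 593 (merge (leaf 1 560 564) (node 558 (merge (leaf 0 557 557) (leaf 0 558 594))))))) (node 592 (merge (leaf 1 559 591) (node 564 (merge (leaf 1 560 593) (node 596 (merge (leaf 0 560 595) (leaf 0 561 597)))))))))) (merge (node 531 (merge (leaf 2 527 530) (node 563 (merge (leaf 2 528 532) (node 592 (merge (leaf 1 559 591) (node 593 (merge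 (leaf 1 560 564) (node 558 (merge (leaf 0 557 557) (leaf 0 558 594))))))))))) (node 531 (merge (leaf 2 527 530) (node 563 (merge (leaf 2 528 532) (node 596 (merge (leaf 0 560 595) (node 564 (merge (leaf 0 561 597) (node 592 (merge (leaf 1 559 591) (leaf 1 560 593)))))))))))))))))))))))))) (hyp 2)))))))))))) nP_11 cP_11 15 (by decide +kernel)
def nP_12 : ℕ := 0x1c0000000000000000000000000000000000000000000000000000000000000000000000000000000000000000000000000000000000000000000000000000000000000000000
def cP_12 : ℕ := 0x50000000700000007000000070000000f80000023c000000780000007000000030000000300000000000000000000000000000000000000000000000000000000000000000000000000000000000000000000000000000000000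
theorem lP_12 : S nP_12 cP_12 10 := S_of_chk [] trivial (node 589 (merge (node 590 (merge (leaf 1 557 561) (node 588 (merge (leaf 2 555 587) (leaf 2 556 591))))) (merge (node 588 (merge (leaf 1 556 557) (node 590 (merge (leaf 2 555 587) (leaf 2 556 591))))) (merge (node 557 (merge (leaf 1 556 588) (node 525 (merge (leaf 3 524 524) (node 526 (merge (leaf 3 525 561) (node 621 (merge (leaf 6 493 494) (leaf 6 525 653))))))))) (node 621 (merge (node 590 (merge (leaf 1 557 561) (node 653 (merge (leaf 6 557 685) (node 526 (merge (leaf 5 493 494) (leaf 5 525 622))))))) (merge (node 557 (merge (node 525 (merge (leaf 3 524 524) (node 526 (merge (leaf 6 493 494) (leaf 3 525 561))))) (merge (node 524 (merge (leaf 3 524 525) (node 556 (merge (leaf 3 523 523) (leaf 7 524 653))))) (node 653 (merge (leaf 6 525 526) (node 686 (merge (leaf 4 557 654) (node 685 (merge (leaf 4 589 718) (node 684 (merge (leaf 5 556 652) (leaf 5 588 716)))))))))))) (merge (node 557 (merge (node 524 (merge (leaf 3 524 525) (node 556 (merge (leaf 3 523 523) (leaf 7 524 653))))) (merge (node 590 (merge (leaf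 1 557 561) (node 525 (merge (leaf 3 524 524) (node 622 (merge (leaf 4 493 493) (leaf 7 525 654))))))) (merge (node 590 (merge (leaf 1 557 561) (node 653 (merge (leaf 6 557 685) (node 556 (merge (leaf 7 524 524) (node 555 (merge (leaf 0 554 554) (leaf 0 555 591))))))))) (node 590 (merge (leaf 1 557 561) (node 653 (merge (leaf 6 557 685) (node 654 (merge (leaf 4 557 686) (node 525 (merge (leaf 7 525 622) (node 652 (merge (leaf 5 524 620) (leaf 5 556 684))))))))))))))) (merge (node 525 (merge (node 561 (merge (leaf 3 525 526) (leaf 1 557 590))) (merge (node 524 (merge (leaf 3 524 557) (node 526 (merge (leaf 0 523 523) (leaf 3 525 561))))) (merge (node 590 (merge (leaf 1 557 561) (node 557 (merge (leaf 3 524 524) (node 622 (merge (leaf 4 493 493) (leaf 7 525 654))))))) (node 557 (merge (leaf 3 524 524) (node 526 (merge (leaf 6 493 494) (node 622 (merge (leaf 4 525 654) (node 493 (merge (leaf 7 493 590) (node 460 (merge (leaf 7 460 492) (node 461 (merge (leaf 7 428 428) (leaf 4 429 429))))))))))))))))) (node 557 (merge (node 524 (merge (leaf 3 524 525) (node 556 (merge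 (leaf 3 523 523) (leaf 7 524 653))))) (merge (node 653 (merge (leaf 6 525 526) (node 685 (merge (leaf 6 557 590) (node 686 (merge (leaf 4 557 654) (leaf 4 589 718))))))) (node 525 (merge (leaf 3 524 524) (node 526 (merge (leaf 6 493 494) (node 622 (merge (leaf 4 525 654) (node 493 (merge (leaf 7 493 590) (node 460 (merge (leaf 7 460 492) (node 461 (merge (leaf 7 428 428) (leaf 4 429 429))))))))))))))))))))))))) nP_12 cP_12 10 (by decide +kernel)
def nP_13 : ℕ := 0x180000001000000000000000000000000000000000000000000000000000000000000000000000000000000000000000000000000000000000000000000000000000000000000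
def cP_13 : ℕ := 0x37000000ff000000ff800000e7000000cf0000004fc000007f8000003f80000005000000000000000000000000000000000000000000000000000000000000000000000000000000000000000000000000000
theorem lP_13 : S nP_13 cP_13 13 := S_of_chk [(nP_1, cP_1, 8)] ⟨lP_1, trivial⟩ (node 527 (merge (hyp 0) (merge (node 558 (merge (node 557 (merge (leaf 2 524 556) (node 592 (merge (leaf 0 557 593) (node 495 (merge (leaf 4 463 463) (leaf 7 495 624))))))) (merge (node 557 (merge (leaf 2 524 556) (node 589 (merge (leaf 1 556 588) (node 590 (merge (leaf 1 557 561) (node 622 (merge (leaf 6 526 654) (node 525 (merge (leaf 4 493 493) (leaf 3 524 524))))))))))) (node 590 (merge (node 589 (merge (leaf 1 557 561) (node 588 (merge (leaf 2 555 587) (leaf 2 556 591))))) (node 622 (merge (leaf 6 526 654) (node 526 (merge (leaf 6 494 495) (node 525 (merge (leaf 7 493 493) (leaf 0 524 524)))))))))))) (merge (node 558 (merge (node 557 (merge (leaf 2 524 556) (node 592 (merge (leaf 0 557 593) (node 495 (merge (leaf 4 463 463) (leaf 7 495 624))))))) (merge (node 557 (merge (leaf 2 524 556) (node 589 (merge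 (leaf 1 556 588) (node 561 (merge (leaf 1 557 590) (node 562 (merge (leaf 3 526 526) (leaf 3 527 563))))))))) (node 590 (merge (node 622 (merge (leaf 6 526 654) (node 495 (merge (leaf 5 462 463) (leaf 5 494 591))))) (merge (node 589 (merge (leaf 1 557 561) (node 588 (merge (leaf 2 555 587) (leaf 2 556 591))))) (node 561 (merge (leaf 1 557 589) (node 594 (merge (leaf 0 558 593) (node 562 (merge (leaf 3 527 563) (leaf 0 559 595))))))))))))) (merge (node 558 (merge (node 557 (merge (leaf 2 524 556) (node 589 (merge (leaf 1 556 588) (node 590 (merge (leaf 1 557 561) (node 622 (merge (leaf 6 526 654) (node 525 (merge (leaf 4 493 493) (leaf 3 524 524))))))))))) (merge (node 592 (merge (node 495 (merge (leaf 4 463 463) (leaf 7 495 624))) (node 593 (merge (leaf 0 557 557) (node 594 (merge (leaf 3 558 591) (leaf 3 559 595))))))) (node 590 (merge (node 622 (merge (leaf 6 526 654) (node 495 (merge (leaf 5 462 463) (leaf 5 494 591))))) (merge (node 589 (merge (leaf 1 557 561) (node 588 (merge (leaf 2 555 587) (leaf 2 556 591))))) (node 561 (merge (leaf 1 557 589) (node 594 (merge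 (leaf 0 558 593) (node 562 (merge (leaf 3 527 563) (leaf 0 559 595))))))))))))) (merge (node 592 (merge (node 624 (merge (leaf 7 495 495) (leaf 7 527 656))) (merge (node 591 (merge (node 624 (merge (leaf 7 527 656) (node 625 (merge (leaf 4 528 657) (node 590 (merge (leaf 0 589 589) (node 626 (merge (leaf 0 590 593) (leaf 3 591 627))))))))) (merge (node 561 (merge (node 562 (merge (leaf 3 526 526) (leaf 1 559 563))) (merge (node 562 (merge (leaf 3 527 563) (leaf 1 558 590))) (node 526 (merge (leaf 0 525 525) (node 623 (merge (leaf 7 494 494) (node 624 (merge (leaf 7 527 656) (node 589 (merge (leaf 2 557 590) (node 622 (merge (leaf 5 526 654) (node 621 (merge (leaf 3 588 588) (leaf 2 588 620)))))))))))))))) (merge (node 561 (merge (node 562 (merge (leaf 3 526 526) (leaf 1 559 563))) (merge (node 562 (merge (leaf 3 527 563) (leaf 1 558 590))) (node 526 (merge (leaf 0 525 525) (node 623 (merge (leaf 7 494 494) (node 590 (merge (leaf 2 557 589) (node 622 (merge (leaf 5 526 654) (node 621 (merge (leaf 1 589 593) (leaf 2 588 620)))))))))))))) (node 526 (merge (node 561 (merge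 (leaf 0 525 525) (leaf 3 526 562))) (node 623 (merge (leaf 7 494 494) (node 624 (merge (leaf 7 527 656) (node 622 (merge (leaf 5 526 654) (node 593 (merge (leaf 1 590 594) (leaf 2 589 621))))))))))))))) (node 591 (merge (node 495 (merge (leaf 4 463 463) (node 590 (merge (leaf 5 494 622) (node 589 (merge (leaf 2 557 561) (leaf 2 556 588))))))) (merge (node 495 (merge (leaf 4 463 463) (node 494 (merge (leaf 7 462 462) (node 526 (merge (leaf 7 494 623) (node 525 (merge (leaf 0 524 524) (leaf 0 525 561))))))))) (merge (node 495 (merge (leaf 4 463 463) (node 622 (merge (leaf 5 494 590) (node 623 (merge (leaf 5 526 654) (node 494 (merge (leaf 7 462 462) (leaf 7 494 526))))))))) (node 561 (merge (node 562 (merge (leaf 3 526 526) (leaf 1 559 563))) (merge (node 562 (merge (leaf 3 527 563) (leaf 1 558 590))) (node 526 (merge (leaf 0 525 525) (node 623 (merge (leaf 7 494 494) (node 590 (merge (leaf 2 557 589) (node 622 (merge (leaf 5 526 654) (node 621 (merge (leaf 1 589 593) (leaf 2 588 620))))))))))))))))))))) (merge (node 558 (merge (node 557 (merge (leaf 2 524 556) (node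 525 (merge (leaf 3 524 524) (node 561 (merge (leaf 3 525 526) (node 593 (merge (leaf 0 557 592) (leaf 0 558 594))))))))) (merge (node 557 (merge (leaf 2 524 556) (node 593 (merge (leaf 0 557 592) (node 561 (merge (leaf 0 558 594) (node 589 (merge (leaf 1 556 588) (leaf 1 557 590))))))))) (merge (node 526 (merge (node 561 (merge (leaf 0 525 525) (leaf 3 526 562))) (merge (node 525 (merge (leaf 0 524 524) (node 493 (merge (leaf 3 492 492) (node 590 (merge (leaf 7 493 622) (node 461 (merge (leaf 4 429 429) (leaf 7 461 494))))))))) (node 561 (merge (leaf 3 526 562) (node 593 (merge (leaf 0 558 594) (node 590 (merge (leaf 1 557 589) (node 622 (merge (leaf 6 526 654) (node 621 (merge (leaf 5 525 653) (node 592 (merge (leaf 1 589 591) (node 624 (merge (leaf 2 589 623) (leaf 7 527 656)))))))))))))))))) (node 526 (merge (node 557 (merge (leaf 2 524 556) (node 589 (merge (leaf 1 556 588) (node 621 (merge (leaf 6 525 653) (node 494 (merge (leaf 5 461 462) (leaf 5 493 590))))))))) (merge (node 525 (merge (leaf 0 524 524) (node 493 (merge (leaf 3 492 492) (node 590 (merge (leaf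 7 493 622) (node 461 (merge (leaf 4 429 429) (leaf 4 461 557))))))))) (merge (node 525 (merge (leaf 0 524 524) (node 557 (merge (leaf 1 524 556) (node 589 (merge (leaf 1 556 588) (node 621 (merge (leaf 6 493 494) (leaf 6 525 653))))))))) (node 525 (merge (leaf 0 524 524) (node 493 (merge (leaf 3 492 492) (node 590 (merge (leaf 7 493 622) (node 461 (merge (leaf 4 429 429) (leaf 7 461 494))))))))))))))))) (merge (node 495 (merge (node 592 (merge (leaf 4 463 463) (leaf 7 495 624))) (merge (node 463 (merge (leaf 4 431 431) (node 590 (merge (leaf 5 462 558) (node 591 (merge (leaf 5 494 622) (node 462 (merge (leaf 7 430 430) (leaf 7 462 494))))))))) (node 558 (merge (node 592 (merge (leaf 7 495 624) (node 557 (merge (leaf 2 524 556) (leaf 0 557 593))))) (merge (node 557 (merge (leaf 2 524 556) (node 525 (merge (leaf 3 524 524) (node 526 (merge (leaf 0 525 561) (node 493 (merge (leaf 3 492 492) (node 461 (merge (leaf 4 429 429) (leaf 4 461 590))))))))))) (node 526 (merge (node 561 (merge (leaf 3 525 525) (leaf 3 526 562))) (merge (node 525 (merge (leaf 0 524 524) (node 493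 (merge (leaf 3 492 492) (node 590 (merge (leaf 7 493 622) (node 461 (merge (leaf 4 429 429) (leaf 7 461 494))))))))) (node 590 (merge (leaf 6 494 622) (node 592 (merge (leaf 7 495 624) (node 561 (merge (leaf 3 526 562) (node 593 (merge (leaf 0 558 594) (node 625 (merge (leaf 7 528 657) (node 591 (merge (leaf 0 590 626) (node 494 (merge (leaf 7 462 462) (node 493 (merge (leaf 7 461 461) (leaf 0 492 492)))))))))))))))))))))))))) (merge (node 592 (merge (node 624 (merge (leaf 7 495 495) (leaf 7 527 656))) (merge (node 591 (merge (node 495 (merge (leaf 4 463 463) (node 622 (merge (leaf 5 494 590) (node 623 (merge (leaf 5 526 654) (node 494 (merge (leaf 7 462 462) (leaf 7 494 526))))))))) (merge (node 495 (merge (leaf 4 463 463) (node 590 (merge (leaf 5 494 622) (node 589 (merge (leaf 2 556 588) (node 557 (merge (leaf 3 556 556) (node 593 (merge (leaf 0 557 558) (node 626 (merge (leaf 0 590 625) (node 594 (merge (leaf 3 559 595) (leaf 0 591 627))))))))))))))) (merge (node 526 (merge (node 494 (merge (leaf 7 494 623) (node 462 (merge (leaf 4 430 430) (leaf 4 462 558)))))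 (merge (node 525 (merge (leaf 0 524 524) (node 557 (merge (leaf 1 524 556) (node 558 (merge (leaf 0 557 593) (node 493 (merge (leaf 3 492 492) (node 461 (merge (leaf 4 429 429) (leaf 4 461 590))))))))))) (node 525 (merge (leaf 0 524 524) (node 557 (merge (leaf 1 524 556) (node 494 (merge (leaf 7 494 623) (node 589 (merge (leaf 6 493 621) (node 462 (merge (leaf 4 430 430) (leaf 6 461 493)))))))))))))) (node 494 (merge (node 495 (merge (leaf 7 462 462) (leaf 4 463 463))) (node 526 (merge (leaf 7 494 623) (node 525 (merge (leaf 0 524 524) (node 557 (merge (leaf 1 524 556) (node 589 (merge (leaf 6 493 621) (node 588 (merge (leaf 1 556 558) (node 493 (merge (leaf 3 492 492) (leaf 5 492 620))))))))))))))))))) (node 591 (merge (node 624 (merge (leaf 7 527 656) (node 625 (merge (leaf 4 528 657) (node 590 (merge (leaf 0 589 589) (node 626 (merge (leaf 0 590 593) (leaf 3 591 627))))))))) (merge (node 526 (merge (node 494 (merge (leaf 7 494 623) (node 462 (merge (leaf 4 430 430) (leaf 4 462 558))))) (merge (node 525 (merge (leaf 0 524 524) (node 557 (merge (leaf 1 524 556) (node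 558 (merge (leaf 0 557 593) (node 493 (merge (leaf 3 492 492) (node 461 (merge (leaf 4 429 429) (leaf 4 461 590))))))))))) (node 525 (merge (leaf 0 524 524) (node 557 (merge (leaf 1 524 556) (node 494 (merge (leaf 7 494 623) (node 589 (merge (leaf 6 493 621) (node 462 (merge (leaf 4 430 430) (leaf 6 461 493)))))))))))))) (merge (node 624 (merge (leaf 7 527 656) (node 625 (merge (leaf 4 528 657) (node 626 (merge (leaf 3 591 627) (node 593 (merge (leaf 0 590 590) (node 558 (merge (leaf 0 557 557) (leaf 3 558 594))))))))))) (merge (node 624 (merge (leaf 7 527 656) (node 625 (merge (leaf 4 528 657) (node 590 (merge (leaf 0 589 589) (node 626 (merge (leaf 3 590 623) (leaf 3 591 627))))))))) (node 526 (merge (node 494 (merge (leaf 7 494 623) (node 462 (merge (leaf 4 430 430) (leaf 4 462 558))))) (merge (node 525 (merge (leaf 0 524 524) (node 557 (merge (leaf 1 524 556) (node 558 (merge (leaf 0 557 593) (node 589 (merge (leaf 1 556 588) (node 621 (merge (leaf 6 493 494) (leaf 6 525 653))))))))))) (merge (node 525 (merge (leaf 0 524 524) (node 557 (merge (leaf 1 524 556) (node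 558 (merge (leaf 0 557 593) (node 589 (merge (leaf 1 556 588) (node 621 (merge (leaf 6 525 653) (node 622 (merge (leaf 4 525 654) (node 620 (merge (leaf 2 588 623) (leaf 5 524 652))))))))))))))) (node 623 (merge (leaf 7 494 494) (node 624 (merge (leaf 7 527 656) (node 622 (merge (leaf 5 526 654) (node 593 (merge (leaf 1 590 594) (leaf 2 589 621))))))))))))))))))))) (merge (node 558 (merge (node 557 (merge (leaf 2 524 556) (node 589 (merge (leaf 1 556 588) (node 561 (merge (leaf 1 557 590) (node 562 (merge (leaf 3 526 526) (leaf 3 527 563))))))))) (merge (node 557 (merge (leaf 2 524 556) (node 525 (merge (leaf 3 524 524) (node 526 (merge (leaf 0 525 561) (node 493 (merge (leaf 3 492 492) (node 461 (merge (leaf 4 429 429) (leaf 4 461 590))))))))))) (merge (node 526 (merge (node 561 (merge (leaf 0 525 525) (leaf 3 526 562))) (merge (node 525 (merge (leaf 0 524 524) (node 493 (merge (leaf 3 492 492) (node 461 (merge (leaf 4 429 429) (node 494 (merge (leaf 7 461 590) (node 591 (merge (leaf 4 462 462) (leaf 7 494 623))))))))))) (node 494 (merge (node 591 (merge (leaf 4 462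 462) (leaf 7 494 623))) (node 561 (merge (leaf 3 526 562) (node 590 (merge (leaf 1 557 589) (node 493 (merge (leaf 7 461 461) (node 492 (merge (leaf 0 491 491) (leaf 0 492 495)))))))))))))) (merge (node 526 (merge (node 525 (merge (leaf 0 524 524) (node 557 (merge (leaf 1 524 556) (node 493 (merge (leaf 3 492 492) (node 461 (merge (leaf 4 429 429) (leaf 4 461 590))))))))) (merge (node 557 (merge (leaf 2 524 556) (node 589 (merge (leaf 1 556 588) (node 621 (merge (leaf 6 525 653) (node 494 (merge (leaf 5 461 462) (leaf 5 493 590))))))))) (merge (node 525 (merge (leaf 0 524 524) (node 557 (merge (leaf 1 524 556) (node 589 (merge (leaf 1 556 588) (node 621 (merge (leaf 6 493 494) (leaf 6 525 653))))))))) (node 525 (merge (leaf 0 524 524) (node 493 (merge (leaf 3 492 492) (node 461 (merge (leaf 4 429 429) (node 494 (merge (leaf 7 461 590) (node 591 (merge (leaf 4 462 462) (leaf 7 494 623))))))))))))))) (merge (node 557 (merge (leaf 2 524 556) (node 589 (merge (leaf 1 556 588) (node 525 (merge (leaf 3 524 524) (node 526 (merge (leaf 0 525 561) (node 621 (merge (leaf 6 493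 494) (leaf 6 525 653))))))))))) (node 557 (merge (leaf 2 524 556) (node 589 (merge (leaf 1 556 588) (node 590 (merge (leaf 1 557 561) (node 525 (merge (leaf 3 524 524) (node 493 (merge (leaf 4 461 461) (node 492 (merge (leaf 7 460 460) (node 495 (merge (leaf 5 462 463) (leaf 0 492 494))))))))))))))))))))) (node 561 (merge (node 562 (merge (leaf 3 526 526) (leaf 3 527 563))) (merge (node 562 (merge (leaf 3 527 563) (node 594 (merge (leaf 0 559 595) (node 593 (merge (leaf 0 558 558) (node 530 (merge (leaf 2 527 531) (node 498 (merge (leaf 5 465 466) (leaf 5 497 625))))))))))) (node 462 (merge (node 526 (merge (leaf 0 525 525) (node 494 (merge (leaf 4 430 430) (node 591 (merge (leaf 7 462 495) (leaf 7 494 623))))))) (merge (node 526 (merge (leaf 0 525 525) (node 494 (merge (leaf 4 430 430) (node 591 (merge (leaf 4 462 558) (leaf 7 494 623))))))) (merge (node 494 (merge (node 526 (merge (leaf 4 430 430) (node 591 (merge (leaf 4 462 558) (leaf 7 494 623))))) (merge (node 495 (merge (leaf 7 462 591) (node 463 (merge (leaf 4 431 431) (leaf 4 463 592))))) (node 430 (merge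 (leaf 4 430 526) (node 495 (merge (leaf 4 398 398) (leaf 7 430 463)))))))) (merge (node 495 (merge (node 463 (merge (leaf 4 431 431) (leaf 4 463 592))) (node 525 (merge (leaf 0 525 526) (node 494 (merge (leaf 7 462 591) (node 493 (merge (leaf 0 492 492) (node 557 (merge (leaf 6 461 589) (node 558 (merge (leaf 3 524 524) (leaf 2 524 556))))))))))))) (merge (node 557 (merge (node 558 (merge (leaf 2 524 556) (node 593 (merge (leaf 0 557 592) (leaf 0 558 594))))) (node 495 (merge (node 463 (merge (leaf 7 430 430) (leaf 4 431 431))) (merge (node 494 (merge (leaf 7 462 591) (node 493 (merge (leaf 0 492 492) (node 525 (merge (leaf 6 461 589) (node 430 (merge (leaf 4 398 398) (leaf 6 429 461))))))))) (node 494 (merge (leaf 7 462 591) (node 493 (merge (leaf 0 492 492) (node 463 (merge (leaf 4 431 431) (node 464 (merge (leaf 6 431 432) (leaf 1 461 465)))))))))))))) (node 557 (merge (node 558 (merge (leaf 2 524 556) (node 593 (merge (leaf 0 557 592) (leaf 0 558 594))))) (merge (node 525 (merge (leaf 0 525 526) (node 558 (merge (leaf 3 524 524) (leaf 2 524 556))))) (merge (node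 525 (merge (leaf 0 525 526) (node 558 (merge (leaf 3 524 524) (node 593 (merge (leaf 0 557 592) (leaf 0 558 594))))))) (node 461 (merge (node 525 (merge (node 526 (merge (leaf 0 524 524) (leaf 0 525 561))) (node 493 (merge (leaf 6 429 430) (node 460 (merge (leaf 7 428 428) (node 589 (merge (leaf 7 460 492) (node 588 (merge (leaf 5 460 556) (leaf 5 492 620))))))))))) (merge (node 463 (merge (node 495 (merge (leaf 7 430 430) (leaf 4 463 592))) (merge (node 495 (merge (leaf 4 431 431) (leaf 4 463 592))) (node 460 (merge (node 492 (merge (leaf 1 459 491) (node 464 (merge (leaf 1 460 493) (node 428 (merge (leaf 3 427 427) (leaf 3 428 429))))))) (merge (node 491 (merge (leaf 1 459 492) (node 459 (merge (leaf 1 458 490) (node 431 (merge (leaf 2 427 430) (leaf 2 428 432))))))) (node 432 (merge (leaf 2 428 431) (node 464 (merge (leaf 2 429 433) (node 428 (merge (leaf 3 427 427) (leaf 3 428 429))))))))))))) (merge (node 463 (merge (node 495 (merge (leaf 4 431 431) (leaf 4 463 592))) (merge (node 460 (merge (node 432 (merge (leaf 2 428 431) (node 464 (merge (leaf 2 429 433) (node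 428 (merge (leaf 3 427 427) (leaf 3 428 429))))))) (merge (node 492 (merge (leaf 1 459 491) (node 493 (merge (leaf 1 460 464) (node 525 (merge (leaf 3 492 526) (leaf 7 460 589))))))) (node 492 (merge (leaf 1 459 491) (node 428 (merge (leaf 3 427 427) (node 525 (merge (leaf 7 428 493) (leaf 4 428 524)))))))))) (node 495 (merge (leaf 4 463 592) (node 464 (merge (leaf 6 431 432) (node 492 (merge (leaf 1 460 493) (node 460 (merge (leaf 1 459 491) (node 428 (merge (leaf 3 427 427) (leaf 3 428 429)))))))))))))) (merge (node 525 (merge (node 526 (merge (leaf 0 524 524) (leaf 0 525 561))) (merge (node 526 (merge (leaf 1 524 556) (leaf 0 525 561))) (node 493 (merge (leaf 6 429 430) (node 556 (merge (leaf 5 460 588) (node 429 (merge (leaf 5 428 524) (node 428 (merge (leaf 7 396 396) (node 463 (merge (leaf 3 428 464) (node 495 (merge (leaf 4 431 431) (leaf 4 463 592)))))))))))))))) (merge (node 463 (merge (node 495 (merge (leaf 7 430 430) (leaf 4 463 592))) (merge (node 495 (merge (leaf 4 431 431) (leaf 4 463 592))) (node 460 (merge (node 491 (merge (leaf 1 459 492) (node 459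 (merge (leaf 1 458 490) (node 431 (merge (leaf 2 427 430) (leaf 2 428 432))))))) (merge (node 432 (merge (leaf 2 428 431) (node 464 (merge (leaf 2 429 433) (node 428 (merge (leaf 3 427 427) (leaf 3 428 429))))))) (node 492 (merge (leaf 1 459 491) (node 428 (merge (leaf 3 427 427) (node 429 (merge (leaf 3 428 464) (node 524 (merge (leaf 4 428 525) (leaf 6 428 556))))))))))))))) (node 525 (merge (node 526 (merge (leaf 0 524 524) (leaf 0 525 561))) (merge (node 526 (merge (leaf 1 524 556) (leaf 0 525 561))) (node 493 (merge (leaf 6 429 430) (node 588 (merge (leaf 5 460 556) (node 589 (merge (leaf 5 492 620) (node 492 (merge (leaf 7 460 460) (node 463 (merge (leaf 1 460 464) (node 495 (merge (leaf 4 431 431) (leaf 4 463 592))))))))))))))))))))))))))))))))))))))))))))) nP_13 cP_13 13 (by decide +kernel)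
def nP_14 : ℕ := 0x1c0000001000000000000000000000000000000000000000000000000000000000000000000000000000000000000000000000000000000000000000000000000000000000000
def cP_14 : ℕ := 0x200000006000000ef800000600000000f800001df800000fe000001ee00000002000000000000000000000000000000000000000000000000000000000000000000000000000000000000000000000000000
theorem lP_14 : S nP_14 cP_14 10 := S_of_chk [] trivial (node 526 (merge (node 525 (merge (leaf 3 525 561) (node 524 (merge (leaf 0 523 523) (leaf 0 524 527))))) (merge (node 561 (merge (leaf 3 525 525) (node 590 (merge (leaf 1 557 589) (node 562 (merge (leaf 1 558 591) (node 594 (merge (leaf 0 558 593) (leaf 0 559 595))))))))) (merge (node 494 (merge (node 462 (merge (leaf 4 462 591) (node 429 (merge (leaf 7 429 461) (node 430 (merge (leaf 7 397 397) (leaf 4 430 527))))))) (merge (node 590 (merge (node 589 (merge (leaf 1 557 561) (leaf 5 493 621))) (node 495 (merge (leaf 6 462 463) (node 527 (merge (leaf 6 494 622) (node 493 (merge (leaf 7 461 461) (leaf 0 492 492))))))))) (node 464 (merge (node 591 (merge (leaf 4 462 462) (leaf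 5 463 496))) (merge (node 462 (merge (leaf 4 462 591) (node 463 (merge (leaf 6 430 431) (node 493 (merge (leaf 1 461 465) (node 492 (merge (leaf 2 459 491) (leaf 2 460 495))))))))) (merge (node 496 (merge (leaf 5 463 591) (node 465 (merge (leaf 6 432 433) (node 463 (merge (leaf 7 431 431) (node 495 (merge (leaf 1 462 466) (leaf 2 461 493))))))))) (node 463 (merge (node 431 (merge (leaf 6 430 462) (leaf 7 431 496))) (merge (node 462 (merge (leaf 6 430 431) (node 493 (merge (leaf 1 461 465) (node 492 (merge (leaf 2 459 491) (leaf 2 460 495))))))) (merge (node 496 (merge (leaf 7 431 431) (node 465 (merge (leaf 6 432 433) (node 495 (merge (leaf 1 462 466) (leaf 2 461 493))))))) (node 465 (merge (node 433 (merge (leaf 6 432 496) (node 462 (merge (leaf 2 430 434) (leaf 1 461 493))))) (merge (node 496 (merge (leaf 6 432 433) (node 493 (merge (leaf 1 461 462) (leaf 2 461 495))))) (node 466 (merge (leaf 1 462 495) (node 499 (merge (leaf 0 463 498) (node 467 (merge (leaf 0 464 500) (node 435 (merge (leaf 2 431 434) (leaf 2 432 436))))))))))))))))))))))) (node 494 (merge (node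 462 (merge (leaf 4 462 591) (node 429 (merge (leaf 7 429 461) (node 430 (merge (leaf 7 397 397) (leaf 4 430 527))))))) (merge (node 590 (merge (node 589 (merge (leaf 5 493 621) (node 588 (merge (leaf 2 555 587) (leaf 2 556 591))))) (node 495 (merge (leaf 6 462 463) (node 622 (merge (leaf 6 494 527) (node 493 (merge (leaf 7 461 461) (leaf 7 493 525))))))))) (merge (node 590 (merge (node 495 (merge (leaf 6 462 463) (node 622 (merge (leaf 6 494 527) (node 621 (merge (leaf 5 493 589) (leaf 5 525 653))))))) (merge (node 463 (merge (leaf 6 462 495) (node 462 (merge (leaf 6 430 431) (node 461 (merge (leaf 7 429 429) (leaf 7 461 493))))))) (node 493 (merge (leaf 7 461 461) (node 622 (merge (leaf 7 493 525) (node 621 (merge (leaf 5 493 589) (leaf 5 525 653)))))))))) (node 464 (merge (node 591 (merge (leaf 4 462 462) (leaf 5 463 496))) (merge (node 462 (merge (leaf 4 462 591) (node 463 (merge (leaf 6 430 431) (node 493 (merge (leaf 1 461 465) (node 492 (merge (leaf 2 459 491) (leaf 2 460 495))))))))) (merge (node 496 (merge (leaf 5 463 591) (node 465 (merge (leaf 6 432 433)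 (node 463 (merge (leaf 7 431 431) (node 495 (merge (leaf 1 462 466) (leaf 2 461 493))))))))) (node 463 (merge (node 431 (merge (leaf 6 430 462) (leaf 7 431 496))) (merge (node 462 (merge (leaf 6 430 431) (node 493 (merge (leaf 1 461 465) (node 492 (merge (leaf 2 459 491) (leaf 2 460 495))))))) (merge (node 496 (merge (leaf 7 431 431) (node 465 (merge (leaf 6 432 433) (node 495 (merge (leaf 1 462 466) (leaf 2 461 493))))))) (node 465 (merge (node 433 (merge (leaf 6 432 496) (node 462 (merge (leaf 2 430 434) (leaf 1 461 493))))) (merge (node 496 (merge (leaf 6 432 433) (node 493 (merge (leaf 1 461 462) (leaf 2 461 495))))) (node 466 (merge (leaf 1 462 495) (node 499 (merge (leaf 0 463 498) (node 467 (merge (leaf 0 464 500) (node 435 (merge (leaf 2 431 434) (leaf 2 432 436)))))))))))))))))))))))))))) nP_14 cP_14 10 (by decide +kernel)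
def nP_15 : ℕ := 0x1c0000001000000000000000000000000000000000000000000000000000000000000000000000000000000000000000000000000000000000000000000000000000000000000
def cP_15 : ℕ := 0x1edc00000e3c00001cfe00001ffc00000ff800001ff8000007e0000007e0000000000000000000000000000000000000000000000000000000000000000000000000000000000000000000
theorem lP_15 : S nP_15 cP_15 14 := S_of_chk [] trivial (node 463 (merge (node 525 (merge (node 557 (merge (leaf 3 524 524) (node 527 (merge (leaf 2 524 556) (node 495 (merge (leaf 4 431 431) (leaf 5 462 590))))))) (merge (node 524 (merge (leaf 3 524 557) (node 526 (merge (leaf 0 523 523) (leaf 3 525 561))))) (node 561 (merge (leaf 3 525 526) (node 594 (merge (leaf 0 558 593) (node 562 (merge (leaf 0 559 595) (node 531 (merge (leaf 2 527 530) (node 563 (merge (leaf 3 527 527) (leaf 2 528 532)))))))))))))) (merge (node 464 (merge (node 496 (merge (leaf 7 431 431) (leaf 5 463 591))) (merge (node 465 (merge (node 496 (merge (leaf 6 432 433) (leaf 5 463 591))) (merge (node 466 (merge (node 494 (merge (leaf 1 462 495) (node 462 (merge (leaf 1 461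 493) (node 434 (merge (leaf 2 430 433) (leaf 2 431 435))))))) (merge (node 499 (merge (leaf 0 463 498) (node 467 (merge (leaf 0 464 500) (node 435 (merge (leaf 2 431 434) (leaf 2 432 436))))))) (node 498 (merge (leaf 0 463 499) (node 462 (merge (leaf 0 462 497) (node 494 (merge (leaf 1 461 493) (leaf 1 462 495)))))))))) (node 498 (merge (node 497 (merge (leaf 0 462 462) (node 499 (merge (leaf 0 463 466) (leaf 3 463 496))))) (merge (node 462 (merge (leaf 0 462 497) (node 493 (merge (leaf 1 461 494) (node 461 (merge (leaf 1 460 492) (node 429 (merge (leaf 3 428 428) (leaf 3 429 430))))))))) (node 466 (merge (leaf 0 463 499) (node 495 (merge (leaf 1 462 494) (node 467 (merge (leaf 1 463 496) (node 435 (merge (leaf 2 431 434) (leaf 2 432 436))))))))))))))) (merge (node 462 (merge (node 496 (merge (leaf 7 431 431) (node 497 (merge (leaf 0 461 461) (node 498 (merge (leaf 3 462 495) (leaf 3 463 499))))))) (merge (node 465 (merge (node 498 (merge (leaf 0 462 497) (node 466 (merge (leaf 0 463 499) (node 434 (merge (leaf 2 430 433) (leaf 2 431 435))))))) (merge (node 493 (merge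 (leaf 1 461 494) (node 461 (merge (leaf 1 460 492) (node 433 (merge (leaf 2 429 432) (leaf 2 430 434))))))) (node 498 (merge (leaf 0 462 497) (node 466 (merge (leaf 0 463 499) (node 494 (merge (leaf 1 461 493) (leaf 1 462 495)))))))))) (merge (node 496 (merge (leaf 7 431 431) (node 465 (merge (leaf 6 432 433) (node 498 (merge (leaf 0 462 497) (node 466 (merge (leaf 0 463 499) (node 494 (merge (leaf 1 461 493) (leaf 1 462 495))))))))))) (node 461 (merge (node 493 (merge (leaf 1 460 492) (node 465 (merge (leaf 1 461 494) (node 433 (merge (leaf 2 429 432) (leaf 2 430 434))))))) (merge (node 492 (merge (leaf 1 460 493) (node 460 (merge (leaf 1 459 491) (node 428 (merge (leaf 3 427 427) (leaf 3 428 429))))))) (node 432 (merge (leaf 2 429 433) (node 460 (merge (leaf 2 428 431) (node 428 (merge (leaf 3 427 427) (leaf 3 428 429)))))))))))))) (node 462 (merge (node 494 (merge (node 526 (merge (leaf 6 430 431) (leaf 4 462 591))) (node 493 (merge (leaf 1 461 465) (node 492 (merge (leaf 2 459 491) (leaf 2 460 495))))))) (merge (node 461 (merge (node 432 (merge (leaf 2 429 433)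 (node 460 (merge (leaf 2 428 431) (node 428 (merge (leaf 3 427 427) (leaf 3 428 429))))))) (merge (node 493 (merge (leaf 1 460 492) (node 429 (merge (leaf 3 428 428) (node 526 (merge (leaf 7 429 494) (leaf 4 429 525))))))) (node 492 (merge (leaf 1 460 493) (node 460 (merge (leaf 1 459 491) (node 432 (merge (leaf 2 428 431) (leaf 2 429 433)))))))))) (merge (node 429 (merge (node 461 (merge (leaf 3 428 428) (node 526 (merge (leaf 7 429 494) (node 493 (merge (leaf 1 460 492) (leaf 4 429 525))))))) (node 465 (merge (leaf 3 429 430) (node 498 (merge (leaf 0 462 497) (node 466 (merge (leaf 0 463 499) (node 434 (merge (leaf 2 430 433) (leaf 2 431 435))))))))))) (merge (node 429 (merge (node 428 (merge (leaf 3 428 461) (node 430 (merge (leaf 0 427 427) (leaf 3 429 465))))) (merge (node 461 (merge (leaf 3 428 428) (node 492 (merge (leaf 1 460 493) (node 460 (merge (leaf 1 459 491) (node 432 (merge (leaf 2 428 431) (leaf 2 429 433))))))))) (node 465 (merge (leaf 3 429 430) (node 498 (merge (leaf 0 462 497) (node 466 (merge (leaf 0 463 499) (node 434 (merge (leaf 2 430 433) (leaf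 2 431 435)))))))))))) (merge (node 429 (merge (node 428 (merge (leaf 3 428 461) (node 430 (merge (leaf 0 427 427) (leaf 0 428 431))))) (merge (node 465 (merge (leaf 3 429 430) (node 498 (merge (leaf 0 462 497) (node 466 (merge (leaf 0 463 499) (node 434 (merge (leaf 2 430 433) (leaf 2 431 435))))))))) (node 461 (merge (leaf 3 428 428) (node 494 (merge (leaf 7 429 526) (node 465 (merge (leaf 1 461 493) (node 495 (merge (leaf 1 462 466) (node 460 (merge (leaf 0 459 459) (node 432 (merge (leaf 2 428 431) (leaf 2 429 433)))))))))))))))) (node 429 (merge (node 428 (merge (leaf 3 428 461) (node 430 (merge (leaf 0 427 427) (leaf 3 429 465))))) (merge (node 465 (merge (leaf 3 429 430) (node 498 (merge (leaf 0 462 497) (node 466 (merge (leaf 0 463 499) (node 434 (merge (leaf 2 430 433) (leaf 2 431 435))))))))) (node 461 (merge (leaf 3 428 428) (node 494 (merge (leaf 7 429 526) (node 432 (merge (leaf 2 429 433) (node 460 (merge (leaf 2 428 431) (node 459 (merge (leaf 0 459 495) (node 491 (merge (leaf 1 458 490) (leaf 1 459 492)))))))))))))))))))))))))) (merge (node 525 (merge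 (node 524 (merge (leaf 3 524 557) (node 526 (merge (leaf 0 523 523) (leaf 3 525 561))))) (merge (node 557 (merge (leaf 3 524 524) (node 527 (merge (leaf 2 524 556) (node 495 (merge (leaf 5 462 590) (node 464 (merge (leaf 6 431 432) (node 591 (merge (leaf 6 463 496) (node 462 (merge (leaf 7 430 430) (leaf 7 462 494))))))))))))) (node 561 (merge (leaf 3 525 526) (node 594 (merge (leaf 0 558 593) (node 562 (merge (leaf 0 559 595) (node 531 (merge (leaf 2 527 530) (node 563 (merge (leaf 3 527 527) (leaf 2 528 532)))))))))))))) (merge (node 464 (merge (node 496 (merge (leaf 7 431 431) (leaf 5 463 591))) (merge (node 496 (merge (leaf 5 463 591) (node 433 (merge (leaf 6 432 465) (node 432 (merge (leaf 6 400 401) (leaf 5 431 527))))))) (node 465 (merge (node 495 (merge (node 527 (merge (leaf 4 431 431) (leaf 6 431 432))) (node 466 (merge (leaf 1 462 494) (node 499 (merge (leaf 0 463 498) (node 467 (merge (leaf 0 464 500) (node 435 (merge (leaf 2 431 434) (leaf 2 432 436))))))))))) (merge (node 466 (merge (node 434 (merge (leaf 2 431 435) (node 462 (merge (leaf 2 430 433) (node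 430 (merge (leaf 3 429 429) (leaf 3 430 431))))))) (merge (node 499 (merge (leaf 0 463 498) (node 467 (merge (leaf 0 464 500) (node 435 (merge (leaf 2 431 434) (leaf 2 432 436))))))) (node 498 (merge (leaf 0 463 499) (node 462 (merge (leaf 0 462 497) (node 430 (merge (leaf 3 429 429) (leaf 3 430 431)))))))))) (merge (node 466 (merge (node 431 (merge (leaf 3 430 430) (node 495 (merge (leaf 1 462 494) (leaf 4 431 527))))) (merge (node 494 (merge (leaf 1 462 495) (node 462 (merge (leaf 1 461 493) (node 434 (merge (leaf 2 430 433) (leaf 2 431 435))))))) (node 435 (merge (leaf 2 431 434) (node 467 (merge (leaf 2 432 436) (node 431 (merge (leaf 3 430 430) (leaf 3 431 432)))))))))) (merge (node 466 (merge (node 431 (merge (leaf 3 430 430) (node 495 (merge (leaf 1 462 494) (leaf 4 431 527))))) (merge (node 498 (merge (leaf 0 463 499) (node 462 (merge (leaf 0 462 497) (node 494 (merge (leaf 1 461 493) (leaf 1 462 495))))))) (node 499 (merge (leaf 0 463 498) (node 467 (merge (leaf 0 464 500) (node 431 (merge (leaf 3 430 430) (leaf 3 431 432)))))))))) (node 462 (merge (node 493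 (merge (leaf 1 461 494) (node 461 (merge (leaf 1 460 492) (node 433 (merge (leaf 2 429 432) (leaf 2 430 434))))))) (merge (node 493 (merge (leaf 1 461 494) (node 461 (merge (leaf 1 460 492) (node 429 (merge (leaf 3 428 428) (leaf 3 429 430))))))) (merge (node 433 (merge (leaf 2 430 434) (node 461 (merge (leaf 2 429 432) (node 429 (merge (leaf 3 428 428) (leaf 3 429 430))))))) (node 430 (merge (leaf 3 429 429) (node 398 (merge (node 495 (merge (leaf 4 366 366) (leaf 7 430 527))) (node 433 (merge (leaf 2 430 434) (node 400 (merge (node 497 (merge (leaf 0 462 498) (node 368 (merge (leaf 7 368 401) (leaf 4 368 432))))) (merge (node 494 (merge (leaf 1 461 493) (node 399 (merge (leaf 6 366 367) (node 397 (merge (leaf 7 365 365) (leaf 0 397 432))))))) (node 497 (merge (leaf 0 462 498) (node 401 (merge (leaf 7 368 368) (node 370 (merge (leaf 6 369 402) (node 494 (merge (leaf 1 461 493) (node 399 (merge (leaf 6 366 367) (leaf 2 366 369)))))))))))))))))))))))))))))))) (node 464 (merge (node 496 (merge (leaf 7 431 431) (leaf 5 463 591))) (merge (node 496 (merge (leaf 7 431 431)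 (node 433 (merge (leaf 6 432 465) (node 432 (merge (leaf 6 400 401) (leaf 5 431 527))))))) (merge (node 496 (merge (leaf 5 463 591) (node 561 (merge (leaf 4 464 593) (node 526 (merge (leaf 3 525 525) (node 562 (merge (leaf 3 526 527) (node 595 (merge (leaf 0 559 594) (node 563 (merge (leaf 0 560 596) (node 531 (merge (leaf 2 527 530) (leaf 2 528 532))))))))))))))) (node 462 (merge (node 461 (merge (node 492 (merge (leaf 1 460 493) (node 460 (merge (leaf 1 459 491) (node 432 (merge (leaf 2 428 431) (leaf 2 429 433))))))) (merge (node 492 (merge (leaf 1 460 493) (node 460 (merge (leaf 1 459 491) (node 428 (merge (leaf 3 427 427) (leaf 3 428 429))))))) (merge (node 432 (merge (leaf 2 429 433) (node 460 (merge (leaf 2 428 431) (node 428 (merge (leaf 3 427 427) (leaf 3 428 429))))))) (node 493 (merge (leaf 1 460 492) (node 429 (merge (leaf 3 428 428) (node 525 (merge (leaf 4 429 526) (node 557 (merge (leaf 4 461 590) (node 556 (merge (leaf 5 428 524) (leaf 5 460 588))))))))))))))) (merge (node 465 (merge (node 498 (merge (leaf 0 462 497) (node 466 (merge (leaf 0 463 499)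 (node 434 (merge (leaf 2 430 433) (leaf 2 431 435))))))) (merge (node 493 (merge (leaf 1 461 494) (node 461 (merge (leaf 1 460 492) (node 433 (merge (leaf 2 429 432) (leaf 2 430 434))))))) (merge (node 498 (merge (leaf 0 462 497) (node 466 (merge (leaf 0 463 499) (node 493 (merge (leaf 1 461 494) (node 461 (merge (leaf 1 460 492) (node 432 (merge (leaf 2 429 433) (node 431 (merge (leaf 3 430 430) (leaf 2 428 460))))))))))))) (node 498 (merge (leaf 0 462 497) (node 466 (merge (leaf 0 463 499) (node 435 (merge (leaf 2 431 434) (node 467 (merge (leaf 2 432 436) (node 431 (merge (leaf 3 430 430) (leaf 3 431 432))))))))))))))) (node 557 (merge (node 525 (merge (leaf 3 524 524) (node 561 (merge (leaf 3 525 526) (node 594 (merge (leaf 0 558 593) (node 562 (merge (leaf 0 559 595) (node 531 (merge (leaf 2 527 530) (node 563 (merge (leaf 3 527 527) (leaf 2 528 532))))))))))))) (merge (node 556 (merge (leaf 2 524 527) (node 587 (merge (leaf 1 555 588) (node 555 (merge (leaf 1 554 586) (node 523 (merge (leaf 3 522 522) (leaf 3 523 524))))))))) (merge (node 556 (merge (leaf 2 524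 527) (node 587 (merge (leaf 1 555 588) (node 555 (merge (leaf 1 554 586) (node 591 (merge (leaf 0 555 590) (node 526 (merge (leaf 4 462 494) (node 525 (merge (leaf 2 522 554) (leaf 3 525 561))))))))))))) (node 556 (merge (node 524 (merge (leaf 3 523 523) (leaf 3 524 525))) (merge (node 587 (merge (leaf 1 555 588) (node 555 (merge (leaf 1 554 586) (node 523 (merge (leaf 3 522 522) (leaf 3 523 524))))))) (merge (node 587 (merge (leaf 1 555 588) (node 555 (merge (leaf 1 554 586) (node 591 (merge (leaf 0 555 590) (node 525 (merge (leaf 3 524 524) (node 526 (merge (leaf 4 462 494) (leaf 2 522 554))))))))))) (node 587 (merge (leaf 1 555 588) (node 555 (merge (leaf 1 554 586) (node 591 (merge (leaf 0 555 590) (node 522 (merge (leaf 3 522 523) (node 554 (merge (leaf 3 521 521) (node 526 (merge (leaf 4 462 494) (leaf 2 522 525))))))))))))))))))))))))))))))))) nP_15 cP_15 14 (by decide +kernel)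

end Crest.Agent.H26Snaky
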