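import Crest.Agent.H26SnP000

/-! certificate data for S0047, part P 1 (computer generated) -/

set_option autoImplicit false
set_option maxRecDepth 100000

namespace Crest.Agent.H26Snaky

open T

def nP_16 : ℕ := 0x180000001000000000000000000000000000000000000000000000000000000000000000000000000000000000000000000000000000000000000000000000000000000000000
def cP_16 : ℕ := 0x500000007000000270000002f000001efc00000e7c00001cfe00001ffc00000ff800001ff8000007e0000007e0000000000000000000000000000000000000000000000000000000000000000000000000000000000000000000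
theorem lP_16 : S nP_16 cP_16 15 := S_of_chk [(nP_12, cP_12, 10), (nP_14, cP_14, 10), (nP_15, cP_15, 14)] ⟨lP_12, lP_14, lP_15, trivial⟩ (node 558 (merge (node 590 (merge (node 561 (merge (leaf 1 557 589) (node 562 (merge (leaf 1 558 591) (node 594 (merge (leaf 0 558 593) (leaf 0 559 595))))))) (node 557 (merge (node 524 (merge (leaf 3 524 525) (node 556 (merge (leaf 3 523 523) (leaf 2 524 527))))) (merge (node 525 (merge (leaf 3 524 524) (node 622 (merge (leaf 7 525 654) (node 493 (merge (leaf 4 461 461) (leaf 7 493 526))))))) (node 527 (merge (leaf 2 524 556) (node 622 (merge (leaf 6 526 654) (node 495 (merge (leaf 5 462 463) (leaf 6 494 526)))))))))))) (merge (node 557 (merge (node 588 (merge (leaf 1 556 589) (node 556 (merge (leaf 2 524 527) (leaf 1 555 587))))) (merge (node 524 (merge (leaf 3 524 525) (node 556 (merge (leaf 3 523 523) (leaf 2 524 527))))) (node 525 (merge (leaf 3 524 524) (node 622 (merge (node 590 (merge (leaf 7 525 654) (node 493 (merge (leaf 4 461 461) (leaf 7 493 526))))) (merge (node 589 (merge (leaf 1 556 588) (node 654 (merge (leaf 7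 525 590) (leaf 4 525 621))))) (merge (node 589 (merge (leaf 1 556 588) (node 621 (merge (leaf 4 525 654) (node 526 (merge (leaf 6 493 494) (leaf 6 525 653))))))) (node 589 (merge (leaf 1 556 588) (node 493 (merge (leaf 4 493 590) (node 494 (merge (leaf 6 461 462) (node 526 (merge (leaf 6 493 621) (node 460 (merge (leaf 7 460 492) (node 461 (merge (leaf 7 428 428) (leaf 4 429 429)))))))))))))))))))))) (merge (hyp 0) (merge (node 496 (merge (node 464 (merge (leaf 5 463 591) (node 433 (merge (leaf 6 432 465) (node 432 (merge (leaf 6 400 401) (node 431 (merge (leaf 7 399 399) (leaf 7 431 463))))))))) (node 557 (merge (node 524 (merge (leaf 3 524 525) (node 556 (merge (leaf 3 523 523) (leaf 2 524 527))))) (merge (node 588 (merge (leaf 1 556 589) (node 556 (merge (leaf 1 555 587) (node 524 (merge (leaf 3 523 523) (leaf 3 524 525))))))) (node 589 (merge (leaf 1 556 588) (node 561 (merge (leaf 1 557 590) (node 594 (merge (leaf 0 558 593) (node 562 (merge (leaf 0 559 595) (node 531 (merge (leaf 2 527 530) (node 563 (merge (leaf 3 527 527) (leaf 2 528 532))))))))))))))))))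 (merge (node 496 (merge (node 464 (merge (leaf 5 463 591) (node 433 (merge (leaf 6 432 465) (node 432 (merge (leaf 6 400 401) (node 431 (merge (leaf 7 399 399) (leaf 7 431 463))))))))) (node 557 (merge (node 588 (merge (leaf 1 556 589) (node 556 (merge (leaf 2 524 527) (leaf 1 555 587))))) (merge (node 588 (merge (leaf 1 556 589) (node 556 (merge (leaf 1 555 587) (node 524 (merge (leaf 3 523 523) (leaf 3 524 525))))))) (node 525 (merge (leaf 3 524 524) (node 561 (merge (leaf 3 525 526) (node 594 (merge (leaf 0 558 593) (node 562 (merge (leaf 0 559 595) (node 531 (merge (leaf 2 527 530) (node 563 (merge (leaf 3 527 527) (leaf 2 528 532)))))))))))))))))) (merge (node 496 (merge (node 464 (merge (leaf 5 463 591) (node 433 (merge (leaf 6 432 465) (node 432 (merge (leaf 6 400 401) (node 431 (merge (leaf 7 399 399) (leaf 7 431 463))))))))) (merge (node 464 (merge (node 433 (merge (leaf 6 432 465) (node 432 (merge (leaf 6 400 401) (node 431 (merge (leaf 7 399 399) (leaf 7 431 463))))))) (node 561 (merge (leaf 4 464 593) (node 589 (merge (leaf 1 557 590) (node 557 (merge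 (leaf 1 556 588) (node 527 (merge (leaf 2 524 556) (node 562 (merge (leaf 3 526 526) (leaf 3 527 563))))))))))))) (node 561 (merge (node 594 (merge (leaf 0 558 593) (node 562 (merge (leaf 0 559 595) (node 590 (merge (leaf 1 557 589) (leaf 1 558 591))))))) (merge (node 590 (merge (leaf 1 557 589) (node 562 (merge (leaf 1 558 591) (node 527 (merge (leaf 3 526 526) (leaf 3 527 563))))))) (merge (node 594 (merge (leaf 0 558 593) (node 562 (merge (leaf 0 559 595) (node 527 (merge (leaf 3 526 526) (leaf 3 527 563))))))) (node 625 (merge (node 593 (merge (leaf 0 558 594) (leaf 7 528 657))) (node 557 (merge (node 589 (merge (leaf 1 556 588) (leaf 1 557 590))) (merge (node 556 (merge (leaf 2 524 527) (node 587 (merge (leaf 1 555 588) (node 555 (merge (leaf 1 554 586) (node 523 (merge (leaf 3 522 522) (leaf 3 523 524))))))))) (node 590 (merge (leaf 1 557 589) (node 556 (merge (leaf 2 524 527) (node 555 (merge (leaf 0 555 591) (node 523 (merge (leaf 3 522 522) (leaf 3 523 524))))))))))))))))))))) (merge (node 527 (merge (node 557 (merge (leaf 2 524 556) (node 589 (merge (leaf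 1 556 588) (node 561 (merge (leaf 1 557 590) (node 526 (merge (leaf 3 525 525) (leaf 3 526 562))))))))) (merge (node 590 (merge (node 622 (merge (leaf 6 526 654) (node 495 (merge (leaf 5 462 463) (leaf 5 494 591))))) (node 561 (merge (leaf 1 557 589) (node 562 (merge (leaf 3 527 563) (node 594 (merge (leaf 0 558 593) (leaf 0 559 595))))))))) (merge (node 591 (merge (node 496 (merge (leaf 5 463 464) (leaf 6 495 623))) (node 495 (merge (node 590 (merge (leaf 5 462 463) (node 622 (merge (leaf 5 494 591) (leaf 6 526 654))))) (merge (node 463 (merge (leaf 4 431 431) (node 462 (merge (leaf 7 430 430) (leaf 7 462 494))))) (node 494 (merge (leaf 7 462 462) (node 493 (merge (leaf 0 492 492) (node 590 (merge (leaf 5 494 622) (node 526 (merge (leaf 7 461 461) (node 589 (merge (leaf 2 556 588) (leaf 5 493 621)))))))))))))))) (merge (node 526 (merge (node 561 (merge (leaf 3 525 525) (leaf 3 526 562))) (merge (node 496 (merge (node 464 (merge (leaf 5 431 432) (leaf 5 463 591))) (node 497 (merge (leaf 2 493 525) (node 498 (merge (leaf 1 494 495) (leaf 1 495 499))))))) (node 562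 (merge (leaf 3 526 561) (node 462 (merge (node 463 (merge (node 430 (merge (leaf 4 430 494) (leaf 7 430 495))) (merge (node 494 (merge (leaf 4 430 430) (leaf 6 430 431))) (merge (node 431 (merge (leaf 6 430 494) (leaf 5 430 495))) (node 495 (merge (leaf 7 430 430) (leaf 4 431 431))))))) (merge (node 591 (merge (leaf 4 462 494) (node 496 (merge (leaf 5 463 464) (leaf 6 495 623))))) (node 464 (merge (node 496 (merge (leaf 5 431 432) (leaf 5 463 591))) (merge (node 496 (merge (leaf 5 463 591) (node 463 (merge (leaf 7 431 431) (node 495 (merge (leaf 7 430 430) (leaf 5 462 590))))))) (node 463 (merge (node 495 (merge (leaf 7 430 430) (leaf 4 431 431))) (merge (node 495 (merge (leaf 7 430 430) (leaf 6 431 432))) (merge (node 495 (merge (leaf 4 431 431) (leaf 6 431 432))) (node 465 (merge (node 433 (merge (leaf 2 430 434) (node 461 (merge (leaf 2 429 432) (node 429 (merge (leaf 3 428 428) (leaf 3 429 430))))))) (merge (node 498 (merge (leaf 0 462 497) (node 466 (merge (leaf 0 463 499) (node 434 (merge (leaf 2 430 433) (leaf 2 431 435))))))) (node 498 (merge (leaf 0 462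 497) (node 466 (merge (leaf 0 463 499) (node 430 (merge (leaf 3 429 429) (leaf 3 430 431))))))))))))))))))))))))) (node 463 (merge (node 464 (merge (node 495 (merge (leaf 4 431 431) (leaf 6 431 432))) (merge (node 432 (merge (leaf 6 431 495) (leaf 5 431 496))) (merge (node 431 (merge (leaf 4 431 495) (leaf 7 431 496))) (node 496 (merge (leaf 7 431 431) (node 433 (merge (leaf 6 432 465) (node 432 (merge (leaf 6 400 401) (leaf 5 431 527))))))))))) (merge (node 557 (merge (leaf 2 524 556) (node 589 (merge (leaf 1 556 588) (node 495 (merge (leaf 4 431 431) (node 462 (merge (leaf 7 430 430) (node 494 (merge (leaf 5 461 526) (leaf 7 462 591))))))))))) (merge (node 464 (merge (node 432 (merge (leaf 6 431 495) (leaf 5 431 496))) (merge (node 496 (merge (leaf 5 463 591) (node 433 (merge (leaf 6 432 465) (node 432 (merge (leaf 6 400 401) (leaf 5 431 527))))))) (merge (node 495 (merge (leaf 6 431 432) (node 462 (merge (leaf 7 430 430) (node 494 (merge (leaf 7 462 591) (node 493 (merge (leaf 1 461 465) (leaf 0 492 492))))))))) (node 462 (merge (node 591 (merge (leaf 5 463 496)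 (node 495 (merge (leaf 7 430 430) (leaf 7 462 494))))) (merge (node 496 (merge (leaf 5 463 591) (node 497 (merge (leaf 0 461 461) (node 465 (merge (leaf 6 432 433) (leaf 0 462 498))))))) (node 430 (merge (leaf 7 430 495) (node 429 (merge (leaf 3 429 465) (node 428 (merge (leaf 0 427 427) (leaf 3 428 461)))))))))))))) (node 464 (merge (node 496 (merge (leaf 5 431 432) (leaf 5 463 591))) (merge (node 496 (merge (leaf 7 431 431) (leaf 5 463 591))) (node 462 (merge (node 557 (merge (leaf 2 524 556) (node 589 (merge (leaf 1 556 588) (node 526 (merge (leaf 5 461 494) (node 561 (merge (leaf 0 525 525) (leaf 3 526 562))))))))) (merge (node 465 (merge (node 498 (merge (leaf 0 462 497) (node 466 (merge (leaf 0 463 499) (node 434 (merge (leaf 2 430 433) (leaf 2 431 435))))))) (merge (node 493 (merge (leaf 1 461 494) (node 461 (merge (leaf 1 460 492) (node 433 (merge (leaf 2 429 432) (leaf 2 430 434))))))) (merge (node 498 (merge (leaf 0 462 497) (node 466 (merge (leaf 0 463 499) (node 493 (merge (leaf 1 461 494) (node 461 (merge (leaf 1 460 492) (node 432 (merge (leaf 2 429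 433) (node 431 (merge (leaf 3 430 430) (leaf 2 428 460))))))))))))) (node 498 (merge (leaf 0 462 497) (node 466 (merge (leaf 0 463 499) (node 435 (merge (leaf 2 431 434) (node 467 (merge (leaf 2 432 436) (node 431 (merge (leaf 3 430 430) (leaf 3 431 432))))))))))))))) (node 433 (merge (node 432 (merge (leaf 2 429 461) (node 434 (merge (leaf 1 430 431) (leaf 2 430 465))))) (merge (node 465 (merge (leaf 2 430 434) (node 498 (merge (leaf 0 462 497) (node 466 (merge (leaf 0 463 499) (node 562 (merge (leaf 7 433 530) (node 561 (merge (leaf 3 526 526) (leaf 3 527 563))))))))))) (node 461 (merge (leaf 2 429 432) (node 493 (merge (leaf 1 460 492) (node 557 (merge (leaf 2 524 556) (node 525 (merge (leaf 6 429 430) (node 561 (merge (leaf 0 525 526) (node 594 (merge (leaf 0 558 593) (node 562 (merge (leaf 3 527 563) (leaf 0 559 595))))))))))))))))))))))))))))))))) (merge (hyp 1) (hyp 2)))))))))) nP_16 cP_16 15 (by decide +kernel)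
def nP_17 : ℕ := 0x3c0000001000000000000000000000000000000000000000000000000000000000000000000000000000000000000000000000000000000000000000000000000000000000000
def cP_17 : ℕ := 0x3be000001c0000001c6000001ffc00000ff800001ff8000000f000000070000000700000005000000000000000000000000000000000000000000000000000000000000000000000000000
theorem lP_17 : S nP_17 cP_17 13 := S_of_chk [] trivial (node 463 (merge (node 590 (merge (leaf 1 557 589) (node 591 (merge (leaf 1 558 562) (node 526 (merge (leaf 3 525 525) (node 494 (merge (leaf 4 462 462) (leaf 6 462 495))))))))) (merge (node 526 (merge (leaf 3 525 525) (node 590 (merge (leaf 1 557 589) (node 494 (merge (leaf 6 462 495) (node 462 (merge (leaf 6 430 431) (node 461 (merge (leaf 7 429 429) (leaf 7 461 493))))))))))) (merge (node 590 (merge (leaf 1 557 589) (node 562 (merge (leaf 1 558 591) (node 531 (merge (leaf 2 527 530) (node 563 (merge (leaf 2 528 532) (node 596 (merge (leaf 0 560 595) (node 564 (merge (leaf 0 561 597) (node 592 (merge (leaf 1 560 593) (node 496 (merge (leaf 7 463 495) (node 465 (merge (leaf 6 464 497)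 (node 464 (merge (leaf 7 431 431) (leaf 6 432 433))))))))))))))))))))) (merge (node 464 (merge (node 496 (merge (leaf 7 431 431) (leaf 5 463 591))) (merge (node 465 (merge (node 496 (merge (leaf 6 432 433) (leaf 5 463 591))) (merge (node 466 (merge (node 494 (merge (leaf 1 462 495) (node 462 (merge (leaf 1 461 493) (node 434 (merge (leaf 2 430 433) (leaf 2 431 435))))))) (merge (node 499 (merge (leaf 0 463 498) (node 467 (merge (leaf 0 464 500) (node 435 (merge (leaf 2 431 434) (leaf 2 432 436))))))) (node 498 (merge (leaf 0 463 499) (node 462 (merge (leaf 0 462 497) (node 494 (merge (leaf 1 461 493) (leaf 1 462 495)))))))))) (node 498 (merge (node 497 (merge (leaf 0 462 462) (node 499 (merge (leaf 0 463 466) (leaf 3 463 496))))) (merge (node 462 (merge (leaf 0 462 497) (node 493 (merge (leaf 1 461 494) (node 461 (merge (leaf 1 460 492) (node 429 (merge (leaf 3 428 428) (leaf 3 429 430))))))))) (node 466 (merge (leaf 0 463 499) (node 495 (merge (leaf 1 462 494) (node 467 (merge (leaf 1 463 496) (node 435 (merge (leaf 2 431 434) (leaf 2 432 436))))))))))))))) (merge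 (node 462 (merge (node 496 (merge (leaf 7 431 431) (node 497 (merge (leaf 0 461 461) (node 498 (merge (leaf 3 462 495) (leaf 3 463 499))))))) (merge (node 465 (merge (node 498 (merge (leaf 0 462 497) (node 466 (merge (leaf 0 463 499) (node 434 (merge (leaf 2 430 433) (leaf 2 431 435))))))) (merge (node 493 (merge (leaf 1 461 494) (node 461 (merge (leaf 1 460 492) (node 433 (merge (leaf 2 429 432) (leaf 2 430 434))))))) (node 498 (merge (leaf 0 462 497) (node 466 (merge (leaf 0 463 499) (node 494 (merge (leaf 1 461 493) (leaf 1 462 495)))))))))) (merge (node 496 (merge (leaf 7 431 431) (node 465 (merge (leaf 6 432 433) (node 498 (merge (leaf 0 462 497) (node 466 (merge (leaf 0 463 499) (node 494 (merge (leaf 1 461 493) (leaf 1 462 495))))))))))) (node 461 (merge (node 493 (merge (leaf 1 460 492) (node 465 (merge (leaf 1 461 494) (node 433 (merge (leaf 2 429 432) (leaf 2 430 434))))))) (merge (node 492 (merge (leaf 1 460 493) (node 460 (merge (leaf 1 459 491) (node 428 (merge (leaf 3 427 427) (leaf 3 428 429))))))) (node 432 (merge (leaf 2 429 433) (node 460 (merge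 (leaf 2 428 431) (node 428 (merge (leaf 3 427 427) (leaf 3 428 429)))))))))))))) (node 462 (merge (node 494 (merge (node 526 (merge (leaf 6 430 431) (leaf 4 462 591))) (node 493 (merge (leaf 1 461 465) (node 492 (merge (leaf 2 459 491) (leaf 2 460 495))))))) (merge (node 461 (merge (node 432 (merge (leaf 2 429 433) (node 460 (merge (leaf 2 428 431) (node 428 (merge (leaf 3 427 427) (leaf 3 428 429))))))) (merge (node 493 (merge (leaf 1 460 492) (node 429 (merge (leaf 3 428 428) (node 526 (merge (leaf 7 429 494) (leaf 4 429 525))))))) (node 492 (merge (leaf 1 460 493) (node 460 (merge (leaf 1 459 491) (node 432 (merge (leaf 2 428 431) (leaf 2 429 433)))))))))) (merge (node 429 (merge (node 461 (merge (leaf 3 428 428) (node 526 (merge (leaf 7 429 494) (node 493 (merge (leaf 1 460 492) (leaf 4 429 525))))))) (node 465 (merge (leaf 3 429 430) (node 498 (merge (leaf 0 462 497) (node 466 (merge (leaf 0 463 499) (node 434 (merge (leaf 2 430 433) (leaf 2 431 435))))))))))) (merge (node 429 (merge (node 428 (merge (leaf 3 428 461) (node 430 (merge (leaf 0 427 427) (leaf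 3 429 465))))) (merge (node 461 (merge (leaf 3 428 428) (node 492 (merge (leaf 1 460 493) (node 460 (merge (leaf 1 459 491) (node 432 (merge (leaf 2 428 431) (leaf 2 429 433))))))))) (node 465 (merge (leaf 3 429 430) (node 498 (merge (leaf 0 462 497) (node 466 (merge (leaf 0 463 499) (node 434 (merge (leaf 2 430 433) (leaf 2 431 435)))))))))))) (merge (node 429 (merge (node 428 (merge (leaf 3 428 461) (node 430 (merge (leaf 0 427 427) (leaf 0 428 431))))) (merge (node 465 (merge (leaf 3 429 430) (node 498 (merge (leaf 0 462 497) (node 466 (merge (leaf 0 463 499) (node 434 (merge (leaf 2 430 433) (leaf 2 431 435))))))))) (node 461 (merge (leaf 3 428 428) (node 494 (merge (leaf 7 429 526) (node 465 (merge (leaf 1 461 493) (node 495 (merge (leaf 1 462 466) (node 460 (merge (leaf 0 459 459) (node 432 (merge (leaf 2 428 431) (leaf 2 429 433)))))))))))))))) (node 429 (merge (node 428 (merge (leaf 3 428 461) (node 430 (merge (leaf 0 427 427) (leaf 3 429 465))))) (merge (node 465 (merge (leaf 3 429 430) (node 498 (merge (leaf 0 462 497) (node 466 (merge (leaf 0 463 499)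 (node 434 (merge (leaf 2 430 433) (leaf 2 431 435))))))))) (node 461 (merge (leaf 3 428 428) (node 494 (merge (leaf 7 429 526) (node 432 (merge (leaf 2 429 433) (node 460 (merge (leaf 2 428 431) (node 459 (merge (leaf 0 459 495) (node 491 (merge (leaf 1 458 490) (leaf 1 459 492)))))))))))))))))))))))))) (node 462 (merge (node 590 (merge (leaf 1 557 589) (node 591 (merge (leaf 1 558 562) (node 526 (merge (leaf 4 462 494) (leaf 3 525 525))))))) (merge (node 590 (merge (leaf 1 557 589) (node 526 (merge (leaf 3 525 525) (node 494 (merge (leaf 6 430 431) (node 461 (merge (leaf 7 429 429) (leaf 7 461 493))))))))) (merge (node 464 (merge (node 496 (merge (leaf 7 431 431) (leaf 4 464 593))) (merge (node 496 (merge (leaf 5 463 591) (leaf 4 464 593))) (node 429 (merge (node 428 (merge (leaf 3 428 461) (node 430 (merge (leaf 0 427 427) (leaf 0 428 431))))) (merge (node 465 (merge (leaf 3 429 430) (node 498 (merge (leaf 0 462 497) (node 466 (merge (leaf 0 463 499) (node 434 (merge (leaf 2 430 433) (leaf 2 431 435))))))))) (node 590 (merge (leaf 1 557 589) (node 562 (merge (leaf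 1 558 591) (node 530 (merge (leaf 2 527 531) (node 461 (merge (leaf 3 428 428) (node 433 (merge (leaf 2 429 432) (node 465 (merge (leaf 2 430 434) (node 498 (merge (leaf 7 433 466) (leaf 0 462 497))))))))))))))))))))) (node 464 (merge (node 496 (merge (leaf 7 431 431) (leaf 4 464 593))) (merge (node 496 (merge (leaf 5 463 591) (leaf 4 464 593))) (merge (node 496 (merge (leaf 7 431 431) (leaf 5 463 591))) (node 562 (merge (node 531 (merge (leaf 2 527 530) (node 563 (merge (leaf 2 528 532) (node 596 (merge (leaf 0 560 595) (node 564 (merge (leaf 0 561 597) (node 592 (merge (leaf 1 559 591) (leaf 1 560 593))))))))))) (node 461 (merge (node 492 (merge (leaf 1 460 493) (node 460 (merge (leaf 1 459 491) (node 428 (merge (leaf 3 427 427) (leaf 3 428 429))))))) (merge (node 492 (merge (leaf 1 460 493) (node 460 (merge (leaf 1 459 491) (node 432 (merge (leaf 2 428 431) (leaf 2 429 433))))))) (merge (node 432 (merge (leaf 2 429 433) (node 460 (merge (leaf 2 428 431) (node 428 (merge (leaf 3 427 427) (leaf 3 428 429))))))) (node 429 (merge (leaf 3 428 428) (node 397 (merge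 (node 493 (merge (leaf 1 460 492) (node 364 (merge (leaf 7 364 396) (node 365 (merge (leaf 7 332 332) (leaf 4 365 494))))))) (merge (node 493 (merge (leaf 1 460 492) (node 366 (merge (leaf 6 365 398) (node 365 (merge (leaf 6 333 334) (leaf 4 365 494))))))) (merge (node 365 (merge (leaf 4 365 494) (node 334 (merge (leaf 6 333 366) (node 333 (merge (leaf 6 301 302) (node 332 (merge (leaf 7 300 300) (leaf 7 332 364))))))))) (node 432 (merge (leaf 2 429 433) (node 493 (merge (leaf 1 460 492) (node 398 (merge (leaf 6 365 366) (node 396 (merge (leaf 7 364 364) (node 431 (merge (leaf 0 396 399) (leaf 3 396 430)))))))))))))))))))))))))))))))))))) nP_17 cP_17 13 (by decide +kernel)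
def nP_18 : ℕ := 0x180000001000000000000000000000000000000000000000000000000000000000000000000000000000000000000000000000000000000000000000000000000000000000000
def cP_18 : ℕ := 0x5000000070000002700000027000003ffc00001e7c00001c7e00001ffc00000ff800001ff8000002f000000070000000700000005000000000000000000000000000000000000000000000000000000000000000000000000000
theorem lP_18 : S nP_18 cP_18 15 := S_of_chk [(nP_12, cP_12, 10), (nP_17, cP_17, 13)] ⟨lP_12, lP_17, trivial⟩ (node 558 (merge (node 557 (merge (node 588 (merge (leaf 1 556 589) (node 556 (merge (leaf 1 555 587) (node 592 (merge (leaf 0 556 591) (leaf 0 557 593))))))) (merge (node 525 (merge (leaf 3 524 524) (node 561 (merge (leaf 3 525 526) (node 593 (merge (leaf 0 557 592) (leaf 0 558 594))))))) (node 588 (merge (leaf 1 556 589) (node 556 (merge (leaf 1 555 587) (node 524 (merge (leaf 3 523 523) (leaf 3 524 525)))))))))) (merge (node 557 (merge (node 588 (merge (leaf 1 556 589) (node 556 (merge (leaf 1 555 587) (node 524 (merge (leaf 3 523 523) (leaf 3 524 525))))))) (merge (node 589 (merge (leaf 1 556 588)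 (node 561 (merge (leaf 1 557 590) (node 593 (merge (leaf 0 557 592) (leaf 0 558 594))))))) (node 525 (merge (leaf 3 524 524) (node 561 (merge (leaf 3 525 526) (node 593 (merge (leaf 0 557 592) (leaf 0 558 594)))))))))) (merge (node 561 (merge (node 589 (merge (leaf 1 557 590) (node 557 (merge (leaf 1 556 588) (node 593 (merge (leaf 0 557 592) (leaf 0 558 594))))))) (merge (node 557 (merge (node 589 (merge (leaf 1 556 588) (leaf 1 557 590))) (merge (node 592 (merge (leaf 0 557 593) (node 591 (merge (leaf 0 556 556) (node 562 (merge (leaf 1 559 563) (leaf 1 558 590))))))) (node 588 (merge (leaf 1 556 589) (node 556 (merge (leaf 1 555 587) (node 592 (merge (leaf 0 556 591) (leaf 0 557 593)))))))))) (merge (node 590 (merge (leaf 1 557 589) (node 562 (merge (leaf 1 558 591) (node 595 (merge (leaf 0 559 594) (node 563 (merge (leaf 0 560 596) (node 531 (merge (leaf 2 527 530) (leaf 2 528 532))))))))))) (node 562 (merge (node 595 (merge (leaf 0 559 594) (node 563 (merge (leaf 0 560 596) (node 531 (merge (leaf 2 527 530) (leaf 2 528 532))))))) (merge (node 594 (merge (leaf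 0 559 595) (node 593 (merge (leaf 0 558 558) (node 625 (merge (leaf 7 528 657) (node 530 (merge (leaf 5 497 498) (leaf 2 527 531))))))))) (merge (node 563 (merge (node 595 (merge (leaf 0 559 594) (leaf 0 560 596))) (merge (node 592 (merge (leaf 1 559 591) (node 593 (merge (leaf 1 560 564) (node 558 (merge (leaf 0 557 557) (leaf 0 558 594))))))) (node 592 (merge (leaf 1 559 591) (node 564 (merge (leaf 1 560 593) (node 596 (merge (leaf 0 560 595) (leaf 0 561 597)))))))))) (merge (node 531 (merge (leaf 2 527 530) (node 563 (merge (leaf 2 528 532) (node 592 (merge (leaf 1 559 591) (node 593 (merge (leaf 1 560 564) (node 558 (merge (leaf 0 557 557) (leaf 0 558 594))))))))))) (node 531 (merge (leaf 2 527 530) (node 563 (merge (leaf 2 528 532) (node 596 (merge (leaf 0 560 595) (node 564 (merge (leaf 0 561 597) (node 592 (merge (leaf 1 559 591) (leaf 1 560 593)))))))))))))))))))) (merge (node 557 (merge (node 524 (merge (leaf 3 524 525) (node 556 (merge (leaf 3 523 523) (node 592 (merge (leaf 0 556 591) (leaf 0 557 593))))))) (merge (node 588 (merge (leaf 1 556 589) (node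 556 (merge (leaf 1 555 587) (node 592 (merge (leaf 0 556 591) (leaf 0 557 593))))))) (node 525 (merge (leaf 3 524 524) (node 622 (merge (node 590 (merge (leaf 7 525 654) (node 493 (merge (leaf 4 461 461) (leaf 7 493 526))))) (merge (node 589 (merge (leaf 1 556 588) (node 654 (merge (leaf 7 525 590) (leaf 4 525 621))))) (merge (node 589 (merge (leaf 1 556 588) (node 621 (merge (leaf 4 525 654) (node 526 (merge (leaf 6 493 494) (leaf 6 525 653))))))) (node 589 (merge (leaf 1 556 588) (node 493 (merge (leaf 4 493 590) (node 494 (merge (leaf 6 461 462) (node 526 (merge (leaf 6 493 621) (node 460 (merge (leaf 7 460 492) (node 461 (merge (leaf 7 428 428) (leaf 4 429 429)))))))))))))))))))))) (merge (hyp 0) (merge (node 525 (merge (node 524 (merge (leaf 3 524 557) (node 526 (merge (leaf 0 523 523) (leaf 3 525 561))))) (merge (node 561 (merge (leaf 3 525 526) (node 593 (merge (leaf 0 558 594) (node 625 (merge (leaf 7 528 657) (node 496 (merge (leaf 4 464 464) (leaf 4 496 592))))))))) (merge (node 557 (merge (leaf 3 524 524) (node 592 (merge (leaf 0 557 593) (node 556 (merge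 (leaf 0 556 591) (node 587 (merge (leaf 1 555 588) (node 555 (merge (leaf 1 554 586) (node 554 (merge (leaf 2 522 526) (node 522 (merge (leaf 3 521 521) (leaf 3 522 523))))))))))))))) (node 493 (merge (node 557 (merge (leaf 3 524 524) (node 461 (merge (leaf 4 461 590) (node 430 (merge (leaf 6 429 462) (node 429 (merge (leaf 6 397 398) (node 428 (merge (leaf 7 396 396) (leaf 7 428 460))))))))))) (merge (node 496 (merge (node 464 (merge (leaf 5 463 591) (node 433 (merge (leaf 6 432 465) (node 432 (merge (leaf 6 400 401) (node 431 (merge (leaf 7 399 399) (leaf 7 431 463))))))))) (merge (node 464 (merge (leaf 5 463 591) (node 465 (merge (leaf 6 432 433) (node 592 (merge (leaf 6 464 497) (node 593 (merge (leaf 4 464 561) (leaf 4 496 625))))))))) (merge (node 557 (merge (leaf 3 524 524) (node 592 (merge (leaf 0 557 593) (node 465 (merge (leaf 6 464 497) (node 464 (merge (leaf 6 432 433) (node 463 (merge (leaf 7 431 431) (leaf 7 463 495))))))))))) (node 524 (merge (leaf 3 524 557) (node 495 (merge (leaf 1 492 494) (node 592 (merge (leaf 7 463 463) (node 593 (merge (leaf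 4 496 625) (node 594 (merge (leaf 0 558 561) (leaf 3 558 591))))))))))))))) (merge (node 496 (merge (node 464 (merge (leaf 5 463 591) (node 463 (merge (leaf 7 431 431) (node 592 (merge (leaf 7 463 495) (node 593 (merge (leaf 4 464 561) (leaf 4 496 625))))))))) (merge (node 464 (merge (leaf 5 463 591) (node 433 (merge (leaf 6 432 465) (node 432 (merge (leaf 6 400 401) (node 431 (merge (leaf 7 399 399) (leaf 7 431 463))))))))) (merge (node 464 (merge (leaf 5 463 591) (node 465 (merge (leaf 6 432 433) (node 592 (merge (leaf 6 464 497) (node 593 (merge (leaf 4 464 561) (leaf 4 496 625))))))))) (merge (node 592 (merge (node 593 (merge (leaf 0 557 557) (leaf 4 496 625))) (node 465 (merge (leaf 6 464 497) (node 464 (merge (leaf 6 432 433) (node 463 (merge (leaf 7 431 431) (leaf 7 463 495))))))))) (node 461 (merge (node 557 (merge (leaf 4 461 590) (node 592 (merge (leaf 0 557 593) (node 556 (merge (leaf 5 460 588) (leaf 0 556 591))))))) (merge (node 557 (merge (leaf 4 461 590) (node 430 (merge (leaf 6 429 462) (node 429 (merge (leaf 6 397 398) (node 428 (merge (leaf 7 396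 396) (leaf 7 428 460))))))))) (node 592 (merge (node 593 (merge (leaf 4 496 625) (node 594 (merge (leaf 3 558 591) (leaf 3 559 595))))) (node 497 (merge (leaf 6 464 465) (node 495 (merge (leaf 7 463 463) (node 494 (merge (leaf 3 460 460) (leaf 3 461 462))))))))))))))))) (node 496 (merge (node 464 (merge (leaf 5 463 591) (node 463 (merge (leaf 7 431 431) (node 592 (merge (leaf 7 463 495) (node 593 (merge (leaf 4 464 561) (leaf 4 496 625))))))))) (merge (node 464 (merge (leaf 5 463 591) (node 433 (merge (leaf 6 432 465) (node 432 (merge (leaf 6 400 401) (node 431 (merge (leaf 7 399 399) (leaf 7 431 463))))))))) (merge (node 464 (merge (leaf 5 463 591) (node 465 (merge (leaf 6 432 433) (node 592 (merge (leaf 6 464 497) (node 593 (merge (leaf 4 464 561) (leaf 4 496 625))))))))) (merge (node 592 (merge (node 593 (merge (leaf 4 496 625) (node 594 (merge (leaf 0 558 561) (leaf 3 559 595))))) (node 465 (merge (leaf 6 464 497) (node 464 (merge (leaf 6 432 433) (node 463 (merge (leaf 7 431 431) (leaf 7 463 495))))))))) (node 592 (merge (node 593 (merge (leaf 4 496 625) (node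 594 (merge (leaf 3 558 591) (leaf 3 559 595))))) (node 497 (merge (leaf 6 464 465) (node 495 (merge (leaf 7 463 463) (node 494 (merge (leaf 1 492 524) (node 461 (merge (leaf 3 460 460) (leaf 3 461 462)))))))))))))))))))))))) (node 561 (merge (node 593 (merge (leaf 0 558 594) (node 625 (merge (leaf 7 528 657) (node 496 (merge (leaf 4 464 464) (leaf 4 496 592))))))) (merge (node 590 (merge (leaf 1 557 589) (node 562 (merge (leaf 1 558 591) (node 595 (merge (leaf 0 559 594) (node 563 (merge (leaf 0 560 596) (node 531 (merge (leaf 2 527 530) (leaf 2 528 532))))))))))) (hyp 1))))))))))) nP_18 cP_18 15 (by decide +kernel)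
def nP_19 : ℕ := 0x100000001000000000000000000000000000000000000000000000000000000000000000000000000000000000000000000000000000000000000000000000000000000000000
def cP_19 : ℕ := 0x50000003700000037000003ff000003ffc00003efc00003cfe00001ffc00003ff800001ff800000ff0000007f0000000700000005000000000000000000000000000000000000000000000000000000000000000000000000000
theorem lP_19 : S nP_19 cP_19 16 := S_of_chk [(nP_12, cP_12, 10), (nP_13, cP_13, 13), (nP_16, cP_16, 15), (nP_18, cP_18, 15)] ⟨lP_12, lP_13, lP_16, lP_18, trivial⟩ (node 559 (merge (node 496 (merge (node 464 (merge (leaf 5 463 591) (node 432 (merge (leaf 5 431 527) (node 431 (merge (leaf 7 399 399) (leaf 7 431 463))))))) (merge (node 464 (merge (leaf 5 463 591) (node 433 (merge (leaf 6 432 465) (node 432 (merge (leaf 6 400 401) (leaf 5 431 527))))))) (merge (node 464 (merge (node 433 (merge (leaf 6 432 465) (node 432 (merge (leaf 6 400 401) (leaf 5 431 527))))) (merge (node 432 (merge (leaf 5 431 527) (node 431 (merge (leaf 7 399 399) (leaf 7 431 463))))) (node 465 (merge (leaf 6 432 433) (node 592 (merge (leaf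 6 464 497) (node 463 (merge (leaf 7 431 431) (leaf 7 463 495)))))))))) (merge (node 464 (merge (leaf 5 463 591) (node 465 (merge (leaf 6 432 433) (node 592 (merge (leaf 6 464 497) (node 463 (merge (leaf 7 431 431) (leaf 7 463 495))))))))) (node 592 (merge (node 593 (merge (leaf 4 496 625) (node 594 (merge (leaf 3 559 595) (node 558 (merge (leaf 0 557 557) (leaf 3 558 591))))))) (node 497 (merge (leaf 6 464 465) (node 495 (merge (leaf 7 463 463) (node 527 (merge (leaf 7 495 624) (node 498 (merge (leaf 1 495 499) (leaf 1 494 526)))))))))))))))) (merge (node 561 (merge (node 593 (merge (node 625 (merge (leaf 7 528 657) (node 496 (merge (leaf 4 464 464) (leaf 4 496 592))))) (node 594 (merge (leaf 0 558 558) (node 595 (merge (leaf 0 559 562) (leaf 3 560 596))))))) (merge (node 562 (merge (node 527 (merge (leaf 3 526 526) (leaf 3 527 563))) (merge (node 591 (merge (leaf 1 558 590) (node 563 (merge (leaf 1 559 592) (node 531 (merge (leaf 2 527 530) (leaf 2 528 532))))))) (node 590 (merge (leaf 1 558 591) (node 558 (merge (leaf 1 557 589) (node 526 (merge (leaf 3 525 525)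 (leaf 3 526 527)))))))))) (merge (node 593 (merge (node 625 (merge (leaf 7 528 657) (node 496 (merge (leaf 4 464 464) (leaf 4 496 592))))) (node 558 (merge (leaf 0 558 594) (node 589 (merge (leaf 1 557 590) (node 557 (merge (leaf 1 556 588) (node 525 (merge (leaf 3 524 524) (leaf 3 525 526))))))))))) (node 562 (merge (node 527 (merge (leaf 3 526 526) (leaf 3 527 563))) (merge (node 595 (merge (leaf 0 559 594) (node 563 (merge (leaf 0 560 596) (node 531 (merge (leaf 2 527 530) (leaf 2 528 532))))))) (node 527 (merge (leaf 3 526 526) (node 530 (merge (leaf 2 527 531) (node 498 (merge (node 594 (merge (leaf 0 559 595) (node 593 (merge (leaf 5 465 466) (leaf 5 497 625))))) (merge (node 594 (merge (leaf 0 559 595) (node 499 (merge (leaf 6 466 467) (node 497 (merge (leaf 7 465 465) (leaf 1 495 496))))))) (node 466 (merge (leaf 5 465 593) (node 435 (merge (leaf 6 434 467) (node 434 (merge (leaf 6 402 403) (node 433 (merge (leaf 7 401 401) (leaf 7 433 465))))))))))))))))))))))) (merge (node 558 (merge (node 557 (merge (node 588 (merge (leaf 1 556 589) (node 556 (merge (leaf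 2 524 527) (leaf 1 555 587))))) (merge (node 592 (merge (leaf 0 557 593) (node 556 (merge (leaf 2 524 527) (leaf 0 556 591))))) (node 589 (merge (leaf 1 556 588) (node 561 (merge (leaf 1 557 590) (node 593 (merge (leaf 0 557 592) (leaf 0 558 594)))))))))) (merge (node 557 (merge (node 592 (merge (leaf 0 557 593) (node 556 (merge (leaf 2 524 527) (leaf 0 556 591))))) (merge (node 524 (merge (leaf 3 524 525) (node 556 (merge (leaf 3 523 523) (leaf 2 524 527))))) (node 525 (merge (leaf 3 524 524) (node 561 (merge (leaf 3 525 526) (node 593 (merge (leaf 0 557 592) (leaf 0 558 594)))))))))) (merge (node 557 (merge (node 588 (merge (leaf 1 556 589) (node 556 (merge (leaf 1 555 587) (node 524 (merge (leaf 3 523 523) (leaf 3 524 525))))))) (merge (node 589 (merge (leaf 1 556 588) (node 561 (merge (leaf 1 557 590) (node 593 (merge (leaf 0 557 592) (leaf 0 558 594))))))) (node 525 (merge (leaf 3 524 524) (node 561 (merge (leaf 3 525 526) (node 593 (merge (leaf 0 557 592) (leaf 0 558 594)))))))))) (merge (node 561 (merge (node 590 (merge (leaf 1 557 589) (node 562 (merge (leaf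 1 558 591) (node 527 (merge (leaf 3 526 526) (leaf 3 527 563))))))) (merge (node 589 (merge (leaf 1 557 590) (node 557 (merge (leaf 1 556 588) (node 525 (merge (leaf 3 524 524) (leaf 3 525 526))))))) (merge (node 557 (merge (node 525 (merge (leaf 3 524 524) (leaf 3 525 526))) (merge (node 527 (merge (leaf 2 524 556) (node 562 (merge (leaf 3 526 526) (leaf 3 527 563))))) (node 524 (merge (leaf 3 524 525) (node 556 (merge (leaf 3 523 523) (leaf 2 524 527)))))))) (node 589 (merge (leaf 1 557 590) (node 557 (merge (leaf 1 556 588) (node 524 (merge (leaf 3 524 525) (node 556 (merge (leaf 3 523 523) (leaf 2 524 527))))))))))))) (merge (node 557 (merge (node 524 (merge (leaf 3 524 525) (node 556 (merge (leaf 3 523 523) (node 592 (merge (leaf 0 556 591) (leaf 0 557 593))))))) (merge (node 588 (merge (leaf 1 556 589) (node 556 (merge (leaf 1 555 587) (node 592 (merge (leaf 0 556 591) (leaf 0 557 593))))))) (node 525 (merge (leaf 3 524 524) (node 622 (merge (node 590 (merge (leaf 7 525 654) (node 493 (merge (leaf 4 461 461) (leaf 7 493 526))))) (merge (node 589 (merge (leaf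 1 556 588) (node 654 (merge (leaf 7 525 590) (leaf 4 525 621))))) (merge (node 589 (merge (leaf 1 556 588) (node 621 (merge (leaf 4 525 654) (node 526 (merge (leaf 6 493 494) (leaf 6 525 653))))))) (node 589 (merge (leaf 1 556 588) (node 493 (merge (leaf 4 493 590) (node 494 (merge (leaf 6 461 462) (node 526 (merge (leaf 6 493 621) (node 460 (merge (leaf 7 460 492) (node 461 (merge (leaf 7 428 428) (leaf 4 429 429)))))))))))))))))))))) (node 527 (merge (node 561 (merge (node 526 (merge (leaf 0 525 525) (leaf 3 526 562))) (node 592 (merge (node 624 (merge (leaf 7 495 495) (leaf 7 527 656))) (node 593 (merge (node 594 (merge (leaf 0 558 558) (leaf 3 559 595))) (node 625 (merge (leaf 4 496 496) (leaf 7 528 657))))))))) (merge (node 590 (merge (node 622 (merge (leaf 6 526 654) (node 495 (merge (leaf 5 462 463) (leaf 5 494 591))))) (node 561 (merge (leaf 1 557 589) (node 562 (merge (leaf 3 527 563) (node 594 (merge (leaf 0 558 593) (leaf 0 559 595))))))))) (merge (node 561 (merge (node 562 (merge (leaf 3 526 526) (leaf 3 527 563))) (node 593 (merge (leaf 0 558 594) (node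 590 (merge (leaf 1 557 589) (node 622 (merge (leaf 6 526 654) (node 625 (merge (leaf 7 528 657) (node 592 (merge (leaf 4 496 496) (node 591 (merge (leaf 1 589 621) (leaf 0 590 626))))))))))))))) (node 591 (merge (node 623 (merge (leaf 6 495 496) (node 494 (merge (leaf 7 494 526) (node 624 (merge (leaf 4 527 656) (node 495 (merge (leaf 7 462 462) (leaf 7 495 592))))))))) (merge (node 623 (merge (leaf 6 495 496) (node 624 (merge (leaf 4 527 656) (node 495 (merge (leaf 7 495 592) (node 622 (merge (leaf 5 494 590) (leaf 5 526 654))))))))) (merge (node 623 (merge (leaf 6 495 496) (node 526 (merge (leaf 7 494 494) (node 525 (merge (leaf 0 524 524) (node 493 (merge (leaf 3 492 492) (node 622 (merge (leaf 7 493 590) (leaf 5 526 654))))))))))) (node 495 (merge (node 590 (merge (leaf 5 462 463) (node 622 (merge (leaf 5 494 591) (leaf 6 526 654))))) (merge (node 463 (merge (leaf 4 431 431) (node 462 (merge (leaf 7 430 430) (leaf 7 462 494))))) (node 494 (merge (leaf 7 462 462) (node 493 (merge (leaf 0 492 492) (node 590 (merge (leaf 5 494 622) (node 526 (merge (leaf 7 461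 461) (node 589 (merge (leaf 2 556 588) (leaf 5 493 621)))))))))))))))))))))))))))) (merge (node 527 (merge (node 558 (merge (node 557 (merge (leaf 2 524 556) (node 592 (merge (leaf 0 557 593) (node 495 (merge (leaf 4 463 463) (leaf 7 495 624))))))) (merge (node 557 (merge (leaf 2 524 556) (node 589 (merge (leaf 1 556 588) (node 590 (merge (leaf 1 557 561) (node 622 (merge (leaf 6 526 654) (node 495 (merge (leaf 5 462 463) (leaf 5 494 591))))))))))) (merge (node 590 (merge (node 561 (merge (leaf 1 557 589) (node 562 (merge (leaf 3 527 563) (leaf 1 558 591))))) (merge (node 622 (merge (leaf 6 526 654) (node 495 (merge (leaf 5 462 463) (leaf 5 494 591))))) (node 561 (merge (leaf 1 557 589) (node 594 (merge (leaf 0 558 593) (node 562 (merge (leaf 3 527 563) (leaf 0 559 595)))))))))) (node 557 (merge (leaf 2 524 556) (node 593 (merge (leaf 0 557 592) (node 561 (merge (leaf 0 558 594) (node 590 (merge (leaf 1 557 589) (node 562 (merge (leaf 3 527 563) (leaf 1 558 591))))))))))))))) (merge (node 496 (merge (node 464 (merge (leaf 5 431 432) (leaf 5 463 591))) (merge (node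 464 (merge (leaf 5 431 432) (node 465 (merge (leaf 6 432 433) (node 592 (merge (leaf 6 464 497) (node 624 (merge (leaf 7 495 495) (leaf 7 527 656))))))))) (node 591 (merge (leaf 6 495 623) (node 495 (merge (node 463 (merge (leaf 4 431 431) (node 462 (merge (leaf 7 430 430) (leaf 7 462 494))))) (node 592 (merge (leaf 7 495 624) (node 590 (merge (leaf 5 494 622) (node 589 (merge (leaf 2 557 561) (leaf 2 556 588)))))))))))))) (merge (node 561 (merge (node 562 (merge (leaf 3 527 563) (node 591 (merge (leaf 1 558 590) (node 496 (merge (leaf 5 463 464) (leaf 6 495 623))))))) (merge (node 562 (merge (leaf 3 527 563) (node 590 (merge (leaf 1 558 591) (node 558 (merge (leaf 1 557 589) (node 594 (merge (leaf 0 558 593) (leaf 0 559 595))))))))) (merge (node 593 (merge (node 625 (merge (leaf 7 528 657) (node 496 (merge (leaf 4 464 464) (leaf 4 496 592))))) (node 594 (merge (leaf 0 558 558) (node 595 (merge (leaf 0 559 562) (leaf 3 560 596))))))) (node 558 (merge (node 589 (merge (leaf 1 557 590) (node 557 (merge (leaf 2 524 556) (leaf 1 556 588))))) (node 593 (merge (leaf 0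 558 594) (node 625 (merge (leaf 7 528 657) (node 496 (merge (leaf 4 464 464) (leaf 4 496 592))))))))))))) (merge (node 496 (merge (node 464 (merge (leaf 5 431 432) (leaf 5 463 591))) (merge (node 591 (merge (leaf 6 495 623) (node 495 (merge (node 463 (merge (leaf 4 431 431) (node 462 (merge (leaf 7 430 430) (leaf 7 462 494))))) (node 590 (merge (leaf 5 494 622) (node 561 (merge (leaf 1 558 562) (node 589 (merge (leaf 1 557 558) (leaf 2 556 588))))))))))) (node 495 (merge (node 464 (merge (leaf 5 431 432) (node 465 (merge (leaf 6 432 433) (node 466 (merge (leaf 1 463 467) (node 494 (merge (leaf 2 461 493) (leaf 2 462 497))))))))) (merge (node 463 (merge (leaf 4 431 431) (node 462 (merge (leaf 7 430 430) (node 461 (merge (leaf 0 460 460) (node 497 (merge (leaf 3 461 494) (leaf 3 462 498))))))))) (merge (node 463 (merge (leaf 4 431 431) (node 464 (merge (leaf 6 431 432) (node 465 (merge (leaf 6 432 433) (node 466 (merge (leaf 1 463 467) (leaf 1 462 494))))))))) (node 463 (merge (leaf 4 431 431) (node 464 (merge (leaf 6 431 432) (node 462 (merge (leaf 7 430 430) (node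 461 (merge (leaf 0 460 460) (leaf 0 461 497)))))))))))))))) (merge (node 496 (merge (node 464 (merge (leaf 5 431 432) (node 465 (merge (leaf 6 432 433) (node 592 (merge (leaf 6 464 497) (node 624 (merge (leaf 7 495 495) (leaf 7 527 656))))))))) (merge (node 464 (merge (leaf 5 431 432) (node 465 (merge (leaf 6 432 433) (node 497 (merge (leaf 6 464 592) (node 463 (merge (leaf 7 431 431) (node 498 (merge (leaf 0 462 462) (leaf 1 495 499))))))))))) (merge (node 464 (merge (leaf 5 431 432) (node 465 (merge (leaf 6 432 433) (node 463 (merge (leaf 7 431 431) (node 495 (merge (leaf 7 463 592) (node 466 (merge (leaf 1 463 467) (leaf 1 462 494))))))))))) (merge (node 495 (merge (node 463 (merge (leaf 4 431 431) (node 462 (merge (leaf 7 430 430) (node 461 (merge (leaf 0 460 460) (node 497 (merge (leaf 3 461 494) (leaf 3 462 498))))))))) (merge (node 463 (merge (leaf 4 431 431) (node 464 (merge (leaf 6 431 432) (node 465 (merge (leaf 6 432 433) (node 466 (merge (leaf 1 463 467) (leaf 1 462 494))))))))) (merge (node 463 (merge (leaf 4 431 431) (node 464 (merge (leaf 6 431 432)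 (node 462 (merge (leaf 7 430 430) (node 461 (merge (leaf 0 460 460) (leaf 0 461 497))))))))) (node 464 (merge (leaf 5 431 432) (node 465 (merge (leaf 6 432 433) (node 466 (merge (leaf 1 463 467) (node 494 (merge (leaf 2 461 493) (leaf 2 462 497))))))))))))) (node 495 (merge (node 592 (merge (leaf 7 495 624) (node 593 (merge (leaf 4 496 625) (node 558 (merge (leaf 0 557 557) (node 594 (merge (leaf 0 558 561) (leaf 3 559 595))))))))) (node 463 (merge (leaf 4 431 431) (node 462 (merge (leaf 7 430 430) (node 461 (merge (leaf 0 460 460) (node 497 (merge (leaf 3 461 494) (leaf 3 462 498)))))))))))))))) (node 495 (merge (node 463 (merge (leaf 4 431 431) (leaf 4 463 592))) (merge (node 463 (merge (leaf 4 431 431) (node 590 (merge (leaf 5 462 558) (node 591 (merge (leaf 5 494 622) (node 462 (merge (leaf 7 430 430) (leaf 7 462 494))))))))) (node 496 (merge (node 591 (merge (leaf 6 463 464) (leaf 6 495 623))) (merge (node 464 (merge (leaf 5 431 432) (node 465 (merge (leaf 6 432 433) (node 592 (merge (leaf 6 464 497) (node 624 (merge (leaf 7 495 495) (leaf 7 527 656)))))))))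 (node 591 (merge (leaf 6 495 623) (node 494 (merge (leaf 7 462 462) (node 493 (merge (leaf 0 492 492) (node 525 (merge (leaf 1 492 524) (node 461 (merge (leaf 3 460 460) (node 590 (merge (leaf 5 494 622) (node 588 (merge (leaf 2 556 589) (node 557 (merge (leaf 5 460 556) (leaf 4 461 558))))))))))))))))))))))))))))) (merge (node 561 (merge (node 593 (merge (node 625 (merge (leaf 7 528 657) (node 496 (merge (leaf 4 464 464) (leaf 4 496 592))))) (node 558 (merge (leaf 0 558 594) (node 589 (merge (leaf 1 557 590) (node 557 (merge (leaf 1 556 588) (node 525 (merge (leaf 3 524 524) (leaf 3 525 526))))))))))) (merge (node 558 (merge (node 593 (merge (leaf 0 558 594) (node 625 (merge (leaf 7 528 657) (node 496 (merge (leaf 4 464 464) (leaf 4 496 592))))))) (node 589 (merge (leaf 1 557 590) (node 557 (merge (leaf 1 556 588) (node 527 (merge (leaf 2 524 556) (node 562 (merge (leaf 3 526 526) (leaf 3 527 563))))))))))) (merge (node 593 (merge (node 625 (merge (leaf 7 528 657) (node 496 (merge (leaf 4 464 464) (leaf 4 496 592))))) (node 558 (merge (leaf 0 558 594) (node 589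 (merge (leaf 1 557 590) (node 557 (merge (leaf 1 556 588) (node 556 (merge (leaf 2 524 527) (node 524 (merge (leaf 3 523 523) (leaf 3 524 525))))))))))))) (merge (node 558 (merge (node 589 (merge (leaf 1 557 590) (node 557 (merge (leaf 1 556 588) (node 525 (merge (leaf 3 524 524) (leaf 3 525 526))))))) (merge (node 557 (merge (node 525 (merge (leaf 3 524 524) (leaf 3 525 526))) (merge (node 527 (merge (leaf 2 524 556) (node 562 (merge (leaf 3 526 526) (leaf 3 527 563))))) (node 524 (merge (leaf 3 524 525) (node 556 (merge (leaf 3 523 523) (leaf 2 524 527)))))))) (merge (node 589 (merge (leaf 1 557 590) (node 557 (merge (leaf 1 556 588) (node 527 (merge (leaf 2 524 556) (node 562 (merge (leaf 3 526 526) (leaf 3 527 563))))))))) (merge (node 589 (merge (leaf 1 557 590) (node 557 (merge (leaf 1 556 588) (node 524 (merge (leaf 3 524 525) (node 556 (merge (leaf 3 523 523) (leaf 2 524 527))))))))) (node 590 (merge (leaf 1 557 589) (node 526 (merge (leaf 3 525 525) (node 527 (merge (leaf 3 526 562) (node 622 (merge (leaf 6 494 495) (leaf 6 526 654)))))))))))))) (node 496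 (merge (node 593 (merge (leaf 4 464 464) (node 625 (merge (leaf 4 496 592) (leaf 7 528 657))))) (merge (node 464 (merge (leaf 4 464 593) (node 433 (merge (leaf 6 432 465) (node 432 (merge (leaf 6 400 401) (leaf 5 431 527))))))) (merge (node 464 (merge (node 433 (merge (leaf 6 432 465) (node 432 (merge (leaf 6 400 401) (leaf 5 431 527))))) (merge (node 432 (merge (leaf 5 431 527) (node 431 (merge (leaf 7 399 399) (leaf 7 431 463))))) (node 465 (merge (leaf 6 432 433) (node 592 (merge (leaf 6 464 497) (node 463 (merge (leaf 7 431 431) (leaf 7 463 495)))))))))) (node 527 (merge (node 526 (merge (leaf 0 525 525) (leaf 3 526 562))) (merge (node 495 (merge (node 463 (merge (leaf 7 463 592) (node 431 (merge (leaf 4 399 399) (leaf 4 431 527))))) (merge (node 463 (merge (leaf 4 431 431) (node 462 (merge (leaf 7 430 430) (node 461 (merge (leaf 0 460 460) (node 497 (merge (leaf 3 461 494) (leaf 3 462 498))))))))) (node 592 (merge (leaf 7 495 624) (node 497 (merge (leaf 6 464 465) (node 498 (merge (leaf 1 495 499) (node 530 (merge (leaf 0 495 531) (node 466 (merge (leaf 2 463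 467) (node 593 (merge (leaf 5 465 562) (leaf 4 496 625)))))))))))))))) (node 495 (merge (node 592 (merge (leaf 7 463 463) (leaf 7 495 624))) (merge (node 592 (merge (leaf 7 495 624) (node 497 (merge (leaf 6 464 465) (node 526 (merge (leaf 1 494 498) (leaf 2 493 525))))))) (node 494 (merge (node 493 (merge (leaf 0 492 492) (node 525 (merge (leaf 1 492 524) (leaf 0 525 526))))) (merge (node 493 (merge (leaf 0 492 492) (node 461 (merge (leaf 3 460 460) (node 497 (merge (leaf 3 461 462) (node 498 (merge (leaf 1 495 499) (node 466 (merge (leaf 2 462 465) (leaf 2 463 467))))))))))) (node 526 (merge (leaf 0 525 525) (node 497 (merge (leaf 1 494 498) (node 462 (merge (leaf 3 461 461) (node 430 (merge (leaf 4 398 398) (node 431 (merge (leaf 6 398 399) (leaf 4 431 463))))))))))))))))))))))))))))) (merge (node 558 (merge (node 592 (merge (node 557 (merge (leaf 0 557 593) (node 556 (merge (leaf 2 524 527) (leaf 0 556 591))))) (merge (node 593 (merge (leaf 0 557 557) (node 625 (merge (leaf 4 496 496) (node 657 (merge (leaf 4 528 624) (leaf 7 560 689))))))) (node 496 (merge (node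 465 (merge (leaf 6 464 497) (node 464 (merge (leaf 6 432 433) (leaf 5 463 591))))) (merge (node 464 (merge (leaf 5 463 591) (node 463 (merge (leaf 7 431 431) (leaf 7 463 495))))) (node 497 (merge (leaf 6 464 465) (node 495 (merge (leaf 7 463 463) (node 527 (merge (leaf 7 495 624) (node 498 (merge (leaf 1 495 499) (leaf 1 494 526))))))))))))))) (merge (node 496 (merge (node 591 (merge (leaf 5 463 464) (node 623 (merge (leaf 6 495 527) (leaf 5 495 592))))) (merge (node 464 (merge (leaf 5 463 591) (node 433 (merge (leaf 6 432 465) (node 432 (merge (leaf 6 400 401) (node 431 (merge (leaf 7 399 399) (leaf 7 431 463))))))))) (merge (node 464 (merge (node 433 (merge (leaf 6 432 465) (node 432 (merge (leaf 6 400 401) (leaf 5 431 527))))) (merge (node 432 (merge (leaf 5 431 527) (node 431 (merge (leaf 7 399 399) (leaf 7 431 463))))) (node 465 (merge (leaf 6 432 433) (node 592 (merge (leaf 6 464 497) (node 463 (merge (leaf 7 431 431) (leaf 7 463 495)))))))))) (node 526 (merge (node 525 (merge (leaf 3 525 561) (node 524 (merge (leaf 0 523 523) (leaf 0 524 527))))) (merge (node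 494 (merge (node 462 (merge (leaf 4 462 591) (node 463 (merge (leaf 6 430 431) (node 495 (merge (leaf 6 462 590) (leaf 7 463 592))))))) (merge (node 462 (merge (leaf 4 462 591) (node 429 (merge (leaf 7 429 461) (node 430 (merge (leaf 7 397 397) (leaf 4 430 527))))))) (node 590 (merge (node 589 (merge (leaf 1 557 561) (leaf 5 493 621))) (node 495 (merge (leaf 6 462 463) (node 527 (merge (leaf 6 494 622) (node 493 (merge (leaf 7 461 461) (leaf 0 492 492)))))))))))) (merge (node 494 (merge (node 462 (merge (leaf 4 462 591) (node 463 (merge (leaf 6 430 431) (node 495 (merge (leaf 6 462 590) (leaf 7 463 592))))))) (merge (node 462 (merge (leaf 4 462 591) (node 429 (merge (leaf 7 429 461) (node 430 (merge (leaf 7 397 397) (leaf 4 430 527))))))) (merge (node 462 (merge (node 463 (merge (leaf 6 430 431) (node 495 (merge (leaf 6 462 590) (leaf 7 463 592))))) (merge (node 431 (merge (leaf 6 430 463) (node 430 (merge (leaf 6 398 399) (node 429 (merge (leaf 7 397 397) (leaf 7 429 461))))))) (node 461 (merge (leaf 7 429 429) (node 493 (merge (leaf 7 461 590) (node 495 (merge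 (leaf 3 460 460) (leaf 3 461 497)))))))))) (node 590 (merge (node 589 (merge (leaf 5 493 621) (node 588 (merge (leaf 2 555 587) (leaf 2 556 591))))) (node 495 (merge (leaf 6 462 463) (node 622 (merge (leaf 6 494 527) (node 493 (merge (leaf 7 461 461) (leaf 7 493 525))))))))))))) (node 590 (merge (node 561 (merge (leaf 3 525 525) (leaf 1 557 589))) (merge (node 525 (merge (leaf 3 525 561) (node 493 (merge (leaf 7 493 622) (node 461 (merge (leaf 4 429 429) (leaf 7 461 494))))))) (merge (node 589 (merge (leaf 1 557 561) (node 621 (merge (leaf 5 493 494) (node 653 (merge (leaf 5 525 622) (leaf 6 557 685))))))) (node 494 (merge (node 495 (merge (leaf 6 462 463) (node 497 (merge (leaf 1 493 525) (node 465 (merge (leaf 2 462 466) (leaf 6 464 592))))))) (merge (node 493 (merge (leaf 7 461 461) (node 622 (merge (leaf 7 493 525) (node 621 (merge (leaf 5 493 589) (leaf 5 525 653))))))) (node 463 (merge (leaf 6 462 495) (node 462 (merge (leaf 6 430 431) (node 461 (merge (leaf 7 429 429) (leaf 7 461 493)))))))))))))))))))))) (merge (node 496 (merge (node 464 (merge (leaf 5 463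 591) (node 433 (merge (leaf 6 432 465) (node 432 (merge (leaf 6 400 401) (leaf 5 431 527))))))) (merge (node 464 (merge (node 433 (merge (leaf 6 432 465) (node 432 (merge (leaf 6 400 401) (leaf 5 431 527))))) (merge (node 432 (merge (leaf 5 431 527) (node 431 (merge (leaf 7 399 399) (leaf 7 431 463))))) (node 465 (merge (leaf 6 432 433) (node 592 (merge (leaf 6 464 497) (node 463 (merge (leaf 7 431 431) (leaf 7 463 495)))))))))) (merge (node 464 (merge (leaf 5 463 591) (node 465 (merge (leaf 6 432 433) (node 592 (merge (leaf 6 464 497) (node 463 (merge (leaf 7 431 431) (leaf 7 463 495))))))))) (node 589 (merge (node 590 (merge (leaf 1 557 561) (node 588 (merge (leaf 2 555 587) (leaf 2 556 591))))) (merge (node 557 (merge (leaf 1 556 588) (node 524 (merge (leaf 3 524 525) (node 556 (merge (leaf 3 523 523) (leaf 2 524 527))))))) (node 590 (merge (leaf 1 557 561) (node 527 (merge (node 622 (merge (leaf 6 526 654) (node 495 (merge (leaf 5 462 463) (leaf 5 494 591))))) (merge (node 622 (merge (leaf 6 526 654) (node 557 (merge (leaf 2 524 556) (node 525 (merge (leaf 4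 493 493) (leaf 3 524 524))))))) (node 557 (merge (leaf 2 524 556) (node 525 (merge (leaf 3 524 524) (node 493 (merge (leaf 4 461 461) (node 494 (merge (leaf 6 461 462) (node 495 (merge (leaf 5 462 463) (leaf 0 492 492))))))))))))))))))))))) (merge (node 557 (merge (node 592 (merge (leaf 0 557 593) (node 591 (merge (leaf 0 556 556) (node 496 (merge (leaf 5 463 464) (leaf 5 495 623))))))) (node 525 (merge (leaf 3 524 524) (node 622 (merge (node 590 (merge (leaf 7 525 654) (node 493 (merge (leaf 4 461 461) (leaf 7 493 526))))) (merge (node 589 (merge (leaf 1 556 588) (node 654 (merge (leaf 7 525 590) (leaf 4 525 621))))) (merge (node 589 (merge (leaf 1 556 588) (node 621 (merge (leaf 4 525 654) (node 526 (merge (leaf 6 493 494) (leaf 6 525 653))))))) (node 589 (merge (leaf 1 556 588) (node 493 (merge (leaf 4 493 590) (node 494 (merge (leaf 6 461 462) (node 526 (merge (leaf 6 493 621) (node 460 (merge (leaf 7 460 492) (node 461 (merge (leaf 7 428 428) (leaf 4 429 429))))))))))))))))))))) (node 557 (merge (node 588 (merge (leaf 1 556 589) (node 556 (merge (leaf 2 524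 527) (leaf 1 555 587))))) (merge (node 524 (merge (leaf 3 524 525) (node 556 (merge (leaf 3 523 523) (leaf 2 524 527))))) (node 525 (merge (leaf 3 524 524) (node 622 (merge (node 590 (merge (leaf 7 525 654) (node 493 (merge (leaf 4 461 461) (leaf 7 493 526))))) (merge (node 589 (merge (leaf 1 556 588) (node 654 (merge (leaf 7 525 590) (leaf 4 525 621))))) (merge (node 589 (merge (leaf 1 556 588) (node 621 (merge (leaf 4 525 654) (node 526 (merge (leaf 6 493 494) (leaf 6 525 653))))))) (node 589 (merge (leaf 1 556 588) (node 493 (merge (leaf 4 493 590) (node 494 (merge (leaf 6 461 462) (node 526 (merge (leaf 6 493 621) (node 460 (merge (leaf 7 460 492) (node 461 (merge (leaf 7 428 428) (leaf 4 429 429))))))))))))))))))))))))))) (merge (node 496 (merge (node 464 (merge (leaf 5 463 591) (node 432 (merge (leaf 5 431 527) (node 431 (merge (leaf 7 399 399) (leaf 7 431 463))))))) (merge (node 464 (merge (leaf 5 463 591) (node 433 (merge (leaf 6 432 465) (node 432 (merge (leaf 6 400 401) (leaf 5 431 527))))))) (merge (node 464 (merge (node 433 (merge (leaf 6 432 465) (node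 432 (merge (leaf 6 400 401) (leaf 5 431 527))))) (merge (node 432 (merge (leaf 5 431 527) (node 431 (merge (leaf 7 399 399) (leaf 7 431 463))))) (node 465 (merge (leaf 6 432 433) (node 592 (merge (leaf 6 464 497) (node 463 (merge (leaf 7 431 431) (leaf 7 463 495)))))))))) (merge (node 464 (merge (leaf 5 463 591) (node 465 (merge (leaf 6 432 433) (node 592 (merge (leaf 6 464 497) (node 463 (merge (leaf 7 431 431) (leaf 7 463 495))))))))) (node 558 (merge (node 557 (merge (node 524 (merge (leaf 3 524 525) (node 556 (merge (leaf 3 523 523) (leaf 2 524 527))))) (merge (node 556 (merge (leaf 2 524 527) (node 591 (merge (leaf 0 556 592) (node 590 (merge (leaf 0 555 555) (node 561 (merge (leaf 1 558 562) (leaf 1 557 589))))))))) (merge (node 525 (merge (leaf 3 524 524) (node 561 (merge (leaf 3 525 526) (node 590 (merge (leaf 1 557 589) (node 591 (merge (leaf 1 558 562) (node 556 (merge (leaf 0 555 555) (leaf 0 556 592))))))))))) (node 525 (merge (leaf 3 524 524) (node 561 (merge (leaf 3 525 526) (node 590 (merge (leaf 1 557 589) (node 562 (merge (leaf 1 558 591) (node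 595 (merge (leaf 0 559 594) (node 563 (merge (leaf 3 527 527) (leaf 0 560 596))))))))))))))))) (merge (node 557 (merge (node 588 (merge (leaf 1 556 589) (node 556 (merge (leaf 2 524 527) (leaf 1 555 587))))) (merge (node 524 (merge (leaf 3 524 525) (node 556 (merge (leaf 3 523 523) (leaf 2 524 527))))) (node 589 (merge (leaf 1 556 588) (node 525 (merge (leaf 3 524 524) (node 526 (merge (leaf 3 525 561) (node 494 (merge (leaf 5 461 462) (leaf 6 493 621)))))))))))) (merge (node 527 (merge (node 557 (merge (leaf 2 524 556) (node 589 (merge (leaf 1 556 588) (node 561 (merge (leaf 1 557 590) (node 562 (merge (leaf 3 526 526) (leaf 3 527 563))))))))) (merge (node 590 (merge (node 589 (merge (leaf 1 557 561) (node 588 (merge (leaf 1 556 557) (leaf 2 555 587))))) (node 622 (merge (leaf 6 526 654) (node 495 (merge (leaf 5 462 463) (leaf 5 494 591))))))) (node 495 (merge (node 592 (merge (leaf 7 463 463) (leaf 7 495 624))) (merge (node 592 (merge (leaf 7 495 624) (node 497 (merge (leaf 6 464 465) (node 498 (merge (leaf 1 495 499) (leaf 1 494 526))))))) (node 463 (merge (leaf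 4 431 431) (node 462 (merge (leaf 7 430 430) (node 494 (merge (leaf 7 462 591) (node 497 (merge (leaf 3 461 461) (leaf 3 462 498))))))))))))))) (merge (node 589 (merge (node 590 (merge (leaf 1 557 561) (node 588 (merge (leaf 2 555 587) (leaf 2 556 591))))) (merge (node 557 (merge (leaf 1 556 588) (node 524 (merge (leaf 3 524 525) (node 556 (merge (leaf 3 523 523) (leaf 2 524 527))))))) (node 590 (merge (leaf 1 557 561) (node 527 (merge (node 622 (merge (leaf 6 526 654) (node 495 (merge (leaf 5 462 463) (leaf 5 494 591))))) (merge (node 622 (merge (leaf 6 526 654) (node 557 (merge (leaf 2 524 556) (node 525 (merge (leaf 4 493 493) (leaf 3 524 524))))))) (node 557 (merge (leaf 2 524 556) (node 525 (merge (leaf 3 524 524) (node 493 (merge (leaf 4 461 461) (node 494 (merge (leaf 6 461 462) (node 495 (merge (leaf 5 462 463) (leaf 0 492 492))))))))))))))))))) (merge (node 525 (merge (node 524 (merge (leaf 3 524 557) (node 526 (merge (leaf 0 523 523) (leaf 3 525 561))))) (merge (node 526 (merge (leaf 3 525 561) (node 527 (merge (leaf 2 493 497) (node 493 (merge (leaf 3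 492 492) (node 590 (merge (leaf 7 493 622) (node 461 (merge (leaf 4 429 429) (leaf 7 461 494))))))))))) (node 557 (merge (leaf 3 524 524) (node 556 (merge (leaf 2 524 527) (node 591 (merge (leaf 0 556 592) (node 555 (merge (leaf 0 555 590) (node 587 (merge (leaf 1 554 586) (leaf 1 555 588)))))))))))))) (merge (node 557 (merge (node 588 (merge (leaf 1 556 589) (node 556 (merge (leaf 2 524 527) (leaf 1 555 587))))) (merge (node 524 (merge (leaf 3 524 525) (node 556 (merge (leaf 3 523 523) (leaf 2 524 527))))) (node 525 (merge (leaf 3 524 524) (node 622 (merge (node 590 (merge (leaf 7 525 654) (node 493 (merge (leaf 4 461 461) (leaf 7 493 526))))) (merge (node 589 (merge (leaf 1 556 588) (node 654 (merge (leaf 7 525 590) (leaf 4 525 621))))) (merge (node 589 (merge (leaf 1 556 588) (node 621 (merge (leaf 4 525 654) (node 526 (merge (leaf 6 493 494) (leaf 6 525 653))))))) (node 589 (merge (leaf 1 556 588) (node 493 (merge (leaf 4 493 590) (node 494 (merge (leaf 6 461 462) (node 526 (merge (leaf 6 493 621) (node 460 (merge (leaf 7 460 492) (node 461 (merge (leaf 7 428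 428) (leaf 4 429 429)))))))))))))))))))))) (merge (node 526 (merge (node 525 (merge (leaf 3 525 561) (node 524 (merge (leaf 0 523 523) (leaf 0 524 527))))) (merge (node 494 (merge (node 462 (merge (leaf 4 462 591) (node 463 (merge (leaf 6 430 431) (node 495 (merge (leaf 6 462 590) (leaf 7 463 592))))))) (merge (node 462 (merge (leaf 4 462 591) (node 429 (merge (leaf 7 429 461) (node 430 (merge (leaf 7 397 397) (leaf 4 430 527))))))) (node 590 (merge (node 589 (merge (leaf 1 557 561) (leaf 5 493 621))) (node 495 (merge (leaf 6 462 463) (node 527 (merge (leaf 6 494 622) (node 493 (merge (leaf 7 461 461) (leaf 0 492 492)))))))))))) (merge (node 494 (merge (node 462 (merge (leaf 4 462 591) (node 463 (merge (leaf 6 430 431) (node 495 (merge (leaf 6 462 590) (leaf 7 463 592))))))) (merge (node 462 (merge (leaf 4 462 591) (node 429 (merge (leaf 7 429 461) (node 430 (merge (leaf 7 397 397) (leaf 4 430 527))))))) (merge (node 462 (merge (node 463 (merge (leaf 6 430 431) (node 495 (merge (leaf 6 462 590) (leaf 7 463 592))))) (merge (node 431 (merge (leaf 6 430 463) (node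 430 (merge (leaf 6 398 399) (node 429 (merge (leaf 7 397 397) (leaf 7 429 461))))))) (node 461 (merge (leaf 7 429 429) (node 493 (merge (leaf 7 461 590) (node 495 (merge (leaf 3 460 460) (leaf 3 461 497)))))))))) (node 590 (merge (node 589 (merge (leaf 5 493 621) (node 588 (merge (leaf 2 555 587) (leaf 2 556 591))))) (node 495 (merge (leaf 6 462 463) (node 622 (merge (leaf 6 494 527) (node 493 (merge (leaf 7 461 461) (leaf 7 493 525))))))))))))) (node 590 (merge (node 561 (merge (leaf 3 525 525) (leaf 1 557 589))) (merge (node 525 (merge (leaf 3 525 561) (node 493 (merge (leaf 7 493 622) (node 461 (merge (leaf 4 429 429) (leaf 7 461 494))))))) (merge (node 589 (merge (leaf 1 557 561) (node 621 (merge (leaf 5 493 494) (node 653 (merge (leaf 5 525 622) (leaf 6 557 685))))))) (node 494 (merge (node 495 (merge (leaf 6 462 463) (node 497 (merge (leaf 1 493 525) (node 465 (merge (leaf 2 462 466) (leaf 6 464 592))))))) (merge (node 493 (merge (leaf 7 461 461) (node 622 (merge (leaf 7 493 525) (node 621 (merge (leaf 5 493 589) (leaf 5 525 653))))))) (node 463 (merge (leaf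 6 462 495) (node 462 (merge (leaf 6 430 431) (node 461 (merge (leaf 7 429 429) (leaf 7 461 493)))))))))))))))))) (hyp 0)))))))))))))) (merge (hyp 1) (merge (node 496 (merge (node 591 (merge (leaf 5 463 464) (node 623 (merge (leaf 6 495 527) (leaf 5 495 592))))) (merge (node 464 (merge (leaf 5 463 591) (node 433 (merge (leaf 6 432 465) (node 432 (merge (leaf 6 400 401) (node 431 (merge (leaf 7 399 399) (leaf 7 431 463))))))))) (merge (node 464 (merge (node 433 (merge (leaf 6 432 465) (node 432 (merge (leaf 6 400 401) (leaf 5 431 527))))) (merge (node 432 (merge (leaf 5 431 527) (node 431 (merge (leaf 7 399 399) (leaf 7 431 463))))) (node 465 (merge (leaf 6 432 433) (node 592 (merge (leaf 6 464 497) (node 463 (merge (leaf 7 431 431) (leaf 7 463 495)))))))))) (node 497 (merge (node 592 (merge (leaf 6 464 465) (node 625 (merge (leaf 4 496 593) (node 624 (merge (leaf 4 528 657) (node 656 (merge (leaf 7 527 527) (node 591 (merge (leaf 5 495 623) (leaf 7 559 688))))))))))) (merge (node 495 (merge (node 463 (merge (leaf 7 463 592) (node 431 (merge (leaf 4 399 399) (leaf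 4 431 527))))) (merge (node 463 (merge (leaf 7 463 592) (node 462 (merge (leaf 3 462 498) (node 461 (merge (leaf 0 460 460) (leaf 3 461 494))))))) (node 494 (merge (node 461 (merge (leaf 3 461 462) (node 493 (merge (leaf 3 460 460) (node 525 (merge (leaf 1 492 524) (leaf 1 493 526))))))) (merge (node 526 (merge (leaf 1 493 525) (node 498 (merge (leaf 1 494 527) (node 531 (merge (leaf 0 495 530) (node 499 (merge (leaf 0 496 532) (node 467 (merge (leaf 2 463 466) (leaf 2 464 468))))))))))) (merge (node 461 (merge (leaf 3 461 462) (node 493 (merge (leaf 3 460 460) (node 527 (merge (leaf 0 492 492) (node 498 (merge (leaf 1 495 499) (leaf 1 494 526))))))))) (node 461 (merge (leaf 3 461 462) (node 493 (merge (leaf 3 460 460) (node 492 (merge (leaf 0 492 527) (node 524 (merge (leaf 1 491 523) (leaf 1 492 525)))))))))))))))) (merge (node 498 (merge (node 527 (merge (leaf 1 495 499) (node 526 (merge (leaf 1 494 495) (leaf 2 493 525))))) (merge (node 499 (merge (leaf 1 495 527) (node 532 (merge (leaf 0 496 531) (node 500 (merge (leaf 0 497 533) (node 468 (merge (leaf 2 464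 467) (leaf 2 465 469))))))))) (merge (node 495 (merge (node 463 (merge (leaf 3 462 462) (node 527 (merge (leaf 4 431 431) (leaf 1 494 526))))) (merge (node 526 (merge (leaf 1 494 527) (node 494 (merge (leaf 1 493 525) (node 466 (merge (leaf 2 462 465) (leaf 2 463 467))))))) (node 466 (merge (leaf 2 463 467) (node 494 (merge (leaf 2 462 465) (node 462 (merge (leaf 3 461 461) (leaf 3 462 463)))))))))) (node 531 (merge (node 530 (merge (leaf 0 495 495) (node 532 (merge (leaf 0 496 499) (leaf 3 497 533))))) (merge (node 495 (merge (leaf 0 495 530) (node 466 (merge (leaf 2 463 467) (node 494 (merge (leaf 2 462 465) (node 462 (merge (leaf 3 461 461) (leaf 3 462 463))))))))) (merge (node 499 (merge (leaf 0 496 532) (node 467 (merge (leaf 2 464 468) (node 466 (merge (leaf 2 463 495) (node 434 (merge (leaf 4 402 402) (leaf 7 434 563))))))))) (node 532 (merge (leaf 0 496 499) (node 530 (merge (leaf 3 497 533) (node 562 (merge (leaf 2 527 561) (node 465 (merge (leaf 7 465 594) (node 433 (merge (leaf 4 401 401) (leaf 7 433 466))))))))))))))))))) (node 498 (merge (node 495 (merge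 (node 463 (merge (leaf 3 462 462) (leaf 7 463 592))) (merge (node 466 (merge (leaf 2 463 467) (node 494 (merge (leaf 2 462 465) (node 462 (merge (leaf 3 461 461) (leaf 3 462 463))))))) (node 465 (merge (leaf 6 464 592) (node 466 (merge (leaf 2 462 494) (node 467 (merge (leaf 1 464 468) (leaf 2 463 498)))))))))) (merge (node 530 (merge (node 531 (merge (leaf 0 495 495) (node 532 (merge (leaf 0 496 499) (leaf 3 497 533))))) (node 465 (merge (leaf 6 464 592) (node 562 (merge (leaf 7 465 594) (node 433 (merge (leaf 4 401 401) (leaf 7 433 466))))))))) (merge (node 495 (merge (node 531 (merge (leaf 0 495 530) (node 499 (merge (leaf 0 496 532) (node 467 (merge (leaf 2 463 466) (leaf 2 464 468))))))) (node 463 (merge (leaf 7 463 592) (node 462 (merge (leaf 3 462 498) (node 461 (merge (leaf 0 460 460) (leaf 3 461 494))))))))) (merge (node 531 (merge (node 530 (merge (leaf 0 495 495) (node 532 (merge (leaf 0 496 499) (leaf 3 497 533))))) (merge (node 495 (merge (leaf 0 495 530) (node 466 (merge (leaf 2 463 467) (node 494 (merge (leaf 2 462 465) (node 462 (merge (leaf 3 461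 461) (leaf 3 462 463))))))))) (merge (node 499 (merge (leaf 0 496 532) (node 467 (merge (leaf 2 464 468) (node 466 (merge (leaf 2 463 495) (node 434 (merge (leaf 4 402 402) (leaf 7 434 563))))))))) (node 532 (merge (leaf 0 496 499) (node 530 (merge (leaf 3 497 533) (node 562 (merge (leaf 2 527 561) (node 465 (merge (leaf 7 465 594) (node 433 (merge (leaf 4 401 401) (leaf 7 433 466))))))))))))))) (merge (node 562 (merge (node 465 (merge (leaf 6 464 592) (node 530 (merge (leaf 7 465 594) (node 433 (merge (leaf 4 401 401) (leaf 7 433 466))))))) (merge (node 592 (merge (leaf 6 464 465) (node 593 (merge (leaf 4 496 625) (node 594 (merge (leaf 3 559 595) (node 563 (merge (leaf 2 559 591) (node 564 (merge (leaf 1 560 561) (leaf 1 561 565))))))))))) (merge (node 465 (merge (leaf 6 464 592) (node 433 (merge (leaf 5 400 401) (node 530 (merge (leaf 7 433 466) (node 531 (merge (leaf 2 527 561) (node 532 (merge (leaf 0 496 499) (leaf 3 497 533))))))))))) (merge (node 561 (merge (node 531 (merge (leaf 2 527 530) (node 532 (merge (leaf 0 496 499) (leaf 2 528 563))))) (merge (node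 594 (merge (leaf 0 559 595) (node 530 (merge (leaf 7 465 465) (node 593 (merge (leaf 5 465 466) (leaf 5 497 625))))))) (node 595 (merge (leaf 0 559 594) (node 563 (merge (leaf 0 560 596) (node 531 (merge (leaf 2 528 532) (node 499 (merge (leaf 7 466 466) (node 468 (merge (leaf 2 464 467) (leaf 6 467 500)))))))))))))) (node 531 (merge (node 532 (merge (leaf 0 496 499) (node 530 (merge (leaf 3 497 533) (leaf 2 527 561))))) (merge (node 561 (merge (leaf 2 527 530) (node 595 (merge (leaf 0 559 594) (node 563 (merge (leaf 0 560 596) (node 591 (merge (leaf 1 558 590) (leaf 1 559 592))))))))) (node 499 (merge (leaf 0 496 532) (node 467 (merge (leaf 2 464 468) (node 563 (merge (leaf 5 466 594) (node 466 (merge (leaf 7 434 434) (leaf 7 466 595))))))))))))))))) (node 592 (merge (leaf 6 464 465) (node 593 (merge (leaf 4 496 625) (node 495 (merge (leaf 7 463 463) (node 531 (merge (leaf 0 495 530) (node 499 (merge (leaf 0 496 532) (node 468 (merge (leaf 2 464 467) (node 500 (merge (leaf 2 465 469) (node 595 (merge (leaf 6 467 563) (node 594 (merge (leaf 3 559 559) (node 628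 (merge (leaf 0 592 627) (node 596 (merge (leaf 3 560 561) (leaf 0 593 629))))))))))))))))))))))))))))))))))))) (merge (hyp 2) (hyp 3)))))))))))) nP_19 cP_19 16 (by decide +kernel)
def nP_20 : ℕ := 0x1a0000001800000000000000000000000000000000000000000000000000000000000000000000000000000000000000000000000000000000000000000000000000000000000
def cP_20 : ℕ := 0x130000001b00000001000000070000000f0000000f0000000700000007000000040000000000000000000000000000000000000000000000000000000000000000000000000000000000000000000
theorem lP_20 : S nP_20 cP_20 10 := S_of_chk [] trivial (node 495 (merge (node 592 (merge (leaf 4 463 463) (leaf 7 495 624))) (node 525 (merge (node 526 (merge (leaf 0 524 524) (leaf 1 524 556))) (merge (node 493 (merge (node 492 (merge (leaf 0 492 494) (leaf 3 492 526))) (merge (node 494 (merge (leaf 0 492 492) (node 462 (merge (leaf 7 462 591) (node 430 (merge (leaf 4 398 398) (leaf 6 429 461))))))) (node 556 (merge (leaf 1 524 526) (node 461 (merge (leaf 5 460 588) (node 430 (merge (leaf 6 429 462) (node 429 (merge (leaf 6 397 398) (node 428 (merge (leaf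 7 396 396) (leaf 7 428 460)))))))))))))) (merge (node 493 (merge (node 492 (merge (leaf 0 492 494) (node 460 (merge (leaf 7 460 589) (node 428 (merge (leaf 4 396 396) (leaf 4 428 524))))))) (merge (node 494 (merge (leaf 0 492 492) (node 462 (merge (leaf 7 462 591) (node 430 (merge (leaf 4 398 398) (leaf 6 429 461))))))) (merge (node 461 (merge (node 460 (merge (leaf 7 428 428) (node 589 (merge (leaf 7 460 492) (node 588 (merge (leaf 5 460 556) (leaf 5 492 620))))))) (merge (node 430 (merge (leaf 6 429 462) (node 429 (merge (leaf 6 397 398) (node 556 (merge (leaf 5 428 524) (leaf 5 460 588))))))) (node 430 (merge (leaf 6 429 462) (node 429 (merge (leaf 6 397 398) (node 428 (merge (leaf 7 396 396) (leaf 7 428 460)))))))))) (node 461 (merge (node 428 (merge (leaf 7 428 460) (node 429 (merge (leaf 7 396 396) (node 556 (merge (leaf 5 428 524) (leaf 5 460 588))))))) (merge (node 462 (merge (leaf 6 429 430) (node 589 (merge (leaf 6 461 494) (node 588 (merge (leaf 5 460 556) (leaf 5 492 620))))))) (node 430 (merge (leaf 6 429 462) (node 429 (merge (leaf 6 397 398) (node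 428 (merge (leaf 7 396 396) (leaf 7 428 460)))))))))))))) (node 526 (merge (leaf 0 524 524) (node 493 (merge (leaf 3 492 492) (node 461 (merge (node 462 (merge (leaf 6 429 430) (node 494 (merge (leaf 6 461 589) (leaf 7 462 591))))) (merge (node 430 (merge (leaf 6 429 462) (node 429 (merge (leaf 6 397 398) (node 428 (merge (leaf 7 396 396) (leaf 7 428 460))))))) (merge (node 428 (merge (leaf 7 428 460) (node 429 (merge (leaf 7 396 396) (node 398 (merge (leaf 6 397 430) (node 397 (merge (leaf 6 365 366) (leaf 4 397 494))))))))) (node 428 (merge (leaf 7 428 460) (node 429 (merge (leaf 7 396 396) (node 494 (merge (leaf 4 397 397) (node 589 (merge (leaf 6 461 462) (leaf 6 493 621))))))))))))))))))))))) nP_20 cP_20 10 (by decide +kernel)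
def nP_21 : ℕ := 0x100000001000000000000000000000000000000000000000000000000000000000000000000000000000000000000000000000000000000000000000000000000000000000000
def cP_21 : ℕ := 0xf000000bf000000ff000003f7c00003ffc00003efc00003cfe00001ffc00003ff800001ff800000ff0000007f0000000700000005000000000000000000000000000000000000000000000000000000000000000000000000000
theorem lP_21 : S nP_21 cP_21 17 := S_of_chk [(nP_1, cP_1, 8), (nP_20, cP_20, 10), (nP_14, cP_14, 10), (nP_12, cP_12, 10), (nP_18, cP_18, 15), (nP_15, cP_15, 14)] ⟨lP_1, lP_20, lP_14, lP_12, lP_18, lP_15, trivial⟩ (node 559 (merge (node 496 (merge (node 464 (merge (leaf 5 463 591) (node 432 (merge (leaf 5 431 527) (node 431 (merge (leaf 7 399 399) (leaf 7 431 463))))))) (merge (node 464 (merge (leaf 5 463 591) (node 433 (merge (leaf 6 432 465) (node 432 (merge (leaf 6 400 401) (leaf 5 431 527))))))) (merge (node 464 (merge (node 433 (merge (leaf 6 432 465) (node 432 (merge (leaf 6 400 401) (leaf 5 431 527))))) (merge (node 432 (merge (leaf 5 431 527) (node 431 (merge (leaf 7 399 399) (leaf 7 431 463))))) (node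 465 (merge (leaf 6 432 433) (node 592 (merge (leaf 6 464 497) (node 463 (merge (leaf 7 431 431) (leaf 7 463 495)))))))))) (merge (node 464 (merge (leaf 5 463 591) (node 465 (merge (leaf 6 432 433) (node 592 (merge (leaf 6 464 497) (node 463 (merge (leaf 7 431 431) (leaf 7 463 495))))))))) (node 592 (merge (node 593 (merge (leaf 4 496 625) (node 594 (merge (leaf 3 559 595) (node 558 (merge (leaf 0 557 557) (leaf 3 558 591))))))) (node 497 (merge (leaf 6 464 465) (node 495 (merge (leaf 7 463 463) (node 527 (merge (leaf 7 495 624) (node 498 (merge (leaf 1 495 499) (leaf 1 494 526)))))))))))))))) (merge (node 561 (merge (node 593 (merge (node 625 (merge (leaf 7 528 657) (node 496 (merge (leaf 4 464 464) (leaf 4 496 592))))) (node 594 (merge (leaf 0 558 558) (node 595 (merge (leaf 0 559 562) (leaf 3 560 596))))))) (merge (node 562 (merge (node 527 (merge (leaf 3 526 526) (leaf 3 527 563))) (merge (node 591 (merge (leaf 1 558 590) (node 563 (merge (leaf 1 559 592) (node 531 (merge (leaf 2 527 530) (leaf 2 528 532))))))) (node 590 (merge (leaf 1 558 591) (node 558 (merge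 (leaf 1 557 589) (node 526 (merge (leaf 3 525 525) (leaf 3 526 527)))))))))) (merge (node 593 (merge (node 625 (merge (leaf 7 528 657) (node 496 (merge (leaf 4 464 464) (leaf 4 496 592))))) (node 558 (merge (leaf 0 558 594) (node 589 (merge (leaf 1 557 590) (node 557 (merge (leaf 1 556 588) (node 525 (merge (leaf 3 524 524) (leaf 3 525 526))))))))))) (node 562 (merge (node 527 (merge (leaf 3 526 526) (leaf 3 527 563))) (merge (node 595 (merge (leaf 0 559 594) (node 563 (merge (leaf 0 560 596) (node 531 (merge (leaf 2 527 530) (leaf 2 528 532))))))) (node 527 (merge (leaf 3 526 526) (node 530 (merge (leaf 2 527 531) (node 498 (merge (node 594 (merge (leaf 0 559 595) (node 593 (merge (leaf 5 465 466) (leaf 5 497 625))))) (merge (node 594 (merge (leaf 0 559 595) (node 499 (merge (leaf 6 466 467) (node 497 (merge (leaf 7 465 465) (leaf 1 495 496))))))) (node 466 (merge (leaf 5 465 593) (node 435 (merge (leaf 6 434 467) (node 434 (merge (leaf 6 402 403) (node 433 (merge (leaf 7 401 401) (leaf 7 433 465))))))))))))))))))))))) (merge (node 527 (merge (node 496 (merge (node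 464 (merge (leaf 5 431 432) (leaf 5 463 591))) (node 592 (merge (node 624 (merge (leaf 7 495 495) (leaf 7 527 656))) (node 593 (merge (leaf 4 496 625) (node 594 (merge (leaf 3 559 595) (node 558 (merge (leaf 0 557 557) (leaf 0 558 561))))))))))) (merge (node 561 (merge (node 526 (merge (leaf 0 525 525) (leaf 3 526 562))) (node 558 (merge (node 589 (merge (leaf 1 557 590) (node 557 (merge (leaf 2 524 556) (leaf 1 556 588))))) (node 593 (merge (leaf 0 558 594) (node 625 (merge (leaf 7 528 657) (node 496 (merge (leaf 4 464 464) (leaf 4 496 592))))))))))) (merge (hyp 0) (merge (node 496 (merge (node 464 (merge (leaf 5 431 432) (leaf 5 463 591))) (merge (node 561 (merge (node 562 (merge (leaf 3 527 563) (node 526 (merge (leaf 0 525 525) (leaf 3 526 559))))) (node 593 (merge (leaf 4 464 464) (node 625 (merge (leaf 4 496 592) (leaf 7 528 657))))))) (node 495 (merge (node 463 (merge (leaf 4 431 431) (leaf 7 463 592))) (node 494 (merge (node 493 (merge (leaf 0 492 492) (node 461 (merge (leaf 3 460 460) (node 462 (merge (leaf 3 461 497) (leaf 7 462 591))))))) (merge (node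 462 (merge (leaf 7 462 591) (node 526 (merge (leaf 4 430 430) (node 525 (merge (leaf 0 524 524) (leaf 0 525 561))))))) (node 493 (merge (leaf 0 492 492) (node 525 (merge (leaf 1 492 524) (node 526 (merge (leaf 2 493 497) (leaf 0 525 561))))))))))))))) (node 557 (merge (node 558 (merge (leaf 2 524 556) (node 592 (merge (leaf 0 557 593) (node 495 (merge (leaf 4 463 463) (leaf 7 495 624))))))) (merge (node 558 (merge (node 588 (merge (leaf 1 556 589) (node 556 (merge (leaf 2 524 527) (leaf 1 555 587))))) (merge (node 524 (merge (leaf 3 524 525) (node 556 (merge (leaf 3 523 523) (leaf 2 524 527))))) (node 525 (merge (leaf 3 524 524) (node 622 (merge (node 590 (merge (leaf 7 525 654) (node 493 (merge (leaf 4 461 461) (leaf 7 493 526))))) (merge (node 589 (merge (leaf 1 556 588) (node 654 (merge (leaf 7 525 590) (leaf 4 525 621))))) (merge (node 589 (merge (leaf 1 556 588) (node 621 (merge (leaf 4 525 654) (node 526 (merge (leaf 6 493 494) (leaf 6 525 653))))))) (node 589 (merge (leaf 1 556 588) (node 493 (merge (leaf 4 493 590) (node 494 (merge (leaf 6 461 462) (node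 526 (merge (leaf 6 493 621) (node 460 (merge (leaf 7 460 492) (node 461 (merge (leaf 7 428 428) (leaf 4 429 429)))))))))))))))))))))) (merge (hyp 1) (node 525 (merge (node 558 (merge (leaf 3 524 524) (node 592 (merge (leaf 0 557 593) (node 495 (merge (leaf 4 463 463) (leaf 7 495 624))))))) (merge (node 589 (merge (node 526 (merge (leaf 0 524 524) (node 494 (merge (leaf 6 493 621) (node 462 (merge (leaf 4 430 430) (leaf 6 461 493))))))) (merge (node 493 (merge (node 590 (merge (leaf 4 493 622) (node 588 (merge (leaf 2 556 591) (leaf 5 492 620))))) (node 462 (merge (leaf 6 461 494) (node 461 (merge (leaf 6 429 430) (node 460 (merge (leaf 7 428 428) (leaf 7 460 492))))))))) (node 524 (merge (leaf 0 524 526) (node 621 (merge (leaf 7 492 492) (node 654 (merge (leaf 4 525 622) (node 653 (merge (leaf 4 557 686) (node 652 (merge (leaf 5 524 620) (leaf 5 556 684)))))))))))))) (node 589 (merge (node 588 (merge (leaf 1 556 558) (node 620 (merge (leaf 5 492 493) (node 652 (merge (leaf 5 524 621) (leaf 6 556 684))))))) (merge (node 558 (merge (leaf 1 556 588) (node 592 (merge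 (leaf 0 557 593) (node 624 (merge (leaf 7 495 495) (leaf 7 527 656))))))) (node 493 (merge (node 492 (merge (leaf 3 492 526) (node 460 (merge (leaf 7 460 589) (node 428 (merge (leaf 4 396 396) (leaf 7 428 461))))))) (merge (node 494 (merge (leaf 6 461 462) (node 495 (merge (leaf 0 492 492) (node 463 (merge (leaf 4 431 431) (leaf 4 463 592))))))) (node 494 (merge (leaf 6 461 462) (node 621 (merge (leaf 6 493 526) (node 654 (merge (leaf 4 525 622) (node 653 (merge (leaf 4 557 686) (node 652 (merge (leaf 5 524 620) (leaf 5 556 684))))))))))))))))))))))))))))) (merge (node 561 (merge (node 593 (merge (node 625 (merge (leaf 7 528 657) (node 496 (merge (leaf 4 464 464) (leaf 4 496 592))))) (node 558 (merge (leaf 0 558 594) (node 589 (merge (leaf 1 557 590) (node 557 (merge (leaf 1 556 588) (node 525 (merge (leaf 3 524 524) (leaf 3 525 526))))))))))) (merge (node 558 (merge (node 593 (merge (leaf 0 558 594) (node 625 (merge (leaf 7 528 657) (node 496 (merge (leaf 4 464 464) (leaf 4 496 592))))))) (node 589 (merge (leaf 1 557 590) (node 557 (merge (leaf 1 556 588) (node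 527 (merge (leaf 2 524 556) (node 562 (merge (leaf 3 526 526) (leaf 3 527 563))))))))))) (merge (node 593 (merge (node 625 (merge (leaf 7 528 657) (node 496 (merge (leaf 4 464 464) (leaf 4 496 592))))) (node 558 (merge (leaf 0 558 594) (node 589 (merge (leaf 1 557 590) (node 557 (merge (leaf 1 556 588) (node 556 (merge (leaf 2 524 527) (node 524 (merge (leaf 3 523 523) (leaf 3 524 525))))))))))))) (merge (node 558 (merge (node 589 (merge (leaf 1 557 590) (node 557 (merge (leaf 1 556 588) (node 525 (merge (leaf 3 524 524) (leaf 3 525 526))))))) (merge (node 557 (merge (node 525 (merge (leaf 3 524 524) (leaf 3 525 526))) (merge (node 527 (merge (leaf 2 524 556) (node 562 (merge (leaf 3 526 526) (leaf 3 527 563))))) (node 524 (merge (leaf 3 524 525) (node 556 (merge (leaf 3 523 523) (leaf 2 524 527)))))))) (merge (node 589 (merge (leaf 1 557 590) (node 557 (merge (leaf 1 556 588) (node 527 (merge (leaf 2 524 556) (node 562 (merge (leaf 3 526 526) (leaf 3 527 563))))))))) (merge (node 589 (merge (leaf 1 557 590) (node 557 (merge (leaf 1 556 588) (node 524 (merge (leaf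 3 524 525) (node 556 (merge (leaf 3 523 523) (leaf 2 524 527))))))))) (node 590 (merge (leaf 1 557 589) (node 526 (merge (leaf 3 525 525) (node 527 (merge (leaf 3 526 562) (node 622 (merge (leaf 6 494 495) (leaf 6 526 654)))))))))))))) (node 496 (merge (node 593 (merge (leaf 4 464 464) (node 625 (merge (leaf 4 496 592) (leaf 7 528 657))))) (merge (node 464 (merge (leaf 4 464 593) (node 433 (merge (leaf 6 432 465) (node 432 (merge (leaf 6 400 401) (leaf 5 431 527))))))) (merge (node 464 (merge (node 433 (merge (leaf 6 432 465) (node 432 (merge (leaf 6 400 401) (leaf 5 431 527))))) (merge (node 432 (merge (leaf 5 431 527) (node 431 (merge (leaf 7 399 399) (leaf 7 431 463))))) (node 465 (merge (leaf 6 432 433) (node 592 (merge (leaf 6 464 497) (node 463 (merge (leaf 7 431 431) (leaf 7 463 495)))))))))) (node 527 (merge (node 526 (merge (leaf 0 525 525) (leaf 3 526 562))) (merge (node 495 (merge (node 463 (merge (leaf 7 463 592) (node 431 (merge (leaf 4 399 399) (leaf 4 431 527))))) (merge (node 463 (merge (leaf 4 431 431) (node 462 (merge (leaf 7 430 430) (node 461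 (merge (leaf 0 460 460) (node 497 (merge (leaf 3 461 494) (leaf 3 462 498))))))))) (node 592 (merge (leaf 7 495 624) (node 497 (merge (leaf 6 464 465) (node 498 (merge (leaf 1 495 499) (node 530 (merge (leaf 0 495 531) (node 466 (merge (leaf 2 463 467) (node 593 (merge (leaf 5 465 562) (leaf 4 496 625)))))))))))))))) (node 495 (merge (node 592 (merge (leaf 7 463 463) (leaf 7 495 624))) (merge (node 592 (merge (leaf 7 495 624) (node 497 (merge (leaf 6 464 465) (node 526 (merge (leaf 1 494 498) (leaf 2 493 525))))))) (node 494 (merge (node 493 (merge (leaf 0 492 492) (node 525 (merge (leaf 1 492 524) (leaf 0 525 526))))) (merge (node 493 (merge (leaf 0 492 492) (node 461 (merge (leaf 3 460 460) (node 497 (merge (leaf 3 461 462) (node 498 (merge (leaf 1 495 499) (node 466 (merge (leaf 2 462 465) (leaf 2 463 467))))))))))) (node 526 (merge (leaf 0 525 525) (node 497 (merge (leaf 1 494 498) (node 462 (merge (leaf 3 461 461) (node 430 (merge (leaf 4 398 398) (node 431 (merge (leaf 6 398 399) (leaf 4 431 463))))))))))))))))))))))))))))) (merge (node 558 (merge (node 557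 (merge (node 588 (merge (leaf 1 556 589) (node 556 (merge (leaf 2 524 527) (leaf 1 555 587))))) (merge (node 592 (merge (leaf 0 557 593) (node 556 (merge (leaf 2 524 527) (leaf 0 556 591))))) (node 589 (merge (leaf 1 556 588) (node 561 (merge (leaf 1 557 590) (node 593 (merge (leaf 0 557 592) (leaf 0 558 594)))))))))) (merge (node 557 (merge (node 592 (merge (leaf 0 557 593) (node 556 (merge (leaf 2 524 527) (leaf 0 556 591))))) (merge (node 524 (merge (leaf 3 524 525) (node 556 (merge (leaf 3 523 523) (leaf 2 524 527))))) (node 525 (merge (leaf 3 524 524) (node 561 (merge (leaf 3 525 526) (node 593 (merge (leaf 0 557 592) (leaf 0 558 594)))))))))) (merge (node 557 (merge (node 588 (merge (leaf 1 556 589) (node 556 (merge (leaf 1 555 587) (node 524 (merge (leaf 3 523 523) (leaf 3 524 525))))))) (merge (node 589 (merge (leaf 1 556 588) (node 561 (merge (leaf 1 557 590) (node 593 (merge (leaf 0 557 592) (leaf 0 558 594))))))) (node 525 (merge (leaf 3 524 524) (node 561 (merge (leaf 3 525 526) (node 593 (merge (leaf 0 557 592) (leaf 0 558 594)))))))))) (merge (node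 557 (merge (node 588 (merge (leaf 1 556 589) (node 556 (merge (leaf 2 524 527) (leaf 1 555 587))))) (merge (node 524 (merge (leaf 3 524 525) (node 556 (merge (leaf 3 523 523) (leaf 2 524 527))))) (node 525 (merge (leaf 3 524 524) (node 622 (merge (node 590 (merge (leaf 7 525 654) (node 493 (merge (leaf 4 461 461) (leaf 7 493 526))))) (merge (node 589 (merge (leaf 1 556 588) (node 654 (merge (leaf 7 525 590) (leaf 4 525 621))))) (merge (node 589 (merge (leaf 1 556 588) (node 621 (merge (leaf 4 525 654) (node 526 (merge (leaf 6 493 494) (leaf 6 525 653))))))) (node 589 (merge (leaf 1 556 588) (node 493 (merge (leaf 4 493 590) (node 494 (merge (leaf 6 461 462) (node 526 (merge (leaf 6 493 621) (node 460 (merge (leaf 7 460 492) (node 461 (merge (leaf 7 428 428) (leaf 4 429 429)))))))))))))))))))))) (hyp 2)))))) (merge (node 561 (merge (node 562 (merge (node 527 (merge (leaf 3 526 526) (leaf 3 527 563))) (node 594 (merge (leaf 0 559 595) (node 593 (merge (leaf 0 558 558) (node 530 (merge (leaf 2 527 531) (node 625 (merge (leaf 5 497 498) (leaf 6 529 657))))))))))) (merge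 (node 558 (merge (node 525 (merge (leaf 3 525 526) (node 557 (merge (leaf 3 524 524) (node 593 (merge (leaf 0 557 592) (leaf 0 558 594))))))) (merge (node 590 (merge (leaf 1 557 589) (node 562 (merge (leaf 1 558 591) (node 594 (merge (leaf 0 558 593) (leaf 0 559 595))))))) (node 589 (merge (leaf 1 557 590) (node 557 (merge (leaf 1 556 588) (node 525 (merge (leaf 3 524 524) (leaf 3 525 526)))))))))) (merge (node 590 (merge (node 589 (merge (leaf 1 557 558) (node 591 (merge (leaf 2 556 588) (leaf 2 557 592))))) (merge (node 562 (merge (leaf 1 558 591) (node 595 (merge (leaf 0 559 594) (node 563 (merge (leaf 0 560 596) (node 531 (merge (leaf 2 527 530) (leaf 2 528 532))))))))) (node 558 (merge (leaf 1 557 589) (node 526 (merge (leaf 3 525 525) (node 562 (merge (leaf 3 526 527) (node 595 (merge (leaf 0 559 594) (node 563 (merge (leaf 0 560 596) (node 531 (merge (leaf 2 527 530) (leaf 2 528 532)))))))))))))))) (merge (node 558 (merge (node 589 (merge (leaf 1 557 590) (node 557 (merge (leaf 1 556 588) (node 593 (merge (leaf 0 557 592) (leaf 0 558 594))))))) (merge (node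 594 (merge (leaf 0 558 593) (node 562 (merge (leaf 0 559 595) (node 563 (merge (leaf 3 527 527) (node 531 (merge (leaf 2 527 530) (leaf 2 528 532))))))))) (node 589 (merge (leaf 1 557 590) (node 557 (merge (leaf 1 556 588) (node 524 (merge (leaf 3 524 525) (node 556 (merge (leaf 3 523 523) (leaf 2 524 527)))))))))))) (merge (node 558 (merge (node 589 (merge (leaf 1 557 590) (node 557 (merge (leaf 1 556 588) (node 525 (merge (leaf 3 524 524) (leaf 3 525 526))))))) (merge (node 590 (merge (leaf 1 557 589) (node 526 (merge (leaf 3 525 525) (node 527 (merge (leaf 3 526 562) (node 622 (merge (leaf 6 494 495) (leaf 6 526 654))))))))) (merge (node 527 (merge (node 562 (merge (leaf 3 526 526) (leaf 3 527 563))) (node 557 (merge (leaf 2 524 556) (node 592 (merge (leaf 0 557 593) (node 495 (merge (leaf 4 463 463) (leaf 7 495 624))))))))) (node 589 (merge (leaf 1 557 590) (node 557 (merge (leaf 1 556 588) (node 524 (merge (leaf 3 524 525) (node 556 (merge (leaf 3 523 523) (leaf 2 524 527))))))))))))) (merge (node 558 (merge (node 525 (merge (leaf 3 525 526) (node 557 (merge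 (leaf 3 524 524) (node 593 (merge (leaf 0 557 592) (leaf 0 558 594))))))) (merge (node 589 (merge (leaf 1 557 590) (node 557 (merge (leaf 1 556 588) (node 525 (merge (leaf 3 524 524) (leaf 3 525 526))))))) (merge (node 589 (merge (leaf 1 557 590) (node 557 (merge (leaf 1 556 588) (node 593 (merge (leaf 0 557 592) (leaf 0 558 594))))))) (node 590 (merge (leaf 1 557 589) (node 495 (merge (node 526 (merge (leaf 3 525 525) (node 463 (merge (leaf 6 462 494) (leaf 5 462 527))))) (merge (node 527 (merge (leaf 5 462 463) (node 622 (merge (leaf 5 494 591) (leaf 6 526 654))))) (merge (node 526 (merge (leaf 3 525 525) (node 494 (merge (leaf 6 462 463) (node 461 (merge (leaf 7 461 493) (node 462 (merge (leaf 7 429 429) (leaf 4 462 591))))))))) (node 593 (merge (leaf 0 558 594) (node 657 (merge (leaf 7 528 625) (node 526 (merge (leaf 3 525 525) (node 622 (merge (leaf 6 494 527) (node 621 (merge (leaf 5 525 653) (node 591 (merge (leaf 1 589 592) (node 654 (merge (leaf 6 558 686) (node 655 (merge (leaf 3 621 656) (leaf 4 558 687))))))))))))))))))))))))))) (node 562 (merge (node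 527 (merge (leaf 3 526 526) (leaf 3 527 563))) (merge (node 591 (merge (leaf 1 558 590) (node 563 (merge (leaf 1 559 592) (node 595 (merge (leaf 0 559 594) (leaf 0 560 596))))))) (node 592 (merge (node 527 (merge (leaf 3 526 526) (node 624 (merge (leaf 7 495 495) (leaf 7 527 656))))) (node 530 (merge (leaf 2 527 531) (node 594 (merge (leaf 0 559 595) (node 626 (merge (node 591 (merge (leaf 1 558 590) (node 627 (merge (leaf 0 591 593) (leaf 4 530 659))))) (merge (node 659 (merge (leaf 4 530 627) (node 658 (merge (leaf 4 562 691) (node 657 (merge (leaf 5 529 625) (leaf 5 561 689))))))) (node 625 (merge (leaf 5 529 657) (node 498 (merge (leaf 5 497 593) (node 467 (merge (leaf 6 466 499) (node 466 (merge (leaf 6 434 435) (node 465 (merge (leaf 7 433 433) (leaf 7 465 497)))))))))))))))))))))))))))))) (merge (node 558 (merge (node 557 (merge (node 524 (merge (leaf 3 524 525) (node 556 (merge (leaf 3 523 523) (leaf 2 524 527))))) (node 589 (merge (leaf 1 556 588) (node 561 (merge (leaf 1 557 590) (node 593 (merge (leaf 0 557 592) (leaf 0 558 594))))))))) (merge (node 561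 (merge (node 593 (merge (leaf 0 558 594) (node 625 (merge (leaf 7 528 657) (node 496 (merge (leaf 4 464 464) (leaf 4 496 592))))))) (node 590 (merge (leaf 1 557 589) (node 562 (merge (leaf 1 558 591) (node 531 (merge (leaf 2 527 530) (node 563 (merge (leaf 3 527 527) (leaf 2 528 532))))))))))) (merge (node 561 (merge (node 589 (merge (leaf 1 557 590) (node 557 (merge (leaf 1 556 588) (node 593 (merge (leaf 0 557 592) (leaf 0 558 594))))))) (merge (node 557 (merge (node 589 (merge (leaf 1 556 588) (leaf 1 557 590))) (merge (node 592 (merge (leaf 0 557 593) (node 591 (merge (leaf 0 556 556) (node 562 (merge (leaf 1 559 563) (leaf 1 558 590))))))) (node 588 (merge (leaf 1 556 589) (node 556 (merge (leaf 1 555 587) (node 592 (merge (leaf 0 556 591) (leaf 0 557 593)))))))))) (merge (node 590 (merge (leaf 1 557 589) (node 562 (merge (leaf 1 558 591) (node 595 (merge (leaf 0 559 594) (node 563 (merge (leaf 0 560 596) (node 531 (merge (leaf 2 527 530) (leaf 2 528 532))))))))))) (node 562 (merge (node 595 (merge (leaf 0 559 594) (node 563 (merge (leaf 0 560 596) (node 531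 (merge (leaf 2 527 530) (leaf 2 528 532))))))) (merge (node 594 (merge (leaf 0 559 595) (node 593 (merge (leaf 0 558 558) (node 625 (merge (leaf 7 528 657) (node 530 (merge (leaf 5 497 498) (leaf 2 527 531))))))))) (merge (node 563 (merge (node 595 (merge (leaf 0 559 594) (leaf 0 560 596))) (merge (node 592 (merge (leaf 1 559 591) (node 593 (merge (leaf 1 560 564) (node 558 (merge (leaf 0 557 557) (leaf 0 558 594))))))) (node 592 (merge (leaf 1 559 591) (node 564 (merge (leaf 1 560 593) (node 596 (merge (leaf 0 560 595) (leaf 0 561 597)))))))))) (merge (node 531 (merge (leaf 2 527 530) (node 563 (merge (leaf 2 528 532) (node 592 (merge (leaf 1 559 591) (node 593 (merge (leaf 1 560 564) (node 558 (merge (leaf 0 557 557) (leaf 0 558 594))))))))))) (node 531 (merge (leaf 2 527 530) (node 563 (merge (leaf 2 528 532) (node 596 (merge (leaf 0 560 595) (node 564 (merge (leaf 0 561 597) (node 592 (merge (leaf 1 559 591) (leaf 1 560 593)))))))))))))))))))) (merge (node 592 (merge (node 593 (merge (leaf 0 557 557) (node 594 (merge (leaf 0 558 561) (leaf 3 559 595))))) (node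 624 (merge (node 656 (merge (leaf 7 527 527) (node 657 (merge (leaf 4 528 625) (leaf 4 560 689))))) (merge (node 657 (merge (leaf 4 528 625) (node 656 (merge (leaf 4 560 689) (node 688 (merge (leaf 7 559 591) (node 687 (merge (leaf 5 559 655) (leaf 5 591 719))))))))) (node 495 (merge (leaf 7 495 527) (node 496 (merge (leaf 7 463 463) (node 465 (merge (leaf 6 464 497) (node 464 (merge (leaf 6 432 433) (leaf 5 463 591)))))))))))))) (merge (node 592 (merge (node 593 (merge (leaf 0 557 557) (node 594 (merge (leaf 3 558 591) (leaf 3 559 595))))) (merge (node 557 (merge (leaf 0 557 593) (node 588 (merge (leaf 1 556 589) (node 556 (merge (leaf 2 524 527) (leaf 1 555 587))))))) (node 624 (merge (node 656 (merge (leaf 7 527 527) (node 657 (merge (leaf 4 528 625) (leaf 4 560 689))))) (merge (node 657 (merge (leaf 4 528 625) (node 656 (merge (leaf 4 560 689) (node 688 (merge (leaf 7 559 591) (node 687 (merge (leaf 5 559 655) (leaf 5 591 719))))))))) (node 495 (merge (leaf 7 495 527) (node 496 (merge (leaf 7 463 463) (node 465 (merge (leaf 6 464 497) (node 464 (merge (leaf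 6 432 433) (leaf 5 463 591))))))))))))))) (merge (node 496 (merge (node 464 (merge (leaf 5 463 591) (node 433 (merge (leaf 6 432 465) (node 432 (merge (leaf 6 400 401) (node 431 (merge (leaf 7 399 399) (leaf 7 431 463))))))))) (node 557 (merge (node 524 (merge (leaf 3 524 525) (node 556 (merge (leaf 3 523 523) (leaf 2 524 527))))) (merge (node 588 (merge (leaf 1 556 589) (node 556 (merge (leaf 1 555 587) (node 524 (merge (leaf 3 523 523) (leaf 3 524 525))))))) (node 589 (merge (leaf 1 556 588) (node 561 (merge (leaf 1 557 590) (node 594 (merge (leaf 0 558 593) (node 562 (merge (leaf 0 559 595) (node 531 (merge (leaf 2 527 530) (node 563 (merge (leaf 3 527 527) (leaf 2 528 532)))))))))))))))))) (node 496 (merge (node 464 (merge (leaf 5 463 591) (node 433 (merge (leaf 6 432 465) (node 432 (merge (leaf 6 400 401) (leaf 5 431 527))))))) (merge (node 464 (merge (node 433 (merge (leaf 6 432 465) (node 432 (merge (leaf 6 400 401) (leaf 5 431 527))))) (merge (node 432 (merge (leaf 5 431 527) (node 431 (merge (leaf 7 399 399) (leaf 7 431 463))))) (node 465 (merge (leaf 6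 432 433) (node 592 (merge (leaf 6 464 497) (node 463 (merge (leaf 7 431 431) (leaf 7 463 495)))))))))) (merge (node 464 (merge (leaf 5 463 591) (node 465 (merge (leaf 6 432 433) (node 592 (merge (leaf 6 464 497) (node 463 (merge (leaf 7 431 431) (leaf 7 463 495))))))))) (node 589 (merge (node 590 (merge (leaf 1 557 561) (node 588 (merge (leaf 2 555 587) (leaf 2 556 591))))) (merge (node 557 (merge (leaf 1 556 588) (node 524 (merge (leaf 3 524 525) (node 556 (merge (leaf 3 523 523) (leaf 2 524 527))))))) (node 590 (merge (leaf 1 557 561) (node 527 (merge (node 622 (merge (leaf 6 526 654) (node 495 (merge (leaf 5 462 463) (leaf 5 494 591))))) (merge (node 622 (merge (leaf 6 526 654) (node 557 (merge (leaf 2 524 556) (node 525 (merge (leaf 4 493 493) (leaf 3 524 524))))))) (node 557 (merge (leaf 2 524 556) (node 525 (merge (leaf 3 524 524) (node 493 (merge (leaf 4 461 461) (node 494 (merge (leaf 6 461 462) (node 495 (merge (leaf 5 462 463) (leaf 0 492 492)))))))))))))))))))))))))))))) (merge (node 496 (merge (node 464 (merge (leaf 5 463 591) (node 432 (merge (leaf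 5 431 527) (node 431 (merge (leaf 7 399 399) (leaf 7 431 463))))))) (merge (node 464 (merge (leaf 5 463 591) (node 433 (merge (leaf 6 432 465) (node 432 (merge (leaf 6 400 401) (leaf 5 431 527))))))) (merge (node 464 (merge (node 433 (merge (leaf 6 432 465) (node 432 (merge (leaf 6 400 401) (leaf 5 431 527))))) (merge (node 432 (merge (leaf 5 431 527) (node 431 (merge (leaf 7 399 399) (leaf 7 431 463))))) (node 465 (merge (leaf 6 432 433) (node 592 (merge (leaf 6 464 497) (node 463 (merge (leaf 7 431 431) (leaf 7 463 495)))))))))) (merge (node 464 (merge (leaf 5 463 591) (node 465 (merge (leaf 6 432 433) (node 592 (merge (leaf 6 464 497) (node 463 (merge (leaf 7 431 431) (leaf 7 463 495))))))))) (node 592 (merge (node 497 (merge (leaf 6 464 465) (node 495 (merge (leaf 7 463 463) (node 527 (merge (leaf 7 495 624) (node 498 (merge (leaf 1 495 499) (leaf 1 494 526))))))))) (merge (node 625 (merge (leaf 4 496 593) (node 624 (merge (leaf 4 528 657) (node 656 (merge (leaf 7 527 527) (node 688 (merge (leaf 7 559 591) (node 687 (merge (leaf 5 559 655) (leaf 5 591 719)))))))))))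 (node 497 (merge (leaf 6 464 465) (node 495 (merge (leaf 7 463 463) (node 494 (merge (node 525 (merge (leaf 1 493 526) (node 493 (merge (leaf 1 492 524) (node 461 (merge (leaf 3 460 460) (leaf 3 461 462))))))) (merge (node 526 (merge (leaf 1 493 525) (node 462 (merge (leaf 3 461 461) (node 558 (merge (leaf 4 462 591) (node 557 (merge (leaf 5 461 589) (leaf 0 557 593))))))))) (merge (node 461 (merge (leaf 3 461 462) (node 493 (merge (leaf 3 460 460) (node 525 (merge (leaf 1 492 524) (node 593 (merge (leaf 4 496 625) (node 557 (merge (leaf 0 557 558) (node 588 (merge (leaf 5 460 556) (node 589 (merge (leaf 5 492 620) (node 590 (merge (leaf 2 556 591) (leaf 4 493 622))))))))))))))))) (merge (node 525 (merge (leaf 1 493 526) (node 493 (merge (leaf 1 492 524) (node 593 (merge (leaf 4 496 625) (node 557 (merge (leaf 0 557 558) (node 589 (merge (leaf 6 461 462) (node 590 (merge (leaf 4 493 622) (node 588 (merge (leaf 2 556 591) (leaf 5 492 620))))))))))))))) (merge (node 461 (merge (leaf 3 461 462) (node 493 (merge (leaf 3 460 460) (node 593 (merge (leaf 4 496 625) (node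 558 (merge (leaf 0 557 557) (node 590 (merge (leaf 7 461 526) (node 561 (merge (leaf 1 557 589) (node 562 (merge (leaf 1 558 591) (node 563 (merge (leaf 1 560 564) (node 531 (merge (leaf 2 527 530) (leaf 2 528 532))))))))))))))))))) (node 525 (merge (leaf 1 493 526) (node 493 (merge (leaf 1 492 524) (node 460 (merge (leaf 3 460 461) (node 492 (merge (leaf 3 459 459) (node 557 (merge (leaf 7 460 589) (node 558 (merge (leaf 0 557 593) (node 556 (merge (leaf 0 556 591) (node 587 (merge (leaf 1 555 588) (node 555 (merge (leaf 1 554 586) (node 523 (merge (leaf 6 459 491) (leaf 3 522 522))))))))))))))))))))))))))))))))))))))) (merge (node 496 (merge (node 464 (merge (leaf 5 463 591) (node 432 (merge (leaf 5 431 527) (node 431 (merge (leaf 7 399 399) (leaf 7 431 463))))))) (merge (node 464 (merge (leaf 5 463 591) (node 433 (merge (leaf 6 432 465) (node 432 (merge (leaf 6 400 401) (leaf 5 431 527))))))) (merge (node 464 (merge (node 433 (merge (leaf 6 432 465) (node 432 (merge (leaf 6 400 401) (leaf 5 431 527))))) (merge (node 432 (merge (leaf 5 431 527) (node 431 (merge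 (leaf 7 399 399) (leaf 7 431 463))))) (node 465 (merge (leaf 6 432 433) (node 592 (merge (leaf 6 464 497) (node 463 (merge (leaf 7 431 431) (leaf 7 463 495)))))))))) (merge (node 464 (merge (leaf 5 463 591) (node 465 (merge (leaf 6 432 433) (node 592 (merge (leaf 6 464 497) (node 463 (merge (leaf 7 431 431) (leaf 7 463 495))))))))) (node 558 (merge (node 557 (merge (node 524 (merge (leaf 3 524 525) (node 556 (merge (leaf 3 523 523) (leaf 2 524 527))))) (merge (node 556 (merge (leaf 2 524 527) (node 591 (merge (leaf 0 556 592) (node 590 (merge (leaf 0 555 555) (node 561 (merge (leaf 1 558 562) (leaf 1 557 589))))))))) (merge (node 525 (merge (leaf 3 524 524) (node 561 (merge (leaf 3 525 526) (node 590 (merge (leaf 1 557 589) (node 591 (merge (leaf 1 558 562) (node 556 (merge (leaf 0 555 555) (leaf 0 556 592))))))))))) (node 525 (merge (leaf 3 524 524) (node 561 (merge (leaf 3 525 526) (node 590 (merge (leaf 1 557 589) (node 562 (merge (leaf 1 558 591) (node 595 (merge (leaf 0 559 594) (node 563 (merge (leaf 3 527 527) (leaf 0 560 596))))))))))))))))) (merge (node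 557 (merge (node 588 (merge (leaf 1 556 589) (node 556 (merge (leaf 2 524 527) (leaf 1 555 587))))) (merge (node 524 (merge (leaf 3 524 525) (node 556 (merge (leaf 3 523 523) (leaf 2 524 527))))) (node 589 (merge (leaf 1 556 588) (node 525 (merge (leaf 3 524 524) (node 526 (merge (leaf 3 525 561) (node 494 (merge (leaf 5 461 462) (leaf 6 493 621)))))))))))) (merge (node 527 (merge (node 557 (merge (leaf 2 524 556) (node 589 (merge (leaf 1 556 588) (node 561 (merge (leaf 1 557 590) (node 562 (merge (leaf 3 526 526) (leaf 3 527 563))))))))) (merge (node 590 (merge (node 589 (merge (leaf 1 557 561) (node 588 (merge (leaf 1 556 557) (leaf 2 555 587))))) (node 622 (merge (leaf 6 526 654) (node 495 (merge (leaf 5 462 463) (leaf 5 494 591))))))) (node 495 (merge (node 592 (merge (leaf 7 463 463) (leaf 7 495 624))) (merge (node 592 (merge (leaf 7 495 624) (node 497 (merge (leaf 6 464 465) (node 498 (merge (leaf 1 495 499) (leaf 1 494 526))))))) (node 463 (merge (leaf 4 431 431) (node 462 (merge (leaf 7 430 430) (node 494 (merge (leaf 7 462 591) (node 497 (merge (leaf 3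 461 461) (leaf 3 462 498))))))))))))))) (merge (node 589 (merge (node 590 (merge (leaf 1 557 561) (node 588 (merge (leaf 2 555 587) (leaf 2 556 591))))) (merge (node 557 (merge (leaf 1 556 588) (node 524 (merge (leaf 3 524 525) (node 556 (merge (leaf 3 523 523) (leaf 2 524 527))))))) (node 590 (merge (leaf 1 557 561) (node 527 (merge (node 622 (merge (leaf 6 526 654) (node 495 (merge (leaf 5 462 463) (leaf 5 494 591))))) (merge (node 622 (merge (leaf 6 526 654) (node 557 (merge (leaf 2 524 556) (node 525 (merge (leaf 4 493 493) (leaf 3 524 524))))))) (node 557 (merge (leaf 2 524 556) (node 525 (merge (leaf 3 524 524) (node 493 (merge (leaf 4 461 461) (node 494 (merge (leaf 6 461 462) (node 495 (merge (leaf 5 462 463) (leaf 0 492 492))))))))))))))))))) (merge (node 525 (merge (node 524 (merge (leaf 3 524 557) (node 526 (merge (leaf 0 523 523) (leaf 3 525 561))))) (merge (node 526 (merge (leaf 3 525 561) (node 527 (merge (leaf 2 493 497) (node 493 (merge (leaf 3 492 492) (node 590 (merge (leaf 7 493 622) (node 461 (merge (leaf 4 429 429) (leaf 7 461 494)))))))))))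 (node 557 (merge (leaf 3 524 524) (node 556 (merge (leaf 2 524 527) (node 591 (merge (leaf 0 556 592) (node 555 (merge (leaf 0 555 590) (node 587 (merge (leaf 1 554 586) (leaf 1 555 588)))))))))))))) (merge (node 557 (merge (node 588 (merge (leaf 1 556 589) (node 556 (merge (leaf 2 524 527) (leaf 1 555 587))))) (merge (node 524 (merge (leaf 3 524 525) (node 556 (merge (leaf 3 523 523) (leaf 2 524 527))))) (node 525 (merge (leaf 3 524 524) (node 622 (merge (node 590 (merge (leaf 7 525 654) (node 493 (merge (leaf 4 461 461) (leaf 7 493 526))))) (merge (node 589 (merge (leaf 1 556 588) (node 654 (merge (leaf 7 525 590) (leaf 4 525 621))))) (merge (node 589 (merge (leaf 1 556 588) (node 621 (merge (leaf 4 525 654) (node 526 (merge (leaf 6 493 494) (leaf 6 525 653))))))) (node 589 (merge (leaf 1 556 588) (node 493 (merge (leaf 4 493 590) (node 494 (merge (leaf 6 461 462) (node 526 (merge (leaf 6 493 621) (node 460 (merge (leaf 7 460 492) (node 461 (merge (leaf 7 428 428) (leaf 4 429 429)))))))))))))))))))))) (merge (node 526 (merge (node 525 (merge (leaf 3 525 561) (node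 524 (merge (leaf 0 523 523) (leaf 0 524 527))))) (merge (node 494 (merge (node 462 (merge (leaf 4 462 591) (node 463 (merge (leaf 6 430 431) (node 495 (merge (leaf 6 462 590) (leaf 7 463 592))))))) (merge (node 462 (merge (leaf 4 462 591) (node 429 (merge (leaf 7 429 461) (node 430 (merge (leaf 7 397 397) (leaf 4 430 527))))))) (node 590 (merge (node 589 (merge (leaf 1 557 561) (leaf 5 493 621))) (node 495 (merge (leaf 6 462 463) (node 527 (merge (leaf 6 494 622) (node 493 (merge (leaf 7 461 461) (leaf 0 492 492)))))))))))) (merge (node 494 (merge (node 462 (merge (leaf 4 462 591) (node 463 (merge (leaf 6 430 431) (node 495 (merge (leaf 6 462 590) (leaf 7 463 592))))))) (merge (node 462 (merge (leaf 4 462 591) (node 429 (merge (leaf 7 429 461) (node 430 (merge (leaf 7 397 397) (leaf 4 430 527))))))) (merge (node 462 (merge (node 463 (merge (leaf 6 430 431) (node 495 (merge (leaf 6 462 590) (leaf 7 463 592))))) (merge (node 431 (merge (leaf 6 430 463) (node 430 (merge (leaf 6 398 399) (node 429 (merge (leaf 7 397 397) (leaf 7 429 461))))))) (node 461 (merge (leaf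 7 429 429) (node 493 (merge (leaf 7 461 590) (node 495 (merge (leaf 3 460 460) (leaf 3 461 497)))))))))) (node 590 (merge (node 589 (merge (leaf 5 493 621) (node 588 (merge (leaf 2 555 587) (leaf 2 556 591))))) (node 495 (merge (leaf 6 462 463) (node 622 (merge (leaf 6 494 527) (node 493 (merge (leaf 7 461 461) (leaf 7 493 525))))))))))))) (node 590 (merge (node 561 (merge (leaf 3 525 525) (leaf 1 557 589))) (merge (node 525 (merge (leaf 3 525 561) (node 493 (merge (leaf 7 493 622) (node 461 (merge (leaf 4 429 429) (leaf 7 461 494))))))) (merge (node 589 (merge (leaf 1 557 561) (node 621 (merge (leaf 5 493 494) (node 653 (merge (leaf 5 525 622) (leaf 6 557 685))))))) (node 494 (merge (node 495 (merge (leaf 6 462 463) (node 497 (merge (leaf 1 493 525) (node 465 (merge (leaf 2 462 466) (leaf 6 464 592))))))) (merge (node 493 (merge (leaf 7 461 461) (node 622 (merge (leaf 7 493 525) (node 621 (merge (leaf 5 493 589) (leaf 5 525 653))))))) (node 463 (merge (leaf 6 462 495) (node 462 (merge (leaf 6 430 431) (node 461 (merge (leaf 7 429 429) (leaf 7 461 493))))))))))))))))))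 (hyp 3)))))))))))))) (merge (node 496 (merge (node 464 (merge (leaf 5 463 591) (node 432 (merge (leaf 5 431 527) (node 431 (merge (leaf 7 399 399) (leaf 7 431 463))))))) (merge (node 464 (merge (leaf 5 463 591) (node 433 (merge (leaf 6 432 465) (node 432 (merge (leaf 6 400 401) (leaf 5 431 527))))))) (merge (node 464 (merge (node 433 (merge (leaf 6 432 465) (node 432 (merge (leaf 6 400 401) (leaf 5 431 527))))) (merge (node 432 (merge (leaf 5 431 527) (node 431 (merge (leaf 7 399 399) (leaf 7 431 463))))) (node 465 (merge (leaf 6 432 433) (node 592 (merge (leaf 6 464 497) (node 463 (merge (leaf 7 431 431) (leaf 7 463 495)))))))))) (merge (node 464 (merge (leaf 5 463 591) (node 465 (merge (leaf 6 432 433) (node 592 (merge (leaf 6 464 497) (node 463 (merge (leaf 7 431 431) (leaf 7 463 495))))))))) (node 497 (merge (node 592 (merge (leaf 6 464 465) (node 625 (merge (leaf 4 496 593) (node 624 (merge (leaf 4 528 657) (node 656 (merge (leaf 7 527 527) (node 688 (merge (leaf 7 559 591) (node 687 (merge (leaf 5 559 655) (leaf 5 591 719))))))))))))) (merge (node 495 (merge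 (node 463 (merge (leaf 7 463 592) (node 431 (merge (leaf 4 399 399) (leaf 4 431 527))))) (merge (node 463 (merge (leaf 7 463 592) (node 462 (merge (leaf 3 462 498) (node 461 (merge (leaf 0 460 460) (leaf 3 461 494))))))) (node 494 (merge (node 461 (merge (leaf 3 461 462) (node 493 (merge (leaf 3 460 460) (node 525 (merge (leaf 1 492 524) (leaf 1 493 526))))))) (merge (node 526 (merge (leaf 1 493 525) (node 498 (merge (leaf 1 494 527) (node 531 (merge (leaf 0 495 530) (node 499 (merge (leaf 0 496 532) (node 467 (merge (leaf 2 463 466) (leaf 2 464 468))))))))))) (merge (node 461 (merge (leaf 3 461 462) (node 493 (merge (leaf 3 460 460) (node 527 (merge (leaf 0 492 492) (node 498 (merge (leaf 1 495 499) (leaf 1 494 526))))))))) (node 461 (merge (leaf 3 461 462) (node 493 (merge (leaf 3 460 460) (node 492 (merge (leaf 0 492 527) (node 524 (merge (leaf 1 491 523) (leaf 1 492 525)))))))))))))))) (merge (node 498 (merge (node 527 (merge (leaf 1 495 499) (node 526 (merge (leaf 1 494 495) (leaf 2 493 525))))) (merge (node 499 (merge (leaf 1 495 527) (node 532 (merge (leaf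 0 496 531) (node 500 (merge (leaf 0 497 533) (node 468 (merge (leaf 2 464 467) (leaf 2 465 469))))))))) (merge (node 495 (merge (node 463 (merge (leaf 3 462 462) (node 527 (merge (leaf 4 431 431) (leaf 1 494 526))))) (merge (node 526 (merge (leaf 1 494 527) (node 494 (merge (leaf 1 493 525) (node 466 (merge (leaf 2 462 465) (leaf 2 463 467))))))) (node 466 (merge (leaf 2 463 467) (node 494 (merge (leaf 2 462 465) (node 462 (merge (leaf 3 461 461) (leaf 3 462 463)))))))))) (node 531 (merge (node 530 (merge (leaf 0 495 495) (node 532 (merge (leaf 0 496 499) (leaf 3 497 533))))) (merge (node 495 (merge (leaf 0 495 530) (node 466 (merge (leaf 2 463 467) (node 494 (merge (leaf 2 462 465) (node 462 (merge (leaf 3 461 461) (leaf 3 462 463))))))))) (merge (node 499 (merge (leaf 0 496 532) (node 467 (merge (leaf 2 464 468) (node 466 (merge (leaf 2 463 495) (node 434 (merge (leaf 4 402 402) (leaf 7 434 563))))))))) (node 532 (merge (leaf 0 496 499) (node 530 (merge (leaf 3 497 533) (node 562 (merge (leaf 2 527 561) (node 465 (merge (leaf 7 465 594) (node 433 (merge (leaf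 4 401 401) (leaf 7 433 466))))))))))))))))))) (node 498 (merge (node 495 (merge (node 463 (merge (leaf 3 462 462) (leaf 7 463 592))) (merge (node 466 (merge (leaf 2 463 467) (node 494 (merge (leaf 2 462 465) (node 462 (merge (leaf 3 461 461) (leaf 3 462 463))))))) (node 465 (merge (leaf 6 464 592) (node 466 (merge (leaf 2 462 494) (node 467 (merge (leaf 1 464 468) (leaf 2 463 498)))))))))) (merge (node 530 (merge (node 531 (merge (leaf 0 495 495) (node 532 (merge (leaf 0 496 499) (leaf 3 497 533))))) (node 465 (merge (leaf 6 464 592) (node 562 (merge (leaf 7 465 594) (node 433 (merge (leaf 4 401 401) (leaf 7 433 466))))))))) (merge (node 495 (merge (node 531 (merge (leaf 0 495 530) (node 499 (merge (leaf 0 496 532) (node 467 (merge (leaf 2 463 466) (leaf 2 464 468))))))) (node 463 (merge (leaf 7 463 592) (node 462 (merge (leaf 3 462 498) (node 461 (merge (leaf 0 460 460) (leaf 3 461 494))))))))) (merge (node 531 (merge (node 530 (merge (leaf 0 495 495) (node 532 (merge (leaf 0 496 499) (leaf 3 497 533))))) (merge (node 495 (merge (leaf 0 495 530) (node 466 (merge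 (leaf 2 463 467) (node 494 (merge (leaf 2 462 465) (node 462 (merge (leaf 3 461 461) (leaf 3 462 463))))))))) (merge (node 499 (merge (leaf 0 496 532) (node 467 (merge (leaf 2 464 468) (node 466 (merge (leaf 2 463 495) (node 434 (merge (leaf 4 402 402) (leaf 7 434 563))))))))) (node 532 (merge (leaf 0 496 499) (node 530 (merge (leaf 3 497 533) (node 562 (merge (leaf 2 527 561) (node 465 (merge (leaf 7 465 594) (node 433 (merge (leaf 4 401 401) (leaf 7 433 466))))))))))))))) (merge (node 562 (merge (node 465 (merge (leaf 6 464 592) (node 530 (merge (leaf 7 465 594) (node 433 (merge (leaf 4 401 401) (leaf 7 433 466))))))) (merge (node 592 (merge (leaf 6 464 465) (node 593 (merge (leaf 4 496 625) (node 594 (merge (leaf 3 559 595) (node 563 (merge (leaf 2 559 591) (node 564 (merge (leaf 1 560 561) (leaf 1 561 565))))))))))) (merge (node 465 (merge (leaf 6 464 592) (node 433 (merge (leaf 5 400 401) (node 530 (merge (leaf 7 433 466) (node 531 (merge (leaf 2 527 561) (node 532 (merge (leaf 0 496 499) (leaf 3 497 533))))))))))) (merge (node 561 (merge (node 531 (merge (leaf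 2 527 530) (node 532 (merge (leaf 0 496 499) (leaf 2 528 563))))) (merge (node 594 (merge (leaf 0 559 595) (node 530 (merge (leaf 7 465 465) (node 593 (merge (leaf 5 465 466) (leaf 5 497 625))))))) (node 595 (merge (leaf 0 559 594) (node 563 (merge (leaf 0 560 596) (node 531 (merge (leaf 2 528 532) (node 499 (merge (leaf 7 466 466) (node 468 (merge (leaf 2 464 467) (leaf 6 467 500)))))))))))))) (node 531 (merge (node 532 (merge (leaf 0 496 499) (node 530 (merge (leaf 3 497 533) (leaf 2 527 561))))) (merge (node 561 (merge (leaf 2 527 530) (node 595 (merge (leaf 0 559 594) (node 563 (merge (leaf 0 560 596) (node 591 (merge (leaf 1 558 590) (leaf 1 559 592))))))))) (node 499 (merge (leaf 0 496 532) (node 467 (merge (leaf 2 464 468) (node 563 (merge (leaf 5 466 594) (node 466 (merge (leaf 7 434 434) (leaf 7 466 595))))))))))))))))) (node 592 (merge (leaf 6 464 465) (node 593 (merge (leaf 4 496 625) (node 495 (merge (leaf 7 463 463) (node 531 (merge (leaf 0 495 530) (node 499 (merge (leaf 0 496 532) (node 468 (merge (leaf 2 464 467) (node 500 (merge (leaf 2 465 469)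 (node 595 (merge (leaf 6 467 563) (node 594 (merge (leaf 3 559 559) (node 628 (merge (leaf 0 592 627) (node 596 (merge (leaf 3 560 561) (leaf 0 593 629)))))))))))))))))))))))))))))))))))))) (merge (hyp 4) (node 558 (merge (node 557 (merge (node 588 (merge (leaf 1 556 589) (node 556 (merge (leaf 2 524 527) (leaf 1 555 587))))) (merge (node 524 (merge (leaf 3 524 525) (node 556 (merge (leaf 3 523 523) (leaf 2 524 527))))) (node 525 (merge (leaf 3 524 524) (node 622 (merge (node 590 (merge (leaf 7 525 654) (node 493 (merge (leaf 4 461 461) (leaf 7 493 526))))) (merge (node 589 (merge (leaf 1 556 588) (node 654 (merge (leaf 7 525 590) (leaf 4 525 621))))) (merge (node 589 (merge (leaf 1 556 588) (node 621 (merge (leaf 4 525 654) (node 526 (merge (leaf 6 493 494) (leaf 6 525 653))))))) (node 589 (merge (leaf 1 556 588) (node 493 (merge (leaf 4 493 590) (node 494 (merge (leaf 6 461 462) (node 526 (merge (leaf 6 493 621) (node 460 (merge (leaf 7 460 492) (node 461 (merge (leaf 7 428 428) (leaf 4 429 429)))))))))))))))))))))) (merge (node 590 (merge (node 561 (merge (leaf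 1 557 589) (node 562 (merge (leaf 1 558 591) (node 594 (merge (leaf 0 558 593) (leaf 0 559 595))))))) (node 557 (merge (node 524 (merge (leaf 3 524 525) (node 556 (merge (leaf 3 523 523) (leaf 2 524 527))))) (merge (node 525 (merge (leaf 3 524 524) (node 622 (merge (leaf 7 525 654) (node 493 (merge (leaf 4 461 461) (leaf 7 493 526))))))) (node 527 (merge (leaf 2 524 556) (node 622 (merge (leaf 6 526 654) (node 495 (merge (leaf 5 462 463) (leaf 6 494 526)))))))))))) (merge (hyp 3) (merge (node 590 (merge (node 589 (merge (leaf 1 557 561) (node 588 (merge (leaf 1 556 557) (leaf 2 555 587))))) (merge (node 561 (merge (leaf 1 557 589) (node 562 (merge (leaf 1 558 591) (node 526 (merge (leaf 3 525 525) (leaf 3 526 527))))))) (merge (node 526 (merge (node 561 (merge (leaf 3 525 525) (node 562 (merge (leaf 3 526 527) (leaf 1 558 591))))) (merge (node 525 (merge (leaf 3 525 561) (node 493 (merge (leaf 7 493 622) (node 461 (merge (leaf 4 429 429) (leaf 4 461 557))))))) (node 495 (merge (node 463 (merge (leaf 6 462 494) (leaf 5 462 527))) (merge (node 494 (merge (leaf 6 462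 463) (node 462 (merge (leaf 4 462 591) (node 461 (merge (leaf 7 429 429) (leaf 7 461 493))))))) (node 622 (merge (leaf 6 494 527) (node 653 (merge (leaf 5 525 621) (node 654 (merge (leaf 5 557 685) (node 686 (merge (leaf 6 558 591) (node 687 (merge (leaf 4 558 655) (leaf 4 590 719))))))))))))))))) (node 622 (merge (node 527 (merge (leaf 6 526 654) (node 495 (merge (leaf 5 462 463) (leaf 6 494 526))))) (merge (node 654 (merge (leaf 6 526 527) (node 686 (merge (leaf 6 558 591) (node 685 (merge (leaf 5 557 653) (leaf 5 589 717))))))) (merge (node 654 (merge (node 686 (merge (leaf 6 558 591) (node 685 (merge (leaf 5 557 653) (leaf 5 589 717))))) (merge (node 557 (merge (leaf 7 525 525) (node 589 (merge (leaf 1 556 588) (leaf 7 557 686))))) (node 655 (merge (leaf 4 558 687) (node 653 (merge (leaf 5 557 685) (node 621 (merge (leaf 5 525 526) (node 620 (merge (leaf 0 619 619) (leaf 3 620 656)))))))))))) (node 526 (merge (node 493 (merge (leaf 7 493 525) (node 494 (merge (leaf 7 461 461) (node 621 (merge (leaf 5 493 589) (leaf 5 525 653))))))) (merge (node 493 (merge (leaf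 7 493 525) (node 495 (merge (leaf 6 494 527) (node 494 (merge (leaf 7 461 461) (leaf 6 462 463))))))) (merge (node 527 (merge (leaf 6 494 495) (node 557 (merge (leaf 2 524 556) (node 589 (merge (leaf 1 556 588) (node 621 (merge (leaf 5 493 494) (leaf 6 525 653))))))))) (node 527 (merge (leaf 6 494 495) (node 525 (merge (leaf 7 493 493) (node 557 (merge (leaf 1 524 556) (node 589 (merge (leaf 1 556 588) (node 621 (merge (leaf 6 525 653) (node 620 (merge (leaf 5 524 652) (node 619 (merge (leaf 2 587 591) (leaf 2 586 618))))))))))))))))))))))))))) (merge (node 496 (merge (node 464 (merge (leaf 5 463 591) (node 433 (merge (leaf 6 432 465) (node 432 (merge (leaf 6 400 401) (node 431 (merge (leaf 7 399 399) (leaf 7 431 463))))))))) (node 557 (merge (node 524 (merge (leaf 3 524 525) (node 556 (merge (leaf 3 523 523) (leaf 2 524 527))))) (merge (node 588 (merge (leaf 1 556 589) (node 556 (merge (leaf 1 555 587) (node 524 (merge (leaf 3 523 523) (leaf 3 524 525))))))) (node 589 (merge (leaf 1 556 588) (node 561 (merge (leaf 1 557 590) (node 594 (merge (leaf 0 558 593) (node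 562 (merge (leaf 0 559 595) (node 531 (merge (leaf 2 527 530) (node 563 (merge (leaf 3 527 527) (leaf 2 528 532)))))))))))))))))) (merge (node 496 (merge (node 464 (merge (leaf 5 463 591) (node 433 (merge (leaf 6 432 465) (node 432 (merge (leaf 6 400 401) (node 431 (merge (leaf 7 399 399) (leaf 7 431 463))))))))) (node 557 (merge (node 588 (merge (leaf 1 556 589) (node 556 (merge (leaf 2 524 527) (leaf 1 555 587))))) (merge (node 588 (merge (leaf 1 556 589) (node 556 (merge (leaf 1 555 587) (node 524 (merge (leaf 3 523 523) (leaf 3 524 525))))))) (node 525 (merge (leaf 3 524 524) (node 561 (merge (leaf 3 525 526) (node 594 (merge (leaf 0 558 593) (node 562 (merge (leaf 0 559 595) (node 531 (merge (leaf 2 527 530) (node 563 (merge (leaf 3 527 527) (leaf 2 528 532)))))))))))))))))) (merge (node 496 (merge (node 464 (merge (leaf 5 463 591) (node 433 (merge (leaf 6 432 465) (node 432 (merge (leaf 6 400 401) (node 431 (merge (leaf 7 399 399) (leaf 7 431 463))))))))) (merge (node 464 (merge (node 433 (merge (leaf 6 432 465) (node 432 (merge (leaf 6 400 401) (node 431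 (merge (leaf 7 399 399) (leaf 7 431 463))))))) (node 561 (merge (leaf 4 464 593) (node 589 (merge (leaf 1 557 590) (node 557 (merge (leaf 1 556 588) (node 527 (merge (leaf 2 524 556) (node 562 (merge (leaf 3 526 526) (leaf 3 527 563))))))))))))) (node 561 (merge (node 594 (merge (leaf 0 558 593) (node 562 (merge (leaf 0 559 595) (node 590 (merge (leaf 1 557 589) (leaf 1 558 591))))))) (merge (node 590 (merge (leaf 1 557 589) (node 562 (merge (leaf 1 558 591) (node 527 (merge (leaf 3 526 526) (leaf 3 527 563))))))) (merge (node 594 (merge (leaf 0 558 593) (node 562 (merge (leaf 0 559 595) (node 527 (merge (leaf 3 526 526) (leaf 3 527 563))))))) (node 625 (merge (node 593 (merge (leaf 0 558 594) (leaf 7 528 657))) (node 557 (merge (node 589 (merge (leaf 1 556 588) (leaf 1 557 590))) (merge (node 556 (merge (leaf 2 524 527) (node 587 (merge (leaf 1 555 588) (node 555 (merge (leaf 1 554 586) (node 523 (merge (leaf 3 522 522) (leaf 3 523 524))))))))) (node 590 (merge (leaf 1 557 589) (node 556 (merge (leaf 2 524 527) (node 555 (merge (leaf 0 555 591) (node 523 (merge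 (leaf 3 522 522) (leaf 3 523 524))))))))))))))))))))) (merge (hyp 2) (hyp 5)))))))))))))))))))))) nP_21 cP_21 17 (by decide +kernel)
def nP_22 : ℕ := 0x100000001000000010000000000000000000000000000000000000000000000000000000000000000000000000000000000000000000000000000000000000000000000000000
def cP_22 : ℕ := 0x800000038000001f8000000f8000001de000000e800000fcf800007ef00000fef000000e8000000a8000000800000000000000000000000000000000000000000000000000000000000000000000000000000000000000000000
theorem lP_22 : S nP_22 cP_22 13 := S_of_chk [] trivial (node 497 (merge (node 592 (merge (leaf 6 464 465) (node 624 (merge (node 623 (merge (leaf 5 495 591) (leaf 5 527 655))) (merge (node 657 (merge (leaf 4 528 625) (node 656 (merge (leaf 4 560 689) (node 655 (merge (leaf 5 527 623) (leaf 5 559 687))))))) (merge (node 657 (merge (leaf 4 528 625) (node 656 (merge (leaf 4 560 689) (node 559 (merge (leaf 7 527 527) (node 591 (merge (leaf 5 495 623) (leaf 7 559 688))))))))) (node 657 (merge (leaf 4 528 625) (node 656 (merge (leaf 4 560 689) (node 559 (merge (leaf 7 527 527) (node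 688 (merge (leaf 7 559 591) (node 687 (merge (leaf 5 559 655) (leaf 5 591 719))))))))))))))))) (merge (node 495 (merge (node 463 (merge (leaf 7 463 592) (node 431 (merge (leaf 4 399 399) (leaf 4 431 527))))) (merge (node 463 (merge (leaf 7 463 592) (node 462 (merge (leaf 3 462 498) (node 461 (merge (leaf 0 460 460) (leaf 3 461 494))))))) (node 494 (merge (node 461 (merge (leaf 3 461 462) (node 493 (merge (leaf 3 460 460) (node 525 (merge (leaf 1 492 524) (leaf 1 493 526))))))) (merge (node 526 (merge (leaf 1 493 525) (node 498 (merge (leaf 1 494 527) (node 531 (merge (leaf 0 495 530) (node 499 (merge (leaf 0 496 532) (node 467 (merge (leaf 2 463 466) (leaf 2 464 468))))))))))) (merge (node 461 (merge (leaf 3 461 462) (node 493 (merge (leaf 3 460 460) (node 527 (merge (leaf 0 492 492) (node 498 (merge (leaf 1 495 499) (leaf 1 494 526))))))))) (node 461 (merge (leaf 3 461 462) (node 493 (merge (leaf 3 460 460) (node 492 (merge (leaf 0 492 527) (node 524 (merge (leaf 1 491 523) (leaf 1 492 525)))))))))))))))) (merge (node 498 (merge (node 527 (merge (leaf 1 495 499)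 (node 526 (merge (leaf 1 494 495) (leaf 2 493 525))))) (merge (node 499 (merge (leaf 1 495 527) (node 532 (merge (leaf 0 496 531) (node 500 (merge (leaf 0 497 533) (node 468 (merge (leaf 2 464 467) (leaf 2 465 469))))))))) (merge (node 495 (merge (node 463 (merge (leaf 3 462 462) (node 527 (merge (leaf 4 431 431) (leaf 1 494 526))))) (node 530 (merge (leaf 0 495 531) (node 466 (merge (leaf 2 463 467) (node 465 (merge (leaf 2 462 494) (node 433 (merge (leaf 4 401 401) (leaf 7 433 562))))))))))) (node 467 (merge (node 468 (merge (leaf 2 464 499) (node 466 (merge (leaf 1 464 465) (leaf 1 465 469))))) (merge (node 466 (merge (leaf 2 463 495) (node 468 (merge (leaf 1 464 465) (leaf 1 465 469))))) (merge (node 499 (merge (leaf 2 464 468) (node 531 (merge (leaf 0 496 532) (node 530 (merge (leaf 0 495 495) (node 435 (merge (leaf 5 402 403) (leaf 5 434 562))))))))) (node 530 (merge (node 531 (merge (leaf 0 495 495) (node 532 (merge (leaf 0 496 499) (leaf 3 497 533))))) (merge (node 466 (merge (leaf 2 463 495) (node 562 (merge (leaf 6 434 435) (node 594 (merge (leaf 7 465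 465) (leaf 6 466 499))))))) (merge (node 435 (merge (node 403 (merge (leaf 5 402 499) (node 466 (merge (leaf 5 370 371) (leaf 6 402 434))))) (merge (node 499 (merge (leaf 5 402 403) (node 531 (merge (leaf 0 496 532) (leaf 5 434 562))))) (merge (node 466 (merge (leaf 6 434 562) (node 403 (merge (leaf 5 370 371) (leaf 6 402 434))))) (node 562 (merge (leaf 6 434 466) (node 499 (merge (leaf 5 434 531) (leaf 6 466 594))))))))) (node 495 (merge (leaf 0 495 531) (node 466 (merge (leaf 2 463 467) (node 494 (merge (leaf 2 462 465) (node 462 (merge (leaf 3 461 461) (leaf 3 462 463))))))))))))))))))))) (node 498 (merge (node 495 (merge (node 463 (merge (leaf 3 462 462) (leaf 7 463 592))) (merge (node 466 (merge (leaf 2 463 467) (node 494 (merge (leaf 2 462 465) (node 462 (merge (leaf 3 461 461) (leaf 3 462 463))))))) (node 465 (merge (leaf 6 464 592) (node 466 (merge (leaf 2 462 494) (node 467 (merge (leaf 1 464 468) (leaf 2 463 498)))))))))) (merge (node 530 (merge (node 531 (merge (leaf 0 495 495) (node 532 (merge (leaf 0 496 499) (leaf 3 497 533))))) (node 465 (merge (leaf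 6 464 592) (node 562 (merge (leaf 7 465 594) (node 433 (merge (leaf 4 401 401) (leaf 7 433 466))))))))) (merge (node 495 (merge (node 531 (merge (leaf 0 495 530) (node 499 (merge (leaf 0 496 532) (node 467 (merge (leaf 2 463 466) (leaf 2 464 468))))))) (node 463 (merge (leaf 7 463 592) (node 462 (merge (leaf 3 462 498) (node 461 (merge (leaf 0 460 460) (leaf 3 461 494))))))))) (merge (node 467 (merge (node 468 (merge (leaf 2 464 499) (node 466 (merge (leaf 1 464 465) (leaf 1 465 469))))) (merge (node 466 (merge (leaf 2 463 495) (node 468 (merge (leaf 1 464 465) (leaf 1 465 469))))) (merge (node 499 (merge (leaf 2 464 468) (node 531 (merge (leaf 0 496 532) (node 530 (merge (leaf 0 495 495) (node 435 (merge (leaf 5 402 403) (leaf 5 434 562))))))))) (node 530 (merge (node 531 (merge (leaf 0 495 495) (node 532 (merge (leaf 0 496 499) (leaf 3 497 533))))) (merge (node 466 (merge (leaf 2 463 495) (node 562 (merge (leaf 6 434 435) (node 594 (merge (leaf 7 465 465) (leaf 6 466 499))))))) (merge (node 435 (merge (node 403 (merge (leaf 5 402 499) (node 466 (merge (leaf 5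 370 371) (leaf 6 402 434))))) (merge (node 499 (merge (leaf 5 402 403) (node 531 (merge (leaf 0 496 532) (leaf 5 434 562))))) (merge (node 466 (merge (leaf 6 434 562) (node 403 (merge (leaf 5 370 371) (leaf 6 402 434))))) (node 562 (merge (leaf 6 434 466) (node 499 (merge (leaf 5 434 531) (leaf 6 466 594))))))))) (node 495 (merge (leaf 0 495 531) (node 466 (merge (leaf 2 463 467) (node 494 (merge (leaf 2 462 465) (node 462 (merge (leaf 3 461 461) (leaf 3 462 463))))))))))))))))) (merge (node 499 (merge (node 532 (merge (leaf 0 496 531) (node 500 (merge (leaf 0 497 533) (node 468 (merge (leaf 2 464 467) (leaf 2 465 469))))))) (merge (node 500 (merge (node 532 (merge (leaf 0 496 531) (leaf 0 497 533))) (merge (node 465 (merge (leaf 6 464 592) (node 501 (merge (leaf 3 465 466) (node 534 (merge (leaf 0 498 533) (node 502 (merge (leaf 0 499 535) (node 470 (merge (leaf 2 466 469) (leaf 2 467 471))))))))))) (node 531 (merge (leaf 0 496 532) (node 465 (merge (leaf 6 464 592) (node 501 (merge (leaf 3 465 466) (node 502 (merge (leaf 1 498 530) (node 470 (merge (leaf 2 466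 469) (leaf 2 467 471)))))))))))))) (merge (node 465 (merge (leaf 6 464 592) (node 468 (merge (leaf 2 464 467) (node 500 (merge (leaf 2 465 469) (node 533 (merge (leaf 0 497 532) (node 501 (merge (leaf 3 465 466) (leaf 0 498 534))))))))))) (merge (node 562 (merge (node 465 (merge (leaf 6 464 592) (node 530 (merge (leaf 7 465 594) (node 433 (merge (leaf 4 401 401) (leaf 7 433 466))))))) (merge (node 467 (merge (leaf 2 464 468) (node 530 (merge (leaf 6 466 594) (node 435 (merge (leaf 5 402 403) (leaf 5 434 531))))))) (node 592 (merge (leaf 6 464 465) (node 591 (merge (leaf 5 495 623) (node 561 (merge (leaf 1 559 563) (node 590 (merge (leaf 1 558 559) (leaf 2 557 589)))))))))))) (node 530 (merge (node 467 (merge (leaf 2 464 468) (node 562 (merge (leaf 6 466 594) (node 435 (merge (leaf 5 402 403) (leaf 5 434 531))))))) (merge (node 465 (merge (leaf 6 464 592) (node 562 (merge (leaf 7 465 594) (node 433 (merge (leaf 4 401 401) (leaf 7 433 466))))))) (node 465 (merge (leaf 6 464 592) (node 468 (merge (leaf 2 464 467) (node 500 (merge (leaf 2 465 469) (node 501 (merge (leaf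 3 465 466) (node 534 (merge (leaf 0 498 533) (node 502 (merge (leaf 1 498 531) (leaf 0 499 535))))))))))))))))))))) (node 531 (merge (node 495 (merge (leaf 0 495 530) (node 463 (merge (leaf 3 462 462) (leaf 7 463 592))))) (merge (node 530 (merge (leaf 0 495 495) (node 532 (merge (leaf 0 496 499) (leaf 3 497 533))))) (node 499 (merge (leaf 0 496 532) (node 595 (merge (node 468 (merge (leaf 2 464 467) (node 500 (merge (leaf 2 465 469) (leaf 6 467 563))))) (merge (node 592 (merge (leaf 6 464 465) (node 623 (merge (leaf 5 495 591) (node 624 (merge (leaf 5 527 655) (node 625 (merge (leaf 4 528 657) (node 626 (merge (leaf 2 591 594) (node 658 (merge (leaf 0 623 659) (node 627 (merge (leaf 5 530 563) (leaf 2 592 596))))))))))))))) (node 592 (merge (leaf 6 464 465) (node 623 (merge (leaf 5 495 591) (node 624 (merge (leaf 5 527 655) (node 625 (merge (leaf 4 528 657) (node 626 (merge (leaf 2 591 594) (node 659 (merge (leaf 0 623 658) (node 627 (merge (leaf 2 592 596) (leaf 0 624 660))))))))))))))))))))))))))))))))) nP_22 cP_22 13 (by decide +kernel)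
def nP_23 : ℕ := 0x100000001000000000000000000000000000000000000000000000000000000000000000000000000000000000000000000000000000000000000000000000000000000000000
def cP_23 : ℕ := 0x800000038000001fe000000fe000001df000000ef00000fcf800007ff80000fff000003ff000001ff800003fe000001f800000050000000000000000000000000000000000000000000000000000000000000000000000000000
theorem lP_23 : S nP_23 cP_23 14 := S_of_chk [(nP_1, cP_1, 8), (nP_22, cP_22, 13)] ⟨lP_1, lP_22, trivial⟩ (node 496 (merge (node 464 (merge (node 559 (merge (leaf 5 463 591) (node 432 (merge (leaf 5 431 527) (node 431 (merge (leaf 7 399 399) (leaf 7 431 463))))))) (merge (node 465 (merge (leaf 6 432 433) (node 592 (merge (leaf 6 464 497) (node 591 (merge (leaf 5 463 559) (leaf 5 495 623))))))) (node 433 (merge (leaf 6 432 465) (node 432 (merge (leaf 6 400 401) (node 431 (merge (leaf 7 399 399) (leaf 7 431 463)))))))))) (merge (node 464 (merge (node 433 (merge (leaf 6 432 465) (node 432 (merge (leaf 6 400 401) (node 431 (merge (leaf 7 399 399) (leaf 7 431 463))))))) (merge (node 465 (merge (leaf 6 432 433) (node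 592 (merge (leaf 6 464 497) (node 591 (merge (leaf 5 463 559) (leaf 5 495 623))))))) (node 591 (merge (leaf 5 463 559) (node 592 (merge (leaf 5 495 623) (node 463 (merge (leaf 7 431 431) (leaf 7 463 495)))))))))) (merge (node 592 (merge (node 591 (merge (leaf 5 495 623) (node 464 (merge (leaf 5 463 559) (node 463 (merge (leaf 7 431 431) (leaf 7 463 495))))))) (merge (node 497 (merge (leaf 6 464 465) (node 495 (merge (leaf 7 463 463) (node 527 (merge (leaf 7 495 624) (node 498 (merge (leaf 1 495 499) (leaf 1 494 526))))))))) (node 497 (merge (leaf 6 464 465) (node 624 (merge (node 623 (merge (leaf 5 495 591) (leaf 5 527 655))) (merge (node 657 (merge (leaf 4 528 625) (node 656 (merge (leaf 4 560 689) (node 655 (merge (leaf 5 527 623) (leaf 5 559 687))))))) (merge (node 657 (merge (leaf 4 528 625) (node 656 (merge (leaf 4 560 689) (node 559 (merge (leaf 7 527 527) (node 591 (merge (leaf 5 495 623) (leaf 7 559 688))))))))) (node 657 (merge (leaf 4 528 625) (node 656 (merge (leaf 4 560 689) (node 559 (merge (leaf 7 527 527) (node 688 (merge (leaf 7 559 591) (node 687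 (merge (leaf 5 559 655) (leaf 5 591 719)))))))))))))))))))) (merge (node 464 (merge (node 433 (merge (leaf 6 432 465) (node 432 (merge (leaf 6 400 401) (node 431 (merge (leaf 7 399 399) (leaf 7 431 463))))))) (merge (node 465 (merge (leaf 6 432 433) (node 592 (merge (leaf 6 464 497) (node 463 (merge (leaf 7 431 431) (leaf 7 463 495))))))) (merge (node 433 (merge (leaf 6 432 465) (node 432 (merge (leaf 6 400 401) (node 527 (merge (leaf 5 431 559) (node 495 (merge (leaf 5 399 400) (node 592 (merge (leaf 7 463 463) (leaf 7 495 624))))))))))) (merge (node 431 (merge (leaf 7 431 463) (node 432 (merge (leaf 7 399 399) (node 401 (merge (leaf 6 400 433) (node 400 (merge (leaf 6 368 369) (node 527 (merge (leaf 5 399 495) (leaf 5 431 559))))))))))) (merge (node 433 (merge (leaf 6 432 465) (node 432 (merge (leaf 6 400 401) (node 399 (merge (leaf 7 399 431) (node 400 (merge (leaf 7 367 367) (node 527 (merge (leaf 5 399 495) (leaf 5 431 559))))))))))) (node 431 (merge (leaf 7 431 463) (node 432 (merge (leaf 7 399 399) (node 527 (merge (leaf 5 431 559) (node 495 (merge (leaf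 5 399 400) (node 592 (merge (leaf 7 495 624) (node 497 (merge (leaf 6 464 465) (node 498 (merge (leaf 1 495 499) (leaf 1 494 526))))))))))))))))))))) (merge (node 464 (merge (node 591 (merge (leaf 5 463 559) (node 592 (merge (leaf 5 495 623) (node 463 (merge (leaf 7 431 431) (leaf 7 463 495))))))) (merge (node 432 (merge (node 431 (merge (leaf 7 399 399) (leaf 7 431 463))) (merge (node 401 (merge (leaf 6 400 433) (node 400 (merge (leaf 6 368 369) (node 399 (merge (leaf 7 367 367) (leaf 7 399 431))))))) (merge (node 401 (merge (leaf 6 400 433) (node 400 (merge (leaf 6 368 369) (node 463 (merge (leaf 7 431 431) (node 495 (merge (leaf 5 367 368) (leaf 7 463 592))))))))) (node 401 (merge (leaf 6 400 433) (node 400 (merge (leaf 6 368 369) (node 367 (merge (leaf 7 367 399) (node 368 (merge (leaf 7 335 335) (node 495 (merge (leaf 5 367 463) (leaf 5 399 527))))))))))))))) (merge (node 559 (merge (leaf 5 463 591) (node 432 (merge (leaf 5 431 527) (node 401 (merge (leaf 6 400 433) (node 400 (merge (leaf 6 368 369) (node 399 (merge (leaf 7 367 367) (leaf 7 399 431)))))))))))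 (node 592 (merge (node 591 (merge (leaf 5 463 559) (leaf 5 495 623))) (merge (node 495 (merge (leaf 7 463 463) (node 527 (merge (leaf 7 495 624) (node 432 (merge (leaf 5 399 400) (leaf 5 431 559))))))) (node 623 (merge (leaf 5 495 591) (node 624 (merge (leaf 5 527 655) (node 495 (merge (leaf 7 463 463) (leaf 7 495 527)))))))))))))) (merge (node 527 (merge (node 526 (merge (node 525 (merge (leaf 2 493 497) (leaf 0 525 561))) (merge (node 525 (merge (leaf 0 525 561) (node 492 (merge (leaf 3 492 493) (node 524 (merge (leaf 3 491 491) (leaf 2 492 495))))))) (node 497 (merge (node 498 (merge (leaf 1 494 495) (leaf 1 495 499))) (node 465 (merge (leaf 6 464 592) (node 433 (merge (leaf 5 400 401) (leaf 6 432 464)))))))))) (merge (node 592 (merge (node 497 (merge (leaf 6 464 465) (node 526 (merge (leaf 2 493 525) (node 498 (merge (leaf 1 494 495) (leaf 1 495 499))))))) (node 623 (merge (leaf 5 495 591) (node 624 (merge (leaf 5 527 655) (node 656 (merge (leaf 7 527 559) (node 657 (merge (leaf 4 528 625) (leaf 4 560 689))))))))))) (merge (node 465 (merge (node 464 (merge (leaf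 6 432 433) (node 559 (merge (leaf 5 431 432) (leaf 5 463 591))))) (merge (node 433 (merge (leaf 6 432 464) (node 497 (merge (leaf 5 400 401) (leaf 6 464 592))))) (node 592 (merge (leaf 6 464 497) (node 623 (merge (leaf 5 495 591) (node 624 (merge (leaf 5 527 655) (node 656 (merge (leaf 7 527 559) (node 657 (merge (leaf 4 528 625) (leaf 4 560 689)))))))))))))) (node 559 (merge (node 464 (merge (leaf 5 431 432) (leaf 5 463 591))) (hyp 0))))))) (merge (node 464 (merge (node 559 (merge (leaf 5 463 591) (node 432 (merge (leaf 5 431 527) (node 431 (merge (leaf 7 399 399) (leaf 7 431 463))))))) (merge (node 433 (merge (leaf 6 432 465) (node 432 (merge (leaf 6 400 401) (node 559 (merge (leaf 5 431 527) (leaf 5 463 591))))))) (merge (node 433 (merge (leaf 6 432 465) (node 432 (merge (leaf 6 400 401) (node 431 (merge (leaf 7 399 399) (leaf 7 431 463))))))) (node 465 (merge (leaf 6 432 433) (node 463 (merge (leaf 7 431 431) (node 559 (merge (leaf 5 463 591) (node 466 (merge (node 499 (merge (leaf 0 463 498) (node 467 (merge (leaf 1 463 495) (leaf 0 464 500))))) (merge (node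 467 (merge (leaf 1 463 495) (node 500 (merge (leaf 0 464 499) (node 468 (merge (leaf 1 464 497) (leaf 0 465 501))))))) (merge (node 498 (merge (leaf 0 463 499) (node 462 (merge (leaf 0 462 497) (node 493 (merge (leaf 1 461 494) (node 461 (merge (leaf 1 460 492) (node 429 (merge (leaf 3 428 428) (leaf 3 429 430))))))))))) (node 467 (merge (leaf 1 463 495) (node 435 (merge (leaf 2 431 434) (leaf 2 432 436))))))))))))))))))) (merge (hyp 1) (node 465 (merge (node 592 (merge (leaf 6 464 497) (node 623 (merge (leaf 5 495 591) (node 624 (merge (leaf 5 527 655) (node 495 (merge (leaf 7 463 463) (leaf 7 495 527))))))))) (merge (node 464 (merge (leaf 6 432 433) (node 463 (merge (leaf 7 431 431) (node 495 (merge (leaf 7 463 592) (node 466 (merge (leaf 1 463 467) (leaf 1 462 494))))))))) (node 433 (merge (leaf 6 432 464) (node 401 (merge (node 497 (merge (leaf 5 400 496) (node 368 (merge (leaf 7 368 400) (node 369 (merge (leaf 7 336 336) (node 498 (merge (leaf 4 369 466) (leaf 4 401 530))))))))) (merge (node 497 (merge (leaf 5 400 496) (node 370 (merge (leaf 6 369 402) (node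 369 (merge (leaf 6 337 338) (node 498 (merge (leaf 4 369 466) (leaf 4 401 530))))))))) (merge (node 369 (merge (node 336 (merge (leaf 7 336 368) (node 337 (merge (leaf 7 304 304) (node 466 (merge (leaf 4 337 434) (leaf 4 369 498))))))) (merge (node 338 (merge (leaf 6 337 370) (node 337 (merge (leaf 6 305 306) (node 466 (merge (leaf 4 337 434) (leaf 4 369 498))))))) (merge (node 338 (merge (leaf 6 337 370) (node 337 (merge (leaf 6 305 306) (node 336 (merge (leaf 7 304 304) (leaf 7 336 368))))))) (node 466 (merge (leaf 4 369 498) (node 370 (merge (leaf 6 337 338) (node 371 (merge (node 400 (merge (leaf 1 368 372) (node 399 (merge (leaf 2 366 398) (leaf 2 367 402))))) (merge (node 368 (merge (leaf 7 336 336) (node 400 (merge (leaf 1 368 372) (leaf 1 367 399))))) (node 368 (merge (leaf 7 336 336) (node 403 (merge (leaf 0 368 404) (node 402 (merge (leaf 0 367 367) (node 339 (merge (leaf 2 336 340) (leaf 6 338 434)))))))))))))))))))) (node 400 (merge (node 497 (merge (leaf 7 368 368) (leaf 5 400 496))) (merge (node 399 (merge (node 434 (merge (leaf 0 398 398) (node 435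 (merge (leaf 0 399 402) (leaf 3 400 436))))) (merge (node 434 (merge (leaf 0 398 398) (node 435 (merge (leaf 3 399 432) (leaf 3 400 436))))) (merge (node 497 (merge (leaf 5 400 496) (node 402 (merge (leaf 6 369 370) (node 366 (merge (leaf 3 366 367) (node 398 (merge (leaf 3 365 365) (node 397 (merge (leaf 0 397 432) (node 429 (merge (leaf 1 396 428) (leaf 1 397 430))))))))))))) (node 497 (merge (leaf 5 400 496) (node 402 (merge (leaf 6 369 370) (node 435 (merge (leaf 0 399 434) (node 403 (merge (leaf 0 400 436) (node 404 (merge (leaf 1 400 432) (node 372 (merge (leaf 2 368 371) (leaf 2 369 373))))))))))))))))) (node 399 (merge (node 398 (merge (leaf 0 398 434) (node 397 (merge (leaf 0 397 432) (node 429 (merge (leaf 1 396 428) (leaf 1 397 430))))))) (merge (node 402 (merge (node 434 (merge (leaf 0 399 435) (node 370 (merge (leaf 5 337 338) (leaf 2 367 371))))) (merge (node 435 (merge (leaf 0 399 434) (node 403 (merge (leaf 0 400 436) (node 367 (merge (leaf 3 366 366) (leaf 3 367 368))))))) (node 371 (merge (leaf 2 367 370) (node 403 (merge (leaf 2 368 372) (node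 367 (merge (leaf 3 366 366) (leaf 3 367 368)))))))))) (node 398 (merge (node 397 (merge (leaf 0 397 432) (node 429 (merge (leaf 1 396 428) (leaf 1 397 430))))) (merge (node 429 (merge (leaf 1 397 430) (node 397 (merge (leaf 1 396 428) (node 366 (merge (leaf 3 365 365) (node 367 (merge (leaf 3 366 402) (node 396 (merge (leaf 2 364 368) (leaf 2 363 395))))))))))) (node 366 (merge (leaf 3 365 365) (node 402 (merge (leaf 3 366 367) (node 371 (merge (leaf 2 367 370) (node 403 (merge (leaf 2 368 372) (node 436 (merge (leaf 0 400 435) (node 404 (merge (leaf 1 400 432) (leaf 0 401 437)))))))))))))))))))))))))))))))))))))))) nP_23 cP_23 14 (by decide +kernel)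
def nP_24 : ℕ := 0x2000000010000000180000001000000000000000000000000000000000000000000000000000000000000000000000000000000000000000000000000000000000000000000000000000000000000
def cP_24 : ℕ := 0x68000003f800000ff800001fd200000fda00001feb000001e7000001cf000001ec000001e8000000a800000000000000000000000000000000000000000000000000000000000000000000000000000000000000000000000000000000000
theorem lP_24 : S nP_24 cP_24 13 := S_of_chk [] trivial (node 626 (merge (node 624 (merge (node 527 (merge (leaf 7 495 495) (leaf 7 527 656))) (node 627 (merge (leaf 3 591 591) (node 660 (merge (leaf 0 624 659) (node 628 (merge (leaf 3 592 593) (leaf 0 625 661))))))))) (merge (node 624 (merge (node 527 (merge (leaf 7 495 495) (leaf 7 527 656))) (node 627 (merge (leaf 3 591 591) (node 595 (merge (leaf 2 592 596) (node 594 (merge (leaf 3 559 593) (leaf 2 591 623))))))))) (merge (node 624 (merge (node 527 (merge (leaf 7 495 495) (leaf 7 527 656))) (node 627 (merge (leaf 3 591 591) (node 660 (merge (leaf 0 624 659) (node 628 (merge (leaf 0 625 661) (node 596 (merge (leaf 2 592 595) (leaf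 2 593 597))))))))))) (merge (node 624 (merge (node 527 (merge (leaf 7 495 495) (leaf 7 527 656))) (node 595 (merge (node 594 (merge (leaf 3 559 593) (leaf 2 591 623))) (merge (node 627 (merge (leaf 2 592 596) (node 660 (merge (leaf 0 624 659) (node 628 (merge (leaf 3 592 593) (leaf 0 625 661))))))) (node 623 (merge (leaf 2 591 594) (node 659 (merge (leaf 0 623 658) (node 627 (merge (leaf 2 592 596) (leaf 0 624 660)))))))))))) (merge (node 593 (merge (node 594 (merge (leaf 3 559 595) (node 627 (merge (leaf 0 591 591) (leaf 3 592 628))))) (merge (node 558 (merge (leaf 0 557 557) (node 594 (merge (leaf 0 558 561) (leaf 3 558 591))))) (merge (node 594 (merge (leaf 3 559 595) (node 558 (merge (leaf 0 557 557) (leaf 0 558 561))))) (node 627 (merge (leaf 3 592 628) (node 624 (merge (leaf 3 591 591) (node 659 (merge (leaf 0 624 660) (node 658 (merge (leaf 0 623 623) (node 690 (merge (leaf 7 593 722) (node 595 (merge (leaf 5 562 563) (leaf 2 592 596))))))))))))))))) (merge (node 594 (merge (node 593 (merge (leaf 3 559 595) (node 558 (merge (leaf 0 557 557) (leaf 3 558 591)))))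 (merge (node 595 (merge (leaf 3 559 593) (node 624 (merge (leaf 2 591 623) (node 527 (merge (leaf 7 495 495) (leaf 7 527 656))))))) (merge (node 527 (merge (node 495 (merge (leaf 7 495 624) (node 463 (merge (leaf 4 431 431) (leaf 4 463 559))))) (node 558 (merge (node 593 (merge (leaf 0 557 557) (leaf 3 558 591))) (merge (node 593 (merge (leaf 0 558 561) (leaf 3 558 591))) (node 557 (merge (leaf 2 524 556) (node 589 (merge (leaf 1 556 588) (node 525 (merge (leaf 3 524 524) (node 526 (merge (leaf 0 525 561) (node 621 (merge (leaf 6 493 494) (leaf 6 525 653)))))))))))))))) (node 562 (merge (node 561 (merge (leaf 0 559 595) (node 563 (merge (leaf 1 559 591) (node 531 (merge (leaf 2 527 530) (leaf 2 528 532))))))) (merge (node 561 (merge (leaf 0 559 595) (node 527 (merge (leaf 3 526 526) (node 624 (merge (leaf 7 495 495) (leaf 7 527 656))))))) (merge (node 563 (merge (node 561 (merge (leaf 3 527 527) (leaf 1 559 591))) (node 531 (merge (leaf 6 530 658) (node 499 (merge (leaf 5 466 467) (leaf 6 498 530))))))) (node 658 (merge (node 563 (merge (leaf 6 530 531) (node 690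 (merge (leaf 6 562 595) (node 691 (merge (leaf 4 562 659) (leaf 4 594 723))))))) (merge (node 659 (merge (leaf 4 562 691) (node 624 (merge (leaf 0 623 623) (node 656 (merge (leaf 7 527 527) (node 688 (merge (leaf 7 559 591) (node 689 (merge (leaf 4 592 721) (node 687 (merge (leaf 2 655 690) (leaf 5 591 719))))))))))))) (merge (node 563 (merge (leaf 6 530 531) (node 595 (merge (leaf 6 562 690) (node 624 (merge (leaf 2 591 623) (node 656 (merge (leaf 7 527 527) (node 688 (merge (leaf 7 559 591) (node 721 (merge (leaf 4 592 689) (node 720 (merge (leaf 4 624 753) (node 719 (merge (leaf 5 591 687) (leaf 5 623 751))))))))))))))))) (node 659 (merge (leaf 4 562 691) (node 624 (merge (leaf 0 623 623) (node 656 (merge (leaf 7 527 527) (node 688 (merge (leaf 7 559 591) (node 721 (merge (leaf 4 592 689) (node 720 (merge (leaf 4 624 753) (node 719 (merge (leaf 5 591 687) (leaf 5 623 751))))))))))))))))))))))))))) (node 627 (merge (node 593 (merge (leaf 3 592 628) (node 594 (merge (leaf 0 591 591) (leaf 3 559 595))))) (merge (node 628 (merge (leaf 3 592 593) (node 661 (merge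 (leaf 0 625 660) (node 629 (merge (leaf 0 626 662) (node 597 (merge (leaf 2 593 596) (leaf 2 594 598))))))))) (merge (node 594 (merge (node 593 (merge (leaf 0 591 591) (node 558 (merge (leaf 0 557 557) (leaf 0 558 561))))) (merge (node 595 (merge (leaf 3 559 593) (node 562 (merge (leaf 0 559 561) (node 659 (merge (leaf 4 530 530) (leaf 7 562 691))))))) (merge (node 593 (merge (leaf 0 591 591) (node 595 (merge (leaf 3 559 559) (node 563 (merge (leaf 2 560 564) (node 658 (merge (leaf 5 530 531) (leaf 6 562 690))))))))) (node 562 (merge (node 563 (merge (node 561 (merge (leaf 3 527 527) (leaf 1 559 591))) (node 531 (merge (leaf 6 530 658) (node 499 (merge (leaf 5 466 467) (leaf 6 498 530))))))) (merge (node 563 (merge (node 561 (merge (leaf 3 527 527) (leaf 1 559 591))) (node 658 (merge (leaf 6 530 531) (node 690 (merge (leaf 6 562 595) (node 691 (merge (leaf 4 562 659) (leaf 4 594 723))))))))) (node 530 (merge (leaf 4 530 659) (node 498 (merge (leaf 4 498 595) (node 467 (merge (leaf 6 466 499) (node 466 (merge (leaf 6 434 435) (node 465 (merge (leaf 7 433 433) (leaf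 7 465 497)))))))))))))))))) (node 595 (merge (node 628 (merge (node 661 (merge (leaf 0 625 660) (node 629 (merge (leaf 0 626 662) (node 597 (merge (leaf 2 593 596) (leaf 2 594 598))))))) (merge (node 660 (merge (leaf 0 625 661) (node 692 (merge (leaf 7 595 724) (node 563 (merge (leaf 4 531 531) (leaf 4 563 659))))))) (merge (node 597 (merge (leaf 2 593 596) (node 629 (merge (leaf 2 594 598) (node 662 (merge (leaf 0 626 661) (node 630 (merge (leaf 3 594 594) (leaf 0 627 663))))))))) (node 597 (merge (leaf 2 593 596) (node 629 (merge (leaf 2 594 598) (node 630 (merge (leaf 3 594 594) (node 663 (merge (leaf 0 627 662) (node 631 (merge (leaf 0 628 664) (node 659 (merge (leaf 1 626 658) (leaf 1 627 660))))))))))))))))) (merge (node 563 (merge (node 531 (merge (leaf 5 530 658) (node 530 (merge (leaf 7 498 498) (node 659 (merge (leaf 7 530 562) (node 660 (merge (leaf 4 531 628) (leaf 4 563 692))))))))) (merge (node 531 (merge (leaf 5 530 658) (node 532 (merge (leaf 6 499 500) (node 659 (merge (leaf 6 531 564) (node 562 (merge (leaf 7 530 530) (leaf 2 528 561))))))))) (merge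 (node 531 (merge (leaf 5 530 658) (node 532 (merge (leaf 6 499 500) (node 659 (merge (leaf 6 531 564) (node 660 (merge (leaf 4 531 628) (leaf 4 563 692))))))))) (merge (node 659 (merge (node 562 (merge (leaf 7 530 530) (node 561 (merge (leaf 3 527 527) (leaf 1 559 591))))) (node 564 (merge (leaf 6 531 532) (node 691 (merge (leaf 6 563 596) (node 692 (merge (leaf 4 563 660) (leaf 4 595 724))))))))) (node 531 (merge (leaf 5 530 658) (node 628 (merge (leaf 4 531 660) (node 596 (merge (leaf 4 499 499) (leaf 2 593 597)))))))))))) (merge (node 628 (merge (node 660 (merge (leaf 0 625 661) (node 692 (merge (leaf 7 595 724) (node 563 (merge (leaf 4 531 531) (leaf 4 563 659))))))) (merge (node 597 (merge (leaf 2 593 596) (node 629 (merge (leaf 2 594 598) (node 662 (merge (leaf 0 626 661) (node 630 (merge (leaf 3 594 594) (leaf 0 627 663))))))))) (node 594 (merge (node 597 (merge (leaf 1 593 596) (node 629 (merge (leaf 2 594 598) (leaf 3 594 630))))) (node 562 (merge (leaf 0 559 561) (node 530 (merge (leaf 4 498 498) (leaf 4 530 659)))))))))) (merge (node 563 (merge (node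 531 (merge (leaf 5 530 658) (node 532 (merge (leaf 6 499 500) (node 659 (merge (leaf 6 531 564) (node 562 (merge (leaf 7 530 530) (leaf 2 528 561))))))))) (merge (node 562 (merge (node 561 (merge (leaf 3 527 527) (leaf 1 559 591))) (node 659 (merge (leaf 7 530 530) (node 691 (merge (leaf 7 562 594) (node 692 (merge (leaf 4 563 660) (leaf 4 595 724))))))))) (merge (node 658 (merge (leaf 5 530 531) (node 690 (merge (leaf 6 562 594) (leaf 5 562 659))))) (merge (node 531 (merge (leaf 5 530 658) (node 500 (merge (leaf 6 499 532) (node 499 (merge (leaf 6 467 468) (leaf 5 498 594))))))) (node 531 (merge (leaf 5 530 658) (node 532 (merge (leaf 6 499 500) (node 659 (merge (leaf 6 531 564) (node 562 (merge (leaf 2 528 561) (node 594 (merge (leaf 5 498 499) (leaf 7 562 691)))))))))))))))) (merge (node 628 (merge (node 660 (merge (leaf 0 625 661) (node 692 (merge (leaf 7 595 724) (node 596 (merge (leaf 7 563 563) (leaf 2 593 597))))))) (merge (node 597 (merge (leaf 2 593 596) (node 629 (merge (leaf 2 594 598) (node 662 (merge (leaf 0 626 661) (node 630 (merge (leaf 3 594 594)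 (leaf 0 627 663))))))))) (merge (node 661 (merge (leaf 0 625 660) (node 629 (merge (leaf 0 626 662) (node 598 (merge (leaf 2 594 597) (node 630 (merge (leaf 3 594 594) (leaf 2 595 599))))))))) (merge (node 661 (merge (leaf 0 625 660) (node 629 (merge (leaf 0 626 662) (node 630 (merge (leaf 3 594 594) (node 599 (merge (leaf 2 595 598) (node 631 (merge (leaf 3 595 596) (leaf 2 596 600))))))))))) (node 597 (merge (leaf 2 593 596) (node 629 (merge (leaf 2 594 598) (node 594 (merge (leaf 3 594 630) (node 562 (merge (leaf 0 559 561) (node 530 (merge (leaf 4 498 498) (node 531 (merge (leaf 6 498 499) (node 563 (merge (leaf 6 530 658) (leaf 4 531 660)))))))))))))))))))) (merge (node 628 (merge (node 661 (merge (leaf 0 625 660) (node 629 (merge (leaf 0 626 662) (node 597 (merge (leaf 2 593 596) (leaf 2 594 598))))))) (merge (node 661 (merge (leaf 0 625 660) (node 629 (merge (leaf 0 626 662) (node 598 (merge (leaf 2 594 597) (node 630 (merge (leaf 3 594 594) (leaf 2 595 599))))))))) (merge (node 661 (merge (leaf 0 625 660) (node 629 (merge (leaf 0 626 662) (node 630 (merge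 (leaf 3 594 594) (node 599 (merge (leaf 2 595 598) (node 631 (merge (leaf 3 595 596) (leaf 2 596 600))))))))))) (merge (node 597 (merge (leaf 2 593 596) (node 629 (merge (leaf 2 594 598) (node 662 (merge (leaf 0 626 661) (node 630 (merge (leaf 3 594 594) (leaf 0 627 663))))))))) (merge (node 597 (merge (leaf 2 593 596) (node 629 (merge (leaf 2 594 598) (node 630 (merge (leaf 3 594 594) (node 663 (merge (leaf 0 627 662) (node 631 (merge (leaf 0 628 664) (node 659 (merge (leaf 1 626 658) (leaf 1 627 660))))))))))))) (node 660 (merge (leaf 0 625 661) (node 692 (merge (leaf 7 595 724) (node 596 (merge (leaf 2 593 597) (node 693 (merge (leaf 4 596 725) (node 691 (merge (leaf 5 595 723) (node 659 (merge (leaf 6 563 564) (node 694 (merge (leaf 3 658 658) (leaf 3 659 695))))))))))))))))))))) (node 563 (merge (node 531 (merge (leaf 5 530 658) (node 532 (merge (leaf 6 499 500) (node 659 (merge (leaf 6 531 564) (node 562 (merge (leaf 7 530 530) (leaf 2 528 561))))))))) (merge (node 562 (merge (node 561 (merge (leaf 1 559 591) (leaf 0 560 596))) (node 659 (merge (leaf 7 530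 530) (node 691 (merge (leaf 7 562 594) (node 690 (merge (leaf 5 562 658) (leaf 5 594 722))))))))) (merge (node 659 (merge (node 562 (merge (leaf 7 530 530) (node 561 (merge (leaf 3 527 527) (leaf 1 559 591))))) (node 564 (merge (leaf 6 531 532) (node 691 (merge (leaf 6 563 596) (node 723 (merge (leaf 7 594 594) (node 722 (merge (leaf 5 594 690) (leaf 5 626 754))))))))))) (merge (node 531 (merge (leaf 5 530 658) (node 500 (merge (leaf 6 499 532) (node 499 (merge (leaf 6 467 468) (leaf 5 498 594))))))) (node 531 (merge (leaf 5 530 658) (node 500 (merge (leaf 6 499 532) (node 499 (merge (leaf 6 467 468) (leaf 5 498 594)))))))))))))))))))))))))))))) nP_24 cP_24 13 (by decide +kernel)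
def nP_25 : ℕ := 0x2000000010000000100000001000000000000000000000000000000000000000000000000000000000000000000000000000000000000000000000000000000000000000000000000000000000000
def cP_25 : ℕ := 0x68000003f800000ffc00001fd700000fdf80001fef800001ef000001cf800001ef000001ee000000ae00000000000000000000000000000000000000000000000000000000000000000000000000000000000000000000000000000000000
theorem lP_25 : S nP_25 cP_25 14 := S_of_chk [(nP_24, cP_24, 13)] ⟨lP_24, trivial⟩ (node 559 (merge (node 527 (merge (node 495 (merge (leaf 4 463 463) (leaf 7 495 624))) (merge (node 591 (merge (node 526 (merge (node 561 (merge (leaf 0 525 525) (leaf 3 526 562))) (node 494 (merge (leaf 7 494 623) (node 462 (merge (leaf 4 430 430) (leaf 4 462 558))))))) (merge (node 495 (merge (leaf 4 463 463) (node 494 (merge (leaf 7 462 462) (node 623 (merge (leaf 7 494 526) (node 622 (merge (leaf 5 494 590) (leaf 5 526 654))))))))) (node 495 (merge (leaf 4 463 463) (node 590 (merge (leaf 5 494 622) (node 593 (merge (leaf 0 590 626) (node 562 (merge (leaf 1 558 561) (node 594 (merge (leaf 3 558 558)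 (leaf 2 559 563)))))))))))))) (node 591 (merge (node 526 (merge (node 561 (merge (leaf 0 525 525) (leaf 3 526 562))) (node 494 (merge (leaf 7 494 623) (node 462 (merge (leaf 4 430 430) (leaf 4 462 558))))))) (merge (node 624 (merge (leaf 7 527 656) (node 626 (merge (leaf 3 591 627) (node 593 (merge (leaf 0 590 590) (node 594 (merge (leaf 3 558 558) (leaf 3 559 595))))))))) (node 624 (merge (leaf 7 527 656) (node 626 (merge (leaf 3 591 627) (node 590 (merge (leaf 0 590 593) (leaf 3 590 623))))))))))))) (merge (node 558 (merge (node 593 (merge (leaf 0 557 557) (node 594 (merge (leaf 3 558 591) (leaf 3 559 595))))) (merge (node 557 (merge (leaf 0 557 593) (node 588 (merge (leaf 1 556 589) (node 556 (merge (leaf 2 524 527) (leaf 1 555 587))))))) (merge (node 557 (merge (node 556 (merge (leaf 2 524 527) (leaf 0 556 591))) (node 589 (merge (leaf 1 556 588) (node 590 (merge (leaf 1 557 561) (node 525 (merge (leaf 3 524 524) (node 622 (merge (leaf 4 493 493) (leaf 7 525 654))))))))))) (node 561 (merge (node 594 (merge (leaf 0 558 593) (node 562 (merge (leaf 0 559 595) (node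 563 (merge (leaf 3 527 527) (leaf 1 559 591))))))) (merge (node 590 (merge (leaf 1 557 589) (node 562 (merge (leaf 1 558 591) (node 531 (merge (leaf 2 527 530) (node 563 (merge (leaf 3 527 527) (leaf 2 528 532))))))))) (merge (node 594 (merge (leaf 0 558 593) (node 562 (merge (leaf 0 559 595) (node 590 (merge (leaf 1 557 589) (leaf 1 558 591))))))) (merge (node 594 (merge (leaf 0 558 593) (node 562 (merge (leaf 0 559 595) (node 531 (merge (leaf 2 527 530) (node 563 (merge (leaf 3 527 527) (leaf 2 528 532))))))))) (node 593 (merge (leaf 0 558 594) (node 590 (merge (leaf 1 557 589) (node 591 (merge (leaf 0 590 626) (node 622 (merge (leaf 1 589 621) (node 654 (merge (leaf 6 526 527) (leaf 6 558 686)))))))))))))))))))) (merge (node 527 (merge (node 495 (merge (leaf 4 463 463) (leaf 7 495 624))) (merge (node 558 (merge (node 557 (merge (leaf 2 524 556) (leaf 0 557 593))) (node 590 (merge (node 561 (merge (leaf 1 557 589) (node 562 (merge (leaf 3 526 526) (leaf 1 558 591))))) (merge (node 495 (merge (leaf 4 463 463) (node 622 (merge (leaf 5 494 591) (node 558 (merge (leaf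 6 494 526) (leaf 6 526 654))))))) (merge (node 561 (merge (leaf 1 557 589) (node 562 (merge (leaf 3 526 526) (leaf 1 558 591))))) (merge (node 622 (merge (leaf 6 526 654) (node 495 (merge (leaf 4 463 463) (leaf 6 494 526))))) (node 495 (merge (leaf 4 463 463) (node 591 (merge (leaf 5 494 622) (node 589 (merge (leaf 2 557 561) (leaf 2 556 588)))))))))))))) (node 591 (merge (node 624 (merge (leaf 7 527 656) (node 590 (merge (leaf 0 589 589) (node 626 (merge (leaf 0 590 593) (leaf 3 591 627))))))) (node 526 (merge (node 561 (merge (leaf 0 525 525) (leaf 3 526 562))) (node 494 (merge (leaf 7 494 623) (node 462 (merge (leaf 4 430 430) (leaf 4 462 558)))))))))))) (merge (node 558 (merge (node 593 (merge (leaf 0 557 557) (node 594 (merge (leaf 3 558 591) (leaf 3 559 595))))) (merge (node 527 (merge (node 624 (merge (leaf 7 495 495) (leaf 7 527 656))) (node 557 (merge (leaf 2 524 556) (node 589 (merge (leaf 1 556 588) (node 561 (merge (leaf 1 557 590) (node 562 (merge (leaf 3 526 526) (leaf 3 527 563))))))))))) (node 561 (merge (node 594 (merge (leaf 0 558 593) (node 562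 (merge (leaf 0 559 595) (node 563 (merge (leaf 3 527 527) (leaf 1 559 591))))))) (merge (node 590 (merge (leaf 1 557 589) (node 562 (merge (leaf 1 558 591) (node 531 (merge (leaf 2 527 530) (node 563 (merge (leaf 3 527 527) (leaf 2 528 532))))))))) (merge (node 594 (merge (leaf 0 558 593) (node 562 (merge (leaf 0 559 595) (node 590 (merge (leaf 1 557 589) (leaf 1 558 591))))))) (merge (node 594 (merge (leaf 0 558 593) (node 562 (merge (leaf 0 559 595) (node 531 (merge (leaf 2 527 530) (node 563 (merge (leaf 3 527 527) (leaf 2 528 532))))))))) (node 593 (merge (leaf 0 558 594) (node 590 (merge (leaf 1 557 589) (node 591 (merge (leaf 0 590 626) (node 622 (merge (leaf 1 589 621) (node 654 (merge (leaf 6 526 527) (leaf 6 558 686))))))))))))))))))) (merge (node 527 (merge (node 495 (merge (leaf 4 463 463) (leaf 7 495 624))) (merge (node 558 (merge (node 557 (merge (leaf 2 524 556) (leaf 0 557 593))) (node 526 (merge (node 525 (merge (leaf 0 524 524) (leaf 0 525 561))) (merge (node 561 (merge (leaf 3 526 562) (node 590 (merge (leaf 1 557 589) (node 495 (merge (leaf 4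 463 463) (leaf 6 494 622))))))) (node 525 (merge (leaf 0 524 524) (node 493 (merge (leaf 3 492 492) (node 590 (merge (leaf 7 493 622) (node 461 (merge (leaf 4 429 429) (leaf 7 461 494)))))))))))))) (node 558 (merge (node 557 (merge (leaf 2 524 556) (leaf 0 557 593))) (merge (node 557 (merge (leaf 2 524 556) (node 589 (merge (leaf 1 556 588) (node 561 (merge (leaf 1 557 590) (node 562 (merge (leaf 3 526 526) (leaf 3 527 563))))))))) (node 526 (merge (node 525 (merge (leaf 0 524 524) (leaf 0 525 561))) (merge (node 525 (merge (leaf 0 524 524) (node 493 (merge (leaf 3 492 492) (node 590 (merge (leaf 7 493 622) (node 461 (merge (leaf 4 429 429) (leaf 7 461 494))))))))) (node 624 (merge (leaf 7 527 656) (node 561 (merge (leaf 3 526 562) (node 593 (merge (leaf 0 558 594) (node 590 (merge (leaf 1 557 589) (node 622 (merge (leaf 6 526 654) (node 621 (merge (leaf 2 589 623) (leaf 5 525 653)))))))))))))))))))))) (merge (node 527 (merge (node 495 (merge (leaf 4 463 463) (leaf 7 495 624))) (merge (node 591 (merge (node 495 (merge (leaf 4 463 463) (node 494 (merge (leaf 7 462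 462) (node 623 (merge (leaf 7 494 526) (node 622 (merge (leaf 5 494 590) (leaf 5 526 654))))))))) (merge (node 593 (merge (node 594 (merge (leaf 3 558 558) (leaf 3 559 595))) (merge (node 590 (merge (leaf 0 590 626) (node 621 (merge (leaf 1 589 622) (node 589 (merge (leaf 2 556 588) (leaf 1 588 620))))))) (node 590 (merge (leaf 0 590 626) (node 557 (merge (leaf 3 557 558) (node 589 (merge (leaf 3 556 556) (node 620 (merge (leaf 1 588 621) (node 588 (merge (leaf 2 556 559) (leaf 1 587 619)))))))))))))) (node 495 (merge (leaf 4 463 463) (node 494 (merge (leaf 7 462 462) (node 526 (merge (leaf 7 494 623) (node 525 (merge (leaf 0 524 524) (node 557 (merge (leaf 1 524 556) (node 589 (merge (leaf 6 493 621) (node 558 (merge (leaf 1 556 588) (leaf 0 557 593)))))))))))))))))) (node 624 (merge (leaf 7 527 656) (node 591 (merge (node 626 (merge (leaf 3 591 627) (node 590 (merge (leaf 0 589 589) (leaf 0 590 593))))) (merge (node 626 (merge (leaf 3 591 627) (node 593 (merge (leaf 0 590 590) (node 594 (merge (leaf 3 558 558) (leaf 3 559 595))))))) (merge (node 526 (merge (node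 494 (merge (leaf 7 494 623) (node 462 (merge (leaf 4 430 430) (leaf 4 462 558))))) (merge (node 623 (merge (leaf 7 494 494) (node 622 (merge (leaf 5 526 654) (node 593 (merge (leaf 1 590 594) (leaf 2 589 621))))))) (merge (node 525 (merge (leaf 0 524 524) (node 557 (merge (leaf 1 524 556) (node 558 (merge (leaf 0 557 593) (node 589 (merge (leaf 1 556 588) (node 621 (merge (leaf 6 493 494) (leaf 6 525 653))))))))))) (node 525 (merge (leaf 0 524 524) (node 557 (merge (leaf 1 524 556) (node 558 (merge (leaf 0 557 593) (node 589 (merge (leaf 1 556 588) (node 621 (merge (leaf 6 525 653) (node 622 (merge (leaf 4 525 654) (node 620 (merge (leaf 2 588 623) (leaf 5 524 652))))))))))))))))))) (node 590 (merge (leaf 0 589 589) (node 626 (merge (leaf 3 590 623) (leaf 3 591 627)))))))))))))) (merge (node 527 (merge (node 495 (merge (leaf 4 463 463) (leaf 7 495 624))) (merge (node 591 (merge (node 495 (merge (leaf 4 463 463) (node 494 (merge (leaf 7 462 462) (node 526 (merge (leaf 7 494 623) (node 561 (merge (leaf 0 525 525) (leaf 3 526 562))))))))) (merge (node 495 (merge (leaf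 4 463 463) (node 494 (merge (leaf 7 462 462) (node 623 (merge (leaf 7 494 526) (node 622 (merge (leaf 5 494 590) (leaf 5 526 654))))))))) (node 590 (merge (node 589 (merge (leaf 2 557 561) (leaf 2 556 588))) (merge (node 562 (merge (leaf 1 558 561) (node 593 (merge (leaf 0 590 626) (node 594 (merge (leaf 2 559 563) (leaf 3 559 595))))))) (node 593 (merge (leaf 0 590 626) (node 621 (merge (leaf 1 589 622) (node 589 (merge (leaf 2 556 588) (leaf 1 588 620))))))))))))) (node 591 (merge (node 624 (merge (leaf 7 527 656) (node 590 (merge (leaf 0 589 589) (node 626 (merge (leaf 0 590 593) (leaf 3 591 627))))))) (merge (node 590 (merge (node 589 (merge (leaf 2 557 561) (leaf 2 556 588))) (merge (node 562 (merge (leaf 1 558 561) (node 593 (merge (leaf 0 590 626) (node 594 (merge (leaf 2 559 563) (leaf 3 559 595))))))) (node 593 (merge (leaf 0 590 626) (node 621 (merge (leaf 1 589 622) (node 589 (merge (leaf 2 556 588) (leaf 1 588 620)))))))))) (merge (node 590 (merge (node 589 (merge (leaf 2 557 561) (leaf 2 556 588))) (merge (node 624 (merge (leaf 7 527 656) (node 626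 (merge (leaf 3 590 623) (leaf 3 591 627))))) (node 589 (merge (leaf 0 589 624) (node 620 (merge (leaf 1 588 621) (node 588 (merge (leaf 2 556 559) (leaf 1 587 619)))))))))) (merge (node 624 (merge (leaf 7 527 656) (node 590 (merge (leaf 0 589 589) (node 561 (merge (leaf 1 558 562) (node 526 (merge (leaf 0 525 525) (node 623 (merge (leaf 7 494 494) (node 622 (merge (leaf 5 526 654) (node 593 (merge (leaf 1 590 594) (leaf 1 589 621))))))))))))))) (node 526 (merge (node 525 (merge (leaf 0 524 524) (leaf 0 525 561))) (node 623 (merge (leaf 7 494 494) (node 624 (merge (leaf 7 527 656) (node 622 (merge (leaf 5 526 654) (node 593 (merge (leaf 1 590 594) (leaf 2 589 621))))))))))))))))))) (merge (node 558 (merge (node 527 (merge (node 624 (merge (leaf 7 495 495) (leaf 7 527 656))) (node 557 (merge (leaf 2 524 556) (node 589 (merge (leaf 1 556 588) (node 561 (merge (leaf 1 557 590) (node 562 (merge (leaf 3 526 526) (leaf 3 527 563))))))))))) (merge (node 557 (merge (node 556 (merge (leaf 2 524 527) (leaf 0 556 591))) (node 589 (merge (leaf 1 556 588) (node 525 (merge (leaf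 3 524 524) (node 526 (merge (leaf 3 525 561) (node 621 (merge (leaf 6 493 494) (leaf 6 525 653))))))))))) (merge (node 527 (merge (node 624 (merge (leaf 7 495 495) (leaf 7 527 656))) (merge (node 624 (merge (leaf 7 527 656) (node 557 (merge (leaf 2 524 556) (node 525 (merge (leaf 3 524 524) (node 526 (merge (leaf 0 525 561) (node 493 (merge (leaf 3 492 492) (node 590 (merge (leaf 4 461 461) (leaf 7 493 622))))))))))))) (node 557 (merge (leaf 2 524 556) (node 525 (merge (leaf 3 524 524) (node 526 (merge (leaf 0 525 561) (node 493 (merge (leaf 3 492 492) (node 590 (merge (leaf 4 461 461) (leaf 7 493 622)))))))))))))) (merge (node 557 (merge (node 556 (merge (leaf 2 524 527) (leaf 0 556 591))) (node 589 (merge (leaf 1 556 588) (node 590 (merge (leaf 1 557 561) (node 525 (merge (leaf 3 524 524) (node 622 (merge (leaf 4 493 493) (leaf 7 525 654))))))))))) (merge (node 527 (merge (node 624 (merge (leaf 7 495 495) (leaf 7 527 656))) (merge (node 590 (merge (node 622 (merge (leaf 6 526 654) (node 495 (merge (leaf 4 463 463) (leaf 5 494 591))))) (merge (node 622 (merge (leaf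 6 526 654) (node 557 (merge (leaf 2 524 556) (node 525 (merge (leaf 3 524 524) (node 493 (merge (leaf 4 461 461) (leaf 4 493 589))))))))) (node 557 (merge (leaf 2 524 556) (node 525 (merge (leaf 3 524 524) (node 493 (merge (leaf 4 461 461) (node 492 (merge (leaf 3 492 526) (node 495 (merge (leaf 4 463 463) (leaf 0 492 494)))))))))))))) (node 624 (merge (leaf 7 527 656) (node 557 (merge (leaf 2 524 556) (node 589 (merge (leaf 1 556 588) (node 590 (merge (leaf 0 589 591) (node 622 (merge (leaf 6 526 654) (node 525 (merge (leaf 4 493 493) (leaf 3 524 524)))))))))))))))) (merge (node 561 (merge (node 589 (merge (leaf 1 557 590) (node 557 (merge (leaf 1 556 588) (node 525 (merge (leaf 3 524 524) (leaf 3 525 526))))))) (merge (node 590 (merge (leaf 1 557 589) (node 562 (merge (leaf 1 558 591) (node 595 (merge (leaf 0 559 594) (node 563 (merge (leaf 0 560 596) (node 531 (merge (leaf 2 527 530) (leaf 2 528 532))))))))))) (merge (node 525 (merge (leaf 3 525 526) (node 557 (merge (leaf 3 524 524) (node 591 (merge (leaf 0 556 556) (node 562 (merge (leaf 1 559 563) (leaf 1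 558 590))))))))) (node 525 (merge (leaf 3 525 526) (node 557 (merge (leaf 3 524 524) (node 556 (merge (leaf 0 556 591) (node 588 (merge (leaf 1 555 587) (leaf 1 556 589))))))))))))) (node 590 (merge (node 589 (merge (leaf 1 557 561) (node 588 (merge (leaf 2 555 587) (leaf 2 556 591))))) (merge (node 561 (merge (leaf 1 557 589) (node 526 (merge (leaf 3 525 525) (node 527 (merge (leaf 3 526 562) (node 622 (merge (leaf 6 494 495) (leaf 6 526 654))))))))) (merge (node 624 (merge (node 527 (merge (leaf 7 495 495) (leaf 7 527 656))) (merge (node 591 (merge (leaf 0 589 589) (node 626 (merge (leaf 3 590 623) (leaf 3 591 627))))) (node 591 (merge (leaf 0 589 589) (node 626 (merge (leaf 3 590 623) (leaf 3 591 627)))))))) (node 526 (merge (node 525 (merge (leaf 3 525 561) (node 524 (merge (leaf 0 523 523) (leaf 0 524 527))))) (merge (node 495 (merge (node 527 (merge (leaf 6 494 622) (leaf 7 495 624))) (node 494 (merge (leaf 6 462 463) (node 591 (merge (leaf 4 462 462) (leaf 4 494 623))))))) (node 561 (merge (leaf 3 525 525) (node 562 (merge (leaf 1 558 591) (node 595 (merge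 (leaf 0 559 594) (node 563 (merge (leaf 0 560 596) (node 531 (merge (leaf 2 527 530) (leaf 2 528 532))))))))))))))))))))))))) (merge (node 561 (merge (node 562 (merge (node 591 (merge (leaf 1 559 563) (node 590 (merge (leaf 2 557 589) (leaf 2 558 593))))) (merge (node 591 (merge (leaf 1 558 590) (node 563 (merge (leaf 1 559 592) (node 531 (merge (leaf 2 527 530) (leaf 2 528 532))))))) (merge (node 531 (merge (leaf 2 527 530) (node 563 (merge (leaf 2 528 532) (node 593 (merge (leaf 1 560 564) (node 558 (merge (leaf 0 557 557) (leaf 0 558 594))))))))) (node 590 (merge (leaf 1 558 591) (node 558 (merge (leaf 1 557 589) (node 593 (merge (leaf 0 557 557) (leaf 0 558 594))))))))))) (merge (node 590 (merge (node 589 (merge (leaf 1 557 558) (leaf 2 557 591))) (merge (node 558 (merge (leaf 1 557 589) (node 525 (merge (leaf 3 525 526) (node 557 (merge (leaf 3 524 524) (leaf 0 557 593))))))) (node 562 (merge (leaf 1 558 591) (node 531 (merge (leaf 2 527 530) (node 563 (merge (leaf 2 528 532) (node 596 (merge (leaf 0 560 595) (node 564 (merge (leaf 1 560 593) (leaf 0 561 597))))))))))))))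 (merge (node 562 (merge (node 595 (merge (leaf 0 559 594) (node 563 (merge (leaf 0 560 596) (node 531 (merge (leaf 2 527 530) (leaf 2 528 532))))))) (merge (node 594 (merge (leaf 0 559 595) (node 558 (merge (leaf 0 558 593) (node 589 (merge (leaf 1 557 590) (node 557 (merge (leaf 1 556 588) (node 525 (merge (leaf 3 524 524) (leaf 3 525 526))))))))))) (merge (node 531 (merge (leaf 2 527 530) (node 563 (merge (leaf 2 528 532) (node 593 (merge (leaf 1 560 564) (node 558 (merge (leaf 0 557 557) (leaf 0 558 594))))))))) (node 531 (merge (leaf 2 527 530) (node 563 (merge (leaf 2 528 532) (node 596 (merge (leaf 0 560 595) (node 564 (merge (leaf 1 560 593) (leaf 0 561 597))))))))))))) (merge (node 558 (merge (node 589 (merge (leaf 1 557 590) (node 557 (merge (leaf 1 556 588) (node 525 (merge (leaf 3 524 524) (leaf 3 525 526))))))) (merge (node 590 (merge (leaf 1 557 589) (node 562 (merge (leaf 1 558 591) (node 595 (merge (leaf 0 559 594) (node 563 (merge (leaf 0 560 596) (node 531 (merge (leaf 2 527 530) (leaf 2 528 532))))))))))) (merge (node 525 (merge (leaf 3 525 526)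 (node 557 (merge (leaf 3 524 524) (node 591 (merge (leaf 0 556 556) (node 562 (merge (leaf 1 559 563) (leaf 1 558 590))))))))) (node 525 (merge (leaf 3 525 526) (node 557 (merge (leaf 3 524 524) (node 556 (merge (leaf 0 556 591) (node 588 (merge (leaf 1 555 587) (leaf 1 556 589))))))))))))) (merge (node 558 (merge (node 593 (merge (leaf 0 557 557) (node 594 (merge (leaf 0 558 561) (leaf 3 559 595))))) (merge (node 589 (merge (leaf 1 557 590) (node 557 (merge (leaf 1 556 588) (node 525 (merge (leaf 3 524 524) (leaf 3 525 526))))))) (node 593 (merge (leaf 0 558 594) (node 590 (merge (leaf 1 557 589) (node 591 (merge (leaf 0 590 626) (node 526 (merge (leaf 3 525 525) (node 494 (merge (leaf 4 462 462) (leaf 4 494 623)))))))))))))) (node 562 (merge (node 563 (merge (leaf 1 559 591) (node 595 (merge (leaf 0 559 594) (leaf 0 560 596))))) (merge (node 594 (merge (leaf 0 559 595) (node 530 (merge (leaf 2 527 531) (node 498 (merge (leaf 5 497 593) (node 467 (merge (leaf 6 466 499) (node 466 (merge (leaf 6 434 435) (node 465 (merge (leaf 7 433 433) (leaf 7 465 497)))))))))))))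 (node 563 (merge (leaf 1 559 591) (node 531 (merge (leaf 2 527 530) (leaf 2 528 532)))))))))))))) (hyp 0))))))))))) nP_25 cP_25 14 (by decide +kernel)
def nP_26 : ℕ := 0x100000001000000000000000000000000000000000000000000000000000000000000000000000000000000000000000000000000000000000000000000000000000000000000
def cP_26 : ℕ := 0x6a000003fe00000fff00001fff00000fff80001fff800001ef800001cf800001ff000001ef000000af00000000000000000000000000000000000000000000000000000000000000000000000000000000000000000000000000000000000
theorem lP_26 : S nP_26 cP_26 16 := S_of_chk [(nP_25, cP_25, 14)] ⟨lP_25, trivial⟩ (node 592 (merge (node 624 (merge (node 657 (merge (leaf 4 528 625) (node 656 (merge (leaf 4 560 689) (node 655 (merge (leaf 5 527 623) (leaf 5 559 687))))))) (merge (node 495 (merge (leaf 7 495 527) (node 623 (merge (leaf 5 527 655) (node 496 (merge (leaf 7 463 463) (leaf 5 495 591))))))) (node 527 (merge (leaf 7 495 495) (node 656 (merge (leaf 7 527 559) (node 657 (merge (leaf 4 528 625) (leaf 4 560 689)))))))))) (merge (node 591 (merge (node 623 (merge (leaf 5 495 496)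 (node 655 (merge (leaf 6 527 559) (leaf 6 559 687))))) (merge (node 593 (merge (node 625 (merge (leaf 4 496 496) (node 657 (merge (leaf 7 528 561) (leaf 7 560 689))))) (merge (node 623 (merge (leaf 5 495 496) (node 622 (merge (leaf 1 590 594) (node 621 (merge (leaf 1 589 590) (leaf 2 588 620))))))) (node 625 (merge (node 657 (merge (leaf 7 528 561) (leaf 7 560 689))) (node 590 (merge (leaf 0 590 626) (node 621 (merge (leaf 1 589 622) (node 589 (merge (leaf 1 588 620) (node 557 (merge (leaf 3 556 556) (leaf 3 557 558)))))))))))))) (merge (node 593 (merge (node 625 (merge (leaf 4 496 496) (node 657 (merge (leaf 7 528 561) (leaf 7 560 689))))) (merge (node 625 (merge (leaf 4 496 496) (node 626 (merge (leaf 0 590 590) (node 627 (merge (leaf 0 591 594) (leaf 3 592 628))))))) (node 590 (merge (node 561 (merge (leaf 2 558 562) (leaf 2 557 589))) (merge (node 621 (merge (leaf 1 589 622) (node 589 (merge (leaf 1 588 620) (node 557 (merge (leaf 3 556 556) (leaf 3 557 558))))))) (node 558 (merge (leaf 3 557 557) (node 594 (merge (leaf 3 558 559) (node 562 (merge (leaf 2 558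 561) (leaf 2 559 563))))))))))))) (node 590 (merge (node 561 (merge (leaf 2 557 589) (node 562 (merge (leaf 1 559 563) (leaf 2 558 593))))) (merge (node 589 (merge (leaf 2 557 561) (node 620 (merge (leaf 1 588 621) (node 588 (merge (leaf 2 556 559) (leaf 1 587 619))))))) (merge (node 593 (merge (node 625 (merge (leaf 0 590 626) (node 561 (merge (leaf 2 558 562) (leaf 7 528 657))))) (merge (node 558 (merge (leaf 3 557 557) (node 594 (merge (leaf 3 558 559) (node 562 (merge (leaf 2 558 561) (leaf 2 559 563))))))) (node 626 (merge (leaf 0 590 625) (node 594 (merge (leaf 0 591 627) (node 622 (merge (leaf 1 589 621) (leaf 1 590 623)))))))))) (node 557 (merge (node 556 (merge (leaf 3 556 589) (node 558 (merge (leaf 0 555 555) (leaf 3 557 593))))) (merge (node 589 (merge (leaf 3 556 556) (node 620 (merge (leaf 1 588 621) (node 588 (merge (leaf 2 556 559) (leaf 1 587 619))))))) (node 593 (merge (leaf 3 557 558) (node 622 (merge (leaf 1 589 621) (node 623 (merge (leaf 1 590 594) (node 655 (merge (leaf 6 527 559) (leaf 6 559 687)))))))))))))))))))) (merge (node 624 (merge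 (node 527 (merge (leaf 7 495 495) (node 656 (merge (leaf 7 527 559) (node 657 (merge (leaf 4 528 625) (leaf 4 560 689))))))) (merge (node 527 (merge (leaf 7 495 495) (node 656 (merge (leaf 7 527 559) (node 655 (merge (leaf 5 527 623) (leaf 5 559 687))))))) (node 625 (merge (leaf 4 528 657) (node 623 (merge (leaf 5 527 655) (node 622 (merge (node 653 (merge (leaf 1 621 654) (node 621 (merge (leaf 1 620 652) (node 593 (merge (leaf 2 589 592) (leaf 2 590 594))))))) (merge (node 594 (merge (leaf 2 590 593) (node 626 (merge (leaf 2 591 595) (node 590 (merge (leaf 3 589 589) (leaf 3 590 591))))))) (node 653 (merge (leaf 1 621 654) (node 621 (merge (leaf 1 620 652) (node 589 (merge (leaf 3 588 588) (leaf 3 589 590))))))))))))))))) (merge (node 625 (merge (node 593 (merge (leaf 4 496 496) (node 657 (merge (leaf 7 528 561) (leaf 7 560 689))))) (merge (node 496 (merge (leaf 4 496 593) (node 623 (merge (leaf 5 495 591) (node 624 (merge (leaf 5 527 655) (node 495 (merge (leaf 7 463 463) (leaf 7 495 527))))))))) (node 624 (merge (leaf 4 528 657) (node 623 (merge (leaf 5 527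 655) (node 622 (merge (node 653 (merge (leaf 1 621 654) (node 621 (merge (leaf 1 620 652) (node 589 (merge (leaf 3 588 588) (leaf 3 589 590))))))) (merge (node 590 (merge (leaf 3 589 589) (node 626 (merge (leaf 3 590 591) (node 659 (merge (leaf 0 623 658) (node 627 (merge (leaf 0 624 660) (node 595 (merge (leaf 2 591 594) (leaf 2 592 596))))))))))) (merge (node 653 (merge (leaf 1 621 654) (node 621 (merge (leaf 1 620 652) (node 591 (merge (leaf 2 588 620) (node 626 (merge (leaf 3 590 590) (leaf 3 591 627))))))))) (node 653 (merge (leaf 1 621 654) (node 621 (merge (leaf 1 620 652) (node 620 (merge (leaf 2 588 591) (node 588 (merge (leaf 3 587 587) (leaf 3 588 589)))))))))))))))))))) (merge (node 624 (merge (node 495 (merge (leaf 7 495 527) (node 625 (merge (leaf 4 528 657) (node 496 (merge (leaf 7 463 463) (leaf 4 496 593))))))) (merge (node 656 (merge (node 657 (merge (leaf 4 528 625) (leaf 4 560 689))) (merge (node 689 (merge (leaf 4 560 657) (node 688 (merge (leaf 4 592 721) (node 687 (merge (leaf 5 559 655) (leaf 5 591 719))))))) (merge (node 625 (merge (leaf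 4 528 657) (node 687 (merge (leaf 5 559 655) (node 688 (merge (leaf 5 591 719) (node 593 (merge (leaf 6 560 561) (leaf 6 592 720))))))))) (node 687 (merge (leaf 5 559 655) (node 688 (merge (leaf 5 591 719) (node 593 (merge (leaf 6 560 561) (node 720 (merge (leaf 6 592 625) (node 721 (merge (leaf 4 592 689) (leaf 4 624 753))))))))))))))) (merge (node 527 (merge (leaf 7 495 495) (node 656 (merge (leaf 7 527 559) (node 687 (merge (leaf 5 559 655) (node 688 (merge (leaf 5 591 719) (node 593 (merge (leaf 6 560 561) (node 720 (merge (leaf 6 592 625) (node 721 (merge (leaf 4 592 689) (leaf 4 624 753))))))))))))))) (node 527 (merge (leaf 7 495 495) (node 656 (merge (leaf 7 527 559) (node 689 (merge (leaf 4 560 657) (node 688 (merge (leaf 4 592 721) (node 687 (merge (leaf 5 559 655) (leaf 5 591 719))))))))))))))) (merge (node 591 (merge (node 623 (merge (leaf 5 495 496) (node 655 (merge (leaf 6 527 559) (leaf 6 559 687))))) (merge (node 623 (merge (leaf 5 495 496) (node 655 (merge (leaf 5 527 624) (leaf 6 559 687))))) (merge (node 593 (merge (node 590 (merge (node 561 (merge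 (leaf 2 558 562) (leaf 2 557 589))) (merge (node 621 (merge (leaf 1 589 622) (node 589 (merge (leaf 1 588 620) (node 557 (merge (leaf 3 556 556) (leaf 3 557 558))))))) (node 558 (merge (leaf 3 557 557) (node 594 (merge (leaf 3 558 559) (node 562 (merge (leaf 2 558 561) (leaf 2 559 563)))))))))) (node 496 (merge (leaf 4 496 625) (node 497 (merge (leaf 6 464 465) (node 495 (merge (leaf 7 463 463) (node 527 (merge (leaf 7 495 624) (node 498 (merge (leaf 1 495 499) (leaf 1 494 526))))))))))))) (node 590 (merge (node 561 (merge (leaf 2 557 589) (node 562 (merge (leaf 1 558 559) (leaf 1 559 563))))) (merge (node 589 (merge (leaf 2 557 561) (node 620 (merge (leaf 1 588 621) (node 588 (merge (leaf 1 587 619) (node 556 (merge (leaf 3 555 555) (leaf 3 556 557))))))))) (merge (node 589 (merge (node 620 (merge (leaf 1 588 621) (node 588 (merge (leaf 2 556 559) (leaf 1 587 619))))) (merge (node 621 (merge (leaf 1 588 620) (node 593 (merge (leaf 1 589 622) (node 557 (merge (leaf 3 556 556) (leaf 3 557 558))))))) (merge (node 588 (merge (leaf 2 556 559) (node 556 (merge (leaf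 3 555 555) (leaf 3 556 557))))) (node 557 (merge (leaf 3 556 556) (node 593 (merge (leaf 3 557 558) (node 622 (merge (leaf 1 589 621) (node 594 (merge (leaf 1 590 623) (node 563 (merge (leaf 2 559 562) (node 595 (merge (leaf 3 559 559) (leaf 2 560 564))))))))))))))))) (node 623 (merge (node 655 (merge (leaf 5 527 624) (leaf 6 559 687))) (merge (node 655 (merge (leaf 6 527 559) (leaf 6 559 687))) (node 593 (merge (node 594 (merge (leaf 1 590 622) (node 558 (merge (leaf 3 557 557) (leaf 3 558 559))))) (merge (node 558 (merge (leaf 3 557 557) (node 594 (merge (leaf 3 558 559) (node 562 (merge (leaf 2 558 561) (leaf 2 559 563))))))) (merge (node 626 (merge (leaf 0 590 625) (node 594 (merge (leaf 1 590 622) (leaf 0 591 627))))) (node 625 (merge (leaf 0 590 626) (node 622 (merge (leaf 1 589 621) (node 561 (merge (leaf 2 558 562) (node 558 (merge (leaf 3 557 557) (node 526 (merge (leaf 4 494 494) (node 559 (merge (leaf 3 525 525) (node 654 (merge (leaf 6 558 686) (node 653 (merge (leaf 1 621 624) (leaf 5 557 685)))))))))))))))))))))))))))))))) (merge (node 559 (merge (node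 623 (merge (node 591 (merge (leaf 5 495 496) (leaf 6 527 655))) (merge (node 624 (merge (leaf 5 527 655) (node 527 (merge (leaf 7 495 495) (leaf 7 527 656))))) (node 496 (merge (leaf 5 495 591) (node 497 (merge (leaf 6 464 465) (node 495 (merge (leaf 7 463 463) (node 527 (merge (leaf 7 495 624) (node 498 (merge (leaf 1 495 499) (leaf 1 494 526)))))))))))))) (merge (node 527 (merge (node 624 (merge (leaf 7 495 495) (leaf 7 527 656))) (node 561 (merge (node 526 (merge (leaf 0 525 525) (leaf 3 526 562))) (merge (node 562 (merge (leaf 3 527 563) (node 590 (merge (leaf 1 558 591) (node 558 (merge (leaf 1 557 589) (node 557 (merge (leaf 2 524 556) (leaf 0 557 593))))))))) (node 558 (merge (node 593 (merge (leaf 0 557 557) (node 594 (merge (leaf 0 558 561) (leaf 3 559 595))))) (merge (node 525 (merge (leaf 3 525 526) (node 557 (merge (leaf 3 524 524) (leaf 2 524 556))))) (node 593 (merge (leaf 0 558 594) (node 590 (merge (leaf 1 557 589) (node 622 (merge (leaf 6 526 654) (node 621 (merge (leaf 1 589 591) (node 526 (merge (leaf 3 525 525) (leaf 5 525 653)))))))))))))))))))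 (merge (node 527 (merge (node 624 (merge (leaf 7 495 495) (leaf 7 527 656))) (merge (node 593 (merge (node 594 (merge (leaf 3 559 595) (node 558 (merge (leaf 0 557 557) (leaf 0 558 561))))) (merge (node 624 (merge (leaf 7 527 656) (node 594 (merge (leaf 3 559 595) (node 623 (merge (leaf 5 527 655) (node 622 (merge (leaf 1 590 591) (leaf 2 589 621))))))))) (node 558 (merge (leaf 0 557 557) (node 624 (merge (leaf 7 527 656) (node 623 (merge (leaf 5 527 655) (node 622 (merge (leaf 2 589 621) (node 654 (merge (leaf 6 526 590) (leaf 5 526 591)))))))))))))) (node 558 (merge (node 557 (merge (leaf 2 524 556) (leaf 0 557 593))) (merge (node 557 (merge (leaf 2 524 556) (node 589 (merge (leaf 1 556 588) (node 590 (merge (leaf 1 557 561) (node 622 (merge (leaf 6 526 654) (node 495 (merge (leaf 5 462 463) (leaf 5 494 591))))))))))) (node 590 (merge (node 561 (merge (leaf 1 557 589) (node 562 (merge (leaf 3 527 563) (leaf 1 558 591))))) (merge (node 622 (merge (leaf 6 526 654) (node 495 (merge (leaf 5 462 463) (leaf 5 494 591))))) (node 561 (merge (leaf 1 557 589) (node 594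 (merge (leaf 0 558 593) (node 562 (merge (leaf 3 527 563) (leaf 0 559 595)))))))))))))))) (merge (node 527 (merge (node 624 (merge (leaf 7 495 495) (leaf 7 527 656))) (merge (node 561 (merge (node 562 (merge (leaf 3 526 526) (leaf 3 527 563))) (merge (node 562 (merge (leaf 3 527 563) (node 594 (merge (leaf 0 559 595) (node 558 (merge (leaf 0 558 593) (node 589 (merge (leaf 1 557 590) (node 557 (merge (leaf 2 524 556) (leaf 1 556 588))))))))))) (node 558 (merge (node 525 (merge (leaf 3 525 526) (node 557 (merge (leaf 3 524 524) (leaf 2 524 556))))) (merge (node 590 (merge (leaf 1 557 589) (node 622 (merge (leaf 6 526 654) (node 495 (merge (leaf 5 462 463) (leaf 6 494 526))))))) (node 557 (merge (leaf 2 524 556) (node 589 (merge (leaf 1 556 588) (node 590 (merge (leaf 1 557 561) (node 622 (merge (leaf 6 526 654) (node 525 (merge (leaf 4 493 493) (leaf 3 524 524))))))))))))))))) (node 558 (merge (node 557 (merge (leaf 2 524 556) (leaf 0 557 593))) (merge (node 557 (merge (leaf 2 524 556) (node 589 (merge (leaf 1 556 588) (node 561 (merge (leaf 1 557 590) (node 525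 (merge (leaf 3 524 524) (leaf 3 525 526))))))))) (node 561 (merge (node 562 (merge (leaf 3 526 526) (leaf 3 527 563))) (node 593 (merge (leaf 0 558 594) (node 590 (merge (leaf 1 557 589) (node 622 (merge (leaf 6 526 654) (node 624 (merge (leaf 7 527 656) (node 623 (merge (leaf 2 589 621) (leaf 5 527 655))))))))))))))))))) (merge (node 561 (merge (node 591 (merge (node 590 (merge (leaf 1 558 562) (leaf 2 557 589))) (node 623 (merge (leaf 5 495 496) (leaf 6 527 655))))) (merge (node 562 (merge (node 595 (merge (leaf 0 559 594) (node 563 (merge (leaf 0 560 596) (node 531 (merge (leaf 2 527 530) (leaf 2 528 532))))))) (node 591 (merge (leaf 1 558 590) (node 623 (merge (leaf 5 495 496) (leaf 6 527 655))))))) (merge (node 562 (merge (node 595 (merge (leaf 0 559 594) (node 563 (merge (leaf 0 560 596) (node 531 (merge (leaf 2 527 530) (leaf 2 528 532))))))) (merge (node 594 (merge (leaf 0 559 595) (node 558 (merge (leaf 0 558 593) (node 589 (merge (leaf 1 557 590) (node 557 (merge (leaf 1 556 588) (node 525 (merge (leaf 3 524 524) (leaf 3 525 526))))))))))) (merge (node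 531 (merge (leaf 2 527 530) (node 563 (merge (leaf 2 528 532) (node 593 (merge (leaf 1 560 564) (node 558 (merge (leaf 0 557 557) (leaf 0 558 594))))))))) (node 531 (merge (leaf 2 527 530) (node 563 (merge (leaf 2 528 532) (node 564 (merge (leaf 1 560 593) (node 596 (merge (leaf 0 560 595) (leaf 0 561 597))))))))))))) (merge (node 562 (merge (node 563 (merge (leaf 1 559 591) (node 531 (merge (leaf 2 527 530) (leaf 2 528 532))))) (merge (node 595 (merge (leaf 0 559 594) (node 563 (merge (leaf 0 560 596) (node 531 (merge (leaf 2 527 530) (leaf 2 528 532))))))) (node 594 (merge (leaf 0 559 595) (node 558 (merge (leaf 0 558 593) (node 525 (merge (leaf 3 525 526) (node 557 (merge (leaf 3 524 524) (node 556 (merge (leaf 0 556 591) (node 588 (merge (leaf 1 555 587) (leaf 1 556 589)))))))))))))))) (node 558 (merge (node 593 (merge (leaf 0 557 557) (leaf 0 558 594))) (node 590 (merge (leaf 1 557 589) (node 526 (merge (leaf 3 525 525) (node 622 (merge (node 655 (merge (leaf 4 526 623) (node 654 (merge (leaf 4 558 687) (node 653 (merge (leaf 5 525 621) (leaf 5 557 685)))))))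 (merge (node 623 (merge (leaf 4 526 655) (node 494 (merge (leaf 4 494 591) (node 463 (merge (leaf 6 462 495) (node 462 (merge (leaf 6 430 431) (node 461 (merge (leaf 7 429 429) (leaf 7 461 493))))))))))) (merge (node 653 (merge (leaf 5 525 621) (node 654 (merge (leaf 5 557 685) (node 591 (merge (leaf 6 558 686) (node 494 (merge (leaf 4 462 462) (leaf 4 494 623))))))))) (node 653 (merge (leaf 5 525 621) (node 654 (merge (leaf 5 557 685) (node 686 (merge (leaf 6 558 591) (node 687 (merge (leaf 4 558 655) (leaf 4 590 719)))))))))))))))))))))))) (node 558 (merge (node 593 (merge (leaf 0 557 557) (node 594 (merge (leaf 0 558 561) (leaf 3 559 595))))) (merge (node 557 (merge (node 524 (merge (leaf 3 524 525) (node 556 (merge (leaf 3 523 523) (leaf 0 556 591))))) (merge (node 588 (merge (leaf 1 556 589) (node 556 (merge (leaf 2 524 527) (leaf 1 555 587))))) (node 589 (merge (leaf 1 556 588) (node 561 (merge (leaf 1 557 590) (node 525 (merge (leaf 3 524 524) (leaf 3 525 526)))))))))) (node 624 (merge (node 656 (merge (leaf 7 527 527) (node 655 (merge (leaf 5 527 623) (leaf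 5 559 687))))) (merge (node 656 (merge (leaf 7 527 527) (node 688 (merge (leaf 7 559 591) (node 689 (merge (leaf 4 560 657) (leaf 4 592 721))))))) (merge (node 655 (merge (leaf 5 527 623) (node 656 (merge (leaf 5 559 687) (node 688 (merge (leaf 7 559 591) (node 689 (merge (leaf 4 560 657) (leaf 4 592 721))))))))) (node 623 (merge (leaf 5 527 655) (node 591 (merge (leaf 5 495 496) (node 593 (merge (leaf 3 558 594) (node 622 (merge (leaf 2 589 621) (node 654 (merge (leaf 5 526 527) (node 686 (merge (leaf 6 558 590) (leaf 6 590 718)))))))))))))))))))))))))) (node 625 (merge (node 593 (merge (leaf 4 496 496) (node 657 (merge (leaf 4 528 624) (leaf 7 560 689))))) (merge (node 593 (merge (leaf 4 496 496) (node 657 (merge (leaf 7 528 561) (leaf 7 560 689))))) (merge (node 624 (merge (leaf 4 528 657) (node 527 (merge (leaf 7 495 495) (node 589 (merge (node 590 (merge (leaf 0 589 591) (node 559 (merge (leaf 7 527 656) (node 561 (merge (leaf 1 557 558) (node 562 (merge (leaf 3 526 526) (leaf 3 527 563))))))))) (merge (node 559 (merge (leaf 7 527 656) (node 561 (merge (node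 562 (merge (leaf 3 526 526) (leaf 3 527 563))) (merge (node 558 (merge (leaf 1 557 590) (node 557 (merge (leaf 2 524 556) (leaf 1 556 588))))) (node 558 (merge (leaf 1 557 590) (node 557 (merge (leaf 2 524 556) (leaf 1 556 588)))))))))) (merge (node 525 (merge (node 526 (merge (leaf 0 525 561) (node 590 (merge (leaf 0 589 591) (node 493 (merge (leaf 3 492 492) (node 622 (merge (leaf 4 493 557) (leaf 7 493 558))))))))) (merge (node 590 (merge (leaf 0 589 591) (node 622 (merge (leaf 3 589 623) (node 557 (merge (leaf 4 493 493) (node 654 (merge (leaf 7 525 558) (leaf 4 525 621))))))))) (merge (node 526 (merge (leaf 0 525 561) (node 557 (merge (leaf 1 524 556) (node 621 (merge (leaf 6 493 494) (node 493 (merge (leaf 3 492 492) (node 620 (merge (leaf 5 492 588) (leaf 5 524 652))))))))))) (merge (node 526 (merge (leaf 0 525 561) (node 590 (merge (leaf 0 589 591) (node 493 (merge (leaf 3 492 492) (node 558 (merge (leaf 7 493 622) (node 494 (merge (leaf 7 461 461) (leaf 5 493 621))))))))))) (node 526 (merge (leaf 0 525 561) (node 557 (merge (leaf 1 524 556) (node 621 (merge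 (leaf 6 493 494) (node 653 (merge (leaf 6 525 558) (node 652 (merge (leaf 5 524 620) (leaf 5 556 684)))))))))))))))) (merge (node 526 (merge (node 590 (merge (leaf 0 589 591) (node 559 (merge (leaf 7 527 656) (node 525 (merge (leaf 0 524 524) (node 557 (merge (leaf 1 524 556) (node 493 (merge (leaf 3 492 492) (leaf 4 493 622))))))))))) (merge (node 525 (merge (leaf 0 525 561) (node 557 (merge (leaf 1 524 556) (node 621 (merge (leaf 6 493 494) (node 493 (merge (leaf 3 492 492) (node 620 (merge (leaf 5 492 588) (leaf 5 524 652))))))))))) (node 591 (merge (leaf 0 589 590) (node 559 (merge (leaf 7 527 656) (node 623 (merge (leaf 7 494 494) (node 622 (merge (leaf 5 526 654) (node 621 (merge (leaf 3 588 588) (leaf 2 588 620)))))))))))))) (merge (node 590 (merge (leaf 0 589 591) (node 559 (merge (leaf 7 527 656) (node 622 (merge (leaf 3 589 623) (node 654 (merge (leaf 6 526 558) (node 686 (merge (leaf 7 557 557) (node 718 (merge (leaf 7 589 621) (node 717 (merge (leaf 5 589 685) (leaf 5 621 749))))))))))))))) (node 557 (merge (node 559 (merge (leaf 7 527 656) (node 558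 (merge (leaf 2 524 556) (leaf 1 556 588))))) (merge (node 559 (merge (leaf 7 527 656) (node 525 (merge (node 558 (merge (leaf 3 524 524) (leaf 2 524 556))) (merge (node 526 (merge (leaf 0 524 524) (leaf 0 525 561))) (node 556 (merge (leaf 1 524 526) (leaf 2 524 558)))))))) (merge (node 525 (merge (node 526 (merge (leaf 1 524 556) (leaf 0 525 561))) (merge (node 526 (merge (leaf 0 525 561) (node 524 (merge (leaf 0 524 559) (node 621 (merge (leaf 7 492 492) (leaf 6 493 494))))))) (node 620 (merge (node 621 (merge (leaf 5 524 652) (node 622 (merge (leaf 4 525 654) (node 623 (merge (leaf 3 588 588) (leaf 2 588 591))))))) (merge (node 493 (merge (leaf 5 492 588) (node 462 (merge (leaf 6 461 494) (node 461 (merge (leaf 6 429 430) (node 460 (merge (leaf 7 428 428) (leaf 7 460 492))))))))) (node 621 (merge (leaf 5 524 652) (node 524 (merge (leaf 7 492 492) (node 653 (merge (leaf 7 524 556) (node 654 (merge (leaf 4 525 622) (leaf 4 557 686))))))))))))))) (merge (node 525 (merge (node 526 (merge (leaf 1 524 556) (leaf 0 525 561))) (merge (node 526 (merge (leaf 0 525 561)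 (node 621 (merge (leaf 6 493 494) (node 653 (merge (leaf 6 525 558) (node 652 (merge (leaf 5 524 620) (leaf 5 556 684))))))))) (node 620 (merge (node 621 (merge (leaf 5 524 652) (node 622 (merge (leaf 4 525 654) (node 623 (merge (leaf 3 588 588) (leaf 2 588 591))))))) (merge (node 493 (merge (leaf 5 492 588) (node 462 (merge (leaf 6 461 494) (node 461 (merge (leaf 6 429 430) (node 460 (merge (leaf 7 428 428) (leaf 7 460 492))))))))) (node 621 (merge (leaf 5 524 652) (node 524 (merge (leaf 7 492 492) (node 653 (merge (leaf 7 524 556) (node 654 (merge (leaf 4 525 622) (leaf 4 557 686))))))))))))))) (node 559 (merge (leaf 7 527 656) (node 558 (merge (leaf 1 556 588) (node 525 (merge (leaf 3 524 524) (node 526 (merge (leaf 0 525 561) (node 621 (merge (leaf 6 493 494) (leaf 6 525 653)))))))))))))))))))))))))) (hyp 0))))))))))))) nP_26 cP_26 16 (by decide +kernel)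

end Crest.Agent.H26Snaky
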