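import Crest.Agent.H26SnP000

/-! certificate data for S0047, part P 2 (computer generated) -/

set_option autoImplicit false
set_option maxRecDepth 100000

namespace Crest.Agent.H26Snaky

open T

def nP_27 : ℕ := 0x100000001000000018000000000000000000000000000000000000000000000000000000000000000000000000000000000000000000000000000000000000000000000000000
def cP_27 : ℕ := 0x20000000700000007800000ef000001cfe00000e7c00001efe000000fc000000f0000000e0000000000000000000000000000000000000000000000000000000000000000000000000000000000000000000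
theorem lP_27 : S nP_27 cP_27 11 := S_of_chk [] trivial (node 494 (merge (node 461 (merge (node 462 (merge (leaf 3 461 497) (node 460 (merge (leaf 0 459 459) (leaf 0 460 463))))) (merge (node 460 (merge (leaf 3 460 493) (node 462 (merge (leaf 0 459 459) (leaf 0 460 463))))) (merge (node 493 (merge (leaf 3 460 460) (node 525 (merge (leaf 1 492 524) (node 526 (merge (leaf 1 493 497) (node 558 (merge (leaf 4 429 429) (leaf 7 461 590))))))))) (node 526 (merge (node 525 (merge (leaf 1 493 497) (node 524 (merge (leaf 1 492 493) (leaf 2 491 523))))) (merge (node 462 (merge (leaf 3 461 497) (node 558 (merge (leaf 7 429 429) (node 590 (merge (leaf 6 462 463) (leaf 7 461 493))))))) (merge (node 497 (merge (leaf 1 493 525) (node 462 (merge (leaf 3 461 461) (node 463 (merge (leaf 3 462 498) (node 558 (merge (leaf 6 430 431) (leaf 6 462 590))))))))) (node 558 (merge (node 590 (merge (leaf 6 462 463) (leaf 7 461 493))) (merge (node 463 (merge (leaf 6 462 590) (node 462 (merge (leaf 7 429 429) (leaf 6 430 431))))) (merge (node 462 (merge (leaf 7 429 429) (node 590 (merge (leaf 7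 461 493) (node 589 (merge (leaf 5 461 557) (leaf 5 493 621))))))) (node 462 (merge (leaf 7 429 429) (node 557 (merge (leaf 5 461 589) (node 525 (merge (leaf 5 429 430) (node 524 (merge (leaf 1 492 493) (leaf 2 491 523))))))))))))))))))))) (merge (node 493 (merge (node 460 (merge (leaf 3 460 461) (node 492 (merge (leaf 3 459 459) (leaf 0 492 527))))) (merge (node 460 (merge (leaf 3 460 461) (node 492 (merge (leaf 3 459 459) (node 524 (merge (leaf 1 491 523) (leaf 1 492 525))))))) (node 525 (merge (leaf 1 492 524) (node 497 (merge (leaf 1 493 526) (node 466 (merge (leaf 2 462 465) (node 498 (merge (leaf 2 463 467) (node 531 (merge (leaf 0 495 530) (node 499 (merge (leaf 1 495 527) (leaf 0 496 532)))))))))))))))) (merge (node 497 (merge (node 461 (merge (leaf 3 461 462) (node 493 (merge (leaf 3 460 460) (node 525 (merge (leaf 1 492 524) (leaf 1 493 526))))))) (merge (node 526 (merge (leaf 1 493 525) (node 498 (merge (leaf 1 494 527) (node 531 (merge (leaf 0 495 530) (node 499 (merge (leaf 0 496 532) (node 467 (merge (leaf 2 463 466) (leaf 2 464 468))))))))))) (merge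 (node 461 (merge (leaf 3 461 462) (node 493 (merge (leaf 3 460 460) (node 527 (merge (leaf 0 492 492) (node 498 (merge (leaf 1 495 499) (leaf 1 494 526))))))))) (node 461 (merge (leaf 3 461 462) (node 493 (merge (leaf 3 460 460) (node 492 (merge (leaf 0 492 527) (node 524 (merge (leaf 1 491 523) (leaf 1 492 525))))))))))))) (merge (node 463 (merge (node 431 (merge (leaf 4 399 399) (leaf 4 431 527))) (merge (node 526 (merge (node 558 (merge (leaf 6 462 590) (node 431 (merge (leaf 5 398 399) (leaf 6 430 462))))) (merge (node 497 (merge (leaf 1 493 525) (node 466 (merge (leaf 2 462 465) (node 498 (merge (leaf 3 462 462) (leaf 2 463 467))))))) (node 525 (merge (leaf 1 493 497) (node 524 (merge (leaf 1 492 493) (leaf 2 491 523)))))))) (node 525 (merge (node 524 (merge (leaf 1 492 493) (node 526 (merge (leaf 2 491 523) (leaf 2 492 527))))) (merge (node 497 (merge (leaf 1 493 526) (node 466 (merge (leaf 2 462 465) (node 498 (merge (leaf 3 462 462) (leaf 2 463 467))))))) (node 493 (merge (leaf 1 492 524) (node 492 (merge (leaf 0 492 527) (node 491 (merge (leaf 2 459 462)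 (node 522 (merge (leaf 1 490 523) (node 490 (merge (leaf 1 489 521) (node 458 (merge (leaf 3 457 457) (leaf 3 458 459))))))))))))))))))) (merge (node 493 (merge (node 460 (merge (leaf 3 460 461) (node 492 (merge (leaf 3 459 459) (leaf 0 492 527))))) (merge (node 461 (merge (leaf 3 460 460) (node 497 (merge (leaf 3 461 462) (node 466 (merge (leaf 2 462 465) (node 498 (merge (leaf 2 463 467) (node 531 (merge (leaf 0 495 530) (node 499 (merge (leaf 1 495 527) (leaf 0 496 532))))))))))))) (merge (node 492 (merge (leaf 0 492 527) (node 523 (merge (leaf 1 491 524) (node 491 (merge (leaf 1 490 522) (node 459 (merge (leaf 3 458 458) (leaf 3 459 460))))))))) (merge (node 492 (merge (leaf 0 492 527) (node 523 (merge (leaf 1 491 524) (node 491 (merge (leaf 1 490 522) (node 462 (merge (leaf 2 459 463) (node 461 (merge (leaf 2 458 490) (leaf 3 461 497))))))))))) (node 492 (merge (node 460 (merge (leaf 3 459 459) (leaf 3 460 461))) (merge (node 523 (merge (leaf 1 491 524) (node 491 (merge (leaf 1 490 522) (node 459 (merge (leaf 3 458 458) (leaf 3 459 460))))))) (merge (node 523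 (merge (leaf 1 491 524) (node 491 (merge (leaf 1 490 522) (node 462 (merge (leaf 2 459 463) (node 461 (merge (leaf 2 458 490) (leaf 3 461 497))))))))) (node 461 (merge (leaf 3 460 460) (node 462 (merge (leaf 3 461 497) (node 491 (merge (leaf 2 459 463) (leaf 2 458 490)))))))))))))))) (merge (node 493 (merge (node 460 (merge (leaf 3 460 461) (node 492 (merge (leaf 3 459 459) (leaf 0 492 527))))) (merge (node 492 (merge (leaf 0 492 527) (node 524 (merge (leaf 1 491 523) (leaf 1 492 525))))) (merge (node 460 (merge (leaf 3 460 461) (node 492 (merge (leaf 3 459 459) (node 524 (merge (leaf 1 491 523) (leaf 1 492 525))))))) (node 461 (merge (leaf 3 460 460) (node 558 (merge (node 525 (merge (leaf 1 492 524) (node 590 (merge (leaf 7 461 526) (leaf 4 461 557))))) (merge (node 526 (merge (leaf 7 461 590) (node 462 (merge (leaf 7 429 429) (node 431 (merge (leaf 6 430 463) (node 430 (merge (leaf 6 398 399) (node 398 (merge (leaf 5 365 366) (leaf 4 398 527))))))))))) (merge (node 525 (merge (leaf 1 492 524) (node 557 (merge (leaf 4 461 590) (node 589 (merge (leaf 6 461 462) (node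 588 (merge (leaf 5 460 556) (leaf 5 492 620))))))))) (node 525 (merge (leaf 1 492 524) (node 429 (merge (leaf 4 429 526) (node 430 (merge (leaf 6 397 398) (node 462 (merge (leaf 6 429 557) (node 428 (merge (leaf 7 396 396) (node 427 (merge (leaf 0 426 426) (leaf 0 427 463))))))))))))))))))))))) (merge (node 526 (merge (node 497 (merge (leaf 1 493 525) (node 466 (merge (leaf 2 462 465) (node 498 (merge (leaf 2 463 467) (leaf 1 494 527))))))) (merge (node 497 (merge (leaf 1 493 525) (node 462 (merge (leaf 3 461 461) (node 463 (merge (leaf 3 462 498) (node 431 (merge (leaf 4 399 399) (leaf 6 430 558))))))))) (merge (node 462 (merge (node 461 (merge (leaf 3 461 497) (node 460 (merge (leaf 0 459 459) (leaf 3 460 493))))) (node 430 (merge (node 527 (merge (leaf 4 398 398) (leaf 4 430 559))) (merge (node 399 (merge (leaf 6 398 431) (node 398 (merge (leaf 6 366 367) (node 397 (merge (leaf 7 365 365) (leaf 7 397 429))))))) (node 431 (merge (leaf 6 398 399) (node 527 (merge (leaf 4 431 463) (leaf 4 430 559)))))))))) (node 527 (merge (node 561 (merge (leaf 0 525 525) (node 562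 (merge (leaf 3 526 559) (leaf 3 527 563))))) (node 493 (merge (leaf 0 492 492) (node 461 (merge (leaf 3 460 460) (node 558 (merge (leaf 7 461 590) (node 429 (merge (leaf 4 397 397) (leaf 7 429 462))))))))))))))) (node 526 (merge (node 525 (merge (leaf 1 493 497) (node 524 (merge (leaf 2 491 523) (leaf 2 492 527))))) (merge (node 497 (merge (leaf 1 493 525) (node 462 (merge (leaf 3 461 461) (node 463 (merge (leaf 3 462 498) (node 431 (merge (leaf 4 399 399) (leaf 6 430 558))))))))) (merge (node 462 (merge (node 461 (merge (leaf 3 461 497) (node 460 (merge (leaf 0 459 459) (leaf 0 460 463))))) (merge (node 497 (merge (leaf 3 461 461) (node 498 (merge (leaf 1 494 527) (node 466 (merge (leaf 2 462 465) (leaf 2 463 467))))))) (node 430 (merge (node 527 (merge (leaf 4 398 398) (leaf 4 430 559))) (merge (node 399 (merge (leaf 6 398 431) (node 398 (merge (leaf 6 366 367) (node 397 (merge (leaf 7 365 365) (leaf 7 397 429))))))) (node 431 (merge (leaf 6 398 399) (node 527 (merge (leaf 4 431 463) (leaf 4 430 559))))))))))) (node 558 (merge (node 590 (merge (leaf 6 462 463) (node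 622 (merge (leaf 6 494 527) (node 621 (merge (leaf 5 493 589) (leaf 5 525 653))))))) (merge (node 525 (merge (node 561 (merge (leaf 0 525 527) (leaf 3 525 559))) (merge (node 527 (merge (leaf 2 492 524) (leaf 0 525 561))) (merge (node 524 (merge (leaf 2 492 527) (node 559 (merge (leaf 0 523 523) (leaf 3 524 557))))) (node 559 (merge (leaf 3 525 561) (node 524 (merge (leaf 0 523 523) (leaf 3 524 557))))))))) (node 590 (merge (leaf 6 462 463) (node 589 (merge (leaf 5 493 621) (node 559 (merge (leaf 1 557 561) (node 588 (merge (leaf 1 556 557) (leaf 2 555 587)))))))))))))))))))))))) nP_27 cP_27 11 (by decide +kernel)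
def nP_28 : ℕ := 0x100000001000000010000000000000000000000000000000000000000000000000000000000000000000000000000000000000000000000000000000000000000000000000000
def cP_28 : ℕ := 0x20000000700000067800000ef000001cfe00001efc00003ffe00001ffc00003ff000000ff0000002a00000000000000000000000000000000000000000000000000000000000000000000000000000000000
theorem lP_28 : S nP_28 cP_28 17 := S_of_chk [(nP_27, cP_27, 11)] ⟨lP_27, trivial⟩ (node 495 (merge (node 464 (merge (node 465 (merge (leaf 6 432 433) (node 494 (merge (leaf 2 461 493) (node 466 (merge (leaf 1 462 463) (leaf 1 463 467))))))) (merge (node 432 (merge (node 431 (merge (leaf 7 399 399) (leaf 7 431 463))) (merge (node 400 (merge (leaf 5 399 527) (node 463 (merge (leaf 5 367 368) (leaf 7 431 431))))) (merge (node 400 (merge (leaf 5 399 527) (node 399 (merge (leaf 7 367 367) (leaf 7 399 431))))) (node 400 (merge (leaf 5 399 527) (node 369 (merge (leaf 6 368 401) (node 368 (merge (leaf 6 336 337) (leaf 5 367 463))))))))))) (node 433 (merge (leaf 6 432 465) (node 432 (merge (leaf 6 400 401) (node 400 (merge (leaf 5 399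 527) (node 399 (merge (leaf 7 367 367) (leaf 7 399 431)))))))))))) (merge (node 497 (merge (node 494 (merge (node 465 (merge (leaf 2 462 466) (node 433 (merge (leaf 5 400 401) (leaf 6 432 464))))) (node 461 (merge (leaf 3 461 462) (node 493 (merge (leaf 3 460 460) (node 525 (merge (leaf 1 492 524) (leaf 1 493 526))))))))) (merge (node 494 (merge (node 465 (merge (leaf 2 462 466) (node 433 (merge (leaf 5 400 401) (leaf 6 432 464))))) (node 461 (merge (leaf 3 461 462) (node 493 (merge (leaf 3 460 460) (node 492 (merge (leaf 0 492 527) (node 524 (merge (leaf 1 491 523) (leaf 1 492 525))))))))))) (merge (node 494 (merge (node 461 (merge (leaf 3 461 462) (node 493 (merge (leaf 3 460 460) (node 525 (merge (leaf 1 492 524) (leaf 1 493 526))))))) (merge (node 526 (merge (leaf 1 493 525) (node 498 (merge (leaf 1 494 527) (node 531 (merge (leaf 0 495 530) (node 499 (merge (leaf 0 496 532) (node 467 (merge (leaf 2 463 466) (leaf 2 464 468))))))))))) (merge (node 461 (merge (leaf 3 461 462) (node 493 (merge (leaf 3 460 460) (node 527 (merge (leaf 0 492 492) (node 498 (merge (leaf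 1 495 499) (leaf 1 494 526))))))))) (node 461 (merge (leaf 3 461 462) (node 493 (merge (leaf 3 460 460) (node 492 (merge (leaf 0 492 527) (node 524 (merge (leaf 1 491 523) (leaf 1 492 525))))))))))))) (merge (node 498 (merge (node 531 (merge (leaf 0 495 530) (node 499 (merge (leaf 1 495 527) (leaf 0 496 532))))) (merge (node 462 (merge (leaf 3 462 463) (node 494 (merge (leaf 3 461 461) (node 526 (merge (leaf 1 493 525) (leaf 1 494 527))))))) (node 499 (merge (node 464 (merge (leaf 3 463 463) (node 465 (merge (leaf 6 432 433) (leaf 3 464 500))))) (node 531 (merge (leaf 0 496 532) (node 530 (merge (leaf 0 495 495) (node 467 (merge (leaf 2 464 468) (node 562 (merge (leaf 5 434 435) (leaf 6 466 594)))))))))))))) (node 465 (merge (node 433 (merge (leaf 5 400 401) (leaf 6 432 464))) (node 498 (merge (node 527 (merge (leaf 1 495 499) (leaf 1 494 526))) (merge (node 531 (merge (leaf 0 495 530) (node 499 (merge (leaf 0 496 532) (node 467 (merge (leaf 2 463 466) (leaf 2 464 468))))))) (node 530 (merge (leaf 0 495 531) (node 527 (merge (leaf 1 494 526) (node 562 (merge (leaf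 7 465 594) (node 466 (merge (leaf 2 463 467) (node 561 (merge (leaf 3 527 563) (leaf 5 465 593))))))))))))))))))))) (merge (node 464 (merge (node 433 (merge (leaf 6 432 465) (node 432 (merge (leaf 6 400 401) (node 431 (merge (leaf 7 399 399) (leaf 7 431 463))))))) (merge (node 432 (merge (node 431 (merge (leaf 7 399 399) (leaf 7 431 463))) (merge (node 400 (merge (leaf 5 399 527) (node 463 (merge (leaf 5 367 368) (leaf 7 431 431))))) (merge (node 400 (merge (leaf 5 399 527) (node 399 (merge (leaf 7 367 367) (leaf 7 399 431))))) (node 400 (merge (leaf 5 399 527) (node 369 (merge (leaf 6 368 401) (node 368 (merge (leaf 6 336 337) (leaf 5 367 463))))))))))) (merge (node 433 (merge (leaf 6 432 465) (node 432 (merge (leaf 6 400 401) (node 400 (merge (leaf 5 399 527) (node 399 (merge (leaf 7 367 367) (leaf 7 399 431))))))))) (merge (node 432 (merge (node 433 (merge (leaf 6 400 401) (leaf 6 432 465))) (merge (node 400 (merge (leaf 5 399 527) (node 369 (merge (leaf 6 368 401) (node 368 (merge (leaf 6 336 337) (leaf 5 367 463))))))) (node 465 (merge (leaf 6 432 433) (node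 400 (merge (leaf 5 399 527) (node 368 (merge (leaf 5 367 463) (leaf 4 368 497)))))))))) (node 465 (merge (leaf 6 432 433) (node 463 (merge (leaf 7 431 431) (node 466 (merge (leaf 1 463 467) (node 498 (merge (leaf 0 463 499) (node 497 (merge (leaf 0 462 462) (node 530 (merge (leaf 0 495 531) (node 527 (merge (leaf 1 494 526) (node 562 (merge (leaf 7 465 594) (node 561 (merge (leaf 3 527 563) (leaf 4 464 593)))))))))))))))))))))))) (merge (node 464 (merge (node 465 (merge (leaf 6 432 433) (node 494 (merge (leaf 2 461 493) (node 466 (merge (leaf 1 463 467) (leaf 2 462 497))))))) (merge (node 432 (merge (node 431 (merge (leaf 7 399 399) (leaf 7 431 463))) (merge (node 463 (merge (leaf 7 431 431) (node 401 (merge (leaf 6 400 433) (node 400 (merge (leaf 5 367 368) (leaf 6 368 369))))))) (merge (node 401 (merge (leaf 6 400 433) (node 400 (merge (leaf 6 368 369) (node 399 (merge (leaf 7 367 367) (leaf 7 399 431))))))) (node 401 (merge (leaf 6 400 433) (node 400 (merge (leaf 6 368 369) (node 368 (merge (leaf 5 367 463) (node 367 (merge (leaf 7 335 335) (leaf 7 367 399)))))))))))))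 (node 497 (merge (node 463 (merge (leaf 7 431 431) (node 498 (merge (leaf 3 462 462) (leaf 3 463 499))))) (merge (node 561 (merge (leaf 4 464 593) (node 498 (merge (node 531 (merge (leaf 0 495 530) (node 499 (merge (leaf 0 496 532) (node 467 (merge (leaf 2 463 466) (leaf 2 464 468))))))) (merge (node 466 (merge (leaf 2 463 467) (node 494 (merge (leaf 2 462 465) (node 525 (merge (leaf 1 493 526) (node 493 (merge (leaf 1 492 524) (node 461 (merge (leaf 3 460 460) (leaf 3 461 462))))))))))) (merge (node 531 (merge (leaf 0 495 530) (node 499 (merge (leaf 0 496 532) (node 465 (merge (leaf 3 464 500) (node 494 (merge (leaf 2 462 466) (leaf 2 461 493))))))))) (node 531 (merge (leaf 0 495 530) (node 499 (merge (leaf 0 496 532) (node 468 (merge (leaf 2 464 467) (node 500 (merge (leaf 3 464 465) (leaf 2 465 469))))))))))))))) (merge (node 463 (merge (leaf 7 431 431) (node 498 (merge (leaf 3 463 499) (node 466 (merge (leaf 2 463 467) (node 494 (merge (leaf 1 462 465) (node 525 (merge (leaf 1 493 526) (node 493 (merge (leaf 2 460 492) (leaf 1 492 524))))))))))))) (node 561 (merge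 (leaf 4 464 593) (node 494 (merge (node 465 (merge (leaf 2 462 466) (leaf 2 461 493))) (node 431 (merge (leaf 7 431 463) (node 399 (merge (leaf 7 399 432) (node 526 (merge (leaf 1 493 525) (node 462 (merge (leaf 6 398 430) (leaf 3 461 461)))))))))))))))))))) (merge (node 464 (merge (node 433 (merge (leaf 6 432 465) (node 432 (merge (leaf 6 400 401) (node 431 (merge (leaf 7 399 399) (leaf 7 431 463))))))) (merge (node 432 (merge (node 431 (merge (leaf 7 399 399) (leaf 7 431 463))) (merge (node 400 (merge (leaf 5 399 527) (node 463 (merge (leaf 5 367 368) (leaf 7 431 431))))) (merge (node 400 (merge (leaf 5 399 527) (node 399 (merge (leaf 7 367 367) (leaf 7 399 431))))) (node 400 (merge (leaf 5 399 527) (node 368 (merge (leaf 5 367 463) (node 367 (merge (leaf 7 335 335) (leaf 7 367 399))))))))))) (merge (node 433 (merge (leaf 6 432 465) (node 432 (merge (leaf 6 400 401) (node 400 (merge (leaf 5 399 527) (node 399 (merge (leaf 7 367 367) (leaf 7 399 431))))))))) (merge (node 432 (merge (node 433 (merge (leaf 6 400 401) (leaf 6 432 465))) (merge (node 400 (merge (leaf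 5 399 527) (node 369 (merge (leaf 6 368 401) (node 368 (merge (leaf 6 336 337) (leaf 5 367 463))))))) (node 465 (merge (leaf 6 432 433) (node 400 (merge (leaf 5 399 527) (node 368 (merge (leaf 5 367 463) (leaf 4 368 497)))))))))) (node 497 (merge (node 463 (merge (leaf 7 431 431) (node 498 (merge (leaf 3 462 462) (leaf 3 463 499))))) (merge (node 465 (merge (leaf 6 432 433) (node 494 (merge (leaf 2 461 493) (node 526 (merge (leaf 1 493 525) (node 498 (merge (leaf 1 494 527) (node 531 (merge (leaf 0 495 530) (node 499 (merge (leaf 3 464 500) (leaf 0 496 532))))))))))))) (merge (node 465 (merge (leaf 6 432 433) (node 463 (merge (leaf 7 431 431) (node 462 (merge (leaf 0 461 461) (node 494 (merge (leaf 1 461 493) (node 430 (merge (leaf 3 429 429) (node 398 (merge (leaf 4 366 366) (leaf 4 398 527))))))))))))) (node 465 (merge (leaf 6 432 433) (node 463 (merge (leaf 7 431 431) (node 498 (merge (leaf 3 463 499) (node 530 (merge (leaf 0 495 531) (node 527 (merge (leaf 1 494 526) (node 562 (merge (leaf 7 465 594) (node 561 (merge (leaf 3 527 563) (leaf 4 464 593))))))))))))))))))))))))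 (merge (node 463 (merge (node 431 (merge (leaf 4 399 399) (leaf 7 431 464))) (merge (node 431 (merge (leaf 4 399 399) (leaf 4 431 527))) (node 462 (merge (node 497 (merge (leaf 3 462 498) (node 461 (merge (leaf 0 460 460) (leaf 3 461 494))))) (merge (node 497 (merge (leaf 3 462 498) (node 461 (merge (leaf 0 460 460) (leaf 0 461 464))))) (merge (node 494 (merge (node 497 (merge (leaf 3 462 498) (node 525 (merge (leaf 1 493 526) (node 493 (merge (leaf 1 492 524) (node 465 (merge (leaf 1 461 464) (leaf 2 462 466))))))))) (merge (node 497 (merge (leaf 3 462 498) (node 465 (merge (leaf 2 462 466) (node 493 (merge (leaf 1 461 464) (node 492 (merge (leaf 2 459 491) (leaf 0 492 527))))))))) (merge (node 497 (merge (leaf 3 462 498) (node 525 (merge (leaf 1 493 526) (node 493 (merge (leaf 1 492 524) (node 492 (merge (leaf 2 459 491) (leaf 0 492 527))))))))) (merge (node 493 (merge (node 492 (merge (leaf 2 459 491) (leaf 0 492 527))) (node 525 (merge (leaf 1 492 524) (node 557 (merge (leaf 6 461 589) (node 430 (merge (leaf 5 397 398) (leaf 5 429 526))))))))) (node 430 (merge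 (node 398 (merge (leaf 4 366 366) (leaf 4 398 527))) (node 497 (merge (leaf 3 462 498) (node 526 (merge (leaf 1 493 525) (node 429 (merge (leaf 7 397 397) (node 465 (merge (leaf 3 429 464) (leaf 2 462 466)))))))))))))))) (node 461 (merge (leaf 0 460 460) (node 493 (merge (node 492 (merge (leaf 1 460 464) (node 491 (merge (leaf 2 458 490) (leaf 2 459 494))))) (merge (node 464 (merge (leaf 1 460 492) (node 429 (merge (leaf 3 428 428) (node 430 (merge (leaf 3 429 465) (node 525 (merge (leaf 6 397 398) (leaf 6 429 557))))))))) (merge (node 494 (merge (node 492 (merge (leaf 2 459 491) (leaf 0 492 527))) (node 525 (merge (leaf 1 492 524) (node 557 (merge (leaf 6 429 430) (leaf 6 461 589))))))) (node 525 (merge (node 557 (merge (leaf 6 429 430) (node 589 (merge (leaf 6 461 494) (node 588 (merge (leaf 5 460 556) (leaf 5 492 620))))))) (merge (node 557 (merge (leaf 6 429 430) (node 556 (merge (leaf 5 460 588) (node 429 (merge (leaf 5 428 524) (node 428 (merge (leaf 7 396 396) (leaf 3 428 464))))))))) (merge (node 494 (merge (leaf 1 492 524) (node 464 (merge (leaf 1 461 465)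 (node 429 (merge (leaf 3 428 428) (node 526 (merge (leaf 4 397 397) (leaf 7 429 558))))))))) (node 494 (merge (leaf 1 492 524) (node 464 (merge (leaf 1 461 465) (node 429 (merge (leaf 3 428 428) (node 526 (merge (leaf 4 397 397) (leaf 7 429 558)))))))))))))))))))))))))) (merge (node 494 (merge (node 493 (merge (node 460 (merge (leaf 3 460 461) (node 492 (merge (leaf 3 459 459) (leaf 0 492 527))))) (merge (node 492 (merge (leaf 0 492 527) (node 524 (merge (leaf 1 491 523) (leaf 1 492 525))))) (node 525 (merge (leaf 1 492 524) (node 461 (merge (leaf 3 460 460) (node 462 (merge (leaf 3 461 497) (node 557 (merge (leaf 6 429 430) (leaf 6 461 589)))))))))))) (merge (node 461 (merge (node 462 (merge (leaf 3 461 497) (node 460 (merge (leaf 0 459 459) (leaf 0 460 463))))) (merge (node 460 (merge (leaf 3 460 493) (node 462 (merge (leaf 0 459 459) (leaf 0 460 463))))) (merge (node 493 (merge (leaf 3 460 460) (node 525 (merge (leaf 1 492 524) (node 526 (merge (leaf 1 493 497) (node 558 (merge (leaf 4 429 429) (leaf 7 461 590))))))))) (node 526 (merge (node 525 (merge (leaf 1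 493 497) (node 524 (merge (leaf 1 492 493) (leaf 2 491 523))))) (merge (node 462 (merge (leaf 3 461 497) (node 558 (merge (leaf 7 429 429) (node 590 (merge (leaf 6 462 463) (leaf 7 461 493))))))) (merge (node 497 (merge (leaf 1 493 525) (node 462 (merge (leaf 3 461 461) (node 463 (merge (leaf 3 462 498) (node 558 (merge (leaf 6 430 431) (leaf 6 462 590))))))))) (node 558 (merge (node 590 (merge (leaf 6 462 463) (leaf 7 461 493))) (merge (node 463 (merge (leaf 6 462 590) (node 462 (merge (leaf 7 429 429) (leaf 6 430 431))))) (merge (node 462 (merge (leaf 7 429 429) (node 590 (merge (leaf 7 461 493) (node 589 (merge (leaf 5 461 557) (leaf 5 493 621))))))) (node 462 (merge (leaf 7 429 429) (node 557 (merge (leaf 5 461 589) (node 525 (merge (leaf 5 429 430) (node 524 (merge (leaf 1 492 493) (leaf 2 491 523))))))))))))))))))))) (merge (node 497 (merge (node 526 (merge (leaf 1 493 525) (node 498 (merge (leaf 1 494 527) (node 531 (merge (leaf 0 495 530) (node 499 (merge (leaf 0 496 532) (node 467 (merge (leaf 2 463 466) (leaf 2 464 468))))))))))) (merge (node 498 (merge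 (node 463 (merge (leaf 3 462 462) (node 431 (merge (leaf 4 399 399) (leaf 7 431 464))))) (node 531 (merge (leaf 0 495 530) (node 499 (merge (leaf 0 496 532) (node 467 (merge (leaf 2 463 466) (leaf 2 464 468))))))))) (node 431 (merge (node 463 (merge (leaf 4 399 399) (leaf 4 431 527))) (merge (node 526 (merge (leaf 1 493 525) (node 463 (merge (leaf 4 431 527) (node 558 (merge (leaf 6 430 462) (leaf 6 462 590))))))) (merge (node 526 (merge (leaf 1 493 525) (node 463 (merge (leaf 4 399 399) (node 558 (merge (leaf 6 430 462) (leaf 6 462 590))))))) (node 526 (merge (leaf 1 493 525) (node 462 (merge (leaf 3 461 461) (node 430 (merge (leaf 6 398 399) (node 397 (merge (leaf 7 397 429) (node 398 (merge (leaf 7 365 365) (leaf 4 398 527)))))))))))))))))) (merge (node 497 (merge (node 526 (merge (leaf 1 493 525) (node 498 (merge (leaf 1 494 527) (node 531 (merge (leaf 0 495 530) (node 499 (merge (leaf 0 496 532) (node 467 (merge (leaf 2 463 466) (leaf 2 464 468))))))))))) (merge (node 498 (merge (node 463 (merge (leaf 3 462 462) (node 431 (merge (leaf 4 399 399) (leaf 7 431 464)))))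 (node 531 (merge (leaf 0 495 530) (node 499 (merge (leaf 0 496 532) (node 467 (merge (leaf 2 463 466) (leaf 2 464 468))))))))) (node 463 (merge (node 431 (merge (leaf 4 399 399) (leaf 4 431 527))) (merge (node 525 (merge (leaf 1 493 526) (node 493 (merge (leaf 1 492 524) (node 492 (merge (leaf 2 460 464) (leaf 0 492 527))))))) (node 526 (merge (leaf 1 493 525) (node 558 (merge (leaf 6 462 590) (node 431 (merge (leaf 4 399 399) (leaf 6 430 462))))))))))))) (merge (node 493 (merge (node 460 (merge (leaf 3 460 461) (node 492 (merge (leaf 3 459 459) (leaf 0 492 527))))) (merge (node 492 (merge (leaf 0 492 527) (node 524 (merge (leaf 1 491 523) (leaf 1 492 525))))) (merge (node 460 (merge (leaf 3 460 461) (node 492 (merge (leaf 3 459 459) (node 524 (merge (leaf 1 491 523) (leaf 1 492 525))))))) (node 525 (merge (leaf 1 492 524) (node 526 (merge (leaf 1 493 497) (node 461 (merge (leaf 3 460 460) (node 558 (merge (leaf 4 429 429) (leaf 7 461 590))))))))))))) (merge (node 493 (merge (node 460 (merge (leaf 3 460 461) (node 492 (merge (leaf 3 459 459) (leaf 0 492 527))))) (merge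 (node 492 (merge (leaf 0 492 527) (node 524 (merge (leaf 1 491 523) (leaf 1 492 525))))) (merge (node 460 (merge (leaf 3 460 461) (node 492 (merge (leaf 3 459 459) (node 524 (merge (leaf 1 491 523) (leaf 1 492 525))))))) (node 461 (merge (leaf 3 460 460) (node 558 (merge (node 525 (merge (leaf 1 492 524) (node 590 (merge (leaf 7 461 526) (leaf 4 461 557))))) (merge (node 526 (merge (leaf 7 461 590) (node 462 (merge (leaf 7 429 429) (node 431 (merge (leaf 6 430 463) (node 430 (merge (leaf 6 398 399) (node 398 (merge (leaf 5 365 366) (leaf 4 398 527))))))))))) (merge (node 525 (merge (leaf 1 492 524) (node 557 (merge (leaf 4 461 590) (node 589 (merge (leaf 6 461 462) (node 588 (merge (leaf 5 460 556) (leaf 5 492 620))))))))) (node 525 (merge (leaf 1 492 524) (node 429 (merge (leaf 4 429 526) (node 430 (merge (leaf 6 397 398) (node 462 (merge (leaf 6 429 557) (node 428 (merge (leaf 7 396 396) (node 427 (merge (leaf 0 426 426) (leaf 0 427 463))))))))))))))))))))))) (node 463 (merge (node 431 (merge (leaf 7 431 464) (leaf 4 431 527))) (merge (node 431 (merge (leaf 4 399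 399) (leaf 7 431 464))) (merge (node 431 (merge (leaf 4 399 399) (leaf 4 431 527))) (node 461 (merge (node 462 (merge (leaf 0 460 460) (node 497 (merge (leaf 3 461 494) (leaf 3 462 498))))) (merge (node 493 (merge (leaf 3 460 460) (node 492 (merge (leaf 2 460 464) (leaf 0 492 527))))) (node 462 (merge (leaf 3 461 497) (node 464 (merge (node 432 (merge (leaf 2 429 433) (node 400 (merge (leaf 5 367 368) (leaf 5 399 527))))) (merge (node 432 (merge (leaf 2 429 433) (node 400 (merge (leaf 5 367 368) (leaf 5 399 527))))) (merge (node 429 (merge (leaf 3 428 428) (node 526 (merge (leaf 7 429 558) (node 430 (merge (leaf 7 397 397) (node 398 (merge (leaf 4 366 366) (leaf 4 398 527))))))))) (node 493 (merge (leaf 1 460 492) (node 432 (merge (leaf 2 429 433) (node 429 (merge (leaf 3 428 428) (node 400 (merge (leaf 5 367 368) (node 401 (merge (leaf 6 368 369) (node 399 (merge (leaf 7 367 367) (node 398 (merge (leaf 1 397 430) (node 366 (merge (leaf 3 365 365) (leaf 6 365 397))))))))))))))))))))))))))))))))))))) (merge (hyp 0) (node 497 (merge (node 494 (merge (node 465 (merge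 (leaf 2 462 466) (node 433 (merge (leaf 5 400 401) (leaf 6 432 464))))) (node 461 (merge (leaf 3 461 462) (node 493 (merge (leaf 3 460 460) (node 525 (merge (leaf 1 492 524) (leaf 1 493 526))))))))) (merge (node 494 (merge (node 465 (merge (leaf 2 462 466) (node 433 (merge (leaf 5 400 401) (leaf 6 432 464))))) (node 461 (merge (leaf 3 461 462) (node 493 (merge (leaf 3 460 460) (node 492 (merge (leaf 0 492 527) (node 524 (merge (leaf 1 491 523) (leaf 1 492 525))))))))))) (merge (node 494 (merge (node 461 (merge (leaf 3 461 462) (node 493 (merge (leaf 3 460 460) (node 525 (merge (leaf 1 492 524) (leaf 1 493 526))))))) (merge (node 526 (merge (leaf 1 493 525) (node 498 (merge (leaf 1 494 527) (node 531 (merge (leaf 0 495 530) (node 499 (merge (leaf 0 496 532) (node 467 (merge (leaf 2 463 466) (leaf 2 464 468))))))))))) (merge (node 461 (merge (leaf 3 461 462) (node 493 (merge (leaf 3 460 460) (node 527 (merge (leaf 0 492 492) (node 498 (merge (leaf 1 495 499) (leaf 1 494 526))))))))) (node 461 (merge (leaf 3 461 462) (node 493 (merge (leaf 3 460 460) (node 492 (merge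 (leaf 0 492 527) (node 524 (merge (leaf 1 491 523) (leaf 1 492 525))))))))))))) (merge (node 465 (merge (node 433 (merge (leaf 5 400 401) (leaf 6 432 464))) (node 498 (merge (node 527 (merge (leaf 1 495 499) (leaf 1 494 526))) (merge (node 531 (merge (leaf 0 495 530) (node 499 (merge (leaf 0 496 532) (node 467 (merge (leaf 2 463 466) (leaf 2 464 468))))))) (node 530 (merge (leaf 0 495 531) (node 527 (merge (leaf 1 494 526) (node 562 (merge (leaf 7 465 594) (node 466 (merge (leaf 2 463 467) (node 561 (merge (leaf 3 527 563) (leaf 5 465 593)))))))))))))))) (node 494 (merge (node 461 (merge (leaf 3 461 462) (node 493 (merge (leaf 3 460 460) (node 525 (merge (leaf 1 492 524) (leaf 1 493 526))))))) (merge (node 461 (merge (leaf 3 461 462) (node 493 (merge (leaf 3 460 460) (node 527 (merge (leaf 0 492 492) (node 498 (merge (leaf 1 495 499) (leaf 1 494 526))))))))) (merge (node 461 (merge (leaf 3 461 462) (node 493 (merge (leaf 3 460 460) (node 492 (merge (leaf 0 492 527) (node 524 (merge (leaf 1 491 523) (leaf 1 492 525))))))))) (merge (node 493 (merge (node 525 (merge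 (leaf 1 492 524) (leaf 1 493 526))) (merge (node 527 (merge (leaf 0 492 492) (node 498 (merge (leaf 1 495 499) (leaf 1 494 526))))) (node 492 (merge (leaf 0 492 527) (node 523 (merge (leaf 1 491 524) (node 491 (merge (leaf 1 490 522) (node 459 (merge (leaf 3 458 458) (leaf 3 459 460)))))))))))) (node 399 (merge (node 526 (merge (leaf 1 493 525) (node 462 (merge (leaf 3 461 461) (node 430 (merge (leaf 6 398 431) (node 398 (merge (leaf 6 366 367) (node 397 (merge (leaf 7 365 365) (leaf 7 397 429))))))))))) (merge (node 526 (merge (leaf 1 493 525) (node 527 (merge (leaf 1 494 498) (node 462 (merge (leaf 3 461 461) (node 430 (merge (leaf 4 398 398) (leaf 6 398 431))))))))) (merge (node 526 (merge (leaf 1 493 525) (node 498 (merge (leaf 1 494 527) (node 531 (merge (leaf 0 495 530) (node 499 (merge (leaf 0 496 532) (node 468 (merge (leaf 2 464 467) (node 500 (merge (leaf 2 465 469) (node 464 (merge (leaf 3 464 465) (node 432 (merge (leaf 7 399 431) (node 401 (merge (leaf 6 400 433) (node 400 (merge (leaf 7 367 367) (leaf 6 368 369))))))))))))))))))))) (merge (node 398 (merge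 (node 462 (merge (leaf 3 461 461) (node 430 (merge (leaf 6 366 367) (leaf 4 398 527))))) (merge (node 433 (merge (node 465 (merge (leaf 5 400 401) (leaf 6 432 464))) (merge (node 464 (merge (leaf 6 432 465) (node 432 (merge (leaf 7 399 431) (node 400 (merge (leaf 7 367 367) (leaf 5 399 527))))))) (merge (node 401 (merge (leaf 5 400 465) (node 400 (merge (leaf 0 398 434) (node 370 (merge (leaf 2 366 369) (node 402 (merge (leaf 2 367 371) (node 366 (merge (leaf 3 365 365) (leaf 3 366 367))))))))))) (node 432 (merge (node 464 (merge (leaf 6 400 401) (leaf 7 399 431))) (merge (node 400 (merge (leaf 0 397 397) (node 464 (merge (leaf 6 400 401) (leaf 5 399 527))))) (node 434 (merge (leaf 3 398 431) (node 435 (merge (leaf 3 399 400) (node 468 (merge (leaf 0 432 467) (node 436 (merge (leaf 0 433 469) (node 404 (merge (leaf 2 400 403) (leaf 2 401 405)))))))))))))))))) (merge (node 462 (merge (leaf 3 461 461) (node 430 (merge (leaf 6 366 367) (node 365 (merge (leaf 7 365 397) (node 366 (merge (leaf 7 333 333) (node 401 (merge (leaf 3 365 400) (node 433 (merge (leaf 5 400 465)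 (node 432 (merge (leaf 6 400 464) (node 431 (merge (leaf 2 398 402) (leaf 3 398 434))))))))))))))))) (node 462 (merge (leaf 3 461 461) (node 430 (merge (leaf 4 398 527) (node 365 (merge (leaf 7 365 397) (node 366 (merge (leaf 7 333 333) (node 401 (merge (leaf 3 365 400) (node 433 (merge (leaf 5 400 465) (node 432 (merge (leaf 6 400 464) (node 431 (merge (leaf 2 398 402) (leaf 3 398 434))))))))))))))))))))) (node 398 (merge (node 462 (merge (leaf 3 461 461) (node 430 (merge (leaf 6 366 367) (leaf 4 398 527))))) (merge (node 526 (merge (leaf 1 493 525) (node 462 (merge (leaf 3 461 461) (node 430 (merge (leaf 6 366 367) (node 397 (merge (leaf 7 365 365) (leaf 7 397 429))))))))) (merge (node 526 (merge (leaf 1 493 525) (node 462 (merge (leaf 3 461 461) (node 430 (merge (leaf 4 398 527) (node 397 (merge (leaf 7 365 365) (leaf 7 397 429))))))))) (node 400 (merge (node 365 (merge (node 401 (merge (leaf 3 365 366) (node 433 (merge (leaf 0 398 434) (leaf 5 400 465))))) (node 397 (merge (leaf 3 364 364) (node 428 (merge (leaf 1 396 429) (node 396 (merge (leaf 1 395 427) (node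 368 (merge (leaf 2 364 367) (leaf 2 365 369))))))))))) (merge (node 526 (merge (leaf 1 493 525) (node 527 (merge (leaf 1 494 498) (node 432 (merge (leaf 5 399 464) (node 397 (merge (leaf 0 397 433) (node 369 (merge (leaf 2 365 368) (node 401 (merge (leaf 2 366 370) (node 365 (merge (leaf 3 364 364) (leaf 3 365 366))))))))))))))) (merge (node 527 (merge (node 526 (merge (leaf 1 494 498) (leaf 2 493 525))) (node 432 (merge (leaf 5 399 464) (node 397 (merge (leaf 0 397 433) (node 428 (merge (leaf 1 396 429) (node 396 (merge (leaf 1 395 427) (node 368 (merge (leaf 2 364 367) (leaf 2 365 369))))))))))))) (merge (node 526 (merge (leaf 1 493 525) (node 498 (merge (leaf 1 494 527) (node 531 (merge (leaf 0 495 530) (node 499 (merge (leaf 0 496 532) (node 468 (merge (leaf 2 464 467) (node 500 (merge (leaf 2 465 469) (node 464 (merge (leaf 3 464 465) (node 432 (merge (leaf 7 367 367) (node 369 (merge (leaf 6 368 401) (node 368 (merge (leaf 6 336 337) (leaf 2 365 397))))))))))))))))))))) (merge (node 526 (merge (leaf 1 493 525) (node 498 (merge (leaf 1 494 527) (node 531 (merge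 (leaf 0 495 530) (node 499 (merge (leaf 0 496 532) (node 468 (merge (leaf 2 464 467) (node 500 (merge (leaf 2 465 469) (node 464 (merge (leaf 3 464 465) (node 432 (merge (leaf 7 367 367) (node 401 (merge (leaf 6 368 369) (leaf 6 400 433))))))))))))))))))) (node 526 (merge (leaf 1 493 525) (node 498 (merge (leaf 1 494 527) (node 531 (merge (leaf 0 495 530) (node 499 (merge (leaf 0 496 532) (node 468 (merge (leaf 2 464 467) (node 500 (merge (leaf 2 465 469) (node 464 (merge (leaf 3 464 465) (node 432 (merge (leaf 7 367 367) (node 433 (merge (leaf 0 397 397) (leaf 6 400 401))))))))))))))))))))))))))))))))))))))))))))))))))))) nP_28 cP_28 17 (by decide +kernel)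
def nP_29 : ℕ := 0x100000001200000010000000100000000000000000000000000000000000000000000000000000000000000000000000000000000000000000000000000000000000000000000
def cP_29 : ℕ := 0x1d0000003f00000037c000002fc000000df0000027e000000ff0000017e0000007e00000050000000000000000000000000000000000000000000000000000000000000000000000000000000000000000000
theorem lP_29 : S nP_29 cP_29 12 := S_of_chk [] trivial (node 493 (merge (node 561 (merge (leaf 4 464 593) (node 526 (merge (leaf 0 525 527) (node 558 (merge (leaf 3 525 559) (node 590 (merge (leaf 7 493 622) (node 461 (merge (leaf 4 429 429) (leaf 7 461 494))))))))))) (merge (node 561 (merge (leaf 4 464 593) (node 526 (merge (leaf 0 525 527) (node 558 (merge (leaf 3 525 559) (node 590 (merge (leaf 7 493 622) (node 461 (merge (leaf 4 429 429) (leaf 4 461 557))))))))))) (merge (node 557 (merge (node 527 (merge (node 526 (merge (leaf 2 493 497) (leaf 1 524 556))) (merge (node 559 (merge (leaf 5 431 432) (node 558 (merge (leaf 3 524 524) (leaf 2 524 556))))) (node 559 (merge (leaf 5 431 432) (node 526 (merge (leaf 2 493 497) (leaf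 0 524 524)))))))) (merge (node 462 (merge (node 461 (merge (leaf 6 429 430) (node 463 (merge (leaf 1 460 492) (leaf 0 461 497))))) (node 589 (merge (leaf 6 461 494) (node 622 (merge (leaf 4 493 590) (node 621 (merge (leaf 4 525 654) (node 620 (merge (leaf 5 492 588) (leaf 5 524 652))))))))))) (node 558 (merge (node 590 (merge (leaf 4 461 461) (node 622 (merge (leaf 4 493 589) (leaf 7 525 654))))) (node 559 (merge (leaf 3 524 524) (node 527 (merge (leaf 5 431 432) (leaf 2 524 556)))))))))) (merge (node 461 (merge (node 561 (merge (leaf 4 464 593) (node 526 (merge (leaf 0 525 527) (node 429 (merge (leaf 4 429 558) (node 398 (merge (leaf 6 397 430) (node 397 (merge (leaf 6 365 366) (leaf 4 397 494))))))))))) (merge (node 561 (merge (leaf 4 464 593) (node 526 (merge (leaf 0 525 527) (node 429 (merge (leaf 4 429 558) (node 397 (merge (leaf 4 397 494) (node 524 (merge (leaf 5 396 492) (leaf 5 428 556))))))))))) (merge (node 561 (merge (leaf 4 464 593) (node 526 (merge (leaf 0 525 527) (node 429 (merge (leaf 4 429 558) (node 430 (merge (leaf 6 397 398) (node 557 (merge (leaf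 6 429 462) (node 556 (merge (leaf 5 428 524) (leaf 5 460 588))))))))))))) (node 557 (merge (node 462 (merge (leaf 6 429 430) (node 463 (merge (leaf 1 460 492) (leaf 0 461 497))))) (merge (node 460 (merge (leaf 7 428 428) (node 589 (merge (leaf 7 460 492) (node 588 (merge (leaf 5 460 556) (leaf 5 492 620))))))) (node 462 (merge (leaf 6 429 430) (node 589 (merge (leaf 6 461 494) (node 588 (merge (leaf 5 460 556) (leaf 5 492 620)))))))))))))) (merge (node 557 (merge (node 558 (merge (node 590 (merge (leaf 4 461 461) (node 622 (merge (leaf 4 493 589) (leaf 7 525 654))))) (node 559 (merge (leaf 3 524 524) (node 527 (merge (leaf 5 431 432) (leaf 2 524 556))))))) (merge (node 593 (merge (leaf 4 464 561) (node 592 (merge (leaf 4 496 625) (node 558 (merge (leaf 0 557 559) (node 590 (merge (leaf 4 461 461) (node 622 (merge (leaf 4 493 589) (leaf 7 525 654))))))))))) (merge (node 593 (merge (leaf 4 464 561) (node 592 (merge (leaf 4 496 625) (node 558 (merge (leaf 0 557 559) (node 461 (merge (leaf 4 461 590) (node 430 (merge (leaf 6 429 462) (node 429 (merge (leaf 6 397 398)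 (node 556 (merge (leaf 5 428 524) (leaf 5 460 588))))))))))))))) (merge (node 460 (merge (node 492 (merge (leaf 7 460 589) (node 428 (merge (leaf 4 396 396) (leaf 4 428 524))))) (merge (node 589 (merge (leaf 7 460 492) (node 462 (merge (leaf 6 461 494) (node 461 (merge (leaf 6 429 430) (node 588 (merge (leaf 5 460 556) (leaf 5 492 620))))))))) (node 461 (merge (leaf 7 428 428) (node 430 (merge (leaf 6 429 462) (node 429 (merge (leaf 6 397 398) (node 556 (merge (leaf 5 428 524) (leaf 5 460 588)))))))))))) (node 622 (merge (node 589 (merge (leaf 4 493 590) (node 621 (merge (leaf 4 525 654) (node 620 (merge (leaf 5 492 588) (leaf 5 524 652))))))) (merge (node 593 (merge (leaf 4 464 561) (node 592 (merge (leaf 4 496 625) (node 559 (merge (leaf 0 557 558) (node 527 (merge (leaf 5 431 432) (node 624 (merge (leaf 7 527 656) (node 623 (merge (leaf 2 589 621) (leaf 5 527 655))))))))))))) (node 590 (merge (leaf 4 493 589) (node 558 (merge (leaf 7 525 654) (node 559 (merge (leaf 3 524 524) (node 527 (merge (leaf 5 431 432) (leaf 2 524 556))))))))))))))))) (merge (node 461 (merge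 (node 558 (merge (node 590 (merge (leaf 4 461 557) (node 526 (merge (leaf 7 461 494) (leaf 7 493 622))))) (merge (node 561 (merge (leaf 4 464 593) (node 559 (merge (leaf 3 525 526) (node 557 (merge (leaf 3 524 524) (node 588 (merge (leaf 1 556 589) (node 556 (merge (leaf 5 460 461) (leaf 1 555 587))))))))))) (merge (node 561 (merge (leaf 4 464 593) (node 526 (merge (leaf 3 525 559) (node 590 (merge (leaf 7 461 494) (leaf 7 493 622))))))) (node 593 (merge (leaf 4 464 561) (node 592 (merge (leaf 4 496 625) (node 557 (merge (leaf 0 557 559) (node 590 (merge (leaf 4 461 461) (node 622 (merge (leaf 4 493 589) (leaf 7 525 654))))))))))))))) (merge (node 430 (merge (node 462 (merge (leaf 6 429 557) (node 398 (merge (leaf 5 365 366) (leaf 5 397 494))))) (merge (node 557 (merge (leaf 6 429 462) (node 558 (merge (leaf 4 461 590) (node 593 (merge (leaf 4 464 561) (node 592 (merge (leaf 0 557 559) (leaf 4 496 625))))))))) (node 429 (merge (leaf 6 397 398) (node 396 (merge (leaf 7 396 428) (node 397 (merge (leaf 7 364 364) (node 526 (merge (leaf 4 397 494) (leaf 4 429 558))))))))))))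 (node 429 (merge (node 396 (merge (leaf 7 396 428) (node 397 (merge (leaf 7 364 364) (node 524 (merge (leaf 5 396 492) (leaf 5 428 556))))))) (merge (node 398 (merge (leaf 6 397 430) (node 397 (merge (leaf 6 365 366) (node 524 (merge (leaf 5 396 492) (leaf 5 428 556))))))) (merge (node 398 (merge (leaf 6 397 430) (node 397 (merge (leaf 6 365 366) (node 396 (merge (leaf 7 364 364) (leaf 7 396 428))))))) (node 428 (merge (leaf 7 396 396) (node 524 (merge (leaf 5 428 556) (node 427 (merge (node 430 (merge (leaf 6 397 398) (node 426 (merge (leaf 0 426 462) (node 394 (merge (leaf 3 393 393) (leaf 3 394 395))))))) (merge (node 426 (merge (leaf 0 426 462) (node 425 (merge (leaf 0 425 460) (node 457 (merge (leaf 1 424 456) (leaf 1 425 458))))))) (node 430 (merge (leaf 6 397 398) (node 459 (merge (leaf 1 426 458) (node 395 (merge (leaf 3 394 394) (node 492 (merge (leaf 7 395 460) (leaf 4 395 491))))))))))))))))))))))) (merge (node 557 (merge (node 461 (merge (node 462 (merge (leaf 6 429 430) (node 463 (merge (leaf 1 460 492) (leaf 0 461 497))))) (node 428 (merge (leaf 7 428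 460) (node 429 (merge (leaf 7 396 396) (node 556 (merge (leaf 5 428 524) (leaf 5 460 588))))))))) (merge (node 589 (merge (node 622 (merge (leaf 4 493 590) (node 621 (merge (leaf 4 525 654) (node 620 (merge (leaf 5 492 588) (leaf 5 524 652))))))) (merge (node 460 (merge (leaf 7 460 492) (node 461 (merge (leaf 7 428 428) (node 588 (merge (leaf 5 460 556) (leaf 5 492 620))))))) (node 492 (merge (leaf 7 460 460) (node 621 (merge (leaf 7 492 524) (node 622 (merge (leaf 4 493 590) (leaf 4 525 654)))))))))) (merge (node 462 (merge (node 461 (merge (leaf 6 429 430) (node 463 (merge (leaf 1 460 492) (leaf 0 461 497))))) (node 589 (merge (leaf 6 461 494) (node 622 (merge (leaf 4 493 590) (node 621 (merge (leaf 4 525 654) (node 620 (merge (leaf 5 492 588) (leaf 5 524 652))))))))))) (merge (node 589 (merge (node 622 (merge (leaf 4 493 590) (node 621 (merge (leaf 4 525 654) (node 620 (merge (leaf 5 492 588) (leaf 5 524 652))))))) (merge (node 462 (merge (leaf 6 461 494) (node 461 (merge (leaf 6 429 430) (node 588 (merge (leaf 5 460 556) (leaf 5 492 620))))))) (node 526 (merge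 (node 527 (merge (leaf 2 493 497) (leaf 1 524 556))) (node 494 (merge (leaf 6 493 621) (node 462 (merge (leaf 5 429 430) (leaf 6 461 493)))))))))) (merge (node 589 (merge (node 492 (merge (leaf 7 460 460) (node 621 (merge (leaf 7 492 524) (node 622 (merge (leaf 4 493 590) (leaf 4 525 654))))))) (merge (node 462 (merge (leaf 6 461 494) (node 461 (merge (leaf 6 429 430) (node 492 (merge (leaf 7 460 460) (leaf 1 460 463))))))) (node 526 (merge (node 527 (merge (leaf 2 493 497) (leaf 1 524 556))) (node 494 (merge (leaf 6 493 621) (node 462 (merge (leaf 5 429 430) (leaf 6 461 493)))))))))) (node 492 (merge (node 589 (merge (leaf 7 460 460) (node 622 (merge (leaf 4 493 590) (node 621 (merge (leaf 4 525 654) (node 620 (merge (leaf 5 492 588) (leaf 5 524 652))))))))) (merge (node 491 (merge (node 490 (merge (leaf 0 490 526) (node 489 (merge (leaf 0 489 524) (node 457 (merge (leaf 3 456 456) (leaf 3 457 458))))))) (merge (node 490 (merge (leaf 0 490 526) (node 489 (merge (leaf 0 489 524) (node 521 (merge (leaf 1 488 520) (leaf 1 489 522))))))) (merge (node 490 (merge (leaf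 0 490 526) (node 522 (merge (leaf 1 489 521) (node 494 (merge (leaf 1 490 523) (node 458 (merge (leaf 3 457 457) (leaf 3 458 459))))))))) (merge (node 490 (merge (node 489 (merge (leaf 0 489 524) (node 521 (merge (leaf 1 488 520) (leaf 1 489 522))))) (merge (node 489 (merge (leaf 0 489 524) (node 457 (merge (leaf 3 456 456) (leaf 3 457 458))))) (node 522 (merge (leaf 1 489 521) (node 494 (merge (leaf 1 490 523) (node 458 (merge (leaf 3 457 457) (leaf 3 458 459)))))))))) (node 589 (merge (node 621 (merge (leaf 7 492 524) (node 622 (merge (leaf 4 493 590) (leaf 4 525 654))))) (merge (node 494 (merge (leaf 6 461 462) (node 621 (merge (leaf 6 493 526) (node 620 (merge (leaf 5 492 588) (leaf 5 524 652))))))) (node 494 (merge (leaf 6 461 462) (node 523 (merge (leaf 1 490 522) (node 459 (merge (leaf 3 458 458) (node 588 (merge (leaf 5 492 620) (node 556 (merge (leaf 7 459 524) (leaf 4 459 555))))))))))))))))))) (node 491 (merge (node 526 (merge (leaf 0 490 490) (leaf 3 492 527))) (merge (node 490 (merge (node 489 (merge (leaf 0 489 524) (node 521 (merge (leaf 1 488 520)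 (leaf 1 489 522))))) (merge (node 489 (merge (leaf 0 489 524) (node 457 (merge (leaf 3 456 456) (leaf 3 457 458))))) (node 522 (merge (leaf 1 489 521) (node 494 (merge (leaf 1 490 523) (node 458 (merge (leaf 3 457 457) (leaf 3 458 459)))))))))) (node 523 (merge (node 522 (merge (leaf 1 490 494) (node 521 (merge (leaf 2 488 520) (leaf 2 489 524))))) (merge (node 494 (merge (leaf 1 490 522) (node 462 (merge (leaf 2 459 463) (node 430 (merge (leaf 5 397 398) (leaf 5 429 526))))))) (node 555 (merge (node 460 (merge (leaf 6 459 587) (node 428 (merge (leaf 4 396 396) (leaf 6 427 459))))) (node 526 (merge (leaf 3 492 527) (node 554 (merge (leaf 1 522 524) (leaf 2 522 556)))))))))))))))))))))) (node 557 (merge (node 527 (merge (node 526 (merge (leaf 2 493 497) (leaf 1 524 556))) (merge (node 559 (merge (leaf 5 431 432) (node 558 (merge (leaf 3 524 524) (leaf 2 524 556))))) (node 559 (merge (leaf 5 431 432) (node 526 (merge (leaf 2 493 497) (leaf 0 524 524)))))))) (merge (node 561 (merge (leaf 4 464 593) (node 527 (merge (leaf 0 525 526) (node 559 (merge (leaf 5 431 432) (node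 558 (merge (leaf 3 524 524) (node 589 (merge (leaf 1 556 588) (leaf 1 557 590))))))))))) (merge (node 561 (merge (leaf 4 464 593) (node 527 (merge (leaf 0 525 526) (node 559 (merge (leaf 5 431 432) (node 558 (merge (leaf 2 524 556) (node 589 (merge (leaf 1 556 588) (leaf 1 557 590))))))))))) (merge (node 492 (merge (node 589 (merge (leaf 7 460 460) (node 622 (merge (leaf 4 493 590) (node 621 (merge (leaf 4 525 654) (node 620 (merge (leaf 5 492 588) (leaf 5 524 652))))))))) (merge (node 491 (merge (node 490 (merge (leaf 0 490 526) (node 489 (merge (leaf 0 489 524) (node 457 (merge (leaf 3 456 456) (leaf 3 457 458))))))) (merge (node 490 (merge (leaf 0 490 526) (node 489 (merge (leaf 0 489 524) (node 521 (merge (leaf 1 488 520) (leaf 1 489 522))))))) (merge (node 490 (merge (leaf 0 490 526) (node 522 (merge (leaf 1 489 521) (node 494 (merge (leaf 1 490 523) (node 458 (merge (leaf 3 457 457) (leaf 3 458 459))))))))) (merge (node 490 (merge (node 489 (merge (leaf 0 489 524) (node 521 (merge (leaf 1 488 520) (leaf 1 489 522))))) (merge (node 489 (merge (leaf 0 489 524)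 (node 457 (merge (leaf 3 456 456) (leaf 3 457 458))))) (node 522 (merge (leaf 1 489 521) (node 494 (merge (leaf 1 490 523) (node 458 (merge (leaf 3 457 457) (leaf 3 458 459)))))))))) (node 589 (merge (node 621 (merge (leaf 7 492 524) (node 622 (merge (leaf 4 493 590) (leaf 4 525 654))))) (merge (node 494 (merge (leaf 6 461 462) (node 621 (merge (leaf 6 493 526) (node 620 (merge (leaf 5 492 588) (leaf 5 524 652))))))) (node 494 (merge (leaf 6 461 462) (node 523 (merge (leaf 1 490 522) (node 459 (merge (leaf 3 458 458) (node 588 (merge (leaf 5 492 620) (node 556 (merge (leaf 7 459 524) (leaf 4 459 555))))))))))))))))))) (node 491 (merge (node 526 (merge (leaf 0 490 490) (leaf 3 492 527))) (merge (node 490 (merge (node 489 (merge (leaf 0 489 524) (node 521 (merge (leaf 1 488 520) (leaf 1 489 522))))) (merge (node 489 (merge (leaf 0 489 524) (node 457 (merge (leaf 3 456 456) (leaf 3 457 458))))) (node 522 (merge (leaf 1 489 521) (node 494 (merge (leaf 1 490 523) (node 458 (merge (leaf 3 457 457) (leaf 3 458 459)))))))))) (node 523 (merge (node 522 (merge (leaf 1 490 494)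 (node 521 (merge (leaf 2 488 520) (leaf 2 489 524))))) (merge (node 494 (merge (leaf 1 490 522) (node 462 (merge (leaf 2 459 463) (node 430 (merge (leaf 5 397 398) (leaf 5 429 526))))))) (node 555 (merge (node 460 (merge (leaf 6 459 587) (node 428 (merge (leaf 4 396 396) (leaf 6 427 459))))) (node 526 (merge (leaf 3 492 527) (node 554 (merge (leaf 1 522 524) (leaf 2 522 556)))))))))))))))) (merge (node 492 (merge (node 460 (merge (leaf 7 460 589) (node 428 (merge (leaf 4 396 396) (leaf 4 428 524))))) (merge (node 589 (merge (leaf 7 460 460) (node 494 (merge (leaf 6 461 462) (node 621 (merge (leaf 6 493 526) (node 620 (merge (leaf 5 492 588) (leaf 5 524 652))))))))) (merge (node 491 (merge (node 490 (merge (leaf 0 490 526) (node 489 (merge (leaf 0 489 524) (node 457 (merge (leaf 3 456 456) (leaf 3 457 458))))))) (merge (node 490 (merge (leaf 0 490 526) (node 489 (merge (leaf 0 489 524) (node 521 (merge (leaf 1 488 520) (leaf 1 489 522))))))) (merge (node 490 (merge (leaf 0 490 526) (node 522 (merge (leaf 1 489 521) (node 494 (merge (leaf 1 490 523) (node 458 (merge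 (leaf 3 457 457) (leaf 3 458 459))))))))) (merge (node 490 (merge (node 489 (merge (leaf 0 489 524) (node 521 (merge (leaf 1 488 520) (leaf 1 489 522))))) (merge (node 489 (merge (leaf 0 489 524) (node 457 (merge (leaf 3 456 456) (leaf 3 457 458))))) (node 522 (merge (leaf 1 489 521) (node 494 (merge (leaf 1 490 523) (node 458 (merge (leaf 3 457 457) (leaf 3 458 459)))))))))) (node 589 (merge (node 621 (merge (leaf 7 492 524) (node 622 (merge (leaf 4 493 590) (leaf 4 525 654))))) (merge (node 494 (merge (leaf 6 461 462) (node 621 (merge (leaf 6 493 526) (node 620 (merge (leaf 5 492 588) (leaf 5 524 652))))))) (node 494 (merge (leaf 6 461 462) (node 523 (merge (leaf 1 490 522) (node 459 (merge (leaf 3 458 458) (node 588 (merge (leaf 5 492 620) (node 556 (merge (leaf 7 459 524) (leaf 4 459 555))))))))))))))))))) (node 491 (merge (node 490 (merge (leaf 0 490 526) (node 489 (merge (leaf 0 489 524) (node 457 (merge (leaf 3 456 456) (leaf 3 457 458))))))) (merge (node 490 (merge (leaf 0 490 526) (node 489 (merge (leaf 0 489 524) (node 521 (merge (leaf 1 488 520) (leaf 1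 489 522))))))) (merge (node 490 (merge (leaf 0 490 526) (node 522 (merge (leaf 1 489 521) (node 494 (merge (leaf 1 490 523) (node 458 (merge (leaf 3 457 457) (leaf 3 458 459))))))))) (merge (node 490 (merge (node 489 (merge (leaf 0 489 524) (node 521 (merge (leaf 1 488 520) (leaf 1 489 522))))) (merge (node 489 (merge (leaf 0 489 524) (node 457 (merge (leaf 3 456 456) (leaf 3 457 458))))) (node 522 (merge (leaf 1 489 521) (node 494 (merge (leaf 1 490 523) (node 458 (merge (leaf 3 457 457) (leaf 3 458 459)))))))))) (node 459 (merge (node 494 (merge (leaf 3 458 458) (node 462 (merge (leaf 2 459 463) (node 430 (merge (leaf 5 397 398) (leaf 5 429 526))))))) (merge (node 523 (merge (node 522 (merge (leaf 1 490 494) (node 521 (merge (leaf 2 488 520) (leaf 2 489 524))))) (merge (node 494 (merge (leaf 1 490 522) (node 462 (merge (leaf 2 459 463) (node 430 (merge (leaf 5 397 398) (leaf 5 429 526))))))) (node 460 (merge (node 428 (merge (leaf 4 396 396) (leaf 4 428 524))) (node 555 (merge (leaf 6 459 587) (node 556 (merge (leaf 4 459 588) (node 554 (merge (leaf 2 522 526) (leaf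 5 458 586)))))))))))) (node 524 (merge (node 556 (merge (leaf 7 459 588) (node 427 (merge (leaf 4 395 395) (leaf 4 427 523))))) (merge (node 556 (merge (leaf 7 459 588) (node 460 (merge (leaf 7 427 427) (leaf 4 428 428))))) (node 558 (merge (leaf 3 524 559) (node 523 (merge (leaf 0 522 522) (node 460 (merge (leaf 4 428 428) (node 458 (merge (leaf 0 457 457) (node 555 (merge (leaf 7 426 426) (leaf 6 459 587)))))))))))))))))))))))))) (node 622 (merge (node 589 (merge (leaf 4 493 590) (node 621 (merge (leaf 4 525 654) (node 620 (merge (leaf 5 492 588) (leaf 5 524 652))))))) (merge (node 593 (merge (leaf 4 464 561) (node 592 (merge (leaf 4 496 625) (node 559 (merge (leaf 0 557 558) (node 527 (merge (leaf 5 431 432) (node 624 (merge (leaf 7 527 656) (node 623 (merge (leaf 2 589 621) (leaf 5 527 655))))))))))))) (node 590 (merge (leaf 4 493 589) (node 558 (merge (leaf 7 525 654) (node 559 (merge (leaf 3 524 524) (node 527 (merge (leaf 5 431 432) (leaf 2 524 556)))))))))))))))))))))))))) nP_29 cP_29 12 (by decide +kernel)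
def nP_30 : ℕ := 0x120000001200000010000000100000000000000000000000000000000000000000000000000000000000000000000000000000000000000000000000000000000000000000000
def cP_30 : ℕ := 0x1d0000003f000000370000002d0000000900000007000000070000001700000005000000000000000000000000000000000000000000000000000000000000000000000000000000000000000000000000000
theorem lP_30 : S nP_30 cP_30 9 := S_of_chk [] trivial (node 493 (merge (node 593 (merge (leaf 4 464 561) (node 592 (merge (leaf 4 496 625) (node 558 (merge (leaf 0 557 559) (node 590 (merge (leaf 4 461 461) (node 622 (merge (leaf 4 493 589) (leaf 7 525 654))))))))))) (merge (node 593 (merge (leaf 4 464 561) (node 592 (merge (leaf 4 496 625) (node 558 (merge (leaf 0 557 559) (node 461 (merge (leaf 4 461 590) (node 430 (merge (leaf 6 429 462) (node 429 (merge (leaf 6 397 398) (node 556 (merge (leaf 5 428 524) (leaf 5 460 588))))))))))))))) (merge (node 460 (merge (node 492 (merge (leaf 7 460 589) (node 428 (merge (leaf 4 396 396) (leaf 4 428 524))))) (merge (node 461 (merge (leaf 7 428 428) (node 430 (merge (leaf 6 429 462) (node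 429 (merge (leaf 6 397 398) (node 556 (merge (leaf 5 428 524) (leaf 5 460 588))))))))) (node 589 (merge (leaf 7 460 492) (node 622 (merge (leaf 4 493 590) (node 621 (merge (leaf 4 525 654) (node 620 (merge (leaf 5 492 588) (leaf 5 524 652)))))))))))) (merge (node 588 (merge (node 556 (merge (leaf 5 460 461) (node 620 (merge (leaf 6 492 524) (leaf 6 524 652))))) (merge (node 620 (merge (leaf 5 492 589) (node 556 (merge (leaf 6 492 524) (leaf 6 524 652))))) (merge (node 461 (merge (leaf 5 460 556) (node 462 (merge (leaf 6 429 430) (node 589 (merge (leaf 6 461 494) (node 460 (merge (leaf 7 428 428) (leaf 7 460 492))))))))) (node 589 (merge (leaf 5 492 620) (node 462 (merge (leaf 6 461 494) (node 461 (merge (leaf 6 429 430) (node 460 (merge (leaf 7 428 428) (leaf 7 460 492))))))))))))) (node 622 (merge (node 589 (merge (leaf 4 493 590) (node 621 (merge (leaf 4 525 654) (node 620 (merge (leaf 5 492 588) (leaf 5 524 652))))))) (merge (node 593 (merge (leaf 4 464 561) (node 592 (merge (leaf 4 496 625) (node 559 (merge (leaf 0 557 558) (node 527 (merge (leaf 5 431 432) (node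 624 (merge (leaf 7 527 656) (node 623 (merge (leaf 2 589 621) (leaf 5 527 655))))))))))))) (node 590 (merge (leaf 4 493 589) (node 558 (merge (leaf 7 525 654) (node 559 (merge (leaf 3 524 524) (node 527 (merge (leaf 5 431 432) (leaf 2 524 556))))))))))))))))) nP_30 cP_30 9 (by decide +kernel)
def nP_31 : ℕ := 0x100000001000000010000000100000000000000000000000000000000000000000000000000000000000000000000000000000000000000000000000000000000000000000000
def cP_31 : ℕ := 0x50000001f8000003fe0000037c000002fc000000ff0000027f000000ff000003ff000003fe000002d8000000000000000000000000000000000000000000000000000000000000000000000000000000000000000000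
theorem lP_31 : S nP_31 cP_31 13 := S_of_chk [(nP_29, cP_29, 12), (nP_30, cP_30, 9)] ⟨lP_29, lP_30, trivial⟩ (node 525 (merge (node 561 (merge (leaf 4 464 593) (node 527 (merge (leaf 0 525 526) (node 432 (merge (leaf 5 431 559) (node 401 (merge (leaf 6 400 433) (node 400 (merge (leaf 6 368 369) (node 399 (merge (leaf 7 367 367) (leaf 7 399 431))))))))))))) (merge (node 461 (merge (node 561 (merge (leaf 4 464 593) (node 526 (merge (leaf 0 525 527) (node 558 (merge (leaf 3 525 559) (node 493 (merge (leaf 4 429 429) (node 590 (merge (leaf 7 461 494) (leaf 7 493 622))))))))))) (merge (node 463 (merge (leaf 7 431 431) (node 462 (merge (leaf 0 461 497) (node 492 (merge (leaf 1 460 493) (node 460 (merge (leaf 1 459 491) (node 428 (merge (leaf 3 427 427) (leaf 3 428 429))))))))))) (merge (node 463 (merge (leaf 7 431 431) (node 462 (merge (leaf 0 461 497) (node 429 (merge (leaf 3 428 428) (node 561 (merge (leaf 4 464 593) (node 526 (merge (leaf 0 525 527) (node 558 (merge (leaf 7 429 494) (leaf 3 525 559))))))))))))) (node 463 (merge (leaf 7 431 431) (node 462 (merge (leaf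 0 461 497) (node 493 (merge (leaf 1 460 492) (node 557 (merge (leaf 6 429 430) (node 558 (merge (leaf 4 461 590) (node 561 (merge (leaf 4 464 593) (node 526 (merge (leaf 0 525 527) (leaf 3 525 559))))))))))))))))))) (merge (node 431 (merge (leaf 7 431 463) (node 432 (merge (leaf 7 399 399) (node 527 (merge (leaf 5 431 559) (node 526 (merge (leaf 2 493 497) (node 556 (merge (leaf 1 524 557) (node 524 (merge (leaf 1 523 555) (node 492 (merge (leaf 3 491 491) (leaf 3 492 493))))))))))))))) (merge (node 461 (merge (node 463 (merge (leaf 7 431 431) (node 462 (merge (leaf 0 461 497) (node 492 (merge (leaf 1 460 493) (node 460 (merge (leaf 1 459 491) (node 428 (merge (leaf 3 427 427) (leaf 3 428 429))))))))))) (merge (node 431 (merge (leaf 7 431 463) (node 432 (merge (leaf 7 399 399) (node 433 (merge (leaf 6 400 401) (node 430 (merge (leaf 1 429 462) (node 429 (merge (leaf 1 428 460) (node 397 (merge (leaf 3 396 396) (leaf 3 397 398))))))))))))) (merge (node 463 (merge (leaf 7 431 431) (node 462 (merge (leaf 0 461 497) (node 493 (merge (leaf 1 460 492) (node 430 (merge (leaf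 6 429 557) (node 398 (merge (leaf 5 365 366) (leaf 5 397 494))))))))))) (merge (node 493 (merge (node 558 (merge (node 590 (merge (leaf 4 461 557) (node 526 (merge (leaf 7 461 494) (leaf 7 493 622))))) (merge (node 561 (merge (leaf 4 464 593) (node 559 (merge (leaf 3 525 526) (node 557 (merge (leaf 3 524 524) (node 588 (merge (leaf 1 556 589) (node 556 (merge (leaf 5 460 461) (leaf 1 555 587))))))))))) (merge (node 561 (merge (leaf 4 464 593) (node 526 (merge (leaf 3 525 559) (node 590 (merge (leaf 7 461 494) (leaf 7 493 622))))))) (node 593 (merge (leaf 4 464 561) (node 592 (merge (leaf 4 496 625) (node 557 (merge (leaf 0 557 559) (node 590 (merge (leaf 4 461 461) (node 622 (merge (leaf 4 493 589) (leaf 7 525 654))))))))))))))) (merge (node 430 (merge (node 462 (merge (leaf 6 429 557) (node 398 (merge (leaf 5 365 366) (leaf 5 397 494))))) (merge (node 557 (merge (leaf 6 429 462) (node 558 (merge (leaf 4 461 590) (node 593 (merge (leaf 4 464 561) (node 592 (merge (leaf 0 557 559) (leaf 4 496 625))))))))) (node 429 (merge (leaf 6 397 398) (node 396 (merge (leaf 7 396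 428) (node 397 (merge (leaf 7 364 364) (node 526 (merge (leaf 4 397 494) (leaf 4 429 558)))))))))))) (node 429 (merge (node 396 (merge (leaf 7 396 428) (node 397 (merge (leaf 7 364 364) (node 524 (merge (leaf 5 396 492) (leaf 5 428 556))))))) (merge (node 398 (merge (leaf 6 397 430) (node 397 (merge (leaf 6 365 366) (node 524 (merge (leaf 5 396 492) (leaf 5 428 556))))))) (merge (node 398 (merge (leaf 6 397 430) (node 397 (merge (leaf 6 365 366) (node 396 (merge (leaf 7 364 364) (leaf 7 396 428))))))) (node 428 (merge (leaf 7 396 396) (node 524 (merge (leaf 5 428 556) (node 427 (merge (node 430 (merge (leaf 6 397 398) (node 426 (merge (leaf 0 426 462) (node 394 (merge (leaf 3 393 393) (leaf 3 394 395))))))) (merge (node 426 (merge (leaf 0 426 462) (node 425 (merge (leaf 0 425 460) (node 457 (merge (leaf 1 424 456) (leaf 1 425 458))))))) (node 430 (merge (leaf 6 397 398) (node 459 (merge (leaf 1 426 458) (node 395 (merge (leaf 3 394 394) (node 492 (merge (leaf 7 395 460) (leaf 4 395 491))))))))))))))))))))))) (node 493 (merge (node 431 (merge (leaf 7 431 463) (node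 432 (merge (leaf 7 399 399) (node 401 (merge (leaf 6 400 433) (node 400 (merge (leaf 6 368 369) (node 429 (merge (leaf 2 397 430) (node 526 (merge (leaf 4 429 558) (node 397 (merge (leaf 4 397 494) (node 524 (merge (leaf 5 396 492) (leaf 5 428 556))))))))))))))))) (merge (node 558 (merge (node 590 (merge (leaf 4 461 557) (node 526 (merge (leaf 7 461 494) (leaf 7 493 622))))) (merge (node 561 (merge (leaf 4 464 593) (node 559 (merge (leaf 3 525 526) (node 557 (merge (leaf 3 524 524) (node 588 (merge (leaf 1 556 589) (node 556 (merge (leaf 5 460 461) (leaf 1 555 587))))))))))) (merge (node 561 (merge (leaf 4 464 593) (node 526 (merge (leaf 3 525 559) (node 590 (merge (leaf 7 461 494) (leaf 7 493 622))))))) (node 593 (merge (leaf 4 464 561) (node 592 (merge (leaf 4 496 625) (node 557 (merge (leaf 0 557 559) (node 590 (merge (leaf 4 461 461) (node 622 (merge (leaf 4 493 589) (leaf 7 525 654))))))))))))))) (merge (node 431 (merge (leaf 7 431 463) (node 432 (merge (leaf 7 399 399) (node 401 (merge (leaf 6 400 433) (node 400 (merge (leaf 6 368 369) (node 429 (merge (leaf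 2 397 430) (node 396 (merge (leaf 7 396 428) (node 397 (merge (leaf 7 364 364) (node 524 (merge (leaf 5 396 492) (leaf 5 428 556))))))))))))))))) (node 431 (merge (leaf 7 431 463) (node 432 (merge (leaf 7 399 399) (node 401 (merge (leaf 6 400 433) (node 400 (merge (leaf 6 368 369) (node 429 (merge (leaf 2 397 430) (node 396 (merge (leaf 7 396 428) (node 397 (merge (leaf 7 364 364) (node 526 (merge (leaf 4 397 494) (leaf 4 429 558)))))))))))))))))))))))))) (merge (node 461 (merge (node 463 (merge (leaf 7 431 431) (node 462 (merge (leaf 0 461 497) (node 493 (merge (leaf 1 460 492) (node 430 (merge (leaf 6 429 557) (node 398 (merge (leaf 5 365 366) (leaf 5 397 494))))))))))) (merge (node 463 (merge (leaf 7 431 431) (node 462 (merge (leaf 0 461 497) (node 492 (merge (leaf 1 460 493) (node 460 (merge (leaf 1 459 491) (node 428 (merge (leaf 3 427 427) (leaf 3 428 429))))))))))) (merge (node 431 (merge (leaf 7 431 463) (node 432 (merge (leaf 7 399 399) (node 433 (merge (leaf 6 400 401) (node 430 (merge (leaf 1 429 462) (node 429 (merge (leaf 1 428 460) (node 397 (merge (leaf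 3 396 396) (leaf 3 397 398))))))))))))) (merge (node 429 (merge (node 431 (merge (leaf 7 431 463) (node 432 (merge (leaf 7 399 399) (node 401 (merge (leaf 6 400 433) (node 430 (merge (leaf 2 397 400) (leaf 1 428 460))))))))) (merge (node 561 (merge (leaf 4 464 593) (node 526 (merge (leaf 0 525 527) (node 493 (merge (leaf 4 429 558) (node 397 (merge (leaf 4 397 494) (node 524 (merge (leaf 5 396 492) (leaf 5 428 556))))))))))) (node 493 (merge (node 524 (merge (leaf 5 428 556) (node 398 (merge (leaf 6 397 430) (node 397 (merge (leaf 6 365 366) (leaf 5 396 492))))))) (merge (node 428 (merge (leaf 7 396 396) (node 557 (merge (leaf 7 428 460) (node 556 (merge (leaf 5 428 524) (leaf 5 460 588))))))) (node 398 (merge (leaf 6 397 430) (node 397 (merge (leaf 6 365 366) (node 396 (merge (leaf 7 364 364) (leaf 7 396 428))))))))))))) (merge (node 493 (merge (node 561 (merge (leaf 4 464 593) (node 526 (merge (leaf 0 525 527) (node 558 (merge (leaf 4 429 429) (node 590 (merge (leaf 7 461 494) (leaf 4 461 557))))))))) (merge (node 557 (merge (node 462 (merge (leaf 6 429 430) (node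 463 (merge (leaf 1 460 492) (leaf 0 461 497))))) (merge (node 460 (merge (leaf 7 428 428) (node 589 (merge (leaf 7 460 492) (node 588 (merge (leaf 5 460 556) (leaf 5 492 620))))))) (node 462 (merge (leaf 6 429 430) (node 589 (merge (leaf 6 461 494) (node 588 (merge (leaf 5 460 556) (leaf 5 492 620)))))))))) (node 429 (merge (node 396 (merge (leaf 7 396 428) (node 397 (merge (leaf 7 364 364) (node 524 (merge (leaf 5 396 492) (leaf 5 428 556))))))) (merge (node 398 (merge (leaf 6 397 430) (node 397 (merge (leaf 6 365 366) (node 524 (merge (leaf 5 396 492) (leaf 5 428 556))))))) (merge (node 398 (merge (leaf 6 397 430) (node 397 (merge (leaf 6 365 366) (node 396 (merge (leaf 7 364 364) (leaf 7 396 428))))))) (node 428 (merge (leaf 7 396 396) (node 524 (merge (leaf 5 428 556) (node 427 (merge (node 430 (merge (leaf 6 397 398) (node 426 (merge (leaf 0 426 462) (node 394 (merge (leaf 3 393 393) (leaf 3 394 395))))))) (merge (node 426 (merge (leaf 0 426 462) (node 425 (merge (leaf 0 425 460) (node 457 (merge (leaf 1 424 456) (leaf 1 425 458))))))) (node 430 (merge (leaf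 6 397 398) (node 459 (merge (leaf 1 426 458) (node 395 (merge (leaf 3 394 394) (node 492 (merge (leaf 7 395 460) (leaf 4 395 491))))))))))))))))))))))) (node 493 (merge (node 561 (merge (leaf 4 464 593) (node 526 (merge (leaf 0 525 527) (node 558 (merge (leaf 4 429 429) (node 590 (merge (leaf 4 461 557) (leaf 7 493 622))))))))) (merge (node 429 (merge (node 524 (merge (leaf 5 428 556) (node 398 (merge (leaf 6 397 430) (node 397 (merge (leaf 6 365 366) (leaf 5 396 492))))))) (merge (node 430 (merge (leaf 6 397 398) (node 557 (merge (leaf 6 429 462) (node 428 (merge (leaf 7 396 396) (leaf 7 428 460))))))) (node 428 (merge (leaf 7 396 396) (node 557 (merge (leaf 7 428 460) (node 556 (merge (leaf 5 428 524) (leaf 5 460 588)))))))))) (merge (node 561 (merge (leaf 4 464 593) (node 526 (merge (leaf 0 525 527) (node 429 (merge (leaf 4 429 558) (node 398 (merge (leaf 6 397 430) (node 397 (merge (leaf 6 365 366) (leaf 4 397 494))))))))))) (node 460 (merge (node 557 (merge (leaf 7 428 428) (node 589 (merge (leaf 7 460 492) (node 590 (merge (leaf 4 461 558) (leaf 4 493 622)))))))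 (merge (node 557 (merge (leaf 7 428 428) (node 590 (merge (leaf 4 461 558) (node 589 (merge (leaf 4 493 622) (node 588 (merge (leaf 5 460 556) (leaf 5 492 620))))))))) (merge (node 459 (merge (node 458 (merge (leaf 0 458 494) (node 457 (merge (leaf 0 457 492) (node 425 (merge (leaf 3 424 424) (leaf 3 425 426))))))) (merge (node 458 (merge (leaf 0 458 494) (node 457 (merge (leaf 0 457 492) (node 489 (merge (leaf 1 456 488) (leaf 1 457 490))))))) (merge (node 458 (merge (leaf 0 458 494) (node 490 (merge (leaf 1 457 489) (node 462 (merge (leaf 1 458 491) (node 426 (merge (leaf 3 425 425) (leaf 3 426 427))))))))) (merge (node 458 (merge (node 457 (merge (leaf 0 457 492) (node 489 (merge (leaf 1 456 488) (leaf 1 457 490))))) (merge (node 457 (merge (leaf 0 457 492) (node 425 (merge (leaf 3 424 424) (leaf 3 425 426))))) (node 490 (merge (leaf 1 457 489) (node 462 (merge (leaf 1 458 491) (node 426 (merge (leaf 3 425 425) (leaf 3 426 427)))))))))) (node 557 (merge (node 589 (merge (leaf 7 460 492) (node 590 (merge (leaf 4 461 558) (leaf 4 493 622))))) (merge (node 462 (merge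 (leaf 6 429 430) (node 589 (merge (leaf 6 461 494) (node 588 (merge (leaf 5 460 556) (leaf 5 492 620))))))) (node 462 (merge (leaf 6 429 430) (node 491 (merge (leaf 1 458 490) (node 427 (merge (leaf 3 426 426) (node 556 (merge (leaf 5 460 588) (node 524 (merge (leaf 7 427 492) (leaf 4 427 523))))))))))))))))))) (node 459 (merge (node 458 (merge (leaf 0 458 494) (node 457 (merge (leaf 0 457 492) (node 425 (merge (leaf 3 424 424) (leaf 3 425 426))))))) (merge (node 458 (merge (leaf 0 458 494) (node 457 (merge (leaf 0 457 492) (node 489 (merge (leaf 1 456 488) (leaf 1 457 490))))))) (merge (node 458 (merge (leaf 0 458 494) (node 490 (merge (leaf 1 457 489) (node 462 (merge (leaf 1 458 491) (node 426 (merge (leaf 3 425 425) (leaf 3 426 427))))))))) (merge (node 458 (merge (node 457 (merge (leaf 0 457 492) (node 489 (merge (leaf 1 456 488) (leaf 1 457 490))))) (merge (node 457 (merge (leaf 0 457 492) (node 425 (merge (leaf 3 424 424) (leaf 3 425 426))))) (node 490 (merge (leaf 1 457 489) (node 462 (merge (leaf 1 458 491) (node 426 (merge (leaf 3 425 425) (leaf 3 426 427))))))))))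 (node 427 (merge (node 462 (merge (leaf 3 426 426) (node 430 (merge (leaf 2 427 431) (node 398 (merge (leaf 5 365 366) (leaf 5 397 494))))))) (merge (node 491 (merge (node 490 (merge (leaf 1 458 462) (node 489 (merge (leaf 2 456 488) (leaf 2 457 492))))) (node 523 (merge (node 428 (merge (leaf 6 395 396) (leaf 6 427 555))) (node 524 (merge (leaf 4 427 556) (node 522 (merge (leaf 2 490 494) (leaf 5 426 554))))))))) (node 492 (merge (node 524 (merge (leaf 7 427 556) (node 395 (merge (leaf 4 363 363) (leaf 4 395 491))))) (merge (node 524 (merge (leaf 7 427 556) (node 428 (merge (leaf 7 395 395) (leaf 4 396 396))))) (node 526 (merge (leaf 3 492 527) (node 491 (merge (leaf 0 490 490) (node 428 (merge (leaf 4 396 396) (node 426 (merge (leaf 0 425 425) (node 523 (merge (leaf 7 394 394) (leaf 6 427 555)))))))))))))))))))))))))))))))))))) (merge (hyp 0) (node 557 (merge (node 431 (merge (leaf 7 431 463) (node 432 (merge (leaf 7 399 399) (node 593 (merge (leaf 4 464 561) (node 592 (merge (leaf 4 496 625) (node 559 (merge (leaf 5 431 527) (leaf 0 557 558))))))))))) (merge (node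 461 (merge (node 463 (merge (leaf 7 431 431) (node 462 (merge (leaf 0 461 497) (node 493 (merge (leaf 6 429 430) (leaf 1 460 492))))))) (merge (node 593 (merge (leaf 4 464 561) (node 592 (merge (leaf 4 496 625) (node 558 (merge (leaf 0 557 559) (node 493 (merge (leaf 4 461 590) (node 428 (merge (leaf 7 428 460) (node 429 (merge (leaf 7 396 396) (node 556 (merge (leaf 5 428 524) (leaf 5 460 588))))))))))))))) (node 463 (merge (leaf 7 431 431) (node 462 (merge (leaf 0 461 497) (node 428 (merge (leaf 3 428 429) (node 460 (merge (leaf 3 427 427) (node 492 (merge (leaf 1 459 491) (leaf 4 428 524)))))))))))))) (merge (hyp 1) (merge (node 461 (merge (node 463 (merge (leaf 7 431 431) (node 462 (merge (leaf 0 461 497) (node 493 (merge (leaf 6 429 430) (leaf 1 460 492))))))) (merge (node 463 (merge (leaf 7 431 431) (node 462 (merge (leaf 0 461 497) (node 428 (merge (leaf 3 428 429) (node 460 (merge (leaf 3 427 427) (node 492 (merge (leaf 1 459 491) (leaf 4 428 524))))))))))) (merge (node 463 (merge (leaf 7 431 431) (node 462 (merge (leaf 0 461 497) (node 493 (merge (leaf 6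 429 430) (node 428 (merge (leaf 3 428 429) (leaf 7 428 460))))))))) (merge (node 493 (merge (node 462 (merge (leaf 6 429 430) (node 589 (merge (leaf 6 461 494) (node 460 (merge (leaf 7 428 428) (leaf 7 460 492))))))) (merge (node 462 (merge (leaf 6 429 430) (node 589 (merge (leaf 6 461 494) (node 588 (merge (leaf 5 460 556) (leaf 5 492 620))))))) (merge (node 460 (merge (leaf 7 428 428) (node 589 (merge (leaf 7 460 492) (node 588 (merge (leaf 5 460 556) (leaf 5 492 620))))))) (node 429 (merge (node 524 (merge (leaf 5 428 556) (node 398 (merge (leaf 6 397 430) (node 397 (merge (leaf 6 365 366) (leaf 5 396 492))))))) (merge (node 430 (merge (leaf 6 397 398) (node 557 (merge (leaf 6 429 462) (node 428 (merge (leaf 7 396 396) (leaf 7 428 460))))))) (node 428 (merge (leaf 7 396 396) (node 557 (merge (leaf 7 428 460) (node 556 (merge (leaf 5 428 524) (leaf 5 460 588)))))))))))))) (node 493 (merge (node 460 (merge (leaf 7 428 428) (node 589 (merge (leaf 7 460 492) (node 588 (merge (leaf 5 460 556) (leaf 5 492 620))))))) (merge (node 431 (merge (leaf 7 431 463) (node 432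 (merge (leaf 7 399 399) (node 556 (merge (leaf 5 460 588) (node 429 (merge (leaf 5 428 524) (node 430 (merge (leaf 6 397 398) (leaf 1 428 460))))))))))) (merge (node 431 (merge (leaf 7 431 463) (node 432 (merge (leaf 7 399 399) (node 401 (merge (leaf 6 400 433) (node 400 (merge (leaf 6 368 369) (node 429 (merge (leaf 2 397 430) (node 396 (merge (leaf 7 396 428) (node 397 (merge (leaf 7 364 364) (node 524 (merge (leaf 5 396 492) (leaf 5 428 556))))))))))))))))) (node 460 (merge (leaf 7 428 428) (node 589 (merge (leaf 7 460 492) (node 622 (merge (leaf 4 493 590) (node 621 (merge (leaf 4 525 654) (node 620 (merge (leaf 5 492 588) (leaf 5 524 652)))))))))))))))))))) (node 589 (merge (node 431 (merge (leaf 7 431 463) (node 432 (merge (leaf 7 399 399) (node 559 (merge (leaf 5 431 527) (node 558 (merge (leaf 3 524 524) (leaf 1 556 588))))))))) (merge (node 492 (merge (node 524 (merge (leaf 7 492 621) (node 460 (merge (leaf 4 428 428) (leaf 4 460 556))))) (merge (node 493 (merge (leaf 7 460 460) (node 462 (merge (leaf 6 461 494) (node 461 (merge (leaf 6 429 430) (leaf 1 460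 463))))))) (node 621 (merge (leaf 7 492 524) (node 622 (merge (leaf 4 525 654) (node 493 (merge (leaf 4 493 590) (node 620 (merge (leaf 5 492 588) (leaf 5 524 652)))))))))))) (merge (node 431 (merge (leaf 7 431 463) (node 432 (merge (leaf 7 399 399) (node 559 (merge (leaf 5 431 527) (node 524 (merge (leaf 3 524 558) (node 492 (merge (leaf 7 492 621) (node 460 (merge (leaf 4 428 428) (leaf 4 460 556))))))))))))) (merge (node 431 (merge (leaf 7 431 463) (node 432 (merge (leaf 7 399 399) (node 559 (merge (leaf 5 431 527) (node 588 (merge (leaf 1 556 558) (node 620 (merge (leaf 5 492 493) (node 652 (merge (leaf 6 524 556) (leaf 5 524 621))))))))))))) (node 621 (merge (node 654 (merge (leaf 4 525 622) (node 653 (merge (leaf 4 557 686) (node 652 (merge (leaf 5 524 620) (leaf 5 556 684))))))) (merge (node 524 (merge (leaf 7 492 492) (node 653 (merge (leaf 7 524 556) (node 654 (merge (leaf 4 525 622) (leaf 4 557 686))))))) (merge (node 524 (merge (leaf 7 492 492) (node 653 (merge (leaf 7 524 556) (node 652 (merge (leaf 5 524 620) (leaf 5 556 684))))))) (node 588 (merge (node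 622 (merge (leaf 4 525 654) (node 587 (merge (leaf 0 586 586) (node 623 (merge (leaf 0 587 590) (leaf 3 588 624))))))) (merge (node 622 (merge (leaf 4 525 654) (node 623 (merge (leaf 3 588 624) (node 620 (merge (leaf 3 587 587) (leaf 5 524 652))))))) (node 620 (merge (leaf 5 524 652) (node 619 (merge (node 618 (merge (leaf 2 586 590) (leaf 2 585 617))) (node 524 (merge (leaf 7 492 492) (node 556 (merge (leaf 5 523 651) (node 523 (merge (leaf 7 491 491) (node 522 (merge (leaf 0 521 521) (leaf 0 522 558))))))))))))))))))))))))))))))))))))) nP_31 cP_31 13 (by decide +kernel)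
def nP_32 : ℕ := 0x100000001200000010000000100000000000000000000000000000000000000000000000000000000000000000000000000000000000000000000000000000000000000000000
def cP_32 : ℕ := 0x1d0000003f00000037c000002fc000000df0000027e000002ff0000017e0000007e00000050000000000000000000000000000000000000000000000000000000000000000000000000000000000000000000
theorem lP_32 : S nP_32 cP_32 14 := S_of_chk [] trivial (node 493 (merge (node 561 (merge (leaf 4 464 593) (node 526 (merge (leaf 0 525 527) (node 558 (merge (leaf 3 525 559) (node 590 (merge (leaf 7 493 622) (node 461 (merge (leaf 4 429 429) (leaf 7 461 494))))))))))) (merge (node 561 (merge (leaf 4 464 593) (node 526 (merge (leaf 0 525 527) (node 558 (merge (leaf 3 525 559) (node 590 (merge (leaf 7 493 622) (node 461 (merge (leaf 4 429 429) (leaf 4 461 557))))))))))) (merge (node 557 (merge (node 527 (merge (node 526 (merge (leaf 2 493 497) (leaf 1 524 556))) (merge (node 559 (merge (leaf 5 431 432) (node 558 (merge (leaf 3 524 524) (leaf 2 524 556))))) (node 559 (merge (leaf 5 431 432) (node 526 (merge (leaf 2 493 497) (leaf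 0 524 524)))))))) (merge (node 462 (merge (node 461 (merge (leaf 6 429 430) (node 463 (merge (leaf 1 460 492) (leaf 0 461 497))))) (node 589 (merge (leaf 6 461 494) (node 622 (merge (leaf 4 493 590) (node 621 (merge (leaf 4 525 654) (node 620 (merge (leaf 5 492 588) (leaf 5 524 652))))))))))) (node 558 (merge (node 590 (merge (leaf 4 461 461) (node 622 (merge (leaf 4 493 589) (leaf 7 525 654))))) (node 559 (merge (leaf 3 524 524) (node 527 (merge (leaf 5 431 432) (leaf 2 524 556)))))))))) (merge (node 461 (merge (node 561 (merge (leaf 4 464 593) (node 526 (merge (leaf 0 525 527) (node 429 (merge (leaf 4 429 558) (node 398 (merge (leaf 6 397 430) (node 397 (merge (leaf 6 365 366) (leaf 4 397 494))))))))))) (merge (node 561 (merge (leaf 4 464 593) (node 526 (merge (leaf 0 525 527) (node 429 (merge (leaf 4 429 558) (node 397 (merge (leaf 4 397 494) (node 524 (merge (leaf 5 396 492) (leaf 5 428 556))))))))))) (merge (node 561 (merge (leaf 4 464 593) (node 526 (merge (leaf 0 525 527) (node 429 (merge (leaf 4 429 558) (node 430 (merge (leaf 6 397 398) (node 557 (merge (leaf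 6 429 462) (node 556 (merge (leaf 5 428 524) (leaf 5 460 588))))))))))))) (node 557 (merge (node 462 (merge (leaf 6 429 430) (node 463 (merge (leaf 1 460 492) (leaf 0 461 497))))) (merge (node 460 (merge (leaf 7 428 428) (node 589 (merge (leaf 7 460 492) (node 588 (merge (leaf 5 460 556) (leaf 5 492 620))))))) (node 462 (merge (leaf 6 429 430) (node 589 (merge (leaf 6 461 494) (node 588 (merge (leaf 5 460 556) (leaf 5 492 620)))))))))))))) (merge (node 557 (merge (node 558 (merge (node 590 (merge (leaf 4 461 461) (node 622 (merge (leaf 4 493 589) (leaf 7 525 654))))) (node 559 (merge (leaf 3 524 524) (node 527 (merge (leaf 5 431 432) (leaf 2 524 556))))))) (merge (node 593 (merge (leaf 4 464 561) (node 592 (merge (leaf 4 496 625) (node 558 (merge (leaf 0 557 559) (node 590 (merge (leaf 4 461 461) (node 622 (merge (leaf 4 493 589) (leaf 7 525 654))))))))))) (merge (node 593 (merge (leaf 4 464 561) (node 592 (merge (leaf 4 496 625) (node 558 (merge (leaf 0 557 559) (node 461 (merge (leaf 4 461 590) (node 430 (merge (leaf 6 429 462) (node 429 (merge (leaf 6 397 398)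 (node 556 (merge (leaf 5 428 524) (leaf 5 460 588))))))))))))))) (merge (node 460 (merge (node 492 (merge (leaf 7 460 589) (node 428 (merge (leaf 4 396 396) (leaf 4 428 524))))) (merge (node 589 (merge (leaf 7 460 492) (node 462 (merge (leaf 6 461 494) (node 461 (merge (leaf 6 429 430) (node 588 (merge (leaf 5 460 556) (leaf 5 492 620))))))))) (node 461 (merge (leaf 7 428 428) (node 430 (merge (leaf 6 429 462) (node 429 (merge (leaf 6 397 398) (node 556 (merge (leaf 5 428 524) (leaf 5 460 588)))))))))))) (node 622 (merge (node 589 (merge (leaf 4 493 590) (node 621 (merge (leaf 4 525 654) (node 620 (merge (leaf 5 492 588) (leaf 5 524 652))))))) (merge (node 593 (merge (leaf 4 464 561) (node 592 (merge (leaf 4 496 625) (node 559 (merge (leaf 0 557 558) (node 527 (merge (leaf 5 431 432) (node 624 (merge (leaf 7 527 656) (node 623 (merge (leaf 2 589 621) (leaf 5 527 655))))))))))))) (node 590 (merge (leaf 4 493 589) (node 558 (merge (leaf 7 525 654) (node 559 (merge (leaf 3 524 524) (node 527 (merge (leaf 5 431 432) (leaf 2 524 556))))))))))))))))) (merge (node 461 (merge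 (node 558 (merge (node 590 (merge (leaf 4 461 557) (node 526 (merge (leaf 7 461 494) (leaf 7 493 622))))) (merge (node 561 (merge (leaf 4 464 593) (node 559 (merge (leaf 3 525 526) (node 557 (merge (leaf 3 524 524) (node 588 (merge (leaf 1 556 589) (node 556 (merge (leaf 5 460 461) (leaf 1 555 587))))))))))) (merge (node 561 (merge (leaf 4 464 593) (node 526 (merge (leaf 3 525 559) (node 590 (merge (leaf 7 461 494) (leaf 7 493 622))))))) (node 593 (merge (leaf 4 464 561) (node 592 (merge (leaf 4 496 625) (node 557 (merge (leaf 0 557 559) (node 590 (merge (leaf 4 461 461) (node 622 (merge (leaf 4 493 589) (leaf 7 525 654))))))))))))))) (merge (node 430 (merge (node 462 (merge (leaf 6 429 557) (node 398 (merge (leaf 5 365 366) (leaf 5 397 494))))) (merge (node 557 (merge (leaf 6 429 462) (node 558 (merge (leaf 4 461 590) (node 593 (merge (leaf 4 464 561) (node 592 (merge (leaf 0 557 559) (leaf 4 496 625))))))))) (node 429 (merge (leaf 6 397 398) (node 396 (merge (leaf 7 396 428) (node 397 (merge (leaf 7 364 364) (node 526 (merge (leaf 4 397 494) (leaf 4 429 558))))))))))))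 (node 429 (merge (node 396 (merge (leaf 7 396 428) (node 397 (merge (leaf 7 364 364) (node 524 (merge (leaf 5 396 492) (leaf 5 428 556))))))) (merge (node 398 (merge (leaf 6 397 430) (node 397 (merge (leaf 6 365 366) (node 524 (merge (leaf 5 396 492) (leaf 5 428 556))))))) (merge (node 398 (merge (leaf 6 397 430) (node 397 (merge (leaf 6 365 366) (node 396 (merge (leaf 7 364 364) (leaf 7 396 428))))))) (node 428 (merge (leaf 7 396 396) (node 524 (merge (leaf 5 428 556) (node 427 (merge (node 430 (merge (leaf 6 397 398) (node 426 (merge (leaf 0 426 462) (node 394 (merge (leaf 3 393 393) (leaf 3 394 395))))))) (merge (node 426 (merge (leaf 0 426 462) (node 425 (merge (leaf 0 425 460) (node 457 (merge (leaf 1 424 456) (leaf 1 425 458))))))) (node 430 (merge (leaf 6 397 398) (node 459 (merge (leaf 1 426 458) (node 395 (merge (leaf 3 394 394) (node 492 (merge (leaf 7 395 460) (leaf 4 395 491))))))))))))))))))))))) (merge (node 557 (merge (node 461 (merge (node 462 (merge (leaf 6 429 430) (node 463 (merge (leaf 1 460 492) (leaf 0 461 497))))) (node 428 (merge (leaf 7 428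 460) (node 429 (merge (leaf 7 396 396) (node 556 (merge (leaf 5 428 524) (leaf 5 460 588))))))))) (merge (node 589 (merge (node 622 (merge (leaf 4 493 590) (node 621 (merge (leaf 4 525 654) (node 620 (merge (leaf 5 492 588) (leaf 5 524 652))))))) (merge (node 460 (merge (leaf 7 460 492) (node 461 (merge (leaf 7 428 428) (node 588 (merge (leaf 5 460 556) (leaf 5 492 620))))))) (node 492 (merge (leaf 7 460 460) (node 621 (merge (leaf 7 492 524) (node 622 (merge (leaf 4 493 590) (leaf 4 525 654)))))))))) (merge (node 462 (merge (node 461 (merge (leaf 6 429 430) (node 463 (merge (leaf 1 460 492) (leaf 0 461 497))))) (node 589 (merge (leaf 6 461 494) (node 622 (merge (leaf 4 493 590) (node 621 (merge (leaf 4 525 654) (node 620 (merge (leaf 5 492 588) (leaf 5 524 652))))))))))) (merge (node 589 (merge (node 622 (merge (leaf 4 493 590) (node 621 (merge (leaf 4 525 654) (node 620 (merge (leaf 5 492 588) (leaf 5 524 652))))))) (merge (node 462 (merge (leaf 6 461 494) (node 461 (merge (leaf 6 429 430) (node 588 (merge (leaf 5 460 556) (leaf 5 492 620))))))) (node 526 (merge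 (node 527 (merge (leaf 2 493 497) (leaf 1 524 556))) (node 494 (merge (leaf 6 493 621) (node 462 (merge (leaf 5 429 430) (leaf 6 461 493)))))))))) (merge (node 589 (merge (node 492 (merge (leaf 7 460 460) (node 621 (merge (leaf 7 492 524) (node 622 (merge (leaf 4 493 590) (leaf 4 525 654))))))) (merge (node 462 (merge (leaf 6 461 494) (node 461 (merge (leaf 6 429 430) (node 492 (merge (leaf 7 460 460) (leaf 1 460 463))))))) (node 526 (merge (node 527 (merge (leaf 2 493 497) (leaf 1 524 556))) (node 494 (merge (leaf 6 493 621) (node 462 (merge (leaf 5 429 430) (leaf 6 461 493)))))))))) (node 492 (merge (node 589 (merge (leaf 7 460 460) (node 622 (merge (leaf 4 493 590) (node 621 (merge (leaf 4 525 654) (node 620 (merge (leaf 5 492 588) (leaf 5 524 652))))))))) (merge (node 491 (merge (node 490 (merge (leaf 0 490 526) (node 489 (merge (leaf 0 489 524) (node 457 (merge (leaf 3 456 456) (leaf 3 457 458))))))) (merge (node 490 (merge (leaf 0 490 526) (node 489 (merge (leaf 0 489 524) (node 521 (merge (leaf 1 488 520) (leaf 1 489 522))))))) (merge (node 490 (merge (leaf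 0 490 526) (node 522 (merge (leaf 1 489 521) (node 494 (merge (leaf 1 490 523) (node 458 (merge (leaf 3 457 457) (leaf 3 458 459))))))))) (merge (node 490 (merge (node 489 (merge (leaf 0 489 524) (node 521 (merge (leaf 1 488 520) (leaf 1 489 522))))) (merge (node 489 (merge (leaf 0 489 524) (node 457 (merge (leaf 3 456 456) (leaf 3 457 458))))) (node 522 (merge (leaf 1 489 521) (node 494 (merge (leaf 1 490 523) (node 458 (merge (leaf 3 457 457) (leaf 3 458 459)))))))))) (node 589 (merge (node 621 (merge (leaf 7 492 524) (node 622 (merge (leaf 4 493 590) (leaf 4 525 654))))) (merge (node 494 (merge (leaf 6 461 462) (node 621 (merge (leaf 6 493 526) (node 620 (merge (leaf 5 492 588) (leaf 5 524 652))))))) (node 494 (merge (leaf 6 461 462) (node 523 (merge (leaf 1 490 522) (node 459 (merge (leaf 3 458 458) (node 588 (merge (leaf 5 492 620) (node 556 (merge (leaf 7 459 524) (leaf 4 459 555))))))))))))))))))) (node 491 (merge (node 526 (merge (leaf 0 490 490) (leaf 3 492 527))) (merge (node 490 (merge (node 489 (merge (leaf 0 489 524) (node 521 (merge (leaf 1 488 520)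 (leaf 1 489 522))))) (merge (node 489 (merge (leaf 0 489 524) (node 457 (merge (leaf 3 456 456) (leaf 3 457 458))))) (node 522 (merge (leaf 1 489 521) (node 494 (merge (leaf 1 490 523) (node 458 (merge (leaf 3 457 457) (leaf 3 458 459)))))))))) (node 523 (merge (node 522 (merge (leaf 1 490 494) (node 521 (merge (leaf 2 488 520) (leaf 2 489 524))))) (merge (node 494 (merge (leaf 1 490 522) (node 462 (merge (leaf 2 459 463) (node 430 (merge (leaf 5 397 398) (leaf 5 429 526))))))) (node 555 (merge (node 460 (merge (leaf 6 459 587) (node 428 (merge (leaf 4 396 396) (leaf 6 427 459))))) (node 526 (merge (leaf 3 492 527) (node 554 (merge (leaf 1 522 524) (leaf 2 522 556)))))))))))))))))))))) (node 557 (merge (node 527 (merge (node 526 (merge (leaf 2 493 497) (leaf 1 524 556))) (merge (node 559 (merge (leaf 5 431 432) (node 558 (merge (leaf 3 524 524) (leaf 2 524 556))))) (node 559 (merge (leaf 5 431 432) (node 526 (merge (leaf 2 493 497) (leaf 0 524 524)))))))) (merge (node 561 (merge (leaf 4 464 593) (node 527 (merge (leaf 0 525 526) (node 559 (merge (leaf 5 431 432) (node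 558 (merge (leaf 3 524 524) (node 589 (merge (leaf 1 556 588) (leaf 1 557 590))))))))))) (merge (node 561 (merge (leaf 4 464 593) (node 527 (merge (leaf 0 525 526) (node 559 (merge (leaf 5 431 432) (node 558 (merge (leaf 2 524 556) (node 589 (merge (leaf 1 556 588) (leaf 1 557 590))))))))))) (merge (node 592 (merge (node 593 (merge (leaf 4 464 561) (leaf 4 496 625))) (node 465 (merge (leaf 6 464 497) (node 589 (merge (node 492 (merge (leaf 7 460 460) (node 621 (merge (leaf 7 492 524) (node 620 (merge (leaf 5 492 588) (leaf 5 524 652))))))) (merge (node 494 (merge (leaf 6 461 462) (node 621 (merge (leaf 6 493 526) (node 620 (merge (leaf 5 492 588) (leaf 5 524 652))))))) (merge (node 492 (merge (leaf 7 460 460) (node 621 (merge (leaf 7 492 524) (node 526 (merge (leaf 6 493 494) (leaf 3 492 527))))))) (node 494 (merge (leaf 6 461 462) (node 492 (merge (leaf 7 460 460) (node 526 (merge (leaf 3 492 527) (node 491 (merge (leaf 0 490 490) (node 523 (merge (leaf 1 490 522) (node 459 (merge (leaf 3 458 458) (node 588 (merge (leaf 5 492 620) (node 556 (merge (leaf 7 459 524)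 (leaf 4 459 555))))))))))))))))))))))))) (merge (node 622 (merge (node 589 (merge (leaf 4 493 590) (node 621 (merge (leaf 4 525 654) (node 620 (merge (leaf 5 492 588) (leaf 5 524 652))))))) (merge (node 593 (merge (leaf 4 464 561) (node 592 (merge (leaf 4 496 625) (node 559 (merge (leaf 0 557 558) (node 527 (merge (leaf 5 431 432) (node 624 (merge (leaf 7 527 656) (node 623 (merge (leaf 2 589 621) (leaf 5 527 655))))))))))))) (node 590 (merge (leaf 4 493 589) (node 558 (merge (leaf 7 525 654) (node 559 (merge (leaf 3 524 524) (node 527 (merge (leaf 5 431 432) (leaf 2 524 556)))))))))))) (node 492 (merge (node 460 (merge (leaf 7 460 589) (node 428 (merge (leaf 4 396 396) (leaf 4 428 524))))) (merge (node 589 (merge (leaf 7 460 460) (node 494 (merge (leaf 6 461 462) (node 621 (merge (leaf 6 493 526) (node 620 (merge (leaf 5 492 588) (leaf 5 524 652))))))))) (merge (node 491 (merge (node 490 (merge (leaf 0 490 526) (node 489 (merge (leaf 0 489 524) (node 457 (merge (leaf 3 456 456) (leaf 3 457 458))))))) (merge (node 490 (merge (leaf 0 490 526) (node 489 (merge (leaf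 0 489 524) (node 521 (merge (leaf 1 488 520) (leaf 1 489 522))))))) (merge (node 490 (merge (leaf 0 490 526) (node 522 (merge (leaf 1 489 521) (node 494 (merge (leaf 1 490 523) (node 458 (merge (leaf 3 457 457) (leaf 3 458 459))))))))) (merge (node 490 (merge (node 489 (merge (leaf 0 489 524) (node 521 (merge (leaf 1 488 520) (leaf 1 489 522))))) (merge (node 489 (merge (leaf 0 489 524) (node 457 (merge (leaf 3 456 456) (leaf 3 457 458))))) (node 522 (merge (leaf 1 489 521) (node 494 (merge (leaf 1 490 523) (node 458 (merge (leaf 3 457 457) (leaf 3 458 459)))))))))) (node 589 (merge (node 621 (merge (leaf 7 492 524) (node 622 (merge (leaf 4 493 590) (leaf 4 525 654))))) (merge (node 494 (merge (leaf 6 461 462) (node 621 (merge (leaf 6 493 526) (node 620 (merge (leaf 5 492 588) (leaf 5 524 652))))))) (node 494 (merge (leaf 6 461 462) (node 523 (merge (leaf 1 490 522) (node 459 (merge (leaf 3 458 458) (node 588 (merge (leaf 5 492 620) (node 556 (merge (leaf 7 459 524) (leaf 4 459 555))))))))))))))))))) (node 491 (merge (node 490 (merge (leaf 0 490 526) (node 489 (merge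 (leaf 0 489 524) (node 457 (merge (leaf 3 456 456) (leaf 3 457 458))))))) (merge (node 490 (merge (leaf 0 490 526) (node 489 (merge (leaf 0 489 524) (node 521 (merge (leaf 1 488 520) (leaf 1 489 522))))))) (merge (node 490 (merge (leaf 0 490 526) (node 522 (merge (leaf 1 489 521) (node 494 (merge (leaf 1 490 523) (node 458 (merge (leaf 3 457 457) (leaf 3 458 459))))))))) (merge (node 490 (merge (node 489 (merge (leaf 0 489 524) (node 521 (merge (leaf 1 488 520) (leaf 1 489 522))))) (merge (node 489 (merge (leaf 0 489 524) (node 457 (merge (leaf 3 456 456) (leaf 3 457 458))))) (node 522 (merge (leaf 1 489 521) (node 494 (merge (leaf 1 490 523) (node 458 (merge (leaf 3 457 457) (leaf 3 458 459)))))))))) (node 459 (merge (node 494 (merge (leaf 3 458 458) (node 462 (merge (leaf 2 459 463) (node 430 (merge (leaf 5 397 398) (leaf 5 429 526))))))) (merge (node 523 (merge (node 522 (merge (leaf 1 490 494) (node 521 (merge (leaf 2 488 520) (leaf 2 489 524))))) (merge (node 494 (merge (leaf 1 490 522) (node 462 (merge (leaf 2 459 463) (node 430 (merge (leaf 5 397 398) (leaf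 5 429 526))))))) (node 460 (merge (node 428 (merge (leaf 4 396 396) (leaf 4 428 524))) (node 555 (merge (leaf 6 459 587) (node 556 (merge (leaf 4 459 588) (node 554 (merge (leaf 2 522 526) (leaf 5 458 586)))))))))))) (node 524 (merge (node 556 (merge (leaf 7 459 588) (node 427 (merge (leaf 4 395 395) (leaf 4 427 523))))) (merge (node 556 (merge (leaf 7 459 588) (node 460 (merge (leaf 7 427 427) (leaf 4 428 428))))) (node 558 (merge (leaf 3 524 559) (node 523 (merge (leaf 0 522 522) (node 460 (merge (leaf 4 428 428) (node 458 (merge (leaf 0 457 457) (node 555 (merge (leaf 7 426 426) (leaf 6 459 587)))))))))))))))))))))))))))))))))))))))) nP_32 cP_32 14 (by decide +kernel)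
def nP_33 : ℕ := 0x100000001200000010000000100000000000000000000000000000000000000000000000000000000000000000000000000000000000000000000000000000000000000000000
def cP_33 : ℕ := 0x140000005c000001fe000003ff0000037e000002ff000000dc0000027c0000027c000001f0000003f0000003f0000000000000000000000000000000000000000000000000000000000000000000000000000000000000000000
theorem lP_33 : S nP_33 cP_33 15 := S_of_chk [(nP_30, cP_30, 9)] ⟨lP_30, trivial⟩ (node 557 (merge (node 527 (merge (node 526 (merge (leaf 2 493 497) (leaf 1 524 556))) (merge (node 559 (merge (leaf 5 431 432) (node 558 (merge (leaf 3 524 524) (leaf 2 524 556))))) (node 559 (merge (leaf 5 431 432) (node 526 (merge (leaf 2 493 497) (leaf 0 524 524)))))))) (merge (node 561 (merge (leaf 4 464 593) (node 527 (merge (leaf 0 525 526) (node 559 (merge (leaf 5 431 432) (node 558 (merge (leaf 3 524 524) (node 589 (merge (leaf 1 556 588) (leaf 1 557 590))))))))))) (merge (node 561 (merge (leaf 4 464 593) (node 527 (merge (leaf 0 525 526) (node 559 (merge (leaf 5 431 432) (node 558 (merge (leaf 2 524 556) (node 589 (merge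 (leaf 1 556 588) (leaf 1 557 590))))))))))) (merge (node 561 (merge (leaf 4 464 593) (node 589 (merge (node 620 (merge (node 652 (merge (leaf 5 524 621) (node 588 (merge (leaf 6 524 556) (leaf 6 556 684))))) (merge (node 588 (merge (leaf 5 492 493) (node 652 (merge (leaf 6 524 556) (leaf 6 556 684))))) (merge (node 493 (merge (leaf 5 492 588) (node 492 (merge (leaf 7 460 460) (node 621 (merge (leaf 7 492 524) (node 622 (merge (leaf 4 493 590) (leaf 4 525 654))))))))) (node 621 (merge (leaf 5 524 652) (node 492 (merge (leaf 7 492 524) (node 493 (merge (leaf 7 460 460) (node 622 (merge (leaf 4 493 590) (leaf 4 525 654))))))))))))) (merge (node 492 (merge (node 460 (merge (leaf 7 460 493) (node 524 (merge (leaf 4 428 428) (leaf 7 492 621))))) (merge (node 621 (merge (leaf 7 492 524) (node 526 (merge (leaf 6 493 494) (node 558 (merge (leaf 3 525 559) (leaf 6 525 653))))))) (node 493 (merge (leaf 7 460 460) (node 590 (merge (leaf 4 493 622) (node 558 (merge (leaf 4 461 461) (leaf 1 557 559)))))))))) (merge (node 620 (merge (node 652 (merge (leaf 5 524 621) (node 588 (merge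 (leaf 6 524 556) (leaf 6 556 684))))) (merge (node 493 (merge (leaf 5 492 588) (node 590 (merge (leaf 4 493 622) (node 558 (merge (leaf 4 461 461) (leaf 1 557 559))))))) (node 621 (merge (leaf 5 524 652) (node 526 (merge (leaf 6 493 494) (node 558 (merge (leaf 3 525 559) (leaf 6 525 653)))))))))) (merge (node 492 (merge (node 621 (merge (leaf 7 492 524) (node 526 (merge (leaf 6 493 494) (node 558 (merge (leaf 3 525 559) (leaf 6 525 653))))))) (merge (node 460 (merge (leaf 7 460 493) (node 524 (merge (leaf 4 428 428) (leaf 4 460 556))))) (node 493 (merge (leaf 7 460 460) (node 462 (merge (leaf 6 461 494) (node 461 (merge (leaf 6 429 430) (node 588 (merge (leaf 5 460 556) (leaf 5 492 620)))))))))))) (merge (node 621 (merge (node 654 (merge (leaf 4 525 622) (node 653 (merge (leaf 4 557 686) (node 652 (merge (leaf 5 524 620) (leaf 5 556 684))))))) (merge (node 524 (merge (leaf 7 492 492) (node 653 (merge (leaf 7 524 556) (node 654 (merge (leaf 4 525 622) (leaf 4 557 686))))))) (merge (node 524 (merge (leaf 7 492 492) (node 653 (merge (leaf 7 524 556) (node 652 (merge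 (leaf 5 524 620) (leaf 5 556 684))))))) (node 622 (merge (leaf 4 525 654) (node 587 (merge (node 588 (merge (leaf 0 586 586) (node 623 (merge (leaf 0 587 590) (leaf 3 588 624))))) (merge (node 620 (merge (leaf 5 524 652) (node 619 (merge (leaf 3 586 586) (node 650 (merge (leaf 1 618 651) (node 618 (merge (leaf 2 586 590) (leaf 1 617 649))))))))) (node 524 (merge (leaf 7 492 492) (node 558 (merge (leaf 3 524 559) (node 523 (merge (leaf 0 522 522) (node 620 (merge (leaf 5 524 652) (node 588 (merge (leaf 3 587 623) (node 491 (merge (leaf 4 491 555) (leaf 7 491 556)))))))))))))))))))))) (node 588 (merge (node 620 (merge (leaf 5 492 493) (node 652 (merge (leaf 6 524 556) (leaf 6 556 684))))) (merge (node 558 (merge (leaf 1 556 559) (node 493 (merge (leaf 5 492 620) (node 590 (merge (leaf 4 461 461) (leaf 4 493 622))))))) (merge (node 590 (merge (node 493 (merge (leaf 4 493 622) (node 462 (merge (leaf 6 461 494) (node 461 (merge (leaf 6 429 430) (leaf 5 460 556))))))) (merge (node 558 (merge (leaf 1 556 559) (node 622 (merge (leaf 7 525 654) (node 587 (merge (leaf 2 554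 586) (leaf 0 587 623))))))) (node 492 (merge (node 493 (merge (leaf 7 460 460) (node 558 (merge (leaf 4 461 461) (leaf 1 556 559))))) (merge (node 460 (merge (leaf 7 460 493) (node 524 (merge (leaf 4 428 428) (leaf 4 460 556))))) (node 558 (merge (leaf 1 556 559) (node 587 (merge (leaf 2 554 586) (node 619 (merge (leaf 1 586 618) (node 555 (merge (leaf 3 554 554) (node 524 (merge (leaf 6 491 523) (leaf 5 491 556))))))))))))))))) (node 587 (merge (node 586 (merge (leaf 2 554 558) (node 617 (merge (leaf 1 585 618) (node 585 (merge (leaf 2 553 556) (leaf 1 584 616))))))) (merge (node 586 (merge (leaf 2 554 558) (node 618 (merge (leaf 1 585 617) (node 590 (merge (leaf 1 586 619) (node 554 (merge (leaf 3 553 553) (leaf 3 554 555))))))))) (merge (node 620 (merge (node 652 (merge (leaf 6 524 556) (leaf 6 556 684))) (merge (node 586 (merge (node 617 (merge (leaf 1 585 618) (node 585 (merge (leaf 2 553 556) (leaf 1 584 616))))) (merge (node 585 (merge (leaf 2 553 556) (node 553 (merge (leaf 3 552 552) (leaf 3 553 554))))) (node 618 (merge (leaf 1 585 617) (node 590 (merge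 (leaf 1 586 619) (node 554 (merge (leaf 3 553 553) (leaf 3 554 555)))))))))) (node 555 (merge (node 554 (merge (leaf 3 554 590) (node 553 (merge (leaf 0 552 552) (leaf 3 553 586))))) (node 652 (merge (leaf 6 556 684) (node 523 (merge (leaf 4 491 491) (leaf 4 523 619)))))))))) (node 555 (merge (node 554 (merge (leaf 3 554 590) (node 553 (merge (leaf 0 552 552) (leaf 0 553 556))))) (merge (node 558 (merge (leaf 1 556 559) (node 590 (merge (leaf 3 554 554) (node 622 (merge (leaf 0 587 623) (leaf 7 525 654))))))) (node 523 (merge (node 620 (merge (leaf 4 491 491) (node 652 (merge (leaf 4 523 619) (leaf 6 556 684))))) (node 558 (merge (leaf 1 556 559) (node 522 (merge (leaf 0 522 524) (leaf 3 522 556)))))))))))))))))))))))))) (merge (node 589 (merge (node 561 (merge (leaf 4 464 593) (node 526 (merge (leaf 0 525 527) (node 494 (merge (leaf 6 493 621) (node 462 (merge (leaf 5 429 430) (leaf 5 461 558))))))))) (merge (node 526 (merge (node 527 (merge (leaf 2 493 497) (leaf 1 524 556))) (node 494 (merge (leaf 6 493 621) (node 462 (merge (leaf 5 429 430) (leaf 6 461 493)))))))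 (merge (node 492 (merge (node 524 (merge (leaf 7 492 621) (node 460 (merge (leaf 4 428 428) (leaf 4 460 556))))) (merge (node 460 (merge (leaf 7 460 493) (node 524 (merge (leaf 4 428 428) (leaf 4 460 556))))) (merge (node 493 (merge (leaf 7 460 460) (node 622 (merge (leaf 4 493 590) (node 621 (merge (leaf 4 525 654) (node 620 (merge (leaf 5 492 588) (leaf 5 524 652))))))))) (node 621 (merge (leaf 7 492 524) (node 622 (merge (leaf 4 525 654) (node 493 (merge (leaf 4 493 590) (node 620 (merge (leaf 5 492 588) (leaf 5 524 652))))))))))))) (node 588 (merge (node 493 (merge (leaf 5 492 620) (node 462 (merge (leaf 6 461 494) (node 461 (merge (leaf 6 429 430) (leaf 5 460 556))))))) (merge (node 493 (merge (leaf 5 492 620) (node 462 (merge (leaf 6 461 494) (node 461 (merge (leaf 6 429 430) (node 460 (merge (leaf 7 428 428) (leaf 7 460 492))))))))) (merge (node 587 (merge (node 586 (merge (leaf 2 554 558) (node 585 (merge (leaf 2 553 556) (node 553 (merge (leaf 3 552 552) (leaf 3 553 554))))))) (merge (node 586 (merge (leaf 2 554 558) (node 617 (merge (leaf 1 585 618) (node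 585 (merge (leaf 2 553 556) (leaf 1 584 616))))))) (merge (node 590 (merge (node 622 (merge (leaf 4 493 493) (leaf 0 587 623))) (node 618 (merge (leaf 1 586 619) (node 586 (merge (leaf 1 585 617) (node 554 (merge (leaf 3 553 553) (leaf 3 554 555))))))))) (node 592 (merge (node 593 (merge (leaf 4 464 561) (leaf 4 496 625))) (node 493 (merge (node 462 (merge (leaf 6 461 494) (node 461 (merge (leaf 6 429 430) (leaf 5 460 556))))) (merge (node 462 (merge (leaf 6 461 494) (node 461 (merge (leaf 6 429 430) (node 590 (merge (leaf 4 461 558) (leaf 4 493 622))))))) (node 492 (merge (leaf 7 460 460) (node 590 (merge (leaf 4 493 622) (node 619 (merge (leaf 1 586 618) (node 555 (merge (leaf 3 554 554) (node 524 (merge (leaf 6 491 523) (leaf 5 491 556)))))))))))))))))))) (node 587 (merge (node 586 (merge (leaf 2 554 558) (node 585 (merge (leaf 2 553 556) (node 553 (merge (leaf 3 552 552) (leaf 3 553 554))))))) (merge (node 586 (merge (leaf 2 554 558) (node 617 (merge (leaf 1 585 618) (node 585 (merge (leaf 2 553 556) (leaf 1 584 616))))))) (merge (node 586 (merge (leaf 2 554 558)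 (node 618 (merge (leaf 1 585 617) (node 590 (merge (leaf 1 586 619) (node 554 (merge (leaf 3 553 553) (leaf 3 554 555))))))))) (merge (node 620 (merge (node 652 (merge (leaf 6 524 556) (leaf 6 556 684))) (merge (node 586 (merge (node 617 (merge (leaf 1 585 618) (node 585 (merge (leaf 2 553 556) (leaf 1 584 616))))) (merge (node 585 (merge (leaf 2 553 556) (node 553 (merge (leaf 3 552 552) (leaf 3 553 554))))) (node 618 (merge (leaf 1 585 617) (node 590 (merge (leaf 1 586 619) (node 554 (merge (leaf 3 553 553) (leaf 3 554 555)))))))))) (node 555 (merge (node 554 (merge (leaf 3 554 590) (node 553 (merge (leaf 0 552 552) (leaf 3 553 586))))) (node 652 (merge (leaf 6 556 684) (node 523 (merge (leaf 4 491 491) (leaf 4 523 619)))))))))) (node 592 (merge (node 593 (merge (leaf 4 464 561) (leaf 4 496 625))) (node 555 (merge (node 590 (merge (leaf 3 554 554) (node 622 (merge (leaf 0 587 623) (node 654 (merge (leaf 7 525 558) (leaf 7 557 686))))))) (merge (node 497 (merge (leaf 6 464 465) (node 526 (merge (leaf 2 493 527) (node 554 (merge (leaf 2 522 556) (node 523 (merge (leaf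 1 522 524) (node 620 (merge (leaf 4 491 491) (node 652 (merge (leaf 4 523 619) (leaf 6 556 684))))))))))))) (node 619 (merge (node 590 (merge (leaf 1 586 618) (node 622 (merge (leaf 0 587 623) (node 654 (merge (leaf 7 525 558) (leaf 7 557 686))))))) (node 651 (merge (node 556 (merge (leaf 6 523 524) (leaf 6 555 683))) (merge (node 684 (merge (leaf 4 555 652) (node 683 (merge (leaf 4 587 716) (node 682 (merge (leaf 5 554 650) (leaf 5 586 714))))))) (node 556 (merge (leaf 6 523 524) (node 652 (merge (leaf 6 524 620) (leaf 4 555 684)))))))))))))))))))))))))))) (merge (hyp 0) (node 493 (merge (node 460 (merge (node 492 (merge (leaf 7 460 589) (node 428 (merge (leaf 4 396 396) (leaf 4 428 524))))) (merge (node 461 (merge (leaf 7 428 428) (node 430 (merge (leaf 6 429 462) (node 429 (merge (leaf 6 397 398) (node 556 (merge (leaf 5 428 524) (leaf 5 460 588))))))))) (node 589 (merge (leaf 7 460 492) (node 622 (merge (leaf 4 493 590) (node 621 (merge (leaf 4 525 654) (node 620 (merge (leaf 5 492 588) (leaf 5 524 652)))))))))))) (merge (node 593 (merge (leaf 4 464 561) (node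 592 (merge (leaf 4 496 625) (node 497 (merge (leaf 6 464 465) (node 527 (merge (leaf 2 493 526) (node 559 (merge (leaf 5 431 432) (node 624 (merge (leaf 7 527 656) (node 623 (merge (leaf 5 527 655) (node 622 (merge (leaf 2 589 621) (node 589 (merge (leaf 4 493 590) (node 462 (merge (leaf 6 461 494) (node 461 (merge (leaf 6 429 430) (node 460 (merge (leaf 7 428 428) (leaf 7 460 492))))))))))))))))))))))))) (merge (node 593 (merge (leaf 4 464 561) (node 592 (merge (leaf 4 496 625) (node 497 (merge (leaf 6 464 465) (node 527 (merge (leaf 2 493 526) (node 559 (merge (leaf 5 431 432) (node 624 (merge (leaf 7 527 656) (node 623 (merge (leaf 5 527 655) (node 622 (merge (leaf 2 589 621) (node 589 (merge (leaf 4 493 590) (node 462 (merge (leaf 6 461 494) (node 461 (merge (leaf 6 429 430) (node 588 (merge (leaf 5 460 556) (leaf 5 492 620))))))))))))))))))))))))) (merge (node 593 (merge (leaf 4 464 561) (node 592 (merge (leaf 4 496 625) (node 497 (merge (leaf 6 464 465) (node 527 (merge (leaf 2 493 526) (node 559 (merge (leaf 5 431 432) (node 624 (merge (leaf 7 527 656) (node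 623 (merge (leaf 5 527 655) (node 622 (merge (leaf 2 589 621) (node 589 (merge (leaf 4 493 590) (node 460 (merge (leaf 7 460 492) (node 461 (merge (leaf 7 428 428) (node 588 (merge (leaf 5 460 556) (leaf 5 492 620))))))))))))))))))))))))) (merge (node 592 (merge (node 593 (merge (leaf 4 464 561) (leaf 4 496 625))) (node 465 (merge (leaf 6 464 497) (node 589 (merge (node 492 (merge (leaf 7 460 460) (node 621 (merge (leaf 7 492 524) (node 620 (merge (leaf 5 492 588) (leaf 5 524 652))))))) (merge (node 494 (merge (leaf 6 461 462) (node 621 (merge (leaf 6 493 526) (node 620 (merge (leaf 5 492 588) (leaf 5 524 652))))))) (merge (node 492 (merge (leaf 7 460 460) (node 621 (merge (leaf 7 492 524) (node 526 (merge (leaf 6 493 494) (leaf 3 492 527))))))) (node 494 (merge (leaf 6 461 462) (node 492 (merge (leaf 7 460 460) (node 526 (merge (leaf 3 492 527) (node 491 (merge (leaf 0 490 490) (node 523 (merge (leaf 1 490 522) (node 459 (merge (leaf 3 458 458) (node 588 (merge (leaf 5 492 620) (node 556 (merge (leaf 7 459 524) (leaf 4 459 555))))))))))))))))))))))))) (node 432 (merge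 (node 561 (merge (leaf 4 464 593) (node 527 (merge (leaf 0 525 526) (leaf 5 431 559))))) (node 429 (merge (node 431 (merge (leaf 7 399 399) (node 430 (merge (leaf 0 429 465) (node 461 (merge (leaf 6 397 398) (leaf 1 428 460))))))) (merge (node 399 (merge (leaf 7 399 431) (node 400 (merge (leaf 7 367 367) (node 401 (merge (leaf 6 368 369) (node 398 (merge (leaf 1 397 430) (node 397 (merge (leaf 1 396 428) (node 365 (merge (leaf 3 364 364) (leaf 3 365 366))))))))))))) (merge (node 431 (merge (leaf 7 399 399) (node 430 (merge (leaf 0 429 465) (node 461 (merge (leaf 1 428 460) (node 396 (merge (leaf 3 396 397) (leaf 7 396 428))))))))) (merge (node 461 (merge (node 430 (merge (leaf 6 397 398) (node 557 (merge (leaf 6 429 462) (node 556 (merge (leaf 5 428 524) (leaf 5 460 588))))))) (merge (node 396 (merge (leaf 7 396 428) (node 397 (merge (leaf 7 364 364) (node 524 (merge (leaf 5 396 492) (leaf 5 428 556))))))) (node 430 (merge (leaf 6 397 398) (node 557 (merge (leaf 6 429 462) (node 428 (merge (leaf 7 396 396) (leaf 7 428 460)))))))))) (node 461 (merge (node 428 (merge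 (leaf 7 396 396) (node 557 (merge (leaf 7 428 460) (node 556 (merge (leaf 5 428 524) (leaf 5 460 588))))))) (merge (node 396 (merge (leaf 7 396 428) (node 397 (merge (leaf 7 364 364) (node 398 (merge (leaf 6 365 366) (node 399 (merge (leaf 0 396 431) (node 367 (merge (leaf 2 364 368) (leaf 7 367 400))))))))))) (node 399 (merge (leaf 7 399 431) (node 400 (merge (leaf 7 367 367) (node 369 (merge (leaf 6 368 401) (node 524 (merge (leaf 5 428 556) (node 397 (merge (leaf 5 396 492) (node 398 (merge (leaf 6 365 366) (leaf 2 365 368)))))))))))))))))))))))))))))))))))) nP_33 cP_33 15 (by decide +kernel)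
def nP_34 : ℕ := 0x100000001000000010000000100000000000000000000000000000000000000000000000000000000000000000000000000000000000000000000000000000000000000000000
def cP_34 : ℕ := 0x140000005c000001fe000003ff0000037e000002ff000000ff00000e7e000002ff000001fe000003fe000003f0000000000000000000000000000000000000000000000000000000000000000000000000000000000000000000
theorem lP_34 : S nP_34 cP_34 16 := S_of_chk [(nP_32, cP_32, 14), (nP_30, cP_30, 9), (nP_33, cP_33, 15)] ⟨lP_32, lP_30, lP_33, trivial⟩ (node 525 (merge (node 431 (merge (leaf 7 431 463) (node 432 (merge (leaf 7 399 399) (node 561 (merge (leaf 4 464 593) (node 527 (merge (leaf 0 525 526) (leaf 5 431 559))))))))) (merge (node 431 (merge (leaf 7 431 463) (node 432 (merge (leaf 7 399 399) (node 527 (merge (leaf 5 431 559) (node 526 (merge (leaf 2 493 497) (node 556 (merge (leaf 1 524 557) (node 524 (merge (leaf 1 523 555) (node 492 (merge (leaf 3 491 491) (leaf 3 492 493))))))))))))))) (merge (node 463 (merge (leaf 7 431 431) (node 462 (merge (node 497 (merge (leaf 0 461 461) (node 498 (merge (leaf 0 462 465) (leaf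 3 463 499))))) (merge (node 494 (merge (node 465 (merge (leaf 1 461 493) (node 497 (merge (leaf 0 462 498) (leaf 6 464 592))))) (merge (node 561 (merge (leaf 4 464 593) (node 526 (merge (leaf 0 525 527) (node 430 (merge (leaf 5 429 557) (node 429 (merge (leaf 7 397 397) (leaf 3 429 465))))))))) (node 561 (merge (leaf 4 464 593) (node 526 (merge (leaf 0 525 527) (node 557 (merge (leaf 5 429 430) (node 589 (merge (leaf 6 461 493) (leaf 5 461 558)))))))))))) (node 526 (merge (node 527 (merge (leaf 0 525 561) (node 557 (merge (leaf 1 524 556) (node 494 (merge (leaf 5 429 430) (node 589 (merge (leaf 5 461 558) (leaf 6 493 621))))))))) (merge (node 527 (merge (leaf 0 525 561) (node 556 (merge (leaf 1 524 557) (node 524 (merge (leaf 1 523 555) (node 492 (merge (leaf 3 491 491) (leaf 3 492 493))))))))) (merge (node 461 (merge (node 493 (merge (leaf 1 460 492) (node 428 (merge (leaf 3 428 429) (node 460 (merge (leaf 3 427 427) (leaf 7 428 557))))))) (merge (node 493 (merge (leaf 1 460 492) (node 430 (merge (leaf 6 429 557) (node 398 (merge (leaf 5 365 366) (leaf 5 397 494)))))))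 (node 429 (merge (leaf 3 428 428) (node 494 (merge (leaf 7 429 558) (node 397 (merge (leaf 4 365 365) (leaf 7 397 430)))))))))) (node 527 (merge (leaf 0 525 561) (node 492 (merge (leaf 3 492 493) (node 491 (merge (leaf 3 491 524) (node 461 (merge (leaf 1 459 460) (node 429 (merge (leaf 3 428 428) (node 494 (merge (leaf 7 429 558) (node 397 (merge (leaf 4 365 365) (leaf 7 397 430)))))))))))))))))))))))) (merge (node 461 (merge (node 463 (merge (leaf 7 431 431) (node 497 (merge (leaf 0 461 462) (node 592 (merge (leaf 6 464 465) (node 593 (merge (leaf 4 464 561) (leaf 4 496 625))))))))) (merge (node 463 (merge (leaf 7 431 431) (node 462 (merge (leaf 0 461 497) (node 492 (merge (leaf 1 460 493) (node 460 (merge (leaf 1 459 491) (node 428 (merge (leaf 3 427 427) (leaf 3 428 429))))))))))) (merge (node 493 (merge (node 558 (merge (node 590 (merge (leaf 4 461 557) (node 526 (merge (leaf 7 461 494) (leaf 7 493 622))))) (merge (node 561 (merge (leaf 4 464 593) (node 559 (merge (leaf 3 525 526) (node 557 (merge (leaf 3 524 524) (node 588 (merge (leaf 1 556 589) (node 556 (merge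 (leaf 5 460 461) (leaf 1 555 587))))))))))) (merge (node 561 (merge (leaf 4 464 593) (node 526 (merge (leaf 3 525 559) (node 590 (merge (leaf 7 461 494) (leaf 7 493 622))))))) (node 593 (merge (leaf 4 464 561) (node 592 (merge (leaf 4 496 625) (node 557 (merge (leaf 0 557 559) (node 590 (merge (leaf 4 461 461) (node 622 (merge (leaf 4 493 589) (leaf 7 525 654))))))))))))))) (merge (node 430 (merge (node 462 (merge (leaf 6 429 557) (node 398 (merge (leaf 5 365 366) (leaf 5 397 494))))) (merge (node 557 (merge (leaf 6 429 462) (node 558 (merge (leaf 4 461 590) (node 593 (merge (leaf 4 464 561) (node 592 (merge (leaf 0 557 559) (leaf 4 496 625))))))))) (node 429 (merge (leaf 6 397 398) (node 396 (merge (leaf 7 396 428) (node 397 (merge (leaf 7 364 364) (node 526 (merge (leaf 4 397 494) (leaf 4 429 558)))))))))))) (node 429 (merge (node 396 (merge (leaf 7 396 428) (node 397 (merge (leaf 7 364 364) (node 524 (merge (leaf 5 396 492) (leaf 5 428 556))))))) (merge (node 398 (merge (leaf 6 397 430) (node 397 (merge (leaf 6 365 366) (node 524 (merge (leaf 5 396 492) (leaf 5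 428 556))))))) (merge (node 398 (merge (leaf 6 397 430) (node 397 (merge (leaf 6 365 366) (node 396 (merge (leaf 7 364 364) (leaf 7 396 428))))))) (node 428 (merge (leaf 7 396 396) (node 524 (merge (leaf 5 428 556) (node 427 (merge (node 430 (merge (leaf 6 397 398) (node 426 (merge (leaf 0 426 462) (node 394 (merge (leaf 3 393 393) (leaf 3 394 395))))))) (merge (node 426 (merge (leaf 0 426 462) (node 425 (merge (leaf 0 425 460) (node 457 (merge (leaf 1 424 456) (leaf 1 425 458))))))) (node 430 (merge (leaf 6 397 398) (node 459 (merge (leaf 1 426 458) (node 395 (merge (leaf 3 394 394) (node 492 (merge (leaf 7 395 460) (leaf 4 395 491))))))))))))))))))))))) (node 429 (merge (node 493 (merge (node 524 (merge (leaf 5 428 556) (node 398 (merge (leaf 6 397 430) (node 397 (merge (leaf 6 365 366) (leaf 5 396 492))))))) (merge (node 428 (merge (leaf 7 396 396) (node 557 (merge (leaf 7 428 460) (node 556 (merge (leaf 5 428 524) (leaf 5 460 588))))))) (node 398 (merge (leaf 6 397 430) (node 397 (merge (leaf 6 365 366) (node 396 (merge (leaf 7 364 364) (leaf 7 396 428))))))))))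 (merge (node 431 (merge (leaf 7 431 463) (node 432 (merge (leaf 7 399 399) (node 465 (merge (leaf 0 429 430) (node 592 (merge (leaf 6 464 497) (node 593 (merge (leaf 4 464 561) (leaf 4 496 625))))))))))) (node 493 (merge (node 428 (merge (leaf 7 396 396) (node 557 (merge (leaf 7 428 460) (node 558 (merge (leaf 4 429 526) (leaf 4 461 590))))))) (merge (node 396 (merge (leaf 7 396 428) (node 397 (merge (leaf 7 364 364) (node 524 (merge (leaf 5 396 492) (leaf 5 428 556))))))) (node 558 (merge (node 590 (merge (leaf 4 461 557) (node 526 (merge (leaf 7 461 494) (leaf 7 493 622))))) (merge (node 561 (merge (leaf 4 464 593) (node 559 (merge (leaf 3 525 526) (node 557 (merge (leaf 3 524 524) (node 588 (merge (leaf 1 556 589) (node 556 (merge (leaf 5 460 461) (leaf 1 555 587))))))))))) (merge (node 561 (merge (leaf 4 464 593) (node 526 (merge (leaf 3 525 559) (node 590 (merge (leaf 7 461 494) (leaf 7 493 622))))))) (node 593 (merge (leaf 4 464 561) (node 592 (merge (leaf 4 496 625) (node 557 (merge (leaf 0 557 559) (node 590 (merge (leaf 4 461 461) (node 622 (merge (leaf 4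 493 589) (leaf 7 525 654))))))))))))))))))))))))) (merge (hyp 0) (merge (node 557 (merge (node 431 (merge (leaf 7 431 463) (node 432 (merge (leaf 7 399 399) (node 593 (merge (leaf 4 464 561) (node 592 (merge (leaf 4 496 625) (node 559 (merge (leaf 5 431 527) (leaf 0 557 558))))))))))) (merge (node 461 (merge (node 463 (merge (leaf 7 431 431) (node 462 (merge (leaf 0 461 497) (node 493 (merge (leaf 6 429 430) (leaf 1 460 492))))))) (merge (node 593 (merge (leaf 4 464 561) (node 592 (merge (leaf 4 496 625) (node 558 (merge (leaf 0 557 559) (node 493 (merge (leaf 4 461 590) (node 428 (merge (leaf 7 428 460) (node 429 (merge (leaf 7 396 396) (node 556 (merge (leaf 5 428 524) (leaf 5 460 588))))))))))))))) (node 463 (merge (leaf 7 431 431) (node 462 (merge (leaf 0 461 497) (node 428 (merge (leaf 3 428 429) (node 460 (merge (leaf 3 427 427) (node 492 (merge (leaf 1 459 491) (leaf 4 428 524)))))))))))))) (merge (node 461 (merge (node 463 (merge (leaf 7 431 431) (node 462 (merge (leaf 0 461 497) (node 493 (merge (leaf 6 429 430) (leaf 1 460 492))))))) (merge (node 463 (merge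 (leaf 7 431 431) (node 462 (merge (leaf 0 461 497) (node 428 (merge (leaf 3 428 429) (node 460 (merge (leaf 3 427 427) (node 492 (merge (leaf 1 459 491) (leaf 4 428 524))))))))))) (merge (node 493 (merge (node 462 (merge (leaf 6 429 430) (node 589 (merge (leaf 6 461 494) (node 460 (merge (leaf 7 428 428) (leaf 7 460 492))))))) (merge (node 462 (merge (leaf 6 429 430) (node 589 (merge (leaf 6 461 494) (node 588 (merge (leaf 5 460 556) (leaf 5 492 620))))))) (merge (node 460 (merge (leaf 7 428 428) (node 589 (merge (leaf 7 460 492) (node 588 (merge (leaf 5 460 556) (leaf 5 492 620))))))) (node 429 (merge (node 524 (merge (leaf 5 428 556) (node 398 (merge (leaf 6 397 430) (node 397 (merge (leaf 6 365 366) (leaf 5 396 492))))))) (merge (node 430 (merge (leaf 6 397 398) (node 557 (merge (leaf 6 429 462) (node 428 (merge (leaf 7 396 396) (leaf 7 428 460))))))) (node 428 (merge (leaf 7 396 396) (node 557 (merge (leaf 7 428 460) (node 556 (merge (leaf 5 428 524) (leaf 5 460 588)))))))))))))) (merge (node 463 (merge (leaf 7 431 431) (node 462 (merge (leaf 0 461 497) (node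 429 (merge (leaf 3 428 428) (node 430 (merge (leaf 3 429 465) (node 493 (merge (leaf 6 397 398) (leaf 6 429 557))))))))))) (node 429 (merge (node 431 (merge (leaf 7 431 463) (node 432 (merge (leaf 7 399 399) (node 465 (merge (leaf 0 429 430) (node 592 (merge (leaf 6 464 497) (node 593 (merge (leaf 4 464 561) (leaf 4 496 625))))))))))) (merge (node 493 (merge (node 524 (merge (leaf 5 428 556) (node 398 (merge (leaf 6 397 430) (node 397 (merge (leaf 6 365 366) (leaf 5 396 492))))))) (merge (node 428 (merge (leaf 7 396 396) (node 557 (merge (leaf 7 428 460) (node 556 (merge (leaf 5 428 524) (leaf 5 460 588))))))) (node 398 (merge (leaf 6 397 430) (node 397 (merge (leaf 6 365 366) (node 396 (merge (leaf 7 364 364) (leaf 7 396 428)))))))))) (node 493 (merge (node 556 (merge (leaf 5 428 524) (leaf 5 460 588))) (merge (node 396 (merge (leaf 7 396 428) (node 397 (merge (leaf 7 364 364) (node 524 (merge (leaf 5 396 492) (leaf 5 428 556))))))) (node 460 (merge (leaf 7 428 428) (node 589 (merge (leaf 7 460 492) (node 622 (merge (leaf 4 493 590) (node 621 (merge (leaf 4 525 654)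 (node 620 (merge (leaf 5 492 588) (leaf 5 524 652)))))))))))))))))))))) (merge (hyp 1) (node 589 (merge (node 431 (merge (leaf 7 431 463) (node 432 (merge (leaf 7 399 399) (node 559 (merge (leaf 5 431 527) (node 558 (merge (leaf 3 524 524) (leaf 1 556 588))))))))) (merge (node 492 (merge (node 524 (merge (leaf 7 492 621) (node 460 (merge (leaf 4 428 428) (leaf 4 460 556))))) (merge (node 493 (merge (leaf 7 460 460) (node 462 (merge (leaf 6 461 494) (node 461 (merge (leaf 6 429 430) (leaf 1 460 463))))))) (node 621 (merge (leaf 7 492 524) (node 622 (merge (leaf 4 525 654) (node 493 (merge (leaf 4 493 590) (node 620 (merge (leaf 5 492 588) (leaf 5 524 652)))))))))))) (merge (node 431 (merge (leaf 7 431 463) (node 432 (merge (leaf 7 399 399) (node 559 (merge (leaf 5 431 527) (node 524 (merge (leaf 3 524 558) (node 492 (merge (leaf 7 492 621) (node 460 (merge (leaf 4 428 428) (leaf 4 460 556))))))))))))) (merge (node 431 (merge (leaf 7 431 463) (node 432 (merge (leaf 7 399 399) (node 559 (merge (leaf 5 431 527) (node 588 (merge (leaf 1 556 558) (node 620 (merge (leaf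 5 492 493) (node 652 (merge (leaf 6 524 556) (leaf 5 524 621))))))))))))) (node 621 (merge (node 654 (merge (leaf 4 525 622) (node 653 (merge (leaf 4 557 686) (node 652 (merge (leaf 5 524 620) (leaf 5 556 684))))))) (merge (node 524 (merge (leaf 7 492 492) (node 653 (merge (leaf 7 524 556) (node 654 (merge (leaf 4 525 622) (leaf 4 557 686))))))) (merge (node 524 (merge (leaf 7 492 492) (node 653 (merge (leaf 7 524 556) (node 652 (merge (leaf 5 524 620) (leaf 5 556 684))))))) (node 588 (merge (node 622 (merge (leaf 4 525 654) (node 587 (merge (leaf 0 586 586) (node 623 (merge (leaf 0 587 590) (leaf 3 588 624))))))) (merge (node 622 (merge (leaf 4 525 654) (node 623 (merge (leaf 3 588 624) (node 620 (merge (leaf 3 587 587) (leaf 5 524 652))))))) (node 620 (merge (leaf 5 524 652) (node 619 (merge (node 618 (merge (leaf 2 586 590) (leaf 2 585 617))) (node 524 (merge (leaf 7 492 492) (node 556 (merge (leaf 5 523 651) (node 523 (merge (leaf 7 491 491) (node 522 (merge (leaf 0 521 521) (leaf 0 522 558)))))))))))))))))))))))))))))) (hyp 2)))))))) nP_34 cP_34 16 (by decide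 +kernel)
def nP_35 : ℕ := 0x100000001000000000000000000000000000000000000000000000000000000000000000000000000000000000000000000000000000000000000000000000000000000000000
def cP_35 : ℕ := 0x2b4000003fc000003fe00003bff00003f7e00001eff0000fcff00007fff0000ffff00001fff00003ffe00000ff8000002a00000000000000000000000000000000000000000000000000000000000000000000000000000000000
theorem lP_35 : S nP_35 cP_35 18 := S_of_chk [(nP_9, cP_9, 14), (nP_28, cP_28, 17), (nP_31, cP_31, 13), (nP_34, cP_34, 16)] ⟨lP_9, lP_28, lP_31, lP_34, trivial⟩ (node 496 (merge (node 464 (merge (node 463 (merge (leaf 7 431 431) (node 592 (merge (leaf 7 463 495) (node 593 (merge (leaf 4 464 561) (leaf 4 496 625))))))) (merge (node 433 (merge (leaf 6 432 465) (node 432 (merge (leaf 6 400 401) (node 431 (merge (leaf 7 399 399) (leaf 7 431 463))))))) (node 465 (merge (leaf 6 432 433) (node 592 (merge (leaf 6 464 497) (node 593 (merge (leaf 4 464 561) (leaf 4 496 625)))))))))) (merge (node 464 (merge (node 433 (merge (leaf 6 432 465) (node 432 (merge (leaf 6 400 401) (node 431 (merge (leaf 7 399 399) (leaf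 7 431 463))))))) (merge (node 465 (merge (leaf 6 432 433) (node 592 (merge (leaf 6 464 497) (node 463 (merge (leaf 7 431 431) (leaf 7 463 495))))))) (merge (node 433 (merge (leaf 6 432 465) (node 432 (merge (leaf 6 400 401) (node 527 (merge (leaf 5 431 559) (node 495 (merge (leaf 5 399 400) (node 592 (merge (leaf 7 463 463) (leaf 7 495 624))))))))))) (merge (node 431 (merge (leaf 7 431 463) (node 432 (merge (leaf 7 399 399) (node 401 (merge (leaf 6 400 433) (node 400 (merge (leaf 6 368 369) (node 527 (merge (leaf 5 399 495) (leaf 5 431 559))))))))))) (merge (node 433 (merge (leaf 6 432 465) (node 432 (merge (leaf 6 400 401) (node 399 (merge (leaf 7 399 431) (node 400 (merge (leaf 7 367 367) (node 527 (merge (leaf 5 399 495) (leaf 5 431 559))))))))))) (node 431 (merge (leaf 7 431 463) (node 432 (merge (leaf 7 399 399) (node 527 (merge (leaf 5 431 559) (node 495 (merge (leaf 5 399 400) (node 592 (merge (leaf 7 495 624) (node 497 (merge (leaf 6 464 465) (node 498 (merge (leaf 1 495 499) (leaf 1 494 526))))))))))))))))))))) (merge (node 464 (merge (node 463 (merge (leaf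 7 431 431) (node 592 (merge (leaf 7 463 495) (node 593 (merge (leaf 4 464 561) (leaf 4 496 625))))))) (merge (node 433 (merge (leaf 6 432 465) (node 432 (merge (leaf 6 400 401) (node 431 (merge (leaf 7 399 399) (leaf 7 431 463))))))) (merge (node 593 (merge (leaf 4 464 561) (node 592 (merge (leaf 4 496 625) (node 495 (merge (leaf 7 463 463) (node 527 (merge (leaf 7 495 624) (node 432 (merge (leaf 5 399 400) (leaf 5 431 559))))))))))) (node 433 (merge (leaf 6 432 465) (node 432 (merge (leaf 6 400 401) (node 399 (merge (leaf 7 399 431) (node 400 (merge (leaf 7 367 367) (node 527 (merge (leaf 5 399 495) (leaf 5 431 559))))))))))))))) (merge (node 592 (merge (node 593 (merge (leaf 4 496 625) (node 465 (merge (leaf 6 464 497) (node 464 (merge (leaf 6 432 433) (leaf 4 464 561))))))) (merge (node 625 (merge (leaf 4 496 593) (node 624 (merge (leaf 4 528 657) (node 495 (merge (leaf 7 463 463) (leaf 7 495 527))))))) (node 497 (merge (leaf 6 464 465) (node 495 (merge (leaf 7 463 463) (node 527 (merge (leaf 7 495 624) (node 498 (merge (leaf 1 495 499) (leaf 1 494 526))))))))))))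 (merge (node 592 (merge (node 593 (merge (leaf 4 496 625) (node 463 (merge (leaf 7 463 495) (node 464 (merge (leaf 7 431 431) (leaf 4 464 561))))))) (merge (node 495 (merge (leaf 7 463 463) (node 624 (merge (leaf 7 495 527) (node 657 (merge (leaf 4 528 625) (node 656 (merge (leaf 4 560 689) (node 655 (merge (leaf 5 527 623) (leaf 5 559 687))))))))))) (merge (node 593 (merge (leaf 4 496 625) (node 561 (merge (leaf 4 464 464) (node 562 (merge (node 563 (merge (leaf 3 527 527) (leaf 1 560 564))) (merge (node 563 (merge (leaf 1 560 564) (node 595 (merge (leaf 0 560 596) (node 559 (merge (leaf 0 559 594) (node 531 (merge (leaf 2 527 530) (leaf 2 528 532))))))))) (node 559 (merge (node 594 (merge (leaf 0 558 558) (leaf 3 559 595))) (merge (node 526 (merge (leaf 3 526 527) (node 558 (merge (leaf 3 525 525) (node 557 (merge (leaf 0 557 592) (node 589 (merge (leaf 1 556 588) (leaf 1 557 590))))))))) (node 594 (merge (leaf 0 559 595) (node 530 (merge (leaf 2 527 531) (node 527 (merge (leaf 3 526 526) (node 498 (merge (leaf 5 465 466) (node 499 (merge (leaf 6 466 467) (leaf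 1 495 497))))))))))))))))))))) (node 561 (merge (node 463 (merge (leaf 7 463 495) (node 464 (merge (leaf 7 431 431) (leaf 4 464 593))))) (merge (node 495 (merge (leaf 7 463 463) (node 527 (merge (leaf 7 495 624) (node 526 (merge (leaf 0 525 525) (node 562 (merge (leaf 3 526 559) (leaf 3 527 563))))))))) (merge (node 559 (merge (node 593 (merge (leaf 4 464 464) (node 594 (merge (leaf 0 558 558) (node 595 (merge (leaf 0 559 562) (leaf 3 560 596))))))) (merge (node 464 (merge (leaf 4 464 593) (node 432 (merge (leaf 5 431 527) (node 431 (merge (leaf 7 399 399) (leaf 7 431 463))))))) (node 558 (merge (node 589 (merge (leaf 1 557 590) (node 557 (merge (leaf 1 556 588) (node 525 (merge (leaf 3 524 524) (leaf 3 525 526))))))) (merge (node 526 (merge (leaf 3 525 525) (node 562 (merge (leaf 3 526 527) (node 595 (merge (leaf 0 559 594) (node 563 (merge (leaf 0 560 596) (node 531 (merge (leaf 2 527 530) (leaf 2 528 532))))))))))) (merge (node 589 (merge (leaf 1 557 590) (node 557 (merge (leaf 1 556 588) (node 527 (merge (leaf 2 524 556) (node 562 (merge (leaf 3 526 526) (leaf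 3 527 563))))))))) (node 589 (merge (leaf 1 557 590) (node 557 (merge (leaf 1 556 588) (node 556 (merge (leaf 2 524 527) (node 524 (merge (leaf 3 523 523) (leaf 3 524 525)))))))))))))))) (node 624 (merge (node 527 (merge (leaf 7 495 495) (node 656 (merge (leaf 7 527 559) (node 655 (merge (leaf 5 527 623) (leaf 5 559 687))))))) (merge (node 655 (merge (leaf 5 527 623) (node 656 (merge (leaf 5 559 687) (node 689 (merge (leaf 4 560 657) (node 688 (merge (leaf 6 560 593) (leaf 4 592 721))))))))) (node 527 (merge (leaf 7 495 495) (node 562 (merge (leaf 3 527 563) (node 559 (merge (leaf 3 526 526) (node 594 (merge (leaf 0 559 595) (node 558 (merge (leaf 0 558 593) (node 589 (merge (leaf 1 557 590) (node 557 (merge (leaf 2 524 556) (leaf 1 556 588)))))))))))))))))))))))))) (merge (node 561 (merge (node 593 (merge (leaf 4 464 464) (node 625 (merge (leaf 4 496 592) (leaf 7 528 657))))) (merge (node 464 (merge (leaf 4 464 593) (node 433 (merge (leaf 6 432 465) (node 432 (merge (leaf 6 400 401) (node 399 (merge (leaf 7 399 431) (node 400 (merge (leaf 7 367 367) (node 527 (merge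 (leaf 5 399 495) (leaf 5 431 559))))))))))))) (merge (node 527 (merge (node 562 (merge (leaf 3 527 563) (node 526 (merge (leaf 0 525 525) (leaf 3 526 559))))) (merge (node 497 (merge (node 465 (merge (leaf 6 464 592) (node 433 (merge (leaf 5 400 401) (leaf 6 432 464))))) (node 526 (merge (leaf 0 525 525) (node 498 (merge (leaf 1 494 495) (leaf 1 495 499))))))) (node 465 (merge (node 433 (merge (leaf 6 432 464) (node 497 (merge (leaf 5 400 401) (leaf 6 464 592))))) (merge (node 464 (merge (leaf 6 432 433) (node 432 (merge (leaf 5 431 559) (node 400 (merge (leaf 5 399 495) (node 399 (merge (leaf 7 367 367) (leaf 7 399 431))))))))) (node 592 (merge (leaf 6 464 497) (node 624 (merge (leaf 7 495 495) (node 656 (merge (leaf 7 527 559) (node 655 (merge (leaf 5 527 623) (leaf 5 559 687))))))))))))))) (node 559 (merge (node 593 (merge (node 625 (merge (leaf 4 496 592) (leaf 7 528 657))) (node 594 (merge (leaf 0 558 558) (node 595 (merge (leaf 0 559 562) (leaf 3 560 596))))))) (merge (node 558 (merge (node 589 (merge (leaf 1 557 590) (node 557 (merge (leaf 1 556 588) (node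 525 (merge (leaf 3 524 524) (leaf 3 525 526))))))) (merge (node 557 (merge (node 525 (merge (leaf 3 524 524) (leaf 3 525 526))) (merge (node 527 (merge (leaf 2 524 556) (node 562 (merge (leaf 3 526 526) (leaf 3 527 563))))) (node 524 (merge (leaf 3 524 525) (node 556 (merge (leaf 3 523 523) (leaf 2 524 527)))))))) (merge (node 589 (merge (leaf 1 557 590) (node 557 (merge (leaf 1 556 588) (node 527 (merge (leaf 2 524 556) (node 562 (merge (leaf 3 526 526) (leaf 3 527 563))))))))) (merge (node 589 (merge (leaf 1 557 590) (node 557 (merge (leaf 1 556 588) (node 524 (merge (leaf 3 524 525) (node 556 (merge (leaf 3 523 523) (leaf 2 524 527))))))))) (node 590 (merge (leaf 1 557 589) (node 526 (merge (leaf 3 525 525) (node 527 (merge (leaf 3 526 562) (node 622 (merge (leaf 6 494 495) (leaf 6 526 654)))))))))))))) (merge (node 558 (merge (node 525 (merge (leaf 3 525 526) (node 557 (merge (leaf 3 524 524) (node 593 (merge (leaf 0 557 592) (leaf 0 558 594))))))) (merge (node 589 (merge (leaf 1 557 590) (node 557 (merge (leaf 1 556 588) (node 525 (merge (leaf 3 524 524) (leaf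 3 525 526))))))) (merge (node 589 (merge (leaf 1 557 590) (node 557 (merge (leaf 1 556 588) (node 593 (merge (leaf 0 557 592) (leaf 0 558 594))))))) (node 590 (merge (leaf 1 557 589) (node 622 (merge (node 654 (merge (leaf 6 526 527) (node 526 (merge (leaf 3 525 525) (node 655 (merge (leaf 4 526 623) (leaf 4 558 687))))))) (merge (node 654 (merge (leaf 6 526 527) (node 526 (merge (leaf 3 525 525) (node 653 (merge (leaf 5 525 621) (leaf 5 557 685))))))) (merge (node 654 (merge (leaf 6 526 527) (node 687 (merge (leaf 4 558 655) (node 686 (merge (leaf 4 590 719) (node 685 (merge (leaf 5 557 653) (leaf 5 589 717))))))))) (node 593 (merge (leaf 0 558 594) (node 657 (merge (leaf 7 528 625) (node 526 (merge (leaf 3 525 525) (node 623 (merge (leaf 4 526 655) (node 621 (merge (leaf 5 525 653) (node 624 (merge (leaf 2 589 592) (leaf 0 621 656))))))))))))))))))))))) (node 562 (merge (node 527 (merge (leaf 3 526 526) (leaf 3 527 563))) (merge (node 595 (merge (leaf 0 559 594) (node 563 (merge (leaf 0 560 596) (node 531 (merge (leaf 2 527 530) (leaf 2 528 532))))))) (node 527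 (merge (leaf 3 526 526) (node 530 (merge (leaf 2 527 531) (node 498 (merge (node 594 (merge (leaf 0 559 595) (node 593 (merge (leaf 5 465 466) (leaf 5 497 625))))) (merge (node 594 (merge (leaf 0 559 595) (node 499 (merge (leaf 6 466 467) (node 497 (merge (leaf 7 465 465) (leaf 1 495 496))))))) (node 466 (merge (leaf 5 465 593) (node 435 (merge (leaf 6 434 467) (node 434 (merge (leaf 6 402 403) (node 433 (merge (leaf 7 401 401) (leaf 7 433 465))))))))))))))))))))))))))) (merge (hyp 0) (merge (hyp 1) (node 464 (merge (node 465 (merge (leaf 6 432 433) (node 592 (merge (leaf 6 464 497) (node 593 (merge (leaf 4 464 561) (leaf 4 496 625))))))) (merge (node 433 (merge (leaf 6 432 465) (node 432 (merge (leaf 6 400 401) (node 431 (merge (leaf 7 399 399) (leaf 7 431 463))))))) (merge (hyp 2) (hyp 3)))))))))))))) nP_35 cP_35 18 (by decide +kernel)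
def nP_36 : ℕ := 0x380000001000000000000000000000000000000000000000000000000000000000000000000000000000000000000000000000000000000000000000000000000000000000000
def cP_36 : ℕ := 0x80000000e0000000e0000000e0000000fc00000078000000fc000000f8000001e0000000e00000000000000000000000000000000000000000000000000000000000000000000000000000000000000000000000000000000000
theorem lP_36 : S nP_36 cP_36 11 := S_of_chk [] trivial (node 558 (merge (node 525 (merge (leaf 3 525 526) (node 557 (merge (leaf 3 524 524) (node 588 (merge (leaf 1 556 589) (node 556 (merge (leaf 2 524 527) (leaf 1 555 587))))))))) (merge (node 590 (merge (leaf 1 557 589) (node 526 (merge (leaf 3 525 525) (node 622 (merge (node 655 (merge (leaf 4 526 623) (node 654 (merge (leaf 4 558 687) (node 653 (merge (leaf 5 525 621) (leaf 5 557 685))))))) (merge (node 623 (merge (leaf 4 526 655) (node 494 (merge (leaf 4 494 591) (node 463 (merge (leaf 6 462 495) (node 462 (merge (leaf 6 430 431) (node 461 (merge (leaf 7 429 429) (leaf 7 461 493))))))))))) (merge (node 653 (merge (leaf 5 525 621) (node 654 (merge (leaf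 5 557 685) (node 591 (merge (leaf 6 558 686) (node 494 (merge (leaf 4 462 462) (leaf 4 494 623))))))))) (node 653 (merge (leaf 5 525 621) (node 654 (merge (leaf 5 557 685) (node 686 (merge (leaf 6 558 591) (node 687 (merge (leaf 4 558 655) (leaf 4 590 719))))))))))))))))) (merge (node 557 (merge (node 589 (merge (leaf 1 556 588) (leaf 1 557 590))) (merge (node 590 (merge (leaf 1 557 589) (node 556 (merge (leaf 2 524 527) (node 555 (merge (leaf 0 555 591) (node 523 (merge (leaf 3 522 522) (leaf 3 523 524))))))))) (node 556 (merge (leaf 2 524 527) (node 587 (merge (leaf 1 555 588) (node 555 (merge (leaf 1 554 586) (node 523 (merge (leaf 3 522 522) (leaf 3 523 524)))))))))))) (node 557 (merge (node 525 (merge (leaf 3 524 524) (leaf 3 525 526))) (merge (node 556 (merge (leaf 2 524 527) (node 587 (merge (leaf 1 555 588) (node 555 (merge (leaf 1 554 586) (node 523 (merge (leaf 3 522 522) (leaf 3 523 524))))))))) (node 527 (merge (leaf 2 524 556) (node 526 (merge (leaf 3 525 525) (node 494 (merge (node 591 (merge (leaf 4 462 462) (leaf 7 494 623))) (merge (node 590 (merge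 (node 623 (merge (leaf 7 494 591) (node 622 (merge (leaf 6 526 654) (leaf 4 526 655))))) (node 495 (merge (leaf 6 462 463) (node 493 (merge (leaf 7 461 461) (leaf 0 492 492))))))) (node 462 (merge (leaf 4 430 430) (node 463 (merge (leaf 6 430 431) (node 461 (merge (leaf 7 429 429) (node 493 (merge (leaf 7 461 590) (node 492 (merge (leaf 1 460 464) (leaf 0 491 491))))))))))))))))))))))))) nP_36 cP_36 11 (by decide +kernel)
def nP_37 : ℕ := 0x380000001800000008000000000000000000000000000000000000000000000000000000000000000000000000000000000000000000000000000000000000000000000000000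
def cP_37 : ℕ := 0x130000007b000000070000000700000007000000070000000700000007000000040000000000000000000000000000000000000000000000000000000000000000000000000000000000000000000
theorem lP_37 : S nP_37 cP_37 10 := S_of_chk [] trivial (node 557 (merge (node 592 (merge (leaf 7 495 624) (node 558 (merge (leaf 2 524 556) (leaf 0 557 593))))) (merge (node 525 (merge (leaf 0 525 526) (node 558 (merge (leaf 3 524 524) (node 593 (merge (leaf 0 557 592) (leaf 0 558 594))))))) (node 525 (merge (node 526 (merge (leaf 0 524 524) (leaf 1 524 556))) (merge (node 493 (merge (node 492 (merge (leaf 0 492 494) (leaf 3 492 526))) (merge (node 494 (merge (leaf 0 492 492) (node 462 (merge (leaf 7 462 591) (node 430 (merge (leaf 4 398 398) (leaf 6 429 461))))))) (node 556 (merge (leaf 1 524 526) (node 461 (merge (leaf 5 460 588) (node 430 (merge (leaf 6 429 462) (node 429 (merge (leaf 6 397 398) (node 428 (merge (leaf 7 396 396) (leaf 7 428 460)))))))))))))) (merge (node 493 (merge (node 492 (merge (leaf 0 492 494) (node 460 (merge (leaf 7 460 589) (node 428 (merge (leaf 4 396 396) (leaf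 4 428 524))))))) (merge (node 494 (merge (leaf 0 492 492) (node 462 (merge (leaf 7 462 591) (node 430 (merge (leaf 4 398 398) (leaf 6 429 461))))))) (merge (node 461 (merge (node 460 (merge (leaf 7 428 428) (node 589 (merge (leaf 7 460 492) (node 588 (merge (leaf 5 460 556) (leaf 5 492 620))))))) (merge (node 430 (merge (leaf 6 429 462) (node 429 (merge (leaf 6 397 398) (node 556 (merge (leaf 5 428 524) (leaf 5 460 588))))))) (node 430 (merge (leaf 6 429 462) (node 429 (merge (leaf 6 397 398) (node 428 (merge (leaf 7 396 396) (leaf 7 428 460)))))))))) (node 461 (merge (node 428 (merge (leaf 7 428 460) (node 429 (merge (leaf 7 396 396) (node 556 (merge (leaf 5 428 524) (leaf 5 460 588))))))) (merge (node 462 (merge (leaf 6 429 430) (node 589 (merge (leaf 6 461 494) (node 588 (merge (leaf 5 460 556) (leaf 5 492 620))))))) (node 430 (merge (leaf 6 429 462) (node 429 (merge (leaf 6 397 398) (node 428 (merge (leaf 7 396 396) (leaf 7 428 460)))))))))))))) (node 526 (merge (leaf 0 524 524) (node 493 (merge (leaf 3 492 492) (node 461 (merge (node 462 (merge (leaf 6 429 430)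 (node 494 (merge (leaf 6 461 589) (leaf 7 462 591))))) (merge (node 430 (merge (leaf 6 429 462) (node 429 (merge (leaf 6 397 398) (node 428 (merge (leaf 7 396 396) (leaf 7 428 460))))))) (merge (node 428 (merge (leaf 7 428 460) (node 429 (merge (leaf 7 396 396) (node 398 (merge (leaf 6 397 430) (node 397 (merge (leaf 6 365 366) (leaf 4 397 494))))))))) (node 428 (merge (leaf 7 428 460) (node 429 (merge (leaf 7 396 396) (node 494 (merge (leaf 4 397 397) (node 589 (merge (leaf 6 461 462) (leaf 6 493 621)))))))))))))))))))))))) nP_37 cP_37 10 (by decide +kernel)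
def nP_38 : ℕ := 0x300000001000000000000000000000000000000000000000000000000000000000000000000000000000000000000000000000000000000000000000000000000000000000000
def cP_38 : ℕ := 0x280000003e0000003e0000001f0000007fc000000f800001cfe00000ffc00001ffe000003fc000003f0000002e0000000000000000000000000000000000000000000000000000000000000000000000000000000000000000000
theorem lP_38 : S nP_38 cP_38 13 := S_of_chk [(nP_37, cP_37, 10), (nP_36, cP_36, 11)] ⟨lP_37, lP_36, trivial⟩ (node 495 (merge (node 496 (merge (node 463 (merge (leaf 7 463 592) (node 431 (merge (leaf 4 399 399) (leaf 4 431 527))))) (node 464 (merge (leaf 4 464 593) (node 465 (merge (leaf 6 432 433) (node 466 (merge (leaf 1 463 467) (node 494 (merge (leaf 2 461 493) (leaf 2 462 497))))))))))) (merge (node 592 (merge (node 527 (merge (leaf 7 495 624) (node 463 (merge (leaf 4 431 431) (leaf 7 463 496))))) (merge (node 496 (merge (leaf 7 463 463) (node 591 (merge (leaf 5 495 623) (node 464 (merge (leaf 5 463 559) (leaf 4 464 593))))))) (node 624 (merge (leaf 7 495 527) (node 655 (merge (leaf 5 527 623) (node 656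 (merge (leaf 5 559 687) (node 688 (merge (leaf 6 560 593) (node 689 (merge (leaf 4 560 657) (leaf 4 592 721)))))))))))))) (merge (node 592 (merge (node 527 (merge (leaf 7 495 624) (node 463 (merge (leaf 7 463 496) (leaf 4 463 559))))) (merge (node 496 (merge (leaf 7 463 463) (node 465 (merge (leaf 6 464 497) (node 464 (merge (leaf 6 432 433) (leaf 4 464 593))))))) (node 624 (merge (leaf 7 495 527) (node 655 (merge (leaf 5 527 623) (node 656 (merge (leaf 5 559 687) (node 688 (merge (leaf 6 560 593) (node 689 (merge (leaf 4 560 657) (leaf 4 592 721)))))))))))))) (merge (node 496 (merge (node 463 (merge (leaf 7 463 592) (node 431 (merge (leaf 4 399 399) (leaf 7 431 464))))) (merge (node 592 (merge (leaf 7 463 463) (node 497 (merge (leaf 6 464 465) (node 527 (merge (leaf 7 495 624) (node 526 (merge (leaf 1 494 498) (leaf 0 525 525))))))))) (merge (node 464 (merge (node 431 (merge (leaf 7 431 463) (node 432 (merge (leaf 7 399 399) (node 527 (merge (leaf 5 399 400) (leaf 5 431 559))))))) (node 465 (merge (leaf 6 432 433) (node 494 (merge (leaf 2 461 493) (node 466 (merge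 (leaf 1 463 467) (leaf 2 462 497))))))))) (node 497 (merge (node 465 (merge (leaf 6 464 592) (node 433 (merge (leaf 5 400 401) (leaf 6 432 464))))) (node 494 (merge (node 461 (merge (leaf 3 461 462) (node 493 (merge (leaf 3 460 460) (node 525 (merge (leaf 1 492 524) (leaf 1 493 526))))))) (merge (node 526 (merge (leaf 1 493 525) (node 498 (merge (leaf 1 494 527) (node 531 (merge (leaf 0 495 530) (node 499 (merge (leaf 0 496 532) (node 467 (merge (leaf 2 463 466) (leaf 2 464 468))))))))))) (merge (node 461 (merge (leaf 3 461 462) (node 493 (merge (leaf 3 460 460) (node 527 (merge (leaf 0 492 492) (node 498 (merge (leaf 1 495 499) (leaf 1 494 526))))))))) (node 461 (merge (leaf 3 461 462) (node 493 (merge (leaf 3 460 460) (node 492 (merge (leaf 0 492 527) (node 524 (merge (leaf 1 491 523) (leaf 1 492 525))))))))))))))))))) (merge (node 496 (merge (node 464 (merge (leaf 4 464 593) (node 465 (merge (leaf 6 432 433) (node 466 (merge (leaf 1 463 467) (node 494 (merge (leaf 2 461 493) (leaf 2 462 497))))))))) (merge (node 497 (merge (node 592 (merge (leaf 6 464 465) (node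 527 (merge (leaf 7 495 624) (node 526 (merge (leaf 1 494 498) (leaf 0 525 525))))))) (merge (node 465 (merge (leaf 6 464 592) (node 466 (merge (leaf 2 462 494) (node 467 (merge (leaf 1 464 468) (leaf 2 463 498))))))) (merge (node 494 (merge (node 461 (merge (leaf 3 461 462) (node 493 (merge (leaf 3 460 460) (node 525 (merge (leaf 1 492 524) (leaf 1 493 526))))))) (merge (node 526 (merge (leaf 1 493 525) (node 498 (merge (leaf 1 494 527) (node 531 (merge (leaf 0 495 530) (node 499 (merge (leaf 0 496 532) (node 467 (merge (leaf 2 463 466) (leaf 2 464 468))))))))))) (merge (node 461 (merge (leaf 3 461 462) (node 493 (merge (leaf 3 460 460) (node 527 (merge (leaf 0 492 492) (node 498 (merge (leaf 1 495 499) (leaf 1 494 526))))))))) (node 461 (merge (leaf 3 461 462) (node 493 (merge (leaf 3 460 460) (node 492 (merge (leaf 0 492 527) (node 524 (merge (leaf 1 491 523) (leaf 1 492 525))))))))))))) (node 465 (merge (leaf 6 464 592) (node 494 (merge (leaf 2 462 466) (node 525 (merge (leaf 1 493 526) (node 493 (merge (leaf 1 492 524) (node 461 (merge (leaf 3 460 460) (leaf 3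 461 462))))))))))))))) (node 464 (merge (leaf 4 464 593) (node 559 (merge (leaf 5 463 591) (node 432 (merge (leaf 5 431 527) (node 401 (merge (leaf 6 400 433) (node 400 (merge (leaf 6 368 369) (node 399 (merge (leaf 7 367 367) (leaf 7 399 431)))))))))))))))) (merge (node 496 (merge (node 463 (merge (leaf 7 463 592) (node 431 (merge (leaf 4 399 399) (leaf 7 431 464))))) (merge (node 464 (merge (leaf 4 464 593) (node 465 (merge (leaf 6 432 433) (node 466 (merge (leaf 1 463 467) (node 494 (merge (leaf 2 461 493) (leaf 2 462 497))))))))) (node 494 (merge (node 497 (merge (node 465 (merge (leaf 2 462 466) (leaf 6 464 592))) (node 461 (merge (leaf 3 461 462) (node 493 (merge (leaf 3 460 460) (node 525 (merge (leaf 1 492 524) (leaf 1 493 526))))))))) (merge (node 497 (merge (node 592 (merge (leaf 7 463 463) (leaf 6 464 465))) (merge (node 463 (merge (leaf 7 463 592) (node 462 (merge (leaf 3 462 498) (node 461 (merge (leaf 0 460 460) (leaf 3 461 494))))))) (merge (node 466 (merge (leaf 2 462 465) (node 498 (merge (leaf 2 463 467) (node 462 (merge (leaf 3 461 461) (leaf 3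 462 463))))))) (node 465 (merge (leaf 6 464 592) (node 466 (merge (leaf 2 462 494) (node 467 (merge (leaf 1 464 468) (leaf 2 463 498))))))))))) (merge (node 526 (merge (node 525 (merge (leaf 1 493 497) (node 524 (merge (leaf 1 492 493) (leaf 2 491 523))))) (node 463 (merge (leaf 7 463 592) (node 558 (merge (leaf 6 462 590) (node 431 (merge (leaf 4 399 399) (leaf 6 430 462))))))))) (merge (node 592 (merge (leaf 7 463 463) (node 497 (merge (leaf 6 464 465) (node 525 (merge (leaf 1 493 526) (node 493 (merge (leaf 1 492 524) (node 460 (merge (leaf 3 460 461) (node 492 (merge (leaf 3 459 459) (node 589 (merge (leaf 7 460 557) (node 591 (merge (leaf 2 557 590) (leaf 5 495 623))))))))))))))))) (merge (node 461 (merge (node 462 (merge (leaf 3 461 497) (node 460 (merge (leaf 0 459 459) (leaf 0 460 463))))) (merge (node 460 (merge (leaf 3 460 493) (node 462 (merge (leaf 0 459 459) (leaf 0 460 463))))) (merge (node 493 (merge (leaf 3 460 460) (node 525 (merge (leaf 1 492 524) (node 526 (merge (leaf 1 493 497) (node 558 (merge (leaf 4 429 429) (leaf 7 461 590))))))))) (node 526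 (merge (node 525 (merge (leaf 1 493 497) (node 524 (merge (leaf 1 492 493) (leaf 2 491 523))))) (merge (node 462 (merge (leaf 3 461 497) (node 558 (merge (leaf 7 429 429) (node 590 (merge (leaf 6 462 463) (leaf 7 461 493))))))) (merge (node 497 (merge (leaf 1 493 525) (node 462 (merge (leaf 3 461 461) (node 463 (merge (leaf 3 462 498) (node 558 (merge (leaf 6 430 431) (leaf 6 462 590))))))))) (node 558 (merge (node 590 (merge (leaf 6 462 463) (leaf 7 461 493))) (merge (node 463 (merge (leaf 6 462 590) (node 462 (merge (leaf 7 429 429) (leaf 6 430 431))))) (merge (node 462 (merge (leaf 7 429 429) (node 590 (merge (leaf 7 461 493) (node 589 (merge (leaf 5 461 557) (leaf 5 493 621))))))) (node 462 (merge (leaf 7 429 429) (node 557 (merge (leaf 5 461 589) (node 525 (merge (leaf 5 429 430) (node 524 (merge (leaf 1 492 493) (leaf 2 491 523))))))))))))))))))))) (node 558 (merge (node 463 (merge (leaf 7 463 592) (node 526 (merge (leaf 6 462 590) (node 431 (merge (leaf 4 399 399) (leaf 6 430 462))))))) (merge (node 592 (merge (leaf 7 463 463) (node 591 (merge (leaf 5 495 623)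 (node 590 (merge (leaf 2 557 589) (node 557 (merge (leaf 3 557 593) (node 556 (merge (leaf 0 555 555) (leaf 0 556 559))))))))))) (merge (node 463 (merge (leaf 7 463 592) (node 431 (merge (leaf 4 399 399) (node 526 (merge (leaf 6 430 462) (node 525 (merge (leaf 3 525 559) (node 524 (merge (leaf 1 492 493) (leaf 2 491 523))))))))))) (merge (node 559 (merge (node 525 (merge (leaf 3 525 526) (node 524 (merge (leaf 1 492 493) (leaf 3 524 557))))) (merge (node 593 (merge (leaf 0 558 594) (node 557 (merge (leaf 0 557 592) (node 589 (merge (leaf 1 556 588) (leaf 1 557 590))))))) (node 590 (merge (leaf 1 557 589) (node 526 (merge (leaf 3 525 525) (node 591 (merge (leaf 4 462 462) (leaf 4 494 623)))))))))) (node 559 (merge (node 525 (merge (leaf 3 525 526) (node 524 (merge (leaf 1 492 493) (leaf 3 524 557))))) (merge (node 590 (merge (leaf 1 557 589) (node 526 (merge (leaf 6 462 463) (node 591 (merge (leaf 4 462 462) (leaf 4 494 623))))))) (node 589 (merge (leaf 1 557 590) (node 557 (merge (leaf 1 556 588) (node 525 (merge (leaf 3 524 524) (node 493 (merge (leaf 6 461 462)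 (node 460 (merge (leaf 3 460 461) (leaf 7 460 492)))))))))))))))))))))))))))) (merge (node 527 (merge (node 592 (merge (leaf 7 495 624) (node 463 (merge (leaf 4 431 431) (leaf 7 463 496))))) (merge (node 592 (merge (leaf 7 495 624) (node 463 (merge (leaf 4 431 431) (leaf 4 463 559))))) (merge (node 559 (merge (node 463 (merge (leaf 4 431 431) (node 462 (merge (leaf 7 430 430) (node 591 (merge (leaf 7 462 494) (node 623 (merge (leaf 6 495 496) (leaf 6 527 655))))))))) (node 558 (merge (node 525 (merge (leaf 3 525 526) (node 557 (merge (leaf 3 524 524) (leaf 2 524 556))))) (merge (node 589 (merge (leaf 1 557 590) (node 557 (merge (leaf 2 524 556) (leaf 1 556 588))))) (node 590 (merge (leaf 1 557 589) (node 526 (merge (leaf 3 525 525) (node 622 (merge (leaf 6 494 495) (leaf 6 526 654)))))))))))) (node 559 (merge (node 591 (merge (node 624 (merge (leaf 7 495 592) (node 623 (merge (leaf 6 527 655) (leaf 4 527 656))))) (merge (node 623 (merge (leaf 6 527 655) (node 622 (merge (leaf 5 494 590) (leaf 5 526 654))))) (node 592 (merge (leaf 7 495 624) (node 590 (merge (leaf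 5 494 622) (node 589 (merge (leaf 2 557 561) (leaf 2 556 588)))))))))) (merge (node 558 (merge (node 525 (merge (leaf 3 525 526) (node 557 (merge (leaf 3 524 524) (leaf 2 524 556))))) (merge (node 589 (merge (leaf 1 557 590) (node 557 (merge (leaf 2 524 556) (leaf 1 556 588))))) (node 590 (merge (leaf 1 557 589) (node 526 (merge (leaf 3 525 525) (node 622 (merge (leaf 6 494 495) (leaf 6 526 654)))))))))) (merge (hyp 0) (node 526 (merge (leaf 0 525 525) (node 496 (merge (node 592 (merge (leaf 7 495 624) (node 497 (merge (leaf 6 464 465) (leaf 1 494 498))))) (node 591 (merge (leaf 6 495 623) (node 494 (merge (leaf 7 462 462) (node 493 (merge (leaf 0 492 492) (node 461 (merge (leaf 3 460 460) (node 590 (merge (leaf 7 461 558) (leaf 5 494 622))))))))))))))))))))))) (merge (node 559 (merge (node 527 (merge (node 463 (merge (leaf 4 431 431) (leaf 4 463 592))) (node 558 (merge (node 525 (merge (leaf 3 525 526) (node 557 (merge (leaf 3 524 524) (leaf 2 524 556))))) (merge (node 589 (merge (leaf 1 557 590) (node 557 (merge (leaf 2 524 556) (leaf 1 556 588))))) (node 590 (merge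 (leaf 1 557 589) (node 526 (merge (leaf 3 525 525) (node 622 (merge (leaf 6 494 495) (leaf 6 526 654)))))))))))) (merge (node 527 (merge (node 463 (merge (leaf 4 431 431) (leaf 4 463 592))) (merge (node 591 (merge (node 624 (merge (leaf 7 495 592) (node 623 (merge (leaf 6 527 655) (leaf 4 527 656))))) (merge (node 623 (merge (leaf 6 527 655) (node 622 (merge (leaf 5 494 590) (leaf 5 526 654))))) (node 592 (merge (leaf 7 495 624) (node 590 (merge (leaf 5 494 622) (node 589 (merge (leaf 2 557 561) (leaf 2 556 588)))))))))) (node 463 (merge (leaf 4 431 431) (node 462 (merge (leaf 7 430 430) (node 591 (merge (leaf 7 462 494) (node 623 (merge (leaf 6 527 655) (node 622 (merge (leaf 5 494 590) (leaf 5 526 654)))))))))))))) (merge (node 527 (merge (node 463 (merge (leaf 4 431 431) (leaf 4 463 592))) (merge (node 525 (merge (leaf 0 525 526) (node 463 (merge (leaf 4 431 431) (node 558 (merge (leaf 5 462 590) (node 557 (merge (leaf 3 524 524) (leaf 2 524 556))))))))) (node 558 (merge (node 592 (merge (leaf 7 495 624) (node 593 (merge (leaf 0 557 557) (leaf 0 558 594))))) (merge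 (node 525 (merge (leaf 3 525 526) (node 557 (merge (leaf 3 524 524) (leaf 2 524 556))))) (node 591 (merge (node 624 (merge (leaf 7 495 592) (node 623 (merge (leaf 6 527 655) (leaf 4 527 656))))) (merge (node 526 (merge (leaf 3 525 525) (node 623 (merge (leaf 7 494 494) (leaf 7 526 655))))) (node 526 (merge (leaf 0 525 525) (node 590 (merge (leaf 6 494 622) (node 494 (merge (leaf 7 462 462) (node 493 (merge (leaf 7 461 461) (leaf 0 492 492)))))))))))))))))) (merge (node 558 (merge (node 589 (merge (leaf 1 557 590) (node 557 (merge (leaf 1 556 588) (node 593 (merge (leaf 0 557 592) (leaf 0 558 594))))))) (merge (node 525 (merge (leaf 3 525 526) (node 557 (merge (leaf 3 524 524) (node 593 (merge (leaf 0 557 592) (leaf 0 558 594))))))) (node 590 (merge (leaf 1 557 589) (node 526 (merge (leaf 3 525 525) (node 622 (merge (node 655 (merge (leaf 4 526 623) (node 654 (merge (leaf 4 558 687) (node 653 (merge (leaf 5 525 621) (leaf 5 557 685))))))) (merge (node 623 (merge (leaf 4 526 655) (node 494 (merge (leaf 4 494 591) (node 463 (merge (leaf 6 462 495) (node 462 (merge (leaf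 6 430 431) (node 461 (merge (leaf 7 429 429) (leaf 7 461 493))))))))))) (merge (node 653 (merge (leaf 5 525 621) (node 654 (merge (leaf 5 557 685) (node 591 (merge (leaf 6 558 686) (node 494 (merge (leaf 4 462 462) (leaf 4 494 623))))))))) (node 653 (merge (leaf 5 525 621) (node 654 (merge (leaf 5 557 685) (node 686 (merge (leaf 6 558 591) (node 687 (merge (leaf 4 558 655) (leaf 4 590 719)))))))))))))))))))) (merge (hyp 1) (merge (node 527 (merge (node 591 (merge (node 624 (merge (leaf 7 495 592) (node 623 (merge (leaf 6 527 655) (leaf 4 527 656))))) (merge (node 623 (merge (leaf 6 527 655) (node 622 (merge (leaf 5 494 590) (leaf 5 526 654))))) (node 592 (merge (leaf 7 495 624) (node 590 (merge (leaf 5 494 622) (node 589 (merge (leaf 2 557 561) (leaf 2 556 588)))))))))) (merge (node 558 (merge (node 525 (merge (leaf 3 525 526) (node 557 (merge (leaf 3 524 524) (leaf 2 524 556))))) (merge (node 589 (merge (leaf 1 557 590) (node 557 (merge (leaf 2 524 556) (leaf 1 556 588))))) (node 590 (merge (leaf 1 557 589) (node 526 (merge (leaf 3 525 525) (node 622 (merge (leaf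 6 494 495) (leaf 6 526 654)))))))))) (merge (node 558 (merge (node 592 (merge (leaf 7 495 624) (node 593 (merge (leaf 0 557 557) (leaf 0 558 594))))) (merge (node 525 (merge (leaf 3 525 526) (node 557 (merge (leaf 3 524 524) (leaf 2 524 556))))) (node 591 (merge (node 624 (merge (leaf 7 495 592) (node 623 (merge (leaf 6 527 655) (leaf 4 527 656))))) (merge (node 526 (merge (leaf 3 525 525) (node 623 (merge (leaf 7 494 494) (leaf 7 526 655))))) (node 526 (merge (leaf 0 525 525) (node 590 (merge (leaf 6 494 622) (node 494 (merge (leaf 7 462 462) (node 493 (merge (leaf 7 461 461) (leaf 0 492 492))))))))))))))) (hyp 0))))) (node 527 (merge (node 463 (merge (leaf 4 431 431) (leaf 4 463 592))) (merge (node 463 (merge (leaf 4 431 431) (node 464 (merge (leaf 6 431 432) (node 462 (merge (leaf 7 430 430) (node 494 (merge (leaf 7 462 591) (node 493 (merge (leaf 1 461 465) (leaf 0 492 492))))))))))) (hyp 0))))))))))) (node 496 (merge (node 464 (merge (leaf 4 464 593) (node 465 (merge (leaf 6 432 433) (node 466 (merge (leaf 1 463 467) (node 494 (merge (leaf 2 461 493) (leaf 2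 462 497))))))))) (merge (node 464 (merge (leaf 4 464 593) (node 431 (merge (leaf 7 431 463) (node 432 (merge (leaf 7 399 399) (node 527 (merge (leaf 5 399 400) (leaf 5 431 559))))))))) (node 494 (merge (node 461 (merge (node 462 (merge (leaf 3 461 497) (node 460 (merge (leaf 0 459 459) (leaf 0 460 463))))) (merge (node 460 (merge (leaf 3 460 493) (node 462 (merge (leaf 0 459 459) (leaf 0 460 463))))) (merge (node 493 (merge (leaf 3 460 460) (node 525 (merge (leaf 1 492 524) (node 526 (merge (leaf 1 493 497) (node 558 (merge (leaf 4 429 429) (leaf 7 461 590))))))))) (node 526 (merge (node 525 (merge (leaf 1 493 497) (node 524 (merge (leaf 1 492 493) (leaf 2 491 523))))) (merge (node 462 (merge (leaf 3 461 497) (node 558 (merge (leaf 7 429 429) (node 590 (merge (leaf 6 462 463) (leaf 7 461 493))))))) (merge (node 497 (merge (leaf 1 493 525) (node 462 (merge (leaf 3 461 461) (node 463 (merge (leaf 3 462 498) (node 558 (merge (leaf 6 430 431) (leaf 6 462 590))))))))) (node 558 (merge (node 590 (merge (leaf 6 462 463) (leaf 7 461 493))) (merge (node 463 (merge (leaf 6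 462 590) (node 462 (merge (leaf 7 429 429) (leaf 6 430 431))))) (merge (node 462 (merge (leaf 7 429 429) (node 590 (merge (leaf 7 461 493) (node 589 (merge (leaf 5 461 557) (leaf 5 493 621))))))) (node 462 (merge (leaf 7 429 429) (node 557 (merge (leaf 5 461 589) (node 525 (merge (leaf 5 429 430) (node 524 (merge (leaf 1 492 493) (leaf 2 491 523))))))))))))))))))))) (merge (node 463 (merge (node 431 (merge (leaf 4 399 399) (leaf 4 431 527))) (merge (node 526 (merge (node 558 (merge (leaf 6 462 590) (node 431 (merge (leaf 5 398 399) (leaf 6 430 462))))) (merge (node 497 (merge (leaf 1 493 525) (node 466 (merge (leaf 2 462 465) (node 498 (merge (leaf 3 462 462) (leaf 2 463 467))))))) (node 525 (merge (leaf 1 493 497) (node 524 (merge (leaf 1 492 493) (leaf 2 491 523)))))))) (node 525 (merge (node 524 (merge (leaf 1 492 493) (node 526 (merge (leaf 2 491 523) (leaf 2 492 527))))) (merge (node 497 (merge (leaf 1 493 526) (node 466 (merge (leaf 2 462 465) (node 498 (merge (leaf 3 462 462) (leaf 2 463 467))))))) (node 493 (merge (leaf 1 492 524) (node 492 (merge (leaf 0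 492 527) (node 491 (merge (leaf 2 459 462) (node 522 (merge (leaf 1 490 523) (node 490 (merge (leaf 1 489 521) (node 458 (merge (leaf 3 457 457) (leaf 3 458 459))))))))))))))))))) (merge (node 493 (merge (node 460 (merge (leaf 3 460 461) (node 492 (merge (leaf 3 459 459) (leaf 0 492 527))))) (merge (node 461 (merge (leaf 3 460 460) (node 497 (merge (leaf 3 461 462) (node 466 (merge (leaf 2 462 465) (node 498 (merge (leaf 2 463 467) (node 531 (merge (leaf 0 495 530) (node 499 (merge (leaf 1 495 527) (leaf 0 496 532))))))))))))) (merge (node 492 (merge (leaf 0 492 527) (node 523 (merge (leaf 1 491 524) (node 491 (merge (leaf 1 490 522) (node 459 (merge (leaf 3 458 458) (leaf 3 459 460))))))))) (merge (node 492 (merge (leaf 0 492 527) (node 523 (merge (leaf 1 491 524) (node 491 (merge (leaf 1 490 522) (node 462 (merge (leaf 2 459 463) (node 461 (merge (leaf 2 458 490) (leaf 3 461 497))))))))))) (node 492 (merge (node 460 (merge (leaf 3 459 459) (leaf 3 460 461))) (merge (node 523 (merge (leaf 1 491 524) (node 491 (merge (leaf 1 490 522) (node 459 (merge (leaf 3 458 458)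 (leaf 3 459 460))))))) (merge (node 523 (merge (leaf 1 491 524) (node 491 (merge (leaf 1 490 522) (node 462 (merge (leaf 2 459 463) (node 461 (merge (leaf 2 458 490) (leaf 3 461 497))))))))) (node 461 (merge (leaf 3 460 460) (node 462 (merge (leaf 3 461 497) (node 491 (merge (leaf 2 459 463) (leaf 2 458 490)))))))))))))))) (merge (node 493 (merge (node 460 (merge (leaf 3 460 461) (node 492 (merge (leaf 3 459 459) (leaf 0 492 527))))) (merge (node 492 (merge (leaf 0 492 527) (node 524 (merge (leaf 1 491 523) (leaf 1 492 525))))) (merge (node 460 (merge (leaf 3 460 461) (node 492 (merge (leaf 3 459 459) (node 524 (merge (leaf 1 491 523) (leaf 1 492 525))))))) (node 525 (merge (leaf 1 492 524) (node 497 (merge (leaf 1 493 526) (node 466 (merge (leaf 2 462 465) (node 498 (merge (leaf 2 463 467) (node 531 (merge (leaf 0 495 530) (node 499 (merge (leaf 1 495 527) (leaf 0 496 532))))))))))))))))) (merge (node 497 (merge (node 466 (merge (leaf 2 462 465) (node 498 (merge (leaf 2 463 467) (node 462 (merge (leaf 3 461 461) (leaf 3 462 463))))))) (merge (node 463 (merge (node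 431 (merge (leaf 4 399 399) (leaf 4 431 527))) (node 462 (merge (leaf 3 462 498) (node 461 (merge (leaf 0 460 460) (leaf 3 461 494))))))) (merge (node 526 (merge (leaf 1 493 525) (node 498 (merge (leaf 1 494 527) (node 531 (merge (leaf 0 495 530) (node 499 (merge (leaf 0 496 532) (node 467 (merge (leaf 2 463 466) (leaf 2 464 468))))))))))) (node 431 (merge (node 463 (merge (leaf 4 399 399) (leaf 4 431 527))) (merge (node 526 (merge (leaf 1 493 525) (node 465 (merge (leaf 2 462 466) (node 462 (merge (leaf 3 461 461) (node 430 (merge (leaf 6 398 399) (node 397 (merge (leaf 7 397 429) (node 398 (merge (leaf 7 365 365) (node 433 (merge (leaf 5 400 401) (leaf 3 397 432))))))))))))))) (node 526 (merge (leaf 1 493 525) (node 462 (merge (leaf 3 461 461) (node 558 (merge (leaf 6 430 463) (node 589 (merge (leaf 5 461 557) (node 590 (merge (leaf 5 493 621) (node 622 (merge (leaf 6 494 527) (node 623 (merge (leaf 4 494 591) (leaf 4 526 655)))))))))))))))))))))) (node 493 (merge (node 460 (merge (leaf 3 460 461) (node 492 (merge (leaf 3 459 459) (leaf 0 492 527))))) (merge (node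 492 (merge (leaf 0 492 527) (node 524 (merge (leaf 1 491 523) (leaf 1 492 525))))) (merge (node 460 (merge (leaf 3 460 461) (node 492 (merge (leaf 3 459 459) (node 524 (merge (leaf 1 491 523) (leaf 1 492 525))))))) (node 461 (merge (leaf 3 460 460) (node 558 (merge (node 525 (merge (leaf 1 492 524) (node 590 (merge (leaf 7 461 526) (leaf 4 461 557))))) (merge (node 526 (merge (leaf 7 461 590) (node 462 (merge (leaf 7 429 429) (node 431 (merge (leaf 6 430 463) (node 430 (merge (leaf 6 398 399) (node 398 (merge (leaf 5 365 366) (leaf 4 398 527))))))))))) (merge (node 525 (merge (leaf 1 492 524) (node 557 (merge (leaf 4 461 590) (node 589 (merge (leaf 6 461 462) (node 588 (merge (leaf 5 460 556) (leaf 5 492 620))))))))) (node 525 (merge (leaf 1 492 524) (node 429 (merge (leaf 4 429 526) (node 430 (merge (leaf 6 397 398) (node 462 (merge (leaf 6 429 557) (node 428 (merge (leaf 7 396 396) (node 427 (merge (leaf 0 426 426) (leaf 0 427 463))))))))))))))))))))))))))))))))))))))))) nP_38 cP_38 13 (by decide +kernel)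
def nP_39 : ℕ := 0x700000001000000000000000000000000000000000000000000000000000000000000000000000000000000000000000000000000000000000000000000000000000000000000
def cP_39 : ℕ := 0x50000001f000000df8000000f000001cf800000ff000001ff800001ff0000003f000000070000000000000000000000000000000000000000000000000000000000000000000000000000000000000000000
theorem lP_39 : S nP_39 cP_39 15 := S_of_chk [] trivial (node 496 (merge (node 592 (merge (node 591 (merge (leaf 5 495 623) (node 590 (merge (leaf 1 558 559) (leaf 2 557 589))))) (node 497 (merge (leaf 6 464 465) (node 495 (merge (leaf 7 463 463) (node 527 (merge (leaf 7 495 624) (node 526 (merge (leaf 1 494 498) (leaf 0 525 525))))))))))) (merge (node 559 (merge (node 591 (merge (leaf 5 463 464) (leaf 1 558 590))) (merge (node 590 (merge (leaf 1 558 591) (node 558 (merge (leaf 1 557 589) (node 526 (merge (leaf 3 525 525) (leaf 3 526 527))))))) (node 527 (merge (leaf 3 526 526) (node 464 (merge (leaf 5 431 432) (node 465 (merge (leaf 6 432 433) (node 463 (merge (leaf 7 431 431) (node 495 (merge (leaf 7 463 592) (node 466 (merge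 (leaf 1 463 467) (leaf 1 462 494)))))))))))))))) (merge (node 559 (merge (node 591 (merge (leaf 5 463 464) (leaf 1 558 590))) (merge (node 590 (merge (leaf 1 558 591) (node 558 (merge (leaf 1 557 589) (node 526 (merge (leaf 3 525 525) (leaf 3 526 527))))))) (node 594 (merge (leaf 0 559 595) (node 530 (merge (leaf 2 527 531) (node 527 (merge (leaf 3 526 526) (node 464 (merge (leaf 5 431 432) (node 465 (merge (leaf 6 432 433) (node 497 (merge (leaf 7 465 498) (leaf 6 464 592)))))))))))))))) (merge (node 464 (merge (node 433 (merge (leaf 6 432 465) (node 432 (merge (leaf 6 400 401) (node 559 (merge (leaf 5 431 527) (leaf 5 463 591))))))) (merge (node 559 (merge (leaf 5 463 591) (node 432 (merge (leaf 5 431 527) (node 431 (merge (leaf 7 399 399) (leaf 7 431 463))))))) (node 465 (merge (leaf 6 432 433) (node 466 (merge (node 495 (merge (leaf 1 463 467) (node 494 (merge (leaf 2 461 493) (leaf 2 462 497))))) (merge (node 463 (merge (leaf 7 431 431) (node 498 (merge (leaf 0 463 499) (node 435 (merge (leaf 2 431 434) (node 467 (merge (leaf 2 432 436) (leaf 6 434 530)))))))))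 (node 463 (merge (leaf 7 431 431) (node 498 (merge (leaf 0 463 499) (node 462 (merge (leaf 0 462 497) (node 494 (merge (leaf 1 461 493) (leaf 1 462 495))))))))))))))))) (merge (node 559 (merge (node 591 (merge (leaf 5 463 464) (leaf 1 558 590))) (merge (node 590 (merge (leaf 1 558 591) (node 558 (merge (leaf 1 557 589) (node 526 (merge (leaf 3 525 525) (leaf 3 526 527))))))) (node 527 (merge (leaf 3 526 526) (node 464 (merge (leaf 5 431 432) (node 463 (merge (leaf 7 431 431) (node 495 (merge (leaf 7 463 592) (node 462 (merge (leaf 7 430 430) (node 461 (merge (leaf 0 460 460) (leaf 0 461 497)))))))))))))))) (merge (node 497 (merge (node 465 (merge (leaf 6 464 592) (node 433 (merge (leaf 5 400 401) (leaf 6 432 464))))) (merge (node 592 (merge (leaf 6 464 465) (node 495 (merge (leaf 7 463 463) (node 527 (merge (leaf 7 495 624) (node 526 (merge (leaf 1 494 498) (leaf 0 525 525))))))))) (merge (node 495 (merge (node 463 (merge (leaf 7 463 592) (node 431 (merge (leaf 4 399 399) (leaf 4 431 527))))) (merge (node 463 (merge (leaf 7 463 592) (node 462 (merge (leaf 3 462 498)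 (node 461 (merge (leaf 0 460 460) (leaf 0 461 464))))))) (node 494 (merge (node 461 (merge (leaf 3 461 462) (node 493 (merge (leaf 3 460 460) (node 525 (merge (leaf 1 492 524) (leaf 1 493 526))))))) (merge (node 526 (merge (leaf 1 493 525) (node 498 (merge (leaf 1 494 527) (node 531 (merge (leaf 0 495 530) (node 499 (merge (leaf 0 496 532) (node 467 (merge (leaf 2 463 466) (leaf 2 464 468))))))))))) (merge (node 461 (merge (leaf 3 461 462) (node 493 (merge (leaf 3 460 460) (node 527 (merge (leaf 0 492 492) (node 498 (merge (leaf 1 495 499) (leaf 1 494 526))))))))) (node 461 (merge (leaf 3 461 462) (node 493 (merge (leaf 3 460 460) (node 492 (merge (leaf 0 492 527) (node 524 (merge (leaf 1 491 523) (leaf 1 492 525)))))))))))))))) (node 464 (merge (node 433 (merge (leaf 6 432 465) (node 432 (merge (leaf 6 400 401) (node 431 (merge (leaf 7 399 399) (leaf 7 431 463))))))) (merge (node 463 (merge (leaf 7 431 431) (node 498 (merge (leaf 3 463 499) (node 462 (merge (leaf 0 461 461) (leaf 3 462 495))))))) (node 495 (merge (node 465 (merge (leaf 6 432 433) (node 494 (merge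 (leaf 2 462 466) (leaf 2 461 493))))) (merge (node 433 (merge (leaf 6 432 465) (node 432 (merge (leaf 6 400 401) (node 527 (merge (leaf 5 399 400) (node 526 (merge (leaf 1 494 498) (leaf 0 525 525))))))))) (node 494 (merge (node 461 (merge (leaf 3 461 462) (node 493 (merge (leaf 3 460 460) (node 525 (merge (leaf 1 492 524) (leaf 1 493 526))))))) (merge (node 526 (merge (leaf 1 493 525) (node 498 (merge (leaf 1 494 527) (node 531 (merge (leaf 0 495 530) (node 499 (merge (leaf 0 496 532) (node 467 (merge (leaf 2 463 466) (leaf 2 464 468))))))))))) (merge (node 461 (merge (leaf 3 461 462) (node 493 (merge (leaf 3 460 460) (node 527 (merge (leaf 0 492 492) (node 498 (merge (leaf 1 495 499) (leaf 1 494 526))))))))) (node 461 (merge (leaf 3 461 462) (node 493 (merge (leaf 3 460 460) (node 492 (merge (leaf 0 492 527) (node 524 (merge (leaf 1 491 523) (leaf 1 492 525))))))))))))))))))))))) (node 464 (merge (node 465 (merge (leaf 6 432 433) (node 592 (merge (leaf 6 464 497) (node 591 (merge (leaf 5 463 559) (leaf 5 495 623))))))) (merge (node 433 (merge (leaf 6 432 465) (node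 432 (merge (leaf 6 400 401) (node 431 (merge (leaf 7 399 399) (leaf 7 431 463))))))) (merge (node 463 (merge (leaf 7 431 431) (node 497 (merge (node 592 (merge (leaf 6 464 465) (leaf 7 463 495))) (merge (node 498 (merge (leaf 3 463 499) (node 462 (merge (leaf 0 461 461) (leaf 0 462 465))))) (node 498 (merge (leaf 3 463 499) (node 495 (merge (leaf 3 462 462) (leaf 7 463 592)))))))))) (node 463 (merge (leaf 7 431 431) (node 495 (merge (leaf 7 463 592) (node 559 (merge (leaf 5 463 591) (node 525 (merge (node 558 (merge (leaf 3 525 526) (node 589 (merge (leaf 1 557 590) (node 557 (merge (leaf 3 524 524) (leaf 1 556 588))))))) (merge (node 494 (merge (node 524 (merge (leaf 1 492 493) (node 526 (merge (leaf 1 493 497) (leaf 2 491 523))))) (merge (node 493 (merge (leaf 1 492 524) (node 492 (merge (leaf 2 460 463) (node 460 (merge (leaf 3 459 459) (leaf 3 460 461))))))) (node 497 (merge (leaf 1 493 526) (node 462 (merge (leaf 3 461 461) (node 498 (merge (leaf 3 462 463) (node 531 (merge (leaf 0 495 530) (node 499 (merge (leaf 0 496 532) (node 467 (merge (leaf 2 463 466) (leaf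 2 464 468)))))))))))))))) (merge (node 493 (merge (node 526 (merge (leaf 3 525 558) (node 494 (merge (leaf 1 493 497) (node 492 (merge (leaf 2 460 463) (node 460 (merge (leaf 3 459 459) (leaf 3 460 461))))))))) (merge (node 558 (merge (leaf 3 525 526) (node 589 (merge (leaf 1 557 590) (node 557 (merge (leaf 1 556 588) (node 460 (merge (leaf 7 460 492) (node 461 (merge (leaf 7 428 428) (leaf 3 460 494))))))))))) (merge (node 558 (merge (leaf 3 525 526) (node 589 (merge (leaf 1 557 590) (node 557 (merge (leaf 1 556 588) (node 494 (merge (leaf 6 461 462) (node 492 (merge (leaf 7 460 460) (leaf 2 460 463))))))))))) (merge (node 558 (merge (leaf 3 525 526) (node 589 (merge (leaf 1 557 590) (node 557 (merge (leaf 1 556 588) (node 460 (merge (leaf 7 460 492) (node 461 (merge (leaf 7 428 428) (node 462 (merge (leaf 6 429 430) (leaf 0 460 463))))))))))))) (merge (node 558 (merge (leaf 3 525 526) (node 589 (merge (leaf 1 557 590) (node 557 (merge (leaf 1 556 588) (node 462 (merge (leaf 6 461 494) (node 461 (merge (leaf 6 429 430) (node 463 (merge (leaf 1 460 492) (leaf 0 461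 497))))))))))))) (merge (node 558 (merge (leaf 3 525 526) (node 589 (merge (leaf 1 557 590) (node 557 (merge (leaf 1 556 588) (node 462 (merge (leaf 6 461 494) (node 461 (merge (leaf 6 429 430) (node 463 (merge (leaf 0 460 460) (leaf 0 461 497))))))))))))) (node 461 (merge (node 460 (merge (leaf 3 460 494) (node 428 (merge (leaf 7 428 557) (node 396 (merge (leaf 4 364 364) (leaf 4 396 492))))))) (merge (node 462 (merge (node 463 (merge (leaf 0 460 460) (leaf 0 461 497))) (node 430 (merge (leaf 6 429 557) (node 398 (merge (leaf 5 365 366) (leaf 6 397 429))))))) (merge (node 462 (merge (node 463 (merge (leaf 1 460 492) (leaf 0 461 497))) (node 430 (merge (leaf 6 429 557) (node 398 (merge (leaf 5 365 366) (leaf 5 397 494))))))) (node 494 (merge (leaf 3 460 460) (node 463 (merge (leaf 2 460 492) (node 462 (merge (leaf 0 461 497) (node 429 (merge (leaf 3 428 428) (node 398 (merge (leaf 6 397 430) (node 397 (merge (leaf 4 365 365) (leaf 6 365 366)))))))))))))))))))))))) (node 493 (merge (node 494 (merge (leaf 1 492 524) (node 492 (merge (leaf 2 460 463) (node 460 (merge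 (leaf 3 459 459) (leaf 3 460 461))))))) (merge (node 494 (merge (leaf 1 492 524) (node 461 (merge (leaf 3 460 460) (node 462 (merge (leaf 3 461 497) (node 430 (merge (leaf 5 397 398) (leaf 6 429 557))))))))) (merge (node 461 (merge (node 460 (merge (leaf 3 460 494) (node 428 (merge (leaf 7 428 557) (node 396 (merge (leaf 4 364 364) (leaf 4 396 492))))))) (merge (node 462 (merge (node 463 (merge (leaf 0 460 460) (leaf 0 461 497))) (node 430 (merge (leaf 6 429 557) (node 398 (merge (leaf 5 365 366) (leaf 6 397 429))))))) (merge (node 462 (merge (node 463 (merge (leaf 1 460 492) (leaf 0 461 497))) (node 430 (merge (leaf 6 429 557) (node 398 (merge (leaf 5 365 366) (leaf 5 397 494))))))) (node 494 (merge (leaf 3 460 460) (node 463 (merge (leaf 2 460 492) (node 462 (merge (leaf 0 461 497) (node 429 (merge (leaf 3 428 428) (node 398 (merge (leaf 6 397 430) (node 397 (merge (leaf 4 365 365) (leaf 6 365 366))))))))))))))))) (merge (node 461 (merge (node 524 (merge (leaf 1 492 494) (node 556 (merge (leaf 5 428 429) (node 588 (merge (leaf 6 460 492) (leaf 5 460 557))))))) (merge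 (node 494 (merge (leaf 1 492 524) (node 462 (merge (leaf 3 461 497) (node 430 (merge (leaf 5 397 398) (leaf 6 429 557))))))) (merge (node 462 (merge (node 463 (merge (leaf 1 460 492) (leaf 0 461 497))) (node 430 (merge (leaf 6 429 557) (node 398 (merge (leaf 5 365 366) (leaf 5 397 494))))))) (merge (node 556 (merge (node 524 (merge (leaf 5 428 429) (node 588 (merge (leaf 6 460 492) (leaf 6 492 620))))) (merge (node 557 (merge (leaf 5 460 588) (node 462 (merge (leaf 6 429 430) (node 463 (merge (leaf 1 460 492) (leaf 0 461 497))))))) (node 429 (merge (leaf 5 428 524) (node 398 (merge (leaf 6 397 430) (node 397 (merge (leaf 6 365 366) (node 396 (merge (leaf 7 364 364) (leaf 7 396 428)))))))))))) (node 494 (merge (leaf 1 492 524) (node 463 (merge (leaf 2 460 492) (node 462 (merge (leaf 0 461 497) (node 429 (merge (leaf 3 428 428) (node 398 (merge (leaf 6 397 430) (node 397 (merge (leaf 4 365 365) (leaf 6 365 366)))))))))))))))))) (merge (node 557 (merge (node 524 (merge (leaf 1 492 494) (leaf 3 524 558))) (merge (node 494 (merge (leaf 1 492 524) (node 589 (merge (leaf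 6 461 462) (node 492 (merge (leaf 7 460 460) (leaf 2 460 463))))))) (node 589 (merge (node 588 (merge (leaf 1 556 558) (leaf 5 492 620))) (merge (node 590 (merge (leaf 1 557 558) (leaf 4 493 622))) (node 622 (merge (leaf 4 493 590) (node 621 (merge (leaf 4 525 654) (node 620 (merge (leaf 5 492 588) (leaf 5 524 652))))))))))))) (node 557 (merge (node 558 (merge (leaf 3 524 524) (node 589 (merge (leaf 1 556 588) (leaf 1 557 590))))) (merge (node 558 (merge (leaf 3 524 524) (node 588 (merge (leaf 1 556 589) (node 556 (merge (leaf 5 460 461) (leaf 1 555 587))))))) (merge (node 460 (merge (node 461 (merge (leaf 7 428 428) (node 462 (merge (leaf 6 429 430) (leaf 0 460 463))))) (node 589 (merge (leaf 7 460 492) (node 622 (merge (leaf 4 493 590) (node 621 (merge (leaf 4 525 654) (node 620 (merge (leaf 5 492 588) (leaf 5 524 652))))))))))) (node 558 (merge (leaf 3 524 524) (node 461 (merge (leaf 4 461 590) (node 462 (merge (leaf 6 429 430) (node 460 (merge (leaf 7 428 428) (leaf 0 460 463)))))))))))))))))))))))))))))))))))))))) nP_39 cP_39 15 (by decide +kernel)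
def nP_40 : ℕ := 0x600000000000000000000000600000000000000000000000000000000000000000000000000000000000000000000000000000000000000000000000000000000000000000000
def cP_40 : ℕ := 0x200000030000000340000007ee0000079c00000ffe000007fc000007f8000001f0000001e0000000200000000000000000000000000000000000000000000000000000000000000000000
theorem lP_40 : S nP_40 cP_40 13 := S_of_chk [] trivial (node 435 (merge (node 436 (merge (node 434 (merge (leaf 1 433 437) (node 464 (merge (leaf 1 432 433) (leaf 2 431 463))))) (merge (node 437 (merge (leaf 1 433 434) (node 467 (merge (leaf 1 434 438) (leaf 2 433 468))))) (merge (node 464 (merge (leaf 2 432 467) (node 434 (merge (leaf 1 432 433) (leaf 2 431 463))))) (node 467 (merge (leaf 2 432 464) (node 437 (merge (leaf 1 434 438) (leaf 2 433 468))))))))) (merge (node 464 (merge (node 467 (merge (leaf 2 432 436) (node 498 (merge (leaf 6 434 530) (node 499 (merge (leaf 0 463 463) (leaf 0 464 500))))))) (merge (node 467 (merge (leaf 2 432 436) (node 500 (merge (leaf 0 464 499) (node 468 (merge (leaf 0 465 501) (node 432 (merge (leaf 3 431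 431) (leaf 3 432 433))))))))) (merge (node 463 (merge (node 498 (merge (leaf 0 463 499) (node 530 (merge (leaf 7 433 433) (leaf 5 465 593))))) (node 494 (merge (leaf 1 462 495) (node 462 (merge (leaf 1 461 493) (node 430 (merge (leaf 3 429 429) (leaf 3 430 431))))))))) (node 467 (merge (leaf 2 432 436) (node 498 (merge (leaf 6 434 530) (node 432 (merge (leaf 3 431 431) (node 468 (merge (leaf 3 432 433) (node 501 (merge (leaf 0 465 500) (node 469 (merge (leaf 1 465 497) (leaf 0 466 502))))))))))))))))) (merge (node 464 (merge (node 463 (merge (leaf 2 431 434) (node 494 (merge (leaf 1 462 495) (node 462 (merge (leaf 1 461 493) (node 430 (merge (leaf 3 429 429) (leaf 3 430 431))))))))) (merge (node 467 (merge (leaf 2 432 436) (node 499 (merge (leaf 0 464 500) (node 463 (merge (leaf 0 463 498) (node 431 (merge (leaf 3 430 430) (leaf 3 431 432))))))))) (node 467 (merge (leaf 2 432 436) (node 498 (merge (leaf 6 434 530) (node 500 (merge (leaf 0 464 499) (node 468 (merge (leaf 0 465 501) (node 469 (merge (leaf 1 465 497) (node 438 (merge (leaf 2 434 437) (node 470 (merge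 (leaf 3 434 434) (leaf 2 435 439)))))))))))))))))) (merge (node 467 (merge (node 500 (merge (node 498 (merge (leaf 6 434 530) (node 501 (merge (leaf 0 465 468) (leaf 3 465 499))))) (merge (node 468 (merge (leaf 0 465 501) (node 532 (merge (leaf 7 435 564) (node 436 (merge (leaf 7 403 403) (leaf 2 433 437))))))) (merge (node 498 (merge (leaf 6 434 530) (node 403 (merge (leaf 5 370 371) (node 532 (merge (leaf 4 403 499) (node 468 (merge (leaf 7 403 436) (leaf 7 435 564))))))))) (node 498 (merge (leaf 6 434 530) (node 499 (merge (leaf 3 465 501) (node 403 (merge (leaf 5 370 371) (leaf 4 403 532))))))))))) (merge (node 468 (merge (node 500 (merge (leaf 0 465 501) (node 532 (merge (leaf 7 435 564) (node 436 (merge (leaf 7 403 403) (leaf 2 433 437))))))) (merge (node 501 (merge (leaf 0 465 500) (node 469 (merge (leaf 0 466 502) (node 433 (merge (leaf 3 432 432) (leaf 3 433 434))))))) (node 437 (merge (leaf 2 433 436) (node 469 (merge (leaf 2 434 438) (node 433 (merge (leaf 3 432 432) (leaf 3 433 434)))))))))) (merge (node 468 (merge (node 500 (merge (leaf 0 465 501) (node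 532 (merge (leaf 7 435 564) (node 403 (merge (leaf 4 371 371) (leaf 4 403 499))))))) (node 498 (merge (leaf 6 434 530) (node 469 (merge (leaf 1 465 497) (node 433 (merge (leaf 3 432 432) (leaf 3 433 434))))))))) (merge (node 436 (merge (node 437 (merge (leaf 1 433 434) (leaf 1 434 438))) (merge (node 437 (merge (leaf 1 434 438) (leaf 2 433 468))) (node 468 (merge (node 498 (merge (leaf 6 434 530) (node 469 (merge (leaf 1 465 497) (node 433 (merge (leaf 3 432 432) (leaf 3 433 434))))))) (merge (node 501 (merge (leaf 0 465 500) (node 469 (merge (leaf 0 466 502) (node 433 (merge (leaf 3 432 432) (leaf 3 433 434))))))) (merge (node 498 (merge (leaf 6 434 530) (node 501 (merge (leaf 0 465 500) (node 469 (merge (leaf 1 465 497) (leaf 0 466 502))))))) (merge (node 498 (merge (leaf 6 434 530) (node 469 (merge (leaf 1 465 497) (node 470 (merge (leaf 3 434 434) (leaf 1 466 499))))))) (node 498 (merge (leaf 6 434 530) (node 500 (merge (leaf 0 465 501) (node 532 (merge (leaf 7 435 564) (node 433 (merge (leaf 3 432 432) (node 401 (merge (leaf 4 369 369) (node 400 (merge (leaf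 3 400 434) (node 497 (merge (leaf 7 368 368) (node 533 (merge (leaf 0 497 499) (leaf 4 436 565))))))))))))))))))))))))) (merge (node 403 (merge (node 498 (merge (leaf 5 370 371) (leaf 6 434 530))) (merge (node 371 (merge (node 340 (merge (leaf 6 339 372) (node 339 (merge (leaf 6 307 308) (leaf 5 338 434))))) (merge (node 338 (merge (leaf 7 338 370) (node 339 (merge (leaf 7 306 306) (leaf 5 338 434))))) (node 372 (merge (leaf 6 339 340) (node 499 (merge (leaf 6 371 404) (node 370 (merge (leaf 7 338 338) (leaf 7 370 402)))))))))) (node 468 (merge (node 498 (merge (leaf 6 434 530) (node 469 (merge (leaf 1 465 497) (node 433 (merge (leaf 3 432 432) (leaf 3 433 434))))))) (merge (node 437 (merge (leaf 2 433 436) (node 469 (merge (leaf 2 434 438) (node 434 (merge (leaf 3 433 433) (leaf 3 434 470))))))) (merge (node 437 (merge (leaf 2 433 436) (node 469 (merge (leaf 2 434 438) (node 498 (merge (leaf 1 465 497) (node 470 (merge (leaf 3 434 434) (leaf 1 466 499))))))))) (merge (node 498 (merge (leaf 6 434 530) (node 469 (merge (leaf 1 465 497) (node 470 (merge (leaf 1 466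 499) (node 438 (merge (leaf 2 434 437) (leaf 2 435 439))))))))) (node 498 (merge (leaf 6 434 530) (node 436 (merge (leaf 2 433 437) (node 433 (merge (leaf 3 432 432) (node 401 (merge (leaf 4 369 369) (node 400 (merge (leaf 0 400 402) (leaf 3 400 434))))))))))))))))))) (node 403 (merge (node 498 (merge (leaf 5 370 371) (leaf 6 434 530))) (merge (node 371 (merge (node 340 (merge (leaf 6 339 372) (node 339 (merge (leaf 6 307 308) (leaf 5 338 434))))) (merge (node 338 (merge (leaf 7 338 370) (node 339 (merge (leaf 7 306 306) (leaf 5 338 434))))) (node 372 (merge (leaf 6 339 340) (node 499 (merge (leaf 6 371 404) (node 370 (merge (leaf 7 338 338) (leaf 7 370 402)))))))))) (node 402 (merge (node 370 (merge (leaf 7 370 499) (node 434 (merge (leaf 4 338 338) (leaf 5 369 497))))) (merge (node 498 (merge (leaf 6 434 530) (node 499 (merge (leaf 7 370 370) (node 500 (merge (leaf 3 465 501) (leaf 4 403 532))))))) (node 401 (merge (node 498 (merge (leaf 6 434 530) (node 369 (merge (leaf 4 369 433) (leaf 7 369 434))))) (node 436 (merge (leaf 0 400 400) (node 437 (merge (leaf 0 401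 404) (leaf 1 434 438))))))))))))))))))) (merge (node 467 (merge (node 468 (merge (node 500 (merge (leaf 0 465 501) (node 532 (merge (leaf 7 435 564) (node 403 (merge (leaf 4 371 371) (leaf 4 403 499))))))) (node 498 (merge (leaf 6 434 530) (node 469 (merge (leaf 1 465 497) (node 433 (merge (leaf 3 432 432) (leaf 3 433 434))))))))) (merge (node 464 (merge (node 500 (merge (leaf 0 464 499) (node 468 (merge (leaf 0 465 501) (node 432 (merge (leaf 3 431 431) (leaf 3 432 433))))))) (merge (node 463 (merge (leaf 2 431 434) (node 494 (merge (leaf 1 462 495) (node 462 (merge (leaf 1 461 493) (node 430 (merge (leaf 3 429 429) (leaf 3 430 431))))))))) (node 500 (merge (leaf 0 464 499) (node 468 (merge (leaf 0 465 501) (node 434 (merge (leaf 2 431 463) (node 433 (merge (leaf 0 432 432) (leaf 3 433 469)))))))))))) (merge (node 432 (merge (node 431 (merge (leaf 3 431 464) (node 433 (merge (leaf 0 430 430) (leaf 3 432 468))))) (merge (node 498 (merge (leaf 6 434 530) (node 464 (merge (leaf 3 431 431) (node 463 (merge (leaf 2 431 434) (leaf 0 463 499))))))) (node 498 (merge (leaf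 6 434 530) (node 433 (merge (leaf 3 432 468) (node 401 (merge (leaf 4 369 369) (node 403 (merge (leaf 5 370 371) (node 404 (merge (leaf 1 400 402) (leaf 2 400 434)))))))))))))) (merge (node 500 (merge (node 499 (merge (leaf 0 464 464) (node 501 (merge (leaf 0 465 468) (leaf 3 466 502))))) (merge (node 498 (merge (leaf 6 434 530) (node 468 (merge (leaf 0 465 501) (node 469 (merge (leaf 1 465 497) (node 434 (merge (leaf 3 433 433) (leaf 3 434 470))))))))) (node 498 (merge (leaf 6 434 530) (node 464 (merge (leaf 0 464 499) (node 463 (merge (leaf 2 431 434) (node 462 (merge (leaf 0 462 497) (node 494 (merge (leaf 1 461 493) (leaf 1 462 495)))))))))))))) (merge (node 468 (merge (node 498 (merge (leaf 6 434 530) (node 469 (merge (leaf 1 465 497) (node 433 (merge (leaf 3 432 432) (leaf 3 433 434))))))) (merge (node 501 (merge (leaf 0 465 500) (node 469 (merge (leaf 0 466 502) (node 433 (merge (leaf 3 432 432) (leaf 3 433 434))))))) (merge (node 498 (merge (leaf 6 434 530) (node 501 (merge (leaf 0 465 500) (node 469 (merge (leaf 1 465 497) (leaf 0 466 502))))))) (merge (node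 498 (merge (leaf 6 434 530) (node 469 (merge (leaf 1 465 497) (node 438 (merge (leaf 2 434 437) (node 470 (merge (leaf 3 434 434) (leaf 2 435 439))))))))) (node 498 (merge (leaf 6 434 530) (node 432 (merge (leaf 3 432 433) (node 464 (merge (leaf 3 431 431) (node 463 (merge (leaf 2 431 434) (node 462 (merge (leaf 0 462 497) (node 494 (merge (leaf 1 461 493) (leaf 1 462 495)))))))))))))))))) (merge (node 468 (merge (node 500 (merge (leaf 0 465 501) (node 464 (merge (leaf 0 464 499) (node 432 (merge (leaf 3 431 431) (leaf 3 432 433))))))) (merge (node 498 (merge (leaf 6 434 530) (node 501 (merge (leaf 0 465 500) (node 469 (merge (leaf 1 465 497) (leaf 0 466 502))))))) (merge (node 498 (merge (leaf 6 434 530) (node 469 (merge (leaf 1 465 497) (node 470 (merge (leaf 1 466 499) (node 438 (merge (leaf 2 434 437) (leaf 2 435 439))))))))) (node 501 (merge (leaf 0 465 500) (node 469 (merge (leaf 0 466 502) (node 498 (merge (leaf 1 465 497) (node 470 (merge (leaf 1 466 499) (node 438 (merge (leaf 2 434 437) (leaf 2 435 439))))))))))))))) (merge (node 500 (merge (node 499 (merge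 (leaf 0 464 464) (node 501 (merge (leaf 3 465 498) (leaf 3 466 502))))) (merge (node 464 (merge (leaf 0 464 499) (node 463 (merge (leaf 2 431 434) (node 431 (merge (leaf 3 430 430) (leaf 3 431 432))))))) (node 498 (merge (leaf 6 434 530) (node 468 (merge (leaf 0 465 501) (node 469 (merge (leaf 1 465 497) (node 438 (merge (leaf 2 434 437) (node 470 (merge (leaf 3 434 434) (leaf 2 435 439)))))))))))))) (node 403 (merge (node 498 (merge (leaf 5 370 371) (leaf 6 434 530))) (merge (node 371 (merge (node 340 (merge (leaf 6 339 372) (node 339 (merge (leaf 6 307 308) (leaf 5 338 434))))) (merge (node 338 (merge (leaf 7 338 370) (node 339 (merge (leaf 7 306 306) (leaf 5 338 434))))) (node 372 (merge (leaf 6 339 340) (node 499 (merge (leaf 6 371 404) (node 370 (merge (leaf 7 338 338) (leaf 7 370 402)))))))))) (node 402 (merge (node 370 (merge (leaf 7 370 499) (node 434 (merge (leaf 4 338 338) (leaf 5 369 497))))) (merge (node 498 (merge (leaf 6 434 530) (node 499 (merge (leaf 7 370 370) (node 500 (merge (leaf 3 465 501) (leaf 4 403 532))))))) (merge (node 434 (merge (node 464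 (merge (leaf 2 431 463) (node 432 (merge (leaf 3 431 431) (node 433 (merge (leaf 2 400 404) (node 400 (merge (leaf 3 399 399) (node 368 (merge (leaf 4 336 336) (leaf 4 368 497))))))))))) (node 498 (merge (leaf 6 402 530) (node 369 (merge (leaf 7 369 401) (node 370 (merge (leaf 7 337 337) (leaf 4 338 338))))))))) (node 434 (merge (node 464 (merge (leaf 2 431 463) (node 499 (merge (leaf 0 464 500) (node 404 (merge (leaf 6 371 372) (node 432 (merge (leaf 3 431 431) (leaf 2 400 433))))))))) (merge (node 498 (merge (leaf 6 402 530) (node 401 (merge (leaf 7 369 369) (node 400 (merge (leaf 0 399 399) (node 432 (merge (leaf 1 399 431) (node 433 (merge (leaf 1 400 404) (node 368 (merge (leaf 4 336 336) (leaf 3 367 367))))))))))))) (merge (node 498 (merge (leaf 6 402 530) (node 401 (merge (leaf 7 369 369) (node 400 (merge (leaf 0 399 399) (node 432 (merge (leaf 1 399 431) (node 464 (merge (leaf 2 431 463) (node 368 (merge (leaf 3 367 367) (leaf 4 368 497))))))))))))) (node 464 (merge (leaf 2 431 463) (node 499 (merge (leaf 0 464 500) (node 404 (merge (leaf 6 371 372) (node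 405 (merge (leaf 1 402 406) (leaf 1 401 433)))))))))))))))))))))))))))) (node 434 (merge (node 436 (merge (leaf 1 433 437) (node 464 (merge (leaf 1 432 433) (leaf 2 431 463))))) (merge (node 433 (merge (node 432 (merge (node 431 (merge (leaf 0 430 430) (node 463 (merge (leaf 1 430 462) (leaf 1 431 464))))) (merge (node 431 (merge (leaf 0 430 430) (node 399 (merge (leaf 3 398 398) (leaf 3 399 400))))) (node 464 (merge (leaf 1 431 463) (node 400 (merge (leaf 3 399 399) (node 368 (merge (leaf 4 336 336) (leaf 4 368 497)))))))))) (merge (node 432 (merge (node 431 (merge (leaf 0 430 430) (node 463 (merge (leaf 1 430 462) (leaf 1 431 464))))) (node 498 (merge (leaf 7 433 530) (node 403 (merge (leaf 2 400 404) (node 371 (merge (leaf 5 338 339) (leaf 6 370 402))))))))) (node 402 (merge (node 370 (merge (leaf 5 369 497) (node 337 (merge (leaf 7 337 369) (node 338 (merge (leaf 7 305 305) (leaf 5 337 433))))))) (merge (node 370 (merge (leaf 5 369 497) (node 339 (merge (leaf 6 338 371) (node 338 (merge (leaf 6 306 307) (leaf 5 337 433))))))) (merge (node 498 (merge (leaf 7 433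 530) (node 371 (merge (leaf 6 370 403) (node 370 (merge (leaf 6 338 339) (node 369 (merge (leaf 7 337 337) (leaf 7 369 401))))))))) (node 498 (merge (leaf 7 433 530) (node 403 (merge (leaf 6 370 371) (node 401 (merge (leaf 7 369 369) (node 400 (merge (leaf 0 399 399) (node 368 (merge (leaf 3 367 367) (leaf 7 368 497)))))))))))))))))) (node 402 (merge (node 370 (merge (leaf 5 369 497) (node 339 (merge (leaf 6 338 371) (node 338 (merge (leaf 6 306 307) (node 337 (merge (leaf 7 305 305) (leaf 7 337 369))))))))) (merge (node 370 (merge (leaf 5 369 497) (node 339 (merge (leaf 6 338 371) (node 338 (merge (leaf 6 306 307) (node 305 (merge (leaf 7 305 337) (node 306 (merge (leaf 7 273 273) (leaf 4 306 403))))))))))) (merge (node 401 (merge (node 369 (merge (leaf 7 369 498) (node 337 (merge (leaf 4 305 305) (leaf 7 337 370))))) (node 400 (merge (leaf 0 399 399) (node 436 (merge (leaf 0 400 403) (leaf 1 433 437))))))) (node 403 (merge (node 371 (merge (leaf 5 338 339) (leaf 6 370 498))) (merge (node 498 (merge (leaf 6 402 530) (node 401 (merge (leaf 7 369 369) (node 436 (merge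 (leaf 0 400 400) (leaf 1 433 437))))))) (node 404 (merge (node 405 (merge (leaf 1 402 406) (node 437 (merge (leaf 1 433 436) (leaf 0 402 438))))) (merge (node 405 (merge (leaf 1 402 406) (node 373 (merge (leaf 2 370 374) (node 401 (merge (leaf 2 369 372) (node 400 (merge (leaf 0 399 399) (node 368 (merge (leaf 3 367 367) (leaf 3 368 369))))))))))) (node 436 (merge (leaf 1 433 437) (node 401 (merge (leaf 0 400 400) (node 372 (merge (leaf 2 369 373) (node 340 (merge (leaf 5 307 308) (node 339 (merge (leaf 7 307 307) (leaf 5 338 371)))))))))))))))))))))))))))))) nP_40 cP_40 13 (by decide +kernel)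

end Crest.Agent.H26Snaky
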